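import Vale.Agent.Lib.P154.PChain.BA.R4_1

set_option linter.all false

namespace Vale.Agent.Lib.P154.PChain.BA.S5

open Vale.Agent.Lib.P154.Chain

noncomputable def pc0 : PT := (PT.nd (nat_lit 4425408) (PT.nd (nat_lit 4053894) (PT.nd (nat_lit 3894618) (PT.nd (nat_lit 3788538) (PT.nd (nat_lit 3788460) (PT.nd (nat_lit 3735420) PT.nil (PT.lf (nat_lit 8056) (nat_lit 3) (nat_lit 106) (nat_lit 1) (nat_lit 220) (nat_lit 70) (nat_lit 220))) (PT.lf (nat_lit 8132) (nat_lit 6) (nat_lit 107) (nat_lit 3) (nat_lit 219) (nat_lit 71) (nat_lit 220))) (PT.nd (nat_lit 53040) (PT.lf (nat_lit 8132) (nat_lit 6) (nat_lit 107) (nat_lit 1) (nat_lit 220) (nat_lit 71) (nat_lit 219)) (PT.lf (nat_lit 8284) (nat_lit 3) (nat_lit 109) (nat_lit 1) (nat_lit 219) (nat_lit 72) (nat_lit 219)))) (PT.nd (nat_lit 53118) (PT.nd (nat_lit 78) (PT.lf (nat_lit 8360) (nat_lit 6) (nat_lit 110) (nat_lit 3) (nat_lit 218) (nat_lit 73) (nat_lit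 219)) (PT.lf (nat_lit 8360) (nat_lit 6) (nat_lit 110) (nat_lit 1) (nat_lit 219) (nat_lit 73) (nat_lit 218))) (PT.nd (nat_lit 53040) (PT.lf (nat_lit 8512) (nat_lit 3) (nat_lit 112) (nat_lit 1) (nat_lit 218) (nat_lit 74) (nat_lit 218)) (PT.nd (nat_lit 78) (PT.lf (nat_lit 8588) (nat_lit 6) (nat_lit 113) (nat_lit 3) (nat_lit 217) (nat_lit 75) (nat_lit 218)) (PT.lf (nat_lit 8588) (nat_lit 6) (nat_lit 113) (nat_lit 1) (nat_lit 218) (nat_lit 75) (nat_lit 217)))))) (PT.nd (nat_lit 159276) (PT.nd (nat_lit 53118) (PT.nd (nat_lit 53040) (PT.lf (nat_lit 8740) (nat_lit 3) (nat_lit 115) (nat_lit 1) (nat_lit 217) (nat_lit 76) (nat_lit 217)) (PT.lf (nat_lit 8816) (nat_lit 6) (nat_lit 116) (nat_lit 3) (nat_lit 216) (nat_lit 77) (nat_lit 217))) (PT.nd (nat_lit 53040) (PT.lf (nat_lit 8816) (nat_lit 6) (nat_lit 116) (nat_lit 1) (nat_lit 217) (nat_lit 77) (nat_lit 216)) (PT.nd (nat_lit 53040) (PT.lf (nat_lit 8968)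 (nat_lit 3) (nat_lit 118) (nat_lit 1) (nat_lit 216) (nat_lit 78) (nat_lit 216)) (PT.lf (nat_lit 9044) (nat_lit 6) (nat_lit 119) (nat_lit 3) (nat_lit 215) (nat_lit 79) (nat_lit 216))))) (PT.nd (nat_lit 106080) (PT.nd (nat_lit 53040) (PT.lf (nat_lit 9044) (nat_lit 6) (nat_lit 119) (nat_lit 1) (nat_lit 216) (nat_lit 79) (nat_lit 215)) (PT.lf (nat_lit 9196) (nat_lit 3) (nat_lit 121) (nat_lit 1) (nat_lit 215) (nat_lit 80) (nat_lit 215))) (PT.nd (nat_lit 78) (PT.lf (nat_lit 9272) (nat_lit 6) (nat_lit 122) (nat_lit 3) (nat_lit 214) (nat_lit 81) (nat_lit 215)) (PT.nd (nat_lit 53040) (PT.lf (nat_lit 9272) (nat_lit 6) (nat_lit 122) (nat_lit 1) (nat_lit 215) (nat_lit 81) (nat_lit 214)) (PT.lf (nat_lit 9424) (nat_lit 3) (nat_lit 124) (nat_lit 1) (nat_lit 214) (nat_lit 82) (nat_lit 214))))))) (PT.nd (nat_lit 265356) (PT.nd (nat_lit 159198) (PT.nd (nat_lit 53118) (PT.nd (nat_lit 78) (PT.lf (nat_lit 9500) (nat_lit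 6) (nat_lit 125) (nat_lit 3) (nat_lit 213) (nat_lit 83) (nat_lit 214)) (PT.lf (nat_lit 9500) (nat_lit 6) (nat_lit 125) (nat_lit 1) (nat_lit 214) (nat_lit 83) (nat_lit 213))) (PT.nd (nat_lit 53040) (PT.lf (nat_lit 9652) (nat_lit 3) (nat_lit 127) (nat_lit 1) (nat_lit 213) (nat_lit 84) (nat_lit 213)) (PT.nd (nat_lit 78) (PT.lf (nat_lit 9728) (nat_lit 6) (nat_lit 128) (nat_lit 3) (nat_lit 212) (nat_lit 85) (nat_lit 213)) (PT.lf (nat_lit 9728) (nat_lit 6) (nat_lit 128) (nat_lit 1) (nat_lit 213) (nat_lit 85) (nat_lit 212))))) (PT.nd (nat_lit 156) (PT.nd (nat_lit 78) (PT.lf (nat_lit 9804) (nat_lit 6) (nat_lit 129) (nat_lit 3) (nat_lit 211) (nat_lit 86) (nat_lit 213)) (PT.lf (nat_lit 9880) (nat_lit 3) (nat_lit 130) (nat_lit 1) (nat_lit 212) (nat_lit 86) (nat_lit 212))) (PT.nd (nat_lit 52962) (PT.lf (nat_lit 9804) (nat_lit 6) (nat_lit 129) (nat_lit 1) (nat_lit 213) (nat_lit 86) (nat_lit 211)) (PT.nd (nat_lit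 78) (PT.lf (nat_lit 9956) (nat_lit 6) (nat_lit 131) (nat_lit 3) (nat_lit 211) (nat_lit 87) (nat_lit 212)) (PT.lf (nat_lit 9956) (nat_lit 6) (nat_lit 131) (nat_lit 1) (nat_lit 212) (nat_lit 87) (nat_lit 211)))))) (PT.nd (nat_lit 106158) (PT.nd (nat_lit 156) (PT.nd (nat_lit 78) (PT.lf (nat_lit 10032) (nat_lit 6) (nat_lit 132) (nat_lit 3) (nat_lit 210) (nat_lit 88) (nat_lit 212)) (PT.lf (nat_lit 10108) (nat_lit 3) (nat_lit 133) (nat_lit 1) (nat_lit 211) (nat_lit 88) (nat_lit 211))) (PT.nd (nat_lit 52962) (PT.lf (nat_lit 10032) (nat_lit 6) (nat_lit 132) (nat_lit 1) (nat_lit 212) (nat_lit 88) (nat_lit 210)) (PT.nd (nat_lit 78) (PT.lf (nat_lit 10184) (nat_lit 6) (nat_lit 134) (nat_lit 3) (nat_lit 210) (nat_lit 89) (nat_lit 211)) (PT.lf (nat_lit 10184) (nat_lit 6) (nat_lit 134) (nat_lit 1) (nat_lit 211) (nat_lit 89) (nat_lit 210))))) (PT.nd (nat_lit 156) (PT.nd (nat_lit 78) (PT.lf (nat_lit 10260) (nat_lit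 6) (nat_lit 135) (nat_lit 3) (nat_lit 209) (nat_lit 90) (nat_lit 211)) (PT.lf (nat_lit 10336) (nat_lit 3) (nat_lit 136) (nat_lit 1) (nat_lit 210) (nat_lit 90) (nat_lit 210))) (PT.nd (nat_lit 52962) (PT.lf (nat_lit 10260) (nat_lit 6) (nat_lit 135) (nat_lit 1) (nat_lit 211) (nat_lit 90) (nat_lit 209)) (PT.nd (nat_lit 78) (PT.lf (nat_lit 10412) (nat_lit 6) (nat_lit 137) (nat_lit 3) (nat_lit 209) (nat_lit 91) (nat_lit 210)) (PT.lf (nat_lit 10412) (nat_lit 6) (nat_lit 137) (nat_lit 1) (nat_lit 210) (nat_lit 91) (nat_lit 209))))))))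
noncomputable def pc1 : PT := (PT.nd (nat_lit 424632) (PT.nd (nat_lit 212316) (PT.nd (nat_lit 106158) (PT.nd (nat_lit 156) (PT.nd (nat_lit 78) (PT.lf (nat_lit 10488) (nat_lit 6) (nat_lit 138) (nat_lit 3) (nat_lit 208) (nat_lit 92) (nat_lit 210)) (PT.lf (nat_lit 10564) (nat_lit 3) (nat_lit 139) (nat_lit 1) (nat_lit 209) (nat_lit 92) (nat_lit 209))) (PT.nd (nat_lit 52962) (PT.lf (nat_lit 10488) (nat_lit 6) (nat_lit 138) (nat_lit 1) (nat_lit 210) (nat_lit 92) (nat_lit 208)) (PT.nd (nat_lit 78) (PT.lf (nat_lit 10640) (nat_lit 6) (nat_lit 140) (nat_lit 3) (nat_lit 208) (nat_lit 93) (nat_lit 209)) (PT.lf (nat_lit 10640) (nat_lit 6) (nat_lit 140) (nat_lit 1) (nat_lit 209) (nat_lit 93) (nat_lit 208))))) (PT.nd (nat_lit 156) (PT.nd (nat_lit 78) (PT.lf (nat_lit 10716) (nat_lit 6) (nat_lit 141) (nat_lit 3) (nat_lit 207) (nat_lit 94) (nat_lit 209)) (PT.lf (nat_lit 10792) (nat_lit 3) (nat_lit 142) (nat_lit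 1) (nat_lit 208) (nat_lit 94) (nat_lit 208))) (PT.nd (nat_lit 52962) (PT.lf (nat_lit 10716) (nat_lit 6) (nat_lit 141) (nat_lit 1) (nat_lit 209) (nat_lit 94) (nat_lit 207)) (PT.nd (nat_lit 78) (PT.lf (nat_lit 10868) (nat_lit 6) (nat_lit 143) (nat_lit 3) (nat_lit 207) (nat_lit 95) (nat_lit 208)) (PT.lf (nat_lit 10868) (nat_lit 6) (nat_lit 143) (nat_lit 1) (nat_lit 208) (nat_lit 95) (nat_lit 207)))))) (PT.nd (nat_lit 106158) (PT.nd (nat_lit 156) (PT.nd (nat_lit 78) (PT.lf (nat_lit 10944) (nat_lit 6) (nat_lit 144) (nat_lit 3) (nat_lit 206) (nat_lit 96) (nat_lit 208)) (PT.lf (nat_lit 11020) (nat_lit 3) (nat_lit 145) (nat_lit 1) (nat_lit 207) (nat_lit 96) (nat_lit 207))) (PT.nd (nat_lit 52962) (PT.lf (nat_lit 10944) (nat_lit 6) (nat_lit 144) (nat_lit 1) (nat_lit 208) (nat_lit 96) (nat_lit 206)) (PT.nd (nat_lit 78) (PT.lf (nat_lit 11096) (nat_lit 6) (nat_lit 146) (nat_lit 3) (nat_lit 206) (nat_lit 97)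 (nat_lit 207)) (PT.lf (nat_lit 11096) (nat_lit 6) (nat_lit 146) (nat_lit 1) (nat_lit 207) (nat_lit 97) (nat_lit 206))))) (PT.nd (nat_lit 156) (PT.nd (nat_lit 78) (PT.lf (nat_lit 11172) (nat_lit 6) (nat_lit 147) (nat_lit 3) (nat_lit 205) (nat_lit 98) (nat_lit 207)) (PT.lf (nat_lit 11248) (nat_lit 3) (nat_lit 148) (nat_lit 1) (nat_lit 206) (nat_lit 98) (nat_lit 206))) (PT.nd (nat_lit 52962) (PT.lf (nat_lit 11172) (nat_lit 6) (nat_lit 147) (nat_lit 1) (nat_lit 207) (nat_lit 98) (nat_lit 205)) (PT.nd (nat_lit 78) (PT.lf (nat_lit 11324) (nat_lit 6) (nat_lit 149) (nat_lit 3) (nat_lit 205) (nat_lit 99) (nat_lit 206)) (PT.lf (nat_lit 11324) (nat_lit 6) (nat_lit 149) (nat_lit 1) (nat_lit 206) (nat_lit 99) (nat_lit 205))))))) (PT.nd (nat_lit 212316) (PT.nd (nat_lit 106158) (PT.nd (nat_lit 156) (PT.nd (nat_lit 78) (PT.lf (nat_lit 11400) (nat_lit 6) (nat_lit 150) (nat_lit 3) (nat_lit 204) (nat_lit 100) (nat_lit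 206)) (PT.lf (nat_lit 11476) (nat_lit 3) (nat_lit 151) (nat_lit 1) (nat_lit 205) (nat_lit 100) (nat_lit 205))) (PT.nd (nat_lit 52962) (PT.lf (nat_lit 11400) (nat_lit 6) (nat_lit 150) (nat_lit 1) (nat_lit 206) (nat_lit 100) (nat_lit 204)) (PT.nd (nat_lit 78) (PT.lf (nat_lit 11552) (nat_lit 6) (nat_lit 152) (nat_lit 3) (nat_lit 204) (nat_lit 101) (nat_lit 205)) (PT.lf (nat_lit 11552) (nat_lit 6) (nat_lit 152) (nat_lit 1) (nat_lit 205) (nat_lit 101) (nat_lit 204))))) (PT.nd (nat_lit 156) (PT.nd (nat_lit 78) (PT.lf (nat_lit 11628) (nat_lit 6) (nat_lit 153) (nat_lit 3) (nat_lit 203) (nat_lit 102) (nat_lit 205)) (PT.lf (nat_lit 11704) (nat_lit 3) (nat_lit 154) (nat_lit 1) (nat_lit 204) (nat_lit 102) (nat_lit 204))) (PT.nd (nat_lit 52962) (PT.lf (nat_lit 11628) (nat_lit 6) (nat_lit 153) (nat_lit 1) (nat_lit 205) (nat_lit 102) (nat_lit 203)) (PT.nd (nat_lit 78) (PT.lf (nat_lit 11780) (nat_lit 6) (nat_lit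 155) (nat_lit 3) (nat_lit 203) (nat_lit 103) (nat_lit 204)) (PT.lf (nat_lit 11780) (nat_lit 6) (nat_lit 155) (nat_lit 1) (nat_lit 204) (nat_lit 103) (nat_lit 203)))))) (PT.nd (nat_lit 106158) (PT.nd (nat_lit 156) (PT.nd (nat_lit 78) (PT.lf (nat_lit 11856) (nat_lit 6) (nat_lit 156) (nat_lit 3) (nat_lit 202) (nat_lit 104) (nat_lit 204)) (PT.lf (nat_lit 11932) (nat_lit 3) (nat_lit 157) (nat_lit 1) (nat_lit 203) (nat_lit 104) (nat_lit 203))) (PT.nd (nat_lit 52962) (PT.lf (nat_lit 11856) (nat_lit 6) (nat_lit 156) (nat_lit 1) (nat_lit 204) (nat_lit 104) (nat_lit 202)) (PT.nd (nat_lit 78) (PT.lf (nat_lit 12008) (nat_lit 6) (nat_lit 158) (nat_lit 3) (nat_lit 202) (nat_lit 105) (nat_lit 203)) (PT.lf (nat_lit 12008) (nat_lit 6) (nat_lit 158) (nat_lit 1) (nat_lit 203) (nat_lit 105) (nat_lit 202))))) (PT.nd (nat_lit 156) (PT.nd (nat_lit 78) (PT.lf (nat_lit 12084) (nat_lit 6) (nat_lit 159) (nat_lit 3) (nat_lit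 201) (nat_lit 106) (nat_lit 203)) (PT.lf (nat_lit 12160) (nat_lit 3) (nat_lit 160) (nat_lit 1) (nat_lit 202) (nat_lit 106) (nat_lit 202))) (PT.nd (nat_lit 52962) (PT.lf (nat_lit 12084) (nat_lit 6) (nat_lit 159) (nat_lit 1) (nat_lit 203) (nat_lit 106) (nat_lit 201)) (PT.nd (nat_lit 78) (PT.lf (nat_lit 12236) (nat_lit 6) (nat_lit 161) (nat_lit 3) (nat_lit 201) (nat_lit 107) (nat_lit 202)) (PT.lf (nat_lit 12236) (nat_lit 6) (nat_lit 161) (nat_lit 1) (nat_lit 202) (nat_lit 107) (nat_lit 201))))))))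
noncomputable def pc2 : PT := (PT.nd (nat_lit 371670) (PT.nd (nat_lit 159354) (PT.nd (nat_lit 53196) (PT.nd (nat_lit 156) (PT.nd (nat_lit 78) (PT.lf (nat_lit 12312) (nat_lit 6) (nat_lit 162) (nat_lit 3) (nat_lit 200) (nat_lit 108) (nat_lit 202)) (PT.lf (nat_lit 12388) (nat_lit 3) (nat_lit 163) (nat_lit 1) (nat_lit 201) (nat_lit 108) (nat_lit 201))) (PT.nd (nat_lit 52962) (PT.lf (nat_lit 12312) (nat_lit 6) (nat_lit 162) (nat_lit 1) (nat_lit 202) (nat_lit 108) (nat_lit 200)) (PT.lf (nat_lit 12464) (nat_lit 6) (nat_lit 164) (nat_lit 3) (nat_lit 200) (nat_lit 109) (nat_lit 201)))) (PT.nd (nat_lit 53040) (PT.nd (nat_lit 52962) (PT.lf (nat_lit 12464) (nat_lit 6) (nat_lit 164) (nat_lit 1) (nat_lit 201) (nat_lit 109) (nat_lit 200)) (PT.lf (nat_lit 12540) (nat_lit 6) (nat_lit 165) (nat_lit 3) (nat_lit 199) (nat_lit 110) (nat_lit 201))) (PT.nd (nat_lit 78) (PT.lf (nat_lit 12616) (nat_lit 3) (nat_lit 166)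 (nat_lit 1) (nat_lit 200) (nat_lit 110) (nat_lit 200)) (PT.nd (nat_lit 52962) (PT.lf (nat_lit 12540) (nat_lit 6) (nat_lit 165) (nat_lit 1) (nat_lit 201) (nat_lit 110) (nat_lit 199)) (PT.lf (nat_lit 12692) (nat_lit 6) (nat_lit 167) (nat_lit 3) (nat_lit 199) (nat_lit 111) (nat_lit 200)))))) (PT.nd (nat_lit 106158) (PT.nd (nat_lit 53040) (PT.nd (nat_lit 52962) (PT.lf (nat_lit 12692) (nat_lit 6) (nat_lit 167) (nat_lit 1) (nat_lit 200) (nat_lit 111) (nat_lit 199)) (PT.lf (nat_lit 12768) (nat_lit 6) (nat_lit 168) (nat_lit 3) (nat_lit 198) (nat_lit 112) (nat_lit 200))) (PT.nd (nat_lit 78) (PT.lf (nat_lit 12844) (nat_lit 3) (nat_lit 169) (nat_lit 1) (nat_lit 199) (nat_lit 112) (nat_lit 199)) (PT.nd (nat_lit 52962) (PT.lf (nat_lit 12768) (nat_lit 6) (nat_lit 168) (nat_lit 1) (nat_lit 200) (nat_lit 112) (nat_lit 198)) (PT.lf (nat_lit 12920) (nat_lit 6) (nat_lit 170) (nat_lit 3) (nat_lit 198) (nat_lit 113)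 (nat_lit 199))))) (PT.nd (nat_lit 53040) (PT.nd (nat_lit 52962) (PT.lf (nat_lit 12920) (nat_lit 6) (nat_lit 170) (nat_lit 1) (nat_lit 199) (nat_lit 113) (nat_lit 198)) (PT.lf (nat_lit 12996) (nat_lit 6) (nat_lit 171) (nat_lit 3) (nat_lit 197) (nat_lit 114) (nat_lit 199))) (PT.nd (nat_lit 78) (PT.lf (nat_lit 13072) (nat_lit 3) (nat_lit 172) (nat_lit 1) (nat_lit 198) (nat_lit 114) (nat_lit 198)) (PT.nd (nat_lit 52962) (PT.lf (nat_lit 12996) (nat_lit 6) (nat_lit 171) (nat_lit 1) (nat_lit 199) (nat_lit 114) (nat_lit 197)) (PT.lf (nat_lit 13148) (nat_lit 6) (nat_lit 173) (nat_lit 3) (nat_lit 197) (nat_lit 115) (nat_lit 198))))))) (PT.nd (nat_lit 212316) (PT.nd (nat_lit 106158) (PT.nd (nat_lit 53040) (PT.nd (nat_lit 52962) (PT.lf (nat_lit 13148) (nat_lit 6) (nat_lit 173) (nat_lit 1) (nat_lit 198) (nat_lit 115) (nat_lit 197)) (PT.lf (nat_lit 13224) (nat_lit 6) (nat_lit 174) (nat_lit 3) (nat_lit 196) (nat_lit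 116) (nat_lit 198))) (PT.nd (nat_lit 78) (PT.lf (nat_lit 13300) (nat_lit 3) (nat_lit 175) (nat_lit 1) (nat_lit 197) (nat_lit 116) (nat_lit 197)) (PT.nd (nat_lit 52962) (PT.lf (nat_lit 13224) (nat_lit 6) (nat_lit 174) (nat_lit 1) (nat_lit 198) (nat_lit 116) (nat_lit 196)) (PT.lf (nat_lit 13376) (nat_lit 6) (nat_lit 176) (nat_lit 3) (nat_lit 196) (nat_lit 117) (nat_lit 197))))) (PT.nd (nat_lit 53040) (PT.nd (nat_lit 52962) (PT.lf (nat_lit 13376) (nat_lit 6) (nat_lit 176) (nat_lit 1) (nat_lit 197) (nat_lit 117) (nat_lit 196)) (PT.lf (nat_lit 13452) (nat_lit 6) (nat_lit 177) (nat_lit 3) (nat_lit 195) (nat_lit 118) (nat_lit 197))) (PT.nd (nat_lit 78) (PT.lf (nat_lit 13528) (nat_lit 3) (nat_lit 178) (nat_lit 1) (nat_lit 196) (nat_lit 118) (nat_lit 196)) (PT.nd (nat_lit 52962) (PT.lf (nat_lit 13452) (nat_lit 6) (nat_lit 177) (nat_lit 1) (nat_lit 197) (nat_lit 118) (nat_lit 195)) (PT.lf (nat_lit 13604)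 (nat_lit 6) (nat_lit 179) (nat_lit 3) (nat_lit 195) (nat_lit 119) (nat_lit 196)))))) (PT.nd (nat_lit 106158) (PT.nd (nat_lit 53040) (PT.nd (nat_lit 52962) (PT.lf (nat_lit 13604) (nat_lit 6) (nat_lit 179) (nat_lit 1) (nat_lit 196) (nat_lit 119) (nat_lit 195)) (PT.lf (nat_lit 13680) (nat_lit 6) (nat_lit 180) (nat_lit 3) (nat_lit 194) (nat_lit 120) (nat_lit 196))) (PT.nd (nat_lit 78) (PT.lf (nat_lit 13756) (nat_lit 3) (nat_lit 181) (nat_lit 1) (nat_lit 195) (nat_lit 120) (nat_lit 195)) (PT.nd (nat_lit 52962) (PT.lf (nat_lit 13680) (nat_lit 6) (nat_lit 180) (nat_lit 1) (nat_lit 196) (nat_lit 120) (nat_lit 194)) (PT.lf (nat_lit 13832) (nat_lit 6) (nat_lit 182) (nat_lit 3) (nat_lit 194) (nat_lit 121) (nat_lit 195))))) (PT.nd (nat_lit 53040) (PT.nd (nat_lit 52962) (PT.lf (nat_lit 13832) (nat_lit 6) (nat_lit 182) (nat_lit 1) (nat_lit 195) (nat_lit 121) (nat_lit 194)) (PT.lf (nat_lit 13908) (nat_lit 6)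 (nat_lit 183) (nat_lit 3) (nat_lit 193) (nat_lit 122) (nat_lit 195))) (PT.nd (nat_lit 78) (PT.lf (nat_lit 13984) (nat_lit 3) (nat_lit 184) (nat_lit 1) (nat_lit 194) (nat_lit 122) (nat_lit 194)) (PT.nd (nat_lit 52962) (PT.lf (nat_lit 13908) (nat_lit 6) (nat_lit 183) (nat_lit 1) (nat_lit 195) (nat_lit 122) (nat_lit 193)) (PT.lf (nat_lit 14060) (nat_lit 6) (nat_lit 185) (nat_lit 3) (nat_lit 193) (nat_lit 123) (nat_lit 194))))))))
noncomputable def pc3 : PT := (PT.nd (nat_lit 371592) (PT.nd (nat_lit 212316) (PT.nd (nat_lit 106158) (PT.nd (nat_lit 53040) (PT.nd (nat_lit 52962) (PT.lf (nat_lit 14060) (nat_lit 6) (nat_lit 185) (nat_lit 1) (nat_lit 194) (nat_lit 123) (nat_lit 193)) (PT.lf (nat_lit 14136) (nat_lit 6) (nat_lit 186) (nat_lit 3) (nat_lit 192) (nat_lit 124) (nat_lit 194))) (PT.nd (nat_lit 78) (PT.lf (nat_lit 14212) (nat_lit 3) (nat_lit 187) (nat_lit 1) (nat_lit 193) (nat_lit 124) (nat_lit 193))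 (PT.nd (nat_lit 52962) (PT.lf (nat_lit 14136) (nat_lit 6) (nat_lit 186) (nat_lit 1) (nat_lit 194) (nat_lit 124) (nat_lit 192)) (PT.lf (nat_lit 14288) (nat_lit 6) (nat_lit 188) (nat_lit 3) (nat_lit 192) (nat_lit 125) (nat_lit 193))))) (PT.nd (nat_lit 53040) (PT.nd (nat_lit 52962) (PT.lf (nat_lit 14288) (nat_lit 6) (nat_lit 188) (nat_lit 1) (nat_lit 193) (nat_lit 125) (nat_lit 192)) (PT.lf (nat_lit 14364) (nat_lit 6) (nat_lit 189) (nat_lit 3) (nat_lit 191) (nat_lit 126) (nat_lit 193))) (PT.nd (nat_lit 78) (PT.lf (nat_lit 14440) (nat_lit 3) (nat_lit 190) (nat_lit 1) (nat_lit 192) (nat_lit 126) (nat_lit 192)) (PT.nd (nat_lit 52962) (PT.lf (nat_lit 14364) (nat_lit 6) (nat_lit 189) (nat_lit 1) (nat_lit 193) (nat_lit 126) (nat_lit 191)) (PT.lf (nat_lit 14516) (nat_lit 6) (nat_lit 191) (nat_lit 3) (nat_lit 191) (nat_lit 127) (nat_lit 192)))))) (PT.nd (nat_lit 106080) (PT.nd (nat_lit 53040) (PT.nd (nat_lit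 52962) (PT.lf (nat_lit 14516) (nat_lit 6) (nat_lit 191) (nat_lit 1) (nat_lit 192) (nat_lit 127) (nat_lit 191)) (PT.lf (nat_lit 14592) (nat_lit 6) (nat_lit 192) (nat_lit 3) (nat_lit 190) (nat_lit 128) (nat_lit 192))) (PT.nd (nat_lit 78) (PT.lf (nat_lit 14668) (nat_lit 3) (nat_lit 193) (nat_lit 1) (nat_lit 191) (nat_lit 128) (nat_lit 191)) (PT.nd (nat_lit 52884) (PT.lf (nat_lit 14592) (nat_lit 6) (nat_lit 192) (nat_lit 1) (nat_lit 192) (nat_lit 128) (nat_lit 190)) (PT.lf (nat_lit 14744) (nat_lit 6) (nat_lit 194) (nat_lit 3) (nat_lit 189) (nat_lit 129) (nat_lit 192))))) (PT.nd (nat_lit 156) (PT.nd (nat_lit 78) (PT.lf (nat_lit 14820) (nat_lit 6) (nat_lit 195) (nat_lit 3) (nat_lit 190) (nat_lit 129) (nat_lit 191)) (PT.lf (nat_lit 14820) (nat_lit 6) (nat_lit 195) (nat_lit 1) (nat_lit 191) (nat_lit 129) (nat_lit 190))) (PT.nd (nat_lit 52884) (PT.lf (nat_lit 14744) (nat_lit 6) (nat_lit 194) (nat_lit 1)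 (nat_lit 192) (nat_lit 129) (nat_lit 189)) (PT.nd (nat_lit 78) (PT.lf (nat_lit 14896) (nat_lit 6) (nat_lit 196) (nat_lit 3) (nat_lit 189) (nat_lit 130) (nat_lit 191)) (PT.lf (nat_lit 14972) (nat_lit 3) (nat_lit 197) (nat_lit 1) (nat_lit 190) (nat_lit 130) (nat_lit 190))))))) (PT.nd (nat_lit 159198) (PT.nd (nat_lit 106002) (PT.nd (nat_lit 52962) (PT.nd (nat_lit 52884) (PT.lf (nat_lit 14896) (nat_lit 6) (nat_lit 196) (nat_lit 1) (nat_lit 191) (nat_lit 130) (nat_lit 189)) (PT.lf (nat_lit 15048) (nat_lit 6) (nat_lit 198) (nat_lit 3) (nat_lit 188) (nat_lit 131) (nat_lit 191))) (PT.nd (nat_lit 78) (PT.lf (nat_lit 15124) (nat_lit 6) (nat_lit 199) (nat_lit 3) (nat_lit 189) (nat_lit 131) (nat_lit 190)) (PT.nd (nat_lit 78) (PT.lf (nat_lit 15124) (nat_lit 6) (nat_lit 199) (nat_lit 1) (nat_lit 190) (nat_lit 131) (nat_lit 189)) (PT.lf (nat_lit 15048) (nat_lit 6) (nat_lit 198) (nat_lit 1) (nat_lit 191) (nat_lit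 131) (nat_lit 188))))) (PT.nd (nat_lit 156) (PT.nd (nat_lit 78) (PT.lf (nat_lit 15200) (nat_lit 6) (nat_lit 200) (nat_lit 3) (nat_lit 188) (nat_lit 132) (nat_lit 190)) (PT.lf (nat_lit 15276) (nat_lit 3) (nat_lit 201) (nat_lit 1) (nat_lit 189) (nat_lit 132) (nat_lit 189))) (PT.nd (nat_lit 52884) (PT.lf (nat_lit 15200) (nat_lit 6) (nat_lit 200) (nat_lit 1) (nat_lit 190) (nat_lit 132) (nat_lit 188)) (PT.nd (nat_lit 78) (PT.lf (nat_lit 15352) (nat_lit 6) (nat_lit 202) (nat_lit 3) (nat_lit 187) (nat_lit 133) (nat_lit 190)) (PT.lf (nat_lit 15428) (nat_lit 6) (nat_lit 203) (nat_lit 3) (nat_lit 188) (nat_lit 133) (nat_lit 189)))))) (PT.nd (nat_lit 106002) (PT.nd (nat_lit 52962) (PT.nd (nat_lit 78) (PT.lf (nat_lit 15428) (nat_lit 6) (nat_lit 203) (nat_lit 1) (nat_lit 189) (nat_lit 133) (nat_lit 188)) (PT.lf (nat_lit 15352) (nat_lit 6) (nat_lit 202) (nat_lit 1) (nat_lit 190) (nat_lit 133) (nat_lit 187)))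 (PT.nd (nat_lit 78) (PT.lf (nat_lit 15504) (nat_lit 6) (nat_lit 204) (nat_lit 3) (nat_lit 187) (nat_lit 134) (nat_lit 189)) (PT.nd (nat_lit 78) (PT.lf (nat_lit 15580) (nat_lit 3) (nat_lit 205) (nat_lit 1) (nat_lit 188) (nat_lit 134) (nat_lit 188)) (PT.lf (nat_lit 15504) (nat_lit 6) (nat_lit 204) (nat_lit 1) (nat_lit 189) (nat_lit 134) (nat_lit 187))))) (PT.nd (nat_lit 156) (PT.nd (nat_lit 78) (PT.lf (nat_lit 15656) (nat_lit 6) (nat_lit 206) (nat_lit 3) (nat_lit 186) (nat_lit 135) (nat_lit 189)) (PT.lf (nat_lit 15732) (nat_lit 6) (nat_lit 207) (nat_lit 3) (nat_lit 187) (nat_lit 135) (nat_lit 188))) (PT.nd (nat_lit 78) (PT.lf (nat_lit 15732) (nat_lit 6) (nat_lit 207) (nat_lit 1) (nat_lit 188) (nat_lit 135) (nat_lit 187)) (PT.nd (nat_lit 52884) (PT.lf (nat_lit 15656) (nat_lit 6) (nat_lit 206) (nat_lit 1) (nat_lit 189) (nat_lit 135) (nat_lit 186)) (PT.lf (nat_lit 15808) (nat_lit 6) (nat_lit 208) (nat_lit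 3) (nat_lit 186) (nat_lit 136) (nat_lit 188))))))))
noncomputable def pc4 : PT := (PT.nd (nat_lit 265356) (PT.nd (nat_lit 159120) (PT.nd (nat_lit 53118) (PT.nd (nat_lit 52962) (PT.nd (nat_lit 78) (PT.lf (nat_lit 15884) (nat_lit 3) (nat_lit 209) (nat_lit 1) (nat_lit 187) (nat_lit 136) (nat_lit 187)) (PT.lf (nat_lit 15808) (nat_lit 6) (nat_lit 208) (nat_lit 1) (nat_lit 188) (nat_lit 136) (nat_lit 186))) (PT.nd (nat_lit 78) (PT.lf (nat_lit 15960) (nat_lit 6) (nat_lit 210) (nat_lit 3) (nat_lit 185) (nat_lit 137) (nat_lit 188)) (PT.lf (nat_lit 16036) (nat_lit 6) (nat_lit 211) (nat_lit 3) (nat_lit 186) (nat_lit 137) (nat_lit 187)))) (PT.nd (nat_lit 52962) (PT.nd (nat_lit 78) (PT.lf (nat_lit 16036) (nat_lit 6) (nat_lit 211) (nat_lit 1) (nat_lit 187) (nat_lit 137) (nat_lit 186)) (PT.lf (nat_lit 15960) (nat_lit 6) (nat_lit 210) (nat_lit 1) (nat_lit 188) (nat_lit 137) (nat_lit 185))) (PT.nd (nat_lit 78)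 (PT.lf (nat_lit 16112) (nat_lit 6) (nat_lit 212) (nat_lit 3) (nat_lit 185) (nat_lit 138) (nat_lit 187)) (PT.nd (nat_lit 78) (PT.lf (nat_lit 16188) (nat_lit 3) (nat_lit 213) (nat_lit 1) (nat_lit 186) (nat_lit 138) (nat_lit 186)) (PT.lf (nat_lit 16112) (nat_lit 6) (nat_lit 212) (nat_lit 1) (nat_lit 187) (nat_lit 138) (nat_lit 185)))))) (PT.nd (nat_lit 53118) (PT.nd (nat_lit 156) (PT.nd (nat_lit 78) (PT.lf (nat_lit 16264) (nat_lit 6) (nat_lit 214) (nat_lit 3) (nat_lit 184) (nat_lit 139) (nat_lit 187)) (PT.lf (nat_lit 16340) (nat_lit 6) (nat_lit 215) (nat_lit 3) (nat_lit 185) (nat_lit 139) (nat_lit 186))) (PT.nd (nat_lit 78) (PT.lf (nat_lit 16340) (nat_lit 6) (nat_lit 215) (nat_lit 1) (nat_lit 186) (nat_lit 139) (nat_lit 185)) (PT.nd (nat_lit 52806) (PT.lf (nat_lit 16264) (nat_lit 6) (nat_lit 214) (nat_lit 1) (nat_lit 187) (nat_lit 139) (nat_lit 184)) (PT.lf (nat_lit 16416) (nat_lit 6) (nat_lit 216)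 (nat_lit 3) (nat_lit 183) (nat_lit 140) (nat_lit 187))))) (PT.nd (nat_lit 156) (PT.nd (nat_lit 78) (PT.lf (nat_lit 16492) (nat_lit 6) (nat_lit 217) (nat_lit 3) (nat_lit 184) (nat_lit 140) (nat_lit 186)) (PT.lf (nat_lit 16568) (nat_lit 3) (nat_lit 218) (nat_lit 1) (nat_lit 185) (nat_lit 140) (nat_lit 185))) (PT.nd (nat_lit 78) (PT.lf (nat_lit 16492) (nat_lit 6) (nat_lit 217) (nat_lit 1) (nat_lit 186) (nat_lit 140) (nat_lit 184)) (PT.nd (nat_lit 52806) (PT.lf (nat_lit 16416) (nat_lit 6) (nat_lit 216) (nat_lit 1) (nat_lit 187) (nat_lit 140) (nat_lit 183)) (PT.lf (nat_lit 16644) (nat_lit 6) (nat_lit 219) (nat_lit 3) (nat_lit 183) (nat_lit 141) (nat_lit 186))))))) (PT.nd (nat_lit 106236) (PT.nd (nat_lit 53118) (PT.nd (nat_lit 156) (PT.nd (nat_lit 78) (PT.lf (nat_lit 16720) (nat_lit 6) (nat_lit 220) (nat_lit 3) (nat_lit 184) (nat_lit 141) (nat_lit 185)) (PT.lf (nat_lit 16720) (nat_lit 6) (nat_lit 220)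 (nat_lit 1) (nat_lit 185) (nat_lit 141) (nat_lit 184))) (PT.nd (nat_lit 52806) (PT.lf (nat_lit 16644) (nat_lit 6) (nat_lit 219) (nat_lit 1) (nat_lit 186) (nat_lit 141) (nat_lit 183)) (PT.nd (nat_lit 78) (PT.lf (nat_lit 16796) (nat_lit 6) (nat_lit 221) (nat_lit 3) (nat_lit 182) (nat_lit 142) (nat_lit 186)) (PT.lf (nat_lit 16872) (nat_lit 6) (nat_lit 222) (nat_lit 3) (nat_lit 183) (nat_lit 142) (nat_lit 185))))) (PT.nd (nat_lit 156) (PT.nd (nat_lit 78) (PT.lf (nat_lit 16948) (nat_lit 3) (nat_lit 223) (nat_lit 1) (nat_lit 184) (nat_lit 142) (nat_lit 184)) (PT.lf (nat_lit 16872) (nat_lit 6) (nat_lit 222) (nat_lit 1) (nat_lit 185) (nat_lit 142) (nat_lit 183))) (PT.nd (nat_lit 52806) (PT.lf (nat_lit 16796) (nat_lit 6) (nat_lit 221) (nat_lit 1) (nat_lit 186) (nat_lit 142) (nat_lit 182)) (PT.nd (nat_lit 78) (PT.lf (nat_lit 17024) (nat_lit 6) (nat_lit 224) (nat_lit 3) (nat_lit 182) (nat_lit 143) (nat_lit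 185)) (PT.lf (nat_lit 17100) (nat_lit 6) (nat_lit 225) (nat_lit 3) (nat_lit 183) (nat_lit 143) (nat_lit 184)))))) (PT.nd (nat_lit 53118) (PT.nd (nat_lit 52884) (PT.nd (nat_lit 78) (PT.lf (nat_lit 17100) (nat_lit 6) (nat_lit 225) (nat_lit 1) (nat_lit 184) (nat_lit 143) (nat_lit 183)) (PT.lf (nat_lit 17024) (nat_lit 6) (nat_lit 224) (nat_lit 1) (nat_lit 185) (nat_lit 143) (nat_lit 182))) (PT.nd (nat_lit 78) (PT.lf (nat_lit 17176) (nat_lit 6) (nat_lit 226) (nat_lit 3) (nat_lit 181) (nat_lit 144) (nat_lit 185)) (PT.nd (nat_lit 78) (PT.lf (nat_lit 17252) (nat_lit 6) (nat_lit 227) (nat_lit 3) (nat_lit 182) (nat_lit 144) (nat_lit 184)) (PT.lf (nat_lit 17328) (nat_lit 3) (nat_lit 228) (nat_lit 1) (nat_lit 183) (nat_lit 144) (nat_lit 183))))) (PT.nd (nat_lit 52806) (PT.nd (nat_lit 78) (PT.lf (nat_lit 17252) (nat_lit 6) (nat_lit 227) (nat_lit 1) (nat_lit 184) (nat_lit 144) (nat_lit 182)) (PT.lf (nat_lit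 17176) (nat_lit 6) (nat_lit 226) (nat_lit 1) (nat_lit 185) (nat_lit 144) (nat_lit 181))) (PT.nd (nat_lit 78) (PT.lf (nat_lit 17404) (nat_lit 6) (nat_lit 229) (nat_lit 3) (nat_lit 180) (nat_lit 145) (nat_lit 185)) (PT.nd (nat_lit 78) (PT.lf (nat_lit 17480) (nat_lit 6) (nat_lit 230) (nat_lit 3) (nat_lit 181) (nat_lit 145) (nat_lit 184)) (PT.lf (nat_lit 17556) (nat_lit 6) (nat_lit 231) (nat_lit 3) (nat_lit 182) (nat_lit 145) (nat_lit 183))))))))
noncomputable def pc5 : PT := (PT.nd (nat_lit 159432) (PT.nd (nat_lit 106080) (PT.nd (nat_lit 53040) (PT.nd (nat_lit 156) (PT.nd (nat_lit 78) (PT.lf (nat_lit 17556) (nat_lit 6) (nat_lit 231) (nat_lit 1) (nat_lit 183) (nat_lit 145) (nat_lit 182)) (PT.lf (nat_lit 17480) (nat_lit 6) (nat_lit 230) (nat_lit 1) (nat_lit 184) (nat_lit 145) (nat_lit 181))) (PT.nd (nat_lit 52728) (PT.lf (nat_lit 17404) (nat_lit 6) (nat_lit 229) (nat_lit 1) (nat_lit 185) (nat_lit 145)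 (nat_lit 180)) (PT.nd (nat_lit 78) (PT.lf (nat_lit 17632) (nat_lit 6) (nat_lit 232) (nat_lit 3) (nat_lit 180) (nat_lit 146) (nat_lit 184)) (PT.lf (nat_lit 17708) (nat_lit 6) (nat_lit 233) (nat_lit 3) (nat_lit 181) (nat_lit 146) (nat_lit 183))))) (PT.nd (nat_lit 156) (PT.nd (nat_lit 78) (PT.lf (nat_lit 17784) (nat_lit 3) (nat_lit 234) (nat_lit 1) (nat_lit 182) (nat_lit 146) (nat_lit 182)) (PT.lf (nat_lit 17708) (nat_lit 6) (nat_lit 233) (nat_lit 1) (nat_lit 183) (nat_lit 146) (nat_lit 181))) (PT.nd (nat_lit 52728) (PT.lf (nat_lit 17632) (nat_lit 6) (nat_lit 232) (nat_lit 1) (nat_lit 184) (nat_lit 146) (nat_lit 180)) (PT.nd (nat_lit 78) (PT.lf (nat_lit 17860) (nat_lit 6) (nat_lit 235) (nat_lit 3) (nat_lit 179) (nat_lit 147) (nat_lit 184)) (PT.lf (nat_lit 17936) (nat_lit 6) (nat_lit 236) (nat_lit 3) (nat_lit 180) (nat_lit 147) (nat_lit 183)))))) (PT.nd (nat_lit 52962) (PT.nd (nat_lit 156) (PT.nd (nat_lit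 78) (PT.lf (nat_lit 18012) (nat_lit 6) (nat_lit 237) (nat_lit 3) (nat_lit 181) (nat_lit 147) (nat_lit 182)) (PT.lf (nat_lit 18012) (nat_lit 6) (nat_lit 237) (nat_lit 1) (nat_lit 182) (nat_lit 147) (nat_lit 181))) (PT.nd (nat_lit 78) (PT.lf (nat_lit 17936) (nat_lit 6) (nat_lit 236) (nat_lit 1) (nat_lit 183) (nat_lit 147) (nat_lit 180)) (PT.nd (nat_lit 52650) (PT.lf (nat_lit 17860) (nat_lit 6) (nat_lit 235) (nat_lit 1) (nat_lit 184) (nat_lit 147) (nat_lit 179)) (PT.lf (nat_lit 18088) (nat_lit 6) (nat_lit 238) (nat_lit 3) (nat_lit 178) (nat_lit 148) (nat_lit 184))))) (PT.nd (nat_lit 156) (PT.nd (nat_lit 78) (PT.lf (nat_lit 18164) (nat_lit 6) (nat_lit 239) (nat_lit 3) (nat_lit 179) (nat_lit 148) (nat_lit 183)) (PT.lf (nat_lit 18240) (nat_lit 6) (nat_lit 240) (nat_lit 3) (nat_lit 180) (nat_lit 148) (nat_lit 182))) (PT.nd (nat_lit 78) (PT.lf (nat_lit 18316) (nat_lit 3) (nat_lit 241) (nat_lit 1) (nat_lit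 181) (nat_lit 148) (nat_lit 181)) (PT.nd (nat_lit 78) (PT.lf (nat_lit 18240) (nat_lit 6) (nat_lit 240) (nat_lit 1) (nat_lit 182) (nat_lit 148) (nat_lit 180)) (PT.lf (nat_lit 18164) (nat_lit 6) (nat_lit 239) (nat_lit 1) (nat_lit 183) (nat_lit 148) (nat_lit 179))))))) (PT.nd (nat_lit 105924) (PT.nd (nat_lit 52962) (PT.nd (nat_lit 52728) (PT.nd (nat_lit 52650) (PT.lf (nat_lit 18088) (nat_lit 6) (nat_lit 238) (nat_lit 1) (nat_lit 184) (nat_lit 148) (nat_lit 178)) (PT.lf (nat_lit 18392) (nat_lit 6) (nat_lit 242) (nat_lit 3) (nat_lit 178) (nat_lit 149) (nat_lit 183))) (PT.nd (nat_lit 78) (PT.lf (nat_lit 18468) (nat_lit 6) (nat_lit 243) (nat_lit 3) (nat_lit 179) (nat_lit 149) (nat_lit 182)) (PT.nd (nat_lit 78) (PT.lf (nat_lit 18544) (nat_lit 6) (nat_lit 244) (nat_lit 3) (nat_lit 180) (nat_lit 149) (nat_lit 181)) (PT.lf (nat_lit 18544) (nat_lit 6) (nat_lit 244) (nat_lit 1) (nat_lit 181) (nat_lit 149) (nat_lit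 180))))) (PT.nd (nat_lit 52728) (PT.nd (nat_lit 78) (PT.lf (nat_lit 18468) (nat_lit 6) (nat_lit 243) (nat_lit 1) (nat_lit 182) (nat_lit 149) (nat_lit 179)) (PT.lf (nat_lit 18392) (nat_lit 6) (nat_lit 242) (nat_lit 1) (nat_lit 183) (nat_lit 149) (nat_lit 178))) (PT.nd (nat_lit 78) (PT.lf (nat_lit 18620) (nat_lit 6) (nat_lit 245) (nat_lit 3) (nat_lit 177) (nat_lit 150) (nat_lit 183)) (PT.nd (nat_lit 78) (PT.lf (nat_lit 18696) (nat_lit 6) (nat_lit 246) (nat_lit 3) (nat_lit 178) (nat_lit 150) (nat_lit 182)) (PT.lf (nat_lit 18772) (nat_lit 6) (nat_lit 247) (nat_lit 3) (nat_lit 179) (nat_lit 150) (nat_lit 181)))))) (PT.nd (nat_lit 52884) (PT.nd (nat_lit 156) (PT.nd (nat_lit 78) (PT.lf (nat_lit 18848) (nat_lit 3) (nat_lit 248) (nat_lit 1) (nat_lit 180) (nat_lit 150) (nat_lit 180)) (PT.lf (nat_lit 18772) (nat_lit 6) (nat_lit 247) (nat_lit 1) (nat_lit 181) (nat_lit 150) (nat_lit 179))) (PT.nd (nat_lit 78)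 (PT.lf (nat_lit 18696) (nat_lit 6) (nat_lit 246) (nat_lit 1) (nat_lit 182) (nat_lit 150) (nat_lit 178)) (PT.nd (nat_lit 52572) (PT.lf (nat_lit 18620) (nat_lit 6) (nat_lit 245) (nat_lit 1) (nat_lit 183) (nat_lit 150) (nat_lit 177)) (PT.lf (nat_lit 18924) (nat_lit 6) (nat_lit 249) (nat_lit 3) (nat_lit 176) (nat_lit 151) (nat_lit 183))))) (PT.nd (nat_lit 156) (PT.nd (nat_lit 78) (PT.lf (nat_lit 19000) (nat_lit 6) (nat_lit 250) (nat_lit 3) (nat_lit 177) (nat_lit 151) (nat_lit 182)) (PT.lf (nat_lit 19076) (nat_lit 6) (nat_lit 251) (nat_lit 3) (nat_lit 178) (nat_lit 151) (nat_lit 181))) (PT.nd (nat_lit 78) (PT.lf (nat_lit 19152) (nat_lit 6) (nat_lit 252) (nat_lit 3) (nat_lit 179) (nat_lit 151) (nat_lit 180)) (PT.nd (nat_lit 78) (PT.lf (nat_lit 19152) (nat_lit 6) (nat_lit 252) (nat_lit 1) (nat_lit 180) (nat_lit 151) (nat_lit 179)) (PT.lf (nat_lit 19076) (nat_lit 6) (nat_lit 251) (nat_lit 1) (nat_lit 181)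 (nat_lit 151) (nat_lit 178))))))))
noncomputable def pc6 : PT := (PT.nd (nat_lit 158964) (PT.nd (nat_lit 105768) (PT.nd (nat_lit 52884) (PT.nd (nat_lit 52650) (PT.nd (nat_lit 78) (PT.lf (nat_lit 19000) (nat_lit 6) (nat_lit 250) (nat_lit 1) (nat_lit 182) (nat_lit 151) (nat_lit 177)) (PT.lf (nat_lit 18924) (nat_lit 6) (nat_lit 249) (nat_lit 1) (nat_lit 183) (nat_lit 151) (nat_lit 176))) (PT.nd (nat_lit 78) (PT.lf (nat_lit 19228) (nat_lit 6) (nat_lit 253) (nat_lit 3) (nat_lit 176) (nat_lit 152) (nat_lit 182)) (PT.nd (nat_lit 78) (PT.lf (nat_lit 19304) (nat_lit 6) (nat_lit 254) (nat_lit 3) (nat_lit 177) (nat_lit 152) (nat_lit 181)) (PT.lf (nat_lit 19380) (nat_lit 6) (nat_lit 255) (nat_lit 3) (nat_lit 178) (nat_lit 152) (nat_lit 180))))) (PT.nd (nat_lit 156) (PT.nd (nat_lit 78) (PT.lf (nat_lit 19456) (nat_lit 3) (nat_lit 256) (nat_lit 1) (nat_lit 179) (nat_lit 152) (nat_lit 179)) (PT.lf (nat_lit 19380)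 (nat_lit 6) (nat_lit 255) (nat_lit 1) (nat_lit 180) (nat_lit 152) (nat_lit 178))) (PT.nd (nat_lit 78) (PT.lf (nat_lit 19304) (nat_lit 6) (nat_lit 254) (nat_lit 1) (nat_lit 181) (nat_lit 152) (nat_lit 177)) (PT.nd (nat_lit 52572) (PT.lf (nat_lit 19228) (nat_lit 6) (nat_lit 253) (nat_lit 1) (nat_lit 182) (nat_lit 152) (nat_lit 176)) (PT.lf (nat_lit 19532) (nat_lit 6) (nat_lit 257) (nat_lit 3) (nat_lit 175) (nat_lit 153) (nat_lit 182)))))) (PT.nd (nat_lit 390) (PT.nd (nat_lit 156) (PT.nd (nat_lit 78) (PT.lf (nat_lit 19608) (nat_lit 6) (nat_lit 258) (nat_lit 3) (nat_lit 176) (nat_lit 153) (nat_lit 181)) (PT.lf (nat_lit 19684) (nat_lit 6) (nat_lit 259) (nat_lit 3) (nat_lit 177) (nat_lit 153) (nat_lit 180))) (PT.nd (nat_lit 78) (PT.lf (nat_lit 19760) (nat_lit 6) (nat_lit 260) (nat_lit 3) (nat_lit 178) (nat_lit 153) (nat_lit 179)) (PT.nd (nat_lit 78) (PT.lf (nat_lit 19760) (nat_lit 6) (nat_lit 260) (nat_lit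 1) (nat_lit 179) (nat_lit 153) (nat_lit 178)) (PT.lf (nat_lit 19684) (nat_lit 6) (nat_lit 259) (nat_lit 1) (nat_lit 180) (nat_lit 153) (nat_lit 177))))) (PT.nd (nat_lit 52572) (PT.nd (nat_lit 78) (PT.lf (nat_lit 19608) (nat_lit 6) (nat_lit 258) (nat_lit 1) (nat_lit 181) (nat_lit 153) (nat_lit 176)) (PT.lf (nat_lit 19532) (nat_lit 6) (nat_lit 257) (nat_lit 1) (nat_lit 182) (nat_lit 153) (nat_lit 175))) (PT.nd (nat_lit 78) (PT.lf (nat_lit 19836) (nat_lit 6) (nat_lit 261) (nat_lit 3) (nat_lit 174) (nat_lit 154) (nat_lit 182)) (PT.nd (nat_lit 78) (PT.lf (nat_lit 19912) (nat_lit 6) (nat_lit 262) (nat_lit 3) (nat_lit 175) (nat_lit 154) (nat_lit 181)) (PT.lf (nat_lit 19988) (nat_lit 6) (nat_lit 263) (nat_lit 3) (nat_lit 176) (nat_lit 154) (nat_lit 180))))))) (PT.nd (nat_lit 53196) (PT.nd (nat_lit 390) (PT.nd (nat_lit 156) (PT.nd (nat_lit 78) (PT.lf (nat_lit 20064) (nat_lit 6) (nat_lit 264) (nat_lit 3)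 (nat_lit 177) (nat_lit 154) (nat_lit 179)) (PT.lf (nat_lit 20140) (nat_lit 3) (nat_lit 265) (nat_lit 1) (nat_lit 178) (nat_lit 154) (nat_lit 178))) (PT.nd (nat_lit 78) (PT.lf (nat_lit 20064) (nat_lit 6) (nat_lit 264) (nat_lit 1) (nat_lit 179) (nat_lit 154) (nat_lit 177)) (PT.nd (nat_lit 78) (PT.lf (nat_lit 19988) (nat_lit 6) (nat_lit 263) (nat_lit 1) (nat_lit 180) (nat_lit 154) (nat_lit 176)) (PT.lf (nat_lit 19912) (nat_lit 6) (nat_lit 262) (nat_lit 1) (nat_lit 181) (nat_lit 154) (nat_lit 175))))) (PT.nd (nat_lit 52572) (PT.nd (nat_lit 52494) (PT.lf (nat_lit 19836) (nat_lit 6) (nat_lit 261) (nat_lit 1) (nat_lit 182) (nat_lit 154) (nat_lit 174)) (PT.lf (nat_lit 20216) (nat_lit 6) (nat_lit 266) (nat_lit 3) (nat_lit 174) (nat_lit 155) (nat_lit 181))) (PT.nd (nat_lit 78) (PT.lf (nat_lit 20292) (nat_lit 6) (nat_lit 267) (nat_lit 3) (nat_lit 175) (nat_lit 155) (nat_lit 180)) (PT.nd (nat_lit 78) (PT.lf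 (nat_lit 20368) (nat_lit 6) (nat_lit 268) (nat_lit 3) (nat_lit 176) (nat_lit 155) (nat_lit 179)) (PT.lf (nat_lit 20444) (nat_lit 6) (nat_lit 269) (nat_lit 3) (nat_lit 177) (nat_lit 155) (nat_lit 178)))))) (PT.nd (nat_lit 52806) (PT.nd (nat_lit 156) (PT.nd (nat_lit 78) (PT.lf (nat_lit 20444) (nat_lit 6) (nat_lit 269) (nat_lit 1) (nat_lit 178) (nat_lit 155) (nat_lit 177)) (PT.lf (nat_lit 20368) (nat_lit 6) (nat_lit 268) (nat_lit 1) (nat_lit 179) (nat_lit 155) (nat_lit 176))) (PT.nd (nat_lit 78) (PT.lf (nat_lit 20292) (nat_lit 6) (nat_lit 267) (nat_lit 1) (nat_lit 180) (nat_lit 155) (nat_lit 175)) (PT.nd (nat_lit 52494) (PT.lf (nat_lit 20216) (nat_lit 6) (nat_lit 266) (nat_lit 1) (nat_lit 181) (nat_lit 155) (nat_lit 174)) (PT.lf (nat_lit 20520) (nat_lit 6) (nat_lit 270) (nat_lit 3) (nat_lit 173) (nat_lit 156) (nat_lit 181))))) (PT.nd (nat_lit 156) (PT.nd (nat_lit 78) (PT.lf (nat_lit 20596) (nat_lit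 6) (nat_lit 271) (nat_lit 3) (nat_lit 174) (nat_lit 156) (nat_lit 180)) (PT.lf (nat_lit 20672) (nat_lit 6) (nat_lit 272) (nat_lit 3) (nat_lit 175) (nat_lit 156) (nat_lit 179))) (PT.nd (nat_lit 78) (PT.lf (nat_lit 20748) (nat_lit 6) (nat_lit 273) (nat_lit 3) (nat_lit 176) (nat_lit 156) (nat_lit 178)) (PT.nd (nat_lit 78) (PT.lf (nat_lit 20824) (nat_lit 3) (nat_lit 274) (nat_lit 1) (nat_lit 177) (nat_lit 156) (nat_lit 177)) (PT.lf (nat_lit 20748) (nat_lit 6) (nat_lit 273) (nat_lit 1) (nat_lit 178) (nat_lit 156) (nat_lit 176))))))))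
noncomputable def pc7 : PT := (PT.nd (nat_lit 106158) (PT.nd (nat_lit 53118) (PT.nd (nat_lit 52728) (PT.nd (nat_lit 156) (PT.nd (nat_lit 78) (PT.lf (nat_lit 20672) (nat_lit 6) (nat_lit 272) (nat_lit 1) (nat_lit 179) (nat_lit 156) (nat_lit 175)) (PT.lf (nat_lit 20596) (nat_lit 6) (nat_lit 271) (nat_lit 1) (nat_lit 180) (nat_lit 156) (nat_lit 174))) (PT.nd (nat_lit 52416) (PT.lf (nat_lit 20520) (nat_lit 6) (nat_lit 270) (nat_lit 1) (nat_lit 181) (nat_lit 156) (nat_lit 173)) (PT.nd (nat_lit 78) (PT.lf (nat_lit 20900) (nat_lit 6) (nat_lit 275) (nat_lit 3) (nat_lit 172) (nat_lit 157) (nat_lit 181)) (PT.lf (nat_lit 20976) (nat_lit 6) (nat_lit 276) (nat_lit 3) (nat_lit 173) (nat_lit 157) (nat_lit 180))))) (PT.nd (nat_lit 156) (PT.nd (nat_lit 78) (PT.lf (nat_lit 21052) (nat_lit 6) (nat_lit 277) (nat_lit 3) (nat_lit 174) (nat_lit 157) (nat_lit 179)) (PT.lf (nat_lit 21128) (nat_lit 6) (nat_lit 278) (nat_lit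 3) (nat_lit 175) (nat_lit 157) (nat_lit 178))) (PT.nd (nat_lit 78) (PT.lf (nat_lit 21204) (nat_lit 6) (nat_lit 279) (nat_lit 3) (nat_lit 176) (nat_lit 157) (nat_lit 177)) (PT.nd (nat_lit 78) (PT.lf (nat_lit 21204) (nat_lit 6) (nat_lit 279) (nat_lit 1) (nat_lit 177) (nat_lit 157) (nat_lit 176)) (PT.lf (nat_lit 21128) (nat_lit 6) (nat_lit 278) (nat_lit 1) (nat_lit 178) (nat_lit 157) (nat_lit 175)))))) (PT.nd (nat_lit 52650) (PT.nd (nat_lit 156) (PT.nd (nat_lit 78) (PT.lf (nat_lit 21052) (nat_lit 6) (nat_lit 277) (nat_lit 1) (nat_lit 179) (nat_lit 157) (nat_lit 174)) (PT.lf (nat_lit 20976) (nat_lit 6) (nat_lit 276) (nat_lit 1) (nat_lit 180) (nat_lit 157) (nat_lit 173))) (PT.nd (nat_lit 52338) (PT.lf (nat_lit 20900) (nat_lit 6) (nat_lit 275) (nat_lit 1) (nat_lit 181) (nat_lit 157) (nat_lit 172)) (PT.nd (nat_lit 78) (PT.lf (nat_lit 21280) (nat_lit 6) (nat_lit 280) (nat_lit 3) (nat_lit 171) (nat_lit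 158) (nat_lit 181)) (PT.lf (nat_lit 21356) (nat_lit 6) (nat_lit 281) (nat_lit 3) (nat_lit 172) (nat_lit 158) (nat_lit 180))))) (PT.nd (nat_lit 156) (PT.nd (nat_lit 78) (PT.lf (nat_lit 21432) (nat_lit 6) (nat_lit 282) (nat_lit 3) (nat_lit 173) (nat_lit 158) (nat_lit 179)) (PT.lf (nat_lit 21508) (nat_lit 6) (nat_lit 283) (nat_lit 3) (nat_lit 174) (nat_lit 158) (nat_lit 178))) (PT.nd (nat_lit 78) (PT.lf (nat_lit 21584) (nat_lit 6) (nat_lit 284) (nat_lit 3) (nat_lit 175) (nat_lit 158) (nat_lit 177)) (PT.nd (nat_lit 78) (PT.lf (nat_lit 21660) (nat_lit 3) (nat_lit 285) (nat_lit 1) (nat_lit 176) (nat_lit 158) (nat_lit 176)) (PT.lf (nat_lit 21584) (nat_lit 6) (nat_lit 284) (nat_lit 1) (nat_lit 177) (nat_lit 158) (nat_lit 175))))))) (PT.nd (nat_lit 52962) (PT.nd (nat_lit 52572) (PT.nd (nat_lit 156) (PT.nd (nat_lit 78) (PT.lf (nat_lit 21508) (nat_lit 6) (nat_lit 283) (nat_lit 1) (nat_lit 178) (nat_lit 158)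 (nat_lit 174)) (PT.lf (nat_lit 21432) (nat_lit 6) (nat_lit 282) (nat_lit 1) (nat_lit 179) (nat_lit 158) (nat_lit 173))) (PT.nd (nat_lit 78) (PT.lf (nat_lit 21356) (nat_lit 6) (nat_lit 281) (nat_lit 1) (nat_lit 180) (nat_lit 158) (nat_lit 172)) (PT.nd (nat_lit 52260) (PT.lf (nat_lit 21280) (nat_lit 6) (nat_lit 280) (nat_lit 1) (nat_lit 181) (nat_lit 158) (nat_lit 171)) (PT.lf (nat_lit 21736) (nat_lit 6) (nat_lit 286) (nat_lit 3) (nat_lit 170) (nat_lit 159) (nat_lit 181))))) (PT.nd (nat_lit 156) (PT.nd (nat_lit 78) (PT.lf (nat_lit 21812) (nat_lit 6) (nat_lit 287) (nat_lit 3) (nat_lit 171) (nat_lit 159) (nat_lit 180)) (PT.lf (nat_lit 21888) (nat_lit 6) (nat_lit 288) (nat_lit 3) (nat_lit 172) (nat_lit 159) (nat_lit 179))) (PT.nd (nat_lit 78) (PT.lf (nat_lit 21964) (nat_lit 6) (nat_lit 289) (nat_lit 3) (nat_lit 173) (nat_lit 159) (nat_lit 178)) (PT.nd (nat_lit 78) (PT.lf (nat_lit 22040) (nat_lit 6)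 (nat_lit 290) (nat_lit 3) (nat_lit 174) (nat_lit 159) (nat_lit 177)) (PT.lf (nat_lit 22116) (nat_lit 6) (nat_lit 291) (nat_lit 3) (nat_lit 175) (nat_lit 159) (nat_lit 176)))))) (PT.nd (nat_lit 390) (PT.nd (nat_lit 156) (PT.nd (nat_lit 78) (PT.lf (nat_lit 22116) (nat_lit 6) (nat_lit 291) (nat_lit 1) (nat_lit 176) (nat_lit 159) (nat_lit 175)) (PT.lf (nat_lit 22040) (nat_lit 6) (nat_lit 290) (nat_lit 1) (nat_lit 177) (nat_lit 159) (nat_lit 174))) (PT.nd (nat_lit 78) (PT.lf (nat_lit 21964) (nat_lit 6) (nat_lit 289) (nat_lit 1) (nat_lit 178) (nat_lit 159) (nat_lit 173)) (PT.nd (nat_lit 78) (PT.lf (nat_lit 21888) (nat_lit 6) (nat_lit 288) (nat_lit 1) (nat_lit 179) (nat_lit 159) (nat_lit 172)) (PT.lf (nat_lit 21812) (nat_lit 6) (nat_lit 287) (nat_lit 1) (nat_lit 180) (nat_lit 159) (nat_lit 171))))) (PT.nd (nat_lit 52338) (PT.nd (nat_lit 52260) (PT.lf (nat_lit 21736) (nat_lit 6) (nat_lit 286) (nat_lit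 1) (nat_lit 181) (nat_lit 159) (nat_lit 170)) (PT.lf (nat_lit 22572) (nat_lit 6) (nat_lit 297) (nat_lit 3) (nat_lit 170) (nat_lit 160) (nat_lit 180))) (PT.nd (nat_lit 78) (PT.lf (nat_lit 22648) (nat_lit 6) (nat_lit 298) (nat_lit 3) (nat_lit 171) (nat_lit 160) (nat_lit 179)) (PT.nd (nat_lit 78) (PT.lf (nat_lit 22724) (nat_lit 6) (nat_lit 299) (nat_lit 3) (nat_lit 172) (nat_lit 160) (nat_lit 178)) (PT.lf (nat_lit 22800) (nat_lit 6) (nat_lit 300) (nat_lit 3) (nat_lit 173) (nat_lit 160) (nat_lit 177))))))))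
noncomputable def pc8 : PT := (PT.nd (nat_lit 105768) (PT.nd (nat_lit 52884) (PT.nd (nat_lit 312) (PT.nd (nat_lit 156) (PT.nd (nat_lit 78) (PT.lf (nat_lit 22876) (nat_lit 6) (nat_lit 301) (nat_lit 3) (nat_lit 174) (nat_lit 160) (nat_lit 176)) (PT.lf (nat_lit 22952) (nat_lit 3) (nat_lit 302) (nat_lit 1) (nat_lit 175) (nat_lit 160) (nat_lit 175))) (PT.nd (nat_lit 78) (PT.lf (nat_lit 22876) (nat_lit 6) (nat_lit 301) (nat_lit 1) (nat_lit 176) (nat_lit 160) (nat_lit 174)) (PT.lf (nat_lit 22800) (nat_lit 6) (nat_lit 300) (nat_lit 1) (nat_lit 177) (nat_lit 160) (nat_lit 173)))) (PT.nd (nat_lit 156) (PT.nd (nat_lit 78) (PT.lf (nat_lit 22724) (nat_lit 6) (nat_lit 299) (nat_lit 1) (nat_lit 178) (nat_lit 160) (nat_lit 172)) (PT.lf (nat_lit 22648) (nat_lit 6) (nat_lit 298) (nat_lit 1) (nat_lit 179) (nat_lit 160) (nat_lit 171))) (PT.nd (nat_lit 52260) (PT.lf (nat_lit 22572) (nat_lit 6) (nat_lit 297) (nat_lit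 1) (nat_lit 180) (nat_lit 160) (nat_lit 170)) (PT.nd (nat_lit 78) (PT.lf (nat_lit 22496) (nat_lit 6) (nat_lit 296) (nat_lit 3) (nat_lit 169) (nat_lit 161) (nat_lit 180)) (PT.lf (nat_lit 23332) (nat_lit 6) (nat_lit 307) (nat_lit 3) (nat_lit 170) (nat_lit 161) (nat_lit 179)))))) (PT.nd (nat_lit 390) (PT.nd (nat_lit 156) (PT.nd (nat_lit 78) (PT.lf (nat_lit 23408) (nat_lit 6) (nat_lit 308) (nat_lit 3) (nat_lit 171) (nat_lit 161) (nat_lit 178)) (PT.lf (nat_lit 23484) (nat_lit 6) (nat_lit 309) (nat_lit 3) (nat_lit 172) (nat_lit 161) (nat_lit 177))) (PT.nd (nat_lit 78) (PT.lf (nat_lit 23560) (nat_lit 6) (nat_lit 310) (nat_lit 3) (nat_lit 173) (nat_lit 161) (nat_lit 176)) (PT.nd (nat_lit 78) (PT.lf (nat_lit 23636) (nat_lit 6) (nat_lit 311) (nat_lit 3) (nat_lit 174) (nat_lit 161) (nat_lit 175)) (PT.lf (nat_lit 23636) (nat_lit 6) (nat_lit 311) (nat_lit 1) (nat_lit 175) (nat_lit 161) (nat_lit 174))))) (PT.nd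 (nat_lit 156) (PT.nd (nat_lit 78) (PT.lf (nat_lit 23560) (nat_lit 6) (nat_lit 310) (nat_lit 1) (nat_lit 176) (nat_lit 161) (nat_lit 173)) (PT.lf (nat_lit 23484) (nat_lit 6) (nat_lit 309) (nat_lit 1) (nat_lit 177) (nat_lit 161) (nat_lit 172))) (PT.nd (nat_lit 78) (PT.lf (nat_lit 23408) (nat_lit 6) (nat_lit 308) (nat_lit 1) (nat_lit 178) (nat_lit 161) (nat_lit 171)) (PT.nd (nat_lit 78) (PT.lf (nat_lit 23332) (nat_lit 6) (nat_lit 307) (nat_lit 1) (nat_lit 179) (nat_lit 161) (nat_lit 170)) (PT.lf (nat_lit 22496) (nat_lit 6) (nat_lit 296) (nat_lit 1) (nat_lit 180) (nat_lit 161) (nat_lit 169))))))) (PT.nd (nat_lit 780) (PT.nd (nat_lit 390) (PT.nd (nat_lit 156) (PT.nd (nat_lit 78) (PT.lf (nat_lit 22420) (nat_lit 6) (nat_lit 295) (nat_lit 3) (nat_lit 168) (nat_lit 162) (nat_lit 180)) (PT.lf (nat_lit 23256) (nat_lit 6) (nat_lit 306) (nat_lit 3) (nat_lit 169) (nat_lit 162) (nat_lit 179))) (PT.nd (nat_lit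 78) (PT.lf (nat_lit 24016) (nat_lit 6) (nat_lit 316) (nat_lit 3) (nat_lit 170) (nat_lit 162) (nat_lit 178)) (PT.nd (nat_lit 78) (PT.lf (nat_lit 24092) (nat_lit 6) (nat_lit 317) (nat_lit 3) (nat_lit 171) (nat_lit 162) (nat_lit 177)) (PT.lf (nat_lit 24168) (nat_lit 6) (nat_lit 318) (nat_lit 3) (nat_lit 172) (nat_lit 162) (nat_lit 176))))) (PT.nd (nat_lit 156) (PT.nd (nat_lit 78) (PT.lf (nat_lit 24244) (nat_lit 6) (nat_lit 319) (nat_lit 3) (nat_lit 173) (nat_lit 162) (nat_lit 175)) (PT.lf (nat_lit 24320) (nat_lit 3) (nat_lit 320) (nat_lit 1) (nat_lit 174) (nat_lit 162) (nat_lit 174))) (PT.nd (nat_lit 78) (PT.lf (nat_lit 24244) (nat_lit 6) (nat_lit 319) (nat_lit 1) (nat_lit 175) (nat_lit 162) (nat_lit 173)) (PT.nd (nat_lit 78) (PT.lf (nat_lit 24168) (nat_lit 6) (nat_lit 318) (nat_lit 1) (nat_lit 176) (nat_lit 162) (nat_lit 172)) (PT.lf (nat_lit 24092) (nat_lit 6) (nat_lit 317) (nat_lit 1) (nat_lit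 177) (nat_lit 162) (nat_lit 171)))))) (PT.nd (nat_lit 52416) (PT.nd (nat_lit 156) (PT.nd (nat_lit 78) (PT.lf (nat_lit 24016) (nat_lit 6) (nat_lit 316) (nat_lit 1) (nat_lit 178) (nat_lit 162) (nat_lit 170)) (PT.lf (nat_lit 23256) (nat_lit 6) (nat_lit 306) (nat_lit 1) (nat_lit 179) (nat_lit 162) (nat_lit 169))) (PT.nd (nat_lit 52104) (PT.lf (nat_lit 22420) (nat_lit 6) (nat_lit 295) (nat_lit 1) (nat_lit 180) (nat_lit 162) (nat_lit 168)) (PT.nd (nat_lit 78) (PT.lf (nat_lit 22344) (nat_lit 6) (nat_lit 294) (nat_lit 3) (nat_lit 167) (nat_lit 163) (nat_lit 180)) (PT.lf (nat_lit 23180) (nat_lit 6) (nat_lit 305) (nat_lit 3) (nat_lit 168) (nat_lit 163) (nat_lit 179))))) (PT.nd (nat_lit 156) (PT.nd (nat_lit 78) (PT.lf (nat_lit 23940) (nat_lit 6) (nat_lit 315) (nat_lit 3) (nat_lit 169) (nat_lit 163) (nat_lit 178)) (PT.lf (nat_lit 24624) (nat_lit 6) (nat_lit 324) (nat_lit 3) (nat_lit 170) (nat_lit 163) (nat_lit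 177))) (PT.nd (nat_lit 78) (PT.lf (nat_lit 24700) (nat_lit 6) (nat_lit 325) (nat_lit 3) (nat_lit 171) (nat_lit 163) (nat_lit 176)) (PT.nd (nat_lit 78) (PT.lf (nat_lit 24776) (nat_lit 6) (nat_lit 326) (nat_lit 3) (nat_lit 172) (nat_lit 163) (nat_lit 175)) (PT.lf (nat_lit 24852) (nat_lit 6) (nat_lit 327) (nat_lit 3) (nat_lit 173) (nat_lit 163) (nat_lit 174))))))))
noncomputable def pc9 : PT := (PT.nd (nat_lit 53508) (PT.nd (nat_lit 52728) (PT.nd (nat_lit 390) (PT.nd (nat_lit 156) (PT.nd (nat_lit 78) (PT.lf (nat_lit 24852) (nat_lit 6) (nat_lit 327) (nat_lit 1) (nat_lit 174) (nat_lit 163) (nat_lit 173)) (PT.lf (nat_lit 24776) (nat_lit 6) (nat_lit 326) (nat_lit 1) (nat_lit 175) (nat_lit 163) (nat_lit 172))) (PT.nd (nat_lit 78) (PT.lf (nat_lit 24700) (nat_lit 6) (nat_lit 325) (nat_lit 1) (nat_lit 176) (nat_lit 163) (nat_lit 171)) (PT.nd (nat_lit 78) (PT.lf (nat_lit 24624) (nat_lit 6) (nat_lit 324) (nat_lit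 1) (nat_lit 177) (nat_lit 163) (nat_lit 170)) (PT.lf (nat_lit 23940) (nat_lit 6) (nat_lit 315) (nat_lit 1) (nat_lit 178) (nat_lit 163) (nat_lit 169))))) (PT.nd (nat_lit 52104) (PT.nd (nat_lit 78) (PT.lf (nat_lit 23180) (nat_lit 6) (nat_lit 305) (nat_lit 1) (nat_lit 179) (nat_lit 163) (nat_lit 168)) (PT.lf (nat_lit 22344) (nat_lit 6) (nat_lit 294) (nat_lit 1) (nat_lit 180) (nat_lit 163) (nat_lit 167))) (PT.nd (nat_lit 78) (PT.lf (nat_lit 22268) (nat_lit 6) (nat_lit 293) (nat_lit 3) (nat_lit 166) (nat_lit 164) (nat_lit 180)) (PT.nd (nat_lit 78) (PT.lf (nat_lit 23104) (nat_lit 6) (nat_lit 304) (nat_lit 3) (nat_lit 167) (nat_lit 164) (nat_lit 179)) (PT.lf (nat_lit 23864) (nat_lit 6) (nat_lit 314) (nat_lit 3) (nat_lit 168) (nat_lit 164) (nat_lit 178)))))) (PT.nd (nat_lit 390) (PT.nd (nat_lit 156) (PT.nd (nat_lit 78) (PT.lf (nat_lit 24548) (nat_lit 6) (nat_lit 323) (nat_lit 3) (nat_lit 169) (nat_lit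 164) (nat_lit 177)) (PT.lf (nat_lit 25156) (nat_lit 6) (nat_lit 331) (nat_lit 3) (nat_lit 170) (nat_lit 164) (nat_lit 176))) (PT.nd (nat_lit 78) (PT.lf (nat_lit 25232) (nat_lit 6) (nat_lit 332) (nat_lit 3) (nat_lit 171) (nat_lit 164) (nat_lit 175)) (PT.nd (nat_lit 78) (PT.lf (nat_lit 25308) (nat_lit 6) (nat_lit 333) (nat_lit 3) (nat_lit 172) (nat_lit 164) (nat_lit 174)) (PT.lf (nat_lit 25384) (nat_lit 3) (nat_lit 334) (nat_lit 1) (nat_lit 173) (nat_lit 164) (nat_lit 173))))) (PT.nd (nat_lit 156) (PT.nd (nat_lit 78) (PT.lf (nat_lit 25308) (nat_lit 6) (nat_lit 333) (nat_lit 1) (nat_lit 174) (nat_lit 164) (nat_lit 172)) (PT.lf (nat_lit 25232) (nat_lit 6) (nat_lit 332) (nat_lit 1) (nat_lit 175) (nat_lit 164) (nat_lit 171))) (PT.nd (nat_lit 78) (PT.lf (nat_lit 25156) (nat_lit 6) (nat_lit 331) (nat_lit 1) (nat_lit 176) (nat_lit 164) (nat_lit 170)) (PT.nd (nat_lit 78) (PT.lf (nat_lit 24548) (nat_lit 6)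 (nat_lit 323) (nat_lit 1) (nat_lit 177) (nat_lit 164) (nat_lit 169)) (PT.lf (nat_lit 23864) (nat_lit 6) (nat_lit 314) (nat_lit 1) (nat_lit 178) (nat_lit 164) (nat_lit 168))))))) (PT.nd (nat_lit 52650) (PT.nd (nat_lit 52260) (PT.nd (nat_lit 52026) (PT.nd (nat_lit 78) (PT.lf (nat_lit 23104) (nat_lit 6) (nat_lit 304) (nat_lit 1) (nat_lit 179) (nat_lit 164) (nat_lit 167)) (PT.lf (nat_lit 22268) (nat_lit 6) (nat_lit 293) (nat_lit 1) (nat_lit 180) (nat_lit 164) (nat_lit 166))) (PT.nd (nat_lit 78) (PT.lf (nat_lit 22192) (nat_lit 3) (nat_lit 292) (nat_lit 3) (nat_lit 165) (nat_lit 165) (nat_lit 180)) (PT.nd (nat_lit 78) (PT.lf (nat_lit 23028) (nat_lit 6) (nat_lit 303) (nat_lit 3) (nat_lit 166) (nat_lit 165) (nat_lit 179)) (PT.lf (nat_lit 23788) (nat_lit 6) (nat_lit 313) (nat_lit 3) (nat_lit 167) (nat_lit 165) (nat_lit 178))))) (PT.nd (nat_lit 156) (PT.nd (nat_lit 78) (PT.lf (nat_lit 24472) (nat_lit 6)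 (nat_lit 322) (nat_lit 3) (nat_lit 168) (nat_lit 165) (nat_lit 177)) (PT.lf (nat_lit 25080) (nat_lit 6) (nat_lit 330) (nat_lit 3) (nat_lit 169) (nat_lit 165) (nat_lit 176))) (PT.nd (nat_lit 78) (PT.lf (nat_lit 25612) (nat_lit 6) (nat_lit 337) (nat_lit 3) (nat_lit 170) (nat_lit 165) (nat_lit 175)) (PT.nd (nat_lit 78) (PT.lf (nat_lit 25688) (nat_lit 6) (nat_lit 338) (nat_lit 3) (nat_lit 171) (nat_lit 165) (nat_lit 174)) (PT.lf (nat_lit 25764) (nat_lit 6) (nat_lit 339) (nat_lit 3) (nat_lit 172) (nat_lit 165) (nat_lit 173)))))) (PT.nd (nat_lit 390) (PT.nd (nat_lit 156) (PT.nd (nat_lit 78) (PT.lf (nat_lit 25764) (nat_lit 6) (nat_lit 339) (nat_lit 1) (nat_lit 173) (nat_lit 165) (nat_lit 172)) (PT.lf (nat_lit 25688) (nat_lit 6) (nat_lit 338) (nat_lit 1) (nat_lit 174) (nat_lit 165) (nat_lit 171))) (PT.nd (nat_lit 78) (PT.lf (nat_lit 25612) (nat_lit 6) (nat_lit 337) (nat_lit 1) (nat_lit 175) (nat_lit 165)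 (nat_lit 170)) (PT.nd (nat_lit 78) (PT.lf (nat_lit 25080) (nat_lit 6) (nat_lit 330) (nat_lit 1) (nat_lit 176) (nat_lit 165) (nat_lit 169)) (PT.lf (nat_lit 24472) (nat_lit 6) (nat_lit 322) (nat_lit 1) (nat_lit 177) (nat_lit 165) (nat_lit 168))))) (PT.nd (nat_lit 156) (PT.nd (nat_lit 78) (PT.lf (nat_lit 23788) (nat_lit 6) (nat_lit 313) (nat_lit 1) (nat_lit 178) (nat_lit 165) (nat_lit 167)) (PT.lf (nat_lit 23028) (nat_lit 6) (nat_lit 303) (nat_lit 1) (nat_lit 179) (nat_lit 165) (nat_lit 166))) (PT.nd (nat_lit 51870) (PT.lf (nat_lit 22192) (nat_lit 3) (nat_lit 292) (nat_lit 0) (nat_lit 180) (nat_lit 165) (nat_lit 165)) (PT.nd (nat_lit 78) (PT.lf (nat_lit 22268) (nat_lit 6) (nat_lit 293) (nat_lit 5) (nat_lit 164) (nat_lit 166) (nat_lit 180)) (PT.lf (nat_lit 23028) (nat_lit 6) (nat_lit 303) (nat_lit 5) (nat_lit 165) (nat_lit 166) (nat_lit 179))))))))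
noncomputable def pc10 : PT := (PT.nd (nat_lit 53274) (PT.nd (nat_lit 780) (PT.nd (nat_lit 390) (PT.nd (nat_lit 156) (PT.nd (nat_lit 78) (PT.lf (nat_lit 23712) (nat_lit 3) (nat_lit 312) (nat_lit 3) (nat_lit 166) (nat_lit 166) (nat_lit 178)) (PT.lf (nat_lit 24396) (nat_lit 6) (nat_lit 321) (nat_lit 3) (nat_lit 167) (nat_lit 166) (nat_lit 177))) (PT.nd (nat_lit 78) (PT.lf (nat_lit 25004) (nat_lit 6) (nat_lit 329) (nat_lit 3) (nat_lit 168) (nat_lit 166) (nat_lit 176)) (PT.nd (nat_lit 78) (PT.lf (nat_lit 25536) (nat_lit 6) (nat_lit 336) (nat_lit 3) (nat_lit 169) (nat_lit 166) (nat_lit 175)) (PT.lf (nat_lit 25992) (nat_lit 6) (nat_lit 342) (nat_lit 3) (nat_lit 170) (nat_lit 166) (nat_lit 174))))) (PT.nd (nat_lit 156) (PT.nd (nat_lit 78) (PT.lf (nat_lit 26068) (nat_lit 6) (nat_lit 343) (nat_lit 3) (nat_lit 171) (nat_lit 166) (nat_lit 173)) (PT.lf (nat_lit 26144) (nat_lit 3) (nat_lit 344) (nat_lit 1)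 (nat_lit 172) (nat_lit 166) (nat_lit 172))) (PT.nd (nat_lit 78) (PT.lf (nat_lit 26068) (nat_lit 6) (nat_lit 343) (nat_lit 1) (nat_lit 173) (nat_lit 166) (nat_lit 171)) (PT.nd (nat_lit 78) (PT.lf (nat_lit 25992) (nat_lit 6) (nat_lit 342) (nat_lit 1) (nat_lit 174) (nat_lit 166) (nat_lit 170)) (PT.lf (nat_lit 25536) (nat_lit 6) (nat_lit 336) (nat_lit 1) (nat_lit 175) (nat_lit 166) (nat_lit 169)))))) (PT.nd (nat_lit 52104) (PT.nd (nat_lit 156) (PT.nd (nat_lit 78) (PT.lf (nat_lit 25004) (nat_lit 6) (nat_lit 329) (nat_lit 1) (nat_lit 176) (nat_lit 166) (nat_lit 168)) (PT.lf (nat_lit 24396) (nat_lit 6) (nat_lit 321) (nat_lit 1) (nat_lit 177) (nat_lit 166) (nat_lit 167))) (PT.nd (nat_lit 78) (PT.lf (nat_lit 23712) (nat_lit 3) (nat_lit 312) (nat_lit 0) (nat_lit 178) (nat_lit 166) (nat_lit 166)) (PT.nd (nat_lit 78) (PT.lf (nat_lit 23028) (nat_lit 6) (nat_lit 303) (nat_lit 0) (nat_lit 179) (nat_lit 166) (nat_lit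 165)) (PT.lf (nat_lit 22268) (nat_lit 6) (nat_lit 293) (nat_lit 0) (nat_lit 180) (nat_lit 166) (nat_lit 164))))) (PT.nd (nat_lit 156) (PT.nd (nat_lit 78) (PT.lf (nat_lit 22344) (nat_lit 6) (nat_lit 294) (nat_lit 5) (nat_lit 163) (nat_lit 167) (nat_lit 180)) (PT.lf (nat_lit 23104) (nat_lit 6) (nat_lit 304) (nat_lit 5) (nat_lit 164) (nat_lit 167) (nat_lit 179))) (PT.nd (nat_lit 78) (PT.lf (nat_lit 23788) (nat_lit 6) (nat_lit 313) (nat_lit 5) (nat_lit 165) (nat_lit 167) (nat_lit 178)) (PT.nd (nat_lit 78) (PT.lf (nat_lit 24396) (nat_lit 6) (nat_lit 321) (nat_lit 5) (nat_lit 166) (nat_lit 167) (nat_lit 177)) (PT.lf (nat_lit 24928) (nat_lit 3) (nat_lit 328) (nat_lit 3) (nat_lit 167) (nat_lit 167) (nat_lit 176))))))) (PT.nd (nat_lit 780) (PT.nd (nat_lit 390) (PT.nd (nat_lit 156) (PT.nd (nat_lit 78) (PT.lf (nat_lit 25460) (nat_lit 6) (nat_lit 335) (nat_lit 3) (nat_lit 168) (nat_lit 167) (nat_lit 175))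 (PT.lf (nat_lit 25916) (nat_lit 6) (nat_lit 341) (nat_lit 3) (nat_lit 169) (nat_lit 167) (nat_lit 174))) (PT.nd (nat_lit 78) (PT.lf (nat_lit 26296) (nat_lit 6) (nat_lit 346) (nat_lit 3) (nat_lit 170) (nat_lit 167) (nat_lit 173)) (PT.nd (nat_lit 78) (PT.lf (nat_lit 26372) (nat_lit 6) (nat_lit 347) (nat_lit 3) (nat_lit 171) (nat_lit 167) (nat_lit 172)) (PT.lf (nat_lit 26372) (nat_lit 6) (nat_lit 347) (nat_lit 1) (nat_lit 172) (nat_lit 167) (nat_lit 171))))) (PT.nd (nat_lit 156) (PT.nd (nat_lit 78) (PT.lf (nat_lit 26296) (nat_lit 6) (nat_lit 346) (nat_lit 1) (nat_lit 173) (nat_lit 167) (nat_lit 170)) (PT.lf (nat_lit 25916) (nat_lit 6) (nat_lit 341) (nat_lit 1) (nat_lit 174) (nat_lit 167) (nat_lit 169))) (PT.nd (nat_lit 78) (PT.lf (nat_lit 25460) (nat_lit 6) (nat_lit 335) (nat_lit 1) (nat_lit 175) (nat_lit 167) (nat_lit 168)) (PT.nd (nat_lit 78) (PT.lf (nat_lit 24928) (nat_lit 3) (nat_lit 328) (nat_lit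 0) (nat_lit 176) (nat_lit 167) (nat_lit 167)) (PT.lf (nat_lit 24396) (nat_lit 6) (nat_lit 321) (nat_lit 0) (nat_lit 177) (nat_lit 167) (nat_lit 166)))))) (PT.nd (nat_lit 52026) (PT.nd (nat_lit 156) (PT.nd (nat_lit 78) (PT.lf (nat_lit 23788) (nat_lit 6) (nat_lit 313) (nat_lit 0) (nat_lit 178) (nat_lit 167) (nat_lit 165)) (PT.lf (nat_lit 23104) (nat_lit 6) (nat_lit 304) (nat_lit 0) (nat_lit 179) (nat_lit 167) (nat_lit 164))) (PT.nd (nat_lit 51714) (PT.lf (nat_lit 22344) (nat_lit 6) (nat_lit 294) (nat_lit 0) (nat_lit 180) (nat_lit 167) (nat_lit 163)) (PT.nd (nat_lit 78) (PT.lf (nat_lit 22420) (nat_lit 6) (nat_lit 295) (nat_lit 5) (nat_lit 162) (nat_lit 168) (nat_lit 180)) (PT.lf (nat_lit 23180) (nat_lit 6) (nat_lit 305) (nat_lit 5) (nat_lit 163) (nat_lit 168) (nat_lit 179))))) (PT.nd (nat_lit 156) (PT.nd (nat_lit 78) (PT.lf (nat_lit 23864) (nat_lit 6) (nat_lit 314) (nat_lit 5) (nat_lit 164) (nat_lit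 168) (nat_lit 178)) (PT.lf (nat_lit 24472) (nat_lit 6) (nat_lit 322) (nat_lit 5) (nat_lit 165) (nat_lit 168) (nat_lit 177))) (PT.nd (nat_lit 78) (PT.lf (nat_lit 25004) (nat_lit 6) (nat_lit 329) (nat_lit 5) (nat_lit 166) (nat_lit 168) (nat_lit 176)) (PT.nd (nat_lit 78) (PT.lf (nat_lit 25460) (nat_lit 6) (nat_lit 335) (nat_lit 5) (nat_lit 167) (nat_lit 168) (nat_lit 175)) (PT.lf (nat_lit 25840) (nat_lit 3) (nat_lit 340) (nat_lit 3) (nat_lit 168) (nat_lit 168) (nat_lit 174))))))))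
noncomputable def pc11 : PT := (PT.nd (nat_lit 53118) (PT.nd (nat_lit 780) (PT.nd (nat_lit 390) (PT.nd (nat_lit 156) (PT.nd (nat_lit 78) (PT.lf (nat_lit 26220) (nat_lit 6) (nat_lit 345) (nat_lit 3) (nat_lit 169) (nat_lit 168) (nat_lit 173)) (PT.lf (nat_lit 26524) (nat_lit 6) (nat_lit 349) (nat_lit 3) (nat_lit 170) (nat_lit 168) (nat_lit 172))) (PT.nd (nat_lit 78) (PT.lf (nat_lit 26600) (nat_lit 3) (nat_lit 350) (nat_lit 1) (nat_lit 171) (nat_lit 168) (nat_lit 171)) (PT.nd (nat_lit 78) (PT.lf (nat_lit 26524) (nat_lit 6) (nat_lit 349) (nat_lit 1) (nat_lit 172) (nat_lit 168) (nat_lit 170)) (PT.lf (nat_lit 26220) (nat_lit 6) (nat_lit 345) (nat_lit 1) (nat_lit 173) (nat_lit 168) (nat_lit 169))))) (PT.nd (nat_lit 156) (PT.nd (nat_lit 78) (PT.lf (nat_lit 25840) (nat_lit 3) (nat_lit 340) (nat_lit 0) (nat_lit 174) (nat_lit 168) (nat_lit 168)) (PT.lf (nat_lit 25460) (nat_lit 6) (nat_lit 335) (nat_lit 0)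 (nat_lit 175) (nat_lit 168) (nat_lit 167))) (PT.nd (nat_lit 78) (PT.lf (nat_lit 25004) (nat_lit 6) (nat_lit 329) (nat_lit 0) (nat_lit 176) (nat_lit 168) (nat_lit 166)) (PT.nd (nat_lit 78) (PT.lf (nat_lit 24472) (nat_lit 6) (nat_lit 322) (nat_lit 0) (nat_lit 177) (nat_lit 168) (nat_lit 165)) (PT.lf (nat_lit 23864) (nat_lit 6) (nat_lit 314) (nat_lit 0) (nat_lit 178) (nat_lit 168) (nat_lit 164)))))) (PT.nd (nat_lit 51948) (PT.nd (nat_lit 51714) (PT.nd (nat_lit 78) (PT.lf (nat_lit 23180) (nat_lit 6) (nat_lit 305) (nat_lit 0) (nat_lit 179) (nat_lit 168) (nat_lit 163)) (PT.lf (nat_lit 22420) (nat_lit 6) (nat_lit 295) (nat_lit 0) (nat_lit 180) (nat_lit 168) (nat_lit 162))) (PT.nd (nat_lit 78) (PT.lf (nat_lit 22496) (nat_lit 6) (nat_lit 296) (nat_lit 5) (nat_lit 161) (nat_lit 169) (nat_lit 180)) (PT.nd (nat_lit 78) (PT.lf (nat_lit 23256) (nat_lit 6) (nat_lit 306) (nat_lit 5) (nat_lit 162) (nat_lit 169)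 (nat_lit 179)) (PT.lf (nat_lit 23940) (nat_lit 6) (nat_lit 315) (nat_lit 5) (nat_lit 163) (nat_lit 169) (nat_lit 178))))) (PT.nd (nat_lit 156) (PT.nd (nat_lit 78) (PT.lf (nat_lit 24548) (nat_lit 6) (nat_lit 323) (nat_lit 5) (nat_lit 164) (nat_lit 169) (nat_lit 177)) (PT.lf (nat_lit 25080) (nat_lit 6) (nat_lit 330) (nat_lit 5) (nat_lit 165) (nat_lit 169) (nat_lit 176))) (PT.nd (nat_lit 78) (PT.lf (nat_lit 25536) (nat_lit 6) (nat_lit 336) (nat_lit 5) (nat_lit 166) (nat_lit 169) (nat_lit 175)) (PT.nd (nat_lit 78) (PT.lf (nat_lit 25916) (nat_lit 6) (nat_lit 341) (nat_lit 5) (nat_lit 167) (nat_lit 169) (nat_lit 174)) (PT.lf (nat_lit 26220) (nat_lit 6) (nat_lit 345) (nat_lit 5) (nat_lit 168) (nat_lit 169) (nat_lit 173))))))) (PT.nd (nat_lit 780) (PT.nd (nat_lit 390) (PT.nd (nat_lit 156) (PT.nd (nat_lit 78) (PT.lf (nat_lit 26448) (nat_lit 3) (nat_lit 348) (nat_lit 3) (nat_lit 169) (nat_lit 169) (nat_lit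 172)) (PT.lf (nat_lit 26676) (nat_lit 6) (nat_lit 351) (nat_lit 3) (nat_lit 170) (nat_lit 169) (nat_lit 171))) (PT.nd (nat_lit 78) (PT.lf (nat_lit 26676) (nat_lit 6) (nat_lit 351) (nat_lit 1) (nat_lit 171) (nat_lit 169) (nat_lit 170)) (PT.nd (nat_lit 78) (PT.lf (nat_lit 26448) (nat_lit 3) (nat_lit 348) (nat_lit 0) (nat_lit 172) (nat_lit 169) (nat_lit 169)) (PT.lf (nat_lit 26220) (nat_lit 6) (nat_lit 345) (nat_lit 0) (nat_lit 173) (nat_lit 169) (nat_lit 168))))) (PT.nd (nat_lit 156) (PT.nd (nat_lit 78) (PT.lf (nat_lit 25916) (nat_lit 6) (nat_lit 341) (nat_lit 0) (nat_lit 174) (nat_lit 169) (nat_lit 167)) (PT.lf (nat_lit 25536) (nat_lit 6) (nat_lit 336) (nat_lit 0) (nat_lit 175) (nat_lit 169) (nat_lit 166))) (PT.nd (nat_lit 78) (PT.lf (nat_lit 25080) (nat_lit 6) (nat_lit 330) (nat_lit 0) (nat_lit 176) (nat_lit 169) (nat_lit 165)) (PT.nd (nat_lit 78) (PT.lf (nat_lit 24548) (nat_lit 6) (nat_lit 323)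 (nat_lit 0) (nat_lit 177) (nat_lit 169) (nat_lit 164)) (PT.lf (nat_lit 23940) (nat_lit 6) (nat_lit 315) (nat_lit 0) (nat_lit 178) (nat_lit 169) (nat_lit 163)))))) (PT.nd (nat_lit 51792) (PT.nd (nat_lit 51558) (PT.nd (nat_lit 78) (PT.lf (nat_lit 23256) (nat_lit 6) (nat_lit 306) (nat_lit 0) (nat_lit 179) (nat_lit 169) (nat_lit 162)) (PT.lf (nat_lit 22496) (nat_lit 6) (nat_lit 296) (nat_lit 0) (nat_lit 180) (nat_lit 169) (nat_lit 161))) (PT.nd (nat_lit 78) (PT.lf (nat_lit 21736) (nat_lit 6) (nat_lit 286) (nat_lit 5) (nat_lit 159) (nat_lit 170) (nat_lit 181)) (PT.nd (nat_lit 78) (PT.lf (nat_lit 22572) (nat_lit 6) (nat_lit 297) (nat_lit 5) (nat_lit 160) (nat_lit 170) (nat_lit 180)) (PT.lf (nat_lit 23332) (nat_lit 6) (nat_lit 307) (nat_lit 5) (nat_lit 161) (nat_lit 170) (nat_lit 179))))) (PT.nd (nat_lit 156) (PT.nd (nat_lit 78) (PT.lf (nat_lit 24016) (nat_lit 6) (nat_lit 316) (nat_lit 5) (nat_lit 162)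 (nat_lit 170) (nat_lit 178)) (PT.lf (nat_lit 24624) (nat_lit 6) (nat_lit 324) (nat_lit 5) (nat_lit 163) (nat_lit 170) (nat_lit 177))) (PT.nd (nat_lit 78) (PT.lf (nat_lit 25156) (nat_lit 6) (nat_lit 331) (nat_lit 5) (nat_lit 164) (nat_lit 170) (nat_lit 176)) (PT.nd (nat_lit 78) (PT.lf (nat_lit 25612) (nat_lit 6) (nat_lit 337) (nat_lit 5) (nat_lit 165) (nat_lit 170) (nat_lit 175)) (PT.lf (nat_lit 25992) (nat_lit 6) (nat_lit 342) (nat_lit 5) (nat_lit 166) (nat_lit 170) (nat_lit 174))))))))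
noncomputable def pc12 : PT := (PT.nd (nat_lit 52728) (PT.nd (nat_lit 702) (PT.nd (nat_lit 312) (PT.nd (nat_lit 156) (PT.nd (nat_lit 78) (PT.lf (nat_lit 26296) (nat_lit 6) (nat_lit 346) (nat_lit 5) (nat_lit 167) (nat_lit 170) (nat_lit 173)) (PT.lf (nat_lit 26524) (nat_lit 6) (nat_lit 349) (nat_lit 5) (nat_lit 168) (nat_lit 170) (nat_lit 172))) (PT.nd (nat_lit 78) (PT.lf (nat_lit 26676) (nat_lit 6) (nat_lit 351) (nat_lit 5) (nat_lit 169) (nat_lit 170) (nat_lit 171)) (PT.lf (nat_lit 26752) (nat_lit 1) (nat_lit 352) (nat_lit 0) (nat_lit 170) (nat_lit 170) (nat_lit 170)))) (PT.nd (nat_lit 156) (PT.nd (nat_lit 78) (PT.lf (nat_lit 26676) (nat_lit 6) (nat_lit 351) (nat_lit 0) (nat_lit 171) (nat_lit 170) (nat_lit 169)) (PT.lf (nat_lit 26524) (nat_lit 6) (nat_lit 349) (nat_lit 0) (nat_lit 172) (nat_lit 170) (nat_lit 168))) (PT.nd (nat_lit 78) (PT.lf (nat_lit 26296) (nat_lit 6) (nat_lit 346) (nat_lit 0)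 (nat_lit 173) (nat_lit 170) (nat_lit 167)) (PT.nd (nat_lit 78) (PT.lf (nat_lit 25992) (nat_lit 6) (nat_lit 342) (nat_lit 0) (nat_lit 174) (nat_lit 170) (nat_lit 166)) (PT.lf (nat_lit 25612) (nat_lit 6) (nat_lit 337) (nat_lit 0) (nat_lit 175) (nat_lit 170) (nat_lit 165)))))) (PT.nd (nat_lit 390) (PT.nd (nat_lit 156) (PT.nd (nat_lit 78) (PT.lf (nat_lit 25156) (nat_lit 6) (nat_lit 331) (nat_lit 0) (nat_lit 176) (nat_lit 170) (nat_lit 164)) (PT.lf (nat_lit 24624) (nat_lit 6) (nat_lit 324) (nat_lit 0) (nat_lit 177) (nat_lit 170) (nat_lit 163))) (PT.nd (nat_lit 78) (PT.lf (nat_lit 24016) (nat_lit 6) (nat_lit 316) (nat_lit 0) (nat_lit 178) (nat_lit 170) (nat_lit 162)) (PT.nd (nat_lit 78) (PT.lf (nat_lit 23332) (nat_lit 6) (nat_lit 307) (nat_lit 0) (nat_lit 179) (nat_lit 170) (nat_lit 161)) (PT.lf (nat_lit 22572) (nat_lit 6) (nat_lit 297) (nat_lit 0) (nat_lit 180) (nat_lit 170) (nat_lit 160))))) (PT.nd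 (nat_lit 51402) (PT.nd (nat_lit 51324) (PT.lf (nat_lit 21736) (nat_lit 6) (nat_lit 286) (nat_lit 0) (nat_lit 181) (nat_lit 170) (nat_lit 159)) (PT.lf (nat_lit 21280) (nat_lit 6) (nat_lit 280) (nat_lit 5) (nat_lit 158) (nat_lit 171) (nat_lit 181))) (PT.nd (nat_lit 78) (PT.lf (nat_lit 21812) (nat_lit 6) (nat_lit 287) (nat_lit 5) (nat_lit 159) (nat_lit 171) (nat_lit 180)) (PT.nd (nat_lit 78) (PT.lf (nat_lit 22648) (nat_lit 6) (nat_lit 298) (nat_lit 5) (nat_lit 160) (nat_lit 171) (nat_lit 179)) (PT.lf (nat_lit 23408) (nat_lit 6) (nat_lit 308) (nat_lit 5) (nat_lit 161) (nat_lit 171) (nat_lit 178))))))) (PT.nd (nat_lit 780) (PT.nd (nat_lit 390) (PT.nd (nat_lit 156) (PT.nd (nat_lit 78) (PT.lf (nat_lit 24092) (nat_lit 6) (nat_lit 317) (nat_lit 5) (nat_lit 162) (nat_lit 171) (nat_lit 177)) (PT.lf (nat_lit 24700) (nat_lit 6) (nat_lit 325) (nat_lit 5) (nat_lit 163) (nat_lit 171) (nat_lit 176))) (PT.nd (nat_lit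 78) (PT.lf (nat_lit 25232) (nat_lit 6) (nat_lit 332) (nat_lit 5) (nat_lit 164) (nat_lit 171) (nat_lit 175)) (PT.nd (nat_lit 78) (PT.lf (nat_lit 25688) (nat_lit 6) (nat_lit 338) (nat_lit 5) (nat_lit 165) (nat_lit 171) (nat_lit 174)) (PT.lf (nat_lit 26068) (nat_lit 6) (nat_lit 343) (nat_lit 5) (nat_lit 166) (nat_lit 171) (nat_lit 173))))) (PT.nd (nat_lit 156) (PT.nd (nat_lit 78) (PT.lf (nat_lit 26372) (nat_lit 6) (nat_lit 347) (nat_lit 5) (nat_lit 167) (nat_lit 171) (nat_lit 172)) (PT.lf (nat_lit 26600) (nat_lit 3) (nat_lit 350) (nat_lit 4) (nat_lit 168) (nat_lit 171) (nat_lit 171))) (PT.nd (nat_lit 78) (PT.lf (nat_lit 26676) (nat_lit 6) (nat_lit 351) (nat_lit 4) (nat_lit 169) (nat_lit 171) (nat_lit 170)) (PT.nd (nat_lit 78) (PT.lf (nat_lit 26676) (nat_lit 6) (nat_lit 351) (nat_lit 2) (nat_lit 170) (nat_lit 171) (nat_lit 169)) (PT.lf (nat_lit 26600) (nat_lit 3) (nat_lit 350) (nat_lit 0) (nat_lit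 171) (nat_lit 171) (nat_lit 168)))))) (PT.nd (nat_lit 390) (PT.nd (nat_lit 156) (PT.nd (nat_lit 78) (PT.lf (nat_lit 26372) (nat_lit 6) (nat_lit 347) (nat_lit 0) (nat_lit 172) (nat_lit 171) (nat_lit 167)) (PT.lf (nat_lit 26068) (nat_lit 6) (nat_lit 343) (nat_lit 0) (nat_lit 173) (nat_lit 171) (nat_lit 166))) (PT.nd (nat_lit 78) (PT.lf (nat_lit 25688) (nat_lit 6) (nat_lit 338) (nat_lit 0) (nat_lit 174) (nat_lit 171) (nat_lit 165)) (PT.nd (nat_lit 78) (PT.lf (nat_lit 25232) (nat_lit 6) (nat_lit 332) (nat_lit 0) (nat_lit 175) (nat_lit 171) (nat_lit 164)) (PT.lf (nat_lit 24700) (nat_lit 6) (nat_lit 325) (nat_lit 0) (nat_lit 176) (nat_lit 171) (nat_lit 163))))) (PT.nd (nat_lit 156) (PT.nd (nat_lit 78) (PT.lf (nat_lit 24092) (nat_lit 6) (nat_lit 317) (nat_lit 0) (nat_lit 177) (nat_lit 171) (nat_lit 162)) (PT.lf (nat_lit 23408) (nat_lit 6) (nat_lit 308) (nat_lit 0) (nat_lit 178) (nat_lit 171) (nat_lit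 161))) (PT.nd (nat_lit 78) (PT.lf (nat_lit 22648) (nat_lit 6) (nat_lit 298) (nat_lit 0) (nat_lit 179) (nat_lit 171) (nat_lit 160)) (PT.nd (nat_lit 78) (PT.lf (nat_lit 21812) (nat_lit 6) (nat_lit 287) (nat_lit 0) (nat_lit 180) (nat_lit 171) (nat_lit 159)) (PT.lf (nat_lit 21280) (nat_lit 6) (nat_lit 280) (nat_lit 0) (nat_lit 181) (nat_lit 171) (nat_lit 158))))))))
noncomputable def pc13 : PT := (PT.nd (nat_lit 1560) (PT.nd (nat_lit 780) (PT.nd (nat_lit 390) (PT.nd (nat_lit 156) (PT.nd (nat_lit 78) (PT.lf (nat_lit 20900) (nat_lit 6) (nat_lit 275) (nat_lit 5) (nat_lit 157) (nat_lit 172) (nat_lit 181)) (PT.lf (nat_lit 21356) (nat_lit 6) (nat_lit 281) (nat_lit 5) (nat_lit 158) (nat_lit 172) (nat_lit 180))) (PT.nd (nat_lit 78) (PT.lf (nat_lit 21888) (nat_lit 6) (nat_lit 288) (nat_lit 5) (nat_lit 159) (nat_lit 172) (nat_lit 179)) (PT.nd (nat_lit 78) (PT.lf (nat_lit 22724) (nat_lit 6) (nat_lit 299) (nat_lit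 5) (nat_lit 160) (nat_lit 172) (nat_lit 178)) (PT.lf (nat_lit 23484) (nat_lit 6) (nat_lit 309) (nat_lit 5) (nat_lit 161) (nat_lit 172) (nat_lit 177))))) (PT.nd (nat_lit 156) (PT.nd (nat_lit 78) (PT.lf (nat_lit 24168) (nat_lit 6) (nat_lit 318) (nat_lit 5) (nat_lit 162) (nat_lit 172) (nat_lit 176)) (PT.lf (nat_lit 24776) (nat_lit 6) (nat_lit 326) (nat_lit 5) (nat_lit 163) (nat_lit 172) (nat_lit 175))) (PT.nd (nat_lit 78) (PT.lf (nat_lit 25308) (nat_lit 6) (nat_lit 333) (nat_lit 5) (nat_lit 164) (nat_lit 172) (nat_lit 174)) (PT.nd (nat_lit 78) (PT.lf (nat_lit 25764) (nat_lit 6) (nat_lit 339) (nat_lit 5) (nat_lit 165) (nat_lit 172) (nat_lit 173)) (PT.lf (nat_lit 26144) (nat_lit 3) (nat_lit 344) (nat_lit 4) (nat_lit 166) (nat_lit 172) (nat_lit 172)))))) (PT.nd (nat_lit 390) (PT.nd (nat_lit 156) (PT.nd (nat_lit 78) (PT.lf (nat_lit 26372) (nat_lit 6) (nat_lit 347) (nat_lit 4) (nat_lit 167) (nat_lit 172)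 (nat_lit 171)) (PT.lf (nat_lit 26524) (nat_lit 6) (nat_lit 349) (nat_lit 4) (nat_lit 168) (nat_lit 172) (nat_lit 170))) (PT.nd (nat_lit 78) (PT.lf (nat_lit 26448) (nat_lit 3) (nat_lit 348) (nat_lit 2) (nat_lit 169) (nat_lit 172) (nat_lit 169)) (PT.nd (nat_lit 78) (PT.lf (nat_lit 26524) (nat_lit 6) (nat_lit 349) (nat_lit 2) (nat_lit 170) (nat_lit 172) (nat_lit 168)) (PT.lf (nat_lit 26372) (nat_lit 6) (nat_lit 347) (nat_lit 2) (nat_lit 171) (nat_lit 172) (nat_lit 167))))) (PT.nd (nat_lit 156) (PT.nd (nat_lit 78) (PT.lf (nat_lit 26144) (nat_lit 3) (nat_lit 344) (nat_lit 0) (nat_lit 172) (nat_lit 172) (nat_lit 166)) (PT.lf (nat_lit 25764) (nat_lit 6) (nat_lit 339) (nat_lit 0) (nat_lit 173) (nat_lit 172) (nat_lit 165))) (PT.nd (nat_lit 78) (PT.lf (nat_lit 25308) (nat_lit 6) (nat_lit 333) (nat_lit 0) (nat_lit 174) (nat_lit 172) (nat_lit 164)) (PT.nd (nat_lit 78) (PT.lf (nat_lit 24776) (nat_lit 6) (nat_lit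 326) (nat_lit 0) (nat_lit 175) (nat_lit 172) (nat_lit 163)) (PT.lf (nat_lit 24168) (nat_lit 6) (nat_lit 318) (nat_lit 0) (nat_lit 176) (nat_lit 172) (nat_lit 162))))))) (PT.nd (nat_lit 51870) (PT.nd (nat_lit 51480) (PT.nd (nat_lit 156) (PT.nd (nat_lit 78) (PT.lf (nat_lit 23484) (nat_lit 6) (nat_lit 309) (nat_lit 0) (nat_lit 177) (nat_lit 172) (nat_lit 161)) (PT.lf (nat_lit 22724) (nat_lit 6) (nat_lit 299) (nat_lit 0) (nat_lit 178) (nat_lit 172) (nat_lit 160))) (PT.nd (nat_lit 78) (PT.lf (nat_lit 21888) (nat_lit 6) (nat_lit 288) (nat_lit 0) (nat_lit 179) (nat_lit 172) (nat_lit 159)) (PT.nd (nat_lit 78) (PT.lf (nat_lit 21356) (nat_lit 6) (nat_lit 281) (nat_lit 0) (nat_lit 180) (nat_lit 172) (nat_lit 158)) (PT.lf (nat_lit 20900) (nat_lit 6) (nat_lit 275) (nat_lit 0) (nat_lit 181) (nat_lit 172) (nat_lit 157))))) (PT.nd (nat_lit 156) (PT.nd (nat_lit 78) (PT.lf (nat_lit 20520) (nat_lit 6) (nat_lit 270)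 (nat_lit 5) (nat_lit 156) (nat_lit 173) (nat_lit 181)) (PT.lf (nat_lit 20976) (nat_lit 6) (nat_lit 276) (nat_lit 5) (nat_lit 157) (nat_lit 173) (nat_lit 180))) (PT.nd (nat_lit 78) (PT.lf (nat_lit 21432) (nat_lit 6) (nat_lit 282) (nat_lit 5) (nat_lit 158) (nat_lit 173) (nat_lit 179)) (PT.nd (nat_lit 78) (PT.lf (nat_lit 21964) (nat_lit 6) (nat_lit 289) (nat_lit 5) (nat_lit 159) (nat_lit 173) (nat_lit 178)) (PT.lf (nat_lit 22800) (nat_lit 6) (nat_lit 300) (nat_lit 5) (nat_lit 160) (nat_lit 173) (nat_lit 177)))))) (PT.nd (nat_lit 390) (PT.nd (nat_lit 156) (PT.nd (nat_lit 78) (PT.lf (nat_lit 23560) (nat_lit 6) (nat_lit 310) (nat_lit 5) (nat_lit 161) (nat_lit 173) (nat_lit 176)) (PT.lf (nat_lit 24244) (nat_lit 6) (nat_lit 319) (nat_lit 5) (nat_lit 162) (nat_lit 173) (nat_lit 175))) (PT.nd (nat_lit 78) (PT.lf (nat_lit 24852) (nat_lit 6) (nat_lit 327) (nat_lit 5) (nat_lit 163) (nat_lit 173) (nat_lit 174))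 (PT.nd (nat_lit 78) (PT.lf (nat_lit 25384) (nat_lit 3) (nat_lit 334) (nat_lit 4) (nat_lit 164) (nat_lit 173) (nat_lit 173)) (PT.lf (nat_lit 25764) (nat_lit 6) (nat_lit 339) (nat_lit 4) (nat_lit 165) (nat_lit 173) (nat_lit 172))))) (PT.nd (nat_lit 156) (PT.nd (nat_lit 78) (PT.lf (nat_lit 26068) (nat_lit 6) (nat_lit 343) (nat_lit 4) (nat_lit 166) (nat_lit 173) (nat_lit 171)) (PT.lf (nat_lit 26296) (nat_lit 6) (nat_lit 346) (nat_lit 4) (nat_lit 167) (nat_lit 173) (nat_lit 170))) (PT.nd (nat_lit 78) (PT.lf (nat_lit 26220) (nat_lit 6) (nat_lit 345) (nat_lit 4) (nat_lit 168) (nat_lit 173) (nat_lit 169)) (PT.nd (nat_lit 78) (PT.lf (nat_lit 26220) (nat_lit 6) (nat_lit 345) (nat_lit 2) (nat_lit 169) (nat_lit 173) (nat_lit 168)) (PT.lf (nat_lit 26296) (nat_lit 6) (nat_lit 346) (nat_lit 2) (nat_lit 170) (nat_lit 173) (nat_lit 167))))))))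
noncomputable def pc14 : PT := (PT.nd (nat_lit 52494) (PT.nd (nat_lit 780) (PT.nd (nat_lit 390) (PT.nd (nat_lit 156) (PT.nd (nat_lit 78) (PT.lf (nat_lit 26068) (nat_lit 6) (nat_lit 343) (nat_lit 2) (nat_lit 171) (nat_lit 173) (nat_lit 166)) (PT.lf (nat_lit 25764) (nat_lit 6) (nat_lit 339) (nat_lit 2) (nat_lit 172) (nat_lit 173) (nat_lit 165))) (PT.nd (nat_lit 78) (PT.lf (nat_lit 25384) (nat_lit 3) (nat_lit 334) (nat_lit 0) (nat_lit 173) (nat_lit 173) (nat_lit 164)) (PT.nd (nat_lit 78) (PT.lf (nat_lit 24852) (nat_lit 6) (nat_lit 327) (nat_lit 0) (nat_lit 174) (nat_lit 173) (nat_lit 163)) (PT.lf (nat_lit 24244) (nat_lit 6) (nat_lit 319) (nat_lit 0) (nat_lit 175) (nat_lit 173) (nat_lit 162))))) (PT.nd (nat_lit 156) (PT.nd (nat_lit 78) (PT.lf (nat_lit 23560) (nat_lit 6) (nat_lit 310) (nat_lit 0) (nat_lit 176) (nat_lit 173) (nat_lit 161)) (PT.lf (nat_lit 22800) (nat_lit 6) (nat_lit 300) (nat_lit 0)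 (nat_lit 177) (nat_lit 173) (nat_lit 160))) (PT.nd (nat_lit 78) (PT.lf (nat_lit 21964) (nat_lit 6) (nat_lit 289) (nat_lit 0) (nat_lit 178) (nat_lit 173) (nat_lit 159)) (PT.nd (nat_lit 78) (PT.lf (nat_lit 21432) (nat_lit 6) (nat_lit 282) (nat_lit 0) (nat_lit 179) (nat_lit 173) (nat_lit 158)) (PT.lf (nat_lit 20976) (nat_lit 6) (nat_lit 276) (nat_lit 0) (nat_lit 180) (nat_lit 173) (nat_lit 157)))))) (PT.nd (nat_lit 51324) (PT.nd (nat_lit 51090) (PT.nd (nat_lit 51012) (PT.lf (nat_lit 20520) (nat_lit 6) (nat_lit 270) (nat_lit 0) (nat_lit 181) (nat_lit 173) (nat_lit 156)) (PT.lf (nat_lit 19836) (nat_lit 6) (nat_lit 261) (nat_lit 5) (nat_lit 154) (nat_lit 174) (nat_lit 182))) (PT.nd (nat_lit 78) (PT.lf (nat_lit 20216) (nat_lit 6) (nat_lit 266) (nat_lit 5) (nat_lit 155) (nat_lit 174) (nat_lit 181)) (PT.nd (nat_lit 78) (PT.lf (nat_lit 20596) (nat_lit 6) (nat_lit 271) (nat_lit 5) (nat_lit 156) (nat_lit 174)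 (nat_lit 180)) (PT.lf (nat_lit 21052) (nat_lit 6) (nat_lit 277) (nat_lit 5) (nat_lit 157) (nat_lit 174) (nat_lit 179))))) (PT.nd (nat_lit 156) (PT.nd (nat_lit 78) (PT.lf (nat_lit 21508) (nat_lit 6) (nat_lit 283) (nat_lit 5) (nat_lit 158) (nat_lit 174) (nat_lit 178)) (PT.lf (nat_lit 22040) (nat_lit 6) (nat_lit 290) (nat_lit 5) (nat_lit 159) (nat_lit 174) (nat_lit 177))) (PT.nd (nat_lit 78) (PT.lf (nat_lit 22876) (nat_lit 6) (nat_lit 301) (nat_lit 5) (nat_lit 160) (nat_lit 174) (nat_lit 176)) (PT.nd (nat_lit 78) (PT.lf (nat_lit 23636) (nat_lit 6) (nat_lit 311) (nat_lit 5) (nat_lit 161) (nat_lit 174) (nat_lit 175)) (PT.lf (nat_lit 24320) (nat_lit 3) (nat_lit 320) (nat_lit 4) (nat_lit 162) (nat_lit 174) (nat_lit 174))))))) (PT.nd (nat_lit 780) (PT.nd (nat_lit 390) (PT.nd (nat_lit 156) (PT.nd (nat_lit 78) (PT.lf (nat_lit 24852) (nat_lit 6) (nat_lit 327) (nat_lit 4) (nat_lit 163) (nat_lit 174) (nat_lit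 173)) (PT.lf (nat_lit 25308) (nat_lit 6) (nat_lit 333) (nat_lit 4) (nat_lit 164) (nat_lit 174) (nat_lit 172))) (PT.nd (nat_lit 78) (PT.lf (nat_lit 25688) (nat_lit 6) (nat_lit 338) (nat_lit 4) (nat_lit 165) (nat_lit 174) (nat_lit 171)) (PT.nd (nat_lit 78) (PT.lf (nat_lit 25992) (nat_lit 6) (nat_lit 342) (nat_lit 4) (nat_lit 166) (nat_lit 174) (nat_lit 170)) (PT.lf (nat_lit 25916) (nat_lit 6) (nat_lit 341) (nat_lit 4) (nat_lit 167) (nat_lit 174) (nat_lit 169))))) (PT.nd (nat_lit 156) (PT.nd (nat_lit 78) (PT.lf (nat_lit 25840) (nat_lit 3) (nat_lit 340) (nat_lit 2) (nat_lit 168) (nat_lit 174) (nat_lit 168)) (PT.lf (nat_lit 25916) (nat_lit 6) (nat_lit 341) (nat_lit 2) (nat_lit 169) (nat_lit 174) (nat_lit 167))) (PT.nd (nat_lit 78) (PT.lf (nat_lit 25992) (nat_lit 6) (nat_lit 342) (nat_lit 2) (nat_lit 170) (nat_lit 174) (nat_lit 166)) (PT.nd (nat_lit 78) (PT.lf (nat_lit 25688) (nat_lit 6) (nat_lit 338)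 (nat_lit 2) (nat_lit 171) (nat_lit 174) (nat_lit 165)) (PT.lf (nat_lit 25308) (nat_lit 6) (nat_lit 333) (nat_lit 2) (nat_lit 172) (nat_lit 174) (nat_lit 164)))))) (PT.nd (nat_lit 390) (PT.nd (nat_lit 156) (PT.nd (nat_lit 78) (PT.lf (nat_lit 24852) (nat_lit 6) (nat_lit 327) (nat_lit 2) (nat_lit 173) (nat_lit 174) (nat_lit 163)) (PT.lf (nat_lit 24320) (nat_lit 3) (nat_lit 320) (nat_lit 0) (nat_lit 174) (nat_lit 174) (nat_lit 162))) (PT.nd (nat_lit 78) (PT.lf (nat_lit 23636) (nat_lit 6) (nat_lit 311) (nat_lit 0) (nat_lit 175) (nat_lit 174) (nat_lit 161)) (PT.nd (nat_lit 78) (PT.lf (nat_lit 22876) (nat_lit 6) (nat_lit 301) (nat_lit 0) (nat_lit 176) (nat_lit 174) (nat_lit 160)) (PT.lf (nat_lit 22040) (nat_lit 6) (nat_lit 290) (nat_lit 0) (nat_lit 177) (nat_lit 174) (nat_lit 159))))) (PT.nd (nat_lit 156) (PT.nd (nat_lit 78) (PT.lf (nat_lit 21508) (nat_lit 6) (nat_lit 283) (nat_lit 0) (nat_lit 178) (nat_lit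 174) (nat_lit 158)) (PT.lf (nat_lit 21052) (nat_lit 6) (nat_lit 277) (nat_lit 0) (nat_lit 179) (nat_lit 174) (nat_lit 157))) (PT.nd (nat_lit 78) (PT.lf (nat_lit 20596) (nat_lit 6) (nat_lit 271) (nat_lit 0) (nat_lit 180) (nat_lit 174) (nat_lit 156)) (PT.nd (nat_lit 78) (PT.lf (nat_lit 20216) (nat_lit 6) (nat_lit 266) (nat_lit 0) (nat_lit 181) (nat_lit 174) (nat_lit 155)) (PT.lf (nat_lit 19836) (nat_lit 6) (nat_lit 261) (nat_lit 0) (nat_lit 182) (nat_lit 174) (nat_lit 154))))))))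
noncomputable def pc15 : PT := (PT.nd (nat_lit 1560) (PT.nd (nat_lit 780) (PT.nd (nat_lit 390) (PT.nd (nat_lit 156) (PT.nd (nat_lit 78) (PT.lf (nat_lit 19532) (nat_lit 6) (nat_lit 257) (nat_lit 5) (nat_lit 153) (nat_lit 175) (nat_lit 182)) (PT.lf (nat_lit 19912) (nat_lit 6) (nat_lit 262) (nat_lit 5) (nat_lit 154) (nat_lit 175) (nat_lit 181))) (PT.nd (nat_lit 78) (PT.lf (nat_lit 20292) (nat_lit 6) (nat_lit 267) (nat_lit 5) (nat_lit 155) (nat_lit 175) (nat_lit 180)) (PT.nd (nat_lit 78) (PT.lf (nat_lit 20672) (nat_lit 6) (nat_lit 272) (nat_lit 5) (nat_lit 156) (nat_lit 175) (nat_lit 179)) (PT.lf (nat_lit 21128) (nat_lit 6) (nat_lit 278) (nat_lit 5) (nat_lit 157) (nat_lit 175) (nat_lit 178))))) (PT.nd (nat_lit 156) (PT.nd (nat_lit 78) (PT.lf (nat_lit 21584) (nat_lit 6) (nat_lit 284) (nat_lit 5) (nat_lit 158) (nat_lit 175) (nat_lit 177)) (PT.lf (nat_lit 22116) (nat_lit 6) (nat_lit 291) (nat_lit 5) (nat_lit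 159) (nat_lit 175) (nat_lit 176))) (PT.nd (nat_lit 78) (PT.lf (nat_lit 22952) (nat_lit 3) (nat_lit 302) (nat_lit 4) (nat_lit 160) (nat_lit 175) (nat_lit 175)) (PT.nd (nat_lit 78) (PT.lf (nat_lit 23636) (nat_lit 6) (nat_lit 311) (nat_lit 4) (nat_lit 161) (nat_lit 175) (nat_lit 174)) (PT.lf (nat_lit 24244) (nat_lit 6) (nat_lit 319) (nat_lit 4) (nat_lit 162) (nat_lit 175) (nat_lit 173)))))) (PT.nd (nat_lit 390) (PT.nd (nat_lit 156) (PT.nd (nat_lit 78) (PT.lf (nat_lit 24776) (nat_lit 6) (nat_lit 326) (nat_lit 4) (nat_lit 163) (nat_lit 175) (nat_lit 172)) (PT.lf (nat_lit 25232) (nat_lit 6) (nat_lit 332) (nat_lit 4) (nat_lit 164) (nat_lit 175) (nat_lit 171))) (PT.nd (nat_lit 78) (PT.lf (nat_lit 25612) (nat_lit 6) (nat_lit 337) (nat_lit 4) (nat_lit 165) (nat_lit 175) (nat_lit 170)) (PT.nd (nat_lit 78) (PT.lf (nat_lit 25536) (nat_lit 6) (nat_lit 336) (nat_lit 4) (nat_lit 166) (nat_lit 175) (nat_lit 169))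 (PT.lf (nat_lit 25460) (nat_lit 6) (nat_lit 335) (nat_lit 4) (nat_lit 167) (nat_lit 175) (nat_lit 168))))) (PT.nd (nat_lit 156) (PT.nd (nat_lit 78) (PT.lf (nat_lit 25460) (nat_lit 6) (nat_lit 335) (nat_lit 2) (nat_lit 168) (nat_lit 175) (nat_lit 167)) (PT.lf (nat_lit 25536) (nat_lit 6) (nat_lit 336) (nat_lit 2) (nat_lit 169) (nat_lit 175) (nat_lit 166))) (PT.nd (nat_lit 78) (PT.lf (nat_lit 25612) (nat_lit 6) (nat_lit 337) (nat_lit 2) (nat_lit 170) (nat_lit 175) (nat_lit 165)) (PT.nd (nat_lit 78) (PT.lf (nat_lit 25232) (nat_lit 6) (nat_lit 332) (nat_lit 2) (nat_lit 171) (nat_lit 175) (nat_lit 164)) (PT.lf (nat_lit 24776) (nat_lit 6) (nat_lit 326) (nat_lit 2) (nat_lit 172) (nat_lit 175) (nat_lit 163))))))) (PT.nd (nat_lit 51402) (PT.nd (nat_lit 390) (PT.nd (nat_lit 156) (PT.nd (nat_lit 78) (PT.lf (nat_lit 24244) (nat_lit 6) (nat_lit 319) (nat_lit 2) (nat_lit 173) (nat_lit 175) (nat_lit 162)) (PT.lf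 (nat_lit 23636) (nat_lit 6) (nat_lit 311) (nat_lit 2) (nat_lit 174) (nat_lit 175) (nat_lit 161))) (PT.nd (nat_lit 78) (PT.lf (nat_lit 22952) (nat_lit 3) (nat_lit 302) (nat_lit 0) (nat_lit 175) (nat_lit 175) (nat_lit 160)) (PT.nd (nat_lit 78) (PT.lf (nat_lit 22116) (nat_lit 6) (nat_lit 291) (nat_lit 0) (nat_lit 176) (nat_lit 175) (nat_lit 159)) (PT.lf (nat_lit 21584) (nat_lit 6) (nat_lit 284) (nat_lit 0) (nat_lit 177) (nat_lit 175) (nat_lit 158))))) (PT.nd (nat_lit 156) (PT.nd (nat_lit 78) (PT.lf (nat_lit 21128) (nat_lit 6) (nat_lit 278) (nat_lit 0) (nat_lit 178) (nat_lit 175) (nat_lit 157)) (PT.lf (nat_lit 20672) (nat_lit 6) (nat_lit 272) (nat_lit 0) (nat_lit 179) (nat_lit 175) (nat_lit 156))) (PT.nd (nat_lit 78) (PT.lf (nat_lit 20292) (nat_lit 6) (nat_lit 267) (nat_lit 0) (nat_lit 180) (nat_lit 175) (nat_lit 155)) (PT.nd (nat_lit 78) (PT.lf (nat_lit 19912) (nat_lit 6) (nat_lit 262) (nat_lit 0)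 (nat_lit 181) (nat_lit 175) (nat_lit 154)) (PT.lf (nat_lit 19532) (nat_lit 6) (nat_lit 257) (nat_lit 0) (nat_lit 182) (nat_lit 175) (nat_lit 153)))))) (PT.nd (nat_lit 390) (PT.nd (nat_lit 156) (PT.nd (nat_lit 78) (PT.lf (nat_lit 18924) (nat_lit 6) (nat_lit 249) (nat_lit 5) (nat_lit 151) (nat_lit 176) (nat_lit 183)) (PT.lf (nat_lit 19228) (nat_lit 6) (nat_lit 253) (nat_lit 5) (nat_lit 152) (nat_lit 176) (nat_lit 182))) (PT.nd (nat_lit 78) (PT.lf (nat_lit 19608) (nat_lit 6) (nat_lit 258) (nat_lit 5) (nat_lit 153) (nat_lit 176) (nat_lit 181)) (PT.nd (nat_lit 78) (PT.lf (nat_lit 19988) (nat_lit 6) (nat_lit 263) (nat_lit 5) (nat_lit 154) (nat_lit 176) (nat_lit 180)) (PT.lf (nat_lit 20368) (nat_lit 6) (nat_lit 268) (nat_lit 5) (nat_lit 155) (nat_lit 176) (nat_lit 179))))) (PT.nd (nat_lit 156) (PT.nd (nat_lit 78) (PT.lf (nat_lit 20748) (nat_lit 6) (nat_lit 273) (nat_lit 5) (nat_lit 156) (nat_lit 176)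 (nat_lit 178)) (PT.lf (nat_lit 21204) (nat_lit 6) (nat_lit 279) (nat_lit 5) (nat_lit 157) (nat_lit 176) (nat_lit 177))) (PT.nd (nat_lit 78) (PT.lf (nat_lit 21660) (nat_lit 3) (nat_lit 285) (nat_lit 4) (nat_lit 158) (nat_lit 176) (nat_lit 176)) (PT.nd (nat_lit 78) (PT.lf (nat_lit 22116) (nat_lit 6) (nat_lit 291) (nat_lit 4) (nat_lit 159) (nat_lit 176) (nat_lit 175)) (PT.lf (nat_lit 22876) (nat_lit 6) (nat_lit 301) (nat_lit 4) (nat_lit 160) (nat_lit 176) (nat_lit 174))))))))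
noncomputable def pc16 : PT := (PT.nd (nat_lit 1482) (PT.nd (nat_lit 702) (PT.nd (nat_lit 312) (PT.nd (nat_lit 156) (PT.nd (nat_lit 78) (PT.lf (nat_lit 23560) (nat_lit 6) (nat_lit 310) (nat_lit 4) (nat_lit 161) (nat_lit 176) (nat_lit 173)) (PT.lf (nat_lit 24168) (nat_lit 6) (nat_lit 318) (nat_lit 4) (nat_lit 162) (nat_lit 176) (nat_lit 172))) (PT.nd (nat_lit 78) (PT.lf (nat_lit 24700) (nat_lit 6) (nat_lit 325) (nat_lit 4) (nat_lit 163) (nat_lit 176) (nat_lit 171)) (PT.lf (nat_lit 25156) (nat_lit 6) (nat_lit 331) (nat_lit 4) (nat_lit 164) (nat_lit 176) (nat_lit 170)))) (PT.nd (nat_lit 156) (PT.nd (nat_lit 78) (PT.lf (nat_lit 25080) (nat_lit 6) (nat_lit 330) (nat_lit 4) (nat_lit 165) (nat_lit 176) (nat_lit 169)) (PT.lf (nat_lit 25004) (nat_lit 6) (nat_lit 329) (nat_lit 4) (nat_lit 166) (nat_lit 176) (nat_lit 168))) (PT.nd (nat_lit 78) (PT.lf (nat_lit 24928) (nat_lit 3) (nat_lit 328) (nat_lit 2) (nat_lit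 167) (nat_lit 176) (nat_lit 167)) (PT.nd (nat_lit 78) (PT.lf (nat_lit 25004) (nat_lit 6) (nat_lit 329) (nat_lit 2) (nat_lit 168) (nat_lit 176) (nat_lit 166)) (PT.lf (nat_lit 25080) (nat_lit 6) (nat_lit 330) (nat_lit 2) (nat_lit 169) (nat_lit 176) (nat_lit 165)))))) (PT.nd (nat_lit 390) (PT.nd (nat_lit 156) (PT.nd (nat_lit 78) (PT.lf (nat_lit 25156) (nat_lit 6) (nat_lit 331) (nat_lit 2) (nat_lit 170) (nat_lit 176) (nat_lit 164)) (PT.lf (nat_lit 24700) (nat_lit 6) (nat_lit 325) (nat_lit 2) (nat_lit 171) (nat_lit 176) (nat_lit 163))) (PT.nd (nat_lit 78) (PT.lf (nat_lit 24168) (nat_lit 6) (nat_lit 318) (nat_lit 2) (nat_lit 172) (nat_lit 176) (nat_lit 162)) (PT.nd (nat_lit 78) (PT.lf (nat_lit 23560) (nat_lit 6) (nat_lit 310) (nat_lit 2) (nat_lit 173) (nat_lit 176) (nat_lit 161)) (PT.lf (nat_lit 22876) (nat_lit 6) (nat_lit 301) (nat_lit 2) (nat_lit 174) (nat_lit 176) (nat_lit 160))))) (PT.nd (nat_lit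 156) (PT.nd (nat_lit 78) (PT.lf (nat_lit 22116) (nat_lit 6) (nat_lit 291) (nat_lit 2) (nat_lit 175) (nat_lit 176) (nat_lit 159)) (PT.lf (nat_lit 21660) (nat_lit 3) (nat_lit 285) (nat_lit 0) (nat_lit 176) (nat_lit 176) (nat_lit 158))) (PT.nd (nat_lit 78) (PT.lf (nat_lit 21204) (nat_lit 6) (nat_lit 279) (nat_lit 0) (nat_lit 177) (nat_lit 176) (nat_lit 157)) (PT.nd (nat_lit 78) (PT.lf (nat_lit 20748) (nat_lit 6) (nat_lit 273) (nat_lit 0) (nat_lit 178) (nat_lit 176) (nat_lit 156)) (PT.lf (nat_lit 20368) (nat_lit 6) (nat_lit 268) (nat_lit 0) (nat_lit 179) (nat_lit 176) (nat_lit 155))))))) (PT.nd (nat_lit 51246) (PT.nd (nat_lit 50856) (PT.nd (nat_lit 156) (PT.nd (nat_lit 78) (PT.lf (nat_lit 19988) (nat_lit 6) (nat_lit 263) (nat_lit 0) (nat_lit 180) (nat_lit 176) (nat_lit 154)) (PT.lf (nat_lit 19608) (nat_lit 6) (nat_lit 258) (nat_lit 0) (nat_lit 181) (nat_lit 176) (nat_lit 153))) (PT.nd (nat_lit 78)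 (PT.lf (nat_lit 19228) (nat_lit 6) (nat_lit 253) (nat_lit 0) (nat_lit 182) (nat_lit 176) (nat_lit 152)) (PT.nd (nat_lit 50544) (PT.lf (nat_lit 18924) (nat_lit 6) (nat_lit 249) (nat_lit 0) (nat_lit 183) (nat_lit 176) (nat_lit 151)) (PT.lf (nat_lit 18620) (nat_lit 6) (nat_lit 245) (nat_lit 5) (nat_lit 150) (nat_lit 177) (nat_lit 183))))) (PT.nd (nat_lit 156) (PT.nd (nat_lit 78) (PT.lf (nat_lit 19000) (nat_lit 6) (nat_lit 250) (nat_lit 5) (nat_lit 151) (nat_lit 177) (nat_lit 182)) (PT.lf (nat_lit 19304) (nat_lit 6) (nat_lit 254) (nat_lit 5) (nat_lit 152) (nat_lit 177) (nat_lit 181))) (PT.nd (nat_lit 78) (PT.lf (nat_lit 19684) (nat_lit 6) (nat_lit 259) (nat_lit 5) (nat_lit 153) (nat_lit 177) (nat_lit 180)) (PT.nd (nat_lit 78) (PT.lf (nat_lit 20064) (nat_lit 6) (nat_lit 264) (nat_lit 5) (nat_lit 154) (nat_lit 177) (nat_lit 179)) (PT.lf (nat_lit 20444) (nat_lit 6) (nat_lit 269) (nat_lit 5) (nat_lit 155)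 (nat_lit 177) (nat_lit 178)))))) (PT.nd (nat_lit 390) (PT.nd (nat_lit 156) (PT.nd (nat_lit 78) (PT.lf (nat_lit 20824) (nat_lit 3) (nat_lit 274) (nat_lit 4) (nat_lit 156) (nat_lit 177) (nat_lit 177)) (PT.lf (nat_lit 21204) (nat_lit 6) (nat_lit 279) (nat_lit 4) (nat_lit 157) (nat_lit 177) (nat_lit 176))) (PT.nd (nat_lit 78) (PT.lf (nat_lit 21584) (nat_lit 6) (nat_lit 284) (nat_lit 4) (nat_lit 158) (nat_lit 177) (nat_lit 175)) (PT.nd (nat_lit 78) (PT.lf (nat_lit 22040) (nat_lit 6) (nat_lit 290) (nat_lit 4) (nat_lit 159) (nat_lit 177) (nat_lit 174)) (PT.lf (nat_lit 22800) (nat_lit 6) (nat_lit 300) (nat_lit 4) (nat_lit 160) (nat_lit 177) (nat_lit 173))))) (PT.nd (nat_lit 156) (PT.nd (nat_lit 78) (PT.lf (nat_lit 23484) (nat_lit 6) (nat_lit 309) (nat_lit 4) (nat_lit 161) (nat_lit 177) (nat_lit 172)) (PT.lf (nat_lit 24092) (nat_lit 6) (nat_lit 317) (nat_lit 4) (nat_lit 162) (nat_lit 177) (nat_lit 171)))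 (PT.nd (nat_lit 78) (PT.lf (nat_lit 24624) (nat_lit 6) (nat_lit 324) (nat_lit 4) (nat_lit 163) (nat_lit 177) (nat_lit 170)) (PT.nd (nat_lit 78) (PT.lf (nat_lit 24548) (nat_lit 6) (nat_lit 323) (nat_lit 4) (nat_lit 164) (nat_lit 177) (nat_lit 169)) (PT.lf (nat_lit 24472) (nat_lit 6) (nat_lit 322) (nat_lit 4) (nat_lit 165) (nat_lit 177) (nat_lit 168))))))))
noncomputable def pc17 : PT := (PT.nd (nat_lit 51870) (PT.nd (nat_lit 780) (PT.nd (nat_lit 390) (PT.nd (nat_lit 156) (PT.nd (nat_lit 78) (PT.lf (nat_lit 24396) (nat_lit 6) (nat_lit 321) (nat_lit 4) (nat_lit 166) (nat_lit 177) (nat_lit 167)) (PT.lf (nat_lit 24396) (nat_lit 6) (nat_lit 321) (nat_lit 2) (nat_lit 167) (nat_lit 177) (nat_lit 166))) (PT.nd (nat_lit 78) (PT.lf (nat_lit 24472) (nat_lit 6) (nat_lit 322) (nat_lit 2) (nat_lit 168) (nat_lit 177) (nat_lit 165)) (PT.nd (nat_lit 78) (PT.lf (nat_lit 24548) (nat_lit 6) (nat_lit 323) (nat_lit 2)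 (nat_lit 169) (nat_lit 177) (nat_lit 164)) (PT.lf (nat_lit 24624) (nat_lit 6) (nat_lit 324) (nat_lit 2) (nat_lit 170) (nat_lit 177) (nat_lit 163))))) (PT.nd (nat_lit 156) (PT.nd (nat_lit 78) (PT.lf (nat_lit 24092) (nat_lit 6) (nat_lit 317) (nat_lit 2) (nat_lit 171) (nat_lit 177) (nat_lit 162)) (PT.lf (nat_lit 23484) (nat_lit 6) (nat_lit 309) (nat_lit 2) (nat_lit 172) (nat_lit 177) (nat_lit 161))) (PT.nd (nat_lit 78) (PT.lf (nat_lit 22800) (nat_lit 6) (nat_lit 300) (nat_lit 2) (nat_lit 173) (nat_lit 177) (nat_lit 160)) (PT.nd (nat_lit 78) (PT.lf (nat_lit 22040) (nat_lit 6) (nat_lit 290) (nat_lit 2) (nat_lit 174) (nat_lit 177) (nat_lit 159)) (PT.lf (nat_lit 21584) (nat_lit 6) (nat_lit 284) (nat_lit 2) (nat_lit 175) (nat_lit 177) (nat_lit 158)))))) (PT.nd (nat_lit 390) (PT.nd (nat_lit 156) (PT.nd (nat_lit 78) (PT.lf (nat_lit 21204) (nat_lit 6) (nat_lit 279) (nat_lit 2) (nat_lit 176) (nat_lit 177)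 (nat_lit 157)) (PT.lf (nat_lit 20824) (nat_lit 3) (nat_lit 274) (nat_lit 0) (nat_lit 177) (nat_lit 177) (nat_lit 156))) (PT.nd (nat_lit 78) (PT.lf (nat_lit 20444) (nat_lit 6) (nat_lit 269) (nat_lit 0) (nat_lit 178) (nat_lit 177) (nat_lit 155)) (PT.nd (nat_lit 78) (PT.lf (nat_lit 20064) (nat_lit 6) (nat_lit 264) (nat_lit 0) (nat_lit 179) (nat_lit 177) (nat_lit 154)) (PT.lf (nat_lit 19684) (nat_lit 6) (nat_lit 259) (nat_lit 0) (nat_lit 180) (nat_lit 177) (nat_lit 153))))) (PT.nd (nat_lit 156) (PT.nd (nat_lit 78) (PT.lf (nat_lit 19304) (nat_lit 6) (nat_lit 254) (nat_lit 0) (nat_lit 181) (nat_lit 177) (nat_lit 152)) (PT.lf (nat_lit 19000) (nat_lit 6) (nat_lit 250) (nat_lit 0) (nat_lit 182) (nat_lit 177) (nat_lit 151))) (PT.nd (nat_lit 50388) (PT.lf (nat_lit 18620) (nat_lit 6) (nat_lit 245) (nat_lit 0) (nat_lit 183) (nat_lit 177) (nat_lit 150)) (PT.nd (nat_lit 78) (PT.lf (nat_lit 18088) (nat_lit 6)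 (nat_lit 238) (nat_lit 5) (nat_lit 148) (nat_lit 178) (nat_lit 184)) (PT.lf (nat_lit 18392) (nat_lit 6) (nat_lit 242) (nat_lit 5) (nat_lit 149) (nat_lit 178) (nat_lit 183))))))) (PT.nd (nat_lit 780) (PT.nd (nat_lit 390) (PT.nd (nat_lit 156) (PT.nd (nat_lit 78) (PT.lf (nat_lit 18696) (nat_lit 6) (nat_lit 246) (nat_lit 5) (nat_lit 150) (nat_lit 178) (nat_lit 182)) (PT.lf (nat_lit 19076) (nat_lit 6) (nat_lit 251) (nat_lit 5) (nat_lit 151) (nat_lit 178) (nat_lit 181))) (PT.nd (nat_lit 78) (PT.lf (nat_lit 19380) (nat_lit 6) (nat_lit 255) (nat_lit 5) (nat_lit 152) (nat_lit 178) (nat_lit 180)) (PT.nd (nat_lit 78) (PT.lf (nat_lit 19760) (nat_lit 6) (nat_lit 260) (nat_lit 5) (nat_lit 153) (nat_lit 178) (nat_lit 179)) (PT.lf (nat_lit 20140) (nat_lit 3) (nat_lit 265) (nat_lit 4) (nat_lit 154) (nat_lit 178) (nat_lit 178))))) (PT.nd (nat_lit 156) (PT.nd (nat_lit 78) (PT.lf (nat_lit 20444) (nat_lit 6) (nat_lit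 269) (nat_lit 4) (nat_lit 155) (nat_lit 178) (nat_lit 177)) (PT.lf (nat_lit 20748) (nat_lit 6) (nat_lit 273) (nat_lit 4) (nat_lit 156) (nat_lit 178) (nat_lit 176))) (PT.nd (nat_lit 78) (PT.lf (nat_lit 21128) (nat_lit 6) (nat_lit 278) (nat_lit 4) (nat_lit 157) (nat_lit 178) (nat_lit 175)) (PT.nd (nat_lit 78) (PT.lf (nat_lit 21508) (nat_lit 6) (nat_lit 283) (nat_lit 4) (nat_lit 158) (nat_lit 178) (nat_lit 174)) (PT.lf (nat_lit 21964) (nat_lit 6) (nat_lit 289) (nat_lit 4) (nat_lit 159) (nat_lit 178) (nat_lit 173)))))) (PT.nd (nat_lit 390) (PT.nd (nat_lit 156) (PT.nd (nat_lit 78) (PT.lf (nat_lit 22724) (nat_lit 6) (nat_lit 299) (nat_lit 4) (nat_lit 160) (nat_lit 178) (nat_lit 172)) (PT.lf (nat_lit 23408) (nat_lit 6) (nat_lit 308) (nat_lit 4) (nat_lit 161) (nat_lit 178) (nat_lit 171))) (PT.nd (nat_lit 78) (PT.lf (nat_lit 24016) (nat_lit 6) (nat_lit 316) (nat_lit 4) (nat_lit 162) (nat_lit 178) (nat_lit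 170)) (PT.nd (nat_lit 78) (PT.lf (nat_lit 23940) (nat_lit 6) (nat_lit 315) (nat_lit 4) (nat_lit 163) (nat_lit 178) (nat_lit 169)) (PT.lf (nat_lit 23864) (nat_lit 6) (nat_lit 314) (nat_lit 4) (nat_lit 164) (nat_lit 178) (nat_lit 168))))) (PT.nd (nat_lit 156) (PT.nd (nat_lit 78) (PT.lf (nat_lit 23788) (nat_lit 6) (nat_lit 313) (nat_lit 4) (nat_lit 165) (nat_lit 178) (nat_lit 167)) (PT.lf (nat_lit 23712) (nat_lit 3) (nat_lit 312) (nat_lit 2) (nat_lit 166) (nat_lit 178) (nat_lit 166))) (PT.nd (nat_lit 78) (PT.lf (nat_lit 23788) (nat_lit 6) (nat_lit 313) (nat_lit 2) (nat_lit 167) (nat_lit 178) (nat_lit 165)) (PT.nd (nat_lit 78) (PT.lf (nat_lit 23864) (nat_lit 6) (nat_lit 314) (nat_lit 2) (nat_lit 168) (nat_lit 178) (nat_lit 164)) (PT.lf (nat_lit 23940) (nat_lit 6) (nat_lit 315) (nat_lit 2) (nat_lit 169) (nat_lit 178) (nat_lit 163))))))))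
noncomputable def pc18 : PT := (PT.nd (nat_lit 51636) (PT.nd (nat_lit 702) (PT.nd (nat_lit 312) (PT.nd (nat_lit 156) (PT.nd (nat_lit 78) (PT.lf (nat_lit 24016) (nat_lit 6) (nat_lit 316) (nat_lit 2) (nat_lit 170) (nat_lit 178) (nat_lit 162)) (PT.lf (nat_lit 23408) (nat_lit 6) (nat_lit 308) (nat_lit 2) (nat_lit 171) (nat_lit 178) (nat_lit 161))) (PT.nd (nat_lit 78) (PT.lf (nat_lit 22724) (nat_lit 6) (nat_lit 299) (nat_lit 2) (nat_lit 172) (nat_lit 178) (nat_lit 160)) (PT.lf (nat_lit 21964) (nat_lit 6) (nat_lit 289) (nat_lit 2) (nat_lit 173) (nat_lit 178) (nat_lit 159)))) (PT.nd (nat_lit 156) (PT.nd (nat_lit 78) (PT.lf (nat_lit 21508) (nat_lit 6) (nat_lit 283) (nat_lit 2) (nat_lit 174) (nat_lit 178) (nat_lit 158)) (PT.lf (nat_lit 21128) (nat_lit 6) (nat_lit 278) (nat_lit 2) (nat_lit 175) (nat_lit 178) (nat_lit 157))) (PT.nd (nat_lit 78) (PT.lf (nat_lit 20748) (nat_lit 6) (nat_lit 273) (nat_lit 2)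 (nat_lit 176) (nat_lit 178) (nat_lit 156)) (PT.nd (nat_lit 78) (PT.lf (nat_lit 20444) (nat_lit 6) (nat_lit 269) (nat_lit 2) (nat_lit 177) (nat_lit 178) (nat_lit 155)) (PT.lf (nat_lit 20140) (nat_lit 3) (nat_lit 265) (nat_lit 0) (nat_lit 178) (nat_lit 178) (nat_lit 154)))))) (PT.nd (nat_lit 390) (PT.nd (nat_lit 156) (PT.nd (nat_lit 78) (PT.lf (nat_lit 19760) (nat_lit 6) (nat_lit 260) (nat_lit 0) (nat_lit 179) (nat_lit 178) (nat_lit 153)) (PT.lf (nat_lit 19380) (nat_lit 6) (nat_lit 255) (nat_lit 0) (nat_lit 180) (nat_lit 178) (nat_lit 152))) (PT.nd (nat_lit 78) (PT.lf (nat_lit 19076) (nat_lit 6) (nat_lit 251) (nat_lit 0) (nat_lit 181) (nat_lit 178) (nat_lit 151)) (PT.nd (nat_lit 78) (PT.lf (nat_lit 18696) (nat_lit 6) (nat_lit 246) (nat_lit 0) (nat_lit 182) (nat_lit 178) (nat_lit 150)) (PT.lf (nat_lit 18392) (nat_lit 6) (nat_lit 242) (nat_lit 0) (nat_lit 183) (nat_lit 178) (nat_lit 149))))) (PT.nd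 (nat_lit 50310) (PT.nd (nat_lit 50232) (PT.lf (nat_lit 18088) (nat_lit 6) (nat_lit 238) (nat_lit 0) (nat_lit 184) (nat_lit 178) (nat_lit 148)) (PT.lf (nat_lit 17860) (nat_lit 6) (nat_lit 235) (nat_lit 5) (nat_lit 147) (nat_lit 179) (nat_lit 184))) (PT.nd (nat_lit 78) (PT.lf (nat_lit 18164) (nat_lit 6) (nat_lit 239) (nat_lit 5) (nat_lit 148) (nat_lit 179) (nat_lit 183)) (PT.nd (nat_lit 78) (PT.lf (nat_lit 18468) (nat_lit 6) (nat_lit 243) (nat_lit 5) (nat_lit 149) (nat_lit 179) (nat_lit 182)) (PT.lf (nat_lit 18772) (nat_lit 6) (nat_lit 247) (nat_lit 5) (nat_lit 150) (nat_lit 179) (nat_lit 181))))))) (PT.nd (nat_lit 780) (PT.nd (nat_lit 390) (PT.nd (nat_lit 156) (PT.nd (nat_lit 78) (PT.lf (nat_lit 19152) (nat_lit 6) (nat_lit 252) (nat_lit 5) (nat_lit 151) (nat_lit 179) (nat_lit 180)) (PT.lf (nat_lit 19456) (nat_lit 3) (nat_lit 256) (nat_lit 4) (nat_lit 152) (nat_lit 179) (nat_lit 179))) (PT.nd (nat_lit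 78) (PT.lf (nat_lit 19760) (nat_lit 6) (nat_lit 260) (nat_lit 4) (nat_lit 153) (nat_lit 179) (nat_lit 178)) (PT.nd (nat_lit 78) (PT.lf (nat_lit 20064) (nat_lit 6) (nat_lit 264) (nat_lit 4) (nat_lit 154) (nat_lit 179) (nat_lit 177)) (PT.lf (nat_lit 20368) (nat_lit 6) (nat_lit 268) (nat_lit 4) (nat_lit 155) (nat_lit 179) (nat_lit 176))))) (PT.nd (nat_lit 156) (PT.nd (nat_lit 78) (PT.lf (nat_lit 20672) (nat_lit 6) (nat_lit 272) (nat_lit 4) (nat_lit 156) (nat_lit 179) (nat_lit 175)) (PT.lf (nat_lit 21052) (nat_lit 6) (nat_lit 277) (nat_lit 4) (nat_lit 157) (nat_lit 179) (nat_lit 174))) (PT.nd (nat_lit 78) (PT.lf (nat_lit 21432) (nat_lit 6) (nat_lit 282) (nat_lit 4) (nat_lit 158) (nat_lit 179) (nat_lit 173)) (PT.nd (nat_lit 78) (PT.lf (nat_lit 21888) (nat_lit 6) (nat_lit 288) (nat_lit 4) (nat_lit 159) (nat_lit 179) (nat_lit 172)) (PT.lf (nat_lit 22648) (nat_lit 6) (nat_lit 298) (nat_lit 4) (nat_lit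 160) (nat_lit 179) (nat_lit 171)))))) (PT.nd (nat_lit 390) (PT.nd (nat_lit 156) (PT.nd (nat_lit 78) (PT.lf (nat_lit 23332) (nat_lit 6) (nat_lit 307) (nat_lit 4) (nat_lit 161) (nat_lit 179) (nat_lit 170)) (PT.lf (nat_lit 23256) (nat_lit 6) (nat_lit 306) (nat_lit 4) (nat_lit 162) (nat_lit 179) (nat_lit 169))) (PT.nd (nat_lit 78) (PT.lf (nat_lit 23180) (nat_lit 6) (nat_lit 305) (nat_lit 4) (nat_lit 163) (nat_lit 179) (nat_lit 168)) (PT.nd (nat_lit 78) (PT.lf (nat_lit 23104) (nat_lit 6) (nat_lit 304) (nat_lit 4) (nat_lit 164) (nat_lit 179) (nat_lit 167)) (PT.lf (nat_lit 23028) (nat_lit 6) (nat_lit 303) (nat_lit 4) (nat_lit 165) (nat_lit 179) (nat_lit 166))))) (PT.nd (nat_lit 156) (PT.nd (nat_lit 78) (PT.lf (nat_lit 23028) (nat_lit 6) (nat_lit 303) (nat_lit 2) (nat_lit 166) (nat_lit 179) (nat_lit 165)) (PT.lf (nat_lit 23104) (nat_lit 6) (nat_lit 304) (nat_lit 2) (nat_lit 167) (nat_lit 179) (nat_lit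 164))) (PT.nd (nat_lit 78) (PT.lf (nat_lit 23180) (nat_lit 6) (nat_lit 305) (nat_lit 2) (nat_lit 168) (nat_lit 179) (nat_lit 163)) (PT.nd (nat_lit 78) (PT.lf (nat_lit 23256) (nat_lit 6) (nat_lit 306) (nat_lit 2) (nat_lit 169) (nat_lit 179) (nat_lit 162)) (PT.lf (nat_lit 23332) (nat_lit 6) (nat_lit 307) (nat_lit 2) (nat_lit 170) (nat_lit 179) (nat_lit 161))))))))
noncomputable def pc19 : PT := (PT.nd (nat_lit 51558) (PT.nd (nat_lit 780) (PT.nd (nat_lit 390) (PT.nd (nat_lit 156) (PT.nd (nat_lit 78) (PT.lf (nat_lit 22648) (nat_lit 6) (nat_lit 298) (nat_lit 2) (nat_lit 171) (nat_lit 179) (nat_lit 160)) (PT.lf (nat_lit 21888) (nat_lit 6) (nat_lit 288) (nat_lit 2) (nat_lit 172) (nat_lit 179) (nat_lit 159))) (PT.nd (nat_lit 78) (PT.lf (nat_lit 21432) (nat_lit 6) (nat_lit 282) (nat_lit 2) (nat_lit 173) (nat_lit 179) (nat_lit 158)) (PT.nd (nat_lit 78) (PT.lf (nat_lit 21052) (nat_lit 6) (nat_lit 277) (nat_lit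 2) (nat_lit 174) (nat_lit 179) (nat_lit 157)) (PT.lf (nat_lit 20672) (nat_lit 6) (nat_lit 272) (nat_lit 2) (nat_lit 175) (nat_lit 179) (nat_lit 156))))) (PT.nd (nat_lit 156) (PT.nd (nat_lit 78) (PT.lf (nat_lit 20368) (nat_lit 6) (nat_lit 268) (nat_lit 2) (nat_lit 176) (nat_lit 179) (nat_lit 155)) (PT.lf (nat_lit 20064) (nat_lit 6) (nat_lit 264) (nat_lit 2) (nat_lit 177) (nat_lit 179) (nat_lit 154))) (PT.nd (nat_lit 78) (PT.lf (nat_lit 19760) (nat_lit 6) (nat_lit 260) (nat_lit 2) (nat_lit 178) (nat_lit 179) (nat_lit 153)) (PT.nd (nat_lit 78) (PT.lf (nat_lit 19456) (nat_lit 3) (nat_lit 256) (nat_lit 0) (nat_lit 179) (nat_lit 179) (nat_lit 152)) (PT.lf (nat_lit 19152) (nat_lit 6) (nat_lit 252) (nat_lit 0) (nat_lit 180) (nat_lit 179) (nat_lit 151)))))) (PT.nd (nat_lit 50388) (PT.nd (nat_lit 156) (PT.nd (nat_lit 78) (PT.lf (nat_lit 18772) (nat_lit 6) (nat_lit 247) (nat_lit 0) (nat_lit 181) (nat_lit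 179) (nat_lit 150)) (PT.lf (nat_lit 18468) (nat_lit 6) (nat_lit 243) (nat_lit 0) (nat_lit 182) (nat_lit 179) (nat_lit 149))) (PT.nd (nat_lit 78) (PT.lf (nat_lit 18164) (nat_lit 6) (nat_lit 239) (nat_lit 0) (nat_lit 183) (nat_lit 179) (nat_lit 148)) (PT.nd (nat_lit 50076) (PT.lf (nat_lit 17860) (nat_lit 6) (nat_lit 235) (nat_lit 0) (nat_lit 184) (nat_lit 179) (nat_lit 147)) (PT.lf (nat_lit 17404) (nat_lit 6) (nat_lit 229) (nat_lit 5) (nat_lit 145) (nat_lit 180) (nat_lit 185))))) (PT.nd (nat_lit 156) (PT.nd (nat_lit 78) (PT.lf (nat_lit 17632) (nat_lit 6) (nat_lit 232) (nat_lit 5) (nat_lit 146) (nat_lit 180) (nat_lit 184)) (PT.lf (nat_lit 17936) (nat_lit 6) (nat_lit 236) (nat_lit 5) (nat_lit 147) (nat_lit 180) (nat_lit 183))) (PT.nd (nat_lit 78) (PT.lf (nat_lit 18240) (nat_lit 6) (nat_lit 240) (nat_lit 5) (nat_lit 148) (nat_lit 180) (nat_lit 182)) (PT.nd (nat_lit 78) (PT.lf (nat_lit 18544) (nat_lit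 6) (nat_lit 244) (nat_lit 5) (nat_lit 149) (nat_lit 180) (nat_lit 181)) (PT.lf (nat_lit 18848) (nat_lit 3) (nat_lit 248) (nat_lit 4) (nat_lit 150) (nat_lit 180) (nat_lit 180))))))) (PT.nd (nat_lit 780) (PT.nd (nat_lit 390) (PT.nd (nat_lit 156) (PT.nd (nat_lit 78) (PT.lf (nat_lit 19152) (nat_lit 6) (nat_lit 252) (nat_lit 4) (nat_lit 151) (nat_lit 180) (nat_lit 179)) (PT.lf (nat_lit 19380) (nat_lit 6) (nat_lit 255) (nat_lit 4) (nat_lit 152) (nat_lit 180) (nat_lit 178))) (PT.nd (nat_lit 78) (PT.lf (nat_lit 19684) (nat_lit 6) (nat_lit 259) (nat_lit 4) (nat_lit 153) (nat_lit 180) (nat_lit 177)) (PT.nd (nat_lit 78) (PT.lf (nat_lit 19988) (nat_lit 6) (nat_lit 263) (nat_lit 4) (nat_lit 154) (nat_lit 180) (nat_lit 176)) (PT.lf (nat_lit 20292) (nat_lit 6) (nat_lit 267) (nat_lit 4) (nat_lit 155) (nat_lit 180) (nat_lit 175))))) (PT.nd (nat_lit 156) (PT.nd (nat_lit 78) (PT.lf (nat_lit 20596) (nat_lit 6) (nat_lit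 271) (nat_lit 4) (nat_lit 156) (nat_lit 180) (nat_lit 174)) (PT.lf (nat_lit 20976) (nat_lit 6) (nat_lit 276) (nat_lit 4) (nat_lit 157) (nat_lit 180) (nat_lit 173))) (PT.nd (nat_lit 78) (PT.lf (nat_lit 21356) (nat_lit 6) (nat_lit 281) (nat_lit 4) (nat_lit 158) (nat_lit 180) (nat_lit 172)) (PT.nd (nat_lit 78) (PT.lf (nat_lit 21812) (nat_lit 6) (nat_lit 287) (nat_lit 4) (nat_lit 159) (nat_lit 180) (nat_lit 171)) (PT.lf (nat_lit 22572) (nat_lit 6) (nat_lit 297) (nat_lit 4) (nat_lit 160) (nat_lit 180) (nat_lit 170)))))) (PT.nd (nat_lit 390) (PT.nd (nat_lit 156) (PT.nd (nat_lit 78) (PT.lf (nat_lit 22496) (nat_lit 6) (nat_lit 296) (nat_lit 4) (nat_lit 161) (nat_lit 180) (nat_lit 169)) (PT.lf (nat_lit 22420) (nat_lit 6) (nat_lit 295) (nat_lit 4) (nat_lit 162) (nat_lit 180) (nat_lit 168))) (PT.nd (nat_lit 78) (PT.lf (nat_lit 22344) (nat_lit 6) (nat_lit 294) (nat_lit 4) (nat_lit 163) (nat_lit 180) (nat_lit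 167)) (PT.nd (nat_lit 78) (PT.lf (nat_lit 22268) (nat_lit 6) (nat_lit 293) (nat_lit 4) (nat_lit 164) (nat_lit 180) (nat_lit 166)) (PT.lf (nat_lit 22192) (nat_lit 3) (nat_lit 292) (nat_lit 2) (nat_lit 165) (nat_lit 180) (nat_lit 165))))) (PT.nd (nat_lit 156) (PT.nd (nat_lit 78) (PT.lf (nat_lit 22268) (nat_lit 6) (nat_lit 293) (nat_lit 2) (nat_lit 166) (nat_lit 180) (nat_lit 164)) (PT.lf (nat_lit 22344) (nat_lit 6) (nat_lit 294) (nat_lit 2) (nat_lit 167) (nat_lit 180) (nat_lit 163))) (PT.nd (nat_lit 78) (PT.lf (nat_lit 22420) (nat_lit 6) (nat_lit 295) (nat_lit 2) (nat_lit 168) (nat_lit 180) (nat_lit 162)) (PT.nd (nat_lit 78) (PT.lf (nat_lit 22496) (nat_lit 6) (nat_lit 296) (nat_lit 2) (nat_lit 169) (nat_lit 180) (nat_lit 161)) (PT.lf (nat_lit 22572) (nat_lit 6) (nat_lit 297) (nat_lit 2) (nat_lit 170) (nat_lit 180) (nat_lit 160))))))))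
noncomputable def pc20 : PT := (PT.nd (nat_lit 51324) (PT.nd (nat_lit 702) (PT.nd (nat_lit 312) (PT.nd (nat_lit 156) (PT.nd (nat_lit 78) (PT.lf (nat_lit 21812) (nat_lit 6) (nat_lit 287) (nat_lit 2) (nat_lit 171) (nat_lit 180) (nat_lit 159)) (PT.lf (nat_lit 21356) (nat_lit 6) (nat_lit 281) (nat_lit 2) (nat_lit 172) (nat_lit 180) (nat_lit 158))) (PT.nd (nat_lit 78) (PT.lf (nat_lit 20976) (nat_lit 6) (nat_lit 276) (nat_lit 2) (nat_lit 173) (nat_lit 180) (nat_lit 157)) (PT.lf (nat_lit 20596) (nat_lit 6) (nat_lit 271) (nat_lit 2) (nat_lit 174) (nat_lit 180) (nat_lit 156)))) (PT.nd (nat_lit 156) (PT.nd (nat_lit 78) (PT.lf (nat_lit 20292) (nat_lit 6) (nat_lit 267) (nat_lit 2) (nat_lit 175) (nat_lit 180) (nat_lit 155)) (PT.lf (nat_lit 19988) (nat_lit 6) (nat_lit 263) (nat_lit 2) (nat_lit 176) (nat_lit 180) (nat_lit 154))) (PT.nd (nat_lit 78) (PT.lf (nat_lit 19684) (nat_lit 6) (nat_lit 259) (nat_lit 2)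 (nat_lit 177) (nat_lit 180) (nat_lit 153)) (PT.nd (nat_lit 78) (PT.lf (nat_lit 19380) (nat_lit 6) (nat_lit 255) (nat_lit 2) (nat_lit 178) (nat_lit 180) (nat_lit 152)) (PT.lf (nat_lit 19152) (nat_lit 6) (nat_lit 252) (nat_lit 2) (nat_lit 179) (nat_lit 180) (nat_lit 151)))))) (PT.nd (nat_lit 390) (PT.nd (nat_lit 156) (PT.nd (nat_lit 78) (PT.lf (nat_lit 18848) (nat_lit 3) (nat_lit 248) (nat_lit 0) (nat_lit 180) (nat_lit 180) (nat_lit 150)) (PT.lf (nat_lit 18544) (nat_lit 6) (nat_lit 244) (nat_lit 0) (nat_lit 181) (nat_lit 180) (nat_lit 149))) (PT.nd (nat_lit 78) (PT.lf (nat_lit 18240) (nat_lit 6) (nat_lit 240) (nat_lit 0) (nat_lit 182) (nat_lit 180) (nat_lit 148)) (PT.nd (nat_lit 78) (PT.lf (nat_lit 17936) (nat_lit 6) (nat_lit 236) (nat_lit 0) (nat_lit 183) (nat_lit 180) (nat_lit 147)) (PT.lf (nat_lit 17632) (nat_lit 6) (nat_lit 232) (nat_lit 0) (nat_lit 184) (nat_lit 180) (nat_lit 146))))) (PT.nd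 (nat_lit 49998) (PT.nd (nat_lit 49920) (PT.lf (nat_lit 17404) (nat_lit 6) (nat_lit 229) (nat_lit 0) (nat_lit 185) (nat_lit 180) (nat_lit 145)) (PT.lf (nat_lit 17176) (nat_lit 6) (nat_lit 226) (nat_lit 5) (nat_lit 144) (nat_lit 181) (nat_lit 185))) (PT.nd (nat_lit 78) (PT.lf (nat_lit 17480) (nat_lit 6) (nat_lit 230) (nat_lit 5) (nat_lit 145) (nat_lit 181) (nat_lit 184)) (PT.nd (nat_lit 78) (PT.lf (nat_lit 17708) (nat_lit 6) (nat_lit 233) (nat_lit 5) (nat_lit 146) (nat_lit 181) (nat_lit 183)) (PT.lf (nat_lit 18012) (nat_lit 6) (nat_lit 237) (nat_lit 5) (nat_lit 147) (nat_lit 181) (nat_lit 182))))))) (PT.nd (nat_lit 780) (PT.nd (nat_lit 390) (PT.nd (nat_lit 156) (PT.nd (nat_lit 78) (PT.lf (nat_lit 18316) (nat_lit 3) (nat_lit 241) (nat_lit 4) (nat_lit 148) (nat_lit 181) (nat_lit 181)) (PT.lf (nat_lit 18544) (nat_lit 6) (nat_lit 244) (nat_lit 4) (nat_lit 149) (nat_lit 181) (nat_lit 180))) (PT.nd (nat_lit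 78) (PT.lf (nat_lit 18772) (nat_lit 6) (nat_lit 247) (nat_lit 4) (nat_lit 150) (nat_lit 181) (nat_lit 179)) (PT.nd (nat_lit 78) (PT.lf (nat_lit 19076) (nat_lit 6) (nat_lit 251) (nat_lit 4) (nat_lit 151) (nat_lit 181) (nat_lit 178)) (PT.lf (nat_lit 19304) (nat_lit 6) (nat_lit 254) (nat_lit 4) (nat_lit 152) (nat_lit 181) (nat_lit 177))))) (PT.nd (nat_lit 156) (PT.nd (nat_lit 78) (PT.lf (nat_lit 19608) (nat_lit 6) (nat_lit 258) (nat_lit 4) (nat_lit 153) (nat_lit 181) (nat_lit 176)) (PT.lf (nat_lit 19912) (nat_lit 6) (nat_lit 262) (nat_lit 4) (nat_lit 154) (nat_lit 181) (nat_lit 175))) (PT.nd (nat_lit 78) (PT.lf (nat_lit 20216) (nat_lit 6) (nat_lit 266) (nat_lit 4) (nat_lit 155) (nat_lit 181) (nat_lit 174)) (PT.nd (nat_lit 78) (PT.lf (nat_lit 20520) (nat_lit 6) (nat_lit 270) (nat_lit 4) (nat_lit 156) (nat_lit 181) (nat_lit 173)) (PT.lf (nat_lit 20900) (nat_lit 6) (nat_lit 275) (nat_lit 4) (nat_lit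 157) (nat_lit 181) (nat_lit 172)))))) (PT.nd (nat_lit 1170) (PT.nd (nat_lit 936) (PT.nd (nat_lit 78) (PT.lf (nat_lit 21280) (nat_lit 6) (nat_lit 280) (nat_lit 4) (nat_lit 158) (nat_lit 181) (nat_lit 171)) (PT.lf (nat_lit 21736) (nat_lit 6) (nat_lit 286) (nat_lit 4) (nat_lit 159) (nat_lit 181) (nat_lit 170))) (PT.nd (nat_lit 78) (PT.lf (nat_lit 21736) (nat_lit 6) (nat_lit 286) (nat_lit 2) (nat_lit 170) (nat_lit 181) (nat_lit 159)) (PT.nd (nat_lit 78) (PT.lf (nat_lit 21280) (nat_lit 6) (nat_lit 280) (nat_lit 2) (nat_lit 171) (nat_lit 181) (nat_lit 158)) (PT.lf (nat_lit 20900) (nat_lit 6) (nat_lit 275) (nat_lit 2) (nat_lit 172) (nat_lit 181) (nat_lit 157))))) (PT.nd (nat_lit 156) (PT.nd (nat_lit 78) (PT.lf (nat_lit 20520) (nat_lit 6) (nat_lit 270) (nat_lit 2) (nat_lit 173) (nat_lit 181) (nat_lit 156)) (PT.lf (nat_lit 20216) (nat_lit 6) (nat_lit 266) (nat_lit 2) (nat_lit 174) (nat_lit 181) (nat_lit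 155))) (PT.nd (nat_lit 78) (PT.lf (nat_lit 19912) (nat_lit 6) (nat_lit 262) (nat_lit 2) (nat_lit 175) (nat_lit 181) (nat_lit 154)) (PT.nd (nat_lit 78) (PT.lf (nat_lit 19608) (nat_lit 6) (nat_lit 258) (nat_lit 2) (nat_lit 176) (nat_lit 181) (nat_lit 153)) (PT.lf (nat_lit 19304) (nat_lit 6) (nat_lit 254) (nat_lit 2) (nat_lit 177) (nat_lit 181) (nat_lit 152))))))))
noncomputable def pc21 : PT := (PT.nd (nat_lit 51246) (PT.nd (nat_lit 50466) (PT.nd (nat_lit 390) (PT.nd (nat_lit 156) (PT.nd (nat_lit 78) (PT.lf (nat_lit 19076) (nat_lit 6) (nat_lit 251) (nat_lit 2) (nat_lit 178) (nat_lit 181) (nat_lit 151)) (PT.lf (nat_lit 18772) (nat_lit 6) (nat_lit 247) (nat_lit 2) (nat_lit 179) (nat_lit 181) (nat_lit 150))) (PT.nd (nat_lit 78) (PT.lf (nat_lit 18544) (nat_lit 6) (nat_lit 244) (nat_lit 2) (nat_lit 180) (nat_lit 181) (nat_lit 149)) (PT.nd (nat_lit 78) (PT.lf (nat_lit 18316) (nat_lit 3) (nat_lit 241) (nat_lit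 0) (nat_lit 181) (nat_lit 181) (nat_lit 148)) (PT.lf (nat_lit 18012) (nat_lit 6) (nat_lit 237) (nat_lit 0) (nat_lit 182) (nat_lit 181) (nat_lit 147))))) (PT.nd (nat_lit 156) (PT.nd (nat_lit 78) (PT.lf (nat_lit 17708) (nat_lit 6) (nat_lit 233) (nat_lit 0) (nat_lit 183) (nat_lit 181) (nat_lit 146)) (PT.lf (nat_lit 17480) (nat_lit 6) (nat_lit 230) (nat_lit 0) (nat_lit 184) (nat_lit 181) (nat_lit 145))) (PT.nd (nat_lit 49764) (PT.lf (nat_lit 17176) (nat_lit 6) (nat_lit 226) (nat_lit 0) (nat_lit 185) (nat_lit 181) (nat_lit 144)) (PT.nd (nat_lit 78) (PT.lf (nat_lit 16796) (nat_lit 6) (nat_lit 221) (nat_lit 5) (nat_lit 142) (nat_lit 182) (nat_lit 186)) (PT.lf (nat_lit 17024) (nat_lit 6) (nat_lit 224) (nat_lit 5) (nat_lit 143) (nat_lit 182) (nat_lit 185)))))) (PT.nd (nat_lit 390) (PT.nd (nat_lit 156) (PT.nd (nat_lit 78) (PT.lf (nat_lit 17252) (nat_lit 6) (nat_lit 227) (nat_lit 5) (nat_lit 144) (nat_lit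 182) (nat_lit 184)) (PT.lf (nat_lit 17556) (nat_lit 6) (nat_lit 231) (nat_lit 5) (nat_lit 145) (nat_lit 182) (nat_lit 183))) (PT.nd (nat_lit 78) (PT.lf (nat_lit 17784) (nat_lit 3) (nat_lit 234) (nat_lit 4) (nat_lit 146) (nat_lit 182) (nat_lit 182)) (PT.nd (nat_lit 78) (PT.lf (nat_lit 18012) (nat_lit 6) (nat_lit 237) (nat_lit 4) (nat_lit 147) (nat_lit 182) (nat_lit 181)) (PT.lf (nat_lit 18240) (nat_lit 6) (nat_lit 240) (nat_lit 4) (nat_lit 148) (nat_lit 182) (nat_lit 180))))) (PT.nd (nat_lit 156) (PT.nd (nat_lit 78) (PT.lf (nat_lit 18468) (nat_lit 6) (nat_lit 243) (nat_lit 4) (nat_lit 149) (nat_lit 182) (nat_lit 179)) (PT.lf (nat_lit 18696) (nat_lit 6) (nat_lit 246) (nat_lit 4) (nat_lit 150) (nat_lit 182) (nat_lit 178))) (PT.nd (nat_lit 78) (PT.lf (nat_lit 19000) (nat_lit 6) (nat_lit 250) (nat_lit 4) (nat_lit 151) (nat_lit 182) (nat_lit 177)) (PT.nd (nat_lit 78) (PT.lf (nat_lit 19228) (nat_lit 6)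 (nat_lit 253) (nat_lit 4) (nat_lit 152) (nat_lit 182) (nat_lit 176)) (PT.lf (nat_lit 19532) (nat_lit 6) (nat_lit 257) (nat_lit 4) (nat_lit 153) (nat_lit 182) (nat_lit 175))))))) (PT.nd (nat_lit 2262) (PT.nd (nat_lit 1872) (PT.nd (nat_lit 1638) (PT.nd (nat_lit 1560) (PT.lf (nat_lit 19836) (nat_lit 6) (nat_lit 261) (nat_lit 4) (nat_lit 154) (nat_lit 182) (nat_lit 174)) (PT.lf (nat_lit 19836) (nat_lit 6) (nat_lit 261) (nat_lit 2) (nat_lit 174) (nat_lit 182) (nat_lit 154))) (PT.nd (nat_lit 78) (PT.lf (nat_lit 19532) (nat_lit 6) (nat_lit 257) (nat_lit 2) (nat_lit 175) (nat_lit 182) (nat_lit 153)) (PT.nd (nat_lit 78) (PT.lf (nat_lit 19228) (nat_lit 6) (nat_lit 253) (nat_lit 2) (nat_lit 176) (nat_lit 182) (nat_lit 152)) (PT.lf (nat_lit 19000) (nat_lit 6) (nat_lit 250) (nat_lit 2) (nat_lit 177) (nat_lit 182) (nat_lit 151))))) (PT.nd (nat_lit 156) (PT.nd (nat_lit 78) (PT.lf (nat_lit 18696) (nat_lit 6) (nat_lit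 246) (nat_lit 2) (nat_lit 178) (nat_lit 182) (nat_lit 150)) (PT.lf (nat_lit 18468) (nat_lit 6) (nat_lit 243) (nat_lit 2) (nat_lit 179) (nat_lit 182) (nat_lit 149))) (PT.nd (nat_lit 78) (PT.lf (nat_lit 18240) (nat_lit 6) (nat_lit 240) (nat_lit 2) (nat_lit 180) (nat_lit 182) (nat_lit 148)) (PT.nd (nat_lit 78) (PT.lf (nat_lit 18012) (nat_lit 6) (nat_lit 237) (nat_lit 2) (nat_lit 181) (nat_lit 182) (nat_lit 147)) (PT.lf (nat_lit 17784) (nat_lit 3) (nat_lit 234) (nat_lit 0) (nat_lit 182) (nat_lit 182) (nat_lit 146)))))) (PT.nd (nat_lit 49842) (PT.nd (nat_lit 156) (PT.nd (nat_lit 78) (PT.lf (nat_lit 17556) (nat_lit 6) (nat_lit 231) (nat_lit 0) (nat_lit 183) (nat_lit 182) (nat_lit 145)) (PT.lf (nat_lit 17252) (nat_lit 6) (nat_lit 227) (nat_lit 0) (nat_lit 184) (nat_lit 182) (nat_lit 144))) (PT.nd (nat_lit 78) (PT.lf (nat_lit 17024) (nat_lit 6) (nat_lit 224) (nat_lit 0) (nat_lit 185) (nat_lit 182) (nat_lit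 143)) (PT.nd (nat_lit 49530) (PT.lf (nat_lit 16796) (nat_lit 6) (nat_lit 221) (nat_lit 0) (nat_lit 186) (nat_lit 182) (nat_lit 142)) (PT.lf (nat_lit 16416) (nat_lit 6) (nat_lit 216) (nat_lit 5) (nat_lit 140) (nat_lit 183) (nat_lit 187))))) (PT.nd (nat_lit 156) (PT.nd (nat_lit 78) (PT.lf (nat_lit 16644) (nat_lit 6) (nat_lit 219) (nat_lit 5) (nat_lit 141) (nat_lit 183) (nat_lit 186)) (PT.lf (nat_lit 16872) (nat_lit 6) (nat_lit 222) (nat_lit 5) (nat_lit 142) (nat_lit 183) (nat_lit 185))) (PT.nd (nat_lit 78) (PT.lf (nat_lit 17100) (nat_lit 6) (nat_lit 225) (nat_lit 5) (nat_lit 143) (nat_lit 183) (nat_lit 184)) (PT.nd (nat_lit 78) (PT.lf (nat_lit 17328) (nat_lit 3) (nat_lit 228) (nat_lit 4) (nat_lit 144) (nat_lit 183) (nat_lit 183)) (PT.lf (nat_lit 17556) (nat_lit 6) (nat_lit 231) (nat_lit 4) (nat_lit 145) (nat_lit 183) (nat_lit 182))))))))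
noncomputable def pc22 : PT := (PT.nd (nat_lit 52728) (PT.nd (nat_lit 2652) (PT.nd (nat_lit 390) (PT.nd (nat_lit 156) (PT.nd (nat_lit 78) (PT.lf (nat_lit 17708) (nat_lit 6) (nat_lit 233) (nat_lit 4) (nat_lit 146) (nat_lit 183) (nat_lit 181)) (PT.lf (nat_lit 17936) (nat_lit 6) (nat_lit 236) (nat_lit 4) (nat_lit 147) (nat_lit 183) (nat_lit 180))) (PT.nd (nat_lit 78) (PT.lf (nat_lit 18164) (nat_lit 6) (nat_lit 239) (nat_lit 4) (nat_lit 148) (nat_lit 183) (nat_lit 179)) (PT.nd (nat_lit 78) (PT.lf (nat_lit 18392) (nat_lit 6) (nat_lit 242) (nat_lit 4) (nat_lit 149) (nat_lit 183) (nat_lit 178)) (PT.lf (nat_lit 18620) (nat_lit 6) (nat_lit 245) (nat_lit 4) (nat_lit 150) (nat_lit 183) (nat_lit 177))))) (PT.nd (nat_lit 2028) (PT.nd (nat_lit 1950) (PT.lf (nat_lit 18924) (nat_lit 6) (nat_lit 249) (nat_lit 4) (nat_lit 151) (nat_lit 183) (nat_lit 176)) (PT.lf (nat_lit 18924) (nat_lit 6) (nat_lit 249) (nat_lit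 2) (nat_lit 176) (nat_lit 183) (nat_lit 151))) (PT.nd (nat_lit 78) (PT.lf (nat_lit 18620) (nat_lit 6) (nat_lit 245) (nat_lit 2) (nat_lit 177) (nat_lit 183) (nat_lit 150)) (PT.nd (nat_lit 78) (PT.lf (nat_lit 18392) (nat_lit 6) (nat_lit 242) (nat_lit 2) (nat_lit 178) (nat_lit 183) (nat_lit 149)) (PT.lf (nat_lit 18164) (nat_lit 6) (nat_lit 239) (nat_lit 2) (nat_lit 179) (nat_lit 183) (nat_lit 148)))))) (PT.nd (nat_lit 390) (PT.nd (nat_lit 156) (PT.nd (nat_lit 78) (PT.lf (nat_lit 17936) (nat_lit 6) (nat_lit 236) (nat_lit 2) (nat_lit 180) (nat_lit 183) (nat_lit 147)) (PT.lf (nat_lit 17708) (nat_lit 6) (nat_lit 233) (nat_lit 2) (nat_lit 181) (nat_lit 183) (nat_lit 146))) (PT.nd (nat_lit 78) (PT.lf (nat_lit 17556) (nat_lit 6) (nat_lit 231) (nat_lit 2) (nat_lit 182) (nat_lit 183) (nat_lit 145)) (PT.nd (nat_lit 78) (PT.lf (nat_lit 17328) (nat_lit 3) (nat_lit 228) (nat_lit 0) (nat_lit 183) (nat_lit 183)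 (nat_lit 144)) (PT.lf (nat_lit 17100) (nat_lit 6) (nat_lit 225) (nat_lit 0) (nat_lit 184) (nat_lit 183) (nat_lit 143))))) (PT.nd (nat_lit 156) (PT.nd (nat_lit 78) (PT.lf (nat_lit 16872) (nat_lit 6) (nat_lit 222) (nat_lit 0) (nat_lit 185) (nat_lit 183) (nat_lit 142)) (PT.lf (nat_lit 16644) (nat_lit 6) (nat_lit 219) (nat_lit 0) (nat_lit 186) (nat_lit 183) (nat_lit 141))) (PT.nd (nat_lit 49374) (PT.lf (nat_lit 16416) (nat_lit 6) (nat_lit 216) (nat_lit 0) (nat_lit 187) (nat_lit 183) (nat_lit 140)) (PT.nd (nat_lit 78) (PT.lf (nat_lit 16264) (nat_lit 6) (nat_lit 214) (nat_lit 5) (nat_lit 139) (nat_lit 184) (nat_lit 187)) (PT.lf (nat_lit 16492) (nat_lit 6) (nat_lit 217) (nat_lit 5) (nat_lit 140) (nat_lit 184) (nat_lit 186))))))) (PT.nd (nat_lit 3042) (PT.nd (nat_lit 390) (PT.nd (nat_lit 156) (PT.nd (nat_lit 78) (PT.lf (nat_lit 16720) (nat_lit 6) (nat_lit 220) (nat_lit 5) (nat_lit 141) (nat_lit 184) (nat_lit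 185)) (PT.lf (nat_lit 16948) (nat_lit 3) (nat_lit 223) (nat_lit 4) (nat_lit 142) (nat_lit 184) (nat_lit 184))) (PT.nd (nat_lit 78) (PT.lf (nat_lit 17100) (nat_lit 6) (nat_lit 225) (nat_lit 4) (nat_lit 143) (nat_lit 184) (nat_lit 183)) (PT.nd (nat_lit 78) (PT.lf (nat_lit 17252) (nat_lit 6) (nat_lit 227) (nat_lit 4) (nat_lit 144) (nat_lit 184) (nat_lit 182)) (PT.lf (nat_lit 17480) (nat_lit 6) (nat_lit 230) (nat_lit 4) (nat_lit 145) (nat_lit 184) (nat_lit 181))))) (PT.nd (nat_lit 156) (PT.nd (nat_lit 78) (PT.lf (nat_lit 17632) (nat_lit 6) (nat_lit 232) (nat_lit 4) (nat_lit 146) (nat_lit 184) (nat_lit 180)) (PT.lf (nat_lit 17860) (nat_lit 6) (nat_lit 235) (nat_lit 4) (nat_lit 147) (nat_lit 184) (nat_lit 179))) (PT.nd (nat_lit 2340) (PT.lf (nat_lit 18088) (nat_lit 6) (nat_lit 238) (nat_lit 4) (nat_lit 148) (nat_lit 184) (nat_lit 178)) (PT.nd (nat_lit 78) (PT.lf (nat_lit 18088) (nat_lit 6) (nat_lit 238)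 (nat_lit 2) (nat_lit 178) (nat_lit 184) (nat_lit 148)) (PT.lf (nat_lit 17860) (nat_lit 6) (nat_lit 235) (nat_lit 2) (nat_lit 179) (nat_lit 184) (nat_lit 147)))))) (PT.nd (nat_lit 390) (PT.nd (nat_lit 156) (PT.nd (nat_lit 78) (PT.lf (nat_lit 17632) (nat_lit 6) (nat_lit 232) (nat_lit 2) (nat_lit 180) (nat_lit 184) (nat_lit 146)) (PT.lf (nat_lit 17480) (nat_lit 6) (nat_lit 230) (nat_lit 2) (nat_lit 181) (nat_lit 184) (nat_lit 145))) (PT.nd (nat_lit 78) (PT.lf (nat_lit 17252) (nat_lit 6) (nat_lit 227) (nat_lit 2) (nat_lit 182) (nat_lit 184) (nat_lit 144)) (PT.nd (nat_lit 78) (PT.lf (nat_lit 17100) (nat_lit 6) (nat_lit 225) (nat_lit 2) (nat_lit 183) (nat_lit 184) (nat_lit 143)) (PT.lf (nat_lit 16948) (nat_lit 3) (nat_lit 223) (nat_lit 0) (nat_lit 184) (nat_lit 184) (nat_lit 142))))) (PT.nd (nat_lit 156) (PT.nd (nat_lit 78) (PT.lf (nat_lit 16720) (nat_lit 6) (nat_lit 220) (nat_lit 0) (nat_lit 185) (nat_lit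 184) (nat_lit 141)) (PT.lf (nat_lit 16492) (nat_lit 6) (nat_lit 217) (nat_lit 0) (nat_lit 186) (nat_lit 184) (nat_lit 140))) (PT.nd (nat_lit 49218) (PT.lf (nat_lit 16264) (nat_lit 6) (nat_lit 214) (nat_lit 0) (nat_lit 187) (nat_lit 184) (nat_lit 139)) (PT.nd (nat_lit 78) (PT.lf (nat_lit 15960) (nat_lit 6) (nat_lit 210) (nat_lit 5) (nat_lit 137) (nat_lit 185) (nat_lit 188)) (PT.lf (nat_lit 16112) (nat_lit 6) (nat_lit 212) (nat_lit 5) (nat_lit 138) (nat_lit 185) (nat_lit 187))))))))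
noncomputable def pc23 : PT := (PT.nd (nat_lit 53118) (PT.nd (nat_lit 3432) (PT.nd (nat_lit 390) (PT.nd (nat_lit 156) (PT.nd (nat_lit 78) (PT.lf (nat_lit 16340) (nat_lit 6) (nat_lit 215) (nat_lit 5) (nat_lit 139) (nat_lit 185) (nat_lit 186)) (PT.lf (nat_lit 16568) (nat_lit 3) (nat_lit 218) (nat_lit 4) (nat_lit 140) (nat_lit 185) (nat_lit 185))) (PT.nd (nat_lit 78) (PT.lf (nat_lit 16720) (nat_lit 6) (nat_lit 220) (nat_lit 4) (nat_lit 141) (nat_lit 185) (nat_lit 184)) (PT.nd (nat_lit 78) (PT.lf (nat_lit 16872) (nat_lit 6) (nat_lit 222) (nat_lit 4) (nat_lit 142) (nat_lit 185) (nat_lit 183)) (PT.lf (nat_lit 17024) (nat_lit 6) (nat_lit 224) (nat_lit 4) (nat_lit 143) (nat_lit 185) (nat_lit 182))))) (PT.nd (nat_lit 2808) (PT.nd (nat_lit 78) (PT.lf (nat_lit 17176) (nat_lit 6) (nat_lit 226) (nat_lit 4) (nat_lit 144) (nat_lit 185) (nat_lit 181)) (PT.lf (nat_lit 17404) (nat_lit 6) (nat_lit 229) (nat_lit 4)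 (nat_lit 145) (nat_lit 185) (nat_lit 180))) (PT.nd (nat_lit 78) (PT.lf (nat_lit 17404) (nat_lit 6) (nat_lit 229) (nat_lit 2) (nat_lit 180) (nat_lit 185) (nat_lit 145)) (PT.nd (nat_lit 78) (PT.lf (nat_lit 17176) (nat_lit 6) (nat_lit 226) (nat_lit 2) (nat_lit 181) (nat_lit 185) (nat_lit 144)) (PT.lf (nat_lit 17024) (nat_lit 6) (nat_lit 224) (nat_lit 2) (nat_lit 182) (nat_lit 185) (nat_lit 143)))))) (PT.nd (nat_lit 390) (PT.nd (nat_lit 156) (PT.nd (nat_lit 78) (PT.lf (nat_lit 16872) (nat_lit 6) (nat_lit 222) (nat_lit 2) (nat_lit 183) (nat_lit 185) (nat_lit 142)) (PT.lf (nat_lit 16720) (nat_lit 6) (nat_lit 220) (nat_lit 2) (nat_lit 184) (nat_lit 185) (nat_lit 141))) (PT.nd (nat_lit 78) (PT.lf (nat_lit 16568) (nat_lit 3) (nat_lit 218) (nat_lit 0) (nat_lit 185) (nat_lit 185) (nat_lit 140)) (PT.nd (nat_lit 78) (PT.lf (nat_lit 16340) (nat_lit 6) (nat_lit 215) (nat_lit 0) (nat_lit 186) (nat_lit 185) (nat_lit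 139)) (PT.lf (nat_lit 16112) (nat_lit 6) (nat_lit 212) (nat_lit 0) (nat_lit 187) (nat_lit 185) (nat_lit 138))))) (PT.nd (nat_lit 49062) (PT.nd (nat_lit 48984) (PT.lf (nat_lit 15960) (nat_lit 6) (nat_lit 210) (nat_lit 0) (nat_lit 188) (nat_lit 185) (nat_lit 137)) (PT.lf (nat_lit 15656) (nat_lit 6) (nat_lit 206) (nat_lit 5) (nat_lit 135) (nat_lit 186) (nat_lit 189))) (PT.nd (nat_lit 78) (PT.lf (nat_lit 15808) (nat_lit 6) (nat_lit 208) (nat_lit 5) (nat_lit 136) (nat_lit 186) (nat_lit 188)) (PT.nd (nat_lit 78) (PT.lf (nat_lit 16036) (nat_lit 6) (nat_lit 211) (nat_lit 5) (nat_lit 137) (nat_lit 186) (nat_lit 187)) (PT.lf (nat_lit 16188) (nat_lit 3) (nat_lit 213) (nat_lit 4) (nat_lit 138) (nat_lit 186) (nat_lit 186))))))) (PT.nd (nat_lit 3822) (PT.nd (nat_lit 3432) (PT.nd (nat_lit 156) (PT.nd (nat_lit 78) (PT.lf (nat_lit 16340) (nat_lit 6) (nat_lit 215) (nat_lit 4) (nat_lit 139) (nat_lit 186) (nat_lit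 185)) (PT.lf (nat_lit 16492) (nat_lit 6) (nat_lit 217) (nat_lit 4) (nat_lit 140) (nat_lit 186) (nat_lit 184))) (PT.nd (nat_lit 78) (PT.lf (nat_lit 16644) (nat_lit 6) (nat_lit 219) (nat_lit 4) (nat_lit 141) (nat_lit 186) (nat_lit 183)) (PT.nd (nat_lit 3120) (PT.lf (nat_lit 16796) (nat_lit 6) (nat_lit 221) (nat_lit 4) (nat_lit 142) (nat_lit 186) (nat_lit 182)) (PT.lf (nat_lit 16796) (nat_lit 6) (nat_lit 221) (nat_lit 2) (nat_lit 182) (nat_lit 186) (nat_lit 142))))) (PT.nd (nat_lit 156) (PT.nd (nat_lit 78) (PT.lf (nat_lit 16644) (nat_lit 6) (nat_lit 219) (nat_lit 2) (nat_lit 183) (nat_lit 186) (nat_lit 141)) (PT.lf (nat_lit 16492) (nat_lit 6) (nat_lit 217) (nat_lit 2) (nat_lit 184) (nat_lit 186) (nat_lit 140))) (PT.nd (nat_lit 78) (PT.lf (nat_lit 16340) (nat_lit 6) (nat_lit 215) (nat_lit 2) (nat_lit 185) (nat_lit 186) (nat_lit 139)) (PT.nd (nat_lit 78) (PT.lf (nat_lit 16188) (nat_lit 3) (nat_lit 213)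 (nat_lit 0) (nat_lit 186) (nat_lit 186) (nat_lit 138)) (PT.lf (nat_lit 16036) (nat_lit 6) (nat_lit 211) (nat_lit 0) (nat_lit 187) (nat_lit 186) (nat_lit 137)))))) (PT.nd (nat_lit 49062) (PT.nd (nat_lit 48828) (PT.nd (nat_lit 78) (PT.lf (nat_lit 15808) (nat_lit 6) (nat_lit 208) (nat_lit 0) (nat_lit 188) (nat_lit 186) (nat_lit 136)) (PT.lf (nat_lit 15656) (nat_lit 6) (nat_lit 206) (nat_lit 0) (nat_lit 189) (nat_lit 186) (nat_lit 135))) (PT.nd (nat_lit 78) (PT.lf (nat_lit 15352) (nat_lit 6) (nat_lit 202) (nat_lit 5) (nat_lit 133) (nat_lit 187) (nat_lit 190)) (PT.nd (nat_lit 78) (PT.lf (nat_lit 15504) (nat_lit 6) (nat_lit 204) (nat_lit 5) (nat_lit 134) (nat_lit 187) (nat_lit 189)) (PT.lf (nat_lit 15732) (nat_lit 6) (nat_lit 207) (nat_lit 5) (nat_lit 135) (nat_lit 187) (nat_lit 188))))) (PT.nd (nat_lit 156) (PT.nd (nat_lit 78) (PT.lf (nat_lit 15884) (nat_lit 3) (nat_lit 209) (nat_lit 4) (nat_lit 136)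 (nat_lit 187) (nat_lit 187)) (PT.lf (nat_lit 16036) (nat_lit 6) (nat_lit 211) (nat_lit 4) (nat_lit 137) (nat_lit 187) (nat_lit 186))) (PT.nd (nat_lit 78) (PT.lf (nat_lit 16112) (nat_lit 6) (nat_lit 212) (nat_lit 4) (nat_lit 138) (nat_lit 187) (nat_lit 185)) (PT.nd (nat_lit 78) (PT.lf (nat_lit 16264) (nat_lit 6) (nat_lit 214) (nat_lit 4) (nat_lit 139) (nat_lit 187) (nat_lit 184)) (PT.lf (nat_lit 16416) (nat_lit 6) (nat_lit 216) (nat_lit 4) (nat_lit 140) (nat_lit 187) (nat_lit 183))))))))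
noncomputable def pc24 : PT := (PT.nd (nat_lit 53586) (PT.nd (nat_lit 49140) (PT.nd (nat_lit 312) (PT.nd (nat_lit 156) (PT.nd (nat_lit 78) (PT.lf (nat_lit 16416) (nat_lit 6) (nat_lit 216) (nat_lit 2) (nat_lit 183) (nat_lit 187) (nat_lit 140)) (PT.lf (nat_lit 16264) (nat_lit 6) (nat_lit 214) (nat_lit 2) (nat_lit 184) (nat_lit 187) (nat_lit 139))) (PT.nd (nat_lit 78) (PT.lf (nat_lit 16112) (nat_lit 6) (nat_lit 212) (nat_lit 2) (nat_lit 185) (nat_lit 187) (nat_lit 138)) (PT.lf (nat_lit 16036) (nat_lit 6) (nat_lit 211) (nat_lit 2) (nat_lit 186) (nat_lit 187) (nat_lit 137)))) (PT.nd (nat_lit 156) (PT.nd (nat_lit 78) (PT.lf (nat_lit 15884) (nat_lit 3) (nat_lit 209) (nat_lit 0) (nat_lit 187) (nat_lit 187) (nat_lit 136)) (PT.lf (nat_lit 15732) (nat_lit 6) (nat_lit 207) (nat_lit 0) (nat_lit 188) (nat_lit 187) (nat_lit 135))) (PT.nd (nat_lit 78) (PT.lf (nat_lit 15504) (nat_lit 6) (nat_lit 204) (nat_lit 0)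 (nat_lit 189) (nat_lit 187) (nat_lit 134)) (PT.nd (nat_lit 48516) (PT.lf (nat_lit 15352) (nat_lit 6) (nat_lit 202) (nat_lit 0) (nat_lit 190) (nat_lit 187) (nat_lit 133)) (PT.lf (nat_lit 15048) (nat_lit 6) (nat_lit 198) (nat_lit 5) (nat_lit 131) (nat_lit 188) (nat_lit 191)))))) (PT.nd (nat_lit 390) (PT.nd (nat_lit 156) (PT.nd (nat_lit 78) (PT.lf (nat_lit 15200) (nat_lit 6) (nat_lit 200) (nat_lit 5) (nat_lit 132) (nat_lit 188) (nat_lit 190)) (PT.lf (nat_lit 15428) (nat_lit 6) (nat_lit 203) (nat_lit 5) (nat_lit 133) (nat_lit 188) (nat_lit 189))) (PT.nd (nat_lit 78) (PT.lf (nat_lit 15580) (nat_lit 3) (nat_lit 205) (nat_lit 4) (nat_lit 134) (nat_lit 188) (nat_lit 188)) (PT.nd (nat_lit 78) (PT.lf (nat_lit 15732) (nat_lit 6) (nat_lit 207) (nat_lit 4) (nat_lit 135) (nat_lit 188) (nat_lit 187)) (PT.lf (nat_lit 15808) (nat_lit 6) (nat_lit 208) (nat_lit 4) (nat_lit 136) (nat_lit 188) (nat_lit 186))))) (PT.nd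 (nat_lit 3822) (PT.nd (nat_lit 3744) (PT.lf (nat_lit 15960) (nat_lit 6) (nat_lit 210) (nat_lit 4) (nat_lit 137) (nat_lit 188) (nat_lit 185)) (PT.lf (nat_lit 15960) (nat_lit 6) (nat_lit 210) (nat_lit 2) (nat_lit 185) (nat_lit 188) (nat_lit 137))) (PT.nd (nat_lit 78) (PT.lf (nat_lit 15808) (nat_lit 6) (nat_lit 208) (nat_lit 2) (nat_lit 186) (nat_lit 188) (nat_lit 136)) (PT.nd (nat_lit 78) (PT.lf (nat_lit 15732) (nat_lit 6) (nat_lit 207) (nat_lit 2) (nat_lit 187) (nat_lit 188) (nat_lit 135)) (PT.lf (nat_lit 15580) (nat_lit 3) (nat_lit 205) (nat_lit 0) (nat_lit 188) (nat_lit 188) (nat_lit 134))))))) (PT.nd (nat_lit 52884) (PT.nd (nat_lit 48594) (PT.nd (nat_lit 156) (PT.nd (nat_lit 78) (PT.lf (nat_lit 15428) (nat_lit 6) (nat_lit 203) (nat_lit 0) (nat_lit 189) (nat_lit 188) (nat_lit 133)) (PT.lf (nat_lit 15200) (nat_lit 6) (nat_lit 200) (nat_lit 0) (nat_lit 190) (nat_lit 188) (nat_lit 132))) (PT.nd (nat_lit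 48282) (PT.lf (nat_lit 15048) (nat_lit 6) (nat_lit 198) (nat_lit 0) (nat_lit 191) (nat_lit 188) (nat_lit 131)) (PT.nd (nat_lit 78) (PT.lf (nat_lit 14744) (nat_lit 6) (nat_lit 194) (nat_lit 5) (nat_lit 129) (nat_lit 189) (nat_lit 192)) (PT.lf (nat_lit 14896) (nat_lit 6) (nat_lit 196) (nat_lit 5) (nat_lit 130) (nat_lit 189) (nat_lit 191))))) (PT.nd (nat_lit 156) (PT.nd (nat_lit 78) (PT.lf (nat_lit 15124) (nat_lit 6) (nat_lit 199) (nat_lit 5) (nat_lit 131) (nat_lit 189) (nat_lit 190)) (PT.lf (nat_lit 15276) (nat_lit 3) (nat_lit 201) (nat_lit 4) (nat_lit 132) (nat_lit 189) (nat_lit 189))) (PT.nd (nat_lit 78) (PT.lf (nat_lit 15428) (nat_lit 6) (nat_lit 203) (nat_lit 4) (nat_lit 133) (nat_lit 189) (nat_lit 188)) (PT.nd (nat_lit 78) (PT.lf (nat_lit 15504) (nat_lit 6) (nat_lit 204) (nat_lit 4) (nat_lit 134) (nat_lit 189) (nat_lit 187)) (PT.lf (nat_lit 15656) (nat_lit 6) (nat_lit 206) (nat_lit 4) (nat_lit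 135) (nat_lit 189) (nat_lit 186)))))) (PT.nd (nat_lit 390) (PT.nd (nat_lit 156) (PT.nd (nat_lit 78) (PT.lf (nat_lit 15656) (nat_lit 6) (nat_lit 206) (nat_lit 2) (nat_lit 186) (nat_lit 189) (nat_lit 135)) (PT.lf (nat_lit 15504) (nat_lit 6) (nat_lit 204) (nat_lit 2) (nat_lit 187) (nat_lit 189) (nat_lit 134))) (PT.nd (nat_lit 78) (PT.lf (nat_lit 15428) (nat_lit 6) (nat_lit 203) (nat_lit 2) (nat_lit 188) (nat_lit 189) (nat_lit 133)) (PT.nd (nat_lit 78) (PT.lf (nat_lit 15276) (nat_lit 3) (nat_lit 201) (nat_lit 0) (nat_lit 189) (nat_lit 189) (nat_lit 132)) (PT.lf (nat_lit 15124) (nat_lit 6) (nat_lit 199) (nat_lit 0) (nat_lit 190) (nat_lit 189) (nat_lit 131))))) (PT.nd (nat_lit 48204) (PT.nd (nat_lit 78) (PT.lf (nat_lit 14896) (nat_lit 6) (nat_lit 196) (nat_lit 0) (nat_lit 191) (nat_lit 189) (nat_lit 130)) (PT.lf (nat_lit 14744) (nat_lit 6) (nat_lit 194) (nat_lit 0) (nat_lit 192) (nat_lit 189) (nat_lit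 129))) (PT.nd (nat_lit 78) (PT.lf (nat_lit 14592) (nat_lit 6) (nat_lit 192) (nat_lit 5) (nat_lit 128) (nat_lit 190) (nat_lit 192)) (PT.nd (nat_lit 78) (PT.lf (nat_lit 14820) (nat_lit 6) (nat_lit 195) (nat_lit 5) (nat_lit 129) (nat_lit 190) (nat_lit 191)) (PT.lf (nat_lit 14972) (nat_lit 3) (nat_lit 197) (nat_lit 4) (nat_lit 130) (nat_lit 190) (nat_lit 190))))))))
noncomputable def pc25 : PT := (PT.nd (nat_lit 57954) (PT.nd (nat_lit 52806) (PT.nd (nat_lit 4524) (PT.nd (nat_lit 156) (PT.nd (nat_lit 78) (PT.lf (nat_lit 15124) (nat_lit 6) (nat_lit 199) (nat_lit 4) (nat_lit 131) (nat_lit 190) (nat_lit 189)) (PT.lf (nat_lit 15200) (nat_lit 6) (nat_lit 200) (nat_lit 4) (nat_lit 132) (nat_lit 190) (nat_lit 188))) (PT.nd (nat_lit 4212) (PT.lf (nat_lit 15352) (nat_lit 6) (nat_lit 202) (nat_lit 4) (nat_lit 133) (nat_lit 190) (nat_lit 187)) (PT.nd (nat_lit 78) (PT.lf (nat_lit 15352) (nat_lit 6) (nat_lit 202)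 (nat_lit 2) (nat_lit 187) (nat_lit 190) (nat_lit 133)) (PT.lf (nat_lit 15200) (nat_lit 6) (nat_lit 200) (nat_lit 2) (nat_lit 188) (nat_lit 190) (nat_lit 132))))) (PT.nd (nat_lit 156) (PT.nd (nat_lit 78) (PT.lf (nat_lit 15124) (nat_lit 6) (nat_lit 199) (nat_lit 2) (nat_lit 189) (nat_lit 190) (nat_lit 131)) (PT.lf (nat_lit 14972) (nat_lit 3) (nat_lit 197) (nat_lit 0) (nat_lit 190) (nat_lit 190) (nat_lit 130))) (PT.nd (nat_lit 78) (PT.lf (nat_lit 14820) (nat_lit 6) (nat_lit 195) (nat_lit 0) (nat_lit 191) (nat_lit 190) (nat_lit 129)) (PT.nd (nat_lit 47970) (PT.lf (nat_lit 14592) (nat_lit 6) (nat_lit 192) (nat_lit 0) (nat_lit 192) (nat_lit 190) (nat_lit 128)) (PT.lf (nat_lit 14364) (nat_lit 6) (nat_lit 189) (nat_lit 5) (nat_lit 126) (nat_lit 191) (nat_lit 193)))))) (PT.nd (nat_lit 4758) (PT.nd (nat_lit 156) (PT.nd (nat_lit 78) (PT.lf (nat_lit 14516) (nat_lit 6) (nat_lit 191) (nat_lit 5) (nat_lit 127)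 (nat_lit 191) (nat_lit 192)) (PT.lf (nat_lit 14668) (nat_lit 3) (nat_lit 193) (nat_lit 4) (nat_lit 128) (nat_lit 191) (nat_lit 191))) (PT.nd (nat_lit 78) (PT.lf (nat_lit 14820) (nat_lit 6) (nat_lit 195) (nat_lit 4) (nat_lit 129) (nat_lit 191) (nat_lit 190)) (PT.nd (nat_lit 78) (PT.lf (nat_lit 14896) (nat_lit 6) (nat_lit 196) (nat_lit 4) (nat_lit 130) (nat_lit 191) (nat_lit 189)) (PT.lf (nat_lit 15048) (nat_lit 6) (nat_lit 198) (nat_lit 4) (nat_lit 131) (nat_lit 191) (nat_lit 188))))) (PT.nd (nat_lit 156) (PT.nd (nat_lit 78) (PT.lf (nat_lit 15048) (nat_lit 6) (nat_lit 198) (nat_lit 2) (nat_lit 188) (nat_lit 191) (nat_lit 131)) (PT.lf (nat_lit 14896) (nat_lit 6) (nat_lit 196) (nat_lit 2) (nat_lit 189) (nat_lit 191) (nat_lit 130))) (PT.nd (nat_lit 78) (PT.lf (nat_lit 14820) (nat_lit 6) (nat_lit 195) (nat_lit 2) (nat_lit 190) (nat_lit 191) (nat_lit 129)) (PT.nd (nat_lit 78) (PT.lf (nat_lit 14668) (nat_lit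 3) (nat_lit 193) (nat_lit 0) (nat_lit 191) (nat_lit 191) (nat_lit 128)) (PT.lf (nat_lit 14516) (nat_lit 6) (nat_lit 191) (nat_lit 0) (nat_lit 192) (nat_lit 191) (nat_lit 127))))))) (PT.nd (nat_lit 53040) (PT.nd (nat_lit 48048) (PT.nd (nat_lit 47814) (PT.nd (nat_lit 47736) (PT.lf (nat_lit 14364) (nat_lit 6) (nat_lit 189) (nat_lit 0) (nat_lit 193) (nat_lit 191) (nat_lit 126)) (PT.lf (nat_lit 14136) (nat_lit 6) (nat_lit 186) (nat_lit 5) (nat_lit 124) (nat_lit 192) (nat_lit 194))) (PT.nd (nat_lit 78) (PT.lf (nat_lit 14288) (nat_lit 6) (nat_lit 188) (nat_lit 5) (nat_lit 125) (nat_lit 192) (nat_lit 193)) (PT.nd (nat_lit 78) (PT.lf (nat_lit 14440) (nat_lit 3) (nat_lit 190) (nat_lit 4) (nat_lit 126) (nat_lit 192) (nat_lit 192)) (PT.lf (nat_lit 14516) (nat_lit 6) (nat_lit 191) (nat_lit 4) (nat_lit 127) (nat_lit 192) (nat_lit 191))))) (PT.nd (nat_lit 4758) (PT.nd (nat_lit 78) (PT.lf (nat_lit 14592) (nat_lit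 6) (nat_lit 192) (nat_lit 4) (nat_lit 128) (nat_lit 192) (nat_lit 190)) (PT.lf (nat_lit 14744) (nat_lit 6) (nat_lit 194) (nat_lit 4) (nat_lit 129) (nat_lit 192) (nat_lit 189))) (PT.nd (nat_lit 78) (PT.lf (nat_lit 14744) (nat_lit 6) (nat_lit 194) (nat_lit 2) (nat_lit 189) (nat_lit 192) (nat_lit 129)) (PT.nd (nat_lit 78) (PT.lf (nat_lit 14592) (nat_lit 6) (nat_lit 192) (nat_lit 2) (nat_lit 190) (nat_lit 192) (nat_lit 128)) (PT.lf (nat_lit 14516) (nat_lit 6) (nat_lit 191) (nat_lit 2) (nat_lit 191) (nat_lit 192) (nat_lit 127)))))) (PT.nd (nat_lit 47814) (PT.nd (nat_lit 156) (PT.nd (nat_lit 78) (PT.lf (nat_lit 14440) (nat_lit 3) (nat_lit 190) (nat_lit 0) (nat_lit 192) (nat_lit 192) (nat_lit 126)) (PT.lf (nat_lit 14288) (nat_lit 6) (nat_lit 188) (nat_lit 0) (nat_lit 193) (nat_lit 192) (nat_lit 125))) (PT.nd (nat_lit 47502) (PT.lf (nat_lit 14136) (nat_lit 6) (nat_lit 186) (nat_lit 0) (nat_lit 194) (nat_lit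 192) (nat_lit 124)) (PT.nd (nat_lit 78) (PT.lf (nat_lit 13908) (nat_lit 6) (nat_lit 183) (nat_lit 5) (nat_lit 122) (nat_lit 193) (nat_lit 195)) (PT.lf (nat_lit 14060) (nat_lit 6) (nat_lit 185) (nat_lit 5) (nat_lit 123) (nat_lit 193) (nat_lit 194))))) (PT.nd (nat_lit 156) (PT.nd (nat_lit 78) (PT.lf (nat_lit 14212) (nat_lit 3) (nat_lit 187) (nat_lit 4) (nat_lit 124) (nat_lit 193) (nat_lit 193)) (PT.lf (nat_lit 14288) (nat_lit 6) (nat_lit 188) (nat_lit 4) (nat_lit 125) (nat_lit 193) (nat_lit 192))) (PT.nd (nat_lit 5070) (PT.lf (nat_lit 14364) (nat_lit 6) (nat_lit 189) (nat_lit 4) (nat_lit 126) (nat_lit 193) (nat_lit 191)) (PT.nd (nat_lit 78) (PT.lf (nat_lit 14364) (nat_lit 6) (nat_lit 189) (nat_lit 2) (nat_lit 191) (nat_lit 193) (nat_lit 126)) (PT.lf (nat_lit 14288) (nat_lit 6) (nat_lit 188) (nat_lit 2) (nat_lit 192) (nat_lit 193) (nat_lit 125))))))))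
noncomputable def pc26 : PT := (PT.nd (nat_lit 106392) (PT.nd (nat_lit 53196) (PT.nd (nat_lit 47580) (PT.nd (nat_lit 156) (PT.nd (nat_lit 78) (PT.lf (nat_lit 14212) (nat_lit 3) (nat_lit 187) (nat_lit 0) (nat_lit 193) (nat_lit 193) (nat_lit 124)) (PT.lf (nat_lit 14060) (nat_lit 6) (nat_lit 185) (nat_lit 0) (nat_lit 194) (nat_lit 193) (nat_lit 123))) (PT.nd (nat_lit 47268) (PT.lf (nat_lit 13908) (nat_lit 6) (nat_lit 183) (nat_lit 0) (nat_lit 195) (nat_lit 193) (nat_lit 122)) (PT.nd (nat_lit 78) (PT.lf (nat_lit 13680) (nat_lit 6) (nat_lit 180) (nat_lit 5) (nat_lit 120) (nat_lit 194) (nat_lit 196)) (PT.lf (nat_lit 13832) (nat_lit 6) (nat_lit 182) (nat_lit 5) (nat_lit 121) (nat_lit 194) (nat_lit 195))))) (PT.nd (nat_lit 156) (PT.nd (nat_lit 78) (PT.lf (nat_lit 13984) (nat_lit 3) (nat_lit 184) (nat_lit 4) (nat_lit 122) (nat_lit 194) (nat_lit 194)) (PT.lf (nat_lit 14060) (nat_lit 6) (nat_lit 185) (nat_lit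 4) (nat_lit 123) (nat_lit 194) (nat_lit 193))) (PT.nd (nat_lit 5304) (PT.lf (nat_lit 14136) (nat_lit 6) (nat_lit 186) (nat_lit 4) (nat_lit 124) (nat_lit 194) (nat_lit 192)) (PT.nd (nat_lit 78) (PT.lf (nat_lit 14136) (nat_lit 6) (nat_lit 186) (nat_lit 2) (nat_lit 192) (nat_lit 194) (nat_lit 124)) (PT.lf (nat_lit 14060) (nat_lit 6) (nat_lit 185) (nat_lit 2) (nat_lit 193) (nat_lit 194) (nat_lit 123)))))) (PT.nd (nat_lit 47346) (PT.nd (nat_lit 156) (PT.nd (nat_lit 78) (PT.lf (nat_lit 13984) (nat_lit 3) (nat_lit 184) (nat_lit 0) (nat_lit 194) (nat_lit 194) (nat_lit 122)) (PT.lf (nat_lit 13832) (nat_lit 6) (nat_lit 182) (nat_lit 0) (nat_lit 195) (nat_lit 194) (nat_lit 121))) (PT.nd (nat_lit 47034) (PT.lf (nat_lit 13680) (nat_lit 6) (nat_lit 180) (nat_lit 0) (nat_lit 196) (nat_lit 194) (nat_lit 120)) (PT.nd (nat_lit 78) (PT.lf (nat_lit 13452) (nat_lit 6) (nat_lit 177) (nat_lit 5) (nat_lit 118) (nat_lit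 195) (nat_lit 197)) (PT.lf (nat_lit 13604) (nat_lit 6) (nat_lit 179) (nat_lit 5) (nat_lit 119) (nat_lit 195) (nat_lit 196))))) (PT.nd (nat_lit 156) (PT.nd (nat_lit 78) (PT.lf (nat_lit 13756) (nat_lit 3) (nat_lit 181) (nat_lit 4) (nat_lit 120) (nat_lit 195) (nat_lit 195)) (PT.lf (nat_lit 13832) (nat_lit 6) (nat_lit 182) (nat_lit 4) (nat_lit 121) (nat_lit 195) (nat_lit 194))) (PT.nd (nat_lit 5538) (PT.lf (nat_lit 13908) (nat_lit 6) (nat_lit 183) (nat_lit 4) (nat_lit 122) (nat_lit 195) (nat_lit 193)) (PT.nd (nat_lit 78) (PT.lf (nat_lit 13908) (nat_lit 6) (nat_lit 183) (nat_lit 2) (nat_lit 193) (nat_lit 195) (nat_lit 122)) (PT.lf (nat_lit 13832) (nat_lit 6) (nat_lit 182) (nat_lit 2) (nat_lit 194) (nat_lit 195) (nat_lit 121))))))) (PT.nd (nat_lit 53196) (PT.nd (nat_lit 47112) (PT.nd (nat_lit 156) (PT.nd (nat_lit 78) (PT.lf (nat_lit 13756) (nat_lit 3) (nat_lit 181) (nat_lit 0) (nat_lit 195) (nat_lit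 195) (nat_lit 120)) (PT.lf (nat_lit 13604) (nat_lit 6) (nat_lit 179) (nat_lit 0) (nat_lit 196) (nat_lit 195) (nat_lit 119))) (PT.nd (nat_lit 46800) (PT.lf (nat_lit 13452) (nat_lit 6) (nat_lit 177) (nat_lit 0) (nat_lit 197) (nat_lit 195) (nat_lit 118)) (PT.nd (nat_lit 78) (PT.lf (nat_lit 13224) (nat_lit 6) (nat_lit 174) (nat_lit 5) (nat_lit 116) (nat_lit 196) (nat_lit 198)) (PT.lf (nat_lit 13376) (nat_lit 6) (nat_lit 176) (nat_lit 5) (nat_lit 117) (nat_lit 196) (nat_lit 197))))) (PT.nd (nat_lit 156) (PT.nd (nat_lit 78) (PT.lf (nat_lit 13528) (nat_lit 3) (nat_lit 178) (nat_lit 4) (nat_lit 118) (nat_lit 196) (nat_lit 196)) (PT.lf (nat_lit 13604) (nat_lit 6) (nat_lit 179) (nat_lit 4) (nat_lit 119) (nat_lit 196) (nat_lit 195))) (PT.nd (nat_lit 5772) (PT.lf (nat_lit 13680) (nat_lit 6) (nat_lit 180) (nat_lit 4) (nat_lit 120) (nat_lit 196) (nat_lit 194)) (PT.nd (nat_lit 78) (PT.lf (nat_lit 13680) (nat_lit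 6) (nat_lit 180) (nat_lit 2) (nat_lit 194) (nat_lit 196) (nat_lit 120)) (PT.lf (nat_lit 13604) (nat_lit 6) (nat_lit 179) (nat_lit 2) (nat_lit 195) (nat_lit 196) (nat_lit 119)))))) (PT.nd (nat_lit 46878) (PT.nd (nat_lit 156) (PT.nd (nat_lit 78) (PT.lf (nat_lit 13528) (nat_lit 3) (nat_lit 178) (nat_lit 0) (nat_lit 196) (nat_lit 196) (nat_lit 118)) (PT.lf (nat_lit 13376) (nat_lit 6) (nat_lit 176) (nat_lit 0) (nat_lit 197) (nat_lit 196) (nat_lit 117))) (PT.nd (nat_lit 46566) (PT.lf (nat_lit 13224) (nat_lit 6) (nat_lit 174) (nat_lit 0) (nat_lit 198) (nat_lit 196) (nat_lit 116)) (PT.nd (nat_lit 78) (PT.lf (nat_lit 12996) (nat_lit 6) (nat_lit 171) (nat_lit 5) (nat_lit 114) (nat_lit 197) (nat_lit 199)) (PT.lf (nat_lit 13148) (nat_lit 6) (nat_lit 173) (nat_lit 5) (nat_lit 115) (nat_lit 197) (nat_lit 198))))) (PT.nd (nat_lit 156) (PT.nd (nat_lit 78) (PT.lf (nat_lit 13300) (nat_lit 3) (nat_lit 175) (nat_lit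 4) (nat_lit 116) (nat_lit 197) (nat_lit 197)) (PT.lf (nat_lit 13376) (nat_lit 6) (nat_lit 176) (nat_lit 4) (nat_lit 117) (nat_lit 197) (nat_lit 196))) (PT.nd (nat_lit 6006) (PT.lf (nat_lit 13452) (nat_lit 6) (nat_lit 177) (nat_lit 4) (nat_lit 118) (nat_lit 197) (nat_lit 195)) (PT.nd (nat_lit 78) (PT.lf (nat_lit 13452) (nat_lit 6) (nat_lit 177) (nat_lit 2) (nat_lit 195) (nat_lit 197) (nat_lit 118)) (PT.lf (nat_lit 13376) (nat_lit 6) (nat_lit 176) (nat_lit 2) (nat_lit 196) (nat_lit 197) (nat_lit 117))))))))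
noncomputable def pc27 : PT := (PT.nd (nat_lit 106392) (PT.nd (nat_lit 53196) (PT.nd (nat_lit 46644) (PT.nd (nat_lit 156) (PT.nd (nat_lit 78) (PT.lf (nat_lit 13300) (nat_lit 3) (nat_lit 175) (nat_lit 0) (nat_lit 197) (nat_lit 197) (nat_lit 116)) (PT.lf (nat_lit 13148) (nat_lit 6) (nat_lit 173) (nat_lit 0) (nat_lit 198) (nat_lit 197) (nat_lit 115))) (PT.nd (nat_lit 46332) (PT.lf (nat_lit 12996) (nat_lit 6) (nat_lit 171) (nat_lit 0) (nat_lit 199) (nat_lit 197) (nat_lit 114)) (PT.nd (nat_lit 78) (PT.lf (nat_lit 12768) (nat_lit 6) (nat_lit 168) (nat_lit 5) (nat_lit 112) (nat_lit 198) (nat_lit 200)) (PT.lf (nat_lit 12920) (nat_lit 6) (nat_lit 170) (nat_lit 5) (nat_lit 113) (nat_lit 198) (nat_lit 199))))) (PT.nd (nat_lit 156) (PT.nd (nat_lit 78) (PT.lf (nat_lit 13072) (nat_lit 3) (nat_lit 172) (nat_lit 4) (nat_lit 114) (nat_lit 198) (nat_lit 198)) (PT.lf (nat_lit 13148) (nat_lit 6) (nat_lit 173) (nat_lit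 4) (nat_lit 115) (nat_lit 198) (nat_lit 197))) (PT.nd (nat_lit 6240) (PT.lf (nat_lit 13224) (nat_lit 6) (nat_lit 174) (nat_lit 4) (nat_lit 116) (nat_lit 198) (nat_lit 196)) (PT.nd (nat_lit 78) (PT.lf (nat_lit 13224) (nat_lit 6) (nat_lit 174) (nat_lit 2) (nat_lit 196) (nat_lit 198) (nat_lit 116)) (PT.lf (nat_lit 13148) (nat_lit 6) (nat_lit 173) (nat_lit 2) (nat_lit 197) (nat_lit 198) (nat_lit 115)))))) (PT.nd (nat_lit 46410) (PT.nd (nat_lit 156) (PT.nd (nat_lit 78) (PT.lf (nat_lit 13072) (nat_lit 3) (nat_lit 172) (nat_lit 0) (nat_lit 198) (nat_lit 198) (nat_lit 114)) (PT.lf (nat_lit 12920) (nat_lit 6) (nat_lit 170) (nat_lit 0) (nat_lit 199) (nat_lit 198) (nat_lit 113))) (PT.nd (nat_lit 46098) (PT.lf (nat_lit 12768) (nat_lit 6) (nat_lit 168) (nat_lit 0) (nat_lit 200) (nat_lit 198) (nat_lit 112)) (PT.nd (nat_lit 78) (PT.lf (nat_lit 12540) (nat_lit 6) (nat_lit 165) (nat_lit 5) (nat_lit 110) (nat_lit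 199) (nat_lit 201)) (PT.lf (nat_lit 12692) (nat_lit 6) (nat_lit 167) (nat_lit 5) (nat_lit 111) (nat_lit 199) (nat_lit 200))))) (PT.nd (nat_lit 156) (PT.nd (nat_lit 78) (PT.lf (nat_lit 12844) (nat_lit 3) (nat_lit 169) (nat_lit 4) (nat_lit 112) (nat_lit 199) (nat_lit 199)) (PT.lf (nat_lit 12920) (nat_lit 6) (nat_lit 170) (nat_lit 4) (nat_lit 113) (nat_lit 199) (nat_lit 198))) (PT.nd (nat_lit 6474) (PT.lf (nat_lit 12996) (nat_lit 6) (nat_lit 171) (nat_lit 4) (nat_lit 114) (nat_lit 199) (nat_lit 197)) (PT.nd (nat_lit 78) (PT.lf (nat_lit 12996) (nat_lit 6) (nat_lit 171) (nat_lit 2) (nat_lit 197) (nat_lit 199) (nat_lit 114)) (PT.lf (nat_lit 12920) (nat_lit 6) (nat_lit 170) (nat_lit 2) (nat_lit 198) (nat_lit 199) (nat_lit 113))))))) (PT.nd (nat_lit 53196) (PT.nd (nat_lit 46176) (PT.nd (nat_lit 156) (PT.nd (nat_lit 78) (PT.lf (nat_lit 12844) (nat_lit 3) (nat_lit 169) (nat_lit 0) (nat_lit 199) (nat_lit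 199) (nat_lit 112)) (PT.lf (nat_lit 12692) (nat_lit 6) (nat_lit 167) (nat_lit 0) (nat_lit 200) (nat_lit 199) (nat_lit 111))) (PT.nd (nat_lit 45864) (PT.lf (nat_lit 12540) (nat_lit 6) (nat_lit 165) (nat_lit 0) (nat_lit 201) (nat_lit 199) (nat_lit 110)) (PT.nd (nat_lit 78) (PT.lf (nat_lit 12312) (nat_lit 6) (nat_lit 162) (nat_lit 5) (nat_lit 108) (nat_lit 200) (nat_lit 202)) (PT.lf (nat_lit 12464) (nat_lit 6) (nat_lit 164) (nat_lit 5) (nat_lit 109) (nat_lit 200) (nat_lit 201))))) (PT.nd (nat_lit 156) (PT.nd (nat_lit 78) (PT.lf (nat_lit 12616) (nat_lit 3) (nat_lit 166) (nat_lit 4) (nat_lit 110) (nat_lit 200) (nat_lit 200)) (PT.lf (nat_lit 12692) (nat_lit 6) (nat_lit 167) (nat_lit 4) (nat_lit 111) (nat_lit 200) (nat_lit 199))) (PT.nd (nat_lit 6708) (PT.lf (nat_lit 12768) (nat_lit 6) (nat_lit 168) (nat_lit 4) (nat_lit 112) (nat_lit 200) (nat_lit 198)) (PT.nd (nat_lit 78) (PT.lf (nat_lit 12768) (nat_lit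 6) (nat_lit 168) (nat_lit 2) (nat_lit 198) (nat_lit 200) (nat_lit 112)) (PT.lf (nat_lit 12692) (nat_lit 6) (nat_lit 167) (nat_lit 2) (nat_lit 199) (nat_lit 200) (nat_lit 111)))))) (PT.nd (nat_lit 45942) (PT.nd (nat_lit 156) (PT.nd (nat_lit 78) (PT.lf (nat_lit 12616) (nat_lit 3) (nat_lit 166) (nat_lit 0) (nat_lit 200) (nat_lit 200) (nat_lit 110)) (PT.lf (nat_lit 12464) (nat_lit 6) (nat_lit 164) (nat_lit 0) (nat_lit 201) (nat_lit 200) (nat_lit 109))) (PT.nd (nat_lit 45630) (PT.lf (nat_lit 12312) (nat_lit 6) (nat_lit 162) (nat_lit 0) (nat_lit 202) (nat_lit 200) (nat_lit 108)) (PT.nd (nat_lit 78) (PT.lf (nat_lit 12084) (nat_lit 6) (nat_lit 159) (nat_lit 5) (nat_lit 106) (nat_lit 201) (nat_lit 203)) (PT.lf (nat_lit 12236) (nat_lit 6) (nat_lit 161) (nat_lit 5) (nat_lit 107) (nat_lit 201) (nat_lit 202))))) (PT.nd (nat_lit 156) (PT.nd (nat_lit 78) (PT.lf (nat_lit 12388) (nat_lit 3) (nat_lit 163) (nat_lit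 4) (nat_lit 108) (nat_lit 201) (nat_lit 201)) (PT.lf (nat_lit 12464) (nat_lit 6) (nat_lit 164) (nat_lit 4) (nat_lit 109) (nat_lit 201) (nat_lit 200))) (PT.nd (nat_lit 6942) (PT.lf (nat_lit 12540) (nat_lit 6) (nat_lit 165) (nat_lit 4) (nat_lit 110) (nat_lit 201) (nat_lit 199)) (PT.nd (nat_lit 78) (PT.lf (nat_lit 12540) (nat_lit 6) (nat_lit 165) (nat_lit 2) (nat_lit 199) (nat_lit 201) (nat_lit 110)) (PT.lf (nat_lit 12464) (nat_lit 6) (nat_lit 164) (nat_lit 2) (nat_lit 200) (nat_lit 201) (nat_lit 109))))))))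
noncomputable def pc28 : PT := (PT.nd (nat_lit 106314) (PT.nd (nat_lit 53118) (PT.nd (nat_lit 45630) (PT.nd (nat_lit 156) (PT.nd (nat_lit 78) (PT.lf (nat_lit 12388) (nat_lit 3) (nat_lit 163) (nat_lit 0) (nat_lit 201) (nat_lit 201) (nat_lit 108)) (PT.lf (nat_lit 12236) (nat_lit 6) (nat_lit 161) (nat_lit 0) (nat_lit 202) (nat_lit 201) (nat_lit 107))) (PT.nd (nat_lit 45396) (PT.lf (nat_lit 12084) (nat_lit 6) (nat_lit 159) (nat_lit 0) (nat_lit 203) (nat_lit 201) (nat_lit 106)) (PT.lf (nat_lit 11856) (nat_lit 6) (nat_lit 156) (nat_lit 5) (nat_lit 104) (nat_lit 202) (nat_lit 204)))) (PT.nd (nat_lit 156) (PT.nd (nat_lit 78) (PT.lf (nat_lit 12008) (nat_lit 6) (nat_lit 158) (nat_lit 5) (nat_lit 105) (nat_lit 202) (nat_lit 203)) (PT.lf (nat_lit 12160) (nat_lit 3) (nat_lit 160) (nat_lit 4) (nat_lit 106) (nat_lit 202) (nat_lit 202))) (PT.nd (nat_lit 78) (PT.lf (nat_lit 12236) (nat_lit 6) (nat_lit 161) (nat_lit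 4) (nat_lit 107) (nat_lit 202) (nat_lit 201)) (PT.nd (nat_lit 7176) (PT.lf (nat_lit 12312) (nat_lit 6) (nat_lit 162) (nat_lit 4) (nat_lit 108) (nat_lit 202) (nat_lit 200)) (PT.lf (nat_lit 12312) (nat_lit 6) (nat_lit 162) (nat_lit 2) (nat_lit 200) (nat_lit 202) (nat_lit 108)))))) (PT.nd (nat_lit 45474) (PT.nd (nat_lit 156) (PT.nd (nat_lit 78) (PT.lf (nat_lit 12236) (nat_lit 6) (nat_lit 161) (nat_lit 2) (nat_lit 201) (nat_lit 202) (nat_lit 107)) (PT.lf (nat_lit 12160) (nat_lit 3) (nat_lit 160) (nat_lit 0) (nat_lit 202) (nat_lit 202) (nat_lit 106))) (PT.nd (nat_lit 78) (PT.lf (nat_lit 12008) (nat_lit 6) (nat_lit 158) (nat_lit 0) (nat_lit 203) (nat_lit 202) (nat_lit 105)) (PT.nd (nat_lit 45162) (PT.lf (nat_lit 11856) (nat_lit 6) (nat_lit 156) (nat_lit 0) (nat_lit 204) (nat_lit 202) (nat_lit 104)) (PT.lf (nat_lit 11628) (nat_lit 6) (nat_lit 153) (nat_lit 5) (nat_lit 102) (nat_lit 203) (nat_lit 205)))))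 (PT.nd (nat_lit 156) (PT.nd (nat_lit 78) (PT.lf (nat_lit 11780) (nat_lit 6) (nat_lit 155) (nat_lit 5) (nat_lit 103) (nat_lit 203) (nat_lit 204)) (PT.lf (nat_lit 11932) (nat_lit 3) (nat_lit 157) (nat_lit 4) (nat_lit 104) (nat_lit 203) (nat_lit 203))) (PT.nd (nat_lit 78) (PT.lf (nat_lit 12008) (nat_lit 6) (nat_lit 158) (nat_lit 4) (nat_lit 105) (nat_lit 203) (nat_lit 202)) (PT.nd (nat_lit 7410) (PT.lf (nat_lit 12084) (nat_lit 6) (nat_lit 159) (nat_lit 4) (nat_lit 106) (nat_lit 203) (nat_lit 201)) (PT.lf (nat_lit 12084) (nat_lit 6) (nat_lit 159) (nat_lit 2) (nat_lit 201) (nat_lit 203) (nat_lit 106))))))) (PT.nd (nat_lit 53196) (PT.nd (nat_lit 45240) (PT.nd (nat_lit 156) (PT.nd (nat_lit 78) (PT.lf (nat_lit 12008) (nat_lit 6) (nat_lit 158) (nat_lit 2) (nat_lit 202) (nat_lit 203) (nat_lit 105)) (PT.lf (nat_lit 11932) (nat_lit 3) (nat_lit 157) (nat_lit 0) (nat_lit 203) (nat_lit 203) (nat_lit 104))) (PT.nd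 (nat_lit 78) (PT.lf (nat_lit 11780) (nat_lit 6) (nat_lit 155) (nat_lit 0) (nat_lit 204) (nat_lit 203) (nat_lit 103)) (PT.nd (nat_lit 44928) (PT.lf (nat_lit 11628) (nat_lit 6) (nat_lit 153) (nat_lit 0) (nat_lit 205) (nat_lit 203) (nat_lit 102)) (PT.lf (nat_lit 11400) (nat_lit 6) (nat_lit 150) (nat_lit 5) (nat_lit 100) (nat_lit 204) (nat_lit 206))))) (PT.nd (nat_lit 156) (PT.nd (nat_lit 78) (PT.lf (nat_lit 11552) (nat_lit 6) (nat_lit 152) (nat_lit 5) (nat_lit 101) (nat_lit 204) (nat_lit 205)) (PT.lf (nat_lit 11704) (nat_lit 3) (nat_lit 154) (nat_lit 4) (nat_lit 102) (nat_lit 204) (nat_lit 204))) (PT.nd (nat_lit 78) (PT.lf (nat_lit 11780) (nat_lit 6) (nat_lit 155) (nat_lit 4) (nat_lit 103) (nat_lit 204) (nat_lit 203)) (PT.nd (nat_lit 7644) (PT.lf (nat_lit 11856) (nat_lit 6) (nat_lit 156) (nat_lit 4) (nat_lit 104) (nat_lit 204) (nat_lit 202)) (PT.lf (nat_lit 11856) (nat_lit 6) (nat_lit 156) (nat_lit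 2) (nat_lit 202) (nat_lit 204) (nat_lit 104)))))) (PT.nd (nat_lit 45006) (PT.nd (nat_lit 156) (PT.nd (nat_lit 78) (PT.lf (nat_lit 11780) (nat_lit 6) (nat_lit 155) (nat_lit 2) (nat_lit 203) (nat_lit 204) (nat_lit 103)) (PT.lf (nat_lit 11704) (nat_lit 3) (nat_lit 154) (nat_lit 0) (nat_lit 204) (nat_lit 204) (nat_lit 102))) (PT.nd (nat_lit 78) (PT.lf (nat_lit 11552) (nat_lit 6) (nat_lit 152) (nat_lit 0) (nat_lit 205) (nat_lit 204) (nat_lit 101)) (PT.nd (nat_lit 44694) (PT.lf (nat_lit 11400) (nat_lit 6) (nat_lit 150) (nat_lit 0) (nat_lit 206) (nat_lit 204) (nat_lit 100)) (PT.lf (nat_lit 11172) (nat_lit 6) (nat_lit 147) (nat_lit 5) (nat_lit 98) (nat_lit 205) (nat_lit 207))))) (PT.nd (nat_lit 156) (PT.nd (nat_lit 78) (PT.lf (nat_lit 11324) (nat_lit 6) (nat_lit 149) (nat_lit 5) (nat_lit 99) (nat_lit 205) (nat_lit 206)) (PT.lf (nat_lit 11476) (nat_lit 3) (nat_lit 151) (nat_lit 4) (nat_lit 100) (nat_lit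 205) (nat_lit 205))) (PT.nd (nat_lit 78) (PT.lf (nat_lit 11552) (nat_lit 6) (nat_lit 152) (nat_lit 4) (nat_lit 101) (nat_lit 205) (nat_lit 204)) (PT.nd (nat_lit 7878) (PT.lf (nat_lit 11628) (nat_lit 6) (nat_lit 153) (nat_lit 4) (nat_lit 102) (nat_lit 205) (nat_lit 203)) (PT.lf (nat_lit 11628) (nat_lit 6) (nat_lit 153) (nat_lit 2) (nat_lit 203) (nat_lit 205) (nat_lit 102))))))))
noncomputable def pc29 : PT := (PT.nd (nat_lit 106392) (PT.nd (nat_lit 53196) (PT.nd (nat_lit 44772) (PT.nd (nat_lit 156) (PT.nd (nat_lit 78) (PT.lf (nat_lit 11552) (nat_lit 6) (nat_lit 152) (nat_lit 2) (nat_lit 204) (nat_lit 205) (nat_lit 101)) (PT.lf (nat_lit 11476) (nat_lit 3) (nat_lit 151) (nat_lit 0) (nat_lit 205) (nat_lit 205) (nat_lit 100))) (PT.nd (nat_lit 78) (PT.lf (nat_lit 11324) (nat_lit 6) (nat_lit 149) (nat_lit 0) (nat_lit 206) (nat_lit 205) (nat_lit 99)) (PT.nd (nat_lit 44460) (PT.lf (nat_lit 11172) (nat_lit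 6) (nat_lit 147) (nat_lit 0) (nat_lit 207) (nat_lit 205) (nat_lit 98)) (PT.lf (nat_lit 10944) (nat_lit 6) (nat_lit 144) (nat_lit 5) (nat_lit 96) (nat_lit 206) (nat_lit 208))))) (PT.nd (nat_lit 156) (PT.nd (nat_lit 78) (PT.lf (nat_lit 11096) (nat_lit 6) (nat_lit 146) (nat_lit 5) (nat_lit 97) (nat_lit 206) (nat_lit 207)) (PT.lf (nat_lit 11248) (nat_lit 3) (nat_lit 148) (nat_lit 4) (nat_lit 98) (nat_lit 206) (nat_lit 206))) (PT.nd (nat_lit 78) (PT.lf (nat_lit 11324) (nat_lit 6) (nat_lit 149) (nat_lit 4) (nat_lit 99) (nat_lit 206) (nat_lit 205)) (PT.nd (nat_lit 8112) (PT.lf (nat_lit 11400) (nat_lit 6) (nat_lit 150) (nat_lit 4) (nat_lit 100) (nat_lit 206) (nat_lit 204)) (PT.lf (nat_lit 11400) (nat_lit 6) (nat_lit 150) (nat_lit 2) (nat_lit 204) (nat_lit 206) (nat_lit 100)))))) (PT.nd (nat_lit 44538) (PT.nd (nat_lit 156) (PT.nd (nat_lit 78) (PT.lf (nat_lit 11324) (nat_lit 6) (nat_lit 149) (nat_lit 2)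 (nat_lit 205) (nat_lit 206) (nat_lit 99)) (PT.lf (nat_lit 11248) (nat_lit 3) (nat_lit 148) (nat_lit 0) (nat_lit 206) (nat_lit 206) (nat_lit 98))) (PT.nd (nat_lit 78) (PT.lf (nat_lit 11096) (nat_lit 6) (nat_lit 146) (nat_lit 0) (nat_lit 207) (nat_lit 206) (nat_lit 97)) (PT.nd (nat_lit 44226) (PT.lf (nat_lit 10944) (nat_lit 6) (nat_lit 144) (nat_lit 0) (nat_lit 208) (nat_lit 206) (nat_lit 96)) (PT.lf (nat_lit 10716) (nat_lit 6) (nat_lit 141) (nat_lit 5) (nat_lit 94) (nat_lit 207) (nat_lit 209))))) (PT.nd (nat_lit 156) (PT.nd (nat_lit 78) (PT.lf (nat_lit 10868) (nat_lit 6) (nat_lit 143) (nat_lit 5) (nat_lit 95) (nat_lit 207) (nat_lit 208)) (PT.lf (nat_lit 11020) (nat_lit 3) (nat_lit 145) (nat_lit 4) (nat_lit 96) (nat_lit 207) (nat_lit 207))) (PT.nd (nat_lit 78) (PT.lf (nat_lit 11096) (nat_lit 6) (nat_lit 146) (nat_lit 4) (nat_lit 97) (nat_lit 207) (nat_lit 206)) (PT.nd (nat_lit 8346) (PT.lf (nat_lit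 11172) (nat_lit 6) (nat_lit 147) (nat_lit 4) (nat_lit 98) (nat_lit 207) (nat_lit 205)) (PT.lf (nat_lit 11172) (nat_lit 6) (nat_lit 147) (nat_lit 2) (nat_lit 205) (nat_lit 207) (nat_lit 98))))))) (PT.nd (nat_lit 53196) (PT.nd (nat_lit 44304) (PT.nd (nat_lit 156) (PT.nd (nat_lit 78) (PT.lf (nat_lit 11096) (nat_lit 6) (nat_lit 146) (nat_lit 2) (nat_lit 206) (nat_lit 207) (nat_lit 97)) (PT.lf (nat_lit 11020) (nat_lit 3) (nat_lit 145) (nat_lit 0) (nat_lit 207) (nat_lit 207) (nat_lit 96))) (PT.nd (nat_lit 78) (PT.lf (nat_lit 10868) (nat_lit 6) (nat_lit 143) (nat_lit 0) (nat_lit 208) (nat_lit 207) (nat_lit 95)) (PT.nd (nat_lit 43992) (PT.lf (nat_lit 10716) (nat_lit 6) (nat_lit 141) (nat_lit 0) (nat_lit 209) (nat_lit 207) (nat_lit 94)) (PT.lf (nat_lit 10488) (nat_lit 6) (nat_lit 138) (nat_lit 5) (nat_lit 92) (nat_lit 208) (nat_lit 210))))) (PT.nd (nat_lit 156) (PT.nd (nat_lit 78) (PT.lf (nat_lit 10640)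 (nat_lit 6) (nat_lit 140) (nat_lit 5) (nat_lit 93) (nat_lit 208) (nat_lit 209)) (PT.lf (nat_lit 10792) (nat_lit 3) (nat_lit 142) (nat_lit 4) (nat_lit 94) (nat_lit 208) (nat_lit 208))) (PT.nd (nat_lit 78) (PT.lf (nat_lit 10868) (nat_lit 6) (nat_lit 143) (nat_lit 4) (nat_lit 95) (nat_lit 208) (nat_lit 207)) (PT.nd (nat_lit 8580) (PT.lf (nat_lit 10944) (nat_lit 6) (nat_lit 144) (nat_lit 4) (nat_lit 96) (nat_lit 208) (nat_lit 206)) (PT.lf (nat_lit 10944) (nat_lit 6) (nat_lit 144) (nat_lit 2) (nat_lit 206) (nat_lit 208) (nat_lit 96)))))) (PT.nd (nat_lit 44070) (PT.nd (nat_lit 156) (PT.nd (nat_lit 78) (PT.lf (nat_lit 10868) (nat_lit 6) (nat_lit 143) (nat_lit 2) (nat_lit 207) (nat_lit 208) (nat_lit 95)) (PT.lf (nat_lit 10792) (nat_lit 3) (nat_lit 142) (nat_lit 0) (nat_lit 208) (nat_lit 208) (nat_lit 94))) (PT.nd (nat_lit 78) (PT.lf (nat_lit 10640) (nat_lit 6) (nat_lit 140) (nat_lit 0) (nat_lit 209) (nat_lit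 208) (nat_lit 93)) (PT.nd (nat_lit 43758) (PT.lf (nat_lit 10488) (nat_lit 6) (nat_lit 138) (nat_lit 0) (nat_lit 210) (nat_lit 208) (nat_lit 92)) (PT.lf (nat_lit 10260) (nat_lit 6) (nat_lit 135) (nat_lit 5) (nat_lit 90) (nat_lit 209) (nat_lit 211))))) (PT.nd (nat_lit 156) (PT.nd (nat_lit 78) (PT.lf (nat_lit 10412) (nat_lit 6) (nat_lit 137) (nat_lit 5) (nat_lit 91) (nat_lit 209) (nat_lit 210)) (PT.lf (nat_lit 10564) (nat_lit 3) (nat_lit 139) (nat_lit 4) (nat_lit 92) (nat_lit 209) (nat_lit 209))) (PT.nd (nat_lit 78) (PT.lf (nat_lit 10640) (nat_lit 6) (nat_lit 140) (nat_lit 4) (nat_lit 93) (nat_lit 209) (nat_lit 208)) (PT.nd (nat_lit 8814) (PT.lf (nat_lit 10716) (nat_lit 6) (nat_lit 141) (nat_lit 4) (nat_lit 94) (nat_lit 209) (nat_lit 207)) (PT.lf (nat_lit 10716) (nat_lit 6) (nat_lit 141) (nat_lit 2) (nat_lit 207) (nat_lit 209) (nat_lit 94))))))))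
noncomputable def pc30 : PT := (PT.nd (nat_lit 106392) (PT.nd (nat_lit 53196) (PT.nd (nat_lit 43836) (PT.nd (nat_lit 156) (PT.nd (nat_lit 78) (PT.lf (nat_lit 10640) (nat_lit 6) (nat_lit 140) (nat_lit 2) (nat_lit 208) (nat_lit 209) (nat_lit 93)) (PT.lf (nat_lit 10564) (nat_lit 3) (nat_lit 139) (nat_lit 0) (nat_lit 209) (nat_lit 209) (nat_lit 92))) (PT.nd (nat_lit 78) (PT.lf (nat_lit 10412) (nat_lit 6) (nat_lit 137) (nat_lit 0) (nat_lit 210) (nat_lit 209) (nat_lit 91)) (PT.nd (nat_lit 43524) (PT.lf (nat_lit 10260) (nat_lit 6) (nat_lit 135) (nat_lit 0) (nat_lit 211) (nat_lit 209) (nat_lit 90)) (PT.lf (nat_lit 10032) (nat_lit 6) (nat_lit 132) (nat_lit 5) (nat_lit 88) (nat_lit 210) (nat_lit 212))))) (PT.nd (nat_lit 156) (PT.nd (nat_lit 78) (PT.lf (nat_lit 10184) (nat_lit 6) (nat_lit 134) (nat_lit 5) (nat_lit 89) (nat_lit 210) (nat_lit 211)) (PT.lf (nat_lit 10336) (nat_lit 3) (nat_lit 136) (nat_lit 4)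 (nat_lit 90) (nat_lit 210) (nat_lit 210))) (PT.nd (nat_lit 78) (PT.lf (nat_lit 10412) (nat_lit 6) (nat_lit 137) (nat_lit 4) (nat_lit 91) (nat_lit 210) (nat_lit 209)) (PT.nd (nat_lit 9048) (PT.lf (nat_lit 10488) (nat_lit 6) (nat_lit 138) (nat_lit 4) (nat_lit 92) (nat_lit 210) (nat_lit 208)) (PT.lf (nat_lit 10488) (nat_lit 6) (nat_lit 138) (nat_lit 2) (nat_lit 208) (nat_lit 210) (nat_lit 92)))))) (PT.nd (nat_lit 43602) (PT.nd (nat_lit 156) (PT.nd (nat_lit 78) (PT.lf (nat_lit 10412) (nat_lit 6) (nat_lit 137) (nat_lit 2) (nat_lit 209) (nat_lit 210) (nat_lit 91)) (PT.lf (nat_lit 10336) (nat_lit 3) (nat_lit 136) (nat_lit 0) (nat_lit 210) (nat_lit 210) (nat_lit 90))) (PT.nd (nat_lit 78) (PT.lf (nat_lit 10184) (nat_lit 6) (nat_lit 134) (nat_lit 0) (nat_lit 211) (nat_lit 210) (nat_lit 89)) (PT.nd (nat_lit 43290) (PT.lf (nat_lit 10032) (nat_lit 6) (nat_lit 132) (nat_lit 0) (nat_lit 212) (nat_lit 210) (nat_lit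 88)) (PT.lf (nat_lit 9804) (nat_lit 6) (nat_lit 129) (nat_lit 5) (nat_lit 86) (nat_lit 211) (nat_lit 213))))) (PT.nd (nat_lit 156) (PT.nd (nat_lit 78) (PT.lf (nat_lit 9956) (nat_lit 6) (nat_lit 131) (nat_lit 5) (nat_lit 87) (nat_lit 211) (nat_lit 212)) (PT.lf (nat_lit 10108) (nat_lit 3) (nat_lit 133) (nat_lit 4) (nat_lit 88) (nat_lit 211) (nat_lit 211))) (PT.nd (nat_lit 78) (PT.lf (nat_lit 10184) (nat_lit 6) (nat_lit 134) (nat_lit 4) (nat_lit 89) (nat_lit 211) (nat_lit 210)) (PT.nd (nat_lit 9282) (PT.lf (nat_lit 10260) (nat_lit 6) (nat_lit 135) (nat_lit 4) (nat_lit 90) (nat_lit 211) (nat_lit 209)) (PT.lf (nat_lit 10260) (nat_lit 6) (nat_lit 135) (nat_lit 2) (nat_lit 209) (nat_lit 211) (nat_lit 90))))))) (PT.nd (nat_lit 53274) (PT.nd (nat_lit 43446) (PT.nd (nat_lit 156) (PT.nd (nat_lit 78) (PT.lf (nat_lit 10184) (nat_lit 6) (nat_lit 134) (nat_lit 2) (nat_lit 210) (nat_lit 211) (nat_lit 89)) (PT.lf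 (nat_lit 10108) (nat_lit 3) (nat_lit 133) (nat_lit 0) (nat_lit 211) (nat_lit 211) (nat_lit 88))) (PT.nd (nat_lit 78) (PT.lf (nat_lit 9956) (nat_lit 6) (nat_lit 131) (nat_lit 0) (nat_lit 212) (nat_lit 211) (nat_lit 87)) (PT.nd (nat_lit 43134) (PT.lf (nat_lit 9804) (nat_lit 6) (nat_lit 129) (nat_lit 0) (nat_lit 213) (nat_lit 211) (nat_lit 86)) (PT.lf (nat_lit 9728) (nat_lit 6) (nat_lit 128) (nat_lit 5) (nat_lit 85) (nat_lit 212) (nat_lit 213))))) (PT.nd (nat_lit 156) (PT.nd (nat_lit 78) (PT.lf (nat_lit 9880) (nat_lit 3) (nat_lit 130) (nat_lit 4) (nat_lit 86) (nat_lit 212) (nat_lit 212)) (PT.lf (nat_lit 9956) (nat_lit 6) (nat_lit 131) (nat_lit 4) (nat_lit 87) (nat_lit 212) (nat_lit 211))) (PT.nd (nat_lit 9516) (PT.lf (nat_lit 10032) (nat_lit 6) (nat_lit 132) (nat_lit 4) (nat_lit 88) (nat_lit 212) (nat_lit 210)) (PT.nd (nat_lit 78) (PT.lf (nat_lit 10032) (nat_lit 6) (nat_lit 132) (nat_lit 2) (nat_lit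 210) (nat_lit 212) (nat_lit 88)) (PT.lf (nat_lit 9956) (nat_lit 6) (nat_lit 131) (nat_lit 2) (nat_lit 211) (nat_lit 212) (nat_lit 87)))))) (PT.nd (nat_lit 43290) (PT.nd (nat_lit 43056) (PT.nd (nat_lit 78) (PT.lf (nat_lit 9880) (nat_lit 3) (nat_lit 130) (nat_lit 0) (nat_lit 212) (nat_lit 212) (nat_lit 86)) (PT.lf (nat_lit 9728) (nat_lit 6) (nat_lit 128) (nat_lit 0) (nat_lit 213) (nat_lit 212) (nat_lit 85))) (PT.nd (nat_lit 78) (PT.lf (nat_lit 9500) (nat_lit 6) (nat_lit 125) (nat_lit 5) (nat_lit 83) (nat_lit 213) (nat_lit 214)) (PT.nd (nat_lit 78) (PT.lf (nat_lit 9652) (nat_lit 3) (nat_lit 127) (nat_lit 4) (nat_lit 84) (nat_lit 213) (nat_lit 213)) (PT.lf (nat_lit 9728) (nat_lit 6) (nat_lit 128) (nat_lit 4) (nat_lit 85) (nat_lit 213) (nat_lit 212))))) (PT.nd (nat_lit 9828) (PT.nd (nat_lit 9750) (PT.lf (nat_lit 9804) (nat_lit 6) (nat_lit 129) (nat_lit 4) (nat_lit 86) (nat_lit 213) (nat_lit 211)) (PT.lf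 (nat_lit 9804) (nat_lit 6) (nat_lit 129) (nat_lit 2) (nat_lit 211) (nat_lit 213) (nat_lit 86))) (PT.nd (nat_lit 78) (PT.lf (nat_lit 9728) (nat_lit 6) (nat_lit 128) (nat_lit 2) (nat_lit 212) (nat_lit 213) (nat_lit 85)) (PT.nd (nat_lit 78) (PT.lf (nat_lit 9652) (nat_lit 3) (nat_lit 127) (nat_lit 0) (nat_lit 213) (nat_lit 213) (nat_lit 84)) (PT.lf (nat_lit 9500) (nat_lit 6) (nat_lit 125) (nat_lit 0) (nat_lit 214) (nat_lit 213) (nat_lit 83))))))))
noncomputable def pc31 : PT := (PT.nd (nat_lit 159042) (PT.nd (nat_lit 63570) (PT.nd (nat_lit 10452) (PT.nd (nat_lit 156) (PT.nd (nat_lit 78) (PT.lf (nat_lit 9272) (nat_lit 6) (nat_lit 122) (nat_lit 5) (nat_lit 81) (nat_lit 214) (nat_lit 215)) (PT.lf (nat_lit 9424) (nat_lit 3) (nat_lit 124) (nat_lit 4) (nat_lit 82) (nat_lit 214) (nat_lit 214))) (PT.nd (nat_lit 10140) (PT.lf (nat_lit 9500) (nat_lit 6) (nat_lit 125) (nat_lit 4) (nat_lit 83) (nat_lit 214) (nat_lit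 213)) (PT.nd (nat_lit 78) (PT.lf (nat_lit 9500) (nat_lit 6) (nat_lit 125) (nat_lit 2) (nat_lit 213) (nat_lit 214) (nat_lit 83)) (PT.lf (nat_lit 9424) (nat_lit 3) (nat_lit 124) (nat_lit 0) (nat_lit 214) (nat_lit 214) (nat_lit 82))))) (PT.nd (nat_lit 42588) (PT.nd (nat_lit 42510) (PT.lf (nat_lit 9272) (nat_lit 6) (nat_lit 122) (nat_lit 0) (nat_lit 215) (nat_lit 214) (nat_lit 81)) (PT.lf (nat_lit 9044) (nat_lit 6) (nat_lit 119) (nat_lit 5) (nat_lit 79) (nat_lit 215) (nat_lit 216))) (PT.nd (nat_lit 78) (PT.lf (nat_lit 9196) (nat_lit 3) (nat_lit 121) (nat_lit 4) (nat_lit 80) (nat_lit 215) (nat_lit 215)) (PT.nd (nat_lit 10374) (PT.lf (nat_lit 9272) (nat_lit 6) (nat_lit 122) (nat_lit 4) (nat_lit 81) (nat_lit 215) (nat_lit 214)) (PT.lf (nat_lit 9272) (nat_lit 6) (nat_lit 122) (nat_lit 2) (nat_lit 214) (nat_lit 215) (nat_lit 81)))))) (PT.nd (nat_lit 53118) (PT.nd (nat_lit 42354) (PT.nd (nat_lit 78) (PT.lf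 (nat_lit 9196) (nat_lit 3) (nat_lit 121) (nat_lit 0) (nat_lit 215) (nat_lit 215) (nat_lit 80)) (PT.lf (nat_lit 9044) (nat_lit 6) (nat_lit 119) (nat_lit 0) (nat_lit 216) (nat_lit 215) (nat_lit 79))) (PT.nd (nat_lit 78) (PT.lf (nat_lit 8816) (nat_lit 6) (nat_lit 116) (nat_lit 5) (nat_lit 77) (nat_lit 216) (nat_lit 217)) (PT.nd (nat_lit 78) (PT.lf (nat_lit 8968) (nat_lit 3) (nat_lit 118) (nat_lit 4) (nat_lit 78) (nat_lit 216) (nat_lit 216)) (PT.lf (nat_lit 9044) (nat_lit 6) (nat_lit 119) (nat_lit 4) (nat_lit 79) (nat_lit 216) (nat_lit 215))))) (PT.nd (nat_lit 156) (PT.nd (nat_lit 78) (PT.lf (nat_lit 9044) (nat_lit 6) (nat_lit 119) (nat_lit 2) (nat_lit 215) (nat_lit 216) (nat_lit 79)) (PT.lf (nat_lit 8968) (nat_lit 3) (nat_lit 118) (nat_lit 0) (nat_lit 216) (nat_lit 216) (nat_lit 78))) (PT.nd (nat_lit 42042) (PT.lf (nat_lit 8816) (nat_lit 6) (nat_lit 116) (nat_lit 0) (nat_lit 217) (nat_lit 216) (nat_lit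 77)) (PT.nd (nat_lit 78) (PT.lf (nat_lit 8588) (nat_lit 6) (nat_lit 113) (nat_lit 5) (nat_lit 75) (nat_lit 217) (nat_lit 218)) (PT.lf (nat_lit 8740) (nat_lit 3) (nat_lit 115) (nat_lit 4) (nat_lit 76) (nat_lit 217) (nat_lit 217))))))) (PT.nd (nat_lit 105768) (PT.nd (nat_lit 52884) (PT.nd (nat_lit 10920) (PT.nd (nat_lit 10842) (PT.lf (nat_lit 8816) (nat_lit 6) (nat_lit 116) (nat_lit 4) (nat_lit 77) (nat_lit 217) (nat_lit 216)) (PT.lf (nat_lit 8816) (nat_lit 6) (nat_lit 116) (nat_lit 2) (nat_lit 216) (nat_lit 217) (nat_lit 77))) (PT.nd (nat_lit 78) (PT.lf (nat_lit 8740) (nat_lit 3) (nat_lit 115) (nat_lit 0) (nat_lit 217) (nat_lit 217) (nat_lit 76)) (PT.nd (nat_lit 41808) (PT.lf (nat_lit 8588) (nat_lit 6) (nat_lit 113) (nat_lit 0) (nat_lit 218) (nat_lit 217) (nat_lit 75)) (PT.lf (nat_lit 8360) (nat_lit 6) (nat_lit 110) (nat_lit 5) (nat_lit 73) (nat_lit 218) (nat_lit 219))))) (PT.nd (nat_lit 11154)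 (PT.nd (nat_lit 78) (PT.lf (nat_lit 8512) (nat_lit 3) (nat_lit 112) (nat_lit 4) (nat_lit 74) (nat_lit 218) (nat_lit 218)) (PT.lf (nat_lit 8588) (nat_lit 6) (nat_lit 113) (nat_lit 4) (nat_lit 75) (nat_lit 218) (nat_lit 217))) (PT.nd (nat_lit 78) (PT.lf (nat_lit 8588) (nat_lit 6) (nat_lit 113) (nat_lit 2) (nat_lit 217) (nat_lit 218) (nat_lit 75)) (PT.nd (nat_lit 78) (PT.lf (nat_lit 8512) (nat_lit 3) (nat_lit 112) (nat_lit 0) (nat_lit 218) (nat_lit 218) (nat_lit 74)) (PT.lf (nat_lit 8360) (nat_lit 6) (nat_lit 110) (nat_lit 0) (nat_lit 219) (nat_lit 218) (nat_lit 73)))))) (PT.nd (nat_lit 11622) (PT.nd (nat_lit 156) (PT.nd (nat_lit 78) (PT.lf (nat_lit 8132) (nat_lit 6) (nat_lit 107) (nat_lit 5) (nat_lit 71) (nat_lit 219) (nat_lit 220)) (PT.lf (nat_lit 8284) (nat_lit 3) (nat_lit 109) (nat_lit 4) (nat_lit 72) (nat_lit 219) (nat_lit 219))) (PT.nd (nat_lit 11310) (PT.lf (nat_lit 8360) (nat_lit 6) (nat_lit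 110) (nat_lit 4) (nat_lit 73) (nat_lit 219) (nat_lit 218)) (PT.nd (nat_lit 78) (PT.lf (nat_lit 8360) (nat_lit 6) (nat_lit 110) (nat_lit 2) (nat_lit 218) (nat_lit 219) (nat_lit 73)) (PT.lf (nat_lit 8284) (nat_lit 3) (nat_lit 109) (nat_lit 0) (nat_lit 219) (nat_lit 219) (nat_lit 72))))) (PT.nd (nat_lit 41496) (PT.nd (nat_lit 41418) (PT.lf (nat_lit 8132) (nat_lit 6) (nat_lit 107) (nat_lit 0) (nat_lit 220) (nat_lit 219) (nat_lit 71)) (PT.lf (nat_lit 8056) (nat_lit 3) (nat_lit 106) (nat_lit 4) (nat_lit 70) (nat_lit 220) (nat_lit 220))) (PT.nd (nat_lit 11544) (PT.lf (nat_lit 8132) (nat_lit 6) (nat_lit 107) (nat_lit 4) (nat_lit 71) (nat_lit 220) (nat_lit 219)) (PT.nd (nat_lit 78) (PT.lf (nat_lit 8132) (nat_lit 6) (nat_lit 107) (nat_lit 2) (nat_lit 219) (nat_lit 220) (nat_lit 71)) (PT.lf (nat_lit 8056) (nat_lit 3) (nat_lit 106) (nat_lit 0) (nat_lit 220) (nat_lit 220) (nat_lit 70))))))))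
noncomputable def xc0 : XT := (XT.nd (nat_lit 212316) (nat_lit 0) (nat_lit 76) (XT.nd (nat_lit 158964) (nat_lit 0) (nat_lit 76) (XT.nd (nat_lit 105924) (nat_lit 0) (nat_lit 76) (XT.nd (nat_lit 53040) (nat_lit 0) (nat_lit 0) (XT.nd (nat_lit 52884) (nat_lit 0) (nat_lit 456) (XT.lf (nat_lit 0) (nat_lit 4022147494) (nat_lit 76) (nat_lit 21868211654) (nat_lit 76) (nat_lit 21819635429) (nat_lit 11) (nat_lit 4) (nat_lit 12) (nat_lit 5) (nat_lit 12) (nat_lit 4) (nat_lit 441) (nat_lit 290) (nat_lit 289)) (XT.nd (nat_lit 78) (nat_lit 76) (nat_lit 0) (XT.lf (nat_lit 0) (nat_lit 1605442991) (nat_lit 152) (nat_lit 18961679588) (nat_lit 0) (nat_lit 1605442991) (nat_lit 18) (nat_lit 5) (nat_lit 20) (nat_lit 4) (nat_lit 18) (nat_lit 4) (nat_lit 438) (nat_lit 291) (nat_lit 291)) (XT.lf (nat_lit 0) (nat_lit 35794373224) (nat_lit 76) (nat_lit 4851099964) (nat_lit 76) (nat_lit 4796988720) (nat_lit 17) (nat_lit 4)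 (nat_lit 18) (nat_lit 5) (nat_lit 18) (nat_lit 4) (nat_lit 439) (nat_lit 291) (nat_lit 290)))) (XT.nd (nat_lit 78) (nat_lit 228) (nat_lit 0) (XT.lf (nat_lit 0) (nat_lit 19407237841) (nat_lit 76) (nat_lit 13635142781) (nat_lit 76) (nat_lit 13532574080) (nat_lit 14) (nat_lit 4) (nat_lit 15) (nat_lit 5) (nat_lit 15) (nat_lit 4) (nat_lit 440) (nat_lit 291) (nat_lit 289)) (XT.nd (nat_lit 52728) (nat_lit 0) (nat_lit 988) (XT.lf (nat_lit 0) (nat_lit 1442773657) (nat_lit 76) (nat_lit 23225627079) (nat_lit 76) (nat_lit 23079782744) (nat_lit 11) (nat_lit 4) (nat_lit 12) (nat_lit 5) (nat_lit 12) (nat_lit 4) (nat_lit 441) (nat_lit 291) (nat_lit 288)) (XT.lf (nat_lit 0) (nat_lit 8918505538) (nat_lit 152) (nat_lit 3280305951) (nat_lit 0) (nat_lit 8918505538) (nat_lit 24) (nat_lit 5) (nat_lit 26) (nat_lit 4) (nat_lit 24) (nat_lit 4) (nat_lit 436) (nat_lit 292) (nat_lit 292))))) (XT.nd (nat_lit 234) (nat_lit 380)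 (nat_lit 0) (XT.nd (nat_lit 78) (nat_lit 304) (nat_lit 0) (XT.lf (nat_lit 0) (nat_lit 10609009247) (nat_lit 152) (nat_lit 22120613979) (nat_lit 0) (nat_lit 10550487937) (nat_lit 21) (nat_lit 5) (nat_lit 23) (nat_lit 4) (nat_lit 21) (nat_lit 4) (nat_lit 437) (nat_lit 292) (nat_lit 291)) (XT.nd (nat_lit 78) (nat_lit 76) (nat_lit 0) (XT.lf (nat_lit 0) (nat_lit 2671141784) (nat_lit 152) (nat_lit 39131672454) (nat_lit 0) (nat_lit 2560213734) (nat_lit 18) (nat_lit 5) (nat_lit 20) (nat_lit 4) (nat_lit 18) (nat_lit 4) (nat_lit 438) (nat_lit 292) (nat_lit 290)) (XT.lf (nat_lit 0) (nat_lit 33388334923) (nat_lit 76) (nat_lit 6126112416) (nat_lit 76) (nat_lit 5963649848) (nat_lit 17) (nat_lit 4) (nat_lit 18) (nat_lit 5) (nat_lit 18) (nat_lit 4) (nat_lit 439) (nat_lit 292) (nat_lit 289)))) (XT.nd (nat_lit 52650) (nat_lit 0) (nat_lit 1064) (XT.nd (nat_lit 78) (nat_lit 152) (nat_lit 0) (XT.lf (nat_lit 0) (nat_lit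 15668576267) (nat_lit 76) (nat_lit 15583561102) (nat_lit 76) (nat_lit 15378179489) (nat_lit 14) (nat_lit 4) (nat_lit 15) (nat_lit 5) (nat_lit 15) (nat_lit 4) (nat_lit 440) (nat_lit 292) (nat_lit 288)) (XT.lf (nat_lit 0) (nat_lit 22208777512) (nat_lit 152) (nat_lit 3649483505) (nat_lit 0) (nat_lit 21965317819) (nat_lit 12) (nat_lit 5) (nat_lit 14) (nat_lit 4) (nat_lit 12) (nat_lit 4) (nat_lit 441) (nat_lit 292) (nat_lit 287))) (XT.nd (nat_lit 78) (nat_lit 228) (nat_lit 0) (XT.lf (nat_lit 0) (nat_lit 11030879899) (nat_lit 76) (nat_lit 4541400354) (nat_lit 76) (nat_lit 4541400354) (nat_lit 29) (nat_lit 4) (nat_lit 30) (nat_lit 5) (nat_lit 30) (nat_lit 4) (nat_lit 434) (nat_lit 293) (nat_lit 293)) (XT.lf (nat_lit 0) (nat_lit 7795295743) (nat_lit 76) (nat_lit 16746273763) (nat_lit 76) (nat_lit 16681084242) (nat_lit 26) (nat_lit 4) (nat_lit 27) (nat_lit 5) (nat_lit 27) (nat_lit 4) (nat_lit 435) (nat_lit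 293) (nat_lit 292)))))) (XT.nd (nat_lit 52806) (nat_lit 0) (nat_lit 608) (XT.nd (nat_lit 234) (nat_lit 456) (nat_lit 0) (XT.nd (nat_lit 78) (nat_lit 456) (nat_lit 0) (XT.lf (nat_lit 0) (nat_lit 17343601662) (nat_lit 152) (nat_lit 7687699485) (nat_lit 0) (nat_lit 17220033916) (nat_lit 24) (nat_lit 5) (nat_lit 26) (nat_lit 4) (nat_lit 24) (nat_lit 4) (nat_lit 436) (nat_lit 293) (nat_lit 291)) (XT.nd (nat_lit 78) (nat_lit 228) (nat_lit 0) (XT.lf (nat_lit 0) (nat_lit 9517548907) (nat_lit 152) (nat_lit 24455303849) (nat_lit 0) (nat_lit 9341845639) (nat_lit 21) (nat_lit 5) (nat_lit 23) (nat_lit 4) (nat_lit 21) (nat_lit 4) (nat_lit 437) (nat_lit 293) (nat_lit 290)) (XT.lf (nat_lit 0) (nat_lit 939696032) (nat_lit 152) (nat_lit 42759489224) (nat_lit 0) (nat_lit 717575818) (nat_lit 18) (nat_lit 5) (nat_lit 20) (nat_lit 4) (nat_lit 18) (nat_lit 4) (nat_lit 438) (nat_lit 293) (nat_lit 289)))) (XT.nd (nat_lit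 78) (nat_lit 380) (nat_lit 0) (XT.lf (nat_lit 0) (nat_lit 28570529658) (nat_lit 76) (nat_lit 8625061821) (nat_lit 76) (nat_lit 8353861113) (nat_lit 17) (nat_lit 4) (nat_lit 18) (nat_lit 5) (nat_lit 18) (nat_lit 4) (nat_lit 439) (nat_lit 293) (nat_lit 288)) (XT.nd (nat_lit 78) (nat_lit 152) (nat_lit 0) (XT.lf (nat_lit 0) (nat_lit 9427583789) (nat_lit 76) (nat_lit 18801916653) (nat_lit 76) (nat_lit 18493233125) (nat_lit 14) (nat_lit 4) (nat_lit 15) (nat_lit 5) (nat_lit 15) (nat_lit 4) (nat_lit 440) (nat_lit 293) (nat_lit 287)) (XT.lf (nat_lit 0) (nat_lit 18508609377) (nat_lit 152) (nat_lit 11260706835) (nat_lit 0) (nat_lit 18166954660) (nat_lit 12) (nat_lit 5) (nat_lit 14) (nat_lit 4) (nat_lit 12) (nat_lit 4) (nat_lit 441) (nat_lit 293) (nat_lit 286))))) (XT.nd (nat_lit 234) (nat_lit 684) (nat_lit 0) (XT.nd (nat_lit 78) (nat_lit 304) (nat_lit 0) (XT.lf (nat_lit 0) (nat_lit 2403209941) (nat_lit 152)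 (nat_lit 14352058321) (nat_lit 0) (nat_lit 2403209941) (nat_lit 33) (nat_lit 5) (nat_lit 35) (nat_lit 4) (nat_lit 33) (nat_lit 4) (nat_lit 432) (nat_lit 294) (nat_lit 294)) (XT.nd (nat_lit 78) (nat_lit 228) (nat_lit 0) (XT.lf (nat_lit 0) (nat_lit 35048773374) (nat_lit 76) (nat_lit 2144975353) (nat_lit 76) (nat_lit 2072357812) (nat_lit 32) (nat_lit 4) (nat_lit 33) (nat_lit 5) (nat_lit 33) (nat_lit 4) (nat_lit 433) (nat_lit 294) (nat_lit 293)) (XT.lf (nat_lit 0) (nat_lit 20989544225) (nat_lit 76) (nat_lit 9695679915) (nat_lit 76) (nat_lit 9558032242) (nat_lit 29) (nat_lit 4) (nat_lit 30) (nat_lit 5) (nat_lit 30) (nat_lit 4) (nat_lit 434) (nat_lit 294) (nat_lit 292)))) (XT.nd (nat_lit 156) (nat_lit 304) (nat_lit 0) (XT.nd (nat_lit 78) (nat_lit 152) (nat_lit 0) (XT.lf (nat_lit 0) (nat_lit 5574237423) (nat_lit 76) (nat_lit 17938528835) (nat_lit 76) (nat_lit 17742805059) (nat_lit 26) (nat_lit 4) (nat_lit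 27) (nat_lit 5) (nat_lit 27) (nat_lit 4) (nat_lit 435) (nat_lit 294) (nat_lit 291)) (XT.lf (nat_lit 0) (nat_lit 15738630887) (nat_lit 152) (nat_lit 11071645774) (nat_lit 0) (nat_lit 15491201185) (nat_lit 24) (nat_lit 5) (nat_lit 26) (nat_lit 4) (nat_lit 24) (nat_lit 4) (nat_lit 436) (nat_lit 294) (nat_lit 290))) (XT.nd (nat_lit 78) (nat_lit 76) (nat_lit 0) (XT.lf (nat_lit 0) (nat_lit 7273508200) (nat_lit 152) (nat_lit 29130242374) (nat_lit 0) (nat_lit 6980204635) (nat_lit 21) (nat_lit 5) (nat_lit 23) (nat_lit 4) (nat_lit 21) (nat_lit 4) (nat_lit 437) (nat_lit 294) (nat_lit 289)) (XT.lf (nat_lit 0) (nat_lit 40237216826) (nat_lit 76) (nat_lit 2305300122) (nat_lit 76) (nat_lit 1961443649) (nat_lit 20) (nat_lit 4) (nat_lit 21) (nat_lit 5) (nat_lit 21) (nat_lit 4) (nat_lit 438) (nat_lit 294) (nat_lit 288))))))) (XT.nd (nat_lit 53196) (nat_lit 0) (nat_lit 0) (XT.nd (nat_lit 52650) (nat_lit 0) (nat_lit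 380) (XT.nd (nat_lit 52416) (nat_lit 0) (nat_lit 1596) (XT.nd (nat_lit 78) (nat_lit 380) (nat_lit 0) (XT.lf (nat_lit 0) (nat_lit 21329486464) (nat_lit 76) (nat_lit 12353898058) (nat_lit 76) (nat_lit 11973313495) (nat_lit 17) (nat_lit 4) (nat_lit 18) (nat_lit 5) (nat_lit 18) (nat_lit 4) (nat_lit 439) (nat_lit 294) (nat_lit 287)) (XT.nd (nat_lit 78) (nat_lit 152) (nat_lit 0) (XT.lf (nat_lit 0) (nat_lit 669400900) (nat_lit 76) (nat_lit 23297872187) (nat_lit 76) (nat_lit 22885151782) (nat_lit 14) (nat_lit 4) (nat_lit 15) (nat_lit 5) (nat_lit 15) (nat_lit 4) (nat_lit 440) (nat_lit 294) (nat_lit 286)) (XT.lf (nat_lit 0) (nat_lit 13545217583) (nat_lit 152) (nat_lit 21437172004) (nat_lit 0) (nat_lit 13104554379) (nat_lit 12) (nat_lit 5) (nat_lit 14) (nat_lit 4) (nat_lit 12) (nat_lit 4) (nat_lit 441) (nat_lit 294) (nat_lit 285)))) (XT.nd (nat_lit 78) (nat_lit 456) (nat_lit 0) (XT.lf (nat_lit 0) (nat_lit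 8678129337) (nat_lit 152) (nat_lit 891825261) (nat_lit 0) (nat_lit 8678129337) (nat_lit 39) (nat_lit 5) (nat_lit 41) (nat_lit 4) (nat_lit 39) (nat_lit 4) (nat_lit 430) (nat_lit 295) (nat_lit 295)) (XT.nd (nat_lit 78) (nat_lit 228) (nat_lit 0) (XT.lf (nat_lit 0) (nat_lit 11168108903) (nat_lit 152) (nat_lit 15140430445) (nat_lit 0) (nat_lit 11089573032) (nat_lit 36) (nat_lit 5) (nat_lit 38) (nat_lit 4) (nat_lit 36) (nat_lit 4) (nat_lit 431) (nat_lit 295) (nat_lit 294)) (XT.lf (nat_lit 0) (nat_lit 4368372397) (nat_lit 152) (nat_lit 29744506449) (nat_lit 0) (nat_lit 4219506438) (nat_lit 33) (nat_lit 5) (nat_lit 35) (nat_lit 4) (nat_lit 33) (nat_lit 4) (nat_lit 432) (nat_lit 295) (nat_lit 293))))) (XT.nd (nat_lit 234) (nat_lit 684) (nat_lit 0) (XT.nd (nat_lit 78) (nat_lit 456) (nat_lit 0) (XT.lf (nat_lit 0) (nat_lit 32977110527) (nat_lit 76) (nat_lit 3268871001) (nat_lit 76) (nat_lit 3050845479) (nat_lit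 32) (nat_lit 4) (nat_lit 33) (nat_lit 5) (nat_lit 33) (nat_lit 4) (nat_lit 433) (nat_lit 295) (nat_lit 292)) (XT.nd (nat_lit 78) (nat_lit 228) (nat_lit 0) (XT.lf (nat_lit 0) (nat_lit 17770344608) (nat_lit 76) (nat_lit 11398129097) (nat_lit 76) (nat_lit 11122506017) (nat_lit 29) (nat_lit 4) (nat_lit 30) (nat_lit 5) (nat_lit 30) (nat_lit 4) (nat_lit 434) (nat_lit 295) (nat_lit 291)) (XT.lf (nat_lit 0) (nat_lit 1126832547) (nat_lit 76) (nat_lit 20260688159) (nat_lit 76) (nat_lit 19933964119) (nat_lit 26) (nat_lit 4) (nat_lit 27) (nat_lit 5) (nat_lit 27) (nat_lit 4) (nat_lit 435) (nat_lit 295) (nat_lit 290)))) (XT.nd (nat_lit 156) (nat_lit 304) (nat_lit 0) (XT.nd (nat_lit 78) (nat_lit 228) (nat_lit 0) (XT.lf (nat_lit 0) (nat_lit 13018277392) (nat_lit 152) (nat_lit 16720507785) (nat_lit 0) (nat_lit 12646396616) (nat_lit 24) (nat_lit 5) (nat_lit 26) (nat_lit 4) (nat_lit 24) (nat_lit 4) (nat_lit 436)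 (nat_lit 295) (nat_lit 289)) (XT.lf (nat_lit 0) (nat_lit 3871544173) (nat_lit 152) (nat_lit 36156560360) (nat_lit 0) (nat_lit 3459941968) (nat_lit 21) (nat_lit 5) (nat_lit 23) (nat_lit 4) (nat_lit 21) (nat_lit 4) (nat_lit 437) (nat_lit 295) (nat_lit 288))) (XT.nd (nat_lit 78) (nat_lit 228) (nat_lit 0) (XT.lf (nat_lit 0) (nat_lit 32067680349) (nat_lit 76) (nat_lit 6508524902) (nat_lit 76) (nat_lit 6048777070) (nat_lit 20) (nat_lit 4) (nat_lit 21) (nat_lit 5) (nat_lit 21) (nat_lit 4) (nat_lit 438) (nat_lit 295) (nat_lit 287)) (XT.lf (nat_lit 0) (nat_lit 11647964762) (nat_lit 76) (nat_lit 17321499308) (nat_lit 76) (nat_lit 16830624736) (nat_lit 17) (nat_lit 4) (nat_lit 18) (nat_lit 5) (nat_lit 18) (nat_lit 4) (nat_lit 439) (nat_lit 295) (nat_lit 286)))))) (XT.nd (nat_lit 52572) (nat_lit 0) (nat_lit 456) (XT.nd (nat_lit 52260) (nat_lit 0) (nat_lit 1596) (XT.nd (nat_lit 78) (nat_lit 228) (nat_lit 0)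 (XT.lf (nat_lit 0) (nat_lit 18557458689) (nat_lit 152) (nat_lit 10419457578) (nat_lit 0) (nat_lit 18039718740) (nat_lit 15) (nat_lit 5) (nat_lit 17) (nat_lit 4) (nat_lit 15) (nat_lit 4) (nat_lit 440) (nat_lit 295) (nat_lit 285)) (XT.nd (nat_lit 52104) (nat_lit 0) (nat_lit 2432) (XT.lf (nat_lit 0) (nat_lit 7306784533) (nat_lit 152) (nat_lit 34203108690) (nat_lit 0) (nat_lit 6766063643) (nat_lit 12) (nat_lit 5) (nat_lit 14) (nat_lit 4) (nat_lit 12) (nat_lit 4) (nat_lit 441) (nat_lit 295) (nat_lit 284)) (XT.lf (nat_lit 0) (nat_lit 11430697148) (nat_lit 76) (nat_lit 2975520567) (nat_lit 76) (nat_lit 2975520567) (nat_lit 44) (nat_lit 4) (nat_lit 45) (nat_lit 5) (nat_lit 45) (nat_lit 4) (nat_lit 428) (nat_lit 296) (nat_lit 296)))) (XT.nd (nat_lit 156) (nat_lit 456) (nat_lit 0) (XT.nd (nat_lit 78) (nat_lit 152) (nat_lit 0) (XT.lf (nat_lit 0) (nat_lit 10614738294) (nat_lit 76) (nat_lit 12547389638) (nat_lit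 76) (nat_lit 12459904998) (nat_lit 41) (nat_lit 4) (nat_lit 42) (nat_lit 5) (nat_lit 42) (nat_lit 4) (nat_lit 429) (nat_lit 296) (nat_lit 295)) (XT.lf (nat_lit 0) (nat_lit 16961185773) (nat_lit 152) (nat_lit 2754025099) (nat_lit 0) (nat_lit 16795357282) (nat_lit 39) (nat_lit 5) (nat_lit 41) (nat_lit 4) (nat_lit 39) (nat_lit 4) (nat_lit 430) (nat_lit 296) (nat_lit 294))) (XT.nd (nat_lit 78) (nat_lit 228) (nat_lit 0) (XT.lf (nat_lit 0) (nat_lit 10256571765) (nat_lit 152) (nat_lit 17150583445) (nat_lit 0) (nat_lit 10020777164) (nat_lit 36) (nat_lit 5) (nat_lit 38) (nat_lit 4) (nat_lit 36) (nat_lit 4) (nat_lit 431) (nat_lit 296) (nat_lit 293)) (XT.lf (nat_lit 0) (nat_lit 2904321011) (nat_lit 152) (nat_lit 32868152989) (nat_lit 0) (nat_lit 2606234650) (nat_lit 33) (nat_lit 5) (nat_lit 35) (nat_lit 4) (nat_lit 33) (nat_lit 4) (nat_lit 432) (nat_lit 296) (nat_lit 292))))) (XT.nd (nat_lit 234) (nat_lit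 684) (nat_lit 0) (XT.nd (nat_lit 78) (nat_lit 380) (nat_lit 0) (XT.lf (nat_lit 0) (nat_lit 28828852304) (nat_lit 76) (nat_lit 5446720698) (nat_lit 76) (nat_lit 5082768087) (nat_lit 32) (nat_lit 4) (nat_lit 33) (nat_lit 5) (nat_lit 33) (nat_lit 4) (nat_lit 433) (nat_lit 296) (nat_lit 291)) (XT.nd (nat_lit 78) (nat_lit 152) (nat_lit 0) (XT.lf (nat_lit 0) (nat_lit 12396496188) (nat_lit 76) (nat_lit 14194201704) (nat_lit 76) (nat_lit 13779946973) (nat_lit 29) (nat_lit 4) (nat_lit 30) (nat_lit 5) (nat_lit 30) (nat_lit 4) (nat_lit 434) (nat_lit 296) (nat_lit 290)) (XT.lf (nat_lit 0) (nat_lit 18214194913) (nat_lit 152) (nat_lit 5449060944) (nat_lit 0) (nat_lit 17755692694) (nat_lit 27) (nat_lit 5) (nat_lit 29) (nat_lit 4) (nat_lit 27) (nat_lit 4) (nat_lit 435) (nat_lit 296) (nat_lit 289)))) (XT.nd (nat_lit 156) (nat_lit 380) (nat_lit 0) (XT.nd (nat_lit 78) (nat_lit 76) (nat_lit 0) (XT.lf (nat_lit 0) (nat_lit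 9176064146) (nat_lit 152) (nat_lit 24647735189) (nat_lit 0) (nat_lit 8678846866) (nat_lit 24) (nat_lit 5) (nat_lit 26) (nat_lit 4) (nat_lit 24) (nat_lit 4) (nat_lit 436) (nat_lit 296) (nat_lit 288)) (XT.lf (nat_lit 0) (nat_lit 41721198400) (nat_lit 76) (nat_lit 1225856919) (nat_lit 76) (nat_lit 679049643) (nat_lit 23) (nat_lit 4) (nat_lit 24) (nat_lit 5) (nat_lit 24) (nat_lit 4) (nat_lit 437) (nat_lit 296) (nat_lit 287))) (XT.nd (nat_lit 78) (nat_lit 152) (nat_lit 0) (XT.lf (nat_lit 0) (nat_lit 21530685120) (nat_lit 76) (nat_lit 11913561883) (nat_lit 76) (nat_lit 11336828055) (nat_lit 20) (nat_lit 4) (nat_lit 21) (nat_lit 5) (nat_lit 21) (nat_lit 4) (nat_lit 438) (nat_lit 296) (nat_lit 286)) (XT.lf (nat_lit 0) (nat_lit 23047384807) (nat_lit 152) (nat_lit 487386736) (nat_lit 0) (nat_lit 22445051477) (nat_lit 18) (nat_lit 5) (nat_lit 20) (nat_lit 4) (nat_lit 18) (nat_lit 4) (nat_lit 439) (nat_lit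 296) (nat_lit 285))))))))
noncomputable def xc1 : XT := (XT.nd (nat_lit 105690) (nat_lit 0) (nat_lit 0) (XT.nd (nat_lit 52884) (nat_lit 0) (nat_lit 0) (XT.nd (nat_lit 52338) (nat_lit 0) (nat_lit 760) (XT.nd (nat_lit 52104) (nat_lit 0) (nat_lit 2052) (XT.nd (nat_lit 78) (nat_lit 76) (nat_lit 0) (XT.lf (nat_lit 0) (nat_lit 11915872427) (nat_lit 152) (nat_lit 24010141438) (nat_lit 0) (nat_lit 11291880219) (nat_lit 15) (nat_lit 5) (nat_lit 17) (nat_lit 4) (nat_lit 15) (nat_lit 4) (nat_lit 440) (nat_lit 296) (nat_lit 284)) (XT.nd (nat_lit 51948) (nat_lit 0) (nat_lit 2584) (XT.lf (nat_lit 0) (nat_lit 47428616943) (nat_lit 76) (nat_lit 867920807) (nat_lit 76) (nat_lit 206592822) (nat_lit 14) (nat_lit 4) (nat_lit 15) (nat_lit 5) (nat_lit 15) (nat_lit 4) (nat_lit 441) (nat_lit 296) (nat_lit 283)) (XT.lf (nat_lit 0) (nat_lit 2996992155) (nat_lit 152) (nat_lit 10562773381) (nat_lit 0) (nat_lit 2996992155)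 (nat_lit 48) (nat_lit 5) (nat_lit 50) (nat_lit 4) (nat_lit 48) (nat_lit 4) (nat_lit 426) (nat_lit 297) (nat_lit 297)))) (XT.nd (nat_lit 78) (nat_lit 304) (nat_lit 0) (XT.lf (nat_lit 0) (nat_lit 75130081) (nat_lit 76) (nat_lit 9886252) (nat_lit 152) (nat_lit 33849260251) (nat_lit 45) (nat_lit 5) (nat_lit 46) (nat_lit 5) (nat_lit 47) (nat_lit 4) (nat_lit 427) (nat_lit 297) (nat_lit 296)) (XT.nd (nat_lit 78) (nat_lit 228) (nat_lit 0) (XT.lf (nat_lit 0) (nat_lit 21938350535) (nat_lit 76) (nat_lit 6511778736) (nat_lit 76) (nat_lit 6327054918) (nat_lit 44) (nat_lit 4) (nat_lit 45) (nat_lit 5) (nat_lit 45) (nat_lit 4) (nat_lit 428) (nat_lit 297) (nat_lit 295)) (XT.lf (nat_lit 0) (nat_lit 8702588776) (nat_lit 76) (nat_lit 13605245474) (nat_lit 76) (nat_lit 13342583256) (nat_lit 41) (nat_lit 4) (nat_lit 42) (nat_lit 5) (nat_lit 42) (nat_lit 4) (nat_lit 429) (nat_lit 297) (nat_lit 294))))) (XT.nd (nat_lit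 234) (nat_lit 684) (nat_lit 0) (XT.nd (nat_lit 78) (nat_lit 456) (nat_lit 0) (XT.lf (nat_lit 0) (nat_lit 15609197927) (nat_lit 152) (nat_lit 5667459248) (nat_lit 0) (nat_lit 15277146116) (nat_lit 39) (nat_lit 5) (nat_lit 41) (nat_lit 4) (nat_lit 39) (nat_lit 4) (nat_lit 430) (nat_lit 297) (nat_lit 293)) (XT.nd (nat_lit 78) (nat_lit 228) (nat_lit 0) (XT.lf (nat_lit 0) (nat_lit 8352791294) (nat_lit 152) (nat_lit 21175675523) (nat_lit 0) (nat_lit 7959176545) (nat_lit 36) (nat_lit 5) (nat_lit 38) (nat_lit 4) (nat_lit 36) (nat_lit 4) (nat_lit 431) (nat_lit 297) (nat_lit 292)) (XT.lf (nat_lit 0) (nat_lit 373167269) (nat_lit 76) (nat_lit 37977684) (nat_lit 152) (nat_lit 38044880896) (nat_lit 33) (nat_lit 5) (nat_lit 34) (nat_lit 5) (nat_lit 35) (nat_lit 4) (nat_lit 432) (nat_lit 297) (nat_lit 291)))) (XT.nd (nat_lit 156) (nat_lit 380) (nat_lit 0) (XT.nd (nat_lit 78) (nat_lit 228) (nat_lit 0) (XT.lf (nat_lit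 0) (nat_lit 22594121898) (nat_lit 76) (nat_lit 8683709800) (nat_lit 76) (nat_lit 8172963546) (nat_lit 32) (nat_lit 4) (nat_lit 33) (nat_lit 5) (nat_lit 33) (nat_lit 4) (nat_lit 433) (nat_lit 297) (nat_lit 290)) (XT.lf (nat_lit 0) (nat_lit 4855204088) (nat_lit 76) (nat_lit 18090555053) (nat_lit 76) (nat_lit 17536682350) (nat_lit 29) (nat_lit 4) (nat_lit 30) (nat_lit 5) (nat_lit 30) (nat_lit 4) (nat_lit 434) (nat_lit 297) (nat_lit 289))) (XT.nd (nat_lit 78) (nat_lit 228) (nat_lit 0) (XT.lf (nat_lit 0) (nat_lit 13964171558) (nat_lit 152) (nat_lit 14211855353) (nat_lit 0) (nat_lit 13372799489) (nat_lit 27) (nat_lit 5) (nat_lit 29) (nat_lit 4) (nat_lit 27) (nat_lit 4) (nat_lit 435) (nat_lit 297) (nat_lit 288)) (XT.lf (nat_lit 0) (nat_lit 4202843022) (nat_lit 152) (nat_lit 34872202338) (nat_lit 0) (nat_lit 3579105387) (nat_lit 24) (nat_lit 5) (nat_lit 26) (nat_lit 4) (nat_lit 24) (nat_lit 4) (nat_lit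 436) (nat_lit 297) (nat_lit 287)))))) (XT.nd (nat_lit 52260) (nat_lit 0) (nat_lit 1596) (XT.nd (nat_lit 234) (nat_lit 304) (nat_lit 0) (XT.nd (nat_lit 78) (nat_lit 380) (nat_lit 0) (XT.lf (nat_lit 0) (nat_lit 30392566221) (nat_lit 76) (nat_lit 7036181048) (nat_lit 76) (nat_lit 6365214846) (nat_lit 23) (nat_lit 4) (nat_lit 24) (nat_lit 5) (nat_lit 24) (nat_lit 4) (nat_lit 437) (nat_lit 297) (nat_lit 286)) (XT.nd (nat_lit 78) (nat_lit 152) (nat_lit 0) (XT.lf (nat_lit 0) (nat_lit 8601143056) (nat_lit 76) (nat_lit 18533280202) (nat_lit 76) (nat_lit 17838187202) (nat_lit 20) (nat_lit 4) (nat_lit 21) (nat_lit 5) (nat_lit 21) (nat_lit 4) (nat_lit 438) (nat_lit 297) (nat_lit 285)) (XT.lf (nat_lit 0) (nat_lit 16034183147) (nat_lit 152) (nat_lit 14839254419) (nat_lit 0) (nat_lit 15318956931) (nat_lit 18) (nat_lit 5) (nat_lit 20) (nat_lit 4) (nat_lit 18) (nat_lit 4) (nat_lit 439) (nat_lit 297) (nat_lit 284))))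 (XT.nd (nat_lit 51870) (nat_lit 0) (nat_lit 2812) (XT.nd (nat_lit 78) (nat_lit 76) (nat_lit 0) (XT.lf (nat_lit 0) (nat_lit 4020266311) (nat_lit 152) (nat_lit 40148071875) (nat_lit 0) (nat_lit 3288536148) (nat_lit 15) (nat_lit 5) (nat_lit 17) (nat_lit 4) (nat_lit 15) (nat_lit 4) (nat_lit 440) (nat_lit 297) (nat_lit 283)) (XT.lf (nat_lit 0) (nat_lit 30084546740) (nat_lit 76) (nat_lit 9721351563) (nat_lit 76) (nat_lit 8954063518) (nat_lit 14) (nat_lit 4) (nat_lit 15) (nat_lit 5) (nat_lit 15) (nat_lit 4) (nat_lit 441) (nat_lit 297) (nat_lit 282))) (XT.nd (nat_lit 78) (nat_lit 152) (nat_lit 0) (XT.lf (nat_lit 0) (nat_lit 1020313089) (nat_lit 76) (nat_lit 7375508360) (nat_lit 76) (nat_lit 7375508360) (nat_lit 53) (nat_lit 4) (nat_lit 54) (nat_lit 5) (nat_lit 54) (nat_lit 4) (nat_lit 424) (nat_lit 298) (nat_lit 298)) (XT.lf (nat_lit 0) (nat_lit 11476024888) (nat_lit 152) (nat_lit 9474414298) (nat_lit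 0) (nat_lit 11370629385) (nat_lit 51) (nat_lit 5) (nat_lit 53) (nat_lit 4) (nat_lit 51) (nat_lit 4) (nat_lit 425) (nat_lit 298) (nat_lit 297))))) (XT.nd (nat_lit 234) (nat_lit 684) (nat_lit 0) (XT.nd (nat_lit 78) (nat_lit 304) (nat_lit 0) (XT.lf (nat_lit 0) (nat_lit 5652729018) (nat_lit 152) (nat_lit 22021143586) (nat_lit 0) (nat_lit 5452950209) (nat_lit 48) (nat_lit 5) (nat_lit 50) (nat_lit 4) (nat_lit 48) (nat_lit 4) (nat_lit 426) (nat_lit 298) (nat_lit 296)) (XT.nd (nat_lit 78) (nat_lit 228) (nat_lit 0) (XT.lf (nat_lit 0) (nat_lit 32225467801) (nat_lit 76) (nat_lit 1013970979) (nat_lit 76) (nat_lit 721379715) (nat_lit 47) (nat_lit 4) (nat_lit 48) (nat_lit 5) (nat_lit 48) (nat_lit 4) (nat_lit 427) (nat_lit 298) (nat_lit 295)) (XT.lf (nat_lit 0) (nat_lit 19167021527) (nat_lit 76) (nat_lit 8010602813) (nat_lit 76) (nat_lit 7640715358) (nat_lit 44) (nat_lit 4) (nat_lit 45) (nat_lit 5) (nat_lit 45)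 (nat_lit 4) (nat_lit 428) (nat_lit 298) (nat_lit 294)))) (XT.nd (nat_lit 156) (nat_lit 304) (nat_lit 0) (XT.nd (nat_lit 78) (nat_lit 152) (nat_lit 0) (XT.lf (nat_lit 0) (nat_lit 4873737004) (nat_lit 76) (nat_lit 15635991209) (nat_lit 76) (nat_lit 15197526028) (nat_lit 41) (nat_lit 4) (nat_lit 42) (nat_lit 5) (nat_lit 42) (nat_lit 4) (nat_lit 429) (nat_lit 298) (nat_lit 293)) (XT.lf (nat_lit 0) (nat_lit 13297076118) (nat_lit 152) (nat_lit 10530889715) (nat_lit 0) (nat_lit 12798010388) (nat_lit 39) (nat_lit 5) (nat_lit 41) (nat_lit 4) (nat_lit 39) (nat_lit 4) (nat_lit 430) (nat_lit 298) (nat_lit 292))) (XT.nd (nat_lit 78) (nat_lit 76) (nat_lit 0) (XT.lf (nat_lit 0) (nat_lit 5452234677) (nat_lit 152) (nat_lit 27225290233) (nat_lit 0) (nat_lit 4899862604) (nat_lit 36) (nat_lit 5) (nat_lit 38) (nat_lit 4) (nat_lit 36) (nat_lit 4) (nat_lit 431) (nat_lit 298) (nat_lit 291)) (XT.lf (nat_lit 0) (nat_lit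 31792215934) (nat_lit 76) (nat_lit 3692679691) (nat_lit 76) (nat_lit 3075695963) (nat_lit 35) (nat_lit 4) (nat_lit 36) (nat_lit 5) (nat_lit 36) (nat_lit 4) (nat_lit 432) (nat_lit 298) (nat_lit 290))))))) (XT.nd (nat_lit 52572) (nat_lit 0) (nat_lit 456) (XT.nd (nat_lit 468) (nat_lit 532) (nat_lit 0) (XT.nd (nat_lit 234) (nat_lit 456) (nat_lit 0) (XT.nd (nat_lit 78) (nat_lit 380) (nat_lit 0) (XT.lf (nat_lit 0) (nat_lit 14258074714) (nat_lit 76) (nat_lit 12987545424) (nat_lit 76) (nat_lit 12328789465) (nat_lit 32) (nat_lit 4) (nat_lit 33) (nat_lit 5) (nat_lit 33) (nat_lit 4) (nat_lit 433) (nat_lit 298) (nat_lit 289)) (XT.nd (nat_lit 78) (nat_lit 228) (nat_lit 0) (XT.lf (nat_lit 0) (nat_lit 18271806740) (nat_lit 152) (nat_lit 4776426889) (nat_lit 0) (nat_lit 17576997320) (nat_lit 30) (nat_lit 5) (nat_lit 32) (nat_lit 4) (nat_lit 30) (nat_lit 4) (nat_lit 434) (nat_lit 298) (nat_lit 288)) (XT.lf (nat_lit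 0) (nat_lit 8616499735) (nat_lit 152) (nat_lit 25204403037) (nat_lit 0) (nat_lit 7890849787) (nat_lit 27) (nat_lit 5) (nat_lit 29) (nat_lit 4) (nat_lit 27) (nat_lit 4) (nat_lit 435) (nat_lit 298) (nat_lit 287)))) (XT.nd (nat_lit 78) (nat_lit 380) (nat_lit 0) (XT.lf (nat_lit 0) (nat_lit 38304089555) (nat_lit 76) (nat_lit 2653804066) (nat_lit 76) (nat_lit 1879508694) (nat_lit 26) (nat_lit 4) (nat_lit 27) (nat_lit 5) (nat_lit 27) (nat_lit 4) (nat_lit 436) (nat_lit 298) (nat_lit 286)) (XT.nd (nat_lit 78) (nat_lit 152) (nat_lit 0) (XT.lf (nat_lit 0) (nat_lit 16739035693) (nat_lit 76) (nat_lit 14026977213) (nat_lit 76) (nat_lit 13230254546) (nat_lit 23) (nat_lit 4) (nat_lit 24) (nat_lit 5) (nat_lit 24) (nat_lit 4) (nat_lit 437) (nat_lit 298) (nat_lit 285)) (XT.lf (nat_lit 0) (nat_lit 19696612391) (nat_lit 152) (nat_lit 6619979885) (nat_lit 0) (nat_lit 18881505235) (nat_lit 21) (nat_lit 5) (nat_lit 23)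 (nat_lit 4) (nat_lit 21) (nat_lit 4) (nat_lit 438) (nat_lit 298) (nat_lit 284))))) (XT.nd (nat_lit 51792) (nat_lit 0) (nat_lit 2812) (XT.nd (nat_lit 78) (nat_lit 304) (nat_lit 0) (XT.lf (nat_lit 0) (nat_lit 7801193629) (nat_lit 152) (nat_lit 31669103145) (nat_lit 0) (nat_lit 6971371608) (nat_lit 18) (nat_lit 5) (nat_lit 20) (nat_lit 4) (nat_lit 18) (nat_lit 4) (nat_lit 439) (nat_lit 298) (nat_lit 283)) (XT.nd (nat_lit 78) (nat_lit 228) (nat_lit 0) (XT.lf (nat_lit 0) (nat_lit 36699352350) (nat_lit 76) (nat_lit 5947391484) (nat_lit 76) (nat_lit 5080944843) (nat_lit 17) (nat_lit 4) (nat_lit 18) (nat_lit 5) (nat_lit 18) (nat_lit 4) (nat_lit 440) (nat_lit 298) (nat_lit 282)) (XT.lf (nat_lit 0) (nat_lit 10145487520) (nat_lit 76) (nat_lit 19892403584) (nat_lit 76) (nat_lit 19017328602) (nat_lit 14) (nat_lit 4) (nat_lit 15) (nat_lit 5) (nat_lit 15) (nat_lit 4) (nat_lit 441) (nat_lit 298) (nat_lit 281))))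 (XT.nd (nat_lit 156) (nat_lit 380) (nat_lit 0) (XT.nd (nat_lit 78) (nat_lit 228) (nat_lit 0) (XT.lf (nat_lit 0) (nat_lit 11623619105) (nat_lit 76) (nat_lit 1700231079) (nat_lit 76) (nat_lit 1700231079) (nat_lit 59) (nat_lit 4) (nat_lit 60) (nat_lit 5) (nat_lit 60) (nat_lit 4) (nat_lit 422) (nat_lit 299) (nat_lit 299)) (XT.lf (nat_lit 0) (nat_lit 12723344193) (nat_lit 76) (nat_lit 9091250228) (nat_lit 76) (nat_lit 8973845434) (nat_lit 56) (nat_lit 4) (nat_lit 57) (nat_lit 5) (nat_lit 57) (nat_lit 4) (nat_lit 423) (nat_lit 299) (nat_lit 298))) (XT.nd (nat_lit 78) (nat_lit 152) (nat_lit 0) (XT.lf (nat_lit 0) (nat_lit 1188782275) (nat_lit 76) (nat_lit 15294544497) (nat_lit 76) (nat_lit 15072001891) (nat_lit 53) (nat_lit 4) (nat_lit 54) (nat_lit 5) (nat_lit 54) (nat_lit 4) (nat_lit 424) (nat_lit 299) (nat_lit 297)) (XT.lf (nat_lit 0) (nat_lit 10729260824) (nat_lit 152) (nat_lit 11204707256) (nat_lit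 0) (nat_lit 10412823372) (nat_lit 51) (nat_lit 5) (nat_lit 53) (nat_lit 4) (nat_lit 51) (nat_lit 4) (nat_lit 425) (nat_lit 299) (nat_lit 296)))))) (XT.nd (nat_lit 546) (nat_lit 1140) (nat_lit 0) (XT.nd (nat_lit 234) (nat_lit 684) (nat_lit 0) (XT.nd (nat_lit 78) (nat_lit 304) (nat_lit 0) (XT.lf (nat_lit 0) (nat_lit 4428371819) (nat_lit 152) (nat_lit 24710066434) (nat_lit 0) (nat_lit 4028338537) (nat_lit 48) (nat_lit 5) (nat_lit 50) (nat_lit 4) (nat_lit 48) (nat_lit 4) (nat_lit 426) (nat_lit 299) (nat_lit 295)) (XT.nd (nat_lit 78) (nat_lit 228) (nat_lit 0) (XT.lf (nat_lit 0) (nat_lit 28654530381) (nat_lit 76) (nat_lit 2923884100) (nat_lit 76) (nat_lit 2435458004) (nat_lit 47) (nat_lit 4) (nat_lit 48) (nat_lit 5) (nat_lit 48) (nat_lit 4) (nat_lit 427) (nat_lit 299) (nat_lit 294)) (XT.lf (nat_lit 0) (nat_lit 14540808870) (nat_lit 76) (nat_lit 10451081993) (nat_lit 76) (nat_lit 9895150218) (nat_lit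 44) (nat_lit 4) (nat_lit 45) (nat_lit 5) (nat_lit 45) (nat_lit 4) (nat_lit 428) (nat_lit 299) (nat_lit 293)))) (XT.nd (nat_lit 156) (nat_lit 304) (nat_lit 0) (XT.nd (nat_lit 78) (nat_lit 228) (nat_lit 0) (XT.lf (nat_lit 0) (nat_lit 17771996688) (nat_lit 152) (nat_lit 863743153) (nat_lit 0) (nat_lit 17156684579) (nat_lit 42) (nat_lit 5) (nat_lit 44) (nat_lit 4) (nat_lit 42) (nat_lit 4) (nat_lit 429) (nat_lit 299) (nat_lit 292)) (XT.lf (nat_lit 0) (nat_lit 10019315295) (nat_lit 152) (nat_lit 17355896097) (nat_lit 0) (nat_lit 9352047393) (nat_lit 39) (nat_lit 5) (nat_lit 41) (nat_lit 4) (nat_lit 39) (nat_lit 4) (nat_lit 430) (nat_lit 299) (nat_lit 291))) (XT.nd (nat_lit 78) (nat_lit 76) (nat_lit 0) (XT.lf (nat_lit 0) (nat_lit 1547995828) (nat_lit 152) (nat_lit 35313831418) (nat_lit 0) (nat_lit 835551258) (nat_lit 36) (nat_lit 5) (nat_lit 38) (nat_lit 4) (nat_lit 36) (nat_lit 4) (nat_lit 431) (nat_lit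 299) (nat_lit 290)) (XT.lf (nat_lit 0) (nat_lit 22719930641) (nat_lit 76) (nat_lit 8374607488) (nat_lit 76) (nat_lit 7600628009) (nat_lit 35) (nat_lit 4) (nat_lit 36) (nat_lit 5) (nat_lit 36) (nat_lit 4) (nat_lit 432) (nat_lit 299) (nat_lit 289))))) (XT.nd (nat_lit 234) (nat_lit 532) (nat_lit 0) (XT.nd (nat_lit 78) (nat_lit 380) (nat_lit 0) (XT.lf (nat_lit 0) (nat_lit 3800863020) (nat_lit 76) (nat_lit 18368474798) (nat_lit 76) (nat_lit 17560140667) (nat_lit 32) (nat_lit 4) (nat_lit 33) (nat_lit 5) (nat_lit 33) (nat_lit 4) (nat_lit 433) (nat_lit 299) (nat_lit 288)) (XT.nd (nat_lit 78) (nat_lit 228) (nat_lit 0) (XT.lf (nat_lit 0) (nat_lit 12578674222) (nat_lit 152) (nat_lit 16478776354) (nat_lit 0) (nat_lit 11741273777) (nat_lit 30) (nat_lit 5) (nat_lit 32) (nat_lit 4) (nat_lit 30) (nat_lit 4) (nat_lit 434) (nat_lit 299) (nat_lit 287)) (XT.lf (nat_lit 0) (nat_lit 2158446894) (nat_lit 152) (nat_lit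 38452876728) (nat_lit 0) (nat_lit 1296791329) (nat_lit 27) (nat_lit 5) (nat_lit 29) (nat_lit 4) (nat_lit 27) (nat_lit 4) (nat_lit 435) (nat_lit 299) (nat_lit 286)))) (XT.nd (nat_lit 156) (nat_lit 228) (nat_lit 0) (XT.nd (nat_lit 78) (nat_lit 228) (nat_lit 0) (XT.lf (nat_lit 0) (nat_lit 23983463349) (nat_lit 76) (nat_lit 9987082374) (nat_lit 76) (nat_lit 9079097834) (nat_lit 26) (nat_lit 4) (nat_lit 27) (nat_lit 5) (nat_lit 27) (nat_lit 4) (nat_lit 436) (nat_lit 299) (nat_lit 285)) (XT.lf (nat_lit 0) (nat_lit 728098410) (nat_lit 76) (nat_lit 22214890167) (nat_lit 76) (nat_lit 21290514076) (nat_lit 23) (nat_lit 4) (nat_lit 24) (nat_lit 5) (nat_lit 24) (nat_lit 4) (nat_lit 437) (nat_lit 299) (nat_lit 284))) (XT.nd (nat_lit 78) (nat_lit 76) (nat_lit 0) (XT.lf (nat_lit 0) (nat_lit 11154374411) (nat_lit 152) (nat_lit 24085148231) (nat_lit 0) (nat_lit 10217312369) (nat_lit 21) (nat_lit 5) (nat_lit 23)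 (nat_lit 4) (nat_lit 21) (nat_lit 4) (nat_lit 438) (nat_lit 299) (nat_lit 283)) (XT.lf (nat_lit 0) (nat_lit 42479033044) (nat_lit 76) (nat_lit 2610752238) (nat_lit 76) (nat_lit 1635966837) (nat_lit 20) (nat_lit 4) (nat_lit 21) (nat_lit 5) (nat_lit 21) (nat_lit 4) (nat_lit 439) (nat_lit 299) (nat_lit 282))))))))
noncomputable def xc2 : XT := (XT.nd (nat_lit 104754) (nat_lit 0) (nat_lit 152) (XT.nd (nat_lit 52416) (nat_lit 0) (nat_lit 0) (XT.nd (nat_lit 51870) (nat_lit 0) (nat_lit 1824) (XT.nd (nat_lit 51636) (nat_lit 0) (nat_lit 3116) (XT.nd (nat_lit 78) (nat_lit 152) (nat_lit 0) (XT.lf (nat_lit 0) (nat_lit 16171999408) (nat_lit 76) (nat_lit 16420494676) (nat_lit 76) (nat_lit 15439220493) (nat_lit 17) (nat_lit 4) (nat_lit 18) (nat_lit 5) (nat_lit 18) (nat_lit 4) (nat_lit 440) (nat_lit 299) (nat_lit 281)) (XT.nd (nat_lit 51480) (nat_lit 0) (nat_lit 3648) (XT.lf (nat_lit 0) (nat_lit 19088801765) (nat_lit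 152) (nat_lit 12193362838) (nat_lit 0) (nat_lit 18103856335) (nat_lit 15) (nat_lit 5) (nat_lit 17) (nat_lit 4) (nat_lit 15) (nat_lit 4) (nat_lit 441) (nat_lit 299) (nat_lit 280)) (XT.lf (nat_lit 0) (nat_lit 3442809719) (nat_lit 152) (nat_lit 7426239172) (nat_lit 0) (nat_lit 3442809719) (nat_lit 63) (nat_lit 5) (nat_lit 65) (nat_lit 4) (nat_lit 63) (nat_lit 4) (nat_lit 420) (nat_lit 300) (nat_lit 300)))) (XT.nd (nat_lit 78) (nat_lit 304) (nat_lit 0) (XT.lf (nat_lit 0) (nat_lit 1827884259) (nat_lit 152) (nat_lit 25802465758) (nat_lit 0) (nat_lit 1700910975) (nat_lit 60) (nat_lit 5) (nat_lit 62) (nat_lit 4) (nat_lit 60) (nat_lit 4) (nat_lit 421) (nat_lit 300) (nat_lit 299)) (XT.nd (nat_lit 78) (nat_lit 228) (nat_lit 0) (XT.lf (nat_lit 0) (nat_lit 22452874075) (nat_lit 76) (nat_lit 3927508701) (nat_lit 76) (nat_lit 3679608478) (nat_lit 59) (nat_lit 4) (nat_lit 60) (nat_lit 5) (nat_lit 60) (nat_lit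 4) (nat_lit 422) (nat_lit 300) (nat_lit 298)) (XT.lf (nat_lit 0) (nat_lit 11077635170) (nat_lit 76) (nat_lit 10043894399) (nat_lit 76) (nat_lit 9691400482) (nat_lit 56) (nat_lit 4) (nat_lit 57) (nat_lit 5) (nat_lit 57) (nat_lit 4) (nat_lit 423) (nat_lit 300) (nat_lit 297))))) (XT.nd (nat_lit 234) (nat_lit 684) (nat_lit 0) (XT.nd (nat_lit 78) (nat_lit 456) (nat_lit 0) (XT.lf (nat_lit 0) (nat_lit 15348259223) (nat_lit 152) (nat_lit 1342067854) (nat_lit 0) (nat_lit 14902644148) (nat_lit 54) (nat_lit 5) (nat_lit 56) (nat_lit 4) (nat_lit 54) (nat_lit 4) (nat_lit 424) (nat_lit 300) (nat_lit 296)) (XT.nd (nat_lit 78) (nat_lit 228) (nat_lit 0) (XT.lf (nat_lit 0) (nat_lit 9128559181) (nat_lit 152) (nat_lit 14669412918) (nat_lit 0) (nat_lit 8600326358) (nat_lit 51) (nat_lit 5) (nat_lit 53) (nat_lit 4) (nat_lit 51) (nat_lit 4) (nat_lit 425) (nat_lit 300) (nat_lit 295)) (XT.lf (nat_lit 0) (nat_lit 2317997577)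 (nat_lit 152) (nat_lit 29198717502) (nat_lit 0) (nat_lit 1716757362) (nat_lit 48) (nat_lit 5) (nat_lit 50) (nat_lit 4) (nat_lit 48) (nat_lit 4) (nat_lit 426) (nat_lit 300) (nat_lit 294)))) (XT.nd (nat_lit 156) (nat_lit 380) (nat_lit 0) (XT.nd (nat_lit 78) (nat_lit 228) (nat_lit 0) (XT.lf (nat_lit 0) (nat_lit 23287498990) (nat_lit 76) (nat_lit 5745768094) (nat_lit 76) (nat_lit 5060344247) (nat_lit 47) (nat_lit 4) (nat_lit 48) (nat_lit 5) (nat_lit 48) (nat_lit 4) (nat_lit 427) (nat_lit 300) (nat_lit 293)) (XT.lf (nat_lit 0) (nat_lit 8048697772) (nat_lit 76) (nat_lit 13839026943) (nat_lit 76) (nat_lit 13095727199) (nat_lit 44) (nat_lit 4) (nat_lit 45) (nat_lit 5) (nat_lit 45) (nat_lit 4) (nat_lit 428) (nat_lit 300) (nat_lit 292))) (XT.nd (nat_lit 78) (nat_lit 228) (nat_lit 0) (XT.lf (nat_lit 0) (nat_lit 14145126228) (nat_lit 152) (nat_lit 8407792288) (nat_lit 0) (nat_lit 13351502161) (nat_lit 42)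 (nat_lit 5) (nat_lit 44) (nat_lit 4) (nat_lit 42) (nat_lit 4) (nat_lit 429) (nat_lit 300) (nat_lit 291)) (XT.lf (nat_lit 0) (nat_lit 5768111265) (nat_lit 152) (nat_lit 26158728410) (nat_lit 0) (nat_lit 4931052459) (nat_lit 39) (nat_lit 5) (nat_lit 41) (nat_lit 4) (nat_lit 39) (nat_lit 4) (nat_lit 430) (nat_lit 300) (nat_lit 290)))))) (XT.nd (nat_lit 546) (nat_lit 684) (nat_lit 0) (XT.nd (nat_lit 234) (nat_lit 684) (nat_lit 0) (XT.nd (nat_lit 78) (nat_lit 380) (nat_lit 0) (XT.lf (nat_lit 0) (nat_lit 30305467606) (nat_lit 76) (nat_lit 4219230683) (nat_lit 76) (nat_lit 3318790920) (nat_lit 38) (nat_lit 4) (nat_lit 39) (nat_lit 5) (nat_lit 39) (nat_lit 4) (nat_lit 431) (nat_lit 300) (nat_lit 289)) (XT.nd (nat_lit 78) (nat_lit 152) (nat_lit 0) (XT.lf (nat_lit 0) (nat_lit 11587677872) (nat_lit 76) (nat_lit 14102718782) (nat_lit 76) (nat_lit 13169900744) (nat_lit 35) (nat_lit 4) (nat_lit 36) (nat_lit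 5) (nat_lit 36) (nat_lit 4) (nat_lit 432) (nat_lit 300) (nat_lit 288)) (XT.lf (nat_lit 0) (nat_lit 16121512515) (nat_lit 152) (nat_lit 8630644556) (nat_lit 0) (nat_lit 15161675607) (nat_lit 33) (nat_lit 5) (nat_lit 35) (nat_lit 4) (nat_lit 33) (nat_lit 4) (nat_lit 433) (nat_lit 300) (nat_lit 287)))) (XT.nd (nat_lit 156) (nat_lit 380) (nat_lit 0) (XT.nd (nat_lit 78) (nat_lit 76) (nat_lit 0) (XT.lf (nat_lit 0) (nat_lit 5806135320) (nat_lit 152) (nat_lit 30374449563) (nat_lit 0) (nat_lit 4824150040) (nat_lit 30) (nat_lit 5) (nat_lit 32) (nat_lit 4) (nat_lit 30) (nat_lit 4) (nat_lit 434) (nat_lit 300) (nat_lit 286)) (XT.lf (nat_lit 0) (nat_lit 30397253242) (nat_lit 76) (nat_lit 6381981328) (nat_lit 76) (nat_lit 5352277203) (nat_lit 29) (nat_lit 4) (nat_lit 30) (nat_lit 5) (nat_lit 30) (nat_lit 4) (nat_lit 435) (nat_lit 300) (nat_lit 285))) (XT.nd (nat_lit 78) (nat_lit 152) (nat_lit 0) (XT.lf (nat_lit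 0) (nat_lit 7368341152) (nat_lit 76) (nat_lit 18485692594) (nat_lit 76) (nat_lit 17441857017) (nat_lit 26) (nat_lit 4) (nat_lit 27) (nat_lit 5) (nat_lit 27) (nat_lit 4) (nat_lit 436) (nat_lit 300) (nat_lit 284)) (XT.lf (nat_lit 0) (nat_lit 14110983312) (nat_lit 152) (nat_lit 17333398293) (nat_lit 0) (nat_lit 13056752901) (nat_lit 24) (nat_lit 5) (nat_lit 26) (nat_lit 4) (nat_lit 24) (nat_lit 4) (nat_lit 437) (nat_lit 300) (nat_lit 283))))) (XT.nd (nat_lit 234) (nat_lit 228) (nat_lit 0) (XT.nd (nat_lit 78) (nat_lit 228) (nat_lit 0) (XT.lf (nat_lit 0) (nat_lit 1404691209) (nat_lit 152) (nat_lit 44003784997) (nat_lit 0) (nat_lit 343443180) (nat_lit 21) (nat_lit 5) (nat_lit 23) (nat_lit 4) (nat_lit 21) (nat_lit 4) (nat_lit 438) (nat_lit 300) (nat_lit 282)) (XT.nd (nat_lit 78) (nat_lit 152) (nat_lit 0) (XT.lf (nat_lit 0) (nat_lit 21415238009) (nat_lit 76) (nat_lit 13359861795) (nat_lit 76) (nat_lit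 12262686758) (nat_lit 20) (nat_lit 4) (nat_lit 21) (nat_lit 5) (nat_lit 21) (nat_lit 4) (nat_lit 439) (nat_lit 300) (nat_lit 281)) (XT.lf (nat_lit 0) (nat_lit 21336478994) (nat_lit 152) (nat_lit 6797393464) (nat_lit 0) (nat_lit 20238040901) (nat_lit 18) (nat_lit 5) (nat_lit 20) (nat_lit 4) (nat_lit 18) (nat_lit 4) (nat_lit 440) (nat_lit 300) (nat_lit 280)))) (XT.nd (nat_lit 51402) (nat_lit 0) (nat_lit 3648) (XT.nd (nat_lit 51324) (nat_lit 0) (nat_lit 4028) (XT.lf (nat_lit 0) (nat_lit 6936176058) (nat_lit 152) (nat_lit 36977853559) (nat_lit 0) (nat_lit 5839015072) (nat_lit 15) (nat_lit 5) (nat_lit 17) (nat_lit 4) (nat_lit 15) (nat_lit 4) (nat_lit 441) (nat_lit 300) (nat_lit 279)) (XT.lf (nat_lit 0) (nat_lit 2570362913) (nat_lit 76) (nat_lit 5532019389) (nat_lit 76) (nat_lit 5532019389) (nat_lit 68) (nat_lit 4) (nat_lit 69) (nat_lit 5) (nat_lit 69) (nat_lit 4) (nat_lit 418) (nat_lit 301) (nat_lit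 301))) (XT.nd (nat_lit 78) (nat_lit 228) (nat_lit 0) (XT.lf (nat_lit 0) (nat_lit 11625276296) (nat_lit 152) (nat_lit 4831552294) (nat_lit 0) (nat_lit 11483835040) (nat_lit 66) (nat_lit 5) (nat_lit 68) (nat_lit 4) (nat_lit 66) (nat_lit 4) (nat_lit 419) (nat_lit 301) (nat_lit 300)) (XT.lf (nat_lit 0) (nat_lit 6640075554) (nat_lit 152) (nat_lit 15623156169) (nat_lit 0) (nat_lit 6371971463) (nat_lit 63) (nat_lit 5) (nat_lit 65) (nat_lit 4) (nat_lit 63) (nat_lit 4) (nat_lit 420) (nat_lit 301) (nat_lit 299))))))) (XT.nd (nat_lit 1014) (nat_lit 1216) (nat_lit 0) (XT.nd (nat_lit 468) (nat_lit 1292) (nat_lit 0) (XT.nd (nat_lit 234) (nat_lit 456) (nat_lit 0) (XT.nd (nat_lit 78) (nat_lit 304) (nat_lit 0) (XT.lf (nat_lit 0) (nat_lit 1168563532) (nat_lit 152) (nat_lit 27399135380) (nat_lit 0) (nat_lit 787341360) (nat_lit 60) (nat_lit 5) (nat_lit 62) (nat_lit 4) (nat_lit 60) (nat_lit 4) (nat_lit 421) (nat_lit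 301) (nat_lit 298)) (XT.nd (nat_lit 78) (nat_lit 228) (nat_lit 0) (XT.lf (nat_lit 0) (nat_lit 20067890324) (nat_lit 76) (nat_lit 5262002978) (nat_lit 76) (nat_lit 4765612294) (nat_lit 59) (nat_lit 4) (nat_lit 60) (nat_lit 5) (nat_lit 60) (nat_lit 4) (nat_lit 422) (nat_lit 301) (nat_lit 297)) (XT.lf (nat_lit 0) (nat_lit 7782298768) (nat_lit 76) (nat_lit 11834046149) (nat_lit 76) (nat_lit 11245623837) (nat_lit 56) (nat_lit 4) (nat_lit 57) (nat_lit 5) (nat_lit 57) (nat_lit 4) (nat_lit 423) (nat_lit 301) (nat_lit 296)))) (XT.nd (nat_lit 78) (nat_lit 304) (nat_lit 0) (XT.lf (nat_lit 0) (nat_lit 13398431078) (nat_lit 152) (nat_lit 5528122506) (nat_lit 0) (nat_lit 12728682547) (nat_lit 54) (nat_lit 5) (nat_lit 56) (nat_lit 4) (nat_lit 54) (nat_lit 4) (nat_lit 424) (nat_lit 301) (nat_lit 295)) (XT.nd (nat_lit 78) (nat_lit 76) (nat_lit 0) (XT.lf (nat_lit 0) (nat_lit 6670108766) (nat_lit 152) (nat_lit 19876780583)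 (nat_lit 0) (nat_lit 5928822875) (nat_lit 51) (nat_lit 5) (nat_lit 53) (nat_lit 4) (nat_lit 51) (nat_lit 4) (nat_lit 425) (nat_lit 301) (nat_lit 294)) (XT.lf (nat_lit 0) (nat_lit 31176376308) (nat_lit 76) (nat_lit 1488714497) (nat_lit 76) (nat_lit 660719465) (nat_lit 50) (nat_lit 4) (nat_lit 51) (nat_lit 5) (nat_lit 51) (nat_lit 4) (nat_lit 426) (nat_lit 301) (nat_lit 293))))) (XT.nd (nat_lit 234) (nat_lit 684) (nat_lit 0) (XT.nd (nat_lit 78) (nat_lit 380) (nat_lit 0) (XT.lf (nat_lit 0) (nat_lit 16111594979) (nat_lit 76) (nat_lit 9486341734) (nat_lit 76) (nat_lit 8602288173) (nat_lit 47) (nat_lit 4) (nat_lit 48) (nat_lit 5) (nat_lit 48) (nat_lit 4) (nat_lit 427) (nat_lit 301) (nat_lit 292)) (XT.nd (nat_lit 78) (nat_lit 228) (nat_lit 0) (XT.lf (nat_lit 0) (nat_lit 17860856902) (nat_lit 152) (nat_lit 318431757) (nat_lit 0) (nat_lit 16928419430) (nat_lit 45) (nat_lit 5) (nat_lit 47) (nat_lit 4) (nat_lit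 45) (nat_lit 4) (nat_lit 428) (nat_lit 301) (nat_lit 291)) (XT.lf (nat_lit 0) (nat_lit 9573632086) (nat_lit 152) (nat_lit 17871476585) (nat_lit 0) (nat_lit 8599806482) (nat_lit 42) (nat_lit 5) (nat_lit 44) (nat_lit 4) (nat_lit 42) (nat_lit 4) (nat_lit 429) (nat_lit 301) (nat_lit 290)))) (XT.nd (nat_lit 156) (nat_lit 380) (nat_lit 0) (XT.nd (nat_lit 78) (nat_lit 76) (nat_lit 0) (XT.lf (nat_lit 0) (nat_lit 53039896) (nat_lit 76) (nat_lit 484963988) (nat_lit 152) (nat_lit 36480043560) (nat_lit 39) (nat_lit 5) (nat_lit 40) (nat_lit 5) (nat_lit 41) (nat_lit 4) (nat_lit 430) (nat_lit 301) (nat_lit 289)) (XT.lf (nat_lit 0) (nat_lit 18550357245) (nat_lit 76) (nat_lit 10268384142) (nat_lit 76) (nat_lit 9199178617) (nat_lit 38) (nat_lit 4) (nat_lit 39) (nat_lit 5) (nat_lit 39) (nat_lit 4) (nat_lit 431) (nat_lit 301) (nat_lit 288))) (XT.nd (nat_lit 78) (nat_lit 228) (nat_lit 0) (XT.lf (nat_lit 0) (nat_lit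 19275282827) (nat_lit 152) (nat_lit 1599220119) (nat_lit 0) (nat_lit 18181405234) (nat_lit 36) (nat_lit 5) (nat_lit 38) (nat_lit 4) (nat_lit 36) (nat_lit 4) (nat_lit 432) (nat_lit 301) (nat_lit 287)) (XT.lf (nat_lit 0) (nat_lit 9060382959) (nat_lit 152) (nat_lit 23121591063) (nat_lit 0) (nat_lit 7946757948) (nat_lit 33) (nat_lit 5) (nat_lit 35) (nat_lit 4) (nat_lit 33) (nat_lit 4) (nat_lit 433) (nat_lit 301) (nat_lit 286)))))) (XT.nd (nat_lit 546) (nat_lit 76) (nat_lit 0) (XT.nd (nat_lit 234) (nat_lit 684) (nat_lit 0) (XT.nd (nat_lit 78) (nat_lit 380) (nat_lit 0) (XT.lf (nat_lit 0) (nat_lit 36039427817) (nat_lit 76) (nat_lit 3182027944) (nat_lit 76) (nat_lit 2019252523) (nat_lit 32) (nat_lit 4) (nat_lit 33) (nat_lit 5) (nat_lit 33) (nat_lit 4) (nat_lit 434) (nat_lit 301) (nat_lit 285)) (XT.nd (nat_lit 78) (nat_lit 152) (nat_lit 0) (XT.lf (nat_lit 0) (nat_lit 13228592607) (nat_lit 76) (nat_lit 15165896178)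 (nat_lit 76) (nat_lit 13991541483) (nat_lit 29) (nat_lit 4) (nat_lit 30) (nat_lit 5) (nat_lit 30) (nat_lit 4) (nat_lit 435) (nat_lit 301) (nat_lit 284)) (XT.lf (nat_lit 0) (nat_lit 16700354748) (nat_lit 152) (nat_lit 11354853011) (nat_lit 0) (nat_lit 15518182812) (nat_lit 27) (nat_lit 5) (nat_lit 29) (nat_lit 4) (nat_lit 27) (nat_lit 4) (nat_lit 436) (nat_lit 301) (nat_lit 283)))) (XT.nd (nat_lit 156) (nat_lit 380) (nat_lit 0) (XT.nd (nat_lit 78) (nat_lit 76) (nat_lit 0) (XT.lf (nat_lit 0) (nat_lit 4109076121) (nat_lit 152) (nat_lit 37772439563) (nat_lit 0) (nat_lit 2922481318) (nat_lit 24) (nat_lit 5) (nat_lit 26) (nat_lit 4) (nat_lit 24) (nat_lit 4) (nat_lit 437) (nat_lit 301) (nat_lit 282)) (XT.lf (nat_lit 0) (nat_lit 25932405427) (nat_lit 76) (nat_lit 10681728688) (nat_lit 76) (nat_lit 9458129068) (nat_lit 23) (nat_lit 4) (nat_lit 24) (nat_lit 5) (nat_lit 24) (nat_lit 4) (nat_lit 438) (nat_lit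 301) (nat_lit 281))) (XT.nd (nat_lit 78) (nat_lit 228) (nat_lit 0) (XT.lf (nat_lit 0) (nat_lit 23243640345) (nat_lit 152) (nat_lit 2121350223) (nat_lit 0) (nat_lit 22021463350) (nat_lit 21) (nat_lit 5) (nat_lit 23) (nat_lit 4) (nat_lit 21) (nat_lit 4) (nat_lit 439) (nat_lit 301) (nat_lit 280)) (XT.lf (nat_lit 0) (nat_lit 8965857486) (nat_lit 152) (nat_lit 32032178609) (nat_lit 0) (nat_lit 7747640155) (nat_lit 18) (nat_lit 5) (nat_lit 20) (nat_lit 4) (nat_lit 18) (nat_lit 4) (nat_lit 440) (nat_lit 301) (nat_lit 279))))) (XT.nd (nat_lit 51324) (nat_lit 0) (nat_lit 3420) (XT.nd (nat_lit 51168) (nat_lit 0) (nat_lit 4104) (XT.lf (nat_lit 0) (nat_lit 35987162616) (nat_lit 76) (nat_lit 7706492175) (nat_lit 76) (nat_lit 6458143680) (nat_lit 17) (nat_lit 4) (nat_lit 18) (nat_lit 5) (nat_lit 18) (nat_lit 4) (nat_lit 441) (nat_lit 301) (nat_lit 278)) (XT.nd (nat_lit 78) (nat_lit 228) (nat_lit 0) (XT.lf (nat_lit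 0) (nat_lit 11695972740) (nat_lit 76) (nat_lit 647266539) (nat_lit 76) (nat_lit 647266539) (nat_lit 74) (nat_lit 4) (nat_lit 75) (nat_lit 5) (nat_lit 75) (nat_lit 4) (nat_lit 416) (nat_lit 302) (nat_lit 302)) (XT.lf (nat_lit 0) (nat_lit 14333358082) (nat_lit 76) (nat_lit 6221531043) (nat_lit 76) (nat_lit 6063973264) (nat_lit 71) (nat_lit 4) (nat_lit 72) (nat_lit 5) (nat_lit 72) (nat_lit 4) (nat_lit 417) (nat_lit 302) (nat_lit 301)))) (XT.nd (nat_lit 156) (nat_lit 304) (nat_lit 0) (XT.nd (nat_lit 78) (nat_lit 152) (nat_lit 0) (XT.lf (nat_lit 0) (nat_lit 4407841173) (nat_lit 76) (nat_lit 11585276939) (nat_lit 76) (nat_lit 11286623728) (nat_lit 68) (nat_lit 4) (nat_lit 69) (nat_lit 5) (nat_lit 69) (nat_lit 4) (nat_lit 418) (nat_lit 302) (nat_lit 300)) (XT.lf (nat_lit 0) (nat_lit 11033583659) (nat_lit 152) (nat_lit 6320363022) (nat_lit 0) (nat_lit 10608923128) (nat_lit 66) (nat_lit 5) (nat_lit 68)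 (nat_lit 4) (nat_lit 66) (nat_lit 4) (nat_lit 419) (nat_lit 302) (nat_lit 299))) (XT.nd (nat_lit 78) (nat_lit 76) (nat_lit 0) (XT.lf (nat_lit 0) (nat_lit 5634755181) (nat_lit 152) (nat_lit 17937024589) (nat_lit 0) (nat_lit 5097908657) (nat_lit 63) (nat_lit 5) (nat_lit 65) (nat_lit 4) (nat_lit 63) (nat_lit 4) (nat_lit 420) (nat_lit 302) (nat_lit 298)) (XT.lf (nat_lit 0) (nat_lit 28220044943) (nat_lit 76) (nat_lit 918694347) (nat_lit 76) (nat_lit 263224255) (nat_lit 62) (nat_lit 4) (nat_lit 63) (nat_lit 5) (nat_lit 63) (nat_lit 4) (nat_lit 421) (nat_lit 302) (nat_lit 297))))))))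
noncomputable def xc3 : XT := (XT.nd (nat_lit 53040) (nat_lit 0) (nat_lit 76) (XT.nd (nat_lit 1014) (nat_lit 1140) (nat_lit 0) (XT.nd (nat_lit 468) (nat_lit 1140) (nat_lit 0) (XT.nd (nat_lit 234) (nat_lit 532) (nat_lit 0) (XT.nd (nat_lit 78) (nat_lit 380) (nat_lit 0) (XT.lf (nat_lit 0) (nat_lit 16086608426) (nat_lit 76) (nat_lit 7407122358) (nat_lit 76) (nat_lit 6661059330) (nat_lit 59) (nat_lit 4) (nat_lit 60) (nat_lit 5) (nat_lit 60) (nat_lit 4) (nat_lit 422) (nat_lit 302) (nat_lit 296)) (XT.nd (nat_lit 78) (nat_lit 152) (nat_lit 0) (XT.lf (nat_lit 0) (nat_lit 2829488950) (nat_lit 76) (nat_lit 14465967742) (nat_lit 76) (nat_lit 13640216030) (nat_lit 56) (nat_lit 4) (nat_lit 57) (nat_lit 5) (nat_lit 57) (nat_lit 4) (nat_lit 423) (nat_lit 302) (nat_lit 295)) (XT.lf (nat_lit 0) (nat_lit 10617772589) (nat_lit 152) (nat_lit 11402545901) (nat_lit 0) (nat_lit 9722295961) (nat_lit 54) (nat_lit 5) (nat_lit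 56) (nat_lit 4) (nat_lit 54) (nat_lit 4) (nat_lit 424) (nat_lit 302) (nat_lit 294)))) (XT.nd (nat_lit 78) (nat_lit 304) (nat_lit 0) (XT.lf (nat_lit 0) (nat_lit 3348056125) (nat_lit 152) (nat_lit 26839208745) (nat_lit 0) (nat_lit 2391952200) (nat_lit 51) (nat_lit 5) (nat_lit 53) (nat_lit 4) (nat_lit 51) (nat_lit 4) (nat_lit 425) (nat_lit 302) (nat_lit 293)) (XT.nd (nat_lit 78) (nat_lit 228) (nat_lit 0) (XT.lf (nat_lit 0) (nat_lit 23367164094) (nat_lit 76) (nat_lit 5556705076) (nat_lit 76) (nat_lit 4518021016) (nat_lit 50) (nat_lit 4) (nat_lit 51) (nat_lit 5) (nat_lit 51) (nat_lit 4) (nat_lit 426) (nat_lit 302) (nat_lit 292)) (XT.lf (nat_lit 0) (nat_lit 7109732865) (nat_lit 76) (nat_lit 14154511146) (nat_lit 76) (nat_lit 13069722983) (nat_lit 47) (nat_lit 4) (nat_lit 48) (nat_lit 5) (nat_lit 48) (nat_lit 4) (nat_lit 427) (nat_lit 302) (nat_lit 291))))) (XT.nd (nat_lit 234) (nat_lit 684) (nat_lit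 0) (XT.nd (nat_lit 78) (nat_lit 304) (nat_lit 0) (XT.lf (nat_lit 0) (nat_lit 12994215727) (nat_lit 152) (nat_lit 10392693809) (nat_lit 0) (nat_lit 11870420436) (nat_lit 45) (nat_lit 5) (nat_lit 47) (nat_lit 4) (nat_lit 45) (nat_lit 4) (nat_lit 428) (nat_lit 302) (nat_lit 290)) (XT.nd (nat_lit 78) (nat_lit 76) (nat_lit 0) (XT.lf (nat_lit 0) (nat_lit 4046629753) (nat_lit 152) (nat_lit 29277328625) (nat_lit 0) (nat_lit 2890283978) (nat_lit 42) (nat_lit 5) (nat_lit 44) (nat_lit 4) (nat_lit 42) (nat_lit 4) (nat_lit 429) (nat_lit 302) (nat_lit 289)) (XT.lf (nat_lit 0) (nat_lit 24746607627) (nat_lit 76) (nat_lit 6836573369) (nat_lit 76) (nat_lit 5618053894) (nat_lit 41) (nat_lit 4) (nat_lit 42) (nat_lit 5) (nat_lit 42) (nat_lit 4) (nat_lit 430) (nat_lit 302) (nat_lit 288)))) (XT.nd (nat_lit 156) (nat_lit 304) (nat_lit 0) (XT.nd (nat_lit 78) (nat_lit 152) (nat_lit 0) (XT.lf (nat_lit 0) (nat_lit 4765619710)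 (nat_lit 76) (nat_lit 17348682586) (nat_lit 76) (nat_lit 16108165573) (nat_lit 38) (nat_lit 4) (nat_lit 39) (nat_lit 5) (nat_lit 39) (nat_lit 4) (nat_lit 431) (nat_lit 302) (nat_lit 287)) (XT.lf (nat_lit 0) (nat_lit 11949953448) (nat_lit 152) (nat_lit 16636618019) (nat_lit 0) (nat_lit 10692411830) (nat_lit 36) (nat_lit 5) (nat_lit 38) (nat_lit 4) (nat_lit 36) (nat_lit 4) (nat_lit 432) (nat_lit 302) (nat_lit 286))) (XT.nd (nat_lit 78) (nat_lit 76) (nat_lit 0) (XT.lf (nat_lit 0) (nat_lit 591729110) (nat_lit 76) (nat_lit 344180077) (nat_lit 152) (nat_lit 39439775672) (nat_lit 33) (nat_lit 5) (nat_lit 34) (nat_lit 5) (nat_lit 35) (nat_lit 4) (nat_lit 433) (nat_lit 302) (nat_lit 285)) (XT.lf (nat_lit 0) (nat_lit 18364832029) (nat_lit 76) (nat_lit 12227422739) (nat_lit 76) (nat_lit 10910548222) (nat_lit 32) (nat_lit 4) (nat_lit 33) (nat_lit 5) (nat_lit 33) (nat_lit 4) (nat_lit 434) (nat_lit 302) (nat_lit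 284)))))) (XT.nd (nat_lit 51480) (nat_lit 0) (nat_lit 3496) (XT.nd (nat_lit 234) (nat_lit 684) (nat_lit 0) (XT.nd (nat_lit 78) (nat_lit 304) (nat_lit 0) (XT.lf (nat_lit 0) (nat_lit 18950097116) (nat_lit 152) (nat_lit 6094094061) (nat_lit 0) (nat_lit 17628295768) (nat_lit 30) (nat_lit 5) (nat_lit 32) (nat_lit 4) (nat_lit 30) (nat_lit 4) (nat_lit 435) (nat_lit 302) (nat_lit 283)) (XT.nd (nat_lit 78) (nat_lit 76) (nat_lit 0) (XT.lf (nat_lit 0) (nat_lit 6469826182) (nat_lit 152) (nat_lit 32267010965) (nat_lit 0) (nat_lit 5146503192) (nat_lit 27) (nat_lit 5) (nat_lit 29) (nat_lit 4) (nat_lit 27) (nat_lit 4) (nat_lit 436) (nat_lit 302) (nat_lit 282)) (XT.lf (nat_lit 0) (nat_lit 29777202610) (nat_lit 76) (nat_lit 8359133270) (nat_lit 76) (nat_lit 6997695318) (nat_lit 26) (nat_lit 4) (nat_lit 27) (nat_lit 5) (nat_lit 27) (nat_lit 4) (nat_lit 437) (nat_lit 302) (nat_lit 281)))) (XT.nd (nat_lit 156) (nat_lit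 304) (nat_lit 0) (XT.nd (nat_lit 78) (nat_lit 152) (nat_lit 0) (XT.lf (nat_lit 0) (nat_lit 1925501451) (nat_lit 76) (nat_lit 22929750423) (nat_lit 76) (nat_lit 21572723320) (nat_lit 23) (nat_lit 4) (nat_lit 24) (nat_lit 5) (nat_lit 24) (nat_lit 4) (nat_lit 438) (nat_lit 302) (nat_lit 280)) (XT.lf (nat_lit 0) (nat_lit 10677675836) (nat_lit 152) (nat_lit 27761029831) (nat_lit 0) (nat_lit 9327586938) (nat_lit 21) (nat_lit 5) (nat_lit 23) (nat_lit 4) (nat_lit 21) (nat_lit 4) (nat_lit 439) (nat_lit 302) (nat_lit 279))) (XT.nd (nat_lit 78) (nat_lit 228) (nat_lit 0) (XT.lf (nat_lit 0) (nat_lit 38508256528) (nat_lit 76) (nat_lit 6012596581) (nat_lit 76) (nat_lit 4631472583) (nat_lit 20) (nat_lit 4) (nat_lit 21) (nat_lit 5) (nat_lit 21) (nat_lit 4) (nat_lit 440) (nat_lit 302) (nat_lit 278)) (XT.lf (nat_lit 0) (nat_lit 6902997268) (nat_lit 76) (nat_lit 22524576759) (nat_lit 76) (nat_lit 21154983325) (nat_lit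 17) (nat_lit 4) (nat_lit 18) (nat_lit 5) (nat_lit 18) (nat_lit 4) (nat_lit 441) (nat_lit 302) (nat_lit 277))))) (XT.nd (nat_lit 234) (nat_lit 836) (nat_lit 0) (XT.nd (nat_lit 78) (nat_lit 304) (nat_lit 0) (XT.lf (nat_lit 0) (nat_lit 3790352208) (nat_lit 152) (nat_lit 4795314314) (nat_lit 0) (nat_lit 3790352208) (nat_lit 78) (nat_lit 5) (nat_lit 80) (nat_lit 4) (nat_lit 78) (nat_lit 4) (nat_lit 414) (nat_lit 303) (nat_lit 303)) (XT.nd (nat_lit 78) (nat_lit 76) (nat_lit 0) (XT.lf (nat_lit 0) (nat_lit 3254452579) (nat_lit 152) (nat_lit 19022989068) (nat_lit 0) (nat_lit 3084053840) (nat_lit 75) (nat_lit 5) (nat_lit 77) (nat_lit 4) (nat_lit 75) (nat_lit 4) (nat_lit 415) (nat_lit 303) (nat_lit 302)) (XT.lf (nat_lit 0) (nat_lit 22708672904) (nat_lit 76) (nat_lit 1807619763) (nat_lit 76) (nat_lit 1474936511) (nat_lit 74) (nat_lit 4) (nat_lit 75) (nat_lit 5) (nat_lit 75) (nat_lit 4) (nat_lit 416) (nat_lit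 303) (nat_lit 301)))) (XT.nd (nat_lit 156) (nat_lit 380) (nat_lit 0) (XT.nd (nat_lit 78) (nat_lit 228) (nat_lit 0) (XT.lf (nat_lit 0) (nat_lit 12917628548) (nat_lit 76) (nat_lit 7097715864) (nat_lit 76) (nat_lit 6624667388) (nat_lit 71) (nat_lit 4) (nat_lit 72) (nat_lit 5) (nat_lit 72) (nat_lit 4) (nat_lit 417) (nat_lit 303) (nat_lit 300)) (XT.lf (nat_lit 0) (nat_lit 2207442247) (nat_lit 76) (nat_lit 12851579254) (nat_lit 76) (nat_lit 12253561752) (nat_lit 68) (nat_lit 4) (nat_lit 69) (nat_lit 5) (nat_lit 69) (nat_lit 4) (nat_lit 418) (nat_lit 303) (nat_lit 299))) (XT.nd (nat_lit 78) (nat_lit 228) (nat_lit 0) (XT.lf (nat_lit 0) (nat_lit 9707348339) (nat_lit 152) (nat_lit 9301529264) (nat_lit 0) (nat_lit 8998457434) (nat_lit 66) (nat_lit 5) (nat_lit 68) (nat_lit 4) (nat_lit 66) (nat_lit 4) (nat_lit 419) (nat_lit 303) (nat_lit 298)) (XT.lf (nat_lit 0) (nat_lit 3867264701) (nat_lit 152) (nat_lit 21799592816)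 (nat_lit 0) (nat_lit 3060397536) (nat_lit 63) (nat_lit 5) (nat_lit 65) (nat_lit 4) (nat_lit 63) (nat_lit 4) (nat_lit 420) (nat_lit 303) (nat_lit 297))))))) (XT.nd (nat_lit 1014) (nat_lit 1292) (nat_lit 0) (XT.nd (nat_lit 468) (nat_lit 1140) (nat_lit 0) (XT.nd (nat_lit 234) (nat_lit 532) (nat_lit 0) (XT.nd (nat_lit 78) (nat_lit 380) (nat_lit 0) (XT.lf (nat_lit 0) (nat_lit 23601614012) (nat_lit 76) (nat_lit 3394506007) (nat_lit 76) (nat_lit 2474664016) (nat_lit 62) (nat_lit 4) (nat_lit 63) (nat_lit 5) (nat_lit 63) (nat_lit 4) (nat_lit 421) (nat_lit 303) (nat_lit 296)) (XT.nd (nat_lit 78) (nat_lit 152) (nat_lit 0) (XT.lf (nat_lit 0) (nat_lit 10499549137) (nat_lit 76) (nat_lit 10367974267) (nat_lit 76) (nat_lit 9370462555) (nat_lit 59) (nat_lit 4) (nat_lit 60) (nat_lit 5) (nat_lit 60) (nat_lit 4) (nat_lit 422) (nat_lit 303) (nat_lit 295)) (XT.lf (nat_lit 0) (nat_lit 14189795634) (nat_lit 152) (nat_lit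 3718579662) (nat_lit 0) (nat_lit 13124748446) (nat_lit 57) (nat_lit 5) (nat_lit 59) (nat_lit 4) (nat_lit 57) (nat_lit 4) (nat_lit 423) (nat_lit 303) (nat_lit 294)))) (XT.nd (nat_lit 78) (nat_lit 304) (nat_lit 0) (XT.lf (nat_lit 0) (nat_lit 6999663138) (nat_lit 152) (nat_lit 18979324761) (nat_lit 0) (nat_lit 5876326327) (nat_lit 54) (nat_lit 5) (nat_lit 56) (nat_lit 4) (nat_lit 54) (nat_lit 4) (nat_lit 424) (nat_lit 303) (nat_lit 293)) (XT.nd (nat_lit 78) (nat_lit 228) (nat_lit 0) (XT.lf (nat_lit 0) (nat_lit 29871264504) (nat_lit 76) (nat_lit 2022264493) (nat_lit 76) (nat_lit 813870142) (nat_lit 53) (nat_lit 4) (nat_lit 54) (nat_lit 5) (nat_lit 54) (nat_lit 4) (nat_lit 425) (nat_lit 303) (nat_lit 292)) (XT.lf (nat_lit 0) (nat_lit 13784779779) (nat_lit 76) (nat_lit 10525696879) (nat_lit 76) (nat_lit 9273850733) (nat_lit 50) (nat_lit 4) (nat_lit 51) (nat_lit 5) (nat_lit 51) (nat_lit 4) (nat_lit 426)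 (nat_lit 303) (nat_lit 291))))) (XT.nd (nat_lit 234) (nat_lit 684) (nat_lit 0) (XT.nd (nat_lit 78) (nat_lit 304) (nat_lit 0) (XT.lf (nat_lit 0) (nat_lit 16057817219) (nat_lit 152) (nat_lit 3666548847) (nat_lit 0) (nat_lit 14769711625) (nat_lit 48) (nat_lit 5) (nat_lit 50) (nat_lit 4) (nat_lit 48) (nat_lit 4) (nat_lit 427) (nat_lit 303) (nat_lit 290)) (XT.nd (nat_lit 78) (nat_lit 76) (nat_lit 0) (XT.lf (nat_lit 0) (nat_lit 7198844941) (nat_lit 152) (nat_lit 22355133806) (nat_lit 0) (nat_lit 5881016128) (nat_lit 45) (nat_lit 5) (nat_lit 47) (nat_lit 4) (nat_lit 45) (nat_lit 4) (nat_lit 428) (nat_lit 303) (nat_lit 289)) (XT.lf (nat_lit 0) (nat_lit 30230662266) (nat_lit 76) (nat_lit 3780196973) (nat_lit 76) (nat_lit 2398329249) (nat_lit 44) (nat_lit 4) (nat_lit 45) (nat_lit 5) (nat_lit 45) (nat_lit 4) (nat_lit 429) (nat_lit 303) (nat_lit 288)))) (XT.nd (nat_lit 156) (nat_lit 304) (nat_lit 0) (XT.nd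 (nat_lit 78) (nat_lit 152) (nat_lit 0) (XT.lf (nat_lit 0) (nat_lit 10442346636) (nat_lit 76) (nat_lit 14186028805) (nat_lit 76) (nat_lit 12785196607) (nat_lit 41) (nat_lit 4) (nat_lit 42) (nat_lit 5) (nat_lit 42) (nat_lit 4) (nat_lit 430) (nat_lit 303) (nat_lit 287)) (XT.lf (nat_lit 0) (nat_lit 14501940858) (nat_lit 152) (nat_lit 10865324537) (nat_lit 0) (nat_lit 13087158745) (nat_lit 39) (nat_lit 5) (nat_lit 41) (nat_lit 4) (nat_lit 39) (nat_lit 4) (nat_lit 431) (nat_lit 303) (nat_lit 286))) (XT.nd (nat_lit 78) (nat_lit 76) (nat_lit 0) (XT.lf (nat_lit 0) (nat_lit 3585579409) (nat_lit 152) (nat_lit 33786436488) (nat_lit 0) (nat_lit 2161379619) (nat_lit 36) (nat_lit 5) (nat_lit 38) (nat_lit 4) (nat_lit 36) (nat_lit 4) (nat_lit 432) (nat_lit 303) (nat_lit 285)) (XT.lf (nat_lit 0) (nat_lit 22829638863) (nat_lit 76) (nat_lit 9643961561) (nat_lit 76) (nat_lit 8171547559) (nat_lit 35) (nat_lit 4) (nat_lit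 36) (nat_lit 5) (nat_lit 36) (nat_lit 4) (nat_lit 433) (nat_lit 303) (nat_lit 284)))))) (XT.nd (nat_lit 546) (nat_lit 152) (nat_lit 0) (XT.nd (nat_lit 234) (nat_lit 684) (nat_lit 0) (XT.nd (nat_lit 78) (nat_lit 304) (nat_lit 0) (XT.lf (nat_lit 0) (nat_lit 20886200906) (nat_lit 152) (nat_lit 1499071429) (nat_lit 0) (nat_lit 19412091878) (nat_lit 33) (nat_lit 5) (nat_lit 35) (nat_lit 4) (nat_lit 33) (nat_lit 4) (nat_lit 434) (nat_lit 303) (nat_lit 283)) (XT.nd (nat_lit 78) (nat_lit 76) (nat_lit 0) (XT.lf (nat_lit 0) (nat_lit 8513162660) (nat_lit 152) (nat_lit 27434945979) (nat_lit 0) (nat_lit 7040767514) (nat_lit 30) (nat_lit 5) (nat_lit 32) (nat_lit 4) (nat_lit 30) (nat_lit 4) (nat_lit 435) (nat_lit 303) (nat_lit 282)) (XT.lf (nat_lit 0) (nat_lit 33000038800) (nat_lit 76) (nat_lit 6366824111) (nat_lit 76) (nat_lit 4855170554) (nat_lit 29) (nat_lit 4) (nat_lit 30) (nat_lit 5) (nat_lit 30) (nat_lit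 4) (nat_lit 436) (nat_lit 303) (nat_lit 281)))) (XT.nd (nat_lit 156) (nat_lit 304) (nat_lit 0) (XT.nd (nat_lit 78) (nat_lit 152) (nat_lit 0) (XT.lf (nat_lit 0) (nat_lit 5385430292) (nat_lit 76) (nat_lit 20807014018) (nat_lit 76) (nat_lit 19303089241) (nat_lit 26) (nat_lit 4) (nat_lit 27) (nat_lit 5) (nat_lit 27) (nat_lit 4) (nat_lit 437) (nat_lit 303) (nat_lit 280)) (XT.lf (nat_lit 0) (nat_lit 12096741331) (nat_lit 152) (nat_lit 24114026274) (nat_lit 0) (nat_lit 10603055727) (nat_lit 24) (nat_lit 5) (nat_lit 26) (nat_lit 4) (nat_lit 24) (nat_lit 4) (nat_lit 438) (nat_lit 303) (nat_lit 279))) (XT.nd (nat_lit 78) (nat_lit 228) (nat_lit 0) (XT.lf (nat_lit 0) (nat_lit 40457963267) (nat_lit 76) (nat_lit 4623775360) (nat_lit 76) (nat_lit 3098123602) (nat_lit 23) (nat_lit 4) (nat_lit 24) (nat_lit 5) (nat_lit 24) (nat_lit 4) (nat_lit 439) (nat_lit 303) (nat_lit 278)) (XT.lf (nat_lit 0) (nat_lit 9108894082)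 (nat_lit 76) (nat_lit 20994859929) (nat_lit 76) (nat_lit 19484087392) (nat_lit 20) (nat_lit 4) (nat_lit 21) (nat_lit 5) (nat_lit 21) (nat_lit 4) (nat_lit 440) (nat_lit 303) (nat_lit 277))))) (XT.nd (nat_lit 51012) (nat_lit 0) (nat_lit 4028) (XT.nd (nat_lit 50856) (nat_lit 0) (nat_lit 4788) (XT.lf (nat_lit 0) (nat_lit 14057714038) (nat_lit 152) (nat_lit 24425239666) (nat_lit 0) (nat_lit 12563614729) (nat_lit 18) (nat_lit 5) (nat_lit 20) (nat_lit 4) (nat_lit 18) (nat_lit 4) (nat_lit 441) (nat_lit 303) (nat_lit 276)) (XT.nd (nat_lit 78) (nat_lit 152) (nat_lit 0) (XT.lf (nat_lit 0) (nat_lit 3853209875) (nat_lit 76) (nat_lit 3969478302) (nat_lit 76) (nat_lit 3969478302) (nat_lit 83) (nat_lit 4) (nat_lit 84) (nat_lit 5) (nat_lit 84) (nat_lit 4) (nat_lit 412) (nat_lit 304) (nat_lit 304)) (XT.lf (nat_lit 0) (nat_lit 11699490604) (nat_lit 152) (nat_lit 954626006) (nat_lit 0) (nat_lit 11509675781) (nat_lit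 81) (nat_lit 5) (nat_lit 83) (nat_lit 4) (nat_lit 81) (nat_lit 4) (nat_lit 413) (nat_lit 304) (nat_lit 303)))) (XT.nd (nat_lit 156) (nat_lit 304) (nat_lit 0) (XT.nd (nat_lit 78) (nat_lit 228) (nat_lit 0) (XT.lf (nat_lit 0) (nat_lit 7434160072) (nat_lit 152) (nat_lit 10253439172) (nat_lit 0) (nat_lit 7074363135) (nat_lit 78) (nat_lit 5) (nat_lit 80) (nat_lit 4) (nat_lit 78) (nat_lit 4) (nat_lit 414) (nat_lit 304) (nat_lit 302)) (XT.lf (nat_lit 0) (nat_lit 2748637230) (nat_lit 152) (nat_lit 20396364977) (nat_lit 0) (nat_lit 2237035302) (nat_lit 75) (nat_lit 5) (nat_lit 77) (nat_lit 4) (nat_lit 75) (nat_lit 4) (nat_lit 415) (nat_lit 304) (nat_lit 301))) (XT.nd (nat_lit 78) (nat_lit 228) (nat_lit 0) (XT.lf (nat_lit 0) (nat_lit 20657228335) (nat_lit 76) (nat_lit 3015418197) (nat_lit 76) (nat_lit 2349259591) (nat_lit 74) (nat_lit 4) (nat_lit 75) (nat_lit 5) (nat_lit 75) (nat_lit 4) (nat_lit 416) (nat_lit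 304) (nat_lit 300)) (XT.lf (nat_lit 0) (nat_lit 10082798695) (nat_lit 76) (nat_lit 8694613881) (nat_lit 76) (nat_lit 7904948402) (nat_lit 71) (nat_lit 4) (nat_lit 72) (nat_lit 5) (nat_lit 72) (nat_lit 4) (nat_lit 417) (nat_lit 304) (nat_lit 299))))))))
noncomputable def xc4 : XT := (XT.nd (nat_lit 52650) (nat_lit 0) (nat_lit 456) (XT.nd (nat_lit 1014) (nat_lit 1672) (nat_lit 0) (XT.nd (nat_lit 468) (nat_lit 1140) (nat_lit 0) (XT.nd (nat_lit 234) (nat_lit 456) (nat_lit 0) (XT.nd (nat_lit 78) (nat_lit 456) (nat_lit 0) (XT.lf (nat_lit 0) (nat_lit 13414340033) (nat_lit 152) (nat_lit 1437108714) (nat_lit 0) (nat_lit 12515534390) (nat_lit 69) (nat_lit 5) (nat_lit 71) (nat_lit 4) (nat_lit 69) (nat_lit 4) (nat_lit 418) (nat_lit 304) (nat_lit 298)) (XT.nd (nat_lit 78) (nat_lit 228) (nat_lit 0) (XT.lf (nat_lit 0) (nat_lit 7643412631) (nat_lit 152) (nat_lit 13782149037) (nat_lit 0) (nat_lit 6648603518) (nat_lit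 66) (nat_lit 5) (nat_lit 68) (nat_lit 4) (nat_lit 66) (nat_lit 4) (nat_lit 419) (nat_lit 304) (nat_lit 297)) (XT.lf (nat_lit 0) (nat_lit 1333395802) (nat_lit 152) (nat_lit 27220057441) (nat_lit 0) (nat_lit 254586885) (nat_lit 63) (nat_lit 5) (nat_lit 65) (nat_lit 4) (nat_lit 63) (nat_lit 4) (nat_lit 420) (nat_lit 304) (nat_lit 296)))) (XT.nd (nat_lit 78) (nat_lit 380) (nat_lit 0) (XT.lf (nat_lit 0) (nat_lit 17426614349) (nat_lit 76) (nat_lit 6661294509) (nat_lit 76) (nat_lit 5474890520) (nat_lit 62) (nat_lit 4) (nat_lit 63) (nat_lit 5) (nat_lit 63) (nat_lit 4) (nat_lit 421) (nat_lit 304) (nat_lit 295)) (XT.nd (nat_lit 78) (nat_lit 152) (nat_lit 0) (XT.lf (nat_lit 0) (nat_lit 3293409936) (nat_lit 76) (nat_lit 14151608353) (nat_lit 76) (nat_lit 12900272928) (nat_lit 59) (nat_lit 4) (nat_lit 60) (nat_lit 5) (nat_lit 60) (nat_lit 4) (nat_lit 422) (nat_lit 304) (nat_lit 294)) (XT.lf (nat_lit 0) (nat_lit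 10298820188) (nat_lit 152) (nat_lit 11863586366) (nat_lit 0) (nat_lit 8991941698) (nat_lit 57) (nat_lit 5) (nat_lit 59) (nat_lit 4) (nat_lit 57) (nat_lit 4) (nat_lit 423) (nat_lit 304) (nat_lit 293))))) (XT.nd (nat_lit 234) (nat_lit 608) (nat_lit 0) (XT.nd (nat_lit 78) (nat_lit 304) (nat_lit 0) (XT.lf (nat_lit 0) (nat_lit 2535488181) (nat_lit 152) (nat_lit 28276499037) (nat_lit 0) (nat_lit 1181616575) (nat_lit 54) (nat_lit 5) (nat_lit 56) (nat_lit 4) (nat_lit 54) (nat_lit 4) (nat_lit 424) (nat_lit 304) (nat_lit 292)) (XT.nd (nat_lit 78) (nat_lit 228) (nat_lit 0) (XT.lf (nat_lit 0) (nat_lit 19753399194) (nat_lit 76) (nat_lit 7269678297) (nat_lit 76) (nat_lit 5834799511) (nat_lit 53) (nat_lit 4) (nat_lit 54) (nat_lit 5) (nat_lit 54) (nat_lit 4) (nat_lit 425) (nat_lit 304) (nat_lit 291)) (XT.lf (nat_lit 0) (nat_lit 2406408163) (nat_lit 76) (nat_lit 16407520838) (nat_lit 76) (nat_lit 14939532022) (nat_lit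 50) (nat_lit 4) (nat_lit 51) (nat_lit 5) (nat_lit 51) (nat_lit 4) (nat_lit 426) (nat_lit 304) (nat_lit 290)))) (XT.nd (nat_lit 156) (nat_lit 304) (nat_lit 0) (XT.nd (nat_lit 78) (nat_lit 152) (nat_lit 0) (XT.lf (nat_lit 0) (nat_lit 10016577603) (nat_lit 152) (nat_lit 16140763406) (nat_lit 0) (nat_lit 8522087659) (nat_lit 48) (nat_lit 5) (nat_lit 50) (nat_lit 4) (nat_lit 48) (nat_lit 4) (nat_lit 427) (nat_lit 304) (nat_lit 289)) (XT.lf (nat_lit 0) (nat_lit 477083537) (nat_lit 152) (nat_lit 591970440) (nat_lit 76) (nat_lit 34571587709) (nat_lit 46) (nat_lit 5) (nat_lit 48) (nat_lit 5) (nat_lit 47) (nat_lit 4) (nat_lit 428) (nat_lit 304) (nat_lit 288))) (XT.nd (nat_lit 78) (nat_lit 152) (nat_lit 0) (XT.lf (nat_lit 0) (nat_lit 15450588671) (nat_lit 76) (nat_lit 11377040081) (nat_lit 76) (nat_lit 9801050620) (nat_lit 44) (nat_lit 4) (nat_lit 45) (nat_lit 5) (nat_lit 45) (nat_lit 4) (nat_lit 429) (nat_lit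 304) (nat_lit 287)) (XT.lf (nat_lit 0) (nat_lit 16741875281) (nat_lit 152) (nat_lit 5756774365) (nat_lit 0) (nat_lit 15155395046) (nat_lit 42) (nat_lit 5) (nat_lit 44) (nat_lit 4) (nat_lit 42) (nat_lit 4) (nat_lit 430) (nat_lit 304) (nat_lit 286)))))) (XT.nd (nat_lit 468) (nat_lit 684) (nat_lit 0) (XT.nd (nat_lit 234) (nat_lit 456) (nat_lit 0) (XT.nd (nat_lit 78) (nat_lit 304) (nat_lit 0) (XT.lf (nat_lit 0) (nat_lit 5922754247) (nat_lit 152) (nat_lit 28462471687) (nat_lit 0) (nat_lit 4330338504) (nat_lit 39) (nat_lit 5) (nat_lit 41) (nat_lit 4) (nat_lit 39) (nat_lit 4) (nat_lit 431) (nat_lit 304) (nat_lit 285)) (XT.nd (nat_lit 78) (nat_lit 228) (nat_lit 0) (XT.lf (nat_lit 0) (nat_lit 26672396335) (nat_lit 76) (nat_lit 7390869281) (nat_lit 76) (nat_lit 5748792900) (nat_lit 38) (nat_lit 4) (nat_lit 39) (nat_lit 5) (nat_lit 39) (nat_lit 4) (nat_lit 432) (nat_lit 304) (nat_lit 284)) (XT.lf (nat_lit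 0) (nat_lit 2528437078) (nat_lit 76) (nat_lit 20029008898) (nat_lit 76) (nat_lit 18388841688) (nat_lit 35) (nat_lit 4) (nat_lit 36) (nat_lit 5) (nat_lit 36) (nat_lit 4) (nat_lit 433) (nat_lit 304) (nat_lit 283)))) (XT.nd (nat_lit 78) (nat_lit 304) (nat_lit 0) (XT.lf (nat_lit 0) (nat_lit 10263773817) (nat_lit 152) (nat_lit 23226891305) (nat_lit 0) (nat_lit 8628920495) (nat_lit 33) (nat_lit 5) (nat_lit 35) (nat_lit 4) (nat_lit 33) (nat_lit 4) (nat_lit 434) (nat_lit 304) (nat_lit 282)) (XT.nd (nat_lit 78) (nat_lit 228) (nat_lit 0) (XT.lf (nat_lit 0) (nat_lit 35648229114) (nat_lit 76) (nat_lit 4681163179) (nat_lit 76) (nat_lit 3005873693) (nat_lit 32) (nat_lit 4) (nat_lit 33) (nat_lit 5) (nat_lit 33) (nat_lit 4) (nat_lit 435) (nat_lit 304) (nat_lit 281)) (XT.lf (nat_lit 0) (nat_lit 8263983905) (nat_lit 76) (nat_lit 18994317622) (nat_lit 76) (nat_lit 17330434012) (nat_lit 29) (nat_lit 4) (nat_lit 30)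 (nat_lit 5) (nat_lit 30) (nat_lit 4) (nat_lit 436) (nat_lit 304) (nat_lit 280))))) (XT.nd (nat_lit 234) (nat_lit 228) (nat_lit 0) (XT.nd (nat_lit 78) (nat_lit 304) (nat_lit 0) (XT.lf (nat_lit 0) (nat_lit 13246679647) (nat_lit 152) (nat_lit 21043884458) (nat_lit 0) (nat_lit 11596687272) (nat_lit 27) (nat_lit 5) (nat_lit 29) (nat_lit 4) (nat_lit 27) (nat_lit 4) (nat_lit 437) (nat_lit 304) (nat_lit 279)) (XT.nd (nat_lit 78) (nat_lit 228) (nat_lit 0) (XT.lf (nat_lit 0) (nat_lit 41881529410) (nat_lit 76) (nat_lit 3517396279) (nat_lit 76) (nat_lit 1834478765) (nat_lit 26) (nat_lit 4) (nat_lit 27) (nat_lit 5) (nat_lit 27) (nat_lit 4) (nat_lit 438) (nat_lit 304) (nat_lit 278)) (XT.lf (nat_lit 0) (nat_lit 10782252323) (nat_lit 76) (nat_lit 19750830745) (nat_lit 76) (nat_lit 18086486291) (nat_lit 23) (nat_lit 4) (nat_lit 24) (nat_lit 5) (nat_lit 24) (nat_lit 4) (nat_lit 439) (nat_lit 304) (nat_lit 277))))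 (XT.nd (nat_lit 50778) (nat_lit 0) (nat_lit 5016) (XT.nd (nat_lit 78) (nat_lit 76) (nat_lit 0) (XT.lf (nat_lit 0) (nat_lit 14592677846) (nat_lit 152) (nat_lit 22514989025) (nat_lit 0) (nat_lit 12948659693) (nat_lit 21) (nat_lit 5) (nat_lit 23) (nat_lit 4) (nat_lit 21) (nat_lit 4) (nat_lit 440) (nat_lit 304) (nat_lit 276)) (XT.lf (nat_lit 0) (nat_lit 44791639720) (nat_lit 76) (nat_lit 4212285839) (nat_lit 76) (nat_lit 2541458400) (nat_lit 20) (nat_lit 4) (nat_lit 21) (nat_lit 5) (nat_lit 21) (nat_lit 4) (nat_lit 441) (nat_lit 304) (nat_lit 275))) (XT.nd (nat_lit 78) (nat_lit 76) (nat_lit 0) (XT.lf (nat_lit 0) (nat_lit 246998658) (nat_lit 152) (nat_lit 10743627792) (nat_lit 0) (nat_lit 246998658) (nat_lit 87) (nat_lit 5) (nat_lit 89) (nat_lit 4) (nat_lit 87) (nat_lit 4) (nat_lit 410) (nat_lit 305) (nat_lit 305)) (XT.lf (nat_lit 0) (nat_lit 15636382178) (nat_lit 76) (nat_lit 3799942271) (nat_lit 76)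 (nat_lit 3588498998) (nat_lit 86) (nat_lit 4) (nat_lit 87) (nat_lit 5) (nat_lit 87) (nat_lit 4) (nat_lit 411) (nat_lit 305) (nat_lit 304))))))) (XT.nd (nat_lit 1014) (nat_lit 2280) (nat_lit 0) (XT.nd (nat_lit 468) (nat_lit 1140) (nat_lit 0) (XT.nd (nat_lit 234) (nat_lit 532) (nat_lit 0) (XT.nd (nat_lit 78) (nat_lit 380) (nat_lit 0) (XT.lf (nat_lit 0) (nat_lit 7076304738) (nat_lit 76) (nat_lit 8459139365) (nat_lit 76) (nat_lit 8058345367) (nat_lit 83) (nat_lit 4) (nat_lit 84) (nat_lit 5) (nat_lit 84) (nat_lit 4) (nat_lit 412) (nat_lit 305) (nat_lit 303)) (XT.nd (nat_lit 78) (nat_lit 228) (nat_lit 0) (XT.lf (nat_lit 0) (nat_lit 11259006147) (nat_lit 152) (nat_lit 2234870205) (nat_lit 0) (nat_lit 10689109738) (nat_lit 81) (nat_lit 5) (nat_lit 83) (nat_lit 4) (nat_lit 81) (nat_lit 4) (nat_lit 413) (nat_lit 305) (nat_lit 302)) (XT.lf (nat_lit 0) (nat_lit 6634381186) (nat_lit 152) (nat_lit 12243448923)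 (nat_lit 0) (nat_lit 5913930653) (nat_lit 78) (nat_lit 5) (nat_lit 80) (nat_lit 4) (nat_lit 78) (nat_lit 4) (nat_lit 414) (nat_lit 305) (nat_lit 301)))) (XT.nd (nat_lit 78) (nat_lit 304) (nat_lit 0) (XT.lf (nat_lit 0) (nat_lit 1565403470) (nat_lit 152) (nat_lit 23146386736) (nat_lit 0) (nat_lit 711380254) (nat_lit 75) (nat_lit 5) (nat_lit 77) (nat_lit 4) (nat_lit 75) (nat_lit 4) (nat_lit 415) (nat_lit 305) (nat_lit 300)) (XT.nd (nat_lit 78) (nat_lit 228) (nat_lit 0) (XT.lf (nat_lit 0) (nat_lit 17232727382) (nat_lit 76) (nat_lit 4920804092) (nat_lit 76) (nat_lit 3919584039) (nat_lit 74) (nat_lit 4) (nat_lit 75) (nat_lit 5) (nat_lit 75) (nat_lit 4) (nat_lit 416) (nat_lit 305) (nat_lit 299)) (XT.lf (nat_lit 0) (nat_lit 5822118929) (nat_lit 76) (nat_lit 11016027232) (nat_lit 76) (nat_lit 9907864595) (nat_lit 71) (nat_lit 4) (nat_lit 72) (nat_lit 5) (nat_lit 72) (nat_lit 4) (nat_lit 417) (nat_lit 305)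 (nat_lit 298))))) (XT.nd (nat_lit 234) (nat_lit 684) (nat_lit 0) (XT.nd (nat_lit 78) (nat_lit 304) (nat_lit 0) (XT.lf (nat_lit 0) (nat_lit 11076495312) (nat_lit 152) (nat_lit 6491174065) (nat_lit 0) (nat_lit 9874761514) (nat_lit 69) (nat_lit 5) (nat_lit 71) (nat_lit 4) (nat_lit 69) (nat_lit 4) (nat_lit 418) (nat_lit 305) (nat_lit 297)) (XT.nd (nat_lit 78) (nat_lit 76) (nat_lit 0) (XT.lf (nat_lit 0) (nat_lit 4836862404) (nat_lit 152) (nat_lit 19772890483) (nat_lit 0) (nat_lit 3553766489) (nat_lit 66) (nat_lit 5) (nat_lit 68) (nat_lit 4) (nat_lit 66) (nat_lit 4) (nat_lit 419) (nat_lit 305) (nat_lit 296)) (XT.lf (nat_lit 0) (nat_lit 23662027794) (nat_lit 76) (nat_lit 3320527663) (nat_lit 76) (nat_lit 1926608824) (nat_lit 65) (nat_lit 4) (nat_lit 66) (nat_lit 5) (nat_lit 66) (nat_lit 4) (nat_lit 420) (nat_lit 305) (nat_lit 295)))) (XT.nd (nat_lit 156) (nat_lit 304) (nat_lit 0) (XT.nd (nat_lit 78) (nat_lit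 152) (nat_lit 0) (XT.lf (nat_lit 0) (nat_lit 9680343574) (nat_lit 76) (nat_lit 10726837921) (nat_lit 76) (nat_lit 9271047162) (nat_lit 62) (nat_lit 4) (nat_lit 63) (nat_lit 5) (nat_lit 63) (nat_lit 4) (nat_lit 421) (nat_lit 305) (nat_lit 294)) (XT.lf (nat_lit 0) (nat_lit 13271406678) (nat_lit 152) (nat_lit 5440686325) (nat_lit 0) (nat_lit 11763268172) (nat_lit 60) (nat_lit 5) (nat_lit 62) (nat_lit 4) (nat_lit 60) (nat_lit 4) (nat_lit 422) (nat_lit 305) (nat_lit 293))) (XT.nd (nat_lit 78) (nat_lit 76) (nat_lit 0) (XT.lf (nat_lit 0) (nat_lit 5586067350) (nat_lit 152) (nat_lit 21680137555) (nat_lit 0) (nat_lit 4034245943) (nat_lit 57) (nat_lit 5) (nat_lit 59) (nat_lit 4) (nat_lit 57) (nat_lit 4) (nat_lit 423) (nat_lit 305) (nat_lit 292)) (XT.lf (nat_lit 0) (nat_lit 25065450787) (nat_lit 76) (nat_lit 4361735464) (nat_lit 76) (nat_lit 2726476662) (nat_lit 56) (nat_lit 4) (nat_lit 57) (nat_lit 5) (nat_lit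 57) (nat_lit 4) (nat_lit 424) (nat_lit 305) (nat_lit 291)))))) (XT.nd (nat_lit 546) (nat_lit 1140) (nat_lit 0) (XT.nd (nat_lit 234) (nat_lit 532) (nat_lit 0) (XT.nd (nat_lit 78) (nat_lit 380) (nat_lit 0) (XT.lf (nat_lit 0) (nat_lit 7888592023) (nat_lit 76) (nat_lit 13405261910) (nat_lit 76) (nat_lit 11740482309) (nat_lit 53) (nat_lit 4) (nat_lit 54) (nat_lit 5) (nat_lit 54) (nat_lit 4) (nat_lit 425) (nat_lit 305) (nat_lit 290)) (XT.nd (nat_lit 78) (nat_lit 228) (nat_lit 0) (XT.lf (nat_lit 0) (nat_lit 12524907730) (nat_lit 152) (nat_lit 10584391962) (nat_lit 0) (nat_lit 10837281031) (nat_lit 51) (nat_lit 5) (nat_lit 53) (nat_lit 4) (nat_lit 51) (nat_lit 4) (nat_lit 426) (nat_lit 305) (nat_lit 289)) (XT.lf (nat_lit 0) (nat_lit 3057798156) (nat_lit 152) (nat_lit 30481347820) (nat_lit 0) (nat_lit 1353365553) (nat_lit 48) (nat_lit 5) (nat_lit 50) (nat_lit 4) (nat_lit 48) (nat_lit 4) (nat_lit 427) (nat_lit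 305) (nat_lit 288)))) (XT.nd (nat_lit 156) (nat_lit 304) (nat_lit 0) (XT.nd (nat_lit 78) (nat_lit 152) (nat_lit 0) (XT.lf (nat_lit 0) (nat_lit 19838699399) (nat_lit 76) (nat_lit 8897691448) (nat_lit 76) (nat_lit 7130439723) (nat_lit 47) (nat_lit 4) (nat_lit 48) (nat_lit 5) (nat_lit 48) (nat_lit 4) (nat_lit 428) (nat_lit 305) (nat_lit 287)) (XT.lf (nat_lit 0) (nat_lit 18693822921) (nat_lit 152) (nat_lit 1263104927) (nat_lit 0) (nat_lit 16919959367) (nat_lit 45) (nat_lit 5) (nat_lit 47) (nat_lit 4) (nat_lit 45) (nat_lit 4) (nat_lit 429) (nat_lit 305) (nat_lit 286))) (XT.nd (nat_lit 78) (nat_lit 76) (nat_lit 0) (XT.lf (nat_lit 0) (nat_lit 7968397271) (nat_lit 152) (nat_lit 23760431618) (nat_lit 0) (nat_lit 6192491665) (nat_lit 42) (nat_lit 5) (nat_lit 44) (nat_lit 4) (nat_lit 42) (nat_lit 4) (nat_lit 430) (nat_lit 305) (nat_lit 285)) (XT.lf (nat_lit 0) (nat_lit 29939483551) (nat_lit 76) (nat_lit 5445075864)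 (nat_lit 76) (nat_lit 3618019801) (nat_lit 41) (nat_lit 4) (nat_lit 42) (nat_lit 5) (nat_lit 42) (nat_lit 4) (nat_lit 431) (nat_lit 305) (nat_lit 284))))) (XT.nd (nat_lit 234) (nat_lit 684) (nat_lit 0) (XT.nd (nat_lit 78) (nat_lit 228) (nat_lit 0) (XT.lf (nat_lit 0) (nat_lit 6003470807) (nat_lit 76) (nat_lit 17968212399) (nat_lit 76) (nat_lit 16147075715) (nat_lit 38) (nat_lit 4) (nat_lit 39) (nat_lit 5) (nat_lit 39) (nat_lit 4) (nat_lit 432) (nat_lit 305) (nat_lit 283)) (XT.nd (nat_lit 78) (nat_lit 76) (nat_lit 0) (XT.lf (nat_lit 0) (nat_lit 11744912775) (nat_lit 152) (nat_lit 19596501490) (nat_lit 0) (nat_lit 9933087195) (nat_lit 36) (nat_lit 5) (nat_lit 38) (nat_lit 4) (nat_lit 36) (nat_lit 4) (nat_lit 433) (nat_lit 305) (nat_lit 282)) (XT.lf (nat_lit 0) (nat_lit 37766180966) (nat_lit 76) (nat_lit 3280034497) (nat_lit 76) (nat_lit 1426559669) (nat_lit 35) (nat_lit 4) (nat_lit 36) (nat_lit 5)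 (nat_lit 36) (nat_lit 4) (nat_lit 434) (nat_lit 305) (nat_lit 281)))) (XT.nd (nat_lit 156) (nat_lit 304) (nat_lit 0) (XT.nd (nat_lit 78) (nat_lit 152) (nat_lit 0) (XT.lf (nat_lit 0) (nat_lit 10605990700) (nat_lit 76) (nat_lit 17469312368) (nat_lit 76) (nat_lit 15631311612) (nat_lit 32) (nat_lit 4) (nat_lit 33) (nat_lit 5) (nat_lit 33) (nat_lit 4) (nat_lit 435) (nat_lit 305) (nat_lit 280)) (XT.lf (nat_lit 0) (nat_lit 14149726786) (nat_lit 152) (nat_lit 18506231994) (nat_lit 0) (nat_lit 12329651495) (nat_lit 30) (nat_lit 5) (nat_lit 32) (nat_lit 4) (nat_lit 30) (nat_lit 4) (nat_lit 436) (nat_lit 305) (nat_lit 279))) (XT.nd (nat_lit 78) (nat_lit 228) (nat_lit 0) (XT.lf (nat_lit 0) (nat_lit 42821388872) (nat_lit 76) (nat_lit 2672298748) (nat_lit 76) (nat_lit 818310565) (nat_lit 29) (nat_lit 4) (nat_lit 30) (nat_lit 5) (nat_lit 30) (nat_lit 4) (nat_lit 437) (nat_lit 305) (nat_lit 278)) (XT.lf (nat_lit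 0) (nat_lit 11965906601) (nat_lit 76) (nat_lit 18771106580) (nat_lit 76) (nat_lit 16939760779) (nat_lit 26) (nat_lit 4) (nat_lit 27) (nat_lit 5) (nat_lit 27) (nat_lit 4) (nat_lit 438) (nat_lit 305) (nat_lit 277))))))))
noncomputable def xc5 : XT := (XT.nd (nat_lit 52572) (nat_lit 0) (nat_lit 76) (XT.nd (nat_lit 51480) (nat_lit 0) (nat_lit 1596) (XT.nd (nat_lit 50934) (nat_lit 0) (nat_lit 3876) (XT.nd (nat_lit 50700) (nat_lit 0) (nat_lit 5092) (XT.nd (nat_lit 78) (nat_lit 304) (nat_lit 0) (XT.lf (nat_lit 0) (nat_lit 14903919510) (nat_lit 152) (nat_lit 21091014955) (nat_lit 0) (nat_lit 13096919635) (nat_lit 24) (nat_lit 5) (nat_lit 26) (nat_lit 4) (nat_lit 24) (nat_lit 4) (nat_lit 439) (nat_lit 305) (nat_lit 276)) (XT.nd (nat_lit 78) (nat_lit 228) (nat_lit 0) (XT.lf (nat_lit 0) (nat_lit 44523988192) (nat_lit 76) (nat_lit 3934603717) (nat_lit 76) (nat_lit 2099990276) (nat_lit 23) (nat_lit 4) (nat_lit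 24) (nat_lit 5) (nat_lit 24) (nat_lit 4) (nat_lit 440) (nat_lit 305) (nat_lit 275)) (XT.lf (nat_lit 0) (nat_lit 9438574886) (nat_lit 76) (nat_lit 22218616189) (nat_lit 76) (nat_lit 20411905438) (nat_lit 20) (nat_lit 4) (nat_lit 21) (nat_lit 5) (nat_lit 21) (nat_lit 4) (nat_lit 441) (nat_lit 305) (nat_lit 274)))) (XT.nd (nat_lit 78) (nat_lit 456) (nat_lit 0) (XT.lf (nat_lit 0) (nat_lit 4085433659) (nat_lit 152) (nat_lit 2537404703) (nat_lit 0) (nat_lit 4085433659) (nat_lit 93) (nat_lit 5) (nat_lit 95) (nat_lit 4) (nat_lit 93) (nat_lit 4) (nat_lit 408) (nat_lit 306) (nat_lit 306)) (XT.nd (nat_lit 78) (nat_lit 228) (nat_lit 0) (XT.lf (nat_lit 0) (nat_lit 4473974049) (nat_lit 152) (nat_lit 13221590302) (nat_lit 0) (nat_lit 4245298150) (nat_lit 90) (nat_lit 5) (nat_lit 92) (nat_lit 4) (nat_lit 90) (nat_lit 4) (nat_lit 409) (nat_lit 306) (nat_lit 305)) (XT.lf (nat_lit 0) (nat_lit 385767981) (nat_lit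 76) (nat_lit 24197758) (nat_lit 152) (nat_lit 22074465889) (nat_lit 87) (nat_lit 5) (nat_lit 88) (nat_lit 5) (nat_lit 89) (nat_lit 4) (nat_lit 410) (nat_lit 306) (nat_lit 304))))) (XT.nd (nat_lit 234) (nat_lit 760) (nat_lit 0) (XT.nd (nat_lit 78) (nat_lit 380) (nat_lit 0) (XT.lf (nat_lit 0) (nat_lit 14419386894) (nat_lit 76) (nat_lit 4629279999) (nat_lit 76) (nat_lit 3994446744) (nat_lit 86) (nat_lit 4) (nat_lit 87) (nat_lit 5) (nat_lit 87) (nat_lit 4) (nat_lit 411) (nat_lit 306) (nat_lit 303)) (XT.nd (nat_lit 78) (nat_lit 152) (nat_lit 0) (XT.lf (nat_lit 0) (nat_lit 5184459424) (nat_lit 76) (nat_lit 9620132179) (nat_lit 76) (nat_lit 8817589911) (nat_lit 83) (nat_lit 4) (nat_lit 84) (nat_lit 5) (nat_lit 84) (nat_lit 4) (nat_lit 412) (nat_lit 306) (nat_lit 302)) (XT.lf (nat_lit 0) (nat_lit 10187173639) (nat_lit 152) (nat_lit 4798406805) (nat_lit 0) (nat_lit 9235838748) (nat_lit 81) (nat_lit 5) (nat_lit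 83) (nat_lit 4) (nat_lit 81) (nat_lit 4) (nat_lit 413) (nat_lit 306) (nat_lit 301)))) (XT.nd (nat_lit 156) (nat_lit 456) (nat_lit 0) (XT.nd (nat_lit 78) (nat_lit 76) (nat_lit 0) (XT.lf (nat_lit 0) (nat_lit 5179463524) (nat_lit 152) (nat_lit 15565395999) (nat_lit 0) (nat_lit 4096644037) (nat_lit 78) (nat_lit 5) (nat_lit 80) (nat_lit 4) (nat_lit 78) (nat_lit 4) (nat_lit 414) (nat_lit 306) (nat_lit 300)) (XT.lf (nat_lit 0) (nat_lit 23706936472) (nat_lit 76) (nat_lit 1505723877) (nat_lit 76) (nat_lit 271291648) (nat_lit 77) (nat_lit 4) (nat_lit 78) (nat_lit 5) (nat_lit 78) (nat_lit 4) (nat_lit 415) (nat_lit 306) (nat_lit 299))) (XT.nd (nat_lit 78) (nat_lit 228) (nat_lit 0) (XT.lf (nat_lit 0) (nat_lit 12427016470) (nat_lit 76) (nat_lit 7528314081) (nat_lit 76) (nat_lit 6189648724) (nat_lit 74) (nat_lit 4) (nat_lit 75) (nat_lit 5) (nat_lit 75) (nat_lit 4) (nat_lit 416) (nat_lit 306) (nat_lit 298)) (XT.lf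 (nat_lit 0) (nat_lit 125444774) (nat_lit 76) (nat_lit 14067483091) (nat_lit 76) (nat_lit 12638184813) (nat_lit 71) (nat_lit 4) (nat_lit 72) (nat_lit 5) (nat_lit 72) (nat_lit 4) (nat_lit 417) (nat_lit 306) (nat_lit 297)))))) (XT.nd (nat_lit 546) (nat_lit 1140) (nat_lit 0) (XT.nd (nat_lit 234) (nat_lit 684) (nat_lit 0) (XT.nd (nat_lit 78) (nat_lit 304) (nat_lit 0) (XT.lf (nat_lit 0) (nat_lit 8018701757) (nat_lit 152) (nat_lit 13009862442) (nat_lit 0) (nat_lit 6511178532) (nat_lit 69) (nat_lit 5) (nat_lit 71) (nat_lit 4) (nat_lit 69) (nat_lit 4) (nat_lit 418) (nat_lit 306) (nat_lit 296)) (XT.nd (nat_lit 78) (nat_lit 76) (nat_lit 0) (XT.lf (nat_lit 0) (nat_lit 984630092) (nat_lit 76) (nat_lit 299261990) (nat_lit 152) (nat_lit 26991631969) (nat_lit 66) (nat_lit 5) (nat_lit 67) (nat_lit 5) (nat_lit 68) (nat_lit 4) (nat_lit 419) (nat_lit 306) (nat_lit 295)) (XT.lf (nat_lit 0) (nat_lit 15416975130) (nat_lit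 76) (nat_lit 7647564273) (nat_lit 76) (nat_lit 5967580925) (nat_lit 65) (nat_lit 4) (nat_lit 66) (nat_lit 5) (nat_lit 66) (nat_lit 4) (nat_lit 420) (nat_lit 306) (nat_lit 294)))) (XT.nd (nat_lit 156) (nat_lit 304) (nat_lit 0) (XT.nd (nat_lit 78) (nat_lit 152) (nat_lit 0) (XT.lf (nat_lit 0) (nat_lit 344358184) (nat_lit 76) (nat_lit 15600816109) (nat_lit 76) (nat_lit 13872172412) (nat_lit 62) (nat_lit 4) (nat_lit 63) (nat_lit 5) (nat_lit 63) (nat_lit 4) (nat_lit 421) (nat_lit 306) (nat_lit 293)) (XT.lf (nat_lit 0) (nat_lit 8330873502) (nat_lit 152) (nat_lit 15735467251) (nat_lit 0) (nat_lit 6562341107) (nat_lit 60) (nat_lit 5) (nat_lit 62) (nat_lit 4) (nat_lit 60) (nat_lit 4) (nat_lit 422) (nat_lit 306) (nat_lit 292))) (XT.nd (nat_lit 78) (nat_lit 152) (nat_lit 0) (XT.lf (nat_lit 0) (nat_lit 74275461) (nat_lit 152) (nat_lit 1703693724) (nat_lit 76) (nat_lit 29692791429) (nat_lit 58) (nat_lit 5) (nat_lit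 60) (nat_lit 5) (nat_lit 59) (nat_lit 4) (nat_lit 423) (nat_lit 306) (nat_lit 291)) (XT.lf (nat_lit 0) (nat_lit 12754357347) (nat_lit 76) (nat_lit 10731216634) (nat_lit 76) (nat_lit 8851293311) (nat_lit 56) (nat_lit 4) (nat_lit 57) (nat_lit 5) (nat_lit 57) (nat_lit 4) (nat_lit 424) (nat_lit 306) (nat_lit 290))))) (XT.nd (nat_lit 234) (nat_lit 684) (nat_lit 0) (XT.nd (nat_lit 78) (nat_lit 304) (nat_lit 0) (XT.lf (nat_lit 0) (nat_lit 14747503352) (nat_lit 152) (nat_lit 5639175891) (nat_lit 0) (nat_lit 12848859177) (nat_lit 54) (nat_lit 5) (nat_lit 56) (nat_lit 4) (nat_lit 54) (nat_lit 4) (nat_lit 425) (nat_lit 306) (nat_lit 289)) (XT.nd (nat_lit 78) (nat_lit 76) (nat_lit 0) (XT.lf (nat_lit 0) (nat_lit 5365381926) (nat_lit 152) (nat_lit 25346556900) (nat_lit 0) (nat_lit 3454099186) (nat_lit 51) (nat_lit 5) (nat_lit 53) (nat_lit 4) (nat_lit 51) (nat_lit 4) (nat_lit 426) (nat_lit 306) (nat_lit 288))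 (XT.lf (nat_lit 0) (nat_lit 23652117187) (nat_lit 76) (nat_lit 6725492654) (nat_lit 76) (nat_lit 4749506217) (nat_lit 50) (nat_lit 4) (nat_lit 51) (nat_lit 5) (nat_lit 51) (nat_lit 4) (nat_lit 427) (nat_lit 306) (nat_lit 287)))) (XT.nd (nat_lit 156) (nat_lit 304) (nat_lit 0) (XT.nd (nat_lit 78) (nat_lit 152) (nat_lit 0) (XT.lf (nat_lit 0) (nat_lit 2713609945) (nat_lit 76) (nat_lit 17692955997) (nat_lit 76) (nat_lit 15714694827) (nat_lit 47) (nat_lit 4) (nat_lit 48) (nat_lit 5) (nat_lit 48) (nat_lit 4) (nat_lit 428) (nat_lit 306) (nat_lit 286)) (XT.lf (nat_lit 0) (nat_lit 9745395071) (nat_lit 152) (nat_lit 19634914390) (nat_lit 0) (nat_lit 7769433939) (nat_lit 45) (nat_lit 5) (nat_lit 47) (nat_lit 4) (nat_lit 45) (nat_lit 4) (nat_lit 429) (nat_lit 306) (nat_lit 285))) (XT.nd (nat_lit 78) (nat_lit 228) (nat_lit 0) (XT.lf (nat_lit 0) (nat_lit 32674456808) (nat_lit 76) (nat_lit 3784996349) (nat_lit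 76) (nat_lit 1756350246) (nat_lit 44) (nat_lit 4) (nat_lit 45) (nat_lit 5) (nat_lit 45) (nat_lit 4) (nat_lit 430) (nat_lit 306) (nat_lit 284)) (XT.lf (nat_lit 0) (nat_lit 8940162985) (nat_lit 76) (nat_lit 16196205550) (nat_lit 76) (nat_lit 14177931505) (nat_lit 41) (nat_lit 4) (nat_lit 42) (nat_lit 5) (nat_lit 42) (nat_lit 4) (nat_lit 431) (nat_lit 306) (nat_lit 283))))))) (XT.nd (nat_lit 51324) (nat_lit 0) (nat_lit 2964) (XT.nd (nat_lit 468) (nat_lit 608) (nat_lit 0) (XT.nd (nat_lit 234) (nat_lit 456) (nat_lit 0) (XT.nd (nat_lit 78) (nat_lit 304) (nat_lit 0) (XT.lf (nat_lit 0) (nat_lit 12978490315) (nat_lit 152) (nat_lit 16500257685) (nat_lit 0) (nat_lit 10973957289) (nat_lit 39) (nat_lit 5) (nat_lit 41) (nat_lit 4) (nat_lit 39) (nat_lit 4) (nat_lit 432) (nat_lit 306) (nat_lit 282)) (XT.nd (nat_lit 78) (nat_lit 228) (nat_lit 0) (XT.lf (nat_lit 0) (nat_lit 39395569994) (nat_lit 76) (nat_lit 2142758398)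 (nat_lit 76) (nat_lit 95326645) (nat_lit 38) (nat_lit 4) (nat_lit 39) (nat_lit 5) (nat_lit 39) (nat_lit 4) (nat_lit 433) (nat_lit 306) (nat_lit 281)) (XT.lf (nat_lit 0) (nat_lit 12453518508) (nat_lit 76) (nat_lit 16211099011) (nat_lit 76) (nat_lit 14183635241) (nat_lit 35) (nat_lit 4) (nat_lit 36) (nat_lit 5) (nat_lit 36) (nat_lit 4) (nat_lit 434) (nat_lit 306) (nat_lit 280)))) (XT.nd (nat_lit 78) (nat_lit 304) (nat_lit 0) (XT.lf (nat_lit 0) (nat_lit 14826819018) (nat_lit 152) (nat_lit 16459431707) (nat_lit 0) (nat_lit 12821730798) (nat_lit 33) (nat_lit 5) (nat_lit 35) (nat_lit 4) (nat_lit 33) (nat_lit 4) (nat_lit 435) (nat_lit 306) (nat_lit 279)) (XT.nd (nat_lit 78) (nat_lit 228) (nat_lit 0) (XT.lf (nat_lit 0) (nat_lit 43317333578) (nat_lit 76) (nat_lit 2068710529) (nat_lit 76) (nat_lit 28692031) (nat_lit 32) (nat_lit 4) (nat_lit 33) (nat_lit 5) (nat_lit 33) (nat_lit 4) (nat_lit 436) (nat_lit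 306) (nat_lit 278)) (XT.lf (nat_lit 0) (nat_lit 12700021799) (nat_lit 76) (nat_lit 18035706013) (nat_lit 76) (nat_lit 16022807537) (nat_lit 29) (nat_lit 4) (nat_lit 30) (nat_lit 5) (nat_lit 30) (nat_lit 4) (nat_lit 437) (nat_lit 306) (nat_lit 277))))) (XT.nd (nat_lit 234) (nat_lit 152) (nat_lit 0) (XT.nd (nat_lit 78) (nat_lit 304) (nat_lit 0) (XT.lf (nat_lit 0) (nat_lit 15011399771) (nat_lit 152) (nat_lit 20113564994) (nat_lit 0) (nat_lit 13027265334) (nat_lit 27) (nat_lit 5) (nat_lit 29) (nat_lit 4) (nat_lit 27) (nat_lit 4) (nat_lit 438) (nat_lit 306) (nat_lit 276)) (XT.nd (nat_lit 78) (nat_lit 228) (nat_lit 0) (XT.lf (nat_lit 0) (nat_lit 43858297690) (nat_lit 76) (nat_lit 3875545990) (nat_lit 76) (nat_lit 1862969582) (nat_lit 26) (nat_lit 4) (nat_lit 27) (nat_lit 5) (nat_lit 27) (nat_lit 4) (nat_lit 439) (nat_lit 306) (nat_lit 275)) (XT.lf (nat_lit 0) (nat_lit 9035240072) (nat_lit 76) (nat_lit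 22014718870) (nat_lit 76) (nat_lit 20034462559) (nat_lit 23) (nat_lit 4) (nat_lit 24) (nat_lit 5) (nat_lit 24) (nat_lit 4) (nat_lit 440) (nat_lit 306) (nat_lit 274)))) (XT.nd (nat_lit 50466) (nat_lit 0) (nat_lit 5472) (XT.nd (nat_lit 50388) (nat_lit 0) (nat_lit 5852) (XT.lf (nat_lit 0) (nat_lit 13206207745) (nat_lit 152) (nat_lit 28160582325) (nat_lit 0) (nat_lit 11259311988) (nat_lit 21) (nat_lit 5) (nat_lit 23) (nat_lit 4) (nat_lit 21) (nat_lit 4) (nat_lit 441) (nat_lit 306) (nat_lit 273)) (XT.lf (nat_lit 0) (nat_lit 4973112919) (nat_lit 76) (nat_lit 2616309644) (nat_lit 76) (nat_lit 2616309644) (nat_lit 98) (nat_lit 4) (nat_lit 99) (nat_lit 5) (nat_lit 99) (nat_lit 4) (nat_lit 406) (nat_lit 307) (nat_lit 307))) (XT.nd (nat_lit 78) (nat_lit 152) (nat_lit 0) (XT.lf (nat_lit 0) (nat_lit 2438433589) (nat_lit 76) (nat_lit 9363119527) (nat_lit 76) (nat_lit 9108387152) (nat_lit 95) (nat_lit 4) (nat_lit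 96) (nat_lit 5) (nat_lit 96) (nat_lit 4) (nat_lit 407) (nat_lit 307) (nat_lit 306)) (XT.lf (nat_lit 0) (nat_lit 8131816901) (nat_lit 152) (nat_lit 5644350303) (nat_lit 0) (nat_lit 7648967739) (nat_lit 93) (nat_lit 5) (nat_lit 95) (nat_lit 4) (nat_lit 93) (nat_lit 4) (nat_lit 408) (nat_lit 307) (nat_lit 305)))))) (XT.nd (nat_lit 546) (nat_lit 1292) (nat_lit 0) (XT.nd (nat_lit 234) (nat_lit 684) (nat_lit 0) (XT.nd (nat_lit 78) (nat_lit 304) (nat_lit 0) (XT.lf (nat_lit 0) (nat_lit 4121627838) (nat_lit 152) (nat_lit 14401952667) (nat_lit 0) (nat_lit 3435055673) (nat_lit 90) (nat_lit 5) (nat_lit 92) (nat_lit 4) (nat_lit 90) (nat_lit 4) (nat_lit 409) (nat_lit 307) (nat_lit 304)) (XT.nd (nat_lit 78) (nat_lit 228) (nat_lit 0) (XT.lf (nat_lit 0) (nat_lit 21103749934) (nat_lit 76) (nat_lit 1150719864) (nat_lit 76) (nat_lit 256731917) (nat_lit 89) (nat_lit 4) (nat_lit 90) (nat_lit 5) (nat_lit 90) (nat_lit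 4) (nat_lit 410) (nat_lit 307) (nat_lit 303)) (XT.lf (nat_lit 0) (nat_lit 11982498717) (nat_lit 76) (nat_lit 6078486796) (nat_lit 76) (nat_lit 5018752052) (nat_lit 86) (nat_lit 4) (nat_lit 87) (nat_lit 5) (nat_lit 87) (nat_lit 4) (nat_lit 411) (nat_lit 307) (nat_lit 302)))) (XT.nd (nat_lit 156) (nat_lit 304) (nat_lit 0) (XT.nd (nat_lit 78) (nat_lit 152) (nat_lit 0) (XT.lf (nat_lit 0) (nat_lit 2026379417) (nat_lit 76) (nat_lit 11424699314) (nat_lit 76) (nat_lit 10218497961) (nat_lit 83) (nat_lit 4) (nat_lit 84) (nat_lit 5) (nat_lit 84) (nat_lit 4) (nat_lit 412) (nat_lit 307) (nat_lit 301)) (XT.lf (nat_lit 0) (nat_lit 8481441096) (nat_lit 152) (nat_lit 8651339463) (nat_lit 0) (nat_lit 7146402640) (nat_lit 81) (nat_lit 5) (nat_lit 83) (nat_lit 4) (nat_lit 81) (nat_lit 4) (nat_lit 413) (nat_lit 307) (nat_lit 300))) (XT.nd (nat_lit 78) (nat_lit 76) (nat_lit 0) (XT.lf (nat_lit 0) (nat_lit 3065942995)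 (nat_lit 152) (nat_lit 20227189799) (nat_lit 0) (nat_lit 1618176412) (nat_lit 78) (nat_lit 5) (nat_lit 80) (nat_lit 4) (nat_lit 78) (nat_lit 4) (nat_lit 414) (nat_lit 307) (nat_lit 299)) (XT.lf (nat_lit 0) (nat_lit 18396215504) (nat_lit 76) (nat_lit 4379699281) (nat_lit 76) (nat_lit 2787539610) (nat_lit 77) (nat_lit 4) (nat_lit 78) (nat_lit 5) (nat_lit 78) (nat_lit 4) (nat_lit 415) (nat_lit 307) (nat_lit 298))))) (XT.nd (nat_lit 234) (nat_lit 684) (nat_lit 0) (XT.nd (nat_lit 78) (nat_lit 380) (nat_lit 0) (XT.lf (nat_lit 0) (nat_lit 6228653432) (nat_lit 76) (nat_lit 10844156521) (nat_lit 76) (nat_lit 9164858562) (nat_lit 74) (nat_lit 4) (nat_lit 75) (nat_lit 5) (nat_lit 75) (nat_lit 4) (nat_lit 416) (nat_lit 307) (nat_lit 297)) (XT.nd (nat_lit 78) (nat_lit 228) (nat_lit 0) (XT.lf (nat_lit 0) (nat_lit 10902947653) (nat_lit 152) (nat_lit 6883786432) (nat_lit 0) (nat_lit 9149110643) (nat_lit 72) (nat_lit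 5) (nat_lit 74) (nat_lit 4) (nat_lit 72) (nat_lit 4) (nat_lit 417) (nat_lit 307) (nat_lit 296)) (XT.lf (nat_lit 0) (nat_lit 4233678905) (nat_lit 152) (nat_lit 21008694532) (nat_lit 0) (nat_lit 2416776914) (nat_lit 69) (nat_lit 5) (nat_lit 71) (nat_lit 4) (nat_lit 69) (nat_lit 4) (nat_lit 418) (nat_lit 307) (nat_lit 295)))) (XT.nd (nat_lit 156) (nat_lit 380) (nat_lit 0) (XT.nd (nat_lit 78) (nat_lit 228) (nat_lit 0) (XT.lf (nat_lit 0) (nat_lit 20549179282) (nat_lit 76) (nat_lit 4891270107) (nat_lit 76) (nat_lit 2965656103) (nat_lit 68) (nat_lit 4) (nat_lit 69) (nat_lit 5) (nat_lit 69) (nat_lit 4) (nat_lit 419) (nat_lit 307) (nat_lit 294)) (XT.lf (nat_lit 0) (nat_lit 5626585795) (nat_lit 76) (nat_lit 12760791775) (nat_lit 76) (nat_lit 10790743957) (nat_lit 65) (nat_lit 4) (nat_lit 66) (nat_lit 5) (nat_lit 66) (nat_lit 4) (nat_lit 420) (nat_lit 307) (nat_lit 293))) (XT.nd (nat_lit 78) (nat_lit 228)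 (nat_lit 0) (XT.lf (nat_lit 0) (nat_lit 10793191431) (nat_lit 152) (nat_lit 10396656506) (nat_lit 0) (nat_lit 8787578977) (nat_lit 63) (nat_lit 5) (nat_lit 65) (nat_lit 4) (nat_lit 63) (nat_lit 4) (nat_lit 421) (nat_lit 307) (nat_lit 292)) (XT.lf (nat_lit 0) (nat_lit 2579997316) (nat_lit 152) (nat_lit 27679710514) (nat_lit 0) (nat_lit 546860241) (nat_lit 60) (nat_lit 5) (nat_lit 62) (nat_lit 4) (nat_lit 60) (nat_lit 4) (nat_lit 422) (nat_lit 307) (nat_lit 291))))))))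
noncomputable def xc6 : XT := (XT.nd (nat_lit 52260) (nat_lit 0) (nat_lit 456) (XT.nd (nat_lit 1014) (nat_lit 836) (nat_lit 0) (XT.nd (nat_lit 468) (nat_lit 1064) (nat_lit 0) (XT.nd (nat_lit 234) (nat_lit 456) (nat_lit 0) (XT.nd (nat_lit 78) (nat_lit 380) (nat_lit 0) (XT.lf (nat_lit 0) (nat_lit 17048202888) (nat_lit 76) (nat_lit 8363485064) (nat_lit 76) (nat_lit 6248499878) (nat_lit 59) (nat_lit 4) (nat_lit 60) (nat_lit 5) (nat_lit 60) (nat_lit 4) (nat_lit 423) (nat_lit 307) (nat_lit 290)) (XT.nd (nat_lit 78) (nat_lit 228) (nat_lit 0) (XT.lf (nat_lit 0) (nat_lit 16706713597) (nat_lit 152) (nat_lit 1261073573) (nat_lit 0) (nat_lit 14577649744) (nat_lit 57) (nat_lit 5) (nat_lit 59) (nat_lit 4) (nat_lit 57) (nat_lit 4) (nat_lit 424) (nat_lit 307) (nat_lit 289)) (XT.lf (nat_lit 0) (nat_lit 7406227906) (nat_lit 152) (nat_lit 20785402446) (nat_lit 0) (nat_lit 5269198575) (nat_lit 54) (nat_lit 5) (nat_lit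 56) (nat_lit 4) (nat_lit 54) (nat_lit 4) (nat_lit 425) (nat_lit 307) (nat_lit 288)))) (XT.nd (nat_lit 78) (nat_lit 380) (nat_lit 0) (XT.lf (nat_lit 0) (nat_lit 26933541578) (nat_lit 76) (nat_lit 4839402961) (nat_lit 76) (nat_lit 2635728822) (nat_lit 53) (nat_lit 4) (nat_lit 54) (nat_lit 5) (nat_lit 54) (nat_lit 4) (nat_lit 426) (nat_lit 307) (nat_lit 287)) (XT.nd (nat_lit 78) (nat_lit 152) (nat_lit 0) (XT.lf (nat_lit 0) (nat_lit 6177314772) (nat_lit 76) (nat_lit 15705333621) (nat_lit 76) (nat_lit 13504221598) (nat_lit 50) (nat_lit 4) (nat_lit 51) (nat_lit 5) (nat_lit 51) (nat_lit 4) (nat_lit 427) (nat_lit 307) (nat_lit 286)) (XT.lf (nat_lit 0) (nat_lit 11275339683) (nat_lit 152) (nat_lit 16043261174) (nat_lit 0) (nat_lit 9081358923) (nat_lit 48) (nat_lit 5) (nat_lit 50) (nat_lit 4) (nat_lit 48) (nat_lit 4) (nat_lit 428) (nat_lit 307) (nat_lit 285))))) (XT.nd (nat_lit 234) (nat_lit 608) (nat_lit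 0) (XT.nd (nat_lit 78) (nat_lit 380) (nat_lit 0) (XT.lf (nat_lit 0) (nat_lit 34918220760) (nat_lit 76) (nat_lit 2390448046) (nat_lit 76) (nat_lit 142201765) (nat_lit 47) (nat_lit 4) (nat_lit 48) (nat_lit 5) (nat_lit 48) (nat_lit 4) (nat_lit 429) (nat_lit 307) (nat_lit 284)) (XT.nd (nat_lit 78) (nat_lit 152) (nat_lit 0) (XT.lf (nat_lit 0) (nat_lit 11379801414) (nat_lit 76) (nat_lit 14692588474) (nat_lit 76) (nat_lit 12459648931) (nat_lit 44) (nat_lit 4) (nat_lit 45) (nat_lit 5) (nat_lit 45) (nat_lit 4) (nat_lit 430) (nat_lit 307) (nat_lit 283)) (XT.lf (nat_lit 0) (nat_lit 13985162971) (nat_lit 152) (nat_lit 13897296558) (nat_lit 0) (nat_lit 11770865530) (nat_lit 42) (nat_lit 5) (nat_lit 44) (nat_lit 4) (nat_lit 42) (nat_lit 4) (nat_lit 431) (nat_lit 307) (nat_lit 282)))) (XT.nd (nat_lit 156) (nat_lit 304) (nat_lit 0) (XT.nd (nat_lit 78) (nat_lit 152) (nat_lit 0) (XT.lf (nat_lit 0) (nat_lit 988793133)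 (nat_lit 152) (nat_lit 251233067) (nat_lit 76) (nat_lit 39576728114) (nat_lit 40) (nat_lit 5) (nat_lit 42) (nat_lit 5) (nat_lit 41) (nat_lit 4) (nat_lit 432) (nat_lit 307) (nat_lit 281)) (XT.lf (nat_lit 0) (nat_lit 13846042237) (nat_lit 76) (nat_lit 15200146547) (nat_lit 76) (nat_lit 12966588550) (nat_lit 38) (nat_lit 4) (nat_lit 39) (nat_lit 5) (nat_lit 39) (nat_lit 4) (nat_lit 433) (nat_lit 307) (nat_lit 280))) (XT.nd (nat_lit 78) (nat_lit 152) (nat_lit 0) (XT.lf (nat_lit 0) (nat_lit 15297678231) (nat_lit 152) (nat_lit 14864415656) (nat_lit 0) (nat_lit 13091398225) (nat_lit 36) (nat_lit 5) (nat_lit 38) (nat_lit 4) (nat_lit 36) (nat_lit 4) (nat_lit 434) (nat_lit 307) (nat_lit 279)) (XT.lf (nat_lit 0) (nat_lit 543276339) (nat_lit 152) (nat_lit 1139407224) (nat_lit 76) (nat_lit 42857912176) (nat_lit 34) (nat_lit 5) (nat_lit 36) (nat_lit 5) (nat_lit 35) (nat_lit 4) (nat_lit 435) (nat_lit 307) (nat_lit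 278)))))) (XT.nd (nat_lit 50700) (nat_lit 0) (nat_lit 4788) (XT.nd (nat_lit 234) (nat_lit 456) (nat_lit 0) (XT.nd (nat_lit 78) (nat_lit 228) (nat_lit 0) (XT.lf (nat_lit 0) (nat_lit 13022255701) (nat_lit 76) (nat_lit 17525969783) (nat_lit 76) (nat_lit 15315753149) (nat_lit 32) (nat_lit 4) (nat_lit 33) (nat_lit 5) (nat_lit 33) (nat_lit 4) (nat_lit 436) (nat_lit 307) (nat_lit 277)) (XT.nd (nat_lit 78) (nat_lit 76) (nat_lit 0) (XT.lf (nat_lit 0) (nat_lit 14933904481) (nat_lit 152) (nat_lit 19545370758) (nat_lit 0) (nat_lit 12757303096) (nat_lit 30) (nat_lit 5) (nat_lit 32) (nat_lit 4) (nat_lit 30) (nat_lit 4) (nat_lit 437) (nat_lit 307) (nat_lit 276)) (XT.lf (nat_lit 0) (nat_lit 42830071607) (nat_lit 76) (nat_lit 4017517440) (nat_lit 76) (nat_lit 1811620824) (nat_lit 29) (nat_lit 4) (nat_lit 30) (nat_lit 5) (nat_lit 30) (nat_lit 4) (nat_lit 438) (nat_lit 307) (nat_lit 275)))) (XT.nd (nat_lit 156) (nat_lit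 76) (nat_lit 0) (XT.nd (nat_lit 78) (nat_lit 152) (nat_lit 0) (XT.lf (nat_lit 0) (nat_lit 8264343128) (nat_lit 76) (nat_lit 22014365551) (nat_lit 76) (nat_lit 19845630758) (nat_lit 26) (nat_lit 4) (nat_lit 27) (nat_lit 5) (nat_lit 27) (nat_lit 4) (nat_lit 439) (nat_lit 307) (nat_lit 274)) (XT.lf (nat_lit 0) (nat_lit 12568031713) (nat_lit 152) (nat_lit 28637189314) (nat_lit 0) (nat_lit 10437417635) (nat_lit 24) (nat_lit 5) (nat_lit 26) (nat_lit 4) (nat_lit 24) (nat_lit 4) (nat_lit 440) (nat_lit 307) (nat_lit 273))) (XT.nd (nat_lit 50232) (nat_lit 0) (nat_lit 6004) (XT.lf (nat_lit 0) (nat_lit 38168676411) (nat_lit 76) (nat_lit 8599727730) (nat_lit 76) (nat_lit 6445260017) (nat_lit 23) (nat_lit 4) (nat_lit 24) (nat_lit 5) (nat_lit 24) (nat_lit 4) (nat_lit 441) (nat_lit 307) (nat_lit 272)) (XT.lf (nat_lit 0) (nat_lit 1042430015) (nat_lit 152) (nat_lit 7643355079) (nat_lit 0) (nat_lit 1042430015) (nat_lit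 102) (nat_lit 5) (nat_lit 104) (nat_lit 4) (nat_lit 102) (nat_lit 4) (nat_lit 404) (nat_lit 308) (nat_lit 308))))) (XT.nd (nat_lit 234) (nat_lit 684) (nat_lit 0) (XT.nd (nat_lit 78) (nat_lit 456) (nat_lit 0) (XT.lf (nat_lit 0) (nat_lit 16813302896) (nat_lit 76) (nat_lit 1700513459) (nat_lit 76) (nat_lit 1416755603) (nat_lit 101) (nat_lit 4) (nat_lit 102) (nat_lit 5) (nat_lit 102) (nat_lit 4) (nat_lit 405) (nat_lit 308) (nat_lit 307)) (XT.nd (nat_lit 78) (nat_lit 228) (nat_lit 0) (XT.lf (nat_lit 0) (nat_lit 9405037744) (nat_lit 76) (nat_lit 5776242904) (nat_lit 76) (nat_lit 5238375494) (nat_lit 98) (nat_lit 4) (nat_lit 99) (nat_lit 5) (nat_lit 99) (nat_lit 4) (nat_lit 406) (nat_lit 308) (nat_lit 306)) (XT.lf (nat_lit 0) (nat_lit 1316704855) (nat_lit 76) (nat_lit 10187491902) (nat_lit 76) (nat_lit 9422688271) (nat_lit 95) (nat_lit 4) (nat_lit 96) (nat_lit 5) (nat_lit 96) (nat_lit 4) (nat_lit 407)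 (nat_lit 308) (nat_lit 305)))) (XT.nd (nat_lit 156) (nat_lit 304) (nat_lit 0) (XT.nd (nat_lit 78) (nat_lit 228) (nat_lit 0) (XT.lf (nat_lit 0) (nat_lit 7531723513) (nat_lit 152) (nat_lit 7354329043) (nat_lit 0) (nat_lit 6564875548) (nat_lit 93) (nat_lit 5) (nat_lit 95) (nat_lit 4) (nat_lit 93) (nat_lit 4) (nat_lit 408) (nat_lit 308) (nat_lit 304)) (XT.lf (nat_lit 0) (nat_lit 3187420597) (nat_lit 152) (nat_lit 16765487784) (nat_lit 0) (nat_lit 2041317470) (nat_lit 90) (nat_lit 5) (nat_lit 92) (nat_lit 4) (nat_lit 90) (nat_lit 4) (nat_lit 409) (nat_lit 308) (nat_lit 303))) (XT.nd (nat_lit 78) (nat_lit 228) (nat_lit 0) (XT.lf (nat_lit 0) (nat_lit 18160526582) (nat_lit 76) (nat_lit 2869309779) (nat_lit 76) (nat_lit 1525667813) (nat_lit 89) (nat_lit 4) (nat_lit 90) (nat_lit 5) (nat_lit 90) (nat_lit 4) (nat_lit 410) (nat_lit 308) (nat_lit 302)) (XT.lf (nat_lit 0) (nat_lit 8319915533) (nat_lit 76) (nat_lit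 8151013155) (nat_lit 76) (nat_lit 6663853742) (nat_lit 86) (nat_lit 4) (nat_lit 87) (nat_lit 5) (nat_lit 87) (nat_lit 4) (nat_lit 411) (nat_lit 308) (nat_lit 301))))))) (XT.nd (nat_lit 1014) (nat_lit 2128) (nat_lit 0) (XT.nd (nat_lit 468) (nat_lit 1140) (nat_lit 0) (XT.nd (nat_lit 234) (nat_lit 532) (nat_lit 0) (XT.nd (nat_lit 78) (nat_lit 380) (nat_lit 0) (XT.lf (nat_lit 0) (nat_lit 11494805538) (nat_lit 152) (nat_lit 2358515440) (nat_lit 0) (nat_lit 9882073192) (nat_lit 84) (nat_lit 5) (nat_lit 86) (nat_lit 4) (nat_lit 84) (nat_lit 4) (nat_lit 412) (nat_lit 308) (nat_lit 300)) (XT.nd (nat_lit 78) (nat_lit 152) (nat_lit 0) (XT.lf (nat_lit 0) (nat_lit 6137747252) (nat_lit 152) (nat_lit 13802841828) (nat_lit 0) (nat_lit 4415826568) (nat_lit 81) (nat_lit 5) (nat_lit 83) (nat_lit 4) (nat_lit 81) (nat_lit 4) (nat_lit 413) (nat_lit 308) (nat_lit 299)) (XT.lf (nat_lit 0) (nat_lit 315815962) (nat_lit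 152) (nat_lit 1229539159) (nat_lit 76) (nat_lit 23455177928) (nat_lit 79) (nat_lit 5) (nat_lit 81) (nat_lit 5) (nat_lit 80) (nat_lit 4) (nat_lit 414) (nat_lit 308) (nat_lit 298)))) (XT.nd (nat_lit 78) (nat_lit 380) (nat_lit 0) (XT.lf (nat_lit 0) (nat_lit 11734145078) (nat_lit 76) (nat_lit 7941359807) (nat_lit 76) (nat_lit 5987681839) (nat_lit 77) (nat_lit 4) (nat_lit 78) (nat_lit 5) (nat_lit 78) (nat_lit 4) (nat_lit 415) (nat_lit 308) (nat_lit 297)) (XT.nd (nat_lit 78) (nat_lit 228) (nat_lit 0) (XT.lf (nat_lit 0) (nat_lit 13512344253) (nat_lit 152) (nat_lit 1350247172) (nat_lit 0) (nat_lit 11488415364) (nat_lit 75) (nat_lit 5) (nat_lit 77) (nat_lit 4) (nat_lit 75) (nat_lit 4) (nat_lit 416) (nat_lit 308) (nat_lit 296)) (XT.lf (nat_lit 0) (nat_lit 6908026895) (nat_lit 152) (nat_lit 15328524380) (nat_lit 0) (nat_lit 4825475350) (nat_lit 72) (nat_lit 5) (nat_lit 74) (nat_lit 4) (nat_lit 72) (nat_lit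 4) (nat_lit 417) (nat_lit 308) (nat_lit 295))))) (XT.nd (nat_lit 234) (nat_lit 684) (nat_lit 0) (XT.nd (nat_lit 78) (nat_lit 380) (nat_lit 0) (XT.lf (nat_lit 0) (nat_lit 25120119712) (nat_lit 76) (nat_lit 2436887403) (nat_lit 76) (nat_lit 242362486) (nat_lit 71) (nat_lit 4) (nat_lit 72) (nat_lit 5) (nat_lit 72) (nat_lit 4) (nat_lit 418) (nat_lit 308) (nat_lit 294)) (XT.nd (nat_lit 78) (nat_lit 152) (nat_lit 0) (XT.lf (nat_lit 0) (nat_lit 10341281965) (nat_lit 76) (nat_lit 10225660244) (nat_lit 76) (nat_lit 7991518279) (nat_lit 68) (nat_lit 4) (nat_lit 69) (nat_lit 5) (nat_lit 69) (nat_lit 4) (nat_lit 419) (nat_lit 308) (nat_lit 293)) (XT.lf (nat_lit 0) (nat_lit 12995037681) (nat_lit 152) (nat_lit 5620589901) (nat_lit 0) (nat_lit 10730234803) (nat_lit 66) (nat_lit 5) (nat_lit 68) (nat_lit 4) (nat_lit 66) (nat_lit 4) (nat_lit 420) (nat_lit 308) (nat_lit 292)))) (XT.nd (nat_lit 156) (nat_lit 380)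 (nat_lit 0) (XT.nd (nat_lit 78) (nat_lit 76) (nat_lit 0) (XT.lf (nat_lit 0) (nat_lit 4855851323) (nat_lit 152) (nat_lit 22736997708) (nat_lit 0) (nat_lit 2568494844) (nat_lit 63) (nat_lit 5) (nat_lit 65) (nat_lit 4) (nat_lit 63) (nat_lit 4) (nat_lit 421) (nat_lit 308) (nat_lit 291)) (XT.lf (nat_lit 0) (nat_lit 20811971708) (nat_lit 76) (nat_lit 6281582740) (nat_lit 76) (nat_lit 3909922707) (nat_lit 62) (nat_lit 4) (nat_lit 63) (nat_lit 5) (nat_lit 63) (nat_lit 4) (nat_lit 422) (nat_lit 308) (nat_lit 290))) (XT.nd (nat_lit 78) (nat_lit 152) (nat_lit 0) (XT.lf (nat_lit 0) (nat_lit 2642897027) (nat_lit 76) (nat_lit 15806165316) (nat_lit 76) (nat_lit 13425632177) (nat_lit 59) (nat_lit 4) (nat_lit 60) (nat_lit 5) (nat_lit 60) (nat_lit 4) (nat_lit 423) (nat_lit 308) (nat_lit 289)) (XT.lf (nat_lit 0) (nat_lit 9201620474) (nat_lit 152) (nat_lit 16756086342) (nat_lit 0) (nat_lit 6818346893) (nat_lit 57)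 (nat_lit 5) (nat_lit 59) (nat_lit 4) (nat_lit 57) (nat_lit 4) (nat_lit 424) (nat_lit 308) (nat_lit 288)))))) (XT.nd (nat_lit 546) (nat_lit 988) (nat_lit 0) (XT.nd (nat_lit 234) (nat_lit 684) (nat_lit 0) (XT.nd (nat_lit 78) (nat_lit 380) (nat_lit 0) (XT.lf (nat_lit 0) (nat_lit 29723099883) (nat_lit 76) (nat_lit 3219751277) (nat_lit 76) (nat_lit 767833544) (nat_lit 56) (nat_lit 4) (nat_lit 57) (nat_lit 5) (nat_lit 57) (nat_lit 4) (nat_lit 425) (nat_lit 308) (nat_lit 287)) (XT.nd (nat_lit 78) (nat_lit 152) (nat_lit 0) (XT.lf (nat_lit 0) (nat_lit 9143372182) (nat_lit 76) (nat_lit 13986929608) (nat_lit 76) (nat_lit 11542955709) (nat_lit 53) (nat_lit 4) (nat_lit 54) (nat_lit 5) (nat_lit 54) (nat_lit 4) (nat_lit 426) (nat_lit 308) (nat_lit 286)) (XT.lf (nat_lit 0) (nat_lit 12578614982) (nat_lit 152) (nat_lit 12945389726) (nat_lit 0) (nat_lit 10147136630) (nat_lit 51) (nat_lit 5) (nat_lit 53) (nat_lit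 4) (nat_lit 51) (nat_lit 4) (nat_lit 427) (nat_lit 308) (nat_lit 285)))) (XT.nd (nat_lit 156) (nat_lit 380) (nat_lit 0) (XT.nd (nat_lit 78) (nat_lit 152) (nat_lit 0) (XT.lf (nat_lit 0) (nat_lit 1220508415) (nat_lit 152) (nat_lit 9739754) (nat_lit 76) (nat_lit 35476356884) (nat_lit 49) (nat_lit 5) (nat_lit 51) (nat_lit 5) (nat_lit 50) (nat_lit 4) (nat_lit 428) (nat_lit 308) (nat_lit 284)) (XT.lf (nat_lit 0) (nat_lit 13361157191) (nat_lit 76) (nat_lit 13438297845) (nat_lit 76) (nat_lit 10971692282) (nat_lit 47) (nat_lit 4) (nat_lit 48) (nat_lit 5) (nat_lit 48) (nat_lit 4) (nat_lit 429) (nat_lit 308) (nat_lit 283))) (XT.nd (nat_lit 78) (nat_lit 228) (nat_lit 0) (XT.lf (nat_lit 0) (nat_lit 14784416717) (nat_lit 152) (nat_lit 11749248779) (nat_lit 0) (nat_lit 12341867213) (nat_lit 45) (nat_lit 5) (nat_lit 47) (nat_lit 4) (nat_lit 45) (nat_lit 4) (nat_lit 430) (nat_lit 308) (nat_lit 282)) (XT.lf (nat_lit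 0) (nat_lit 1328174541) (nat_lit 76) (nat_lit 551744327) (nat_lit 152) (nat_lit 38141276810) (nat_lit 42) (nat_lit 5) (nat_lit 43) (nat_lit 5) (nat_lit 44) (nat_lit 4) (nat_lit 431) (nat_lit 308) (nat_lit 281))))) (XT.nd (nat_lit 234) (nat_lit 608) (nat_lit 0) (XT.nd (nat_lit 78) (nat_lit 304) (nat_lit 0) (XT.lf (nat_lit 0) (nat_lit 14820602166) (nat_lit 76) (nat_lit 14418215910) (nat_lit 76) (nat_lit 11960541328) (nat_lit 41) (nat_lit 4) (nat_lit 42) (nat_lit 5) (nat_lit 42) (nat_lit 4) (nat_lit 432) (nat_lit 308) (nat_lit 280)) (XT.nd (nat_lit 78) (nat_lit 152) (nat_lit 0) (XT.lf (nat_lit 0) (nat_lit 15580893005) (nat_lit 152) (nat_lit 13684528449) (nat_lit 0) (nat_lit 13155890769) (nat_lit 39) (nat_lit 5) (nat_lit 41) (nat_lit 4) (nat_lit 39) (nat_lit 4) (nat_lit 433) (nat_lit 308) (nat_lit 279)) (XT.lf (nat_lit 0) (nat_lit 930098168) (nat_lit 152) (nat_lit 573960486) (nat_lit 76) (nat_lit 42184903593)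 (nat_lit 37) (nat_lit 5) (nat_lit 39) (nat_lit 5) (nat_lit 38) (nat_lit 4) (nat_lit 434) (nat_lit 308) (nat_lit 278)))) (XT.nd (nat_lit 156) (nat_lit 304) (nat_lit 0) (XT.nd (nat_lit 78) (nat_lit 152) (nat_lit 0) (XT.lf (nat_lit 0) (nat_lit 12967912522) (nat_lit 76) (nat_lit 17224486658) (nat_lit 76) (nat_lit 14799872427) (nat_lit 35) (nat_lit 4) (nat_lit 36) (nat_lit 5) (nat_lit 36) (nat_lit 4) (nat_lit 435) (nat_lit 308) (nat_lit 277)) (XT.lf (nat_lit 0) (nat_lit 14689123127) (nat_lit 152) (nat_lit 19351495974) (nat_lit 0) (nat_lit 12303445936) (nat_lit 33) (nat_lit 5) (nat_lit 35) (nat_lit 4) (nat_lit 33) (nat_lit 4) (nat_lit 436) (nat_lit 308) (nat_lit 276))) (XT.nd (nat_lit 78) (nat_lit 228) (nat_lit 0) (XT.lf (nat_lit 0) (nat_lit 41472563686) (nat_lit 76) (nat_lit 4344116921) (nat_lit 76) (nat_lit 1928265642) (nat_lit 32) (nat_lit 4) (nat_lit 33) (nat_lit 5) (nat_lit 33) (nat_lit 4) (nat_lit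 437) (nat_lit 308) (nat_lit 275)) (XT.lf (nat_lit 0) (nat_lit 7159442529) (nat_lit 76) (nat_lit 22200978492) (nat_lit 76) (nat_lit 19827591593) (nat_lit 29) (nat_lit 4) (nat_lit 30) (nat_lit 5) (nat_lit 30) (nat_lit 4) (nat_lit 438) (nat_lit 308) (nat_lit 274))))))))
noncomputable def xc7 : XT := (XT.nd (nat_lit 52104) (nat_lit 0) (nat_lit 0) (XT.nd (nat_lit 51012) (nat_lit 0) (nat_lit 2432) (XT.nd (nat_lit 50466) (nat_lit 0) (nat_lit 4712) (XT.nd (nat_lit 50232) (nat_lit 0) (nat_lit 5928) (XT.nd (nat_lit 78) (nat_lit 228) (nat_lit 0) (XT.lf (nat_lit 0) (nat_lit 11783573879) (nat_lit 152) (nat_lit 29446168283) (nat_lit 0) (nat_lit 9453517047) (nat_lit 27) (nat_lit 5) (nat_lit 29) (nat_lit 4) (nat_lit 27) (nat_lit 4) (nat_lit 439) (nat_lit 308) (nat_lit 273)) (XT.nd (nat_lit 78) (nat_lit 152) (nat_lit 0) (XT.lf (nat_lit 0) (nat_lit 35710576813) (nat_lit 76) (nat_lit 9436979158) (nat_lit 76) (nat_lit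 7082353081) (nat_lit 26) (nat_lit 4) (nat_lit 27) (nat_lit 5) (nat_lit 27) (nat_lit 4) (nat_lit 440) (nat_lit 308) (nat_lit 272)) (XT.lf (nat_lit 0) (nat_lit 26425234682) (nat_lit 152) (nat_lit 3286199672) (nat_lit 0) (nat_lit 24116472199) (nat_lit 24) (nat_lit 5) (nat_lit 26) (nat_lit 4) (nat_lit 24) (nat_lit 4) (nat_lit 441) (nat_lit 308) (nat_lit 271)))) (XT.nd (nat_lit 78) (nat_lit 456) (nat_lit 0) (XT.lf (nat_lit 0) (nat_lit 4372500092) (nat_lit 152) (nat_lit 528621155) (nat_lit 0) (nat_lit 4372500092) (nat_lit 108) (nat_lit 5) (nat_lit 110) (nat_lit 4) (nat_lit 108) (nat_lit 4) (nat_lit 402) (nat_lit 309) (nat_lit 309)) (XT.nd (nat_lit 78) (nat_lit 228) (nat_lit 0) (XT.lf (nat_lit 0) (nat_lit 5590748724) (nat_lit 152) (nat_lit 8122824852) (nat_lit 0) (nat_lit 5283864604) (nat_lit 105) (nat_lit 5) (nat_lit 107) (nat_lit 4) (nat_lit 105) (nat_lit 4) (nat_lit 403) (nat_lit 309) (nat_lit 308))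 (XT.lf (nat_lit 0) (nat_lit 2117305144) (nat_lit 152) (nat_lit 15811488554) (nat_lit 0) (nat_lit 1535601540) (nat_lit 102) (nat_lit 5) (nat_lit 104) (nat_lit 4) (nat_lit 102) (nat_lit 4) (nat_lit 404) (nat_lit 309) (nat_lit 307))))) (XT.nd (nat_lit 234) (nat_lit 760) (nat_lit 0) (XT.nd (nat_lit 78) (nat_lit 380) (nat_lit 0) (XT.lf (nat_lit 0) (nat_lit 15768344655) (nat_lit 76) (nat_lit 2515014289) (nat_lit 76) (nat_lit 1663065109) (nat_lit 101) (nat_lit 4) (nat_lit 102) (nat_lit 5) (nat_lit 102) (nat_lit 4) (nat_lit 405) (nat_lit 309) (nat_lit 306)) (XT.nd (nat_lit 78) (nat_lit 152) (nat_lit 0) (XT.lf (nat_lit 0) (nat_lit 7780184916) (nat_lit 76) (nat_lit 6870540683) (nat_lit 76) (nat_lit 5793525227) (nat_lit 98) (nat_lit 4) (nat_lit 99) (nat_lit 5) (nat_lit 99) (nat_lit 4) (nat_lit 406) (nat_lit 309) (nat_lit 305)) (XT.lf (nat_lit 0) (nat_lit 10662977860) (nat_lit 152) (nat_lit 911286996) (nat_lit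 0) (nat_lit 9386282012) (nat_lit 96) (nat_lit 5) (nat_lit 98) (nat_lit 4) (nat_lit 96) (nat_lit 4) (nat_lit 407) (nat_lit 309) (nat_lit 304)))) (XT.nd (nat_lit 156) (nat_lit 304) (nat_lit 0) (XT.nd (nat_lit 78) (nat_lit 228) (nat_lit 0) (XT.lf (nat_lit 0) (nat_lit 6369158359) (nat_lit 152) (nat_lit 10208817005) (nat_lit 0) (nat_lit 4916009572) (nat_lit 93) (nat_lit 5) (nat_lit 95) (nat_lit 4) (nat_lit 93) (nat_lit 4) (nat_lit 408) (nat_lit 309) (nat_lit 303)) (XT.lf (nat_lit 0) (nat_lit 1669128022) (nat_lit 152) (nat_lit 20317823117) (nat_lit 0) (nat_lit 60765117) (nat_lit 90) (nat_lit 5) (nat_lit 92) (nat_lit 4) (nat_lit 90) (nat_lit 4) (nat_lit 409) (nat_lit 309) (nat_lit 302))) (XT.nd (nat_lit 78) (nat_lit 228) (nat_lit 0) (XT.lf (nat_lit 0) (nat_lit 14030207809) (nat_lit 76) (nat_lit 5191981272) (nat_lit 76) (nat_lit 3395486139) (nat_lit 89) (nat_lit 4) (nat_lit 90) (nat_lit 5) (nat_lit 90)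 (nat_lit 4) (nat_lit 410) (nat_lit 309) (nat_lit 301)) (XT.lf (nat_lit 0) (nat_lit 3422916905) (nat_lit 76) (nat_lit 10851793661) (nat_lit 76) (nat_lit 8933668725) (nat_lit 86) (nat_lit 4) (nat_lit 87) (nat_lit 5) (nat_lit 87) (nat_lit 4) (nat_lit 411) (nat_lit 309) (nat_lit 300)))))) (XT.nd (nat_lit 546) (nat_lit 1140) (nat_lit 0) (XT.nd (nat_lit 234) (nat_lit 684) (nat_lit 0) (XT.nd (nat_lit 78) (nat_lit 304) (nat_lit 0) (XT.lf (nat_lit 0) (nat_lit 8939760808) (nat_lit 152) (nat_lit 7963112819) (nat_lit 0) (nat_lit 6916657631) (nat_lit 84) (nat_lit 5) (nat_lit 86) (nat_lit 4) (nat_lit 84) (nat_lit 4) (nat_lit 412) (nat_lit 309) (nat_lit 299)) (XT.nd (nat_lit 78) (nat_lit 76) (nat_lit 0) (XT.lf (nat_lit 0) (nat_lit 3150511882) (nat_lit 152) (nat_lit 20265179383) (nat_lit 0) (nat_lit 1037609159) (nat_lit 81) (nat_lit 5) (nat_lit 83) (nat_lit 4) (nat_lit 81) (nat_lit 4) (nat_lit 413) (nat_lit 309)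 (nat_lit 298)) (XT.lf (nat_lit 0) (nat_lit 16684174424) (nat_lit 76) (nat_lit 5338631172) (nat_lit 76) (nat_lit 3084085705) (nat_lit 80) (nat_lit 4) (nat_lit 81) (nat_lit 5) (nat_lit 81) (nat_lit 4) (nat_lit 414) (nat_lit 309) (nat_lit 297)))) (XT.nd (nat_lit 156) (nat_lit 304) (nat_lit 0) (XT.nd (nat_lit 78) (nat_lit 152) (nat_lit 0) (XT.lf (nat_lit 0) (nat_lit 3704863122) (nat_lit 76) (nat_lit 12199185601) (nat_lit 76) (nat_lit 9879337720) (nat_lit 77) (nat_lit 4) (nat_lit 78) (nat_lit 5) (nat_lit 78) (nat_lit 4) (nat_lit 415) (nat_lit 309) (nat_lit 296)) (XT.lf (nat_lit 0) (nat_lit 9325763504) (nat_lit 152) (nat_lit 10205306420) (nat_lit 0) (nat_lit 6952384806) (nat_lit 75) (nat_lit 5) (nat_lit 77) (nat_lit 4) (nat_lit 75) (nat_lit 4) (nat_lit 416) (nat_lit 309) (nat_lit 295))) (XT.nd (nat_lit 78) (nat_lit 76) (nat_lit 0) (XT.lf (nat_lit 0) (nat_lit 1976462299) (nat_lit 76) (nat_lit 223130592)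 (nat_lit 152) (nat_lit 25010337742) (nat_lit 72) (nat_lit 5) (nat_lit 73) (nat_lit 5) (nat_lit 74) (nat_lit 4) (nat_lit 417) (nat_lit 309) (nat_lit 294)) (XT.lf (nat_lit 0) (nat_lit 14529439140) (nat_lit 76) (nat_lit 7975504597) (nat_lit 76) (nat_lit 5452638754) (nat_lit 71) (nat_lit 4) (nat_lit 72) (nat_lit 5) (nat_lit 72) (nat_lit 4) (nat_lit 418) (nat_lit 309) (nat_lit 293))))) (XT.nd (nat_lit 234) (nat_lit 684) (nat_lit 0) (XT.nd (nat_lit 78) (nat_lit 304) (nat_lit 0) (XT.lf (nat_lit 0) (nat_lit 14957247568) (nat_lit 152) (nat_lit 1366702775) (nat_lit 0) (nat_lit 12409258255) (nat_lit 69) (nat_lit 5) (nat_lit 71) (nat_lit 4) (nat_lit 69) (nat_lit 4) (nat_lit 419) (nat_lit 309) (nat_lit 292)) (XT.nd (nat_lit 78) (nat_lit 76) (nat_lit 0) (XT.lf (nat_lit 0) (nat_lit 6888870765) (nat_lit 152) (nat_lit 18322525385) (nat_lit 0) (nat_lit 4323920439) (nat_lit 66) (nat_lit 5) (nat_lit 68) (nat_lit 4)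 (nat_lit 66) (nat_lit 4) (nat_lit 420) (nat_lit 309) (nat_lit 291)) (XT.lf (nat_lit 0) (nat_lit 24085013389) (nat_lit 76) (nat_lit 4466363739) (nat_lit 76) (nat_lit 1814580751) (nat_lit 65) (nat_lit 4) (nat_lit 66) (nat_lit 5) (nat_lit 66) (nat_lit 4) (nat_lit 421) (nat_lit 309) (nat_lit 290)))) (XT.nd (nat_lit 156) (nat_lit 304) (nat_lit 0) (XT.nd (nat_lit 78) (nat_lit 152) (nat_lit 0) (XT.lf (nat_lit 0) (nat_lit 6075511821) (nat_lit 76) (nat_lit 13901196503) (nat_lit 76) (nat_lit 11246360813) (nat_lit 62) (nat_lit 4) (nat_lit 63) (nat_lit 5) (nat_lit 63) (nat_lit 4) (nat_lit 422) (nat_lit 309) (nat_lit 289)) (XT.lf (nat_lit 0) (nat_lit 10771682710) (nat_lit 152) (nat_lit 13219308835) (nat_lit 0) (nat_lit 8119933681) (nat_lit 60) (nat_lit 5) (nat_lit 62) (nat_lit 4) (nat_lit 60) (nat_lit 4) (nat_lit 423) (nat_lit 309) (nat_lit 288))) (XT.nd (nat_lit 78) (nat_lit 152) (nat_lit 0) (XT.lf (nat_lit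 0) (nat_lit 857230595) (nat_lit 152) (nat_lit 982274394) (nat_lit 76) (nat_lit 31192617617) (nat_lit 58) (nat_lit 5) (nat_lit 60) (nat_lit 5) (nat_lit 59) (nat_lit 4) (nat_lit 424) (nat_lit 309) (nat_lit 287)) (XT.lf (nat_lit 0) (nat_lit 11649842003) (nat_lit 76) (nat_lit 12519164202) (nat_lit 76) (nat_lit 9810631048) (nat_lit 56) (nat_lit 4) (nat_lit 57) (nat_lit 5) (nat_lit 57) (nat_lit 4) (nat_lit 425) (nat_lit 309) (nat_lit 286))))))) (XT.nd (nat_lit 1014) (nat_lit 456) (nat_lit 0) (XT.nd (nat_lit 468) (nat_lit 1064) (nat_lit 0) (XT.nd (nat_lit 234) (nat_lit 456) (nat_lit 0) (XT.nd (nat_lit 78) (nat_lit 304) (nat_lit 0) (XT.lf (nat_lit 0) (nat_lit 13674478889) (nat_lit 152) (nat_lit 10303637149) (nat_lit 0) (nat_lit 10984386246) (nat_lit 54) (nat_lit 5) (nat_lit 56) (nat_lit 4) (nat_lit 54) (nat_lit 4) (nat_lit 426) (nat_lit 309) (nat_lit 285)) (XT.nd (nat_lit 78) (nat_lit 76) (nat_lit 0) (XT.lf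 (nat_lit 0) (nat_lit 2118166336) (nat_lit 76) (nat_lit 278793895) (nat_lit 152) (nat_lit 33585038613) (nat_lit 51) (nat_lit 5) (nat_lit 52) (nat_lit 5) (nat_lit 53) (nat_lit 4) (nat_lit 427) (nat_lit 309) (nat_lit 284)) (XT.lf (nat_lit 0) (nat_lit 14920638817) (nat_lit 76) (nat_lit 12415533302) (nat_lit 76) (nat_lit 9694667495) (nat_lit 50) (nat_lit 4) (nat_lit 51) (nat_lit 5) (nat_lit 51) (nat_lit 4) (nat_lit 428) (nat_lit 309) (nat_lit 283)))) (XT.nd (nat_lit 78) (nat_lit 304) (nat_lit 0) (XT.lf (nat_lit 0) (nat_lit 15394646581) (nat_lit 152) (nat_lit 10020086476) (nat_lit 0) (nat_lit 12703808866) (nat_lit 48) (nat_lit 5) (nat_lit 50) (nat_lit 4) (nat_lit 48) (nat_lit 4) (nat_lit 429) (nat_lit 309) (nat_lit 282)) (XT.nd (nat_lit 78) (nat_lit 76) (nat_lit 0) (XT.lf (nat_lit 0) (nat_lit 2507267715) (nat_lit 76) (nat_lit 76467273) (nat_lit 152) (nat_lit 36662915601) (nat_lit 45) (nat_lit 5) (nat_lit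 46) (nat_lit 5) (nat_lit 47) (nat_lit 4) (nat_lit 430) (nat_lit 309) (nat_lit 281)) (XT.lf (nat_lit 0) (nat_lit 15411953422) (nat_lit 76) (nat_lit 13848288454) (nat_lit 76) (nat_lit 11146969338) (nat_lit 44) (nat_lit 4) (nat_lit 45) (nat_lit 5) (nat_lit 45) (nat_lit 4) (nat_lit 431) (nat_lit 309) (nat_lit 280))))) (XT.nd (nat_lit 234) (nat_lit 608) (nat_lit 0) (XT.nd (nat_lit 78) (nat_lit 304) (nat_lit 0) (XT.lf (nat_lit 0) (nat_lit 15693995696) (nat_lit 152) (nat_lit 12885379283) (nat_lit 0) (nat_lit 13031278056) (nat_lit 42) (nat_lit 5) (nat_lit 44) (nat_lit 4) (nat_lit 42) (nat_lit 4) (nat_lit 432) (nat_lit 309) (nat_lit 279)) (XT.nd (nat_lit 78) (nat_lit 152) (nat_lit 0) (XT.lf (nat_lit 0) (nat_lit 1149511961) (nat_lit 152) (nat_lit 367377617) (nat_lit 76) (nat_lit 41342168892) (nat_lit 40) (nat_lit 5) (nat_lit 42) (nat_lit 5) (nat_lit 41) (nat_lit 4) (nat_lit 433) (nat_lit 309) (nat_lit 278))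 (XT.lf (nat_lit 0) (nat_lit 12570087856) (nat_lit 76) (nat_lit 17115023966) (nat_lit 76) (nat_lit 14457510787) (nat_lit 38) (nat_lit 4) (nat_lit 39) (nat_lit 5) (nat_lit 39) (nat_lit 4) (nat_lit 434) (nat_lit 309) (nat_lit 277)))) (XT.nd (nat_lit 156) (nat_lit 380) (nat_lit 0) (XT.nd (nat_lit 78) (nat_lit 76) (nat_lit 0) (XT.lf (nat_lit 0) (nat_lit 14293723455) (nat_lit 152) (nat_lit 19499192996) (nat_lit 0) (nat_lit 11680980297) (nat_lit 36) (nat_lit 5) (nat_lit 38) (nat_lit 4) (nat_lit 36) (nat_lit 4) (nat_lit 435) (nat_lit 309) (nat_lit 276)) (XT.lf (nat_lit 0) (nat_lit 39816917246) (nat_lit 76) (nat_lit 4840070674) (nat_lit 76) (nat_lit 2196248204) (nat_lit 35) (nat_lit 4) (nat_lit 36) (nat_lit 5) (nat_lit 36) (nat_lit 4) (nat_lit 436) (nat_lit 309) (nat_lit 275))) (XT.nd (nat_lit 78) (nat_lit 152) (nat_lit 0) (XT.lf (nat_lit 0) (nat_lit 5751963876) (nat_lit 76) (nat_lit 22559117257) (nat_lit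 76) (nat_lit 19963562099) (nat_lit 32) (nat_lit 4) (nat_lit 33) (nat_lit 5) (nat_lit 33) (nat_lit 4) (nat_lit 437) (nat_lit 309) (nat_lit 274)) (XT.lf (nat_lit 0) (nat_lit 10868633190) (nat_lit 152) (nat_lit 30556425058) (nat_lit 0) (nat_lit 8322105088) (nat_lit 30) (nat_lit 5) (nat_lit 32) (nat_lit 4) (nat_lit 30) (nat_lit 4) (nat_lit 438) (nat_lit 309) (nat_lit 273)))))) (XT.nd (nat_lit 50388) (nat_lit 0) (nat_lit 4940) (XT.nd (nat_lit 50076) (nat_lit 0) (nat_lit 6156) (XT.nd (nat_lit 78) (nat_lit 380) (nat_lit 0) (XT.lf (nat_lit 0) (nat_lit 32996346709) (nat_lit 76) (nat_lit 10422593015) (nat_lit 76) (nat_lit 7850758591) (nat_lit 29) (nat_lit 4) (nat_lit 30) (nat_lit 5) (nat_lit 30) (nat_lit 4) (nat_lit 439) (nat_lit 309) (nat_lit 272)) (XT.nd (nat_lit 78) (nat_lit 228) (nat_lit 0) (XT.lf (nat_lit 0) (nat_lit 24844232542) (nat_lit 152) (nat_lit 5675138595) (nat_lit 0) (nat_lit 22323906635) (nat_lit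 27) (nat_lit 5) (nat_lit 29) (nat_lit 4) (nat_lit 27) (nat_lit 4) (nat_lit 440) (nat_lit 309) (nat_lit 271)) (XT.lf (nat_lit 0) (nat_lit 5040514704) (nat_lit 152) (nat_lit 46861117727) (nat_lit 0) (nat_lit 2571960397) (nat_lit 24) (nat_lit 5) (nat_lit 26) (nat_lit 4) (nat_lit 24) (nat_lit 4) (nat_lit 441) (nat_lit 309) (nat_lit 270)))) (XT.nd (nat_lit 156) (nat_lit 380) (nat_lit 0) (XT.nd (nat_lit 78) (nat_lit 228) (nat_lit 0) (XT.lf (nat_lit 0) (nat_lit 6031382933) (nat_lit 76) (nat_lit 1405275092) (nat_lit 76) (nat_lit 1405275092) (nat_lit 113) (nat_lit 4) (nat_lit 114) (nat_lit 5) (nat_lit 114) (nat_lit 4) (nat_lit 400) (nat_lit 310) (nat_lit 310)) (XT.lf (nat_lit 0) (nat_lit 5535808641) (nat_lit 76) (nat_lit 6458771734) (nat_lit 76) (nat_lit 6116919702) (nat_lit 110) (nat_lit 4) (nat_lit 111) (nat_lit 5) (nat_lit 111) (nat_lit 4) (nat_lit 401) (nat_lit 310) (nat_lit 309))) (XT.nd (nat_lit 78)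 (nat_lit 228) (nat_lit 0) (XT.lf (nat_lit 0) (nat_lit 8828359107) (nat_lit 152) (nat_lit 1545966372) (nat_lit 0) (nat_lit 8180373286) (nat_lit 108) (nat_lit 5) (nat_lit 110) (nat_lit 4) (nat_lit 108) (nat_lit 4) (nat_lit 402) (nat_lit 310) (nat_lit 308)) (XT.lf (nat_lit 0) (nat_lit 5399105439) (nat_lit 152) (nat_lit 9136026489) (nat_lit 0) (nat_lit 4477722401) (nat_lit 105) (nat_lit 5) (nat_lit 107) (nat_lit 4) (nat_lit 105) (nat_lit 4) (nat_lit 403) (nat_lit 310) (nat_lit 307))))) (XT.nd (nat_lit 234) (nat_lit 684) (nat_lit 0) (XT.nd (nat_lit 78) (nat_lit 304) (nat_lit 0) (XT.lf (nat_lit 0) (nat_lit 1633014133) (nat_lit 152) (nat_lit 17387073210) (nat_lit 0) (nat_lit 468221917) (nat_lit 102) (nat_lit 5) (nat_lit 104) (nat_lit 4) (nat_lit 102) (nat_lit 4) (nat_lit 404) (nat_lit 310) (nat_lit 306)) (XT.nd (nat_lit 78) (nat_lit 228) (nat_lit 0) (XT.lf (nat_lit 0) (nat_lit 13675940177) (nat_lit 76)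 (nat_lit 3862197382) (nat_lit 76) (nat_lit 2440028426) (nat_lit 101) (nat_lit 4) (nat_lit 102) (nat_lit 5) (nat_lit 102) (nat_lit 4) (nat_lit 405) (nat_lit 310) (nat_lit 305)) (XT.lf (nat_lit 0) (nat_lit 5067798658) (nat_lit 76) (nat_lit 8518118095) (nat_lit 76) (nat_lit 6899390270) (nat_lit 98) (nat_lit 4) (nat_lit 99) (nat_lit 5) (nat_lit 99) (nat_lit 4) (nat_lit 406) (nat_lit 310) (nat_lit 304)))) (XT.nd (nat_lit 156) (nat_lit 304) (nat_lit 0) (XT.nd (nat_lit 78) (nat_lit 228) (nat_lit 0) (XT.lf (nat_lit 0) (nat_lit 9290454859) (nat_lit 152) (nat_lit 4221287193) (nat_lit 0) (nat_lit 7498827043) (nat_lit 96) (nat_lit 5) (nat_lit 98) (nat_lit 4) (nat_lit 96) (nat_lit 4) (nat_lit 407) (nat_lit 310) (nat_lit 303)) (XT.lf (nat_lit 0) (nat_lit 4641353427) (nat_lit 152) (nat_lit 14214610587) (nat_lit 0) (nat_lit 2698443940) (nat_lit 93) (nat_lit 5) (nat_lit 95) (nat_lit 4) (nat_lit 93) (nat_lit 4)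 (nat_lit 408) (nat_lit 310) (nat_lit 302))) (XT.nd (nat_lit 78) (nat_lit 228) (nat_lit 0) (XT.lf (nat_lit 0) (nat_lit 19198247675) (nat_lit 76) (nat_lit 2527981895) (nat_lit 76) (nat_lit 391296213) (nat_lit 92) (nat_lit 4) (nat_lit 93) (nat_lit 5) (nat_lit 93) (nat_lit 4) (nat_lit 409) (nat_lit 310) (nat_lit 301)) (XT.lf (nat_lit 0) (nat_lit 8702959522) (nat_lit 76) (nat_lit 8124264514) (nat_lit 76) (nat_lit 5870638845) (nat_lit 89) (nat_lit 4) (nat_lit 90) (nat_lit 5) (nat_lit 90) (nat_lit 4) (nat_lit 410) (nat_lit 310) (nat_lit 300))))))))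
noncomputable def xc8 : XT := (XT.nd (nat_lit 2028) (nat_lit 684) (nat_lit 0) (XT.nd (nat_lit 1014) (nat_lit 1900) (nat_lit 0) (XT.nd (nat_lit 468) (nat_lit 1140) (nat_lit 0) (XT.nd (nat_lit 234) (nat_lit 608) (nat_lit 0) (XT.nd (nat_lit 78) (nat_lit 304) (nat_lit 0) (XT.lf (nat_lit 0) (nat_lit 11493249871) (nat_lit 152) (nat_lit 2667076630) (nat_lit 0) (nat_lit 9139592447) (nat_lit 87) (nat_lit 5) (nat_lit 89) (nat_lit 4) (nat_lit 87) (nat_lit 4) (nat_lit 411) (nat_lit 310) (nat_lit 299)) (XT.nd (nat_lit 78) (nat_lit 76) (nat_lit 0) (XT.lf (nat_lit 0) (nat_lit 5760382304) (nat_lit 152) (nat_lit 14840298962) (nat_lit 0) (nat_lit 3322091382) (nat_lit 84) (nat_lit 5) (nat_lit 86) (nat_lit 4) (nat_lit 84) (nat_lit 4) (nat_lit 412) (nat_lit 310) (nat_lit 298)) (XT.lf (nat_lit 0) (nat_lit 21118532022) (nat_lit 76) (nat_lit 3016849877) (nat_lit 76) (nat_lit 432666930) (nat_lit 83) (nat_lit 4) (nat_lit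 84) (nat_lit 5) (nat_lit 84) (nat_lit 4) (nat_lit 413) (nat_lit 310) (nat_lit 297)))) (XT.nd (nat_lit 78) (nat_lit 380) (nat_lit 0) (XT.lf (nat_lit 0) (nat_lit 8265314374) (nat_lit 76) (nat_lit 9805786255) (nat_lit 76) (nat_lit 7161972921) (nat_lit 80) (nat_lit 4) (nat_lit 81) (nat_lit 5) (nat_lit 81) (nat_lit 4) (nat_lit 414) (nat_lit 310) (nat_lit 296)) (XT.nd (nat_lit 78) (nat_lit 228) (nat_lit 0) (XT.lf (nat_lit 0) (nat_lit 11507461841) (nat_lit 152) (nat_lit 5599310444) (nat_lit 0) (nat_lit 8815920600) (nat_lit 78) (nat_lit 5) (nat_lit 80) (nat_lit 4) (nat_lit 78) (nat_lit 4) (nat_lit 415) (nat_lit 310) (nat_lit 295)) (XT.lf (nat_lit 0) (nat_lit 4443226029) (nat_lit 152) (nat_lit 20479151248) (nat_lit 0) (nat_lit 1714746621) (nat_lit 75) (nat_lit 5) (nat_lit 77) (nat_lit 4) (nat_lit 75) (nat_lit 4) (nat_lit 416) (nat_lit 310) (nat_lit 294))))) (XT.nd (nat_lit 234) (nat_lit 684) (nat_lit 0)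 (XT.nd (nat_lit 78) (nat_lit 380) (nat_lit 0) (XT.lf (nat_lit 0) (nat_lit 18229634468) (nat_lit 76) (nat_lit 5991716980) (nat_lit 76) (nat_lit 3153397025) (nat_lit 74) (nat_lit 4) (nat_lit 75) (nat_lit 5) (nat_lit 75) (nat_lit 4) (nat_lit 417) (nat_lit 310) (nat_lit 293)) (XT.nd (nat_lit 78) (nat_lit 152) (nat_lit 0) (XT.lf (nat_lit 0) (nat_lit 2451003065) (nat_lit 76) (nat_lit 14272115653) (nat_lit 76) (nat_lit 11414902062) (nat_lit 71) (nat_lit 4) (nat_lit 72) (nat_lit 5) (nat_lit 72) (nat_lit 4) (nat_lit 418) (nat_lit 310) (nat_lit 292)) (XT.lf (nat_lit 0) (nat_lit 8698934634) (nat_lit 152) (nat_lit 14397772153) (nat_lit 0) (nat_lit 5831031333) (nat_lit 69) (nat_lit 5) (nat_lit 71) (nat_lit 4) (nat_lit 69) (nat_lit 4) (nat_lit 419) (nat_lit 310) (nat_lit 291)))) (XT.nd (nat_lit 156) (nat_lit 380) (nat_lit 0) (XT.nd (nat_lit 78) (nat_lit 152) (nat_lit 0) (XT.lf (nat_lit 0) (nat_lit 56272347)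 (nat_lit 152) (nat_lit 2843108076) (nat_lit 76) (nat_lit 26847496771) (nat_lit 67) (nat_lit 5) (nat_lit 69) (nat_lit 5) (nat_lit 68) (nat_lit 4) (nat_lit 420) (nat_lit 310) (nat_lit 290)) (XT.lf (nat_lit 0) (nat_lit 9049020106) (nat_lit 76) (nat_lit 12247533847) (nat_lit 76) (nat_lit 9293631275) (nat_lit 65) (nat_lit 4) (nat_lit 66) (nat_lit 5) (nat_lit 66) (nat_lit 4) (nat_lit 421) (nat_lit 310) (nat_lit 289))) (XT.nd (nat_lit 78) (nat_lit 228) (nat_lit 0) (XT.lf (nat_lit 0) (nat_lit 12135457293) (nat_lit 152) (nat_lit 10138115391) (nat_lit 0) (nat_lit 9191124909) (nat_lit 63) (nat_lit 5) (nat_lit 65) (nat_lit 4) (nat_lit 63) (nat_lit 4) (nat_lit 422) (nat_lit 310) (nat_lit 288)) (XT.lf (nat_lit 0) (nat_lit 1611436485) (nat_lit 76) (nat_lit 668658809) (nat_lit 152) (nat_lit 30091782337) (nat_lit 60) (nat_lit 5) (nat_lit 61) (nat_lit 5) (nat_lit 62) (nat_lit 4) (nat_lit 423) (nat_lit 310) (nat_lit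 287)))))) (XT.nd (nat_lit 468) (nat_lit 988) (nat_lit 0) (XT.nd (nat_lit 234) (nat_lit 456) (nat_lit 0) (XT.nd (nat_lit 78) (nat_lit 380) (nat_lit 0) (XT.lf (nat_lit 0) (nat_lit 13732493126) (nat_lit 76) (nat_lit 11284693016) (nat_lit 76) (nat_lit 8288077767) (nat_lit 59) (nat_lit 4) (nat_lit 60) (nat_lit 5) (nat_lit 60) (nat_lit 4) (nat_lit 424) (nat_lit 310) (nat_lit 286)) (XT.nd (nat_lit 78) (nat_lit 228) (nat_lit 0) (XT.lf (nat_lit 0) (nat_lit 14581141696) (nat_lit 152) (nat_lit 8082611320) (nat_lit 0) (nat_lit 11609544233) (nat_lit 57) (nat_lit 5) (nat_lit 59) (nat_lit 4) (nat_lit 57) (nat_lit 4) (nat_lit 425) (nat_lit 310) (nat_lit 285)) (XT.lf (nat_lit 0) (nat_lit 3387944621) (nat_lit 152) (nat_lit 31443674043) (nat_lit 0) (nat_lit 445328251) (nat_lit 54) (nat_lit 5) (nat_lit 56) (nat_lit 4) (nat_lit 54) (nat_lit 4) (nat_lit 426) (nat_lit 310) (nat_lit 284)))) (XT.nd (nat_lit 78) (nat_lit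 380) (nat_lit 0) (XT.lf (nat_lit 0) (nat_lit 16092437814) (nat_lit 76) (nat_lit 11607688548) (nat_lit 76) (nat_lit 8610243330) (nat_lit 53) (nat_lit 4) (nat_lit 54) (nat_lit 5) (nat_lit 54) (nat_lit 4) (nat_lit 427) (nat_lit 310) (nat_lit 283)) (XT.nd (nat_lit 78) (nat_lit 228) (nat_lit 0) (XT.lf (nat_lit 0) (nat_lit 15833232480) (nat_lit 152) (nat_lit 8675979127) (nat_lit 0) (nat_lit 12872394452) (nat_lit 51) (nat_lit 5) (nat_lit 53) (nat_lit 4) (nat_lit 51) (nat_lit 4) (nat_lit 428) (nat_lit 310) (nat_lit 282)) (XT.lf (nat_lit 0) (nat_lit 3117046484) (nat_lit 152) (nat_lit 35179766452) (nat_lit 0) (nat_lit 195569860) (nat_lit 48) (nat_lit 5) (nat_lit 50) (nat_lit 4) (nat_lit 48) (nat_lit 4) (nat_lit 429) (nat_lit 310) (nat_lit 281))))) (XT.nd (nat_lit 234) (nat_lit 608) (nat_lit 0) (XT.nd (nat_lit 78) (nat_lit 304) (nat_lit 0) (XT.lf (nat_lit 0) (nat_lit 15652707199) (nat_lit 76) (nat_lit 13474499002)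 (nat_lit 76) (nat_lit 10508378000) (nat_lit 47) (nat_lit 4) (nat_lit 48) (nat_lit 5) (nat_lit 48) (nat_lit 4) (nat_lit 430) (nat_lit 310) (nat_lit 280)) (XT.nd (nat_lit 78) (nat_lit 152) (nat_lit 0) (XT.lf (nat_lit 0) (nat_lit 15653535839) (nat_lit 152) (nat_lit 12434702198) (nat_lit 0) (nat_lit 12732526659) (nat_lit 45) (nat_lit 5) (nat_lit 47) (nat_lit 4) (nat_lit 45) (nat_lit 4) (nat_lit 431) (nat_lit 310) (nat_lit 279)) (XT.lf (nat_lit 0) (nat_lit 1217731794) (nat_lit 152) (nat_lit 488327974) (nat_lit 76) (nat_lit 40344077593) (nat_lit 43) (nat_lit 5) (nat_lit 45) (nat_lit 5) (nat_lit 44) (nat_lit 4) (nat_lit 432) (nat_lit 310) (nat_lit 278)))) (XT.nd (nat_lit 156) (nat_lit 304) (nat_lit 0) (XT.nd (nat_lit 78) (nat_lit 152) (nat_lit 0) (XT.lf (nat_lit 0) (nat_lit 11859805600) (nat_lit 76) (nat_lit 17182462543) (nat_lit 76) (nat_lit 14272010365) (nat_lit 41) (nat_lit 4) (nat_lit 42) (nat_lit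 5) (nat_lit 42) (nat_lit 4) (nat_lit 433) (nat_lit 310) (nat_lit 277)) (XT.lf (nat_lit 0) (nat_lit 13763422517) (nat_lit 152) (nat_lit 19957767312) (nat_lit 0) (nat_lit 10904128516) (nat_lit 39) (nat_lit 5) (nat_lit 41) (nat_lit 4) (nat_lit 39) (nat_lit 4) (nat_lit 434) (nat_lit 310) (nat_lit 276))) (XT.nd (nat_lit 78) (nat_lit 228) (nat_lit 0) (XT.lf (nat_lit 0) (nat_lit 37892296670) (nat_lit 76) (nat_lit 5491169893) (nat_lit 76) (nat_lit 2599864202) (nat_lit 38) (nat_lit 4) (nat_lit 39) (nat_lit 5) (nat_lit 39) (nat_lit 4) (nat_lit 435) (nat_lit 310) (nat_lit 275)) (XT.lf (nat_lit 0) (nat_lit 4071332615) (nat_lit 76) (nat_lit 23074415531) (nat_lit 76) (nat_lit 20237723284) (nat_lit 35) (nat_lit 4) (nat_lit 36) (nat_lit 5) (nat_lit 36) (nat_lit 4) (nat_lit 436) (nat_lit 310) (nat_lit 274))))))) (XT.nd (nat_lit 50700) (nat_lit 0) (nat_lit 3268) (XT.nd (nat_lit 50154) (nat_lit 0) (nat_lit 5700)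 (XT.nd (nat_lit 234) (nat_lit 304) (nat_lit 0) (XT.nd (nat_lit 78) (nat_lit 228) (nat_lit 0) (XT.lf (nat_lit 0) (nat_lit 9838089892) (nat_lit 152) (nat_lit 31938847567) (nat_lit 0) (nat_lit 7056650961) (nat_lit 33) (nat_lit 5) (nat_lit 35) (nat_lit 4) (nat_lit 33) (nat_lit 4) (nat_lit 437) (nat_lit 310) (nat_lit 273)) (XT.nd (nat_lit 78) (nat_lit 152) (nat_lit 0) (XT.lf (nat_lit 0) (nat_lit 30053552092) (nat_lit 76) (nat_lit 11543113417) (nat_lit 76) (nat_lit 8735608975) (nat_lit 32) (nat_lit 4) (nat_lit 33) (nat_lit 5) (nat_lit 33) (nat_lit 4) (nat_lit 438) (nat_lit 310) (nat_lit 272)) (XT.lf (nat_lit 0) (nat_lit 23169758726) (nat_lit 152) (nat_lit 8292106960) (nat_lit 0) (nat_lit 20419924999) (nat_lit 30) (nat_lit 5) (nat_lit 32) (nat_lit 4) (nat_lit 30) (nat_lit 4) (nat_lit 439) (nat_lit 310) (nat_lit 271)))) (XT.nd (nat_lit 78) (nat_lit 76) (nat_lit 0) (XT.lf (nat_lit 0) (nat_lit 3499991611)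 (nat_lit 152) (nat_lit 49180130757) (nat_lit 0) (nat_lit 807965099) (nat_lit 27) (nat_lit 5) (nat_lit 29) (nat_lit 4) (nat_lit 27) (nat_lit 4) (nat_lit 440) (nat_lit 310) (nat_lit 270)) (XT.nd (nat_lit 49764) (nat_lit 0) (nat_lit 6916) (XT.lf (nat_lit 0) (nat_lit 17274646849) (nat_lit 76) (nat_lit 20289851764) (nat_lit 76) (nat_lit 17576601414) (nat_lit 26) (nat_lit 4) (nat_lit 27) (nat_lit 5) (nat_lit 27) (nat_lit 4) (nat_lit 441) (nat_lit 310) (nat_lit 269)) (XT.lf (nat_lit 0) (nat_lit 1788649848) (nat_lit 152) (nat_lit 4854293533) (nat_lit 0) (nat_lit 1788649848) (nat_lit 117) (nat_lit 5) (nat_lit 119) (nat_lit 4) (nat_lit 117) (nat_lit 4) (nat_lit 398) (nat_lit 311) (nat_lit 311))))) (XT.nd (nat_lit 234) (nat_lit 684) (nat_lit 0) (XT.nd (nat_lit 78) (nat_lit 304) (nat_lit 0) (XT.lf (nat_lit 0) (nat_lit 575249149) (nat_lit 152) (nat_lit 16490341069) (nat_lit 0) (nat_lit 205536177) (nat_lit 114)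 (nat_lit 5) (nat_lit 116) (nat_lit 4) (nat_lit 114) (nat_lit 4) (nat_lit 399) (nat_lit 311) (nat_lit 310)) (XT.nd (nat_lit 78) (nat_lit 228) (nat_lit 0) (XT.lf (nat_lit 0) (nat_lit 11598718660) (nat_lit 76) (nat_lit 3407043079) (nat_lit 76) (nat_lit 2685222514) (nat_lit 113) (nat_lit 4) (nat_lit 114) (nat_lit 5) (nat_lit 114) (nat_lit 4) (nat_lit 400) (nat_lit 311) (nat_lit 309)) (XT.lf (nat_lit 0) (nat_lit 4573594914) (nat_lit 76) (nat_lit 7289494135) (nat_lit 76) (nat_lit 6263124106) (nat_lit 110) (nat_lit 4) (nat_lit 111) (nat_lit 5) (nat_lit 111) (nat_lit 4) (nat_lit 401) (nat_lit 311) (nat_lit 308)))) (XT.nd (nat_lit 156) (nat_lit 304) (nat_lit 0) (XT.nd (nat_lit 78) (nat_lit 228) (nat_lit 0) (XT.lf (nat_lit 0) (nat_lit 8430648529) (nat_lit 152) (nat_lit 3013302187) (nat_lit 0) (nat_lit 7133134064) (nat_lit 108) (nat_lit 5) (nat_lit 110) (nat_lit 4) (nat_lit 108) (nat_lit 4) (nat_lit 402)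 (nat_lit 311) (nat_lit 307)) (XT.lf (nat_lit 0) (nat_lit 4708478455) (nat_lit 152) (nat_lit 11164842146) (nat_lit 0) (nat_lit 3170402729) (nat_lit 105) (nat_lit 5) (nat_lit 107) (nat_lit 4) (nat_lit 105) (nat_lit 4) (nat_lit 403) (nat_lit 311) (nat_lit 306))) (XT.nd (nat_lit 78) (nat_lit 152) (nat_lit 0) (XT.lf (nat_lit 0) (nat_lit 646621687) (nat_lit 152) (nat_lit 490531742) (nat_lit 76) (nat_lit 18390602160) (nat_lit 103) (nat_lit 5) (nat_lit 105) (nat_lit 5) (nat_lit 104) (nat_lit 4) (nat_lit 404) (nat_lit 311) (nat_lit 305)) (XT.lf (nat_lit 0) (nat_lit 10531107548) (nat_lit 76) (nat_lit 5745270316) (nat_lit 76) (nat_lit 3749495468) (nat_lit 101) (nat_lit 4) (nat_lit 102) (nat_lit 5) (nat_lit 102) (nat_lit 4) (nat_lit 405) (nat_lit 311) (nat_lit 304)))))) (XT.nd (nat_lit 546) (nat_lit 1140) (nat_lit 0) (XT.nd (nat_lit 234) (nat_lit 684) (nat_lit 0) (XT.nd (nat_lit 78) (nat_lit 380) (nat_lit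 0) (XT.lf (nat_lit 0) (nat_lit 1261420908) (nat_lit 76) (nat_lit 10722897945) (nat_lit 76) (nat_lit 8558603637) (nat_lit 98) (nat_lit 4) (nat_lit 99) (nat_lit 5) (nat_lit 99) (nat_lit 4) (nat_lit 406) (nat_lit 311) (nat_lit 303)) (XT.nd (nat_lit 78) (nat_lit 228) (nat_lit 0) (XT.lf (nat_lit 0) (nat_lit 7370702871) (nat_lit 152) (nat_lit 8646870341) (nat_lit 0) (nat_lit 5059877306) (nat_lit 96) (nat_lit 5) (nat_lit 98) (nat_lit 4) (nat_lit 96) (nat_lit 4) (nat_lit 407) (nat_lit 311) (nat_lit 302)) (XT.lf (nat_lit 0) (nat_lit 2250153490) (nat_lit 76) (nat_lit 94954163) (nat_lit 152) (nat_lit 19287205990) (nat_lit 93) (nat_lit 5) (nat_lit 94) (nat_lit 5) (nat_lit 95) (nat_lit 4) (nat_lit 408) (nat_lit 311) (nat_lit 301)))) (XT.nd (nat_lit 156) (nat_lit 380) (nat_lit 0) (XT.nd (nat_lit 78) (nat_lit 228) (nat_lit 0) (XT.lf (nat_lit 0) (nat_lit 13473653215) (nat_lit 76) (nat_lit 5676016302) (nat_lit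 76) (nat_lit 3054171383) (nat_lit 92) (nat_lit 4) (nat_lit 93) (nat_lit 5) (nat_lit 93) (nat_lit 4) (nat_lit 409) (nat_lit 311) (nat_lit 300)) (XT.lf (nat_lit 0) (nat_lit 2166097796) (nat_lit 76) (nat_lit 11673141132) (nat_lit 76) (nat_lit 8957019151) (nat_lit 89) (nat_lit 4) (nat_lit 90) (nat_lit 5) (nat_lit 90) (nat_lit 4) (nat_lit 410) (nat_lit 311) (nat_lit 299))) (XT.nd (nat_lit 78) (nat_lit 228) (nat_lit 0) (XT.lf (nat_lit 0) (nat_lit 8138735809) (nat_lit 152) (nat_lit 9926377235) (nat_lit 0) (nat_lit 5343941952) (nat_lit 87) (nat_lit 5) (nat_lit 89) (nat_lit 4) (nat_lit 87) (nat_lit 4) (nat_lit 411) (nat_lit 311) (nat_lit 298)) (XT.lf (nat_lit 0) (nat_lit 1029724956) (nat_lit 76) (nat_lit 928298492) (nat_lit 152) (nat_lit 22087073000) (nat_lit 84) (nat_lit 5) (nat_lit 85) (nat_lit 5) (nat_lit 86) (nat_lit 4) (nat_lit 412) (nat_lit 311) (nat_lit 297))))) (XT.nd (nat_lit 234) (nat_lit 684)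 (nat_lit 0) (XT.nd (nat_lit 78) (nat_lit 380) (nat_lit 0) (XT.lf (nat_lit 0) (nat_lit 12342049509) (nat_lit 76) (nat_lit 7677971052) (nat_lit 76) (nat_lit 4679742145) (nat_lit 83) (nat_lit 4) (nat_lit 84) (nat_lit 5) (nat_lit 84) (nat_lit 4) (nat_lit 413) (nat_lit 311) (nat_lit 296)) (XT.nd (nat_lit 78) (nat_lit 228) (nat_lit 0) (XT.lf (nat_lit 0) (nat_lit 13472645929) (nat_lit 152) (nat_lit 1473123984) (nat_lit 0) (nat_lit 10433269934) (nat_lit 81) (nat_lit 5) (nat_lit 83) (nat_lit 4) (nat_lit 81) (nat_lit 4) (nat_lit 414) (nat_lit 311) (nat_lit 295)) (XT.lf (nat_lit 0) (nat_lit 6469405419) (nat_lit 152) (nat_lit 16212446048) (nat_lit 0) (nat_lit 3399762388) (nat_lit 78) (nat_lit 5) (nat_lit 80) (nat_lit 4) (nat_lit 78) (nat_lit 4) (nat_lit 415) (nat_lit 311) (nat_lit 294)))) (XT.nd (nat_lit 156) (nat_lit 380) (nat_lit 0) (XT.nd (nat_lit 78) (nat_lit 228) (nat_lit 0) (XT.lf (nat_lit 0) (nat_lit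 21478179271) (nat_lit 76) (nat_lit 4256929419) (nat_lit 76) (nat_lit 1074150626) (nat_lit 77) (nat_lit 4) (nat_lit 78) (nat_lit 5) (nat_lit 78) (nat_lit 4) (nat_lit 416) (nat_lit 311) (nat_lit 293)) (XT.lf (nat_lit 0) (nat_lit 5838905826) (nat_lit 76) (nat_lit 12457908993) (nat_lit 76) (nat_lit 9263222450) (nat_lit 74) (nat_lit 4) (nat_lit 75) (nat_lit 5) (nat_lit 75) (nat_lit 4) (nat_lit 417) (nat_lit 311) (nat_lit 292))) (XT.nd (nat_lit 78) (nat_lit 228) (nat_lit 0) (XT.lf (nat_lit 0) (nat_lit 10304888242) (nat_lit 152) (nat_lit 10926488154) (nat_lit 0) (nat_lit 7106524013) (nat_lit 72) (nat_lit 5) (nat_lit 74) (nat_lit 4) (nat_lit 72) (nat_lit 4) (nat_lit 418) (nat_lit 311) (nat_lit 291)) (XT.lf (nat_lit 0) (nat_lit 145428020) (nat_lit 76) (nat_lit 1547139969) (nat_lit 152) (nat_lit 27452480270) (nat_lit 69) (nat_lit 5) (nat_lit 70) (nat_lit 5) (nat_lit 71) (nat_lit 4) (nat_lit 419) (nat_lit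 311) (nat_lit 290))))))))
noncomputable def xc9 : XT := (XT.nd (nat_lit 51636) (nat_lit 0) (nat_lit 2052) (XT.nd (nat_lit 1014) (nat_lit 1292) (nat_lit 0) (XT.nd (nat_lit 468) (nat_lit 988) (nat_lit 0) (XT.nd (nat_lit 234) (nat_lit 456) (nat_lit 0) (XT.nd (nat_lit 78) (nat_lit 380) (nat_lit 0) (XT.lf (nat_lit 0) (nat_lit 11598549425) (nat_lit 76) (nat_lit 10828305368) (nat_lit 76) (nat_lit 7548481031) (nat_lit 68) (nat_lit 4) (nat_lit 69) (nat_lit 5) (nat_lit 69) (nat_lit 4) (nat_lit 420) (nat_lit 311) (nat_lit 289)) (XT.nd (nat_lit 78) (nat_lit 228) (nat_lit 0) (XT.lf (nat_lit 0) (nat_lit 13310983735) (nat_lit 152) (nat_lit 7477751908) (nat_lit 0) (nat_lit 10047928479) (nat_lit 66) (nat_lit 5) (nat_lit 68) (nat_lit 4) (nat_lit 66) (nat_lit 4) (nat_lit 421) (nat_lit 311) (nat_lit 288)) (XT.lf (nat_lit 0) (nat_lit 3526417968) (nat_lit 152) (nat_lit 27917682702) (nat_lit 0) (nat_lit 285578576) (nat_lit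 63) (nat_lit 5) (nat_lit 65) (nat_lit 4) (nat_lit 63) (nat_lit 4) (nat_lit 422) (nat_lit 311) (nat_lit 287)))) (XT.nd (nat_lit 78) (nat_lit 380) (nat_lit 0) (XT.lf (nat_lit 0) (nat_lit 15424945428) (nat_lit 76) (nat_lit 10267340750) (nat_lit 76) (nat_lit 6957144615) (nat_lit 62) (nat_lit 4) (nat_lit 63) (nat_lit 5) (nat_lit 63) (nat_lit 4) (nat_lit 423) (nat_lit 311) (nat_lit 286)) (XT.nd (nat_lit 78) (nat_lit 228) (nat_lit 0) (XT.lf (nat_lit 0) (nat_lit 15315840812) (nat_lit 152) (nat_lit 6249050459) (nat_lit 0) (nat_lit 12037928019) (nat_lit 60) (nat_lit 5) (nat_lit 62) (nat_lit 4) (nat_lit 60) (nat_lit 4) (nat_lit 424) (nat_lit 311) (nat_lit 285)) (XT.lf (nat_lit 0) (nat_lit 4206935621) (nat_lit 152) (nat_lit 29418714458) (nat_lit 0) (nat_lit 965198617) (nat_lit 57) (nat_lit 5) (nat_lit 59) (nat_lit 4) (nat_lit 57) (nat_lit 4) (nat_lit 425) (nat_lit 311) (nat_lit 284))))) (XT.nd (nat_lit 234)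 (nat_lit 532) (nat_lit 0) (XT.nd (nat_lit 78) (nat_lit 380) (nat_lit 0) (XT.lf (nat_lit 0) (nat_lit 16908666364) (nat_lit 76) (nat_lit 10999286915) (nat_lit 76) (nat_lit 7701076198) (nat_lit 56) (nat_lit 4) (nat_lit 57) (nat_lit 5) (nat_lit 57) (nat_lit 4) (nat_lit 426) (nat_lit 311) (nat_lit 283)) (XT.nd (nat_lit 78) (nat_lit 228) (nat_lit 0) (XT.lf (nat_lit 0) (nat_lit 16116611540) (nat_lit 152) (nat_lit 7685157367) (nat_lit 0) (nat_lit 12862247263) (nat_lit 54) (nat_lit 5) (nat_lit 56) (nat_lit 4) (nat_lit 54) (nat_lit 4) (nat_lit 427) (nat_lit 311) (nat_lit 282)) (XT.lf (nat_lit 0) (nat_lit 3493305307) (nat_lit 152) (nat_lit 33979015292) (nat_lit 0) (nat_lit 285445444) (nat_lit 51) (nat_lit 5) (nat_lit 53) (nat_lit 4) (nat_lit 51) (nat_lit 4) (nat_lit 428) (nat_lit 311) (nat_lit 281)))) (XT.nd (nat_lit 156) (nat_lit 304) (nat_lit 0) (XT.nd (nat_lit 78) (nat_lit 152) (nat_lit 0) (XT.lf (nat_lit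 0) (nat_lit 15573464207) (nat_lit 76) (nat_lit 13282073214) (nat_lit 76) (nat_lit 10028229642) (nat_lit 50) (nat_lit 4) (nat_lit 51) (nat_lit 5) (nat_lit 51) (nat_lit 4) (nat_lit 429) (nat_lit 311) (nat_lit 280)) (XT.lf (nat_lit 0) (nat_lit 15475150136) (nat_lit 152) (nat_lit 12302224009) (nat_lit 0) (nat_lit 12273560252) (nat_lit 48) (nat_lit 5) (nat_lit 50) (nat_lit 4) (nat_lit 48) (nat_lit 4) (nat_lit 430) (nat_lit 311) (nat_lit 279))) (XT.nd (nat_lit 78) (nat_lit 152) (nat_lit 0) (XT.lf (nat_lit 0) (nat_lit 1150075784) (nat_lit 152) (nat_lit 907429808) (nat_lit 76) (nat_lit 39203982821) (nat_lit 46) (nat_lit 5) (nat_lit 48) (nat_lit 5) (nat_lit 47) (nat_lit 4) (nat_lit 431) (nat_lit 311) (nat_lit 278)) (XT.lf (nat_lit 0) (nat_lit 10866147319) (nat_lit 76) (nat_lit 17412735875) (nat_lit 76) (nat_lit 14227639620) (nat_lit 44) (nat_lit 4) (nat_lit 45) (nat_lit 5) (nat_lit 45) (nat_lit 4) (nat_lit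 432) (nat_lit 311) (nat_lit 277)))))) (XT.nd (nat_lit 546) (nat_lit 228) (nat_lit 0) (XT.nd (nat_lit 234) (nat_lit 608) (nat_lit 0) (XT.nd (nat_lit 78) (nat_lit 304) (nat_lit 0) (XT.lf (nat_lit 0) (nat_lit 13113054371) (nat_lit 152) (nat_lit 20698449512) (nat_lit 0) (nat_lit 9986107266) (nat_lit 42) (nat_lit 5) (nat_lit 44) (nat_lit 4) (nat_lit 42) (nat_lit 4) (nat_lit 433) (nat_lit 311) (nat_lit 276)) (XT.nd (nat_lit 78) (nat_lit 228) (nat_lit 0) (XT.lf (nat_lit 0) (nat_lit 35726011641) (nat_lit 76) (nat_lit 6284212332) (nat_lit 76) (nat_lit 3124293187) (nat_lit 41) (nat_lit 4) (nat_lit 42) (nat_lit 5) (nat_lit 42) (nat_lit 4) (nat_lit 434) (nat_lit 311) (nat_lit 275)) (XT.lf (nat_lit 0) (nat_lit 2145099419) (nat_lit 76) (nat_lit 23733522000) (nat_lit 76) (nat_lit 20635152011) (nat_lit 38) (nat_lit 4) (nat_lit 39) (nat_lit 5) (nat_lit 39) (nat_lit 4) (nat_lit 435) (nat_lit 311) (nat_lit 274))))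 (XT.nd (nat_lit 156) (nat_lit 380) (nat_lit 0) (XT.nd (nat_lit 78) (nat_lit 76) (nat_lit 0) (XT.lf (nat_lit 0) (nat_lit 8705971022) (nat_lit 152) (nat_lit 33566181773) (nat_lit 0) (nat_lit 5669654968) (nat_lit 36) (nat_lit 5) (nat_lit 38) (nat_lit 4) (nat_lit 36) (nat_lit 4) (nat_lit 436) (nat_lit 311) (nat_lit 273)) (XT.lf (nat_lit 0) (nat_lit 26907970489) (nat_lit 76) (nat_lit 12786054185) (nat_lit 76) (nat_lit 9722890654) (nat_lit 35) (nat_lit 4) (nat_lit 36) (nat_lit 5) (nat_lit 36) (nat_lit 4) (nat_lit 437) (nat_lit 311) (nat_lit 272))) (XT.nd (nat_lit 78) (nat_lit 228) (nat_lit 0) (XT.lf (nat_lit 0) (nat_lit 21414940250) (nat_lit 152) (nat_lit 11111608438) (nat_lit 0) (nat_lit 18416170777) (nat_lit 33) (nat_lit 5) (nat_lit 35) (nat_lit 4) (nat_lit 33) (nat_lit 4) (nat_lit 438) (nat_lit 311) (nat_lit 271)) (XT.lf (nat_lit 0) (nat_lit 809092596) (nat_lit 76) (nat_lit 1078347924) (nat_lit 152)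 (nat_lit 50637667501) (nat_lit 30) (nat_lit 5) (nat_lit 31) (nat_lit 5) (nat_lit 32) (nat_lit 4) (nat_lit 439) (nat_lit 311) (nat_lit 270))))) (XT.nd (nat_lit 49764) (nat_lit 0) (nat_lit 6536) (XT.nd (nat_lit 78) (nat_lit 152) (nat_lit 0) (XT.lf (nat_lit 0) (nat_lit 13129666522) (nat_lit 76) (nat_lit 21989365472) (nat_lit 76) (nat_lit 19033124666) (nat_lit 29) (nat_lit 4) (nat_lit 30) (nat_lit 5) (nat_lit 30) (nat_lit 4) (nat_lit 440) (nat_lit 311) (nat_lit 269)) (XT.nd (nat_lit 49608) (nat_lit 0) (nat_lit 7296) (XT.lf (nat_lit 0) (nat_lit 14448324497) (nat_lit 152) (nat_lit 29832992730) (nat_lit 0) (nat_lit 11557974614) (nat_lit 27) (nat_lit 5) (nat_lit 29) (nat_lit 4) (nat_lit 27) (nat_lit 4) (nat_lit 441) (nat_lit 311) (nat_lit 268)) (XT.lf (nat_lit 0) (nat_lit 1379228964) (nat_lit 152) (nat_lit 3331365486) (nat_lit 152) (nat_lit 3331365486) (nat_lit 123) (nat_lit 4) (nat_lit 125) (nat_lit 5)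 (nat_lit 125) (nat_lit 4) (nat_lit 396) (nat_lit 312) (nat_lit 312)))) (XT.nd (nat_lit 156) (nat_lit 304) (nat_lit 0) (XT.nd (nat_lit 78) (nat_lit 304) (nat_lit 0) (XT.lf (nat_lit 0) (nat_lit 6709844284) (nat_lit 152) (nat_lit 3462235802) (nat_lit 0) (nat_lit 6298004367) (nat_lit 121) (nat_lit 5) (nat_lit 123) (nat_lit 4) (nat_lit 121) (nat_lit 4) (nat_lit 397) (nat_lit 312) (nat_lit 311)) (XT.lf (nat_lit 0) (nat_lit 3746196380) (nat_lit 152) (nat_lit 10158371079) (nat_lit 0) (nat_lit 2965547439) (nat_lit 117) (nat_lit 5) (nat_lit 119) (nat_lit 4) (nat_lit 117) (nat_lit 4) (nat_lit 398) (nat_lit 312) (nat_lit 310))) (XT.nd (nat_lit 78) (nat_lit 152) (nat_lit 0) (XT.lf (nat_lit 0) (nat_lit 493693758) (nat_lit 152) (nat_lit 141121431) (nat_lit 76) (nat_lit 16650403827) (nat_lit 115) (nat_lit 5) (nat_lit 117) (nat_lit 5) (nat_lit 116) (nat_lit 4) (nat_lit 399) (nat_lit 312) (nat_lit 309)) (XT.lf (nat_lit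 0) (nat_lit 10205472164) (nat_lit 76) (nat_lit 4476121422) (nat_lit 76) (nat_lit 3030761671) (nat_lit 113) (nat_lit 4) (nat_lit 114) (nat_lit 5) (nat_lit 114) (nat_lit 4) (nat_lit 400) (nat_lit 312) (nat_lit 308))))))) (XT.nd (nat_lit 1014) (nat_lit 2204) (nat_lit 0) (XT.nd (nat_lit 468) (nat_lit 1216) (nat_lit 0) (XT.nd (nat_lit 234) (nat_lit 456) (nat_lit 0) (XT.nd (nat_lit 78) (nat_lit 380) (nat_lit 0) (XT.lf (nat_lit 0) (nat_lit 2646876477) (nat_lit 76) (nat_lit 8611064816) (nat_lit 76) (nat_lit 6897733052) (nat_lit 110) (nat_lit 4) (nat_lit 111) (nat_lit 5) (nat_lit 111) (nat_lit 4) (nat_lit 401) (nat_lit 312) (nat_lit 307)) (XT.nd (nat_lit 78) (nat_lit 228) (nat_lit 0) (XT.lf (nat_lit 0) (nat_lit 7550921521) (nat_lit 152) (nat_lit 5462743411) (nat_lit 0) (nat_lit 5600789091) (nat_lit 108) (nat_lit 5) (nat_lit 110) (nat_lit 4) (nat_lit 108) (nat_lit 4) (nat_lit 402) (nat_lit 312) (nat_lit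 306)) (XT.lf (nat_lit 0) (nat_lit 3517223421) (nat_lit 152) (nat_lit 14214102339) (nat_lit 0) (nat_lit 1358792924) (nat_lit 105) (nat_lit 5) (nat_lit 107) (nat_lit 4) (nat_lit 105) (nat_lit 4) (nat_lit 403) (nat_lit 312) (nat_lit 305)))) (XT.nd (nat_lit 78) (nat_lit 380) (nat_lit 0) (XT.lf (nat_lit 0) (nat_lit 15498362768) (nat_lit 76) (nat_lit 3247200857) (nat_lit 76) (nat_lit 836296034) (nat_lit 104) (nat_lit 4) (nat_lit 105) (nat_lit 5) (nat_lit 105) (nat_lit 4) (nat_lit 404) (nat_lit 312) (nat_lit 304)) (XT.nd (nat_lit 78) (nat_lit 152) (nat_lit 0) (XT.lf (nat_lit 0) (nat_lit 6326359069) (nat_lit 76) (nat_lit 8168716598) (nat_lit 76) (nat_lit 5594584014) (nat_lit 101) (nat_lit 4) (nat_lit 102) (nat_lit 5) (nat_lit 102) (nat_lit 4) (nat_lit 405) (nat_lit 312) (nat_lit 303)) (XT.lf (nat_lit 0) (nat_lit 9877185485) (nat_lit 152) (nat_lit 3576825301) (nat_lit 0) (nat_lit 7162171612) (nat_lit 99)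 (nat_lit 5) (nat_lit 101) (nat_lit 4) (nat_lit 99) (nat_lit 4) (nat_lit 406) (nat_lit 312) (nat_lit 302))))) (XT.nd (nat_lit 234) (nat_lit 684) (nat_lit 0) (XT.nd (nat_lit 78) (nat_lit 304) (nat_lit 0) (XT.lf (nat_lit 0) (nat_lit 4899151058) (nat_lit 152) (nat_lit 14198573545) (nat_lit 0) (nat_lit 2063625778) (nat_lit 96) (nat_lit 5) (nat_lit 98) (nat_lit 4) (nat_lit 96) (nat_lit 4) (nat_lit 407) (nat_lit 312) (nat_lit 301)) (XT.nd (nat_lit 78) (nat_lit 228) (nat_lit 0) (XT.lf (nat_lit 0) (nat_lit 17771743449) (nat_lit 76) (nat_lit 3489761051) (nat_lit 76) (nat_lit 464150551) (nat_lit 95) (nat_lit 4) (nat_lit 96) (nat_lit 5) (nat_lit 96) (nat_lit 4) (nat_lit 408) (nat_lit 312) (nat_lit 300)) (XT.lf (nat_lit 0) (nat_lit 6574239058) (nat_lit 76) (nat_lit 9423438733) (nat_lit 76) (nat_lit 6310192090) (nat_lit 92) (nat_lit 4) (nat_lit 93) (nat_lit 5) (nat_lit 93) (nat_lit 4) (nat_lit 409) (nat_lit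 312) (nat_lit 299)))) (XT.nd (nat_lit 156) (nat_lit 304) (nat_lit 0) (XT.nd (nat_lit 78) (nat_lit 228) (nat_lit 0) (XT.lf (nat_lit 0) (nat_lit 10304911119) (nat_lit 152) (nat_lit 5486744352) (nat_lit 0) (nat_lit 7119825870) (nat_lit 90) (nat_lit 5) (nat_lit 92) (nat_lit 4) (nat_lit 90) (nat_lit 4) (nat_lit 410) (nat_lit 312) (nat_lit 298)) (XT.lf (nat_lit 0) (nat_lit 4170278274) (nat_lit 152) (nat_lit 18439062394) (nat_lit 0) (nat_lit 927693711) (nat_lit 87) (nat_lit 5) (nat_lit 89) (nat_lit 4) (nat_lit 87) (nat_lit 4) (nat_lit 411) (nat_lit 312) (nat_lit 297))) (XT.nd (nat_lit 78) (nat_lit 228) (nat_lit 0) (XT.lf (nat_lit 0) (nat_lit 15970692267) (nat_lit 76) (nat_lit 5798897823) (nat_lit 76) (nat_lit 2413200130) (nat_lit 86) (nat_lit 4) (nat_lit 87) (nat_lit 5) (nat_lit 87) (nat_lit 4) (nat_lit 412) (nat_lit 312) (nat_lit 296)) (XT.lf (nat_lit 0) (nat_lit 2252445250) (nat_lit 76) (nat_lit 13009075817)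 (nat_lit 76) (nat_lit 9589662310) (nat_lit 83) (nat_lit 4) (nat_lit 84) (nat_lit 5) (nat_lit 84) (nat_lit 4) (nat_lit 413) (nat_lit 312) (nat_lit 295)))))) (XT.nd (nat_lit 546) (nat_lit 1140) (nat_lit 0) (XT.nd (nat_lit 234) (nat_lit 608) (nat_lit 0) (XT.nd (nat_lit 78) (nat_lit 304) (nat_lit 0) (XT.lf (nat_lit 0) (nat_lit 8294657244) (nat_lit 152) (nat_lit 12395653572) (nat_lit 0) (nat_lit 4852481979) (nat_lit 81) (nat_lit 5) (nat_lit 83) (nat_lit 4) (nat_lit 81) (nat_lit 4) (nat_lit 414) (nat_lit 312) (nat_lit 294)) (XT.nd (nat_lit 78) (nat_lit 152) (nat_lit 0) (XT.lf (nat_lit 0) (nat_lit 788071679) (nat_lit 152) (nat_lit 1958919590) (nat_lit 76) (nat_lit 23513230838) (nat_lit 79) (nat_lit 5) (nat_lit 81) (nat_lit 5) (nat_lit 80) (nat_lit 4) (nat_lit 415) (nat_lit 312) (nat_lit 293)) (XT.lf (nat_lit 0) (nat_lit 8804295741) (nat_lit 76) (nat_lit 10878747806) (nat_lit 76) (nat_lit 7315945964) (nat_lit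 77) (nat_lit 4) (nat_lit 78) (nat_lit 5) (nat_lit 78) (nat_lit 4) (nat_lit 416) (nat_lit 312) (nat_lit 292)))) (XT.nd (nat_lit 156) (nat_lit 228) (nat_lit 0) (XT.nd (nat_lit 78) (nat_lit 228) (nat_lit 0) (XT.lf (nat_lit 0) (nat_lit 11724619557) (nat_lit 152) (nat_lit 7874553871) (nat_lit 0) (nat_lit 8165960030) (nat_lit 75) (nat_lit 5) (nat_lit 77) (nat_lit 4) (nat_lit 75) (nat_lit 4) (nat_lit 417) (nat_lit 312) (nat_lit 291)) (XT.lf (nat_lit 0) (nat_lit 2781107082) (nat_lit 76) (nat_lit 388671737) (nat_lit 152) (nat_lit 25389874224) (nat_lit 72) (nat_lit 5) (nat_lit 73) (nat_lit 5) (nat_lit 74) (nat_lit 4) (nat_lit 418) (nat_lit 312) (nat_lit 290))) (XT.nd (nat_lit 78) (nat_lit 152) (nat_lit 0) (XT.lf (nat_lit 0) (nat_lit 13757146141) (nat_lit 76) (nat_lit 9627784715) (nat_lit 76) (nat_lit 5992920628) (nat_lit 71) (nat_lit 4) (nat_lit 72) (nat_lit 5) (nat_lit 72) (nat_lit 4) (nat_lit 419) (nat_lit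 312) (nat_lit 289)) (XT.lf (nat_lit 0) (nat_lit 14315372230) (nat_lit 152) (nat_lit 5205527774) (nat_lit 0) (nat_lit 10705255393) (nat_lit 69) (nat_lit 5) (nat_lit 71) (nat_lit 4) (nat_lit 69) (nat_lit 4) (nat_lit 420) (nat_lit 312) (nat_lit 288))))) (XT.nd (nat_lit 234) (nat_lit 684) (nat_lit 0) (XT.nd (nat_lit 78) (nat_lit 228) (nat_lit 0) (XT.lf (nat_lit 0) (nat_lit 4605294586) (nat_lit 152) (nat_lit 25474480121) (nat_lit 0) (nat_lit 1025317466) (nat_lit 66) (nat_lit 5) (nat_lit 68) (nat_lit 4) (nat_lit 66) (nat_lit 4) (nat_lit 421) (nat_lit 312) (nat_lit 287)) (XT.nd (nat_lit 78) (nat_lit 152) (nat_lit 0) (XT.lf (nat_lit 0) (nat_lit 16758804009) (nat_lit 76) (nat_lit 9452039287) (nat_lit 76) (nat_lit 5800624721) (nat_lit 65) (nat_lit 4) (nat_lit 66) (nat_lit 5) (nat_lit 66) (nat_lit 4) (nat_lit 422) (nat_lit 312) (nat_lit 286)) (XT.lf (nat_lit 0) (nat_lit 15894912209) (nat_lit 152) (nat_lit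 4771690318) (nat_lit 0) (nat_lit 12283795482) (nat_lit 63) (nat_lit 5) (nat_lit 65) (nat_lit 4) (nat_lit 63) (nat_lit 4) (nat_lit 423) (nat_lit 312) (nat_lit 285)))) (XT.nd (nat_lit 156) (nat_lit 380) (nat_lit 0) (XT.nd (nat_lit 78) (nat_lit 76) (nat_lit 0) (XT.lf (nat_lit 0) (nat_lit 4867695183) (nat_lit 152) (nat_lit 27754728958) (nat_lit 0) (nat_lit 1300680292) (nat_lit 60) (nat_lit 5) (nat_lit 62) (nat_lit 4) (nat_lit 60) (nat_lit 4) (nat_lit 424) (nat_lit 312) (nat_lit 284)) (XT.lf (nat_lit 0) (nat_lit 17399487461) (nat_lit 76) (nat_lit 10575921168) (nat_lit 76) (nat_lit 6950738353) (nat_lit 59) (nat_lit 4) (nat_lit 60) (nat_lit 5) (nat_lit 60) (nat_lit 4) (nat_lit 425) (nat_lit 312) (nat_lit 283))) (XT.nd (nat_lit 78) (nat_lit 228) (nat_lit 0) (XT.lf (nat_lit 0) (nat_lit 16260347215) (nat_lit 152) (nat_lit 7017784212) (nat_lit 0) (nat_lit 12686967760) (nat_lit 57) (nat_lit 5) (nat_lit 59)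 (nat_lit 4) (nat_lit 57) (nat_lit 4) (nat_lit 426) (nat_lit 312) (nat_lit 282)) (XT.lf (nat_lit 0) (nat_lit 3727440555) (nat_lit 152) (nat_lit 33106290097) (nat_lit 0) (nat_lit 208408732) (nat_lit 54) (nat_lit 5) (nat_lit 56) (nat_lit 4) (nat_lit 54) (nat_lit 4) (nat_lit 427) (nat_lit 312) (nat_lit 281))))))))
noncomputable def xc10 : XT := (XT.nd (nat_lit 51480) (nat_lit 0) (nat_lit 1216) (XT.nd (nat_lit 1014) (nat_lit 76) (nat_lit 0) (XT.nd (nat_lit 468) (nat_lit 1064) (nat_lit 0) (XT.nd (nat_lit 234) (nat_lit 380) (nat_lit 0) (XT.nd (nat_lit 78) (nat_lit 304) (nat_lit 0) (XT.lf (nat_lit 0) (nat_lit 15202940851) (nat_lit 76) (nat_lit 13257269068) (nat_lit 76) (nat_lit 9690874025) (nat_lit 53) (nat_lit 4) (nat_lit 54) (nat_lit 5) (nat_lit 54) (nat_lit 4) (nat_lit 428) (nat_lit 312) (nat_lit 280)) (XT.nd (nat_lit 78) (nat_lit 152) (nat_lit 0) (XT.lf (nat_lit 0) (nat_lit 15173629288) (nat_lit 152)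 (nat_lit 12459539474) (nat_lit 0) (nat_lit 11667315820) (nat_lit 51) (nat_lit 5) (nat_lit 53) (nat_lit 4) (nat_lit 51) (nat_lit 4) (nat_lit 429) (nat_lit 312) (nat_lit 279)) (XT.lf (nat_lit 0) (nat_lit 961031567) (nat_lit 152) (nat_lit 1597127965) (nat_lit 76) (nat_lit 37934276360) (nat_lit 49) (nat_lit 5) (nat_lit 51) (nat_lit 5) (nat_lit 50) (nat_lit 4) (nat_lit 430) (nat_lit 312) (nat_lit 278)))) (XT.nd (nat_lit 78) (nat_lit 228) (nat_lit 0) (XT.lf (nat_lit 0) (nat_lit 9616374545) (nat_lit 76) (nat_lit 17792773229) (nat_lit 76) (nat_lit 14309526137) (nat_lit 47) (nat_lit 4) (nat_lit 48) (nat_lit 5) (nat_lit 48) (nat_lit 4) (nat_lit 431) (nat_lit 312) (nat_lit 277)) (XT.nd (nat_lit 78) (nat_lit 76) (nat_lit 0) (XT.lf (nat_lit 0) (nat_lit 12356634716) (nat_lit 152) (nat_lit 21694274303) (nat_lit 0) (nat_lit 8939182161) (nat_lit 45) (nat_lit 5) (nat_lit 47) (nat_lit 4) (nat_lit 45) (nat_lit 4)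 (nat_lit 432) (nat_lit 312) (nat_lit 276)) (XT.lf (nat_lit 0) (nat_lit 33343634577) (nat_lit 76) (nat_lit 7206947743) (nat_lit 76) (nat_lit 3755533986) (nat_lit 44) (nat_lit 4) (nat_lit 45) (nat_lit 5) (nat_lit 45) (nat_lit 4) (nat_lit 433) (nat_lit 312) (nat_lit 275))))) (XT.nd (nat_lit 234) (nat_lit 608) (nat_lit 0) (XT.nd (nat_lit 78) (nat_lit 304) (nat_lit 0) (XT.lf (nat_lit 0) (nat_lit 24523112838) (nat_lit 152) (nat_lit 922945) (nat_lit 0) (nat_lit 21140823751) (nat_lit 42) (nat_lit 5) (nat_lit 44) (nat_lit 4) (nat_lit 42) (nat_lit 4) (nat_lit 434) (nat_lit 312) (nat_lit 274)) (XT.nd (nat_lit 78) (nat_lit 76) (nat_lit 0) (XT.lf (nat_lit 0) (nat_lit 7485512896) (nat_lit 152) (nat_lit 35412914426) (nat_lit 0) (nat_lit 4172701537) (nat_lit 39) (nat_lit 5) (nat_lit 41) (nat_lit 4) (nat_lit 39) (nat_lit 4) (nat_lit 435) (nat_lit 312) (nat_lit 273)) (XT.lf (nat_lit 0) (nat_lit 23583704716) (nat_lit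 76) (nat_lit 14139845851) (nat_lit 76) (nat_lit 10799381591) (nat_lit 38) (nat_lit 4) (nat_lit 39) (nat_lit 5) (nat_lit 39) (nat_lit 4) (nat_lit 436) (nat_lit 312) (nat_lit 272)))) (XT.nd (nat_lit 156) (nat_lit 304) (nat_lit 0) (XT.nd (nat_lit 78) (nat_lit 152) (nat_lit 0) (XT.lf (nat_lit 0) (nat_lit 19592151663) (nat_lit 152) (nat_lit 14109806574) (nat_lit 0) (nat_lit 16323413452) (nat_lit 36) (nat_lit 5) (nat_lit 38) (nat_lit 4) (nat_lit 36) (nat_lit 4) (nat_lit 437) (nat_lit 312) (nat_lit 271)) (XT.lf (nat_lit 0) (nat_lit 241237450) (nat_lit 152) (nat_lit 2803377638) (nat_lit 76) (nat_lit 48538558343) (nat_lit 34) (nat_lit 5) (nat_lit 36) (nat_lit 5) (nat_lit 35) (nat_lit 4) (nat_lit 438) (nat_lit 312) (nat_lit 270))) (XT.nd (nat_lit 78) (nat_lit 152) (nat_lit 0) (XT.lf (nat_lit 0) (nat_lit 8844798675) (nat_lit 76) (nat_lit 23780282867) (nat_lit 76) (nat_lit 20560592067) (nat_lit 32) (nat_lit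 4) (nat_lit 33) (nat_lit 5) (nat_lit 33) (nat_lit 4) (nat_lit 439) (nat_lit 312) (nat_lit 269)) (XT.lf (nat_lit 0) (nat_lit 12127666562) (nat_lit 152) (nat_lit 33738387649) (nat_lit 0) (nat_lit 8980933590) (nat_lit 30) (nat_lit 5) (nat_lit 32) (nat_lit 4) (nat_lit 30) (nat_lit 4) (nat_lit 440) (nat_lit 312) (nat_lit 268)))))) (XT.nd (nat_lit 49920) (nat_lit 0) (nat_lit 5320) (XT.nd (nat_lit 49608) (nat_lit 0) (nat_lit 6612) (XT.nd (nat_lit 49452) (nat_lit 0) (nat_lit 7448) (XT.lf (nat_lit 0) (nat_lit 33749559805) (nat_lit 76) (nat_lit 12990408147) (nat_lit 76) (nat_lit 9823847010) (nat_lit 29) (nat_lit 4) (nat_lit 30) (nat_lit 5) (nat_lit 30) (nat_lit 4) (nat_lit 441) (nat_lit 312) (nat_lit 267)) (XT.nd (nat_lit 78) (nat_lit 304) (nat_lit 0) (XT.lf (nat_lit 0) (nat_lit 7132275611) (nat_lit 152) (nat_lit 270210012) (nat_lit 152) (nat_lit 270210012) (nat_lit 131) (nat_lit 4) (nat_lit 133) (nat_lit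 5) (nat_lit 133) (nat_lit 4) (nat_lit 394) (nat_lit 313) (nat_lit 313)) (XT.lf (nat_lit 0) (nat_lit 8546127900) (nat_lit 152) (nat_lit 3811791895) (nat_lit 152) (nat_lit 3353024879) (nat_lit 127) (nat_lit 4) (nat_lit 129) (nat_lit 5) (nat_lit 129) (nat_lit 4) (nat_lit 395) (nat_lit 313) (nat_lit 312)))) (XT.nd (nat_lit 156) (nat_lit 380) (nat_lit 0) (XT.nd (nat_lit 78) (nat_lit 152) (nat_lit 0) (XT.lf (nat_lit 0) (nat_lit 2331658500) (nat_lit 152) (nat_lit 7314241093) (nat_lit 152) (nat_lit 6444641108) (nat_lit 123) (nat_lit 4) (nat_lit 125) (nat_lit 5) (nat_lit 125) (nat_lit 4) (nat_lit 396) (nat_lit 313) (nat_lit 311)) (XT.lf (nat_lit 0) (nat_lit 6694884646) (nat_lit 152) (nat_lit 4330237230) (nat_lit 0) (nat_lit 5458384323) (nat_lit 121) (nat_lit 5) (nat_lit 123) (nat_lit 4) (nat_lit 121) (nat_lit 4) (nat_lit 397) (nat_lit 313) (nat_lit 310))) (XT.nd (nat_lit 78) (nat_lit 76) (nat_lit 0) (XT.lf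 (nat_lit 0) (nat_lit 3472639624) (nat_lit 152) (nat_lit 11508794027) (nat_lit 0) (nat_lit 1909483053) (nat_lit 117) (nat_lit 5) (nat_lit 119) (nat_lit 4) (nat_lit 117) (nat_lit 4) (nat_lit 398) (nat_lit 313) (nat_lit 309)) (XT.lf (nat_lit 0) (nat_lit 15355697204) (nat_lit 76) (nat_lit 1932913822) (nat_lit 76) (nat_lit 24356471) (nat_lit 116) (nat_lit 4) (nat_lit 117) (nat_lit 5) (nat_lit 117) (nat_lit 4) (nat_lit 399) (nat_lit 313) (nat_lit 308))))) (XT.nd (nat_lit 234) (nat_lit 684) (nat_lit 0) (XT.nd (nat_lit 78) (nat_lit 380) (nat_lit 0) (XT.lf (nat_lit 0) (nat_lit 7879709126) (nat_lit 76) (nat_lit 6020330635) (nat_lit 76) (nat_lit 3847990366) (nat_lit 113) (nat_lit 4) (nat_lit 114) (nat_lit 5) (nat_lit 114) (nat_lit 4) (nat_lit 400) (nat_lit 313) (nat_lit 307)) (XT.nd (nat_lit 78) (nat_lit 228) (nat_lit 0) (XT.lf (nat_lit 0) (nat_lit 10180089183) (nat_lit 152) (nat_lit 244076495) (nat_lit 0)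 (nat_lit 7775716323) (nat_lit 111) (nat_lit 5) (nat_lit 113) (nat_lit 4) (nat_lit 111) (nat_lit 4) (nat_lit 401) (nat_lit 313) (nat_lit 306)) (XT.lf (nat_lit 0) (nat_lit 6187083493) (nat_lit 152) (nat_lit 8900122048) (nat_lit 0) (nat_lit 3579689927) (nat_lit 108) (nat_lit 5) (nat_lit 110) (nat_lit 4) (nat_lit 108) (nat_lit 4) (nat_lit 402) (nat_lit 313) (nat_lit 305)))) (XT.nd (nat_lit 156) (nat_lit 380) (nat_lit 0) (XT.nd (nat_lit 78) (nat_lit 76) (nat_lit 0) (XT.lf (nat_lit 0) (nat_lit 851375183) (nat_lit 76) (nat_lit 980554523) (nat_lit 152) (nat_lit 17319938376) (nat_lit 105) (nat_lit 5) (nat_lit 106) (nat_lit 5) (nat_lit 107) (nat_lit 4) (nat_lit 403) (nat_lit 313) (nat_lit 304)) (XT.lf (nat_lit 0) (nat_lit 10925549502) (nat_lit 76) (nat_lit 5875111969) (nat_lit 76) (nat_lit 2850735840) (nat_lit 104) (nat_lit 4) (nat_lit 105) (nat_lit 5) (nat_lit 105) (nat_lit 4) (nat_lit 404) (nat_lit 313)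 (nat_lit 303))) (XT.nd (nat_lit 78) (nat_lit 152) (nat_lit 0) (XT.lf (nat_lit 0) (nat_lit 1051683435) (nat_lit 76) (nat_lit 11138306339) (nat_lit 76) (nat_lit 7979687131) (nat_lit 101) (nat_lit 4) (nat_lit 102) (nat_lit 5) (nat_lit 102) (nat_lit 4) (nat_lit 405) (nat_lit 313) (nat_lit 302)) (XT.lf (nat_lit 0) (nat_lit 7247190400) (nat_lit 152) (nat_lit 9483447407) (nat_lit 0) (nat_lit 3974992645) (nat_lit 99) (nat_lit 5) (nat_lit 101) (nat_lit 4) (nat_lit 99) (nat_lit 4) (nat_lit 406) (nat_lit 313) (nat_lit 301))))))) (XT.nd (nat_lit 1014) (nat_lit 2052) (nat_lit 0) (XT.nd (nat_lit 468) (nat_lit 1064) (nat_lit 0) (XT.nd (nat_lit 234) (nat_lit 532) (nat_lit 0) (XT.nd (nat_lit 78) (nat_lit 228) (nat_lit 0) (XT.lf (nat_lit 0) (nat_lit 357735912) (nat_lit 76) (nat_lit 1526855932) (nat_lit 152) (nat_lit 19377436285) (nat_lit 96) (nat_lit 5) (nat_lit 97) (nat_lit 5) (nat_lit 98) (nat_lit 4) (nat_lit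 407) (nat_lit 313) (nat_lit 300)) (XT.nd (nat_lit 78) (nat_lit 152) (nat_lit 0) (XT.lf (nat_lit 0) (nat_lit 10539219318) (nat_lit 76) (nat_lit 7421849777) (nat_lit 76) (nat_lit 3873839989) (nat_lit 95) (nat_lit 4) (nat_lit 96) (nat_lit 5) (nat_lit 96) (nat_lit 4) (nat_lit 408) (nat_lit 313) (nat_lit 299)) (XT.lf (nat_lit 0) (nat_lit 12277326430) (nat_lit 152) (nat_lit 1486831114) (nat_lit 0) (nat_lit 8665265569) (nat_lit 93) (nat_lit 5) (nat_lit 95) (nat_lit 4) (nat_lit 93) (nat_lit 4) (nat_lit 409) (nat_lit 313) (nat_lit 298)))) (XT.nd (nat_lit 78) (nat_lit 304) (nat_lit 0) (XT.lf (nat_lit 0) (nat_lit 6194682518) (nat_lit 152) (nat_lit 14316708315) (nat_lit 0) (nat_lit 2533050464) (nat_lit 90) (nat_lit 5) (nat_lit 92) (nat_lit 4) (nat_lit 90) (nat_lit 4) (nat_lit 410) (nat_lit 313) (nat_lit 297)) (XT.nd (nat_lit 78) (nat_lit 228) (nat_lit 0) (XT.lf (nat_lit 0) (nat_lit 19184812751) (nat_lit 76)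 (nat_lit 4152877612) (nat_lit 76) (nat_lit 343839034) (nat_lit 89) (nat_lit 4) (nat_lit 90) (nat_lit 5) (nat_lit 90) (nat_lit 4) (nat_lit 411) (nat_lit 313) (nat_lit 296)) (XT.lf (nat_lit 0) (nat_lit 5587777032) (nat_lit 76) (nat_lit 11292725836) (nat_lit 76) (nat_lit 7458331910) (nat_lit 86) (nat_lit 4) (nat_lit 87) (nat_lit 5) (nat_lit 87) (nat_lit 4) (nat_lit 412) (nat_lit 313) (nat_lit 295))))) (XT.nd (nat_lit 234) (nat_lit 608) (nat_lit 0) (XT.nd (nat_lit 78) (nat_lit 304) (nat_lit 0) (XT.lf (nat_lit 0) (nat_lit 9936742677) (nat_lit 152) (nat_lit 8995279912) (nat_lit 0) (nat_lit 6088003110) (nat_lit 84) (nat_lit 5) (nat_lit 86) (nat_lit 4) (nat_lit 84) (nat_lit 4) (nat_lit 413) (nat_lit 313) (nat_lit 294)) (XT.nd (nat_lit 78) (nat_lit 76) (nat_lit 0) (XT.lf (nat_lit 0) (nat_lit 1023323182) (nat_lit 76) (nat_lit 1435833703) (nat_lit 152) (nat_lit 23267534873) (nat_lit 81) (nat_lit 5) (nat_lit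 82) (nat_lit 5) (nat_lit 83) (nat_lit 4) (nat_lit 414) (nat_lit 313) (nat_lit 293)) (XT.lf (nat_lit 0) (nat_lit 11379649751) (nat_lit 76) (nat_lit 9519372356) (nat_lit 76) (nat_lit 5555221369) (nat_lit 80) (nat_lit 4) (nat_lit 81) (nat_lit 5) (nat_lit 81) (nat_lit 4) (nat_lit 415) (nat_lit 313) (nat_lit 292)))) (XT.nd (nat_lit 156) (nat_lit 228) (nat_lit 0) (XT.nd (nat_lit 78) (nat_lit 228) (nat_lit 0) (XT.lf (nat_lit 0) (nat_lit 12975132382) (nat_lit 152) (nat_lit 5209846487) (nat_lit 0) (nat_lit 9023824631) (nat_lit 78) (nat_lit 5) (nat_lit 80) (nat_lit 4) (nat_lit 78) (nat_lit 4) (nat_lit 416) (nat_lit 313) (nat_lit 291)) (XT.lf (nat_lit 0) (nat_lit 4482398221) (nat_lit 152) (nat_lit 22957036015) (nat_lit 0) (nat_lit 551292710) (nat_lit 75) (nat_lit 5) (nat_lit 77) (nat_lit 4) (nat_lit 75) (nat_lit 4) (nat_lit 417) (nat_lit 313) (nat_lit 290))) (XT.nd (nat_lit 78) (nat_lit 152) (nat_lit 0) (XT.lf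 (nat_lit 0) (nat_lit 15555906463) (nat_lit 76) (nat_lit 8631331818) (nat_lit 76) (nat_lit 4609860218) (nat_lit 74) (nat_lit 4) (nat_lit 75) (nat_lit 5) (nat_lit 75) (nat_lit 4) (nat_lit 418) (nat_lit 313) (nat_lit 289)) (XT.lf (nat_lit 0) (nat_lit 15164874419) (nat_lit 152) (nat_lit 3290686271) (nat_lit 0) (nat_lit 11176976805) (nat_lit 72) (nat_lit 5) (nat_lit 74) (nat_lit 4) (nat_lit 72) (nat_lit 4) (nat_lit 419) (nat_lit 313) (nat_lit 288)))))) (XT.nd (nat_lit 546) (nat_lit 912) (nat_lit 0) (XT.nd (nat_lit 234) (nat_lit 684) (nat_lit 0) (XT.nd (nat_lit 78) (nat_lit 228) (nat_lit 0) (XT.lf (nat_lit 0) (nat_lit 5526646849) (nat_lit 152) (nat_lit 23393377166) (nat_lit 0) (nat_lit 1577641996) (nat_lit 69) (nat_lit 5) (nat_lit 71) (nat_lit 4) (nat_lit 69) (nat_lit 4) (nat_lit 420) (nat_lit 313) (nat_lit 287)) (XT.nd (nat_lit 78) (nat_lit 152) (nat_lit 0) (XT.lf (nat_lit 0) (nat_lit 17763786227) (nat_lit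 76) (nat_lit 8824769951) (nat_lit 76) (nat_lit 4802184529) (nat_lit 68) (nat_lit 4) (nat_lit 69) (nat_lit 5) (nat_lit 69) (nat_lit 4) (nat_lit 421) (nat_lit 313) (nat_lit 286)) (XT.lf (nat_lit 0) (nat_lit 16333858837) (nat_lit 152) (nat_lit 3621138523) (nat_lit 0) (nat_lit 12360400435) (nat_lit 66) (nat_lit 5) (nat_lit 68) (nat_lit 4) (nat_lit 66) (nat_lit 4) (nat_lit 422) (nat_lit 313) (nat_lit 285)))) (XT.nd (nat_lit 156) (nat_lit 380) (nat_lit 0) (XT.nd (nat_lit 78) (nat_lit 76) (nat_lit 0) (XT.lf (nat_lit 0) (nat_lit 5385819314) (nat_lit 152) (nat_lit 26422065677) (nat_lit 0) (nat_lit 1465184100) (nat_lit 63) (nat_lit 5) (nat_lit 65) (nat_lit 4) (nat_lit 63) (nat_lit 4) (nat_lit 423) (nat_lit 313) (nat_lit 284)) (XT.lf (nat_lit 0) (nat_lit 17593238068) (nat_lit 76) (nat_lit 10324197345) (nat_lit 76) (nat_lit 6343649168) (nat_lit 62) (nat_lit 4) (nat_lit 63) (nat_lit 5) (nat_lit 63) (nat_lit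 4) (nat_lit 424) (nat_lit 313) (nat_lit 283))) (XT.nd (nat_lit 78) (nat_lit 228) (nat_lit 0) (XT.lf (nat_lit 0) (nat_lit 16279195427) (nat_lit 152) (nat_lit 6645833241) (nat_lit 0) (nat_lit 12359187522) (nat_lit 60) (nat_lit 5) (nat_lit 62) (nat_lit 4) (nat_lit 60) (nat_lit 4) (nat_lit 425) (nat_lit 313) (nat_lit 282)) (XT.lf (nat_lit 0) (nat_lit 3811306993) (nat_lit 76) (nat_lit 23212671) (nat_lit 152) (nat_lit 32510327953) (nat_lit 57) (nat_lit 5) (nat_lit 58) (nat_lit 5) (nat_lit 59) (nat_lit 4) (nat_lit 426) (nat_lit 313) (nat_lit 281))))) (XT.nd (nat_lit 234) (nat_lit 532) (nat_lit 0) (XT.nd (nat_lit 78) (nat_lit 304) (nat_lit 0) (XT.lf (nat_lit 0) (nat_lit 14568088596) (nat_lit 76) (nat_lit 13387322259) (nat_lit 76) (nat_lit 9481481902) (nat_lit 56) (nat_lit 4) (nat_lit 57) (nat_lit 5) (nat_lit 57) (nat_lit 4) (nat_lit 427) (nat_lit 313) (nat_lit 280)) (XT.nd (nat_lit 78) (nat_lit 152) (nat_lit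 0) (XT.lf (nat_lit 0) (nat_lit 14762981950) (nat_lit 152) (nat_lit 12879993218) (nat_lit 0) (nat_lit 10925796105) (nat_lit 54) (nat_lit 5) (nat_lit 56) (nat_lit 4) (nat_lit 54) (nat_lit 4) (nat_lit 428) (nat_lit 313) (nat_lit 279)) (XT.lf (nat_lit 0) (nat_lit 664318945) (nat_lit 152) (nat_lit 2531578222) (nat_lit 76) (nat_lit 36546440016) (nat_lit 52) (nat_lit 5) (nat_lit 54) (nat_lit 5) (nat_lit 53) (nat_lit 4) (nat_lit 429) (nat_lit 313) (nat_lit 278)))) (XT.nd (nat_lit 156) (nat_lit 228) (nat_lit 0) (XT.nd (nat_lit 78) (nat_lit 152) (nat_lit 0) (XT.lf (nat_lit 0) (nat_lit 8136044436) (nat_lit 76) (nat_lit 18310446577) (nat_lit 76) (nat_lit 14503592391) (nat_lit 50) (nat_lit 4) (nat_lit 51) (nat_lit 5) (nat_lit 51) (nat_lit 4) (nat_lit 430) (nat_lit 313) (nat_lit 277)) (XT.lf (nat_lit 0) (nat_lit 11507422699) (nat_lit 152) (nat_lit 22919966079) (nat_lit 0) (nat_lit 7774718721) (nat_lit 48) (nat_lit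 5) (nat_lit 50) (nat_lit 4) (nat_lit 48) (nat_lit 4) (nat_lit 431) (nat_lit 313) (nat_lit 276))) (XT.nd (nat_lit 78) (nat_lit 152) (nat_lit 0) (XT.lf (nat_lit 0) (nat_lit 30769111689) (nat_lit 76) (nat_lit 8248026965) (nat_lit 76) (nat_lit 4480342949) (nat_lit 47) (nat_lit 4) (nat_lit 48) (nat_lit 5) (nat_lit 48) (nat_lit 4) (nat_lit 432) (nat_lit 313) (nat_lit 275)) (XT.lf (nat_lit 0) (nat_lit 23114380938) (nat_lit 152) (nat_lit 2296926076) (nat_lit 0) (nat_lit 19424091289) (nat_lit 45) (nat_lit 5) (nat_lit 47) (nat_lit 4) (nat_lit 45) (nat_lit 4) (nat_lit 433) (nat_lit 313) (nat_lit 274))))))))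
noncomputable def xc11 : XT := (XT.nd (nat_lit 51324) (nat_lit 0) (nat_lit 684) (XT.nd (nat_lit 50232) (nat_lit 0) (nat_lit 4636) (XT.nd (nat_lit 468) (nat_lit 228) (nat_lit 0) (XT.nd (nat_lit 234) (nat_lit 456) (nat_lit 0) (XT.nd (nat_lit 78) (nat_lit 228) (nat_lit 0) (XT.lf (nat_lit 0) (nat_lit 6189220834) (nat_lit 152) (nat_lit 37455162216) (nat_lit 0) (nat_lit 2576508736) (nat_lit 42) (nat_lit 5) (nat_lit 44) (nat_lit 4) (nat_lit 42) (nat_lit 4) (nat_lit 434) (nat_lit 313) (nat_lit 273)) (XT.nd (nat_lit 78) (nat_lit 152) (nat_lit 0) (XT.lf (nat_lit 0) (nat_lit 20103290434) (nat_lit 76) (nat_lit 15593786209) (nat_lit 76) (nat_lit 11952591623) (nat_lit 41) (nat_lit 4) (nat_lit 42) (nat_lit 5) (nat_lit 42) (nat_lit 4) (nat_lit 435) (nat_lit 313) (nat_lit 272)) (XT.lf (nat_lit 0) (nat_lit 17713072436) (nat_lit 152) (nat_lit 17264418386) (nat_lit 0) (nat_lit 14151595964) (nat_lit 39) (nat_lit 5)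 (nat_lit 41) (nat_lit 4) (nat_lit 39) (nat_lit 4) (nat_lit 436) (nat_lit 313) (nat_lit 271)))) (XT.nd (nat_lit 78) (nat_lit 380) (nat_lit 0) (XT.lf (nat_lit 0) (nat_lit 44111053513) (nat_lit 76) (nat_lit 5068740867) (nat_lit 76) (nat_lit 1482182398) (nat_lit 38) (nat_lit 4) (nat_lit 39) (nat_lit 5) (nat_lit 39) (nat_lit 4) (nat_lit 437) (nat_lit 313) (nat_lit 270)) (XT.nd (nat_lit 78) (nat_lit 152) (nat_lit 0) (XT.lf (nat_lit 0) (nat_lit 4441147549) (nat_lit 76) (nat_lit 25652560855) (nat_lit 76) (nat_lit 22147273394) (nat_lit 35) (nat_lit 4) (nat_lit 36) (nat_lit 5) (nat_lit 36) (nat_lit 4) (nat_lit 438) (nat_lit 313) (nat_lit 269)) (XT.lf (nat_lit 0) (nat_lit 9769018275) (nat_lit 152) (nat_lit 37763459856) (nat_lit 0) (nat_lit 6344382404) (nat_lit 33) (nat_lit 5) (nat_lit 35) (nat_lit 4) (nat_lit 33) (nat_lit 4) (nat_lit 439) (nat_lit 313) (nat_lit 268))))) (XT.nd (nat_lit 49452) (nat_lit 0)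 (nat_lit 7068) (XT.nd (nat_lit 78) (nat_lit 152) (nat_lit 0) (XT.lf (nat_lit 0) (nat_lit 28102628153) (nat_lit 76) (nat_lit 15454186819) (nat_lit 76) (nat_lit 12009127938) (nat_lit 32) (nat_lit 4) (nat_lit 33) (nat_lit 5) (nat_lit 33) (nat_lit 4) (nat_lit 440) (nat_lit 313) (nat_lit 267)) (XT.nd (nat_lit 49296) (nat_lit 0) (nat_lit 8132) (XT.lf (nat_lit 0) (nat_lit 21946510700) (nat_lit 152) (nat_lit 16783543295) (nat_lit 0) (nat_lit 18582909372) (nat_lit 30) (nat_lit 5) (nat_lit 32) (nat_lit 4) (nat_lit 30) (nat_lit 4) (nat_lit 441) (nat_lit 313) (nat_lit 266)) (XT.lf (nat_lit 0) (nat_lit 2543408568) (nat_lit 152) (nat_lit 2234412737) (nat_lit 0) (nat_lit 2543408568) (nat_lit 137) (nat_lit 5) (nat_lit 139) (nat_lit 4) (nat_lit 137) (nat_lit 4) (nat_lit 392) (nat_lit 314) (nat_lit 314)))) (XT.nd (nat_lit 156) (nat_lit 608) (nat_lit 0) (XT.nd (nat_lit 78) (nat_lit 152) (nat_lit 0) (XT.lf (nat_lit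 0) (nat_lit 2535065898) (nat_lit 152) (nat_lit 10416690886) (nat_lit 0) (nat_lit 2038909370) (nat_lit 133) (nat_lit 5) (nat_lit 135) (nat_lit 4) (nat_lit 133) (nat_lit 4) (nat_lit 393) (nat_lit 314) (nat_lit 313)) (XT.lf (nat_lit 0) (nat_lit 13867677611) (nat_lit 152) (nat_lit 1226307253) (nat_lit 152) (nat_lit 257620697) (nat_lit 131) (nat_lit 4) (nat_lit 133) (nat_lit 5) (nat_lit 133) (nat_lit 4) (nat_lit 394) (nat_lit 314) (nat_lit 312))) (XT.nd (nat_lit 78) (nat_lit 304) (nat_lit 0) (XT.lf (nat_lit 0) (nat_lit 7722693335) (nat_lit 152) (nat_lit 4689237756) (nat_lit 152) (nat_lit 3311844405) (nat_lit 127) (nat_lit 4) (nat_lit 129) (nat_lit 5) (nat_lit 129) (nat_lit 4) (nat_lit 395) (nat_lit 314) (nat_lit 311)) (XT.lf (nat_lit 0) (nat_lit 1050244024) (nat_lit 152) (nat_lit 8400722681) (nat_lit 152) (nat_lit 6659452236) (nat_lit 123) (nat_lit 4) (nat_lit 125) (nat_lit 5) (nat_lit 125) (nat_lit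 4) (nat_lit 396) (nat_lit 314) (nat_lit 310)))))) (XT.nd (nat_lit 546) (nat_lit 1216) (nat_lit 0) (XT.nd (nat_lit 234) (nat_lit 684) (nat_lit 0) (XT.nd (nat_lit 78) (nat_lit 380) (nat_lit 0) (XT.lf (nat_lit 0) (nat_lit 6253089835) (nat_lit 152) (nat_lit 6068306755) (nat_lit 0) (nat_lit 4188985059) (nat_lit 121) (nat_lit 5) (nat_lit 123) (nat_lit 4) (nat_lit 121) (nat_lit 4) (nat_lit 397) (nat_lit 314) (nat_lit 309)) (XT.nd (nat_lit 78) (nat_lit 76) (nat_lit 0) (XT.lf (nat_lit 0) (nat_lit 2755978102) (nat_lit 152) (nat_lit 13763071205) (nat_lit 0) (nat_lit 406592102) (nat_lit 117) (nat_lit 5) (nat_lit 119) (nat_lit 4) (nat_lit 117) (nat_lit 4) (nat_lit 398) (nat_lit 314) (nat_lit 308)) (XT.lf (nat_lit 0) (nat_lit 12660282435) (nat_lit 76) (nat_lit 3686255619) (nat_lit 76) (nat_lit 1007916492) (nat_lit 116) (nat_lit 4) (nat_lit 117) (nat_lit 5) (nat_lit 117) (nat_lit 4) (nat_lit 399) (nat_lit 314)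 (nat_lit 307)))) (XT.nd (nat_lit 156) (nat_lit 304) (nat_lit 0) (XT.nd (nat_lit 78) (nat_lit 152) (nat_lit 0) (XT.lf (nat_lit 0) (nat_lit 4615892015) (nat_lit 76) (nat_lit 8043347409) (nat_lit 76) (nat_lit 5138854383) (nat_lit 113) (nat_lit 4) (nat_lit 114) (nat_lit 5) (nat_lit 114) (nat_lit 4) (nat_lit 400) (nat_lit 314) (nat_lit 306)) (XT.lf (nat_lit 0) (nat_lit 8659392982) (nat_lit 152) (nat_lit 4040321277) (nat_lit 0) (nat_lit 5558254327) (nat_lit 111) (nat_lit 5) (nat_lit 113) (nat_lit 4) (nat_lit 111) (nat_lit 4) (nat_lit 401) (nat_lit 314) (nat_lit 305))) (XT.nd (nat_lit 78) (nat_lit 76) (nat_lit 0) (XT.lf (nat_lit 0) (nat_lit 4335887214) (nat_lit 152) (nat_lit 13333622332) (nat_lit 0) (nat_lit 1065024431) (nat_lit 108) (nat_lit 5) (nat_lit 110) (nat_lit 4) (nat_lit 108) (nat_lit 4) (nat_lit 402) (nat_lit 314) (nat_lit 304)) (XT.lf (nat_lit 0) (nat_lit 15093006901) (nat_lit 76) (nat_lit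 3826534156) (nat_lit 76) (nat_lit 308006083) (nat_lit 107) (nat_lit 4) (nat_lit 108) (nat_lit 5) (nat_lit 108) (nat_lit 4) (nat_lit 403) (nat_lit 314) (nat_lit 303))))) (XT.nd (nat_lit 234) (nat_lit 608) (nat_lit 0) (XT.nd (nat_lit 78) (nat_lit 380) (nat_lit 0) (XT.lf (nat_lit 0) (nat_lit 5314426009) (nat_lit 76) (nat_lit 9033673306) (nat_lit 76) (nat_lit 5388624977) (nat_lit 104) (nat_lit 4) (nat_lit 105) (nat_lit 5) (nat_lit 105) (nat_lit 4) (nat_lit 404) (nat_lit 314) (nat_lit 302)) (XT.nd (nat_lit 78) (nat_lit 228) (nat_lit 0) (XT.lf (nat_lit 0) (nat_lit 9406631387) (nat_lit 152) (nat_lit 5201949116) (nat_lit 0) (nat_lit 5656005034) (nat_lit 102) (nat_lit 5) (nat_lit 104) (nat_lit 4) (nat_lit 102) (nat_lit 4) (nat_lit 405) (nat_lit 314) (nat_lit 301)) (XT.lf (nat_lit 0) (nat_lit 4075946158) (nat_lit 152) (nat_lit 16497123660) (nat_lit 0) (nat_lit 238773572) (nat_lit 99) (nat_lit 5) (nat_lit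 101) (nat_lit 4) (nat_lit 99) (nat_lit 4) (nat_lit 406) (nat_lit 314) (nat_lit 300)))) (XT.nd (nat_lit 156) (nat_lit 304) (nat_lit 0) (XT.nd (nat_lit 78) (nat_lit 228) (nat_lit 0) (XT.lf (nat_lit 0) (nat_lit 14094008009) (nat_lit 76) (nat_lit 5653205595) (nat_lit 76) (nat_lit 1629568460) (nat_lit 98) (nat_lit 4) (nat_lit 99) (nat_lit 5) (nat_lit 99) (nat_lit 4) (nat_lit 407) (nat_lit 314) (nat_lit 299)) (XT.lf (nat_lit 0) (nat_lit 2147877313) (nat_lit 76) (nat_lit 11946323776) (nat_lit 76) (nat_lit 7867467057) (nat_lit 95) (nat_lit 4) (nat_lit 96) (nat_lit 5) (nat_lit 96) (nat_lit 4) (nat_lit 408) (nat_lit 314) (nat_lit 298))) (XT.nd (nat_lit 78) (nat_lit 152) (nat_lit 0) (XT.lf (nat_lit 0) (nat_lit 8039977742) (nat_lit 152) (nat_lit 10606503139) (nat_lit 0) (nat_lit 3920502520) (nat_lit 93) (nat_lit 5) (nat_lit 95) (nat_lit 4) (nat_lit 93) (nat_lit 4) (nat_lit 409) (nat_lit 314) (nat_lit 297))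 (XT.lf (nat_lit 0) (nat_lit 1515818966) (nat_lit 152) (nat_lit 1194191440) (nat_lit 76) (nat_lit 20484932552) (nat_lit 91) (nat_lit 5) (nat_lit 93) (nat_lit 5) (nat_lit 92) (nat_lit 4) (nat_lit 410) (nat_lit 314) (nat_lit 296))))))) (XT.nd (nat_lit 1014) (nat_lit 1976) (nat_lit 0) (XT.nd (nat_lit 468) (nat_lit 988) (nat_lit 0) (XT.nd (nat_lit 234) (nat_lit 456) (nat_lit 0) (XT.nd (nat_lit 78) (nat_lit 380) (nat_lit 0) (XT.lf (nat_lit 0) (nat_lit 8535470735) (nat_lit 76) (nat_lit 9796820296) (nat_lit 76) (nat_lit 5509536100) (nat_lit 89) (nat_lit 4) (nat_lit 90) (nat_lit 5) (nat_lit 90) (nat_lit 4) (nat_lit 411) (nat_lit 314) (nat_lit 295)) (XT.nd (nat_lit 78) (nat_lit 228) (nat_lit 0) (XT.lf (nat_lit 0) (nat_lit 11412585745) (nat_lit 152) (nat_lit 5979761007) (nat_lit 0) (nat_lit 7120366076) (nat_lit 87) (nat_lit 5) (nat_lit 89) (nat_lit 4) (nat_lit 87) (nat_lit 4) (nat_lit 412) (nat_lit 314) (nat_lit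 294)) (XT.lf (nat_lit 0) (nat_lit 3668412414) (nat_lit 76) (nat_lit 313980977) (nat_lit 152) (nat_lit 21225816707) (nat_lit 84) (nat_lit 5) (nat_lit 85) (nat_lit 5) (nat_lit 86) (nat_lit 4) (nat_lit 413) (nat_lit 314) (nat_lit 293)))) (XT.nd (nat_lit 78) (nat_lit 380) (nat_lit 0) (XT.lf (nat_lit 0) (nat_lit 13595559430) (nat_lit 76) (nat_lit 8365589990) (nat_lit 76) (nat_lit 3964050477) (nat_lit 83) (nat_lit 4) (nat_lit 84) (nat_lit 5) (nat_lit 84) (nat_lit 4) (nat_lit 414) (nat_lit 314) (nat_lit 292)) (XT.nd (nat_lit 78) (nat_lit 228) (nat_lit 0) (XT.lf (nat_lit 0) (nat_lit 14072616652) (nat_lit 152) (nat_lit 2902113314) (nat_lit 0) (nat_lit 9693581323) (nat_lit 81) (nat_lit 5) (nat_lit 83) (nat_lit 4) (nat_lit 81) (nat_lit 4) (nat_lit 415) (nat_lit 314) (nat_lit 291)) (XT.lf (nat_lit 0) (nat_lit 5643040913) (nat_lit 152) (nat_lit 20500911439) (nat_lit 0) (nat_lit 1293819377) (nat_lit 78) (nat_lit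 5) (nat_lit 80) (nat_lit 4) (nat_lit 78) (nat_lit 4) (nat_lit 416) (nat_lit 314) (nat_lit 290))))) (XT.nd (nat_lit 234) (nat_lit 532) (nat_lit 0) (XT.nd (nat_lit 78) (nat_lit 380) (nat_lit 0) (XT.lf (nat_lit 0) (nat_lit 17024100540) (nat_lit 76) (nat_lit 7825337633) (nat_lit 76) (nat_lit 3383039026) (nat_lit 77) (nat_lit 4) (nat_lit 78) (nat_lit 5) (nat_lit 78) (nat_lit 4) (nat_lit 417) (nat_lit 314) (nat_lit 289)) (XT.nd (nat_lit 78) (nat_lit 228) (nat_lit 0) (XT.lf (nat_lit 0) (nat_lit 15874951329) (nat_lit 152) (nat_lit 1704281851) (nat_lit 0) (nat_lit 11475977117) (nat_lit 75) (nat_lit 5) (nat_lit 77) (nat_lit 4) (nat_lit 75) (nat_lit 4) (nat_lit 418) (nat_lit 314) (nat_lit 288)) (XT.lf (nat_lit 0) (nat_lit 6306020289) (nat_lit 152) (nat_lit 21645177209) (nat_lit 0) (nat_lit 1955594155) (nat_lit 72) (nat_lit 5) (nat_lit 74) (nat_lit 4) (nat_lit 72) (nat_lit 4) (nat_lit 419) (nat_lit 314) (nat_lit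 287)))) (XT.nd (nat_lit 156) (nat_lit 304) (nat_lit 0) (XT.nd (nat_lit 78) (nat_lit 152) (nat_lit 0) (XT.lf (nat_lit 0) (nat_lit 18467841992) (nat_lit 76) (nat_lit 8372509745) (nat_lit 76) (nat_lit 3946295625) (nat_lit 71) (nat_lit 4) (nat_lit 72) (nat_lit 5) (nat_lit 72) (nat_lit 4) (nat_lit 420) (nat_lit 314) (nat_lit 286)) (XT.lf (nat_lit 0) (nat_lit 16647416293) (nat_lit 152) (nat_lit 2769755607) (nat_lit 0) (nat_lit 12280044299) (nat_lit 69) (nat_lit 5) (nat_lit 71) (nat_lit 4) (nat_lit 69) (nat_lit 4) (nat_lit 421) (nat_lit 314) (nat_lit 285))) (XT.nd (nat_lit 78) (nat_lit 76) (nat_lit 0) (XT.lf (nat_lit 0) (nat_lit 5776124105) (nat_lit 152) (nat_lit 25392845738) (nat_lit 0) (nat_lit 1471161252) (nat_lit 66) (nat_lit 5) (nat_lit 68) (nat_lit 4) (nat_lit 66) (nat_lit 4) (nat_lit 422) (nat_lit 314) (nat_lit 284)) (XT.lf (nat_lit 0) (nat_lit 17516545701) (nat_lit 76) (nat_lit 10231682449) (nat_lit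 76) (nat_lit 5865009244) (nat_lit 65) (nat_lit 4) (nat_lit 66) (nat_lit 5) (nat_lit 66) (nat_lit 4) (nat_lit 423) (nat_lit 314) (nat_lit 283)))))) (XT.nd (nat_lit 546) (nat_lit 912) (nat_lit 0) (XT.nd (nat_lit 234) (nat_lit 608) (nat_lit 0) (XT.nd (nat_lit 78) (nat_lit 304) (nat_lit 0) (XT.lf (nat_lit 0) (nat_lit 16187168021) (nat_lit 152) (nat_lit 6542973285) (nat_lit 0) (nat_lit 11890619508) (nat_lit 63) (nat_lit 5) (nat_lit 65) (nat_lit 4) (nat_lit 63) (nat_lit 4) (nat_lit 424) (nat_lit 314) (nat_lit 282)) (XT.nd (nat_lit 78) (nat_lit 76) (nat_lit 0) (XT.lf (nat_lit 0) (nat_lit 3427755628) (nat_lit 76) (nat_lit 404090166) (nat_lit 152) (nat_lit 31833332837) (nat_lit 60) (nat_lit 5) (nat_lit 61) (nat_lit 5) (nat_lit 62) (nat_lit 4) (nat_lit 425) (nat_lit 314) (nat_lit 281)) (XT.lf (nat_lit 0) (nat_lit 13694206937) (nat_lit 76) (nat_lit 13660395318) (nat_lit 76) (nat_lit 9385981332) (nat_lit 59)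 (nat_lit 4) (nat_lit 60) (nat_lit 5) (nat_lit 60) (nat_lit 4) (nat_lit 426) (nat_lit 314) (nat_lit 280)))) (XT.nd (nat_lit 156) (nat_lit 304) (nat_lit 0) (XT.nd (nat_lit 78) (nat_lit 152) (nat_lit 0) (XT.lf (nat_lit 0) (nat_lit 14256496024) (nat_lit 152) (nat_lit 13538567994) (nat_lit 0) (nat_lit 10060118469) (nat_lit 57) (nat_lit 5) (nat_lit 59) (nat_lit 4) (nat_lit 57) (nat_lit 4) (nat_lit 427) (nat_lit 314) (nat_lit 279)) (XT.lf (nat_lit 0) (nat_lit 272949923) (nat_lit 152) (nat_lit 3686537842) (nat_lit 76) (nat_lit 35051093483) (nat_lit 55) (nat_lit 5) (nat_lit 57) (nat_lit 5) (nat_lit 56) (nat_lit 4) (nat_lit 428) (nat_lit 314) (nat_lit 278))) (XT.nd (nat_lit 78) (nat_lit 152) (nat_lit 0) (XT.lf (nat_lit 0) (nat_lit 6449119226) (nat_lit 76) (nat_lit 18954521132) (nat_lit 76) (nat_lit 14796494199) (nat_lit 53) (nat_lit 4) (nat_lit 54) (nat_lit 5) (nat_lit 54) (nat_lit 4) (nat_lit 429) (nat_lit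 314) (nat_lit 277)) (XT.lf (nat_lit 0) (nat_lit 10577980135) (nat_lit 152) (nat_lit 24351830679) (nat_lit 0) (nat_lit 6503229871) (nat_lit 51) (nat_lit 5) (nat_lit 53) (nat_lit 4) (nat_lit 51) (nat_lit 4) (nat_lit 430) (nat_lit 314) (nat_lit 276))))) (XT.nd (nat_lit 234) (nat_lit 456) (nat_lit 0) (XT.nd (nat_lit 78) (nat_lit 380) (nat_lit 0) (XT.lf (nat_lit 0) (nat_lit 28024868077) (nat_lit 76) (nat_lit 9396954495) (nat_lit 76) (nat_lit 5286174792) (nat_lit 50) (nat_lit 4) (nat_lit 51) (nat_lit 5) (nat_lit 51) (nat_lit 4) (nat_lit 431) (nat_lit 314) (nat_lit 275)) (XT.nd (nat_lit 78) (nat_lit 228) (nat_lit 0) (XT.lf (nat_lit 0) (nat_lit 21643577039) (nat_lit 152) (nat_lit 4762597878) (nat_lit 0) (nat_lit 17619214462) (nat_lit 48) (nat_lit 5) (nat_lit 50) (nat_lit 4) (nat_lit 48) (nat_lit 4) (nat_lit 432) (nat_lit 314) (nat_lit 274)) (XT.lf (nat_lit 0) (nat_lit 4828926356) (nat_lit 152) (nat_lit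 39670566929) (nat_lit 0) (nat_lit 890974411) (nat_lit 45) (nat_lit 5) (nat_lit 47) (nat_lit 4) (nat_lit 45) (nat_lit 4) (nat_lit 433) (nat_lit 314) (nat_lit 273)))) (XT.nd (nat_lit 156) (nat_lit 228) (nat_lit 0) (XT.nd (nat_lit 78) (nat_lit 152) (nat_lit 0) (XT.lf (nat_lit 0) (nat_lit 16487797903) (nat_lit 76) (nat_lit 17137994230) (nat_lit 76) (nat_lit 13170705322) (nat_lit 44) (nat_lit 4) (nat_lit 45) (nat_lit 5) (nat_lit 45) (nat_lit 4) (nat_lit 434) (nat_lit 314) (nat_lit 272)) (XT.lf (nat_lit 0) (nat_lit 15788741912) (nat_lit 152) (nat_lit 20554613735) (nat_lit 0) (nat_lit 11909878928) (nat_lit 42) (nat_lit 5) (nat_lit 44) (nat_lit 4) (nat_lit 42) (nat_lit 4) (nat_lit 435) (nat_lit 314) (nat_lit 271))) (XT.nd (nat_lit 78) (nat_lit 152) (nat_lit 0) (XT.lf (nat_lit 0) (nat_lit 39343628483) (nat_lit 76) (nat_lit 7161265861) (nat_lit 76) (nat_lit 3256568420) (nat_lit 41) (nat_lit 4) (nat_lit 42)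 (nat_lit 5) (nat_lit 42) (nat_lit 4) (nat_lit 436) (nat_lit 314) (nat_lit 270)) (XT.lf (nat_lit 0) (nat_lit 27535945009) (nat_lit 152) (nat_lit 60390543) (nat_lit 0) (nat_lit 23721089004) (nat_lit 39) (nat_lit 5) (nat_lit 41) (nat_lit 4) (nat_lit 39) (nat_lit 4) (nat_lit 437) (nat_lit 314) (nat_lit 269))))))))
noncomputable def xc12 : XT := (XT.nd (nat_lit 51168) (nat_lit 0) (nat_lit 304) (XT.nd (nat_lit 50076) (nat_lit 0) (nat_lit 4180) (XT.nd (nat_lit 49530) (nat_lit 0) (nat_lit 6460) (XT.nd (nat_lit 234) (nat_lit 76) (nat_lit 0) (XT.nd (nat_lit 78) (nat_lit 228) (nat_lit 0) (XT.lf (nat_lit 0) (nat_lit 7382678533) (nat_lit 152) (nat_lit 41888740495) (nat_lit 0) (nat_lit 3656847353) (nat_lit 36) (nat_lit 5) (nat_lit 38) (nat_lit 4) (nat_lit 36) (nat_lit 4) (nat_lit 438) (nat_lit 314) (nat_lit 268)) (XT.nd (nat_lit 78) (nat_lit 152) (nat_lit 0) (XT.lf (nat_lit 0) (nat_lit 22396808473) (nat_lit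 76) (nat_lit 17970018156) (nat_lit 76) (nat_lit 14223151275) (nat_lit 35) (nat_lit 4) (nat_lit 36) (nat_lit 5) (nat_lit 36) (nat_lit 4) (nat_lit 439) (nat_lit 314) (nat_lit 267)) (XT.lf (nat_lit 0) (nat_lit 18942814326) (nat_lit 152) (nat_lit 22081699877) (nat_lit 0) (nat_lit 15285629004) (nat_lit 33) (nat_lit 5) (nat_lit 35) (nat_lit 4) (nat_lit 33) (nat_lit 4) (nat_lit 440) (nat_lit 314) (nat_lit 266)))) (XT.nd (nat_lit 49140) (nat_lit 0) (nat_lit 8132) (XT.lf (nat_lit 0) (nat_lit 46574053931) (nat_lit 76) (nat_lit 7596410725) (nat_lit 76) (nat_lit 3920701131) (nat_lit 32) (nat_lit 4) (nat_lit 33) (nat_lit 5) (nat_lit 33) (nat_lit 4) (nat_lit 441) (nat_lit 314) (nat_lit 265)) (XT.nd (nat_lit 78) (nat_lit 304) (nat_lit 0) (XT.lf (nat_lit 0) (nat_lit 3295080474) (nat_lit 152) (nat_lit 1846743415) (nat_lit 152) (nat_lit 1846743415) (nat_lit 143) (nat_lit 4) (nat_lit 145) (nat_lit 5) (nat_lit 145)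 (nat_lit 4) (nat_lit 390) (nat_lit 315) (nat_lit 315)) (XT.lf (nat_lit 0) (nat_lit 1047699085) (nat_lit 152) (nat_lit 6906003175) (nat_lit 152) (nat_lit 6353312091) (nat_lit 139) (nat_lit 4) (nat_lit 141) (nat_lit 5) (nat_lit 141) (nat_lit 4) (nat_lit 391) (nat_lit 315) (nat_lit 314))))) (XT.nd (nat_lit 234) (nat_lit 1064) (nat_lit 0) (XT.nd (nat_lit 78) (nat_lit 456) (nat_lit 0) (XT.lf (nat_lit 0) (nat_lit 5421455939) (nat_lit 152) (nat_lit 4853241013) (nat_lit 0) (nat_lit 4373821429) (nat_lit 137) (nat_lit 5) (nat_lit 139) (nat_lit 4) (nat_lit 137) (nat_lit 4) (nat_lit 392) (nat_lit 315) (nat_lit 313)) (XT.nd (nat_lit 78) (nat_lit 152) (nat_lit 0) (XT.lf (nat_lit 0) (nat_lit 2639208014) (nat_lit 152) (nat_lit 11214405702) (nat_lit 0) (nat_lit 1149557105) (nat_lit 133) (nat_lit 5) (nat_lit 135) (nat_lit 4) (nat_lit 133) (nat_lit 4) (nat_lit 393) (nat_lit 315) (nat_lit 312)) (XT.lf (nat_lit 0)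 (nat_lit 12676111837) (nat_lit 152) (nat_lit 2316915444) (nat_lit 152) (nat_lit 377235937) (nat_lit 131) (nat_lit 4) (nat_lit 133) (nat_lit 5) (nat_lit 133) (nat_lit 4) (nat_lit 394) (nat_lit 315) (nat_lit 311)))) (XT.nd (nat_lit 156) (nat_lit 608) (nat_lit 0) (XT.nd (nat_lit 78) (nat_lit 152) (nat_lit 0) (XT.lf (nat_lit 0) (nat_lit 6073863646) (nat_lit 152) (nat_lit 5987451619) (nat_lit 152) (nat_lit 3688152425) (nat_lit 127) (nat_lit 4) (nat_lit 129) (nat_lit 5) (nat_lit 129) (nat_lit 4) (nat_lit 395) (nat_lit 315) (nat_lit 310)) (XT.lf (nat_lit 0) (nat_lit 8846392677) (nat_lit 152) (nat_lit 1067589363) (nat_lit 0) (nat_lit 6229305889) (nat_lit 125) (nat_lit 5) (nat_lit 127) (nat_lit 4) (nat_lit 125) (nat_lit 4) (nat_lit 396) (nat_lit 315) (nat_lit 309))) (XT.nd (nat_lit 78) (nat_lit 304) (nat_lit 0) (XT.lf (nat_lit 0) (nat_lit 5383407958) (nat_lit 152) (nat_lit 8680582639) (nat_lit 0) (nat_lit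 2486784193) (nat_lit 121) (nat_lit 5) (nat_lit 123) (nat_lit 4) (nat_lit 121) (nat_lit 4) (nat_lit 397) (nat_lit 315) (nat_lit 308)) (XT.lf (nat_lit 0) (nat_lit 32183076) (nat_lit 76) (nat_lit 1577486165) (nat_lit 152) (nat_lit 15364247537) (nat_lit 117) (nat_lit 5) (nat_lit 118) (nat_lit 5) (nat_lit 119) (nat_lit 4) (nat_lit 398) (nat_lit 315) (nat_lit 307)))))) (XT.nd (nat_lit 546) (nat_lit 1140) (nat_lit 0) (XT.nd (nat_lit 234) (nat_lit 684) (nat_lit 0) (XT.nd (nat_lit 78) (nat_lit 380) (nat_lit 0) (XT.lf (nat_lit 0) (nat_lit 9056420963) (nat_lit 76) (nat_lit 5904000540) (nat_lit 76) (nat_lit 2449502642) (nat_lit 116) (nat_lit 4) (nat_lit 117) (nat_lit 5) (nat_lit 117) (nat_lit 4) (nat_lit 399) (nat_lit 315) (nat_lit 306)) (XT.nd (nat_lit 78) (nat_lit 152) (nat_lit 0) (XT.lf (nat_lit 0) (nat_lit 406249837) (nat_lit 76) (nat_lit 10549988450) (nat_lit 76) (nat_lit 6906427207) (nat_lit 113) (nat_lit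 4) (nat_lit 114) (nat_lit 5) (nat_lit 114) (nat_lit 4) (nat_lit 400) (nat_lit 315) (nat_lit 305)) (XT.lf (nat_lit 0) (nat_lit 6666788586) (nat_lit 152) (nat_lit 8802546640) (nat_lit 0) (nat_lit 2861500475) (nat_lit 111) (nat_lit 5) (nat_lit 113) (nat_lit 4) (nat_lit 111) (nat_lit 4) (nat_lit 401) (nat_lit 315) (nat_lit 304)))) (XT.nd (nat_lit 156) (nat_lit 380) (nat_lit 0) (XT.nd (nat_lit 78) (nat_lit 76) (nat_lit 0) (XT.lf (nat_lit 0) (nat_lit 24047331) (nat_lit 76) (nat_lit 1987987492) (nat_lit 152) (nat_lit 16804922476) (nat_lit 108) (nat_lit 5) (nat_lit 109) (nat_lit 5) (nat_lit 110) (nat_lit 4) (nat_lit 402) (nat_lit 315) (nat_lit 303)) (XT.lf (nat_lit 0) (nat_lit 9172607276) (nat_lit 76) (nat_lit 7161599558) (nat_lit 76) (nat_lit 2983608084) (nat_lit 107) (nat_lit 4) (nat_lit 108) (nat_lit 5) (nat_lit 108) (nat_lit 4) (nat_lit 403) (nat_lit 315) (nat_lit 302))) (XT.nd (nat_lit 78) (nat_lit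 228) (nat_lit 0) (XT.lf (nat_lit 0) (nat_lit 11394999059) (nat_lit 152) (nat_lit 1322056020) (nat_lit 0) (nat_lit 7120599843) (nat_lit 105) (nat_lit 5) (nat_lit 107) (nat_lit 4) (nat_lit 105) (nat_lit 4) (nat_lit 404) (nat_lit 315) (nat_lit 301)) (XT.lf (nat_lit 0) (nat_lit 6107912971) (nat_lit 152) (nat_lit 12511262983) (nat_lit 0) (nat_lit 1756349409) (nat_lit 102) (nat_lit 5) (nat_lit 104) (nat_lit 4) (nat_lit 102) (nat_lit 4) (nat_lit 405) (nat_lit 315) (nat_lit 300))))) (XT.nd (nat_lit 234) (nat_lit 684) (nat_lit 0) (XT.nd (nat_lit 78) (nat_lit 304) (nat_lit 0) (XT.lf (nat_lit 0) (nat_lit 431616125) (nat_lit 152) (nat_lit 3667441313) (nat_lit 76) (nat_lit 16833745246) (nat_lit 100) (nat_lit 5) (nat_lit 102) (nat_lit 5) (nat_lit 101) (nat_lit 4) (nat_lit 406) (nat_lit 315) (nat_lit 299)) (XT.nd (nat_lit 78) (nat_lit 152) (nat_lit 0) (XT.lf (nat_lit 0) (nat_lit 5428330169) (nat_lit 76) (nat_lit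 10334244639) (nat_lit 76) (nat_lit 5745375812) (nat_lit 98) (nat_lit 4) (nat_lit 99) (nat_lit 5) (nat_lit 99) (nat_lit 4) (nat_lit 407) (nat_lit 315) (nat_lit 298)) (XT.lf (nat_lit 0) (nat_lit 9723040973) (nat_lit 152) (nat_lit 7277426887) (nat_lit 0) (nat_lit 5103625760) (nat_lit 96) (nat_lit 5) (nat_lit 98) (nat_lit 4) (nat_lit 96) (nat_lit 4) (nat_lit 408) (nat_lit 315) (nat_lit 297)))) (XT.nd (nat_lit 156) (nat_lit 380) (nat_lit 0) (XT.nd (nat_lit 78) (nat_lit 76) (nat_lit 0) (XT.lf (nat_lit 0) (nat_lit 1773613385) (nat_lit 76) (nat_lit 1452698033) (nat_lit 152) (nat_lit 19496043790) (nat_lit 93) (nat_lit 5) (nat_lit 94) (nat_lit 5) (nat_lit 95) (nat_lit 4) (nat_lit 409) (nat_lit 315) (nat_lit 296)) (XT.lf (nat_lit 0) (nat_lit 11125623541) (nat_lit 76) (nat_lit 8507633626) (nat_lit 76) (nat_lit 3726336987) (nat_lit 92) (nat_lit 4) (nat_lit 93) (nat_lit 5) (nat_lit 93) (nat_lit 4) (nat_lit 410)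 (nat_lit 315) (nat_lit 295))) (XT.nd (nat_lit 78) (nat_lit 228) (nat_lit 0) (XT.lf (nat_lit 0) (nat_lit 12738343424) (nat_lit 152) (nat_lit 3319338887) (nat_lit 0) (nat_lit 7962605789) (nat_lit 90) (nat_lit 5) (nat_lit 92) (nat_lit 4) (nat_lit 90) (nat_lit 4) (nat_lit 411) (nat_lit 315) (nat_lit 294)) (XT.lf (nat_lit 0) (nat_lit 5360567089) (nat_lit 152) (nat_lit 18743736757) (nat_lit 0) (nat_lit 600302107) (nat_lit 87) (nat_lit 5) (nat_lit 89) (nat_lit 4) (nat_lit 87) (nat_lit 4) (nat_lit 412) (nat_lit 315) (nat_lit 293))))))) (XT.nd (nat_lit 1014) (nat_lit 1976) (nat_lit 0) (XT.nd (nat_lit 468) (nat_lit 988) (nat_lit 0) (XT.nd (nat_lit 234) (nat_lit 456) (nat_lit 0) (XT.nd (nat_lit 78) (nat_lit 380) (nat_lit 0) (XT.lf (nat_lit 0) (nat_lit 15480852342) (nat_lit 76) (nat_lit 7404222422) (nat_lit 76) (nat_lit 2526217914) (nat_lit 86) (nat_lit 4) (nat_lit 87) (nat_lit 5) (nat_lit 87) (nat_lit 4)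 (nat_lit 413) (nat_lit 315) (nat_lit 292)) (XT.nd (nat_lit 78) (nat_lit 228) (nat_lit 0) (XT.lf (nat_lit 0) (nat_lit 15032516141) (nat_lit 152) (nat_lit 922851811) (nat_lit 0) (nat_lit 10187722558) (nat_lit 84) (nat_lit 5) (nat_lit 86) (nat_lit 4) (nat_lit 84) (nat_lit 4) (nat_lit 414) (nat_lit 315) (nat_lit 291)) (XT.lf (nat_lit 0) (nat_lit 6663489463) (nat_lit 152) (nat_lit 18377691556) (nat_lit 0) (nat_lit 1859143519) (nat_lit 81) (nat_lit 5) (nat_lit 83) (nat_lit 4) (nat_lit 81) (nat_lit 4) (nat_lit 415) (nat_lit 315) (nat_lit 290)))) (XT.nd (nat_lit 78) (nat_lit 380) (nat_lit 0) (XT.lf (nat_lit 0) (nat_lit 18189290082) (nat_lit 76) (nat_lit 7197172819) (nat_lit 76) (nat_lit 2296957491) (nat_lit 80) (nat_lit 4) (nat_lit 81) (nat_lit 5) (nat_lit 81) (nat_lit 4) (nat_lit 416) (nat_lit 315) (nat_lit 289)) (XT.nd (nat_lit 78) (nat_lit 228) (nat_lit 0) (XT.lf (nat_lit 0) (nat_lit 16460338772) (nat_lit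 152) (nat_lit 419063838) (nat_lit 0) (nat_lit 11614203332) (nat_lit 78) (nat_lit 5) (nat_lit 80) (nat_lit 4) (nat_lit 78) (nat_lit 4) (nat_lit 417) (nat_lit 315) (nat_lit 288)) (XT.lf (nat_lit 0) (nat_lit 6958222350) (nat_lit 152) (nat_lit 20202398387) (nat_lit 0) (nat_lit 2171271779) (nat_lit 75) (nat_lit 5) (nat_lit 77) (nat_lit 4) (nat_lit 75) (nat_lit 4) (nat_lit 418) (nat_lit 315) (nat_lit 287))))) (XT.nd (nat_lit 234) (nat_lit 532) (nat_lit 0) (XT.nd (nat_lit 78) (nat_lit 380) (nat_lit 0) (XT.lf (nat_lit 0) (nat_lit 18897267760) (nat_lit 76) (nat_lit 8083181370) (nat_lit 76) (nat_lit 3218169174) (nat_lit 74) (nat_lit 4) (nat_lit 75) (nat_lit 5) (nat_lit 75) (nat_lit 4) (nat_lit 419) (nat_lit 315) (nat_lit 286)) (XT.nd (nat_lit 78) (nat_lit 228) (nat_lit 0) (XT.lf (nat_lit 0) (nat_lit 16849615973) (nat_lit 152) (nat_lit 2191542296) (nat_lit 0) (nat_lit 12054124127) (nat_lit 72) (nat_lit 5)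 (nat_lit 74) (nat_lit 4) (nat_lit 72) (nat_lit 4) (nat_lit 420) (nat_lit 315) (nat_lit 285)) (XT.lf (nat_lit 0) (nat_lit 6052709133) (nat_lit 152) (nat_lit 24640849578) (nat_lit 0) (nat_lit 1330152062) (nat_lit 69) (nat_lit 5) (nat_lit 71) (nat_lit 4) (nat_lit 69) (nat_lit 4) (nat_lit 421) (nat_lit 315) (nat_lit 284)))) (XT.nd (nat_lit 156) (nat_lit 304) (nat_lit 0) (XT.nd (nat_lit 78) (nat_lit 152) (nat_lit 0) (XT.lf (nat_lit 0) (nat_lit 17194438888) (nat_lit 76) (nat_lit 10286855813) (nat_lit 76) (nat_lit 5500737080) (nat_lit 68) (nat_lit 4) (nat_lit 69) (nat_lit 5) (nat_lit 69) (nat_lit 4) (nat_lit 422) (nat_lit 315) (nat_lit 283)) (XT.lf (nat_lit 0) (nat_lit 15997593757) (nat_lit 152) (nat_lit 6684459212) (nat_lit 0) (nat_lit 11292104777) (nat_lit 66) (nat_lit 5) (nat_lit 68) (nat_lit 4) (nat_lit 66) (nat_lit 4) (nat_lit 423) (nat_lit 315) (nat_lit 282))) (XT.nd (nat_lit 78) (nat_lit 76) (nat_lit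 0) (XT.lf (nat_lit 0) (nat_lit 2811780660) (nat_lit 76) (nat_lit 918880791) (nat_lit 152) (nat_lit 31271951181) (nat_lit 63) (nat_lit 5) (nat_lit 64) (nat_lit 5) (nat_lit 65) (nat_lit 4) (nat_lit 424) (nat_lit 315) (nat_lit 281)) (XT.lf (nat_lit 0) (nat_lit 12605050412) (nat_lit 76) (nat_lit 14065530305) (nat_lit 76) (nat_lit 9390996509) (nat_lit 62) (nat_lit 4) (nat_lit 63) (nat_lit 5) (nat_lit 63) (nat_lit 4) (nat_lit 425) (nat_lit 315) (nat_lit 280)))))) (XT.nd (nat_lit 546) (nat_lit 912) (nat_lit 0) (XT.nd (nat_lit 234) (nat_lit 608) (nat_lit 0) (XT.nd (nat_lit 78) (nat_lit 304) (nat_lit 0) (XT.lf (nat_lit 0) (nat_lit 13666797565) (nat_lit 152) (nat_lit 14411778870) (nat_lit 0) (nat_lit 9080560344) (nat_lit 60) (nat_lit 5) (nat_lit 62) (nat_lit 4) (nat_lit 60) (nat_lit 4) (nat_lit 426) (nat_lit 315) (nat_lit 279)) (XT.nd (nat_lit 78) (nat_lit 228) (nat_lit 0) (XT.lf (nat_lit 0) (nat_lit 33255298427)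 (nat_lit 76) (nat_lit 4836521513) (nat_lit 76) (nat_lit 204708200) (nat_lit 59) (nat_lit 4) (nat_lit 60) (nat_lit 5) (nat_lit 60) (nat_lit 4) (nat_lit 427) (nat_lit 315) (nat_lit 278)) (XT.lf (nat_lit 0) (nat_lit 4578069867) (nat_lit 76) (nat_lit 19714609337) (nat_lit 76) (nat_lit 15175561655) (nat_lit 56) (nat_lit 4) (nat_lit 57) (nat_lit 5) (nat_lit 57) (nat_lit 4) (nat_lit 428) (nat_lit 315) (nat_lit 277)))) (XT.nd (nat_lit 156) (nat_lit 380) (nat_lit 0) (XT.nd (nat_lit 78) (nat_lit 76) (nat_lit 0) (XT.lf (nat_lit 0) (nat_lit 9580228368) (nat_lit 152) (nat_lit 25967652894) (nat_lit 0) (nat_lit 5134420119) (nat_lit 54) (nat_lit 5) (nat_lit 56) (nat_lit 4) (nat_lit 54) (nat_lit 4) (nat_lit 429) (nat_lit 315) (nat_lit 276)) (XT.lf (nat_lit 0) (nat_lit 25131907235) (nat_lit 76) (nat_lit 10644044373) (nat_lit 76) (nat_lit 6161125801) (nat_lit 53) (nat_lit 4) (nat_lit 54) (nat_lit 5) (nat_lit 54)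 (nat_lit 4) (nat_lit 430) (nat_lit 315) (nat_lit 275))) (XT.nd (nat_lit 78) (nat_lit 228) (nat_lit 0) (XT.lf (nat_lit 0) (nat_lit 20121863808) (nat_lit 152) (nat_lit 7377177442) (nat_lit 0) (nat_lit 15735201929) (nat_lit 51) (nat_lit 5) (nat_lit 53) (nat_lit 4) (nat_lit 51) (nat_lit 4) (nat_lit 431) (nat_lit 315) (nat_lit 274)) (XT.lf (nat_lit 0) (nat_lit 2532227624) (nat_lit 76) (nat_lit 892190733) (nat_lit 152) (nat_lit 41154581755) (nat_lit 48) (nat_lit 5) (nat_lit 49) (nat_lit 5) (nat_lit 50) (nat_lit 4) (nat_lit 432) (nat_lit 315) (nat_lit 273))))) (XT.nd (nat_lit 234) (nat_lit 608) (nat_lit 0) (XT.nd (nat_lit 78) (nat_lit 228) (nat_lit 0) (XT.lf (nat_lit 0) (nat_lit 12756928301) (nat_lit 76) (nat_lit 18763367192) (nat_lit 76) (nat_lit 14442527166) (nat_lit 47) (nat_lit 4) (nat_lit 48) (nat_lit 5) (nat_lit 48) (nat_lit 4) (nat_lit 433) (nat_lit 315) (nat_lit 272)) (XT.nd (nat_lit 78) (nat_lit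 76) (nat_lit 0) (XT.lf (nat_lit 0) (nat_lit 13829612053) (nat_lit 152) (nat_lit 23960920075) (nat_lit 0) (nat_lit 9606681771) (nat_lit 45) (nat_lit 5) (nat_lit 47) (nat_lit 4) (nat_lit 45) (nat_lit 4) (nat_lit 434) (nat_lit 315) (nat_lit 271)) (XT.lf (nat_lit 0) (nat_lit 34498191683) (nat_lit 76) (nat_lit 9316225181) (nat_lit 76) (nat_lit 5066685409) (nat_lit 44) (nat_lit 4) (nat_lit 45) (nat_lit 5) (nat_lit 45) (nat_lit 4) (nat_lit 435) (nat_lit 315) (nat_lit 270)))) (XT.nd (nat_lit 156) (nat_lit 228) (nat_lit 0) (XT.nd (nat_lit 78) (nat_lit 228) (nat_lit 0) (XT.lf (nat_lit 0) (nat_lit 25004537317) (nat_lit 152) (nat_lit 4554401935) (nat_lit 0) (nat_lit 20854166303) (nat_lit 42) (nat_lit 5) (nat_lit 44) (nat_lit 4) (nat_lit 42) (nat_lit 4) (nat_lit 436) (nat_lit 315) (nat_lit 269)) (XT.lf (nat_lit 0) (nat_lit 4978380394) (nat_lit 152) (nat_lit 46096066151) (nat_lit 0) (nat_lit 926143862) (nat_lit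 39) (nat_lit 5) (nat_lit 41) (nat_lit 4) (nat_lit 39) (nat_lit 4) (nat_lit 437) (nat_lit 315) (nat_lit 268))) (XT.nd (nat_lit 78) (nat_lit 152) (nat_lit 0) (XT.lf (nat_lit 0) (nat_lit 16648999091) (nat_lit 76) (nat_lit 20530104577) (nat_lit 76) (nat_lit 16456201274) (nat_lit 38) (nat_lit 4) (nat_lit 39) (nat_lit 5) (nat_lit 39) (nat_lit 4) (nat_lit 438) (nat_lit 315) (nat_lit 267)) (XT.lf (nat_lit 0) (nat_lit 15940352040) (nat_lit 152) (nat_lit 27423599360) (nat_lit 0) (nat_lit 11965072113) (nat_lit 36) (nat_lit 5) (nat_lit 38) (nat_lit 4) (nat_lit 36) (nat_lit 4) (nat_lit 439) (nat_lit 315) (nat_lit 266))))))))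
noncomputable def xc13 : XT := (XT.nd (nat_lit 51012) (nat_lit 0) (nat_lit 380) (XT.nd (nat_lit 49920) (nat_lit 0) (nat_lit 4256) (XT.nd (nat_lit 49374) (nat_lit 0) (nat_lit 6460) (XT.nd (nat_lit 49140) (nat_lit 0) (nat_lit 8056) (XT.nd (nat_lit 78) (nat_lit 152) (nat_lit 0) (XT.lf (nat_lit 0) (nat_lit 39601550073) (nat_lit 76) (nat_lit 10736844921) (nat_lit 76) (nat_lit 6742484994) (nat_lit 35) (nat_lit 4) (nat_lit 36) (nat_lit 5) (nat_lit 36) (nat_lit 4) (nat_lit 440) (nat_lit 315) (nat_lit 265)) (XT.nd (nat_lit 48984) (nat_lit 0) (nat_lit 8816) (XT.lf (nat_lit 0) (nat_lit 27767819113) (nat_lit 152) (nat_lit 7249337731) (nat_lit 0) (nat_lit 23872157602) (nat_lit 33) (nat_lit 5) (nat_lit 35) (nat_lit 4) (nat_lit 33) (nat_lit 4) (nat_lit 441) (nat_lit 315) (nat_lit 264)) (XT.lf (nat_lit 0) (nat_lit 866087646) (nat_lit 152) (nat_lit 4941361403) (nat_lit 0) (nat_lit 866087646) (nat_lit 149) (nat_lit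 5) (nat_lit 151) (nat_lit 4) (nat_lit 149) (nat_lit 4) (nat_lit 388) (nat_lit 316) (nat_lit 316)))) (XT.nd (nat_lit 78) (nat_lit 608) (nat_lit 0) (XT.lf (nat_lit 0) (nat_lit 11710873163) (nat_lit 152) (nat_lit 1282298113) (nat_lit 152) (nat_lit 666630644) (nat_lit 147) (nat_lit 4) (nat_lit 149) (nat_lit 5) (nat_lit 149) (nat_lit 4) (nat_lit 389) (nat_lit 316) (nat_lit 315)) (XT.nd (nat_lit 78) (nat_lit 304) (nat_lit 0) (XT.lf (nat_lit 0) (nat_lit 6225955001) (nat_lit 152) (nat_lit 4461994914) (nat_lit 152) (nat_lit 3294987691) (nat_lit 143) (nat_lit 4) (nat_lit 145) (nat_lit 5) (nat_lit 145) (nat_lit 4) (nat_lit 390) (nat_lit 316) (nat_lit 314)) (XT.lf (nat_lit 0) (nat_lit 291642256) (nat_lit 152) (nat_lit 7843365934) (nat_lit 152) (nat_lit 6183976751) (nat_lit 139) (nat_lit 4) (nat_lit 141) (nat_lit 5) (nat_lit 141) (nat_lit 4) (nat_lit 391) (nat_lit 316) (nat_lit 313))))) (XT.nd (nat_lit 234)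 (nat_lit 988) (nat_lit 0) (XT.nd (nat_lit 78) (nat_lit 456) (nat_lit 0) (XT.lf (nat_lit 0) (nat_lit 5378534597) (nat_lit 152) (nat_lit 6007402902) (nat_lit 0) (nat_lit 3280771211) (nat_lit 137) (nat_lit 5) (nat_lit 139) (nat_lit 4) (nat_lit 137) (nat_lit 4) (nat_lit 392) (nat_lit 316) (nat_lit 312)) (XT.nd (nat_lit 78) (nat_lit 152) (nat_lit 0) (XT.lf (nat_lit 0) (nat_lit 2215110944) (nat_lit 76) (nat_lit 137797324) (nat_lit 152) (nat_lit 12675261923) (nat_lit 133) (nat_lit 5) (nat_lit 134) (nat_lit 5) (nat_lit 135) (nat_lit 4) (nat_lit 393) (nat_lit 316) (nat_lit 311)) (XT.lf (nat_lit 0) (nat_lit 10687016841) (nat_lit 152) (nat_lit 3814841286) (nat_lit 152) (nat_lit 899550543) (nat_lit 131) (nat_lit 4) (nat_lit 133) (nat_lit 5) (nat_lit 133) (nat_lit 4) (nat_lit 394) (nat_lit 316) (nat_lit 310)))) (XT.nd (nat_lit 156) (nat_lit 532) (nat_lit 0) (XT.nd (nat_lit 78) (nat_lit 152) (nat_lit 0) (XT.lf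 (nat_lit 0) (nat_lit 3595713048) (nat_lit 152) (nat_lit 7709524469) (nat_lit 152) (nat_lit 4482844910) (nat_lit 127) (nat_lit 4) (nat_lit 129) (nat_lit 5) (nat_lit 129) (nat_lit 4) (nat_lit 395) (nat_lit 316) (nat_lit 309)) (XT.lf (nat_lit 0) (nat_lit 7838635518) (nat_lit 152) (nat_lit 4010852252) (nat_lit 0) (nat_lit 4339501227) (nat_lit 125) (nat_lit 5) (nat_lit 127) (nat_lit 4) (nat_lit 125) (nat_lit 4) (nat_lit 396) (nat_lit 316) (nat_lit 308))) (XT.nd (nat_lit 78) (nat_lit 228) (nat_lit 0) (XT.lf (nat_lit 0) (nat_lit 4083768345) (nat_lit 152) (nat_lit 12173284585) (nat_lit 0) (nat_lit 347728868) (nat_lit 121) (nat_lit 5) (nat_lit 123) (nat_lit 4) (nat_lit 121) (nat_lit 4) (nat_lit 397) (nat_lit 316) (nat_lit 307)) (XT.lf (nat_lit 0) (nat_lit 62773516) (nat_lit 228) (nat_lit 3931296589) (nat_lit 76) (nat_lit 13040833952) (nat_lit 118) (nat_lit 5) (nat_lit 121) (nat_lit 5) (nat_lit 119) (nat_lit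 4) (nat_lit 398) (nat_lit 316) (nat_lit 306)))))) (XT.nd (nat_lit 546) (nat_lit 1064) (nat_lit 0) (XT.nd (nat_lit 234) (nat_lit 608) (nat_lit 0) (XT.nd (nat_lit 78) (nat_lit 380) (nat_lit 0) (XT.lf (nat_lit 0) (nat_lit 4535532166) (nat_lit 76) (nat_lit 8591428932) (nat_lit 76) (nat_lit 4352547267) (nat_lit 116) (nat_lit 4) (nat_lit 117) (nat_lit 5) (nat_lit 117) (nat_lit 4) (nat_lit 399) (nat_lit 316) (nat_lit 305)) (XT.nd (nat_lit 78) (nat_lit 228) (nat_lit 0) (XT.lf (nat_lit 0) (nat_lit 8832730316) (nat_lit 152) (nat_lit 4666370441) (nat_lit 0) (nat_lit 4441425711) (nat_lit 114) (nat_lit 5) (nat_lit 116) (nat_lit 4) (nat_lit 114) (nat_lit 4) (nat_lit 400) (nat_lit 316) (nat_lit 304)) (XT.lf (nat_lit 0) (nat_lit 3873324496) (nat_lit 76) (nat_lit 327353931) (nat_lit 152) (nat_lit 14217884012) (nat_lit 111) (nat_lit 5) (nat_lit 112) (nat_lit 5) (nat_lit 113) (nat_lit 4) (nat_lit 401) (nat_lit 316)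 (nat_lit 303)))) (XT.nd (nat_lit 156) (nat_lit 304) (nat_lit 0) (XT.nd (nat_lit 78) (nat_lit 228) (nat_lit 0) (XT.lf (nat_lit 0) (nat_lit 12656831799) (nat_lit 76) (nat_lit 5508517344) (nat_lit 76) (nat_lit 747071709) (nat_lit 110) (nat_lit 4) (nat_lit 111) (nat_lit 5) (nat_lit 111) (nat_lit 4) (nat_lit 402) (nat_lit 316) (nat_lit 302)) (XT.lf (nat_lit 0) (nat_lit 2229996579) (nat_lit 76) (nat_lit 11020537072) (nat_lit 76) (nat_lit 6173134600) (nat_lit 107) (nat_lit 4) (nat_lit 108) (nat_lit 5) (nat_lit 108) (nat_lit 4) (nat_lit 403) (nat_lit 316) (nat_lit 301))) (XT.nd (nat_lit 78) (nat_lit 152) (nat_lit 0) (XT.lf (nat_lit 0) (nat_lit 7982684619) (nat_lit 152) (nat_lit 8901536866) (nat_lit 0) (nat_lit 3068757374) (nat_lit 105) (nat_lit 5) (nat_lit 107) (nat_lit 4) (nat_lit 105) (nat_lit 4) (nat_lit 404) (nat_lit 316) (nat_lit 300)) (XT.lf (nat_lit 0) (nat_lit 2306426812) (nat_lit 152) (nat_lit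 429701056) (nat_lit 76) (nat_lit 17766019268) (nat_lit 103) (nat_lit 5) (nat_lit 105) (nat_lit 5) (nat_lit 104) (nat_lit 4) (nat_lit 405) (nat_lit 316) (nat_lit 299))))) (XT.nd (nat_lit 234) (nat_lit 532) (nat_lit 0) (XT.nd (nat_lit 78) (nat_lit 380) (nat_lit 0) (XT.lf (nat_lit 0) (nat_lit 8354555609) (nat_lit 76) (nat_lit 8929696105) (nat_lit 76) (nat_lit 3783921625) (nat_lit 101) (nat_lit 4) (nat_lit 102) (nat_lit 5) (nat_lit 102) (nat_lit 4) (nat_lit 406) (nat_lit 316) (nat_lit 298)) (XT.nd (nat_lit 78) (nat_lit 228) (nat_lit 0) (XT.lf (nat_lit 0) (nat_lit 11260031488) (nat_lit 152) (nat_lit 4300201203) (nat_lit 0) (nat_lit 6095005091) (nat_lit 99) (nat_lit 5) (nat_lit 101) (nat_lit 4) (nat_lit 99) (nat_lit 4) (nat_lit 407) (nat_lit 316) (nat_lit 297)) (XT.lf (nat_lit 0) (nat_lit 4420982177) (nat_lit 76) (nat_lit 380536867) (nat_lit 152) (nat_lit 17462075440) (nat_lit 96) (nat_lit 5) (nat_lit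 97) (nat_lit 5) (nat_lit 98) (nat_lit 4) (nat_lit 408) (nat_lit 316) (nat_lit 296)))) (XT.nd (nat_lit 156) (nat_lit 304) (nat_lit 0) (XT.nd (nat_lit 78) (nat_lit 152) (nat_lit 0) (XT.lf (nat_lit 0) (nat_lit 13386631196) (nat_lit 76) (nat_lit 7412439911) (nat_lit 76) (nat_lit 2092530852) (nat_lit 95) (nat_lit 4) (nat_lit 96) (nat_lit 5) (nat_lit 96) (nat_lit 4) (nat_lit 409) (nat_lit 316) (nat_lit 295)) (XT.lf (nat_lit 0) (nat_lit 13929473355) (nat_lit 152) (nat_lit 985944244) (nat_lit 0) (nat_lit 8626799979) (nat_lit 93) (nat_lit 5) (nat_lit 95) (nat_lit 4) (nat_lit 93) (nat_lit 4) (nat_lit 410) (nat_lit 316) (nat_lit 294))) (XT.nd (nat_lit 78) (nat_lit 76) (nat_lit 0) (XT.lf (nat_lit 0) (nat_lit 6604452312) (nat_lit 152) (nat_lit 16282136754) (nat_lit 0) (nat_lit 1328890436) (nat_lit 90) (nat_lit 5) (nat_lit 92) (nat_lit 4) (nat_lit 90) (nat_lit 4) (nat_lit 411) (nat_lit 316) (nat_lit 293)) (XT.lf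 (nat_lit 0) (nat_lit 17062707190) (nat_lit 76) (nat_lit 6623056899) (nat_lit 76) (nat_lit 1226223311) (nat_lit 89) (nat_lit 4) (nat_lit 90) (nat_lit 5) (nat_lit 90) (nat_lit 4) (nat_lit 412) (nat_lit 316) (nat_lit 292))))))) (XT.nd (nat_lit 1014) (nat_lit 1900) (nat_lit 0) (XT.nd (nat_lit 468) (nat_lit 1064) (nat_lit 0) (XT.nd (nat_lit 234) (nat_lit 456) (nat_lit 0) (XT.nd (nat_lit 78) (nat_lit 228) (nat_lit 0) (XT.lf (nat_lit 0) (nat_lit 769826310) (nat_lit 76) (nat_lit 15107167565) (nat_lit 76) (nat_lit 9755390423) (nat_lit 86) (nat_lit 4) (nat_lit 87) (nat_lit 5) (nat_lit 87) (nat_lit 4) (nat_lit 413) (nat_lit 316) (nat_lit 291)) (XT.nd (nat_lit 78) (nat_lit 76) (nat_lit 0) (XT.lf (nat_lit 0) (nat_lit 7558568543) (nat_lit 152) (nat_lit 16560287926) (nat_lit 0) (nat_lit 2258985666) (nat_lit 84) (nat_lit 5) (nat_lit 86) (nat_lit 4) (nat_lit 84) (nat_lit 4) (nat_lit 414) (nat_lit 316) (nat_lit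 290)) (XT.lf (nat_lit 0) (nat_lit 19077439946) (nat_lit 76) (nat_lit 6735140145) (nat_lit 76) (nat_lit 1336811802) (nat_lit 83) (nat_lit 4) (nat_lit 84) (nat_lit 5) (nat_lit 84) (nat_lit 4) (nat_lit 415) (nat_lit 316) (nat_lit 289)))) (XT.nd (nat_lit 78) (nat_lit 228) (nat_lit 0) (XT.lf (nat_lit 0) (nat_lit 602388635) (nat_lit 76) (nat_lit 16338512336) (nat_lit 76) (nat_lit 11006112682) (nat_lit 80) (nat_lit 4) (nat_lit 81) (nat_lit 5) (nat_lit 81) (nat_lit 4) (nat_lit 416) (nat_lit 316) (nat_lit 288)) (XT.nd (nat_lit 78) (nat_lit 76) (nat_lit 0) (XT.lf (nat_lit 0) (nat_lit 7497385682) (nat_lit 152) (nat_lit 19039162408) (nat_lit 0) (nat_lit 2235874992) (nat_lit 78) (nat_lit 5) (nat_lit 80) (nat_lit 4) (nat_lit 78) (nat_lit 4) (nat_lit 417) (nat_lit 316) (nat_lit 287)) (XT.lf (nat_lit 0) (nat_lit 19076814642) (nat_lit 76) (nat_lit 7945606893) (nat_lit 76) (nat_lit 2603692729) (nat_lit 77) (nat_lit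 4) (nat_lit 78) (nat_lit 5) (nat_lit 78) (nat_lit 4) (nat_lit 418) (nat_lit 316) (nat_lit 286))))) (XT.nd (nat_lit 234) (nat_lit 608) (nat_lit 0) (XT.nd (nat_lit 78) (nat_lit 304) (nat_lit 0) (XT.lf (nat_lit 0) (nat_lit 16953845980) (nat_lit 152) (nat_lit 1862032644) (nat_lit 0) (nat_lit 11693177143) (nat_lit 75) (nat_lit 5) (nat_lit 77) (nat_lit 4) (nat_lit 75) (nat_lit 4) (nat_lit 419) (nat_lit 316) (nat_lit 285)) (XT.nd (nat_lit 78) (nat_lit 76) (nat_lit 0) (XT.lf (nat_lit 0) (nat_lit 6229018564) (nat_lit 152) (nat_lit 24141409208) (nat_lit 0) (nat_lit 1052831154) (nat_lit 72) (nat_lit 5) (nat_lit 74) (nat_lit 4) (nat_lit 72) (nat_lit 4) (nat_lit 420) (nat_lit 316) (nat_lit 284)) (XT.lf (nat_lit 0) (nat_lit 16650451897) (nat_lit 76) (nat_lit 10479063983) (nat_lit 76) (nat_lit 5237408062) (nat_lit 71) (nat_lit 4) (nat_lit 72) (nat_lit 5) (nat_lit 72) (nat_lit 4) (nat_lit 421) (nat_lit 316) (nat_lit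 283)))) (XT.nd (nat_lit 156) (nat_lit 228) (nat_lit 0) (XT.nd (nat_lit 78) (nat_lit 228) (nat_lit 0) (XT.lf (nat_lit 0) (nat_lit 15723177093) (nat_lit 152) (nat_lit 7047028399) (nat_lit 0) (nat_lit 10573655846) (nat_lit 69) (nat_lit 5) (nat_lit 71) (nat_lit 4) (nat_lit 69) (nat_lit 4) (nat_lit 422) (nat_lit 316) (nat_lit 282)) (XT.lf (nat_lit 0) (nat_lit 1986384523) (nat_lit 76) (nat_lit 1557240142) (nat_lit 152) (nat_lit 30812973540) (nat_lit 66) (nat_lit 5) (nat_lit 67) (nat_lit 5) (nat_lit 68) (nat_lit 4) (nat_lit 423) (nat_lit 316) (nat_lit 281))) (XT.nd (nat_lit 78) (nat_lit 152) (nat_lit 0) (XT.lf (nat_lit 0) (nat_lit 11322930028) (nat_lit 76) (nat_lit 14592604891) (nat_lit 76) (nat_lit 9483788870) (nat_lit 65) (nat_lit 4) (nat_lit 66) (nat_lit 5) (nat_lit 66) (nat_lit 4) (nat_lit 424) (nat_lit 316) (nat_lit 280)) (XT.lf (nat_lit 0) (nat_lit 13005907504) (nat_lit 152) (nat_lit 15477572964)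 (nat_lit 0) (nat_lit 7996601407) (nat_lit 63) (nat_lit 5) (nat_lit 65) (nat_lit 4) (nat_lit 63) (nat_lit 4) (nat_lit 425) (nat_lit 316) (nat_lit 279)))))) (XT.nd (nat_lit 546) (nat_lit 912) (nat_lit 0) (XT.nd (nat_lit 234) (nat_lit 532) (nat_lit 0) (XT.nd (nat_lit 78) (nat_lit 380) (nat_lit 0) (XT.lf (nat_lit 0) (nat_lit 31023875504) (nat_lit 76) (nat_lit 5815978858) (nat_lit 76) (nat_lit 759729387) (nat_lit 62) (nat_lit 4) (nat_lit 63) (nat_lit 5) (nat_lit 63) (nat_lit 4) (nat_lit 426) (nat_lit 316) (nat_lit 278)) (XT.nd (nat_lit 78) (nat_lit 152) (nat_lit 0) (XT.lf (nat_lit 0) (nat_lit 2543974245) (nat_lit 76) (nat_lit 20581128147) (nat_lit 76) (nat_lit 15628742277) (nat_lit 59) (nat_lit 4) (nat_lit 60) (nat_lit 5) (nat_lit 60) (nat_lit 4) (nat_lit 427) (nat_lit 316) (nat_lit 277)) (XT.lf (nat_lit 0) (nat_lit 8525503012) (nat_lit 152) (nat_lit 27746599375) (nat_lit 0) (nat_lit 3677226577) (nat_lit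 57) (nat_lit 5) (nat_lit 59) (nat_lit 4) (nat_lit 57) (nat_lit 4) (nat_lit 428) (nat_lit 316) (nat_lit 276)))) (XT.nd (nat_lit 156) (nat_lit 304) (nat_lit 0) (XT.nd (nat_lit 78) (nat_lit 152) (nat_lit 0) (XT.lf (nat_lit 0) (nat_lit 22109905346) (nat_lit 76) (nat_lit 11980379241) (nat_lit 76) (nat_lit 7093879173) (nat_lit 56) (nat_lit 4) (nat_lit 57) (nat_lit 5) (nat_lit 57) (nat_lit 4) (nat_lit 429) (nat_lit 316) (nat_lit 275)) (XT.lf (nat_lit 0) (nat_lit 18559847870) (nat_lit 152) (nat_lit 10121220455) (nat_lit 0) (nat_lit 13780329883) (nat_lit 54) (nat_lit 5) (nat_lit 56) (nat_lit 4) (nat_lit 54) (nat_lit 4) (nat_lit 430) (nat_lit 316) (nat_lit 274))) (XT.nd (nat_lit 78) (nat_lit 152) (nat_lit 0) (XT.lf (nat_lit 0) (nat_lit 1994696060) (nat_lit 152) (nat_lit 763945139) (nat_lit 76) (nat_lit 41027026418) (nat_lit 52) (nat_lit 5) (nat_lit 54) (nat_lit 5) (nat_lit 53) (nat_lit 4) (nat_lit 431) (nat_lit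 316) (nat_lit 273)) (XT.lf (nat_lit 0) (nat_lit 8929104971) (nat_lit 76) (nat_lit 20461540887) (nat_lit 76) (nat_lit 15757428815) (nat_lit 50) (nat_lit 4) (nat_lit 51) (nat_lit 5) (nat_lit 51) (nat_lit 4) (nat_lit 432) (nat_lit 316) (nat_lit 272))))) (XT.nd (nat_lit 234) (nat_lit 532) (nat_lit 0) (XT.nd (nat_lit 78) (nat_lit 228) (nat_lit 0) (XT.lf (nat_lit 0) (nat_lit 11845598182) (nat_lit 152) (nat_lit 27465132250) (nat_lit 0) (nat_lit 7249720919) (nat_lit 48) (nat_lit 5) (nat_lit 50) (nat_lit 4) (nat_lit 48) (nat_lit 4) (nat_lit 433) (nat_lit 316) (nat_lit 271)) (XT.nd (nat_lit 78) (nat_lit 152) (nat_lit 0) (XT.lf (nat_lit 0) (nat_lit 29591763707) (nat_lit 76) (nat_lit 11525921932) (nat_lit 76) (nat_lit 6902636893) (nat_lit 47) (nat_lit 4) (nat_lit 48) (nat_lit 5) (nat_lit 48) (nat_lit 4) (nat_lit 434) (nat_lit 316) (nat_lit 270)) (XT.lf (nat_lit 0) (nat_lit 22465980982) (nat_lit 152) (nat_lit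 9110734604) (nat_lit 0) (nat_lit 17952012358) (nat_lit 45) (nat_lit 5) (nat_lit 47) (nat_lit 4) (nat_lit 45) (nat_lit 4) (nat_lit 435) (nat_lit 316) (nat_lit 269)))) (XT.nd (nat_lit 156) (nat_lit 228) (nat_lit 0) (XT.nd (nat_lit 78) (nat_lit 76) (nat_lit 0) (XT.lf (nat_lit 0) (nat_lit 706167245) (nat_lit 76) (nat_lit 1877217710) (nat_lit 152) (nat_lit 48509318854) (nat_lit 42) (nat_lit 5) (nat_lit 43) (nat_lit 5) (nat_lit 44) (nat_lit 4) (nat_lit 436) (nat_lit 316) (nat_lit 268)) (XT.lf (nat_lit 0) (nat_lit 10874932871) (nat_lit 76) (nat_lit 23127323201) (nat_lit 76) (nat_lit 18699080003) (nat_lit 41) (nat_lit 4) (nat_lit 42) (nat_lit 5) (nat_lit 42) (nat_lit 4) (nat_lit 437) (nat_lit 316) (nat_lit 267))) (XT.nd (nat_lit 78) (nat_lit 76) (nat_lit 0) (XT.lf (nat_lit 0) (nat_lit 12947605170) (nat_lit 152) (nat_lit 32793700676) (nat_lit 0) (nat_lit 8627704909) (nat_lit 39) (nat_lit 5) (nat_lit 41)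 (nat_lit 4) (nat_lit 39) (nat_lit 4) (nat_lit 438) (nat_lit 316) (nat_lit 266)) (XT.lf (nat_lit 0) (nat_lit 32641241469) (nat_lit 76) (nat_lit 13895214731) (nat_lit 76) (nat_lit 9555662069) (nat_lit 38) (nat_lit 4) (nat_lit 39) (nat_lit 5) (nat_lit 39) (nat_lit 4) (nat_lit 439) (nat_lit 316) (nat_lit 265))))))))
noncomputable def xc14 : XT := (XT.nd (nat_lit 50856) (nat_lit 0) (nat_lit 608) (XT.nd (nat_lit 49764) (nat_lit 0) (nat_lit 4484) (XT.nd (nat_lit 49218) (nat_lit 0) (nat_lit 6916) (XT.nd (nat_lit 48984) (nat_lit 0) (nat_lit 8588) (XT.nd (nat_lit 78) (nat_lit 152) (nat_lit 0) (XT.lf (nat_lit 0) (nat_lit 24164616427) (nat_lit 152) (nat_lit 13774753786) (nat_lit 0) (nat_lit 19933287073) (nat_lit 36) (nat_lit 5) (nat_lit 38) (nat_lit 4) (nat_lit 36) (nat_lit 4) (nat_lit 440) (nat_lit 316) (nat_lit 264)) (XT.nd (nat_lit 48828) (nat_lit 0) (nat_lit 9272) (XT.lf (nat_lit 0) (nat_lit 343774675)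 (nat_lit 152) (nat_lit 3550772886) (nat_lit 76) (nat_lit 55823860976) (nat_lit 34) (nat_lit 5) (nat_lit 36) (nat_lit 5) (nat_lit 35) (nat_lit 4) (nat_lit 441) (nat_lit 316) (nat_lit 263)) (XT.lf (nat_lit 0) (nat_lit 371833590) (nat_lit 152) (nat_lit 3001555275) (nat_lit 152) (nat_lit 3001555275) (nat_lit 156) (nat_lit 4) (nat_lit 158) (nat_lit 5) (nat_lit 158) (nat_lit 4) (nat_lit 386) (nat_lit 317) (nat_lit 317)))) (XT.nd (nat_lit 78) (nat_lit 456) (nat_lit 0) (XT.lf (nat_lit 0) (nat_lit 4580968347) (nat_lit 228) (nat_lit 4549296948) (nat_lit 0) (nat_lit 3915123979) (nat_lit 153) (nat_lit 5) (nat_lit 156) (nat_lit 4) (nat_lit 153) (nat_lit 4) (nat_lit 387) (nat_lit 317) (nat_lit 316)) (XT.nd (nat_lit 78) (nat_lit 152) (nat_lit 0) (XT.lf (nat_lit 0) (nat_lit 2189783136) (nat_lit 152) (nat_lit 10235290722) (nat_lit 0) (nat_lit 927664824) (nat_lit 149) (nat_lit 5) (nat_lit 151) (nat_lit 4) (nat_lit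 149) (nat_lit 4) (nat_lit 388) (nat_lit 317) (nat_lit 315)) (XT.lf (nat_lit 0) (nat_lit 11008826827) (nat_lit 152) (nat_lit 2255353318) (nat_lit 152) (nat_lit 406885035) (nat_lit 147) (nat_lit 4) (nat_lit 149) (nat_lit 5) (nat_lit 149) (nat_lit 4) (nat_lit 389) (nat_lit 317) (nat_lit 314))))) (XT.nd (nat_lit 234) (nat_lit 912) (nat_lit 0) (XT.nd (nat_lit 78) (nat_lit 456) (nat_lit 0) (XT.lf (nat_lit 0) (nat_lit 5132470003) (nat_lit 152) (nat_lit 5602341725) (nat_lit 152) (nat_lit 3265548689) (nat_lit 143) (nat_lit 4) (nat_lit 145) (nat_lit 5) (nat_lit 145) (nat_lit 4) (nat_lit 390) (nat_lit 317) (nat_lit 313)) (XT.nd (nat_lit 78) (nat_lit 304) (nat_lit 0) (XT.lf (nat_lit 0) (nat_lit 7957109871) (nat_lit 152) (nat_lit 1198420616) (nat_lit 0) (nat_lit 5187071663) (nat_lit 141) (nat_lit 5) (nat_lit 143) (nat_lit 4) (nat_lit 141) (nat_lit 4) (nat_lit 391) (nat_lit 317) (nat_lit 312)) (XT.lf (nat_lit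 0) (nat_lit 4957950917) (nat_lit 152) (nat_lit 7934059146) (nat_lit 0) (nat_lit 1805063979) (nat_lit 137) (nat_lit 5) (nat_lit 139) (nat_lit 4) (nat_lit 137) (nat_lit 4) (nat_lit 392) (nat_lit 317) (nat_lit 311)))) (XT.nd (nat_lit 156) (nat_lit 456) (nat_lit 0) (XT.nd (nat_lit 78) (nat_lit 228) (nat_lit 0) (XT.lf (nat_lit 0) (nat_lit 1690919081) (nat_lit 228) (nat_lit 161777827) (nat_lit 76) (nat_lit 13212563855) (nat_lit 134) (nat_lit 5) (nat_lit 137) (nat_lit 5) (nat_lit 135) (nat_lit 4) (nat_lit 393) (nat_lit 317) (nat_lit 310)) (XT.lf (nat_lit 0) (nat_lit 7895656681) (nat_lit 152) (nat_lit 5723651269) (nat_lit 152) (nat_lit 1825808122) (nat_lit 131) (nat_lit 4) (nat_lit 133) (nat_lit 5) (nat_lit 133) (nat_lit 4) (nat_lit 394) (nat_lit 317) (nat_lit 309))) (XT.nd (nat_lit 78) (nat_lit 152) (nat_lit 0) (XT.lf (nat_lit 0) (nat_lit 282341183) (nat_lit 152) (nat_lit 9859556480) (nat_lit 152) (nat_lit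 5697813985) (nat_lit 127) (nat_lit 4) (nat_lit 129) (nat_lit 5) (nat_lit 129) (nat_lit 4) (nat_lit 395) (nat_lit 317) (nat_lit 308)) (XT.lf (nat_lit 0) (nat_lit 6415200218) (nat_lit 152) (nat_lit 7807046457) (nat_lit 0) (nat_lit 2025687154) (nat_lit 125) (nat_lit 5) (nat_lit 127) (nat_lit 4) (nat_lit 125) (nat_lit 4) (nat_lit 396) (nat_lit 317) (nat_lit 307)))))) (XT.nd (nat_lit 546) (nat_lit 1140) (nat_lit 0) (XT.nd (nat_lit 234) (nat_lit 684) (nat_lit 0) (XT.nd (nat_lit 78) (nat_lit 304) (nat_lit 0) (XT.lf (nat_lit 0) (nat_lit 95251022) (nat_lit 76) (nat_lit 2277720435) (nat_lit 152) (nat_lit 14298902959) (nat_lit 121) (nat_lit 5) (nat_lit 122) (nat_lit 5) (nat_lit 123) (nat_lit 4) (nat_lit 397) (nat_lit 317) (nat_lit 306)) (XT.nd (nat_lit 78) (nat_lit 152) (nat_lit 0) (XT.lf (nat_lit 0) (nat_lit 8297238460) (nat_lit 152) (nat_lit 6851810732) (nat_lit 152) (nat_lit 1960138924) (nat_lit 119) (nat_lit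 4) (nat_lit 121) (nat_lit 5) (nat_lit 121) (nat_lit 4) (nat_lit 398) (nat_lit 317) (nat_lit 305)) (XT.lf (nat_lit 0) (nat_lit 10850569194) (nat_lit 152) (nat_lit 895329171) (nat_lit 0) (nat_lit 5817211186) (nat_lit 117) (nat_lit 5) (nat_lit 119) (nat_lit 4) (nat_lit 117) (nat_lit 4) (nat_lit 399) (nat_lit 317) (nat_lit 304)))) (XT.nd (nat_lit 156) (nat_lit 304) (nat_lit 0) (XT.nd (nat_lit 78) (nat_lit 152) (nat_lit 0) (XT.lf (nat_lit 0) (nat_lit 6251013425) (nat_lit 152) (nat_lit 10680318102) (nat_lit 0) (nat_lit 1101509971) (nat_lit 114) (nat_lit 5) (nat_lit 116) (nat_lit 4) (nat_lit 114) (nat_lit 4) (nat_lit 400) (nat_lit 317) (nat_lit 303)) (XT.lf (nat_lit 0) (nat_lit 1311758752) (nat_lit 152) (nat_lit 2736869478) (nat_lit 76) (nat_lit 14471032403) (nat_lit 112) (nat_lit 5) (nat_lit 114) (nat_lit 5) (nat_lit 113) (nat_lit 4) (nat_lit 401) (nat_lit 317) (nat_lit 302))) (XT.nd (nat_lit 78) (nat_lit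 152) (nat_lit 0) (XT.lf (nat_lit 0) (nat_lit 5458777388) (nat_lit 76) (nat_lit 9518776308) (nat_lit 76) (nat_lit 4044931624) (nat_lit 110) (nat_lit 4) (nat_lit 111) (nat_lit 5) (nat_lit 111) (nat_lit 4) (nat_lit 402) (nat_lit 317) (nat_lit 301)) (XT.lf (nat_lit 0) (nat_lit 9716464977) (nat_lit 152) (nat_lit 5639125558) (nat_lit 0) (nat_lit 4188110072) (nat_lit 108) (nat_lit 5) (nat_lit 110) (nat_lit 4) (nat_lit 108) (nat_lit 4) (nat_lit 403) (nat_lit 317) (nat_lit 300))))) (XT.nd (nat_lit 234) (nat_lit 684) (nat_lit 0) (XT.nd (nat_lit 78) (nat_lit 228) (nat_lit 0) (XT.lf (nat_lit 0) (nat_lit 2523456299) (nat_lit 76) (nat_lit 1543325006) (nat_lit 152) (nat_lit 16017276881) (nat_lit 105) (nat_lit 5) (nat_lit 106) (nat_lit 5) (nat_lit 107) (nat_lit 4) (nat_lit 404) (nat_lit 317) (nat_lit 299)) (XT.nd (nat_lit 78) (nat_lit 152) (nat_lit 0) (XT.lf (nat_lit 0) (nat_lit 10954534515) (nat_lit 76) (nat_lit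 7720427165) (nat_lit 76) (nat_lit 1966871836) (nat_lit 104) (nat_lit 4) (nat_lit 105) (nat_lit 5) (nat_lit 105) (nat_lit 4) (nat_lit 405) (nat_lit 317) (nat_lit 298)) (XT.lf (nat_lit 0) (nat_lit 12666458842) (nat_lit 152) (nat_lit 1647174243) (nat_lit 0) (nat_lit 6906280087) (nat_lit 102) (nat_lit 5) (nat_lit 104) (nat_lit 4) (nat_lit 102) (nat_lit 4) (nat_lit 406) (nat_lit 317) (nat_lit 297)))) (XT.nd (nat_lit 156) (nat_lit 380) (nat_lit 0) (XT.nd (nat_lit 78) (nat_lit 76) (nat_lit 0) (XT.lf (nat_lit 0) (nat_lit 6250048604) (nat_lit 152) (nat_lit 15071743112) (nat_lit 0) (nat_lit 496566957) (nat_lit 99) (nat_lit 5) (nat_lit 101) (nat_lit 4) (nat_lit 99) (nat_lit 4) (nat_lit 407) (nat_lit 317) (nat_lit 296)) (XT.lf (nat_lit 0) (nat_lit 15345300898) (nat_lit 76) (nat_lit 6499466616) (nat_lit 76) (nat_lit 592580123) (nat_lit 98) (nat_lit 4) (nat_lit 99) (nat_lit 5) (nat_lit 99) (nat_lit 4) (nat_lit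 408) (nat_lit 317) (nat_lit 295))) (XT.nd (nat_lit 78) (nat_lit 152) (nat_lit 0) (XT.lf (nat_lit 0) (nat_lit 1067750769) (nat_lit 76) (nat_lit 13943312582) (nat_lit 76) (nat_lit 8066626808) (nat_lit 95) (nat_lit 4) (nat_lit 96) (nat_lit 5) (nat_lit 96) (nat_lit 4) (nat_lit 409) (nat_lit 317) (nat_lit 294)) (XT.lf (nat_lit 0) (nat_lit 7725905358) (nat_lit 152) (nat_lit 14125274831) (nat_lit 0) (nat_lit 1889229832) (nat_lit 93) (nat_lit 5) (nat_lit 95) (nat_lit 4) (nat_lit 93) (nat_lit 4) (nat_lit 410) (nat_lit 317) (nat_lit 293))))))) (XT.nd (nat_lit 1014) (nat_lit 1976) (nat_lit 0) (XT.nd (nat_lit 468) (nat_lit 988) (nat_lit 0) (XT.nd (nat_lit 234) (nat_lit 456) (nat_lit 0) (XT.nd (nat_lit 78) (nat_lit 380) (nat_lit 0) (XT.lf (nat_lit 0) (nat_lit 18366763183) (nat_lit 76) (nat_lit 6010801072) (nat_lit 76) (nat_lit 49215684) (nat_lit 92) (nat_lit 4) (nat_lit 93) (nat_lit 5) (nat_lit 93) (nat_lit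 4) (nat_lit 411) (nat_lit 317) (nat_lit 292)) (XT.nd (nat_lit 78) (nat_lit 152) (nat_lit 0) (XT.lf (nat_lit 0) (nat_lit 2199105203) (nat_lit 76) (nat_lit 14420029170) (nat_lit 76) (nat_lit 8516585322) (nat_lit 89) (nat_lit 4) (nat_lit 90) (nat_lit 5) (nat_lit 90) (nat_lit 4) (nat_lit 412) (nat_lit 317) (nat_lit 291)) (XT.lf (nat_lit 0) (nat_lit 8342472211) (nat_lit 152) (nat_lit 15023159280) (nat_lit 0) (nat_lit 2504180109) (nat_lit 87) (nat_lit 5) (nat_lit 89) (nat_lit 4) (nat_lit 87) (nat_lit 4) (nat_lit 413) (nat_lit 317) (nat_lit 290)))) (XT.nd (nat_lit 78) (nat_lit 380) (nat_lit 0) (XT.lf (nat_lit 0) (nat_lit 19713024088) (nat_lit 76) (nat_lit 6428430513) (nat_lit 76) (nat_lit 488430581) (nat_lit 86) (nat_lit 4) (nat_lit 87) (nat_lit 5) (nat_lit 87) (nat_lit 4) (nat_lit 414) (nat_lit 317) (nat_lit 289)) (XT.nd (nat_lit 78) (nat_lit 152) (nat_lit 0) (XT.lf (nat_lit 0) (nat_lit 1375845163) (nat_lit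 76) (nat_lit 15950119290) (nat_lit 76) (nat_lit 10089085764) (nat_lit 83) (nat_lit 4) (nat_lit 84) (nat_lit 5) (nat_lit 84) (nat_lit 4) (nat_lit 415) (nat_lit 317) (nat_lit 288)) (XT.lf (nat_lit 0) (nat_lit 7937029337) (nat_lit 152) (nat_lit 18131089022) (nat_lit 0) (nat_lit 2159749169) (nat_lit 81) (nat_lit 5) (nat_lit 83) (nat_lit 4) (nat_lit 81) (nat_lit 4) (nat_lit 416) (nat_lit 317) (nat_lit 287))))) (XT.nd (nat_lit 234) (nat_lit 532) (nat_lit 0) (XT.nd (nat_lit 78) (nat_lit 380) (nat_lit 0) (XT.lf (nat_lit 0) (nat_lit 19029791035) (nat_lit 76) (nat_lit 7949464876) (nat_lit 76) (nat_lit 2089369129) (nat_lit 80) (nat_lit 4) (nat_lit 81) (nat_lit 5) (nat_lit 81) (nat_lit 4) (nat_lit 417) (nat_lit 317) (nat_lit 286)) (XT.nd (nat_lit 78) (nat_lit 228) (nat_lit 0) (XT.lf (nat_lit 0) (nat_lit 16972910026) (nat_lit 152) (nat_lit 1758192616) (nat_lit 0) (nat_lit 11206921942) (nat_lit 78) (nat_lit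 5) (nat_lit 80) (nat_lit 4) (nat_lit 78) (nat_lit 4) (nat_lit 418) (nat_lit 317) (nat_lit 285)) (XT.lf (nat_lit 0) (nat_lit 6317900186) (nat_lit 152) (nat_lit 23871305982) (nat_lit 0) (nat_lit 649049307) (nat_lit 75) (nat_lit 5) (nat_lit 77) (nat_lit 4) (nat_lit 75) (nat_lit 4) (nat_lit 419) (nat_lit 317) (nat_lit 284)))) (XT.nd (nat_lit 156) (nat_lit 304) (nat_lit 0) (XT.nd (nat_lit 78) (nat_lit 152) (nat_lit 0) (XT.lf (nat_lit 0) (nat_lit 15906724122) (nat_lit 76) (nat_lit 10798478967) (nat_lit 76) (nat_lit 5062195521) (nat_lit 74) (nat_lit 4) (nat_lit 75) (nat_lit 5) (nat_lit 75) (nat_lit 4) (nat_lit 420) (nat_lit 317) (nat_lit 283)) (XT.lf (nat_lit 0) (nat_lit 15376054996) (nat_lit 152) (nat_lit 7608802508) (nat_lit 0) (nat_lit 9744496804) (nat_lit 72) (nat_lit 5) (nat_lit 74) (nat_lit 4) (nat_lit 72) (nat_lit 4) (nat_lit 421) (nat_lit 317) (nat_lit 282))) (XT.nd (nat_lit 78) (nat_lit 76) (nat_lit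 0) (XT.lf (nat_lit 0) (nat_lit 973189235) (nat_lit 76) (nat_lit 2309633079) (nat_lit 152) (nat_lit 30443789997) (nat_lit 69) (nat_lit 5) (nat_lit 70) (nat_lit 5) (nat_lit 71) (nat_lit 4) (nat_lit 422) (nat_lit 317) (nat_lit 281)) (XT.lf (nat_lit 0) (nat_lit 9868809495) (nat_lit 76) (nat_lit 15232291716) (nat_lit 76) (nat_lit 9652200235) (nat_lit 68) (nat_lit 4) (nat_lit 69) (nat_lit 5) (nat_lit 69) (nat_lit 4) (nat_lit 423) (nat_lit 317) (nat_lit 280)))))) (XT.nd (nat_lit 546) (nat_lit 988) (nat_lit 0) (XT.nd (nat_lit 234) (nat_lit 532) (nat_lit 0) (XT.nd (nat_lit 78) (nat_lit 304) (nat_lit 0) (XT.lf (nat_lit 0) (nat_lit 12285296435) (nat_lit 152) (nat_lit 16715234332) (nat_lit 0) (nat_lit 6816962632) (nat_lit 66) (nat_lit 5) (nat_lit 68) (nat_lit 4) (nat_lit 66) (nat_lit 4) (nat_lit 424) (nat_lit 317) (nat_lit 279)) (XT.nd (nat_lit 78) (nat_lit 228) (nat_lit 0) (XT.lf (nat_lit 0) (nat_lit 28652158380)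 (nat_lit 76) (nat_lit 6891917081) (nat_lit 76) (nat_lit 1375231603) (nat_lit 65) (nat_lit 4) (nat_lit 66) (nat_lit 5) (nat_lit 66) (nat_lit 4) (nat_lit 425) (nat_lit 317) (nat_lit 278)) (XT.lf (nat_lit 0) (nat_lit 366610322) (nat_lit 76) (nat_lit 21545259467) (nat_lit 76) (nat_lit 16144546173) (nat_lit 62) (nat_lit 4) (nat_lit 63) (nat_lit 5) (nat_lit 63) (nat_lit 4) (nat_lit 426) (nat_lit 317) (nat_lit 277)))) (XT.nd (nat_lit 156) (nat_lit 304) (nat_lit 0) (XT.nd (nat_lit 78) (nat_lit 76) (nat_lit 0) (XT.lf (nat_lit 0) (nat_lit 7424606771) (nat_lit 152) (nat_lit 29669126571) (nat_lit 0) (nat_lit 2139856949) (nat_lit 60) (nat_lit 5) (nat_lit 62) (nat_lit 4) (nat_lit 60) (nat_lit 4) (nat_lit 427) (nat_lit 317) (nat_lit 276)) (XT.lf (nat_lit 0) (nat_lit 18977300712) (nat_lit 76) (nat_lit 13397772443) (nat_lit 76) (nat_lit 8073652279) (nat_lit 59) (nat_lit 4) (nat_lit 60) (nat_lit 5) (nat_lit 60)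 (nat_lit 4) (nat_lit 428) (nat_lit 317) (nat_lit 275))) (XT.nd (nat_lit 78) (nat_lit 152) (nat_lit 0) (XT.lf (nat_lit 0) (nat_lit 16967630595) (nat_lit 152) (nat_lit 12976510811) (nat_lit 0) (nat_lit 11762178433) (nat_lit 57) (nat_lit 5) (nat_lit 59) (nat_lit 4) (nat_lit 57) (nat_lit 4) (nat_lit 429) (nat_lit 317) (nat_lit 274)) (XT.lf (nat_lit 0) (nat_lit 558862737) (nat_lit 152) (nat_lit 4105630765) (nat_lit 76) (nat_lit 38345163832) (nat_lit 55) (nat_lit 5) (nat_lit 57) (nat_lit 5) (nat_lit 56) (nat_lit 4) (nat_lit 430) (nat_lit 317) (nat_lit 273))))) (XT.nd (nat_lit 234) (nat_lit 608) (nat_lit 0) (XT.nd (nat_lit 78) (nat_lit 228) (nat_lit 0) (XT.lf (nat_lit 0) (nat_lit 5021559926) (nat_lit 76) (nat_lit 22224852759) (nat_lit 76) (nat_lit 17105298261) (nat_lit 53) (nat_lit 4) (nat_lit 54) (nat_lit 5) (nat_lit 54) (nat_lit 4) (nat_lit 431) (nat_lit 317) (nat_lit 272)) (XT.nd (nat_lit 78) (nat_lit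 76) (nat_lit 0) (XT.lf (nat_lit 0) (nat_lit 9846127930) (nat_lit 152) (nat_lit 31050226995) (nat_lit 0) (nat_lit 4846045161) (nat_lit 51) (nat_lit 5) (nat_lit 53) (nat_lit 4) (nat_lit 51) (nat_lit 4) (nat_lit 432) (nat_lit 317) (nat_lit 271)) (XT.lf (nat_lit 0) (nat_lit 24640233777) (nat_lit 76) (nat_lit 13783327950) (nat_lit 76) (nat_lit 8755015172) (nat_lit 50) (nat_lit 4) (nat_lit 51) (nat_lit 5) (nat_lit 51) (nat_lit 4) (nat_lit 433) (nat_lit 317) (nat_lit 270)))) (XT.nd (nat_lit 156) (nat_lit 304) (nat_lit 0) (XT.nd (nat_lit 78) (nat_lit 152) (nat_lit 0) (XT.lf (nat_lit 0) (nat_lit 19929001904) (nat_lit 152) (nat_lit 13713696104) (nat_lit 0) (nat_lit 15021042195) (nat_lit 48) (nat_lit 5) (nat_lit 50) (nat_lit 4) (nat_lit 48) (nat_lit 4) (nat_lit 434) (nat_lit 317) (nat_lit 269)) (XT.lf (nat_lit 0) (nat_lit 241321134) (nat_lit 152) (nat_lit 4442937466) (nat_lit 76) (nat_lit 45518740364) (nat_lit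 46) (nat_lit 5) (nat_lit 48) (nat_lit 5) (nat_lit 47) (nat_lit 4) (nat_lit 435) (nat_lit 317) (nat_lit 268))) (XT.nd (nat_lit 78) (nat_lit 152) (nat_lit 0) (XT.lf (nat_lit 0) (nat_lit 5089257432) (nat_lit 76) (nat_lit 25755191569) (nat_lit 76) (nat_lit 20943060272) (nat_lit 44) (nat_lit 4) (nat_lit 45) (nat_lit 5) (nat_lit 45) (nat_lit 4) (nat_lit 436) (nat_lit 317) (nat_lit 267)) (XT.lf (nat_lit 0) (nat_lit 9972612116) (nat_lit 152) (nat_lit 38177539233) (nat_lit 0) (nat_lit 5279385912) (nat_lit 42) (nat_lit 5) (nat_lit 44) (nat_lit 4) (nat_lit 42) (nat_lit 4) (nat_lit 437) (nat_lit 317) (nat_lit 266))))))))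
noncomputable def xc15 : XT := (XT.nd (nat_lit 50700) (nat_lit 0) (nat_lit 1140) (XT.nd (nat_lit 49608) (nat_lit 0) (nat_lit 5016) (XT.nd (nat_lit 49062) (nat_lit 0) (nat_lit 7676) (XT.nd (nat_lit 234) (nat_lit 152) (nat_lit 0) (XT.nd (nat_lit 78) (nat_lit 228) (nat_lit 0) (XT.lf (nat_lit 0) (nat_lit 25706415123) (nat_lit 76) (nat_lit 17065682042) (nat_lit 76) (nat_lit 12352213865) (nat_lit 41) (nat_lit 4) (nat_lit 42) (nat_lit 5) (nat_lit 42) (nat_lit 4) (nat_lit 438) (nat_lit 317) (nat_lit 265)) (XT.nd (nat_lit 78) (nat_lit 76) (nat_lit 0) (XT.lf (nat_lit 0) (nat_lit 20597530333) (nat_lit 152) (nat_lit 20277223548) (nat_lit 0) (nat_lit 16002631065) (nat_lit 39) (nat_lit 5) (nat_lit 41) (nat_lit 4) (nat_lit 39) (nat_lit 4) (nat_lit 439) (nat_lit 317) (nat_lit 264)) (XT.lf (nat_lit 0) (nat_lit 48023682158) (nat_lit 76) (nat_lit 7640864288) (nat_lit 76) (nat_lit 3028139713) (nat_lit 38) (nat_lit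 4) (nat_lit 39) (nat_lit 5) (nat_lit 39) (nat_lit 4) (nat_lit 440) (nat_lit 317) (nat_lit 263)))) (XT.nd (nat_lit 48672) (nat_lit 0) (nat_lit 9500) (XT.lf (nat_lit 0) (nat_lit 32109579025) (nat_lit 152) (nat_lit 839885542) (nat_lit 0) (nat_lit 27614723629) (nat_lit 36) (nat_lit 5) (nat_lit 38) (nat_lit 4) (nat_lit 36) (nat_lit 4) (nat_lit 441) (nat_lit 317) (nat_lit 262)) (XT.nd (nat_lit 78) (nat_lit 380) (nat_lit 0) (XT.lf (nat_lit 0) (nat_lit 5348384230) (nat_lit 152) (nat_lit 372274244) (nat_lit 152) (nat_lit 372274244) (nat_lit 166) (nat_lit 4) (nat_lit 168) (nat_lit 5) (nat_lit 168) (nat_lit 4) (nat_lit 384) (nat_lit 318) (nat_lit 318)) (XT.lf (nat_lit 0) (nat_lit 5742889652) (nat_lit 152) (nat_lit 3731804043) (nat_lit 152) (nat_lit 2990090039) (nat_lit 161) (nat_lit 4) (nat_lit 163) (nat_lit 5) (nat_lit 163) (nat_lit 4) (nat_lit 385) (nat_lit 318) (nat_lit 317))))) (XT.nd (nat_lit 234) (nat_lit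 912) (nat_lit 0) (XT.nd (nat_lit 78) (nat_lit 532) (nat_lit 0) (XT.lf (nat_lit 0) (nat_lit 410082326) (nat_lit 152) (nat_lit 6875586463) (nat_lit 152) (nat_lit 5469656080) (nat_lit 156) (nat_lit 4) (nat_lit 158) (nat_lit 5) (nat_lit 158) (nat_lit 4) (nat_lit 386) (nat_lit 318) (nat_lit 316)) (XT.nd (nat_lit 78) (nat_lit 304) (nat_lit 0) (XT.lf (nat_lit 0) (nat_lit 4913379155) (nat_lit 228) (nat_lit 5228751184) (nat_lit 0) (nat_lit 2914260707) (nat_lit 153) (nat_lit 5) (nat_lit 156) (nat_lit 4) (nat_lit 153) (nat_lit 4) (nat_lit 387) (nat_lit 318) (nat_lit 315)) (XT.lf (nat_lit 0) (nat_lit 2073635362) (nat_lit 76) (nat_lit 230154923) (nat_lit 152) (nat_lit 11065891385) (nat_lit 149) (nat_lit 5) (nat_lit 150) (nat_lit 5) (nat_lit 151) (nat_lit 4) (nat_lit 388) (nat_lit 318) (nat_lit 314)))) (XT.nd (nat_lit 156) (nat_lit 456) (nat_lit 0) (XT.nd (nat_lit 78) (nat_lit 304) (nat_lit 0) (XT.lf (nat_lit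 0) (nat_lit 9603062615) (nat_lit 152) (nat_lit 3588113056) (nat_lit 152) (nat_lit 502442844) (nat_lit 147) (nat_lit 4) (nat_lit 149) (nat_lit 5) (nat_lit 149) (nat_lit 4) (nat_lit 389) (nat_lit 318) (nat_lit 313)) (XT.lf (nat_lit 0) (nat_lit 3307102418) (nat_lit 152) (nat_lit 7117242373) (nat_lit 152) (nat_lit 3605099733) (nat_lit 143) (nat_lit 4) (nat_lit 145) (nat_lit 5) (nat_lit 145) (nat_lit 4) (nat_lit 390) (nat_lit 318) (nat_lit 312))) (XT.nd (nat_lit 78) (nat_lit 304) (nat_lit 0) (XT.lf (nat_lit 0) (nat_lit 7417929614) (nat_lit 152) (nat_lit 3429395162) (nat_lit 0) (nat_lit 3530647051) (nat_lit 141) (nat_lit 5) (nat_lit 143) (nat_lit 4) (nat_lit 141) (nat_lit 4) (nat_lit 391) (nat_lit 318) (nat_lit 311)) (XT.lf (nat_lit 0) (nat_lit 4101315948) (nat_lit 76) (nat_lit 57944560) (nat_lit 152) (nat_lit 10580409461) (nat_lit 137) (nat_lit 5) (nat_lit 138) (nat_lit 5) (nat_lit 139) (nat_lit 4)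 (nat_lit 392) (nat_lit 318) (nat_lit 310)))))) (XT.nd (nat_lit 546) (nat_lit 1140) (nat_lit 0) (XT.nd (nat_lit 234) (nat_lit 912) (nat_lit 0) (XT.nd (nat_lit 78) (nat_lit 380) (nat_lit 0) (XT.lf (nat_lit 0) (nat_lit 667792307) (nat_lit 228) (nat_lit 3280333860) (nat_lit 76) (nat_lit 11165920840) (nat_lit 134) (nat_lit 5) (nat_lit 137) (nat_lit 5) (nat_lit 135) (nat_lit 4) (nat_lit 393) (nat_lit 318) (nat_lit 309)) (XT.nd (nat_lit 78) (nat_lit 152) (nat_lit 0) (XT.lf (nat_lit 0) (nat_lit 4295385263) (nat_lit 152) (nat_lit 8047890178) (nat_lit 152) (nat_lit 3158214047) (nat_lit 131) (nat_lit 4) (nat_lit 133) (nat_lit 5) (nat_lit 133) (nat_lit 4) (nat_lit 394) (nat_lit 318) (nat_lit 308)) (XT.lf (nat_lit 0) (nat_lit 8605766458) (nat_lit 152) (nat_lit 3798542486) (nat_lit 0) (nat_lit 3499052117) (nat_lit 129) (nat_lit 5) (nat_lit 131) (nat_lit 4) (nat_lit 129) (nat_lit 4) (nat_lit 395) (nat_lit 318)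 (nat_lit 307)))) (XT.nd (nat_lit 156) (nat_lit 380) (nat_lit 0) (XT.nd (nat_lit 78) (nat_lit 228) (nat_lit 0) (XT.lf (nat_lit 0) (nat_lit 3847805423) (nat_lit 76) (nat_lit 731927963) (nat_lit 152) (nat_lit 11740318308) (nat_lit 125) (nat_lit 5) (nat_lit 126) (nat_lit 5) (nat_lit 127) (nat_lit 4) (nat_lit 396) (nat_lit 318) (nat_lit 306)) (XT.lf (nat_lit 0) (nat_lit 282153217) (nat_lit 228) (nat_lit 5034112954) (nat_lit 76) (nat_lit 11434889938) (nat_lit 122) (nat_lit 5) (nat_lit 125) (nat_lit 5) (nat_lit 123) (nat_lit 4) (nat_lit 397) (nat_lit 318) (nat_lit 305))) (XT.nd (nat_lit 78) (nat_lit 152) (nat_lit 0) (XT.lf (nat_lit 0) (nat_lit 2589278568) (nat_lit 152) (nat_lit 10172179033) (nat_lit 152) (nat_lit 4435915408) (nat_lit 119) (nat_lit 4) (nat_lit 121) (nat_lit 5) (nat_lit 121) (nat_lit 4) (nat_lit 398) (nat_lit 318) (nat_lit 304)) (XT.lf (nat_lit 0) (nat_lit 8169668684) (nat_lit 152) (nat_lit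 7160092632) (nat_lit 0) (nat_lit 2329850148) (nat_lit 117) (nat_lit 5) (nat_lit 119) (nat_lit 4) (nat_lit 117) (nat_lit 4) (nat_lit 399) (nat_lit 318) (nat_lit 303))))) (XT.nd (nat_lit 234) (nat_lit 684) (nat_lit 0) (XT.nd (nat_lit 78) (nat_lit 228) (nat_lit 0) (XT.lf (nat_lit 0) (nat_lit 454652232) (nat_lit 76) (nat_lit 2773039467) (nat_lit 152) (nat_lit 14911456150) (nat_lit 114) (nat_lit 5) (nat_lit 115) (nat_lit 5) (nat_lit 116) (nat_lit 4) (nat_lit 400) (nat_lit 318) (nat_lit 302)) (XT.nd (nat_lit 78) (nat_lit 152) (nat_lit 0) (XT.lf (nat_lit 0) (nat_lit 8365564212) (nat_lit 76) (nat_lit 8213370770) (nat_lit 76) (nat_lit 2055087465) (nat_lit 113) (nat_lit 4) (nat_lit 114) (nat_lit 5) (nat_lit 114) (nat_lit 4) (nat_lit 401) (nat_lit 318) (nat_lit 301)) (XT.lf (nat_lit 0) (nat_lit 11324861066) (nat_lit 152) (nat_lit 2696772800) (nat_lit 0) (nat_lit 5125584368) (nat_lit 111) (nat_lit 5) (nat_lit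 113) (nat_lit 4) (nat_lit 111) (nat_lit 4) (nat_lit 402) (nat_lit 318) (nat_lit 300)))) (XT.nd (nat_lit 156) (nat_lit 380) (nat_lit 0) (XT.nd (nat_lit 78) (nat_lit 76) (nat_lit 0) (XT.lf (nat_lit 0) (nat_lit 5171797618) (nat_lit 76) (nat_lit 533099824) (nat_lit 152) (nat_lit 13973861001) (nat_lit 108) (nat_lit 5) (nat_lit 109) (nat_lit 5) (nat_lit 110) (nat_lit 4) (nat_lit 403) (nat_lit 318) (nat_lit 299)) (XT.lf (nat_lit 0) (nat_lit 13254720488) (nat_lit 76) (nat_lit 6695130298) (nat_lit 76) (nat_lit 278607974) (nat_lit 107) (nat_lit 4) (nat_lit 108) (nat_lit 5) (nat_lit 108) (nat_lit 4) (nat_lit 404) (nat_lit 318) (nat_lit 298))) (XT.nd (nat_lit 78) (nat_lit 152) (nat_lit 0) (XT.lf (nat_lit 0) (nat_lit 721875175) (nat_lit 76) (nat_lit 13242313000) (nat_lit 76) (nat_lit 6833250887) (nat_lit 104) (nat_lit 4) (nat_lit 105) (nat_lit 5) (nat_lit 105) (nat_lit 4) (nat_lit 405) (nat_lit 318) (nat_lit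 297)) (XT.lf (nat_lit 0) (nat_lit 7583873801) (nat_lit 152) (nat_lit 12606807214) (nat_lit 0) (nat_lit 1195576058) (nat_lit 102) (nat_lit 5) (nat_lit 104) (nat_lit 4) (nat_lit 102) (nat_lit 4) (nat_lit 406) (nat_lit 318) (nat_lit 296))))))) (XT.nd (nat_lit 1014) (nat_lit 1976) (nat_lit 0) (XT.nd (nat_lit 468) (nat_lit 988) (nat_lit 0) (XT.nd (nat_lit 234) (nat_lit 456) (nat_lit 0) (XT.nd (nat_lit 78) (nat_lit 304) (nat_lit 0) (XT.lf (nat_lit 0) (nat_lit 773067167) (nat_lit 152) (nat_lit 4976978385) (nat_lit 76) (nat_lit 16246085040) (nat_lit 100) (nat_lit 5) (nat_lit 102) (nat_lit 5) (nat_lit 101) (nat_lit 4) (nat_lit 407) (nat_lit 318) (nat_lit 295)) (XT.nd (nat_lit 78) (nat_lit 152) (nat_lit 0) (XT.lf (nat_lit 0) (nat_lit 2860070552) (nat_lit 76) (nat_lit 13133998023) (nat_lit 76) (nat_lit 6632262505) (nat_lit 98) (nat_lit 4) (nat_lit 99) (nat_lit 5) (nat_lit 99) (nat_lit 4) (nat_lit 408) (nat_lit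 318) (nat_lit 294)) (XT.lf (nat_lit 0) (nat_lit 8739217122) (nat_lit 152) (nat_lit 12247936264) (nat_lit 0) (nat_lit 2291762524) (nat_lit 96) (nat_lit 5) (nat_lit 98) (nat_lit 4) (nat_lit 96) (nat_lit 4) (nat_lit 409) (nat_lit 318) (nat_lit 293)))) (XT.nd (nat_lit 78) (nat_lit 304) (nat_lit 0) (XT.lf (nat_lit 0) (nat_lit 999184567) (nat_lit 152) (nat_lit 4547767084) (nat_lit 76) (nat_lit 18407949668) (nat_lit 94) (nat_lit 5) (nat_lit 96) (nat_lit 5) (nat_lit 95) (nat_lit 4) (nat_lit 410) (nat_lit 318) (nat_lit 292)) (XT.nd (nat_lit 78) (nat_lit 152) (nat_lit 0) (XT.lf (nat_lit 0) (nat_lit 3371006609) (nat_lit 76) (nat_lit 13892707404) (nat_lit 76) (nat_lit 7389171108) (nat_lit 92) (nat_lit 4) (nat_lit 93) (nat_lit 5) (nat_lit 93) (nat_lit 4) (nat_lit 411) (nat_lit 318) (nat_lit 291)) (XT.lf (nat_lit 0) (nat_lit 9028825470) (nat_lit 152) (nat_lit 13742208019) (nat_lit 0) (nat_lit 2604715544) (nat_lit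 90) (nat_lit 5) (nat_lit 92) (nat_lit 4) (nat_lit 90) (nat_lit 4) (nat_lit 412) (nat_lit 318) (nat_lit 290))))) (XT.nd (nat_lit 234) (nat_lit 532) (nat_lit 0) (XT.nd (nat_lit 78) (nat_lit 304) (nat_lit 0) (XT.lf (nat_lit 0) (nat_lit 256678161) (nat_lit 152) (nat_lit 6007812322) (nat_lit 76) (nat_lit 19859856173) (nat_lit 88) (nat_lit 5) (nat_lit 90) (nat_lit 5) (nat_lit 89) (nat_lit 4) (nat_lit 413) (nat_lit 318) (nat_lit 289)) (XT.nd (nat_lit 78) (nat_lit 152) (nat_lit 0) (XT.lf (nat_lit 0) (nat_lit 1916225258) (nat_lit 76) (nat_lit 15708349949) (nat_lit 76) (nat_lit 9272777592) (nat_lit 86) (nat_lit 4) (nat_lit 87) (nat_lit 5) (nat_lit 87) (nat_lit 4) (nat_lit 414) (nat_lit 318) (nat_lit 288)) (XT.lf (nat_lit 0) (nat_lit 8290118115) (nat_lit 152) (nat_lit 17455195778) (nat_lit 0) (nat_lit 1952424564) (nat_lit 84) (nat_lit 5) (nat_lit 86) (nat_lit 4) (nat_lit 84) (nat_lit 4) (nat_lit 415) (nat_lit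 318) (nat_lit 287)))) (XT.nd (nat_lit 156) (nat_lit 304) (nat_lit 0) (XT.nd (nat_lit 78) (nat_lit 152) (nat_lit 0) (XT.lf (nat_lit 0) (nat_lit 18778160140) (nat_lit 76) (nat_lit 8085250868) (nat_lit 76) (nat_lit 1662257271) (nat_lit 83) (nat_lit 4) (nat_lit 84) (nat_lit 5) (nat_lit 84) (nat_lit 4) (nat_lit 416) (nat_lit 318) (nat_lit 286)) (XT.lf (nat_lit 0) (nat_lit 16919084569) (nat_lit 152) (nat_lit 1858323746) (nat_lit 0) (nat_lit 10604296476) (nat_lit 81) (nat_lit 5) (nat_lit 83) (nat_lit 4) (nat_lit 81) (nat_lit 4) (nat_lit 417) (nat_lit 318) (nat_lit 285))) (XT.nd (nat_lit 78) (nat_lit 76) (nat_lit 0) (XT.lf (nat_lit 0) (nat_lit 6331662629) (nat_lit 152) (nat_lit 23808673521) (nat_lit 0) (nat_lit 127872082) (nat_lit 78) (nat_lit 5) (nat_lit 80) (nat_lit 4) (nat_lit 78) (nat_lit 4) (nat_lit 418) (nat_lit 318) (nat_lit 284)) (XT.lf (nat_lit 0) (nat_lit 14984094501) (nat_lit 76) (nat_lit 11236059722)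 (nat_lit 76) (nat_lit 4962813631) (nat_lit 77) (nat_lit 4) (nat_lit 78) (nat_lit 5) (nat_lit 78) (nat_lit 4) (nat_lit 419) (nat_lit 318) (nat_lit 283)))))) (XT.nd (nat_lit 546) (nat_lit 912) (nat_lit 0) (XT.nd (nat_lit 234) (nat_lit 608) (nat_lit 0) (XT.nd (nat_lit 78) (nat_lit 304) (nat_lit 0) (XT.lf (nat_lit 0) (nat_lit 14967852004) (nat_lit 152) (nat_lit 8349194216) (nat_lit 0) (nat_lit 8813100326) (nat_lit 75) (nat_lit 5) (nat_lit 77) (nat_lit 4) (nat_lit 75) (nat_lit 4) (nat_lit 420) (nat_lit 318) (nat_lit 282)) (XT.nd (nat_lit 78) (nat_lit 152) (nat_lit 0) (XT.lf (nat_lit 0) (nat_lit 2961819239) (nat_lit 152) (nat_lit 203421948) (nat_lit 76) (nat_lit 29946858060) (nat_lit 73) (nat_lit 5) (nat_lit 75) (nat_lit 5) (nat_lit 74) (nat_lit 4) (nat_lit 421) (nat_lit 318) (nat_lit 281)) (XT.lf (nat_lit 0) (nat_lit 8262396607) (nat_lit 76) (nat_lit 15976020861) (nat_lit 76) (nat_lit 9884597763) (nat_lit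 71) (nat_lit 4) (nat_lit 72) (nat_lit 5) (nat_lit 72) (nat_lit 4) (nat_lit 422) (nat_lit 318) (nat_lit 280)))) (XT.nd (nat_lit 156) (nat_lit 380) (nat_lit 0) (XT.nd (nat_lit 78) (nat_lit 76) (nat_lit 0) (XT.lf (nat_lit 0) (nat_lit 11515937676) (nat_lit 152) (nat_lit 18105293690) (nat_lit 0) (nat_lit 5549642332) (nat_lit 69) (nat_lit 5) (nat_lit 71) (nat_lit 4) (nat_lit 69) (nat_lit 4) (nat_lit 423) (nat_lit 318) (nat_lit 279)) (XT.lf (nat_lit 0) (nat_lit 26158577845) (nat_lit 76) (nat_lit 8056361378) (nat_lit 76) (nat_lit 2040263808) (nat_lit 68) (nat_lit 4) (nat_lit 69) (nat_lit 5) (nat_lit 69) (nat_lit 4) (nat_lit 424) (nat_lit 318) (nat_lit 278))) (XT.nd (nat_lit 78) (nat_lit 228) (nat_lit 0) (XT.lf (nat_lit 0) (nat_lit 20682062970) (nat_lit 152) (nat_lit 1897687720) (nat_lit 0) (nat_lit 14795142328) (nat_lit 66) (nat_lit 5) (nat_lit 68) (nat_lit 4) (nat_lit 66) (nat_lit 4) (nat_lit 425) (nat_lit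 318) (nat_lit 277)) (XT.lf (nat_lit 0) (nat_lit 6287860573) (nat_lit 152) (nat_lit 31716893358) (nat_lit 0) (nat_lit 529824616) (nat_lit 63) (nat_lit 5) (nat_lit 65) (nat_lit 4) (nat_lit 63) (nat_lit 4) (nat_lit 426) (nat_lit 318) (nat_lit 276))))) (XT.nd (nat_lit 234) (nat_lit 608) (nat_lit 0) (XT.nd (nat_lit 78) (nat_lit 228) (nat_lit 0) (XT.lf (nat_lit 0) (nat_lit 15751378649) (nat_lit 76) (nat_lit 14888733033) (nat_lit 76) (nat_lit 9090145625) (nat_lit 62) (nat_lit 4) (nat_lit 63) (nat_lit 5) (nat_lit 63) (nat_lit 4) (nat_lit 427) (nat_lit 318) (nat_lit 275)) (XT.nd (nat_lit 78) (nat_lit 76) (nat_lit 0) (XT.lf (nat_lit 0) (nat_lit 15354857270) (nat_lit 152) (nat_lit 15925976737) (nat_lit 0) (nat_lit 9687665194) (nat_lit 60) (nat_lit 5) (nat_lit 62) (nat_lit 4) (nat_lit 60) (nat_lit 4) (nat_lit 428) (nat_lit 318) (nat_lit 274)) (XT.lf (nat_lit 0) (nat_lit 34716304301) (nat_lit 76) (nat_lit 6618761190)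 (nat_lit 76) (nat_lit 915859054) (nat_lit 59) (nat_lit 4) (nat_lit 60) (nat_lit 5) (nat_lit 60) (nat_lit 4) (nat_lit 429) (nat_lit 318) (nat_lit 273)))) (XT.nd (nat_lit 156) (nat_lit 228) (nat_lit 0) (XT.nd (nat_lit 78) (nat_lit 152) (nat_lit 0) (XT.lf (nat_lit 0) (nat_lit 1050415951) (nat_lit 76) (nat_lit 24046307865) (nat_lit 76) (nat_lit 18476490664) (nat_lit 56) (nat_lit 4) (nat_lit 57) (nat_lit 5) (nat_lit 57) (nat_lit 4) (nat_lit 430) (nat_lit 318) (nat_lit 272)) (XT.lf (nat_lit 0) (nat_lit 7840188584) (nat_lit 152) (nat_lit 34700281822) (nat_lit 0) (nat_lit 2402068314) (nat_lit 54) (nat_lit 5) (nat_lit 56) (nat_lit 4) (nat_lit 54) (nat_lit 4) (nat_lit 431) (nat_lit 318) (nat_lit 271))) (XT.nd (nat_lit 78) (nat_lit 152) (nat_lit 0) (XT.lf (nat_lit 0) (nat_lit 19658438506) (nat_lit 76) (nat_lit 16082051236) (nat_lit 76) (nat_lit 10614854058) (nat_lit 53) (nat_lit 4) (nat_lit 54) (nat_lit 5)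 (nat_lit 54) (nat_lit 4) (nat_lit 432) (nat_lit 318) (nat_lit 270)) (XT.lf (nat_lit 0) (nat_lit 17401910704) (nat_lit 152) (nat_lit 18348638540) (nat_lit 0) (nat_lit 12067066556) (nat_lit 51) (nat_lit 5) (nat_lit 53) (nat_lit 4) (nat_lit 51) (nat_lit 4) (nat_lit 433) (nat_lit 318) (nat_lit 269))))))))
noncomputable def xc16 : XT := (XT.nd (nat_lit 50544) (nat_lit 0) (nat_lit 1824) (XT.nd (nat_lit 49530) (nat_lit 0) (nat_lit 5852) (XT.nd (nat_lit 468) (nat_lit 152) (nat_lit 0) (XT.nd (nat_lit 234) (nat_lit 304) (nat_lit 0) (XT.nd (nat_lit 78) (nat_lit 380) (nat_lit 0) (XT.lf (nat_lit 0) (nat_lit 39717754361) (nat_lit 76) (nat_lit 7487197312) (nat_lit 76) (nat_lit 2126747715) (nat_lit 50) (nat_lit 4) (nat_lit 51) (nat_lit 5) (nat_lit 51) (nat_lit 4) (nat_lit 434) (nat_lit 318) (nat_lit 268)) (XT.nd (nat_lit 78) (nat_lit 228) (nat_lit 0) (XT.lf (nat_lit 0) (nat_lit 27720122125) (nat_lit 152) (nat_lit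 680838725) (nat_lit 0) (nat_lit 22492126261) (nat_lit 48) (nat_lit 5) (nat_lit 50) (nat_lit 4) (nat_lit 48) (nat_lit 4) (nat_lit 435) (nat_lit 318) (nat_lit 267)) (XT.lf (nat_lit 0) (nat_lit 7023012132) (nat_lit 152) (nat_lit 43561651734) (nat_lit 0) (nat_lit 1925396298) (nat_lit 45) (nat_lit 5) (nat_lit 47) (nat_lit 4) (nat_lit 45) (nat_lit 4) (nat_lit 436) (nat_lit 318) (nat_lit 266)))) (XT.nd (nat_lit 78) (nat_lit 228) (nat_lit 0) (XT.lf (nat_lit 0) (nat_lit 18809404045) (nat_lit 76) (nat_lit 20242987083) (nat_lit 76) (nat_lit 15124522018) (nat_lit 44) (nat_lit 4) (nat_lit 45) (nat_lit 5) (nat_lit 45) (nat_lit 4) (nat_lit 437) (nat_lit 318) (nat_lit 265)) (XT.nd (nat_lit 78) (nat_lit 76) (nat_lit 0) (XT.lf (nat_lit 0) (nat_lit 17073514946) (nat_lit 152) (nat_lit 26744577696) (nat_lit 0) (nat_lit 12084853317) (nat_lit 42) (nat_lit 5) (nat_lit 44) (nat_lit 4) (nat_lit 42) (nat_lit 4) (nat_lit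 438) (nat_lit 318) (nat_lit 264)) (XT.lf (nat_lit 0) (nat_lit 39951133256) (nat_lit 76) (nat_lit 11372020731) (nat_lit 76) (nat_lit 6364999036) (nat_lit 41) (nat_lit 4) (nat_lit 42) (nat_lit 5) (nat_lit 42) (nat_lit 4) (nat_lit 439) (nat_lit 318) (nat_lit 263))))) (XT.nd (nat_lit 48750) (nat_lit 0) (nat_lit 8664) (XT.nd (nat_lit 48594) (nat_lit 0) (nat_lit 9804) (XT.lf (nat_lit 0) (nat_lit 27978921502) (nat_lit 152) (nat_lit 8451028343) (nat_lit 0) (nat_lit 23100758909) (nat_lit 39) (nat_lit 5) (nat_lit 41) (nat_lit 4) (nat_lit 39) (nat_lit 4) (nat_lit 440) (nat_lit 318) (nat_lit 262)) (XT.nd (nat_lit 78) (nat_lit 380) (nat_lit 0) (XT.lf (nat_lit 0) (nat_lit 2073952565) (nat_lit 228) (nat_lit 1677911967) (nat_lit 0) (nat_lit 2073952565) (nat_lit 173) (nat_lit 5) (nat_lit 176) (nat_lit 4) (nat_lit 173) (nat_lit 4) (nat_lit 382) (nat_lit 319) (nat_lit 319)) (XT.lf (nat_lit 0) (nat_lit 2109426041)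 (nat_lit 228) (nat_lit 8499493606) (nat_lit 0) (nat_lit 1307262345) (nat_lit 168) (nat_lit 5) (nat_lit 171) (nat_lit 4) (nat_lit 168) (nat_lit 4) (nat_lit 383) (nat_lit 319) (nat_lit 318)))) (XT.nd (nat_lit 156) (nat_lit 608) (nat_lit 0) (XT.nd (nat_lit 78) (nat_lit 380) (nat_lit 0) (XT.lf (nat_lit 0) (nat_lit 10387652907) (nat_lit 152) (nat_lit 1684737184) (nat_lit 152) (nat_lit 118608063) (nat_lit 166) (nat_lit 4) (nat_lit 168) (nat_lit 5) (nat_lit 168) (nat_lit 4) (nat_lit 384) (nat_lit 319) (nat_lit 317)) (XT.lf (nat_lit 0) (nat_lit 5100364576) (nat_lit 152) (nat_lit 4800946317) (nat_lit 152) (nat_lit 2574038317) (nat_lit 161) (nat_lit 4) (nat_lit 163) (nat_lit 5) (nat_lit 163) (nat_lit 4) (nat_lit 385) (nat_lit 319) (nat_lit 316))) (XT.nd (nat_lit 78) (nat_lit 380) (nat_lit 0) (XT.lf (nat_lit 0) (nat_lit 7503380195) (nat_lit 228) (nat_lit 579924843) (nat_lit 0) (nat_lit 4688171976) (nat_lit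 158) (nat_lit 5) (nat_lit 161) (nat_lit 4) (nat_lit 158) (nat_lit 4) (nat_lit 386) (nat_lit 319) (nat_lit 315)) (XT.lf (nat_lit 0) (nat_lit 4913147858) (nat_lit 228) (nat_lit 6589277405) (nat_lit 0) (nat_lit 1575995524) (nat_lit 153) (nat_lit 5) (nat_lit 156) (nat_lit 4) (nat_lit 153) (nat_lit 4) (nat_lit 387) (nat_lit 319) (nat_lit 314)))))) (XT.nd (nat_lit 468) (nat_lit 1444) (nat_lit 0) (XT.nd (nat_lit 234) (nat_lit 608) (nat_lit 0) (XT.nd (nat_lit 78) (nat_lit 456) (nat_lit 0) (XT.lf (nat_lit 0) (nat_lit 319794006) (nat_lit 76) (nat_lit 1764997983) (nat_lit 152) (nat_lit 11312840991) (nat_lit 149) (nat_lit 5) (nat_lit 150) (nat_lit 5) (nat_lit 151) (nat_lit 4) (nat_lit 388) (nat_lit 319) (nat_lit 313)) (XT.nd (nat_lit 78) (nat_lit 304) (nat_lit 0) (XT.lf (nat_lit 0) (nat_lit 7490233471) (nat_lit 152) (nat_lit 5283750565) (nat_lit 152) (nat_lit 953531591) (nat_lit 147) (nat_lit 4) (nat_lit 149)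 (nat_lit 5) (nat_lit 149) (nat_lit 4) (nat_lit 389) (nat_lit 319) (nat_lit 312)) (XT.lf (nat_lit 0) (nat_lit 745506133) (nat_lit 152) (nat_lit 9010303766) (nat_lit 152) (nat_lit 4314449276) (nat_lit 143) (nat_lit 4) (nat_lit 145) (nat_lit 5) (nat_lit 145) (nat_lit 4) (nat_lit 390) (nat_lit 319) (nat_lit 311)))) (XT.nd (nat_lit 78) (nat_lit 456) (nat_lit 0) (XT.lf (nat_lit 0) (nat_lit 6513380214) (nat_lit 152) (nat_lit 6412284217) (nat_lit 0) (nat_lit 1499597862) (nat_lit 141) (nat_lit 5) (nat_lit 143) (nat_lit 4) (nat_lit 141) (nat_lit 4) (nat_lit 391) (nat_lit 319) (nat_lit 310)) (XT.nd (nat_lit 78) (nat_lit 152) (nat_lit 0) (XT.lf (nat_lit 0) (nat_lit 646274719) (nat_lit 76) (nat_lit 2355254835) (nat_lit 152) (nat_lit 11792439318) (nat_lit 137) (nat_lit 5) (nat_lit 138) (nat_lit 5) (nat_lit 139) (nat_lit 4) (nat_lit 392) (nat_lit 319) (nat_lit 309)) (XT.lf (nat_lit 0) (nat_lit 7976602212) (nat_lit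 152) (nat_lit 6443531429) (nat_lit 152) (nat_lit 754932523) (nat_lit 135) (nat_lit 4) (nat_lit 137) (nat_lit 5) (nat_lit 137) (nat_lit 4) (nat_lit 393) (nat_lit 319) (nat_lit 308))))) (XT.nd (nat_lit 234) (nat_lit 760) (nat_lit 0) (XT.nd (nat_lit 78) (nat_lit 532) (nat_lit 0) (XT.lf (nat_lit 0) (nat_lit 10671898717) (nat_lit 152) (nat_lit 119981619) (nat_lit 0) (nat_lit 4778747517) (nat_lit 133) (nat_lit 5) (nat_lit 135) (nat_lit 4) (nat_lit 133) (nat_lit 4) (nat_lit 394) (nat_lit 319) (nat_lit 307)) (XT.nd (nat_lit 78) (nat_lit 228) (nat_lit 0) (XT.lf (nat_lit 0) (nat_lit 6666770824) (nat_lit 152) (nat_lit 8710278064) (nat_lit 0) (nat_lit 602925793) (nat_lit 129) (nat_lit 5) (nat_lit 131) (nat_lit 4) (nat_lit 129) (nat_lit 4) (nat_lit 395) (nat_lit 319) (nat_lit 306)) (XT.lf (nat_lit 0) (nat_lit 2360612146) (nat_lit 228) (nat_lit 1597839527) (nat_lit 76) (nat_lit 12446080213) (nat_lit 126) (nat_lit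 5) (nat_lit 129) (nat_lit 5) (nat_lit 127) (nat_lit 4) (nat_lit 396) (nat_lit 319) (nat_lit 305)))) (XT.nd (nat_lit 156) (nat_lit 380) (nat_lit 0) (XT.nd (nat_lit 78) (nat_lit 152) (nat_lit 0) (XT.lf (nat_lit 0) (nat_lit 5775266930) (nat_lit 152) (nat_lit 8786713104) (nat_lit 152) (nat_lit 2281476445) (nat_lit 123) (nat_lit 4) (nat_lit 125) (nat_lit 5) (nat_lit 125) (nat_lit 4) (nat_lit 397) (nat_lit 319) (nat_lit 304)) (XT.lf (nat_lit 0) (nat_lit 9969255703) (nat_lit 152) (nat_lit 3954525878) (nat_lit 0) (nat_lit 3374742489) (nat_lit 121) (nat_lit 5) (nat_lit 123) (nat_lit 4) (nat_lit 121) (nat_lit 4) (nat_lit 398) (nat_lit 319) (nat_lit 303))) (XT.nd (nat_lit 78) (nat_lit 76) (nat_lit 0) (XT.lf (nat_lit 0) (nat_lit 3391954481) (nat_lit 76) (nat_lit 1658263930) (nat_lit 152) (nat_lit 12719855205) (nat_lit 117) (nat_lit 5) (nat_lit 118) (nat_lit 5) (nat_lit 119) (nat_lit 4) (nat_lit 399) (nat_lit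 319) (nat_lit 302)) (XT.lf (nat_lit 0) (nat_lit 10976481565) (nat_lit 76) (nat_lit 7093504369) (nat_lit 76) (nat_lit 187851088) (nat_lit 116) (nat_lit 4) (nat_lit 117) (nat_lit 5) (nat_lit 117) (nat_lit 4) (nat_lit 400) (nat_lit 319) (nat_lit 301))))))) (XT.nd (nat_lit 1014) (nat_lit 1976) (nat_lit 0) (XT.nd (nat_lit 468) (nat_lit 1064) (nat_lit 0) (XT.nd (nat_lit 234) (nat_lit 456) (nat_lit 0) (XT.nd (nat_lit 78) (nat_lit 380) (nat_lit 0) (XT.lf (nat_lit 0) (nat_lit 12822950148) (nat_lit 152) (nat_lit 48678170) (nat_lit 0) (nat_lit 5891460706) (nat_lit 114) (nat_lit 5) (nat_lit 116) (nat_lit 4) (nat_lit 114) (nat_lit 4) (nat_lit 401) (nat_lit 319) (nat_lit 300)) (XT.nd (nat_lit 78) (nat_lit 152) (nat_lit 0) (XT.lf (nat_lit 0) (nat_lit 7234453411) (nat_lit 152) (nat_lit 11756402275) (nat_lit 0) (nat_lit 294984518) (nat_lit 111) (nat_lit 5) (nat_lit 113) (nat_lit 4) (nat_lit 111) (nat_lit 4) (nat_lit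 402) (nat_lit 319) (nat_lit 299)) (XT.lf (nat_lit 0) (nat_lit 1270652669) (nat_lit 152) (nat_lit 4559917776) (nat_lit 76) (nat_lit 13996661692) (nat_lit 109) (nat_lit 5) (nat_lit 111) (nat_lit 5) (nat_lit 110) (nat_lit 4) (nat_lit 403) (nat_lit 319) (nat_lit 298)))) (XT.nd (nat_lit 78) (nat_lit 304) (nat_lit 0) (XT.lf (nat_lit 0) (nat_lit 2844924647) (nat_lit 76) (nat_lit 12329231812) (nat_lit 76) (nat_lit 5213019482) (nat_lit 107) (nat_lit 4) (nat_lit 108) (nat_lit 5) (nat_lit 108) (nat_lit 4) (nat_lit 404) (nat_lit 319) (nat_lit 297)) (XT.nd (nat_lit 78) (nat_lit 152) (nat_lit 0) (XT.lf (nat_lit 0) (nat_lit 8813767511) (nat_lit 152) (nat_lit 10419241687) (nat_lit 0) (nat_lit 1733938941) (nat_lit 105) (nat_lit 5) (nat_lit 107) (nat_lit 4) (nat_lit 105) (nat_lit 4) (nat_lit 405) (nat_lit 319) (nat_lit 296)) (XT.lf (nat_lit 0) (nat_lit 2024674600) (nat_lit 152) (nat_lit 3132486333) (nat_lit 76)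 (nat_lit 16410431783) (nat_lit 103) (nat_lit 5) (nat_lit 105) (nat_lit 5) (nat_lit 104) (nat_lit 4) (nat_lit 406) (nat_lit 319) (nat_lit 295))))) (XT.nd (nat_lit 234) (nat_lit 608) (nat_lit 0) (XT.nd (nat_lit 78) (nat_lit 304) (nat_lit 0) (XT.lf (nat_lit 0) (nat_lit 4395514587) (nat_lit 76) (nat_lit 12487286571) (nat_lit 76) (nat_lit 5305176758) (nat_lit 101) (nat_lit 4) (nat_lit 102) (nat_lit 5) (nat_lit 102) (nat_lit 4) (nat_lit 407) (nat_lit 319) (nat_lit 294)) (XT.nd (nat_lit 78) (nat_lit 152) (nat_lit 0) (XT.lf (nat_lit 0) (nat_lit 9658157146) (nat_lit 152) (nat_lit 10626294595) (nat_lit 0) (nat_lit 2546092281) (nat_lit 99) (nat_lit 5) (nat_lit 101) (nat_lit 4) (nat_lit 99) (nat_lit 4) (nat_lit 408) (nat_lit 319) (nat_lit 293)) (XT.lf (nat_lit 0) (nat_lit 1953497968) (nat_lit 152) (nat_lit 3278980863) (nat_lit 76) (nat_lit 18263732535) (nat_lit 97) (nat_lit 5) (nat_lit 99) (nat_lit 5) (nat_lit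 98) (nat_lit 4) (nat_lit 409) (nat_lit 319) (nat_lit 292)))) (XT.nd (nat_lit 156) (nat_lit 304) (nat_lit 0) (XT.nd (nat_lit 78) (nat_lit 152) (nat_lit 0) (XT.lf (nat_lit 0) (nat_lit 4308564633) (nat_lit 76) (nat_lit 13515483056) (nat_lit 76) (nat_lit 6359377924) (nat_lit 95) (nat_lit 4) (nat_lit 96) (nat_lit 5) (nat_lit 96) (nat_lit 4) (nat_lit 410) (nat_lit 319) (nat_lit 291)) (XT.lf (nat_lit 0) (nat_lit 9630744216) (nat_lit 152) (nat_lit 12694681754) (nat_lit 0) (nat_lit 2569772402) (nat_lit 93) (nat_lit 5) (nat_lit 95) (nat_lit 4) (nat_lit 93) (nat_lit 4) (nat_lit 411) (nat_lit 319) (nat_lit 290))) (XT.nd (nat_lit 78) (nat_lit 152) (nat_lit 0) (XT.lf (nat_lit 0) (nat_lit 908841116) (nat_lit 152) (nat_lit 5323926182) (nat_lit 76) (nat_lit 19399517340) (nat_lit 91) (nat_lit 5) (nat_lit 93) (nat_lit 5) (nat_lit 92) (nat_lit 4) (nat_lit 412) (nat_lit 319) (nat_lit 289)) (XT.lf (nat_lit 0) (nat_lit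 2245477296) (nat_lit 76) (nat_lit 15603913751) (nat_lit 76) (nat_lit 8544071708) (nat_lit 89) (nat_lit 4) (nat_lit 90) (nat_lit 5) (nat_lit 90) (nat_lit 4) (nat_lit 413) (nat_lit 319) (nat_lit 288)))))) (XT.nd (nat_lit 546) (nat_lit 988) (nat_lit 0) (XT.nd (nat_lit 234) (nat_lit 608) (nat_lit 0) (XT.nd (nat_lit 78) (nat_lit 228) (nat_lit 0) (XT.lf (nat_lit 0) (nat_lit 8569120314) (nat_lit 152) (nat_lit 16989802688) (nat_lit 0) (nat_lit 1622652739) (nat_lit 87) (nat_lit 5) (nat_lit 89) (nat_lit 4) (nat_lit 87) (nat_lit 4) (nat_lit 414) (nat_lit 319) (nat_lit 287)) (XT.nd (nat_lit 78) (nat_lit 152) (nat_lit 0) (XT.lf (nat_lit 0) (nat_lit 18342632752) (nat_lit 76) (nat_lit 8344241106) (nat_lit 76) (nat_lit 1309914484) (nat_lit 86) (nat_lit 4) (nat_lit 87) (nat_lit 5) (nat_lit 87) (nat_lit 4) (nat_lit 415) (nat_lit 319) (nat_lit 286)) (XT.lf (nat_lit 0) (nat_lit 16804174409) (nat_lit 152) (nat_lit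 2141971512) (nat_lit 0) (nat_lit 9893492948) (nat_lit 84) (nat_lit 5) (nat_lit 86) (nat_lit 4) (nat_lit 84) (nat_lit 4) (nat_lit 416) (nat_lit 319) (nat_lit 285)))) (XT.nd (nat_lit 156) (nat_lit 304) (nat_lit 0) (XT.nd (nat_lit 78) (nat_lit 76) (nat_lit 0) (XT.lf (nat_lit 0) (nat_lit 5774673218) (nat_lit 76) (nat_lit 512383104) (nat_lit 152) (nat_lit 23425447658) (nat_lit 81) (nat_lit 5) (nat_lit 82) (nat_lit 5) (nat_lit 83) (nat_lit 4) (nat_lit 417) (nat_lit 319) (nat_lit 284)) (XT.lf (nat_lit 0) (nat_lit 13902191303) (nat_lit 76) (nat_lit 11783516754) (nat_lit 76) (nat_lit 4927461896) (nat_lit 80) (nat_lit 4) (nat_lit 81) (nat_lit 5) (nat_lit 81) (nat_lit 4) (nat_lit 418) (nat_lit 319) (nat_lit 283))) (XT.nd (nat_lit 78) (nat_lit 152) (nat_lit 0) (XT.lf (nat_lit 0) (nat_lit 14509733772) (nat_lit 152) (nat_lit 9248818535) (nat_lit 0) (nat_lit 7787221695) (nat_lit 78) (nat_lit 5) (nat_lit 80) (nat_lit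 4) (nat_lit 78) (nat_lit 4) (nat_lit 419) (nat_lit 319) (nat_lit 282)) (XT.lf (nat_lit 0) (nat_lit 2600509202) (nat_lit 152) (nat_lit 1506476621) (nat_lit 76) (nat_lit 28405339778) (nat_lit 76) (nat_lit 5) (nat_lit 78) (nat_lit 5) (nat_lit 77) (nat_lit 4) (nat_lit 420) (nat_lit 319) (nat_lit 281))))) (XT.nd (nat_lit 234) (nat_lit 608) (nat_lit 0) (XT.nd (nat_lit 78) (nat_lit 228) (nat_lit 0) (XT.lf (nat_lit 0) (nat_lit 6522230124) (nat_lit 76) (nat_lit 16815945345) (nat_lit 76) (nat_lit 10169820477) (nat_lit 74) (nat_lit 4) (nat_lit 75) (nat_lit 5) (nat_lit 75) (nat_lit 4) (nat_lit 421) (nat_lit 319) (nat_lit 280)) (XT.nd (nat_lit 78) (nat_lit 76) (nat_lit 0) (XT.lf (nat_lit 0) (nat_lit 10708358836) (nat_lit 152) (nat_lit 19629442600) (nat_lit 0) (nat_lit 4201949314) (nat_lit 72) (nat_lit 5) (nat_lit 74) (nat_lit 4) (nat_lit 72) (nat_lit 4) (nat_lit 422) (nat_lit 319) (nat_lit 279)) (XT.lf (nat_lit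 0) (nat_lit 23560451435) (nat_lit 76) (nat_lit 9302028068) (nat_lit 76) (nat_lit 2744322255) (nat_lit 71) (nat_lit 4) (nat_lit 72) (nat_lit 5) (nat_lit 72) (nat_lit 4) (nat_lit 423) (nat_lit 319) (nat_lit 278)))) (XT.nd (nat_lit 156) (nat_lit 228) (nat_lit 0) (XT.nd (nat_lit 78) (nat_lit 228) (nat_lit 0) (XT.lf (nat_lit 0) (nat_lit 19431676449) (nat_lit 152) (nat_lit 4260001592) (nat_lit 0) (nat_lit 13017541085) (nat_lit 69) (nat_lit 5) (nat_lit 71) (nat_lit 4) (nat_lit 69) (nat_lit 4) (nat_lit 424) (nat_lit 319) (nat_lit 277)) (XT.lf (nat_lit 0) (nat_lit 3967561595) (nat_lit 76) (nat_lit 1168827097) (nat_lit 152) (nat_lit 32715086412) (nat_lit 66) (nat_lit 5) (nat_lit 67) (nat_lit 5) (nat_lit 68) (nat_lit 4) (nat_lit 425) (nat_lit 319) (nat_lit 276))) (XT.nd (nat_lit 78) (nat_lit 152) (nat_lit 0) (XT.lf (nat_lit 0) (nat_lit 12448352170) (nat_lit 76) (nat_lit 16446433593) (nat_lit 76) (nat_lit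 10133493316) (nat_lit 65) (nat_lit 4) (nat_lit 66) (nat_lit 5) (nat_lit 66) (nat_lit 4) (nat_lit 426) (nat_lit 319) (nat_lit 275)) (XT.lf (nat_lit 0) (nat_lit 13730764844) (nat_lit 152) (nat_lit 18953611109) (nat_lit 0) (nat_lit 7563076184) (nat_lit 63) (nat_lit 5) (nat_lit 65) (nat_lit 4) (nat_lit 63) (nat_lit 4) (nat_lit 427) (nat_lit 319) (nat_lit 274))))))))
noncomputable def xc17 : XT := (XT.nd (nat_lit 50466) (nat_lit 0) (nat_lit 2736) (XT.nd (nat_lit 49374) (nat_lit 0) (nat_lit 7144) (XT.nd (nat_lit 468) (nat_lit 912) (nat_lit 0) (XT.nd (nat_lit 234) (nat_lit 304) (nat_lit 0) (XT.nd (nat_lit 78) (nat_lit 380) (nat_lit 0) (XT.lf (nat_lit 0) (nat_lit 30476759655) (nat_lit 76) (nat_lit 8618394713) (nat_lit 76) (nat_lit 2413924691) (nat_lit 62) (nat_lit 4) (nat_lit 63) (nat_lit 5) (nat_lit 63) (nat_lit 4) (nat_lit 428) (nat_lit 319) (nat_lit 273)) (XT.nd (nat_lit 78) (nat_lit 228) (nat_lit 0)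 (XT.lf (nat_lit 0) (nat_lit 22978854246) (nat_lit 152) (nat_lit 2911294928) (nat_lit 0) (nat_lit 16921087363) (nat_lit 60) (nat_lit 5) (nat_lit 62) (nat_lit 4) (nat_lit 60) (nat_lit 4) (nat_lit 429) (nat_lit 319) (nat_lit 272)) (XT.lf (nat_lit 0) (nat_lit 5759200817) (nat_lit 76) (nat_lit 77921240) (nat_lit 152) (nat_lit 38323225772) (nat_lit 57) (nat_lit 5) (nat_lit 58) (nat_lit 5) (nat_lit 59) (nat_lit 4) (nat_lit 430) (nat_lit 319) (nat_lit 271)))) (XT.nd (nat_lit 78) (nat_lit 228) (nat_lit 0) (XT.lf (nat_lit 0) (nat_lit 14660236716) (nat_lit 76) (nat_lit 18416305986) (nat_lit 76) (nat_lit 12473583022) (nat_lit 56) (nat_lit 4) (nat_lit 57) (nat_lit 5) (nat_lit 57) (nat_lit 4) (nat_lit 431) (nat_lit 319) (nat_lit 270)) (XT.nd (nat_lit 78) (nat_lit 76) (nat_lit 0) (XT.lf (nat_lit 0) (nat_lit 14892646877) (nat_lit 152) (nat_lit 23001884675) (nat_lit 0) (nat_lit 9095320637) (nat_lit 54) (nat_lit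 5) (nat_lit 56) (nat_lit 4) (nat_lit 54) (nat_lit 4) (nat_lit 432) (nat_lit 319) (nat_lit 269)) (XT.lf (nat_lit 0) (nat_lit 33689705633) (nat_lit 76) (nat_lit 10306521906) (nat_lit 76) (nat_lit 4482822053) (nat_lit 53) (nat_lit 4) (nat_lit 54) (nat_lit 5) (nat_lit 54) (nat_lit 4) (nat_lit 433) (nat_lit 319) (nat_lit 268))))) (XT.nd (nat_lit 234) (nat_lit 456) (nat_lit 0) (XT.nd (nat_lit 78) (nat_lit 304) (nat_lit 0) (XT.lf (nat_lit 0) (nat_lit 24678787533) (nat_lit 152) (nat_lit 6337181755) (nat_lit 0) (nat_lit 19000323863) (nat_lit 51) (nat_lit 5) (nat_lit 53) (nat_lit 4) (nat_lit 51) (nat_lit 4) (nat_lit 434) (nat_lit 319) (nat_lit 267)) (XT.nd (nat_lit 78) (nat_lit 76) (nat_lit 0) (XT.lf (nat_lit 0) (nat_lit 2662120133) (nat_lit 76) (nat_lit 1457982674) (nat_lit 152) (nat_lit 47489537153) (nat_lit 48) (nat_lit 5) (nat_lit 49) (nat_lit 5) (nat_lit 50) (nat_lit 4) (nat_lit 435) (nat_lit 319) (nat_lit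 266)) (XT.lf (nat_lit 0) (nat_lit 11961656502) (nat_lit 76) (nat_lit 23422420588) (nat_lit 76) (nat_lit 17865325910) (nat_lit 47) (nat_lit 4) (nat_lit 48) (nat_lit 5) (nat_lit 48) (nat_lit 4) (nat_lit 436) (nat_lit 319) (nat_lit 265)))) (XT.nd (nat_lit 156) (nat_lit 228) (nat_lit 0) (XT.nd (nat_lit 78) (nat_lit 76) (nat_lit 0) (XT.lf (nat_lit 0) (nat_lit 13599190631) (nat_lit 152) (nat_lit 33165525035) (nat_lit 0) (nat_lit 8184096669) (nat_lit 45) (nat_lit 5) (nat_lit 47) (nat_lit 4) (nat_lit 45) (nat_lit 4) (nat_lit 437) (nat_lit 319) (nat_lit 264)) (XT.lf (nat_lit 0) (nat_lit 31963646348) (nat_lit 76) (nat_lit 15087368579) (nat_lit 76) (nat_lit 9653363749) (nat_lit 44) (nat_lit 4) (nat_lit 45) (nat_lit 5) (nat_lit 45) (nat_lit 4) (nat_lit 438) (nat_lit 319) (nat_lit 263))) (XT.nd (nat_lit 78) (nat_lit 76) (nat_lit 0) (XT.lf (nat_lit 0) (nat_lit 23915646224) (nat_lit 152) (nat_lit 15980365764)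 (nat_lit 0) (nat_lit 18622427602) (nat_lit 42) (nat_lit 5) (nat_lit 44) (nat_lit 4) (nat_lit 42) (nat_lit 4) (nat_lit 439) (nat_lit 319) (nat_lit 262)) (XT.lf (nat_lit 0) (nat_lit 53703245363) (nat_lit 76) (nat_lit 6002349283) (nat_lit 76) (nat_lit 692477539) (nat_lit 41) (nat_lit 4) (nat_lit 42) (nat_lit 5) (nat_lit 42) (nat_lit 4) (nat_lit 440) (nat_lit 319) (nat_lit 261)))))) (XT.nd (nat_lit 546) (nat_lit 1748) (nat_lit 0) (XT.nd (nat_lit 234) (nat_lit 1140) (nat_lit 0) (XT.nd (nat_lit 78) (nat_lit 684) (nat_lit 0) (XT.lf (nat_lit 0) (nat_lit 3168118872) (nat_lit 228) (nat_lit 1203043959) (nat_lit 228) (nat_lit 1203043959) (nat_lit 182) (nat_lit 4) (nat_lit 185) (nat_lit 5) (nat_lit 185) (nat_lit 4) (nat_lit 380) (nat_lit 320) (nat_lit 320)) (XT.nd (nat_lit 78) (nat_lit 228) (nat_lit 0) (XT.lf (nat_lit 0) (nat_lit 1475651597) (nat_lit 228) (nat_lit 5407757524) (nat_lit 228) (nat_lit 4514191286)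 (nat_lit 176) (nat_lit 4) (nat_lit 179) (nat_lit 5) (nat_lit 179) (nat_lit 4) (nat_lit 381) (nat_lit 320) (nat_lit 319)) (XT.lf (nat_lit 0) (nat_lit 4847896358) (nat_lit 228) (nat_lit 3654636589) (nat_lit 0) (nat_lit 3154127714) (nat_lit 173) (nat_lit 5) (nat_lit 176) (nat_lit 4) (nat_lit 173) (nat_lit 4) (nat_lit 382) (nat_lit 320) (nat_lit 318)))) (XT.nd (nat_lit 156) (nat_lit 532) (nat_lit 0) (XT.nd (nat_lit 78) (nat_lit 228) (nat_lit 0) (XT.lf (nat_lit 0) (nat_lit 2607053673) (nat_lit 228) (nat_lit 9120814976) (nat_lit 0) (nat_lit 198652671) (nat_lit 168) (nat_lit 5) (nat_lit 171) (nat_lit 4) (nat_lit 168) (nat_lit 4) (nat_lit 383) (nat_lit 320) (nat_lit 317)) (XT.lf (nat_lit 0) (nat_lit 190777578) (nat_lit 228) (nat_lit 2748708635) (nat_lit 76) (nat_lit 9266866200) (nat_lit 165) (nat_lit 5) (nat_lit 168) (nat_lit 5) (nat_lit 166) (nat_lit 4) (nat_lit 384) (nat_lit 320) (nat_lit 316))) (XT.nd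 (nat_lit 78) (nat_lit 228) (nat_lit 0) (XT.lf (nat_lit 0) (nat_lit 3813784600) (nat_lit 152) (nat_lit 6200062436) (nat_lit 152) (nat_lit 2482658280) (nat_lit 161) (nat_lit 4) (nat_lit 163) (nat_lit 5) (nat_lit 163) (nat_lit 4) (nat_lit 385) (nat_lit 320) (nat_lit 315)) (XT.lf (nat_lit 0) (nat_lit 7405116996) (nat_lit 228) (nat_lit 2219197513) (nat_lit 0) (nat_lit 3173928063) (nat_lit 158) (nat_lit 5) (nat_lit 161) (nat_lit 4) (nat_lit 158) (nat_lit 4) (nat_lit 386) (nat_lit 320) (nat_lit 314))))) (XT.nd (nat_lit 234) (nat_lit 912) (nat_lit 0) (XT.nd (nat_lit 78) (nat_lit 456) (nat_lit 0) (XT.lf (nat_lit 0) (nat_lit 4476377327) (nat_lit 152) (nat_lit 104904988) (nat_lit 228) (nat_lit 8530218381) (nat_lit 153) (nat_lit 5) (nat_lit 155) (nat_lit 5) (nat_lit 156) (nat_lit 4) (nat_lit 387) (nat_lit 320) (nat_lit 313)) (XT.nd (nat_lit 78) (nat_lit 228) (nat_lit 0) (XT.lf (nat_lit 0) (nat_lit 1543732336)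 (nat_lit 228) (nat_lit 2097146986) (nat_lit 76) (nat_lit 9795435877) (nat_lit 150) (nat_lit 5) (nat_lit 153) (nat_lit 5) (nat_lit 151) (nat_lit 4) (nat_lit 388) (nat_lit 320) (nat_lit 312)) (XT.lf (nat_lit 0) (nat_lit 4665308848) (nat_lit 152) (nat_lit 7346303077) (nat_lit 152) (nat_lit 1761225295) (nat_lit 147) (nat_lit 4) (nat_lit 149) (nat_lit 5) (nat_lit 149) (nat_lit 4) (nat_lit 389) (nat_lit 320) (nat_lit 311)))) (XT.nd (nat_lit 156) (nat_lit 456) (nat_lit 0) (XT.nd (nat_lit 78) (nat_lit 304) (nat_lit 0) (XT.lf (nat_lit 0) (nat_lit 8752208378) (nat_lit 152) (nat_lit 2508493942) (nat_lit 0) (nat_lit 2861461433) (nat_lit 145) (nat_lit 5) (nat_lit 147) (nat_lit 4) (nat_lit 145) (nat_lit 4) (nat_lit 390) (nat_lit 320) (nat_lit 310)) (XT.lf (nat_lit 0) (nat_lit 4321197825) (nat_lit 76) (nat_lit 929040664) (nat_lit 152) (nat_lit 9234079739) (nat_lit 141) (nat_lit 5) (nat_lit 142) (nat_lit 5) (nat_lit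 143) (nat_lit 4) (nat_lit 391) (nat_lit 320) (nat_lit 309))) (XT.nd (nat_lit 78) (nat_lit 228) (nat_lit 0) (XT.lf (nat_lit 0) (nat_lit 1498834383) (nat_lit 228) (nat_lit 3522012515) (nat_lit 76) (nat_lit 9838748153) (nat_lit 138) (nat_lit 5) (nat_lit 141) (nat_lit 5) (nat_lit 139) (nat_lit 4) (nat_lit 392) (nat_lit 320) (nat_lit 308)) (XT.lf (nat_lit 0) (nat_lit 3319795266) (nat_lit 152) (nat_lit 9341682870) (nat_lit 152) (nat_lit 2586893017) (nat_lit 135) (nat_lit 4) (nat_lit 137) (nat_lit 5) (nat_lit 137) (nat_lit 4) (nat_lit 393) (nat_lit 320) (nat_lit 307))))))) (XT.nd (nat_lit 1014) (nat_lit 2052) (nat_lit 0) (XT.nd (nat_lit 468) (nat_lit 1064) (nat_lit 0) (XT.nd (nat_lit 234) (nat_lit 684) (nat_lit 0) (XT.nd (nat_lit 78) (nat_lit 456) (nat_lit 0) (XT.lf (nat_lit 0) (nat_lit 8649268349) (nat_lit 152) (nat_lit 5263374564) (nat_lit 0) (nat_lit 1738610767) (nat_lit 133) (nat_lit 5) (nat_lit 135)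 (nat_lit 4) (nat_lit 133) (nat_lit 4) (nat_lit 394) (nat_lit 320) (nat_lit 306)) (XT.nd (nat_lit 78) (nat_lit 152) (nat_lit 0) (XT.lf (nat_lit 0) (nat_lit 1572301900) (nat_lit 76) (nat_lit 2771923592) (nat_lit 152) (nat_lit 11724791486) (nat_lit 129) (nat_lit 5) (nat_lit 130) (nat_lit 5) (nat_lit 131) (nat_lit 4) (nat_lit 395) (nat_lit 320) (nat_lit 305)) (XT.lf (nat_lit 0) (nat_lit 8670643972) (nat_lit 152) (nat_lit 7588245530) (nat_lit 152) (nat_lit 242320508) (nat_lit 127) (nat_lit 4) (nat_lit 129) (nat_lit 5) (nat_lit 129) (nat_lit 4) (nat_lit 396) (nat_lit 320) (nat_lit 304)))) (XT.nd (nat_lit 78) (nat_lit 532) (nat_lit 0) (XT.lf (nat_lit 0) (nat_lit 11665060897) (nat_lit 152) (nat_lit 1038122133) (nat_lit 0) (nat_lit 4245982906) (nat_lit 125) (nat_lit 5) (nat_lit 127) (nat_lit 4) (nat_lit 125) (nat_lit 4) (nat_lit 397) (nat_lit 320) (nat_lit 303)) (XT.nd (nat_lit 78) (nat_lit 228) (nat_lit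 0) (XT.lf (nat_lit 0) (nat_lit 6045921038) (nat_lit 76) (nat_lit 721782893) (nat_lit 152) (nat_lit 10645120946) (nat_lit 121) (nat_lit 5) (nat_lit 122) (nat_lit 5) (nat_lit 123) (nat_lit 4) (nat_lit 398) (nat_lit 320) (nat_lit 302)) (XT.lf (nat_lit 0) (nat_lit 1541361898) (nat_lit 228) (nat_lit 4592333353) (nat_lit 76) (nat_lit 11759366638) (nat_lit 118) (nat_lit 5) (nat_lit 121) (nat_lit 5) (nat_lit 119) (nat_lit 4) (nat_lit 399) (nat_lit 320) (nat_lit 301))))) (XT.nd (nat_lit 234) (nat_lit 608) (nat_lit 0) (XT.nd (nat_lit 78) (nat_lit 304) (nat_lit 0) (XT.lf (nat_lit 0) (nat_lit 2375969351) (nat_lit 76) (nat_lit 11872215479) (nat_lit 76) (nat_lit 4142028803) (nat_lit 116) (nat_lit 4) (nat_lit 117) (nat_lit 5) (nat_lit 117) (nat_lit 4) (nat_lit 400) (nat_lit 320) (nat_lit 300)) (XT.nd (nat_lit 78) (nat_lit 152) (nat_lit 0) (XT.lf (nat_lit 0) (nat_lit 8670609499) (nat_lit 152) (nat_lit 9284845757)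 (nat_lit 0) (nat_lit 949410373) (nat_lit 114) (nat_lit 5) (nat_lit 116) (nat_lit 4) (nat_lit 114) (nat_lit 4) (nat_lit 401) (nat_lit 320) (nat_lit 299)) (XT.lf (nat_lit 0) (nat_lit 2717285661) (nat_lit 152) (nat_lit 2410979249) (nat_lit 76) (nat_lit 14309795554) (nat_lit 112) (nat_lit 5) (nat_lit 114) (nat_lit 5) (nat_lit 113) (nat_lit 4) (nat_lit 402) (nat_lit 320) (nat_lit 298)))) (XT.nd (nat_lit 156) (nat_lit 304) (nat_lit 0) (XT.nd (nat_lit 78) (nat_lit 152) (nat_lit 0) (XT.lf (nat_lit 0) (nat_lit 4713066735) (nat_lit 76) (nat_lit 11581329259) (nat_lit 76) (nat_lit 3694789622) (nat_lit 110) (nat_lit 4) (nat_lit 111) (nat_lit 5) (nat_lit 111) (nat_lit 4) (nat_lit 403) (nat_lit 320) (nat_lit 297)) (XT.lf (nat_lit 0) (nat_lit 9953690566) (nat_lit 152) (nat_lit 8485473152) (nat_lit 0) (nat_lit 2120844868) (nat_lit 108) (nat_lit 5) (nat_lit 110) (nat_lit 4) (nat_lit 108) (nat_lit 4) (nat_lit 404)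 (nat_lit 320) (nat_lit 296))) (XT.nd (nat_lit 78) (nat_lit 152) (nat_lit 0) (XT.lf (nat_lit 0) (nat_lit 3187463129) (nat_lit 152) (nat_lit 1529925161) (nat_lit 76) (nat_lit 16434095259) (nat_lit 106) (nat_lit 5) (nat_lit 108) (nat_lit 5) (nat_lit 107) (nat_lit 4) (nat_lit 405) (nat_lit 320) (nat_lit 295)) (XT.lf (nat_lit 0) (nat_lit 5696905382) (nat_lit 76) (nat_lit 11993874766) (nat_lit 76) (nat_lit 4071425670) (nat_lit 104) (nat_lit 4) (nat_lit 105) (nat_lit 5) (nat_lit 105) (nat_lit 4) (nat_lit 406) (nat_lit 320) (nat_lit 294)))))) (XT.nd (nat_lit 546) (nat_lit 988) (nat_lit 0) (XT.nd (nat_lit 234) (nat_lit 608) (nat_lit 0) (XT.nd (nat_lit 78) (nat_lit 304) (nat_lit 0) (XT.lf (nat_lit 0) (nat_lit 10496034490) (nat_lit 152) (nat_lit 9237814737) (nat_lit 0) (nat_lit 2661019339) (nat_lit 102) (nat_lit 5) (nat_lit 104) (nat_lit 4) (nat_lit 102) (nat_lit 4) (nat_lit 407) (nat_lit 320) (nat_lit 293))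 (XT.nd (nat_lit 78) (nat_lit 152) (nat_lit 0) (XT.lf (nat_lit 0) (nat_lit 2827704689) (nat_lit 152) (nat_lit 2231267011) (nat_lit 76) (nat_lit 17991328275) (nat_lit 100) (nat_lit 5) (nat_lit 102) (nat_lit 5) (nat_lit 101) (nat_lit 4) (nat_lit 408) (nat_lit 320) (nat_lit 292)) (XT.lf (nat_lit 0) (nat_lit 5033554203) (nat_lit 76) (nat_lit 13279446597) (nat_lit 76) (nat_lit 5413912350) (nat_lit 98) (nat_lit 4) (nat_lit 99) (nat_lit 5) (nat_lit 99) (nat_lit 4) (nat_lit 409) (nat_lit 320) (nat_lit 291)))) (XT.nd (nat_lit 156) (nat_lit 304) (nat_lit 0) (XT.nd (nat_lit 78) (nat_lit 152) (nat_lit 0) (XT.lf (nat_lit 0) (nat_lit 10160893825) (nat_lit 152) (nat_lit 11859079509) (nat_lit 0) (nat_lit 2407756972) (nat_lit 96) (nat_lit 5) (nat_lit 98) (nat_lit 4) (nat_lit 96) (nat_lit 4) (nat_lit 410) (nat_lit 320) (nat_lit 290)) (XT.lf (nat_lit 0) (nat_lit 1489979218) (nat_lit 152) (nat_lit 4839617930) (nat_lit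 76) (nat_lit 18823814540) (nat_lit 94) (nat_lit 5) (nat_lit 96) (nat_lit 5) (nat_lit 95) (nat_lit 4) (nat_lit 411) (nat_lit 320) (nat_lit 289))) (XT.nd (nat_lit 78) (nat_lit 152) (nat_lit 0) (XT.lf (nat_lit 0) (nat_lit 2384330294) (nat_lit 76) (nat_lit 15628300174) (nat_lit 76) (nat_lit 7890317352) (nat_lit 92) (nat_lit 4) (nat_lit 93) (nat_lit 5) (nat_lit 93) (nat_lit 4) (nat_lit 412) (nat_lit 320) (nat_lit 288)) (XT.lf (nat_lit 0) (nat_lit 8786064120) (nat_lit 152) (nat_lit 16714441444) (nat_lit 0) (nat_lit 1178439878) (nat_lit 90) (nat_lit 5) (nat_lit 92) (nat_lit 4) (nat_lit 90) (nat_lit 4) (nat_lit 413) (nat_lit 320) (nat_lit 287))))) (XT.nd (nat_lit 234) (nat_lit 532) (nat_lit 0) (XT.nd (nat_lit 78) (nat_lit 380) (nat_lit 0) (XT.lf (nat_lit 0) (nat_lit 17742755647) (nat_lit 76) (nat_lit 8718459337) (nat_lit 76) (nat_lit 1020340277) (nat_lit 89) (nat_lit 4) (nat_lit 90) (nat_lit 5) (nat_lit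 90) (nat_lit 4) (nat_lit 414) (nat_lit 320) (nat_lit 286)) (XT.nd (nat_lit 78) (nat_lit 228) (nat_lit 0) (XT.lf (nat_lit 0) (nat_lit 16639567005) (nat_lit 152) (nat_lit 2589838081) (nat_lit 0) (nat_lit 9081989722) (nat_lit 87) (nat_lit 5) (nat_lit 89) (nat_lit 4) (nat_lit 87) (nat_lit 4) (nat_lit 415) (nat_lit 320) (nat_lit 285)) (XT.lf (nat_lit 0) (nat_lit 4934116615) (nat_lit 76) (nat_lit 1258683701) (nat_lit 152) (nat_lit 22977982941) (nat_lit 84) (nat_lit 5) (nat_lit 85) (nat_lit 5) (nat_lit 86) (nat_lit 4) (nat_lit 416) (nat_lit 320) (nat_lit 284)))) (XT.nd (nat_lit 156) (nat_lit 304) (nat_lit 0) (XT.nd (nat_lit 78) (nat_lit 152) (nat_lit 0) (XT.lf (nat_lit 0) (nat_lit 12679517646) (nat_lit 76) (nat_lit 12433279727) (nat_lit 76) (nat_lit 4944771011) (nat_lit 83) (nat_lit 4) (nat_lit 84) (nat_lit 5) (nat_lit 84) (nat_lit 4) (nat_lit 417) (nat_lit 320) (nat_lit 283)) (XT.lf (nat_lit 0) (nat_lit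 14012459335) (nat_lit 152) (nat_lit 10289408396) (nat_lit 0) (nat_lit 6673929942) (nat_lit 81) (nat_lit 5) (nat_lit 83) (nat_lit 4) (nat_lit 81) (nat_lit 4) (nat_lit 418) (nat_lit 320) (nat_lit 282))) (XT.nd (nat_lit 78) (nat_lit 152) (nat_lit 0) (XT.lf (nat_lit 0) (nat_lit 2200060253) (nat_lit 152) (nat_lit 2937295250) (nat_lit 76) (nat_lit 26789776917) (nat_lit 79) (nat_lit 5) (nat_lit 81) (nat_lit 5) (nat_lit 80) (nat_lit 4) (nat_lit 419) (nat_lit 320) (nat_lit 281)) (XT.lf (nat_lit 0) (nat_lit 4665762478) (nat_lit 76) (nat_lit 17744909516) (nat_lit 76) (nat_lit 10497127162) (nat_lit 77) (nat_lit 4) (nat_lit 78) (nat_lit 5) (nat_lit 78) (nat_lit 4) (nat_lit 420) (nat_lit 320) (nat_lit 280))))))))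
noncomputable def xc18 : XT := (XT.nd (nat_lit 50310) (nat_lit 0) (nat_lit 4028) (XT.nd (nat_lit 1014) (nat_lit 912) (nat_lit 0) (XT.nd (nat_lit 468) (nat_lit 912) (nat_lit 0) (XT.nd (nat_lit 234) (nat_lit 456) (nat_lit 0) (XT.nd (nat_lit 78) (nat_lit 228) (nat_lit 0) (XT.lf (nat_lit 0) (nat_lit 9872692087) (nat_lit 152) (nat_lit 21270451822) (nat_lit 0) (nat_lit 2780533250) (nat_lit 75) (nat_lit 5) (nat_lit 77) (nat_lit 4) (nat_lit 75) (nat_lit 4) (nat_lit 421) (nat_lit 320) (nat_lit 279)) (XT.nd (nat_lit 78) (nat_lit 152) (nat_lit 0) (XT.lf (nat_lit 0) (nat_lit 20874062859) (nat_lit 76) (nat_lit 10622294357) (nat_lit 76) (nat_lit 3477300339) (nat_lit 74) (nat_lit 4) (nat_lit 75) (nat_lit 5) (nat_lit 75) (nat_lit 4) (nat_lit 422) (nat_lit 320) (nat_lit 278)) (XT.lf (nat_lit 0) (nat_lit 18166689216) (nat_lit 152) (nat_lit 6711413490) (nat_lit 0) (nat_lit 11180948208) (nat_lit 72) (nat_lit 5) (nat_lit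 74) (nat_lit 4) (nat_lit 72) (nat_lit 4) (nat_lit 423) (nat_lit 320) (nat_lit 277)))) (XT.nd (nat_lit 78) (nat_lit 228) (nat_lit 0) (XT.lf (nat_lit 0) (nat_lit 1035437469) (nat_lit 76) (nat_lit 2938801804) (nat_lit 152) (nat_lit 33209747093) (nat_lit 69) (nat_lit 5) (nat_lit 70) (nat_lit 5) (nat_lit 71) (nat_lit 4) (nat_lit 424) (nat_lit 320) (nat_lit 276)) (XT.nd (nat_lit 78) (nat_lit 152) (nat_lit 0) (XT.lf (nat_lit 0) (nat_lit 9083438760) (nat_lit 76) (nat_lit 18064680745) (nat_lit 76) (nat_lit 11194214801) (nat_lit 68) (nat_lit 4) (nat_lit 69) (nat_lit 5) (nat_lit 69) (nat_lit 4) (nat_lit 425) (nat_lit 320) (nat_lit 275)) (XT.lf (nat_lit 0) (nat_lit 12104228462) (nat_lit 152) (nat_lit 22044395654) (nat_lit 0) (nat_lit 5394094134) (nat_lit 66) (nat_lit 5) (nat_lit 68) (nat_lit 4) (nat_lit 66) (nat_lit 4) (nat_lit 426) (nat_lit 320) (nat_lit 274))))) (XT.nd (nat_lit 234) (nat_lit 456) (nat_lit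 0) (XT.nd (nat_lit 78) (nat_lit 380) (nat_lit 0) (XT.lf (nat_lit 0) (nat_lit 26205083039) (nat_lit 76) (nat_lit 10663380486) (nat_lit 76) (nat_lit 3915361355) (nat_lit 65) (nat_lit 4) (nat_lit 66) (nat_lit 5) (nat_lit 66) (nat_lit 4) (nat_lit 427) (nat_lit 320) (nat_lit 273)) (XT.nd (nat_lit 78) (nat_lit 228) (nat_lit 0) (XT.lf (nat_lit 0) (nat_lit 20883072920) (nat_lit 152) (nat_lit 6886210561) (nat_lit 0) (nat_lit 14296568168) (nat_lit 63) (nat_lit 5) (nat_lit 65) (nat_lit 4) (nat_lit 63) (nat_lit 4) (nat_lit 428) (nat_lit 320) (nat_lit 272)) (XT.lf (nat_lit 0) (nat_lit 1232699471) (nat_lit 76) (nat_lit 2635559643) (nat_lit 152) (nat_lit 39526402215) (nat_lit 60) (nat_lit 5) (nat_lit 61) (nat_lit 5) (nat_lit 62) (nat_lit 4) (nat_lit 429) (nat_lit 320) (nat_lit 271)))) (XT.nd (nat_lit 156) (nat_lit 228) (nat_lit 0) (XT.nd (nat_lit 78) (nat_lit 152) (nat_lit 0) (XT.lf (nat_lit 0) (nat_lit 9658580593)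 (nat_lit 76) (nat_lit 20780885143) (nat_lit 76) (nat_lit 14322982565) (nat_lit 59) (nat_lit 4) (nat_lit 60) (nat_lit 5) (nat_lit 60) (nat_lit 4) (nat_lit 430) (nat_lit 320) (nat_lit 270)) (XT.lf (nat_lit 0) (nat_lit 12408821810) (nat_lit 152) (nat_lit 27660657682) (nat_lit 0) (nat_lit 6110490419) (nat_lit 57) (nat_lit 5) (nat_lit 59) (nat_lit 4) (nat_lit 57) (nat_lit 4) (nat_lit 431) (nat_lit 320) (nat_lit 269))) (XT.nd (nat_lit 78) (nat_lit 152) (nat_lit 0) (XT.lf (nat_lit 0) (nat_lit 27690119270) (nat_lit 76) (nat_lit 13140008113) (nat_lit 76) (nat_lit 6814511900) (nat_lit 56) (nat_lit 4) (nat_lit 57) (nat_lit 5) (nat_lit 57) (nat_lit 4) (nat_lit 432) (nat_lit 320) (nat_lit 268)) (XT.lf (nat_lit 0) (nat_lit 21678502680) (nat_lit 152) (nat_lit 11967478920) (nat_lit 0) (nat_lit 15512126494) (nat_lit 54) (nat_lit 5) (nat_lit 56) (nat_lit 4) (nat_lit 54) (nat_lit 4) (nat_lit 433) (nat_lit 320) (nat_lit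 267)))))) (XT.nd (nat_lit 48750) (nat_lit 0) (nat_lit 9348) (XT.nd (nat_lit 234) (nat_lit 456) (nat_lit 0) (XT.nd (nat_lit 78) (nat_lit 304) (nat_lit 0) (XT.lf (nat_lit 0) (nat_lit 1310292522) (nat_lit 152) (nat_lit 3530404010) (nat_lit 76) (nat_lit 45885900749) (nat_lit 52) (nat_lit 5) (nat_lit 54) (nat_lit 5) (nat_lit 53) (nat_lit 4) (nat_lit 434) (nat_lit 320) (nat_lit 266)) (XT.nd (nat_lit 78) (nat_lit 152) (nat_lit 0) (XT.lf (nat_lit 0) (nat_lit 5173801851) (nat_lit 76) (nat_lit 26599798302) (nat_lit 76) (nat_lit 20567681458) (nat_lit 50) (nat_lit 4) (nat_lit 51) (nat_lit 5) (nat_lit 51) (nat_lit 4) (nat_lit 435) (nat_lit 320) (nat_lit 265)) (XT.lf (nat_lit 0) (nat_lit 10180883700) (nat_lit 152) (nat_lit 39529587511) (nat_lit 0) (nat_lit 4304007475) (nat_lit 48) (nat_lit 5) (nat_lit 50) (nat_lit 4) (nat_lit 48) (nat_lit 4) (nat_lit 436) (nat_lit 320) (nat_lit 264)))) (XT.nd (nat_lit 156) (nat_lit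 228) (nat_lit 0) (XT.nd (nat_lit 78) (nat_lit 152) (nat_lit 0) (XT.lf (nat_lit 0) (nat_lit 24070637007) (nat_lit 76) (nat_lit 18783285655) (nat_lit 76) (nat_lit 12886931237) (nat_lit 47) (nat_lit 4) (nat_lit 48) (nat_lit 5) (nat_lit 48) (nat_lit 4) (nat_lit 437) (nat_lit 320) (nat_lit 263)) (XT.lf (nat_lit 0) (nat_lit 19925433966) (nat_lit 152) (nat_lit 23418622797) (nat_lit 0) (nat_lit 14182807675) (nat_lit 45) (nat_lit 5) (nat_lit 47) (nat_lit 4) (nat_lit 45) (nat_lit 4) (nat_lit 438) (nat_lit 320) (nat_lit 262))) (XT.nd (nat_lit 78) (nat_lit 152) (nat_lit 0) (XT.lf (nat_lit 0) (nat_lit 44640080004) (nat_lit 76) (nat_lit 10247389745) (nat_lit 76) (nat_lit 4487610739) (nat_lit 44) (nat_lit 4) (nat_lit 45) (nat_lit 5) (nat_lit 45) (nat_lit 4) (nat_lit 439) (nat_lit 320) (nat_lit 261)) (XT.lf (nat_lit 0) (nat_lit 30543134233) (nat_lit 152) (nat_lit 5803020501) (nat_lit 0) (nat_lit 24935255666) (nat_lit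 42) (nat_lit 5) (nat_lit 44) (nat_lit 4) (nat_lit 42) (nat_lit 4) (nat_lit 440) (nat_lit 320) (nat_lit 260))))) (XT.nd (nat_lit 234) (nat_lit 1292) (nat_lit 0) (XT.nd (nat_lit 78) (nat_lit 684) (nat_lit 0) (XT.lf (nat_lit 0) (nat_lit 1192857440) (nat_lit 304) (nat_lit 2951353029) (nat_lit 0) (nat_lit 1192857440) (nat_lit 191) (nat_lit 5) (nat_lit 195) (nat_lit 4) (nat_lit 191) (nat_lit 4) (nat_lit 378) (nat_lit 321) (nat_lit 321)) (XT.nd (nat_lit 78) (nat_lit 380) (nat_lit 0) (XT.lf (nat_lit 0) (nat_lit 474605152) (nat_lit 304) (nat_lit 31935183) (nat_lit 76) (nat_lit 10403141940) (nat_lit 187) (nat_lit 5) (nat_lit 191) (nat_lit 5) (nat_lit 188) (nat_lit 4) (nat_lit 379) (nat_lit 321) (nat_lit 320)) (XT.lf (nat_lit 0) (nat_lit 6054441387) (nat_lit 228) (nat_lit 3492790931) (nat_lit 228) (nat_lit 1606025819) (nat_lit 182) (nat_lit 4) (nat_lit 185) (nat_lit 5) (nat_lit 185) (nat_lit 4) (nat_lit 380)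 (nat_lit 321) (nat_lit 319)))) (XT.nd (nat_lit 156) (nat_lit 608) (nat_lit 0) (XT.nd (nat_lit 78) (nat_lit 228) (nat_lit 0) (XT.lf (nat_lit 0) (nat_lit 889249572) (nat_lit 228) (nat_lit 6600566114) (nat_lit 228) (nat_lit 3917739860) (nat_lit 176) (nat_lit 4) (nat_lit 179) (nat_lit 5) (nat_lit 179) (nat_lit 4) (nat_lit 381) (nat_lit 321) (nat_lit 318)) (XT.lf (nat_lit 0) (nat_lit 5255768041) (nat_lit 228) (nat_lit 4551786011) (nat_lit 0) (nat_lit 1864197970) (nat_lit 173) (nat_lit 5) (nat_lit 176) (nat_lit 4) (nat_lit 173) (nat_lit 4) (nat_lit 382) (nat_lit 321) (nat_lit 317))) (XT.nd (nat_lit 78) (nat_lit 228) (nat_lit 0) (XT.lf (nat_lit 0) (nat_lit 1569977601) (nat_lit 152) (nat_lit 1243303863) (nat_lit 228) (nat_lit 9133584586) (nat_lit 168) (nat_lit 5) (nat_lit 170) (nat_lit 5) (nat_lit 171) (nat_lit 4) (nat_lit 383) (nat_lit 321) (nat_lit 316)) (XT.lf (nat_lit 0) (nat_lit 191924971) (nat_lit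 228) (nat_lit 4323704063) (nat_lit 76) (nat_lit 7716447757) (nat_lit 165) (nat_lit 5) (nat_lit 168) (nat_lit 5) (nat_lit 166) (nat_lit 4) (nat_lit 384) (nat_lit 321) (nat_lit 315))))))) (XT.nd (nat_lit 1014) (nat_lit 2280) (nat_lit 0) (XT.nd (nat_lit 468) (nat_lit 1520) (nat_lit 0) (XT.nd (nat_lit 234) (nat_lit 608) (nat_lit 0) (XT.nd (nat_lit 78) (nat_lit 608) (nat_lit 0) (XT.lf (nat_lit 0) (nat_lit 1880086441) (nat_lit 152) (nat_lit 7932483630) (nat_lit 152) (nat_lit 2715732354) (nat_lit 161) (nat_lit 4) (nat_lit 163) (nat_lit 5) (nat_lit 163) (nat_lit 4) (nat_lit 385) (nat_lit 321) (nat_lit 314)) (XT.nd (nat_lit 78) (nat_lit 380) (nat_lit 0) (XT.lf (nat_lit 0) (nat_lit 6986703269) (nat_lit 228) (nat_lit 4519640895) (nat_lit 0) (nat_lit 1329459363) (nat_lit 158) (nat_lit 5) (nat_lit 161) (nat_lit 4) (nat_lit 158) (nat_lit 4) (nat_lit 386) (nat_lit 321) (nat_lit 313)) (XT.lf (nat_lit 0) (nat_lit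 1766196428) (nat_lit 152) (nat_lit 2168614358) (nat_lit 228) (nat_lit 9220364196) (nat_lit 153) (nat_lit 5) (nat_lit 155) (nat_lit 5) (nat_lit 156) (nat_lit 4) (nat_lit 387) (nat_lit 321) (nat_lit 312)))) (XT.nd (nat_lit 78) (nat_lit 380) (nat_lit 0) (XT.lf (nat_lit 0) (nat_lit 668619521) (nat_lit 228) (nat_lit 5204670476) (nat_lit 76) (nat_lit 7612851538) (nat_lit 150) (nat_lit 5) (nat_lit 153) (nat_lit 5) (nat_lit 151) (nat_lit 4) (nat_lit 388) (nat_lit 321) (nat_lit 311)) (XT.nd (nat_lit 78) (nat_lit 152) (nat_lit 0) (XT.lf (nat_lit 0) (nat_lit 1121562735) (nat_lit 152) (nat_lit 9780681431) (nat_lit 152) (nat_lit 2927447037) (nat_lit 147) (nat_lit 4) (nat_lit 149) (nat_lit 5) (nat_lit 149) (nat_lit 4) (nat_lit 389) (nat_lit 321) (nat_lit 310)) (XT.lf (nat_lit 0) (nat_lit 7400876656) (nat_lit 152) (nat_lit 6483501742) (nat_lit 0) (nat_lit 301211667) (nat_lit 145) (nat_lit 5) (nat_lit 147) (nat_lit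 4) (nat_lit 145) (nat_lit 4) (nat_lit 390) (nat_lit 321) (nat_lit 309))))) (XT.nd (nat_lit 234) (nat_lit 912) (nat_lit 0) (XT.nd (nat_lit 78) (nat_lit 380) (nat_lit 0) (XT.lf (nat_lit 0) (nat_lit 3636420949) (nat_lit 228) (nat_lit 142529855) (nat_lit 76) (nat_lit 10776001718) (nat_lit 142) (nat_lit 5) (nat_lit 145) (nat_lit 5) (nat_lit 143) (nat_lit 4) (nat_lit 391) (nat_lit 321) (nat_lit 308)) (XT.nd (nat_lit 78) (nat_lit 152) (nat_lit 0) (XT.lf (nat_lit 0) (nat_lit 6477921365) (nat_lit 152) (nat_lit 8078694634) (nat_lit 152) (nat_lit 380602173) (nat_lit 139) (nat_lit 4) (nat_lit 141) (nat_lit 5) (nat_lit 141) (nat_lit 4) (nat_lit 392) (nat_lit 321) (nat_lit 307)) (XT.lf (nat_lit 0) (nat_lit 10535753409) (nat_lit 152) (nat_lit 2099272298) (nat_lit 0) (nat_lit 2698689777) (nat_lit 137) (nat_lit 5) (nat_lit 139) (nat_lit 4) (nat_lit 137) (nat_lit 4) (nat_lit 393) (nat_lit 321) (nat_lit 306)))) (XT.nd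 (nat_lit 156) (nat_lit 380) (nat_lit 0) (XT.nd (nat_lit 78) (nat_lit 228) (nat_lit 0) (XT.lf (nat_lit 0) (nat_lit 4496617887) (nat_lit 76) (nat_lit 1749477844) (nat_lit 152) (nat_lit 9498197389) (nat_lit 133) (nat_lit 5) (nat_lit 134) (nat_lit 5) (nat_lit 135) (nat_lit 4) (nat_lit 394) (nat_lit 321) (nat_lit 305)) (XT.lf (nat_lit 0) (nat_lit 1663951422) (nat_lit 228) (nat_lit 4886623445) (nat_lit 76) (nat_lit 9619184568) (nat_lit 130) (nat_lit 5) (nat_lit 133) (nat_lit 5) (nat_lit 131) (nat_lit 4) (nat_lit 395) (nat_lit 321) (nat_lit 304))) (XT.nd (nat_lit 78) (nat_lit 152) (nat_lit 0) (XT.lf (nat_lit 0) (nat_lit 1645430808) (nat_lit 152) (nat_lit 11642352391) (nat_lit 152) (nat_lit 3322894235) (nat_lit 127) (nat_lit 4) (nat_lit 129) (nat_lit 5) (nat_lit 129) (nat_lit 4) (nat_lit 396) (nat_lit 321) (nat_lit 303)) (XT.lf (nat_lit 0) (nat_lit 8395372476) (nat_lit 152) (nat_lit 8626837406) (nat_lit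 0) (nat_lit 44788682) (nat_lit 125) (nat_lit 5) (nat_lit 127) (nat_lit 4) (nat_lit 125) (nat_lit 4) (nat_lit 397) (nat_lit 321) (nat_lit 302)))))) (XT.nd (nat_lit 546) (nat_lit 1064) (nat_lit 0) (XT.nd (nat_lit 234) (nat_lit 608) (nat_lit 0) (XT.nd (nat_lit 78) (nat_lit 380) (nat_lit 0) (XT.lf (nat_lit 0) (nat_lit 3176204195) (nat_lit 228) (nat_lit 2163308279) (nat_lit 76) (nat_lit 12200224361) (nat_lit 122) (nat_lit 5) (nat_lit 125) (nat_lit 5) (nat_lit 123) (nat_lit 4) (nat_lit 398) (nat_lit 321) (nat_lit 301)) (XT.nd (nat_lit 78) (nat_lit 152) (nat_lit 0) (XT.lf (nat_lit 0) (nat_lit 4550058991) (nat_lit 152) (nat_lit 11039940490) (nat_lit 152) (nat_lit 2438949329) (nat_lit 119) (nat_lit 4) (nat_lit 121) (nat_lit 5) (nat_lit 121) (nat_lit 4) (nat_lit 399) (nat_lit 321) (nat_lit 300)) (XT.lf (nat_lit 0) (nat_lit 10022449028) (nat_lit 152) (nat_lit 7063821635) (nat_lit 0) (nat_lit 1449323750) (nat_lit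 117) (nat_lit 5) (nat_lit 119) (nat_lit 4) (nat_lit 117) (nat_lit 4) (nat_lit 400) (nat_lit 321) (nat_lit 299)))) (XT.nd (nat_lit 156) (nat_lit 304) (nat_lit 0) (XT.nd (nat_lit 78) (nat_lit 152) (nat_lit 0) (XT.lf (nat_lit 0) (nat_lit 4080623229) (nat_lit 152) (nat_lit 501506240) (nat_lit 76) (nat_lit 14478502453) (nat_lit 115) (nat_lit 5) (nat_lit 117) (nat_lit 5) (nat_lit 116) (nat_lit 4) (nat_lit 401) (nat_lit 321) (nat_lit 298)) (XT.lf (nat_lit 0) (nat_lit 6348933400) (nat_lit 76) (nat_lit 10989749265) (nat_lit 76) (nat_lit 2264389965) (nat_lit 113) (nat_lit 4) (nat_lit 114) (nat_lit 5) (nat_lit 114) (nat_lit 4) (nat_lit 402) (nat_lit 321) (nat_lit 297))) (XT.nd (nat_lit 78) (nat_lit 152) (nat_lit 0) (XT.lf (nat_lit 0) (nat_lit 11017195948) (nat_lit 152) (nat_lit 6783164265) (nat_lit 0) (nat_lit 2364681895) (nat_lit 111) (nat_lit 5) (nat_lit 113) (nat_lit 4) (nat_lit 111) (nat_lit 4) (nat_lit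 403) (nat_lit 321) (nat_lit 296)) (XT.lf (nat_lit 0) (nat_lit 4274687794) (nat_lit 152) (nat_lit 147556336) (nat_lit 76) (nat_lit 16325164141) (nat_lit 109) (nat_lit 5) (nat_lit 111) (nat_lit 5) (nat_lit 110) (nat_lit 4) (nat_lit 404) (nat_lit 321) (nat_lit 295))))) (XT.nd (nat_lit 234) (nat_lit 608) (nat_lit 0) (XT.nd (nat_lit 78) (nat_lit 304) (nat_lit 0) (XT.lf (nat_lit 0) (nat_lit 6785859983) (nat_lit 76) (nat_lit 11645266226) (nat_lit 76) (nat_lit 2917490273) (nat_lit 107) (nat_lit 4) (nat_lit 108) (nat_lit 5) (nat_lit 108) (nat_lit 4) (nat_lit 405) (nat_lit 321) (nat_lit 294)) (XT.nd (nat_lit 78) (nat_lit 152) (nat_lit 0) (XT.lf (nat_lit 0) (nat_lit 11265757496) (nat_lit 152) (nat_lit 8061160494) (nat_lit 0) (nat_lit 2644572101) (nat_lit 105) (nat_lit 5) (nat_lit 107) (nat_lit 4) (nat_lit 105) (nat_lit 4) (nat_lit 406) (nat_lit 321) (nat_lit 293)) (XT.lf (nat_lit 0) (nat_lit 3634429143) (nat_lit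 152) (nat_lit 1383881384) (nat_lit 76) (nat_lit 17598458232) (nat_lit 103) (nat_lit 5) (nat_lit 105) (nat_lit 5) (nat_lit 104) (nat_lit 4) (nat_lit 407) (nat_lit 321) (nat_lit 292)))) (XT.nd (nat_lit 156) (nat_lit 304) (nat_lit 0) (XT.nd (nat_lit 78) (nat_lit 152) (nat_lit 0) (XT.lf (nat_lit 0) (nat_lit 5566581768) (nat_lit 76) (nat_lit 13176465956) (nat_lit 76) (nat_lit 4539897925) (nat_lit 101) (nat_lit 4) (nat_lit 102) (nat_lit 5) (nat_lit 102) (nat_lit 4) (nat_lit 408) (nat_lit 321) (nat_lit 291)) (XT.lf (nat_lit 0) (nat_lit 10631546627) (nat_lit 152) (nat_lit 11215062236) (nat_lit 0) (nat_lit 2126332410) (nat_lit 99) (nat_lit 5) (nat_lit 101) (nat_lit 4) (nat_lit 99) (nat_lit 4) (nat_lit 409) (nat_lit 321) (nat_lit 290))) (XT.nd (nat_lit 78) (nat_lit 152) (nat_lit 0) (XT.lf (nat_lit 0) (nat_lit 2012094656) (nat_lit 152) (nat_lit 4535135122) (nat_lit 76) (nat_lit 18140095084) (nat_lit 97) (nat_lit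 5) (nat_lit 99) (nat_lit 5) (nat_lit 98) (nat_lit 4) (nat_lit 410) (nat_lit 321) (nat_lit 289)) (XT.lf (nat_lit 0) (nat_lit 2352381644) (nat_lit 76) (nat_lit 15773747226) (nat_lit 76) (nat_lit 7299272240) (nat_lit 95) (nat_lit 4) (nat_lit 96) (nat_lit 5) (nat_lit 96) (nat_lit 4) (nat_lit 411) (nat_lit 321) (nat_lit 288))))))))
noncomputable def xc19 : XT := (XT.nd (nat_lit 2106) (nat_lit 304) (nat_lit 0) (XT.nd (nat_lit 1014) (nat_lit 1824) (nat_lit 0) (XT.nd (nat_lit 468) (nat_lit 988) (nat_lit 0) (XT.nd (nat_lit 234) (nat_lit 456) (nat_lit 0) (XT.nd (nat_lit 78) (nat_lit 228) (nat_lit 0) (XT.lf (nat_lit 0) (nat_lit 8952592876) (nat_lit 152) (nat_lit 16609768843) (nat_lit 0) (nat_lit 627077112) (nat_lit 93) (nat_lit 5) (nat_lit 95) (nat_lit 4) (nat_lit 93) (nat_lit 4) (nat_lit 412) (nat_lit 321) (nat_lit 287)) (XT.nd (nat_lit 78) (nat_lit 152) (nat_lit 0) (XT.lf (nat_lit 0) (nat_lit 16996995923)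 (nat_lit 76) (nat_lit 9200646649) (nat_lit 76) (nat_lit 781921222) (nat_lit 92) (nat_lit 4) (nat_lit 93) (nat_lit 5) (nat_lit 93) (nat_lit 4) (nat_lit 413) (nat_lit 321) (nat_lit 286)) (XT.lf (nat_lit 0) (nat_lit 16436285717) (nat_lit 152) (nat_lit 3183699102) (nat_lit 0) (nat_lit 8176580343) (nat_lit 90) (nat_lit 5) (nat_lit 92) (nat_lit 4) (nat_lit 90) (nat_lit 4) (nat_lit 414) (nat_lit 321) (nat_lit 285)))) (XT.nd (nat_lit 78) (nat_lit 228) (nat_lit 0) (XT.lf (nat_lit 0) (nat_lit 3957156798) (nat_lit 76) (nat_lit 2101436127) (nat_lit 152) (nat_lit 22584077730) (nat_lit 87) (nat_lit 5) (nat_lit 88) (nat_lit 5) (nat_lit 89) (nat_lit 4) (nat_lit 415) (nat_lit 321) (nat_lit 284)) (XT.nd (nat_lit 78) (nat_lit 152) (nat_lit 0) (XT.lf (nat_lit 0) (nat_lit 11333533046) (nat_lit 76) (nat_lit 13178467979) (nat_lit 76) (nat_lit 5003749854) (nat_lit 86) (nat_lit 4) (nat_lit 87) (nat_lit 5) (nat_lit 87)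 (nat_lit 4) (nat_lit 416) (nat_lit 321) (nat_lit 283)) (XT.lf (nat_lit 0) (nat_lit 13486432290) (nat_lit 152) (nat_lit 11453734180) (nat_lit 0) (nat_lit 5479636193) (nat_lit 84) (nat_lit 5) (nat_lit 86) (nat_lit 4) (nat_lit 84) (nat_lit 4) (nat_lit 417) (nat_lit 321) (nat_lit 282))))) (XT.nd (nat_lit 234) (nat_lit 532) (nat_lit 0) (XT.nd (nat_lit 78) (nat_lit 304) (nat_lit 0) (XT.lf (nat_lit 0) (nat_lit 1770644891) (nat_lit 152) (nat_lit 4479221784) (nat_lit 76) (nat_lit 25106237203) (nat_lit 82) (nat_lit 5) (nat_lit 84) (nat_lit 5) (nat_lit 83) (nat_lit 4) (nat_lit 418) (nat_lit 321) (nat_lit 281)) (XT.nd (nat_lit 78) (nat_lit 152) (nat_lit 0) (XT.lf (nat_lit 0) (nat_lit 2709438617) (nat_lit 76) (nat_lit 18756420260) (nat_lit 76) (nat_lit 10856145383) (nat_lit 80) (nat_lit 4) (nat_lit 81) (nat_lit 5) (nat_lit 81) (nat_lit 4) (nat_lit 419) (nat_lit 321) (nat_lit 280)) (XT.lf (nat_lit 0) (nat_lit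 9018723379) (nat_lit 152) (nat_lit 23012093510) (nat_lit 0) (nat_lit 1291412348) (nat_lit 78) (nat_lit 5) (nat_lit 80) (nat_lit 4) (nat_lit 78) (nat_lit 4) (nat_lit 420) (nat_lit 321) (nat_lit 279)))) (XT.nd (nat_lit 156) (nat_lit 304) (nat_lit 0) (XT.nd (nat_lit 78) (nat_lit 152) (nat_lit 0) (XT.lf (nat_lit 0) (nat_lit 18114737719) (nat_lit 76) (nat_lit 12011170787) (nat_lit 76) (nat_lit 4229439520) (nat_lit 77) (nat_lit 4) (nat_lit 78) (nat_lit 5) (nat_lit 78) (nat_lit 4) (nat_lit 421) (nat_lit 321) (nat_lit 278)) (XT.lf (nat_lit 0) (nat_lit 16896278273) (nat_lit 152) (nat_lit 9236804042) (nat_lit 0) (nat_lit 9290880154) (nat_lit 75) (nat_lit 5) (nat_lit 77) (nat_lit 4) (nat_lit 75) (nat_lit 4) (nat_lit 422) (nat_lit 321) (nat_lit 277))) (XT.nd (nat_lit 78) (nat_lit 152) (nat_lit 0) (XT.lf (nat_lit 0) (nat_lit 2824157766) (nat_lit 152) (nat_lit 1920280921) (nat_lit 76) (nat_lit 31786832391) (nat_lit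 73) (nat_lit 5) (nat_lit 75) (nat_lit 5) (nat_lit 74) (nat_lit 4) (nat_lit 423) (nat_lit 321) (nat_lit 276)) (XT.lf (nat_lit 0) (nat_lit 5670933535) (nat_lit 76) (nat_lit 19737888283) (nat_lit 76) (nat_lit 12263167698) (nat_lit 71) (nat_lit 4) (nat_lit 72) (nat_lit 5) (nat_lit 72) (nat_lit 4) (nat_lit 424) (nat_lit 321) (nat_lit 275)))))) (XT.nd (nat_lit 546) (nat_lit 912) (nat_lit 0) (XT.nd (nat_lit 234) (nat_lit 532) (nat_lit 0) (XT.nd (nat_lit 78) (nat_lit 228) (nat_lit 0) (XT.lf (nat_lit 0) (nat_lit 10483806973) (nat_lit 152) (nat_lit 25184228755) (nat_lit 0) (nat_lit 3185824283) (nat_lit 69) (nat_lit 5) (nat_lit 71) (nat_lit 4) (nat_lit 69) (nat_lit 4) (nat_lit 425) (nat_lit 321) (nat_lit 274)) (XT.nd (nat_lit 78) (nat_lit 152) (nat_lit 0) (XT.lf (nat_lit 0) (nat_lit 21914446923) (nat_lit 76) (nat_lit 12748640637) (nat_lit 76) (nat_lit 5411636600) (nat_lit 68) (nat_lit 4) (nat_lit 69) (nat_lit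 5) (nat_lit 69) (nat_lit 4) (nat_lit 426) (nat_lit 321) (nat_lit 273)) (XT.lf (nat_lit 0) (nat_lit 18807233618) (nat_lit 152) (nat_lit 10881838769) (nat_lit 0) (nat_lit 11647847963) (nat_lit 66) (nat_lit 5) (nat_lit 68) (nat_lit 4) (nat_lit 66) (nat_lit 4) (nat_lit 427) (nat_lit 321) (nat_lit 272)))) (XT.nd (nat_lit 156) (nat_lit 228) (nat_lit 0) (XT.nd (nat_lit 78) (nat_lit 152) (nat_lit 0) (XT.lf (nat_lit 0) (nat_lit 1949666243) (nat_lit 152) (nat_lit 3235925812) (nat_lit 76) (nat_lit 37459192447) (nat_lit 64) (nat_lit 5) (nat_lit 66) (nat_lit 5) (nat_lit 65) (nat_lit 4) (nat_lit 428) (nat_lit 321) (nat_lit 271)) (XT.lf (nat_lit 0) (nat_lit 4665583473) (nat_lit 76) (nat_lit 23171135376) (nat_lit 76) (nat_lit 16155140615) (nat_lit 62) (nat_lit 4) (nat_lit 63) (nat_lit 5) (nat_lit 63) (nat_lit 4) (nat_lit 429) (nat_lit 321) (nat_lit 270))) (XT.nd (nat_lit 78) (nat_lit 76) (nat_lit 0) (XT.lf (nat_lit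 0) (nat_lit 9957760816) (nat_lit 152) (nat_lit 32313014255) (nat_lit 0) (nat_lit 3116736662) (nat_lit 60) (nat_lit 5) (nat_lit 62) (nat_lit 4) (nat_lit 60) (nat_lit 4) (nat_lit 430) (nat_lit 321) (nat_lit 269)) (XT.lf (nat_lit 0) (nat_lit 21729970185) (nat_lit 76) (nat_lit 15983521437) (nat_lit 76) (nat_lit 9114517516) (nat_lit 59) (nat_lit 4) (nat_lit 60) (nat_lit 5) (nat_lit 60) (nat_lit 4) (nat_lit 431) (nat_lit 321) (nat_lit 268))))) (XT.nd (nat_lit 234) (nat_lit 532) (nat_lit 0) (XT.nd (nat_lit 78) (nat_lit 228) (nat_lit 0) (XT.lf (nat_lit 0) (nat_lit 18725979569) (nat_lit 152) (nat_lit 17560914872) (nat_lit 0) (nat_lit 12031172465) (nat_lit 57) (nat_lit 5) (nat_lit 59) (nat_lit 4) (nat_lit 57) (nat_lit 4) (nat_lit 432) (nat_lit 321) (nat_lit 267)) (XT.nd (nat_lit 78) (nat_lit 152) (nat_lit 0) (XT.lf (nat_lit 0) (nat_lit 40228249468) (nat_lit 76) (nat_lit 8176044190) (nat_lit 76) (nat_lit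 1456597792) (nat_lit 56) (nat_lit 4) (nat_lit 57) (nat_lit 5) (nat_lit 57) (nat_lit 4) (nat_lit 433) (nat_lit 321) (nat_lit 266)) (XT.lf (nat_lit 0) (nat_lit 28241995578) (nat_lit 152) (nat_lit 1514152197) (nat_lit 0) (nat_lit 21695478692) (nat_lit 54) (nat_lit 5) (nat_lit 56) (nat_lit 4) (nat_lit 54) (nat_lit 4) (nat_lit 434) (nat_lit 321) (nat_lit 265)))) (XT.nd (nat_lit 156) (nat_lit 228) (nat_lit 0) (XT.nd (nat_lit 78) (nat_lit 76) (nat_lit 0) (XT.lf (nat_lit 0) (nat_lit 6824665172) (nat_lit 152) (nat_lit 45827038363) (nat_lit 0) (nat_lit 447757869) (nat_lit 51) (nat_lit 5) (nat_lit 53) (nat_lit 4) (nat_lit 51) (nat_lit 4) (nat_lit 435) (nat_lit 321) (nat_lit 264)) (XT.lf (nat_lit 0) (nat_lit 16280810452) (nat_lit 76) (nat_lit 22456625209) (nat_lit 76) (nat_lit 16059655366) (nat_lit 50) (nat_lit 4) (nat_lit 51) (nat_lit 5) (nat_lit 51) (nat_lit 4) (nat_lit 436) (nat_lit 321) (nat_lit 263)))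 (XT.nd (nat_lit 78) (nat_lit 76) (nat_lit 0) (XT.lf (nat_lit 0) (nat_lit 16013729720) (nat_lit 152) (nat_lit 30757230119) (nat_lit 0) (nat_lit 9784528726) (nat_lit 48) (nat_lit 5) (nat_lit 50) (nat_lit 4) (nat_lit 48) (nat_lit 4) (nat_lit 437) (nat_lit 321) (nat_lit 262)) (XT.lf (nat_lit 0) (nat_lit 35714892377) (nat_lit 76) (nat_lit 14452376503) (nat_lit 76) (nat_lit 8205508212) (nat_lit 47) (nat_lit 4) (nat_lit 48) (nat_lit 5) (nat_lit 48) (nat_lit 4) (nat_lit 438) (nat_lit 321) (nat_lit 261))))))) (XT.nd (nat_lit 49062) (nat_lit 0) (nat_lit 5624) (XT.nd (nat_lit 48516) (nat_lit 0) (nat_lit 8740) (XT.nd (nat_lit 48282) (nat_lit 0) (nat_lit 10944) (XT.nd (nat_lit 78) (nat_lit 152) (nat_lit 0) (XT.lf (nat_lit 0) (nat_lit 26043051518) (nat_lit 152) (nat_lit 14244720839) (nat_lit 0) (nat_lit 19961794928) (nat_lit 45) (nat_lit 5) (nat_lit 47) (nat_lit 4) (nat_lit 45) (nat_lit 4) (nat_lit 439) (nat_lit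 321) (nat_lit 260)) (XT.nd (nat_lit 48126) (nat_lit 0) (nat_lit 12084) (XT.lf (nat_lit 0) (nat_lit 403267443) (nat_lit 152) (nat_lit 5278181697) (nat_lit 76) (nat_lit 56513044884) (nat_lit 43) (nat_lit 5) (nat_lit 45) (nat_lit 5) (nat_lit 44) (nat_lit 4) (nat_lit 440) (nat_lit 321) (nat_lit 259)) (XT.lf (nat_lit 0) (nat_lit 1798448491) (nat_lit 228) (nat_lit 1657772763) (nat_lit 228) (nat_lit 1657772763) (nat_lit 202) (nat_lit 4) (nat_lit 205) (nat_lit 5) (nat_lit 205) (nat_lit 4) (nat_lit 376) (nat_lit 322) (nat_lit 322)))) (XT.nd (nat_lit 78) (nat_lit 836) (nat_lit 0) (XT.lf (nat_lit 0) (nat_lit 5175761765) (nat_lit 304) (nat_lit 1173790730) (nat_lit 0) (nat_lit 4099254355) (nat_lit 198) (nat_lit 5) (nat_lit 202) (nat_lit 4) (nat_lit 198) (nat_lit 4) (nat_lit 377) (nat_lit 322) (nat_lit 321)) (XT.nd (nat_lit 78) (nat_lit 304) (nat_lit 0) (XT.lf (nat_lit 0) (nat_lit 3272328751) (nat_lit 304) (nat_lit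 6174770953) (nat_lit 0) (nat_lit 1231792282) (nat_lit 191) (nat_lit 5) (nat_lit 195) (nat_lit 4) (nat_lit 191) (nat_lit 4) (nat_lit 378) (nat_lit 322) (nat_lit 320)) (XT.lf (nat_lit 0) (nat_lit 1181511057) (nat_lit 304) (nat_lit 590053443) (nat_lit 76) (nat_lit 9147351942) (nat_lit 187) (nat_lit 5) (nat_lit 191) (nat_lit 5) (nat_lit 188) (nat_lit 4) (nat_lit 379) (nat_lit 322) (nat_lit 319))))) (XT.nd (nat_lit 234) (nat_lit 1140) (nat_lit 0) (XT.nd (nat_lit 78) (nat_lit 684) (nat_lit 0) (XT.lf (nat_lit 0) (nat_lit 5208381371) (nat_lit 228) (nat_lit 4868722247) (nat_lit 228) (nat_lit 1090699725) (nat_lit 182) (nat_lit 4) (nat_lit 185) (nat_lit 5) (nat_lit 185) (nat_lit 4) (nat_lit 380) (nat_lit 322) (nat_lit 318)) (XT.nd (nat_lit 78) (nat_lit 456) (nat_lit 0) (XT.lf (nat_lit 0) (nat_lit 7813245525) (nat_lit 228) (nat_lit 279390256) (nat_lit 0) (nat_lit 3334771574) (nat_lit 179) (nat_lit 5) (nat_lit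 182) (nat_lit 4) (nat_lit 179) (nat_lit 4) (nat_lit 381) (nat_lit 322) (nat_lit 317)) (XT.lf (nat_lit 0) (nat_lit 5372491302) (nat_lit 228) (nat_lit 6049408272) (nat_lit 0) (nat_lit 275044637) (nat_lit 173) (nat_lit 5) (nat_lit 176) (nat_lit 4) (nat_lit 173) (nat_lit 4) (nat_lit 382) (nat_lit 322) (nat_lit 316)))) (XT.nd (nat_lit 156) (nat_lit 608) (nat_lit 0) (XT.nd (nat_lit 78) (nat_lit 304) (nat_lit 0) (XT.lf (nat_lit 0) (nat_lit 2724383227) (nat_lit 228) (nat_lit 280676047) (nat_lit 76) (nat_lit 8972331866) (nat_lit 170) (nat_lit 5) (nat_lit 173) (nat_lit 5) (nat_lit 171) (nat_lit 4) (nat_lit 383) (nat_lit 322) (nat_lit 315)) (XT.lf (nat_lit 0) (nat_lit 5736185801) (nat_lit 152) (nat_lit 6416953156) (nat_lit 152) (nat_lit 115094593) (nat_lit 166) (nat_lit 4) (nat_lit 168) (nat_lit 5) (nat_lit 168) (nat_lit 4) (nat_lit 384) (nat_lit 322) (nat_lit 314))) (XT.nd (nat_lit 78) (nat_lit 380) (nat_lit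 0) (XT.lf (nat_lit 0) (nat_lit 9303780867) (nat_lit 228) (nat_lit 691570339) (nat_lit 0) (nat_lit 2575261636) (nat_lit 163) (nat_lit 5) (nat_lit 166) (nat_lit 4) (nat_lit 163) (nat_lit 4) (nat_lit 385) (nat_lit 322) (nat_lit 313)) (XT.lf (nat_lit 0) (nat_lit 5388937523) (nat_lit 152) (nat_lit 866534932) (nat_lit 228) (nat_lit 6628526968) (nat_lit 158) (nat_lit 5) (nat_lit 160) (nat_lit 5) (nat_lit 161) (nat_lit 4) (nat_lit 386) (nat_lit 322) (nat_lit 312)))))) (XT.nd (nat_lit 546) (nat_lit 1520) (nat_lit 0) (XT.nd (nat_lit 234) (nat_lit 912) (nat_lit 0) (XT.nd (nat_lit 78) (nat_lit 456) (nat_lit 0) (XT.lf (nat_lit 0) (nat_lit 2972430299) (nat_lit 228) (nat_lit 1600092678) (nat_lit 76) (nat_lit 8637017567) (nat_lit 155) (nat_lit 5) (nat_lit 158) (nat_lit 5) (nat_lit 156) (nat_lit 4) (nat_lit 387) (nat_lit 322) (nat_lit 311)) (XT.nd (nat_lit 78) (nat_lit 152) (nat_lit 0) (XT.lf (nat_lit 0) (nat_lit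 4525396640) (nat_lit 152) (nat_lit 8465201009) (nat_lit 152) (nat_lit 556564693) (nat_lit 151) (nat_lit 4) (nat_lit 153) (nat_lit 5) (nat_lit 153) (nat_lit 4) (nat_lit 388) (nat_lit 322) (nat_lit 310)) (XT.lf (nat_lit 0) (nat_lit 9473513775) (nat_lit 152) (nat_lit 3087985393) (nat_lit 0) (nat_lit 1335805545) (nat_lit 149) (nat_lit 5) (nat_lit 151) (nat_lit 4) (nat_lit 149) (nat_lit 4) (nat_lit 389) (nat_lit 322) (nat_lit 309)))) (XT.nd (nat_lit 156) (nat_lit 380) (nat_lit 0) (XT.nd (nat_lit 78) (nat_lit 228) (nat_lit 0) (XT.lf (nat_lit 0) (nat_lit 3030776234) (nat_lit 76) (nat_lit 2686478859) (nat_lit 152) (nat_lit 8542874298) (nat_lit 145) (nat_lit 5) (nat_lit 146) (nat_lit 5) (nat_lit 147) (nat_lit 4) (nat_lit 390) (nat_lit 322) (nat_lit 308)) (XT.lf (nat_lit 0) (nat_lit 1700924909) (nat_lit 228) (nat_lit 5277180280) (nat_lit 76) (nat_lit 7658242969) (nat_lit 142) (nat_lit 5) (nat_lit 145) (nat_lit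 5) (nat_lit 143) (nat_lit 4) (nat_lit 391) (nat_lit 322) (nat_lit 307))) (XT.nd (nat_lit 78) (nat_lit 152) (nat_lit 0) (XT.lf (nat_lit 0) (nat_lit 822069610) (nat_lit 152) (nat_lit 11527282320) (nat_lit 152) (nat_lit 2677414921) (nat_lit 139) (nat_lit 4) (nat_lit 141) (nat_lit 5) (nat_lit 141) (nat_lit 4) (nat_lit 392) (nat_lit 322) (nat_lit 306)) (XT.lf (nat_lit 0) (nat_lit 7167174754) (nat_lit 76) (nat_lit 898496059) (nat_lit 152) (nat_lit 7364798367) (nat_lit 137) (nat_lit 5) (nat_lit 138) (nat_lit 5) (nat_lit 139) (nat_lit 4) (nat_lit 393) (nat_lit 322) (nat_lit 305))))) (XT.nd (nat_lit 234) (nat_lit 912) (nat_lit 0) (XT.nd (nat_lit 78) (nat_lit 380) (nat_lit 0) (XT.lf (nat_lit 0) (nat_lit 3482532574) (nat_lit 228) (nat_lit 2197877690) (nat_lit 76) (nat_lit 10168781226) (nat_lit 134) (nat_lit 5) (nat_lit 137) (nat_lit 5) (nat_lit 135) (nat_lit 4) (nat_lit 394) (nat_lit 322) (nat_lit 304)) (XT.nd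 (nat_lit 78) (nat_lit 152) (nat_lit 0) (XT.lf (nat_lit 0) (nat_lit 4102879363) (nat_lit 152) (nat_lit 10741076410) (nat_lit 152) (nat_lit 1438985345) (nat_lit 131) (nat_lit 4) (nat_lit 133) (nat_lit 5) (nat_lit 133) (nat_lit 4) (nat_lit 395) (nat_lit 322) (nat_lit 303)) (XT.lf (nat_lit 0) (nat_lit 9952618771) (nat_lit 152) (nat_lit 6139645296) (nat_lit 0) (nat_lit 639819246) (nat_lit 129) (nat_lit 5) (nat_lit 131) (nat_lit 4) (nat_lit 129) (nat_lit 4) (nat_lit 396) (nat_lit 322) (nat_lit 302)))) (XT.nd (nat_lit 156) (nat_lit 456) (nat_lit 0) (XT.nd (nat_lit 78) (nat_lit 152) (nat_lit 0) (XT.lf (nat_lit 0) (nat_lit 30681096) (nat_lit 76) (nat_lit 4704152497) (nat_lit 152) (nat_lit 12462710212) (nat_lit 125) (nat_lit 5) (nat_lit 126) (nat_lit 5) (nat_lit 127) (nat_lit 4) (nat_lit 397) (nat_lit 322) (nat_lit 301)) (XT.lf (nat_lit 0) (nat_lit 6495091795) (nat_lit 152) (nat_lit 10366920302) (nat_lit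 152) (nat_lit 816930264) (nat_lit 123) (nat_lit 4) (nat_lit 125) (nat_lit 5) (nat_lit 125) (nat_lit 4) (nat_lit 398) (nat_lit 322) (nat_lit 300))) (XT.nd (nat_lit 78) (nat_lit 304) (nat_lit 0) (XT.lf (nat_lit 0) (nat_lit 11303829223) (nat_lit 152) (nat_lit 5071163652) (nat_lit 0) (nat_lit 1802666358) (nat_lit 121) (nat_lit 5) (nat_lit 123) (nat_lit 4) (nat_lit 121) (nat_lit 4) (nat_lit 399) (nat_lit 322) (nat_lit 299)) (XT.lf (nat_lit 0) (nat_lit 1213769450) (nat_lit 76) (nat_lit 4172112232) (nat_lit 152) (nat_lit 13308348892) (nat_lit 117) (nat_lit 5) (nat_lit 118) (nat_lit 5) (nat_lit 119) (nat_lit 4) (nat_lit 400) (nat_lit 322) (nat_lit 298))))))))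
noncomputable def xc20 : XT := (XT.nd (nat_lit 2106) (nat_lit 1672) (nat_lit 0) (XT.nd (nat_lit 1014) (nat_lit 1976) (nat_lit 0) (XT.nd (nat_lit 468) (nat_lit 988) (nat_lit 0) (XT.nd (nat_lit 234) (nat_lit 380) (nat_lit 0) (XT.nd (nat_lit 78) (nat_lit 380) (nat_lit 0) (XT.lf (nat_lit 0) (nat_lit 7774006716) (nat_lit 76) (nat_lit 10546442919) (nat_lit 76) (nat_lit 908018153) (nat_lit 116) (nat_lit 4) (nat_lit 117) (nat_lit 5) (nat_lit 117) (nat_lit 4) (nat_lit 401) (nat_lit 322) (nat_lit 297)) (XT.nd (nat_lit 78) (nat_lit 228) (nat_lit 0) (XT.lf (nat_lit 0) (nat_lit 12017490130) (nat_lit 152) (nat_lit 5291122308) (nat_lit 0) (nat_lit 2473066008) (nat_lit 114) (nat_lit 5) (nat_lit 116) (nat_lit 4) (nat_lit 114) (nat_lit 4) (nat_lit 402) (nat_lit 322) (nat_lit 296)) (XT.lf (nat_lit 0) (nat_lit 1055840778) (nat_lit 76) (nat_lit 4253569645) (nat_lit 152) (nat_lit 15045282764) (nat_lit 111) (nat_lit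 5) (nat_lit 112) (nat_lit 5) (nat_lit 113) (nat_lit 4) (nat_lit 403) (nat_lit 322) (nat_lit 295)))) (XT.nd (nat_lit 78) (nat_lit 304) (nat_lit 0) (XT.lf (nat_lit 0) (nat_lit 7682879651) (nat_lit 76) (nat_lit 11433741975) (nat_lit 76) (nat_lit 1830215611) (nat_lit 110) (nat_lit 4) (nat_lit 111) (nat_lit 5) (nat_lit 111) (nat_lit 4) (nat_lit 404) (nat_lit 322) (nat_lit 294)) (XT.nd (nat_lit 78) (nat_lit 152) (nat_lit 0) (XT.lf (nat_lit 0) (nat_lit 11979892712) (nat_lit 152) (nat_lit 7076106153) (nat_lit 0) (nat_lit 2504035703) (nat_lit 108) (nat_lit 5) (nat_lit 110) (nat_lit 4) (nat_lit 108) (nat_lit 4) (nat_lit 405) (nat_lit 322) (nat_lit 293)) (XT.lf (nat_lit 0) (nat_lit 4385957950) (nat_lit 152) (nat_lit 717167134) (nat_lit 76) (nat_lit 17092119266) (nat_lit 106) (nat_lit 5) (nat_lit 108) (nat_lit 5) (nat_lit 107) (nat_lit 4) (nat_lit 406) (nat_lit 322) (nat_lit 292))))) (XT.nd (nat_lit 234) (nat_lit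 532) (nat_lit 0) (XT.nd (nat_lit 78) (nat_lit 304) (nat_lit 0) (XT.lf (nat_lit 0) (nat_lit 5927172014) (nat_lit 76) (nat_lit 13199157454) (nat_lit 76) (nat_lit 3724816604) (nat_lit 104) (nat_lit 4) (nat_lit 105) (nat_lit 5) (nat_lit 105) (nat_lit 4) (nat_lit 407) (nat_lit 322) (nat_lit 291)) (XT.nd (nat_lit 78) (nat_lit 152) (nat_lit 0) (XT.lf (nat_lit 0) (nat_lit 11054638520) (nat_lit 152) (nat_lit 10743367309) (nat_lit 0) (nat_lit 1732446732) (nat_lit 102) (nat_lit 5) (nat_lit 104) (nat_lit 4) (nat_lit 102) (nat_lit 4) (nat_lit 408) (nat_lit 322) (nat_lit 290)) (XT.lf (nat_lit 0) (nat_lit 2486857254) (nat_lit 152) (nat_lit 4391778812) (nat_lit 76) (nat_lit 17355009611) (nat_lit 100) (nat_lit 5) (nat_lit 102) (nat_lit 5) (nat_lit 101) (nat_lit 4) (nat_lit 409) (nat_lit 322) (nat_lit 289)))) (XT.nd (nat_lit 156) (nat_lit 228) (nat_lit 0) (XT.nd (nat_lit 78) (nat_lit 152) (nat_lit 0) (XT.lf (nat_lit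 0) (nat_lit 2168180967) (nat_lit 76) (nat_lit 16033212963) (nat_lit 76) (nat_lit 6759046306) (nat_lit 98) (nat_lit 4) (nat_lit 99) (nat_lit 5) (nat_lit 99) (nat_lit 4) (nat_lit 410) (nat_lit 322) (nat_lit 288)) (XT.lf (nat_lit 0) (nat_lit 9054936648) (nat_lit 76) (nat_lit 25326279) (nat_lit 152) (nat_lit 16632401271) (nat_lit 96) (nat_lit 5) (nat_lit 97) (nat_lit 5) (nat_lit 98) (nat_lit 4) (nat_lit 411) (nat_lit 322) (nat_lit 287))) (XT.nd (nat_lit 78) (nat_lit 152) (nat_lit 0) (XT.lf (nat_lit 0) (nat_lit 16122821599) (nat_lit 76) (nat_lit 9784234227) (nat_lit 76) (nat_lit 583376725) (nat_lit 95) (nat_lit 4) (nat_lit 96) (nat_lit 5) (nat_lit 96) (nat_lit 4) (nat_lit 412) (nat_lit 322) (nat_lit 286)) (XT.lf (nat_lit 0) (nat_lit 16205042216) (nat_lit 152) (nat_lit 3906324220) (nat_lit 0) (nat_lit 7183399747) (nat_lit 93) (nat_lit 5) (nat_lit 95) (nat_lit 4) (nat_lit 93) (nat_lit 4) (nat_lit 413)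 (nat_lit 322) (nat_lit 285)))))) (XT.nd (nat_lit 546) (nat_lit 988) (nat_lit 0) (XT.nd (nat_lit 234) (nat_lit 532) (nat_lit 0) (XT.nd (nat_lit 78) (nat_lit 228) (nat_lit 0) (XT.lf (nat_lit 0) (nat_lit 2860803151) (nat_lit 76) (nat_lit 3034265583) (nat_lit 152) (nat_lit 22232708062) (nat_lit 90) (nat_lit 5) (nat_lit 91) (nat_lit 5) (nat_lit 92) (nat_lit 4) (nat_lit 414) (nat_lit 322) (nat_lit 284)) (XT.nd (nat_lit 78) (nat_lit 152) (nat_lit 0) (XT.lf (nat_lit 0) (nat_lit 9880731323) (nat_lit 76) (nat_lit 14012863860) (nat_lit 76) (nat_lit 5093733382) (nat_lit 89) (nat_lit 4) (nat_lit 90) (nat_lit 5) (nat_lit 90) (nat_lit 4) (nat_lit 415) (nat_lit 322) (nat_lit 283)) (XT.lf (nat_lit 0) (nat_lit 12941751141) (nat_lit 152) (nat_lit 12725526884) (nat_lit 0) (nat_lit 4210119307) (nat_lit 87) (nat_lit 5) (nat_lit 89) (nat_lit 4) (nat_lit 87) (nat_lit 4) (nat_lit 416) (nat_lit 322) (nat_lit 282)))) (XT.nd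 (nat_lit 156) (nat_lit 228) (nat_lit 0) (XT.nd (nat_lit 78) (nat_lit 152) (nat_lit 0) (XT.lf (nat_lit 0) (nat_lit 1322134384) (nat_lit 152) (nat_lit 6116538895) (nat_lit 76) (nat_lit 23360173811) (nat_lit 85) (nat_lit 5) (nat_lit 87) (nat_lit 5) (nat_lit 86) (nat_lit 4) (nat_lit 417) (nat_lit 322) (nat_lit 281)) (XT.lf (nat_lit 0) (nat_lit 668771284) (nat_lit 76) (nat_lit 19844620924) (nat_lit 76) (nat_lit 11236821438) (nat_lit 83) (nat_lit 4) (nat_lit 84) (nat_lit 5) (nat_lit 84) (nat_lit 4) (nat_lit 418) (nat_lit 322) (nat_lit 280))) (XT.nd (nat_lit 78) (nat_lit 76) (nat_lit 0) (XT.lf (nat_lit 0) (nat_lit 7893313693) (nat_lit 76) (nat_lit 265176123) (nat_lit 152) (nat_lit 24576439875) (nat_lit 81) (nat_lit 5) (nat_lit 82) (nat_lit 5) (nat_lit 83) (nat_lit 4) (nat_lit 419) (nat_lit 322) (nat_lit 279)) (XT.lf (nat_lit 0) (nat_lit 15296915815) (nat_lit 76) (nat_lit 13463276328) (nat_lit 76) (nat_lit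 4991281120) (nat_lit 80) (nat_lit 4) (nat_lit 81) (nat_lit 5) (nat_lit 81) (nat_lit 4) (nat_lit 420) (nat_lit 322) (nat_lit 278))))) (XT.nd (nat_lit 234) (nat_lit 532) (nat_lit 0) (XT.nd (nat_lit 78) (nat_lit 304) (nat_lit 0) (XT.lf (nat_lit 0) (nat_lit 15629341113) (nat_lit 152) (nat_lit 11821934890) (nat_lit 0) (nat_lit 7352274250) (nat_lit 78) (nat_lit 5) (nat_lit 80) (nat_lit 4) (nat_lit 78) (nat_lit 4) (nat_lit 421) (nat_lit 322) (nat_lit 277)) (XT.nd (nat_lit 78) (nat_lit 152) (nat_lit 0) (XT.lf (nat_lit 0) (nat_lit 1686560287) (nat_lit 152) (nat_lit 4902710237) (nat_lit 76) (nat_lit 29303901159) (nat_lit 76) (nat_lit 5) (nat_lit 78) (nat_lit 5) (nat_lit 77) (nat_lit 4) (nat_lit 422) (nat_lit 322) (nat_lit 276)) (XT.lf (nat_lit 0) (nat_lit 2224279061) (nat_lit 76) (nat_lit 21461052834) (nat_lit 76) (nat_lit 13331501507) (nat_lit 74) (nat_lit 4) (nat_lit 75) (nat_lit 5) (nat_lit 75) (nat_lit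 4) (nat_lit 423) (nat_lit 322) (nat_lit 275)))) (XT.nd (nat_lit 156) (nat_lit 304) (nat_lit 0) (XT.nd (nat_lit 78) (nat_lit 76) (nat_lit 0) (XT.lf (nat_lit 0) (nat_lit 8877787624) (nat_lit 152) (nat_lit 28359856590) (nat_lit 0) (nat_lit 942817758) (nat_lit 72) (nat_lit 5) (nat_lit 74) (nat_lit 4) (nat_lit 72) (nat_lit 4) (nat_lit 424) (nat_lit 322) (nat_lit 274)) (XT.lf (nat_lit 0) (nat_lit 17617216268) (nat_lit 76) (nat_lit 14869653190) (nat_lit 76) (nat_lit 6894491337) (nat_lit 71) (nat_lit 4) (nat_lit 72) (nat_lit 5) (nat_lit 72) (nat_lit 4) (nat_lit 425) (nat_lit 322) (nat_lit 273))) (XT.nd (nat_lit 78) (nat_lit 152) (nat_lit 0) (XT.lf (nat_lit 0) (nat_lit 16759033853) (nat_lit 152) (nat_lit 14885992984) (nat_lit 0) (nat_lit 8978995080) (nat_lit 69) (nat_lit 5) (nat_lit 71) (nat_lit 4) (nat_lit 69) (nat_lit 4) (nat_lit 426) (nat_lit 322) (nat_lit 272)) (XT.lf (nat_lit 0) (nat_lit 69050362)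 (nat_lit 152) (nat_lit 7675260048) (nat_lit 76) (nat_lit 34166576939) (nat_lit 67) (nat_lit 5) (nat_lit 69) (nat_lit 5) (nat_lit 68) (nat_lit 4) (nat_lit 427) (nat_lit 322) (nat_lit 271))))))) (XT.nd (nat_lit 48906) (nat_lit 0) (nat_lit 8360) (XT.nd (nat_lit 468) (nat_lit 912) (nat_lit 0) (XT.nd (nat_lit 234) (nat_lit 380) (nat_lit 0) (XT.nd (nat_lit 78) (nat_lit 304) (nat_lit 0) (XT.lf (nat_lit 0) (nat_lit 25278473967) (nat_lit 152) (nat_lit 301416723) (nat_lit 0) (nat_lit 17657949316) (nat_lit 66) (nat_lit 5) (nat_lit 68) (nat_lit 4) (nat_lit 66) (nat_lit 4) (nat_lit 428) (nat_lit 322) (nat_lit 270)) (XT.nd (nat_lit 78) (nat_lit 76) (nat_lit 0) (XT.lf (nat_lit 0) (nat_lit 7546544391) (nat_lit 152) (nat_lit 36947780840) (nat_lit 0) (nat_lit 117716652) (nat_lit 63) (nat_lit 5) (nat_lit 65) (nat_lit 4) (nat_lit 63) (nat_lit 4) (nat_lit 429) (nat_lit 322) (nat_lit 269)) (XT.lf (nat_lit 0) (nat_lit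 15819503110) (nat_lit 76) (nat_lit 18833432402) (nat_lit 76) (nat_lit 11375785503) (nat_lit 62) (nat_lit 4) (nat_lit 63) (nat_lit 5) (nat_lit 63) (nat_lit 4) (nat_lit 430) (nat_lit 322) (nat_lit 268)))) (XT.nd (nat_lit 78) (nat_lit 228) (nat_lit 0) (XT.lf (nat_lit 0) (nat_lit 15827703359) (nat_lit 152) (nat_lit 23107400247) (nat_lit 0) (nat_lit 8560622079) (nat_lit 60) (nat_lit 5) (nat_lit 62) (nat_lit 4) (nat_lit 60) (nat_lit 4) (nat_lit 431) (nat_lit 322) (nat_lit 267)) (XT.nd (nat_lit 78) (nat_lit 152) (nat_lit 0) (XT.lf (nat_lit 0) (nat_lit 33327544034) (nat_lit 76) (nat_lit 11488903437) (nat_lit 76) (nat_lit 4196443685) (nat_lit 59) (nat_lit 4) (nat_lit 60) (nat_lit 5) (nat_lit 60) (nat_lit 4) (nat_lit 432) (nat_lit 322) (nat_lit 266)) (XT.lf (nat_lit 0) (nat_lit 24829368497) (nat_lit 152) (nat_lit 8023744566) (nat_lit 0) (nat_lit 17725844491) (nat_lit 57) (nat_lit 5) (nat_lit 59) (nat_lit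 4) (nat_lit 57) (nat_lit 4) (nat_lit 433) (nat_lit 322) (nat_lit 265))))) (XT.nd (nat_lit 234) (nat_lit 456) (nat_lit 0) (XT.nd (nat_lit 78) (nat_lit 228) (nat_lit 0) (XT.lf (nat_lit 0) (nat_lit 120303817) (nat_lit 76) (nat_lit 3449241202) (nat_lit 152) (nat_lit 48632758216) (nat_lit 54) (nat_lit 5) (nat_lit 55) (nat_lit 5) (nat_lit 56) (nat_lit 4) (nat_lit 434) (nat_lit 322) (nat_lit 264)) (XT.nd (nat_lit 78) (nat_lit 152) (nat_lit 0) (XT.lf (nat_lit 0) (nat_lit 8602218759) (nat_lit 76) (nat_lit 26104695877) (nat_lit 76) (nat_lit 19165708576) (nat_lit 53) (nat_lit 4) (nat_lit 54) (nat_lit 5) (nat_lit 54) (nat_lit 4) (nat_lit 435) (nat_lit 322) (nat_lit 263)) (XT.lf (nat_lit 0) (nat_lit 12185779217) (nat_lit 152) (nat_lit 37988267672) (nat_lit 0) (nat_lit 5429791161) (nat_lit 51) (nat_lit 5) (nat_lit 53) (nat_lit 4) (nat_lit 51) (nat_lit 4) (nat_lit 436) (nat_lit 322) (nat_lit 262)))) (XT.nd (nat_lit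 156) (nat_lit 228) (nat_lit 0) (XT.nd (nat_lit 78) (nat_lit 152) (nat_lit 0) (XT.lf (nat_lit 0) (nat_lit 26934595653) (nat_lit 76) (nat_lit 18615136281) (nat_lit 76) (nat_lit 11840950910) (nat_lit 50) (nat_lit 4) (nat_lit 51) (nat_lit 5) (nat_lit 51) (nat_lit 4) (nat_lit 437) (nat_lit 322) (nat_lit 261)) (XT.lf (nat_lit 0) (nat_lit 21643261409) (nat_lit 152) (nat_lit 22545579818) (nat_lit 0) (nat_lit 15049556411) (nat_lit 48) (nat_lit 5) (nat_lit 50) (nat_lit 4) (nat_lit 48) (nat_lit 4) (nat_lit 438) (nat_lit 322) (nat_lit 260))) (XT.nd (nat_lit 78) (nat_lit 152) (nat_lit 0) (XT.lf (nat_lit 0) (nat_lit 46970681004) (nat_lit 76) (nat_lit 10394883369) (nat_lit 76) (nat_lit 3785153612) (nat_lit 47) (nat_lit 4) (nat_lit 48) (nat_lit 5) (nat_lit 48) (nat_lit 4) (nat_lit 439) (nat_lit 322) (nat_lit 259)) (XT.lf (nat_lit 0) (nat_lit 31990415752) (nat_lit 152) (nat_lit 5573888311) (nat_lit 0) (nat_lit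 25558385236) (nat_lit 45) (nat_lit 5) (nat_lit 47) (nat_lit 4) (nat_lit 45) (nat_lit 4) (nat_lit 440) (nat_lit 322) (nat_lit 258)))))) (XT.nd (nat_lit 546) (nat_lit 2052) (nat_lit 0) (XT.nd (nat_lit 234) (nat_lit 1520) (nat_lit 0) (XT.nd (nat_lit 78) (nat_lit 836) (nat_lit 0) (XT.lf (nat_lit 0) (nat_lit 705986608) (nat_lit 304) (nat_lit 3492848844) (nat_lit 0) (nat_lit 705986608) (nat_lit 213) (nat_lit 5) (nat_lit 217) (nat_lit 4) (nat_lit 213) (nat_lit 4) (nat_lit 374) (nat_lit 323) (nat_lit 323)) (XT.nd (nat_lit 78) (nat_lit 532) (nat_lit 0) (XT.lf (nat_lit 0) (nat_lit 8111414469) (nat_lit 304) (nat_lit 1552336340) (nat_lit 304) (nat_lit 353166293) (nat_lit 209) (nat_lit 4) (nat_lit 213) (nat_lit 5) (nat_lit 213) (nat_lit 4) (nat_lit 375) (nat_lit 323) (nat_lit 322)) (XT.lf (nat_lit 0) (nat_lit 3341065917) (nat_lit 228) (nat_lit 4582283791) (nat_lit 228) (nat_lit 2309238394) (nat_lit 202) (nat_lit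 4) (nat_lit 205) (nat_lit 5) (nat_lit 205) (nat_lit 4) (nat_lit 376) (nat_lit 323) (nat_lit 321)))) (XT.nd (nat_lit 156) (nat_lit 684) (nat_lit 0) (XT.nd (nat_lit 78) (nat_lit 532) (nat_lit 0) (XT.lf (nat_lit 0) (nat_lit 5996803208) (nat_lit 304) (nat_lit 1696564517) (nat_lit 0) (nat_lit 2764717864) (nat_lit 198) (nat_lit 5) (nat_lit 202) (nat_lit 4) (nat_lit 198) (nat_lit 4) (nat_lit 377) (nat_lit 323) (nat_lit 320)) (XT.lf (nat_lit 0) (nat_lit 3699617699) (nat_lit 228) (nat_lit 196011363) (nat_lit 304) (nat_lit 6797486229) (nat_lit 191) (nat_lit 5) (nat_lit 194) (nat_lit 5) (nat_lit 195) (nat_lit 4) (nat_lit 378) (nat_lit 323) (nat_lit 319))) (XT.nd (nat_lit 78) (nat_lit 380) (nat_lit 0) (XT.lf (nat_lit 0) (nat_lit 1621045854) (nat_lit 304) (nat_lit 1698050580) (nat_lit 76) (nat_lit 7618597376) (nat_lit 187) (nat_lit 5) (nat_lit 191) (nat_lit 5) (nat_lit 188) (nat_lit 4) (nat_lit 379) (nat_lit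 323) (nat_lit 318)) (XT.lf (nat_lit 0) (nat_lit 3796043268) (nat_lit 228) (nat_lit 6537157892) (nat_lit 228) (nat_lit 858882668) (nat_lit 182) (nat_lit 4) (nat_lit 185) (nat_lit 5) (nat_lit 185) (nat_lit 4) (nat_lit 380) (nat_lit 323) (nat_lit 317))))) (XT.nd (nat_lit 234) (nat_lit 1140) (nat_lit 0) (XT.nd (nat_lit 78) (nat_lit 684) (nat_lit 0) (XT.lf (nat_lit 0) (nat_lit 7865948225) (nat_lit 228) (nat_lit 2009746943) (nat_lit 0) (nat_lit 1581163544) (nat_lit 179) (nat_lit 5) (nat_lit 182) (nat_lit 4) (nat_lit 179) (nat_lit 4) (nat_lit 381) (nat_lit 323) (nat_lit 316)) (XT.nd (nat_lit 78) (nat_lit 228) (nat_lit 0) (XT.lf (nat_lit 0) (nat_lit 3564898372) (nat_lit 152) (nat_lit 1649299760) (nat_lit 228) (nat_lit 6517623455) (nat_lit 173) (nat_lit 5) (nat_lit 175) (nat_lit 5) (nat_lit 176) (nat_lit 4) (nat_lit 382) (nat_lit 323) (nat_lit 315)) (XT.lf (nat_lit 0) (nat_lit 2356520961) (nat_lit 228)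 (nat_lit 2711462802) (nat_lit 76) (nat_lit 6949694294) (nat_lit 170) (nat_lit 5) (nat_lit 173) (nat_lit 5) (nat_lit 171) (nat_lit 4) (nat_lit 383) (nat_lit 323) (nat_lit 314)))) (XT.nd (nat_lit 156) (nat_lit 608) (nat_lit 0) (XT.nd (nat_lit 78) (nat_lit 228) (nat_lit 0) (XT.lf (nat_lit 0) (nat_lit 2932018792) (nat_lit 152) (nat_lit 8644093206) (nat_lit 152) (nat_lit 738683412) (nat_lit 166) (nat_lit 4) (nat_lit 168) (nat_lit 5) (nat_lit 168) (nat_lit 4) (nat_lit 384) (nat_lit 323) (nat_lit 313)) (XT.lf (nat_lit 0) (nat_lit 8503868243) (nat_lit 228) (nat_lit 3871580282) (nat_lit 0) (nat_lit 247560772) (nat_lit 163) (nat_lit 5) (nat_lit 166) (nat_lit 4) (nat_lit 163) (nat_lit 4) (nat_lit 385) (nat_lit 323) (nat_lit 312))) (XT.nd (nat_lit 78) (nat_lit 228) (nat_lit 0) (XT.lf (nat_lit 0) (nat_lit 1782143835) (nat_lit 152) (nat_lit 3435555532) (nat_lit 228) (nat_lit 7725005168) (nat_lit 158) (nat_lit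 5) (nat_lit 160) (nat_lit 5) (nat_lit 161) (nat_lit 4) (nat_lit 386) (nat_lit 323) (nat_lit 311)) (XT.lf (nat_lit 0) (nat_lit 1699793499) (nat_lit 228) (nat_lit 5614378591) (nat_lit 76) (nat_lit 5960316412) (nat_lit 155) (nat_lit 5) (nat_lit 158) (nat_lit 5) (nat_lit 156) (nat_lit 4) (nat_lit 387) (nat_lit 323) (nat_lit 310))))))))
noncomputable def xc21 : XT := (XT.nd (nat_lit 2106) (nat_lit 3496) (nat_lit 0) (XT.nd (nat_lit 1014) (nat_lit 1976) (nat_lit 0) (XT.nd (nat_lit 468) (nat_lit 1444) (nat_lit 0) (XT.nd (nat_lit 234) (nat_lit 684) (nat_lit 0) (XT.nd (nat_lit 78) (nat_lit 380) (nat_lit 0) (XT.lf (nat_lit 0) (nat_lit 57319277) (nat_lit 152) (nat_lit 11418100927) (nat_lit 152) (nat_lit 2143966315) (nat_lit 151) (nat_lit 4) (nat_lit 153) (nat_lit 5) (nat_lit 153) (nat_lit 4) (nat_lit 388) (nat_lit 323) (nat_lit 309)) (XT.nd (nat_lit 78) (nat_lit 228) (nat_lit 0) (XT.lf (nat_lit 0) (nat_lit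 5960037123) (nat_lit 76) (nat_lit 1766485740) (nat_lit 152) (nat_lit 6249180757) (nat_lit 149) (nat_lit 5) (nat_lit 150) (nat_lit 5) (nat_lit 151) (nat_lit 4) (nat_lit 389) (nat_lit 323) (nat_lit 308)) (XT.lf (nat_lit 0) (nat_lit 3701137490) (nat_lit 228) (nat_lit 2344956432) (nat_lit 76) (nat_lit 8299751208) (nat_lit 146) (nat_lit 5) (nat_lit 149) (nat_lit 5) (nat_lit 147) (nat_lit 4) (nat_lit 390) (nat_lit 323) (nat_lit 307)))) (XT.nd (nat_lit 78) (nat_lit 456) (nat_lit 0) (XT.lf (nat_lit 0) (nat_lit 3544561120) (nat_lit 152) (nat_lit 10570821974) (nat_lit 152) (nat_lit 614384809) (nat_lit 143) (nat_lit 4) (nat_lit 145) (nat_lit 5) (nat_lit 145) (nat_lit 4) (nat_lit 391) (nat_lit 323) (nat_lit 306)) (XT.nd (nat_lit 78) (nat_lit 304) (nat_lit 0) (XT.lf (nat_lit 0) (nat_lit 9606706899) (nat_lit 76) (nat_lit 211077215) (nat_lit 152) (nat_lit 5309427064) (nat_lit 141) (nat_lit 5) (nat_lit 142) (nat_lit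 5) (nat_lit 143) (nat_lit 4) (nat_lit 392) (nat_lit 323) (nat_lit 305)) (XT.lf (nat_lit 0) (nat_lit 265595853) (nat_lit 76) (nat_lit 4969681823) (nat_lit 152) (nat_lit 10303887079) (nat_lit 137) (nat_lit 5) (nat_lit 138) (nat_lit 5) (nat_lit 139) (nat_lit 4) (nat_lit 393) (nat_lit 323) (nat_lit 304))))) (XT.nd (nat_lit 234) (nat_lit 836) (nat_lit 0) (XT.nd (nat_lit 78) (nat_lit 380) (nat_lit 0) (XT.lf (nat_lit 0) (nat_lit 364705987) (nat_lit 228) (nat_lit 9633593312) (nat_lit 76) (nat_lit 5967518037) (nat_lit 134) (nat_lit 5) (nat_lit 137) (nat_lit 5) (nat_lit 135) (nat_lit 4) (nat_lit 394) (nat_lit 323) (nat_lit 303)) (XT.nd (nat_lit 78) (nat_lit 304) (nat_lit 0) (XT.lf (nat_lit 0) (nat_lit 11446736958) (nat_lit 152) (nat_lit 3876359949) (nat_lit 0) (nat_lit 1084851825) (nat_lit 133) (nat_lit 5) (nat_lit 135) (nat_lit 4) (nat_lit 133) (nat_lit 4) (nat_lit 395) (nat_lit 323) (nat_lit 302)) (XT.lf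 (nat_lit 0) (nat_lit 2049287072) (nat_lit 76) (nat_lit 4200688654) (nat_lit 152) (nat_lit 10615605373) (nat_lit 129) (nat_lit 5) (nat_lit 130) (nat_lit 5) (nat_lit 131) (nat_lit 4) (nat_lit 396) (nat_lit 323) (nat_lit 301)))) (XT.nd (nat_lit 156) (nat_lit 532) (nat_lit 0) (XT.nd (nat_lit 78) (nat_lit 76) (nat_lit 0) (XT.lf (nat_lit 0) (nat_lit 723777640) (nat_lit 228) (nat_lit 9114504256) (nat_lit 76) (nat_lit 7501359114) (nat_lit 126) (nat_lit 5) (nat_lit 129) (nat_lit 5) (nat_lit 127) (nat_lit 4) (nat_lit 397) (nat_lit 323) (nat_lit 300)) (XT.lf (nat_lit 0) (nat_lit 12528320076) (nat_lit 152) (nat_lit 3285793848) (nat_lit 0) (nat_lit 2016604726) (nat_lit 125) (nat_lit 5) (nat_lit 127) (nat_lit 4) (nat_lit 125) (nat_lit 4) (nat_lit 398) (nat_lit 323) (nat_lit 299))) (XT.nd (nat_lit 78) (nat_lit 228) (nat_lit 0) (XT.lf (nat_lit 0) (nat_lit 2737732565) (nat_lit 76) (nat_lit 3899906666) (nat_lit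 152) (nat_lit 11701137282) (nat_lit 121) (nat_lit 5) (nat_lit 122) (nat_lit 5) (nat_lit 123) (nat_lit 4) (nat_lit 399) (nat_lit 323) (nat_lit 298)) (XT.lf (nat_lit 0) (nat_lit 380254182) (nat_lit 228) (nat_lit 9860047539) (nat_lit 76) (nat_lit 8624613776) (nat_lit 118) (nat_lit 5) (nat_lit 121) (nat_lit 5) (nat_lit 119) (nat_lit 4) (nat_lit 400) (nat_lit 323) (nat_lit 297)))))) (XT.nd (nat_lit 546) (nat_lit 988) (nat_lit 0) (XT.nd (nat_lit 234) (nat_lit 608) (nat_lit 0) (XT.nd (nat_lit 78) (nat_lit 304) (nat_lit 0) (XT.lf (nat_lit 0) (nat_lit 12967493863) (nat_lit 152) (nat_lit 3989211600) (nat_lit 0) (nat_lit 2452867096) (nat_lit 117) (nat_lit 5) (nat_lit 119) (nat_lit 4) (nat_lit 117) (nat_lit 4) (nat_lit 401) (nat_lit 323) (nat_lit 296)) (XT.nd (nat_lit 78) (nat_lit 76) (nat_lit 0) (XT.lf (nat_lit 0) (nat_lit 2078599347) (nat_lit 76) (nat_lit 4215193521) (nat_lit 152) (nat_lit 13679515037) (nat_lit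 114) (nat_lit 5) (nat_lit 115) (nat_lit 5) (nat_lit 116) (nat_lit 4) (nat_lit 402) (nat_lit 323) (nat_lit 295)) (XT.lf (nat_lit 0) (nat_lit 8407435794) (nat_lit 76) (nat_lit 11352333978) (nat_lit 76) (nat_lit 796750442) (nat_lit 113) (nat_lit 4) (nat_lit 114) (nat_lit 5) (nat_lit 114) (nat_lit 4) (nat_lit 403) (nat_lit 323) (nat_lit 294)))) (XT.nd (nat_lit 156) (nat_lit 304) (nat_lit 0) (XT.nd (nat_lit 78) (nat_lit 152) (nat_lit 0) (XT.lf (nat_lit 0) (nat_lit 12650723248) (nat_lit 152) (nat_lit 6263451792) (nat_lit 0) (nat_lit 2245977538) (nat_lit 111) (nat_lit 5) (nat_lit 113) (nat_lit 4) (nat_lit 111) (nat_lit 4) (nat_lit 404) (nat_lit 323) (nat_lit 293)) (XT.lf (nat_lit 0) (nat_lit 5094296950) (nat_lit 152) (nat_lit 212471808) (nat_lit 76) (nat_lit 16478608818) (nat_lit 109) (nat_lit 5) (nat_lit 111) (nat_lit 5) (nat_lit 110) (nat_lit 4) (nat_lit 405) (nat_lit 323) (nat_lit 292))) (XT.nd (nat_lit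 78) (nat_lit 152) (nat_lit 0) (XT.lf (nat_lit 0) (nat_lit 6133850932) (nat_lit 76) (nat_lit 13340859797) (nat_lit 76) (nat_lit 2956450866) (nat_lit 107) (nat_lit 4) (nat_lit 108) (nat_lit 5) (nat_lit 108) (nat_lit 4) (nat_lit 406) (nat_lit 323) (nat_lit 291)) (XT.lf (nat_lit 0) (nat_lit 11441824972) (nat_lit 152) (nat_lit 10425726659) (nat_lit 0) (nat_lit 1232357863) (nat_lit 105) (nat_lit 5) (nat_lit 107) (nat_lit 4) (nat_lit 105) (nat_lit 4) (nat_lit 407) (nat_lit 323) (nat_lit 290))))) (XT.nd (nat_lit 234) (nat_lit 532) (nat_lit 0) (XT.nd (nat_lit 78) (nat_lit 304) (nat_lit 0) (XT.lf (nat_lit 0) (nat_lit 2925659188) (nat_lit 152) (nat_lit 4391823424) (nat_lit 76) (nat_lit 16474536694) (nat_lit 103) (nat_lit 5) (nat_lit 105) (nat_lit 5) (nat_lit 104) (nat_lit 4) (nat_lit 408) (nat_lit 323) (nat_lit 289)) (XT.nd (nat_lit 78) (nat_lit 152) (nat_lit 0) (XT.lf (nat_lit 0) (nat_lit 1849310394) (nat_lit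 76) (nat_lit 16400349978) (nat_lit 76) (nat_lit 6258046119) (nat_lit 101) (nat_lit 4) (nat_lit 102) (nat_lit 5) (nat_lit 102) (nat_lit 4) (nat_lit 409) (nat_lit 323) (nat_lit 288)) (XT.lf (nat_lit 0) (nat_lit 8400243753) (nat_lit 76) (nat_lit 786698593) (nat_lit 152) (nat_lit 16061113348) (nat_lit 99) (nat_lit 5) (nat_lit 100) (nat_lit 5) (nat_lit 101) (nat_lit 4) (nat_lit 410) (nat_lit 323) (nat_lit 287)))) (XT.nd (nat_lit 156) (nat_lit 304) (nat_lit 0) (XT.nd (nat_lit 78) (nat_lit 152) (nat_lit 0) (XT.lf (nat_lit 0) (nat_lit 15136778797) (nat_lit 76) (nat_lit 10463318974) (nat_lit 76) (nat_lit 413705454) (nat_lit 98) (nat_lit 4) (nat_lit 99) (nat_lit 5) (nat_lit 99) (nat_lit 4) (nat_lit 411) (nat_lit 323) (nat_lit 286)) (XT.lf (nat_lit 0) (nat_lit 15956288303) (nat_lit 152) (nat_lit 4741401008) (nat_lit 0) (nat_lit 6107947731) (nat_lit 96) (nat_lit 5) (nat_lit 98) (nat_lit 4) (nat_lit 96) (nat_lit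 4) (nat_lit 412) (nat_lit 323) (nat_lit 285))) (XT.nd (nat_lit 78) (nat_lit 76) (nat_lit 0) (XT.lf (nat_lit 0) (nat_lit 1661149714) (nat_lit 76) (nat_lit 4051446598) (nat_lit 152) (nat_lit 21913138844) (nat_lit 93) (nat_lit 5) (nat_lit 94) (nat_lit 5) (nat_lit 95) (nat_lit 4) (nat_lit 413) (nat_lit 323) (nat_lit 284)) (XT.lf (nat_lit 0) (nat_lit 8336715158) (nat_lit 76) (nat_lit 14930888834) (nat_lit 76) (nat_lit 5204331210) (nat_lit 92) (nat_lit 4) (nat_lit 93) (nat_lit 5) (nat_lit 93) (nat_lit 4) (nat_lit 414) (nat_lit 323) (nat_lit 283))))))) (XT.nd (nat_lit 1014) (nat_lit 1748) (nat_lit 0) (XT.nd (nat_lit 468) (nat_lit 912) (nat_lit 0) (XT.nd (nat_lit 234) (nat_lit 456) (nat_lit 0) (XT.nd (nat_lit 78) (nat_lit 228) (nat_lit 0) (XT.lf (nat_lit 0) (nat_lit 12388259020) (nat_lit 152) (nat_lit 14089404632) (nat_lit 0) (nat_lit 2870548879) (nat_lit 90) (nat_lit 5) (nat_lit 92) (nat_lit 4) (nat_lit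 90) (nat_lit 4) (nat_lit 415) (nat_lit 323) (nat_lit 282)) (XT.nd (nat_lit 78) (nat_lit 76) (nat_lit 0) (XT.lf (nat_lit 0) (nat_lit 864147355) (nat_lit 152) (nat_lit 7834396067) (nat_lit 76) (nat_lit 21556447926) (nat_lit 88) (nat_lit 5) (nat_lit 90) (nat_lit 5) (nat_lit 89) (nat_lit 4) (nat_lit 416) (nat_lit 323) (nat_lit 281)) (XT.lf (nat_lit 0) (nat_lit 19576538357) (nat_lit 152) (nat_lit 1413456413) (nat_lit 0) (nat_lit 10201641438) (nat_lit 87) (nat_lit 5) (nat_lit 89) (nat_lit 4) (nat_lit 87) (nat_lit 4) (nat_lit 417) (nat_lit 323) (nat_lit 280)))) (XT.nd (nat_lit 78) (nat_lit 228) (nat_lit 0) (XT.lf (nat_lit 0) (nat_lit 5405829545) (nat_lit 76) (nat_lit 1906075010) (nat_lit 152) (nat_lit 24849174986) (nat_lit 84) (nat_lit 5) (nat_lit 85) (nat_lit 5) (nat_lit 86) (nat_lit 4) (nat_lit 418) (nat_lit 323) (nat_lit 279)) (XT.nd (nat_lit 78) (nat_lit 152) (nat_lit 0) (XT.lf (nat_lit 0) (nat_lit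 12434220307) (nat_lit 76) (nat_lit 14973816017) (nat_lit 76) (nat_lit 5753618770) (nat_lit 83) (nat_lit 4) (nat_lit 84) (nat_lit 5) (nat_lit 84) (nat_lit 4) (nat_lit 419) (nat_lit 323) (nat_lit 278)) (XT.lf (nat_lit 0) (nat_lit 14374541660) (nat_lit 152) (nat_lit 14453380508) (nat_lit 0) (nat_lit 5369510188) (nat_lit 81) (nat_lit 5) (nat_lit 83) (nat_lit 4) (nat_lit 81) (nat_lit 4) (nat_lit 420) (nat_lit 323) (nat_lit 277))))) (XT.nd (nat_lit 234) (nat_lit 456) (nat_lit 0) (XT.nd (nat_lit 78) (nat_lit 304) (nat_lit 0) (XT.lf (nat_lit 0) (nat_lit 559957538) (nat_lit 152) (nat_lit 7919159249) (nat_lit 76) (nat_lit 26790485436) (nat_lit 79) (nat_lit 5) (nat_lit 81) (nat_lit 5) (nat_lit 80) (nat_lit 4) (nat_lit 421) (nat_lit 323) (nat_lit 276)) (XT.nd (nat_lit 78) (nat_lit 228) (nat_lit 0) (XT.lf (nat_lit 0) (nat_lit 21997820926) (nat_lit 152) (nat_lit 1219595539) (nat_lit 0) (nat_lit 13158700918)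 (nat_lit 78) (nat_lit 5) (nat_lit 80) (nat_lit 4) (nat_lit 78) (nat_lit 4) (nat_lit 422) (nat_lit 323) (nat_lit 275)) (XT.lf (nat_lit 0) (nat_lit 5949883142) (nat_lit 76) (nat_lit 1357395090) (nat_lit 152) (nat_lit 30214460337) (nat_lit 75) (nat_lit 5) (nat_lit 76) (nat_lit 5) (nat_lit 77) (nat_lit 4) (nat_lit 423) (nat_lit 323) (nat_lit 274)))) (XT.nd (nat_lit 156) (nat_lit 228) (nat_lit 0) (XT.nd (nat_lit 78) (nat_lit 152) (nat_lit 0) (XT.lf (nat_lit 0) (nat_lit 13325012600) (nat_lit 76) (nat_lit 17022431201) (nat_lit 76) (nat_lit 8355895911) (nat_lit 74) (nat_lit 4) (nat_lit 75) (nat_lit 5) (nat_lit 75) (nat_lit 4) (nat_lit 424) (nat_lit 323) (nat_lit 273)) (XT.lf (nat_lit 0) (nat_lit 14745960049) (nat_lit 152) (nat_lit 18887226497) (nat_lit 0) (nat_lit 6293570034) (nat_lit 72) (nat_lit 5) (nat_lit 74) (nat_lit 4) (nat_lit 72) (nat_lit 4) (nat_lit 425) (nat_lit 323) (nat_lit 272))) (XT.nd (nat_lit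 78) (nat_lit 152) (nat_lit 0) (XT.lf (nat_lit 0) (nat_lit 29076522485) (nat_lit 76) (nat_lit 10302360786) (nat_lit 76) (nat_lit 1813515454) (nat_lit 71) (nat_lit 4) (nat_lit 72) (nat_lit 5) (nat_lit 72) (nat_lit 4) (nat_lit 426) (nat_lit 323) (nat_lit 271)) (XT.lf (nat_lit 0) (nat_lit 22813345211) (nat_lit 152) (nat_lit 5147347318) (nat_lit 0) (nat_lit 14538039694) (nat_lit 69) (nat_lit 5) (nat_lit 71) (nat_lit 4) (nat_lit 69) (nat_lit 4) (nat_lit 427) (nat_lit 323) (nat_lit 270)))))) (XT.nd (nat_lit 546) (nat_lit 760) (nat_lit 0) (XT.nd (nat_lit 234) (nat_lit 532) (nat_lit 0) (XT.nd (nat_lit 78) (nat_lit 228) (nat_lit 0) (XT.lf (nat_lit 0) (nat_lit 2269535961) (nat_lit 76) (nat_lit 2940781495) (nat_lit 152) (nat_lit 38641979824) (nat_lit 66) (nat_lit 5) (nat_lit 67) (nat_lit 5) (nat_lit 68) (nat_lit 4) (nat_lit 428) (nat_lit 323) (nat_lit 269)) (XT.nd (nat_lit 78) (nat_lit 152) (nat_lit 0) (XT.lf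 (nat_lit 0) (nat_lit 9968291835) (nat_lit 76) (nat_lit 21686597145) (nat_lit 76) (nat_lit 13591468289) (nat_lit 65) (nat_lit 4) (nat_lit 66) (nat_lit 5) (nat_lit 66) (nat_lit 4) (nat_lit 429) (nat_lit 323) (nat_lit 268)) (XT.lf (nat_lit 0) (nat_lit 12989971462) (nat_lit 152) (nat_lit 28597513279) (nat_lit 0) (nat_lit 5103176240) (nat_lit 63) (nat_lit 5) (nat_lit 65) (nat_lit 4) (nat_lit 63) (nat_lit 4) (nat_lit 430) (nat_lit 323) (nat_lit 267)))) (XT.nd (nat_lit 156) (nat_lit 304) (nat_lit 0) (XT.nd (nat_lit 78) (nat_lit 152) (nat_lit 0) (XT.lf (nat_lit 0) (nat_lit 26515821089) (nat_lit 76) (nat_lit 14789834415) (nat_lit 76) (nat_lit 6876899366) (nat_lit 62) (nat_lit 4) (nat_lit 63) (nat_lit 5) (nat_lit 63) (nat_lit 4) (nat_lit 431) (nat_lit 323) (nat_lit 266)) (XT.lf (nat_lit 0) (nat_lit 21491700320) (nat_lit 152) (nat_lit 14447564163) (nat_lit 0) (nat_lit 13785069133) (nat_lit 60) (nat_lit 5)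 (nat_lit 62) (nat_lit 4) (nat_lit 60) (nat_lit 4) (nat_lit 432) (nat_lit 323) (nat_lit 265))) (XT.nd (nat_lit 78) (nat_lit 152) (nat_lit 0) (XT.lf (nat_lit 0) (nat_lit 458797897) (nat_lit 152) (nat_lit 6798290477) (nat_lit 76) (nat_lit 44064345563) (nat_lit 58) (nat_lit 5) (nat_lit 60) (nat_lit 5) (nat_lit 59) (nat_lit 4) (nat_lit 433) (nat_lit 323) (nat_lit 264)) (XT.lf (nat_lit 0) (nat_lit 1042315516) (nat_lit 76) (nat_lit 29725243681) (nat_lit 76) (nat_lit 22199444566) (nat_lit 56) (nat_lit 4) (nat_lit 57) (nat_lit 5) (nat_lit 57) (nat_lit 4) (nat_lit 434) (nat_lit 323) (nat_lit 263))))) (XT.nd (nat_lit 234) (nat_lit 380) (nat_lit 0) (XT.nd (nat_lit 78) (nat_lit 228) (nat_lit 0) (XT.lf (nat_lit 0) (nat_lit 8446664901) (nat_lit 152) (nat_lit 45104410795) (nat_lit 0) (nat_lit 1120383421) (nat_lit 54) (nat_lit 5) (nat_lit 56) (nat_lit 4) (nat_lit 54) (nat_lit 4) (nat_lit 435) (nat_lit 323) (nat_lit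 262)) (XT.nd (nat_lit 78) (nat_lit 152) (nat_lit 0) (XT.lf (nat_lit 0) (nat_lit 18305545021) (nat_lit 76) (nat_lit 22733909126) (nat_lit 76) (nat_lit 15388884412) (nat_lit 53) (nat_lit 4) (nat_lit 54) (nat_lit 5) (nat_lit 54) (nat_lit 4) (nat_lit 436) (nat_lit 323) (nat_lit 261)) (XT.lf (nat_lit 0) (nat_lit 17348248030) (nat_lit 152) (nat_lit 30699361229) (nat_lit 0) (nat_lit 10199825299) (nat_lit 51) (nat_lit 5) (nat_lit 53) (nat_lit 4) (nat_lit 51) (nat_lit 4) (nat_lit 437) (nat_lit 323) (nat_lit 260)))) (XT.nd (nat_lit 156) (nat_lit 152) (nat_lit 0) (XT.nd (nat_lit 78) (nat_lit 152) (nat_lit 0) (XT.lf (nat_lit 0) (nat_lit 37206263919) (nat_lit 76) (nat_lit 15043108344) (nat_lit 76) (nat_lit 7878180111) (nat_lit 50) (nat_lit 4) (nat_lit 51) (nat_lit 5) (nat_lit 51) (nat_lit 4) (nat_lit 438) (nat_lit 323) (nat_lit 259)) (XT.lf (nat_lit 0) (nat_lit 27105329424) (nat_lit 152) (nat_lit 14829764199)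 (nat_lit 0) (nat_lit 20133826747) (nat_lit 48) (nat_lit 5) (nat_lit 50) (nat_lit 4) (nat_lit 48) (nat_lit 4) (nat_lit 439) (nat_lit 323) (nat_lit 258))) (XT.nd (nat_lit 47814) (nat_lit 0) (nat_lit 13604) (XT.lf (nat_lit 0) (nat_lit 399168293) (nat_lit 152) (nat_lit 6175725969) (nat_lit 76) (nat_lit 57505625021) (nat_lit 46) (nat_lit 5) (nat_lit 48) (nat_lit 5) (nat_lit 47) (nat_lit 4) (nat_lit 440) (nat_lit 323) (nat_lit 257)) (XT.lf (nat_lit 0) (nat_lit 1207350876) (nat_lit 304) (nat_lit 1750667328) (nat_lit 304) (nat_lit 1750667328) (nat_lit 225) (nat_lit 4) (nat_lit 229) (nat_lit 5) (nat_lit 229) (nat_lit 4) (nat_lit 372) (nat_lit 324) (nat_lit 324))))))))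
noncomputable def xc22 : XT := (XT.nd (nat_lit 2106) (nat_lit 3800) (nat_lit 0) (XT.nd (nat_lit 1014) (nat_lit 3116) (nat_lit 0) (XT.nd (nat_lit 468) (nat_lit 2128) (nat_lit 0) (XT.nd (nat_lit 234) (nat_lit 1292) (nat_lit 0) (XT.nd (nat_lit 78) (nat_lit 988) (nat_lit 0) (XT.lf (nat_lit 0) (nat_lit 4304190737) (nat_lit 304) (nat_lit 2299702747) (nat_lit 0) (nat_lit 3007288331) (nat_lit 221) (nat_lit 5) (nat_lit 225) (nat_lit 4) (nat_lit 221) (nat_lit 4) (nat_lit 373) (nat_lit 324) (nat_lit 323)) (XT.nd (nat_lit 78) (nat_lit 380) (nat_lit 0) (XT.lf (nat_lit 0) (nat_lit 2520096353) (nat_lit 304) (nat_lit 7232280174) (nat_lit 0) (nat_lit 61797756) (nat_lit 213) (nat_lit 5) (nat_lit 217) (nat_lit 4) (nat_lit 213) (nat_lit 4) (nat_lit 374) (nat_lit 324) (nat_lit 322)) (XT.lf (nat_lit 0) (nat_lit 585778002) (nat_lit 380) (nat_lit 2411235963) (nat_lit 76) (nat_lit 7028717048) (nat_lit 208) (nat_lit 5)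 (nat_lit 213) (nat_lit 5) (nat_lit 209) (nat_lit 4) (nat_lit 375) (nat_lit 324) (nat_lit 321)))) (XT.nd (nat_lit 78) (nat_lit 836) (nat_lit 0) (XT.lf (nat_lit 0) (nat_lit 2572963600) (nat_lit 228) (nat_lit 6112469231) (nat_lit 228) (nat_lit 1560966425) (nat_lit 202) (nat_lit 4) (nat_lit 205) (nat_lit 5) (nat_lit 205) (nat_lit 4) (nat_lit 376) (nat_lit 324) (nat_lit 320)) (XT.nd (nat_lit 78) (nat_lit 532) (nat_lit 0) (XT.lf (nat_lit 0) (nat_lit 6564333545) (nat_lit 304) (nat_lit 2743356791) (nat_lit 0) (nat_lit 1168974826) (nat_lit 198) (nat_lit 5) (nat_lit 202) (nat_lit 4) (nat_lit 198) (nat_lit 4) (nat_lit 377) (nat_lit 324) (nat_lit 319)) (XT.lf (nat_lit 0) (nat_lit 2342749638) (nat_lit 228) (nat_lit 1927218801) (nat_lit 304) (nat_lit 6446485101) (nat_lit 191) (nat_lit 5) (nat_lit 194) (nat_lit 5) (nat_lit 195) (nat_lit 4) (nat_lit 378) (nat_lit 324) (nat_lit 318))))) (XT.nd (nat_lit 234) (nat_lit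 1216) (nat_lit 0) (XT.nd (nat_lit 78) (nat_lit 608) (nat_lit 0) (XT.lf (nat_lit 0) (nat_lit 1794256053) (nat_lit 304) (nat_lit 3358564682) (nat_lit 76) (nat_lit 5813238352) (nat_lit 187) (nat_lit 5) (nat_lit 191) (nat_lit 5) (nat_lit 188) (nat_lit 4) (nat_lit 379) (nat_lit 324) (nat_lit 317)) (XT.nd (nat_lit 78) (nat_lit 228) (nat_lit 0) (XT.lf (nat_lit 0) (nat_lit 1814064369) (nat_lit 228) (nat_lit 8502070332) (nat_lit 228) (nat_lit 910022703) (nat_lit 182) (nat_lit 4) (nat_lit 185) (nat_lit 5) (nat_lit 185) (nat_lit 4) (nat_lit 380) (nat_lit 324) (nat_lit 316)) (XT.lf (nat_lit 0) (nat_lit 7168232015) (nat_lit 152) (nat_lit 475843341) (nat_lit 228) (nat_lit 3852023603) (nat_lit 179) (nat_lit 5) (nat_lit 181) (nat_lit 5) (nat_lit 182) (nat_lit 4) (nat_lit 381) (nat_lit 324) (nat_lit 315)))) (XT.nd (nat_lit 156) (nat_lit 532) (nat_lit 0) (XT.nd (nat_lit 78) (nat_lit 228) (nat_lit 0) (XT.lf (nat_lit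 0) (nat_lit 877580543) (nat_lit 152) (nat_lit 3892750617) (nat_lit 228) (nat_lit 7006441446) (nat_lit 173) (nat_lit 5) (nat_lit 175) (nat_lit 5) (nat_lit 176) (nat_lit 4) (nat_lit 382) (nat_lit 324) (nat_lit 314)) (XT.lf (nat_lit 0) (nat_lit 1693727219) (nat_lit 228) (nat_lit 5758806169) (nat_lit 76) (nat_lit 4615742084) (nat_lit 170) (nat_lit 5) (nat_lit 173) (nat_lit 5) (nat_lit 171) (nat_lit 4) (nat_lit 383) (nat_lit 324) (nat_lit 313))) (XT.nd (nat_lit 78) (nat_lit 380) (nat_lit 0) (XT.lf (nat_lit 0) (nat_lit 10700314681) (nat_lit 228) (nat_lit 498936998) (nat_lit 0) (nat_lit 1172531251) (nat_lit 168) (nat_lit 5) (nat_lit 171) (nat_lit 4) (nat_lit 168) (nat_lit 4) (nat_lit 384) (nat_lit 324) (nat_lit 312)) (XT.lf (nat_lit 0) (nat_lit 4957611277) (nat_lit 152) (nat_lit 2458880087) (nat_lit 228) (nat_lit 5268958272) (nat_lit 163) (nat_lit 5) (nat_lit 165) (nat_lit 5) (nat_lit 166) (nat_lit 4)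 (nat_lit 385) (nat_lit 324) (nat_lit 311)))))) (XT.nd (nat_lit 546) (nat_lit 1444) (nat_lit 0) (XT.nd (nat_lit 234) (nat_lit 912) (nat_lit 0) (XT.nd (nat_lit 78) (nat_lit 532) (nat_lit 0) (XT.lf (nat_lit 0) (nat_lit 3881904781) (nat_lit 228) (nat_lit 2450609174) (nat_lit 76) (nat_lit 6679214933) (nat_lit 160) (nat_lit 5) (nat_lit 163) (nat_lit 5) (nat_lit 161) (nat_lit 4) (nat_lit 386) (nat_lit 324) (nat_lit 310)) (XT.nd (nat_lit 78) (nat_lit 152) (nat_lit 0) (XT.lf (nat_lit 0) (nat_lit 96892537) (nat_lit 228) (nat_lit 10320683988) (nat_lit 76) (nat_lit 2933106303) (nat_lit 155) (nat_lit 5) (nat_lit 158) (nat_lit 5) (nat_lit 156) (nat_lit 4) (nat_lit 387) (nat_lit 324) (nat_lit 309)) (XT.lf (nat_lit 0) (nat_lit 8665065593) (nat_lit 152) (nat_lit 1013077854) (nat_lit 228) (nat_lit 4023268672) (nat_lit 153) (nat_lit 5) (nat_lit 155) (nat_lit 5) (nat_lit 156) (nat_lit 4) (nat_lit 388) (nat_lit 324)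 (nat_lit 308)))) (XT.nd (nat_lit 156) (nat_lit 380) (nat_lit 0) (XT.nd (nat_lit 78) (nat_lit 228) (nat_lit 0) (XT.lf (nat_lit 0) (nat_lit 370578164) (nat_lit 76) (nat_lit 5275481718) (nat_lit 152) (nat_lit 8419346265) (nat_lit 149) (nat_lit 5) (nat_lit 150) (nat_lit 5) (nat_lit 151) (nat_lit 4) (nat_lit 389) (nat_lit 324) (nat_lit 307)) (XT.lf (nat_lit 0) (nat_lit 1358174481) (nat_lit 228) (nat_lit 8407657337) (nat_lit 76) (nat_lit 4676796027) (nat_lit 146) (nat_lit 5) (nat_lit 149) (nat_lit 5) (nat_lit 147) (nat_lit 4) (nat_lit 390) (nat_lit 324) (nat_lit 306))) (XT.nd (nat_lit 78) (nat_lit 304) (nat_lit 0) (XT.lf (nat_lit 0) (nat_lit 11520132403) (nat_lit 152) (nat_lit 3000376725) (nat_lit 0) (nat_lit 313610118) (nat_lit 145) (nat_lit 5) (nat_lit 147) (nat_lit 4) (nat_lit 145) (nat_lit 4) (nat_lit 391) (nat_lit 324) (nat_lit 305)) (XT.lf (nat_lit 0) (nat_lit 2559570683) (nat_lit 76) (nat_lit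 4393915267) (nat_lit 152) (nat_lit 8285376331) (nat_lit 141) (nat_lit 5) (nat_lit 142) (nat_lit 5) (nat_lit 143) (nat_lit 4) (nat_lit 392) (nat_lit 324) (nat_lit 304))))) (XT.nd (nat_lit 234) (nat_lit 836) (nat_lit 0) (XT.nd (nat_lit 78) (nat_lit 380) (nat_lit 0) (XT.lf (nat_lit 0) (nat_lit 2083082252) (nat_lit 228) (nat_lit 7313913160) (nat_lit 76) (nat_lit 6261708175) (nat_lit 138) (nat_lit 5) (nat_lit 141) (nat_lit 5) (nat_lit 139) (nat_lit 4) (nat_lit 393) (nat_lit 324) (nat_lit 303)) (XT.nd (nat_lit 78) (nat_lit 304) (nat_lit 0) (XT.lf (nat_lit 0) (nat_lit 12891737287) (nat_lit 152) (nat_lit 1815981538) (nat_lit 0) (nat_lit 1386563296) (nat_lit 137) (nat_lit 5) (nat_lit 139) (nat_lit 4) (nat_lit 137) (nat_lit 4) (nat_lit 394) (nat_lit 324) (nat_lit 302)) (XT.lf (nat_lit 0) (nat_lit 3870312698) (nat_lit 76) (nat_lit 3843999402) (nat_lit 152) (nat_lit 8829854978) (nat_lit 133) (nat_lit 5) (nat_lit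 134) (nat_lit 5) (nat_lit 135) (nat_lit 4) (nat_lit 395) (nat_lit 324) (nat_lit 301)))) (XT.nd (nat_lit 156) (nat_lit 532) (nat_lit 0) (XT.nd (nat_lit 78) (nat_lit 76) (nat_lit 0) (XT.lf (nat_lit 0) (nat_lit 2196582951) (nat_lit 228) (nat_lit 7250409363) (nat_lit 76) (nat_lit 7563729986) (nat_lit 130) (nat_lit 5) (nat_lit 133) (nat_lit 5) (nat_lit 131) (nat_lit 4) (nat_lit 396) (nat_lit 324) (nat_lit 300)) (XT.lf (nat_lit 0) (nat_lit 13709267477) (nat_lit 152) (nat_lit 1687635505) (nat_lit 0) (nat_lit 2097553382) (nat_lit 129) (nat_lit 5) (nat_lit 131) (nat_lit 4) (nat_lit 129) (nat_lit 4) (nat_lit 397) (nat_lit 324) (nat_lit 299))) (XT.nd (nat_lit 78) (nat_lit 228) (nat_lit 0) (XT.lf (nat_lit 0) (nat_lit 4080326489) (nat_lit 76) (nat_lit 3763884891) (nat_lit 152) (nat_lit 10149884336) (nat_lit 125) (nat_lit 5) (nat_lit 126) (nat_lit 5) (nat_lit 127) (nat_lit 4) (nat_lit 398) (nat_lit 324) (nat_lit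 298)) (XT.lf (nat_lit 0) (nat_lit 1604451197) (nat_lit 228) (nat_lit 8455679982) (nat_lit 76) (nat_lit 8451829134) (nat_lit 122) (nat_lit 5) (nat_lit 125) (nat_lit 5) (nat_lit 123) (nat_lit 4) (nat_lit 399) (nat_lit 324) (nat_lit 297))))))) (XT.nd (nat_lit 1014) (nat_lit 1824) (nat_lit 0) (XT.nd (nat_lit 468) (nat_lit 1064) (nat_lit 0) (XT.nd (nat_lit 234) (nat_lit 380) (nat_lit 0) (XT.nd (nat_lit 78) (nat_lit 456) (nat_lit 0) (XT.lf (nat_lit 0) (nat_lit 13879902708) (nat_lit 152) (nat_lit 2858269369) (nat_lit 0) (nat_lit 2310231817) (nat_lit 121) (nat_lit 5) (nat_lit 123) (nat_lit 4) (nat_lit 121) (nat_lit 4) (nat_lit 400) (nat_lit 324) (nat_lit 296)) (XT.nd (nat_lit 78) (nat_lit 152) (nat_lit 0) (XT.lf (nat_lit 0) (nat_lit 2936782361) (nat_lit 76) (nat_lit 4302193925) (nat_lit 152) (nat_lit 12363993702) (nat_lit 117) (nat_lit 5) (nat_lit 118) (nat_lit 5) (nat_lit 119) (nat_lit 4) (nat_lit 401)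 (nat_lit 324) (nat_lit 295)) (XT.lf (nat_lit 0) (nat_lit 191697524) (nat_lit 152) (nat_lit 11201168484) (nat_lit 76) (nat_lit 8784419225) (nat_lit 115) (nat_lit 5) (nat_lit 117) (nat_lit 5) (nat_lit 116) (nat_lit 4) (nat_lit 402) (nat_lit 324) (nat_lit 294)))) (XT.nd (nat_lit 78) (nat_lit 304) (nat_lit 0) (XT.lf (nat_lit 0) (nat_lit 13290306799) (nat_lit 152) (nat_lit 5604942004) (nat_lit 0) (nat_lit 1876269769) (nat_lit 114) (nat_lit 5) (nat_lit 116) (nat_lit 4) (nat_lit 114) (nat_lit 4) (nat_lit 403) (nat_lit 324) (nat_lit 293)) (XT.nd (nat_lit 78) (nat_lit 76) (nat_lit 0) (XT.lf (nat_lit 0) (nat_lit 150876343) (nat_lit 76) (nat_lit 5621801858) (nat_lit 152) (nat_lit 15614121037) (nat_lit 111) (nat_lit 5) (nat_lit 112) (nat_lit 5) (nat_lit 113) (nat_lit 4) (nat_lit 404) (nat_lit 324) (nat_lit 292)) (XT.lf (nat_lit 0) (nat_lit 6204225560) (nat_lit 76) (nat_lit 13595611085) (nat_lit 76) (nat_lit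 2222826246) (nat_lit 110) (nat_lit 4) (nat_lit 111) (nat_lit 5) (nat_lit 111) (nat_lit 4) (nat_lit 405) (nat_lit 324) (nat_lit 291))))) (XT.nd (nat_lit 234) (nat_lit 608) (nat_lit 0) (XT.nd (nat_lit 78) (nat_lit 304) (nat_lit 0) (XT.lf (nat_lit 0) (nat_lit 11804536672) (nat_lit 152) (nat_lit 10244788237) (nat_lit 0) (nat_lit 631655801) (nat_lit 108) (nat_lit 5) (nat_lit 110) (nat_lit 4) (nat_lit 108) (nat_lit 4) (nat_lit 406) (nat_lit 324) (nat_lit 290)) (XT.nd (nat_lit 78) (nat_lit 152) (nat_lit 0) (XT.lf (nat_lit 0) (nat_lit 3339669347) (nat_lit 152) (nat_lit 4518439895) (nat_lit 76) (nat_lit 15504004622) (nat_lit 106) (nat_lit 5) (nat_lit 108) (nat_lit 5) (nat_lit 107) (nat_lit 4) (nat_lit 407) (nat_lit 324) (nat_lit 289)) (XT.lf (nat_lit 0) (nat_lit 1412461592) (nat_lit 76) (nat_lit 16869482777) (nat_lit 76) (nat_lit 5784919756) (nat_lit 104) (nat_lit 4) (nat_lit 105) (nat_lit 5) (nat_lit 105)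 (nat_lit 4) (nat_lit 408) (nat_lit 324) (nat_lit 288)))) (XT.nd (nat_lit 156) (nat_lit 380) (nat_lit 0) (XT.nd (nat_lit 78) (nat_lit 76) (nat_lit 0) (XT.lf (nat_lit 0) (nat_lit 7638089049) (nat_lit 76) (nat_lit 1639155178) (nat_lit 152) (nat_lit 15518216983) (nat_lit 102) (nat_lit 5) (nat_lit 103) (nat_lit 5) (nat_lit 104) (nat_lit 4) (nat_lit 409) (nat_lit 324) (nat_lit 287)) (XT.lf (nat_lit 0) (nat_lit 14054565799) (nat_lit 76) (nat_lit 11232641912) (nat_lit 76) (nat_lit 262132175) (nat_lit 101) (nat_lit 4) (nat_lit 102) (nat_lit 5) (nat_lit 102) (nat_lit 4) (nat_lit 410) (nat_lit 324) (nat_lit 286))) (XT.nd (nat_lit 78) (nat_lit 228) (nat_lit 0) (XT.lf (nat_lit 0) (nat_lit 15700267354) (nat_lit 152) (nat_lit 5673462029) (nat_lit 0) (nat_lit 4955109758) (nat_lit 99) (nat_lit 5) (nat_lit 101) (nat_lit 4) (nat_lit 99) (nat_lit 4) (nat_lit 411) (nat_lit 324) (nat_lit 285)) (XT.lf (nat_lit 0) (nat_lit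 373447977) (nat_lit 76) (nat_lit 5147881189) (nat_lit 152) (nat_lit 21614872187) (nat_lit 96) (nat_lit 5) (nat_lit 97) (nat_lit 5) (nat_lit 98) (nat_lit 4) (nat_lit 412) (nat_lit 324) (nat_lit 284)))))) (XT.nd (nat_lit 546) (nat_lit 912) (nat_lit 0) (XT.nd (nat_lit 234) (nat_lit 532) (nat_lit 0) (XT.nd (nat_lit 78) (nat_lit 304) (nat_lit 0) (XT.lf (nat_lit 0) (nat_lit 6716267601) (nat_lit 76) (nat_lit 15927582251) (nat_lit 76) (nat_lit 5325376628) (nat_lit 95) (nat_lit 4) (nat_lit 96) (nat_lit 5) (nat_lit 96) (nat_lit 4) (nat_lit 413) (nat_lit 324) (nat_lit 283)) (XT.nd (nat_lit 78) (nat_lit 152) (nat_lit 0) (XT.lf (nat_lit 0) (nat_lit 11835593001) (nat_lit 152) (nat_lit 15530802244) (nat_lit 0) (nat_lit 1465505663) (nat_lit 93) (nat_lit 5) (nat_lit 95) (nat_lit 4) (nat_lit 93) (nat_lit 4) (nat_lit 414) (nat_lit 324) (nat_lit 282)) (XT.lf (nat_lit 0) (nat_lit 406097958) (nat_lit 152) (nat_lit 9618740691)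 (nat_lit 76) (nat_lit 19699348788) (nat_lit 91) (nat_lit 5) (nat_lit 93) (nat_lit 5) (nat_lit 92) (nat_lit 4) (nat_lit 415) (nat_lit 324) (nat_lit 281)))) (XT.nd (nat_lit 156) (nat_lit 228) (nat_lit 0) (XT.nd (nat_lit 78) (nat_lit 228) (nat_lit 0) (XT.lf (nat_lit 0) (nat_lit 18657615214) (nat_lit 152) (nat_lit 3537374076) (nat_lit 0) (nat_lit 8451135570) (nat_lit 90) (nat_lit 5) (nat_lit 92) (nat_lit 4) (nat_lit 90) (nat_lit 4) (nat_lit 416) (nat_lit 324) (nat_lit 280)) (XT.lf (nat_lit 0) (nat_lit 2874066153) (nat_lit 76) (nat_lit 3601233736) (nat_lit 152) (nat_lit 25125402673) (nat_lit 87) (nat_lit 5) (nat_lit 88) (nat_lit 5) (nat_lit 89) (nat_lit 4) (nat_lit 417) (nat_lit 324) (nat_lit 279))) (XT.nd (nat_lit 78) (nat_lit 152) (nat_lit 0) (XT.lf (nat_lit 0) (nat_lit 9539524018) (nat_lit 76) (nat_lit 16538561094) (nat_lit 76) (nat_lit 6507451311) (nat_lit 86) (nat_lit 4) (nat_lit 87) (nat_lit 5)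 (nat_lit 87) (nat_lit 4) (nat_lit 418) (nat_lit 324) (nat_lit 278)) (XT.lf (nat_lit 0) (nat_lit 13140355824) (nat_lit 152) (nat_lit 17118462898) (nat_lit 0) (nat_lit 3346429116) (nat_lit 84) (nat_lit 5) (nat_lit 86) (nat_lit 4) (nat_lit 84) (nat_lit 4) (nat_lit 419) (nat_lit 324) (nat_lit 277))))) (XT.nd (nat_lit 234) (nat_lit 456) (nat_lit 0) (XT.nd (nat_lit 78) (nat_lit 380) (nat_lit 0) (XT.lf (nat_lit 0) (nat_lit 23697210650) (nat_lit 76) (nat_lit 10404560374) (nat_lit 76) (nat_lit 558266838) (nat_lit 83) (nat_lit 4) (nat_lit 84) (nat_lit 5) (nat_lit 84) (nat_lit 4) (nat_lit 420) (nat_lit 324) (nat_lit 276)) (XT.nd (nat_lit 78) (nat_lit 228) (nat_lit 0) (XT.lf (nat_lit 0) (nat_lit 20363839118) (nat_lit 152) (nat_lit 4629437467) (nat_lit 0) (nat_lit 10755910277) (nat_lit 81) (nat_lit 5) (nat_lit 83) (nat_lit 4) (nat_lit 81) (nat_lit 4) (nat_lit 421) (nat_lit 324) (nat_lit 275)) (XT.lf (nat_lit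 0) (nat_lit 2072488088) (nat_lit 76) (nat_lit 3704128533) (nat_lit 152) (nat_lit 31100805878) (nat_lit 78) (nat_lit 5) (nat_lit 79) (nat_lit 5) (nat_lit 80) (nat_lit 4) (nat_lit 422) (nat_lit 324) (nat_lit 274)))) (XT.nd (nat_lit 156) (nat_lit 228) (nat_lit 0) (XT.nd (nat_lit 78) (nat_lit 152) (nat_lit 0) (XT.lf (nat_lit 0) (nat_lit 9048775388) (nat_lit 76) (nat_lit 19203504216) (nat_lit 76) (nat_lit 9788006620) (nat_lit 77) (nat_lit 4) (nat_lit 78) (nat_lit 5) (nat_lit 78) (nat_lit 4) (nat_lit 423) (nat_lit 324) (nat_lit 273)) (XT.lf (nat_lit 0) (nat_lit 12775329557) (nat_lit 152) (nat_lit 22874771989) (nat_lit 0) (nat_lit 3594643330) (nat_lit 75) (nat_lit 5) (nat_lit 77) (nat_lit 4) (nat_lit 75) (nat_lit 4) (nat_lit 424) (nat_lit 324) (nat_lit 272))) (XT.nd (nat_lit 78) (nat_lit 152) (nat_lit 0) (XT.lf (nat_lit 0) (nat_lit 23959081449) (nat_lit 76) (nat_lit 12874301719) (nat_lit 76) (nat_lit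 3656066515) (nat_lit 74) (nat_lit 4) (nat_lit 75) (nat_lit 5) (nat_lit 75) (nat_lit 4) (nat_lit 425) (nat_lit 324) (nat_lit 271)) (XT.lf (nat_lit 0) (nat_lit 20403242672) (nat_lit 152) (nat_lit 9953471792) (nat_lit 0) (nat_lit 11418780406) (nat_lit 72) (nat_lit 5) (nat_lit 74) (nat_lit 4) (nat_lit 72) (nat_lit 4) (nat_lit 426) (nat_lit 324) (nat_lit 270))))))))
noncomputable def xc23 : XT := (XT.nd (nat_lit 49686) (nat_lit 0) (nat_lit 4256) (XT.nd (nat_lit 1014) (nat_lit 152) (nat_lit 0) (XT.nd (nat_lit 468) (nat_lit 912) (nat_lit 0) (XT.nd (nat_lit 234) (nat_lit 304) (nat_lit 0) (XT.nd (nat_lit 78) (nat_lit 304) (nat_lit 0) (XT.lf (nat_lit 0) (nat_lit 2958204943) (nat_lit 152) (nat_lit 3012372276) (nat_lit 76) (nat_lit 37137233413) (nat_lit 70) (nat_lit 5) (nat_lit 72) (nat_lit 5) (nat_lit 71) (nat_lit 4) (nat_lit 427) (nat_lit 324) (nat_lit 269)) (XT.nd (nat_lit 78) (nat_lit 152) (nat_lit 0)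 (XT.lf (nat_lit 0) (nat_lit 4185295935) (nat_lit 76) (nat_lit 24540340147) (nat_lit 76) (nat_lit 15754884044) (nat_lit 68) (nat_lit 4) (nat_lit 69) (nat_lit 5) (nat_lit 69) (nat_lit 4) (nat_lit 428) (nat_lit 324) (nat_lit 268)) (XT.lf (nat_lit 0) (nat_lit 10218932255) (nat_lit 152) (nat_lit 34022443920) (nat_lit 0) (nat_lit 1661093000) (nat_lit 66) (nat_lit 5) (nat_lit 68) (nat_lit 4) (nat_lit 66) (nat_lit 4) (nat_lit 429) (nat_lit 324) (nat_lit 267)))) (XT.nd (nat_lit 78) (nat_lit 228) (nat_lit 0) (XT.lf (nat_lit 0) (nat_lit 19801017644) (nat_lit 76) (nat_lit 18076610462) (nat_lit 76) (nat_lit 9491847185) (nat_lit 65) (nat_lit 4) (nat_lit 66) (nat_lit 5) (nat_lit 66) (nat_lit 4) (nat_lit 430) (nat_lit 324) (nat_lit 266)) (XT.nd (nat_lit 78) (nat_lit 76) (nat_lit 0) (XT.lf (nat_lit 0) (nat_lit 18234571941) (nat_lit 152) (nat_lit 20777813793) (nat_lit 0) (nat_lit 9874955239) (nat_lit 63) (nat_lit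 5) (nat_lit 65) (nat_lit 4) (nat_lit 63) (nat_lit 4) (nat_lit 431) (nat_lit 324) (nat_lit 265)) (XT.lf (nat_lit 0) (nat_lit 36826050079) (nat_lit 76) (nat_lit 11007539643) (nat_lit 76) (nat_lit 2624213348) (nat_lit 62) (nat_lit 4) (nat_lit 63) (nat_lit 5) (nat_lit 63) (nat_lit 4) (nat_lit 432) (nat_lit 324) (nat_lit 264))))) (XT.nd (nat_lit 234) (nat_lit 456) (nat_lit 0) (XT.nd (nat_lit 78) (nat_lit 304) (nat_lit 0) (XT.lf (nat_lit 0) (nat_lit 26985887869) (nat_lit 152) (nat_lit 6267261105) (nat_lit 0) (nat_lit 18824813246) (nat_lit 60) (nat_lit 5) (nat_lit 62) (nat_lit 4) (nat_lit 60) (nat_lit 4) (nat_lit 433) (nat_lit 324) (nat_lit 263)) (XT.nd (nat_lit 78) (nat_lit 76) (nat_lit 0) (XT.lf (nat_lit 0) (nat_lit 1627307709) (nat_lit 76) (nat_lit 3204840696) (nat_lit 152) (nat_lit 48924844910) (nat_lit 57) (nat_lit 5) (nat_lit 58) (nat_lit 5) (nat_lit 59) (nat_lit 4) (nat_lit 434) (nat_lit 324) (nat_lit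 262)) (XT.lf (nat_lit 0) (nat_lit 9833587730) (nat_lit 76) (nat_lit 26807333233) (nat_lit 76) (nat_lit 18844383473) (nat_lit 56) (nat_lit 4) (nat_lit 57) (nat_lit 5) (nat_lit 57) (nat_lit 4) (nat_lit 435) (nat_lit 324) (nat_lit 261)))) (XT.nd (nat_lit 156) (nat_lit 228) (nat_lit 0) (XT.nd (nat_lit 78) (nat_lit 76) (nat_lit 0) (XT.lf (nat_lit 0) (nat_lit 13162382869) (nat_lit 152) (nat_lit 38700334676) (nat_lit 0) (nat_lit 5413512986) (nat_lit 54) (nat_lit 5) (nat_lit 56) (nat_lit 4) (nat_lit 54) (nat_lit 4) (nat_lit 436) (nat_lit 324) (nat_lit 260)) (XT.lf (nat_lit 0) (nat_lit 27631901930) (nat_lit 76) (nat_lit 19629315199) (nat_lit 76) (nat_lit 11863444650) (nat_lit 53) (nat_lit 4) (nat_lit 54) (nat_lit 5) (nat_lit 54) (nat_lit 4) (nat_lit 437) (nat_lit 324) (nat_lit 259))) (XT.nd (nat_lit 78) (nat_lit 76) (nat_lit 0) (XT.lf (nat_lit 0) (nat_lit 22345528778) (nat_lit 152) (nat_lit 23900252350)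 (nat_lit 0) (nat_lit 14790129108) (nat_lit 51) (nat_lit 5) (nat_lit 53) (nat_lit 4) (nat_lit 51) (nat_lit 4) (nat_lit 438) (nat_lit 324) (nat_lit 258)) (XT.lf (nat_lit 0) (nat_lit 47161759413) (nat_lit 76) (nat_lit 11711105256) (nat_lit 76) (nat_lit 4140734609) (nat_lit 50) (nat_lit 4) (nat_lit 51) (nat_lit 5) (nat_lit 51) (nat_lit 4) (nat_lit 439) (nat_lit 324) (nat_lit 257)))))) (XT.nd (nat_lit 48126) (nat_lit 0) (nat_lit 9652) (XT.nd (nat_lit 47814) (nat_lit 0) (nat_lit 12160) (XT.nd (nat_lit 47658) (nat_lit 0) (nat_lit 14136) (XT.lf (nat_lit 0) (nat_lit 32433298794) (nat_lit 152) (nat_lit 7550304918) (nat_lit 0) (nat_lit 25069581591) (nat_lit 48) (nat_lit 5) (nat_lit 50) (nat_lit 4) (nat_lit 48) (nat_lit 4) (nat_lit 440) (nat_lit 324) (nat_lit 256)) (XT.nd (nat_lit 78) (nat_lit 304) (nat_lit 0) (XT.lf (nat_lit 0) (nat_lit 602063033) (nat_lit 380) (nat_lit 3321725030) (nat_lit 0) (nat_lit 602063033)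 (nat_lit 238) (nat_lit 5) (nat_lit 243) (nat_lit 4) (nat_lit 238) (nat_lit 4) (nat_lit 370) (nat_lit 325) (nat_lit 325)) (XT.lf (nat_lit 0) (nat_lit 6930282963) (nat_lit 304) (nat_lit 1873495772) (nat_lit 304) (nat_lit 428817821) (nat_lit 234) (nat_lit 4) (nat_lit 238) (nat_lit 5) (nat_lit 238) (nat_lit 4) (nat_lit 371) (nat_lit 325) (nat_lit 324)))) (XT.nd (nat_lit 156) (nat_lit 988) (nat_lit 0) (XT.nd (nat_lit 78) (nat_lit 304) (nat_lit 0) (XT.lf (nat_lit 0) (nat_lit 2183737540) (nat_lit 304) (nat_lit 4988221634) (nat_lit 304) (nat_lit 2249812204) (nat_lit 225) (nat_lit 4) (nat_lit 229) (nat_lit 5) (nat_lit 229) (nat_lit 4) (nat_lit 372) (nat_lit 325) (nat_lit 323)) (XT.lf (nat_lit 0) (nat_lit 5370601607) (nat_lit 304) (nat_lit 2772633782) (nat_lit 0) (nat_lit 1476806526) (nat_lit 221) (nat_lit 5) (nat_lit 225) (nat_lit 4) (nat_lit 221) (nat_lit 4) (nat_lit 373) (nat_lit 325) (nat_lit 322)))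 (XT.nd (nat_lit 78) (nat_lit 380) (nat_lit 0) (XT.lf (nat_lit 0) (nat_lit 1839674020) (nat_lit 228) (nat_lit 1564167267) (nat_lit 304) (nat_lit 6423483198) (nat_lit 213) (nat_lit 5) (nat_lit 216) (nat_lit 5) (nat_lit 217) (nat_lit 4) (nat_lit 374) (nat_lit 325) (nat_lit 321)) (XT.lf (nat_lit 0) (nat_lit 1276332754) (nat_lit 380) (nat_lit 3419177375) (nat_lit 76) (nat_lit 5348011570) (nat_lit 208) (nat_lit 5) (nat_lit 213) (nat_lit 5) (nat_lit 209) (nat_lit 4) (nat_lit 375) (nat_lit 325) (nat_lit 320))))) (XT.nd (nat_lit 234) (nat_lit 1216) (nat_lit 0) (XT.nd (nat_lit 78) (nat_lit 836) (nat_lit 0) (XT.lf (nat_lit 0) (nat_lit 1290761215) (nat_lit 228) (nat_lit 7909745146) (nat_lit 228) (nat_lit 1068948018) (nat_lit 202) (nat_lit 4) (nat_lit 205) (nat_lit 5) (nat_lit 205) (nat_lit 4) (nat_lit 376) (nat_lit 325) (nat_lit 319)) (XT.nd (nat_lit 78) (nat_lit 532) (nat_lit 0) (XT.lf (nat_lit 0) (nat_lit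 6180944328) (nat_lit 228) (nat_lit 705541809) (nat_lit 304) (nat_lit 3617900205) (nat_lit 198) (nat_lit 5) (nat_lit 201) (nat_lit 5) (nat_lit 202) (nat_lit 4) (nat_lit 377) (nat_lit 325) (nat_lit 318)) (XT.lf (nat_lit 0) (nat_lit 442724898) (nat_lit 228) (nat_lit 3941436872) (nat_lit 304) (nat_lit 6365162821) (nat_lit 191) (nat_lit 5) (nat_lit 194) (nat_lit 5) (nat_lit 195) (nat_lit 4) (nat_lit 378) (nat_lit 325) (nat_lit 317)))) (XT.nd (nat_lit 156) (nat_lit 760) (nat_lit 0) (XT.nd (nat_lit 78) (nat_lit 152) (nat_lit 0) (XT.lf (nat_lit 0) (nat_lit 1701554060) (nat_lit 304) (nat_lit 5575549353) (nat_lit 76) (nat_lit 3726976394) (nat_lit 187) (nat_lit 5) (nat_lit 191) (nat_lit 5) (nat_lit 188) (nat_lit 4) (nat_lit 379) (nat_lit 325) (nat_lit 316)) (XT.lf (nat_lit 0) (nat_lit 10032998801) (nat_lit 228) (nat_lit 727789878) (nat_lit 0) (nat_lit 509102463) (nat_lit 185) (nat_lit 5) (nat_lit 188) (nat_lit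 4) (nat_lit 185) (nat_lit 4) (nat_lit 380) (nat_lit 325) (nat_lit 315))) (XT.nd (nat_lit 78) (nat_lit 304) (nat_lit 0) (XT.lf (nat_lit 0) (nat_lit 4291688616) (nat_lit 152) (nat_lit 2869257915) (nat_lit 228) (nat_lit 4383859556) (nat_lit 179) (nat_lit 5) (nat_lit 181) (nat_lit 5) (nat_lit 182) (nat_lit 4) (nat_lit 381) (nat_lit 325) (nat_lit 314)) (XT.lf (nat_lit 0) (nat_lit 4060380711) (nat_lit 304) (nat_lit 2370853868) (nat_lit 76) (nat_lit 5400053301) (nat_lit 175) (nat_lit 5) (nat_lit 179) (nat_lit 5) (nat_lit 176) (nat_lit 4) (nat_lit 382) (nat_lit 325) (nat_lit 313))))))) (XT.nd (nat_lit 1014) (nat_lit 2280) (nat_lit 0) (XT.nd (nat_lit 468) (nat_lit 1444) (nat_lit 0) (XT.nd (nat_lit 234) (nat_lit 760) (nat_lit 0) (XT.nd (nat_lit 78) (nat_lit 532) (nat_lit 0) (XT.lf (nat_lit 0) (nat_lit 734423921) (nat_lit 228) (nat_lit 9429961726) (nat_lit 76) (nat_lit 1964918206) (nat_lit 170) (nat_lit 5)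 (nat_lit 173) (nat_lit 5) (nat_lit 171) (nat_lit 4) (nat_lit 383) (nat_lit 325) (nat_lit 312)) (XT.nd (nat_lit 78) (nat_lit 380) (nat_lit 0) (XT.lf (nat_lit 0) (nat_lit 7917086402) (nat_lit 152) (nat_lit 1651935240) (nat_lit 228) (nat_lit 2868949362) (nat_lit 168) (nat_lit 5) (nat_lit 170) (nat_lit 5) (nat_lit 171) (nat_lit 4) (nat_lit 384) (nat_lit 325) (nat_lit 311)) (XT.lf (nat_lit 0) (nat_lit 507055893) (nat_lit 152) (nat_lit 5514044659) (nat_lit 228) (nat_lit 6737520790) (nat_lit 163) (nat_lit 5) (nat_lit 165) (nat_lit 5) (nat_lit 166) (nat_lit 4) (nat_lit 385) (nat_lit 325) (nat_lit 310)))) (XT.nd (nat_lit 78) (nat_lit 532) (nat_lit 0) (XT.lf (nat_lit 0) (nat_lit 2244540427) (nat_lit 228) (nat_lit 7320146136) (nat_lit 76) (nat_lit 3526561298) (nat_lit 160) (nat_lit 5) (nat_lit 163) (nat_lit 5) (nat_lit 161) (nat_lit 4) (nat_lit 386) (nat_lit 325) (nat_lit 309)) (XT.nd (nat_lit 78) (nat_lit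 380) (nat_lit 0) (XT.lf (nat_lit 0) (nat_lit 11167536667) (nat_lit 152) (nat_lit 419761525) (nat_lit 228) (nat_lit 1849678195) (nat_lit 158) (nat_lit 5) (nat_lit 160) (nat_lit 5) (nat_lit 161) (nat_lit 4) (nat_lit 387) (nat_lit 325) (nat_lit 308)) (XT.lf (nat_lit 0) (nat_lit 2926169027) (nat_lit 152) (nat_lit 4641854703) (nat_lit 228) (nat_lit 6226204641) (nat_lit 153) (nat_lit 5) (nat_lit 155) (nat_lit 5) (nat_lit 156) (nat_lit 4) (nat_lit 388) (nat_lit 325) (nat_lit 307))))) (XT.nd (nat_lit 234) (nat_lit 836) (nat_lit 0) (XT.nd (nat_lit 78) (nat_lit 380) (nat_lit 0) (XT.lf (nat_lit 0) (nat_lit 3271355586) (nat_lit 228) (nat_lit 5842597625) (nat_lit 76) (nat_lit 5051347134) (nat_lit 150) (nat_lit 5) (nat_lit 153) (nat_lit 5) (nat_lit 151) (nat_lit 4) (nat_lit 389) (nat_lit 325) (nat_lit 306)) (XT.nd (nat_lit 78) (nat_lit 304) (nat_lit 0) (XT.lf (nat_lit 0) (nat_lit 13184705707) (nat_lit 152) (nat_lit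 679395026) (nat_lit 0) (nat_lit 686885437) (nat_lit 149) (nat_lit 5) (nat_lit 151) (nat_lit 4) (nat_lit 149) (nat_lit 4) (nat_lit 390) (nat_lit 325) (nat_lit 305)) (XT.lf (nat_lit 0) (nat_lit 4661137168) (nat_lit 76) (nat_lit 3968875371) (nat_lit 152) (nat_lit 6318628817) (nat_lit 145) (nat_lit 5) (nat_lit 146) (nat_lit 5) (nat_lit 147) (nat_lit 4) (nat_lit 391) (nat_lit 325) (nat_lit 304)))) (XT.nd (nat_lit 156) (nat_lit 380) (nat_lit 0) (XT.nd (nat_lit 78) (nat_lit 228) (nat_lit 0) (XT.lf (nat_lit 0) (nat_lit 3758353978) (nat_lit 228) (nat_lit 5186672465) (nat_lit 76) (nat_lit 6416698064) (nat_lit 142) (nat_lit 5) (nat_lit 145) (nat_lit 5) (nat_lit 143) (nat_lit 4) (nat_lit 392) (nat_lit 325) (nat_lit 303)) (XT.lf (nat_lit 0) (nat_lit 62771987) (nat_lit 152) (nat_lit 14239305322) (nat_lit 152) (nat_lit 1488700575) (nat_lit 139) (nat_lit 4) (nat_lit 141) (nat_lit 5) (nat_lit 141) (nat_lit 4) (nat_lit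 393) (nat_lit 325) (nat_lit 302))) (XT.nd (nat_lit 78) (nat_lit 228) (nat_lit 0) (XT.lf (nat_lit 0) (nat_lit 5513672392) (nat_lit 76) (nat_lit 3627894613) (nat_lit 152) (nat_lit 7091441843) (nat_lit 137) (nat_lit 5) (nat_lit 138) (nat_lit 5) (nat_lit 139) (nat_lit 4) (nat_lit 394) (nat_lit 325) (nat_lit 301)) (XT.lf (nat_lit 0) (nat_lit 3630892465) (nat_lit 228) (nat_lit 5564099152) (nat_lit 76) (nat_lit 7497135932) (nat_lit 134) (nat_lit 5) (nat_lit 137) (nat_lit 5) (nat_lit 135) (nat_lit 4) (nat_lit 395) (nat_lit 325) (nat_lit 300)))))) (XT.nd (nat_lit 546) (nat_lit 988) (nat_lit 0) (XT.nd (nat_lit 234) (nat_lit 684) (nat_lit 0) (XT.nd (nat_lit 78) (nat_lit 532) (nat_lit 0) (XT.lf (nat_lit 0) (nat_lit 14859856423) (nat_lit 152) (nat_lit 257529282) (nat_lit 0) (nat_lit 2051194866) (nat_lit 133) (nat_lit 5) (nat_lit 135) (nat_lit 4) (nat_lit 133) (nat_lit 4) (nat_lit 396) (nat_lit 325) (nat_lit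 299)) (XT.nd (nat_lit 78) (nat_lit 228) (nat_lit 0) (XT.lf (nat_lit 0) (nat_lit 5260558519) (nat_lit 76) (nat_lit 3758101504) (nat_lit 152) (nat_lit 8641230954) (nat_lit 129) (nat_lit 5) (nat_lit 130) (nat_lit 5) (nat_lit 131) (nat_lit 4) (nat_lit 397) (nat_lit 325) (nat_lit 298)) (XT.lf (nat_lit 0) (nat_lit 2795107757) (nat_lit 228) (nat_lit 7213908292) (nat_lit 76) (nat_lit 8160549270) (nat_lit 126) (nat_lit 5) (nat_lit 129) (nat_lit 5) (nat_lit 127) (nat_lit 4) (nat_lit 398) (nat_lit 325) (nat_lit 297)))) (XT.nd (nat_lit 156) (nat_lit 304) (nat_lit 0) (XT.nd (nat_lit 78) (nat_lit 304) (nat_lit 0) (XT.lf (nat_lit 0) (nat_lit 14767247570) (nat_lit 152) (nat_lit 1880024764) (nat_lit 0) (nat_lit 2050603399) (nat_lit 125) (nat_lit 5) (nat_lit 127) (nat_lit 4) (nat_lit 125) (nat_lit 4) (nat_lit 399) (nat_lit 325) (nat_lit 296)) (XT.lf (nat_lit 0) (nat_lit 3648498265) (nat_lit 76) (nat_lit 4508876663)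 (nat_lit 152) (nat_lit 11086002366) (nat_lit 121) (nat_lit 5) (nat_lit 122) (nat_lit 5) (nat_lit 123) (nat_lit 4) (nat_lit 400) (nat_lit 325) (nat_lit 295))) (XT.nd (nat_lit 78) (nat_lit 76) (nat_lit 0) (XT.lf (nat_lit 0) (nat_lit 1136381043) (nat_lit 228) (nat_lit 10407755961) (nat_lit 76) (nat_lit 8264529840) (nat_lit 118) (nat_lit 5) (nat_lit 121) (nat_lit 5) (nat_lit 119) (nat_lit 4) (nat_lit 401) (nat_lit 325) (nat_lit 294)) (XT.lf (nat_lit 0) (nat_lit 13910533642) (nat_lit 152) (nat_lit 5083187678) (nat_lit 0) (nat_lit 1400108912) (nat_lit 117) (nat_lit 5) (nat_lit 119) (nat_lit 4) (nat_lit 117) (nat_lit 4) (nat_lit 402) (nat_lit 325) (nat_lit 293))))) (XT.nd (nat_lit 234) (nat_lit 532) (nat_lit 0) (XT.nd (nat_lit 78) (nat_lit 228) (nat_lit 0) (XT.lf (nat_lit 0) (nat_lit 388505328) (nat_lit 76) (nat_lit 6043594245) (nat_lit 152) (nat_lit 14567125406) (nat_lit 114) (nat_lit 5) (nat_lit 115)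 (nat_lit 5) (nat_lit 116) (nat_lit 4) (nat_lit 403) (nat_lit 325) (nat_lit 292)) (XT.nd (nat_lit 78) (nat_lit 152) (nat_lit 0) (XT.lf (nat_lit 0) (nat_lit 6155060715) (nat_lit 76) (nat_lit 13958128773) (nat_lit 76) (nat_lit 1512153992) (nat_lit 113) (nat_lit 4) (nat_lit 114) (nat_lit 5) (nat_lit 114) (nat_lit 4) (nat_lit 404) (nat_lit 325) (nat_lit 291)) (XT.lf (nat_lit 0) (nat_lit 12088663493) (nat_lit 76) (nat_lit 66006065) (nat_lit 152) (nat_lit 10118668919) (nat_lit 111) (nat_lit 5) (nat_lit 112) (nat_lit 5) (nat_lit 113) (nat_lit 4) (nat_lit 405) (nat_lit 325) (nat_lit 290)))) (XT.nd (nat_lit 156) (nat_lit 228) (nat_lit 0) (XT.nd (nat_lit 78) (nat_lit 152) (nat_lit 0) (XT.lf (nat_lit 0) (nat_lit 3739887570) (nat_lit 152) (nat_lit 4755621785) (nat_lit 76) (nat_lit 14448110414) (nat_lit 109) (nat_lit 5) (nat_lit 111) (nat_lit 5) (nat_lit 110) (nat_lit 4) (nat_lit 406) (nat_lit 325) (nat_lit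 289)) (XT.lf (nat_lit 0) (nat_lit 873509840) (nat_lit 76) (nat_lit 17435588011) (nat_lit 76) (nat_lit 5328501864) (nat_lit 107) (nat_lit 4) (nat_lit 108) (nat_lit 5) (nat_lit 108) (nat_lit 4) (nat_lit 407) (nat_lit 325) (nat_lit 288))) (XT.nd (nat_lit 78) (nat_lit 76) (nat_lit 0) (XT.lf (nat_lit 0) (nat_lit 6783839401) (nat_lit 76) (nat_lit 2577926052) (nat_lit 152) (nat_lit 14992800726) (nat_lit 105) (nat_lit 5) (nat_lit 106) (nat_lit 5) (nat_lit 107) (nat_lit 4) (nat_lit 408) (nat_lit 325) (nat_lit 287)) (XT.lf (nat_lit 0) (nat_lit 12891104271) (nat_lit 76) (nat_lit 12087569339) (nat_lit 76) (nat_lit 118054761) (nat_lit 104) (nat_lit 4) (nat_lit 105) (nat_lit 5) (nat_lit 105) (nat_lit 4) (nat_lit 409) (nat_lit 325) (nat_lit 286))))))))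
noncomputable def xc24 : XT := (XT.nd (nat_lit 2028) (nat_lit 532) (nat_lit 0) (XT.nd (nat_lit 1014) (nat_lit 1748) (nat_lit 0) (XT.nd (nat_lit 468) (nat_lit 988) (nat_lit 0) (XT.nd (nat_lit 234) (nat_lit 380) (nat_lit 0) (XT.nd (nat_lit 78) (nat_lit 304) (nat_lit 0) (XT.lf (nat_lit 0) (nat_lit 15447065643) (nat_lit 152) (nat_lit 6687814735) (nat_lit 0) (nat_lit 3729175116) (nat_lit 102) (nat_lit 5) (nat_lit 104) (nat_lit 4) (nat_lit 102) (nat_lit 4) (nat_lit 410) (nat_lit 325) (nat_lit 285)) (XT.nd (nat_lit 78) (nat_lit 152) (nat_lit 0) (XT.lf (nat_lit 0) (nat_lit 5340752090) (nat_lit 152) (nat_lit 968547197) (nat_lit 76) (nat_lit 20349268366) (nat_lit 100) (nat_lit 5) (nat_lit 102) (nat_lit 5) (nat_lit 101) (nat_lit 4) (nat_lit 411) (nat_lit 325) (nat_lit 284)) (XT.lf (nat_lit 0) (nat_lit 5033420792) (nat_lit 76) (nat_lit 16998582780) (nat_lit 76) (nat_lit 5446875841) (nat_lit 98) (nat_lit 4)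 (nat_lit 99) (nat_lit 5) (nat_lit 99) (nat_lit 4) (nat_lit 412) (nat_lit 325) (nat_lit 283)))) (XT.nd (nat_lit 78) (nat_lit 228) (nat_lit 0) (XT.lf (nat_lit 0) (nat_lit 11292222611) (nat_lit 76) (nat_lit 1020450) (nat_lit 152) (nat_lit 17034892937) (nat_lit 96) (nat_lit 5) (nat_lit 97) (nat_lit 5) (nat_lit 98) (nat_lit 4) (nat_lit 413) (nat_lit 325) (nat_lit 282)) (XT.nd (nat_lit 78) (nat_lit 152) (nat_lit 0) (XT.lf (nat_lit 0) (nat_lit 17749423380) (nat_lit 76) (nat_lit 11413064019) (nat_lit 76) (nat_lit 43607052) (nat_lit 95) (nat_lit 4) (nat_lit 96) (nat_lit 5) (nat_lit 96) (nat_lit 4) (nat_lit 414) (nat_lit 325) (nat_lit 281)) (XT.lf (nat_lit 0) (nat_lit 17759126940) (nat_lit 152) (nat_lit 5703151665) (nat_lit 0) (nat_lit 6651264720) (nat_lit 93) (nat_lit 5) (nat_lit 95) (nat_lit 4) (nat_lit 93) (nat_lit 4) (nat_lit 415) (nat_lit 325) (nat_lit 280))))) (XT.nd (nat_lit 234) (nat_lit 532) (nat_lit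 0) (XT.nd (nat_lit 78) (nat_lit 228) (nat_lit 0) (XT.lf (nat_lit 0) (nat_lit 310658053) (nat_lit 76) (nat_lit 5346860489) (nat_lit 152) (nat_lit 25395944797) (nat_lit 90) (nat_lit 5) (nat_lit 91) (nat_lit 5) (nat_lit 92) (nat_lit 4) (nat_lit 416) (nat_lit 325) (nat_lit 279)) (XT.nd (nat_lit 78) (nat_lit 152) (nat_lit 0) (XT.lf (nat_lit 0) (nat_lit 6625013126) (nat_lit 76) (nat_lit 18153831600) (nat_lit 76) (nat_lit 7243935914) (nat_lit 89) (nat_lit 4) (nat_lit 90) (nat_lit 5) (nat_lit 90) (nat_lit 4) (nat_lit 417) (nat_lit 325) (nat_lit 278)) (XT.lf (nat_lit 0) (nat_lit 11935116852) (nat_lit 152) (nat_lit 19805188886) (nat_lit 0) (nat_lit 1286350392) (nat_lit 87) (nat_lit 5) (nat_lit 89) (nat_lit 4) (nat_lit 87) (nat_lit 4) (nat_lit 418) (nat_lit 325) (nat_lit 277)))) (XT.nd (nat_lit 156) (nat_lit 304) (nat_lit 0) (XT.nd (nat_lit 78) (nat_lit 152) (nat_lit 0) (XT.lf (nat_lit 0) (nat_lit 20042069684)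 (nat_lit 76) (nat_lit 12362386918) (nat_lit 76) (nat_lit 1659682625) (nat_lit 86) (nat_lit 4) (nat_lit 87) (nat_lit 5) (nat_lit 87) (nat_lit 4) (nat_lit 419) (nat_lit 325) (nat_lit 276)) (XT.lf (nat_lit 0) (nat_lit 18769794946) (nat_lit 152) (nat_lit 8037595909) (nat_lit 0) (nat_lit 8328946734) (nat_lit 84) (nat_lit 5) (nat_lit 86) (nat_lit 4) (nat_lit 84) (nat_lit 4) (nat_lit 420) (nat_lit 325) (nat_lit 275))) (XT.nd (nat_lit 78) (nat_lit 152) (nat_lit 0) (XT.lf (nat_lit 0) (nat_lit 4301484293) (nat_lit 152) (nat_lit 1756333353) (nat_lit 76) (nat_lit 30189104371) (nat_lit 82) (nat_lit 5) (nat_lit 84) (nat_lit 5) (nat_lit 83) (nat_lit 4) (nat_lit 421) (nat_lit 325) (nat_lit 274)) (XT.lf (nat_lit 0) (nat_lit 4798820984) (nat_lit 76) (nat_lit 21409901992) (nat_lit 76) (nat_lit 11183122473) (nat_lit 80) (nat_lit 4) (nat_lit 81) (nat_lit 5) (nat_lit 81) (nat_lit 4) (nat_lit 422) (nat_lit 325) (nat_lit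 273)))))) (XT.nd (nat_lit 468) (nat_lit 912) (nat_lit 0) (XT.nd (nat_lit 234) (nat_lit 456) (nat_lit 0) (XT.nd (nat_lit 78) (nat_lit 228) (nat_lit 0) (XT.lf (nat_lit 0) (nat_lit 10854332469) (nat_lit 152) (nat_lit 26838483509) (nat_lit 0) (nat_lit 884811096) (nat_lit 78) (nat_lit 5) (nat_lit 80) (nat_lit 4) (nat_lit 78) (nat_lit 4) (nat_lit 423) (nat_lit 325) (nat_lit 272)) (XT.nd (nat_lit 78) (nat_lit 152) (nat_lit 0) (XT.lf (nat_lit 0) (nat_lit 18893356256) (nat_lit 76) (nat_lit 15458269565) (nat_lit 76) (nat_lit 5450072746) (nat_lit 77) (nat_lit 4) (nat_lit 78) (nat_lit 5) (nat_lit 78) (nat_lit 4) (nat_lit 424) (nat_lit 325) (nat_lit 271)) (XT.lf (nat_lit 0) (nat_lit 18054810710) (nat_lit 152) (nat_lit 14710596128) (nat_lit 0) (nat_lit 8302353840) (nat_lit 75) (nat_lit 5) (nat_lit 77) (nat_lit 4) (nat_lit 75) (nat_lit 4) (nat_lit 425) (nat_lit 325) (nat_lit 270)))) (XT.nd (nat_lit 78) (nat_lit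 304) (nat_lit 0) (XT.lf (nat_lit 0) (nat_lit 787297398) (nat_lit 152) (nat_lit 8188301181) (nat_lit 76) (nat_lit 33402892924) (nat_lit 73) (nat_lit 5) (nat_lit 75) (nat_lit 5) (nat_lit 74) (nat_lit 4) (nat_lit 426) (nat_lit 325) (nat_lit 269)) (XT.nd (nat_lit 78) (nat_lit 228) (nat_lit 0) (XT.lf (nat_lit 0) (nat_lit 25885975890) (nat_lit 152) (nat_lit 1491402951) (nat_lit 0) (nat_lit 16353013640) (nat_lit 72) (nat_lit 5) (nat_lit 74) (nat_lit 4) (nat_lit 72) (nat_lit 4) (nat_lit 427) (nat_lit 325) (nat_lit 268)) (XT.lf (nat_lit 0) (nat_lit 5739014760) (nat_lit 76) (nat_lit 1798900948) (nat_lit 152) (nat_lit 37592331440) (nat_lit 69) (nat_lit 5) (nat_lit 70) (nat_lit 5) (nat_lit 71) (nat_lit 4) (nat_lit 428) (nat_lit 325) (nat_lit 267))))) (XT.nd (nat_lit 234) (nat_lit 608) (nat_lit 0) (XT.nd (nat_lit 78) (nat_lit 228) (nat_lit 0) (XT.lf (nat_lit 0) (nat_lit 13190547162) (nat_lit 76) (nat_lit 21347435132)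 (nat_lit 76) (nat_lit 12035281905) (nat_lit 68) (nat_lit 4) (nat_lit 69) (nat_lit 5) (nat_lit 69) (nat_lit 4) (nat_lit 429) (nat_lit 325) (nat_lit 266)) (XT.nd (nat_lit 78) (nat_lit 76) (nat_lit 0) (XT.lf (nat_lit 0) (nat_lit 15063467029) (nat_lit 152) (nat_lit 27007218320) (nat_lit 0) (nat_lit 5996899640) (nat_lit 66) (nat_lit 5) (nat_lit 68) (nat_lit 4) (nat_lit 66) (nat_lit 4) (nat_lit 430) (nat_lit 325) (nat_lit 265)) (XT.lf (nat_lit 0) (nat_lit 29257563963) (nat_lit 76) (nat_lit 14722557502) (nat_lit 76) (nat_lit 5631569232) (nat_lit 65) (nat_lit 4) (nat_lit 66) (nat_lit 5) (nat_lit 66) (nat_lit 4) (nat_lit 431) (nat_lit 325) (nat_lit 264)))) (XT.nd (nat_lit 156) (nat_lit 304) (nat_lit 0) (XT.nd (nat_lit 78) (nat_lit 152) (nat_lit 0) (XT.lf (nat_lit 0) (nat_lit 23314193424) (nat_lit 152) (nat_lit 13427067158) (nat_lit 0) (nat_lit 14465410654) (nat_lit 63) (nat_lit 5) (nat_lit 65) (nat_lit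 4) (nat_lit 63) (nat_lit 4) (nat_lit 432) (nat_lit 325) (nat_lit 263)) (XT.lf (nat_lit 0) (nat_lit 1386177438) (nat_lit 152) (nat_lit 6056347868) (nat_lit 76) (nat_lit 45416327525) (nat_lit 61) (nat_lit 5) (nat_lit 63) (nat_lit 5) (nat_lit 62) (nat_lit 4) (nat_lit 433) (nat_lit 325) (nat_lit 262))) (XT.nd (nat_lit 78) (nat_lit 152) (nat_lit 0) (XT.lf (nat_lit 0) (nat_lit 1524111081) (nat_lit 76) (nat_lit 30834431649) (nat_lit 76) (nat_lit 22202616787) (nat_lit 59) (nat_lit 4) (nat_lit 60) (nat_lit 5) (nat_lit 60) (nat_lit 4) (nat_lit 434) (nat_lit 325) (nat_lit 261)) (XT.lf (nat_lit 0) (nat_lit 9089958772) (nat_lit 152) (nat_lit 46543228349) (nat_lit 0) (nat_lit 691169772) (nat_lit 57) (nat_lit 5) (nat_lit 59) (nat_lit 4) (nat_lit 57) (nat_lit 4) (nat_lit 435) (nat_lit 325) (nat_lit 260))))))) (XT.nd (nat_lit 48438) (nat_lit 0) (nat_lit 7600) (XT.nd (nat_lit 47892) (nat_lit 0) (nat_lit 12008) (XT.nd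 (nat_lit 234) (nat_lit 228) (nat_lit 0) (XT.nd (nat_lit 78) (nat_lit 228) (nat_lit 0) (XT.lf (nat_lit 0) (nat_lit 18251939623) (nat_lit 76) (nat_lit 24152985489) (nat_lit 76) (nat_lit 15736685803) (nat_lit 56) (nat_lit 4) (nat_lit 57) (nat_lit 5) (nat_lit 57) (nat_lit 4) (nat_lit 436) (nat_lit 325) (nat_lit 259)) (XT.nd (nat_lit 78) (nat_lit 76) (nat_lit 0) (XT.lf (nat_lit 0) (nat_lit 17714728520) (nat_lit 152) (nat_lit 32781114078) (nat_lit 0) (nat_lit 9527372665) (nat_lit 54) (nat_lit 5) (nat_lit 56) (nat_lit 4) (nat_lit 54) (nat_lit 4) (nat_lit 437) (nat_lit 325) (nat_lit 258)) (XT.lf (nat_lit 0) (nat_lit 36642594222) (nat_lit 76) (nat_lit 16763806462) (nat_lit 76) (nat_lit 8561030502) (nat_lit 53) (nat_lit 4) (nat_lit 54) (nat_lit 5) (nat_lit 54) (nat_lit 4) (nat_lit 438) (nat_lit 325) (nat_lit 257)))) (XT.nd (nat_lit 78) (nat_lit 76) (nat_lit 0) (XT.lf (nat_lit 0) (nat_lit 27208717549) (nat_lit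 152) (nat_lit 17536011506) (nat_lit 0) (nat_lit 19230599322) (nat_lit 51) (nat_lit 5) (nat_lit 53) (nat_lit 4) (nat_lit 51) (nat_lit 4) (nat_lit 439) (nat_lit 325) (nat_lit 256)) (XT.nd (nat_lit 47502) (nat_lit 0) (nat_lit 15428) (XT.lf (nat_lit 0) (nat_lit 56862416361) (nat_lit 76) (nat_lit 8592208361) (nat_lit 76) (nat_lit 600511016) (nat_lit 50) (nat_lit 4) (nat_lit 51) (nat_lit 5) (nat_lit 51) (nat_lit 4) (nat_lit 440) (nat_lit 325) (nat_lit 255)) (XT.lf (nat_lit 0) (nat_lit 1381690190) (nat_lit 380) (nat_lit 1486868776) (nat_lit 380) (nat_lit 1486868776) (nat_lit 253) (nat_lit 4) (nat_lit 258) (nat_lit 5) (nat_lit 258) (nat_lit 4) (nat_lit 368) (nat_lit 326) (nat_lit 326))))) (XT.nd (nat_lit 234) (nat_lit 1900) (nat_lit 0) (XT.nd (nat_lit 78) (nat_lit 1140) (nat_lit 0) (XT.lf (nat_lit 0) (nat_lit 4239144466) (nat_lit 380) (nat_lit 1963193590) (nat_lit 0) (nat_lit 2676725262) (nat_lit 248)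 (nat_lit 5) (nat_lit 253) (nat_lit 4) (nat_lit 248) (nat_lit 4) (nat_lit 369) (nat_lit 326) (nat_lit 325)) (XT.nd (nat_lit 78) (nat_lit 380) (nat_lit 0) (XT.lf (nat_lit 0) (nat_lit 2186601139) (nat_lit 304) (nat_lit 393220846) (nat_lit 380) (nat_lit 6476116685) (nat_lit 238) (nat_lit 5) (nat_lit 242) (nat_lit 5) (nat_lit 243) (nat_lit 4) (nat_lit 370) (nat_lit 326) (nat_lit 324)) (XT.lf (nat_lit 0) (nat_lit 776678045) (nat_lit 380) (nat_lit 2760817129) (nat_lit 76) (nat_lit 5703493100) (nat_lit 233) (nat_lit 5) (nat_lit 238) (nat_lit 5) (nat_lit 234) (nat_lit 4) (nat_lit 371) (nat_lit 326) (nat_lit 323)))) (XT.nd (nat_lit 156) (nat_lit 988) (nat_lit 0) (XT.nd (nat_lit 78) (nat_lit 304) (nat_lit 0) (XT.lf (nat_lit 0) (nat_lit 1490294991) (nat_lit 304) (nat_lit 6714013347) (nat_lit 304) (nat_lit 1230674464) (nat_lit 225) (nat_lit 4) (nat_lit 229) (nat_lit 5) (nat_lit 229) (nat_lit 4) (nat_lit 372)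 (nat_lit 326) (nat_lit 322)) (XT.lf (nat_lit 0) (nat_lit 5915223828) (nat_lit 228) (nat_lit 296688134) (nat_lit 304) (nat_lit 3425785689) (nat_lit 221) (nat_lit 5) (nat_lit 224) (nat_lit 5) (nat_lit 225) (nat_lit 4) (nat_lit 373) (nat_lit 326) (nat_lit 321))) (XT.nd (nat_lit 78) (nat_lit 380) (nat_lit 0) (XT.lf (nat_lit 0) (nat_lit 607903538) (nat_lit 228) (nat_lit 3445384784) (nat_lit 304) (nat_lit 5796198429) (nat_lit 213) (nat_lit 5) (nat_lit 216) (nat_lit 5) (nat_lit 217) (nat_lit 4) (nat_lit 374) (nat_lit 326) (nat_lit 320)) (XT.lf (nat_lit 0) (nat_lit 1727033687) (nat_lit 380) (nat_lit 4928331881) (nat_lit 76) (nat_lit 3415067799) (nat_lit 208) (nat_lit 5) (nat_lit 213) (nat_lit 5) (nat_lit 209) (nat_lit 4) (nat_lit 375) (nat_lit 326) (nat_lit 319)))))) (XT.nd (nat_lit 546) (nat_lit 1900) (nat_lit 0) (XT.nd (nat_lit 234) (nat_lit 1444) (nat_lit 0) (XT.nd (nat_lit 78) (nat_lit 836) (nat_lit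 0) (XT.lf (nat_lit 0) (nat_lit 9474685582) (nat_lit 304) (nat_lit 498669595) (nat_lit 0) (nat_lit 328306521) (nat_lit 205) (nat_lit 5) (nat_lit 209) (nat_lit 4) (nat_lit 205) (nat_lit 4) (nat_lit 376) (nat_lit 326) (nat_lit 318)) (XT.nd (nat_lit 78) (nat_lit 304) (nat_lit 0) (XT.lf (nat_lit 0) (nat_lit 4093209900) (nat_lit 228) (nat_lit 2878121937) (nat_lit 304) (nat_lit 3569764178) (nat_lit 198) (nat_lit 5) (nat_lit 201) (nat_lit 5) (nat_lit 202) (nat_lit 4) (nat_lit 377) (nat_lit 326) (nat_lit 317)) (XT.lf (nat_lit 0) (nat_lit 4257754043) (nat_lit 304) (nat_lit 1965855998) (nat_lit 76) (nat_lit 4567618476) (nat_lit 194) (nat_lit 5) (nat_lit 198) (nat_lit 5) (nat_lit 195) (nat_lit 4) (nat_lit 378) (nat_lit 326) (nat_lit 316)))) (XT.nd (nat_lit 156) (nat_lit 760) (nat_lit 0) (XT.nd (nat_lit 78) (nat_lit 152) (nat_lit 0) (XT.lf (nat_lit 0) (nat_lit 1342719157) (nat_lit 304) (nat_lit 8354283130)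 (nat_lit 76) (nat_lit 1354844213) (nat_lit 187) (nat_lit 5) (nat_lit 191) (nat_lit 5) (nat_lit 188) (nat_lit 4) (nat_lit 379) (nat_lit 326) (nat_lit 315)) (XT.lf (nat_lit 0) (nat_lit 7499559873) (nat_lit 152) (nat_lit 2018831009) (nat_lit 228) (nat_lit 1803940142) (nat_lit 185) (nat_lit 5) (nat_lit 187) (nat_lit 5) (nat_lit 188) (nat_lit 4) (nat_lit 380) (nat_lit 326) (nat_lit 314))) (XT.nd (nat_lit 78) (nat_lit 304) (nat_lit 0) (XT.lf (nat_lit 0) (nat_lit 826599310) (nat_lit 152) (nat_lit 5573310527) (nat_lit 228) (nat_lit 5203651277) (nat_lit 179) (nat_lit 5) (nat_lit 181) (nat_lit 5) (nat_lit 182) (nat_lit 4) (nat_lit 381) (nat_lit 326) (nat_lit 313)) (XT.lf (nat_lit 0) (nat_lit 3073716050) (nat_lit 304) (nat_lit 6206288194) (nat_lit 76) (nat_lit 2615761175) (nat_lit 175) (nat_lit 5) (nat_lit 179) (nat_lit 5) (nat_lit 176) (nat_lit 4) (nat_lit 382) (nat_lit 326) (nat_lit 312))))) (XT.nd (nat_lit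 234) (nat_lit 1140) (nat_lit 0) (XT.nd (nat_lit 78) (nat_lit 608) (nat_lit 0) (XT.lf (nat_lit 0) (nat_lit 10682285277) (nat_lit 152) (nat_lit 1008856523) (nat_lit 228) (nat_lit 508878213) (nat_lit 173) (nat_lit 5) (nat_lit 175) (nat_lit 5) (nat_lit 176) (nat_lit 4) (nat_lit 383) (nat_lit 326) (nat_lit 311)) (XT.nd (nat_lit 78) (nat_lit 228) (nat_lit 0) (XT.lf (nat_lit 0) (nat_lit 3314981713) (nat_lit 152) (nat_lit 4835175878) (nat_lit 228) (nat_lit 4364241081) (nat_lit 168) (nat_lit 5) (nat_lit 170) (nat_lit 5) (nat_lit 171) (nat_lit 4) (nat_lit 384) (nat_lit 326) (nat_lit 310)) (XT.lf (nat_lit 0) (nat_lit 4356244506) (nat_lit 228) (nat_lit 4518408625) (nat_lit 76) (nat_lit 3966789373) (nat_lit 165) (nat_lit 5) (nat_lit 168) (nat_lit 5) (nat_lit 166) (nat_lit 4) (nat_lit 385) (nat_lit 326) (nat_lit 309)))) (XT.nd (nat_lit 156) (nat_lit 608) (nat_lit 0) (XT.nd (nat_lit 78) (nat_lit 152) (nat_lit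 0) (XT.lf (nat_lit 0) (nat_lit 284576762) (nat_lit 228) (nat_lit 12872837229) (nat_lit 76) (nat_lit 24550722) (nat_lit 160) (nat_lit 5) (nat_lit 163) (nat_lit 5) (nat_lit 161) (nat_lit 4) (nat_lit 386) (nat_lit 326) (nat_lit 308)) (XT.lf (nat_lit 0) (nat_lit 5296007342) (nat_lit 152) (nat_lit 4163048548) (nat_lit 228) (nat_lit 4073685710) (nat_lit 158) (nat_lit 5) (nat_lit 160) (nat_lit 5) (nat_lit 161) (nat_lit 4) (nat_lit 387) (nat_lit 326) (nat_lit 307))) (XT.nd (nat_lit 78) (nat_lit 380) (nat_lit 0) (XT.lf (nat_lit 0) (nat_lit 5151866952) (nat_lit 228) (nat_lit 3463594487) (nat_lit 76) (nat_lit 5282239931) (nat_lit 155) (nat_lit 5) (nat_lit 158) (nat_lit 5) (nat_lit 156) (nat_lit 4) (nat_lit 388) (nat_lit 326) (nat_lit 306)) (XT.lf (nat_lit 0) (nat_lit 550159548) (nat_lit 228) (nat_lit 12788874150) (nat_lit 76) (nat_lit 937988252) (nat_lit 150) (nat_lit 5) (nat_lit 153) (nat_lit 5) (nat_lit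 151) (nat_lit 4) (nat_lit 389) (nat_lit 326) (nat_lit 305))))))))
noncomputable def xc25 : XT := (XT.nd (nat_lit 2106) (nat_lit 3116) (nat_lit 0) (XT.nd (nat_lit 1014) (nat_lit 1900) (nat_lit 0) (XT.nd (nat_lit 468) (nat_lit 1368) (nat_lit 0) (XT.nd (nat_lit 234) (nat_lit 532) (nat_lit 0) (XT.nd (nat_lit 78) (nat_lit 532) (nat_lit 0) (XT.lf (nat_lit 0) (nat_lit 6590246309) (nat_lit 76) (nat_lit 3688921869) (nat_lit 152) (nat_lit 4389069841) (nat_lit 149) (nat_lit 5) (nat_lit 150) (nat_lit 5) (nat_lit 151) (nat_lit 4) (nat_lit 390) (nat_lit 326) (nat_lit 304)) (XT.nd (nat_lit 78) (nat_lit 304) (nat_lit 0) (XT.lf (nat_lit 0) (nat_lit 5404549585) (nat_lit 228) (nat_lit 3232236747) (nat_lit 76) (nat_lit 6437828354) (nat_lit 146) (nat_lit 5) (nat_lit 149) (nat_lit 5) (nat_lit 147) (nat_lit 4) (nat_lit 391) (nat_lit 326) (nat_lit 303)) (XT.lf (nat_lit 0) (nat_lit 206306252) (nat_lit 228) (nat_lit 13687969189)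 (nat_lit 76) (nat_lit 1602369177) (nat_lit 142) (nat_lit 5) (nat_lit 145) (nat_lit 5) (nat_lit 143) (nat_lit 4) (nat_lit 392) (nat_lit 326) (nat_lit 302)))) (XT.nd (nat_lit 78) (nat_lit 456) (nat_lit 0) (XT.lf (nat_lit 0) (nat_lit 6998421603) (nat_lit 76) (nat_lit 3546942674) (nat_lit 152) (nat_lit 5386473677) (nat_lit 141) (nat_lit 5) (nat_lit 142) (nat_lit 5) (nat_lit 143) (nat_lit 4) (nat_lit 393) (nat_lit 326) (nat_lit 301)) (XT.nd (nat_lit 78) (nat_lit 228) (nat_lit 0) (XT.lf (nat_lit 0) (nat_lit 5040061895) (nat_lit 228) (nat_lit 4036818849) (nat_lit 76) (nat_lit 7306705956) (nat_lit 138) (nat_lit 5) (nat_lit 141) (nat_lit 5) (nat_lit 139) (nat_lit 4) (nat_lit 394) (nat_lit 326) (nat_lit 300)) (XT.lf (nat_lit 0) (nat_lit 1043204452) (nat_lit 152) (nat_lit 14959998070) (nat_lit 152) (nat_lit 849320052) (nat_lit 135) (nat_lit 4) (nat_lit 137) (nat_lit 5) (nat_lit 137) (nat_lit 4) (nat_lit 395)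 (nat_lit 326) (nat_lit 299))))) (XT.nd (nat_lit 234) (nat_lit 912) (nat_lit 0) (XT.nd (nat_lit 78) (nat_lit 304) (nat_lit 0) (XT.lf (nat_lit 0) (nat_lit 6296599728) (nat_lit 76) (nat_lit 3877339834) (nat_lit 152) (nat_lit 7161949290) (nat_lit 133) (nat_lit 5) (nat_lit 134) (nat_lit 5) (nat_lit 135) (nat_lit 4) (nat_lit 396) (nat_lit 326) (nat_lit 298)) (XT.nd (nat_lit 78) (nat_lit 76) (nat_lit 0) (XT.lf (nat_lit 0) (nat_lit 3964923808) (nat_lit 228) (nat_lit 6116846859) (nat_lit 76) (nat_lit 7755684606) (nat_lit 130) (nat_lit 5) (nat_lit 133) (nat_lit 5) (nat_lit 131) (nat_lit 4) (nat_lit 397) (nat_lit 326) (nat_lit 297)) (XT.lf (nat_lit 0) (nat_lit 15641955545) (nat_lit 152) (nat_lit 1037020688) (nat_lit 0) (nat_lit 1678738418) (nat_lit 129) (nat_lit 5) (nat_lit 131) (nat_lit 4) (nat_lit 129) (nat_lit 4) (nat_lit 398) (nat_lit 326) (nat_lit 296)))) (XT.nd (nat_lit 156) (nat_lit 380) (nat_lit 0)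 (XT.nd (nat_lit 78) (nat_lit 228) (nat_lit 0) (XT.lf (nat_lit 0) (nat_lit 4231042283) (nat_lit 76) (nat_lit 4830247342) (nat_lit 152) (nat_lit 9832961166) (nat_lit 125) (nat_lit 5) (nat_lit 126) (nat_lit 5) (nat_lit 127) (nat_lit 4) (nat_lit 399) (nat_lit 326) (nat_lit 295)) (XT.lf (nat_lit 0) (nat_lit 2064907149) (nat_lit 228) (nat_lit 9744163561) (nat_lit 76) (nat_lit 7641543063) (nat_lit 122) (nat_lit 5) (nat_lit 125) (nat_lit 5) (nat_lit 123) (nat_lit 4) (nat_lit 400) (nat_lit 326) (nat_lit 294))) (XT.nd (nat_lit 78) (nat_lit 304) (nat_lit 0) (XT.lf (nat_lit 0) (nat_lit 14523184845) (nat_lit 152) (nat_lit 4681590571) (nat_lit 0) (nat_lit 822032508) (nat_lit 121) (nat_lit 5) (nat_lit 123) (nat_lit 4) (nat_lit 121) (nat_lit 4) (nat_lit 401) (nat_lit 326) (nat_lit 293)) (XT.lf (nat_lit 0) (nat_lit 512611828) (nat_lit 76) (nat_lit 6569527682) (nat_lit 152) (nat_lit 13540292495) (nat_lit 117) (nat_lit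 5) (nat_lit 118) (nat_lit 5) (nat_lit 119) (nat_lit 4) (nat_lit 402) (nat_lit 326) (nat_lit 292)))))) (XT.nd (nat_lit 546) (nat_lit 988) (nat_lit 0) (XT.nd (nat_lit 234) (nat_lit 532) (nat_lit 0) (XT.nd (nat_lit 78) (nat_lit 304) (nat_lit 0) (XT.lf (nat_lit 0) (nat_lit 6002353022) (nat_lit 76) (nat_lit 14423792553) (nat_lit 76) (nat_lit 812773611) (nat_lit 116) (nat_lit 4) (nat_lit 117) (nat_lit 5) (nat_lit 117) (nat_lit 4) (nat_lit 403) (nat_lit 326) (nat_lit 291)) (XT.nd (nat_lit 78) (nat_lit 152) (nat_lit 0) (XT.lf (nat_lit 0) (nat_lit 11640405619) (nat_lit 76) (nat_lit 869419858) (nat_lit 152) (nat_lit 9366677124) (nat_lit 114) (nat_lit 5) (nat_lit 115) (nat_lit 5) (nat_lit 116) (nat_lit 4) (nat_lit 404) (nat_lit 326) (nat_lit 290)) (XT.lf (nat_lit 0) (nat_lit 4137199019) (nat_lit 152) (nat_lit 5088114067) (nat_lit 76) (nat_lit 13310936111) (nat_lit 112) (nat_lit 5) (nat_lit 114) (nat_lit 5)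 (nat_lit 113) (nat_lit 4) (nat_lit 405) (nat_lit 326) (nat_lit 289)))) (XT.nd (nat_lit 156) (nat_lit 228) (nat_lit 0) (XT.nd (nat_lit 78) (nat_lit 152) (nat_lit 0) (XT.lf (nat_lit 0) (nat_lit 247585443) (nat_lit 76) (nat_lit 18094277502) (nat_lit 76) (nat_lit 4877758658) (nat_lit 110) (nat_lit 4) (nat_lit 111) (nat_lit 5) (nat_lit 111) (nat_lit 4) (nat_lit 406) (nat_lit 326) (nat_lit 288)) (XT.lf (nat_lit 0) (nat_lit 5852132897) (nat_lit 76) (nat_lit 3598859129) (nat_lit 152) (nat_lit 14474085430) (nat_lit 108) (nat_lit 5) (nat_lit 109) (nat_lit 5) (nat_lit 110) (nat_lit 4) (nat_lit 407) (nat_lit 326) (nat_lit 287))) (XT.nd (nat_lit 78) (nat_lit 76) (nat_lit 0) (XT.lf (nat_lit 0) (nat_lit 28442813) (nat_lit 152) (nat_lit 12995346651) (nat_lit 76) (nat_lit 11631877915) (nat_lit 106) (nat_lit 5) (nat_lit 108) (nat_lit 5) (nat_lit 107) (nat_lit 4) (nat_lit 408) (nat_lit 326) (nat_lit 286)) (XT.lf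 (nat_lit 0) (nat_lit 15206663769) (nat_lit 152) (nat_lit 7770473916) (nat_lit 0) (nat_lit 2433852501) (nat_lit 105) (nat_lit 5) (nat_lit 107) (nat_lit 4) (nat_lit 105) (nat_lit 4) (nat_lit 409) (nat_lit 326) (nat_lit 285))))) (XT.nd (nat_lit 234) (nat_lit 532) (nat_lit 0) (XT.nd (nat_lit 78) (nat_lit 304) (nat_lit 0) (XT.lf (nat_lit 0) (nat_lit 5175409934) (nat_lit 152) (nat_lit 2361884019) (nat_lit 76) (nat_lit 18655398125) (nat_lit 103) (nat_lit 5) (nat_lit 105) (nat_lit 5) (nat_lit 104) (nat_lit 4) (nat_lit 410) (nat_lit 326) (nat_lit 284)) (XT.nd (nat_lit 78) (nat_lit 152) (nat_lit 0) (XT.lf (nat_lit 0) (nat_lit 3301522195) (nat_lit 76) (nat_lit 18140112431) (nat_lit 76) (nat_lit 5558957171) (nat_lit 101) (nat_lit 4) (nat_lit 102) (nat_lit 5) (nat_lit 102) (nat_lit 4) (nat_lit 411) (nat_lit 326) (nat_lit 283)) (XT.lf (nat_lit 0) (nat_lit 9229632055) (nat_lit 76) (nat_lit 1555876218) (nat_lit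 152) (nat_lit 17050656206) (nat_lit 99) (nat_lit 5) (nat_lit 100) (nat_lit 5) (nat_lit 101) (nat_lit 4) (nat_lit 412) (nat_lit 326) (nat_lit 282)))) (XT.nd (nat_lit 156) (nat_lit 304) (nat_lit 0) (XT.nd (nat_lit 78) (nat_lit 152) (nat_lit 0) (XT.lf (nat_lit 0) (nat_lit 15361386247) (nat_lit 76) (nat_lit 12856232139) (nat_lit 76) (nat_lit 482684558) (nat_lit 98) (nat_lit 4) (nat_lit 99) (nat_lit 5) (nat_lit 99) (nat_lit 4) (nat_lit 413) (nat_lit 326) (nat_lit 281)) (XT.lf (nat_lit 0) (nat_lit 16889909826) (nat_lit 152) (nat_lit 7898557120) (nat_lit 0) (nat_lit 4805115714) (nat_lit 96) (nat_lit 5) (nat_lit 98) (nat_lit 4) (nat_lit 96) (nat_lit 4) (nat_lit 414) (nat_lit 326) (nat_lit 280))) (XT.nd (nat_lit 78) (nat_lit 152) (nat_lit 0) (XT.lf (nat_lit 0) (nat_lit 4889143436) (nat_lit 152) (nat_lit 2228062574) (nat_lit 76) (nat_lit 23401185248) (nat_lit 94) (nat_lit 5) (nat_lit 96) (nat_lit 5) (nat_lit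 95) (nat_lit 4) (nat_lit 415) (nat_lit 326) (nat_lit 279)) (XT.lf (nat_lit 0) (nat_lit 3702248507) (nat_lit 76) (nat_lit 19816481370) (nat_lit 76) (nat_lit 7954341216) (nat_lit 92) (nat_lit 4) (nat_lit 93) (nat_lit 5) (nat_lit 93) (nat_lit 4) (nat_lit 416) (nat_lit 326) (nat_lit 278))))))) (XT.nd (nat_lit 1014) (nat_lit 1368) (nat_lit 0) (XT.nd (nat_lit 468) (nat_lit 912) (nat_lit 0) (XT.nd (nat_lit 234) (nat_lit 456) (nat_lit 0) (XT.nd (nat_lit 78) (nat_lit 228) (nat_lit 0) (XT.lf (nat_lit 0) (nat_lit 9950988388) (nat_lit 76) (nat_lit 823993051) (nat_lit 152) (nat_lit 21686117458) (nat_lit 90) (nat_lit 5) (nat_lit 91) (nat_lit 5) (nat_lit 92) (nat_lit 4) (nat_lit 417) (nat_lit 326) (nat_lit 277)) (XT.nd (nat_lit 78) (nat_lit 152) (nat_lit 0) (XT.lf (nat_lit 0) (nat_lit 16401321943) (nat_lit 76) (nat_lit 14355478986) (nat_lit 76) (nat_lit 2724948325) (nat_lit 89) (nat_lit 4) (nat_lit 90) (nat_lit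 5) (nat_lit 90) (nat_lit 4) (nat_lit 418) (nat_lit 326) (nat_lit 276)) (XT.lf (nat_lit 0) (nat_lit 17223392054) (nat_lit 152) (nat_lit 11433605955) (nat_lit 0) (nat_lit 5880245347) (nat_lit 87) (nat_lit 5) (nat_lit 89) (nat_lit 4) (nat_lit 87) (nat_lit 4) (nat_lit 419) (nat_lit 326) (nat_lit 275)))) (XT.nd (nat_lit 78) (nat_lit 304) (nat_lit 0) (XT.lf (nat_lit 0) (nat_lit 2891969000) (nat_lit 152) (nat_lit 5521372841) (nat_lit 76) (nat_lit 27216487995) (nat_lit 85) (nat_lit 5) (nat_lit 87) (nat_lit 5) (nat_lit 86) (nat_lit 4) (nat_lit 420) (nat_lit 326) (nat_lit 274)) (XT.nd (nat_lit 78) (nat_lit 152) (nat_lit 0) (XT.lf (nat_lit 0) (nat_lit 584899359) (nat_lit 76) (nat_lit 23639140471) (nat_lit 76) (nat_lit 12533641985) (nat_lit 83) (nat_lit 4) (nat_lit 84) (nat_lit 5) (nat_lit 84) (nat_lit 4) (nat_lit 421) (nat_lit 326) (nat_lit 273)) (XT.lf (nat_lit 0) (nat_lit 7137764305) (nat_lit 76) (nat_lit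 1870287473) (nat_lit 152) (nat_lit 28916471542) (nat_lit 81) (nat_lit 5) (nat_lit 82) (nat_lit 5) (nat_lit 83) (nat_lit 4) (nat_lit 422) (nat_lit 326) (nat_lit 272))))) (XT.nd (nat_lit 234) (nat_lit 608) (nat_lit 0) (XT.nd (nat_lit 78) (nat_lit 228) (nat_lit 0) (XT.lf (nat_lit 0) (nat_lit 13888169699) (nat_lit 76) (nat_lit 18052166637) (nat_lit 76) (nat_lit 7188466069) (nat_lit 80) (nat_lit 4) (nat_lit 81) (nat_lit 5) (nat_lit 81) (nat_lit 4) (nat_lit 423) (nat_lit 326) (nat_lit 271)) (XT.nd (nat_lit 78) (nat_lit 76) (nat_lit 0) (XT.lf (nat_lit 0) (nat_lit 15774619780) (nat_lit 152) (nat_lit 19410057610) (nat_lit 0) (nat_lit 5190503917) (nat_lit 78) (nat_lit 5) (nat_lit 80) (nat_lit 4) (nat_lit 78) (nat_lit 4) (nat_lit 424) (nat_lit 326) (nat_lit 270)) (XT.lf (nat_lit 0) (nat_lit 28356973818) (nat_lit 76) (nat_lit 11963237591) (nat_lit 76) (nat_lit 1344041958) (nat_lit 77) (nat_lit 4) (nat_lit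 78) (nat_lit 5) (nat_lit 78) (nat_lit 4) (nat_lit 425) (nat_lit 326) (nat_lit 269)))) (XT.nd (nat_lit 156) (nat_lit 304) (nat_lit 0) (XT.nd (nat_lit 78) (nat_lit 152) (nat_lit 0) (XT.lf (nat_lit 0) (nat_lit 23166816258) (nat_lit 152) (nat_lit 7003573137) (nat_lit 0) (nat_lit 12824481368) (nat_lit 75) (nat_lit 5) (nat_lit 77) (nat_lit 4) (nat_lit 75) (nat_lit 4) (nat_lit 426) (nat_lit 326) (nat_lit 268)) (XT.lf (nat_lit 0) (nat_lit 4954786586) (nat_lit 152) (nat_lit 315009754) (nat_lit 76) (nat_lit 39103776007) (nat_lit 73) (nat_lit 5) (nat_lit 75) (nat_lit 5) (nat_lit 74) (nat_lit 4) (nat_lit 427) (nat_lit 326) (nat_lit 267))) (XT.nd (nat_lit 78) (nat_lit 152) (nat_lit 0) (XT.lf (nat_lit 0) (nat_lit 6691349739) (nat_lit 76) (nat_lit 24600929815) (nat_lit 76) (nat_lit 14501272405) (nat_lit 71) (nat_lit 4) (nat_lit 72) (nat_lit 5) (nat_lit 72) (nat_lit 4) (nat_lit 428) (nat_lit 326) (nat_lit 266))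 (XT.lf (nat_lit 0) (nat_lit 11983809042) (nat_lit 152) (nat_lit 33128975309) (nat_lit 0) (nat_lit 2151905228) (nat_lit 69) (nat_lit 5) (nat_lit 71) (nat_lit 4) (nat_lit 69) (nat_lit 4) (nat_lit 429) (nat_lit 326) (nat_lit 265)))))) (XT.nd (nat_lit 546) (nat_lit 456) (nat_lit 0) (XT.nd (nat_lit 234) (nat_lit 608) (nat_lit 0) (XT.nd (nat_lit 78) (nat_lit 228) (nat_lit 0) (XT.lf (nat_lit 0) (nat_lit 21828293505) (nat_lit 76) (nat_lit 18405807322) (nat_lit 76) (nat_lit 8548750000) (nat_lit 68) (nat_lit 4) (nat_lit 69) (nat_lit 5) (nat_lit 69) (nat_lit 4) (nat_lit 430) (nat_lit 326) (nat_lit 264)) (XT.nd (nat_lit 78) (nat_lit 76) (nat_lit 0) (XT.lf (nat_lit 0) (nat_lit 19747332590) (nat_lit 152) (nat_lit 20451594841) (nat_lit 0) (nat_lit 10154116042) (nat_lit 66) (nat_lit 5) (nat_lit 68) (nat_lit 4) (nat_lit 66) (nat_lit 4) (nat_lit 431) (nat_lit 326) (nat_lit 263)) (XT.lf (nat_lit 0) (nat_lit 38399803100)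 (nat_lit 76) (nat_lit 11596659543) (nat_lit 76) (nat_lit 1981292536) (nat_lit 65) (nat_lit 4) (nat_lit 66) (nat_lit 5) (nat_lit 66) (nat_lit 4) (nat_lit 432) (nat_lit 326) (nat_lit 262)))) (XT.nd (nat_lit 156) (nat_lit 228) (nat_lit 0) (XT.nd (nat_lit 78) (nat_lit 228) (nat_lit 0) (XT.lf (nat_lit 0) (nat_lit 28260304805) (nat_lit 152) (nat_lit 6488772149) (nat_lit 0) (nat_lit 18904515792) (nat_lit 63) (nat_lit 5) (nat_lit 65) (nat_lit 4) (nat_lit 63) (nat_lit 4) (nat_lit 433) (nat_lit 326) (nat_lit 261)) (XT.lf (nat_lit 0) (nat_lit 1128160737) (nat_lit 76) (nat_lit 4045955366) (nat_lit 152) (nat_lit 50216120476) (nat_lit 60) (nat_lit 5) (nat_lit 61) (nat_lit 5) (nat_lit 62) (nat_lit 4) (nat_lit 434) (nat_lit 326) (nat_lit 260))) (XT.nd (nat_lit 78) (nat_lit 152) (nat_lit 0) (XT.lf (nat_lit 0) (nat_lit 9070341639) (nat_lit 76) (nat_lit 28613952620) (nat_lit 76) (nat_lit 19493688503) (nat_lit 59)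 (nat_lit 4) (nat_lit 60) (nat_lit 5) (nat_lit 60) (nat_lit 4) (nat_lit 435) (nat_lit 326) (nat_lit 259)) (XT.lf (nat_lit 0) (nat_lit 13216611068) (nat_lit 152) (nat_lit 41468490171) (nat_lit 0) (nat_lit 4345308868) (nat_lit 57) (nat_lit 5) (nat_lit 59) (nat_lit 4) (nat_lit 57) (nat_lit 4) (nat_lit 436) (nat_lit 326) (nat_lit 258))))) (XT.nd (nat_lit 234) (nat_lit 152) (nat_lit 0) (XT.nd (nat_lit 78) (nat_lit 228) (nat_lit 0) (XT.lf (nat_lit 0) (nat_lit 26354262234) (nat_lit 76) (nat_lit 21737311040) (nat_lit 76) (nat_lit 12850126130) (nat_lit 56) (nat_lit 4) (nat_lit 57) (nat_lit 5) (nat_lit 57) (nat_lit 4) (nat_lit 437) (nat_lit 326) (nat_lit 257)) (XT.nd (nat_lit 78) (nat_lit 76) (nat_lit 0) (XT.lf (nat_lit 0) (nat_lit 22132643183) (nat_lit 152) (nat_lit 27296144991) (nat_lit 0) (nat_lit 13489622505) (nat_lit 54) (nat_lit 5) (nat_lit 56) (nat_lit 4) (nat_lit 54) (nat_lit 4) (nat_lit 438) (nat_lit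 326) (nat_lit 256)) (XT.lf (nat_lit 0) (nat_lit 45394539984) (nat_lit 76) (nat_lit 14112677514) (nat_lit 76) (nat_lit 5455670345) (nat_lit 53) (nat_lit 4) (nat_lit 54) (nat_lit 5) (nat_lit 54) (nat_lit 4) (nat_lit 439) (nat_lit 326) (nat_lit 255)))) (XT.nd (nat_lit 47424) (nat_lit 0) (nat_lit 15352) (XT.nd (nat_lit 47346) (nat_lit 0) (nat_lit 16568) (XT.lf (nat_lit 0) (nat_lit 31966806336) (nat_lit 152) (nat_lit 11556346358) (nat_lit 0) (nat_lit 23549012515) (nat_lit 51) (nat_lit 5) (nat_lit 53) (nat_lit 4) (nat_lit 51) (nat_lit 4) (nat_lit 440) (nat_lit 326) (nat_lit 254)) (XT.lf (nat_lit 0) (nat_lit 879395306) (nat_lit 456) (nat_lit 2438891502) (nat_lit 0) (nat_lit 879395306) (nat_lit 269) (nat_lit 5) (nat_lit 275) (nat_lit 4) (nat_lit 269) (nat_lit 4) (nat_lit 366) (nat_lit 327) (nat_lit 327))) (XT.nd (nat_lit 78) (nat_lit 760) (nat_lit 0) (XT.lf (nat_lit 0) (nat_lit 249523983) (nat_lit 456)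 (nat_lit 1233915373) (nat_lit 76) (nat_lit 7068016866) (nat_lit 263) (nat_lit 5) (nat_lit 269) (nat_lit 5) (nat_lit 264) (nat_lit 4) (nat_lit 367) (nat_lit 327) (nat_lit 326)) (XT.lf (nat_lit 0) (nat_lit 2556451510) (nat_lit 380) (nat_lit 4728849658) (nat_lit 380) (nat_lit 1429801509) (nat_lit 253) (nat_lit 4) (nat_lit 258) (nat_lit 5) (nat_lit 258) (nat_lit 4) (nat_lit 368) (nat_lit 327) (nat_lit 325))))))))
noncomputable def xc26 : XT := (XT.nd (nat_lit 2106) (nat_lit 4104) (nat_lit 0) (XT.nd (nat_lit 1014) (nat_lit 3344) (nat_lit 0) (XT.nd (nat_lit 468) (nat_lit 2660) (nat_lit 0) (XT.nd (nat_lit 234) (nat_lit 1292) (nat_lit 0) (XT.nd (nat_lit 78) (nat_lit 1140) (nat_lit 0) (XT.lf (nat_lit 0) (nat_lit 5595234560) (nat_lit 380) (nat_lit 2388105356) (nat_lit 0) (nat_lit 904256904) (nat_lit 248) (nat_lit 5) (nat_lit 253) (nat_lit 4) (nat_lit 248) (nat_lit 4) (nat_lit 369) (nat_lit 327) (nat_lit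 324)) (XT.nd (nat_lit 78) (nat_lit 380) (nat_lit 0) (XT.lf (nat_lit 0) (nat_lit 1514519779) (nat_lit 304) (nat_lit 2240484019) (nat_lit 380) (nat_lit 5313462141) (nat_lit 238) (nat_lit 5) (nat_lit 242) (nat_lit 5) (nat_lit 243) (nat_lit 4) (nat_lit 370) (nat_lit 327) (nat_lit 323)) (XT.lf (nat_lit 0) (nat_lit 1757297443) (nat_lit 380) (nat_lit 3673282679) (nat_lit 76) (nat_lit 3827380563) (nat_lit 233) (nat_lit 5) (nat_lit 238) (nat_lit 5) (nat_lit 234) (nat_lit 4) (nat_lit 371) (nat_lit 327) (nat_lit 322)))) (XT.nd (nat_lit 78) (nat_lit 684) (nat_lit 0) (XT.lf (nat_lit 0) (nat_lit 332723050) (nat_lit 304) (nat_lit 8682818822) (nat_lit 304) (nat_lit 441494918) (nat_lit 225) (nat_lit 4) (nat_lit 229) (nat_lit 5) (nat_lit 229) (nat_lit 4) (nat_lit 372) (nat_lit 327) (nat_lit 321)) (XT.nd (nat_lit 78) (nat_lit 380) (nat_lit 0) (XT.lf (nat_lit 0) (nat_lit 4498300322) (nat_lit 228) (nat_lit 2345811342)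 (nat_lit 304) (nat_lit 2819659797) (nat_lit 221) (nat_lit 5) (nat_lit 224) (nat_lit 5) (nat_lit 225) (nat_lit 4) (nat_lit 373) (nat_lit 327) (nat_lit 320)) (XT.lf (nat_lit 0) (nat_lit 4480102942) (nat_lit 380) (nat_lit 1093954249) (nat_lit 76) (nat_lit 4306353081) (nat_lit 216) (nat_lit 5) (nat_lit 221) (nat_lit 5) (nat_lit 217) (nat_lit 4) (nat_lit 374) (nat_lit 327) (nat_lit 319))))) (XT.nd (nat_lit 234) (nat_lit 1292) (nat_lit 0) (XT.nd (nat_lit 78) (nat_lit 760) (nat_lit 0) (XT.lf (nat_lit 0) (nat_lit 1938953898) (nat_lit 380) (nat_lit 6942292706) (nat_lit 76) (nat_lit 1225283488) (nat_lit 208) (nat_lit 5) (nat_lit 213) (nat_lit 5) (nat_lit 209) (nat_lit 4) (nat_lit 375) (nat_lit 327) (nat_lit 318)) (XT.nd (nat_lit 78) (nat_lit 532) (nat_lit 0) (XT.lf (nat_lit 0) (nat_lit 7548829932) (nat_lit 228) (nat_lit 1991455861) (nat_lit 304) (nat_lit 801862230) (nat_lit 205) (nat_lit 5) (nat_lit 208)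 (nat_lit 5) (nat_lit 209) (nat_lit 4) (nat_lit 376) (nat_lit 327) (nat_lit 317)) (XT.lf (nat_lit 0) (nat_lit 1476938645) (nat_lit 228) (nat_lit 5330673477) (nat_lit 304) (nat_lit 3779613281) (nat_lit 198) (nat_lit 5) (nat_lit 201) (nat_lit 5) (nat_lit 202) (nat_lit 4) (nat_lit 377) (nat_lit 327) (nat_lit 316)))) (XT.nd (nat_lit 156) (nat_lit 684) (nat_lit 0) (XT.nd (nat_lit 78) (nat_lit 304) (nat_lit 0) (XT.lf (nat_lit 0) (nat_lit 3880701703) (nat_lit 304) (nat_lit 4908505211) (nat_lit 76) (nat_lit 2053350451) (nat_lit 194) (nat_lit 5) (nat_lit 198) (nat_lit 5) (nat_lit 195) (nat_lit 4) (nat_lit 378) (nat_lit 327) (nat_lit 315)) (XT.lf (nat_lit 0) (nat_lit 735545242) (nat_lit 304) (nat_lit 593317348) (nat_lit 76) (nat_lit 9780050852) (nat_lit 190) (nat_lit 5) (nat_lit 194) (nat_lit 5) (nat_lit 191) (nat_lit 5) (nat_lit 379) (nat_lit 327) (nat_lit 314))) (XT.nd (nat_lit 78) (nat_lit 304) (nat_lit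 0) (XT.lf (nat_lit 0) (nat_lit 3882374460) (nat_lit 152) (nat_lit 4859723043) (nat_lit 228) (nat_lit 2642374050) (nat_lit 185) (nat_lit 5) (nat_lit 187) (nat_lit 5) (nat_lit 188) (nat_lit 4) (nat_lit 380) (nat_lit 327) (nat_lit 313)) (XT.lf (nat_lit 0) (nat_lit 5390252835) (nat_lit 304) (nat_lit 3172154028) (nat_lit 76) (nat_lit 3109164085) (nat_lit 181) (nat_lit 5) (nat_lit 185) (nat_lit 5) (nat_lit 182) (nat_lit 4) (nat_lit 381) (nat_lit 327) (nat_lit 312)))))) (XT.nd (nat_lit 546) (nat_lit 1368) (nat_lit 0) (XT.nd (nat_lit 234) (nat_lit 1140) (nat_lit 0) (XT.nd (nat_lit 78) (nat_lit 380) (nat_lit 0) (XT.lf (nat_lit 0) (nat_lit 1310746000) (nat_lit 228) (nat_lit 493550442) (nat_lit 304) (nat_lit 10166173043) (nat_lit 175) (nat_lit 5) (nat_lit 178) (nat_lit 5) (nat_lit 179) (nat_lit 5) (nat_lit 382) (nat_lit 327) (nat_lit 311)) (XT.nd (nat_lit 78) (nat_lit 228) (nat_lit 0) (XT.lf (nat_lit 0) (nat_lit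 5945347761) (nat_lit 152) (nat_lit 4315449547) (nat_lit 228) (nat_lit 2018754518) (nat_lit 173) (nat_lit 5) (nat_lit 175) (nat_lit 5) (nat_lit 176) (nat_lit 4) (nat_lit 383) (nat_lit 327) (nat_lit 310)) (XT.lf (nat_lit 0) (nat_lit 6447426068) (nat_lit 228) (nat_lit 1894873558) (nat_lit 76) (nat_lit 4258735825) (nat_lit 170) (nat_lit 5) (nat_lit 173) (nat_lit 5) (nat_lit 171) (nat_lit 4) (nat_lit 384) (nat_lit 327) (nat_lit 309)))) (XT.nd (nat_lit 156) (nat_lit 608) (nat_lit 0) (XT.nd (nat_lit 78) (nat_lit 152) (nat_lit 0) (XT.lf (nat_lit 0) (nat_lit 2384937690) (nat_lit 228) (nat_lit 10197781506) (nat_lit 76) (nat_lit 352381769) (nat_lit 165) (nat_lit 5) (nat_lit 168) (nat_lit 5) (nat_lit 166) (nat_lit 4) (nat_lit 385) (nat_lit 327) (nat_lit 308)) (XT.lf (nat_lit 0) (nat_lit 7500137151) (nat_lit 152) (nat_lit 3834025740) (nat_lit 228) (nat_lit 1946548556) (nat_lit 163) (nat_lit 5) (nat_lit 165)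 (nat_lit 5) (nat_lit 166) (nat_lit 4) (nat_lit 386) (nat_lit 327) (nat_lit 307))) (XT.nd (nat_lit 78) (nat_lit 380) (nat_lit 0) (XT.lf (nat_lit 0) (nat_lit 7014405581) (nat_lit 228) (nat_lit 1250939465) (nat_lit 76) (nat_lit 5374249904) (nat_lit 160) (nat_lit 5) (nat_lit 163) (nat_lit 5) (nat_lit 161) (nat_lit 4) (nat_lit 387) (nat_lit 327) (nat_lit 306)) (XT.lf (nat_lit 0) (nat_lit 2425077796) (nat_lit 228) (nat_lit 10517089070) (nat_lit 76) (nat_lit 1069875888) (nat_lit 155) (nat_lit 5) (nat_lit 158) (nat_lit 5) (nat_lit 156) (nat_lit 4) (nat_lit 388) (nat_lit 327) (nat_lit 305))))) (XT.nd (nat_lit 234) (nat_lit 684) (nat_lit 0) (XT.nd (nat_lit 78) (nat_lit 532) (nat_lit 0) (XT.lf (nat_lit 0) (nat_lit 8366051822) (nat_lit 152) (nat_lit 3549189010) (nat_lit 228) (nat_lit 2482172190) (nat_lit 153) (nat_lit 5) (nat_lit 155) (nat_lit 5) (nat_lit 156) (nat_lit 4) (nat_lit 389) (nat_lit 327) (nat_lit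 304)) (XT.nd (nat_lit 78) (nat_lit 304) (nat_lit 0) (XT.lf (nat_lit 0) (nat_lit 7035663081) (nat_lit 228) (nat_lit 1431770836) (nat_lit 76) (nat_lit 6329699264) (nat_lit 150) (nat_lit 5) (nat_lit 153) (nat_lit 5) (nat_lit 151) (nat_lit 4) (nat_lit 390) (nat_lit 327) (nat_lit 303)) (XT.lf (nat_lit 0) (nat_lit 1853729427) (nat_lit 228) (nat_lit 11819903576) (nat_lit 76) (nat_lit 1538176199) (nat_lit 146) (nat_lit 5) (nat_lit 149) (nat_lit 5) (nat_lit 147) (nat_lit 4) (nat_lit 391) (nat_lit 327) (nat_lit 302)))) (XT.nd (nat_lit 156) (nat_lit 380) (nat_lit 0) (XT.nd (nat_lit 78) (nat_lit 228) (nat_lit 0) (XT.lf (nat_lit 0) (nat_lit 8342837976) (nat_lit 76) (nat_lit 3596455717) (nat_lit 152) (nat_lit 3701116228) (nat_lit 145) (nat_lit 5) (nat_lit 146) (nat_lit 5) (nat_lit 147) (nat_lit 4) (nat_lit 392) (nat_lit 327) (nat_lit 301)) (XT.lf (nat_lit 0) (nat_lit 6437402033) (nat_lit 228) (nat_lit 2650593096)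 (nat_lit 76) (nat_lit 6996858306) (nat_lit 142) (nat_lit 5) (nat_lit 145) (nat_lit 5) (nat_lit 143) (nat_lit 4) (nat_lit 393) (nat_lit 327) (nat_lit 300))) (XT.nd (nat_lit 78) (nat_lit 76) (nat_lit 0) (XT.lf (nat_lit 0) (nat_lit 585604927) (nat_lit 228) (nat_lit 14337774134) (nat_lit 76) (nat_lit 1622750680) (nat_lit 138) (nat_lit 5) (nat_lit 141) (nat_lit 5) (nat_lit 139) (nat_lit 4) (nat_lit 394) (nat_lit 327) (nat_lit 299)) (XT.lf (nat_lit 0) (nat_lit 7205863236) (nat_lit 76) (nat_lit 4117097121) (nat_lit 152) (nat_lit 5698878816) (nat_lit 137) (nat_lit 5) (nat_lit 138) (nat_lit 5) (nat_lit 139) (nat_lit 4) (nat_lit 395) (nat_lit 327) (nat_lit 298))))))) (XT.nd (nat_lit 1014) (nat_lit 1900) (nat_lit 0) (XT.nd (nat_lit 468) (nat_lit 988) (nat_lit 0) (XT.nd (nat_lit 234) (nat_lit 608) (nat_lit 0) (XT.nd (nat_lit 78) (nat_lit 380) (nat_lit 0) (XT.lf (nat_lit 0) (nat_lit 5126545145) (nat_lit 228)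 (nat_lit 5147369257) (nat_lit 76) (nat_lit 7241463596) (nat_lit 134) (nat_lit 5) (nat_lit 137) (nat_lit 5) (nat_lit 135) (nat_lit 4) (nat_lit 396) (nat_lit 327) (nat_lit 297)) (XT.nd (nat_lit 78) (nat_lit 304) (nat_lit 0) (XT.lf (nat_lit 0) (nat_lit 16516411347) (nat_lit 152) (nat_lit 312538130) (nat_lit 0) (nat_lit 1198720574) (nat_lit 133) (nat_lit 5) (nat_lit 135) (nat_lit 4) (nat_lit 133) (nat_lit 4) (nat_lit 397) (nat_lit 327) (nat_lit 296)) (XT.lf (nat_lit 0) (nat_lit 4700971912) (nat_lit 76) (nat_lit 5261996546) (nat_lit 152) (nat_lit 8592365625) (nat_lit 129) (nat_lit 5) (nat_lit 130) (nat_lit 5) (nat_lit 131) (nat_lit 4) (nat_lit 398) (nat_lit 327) (nat_lit 295)))) (XT.nd (nat_lit 78) (nat_lit 380) (nat_lit 0) (XT.lf (nat_lit 0) (nat_lit 2989273235) (nat_lit 228) (nat_lit 9194105473) (nat_lit 76) (nat_lit 6919488710) (nat_lit 126) (nat_lit 5) (nat_lit 129) (nat_lit 5) (nat_lit 127) (nat_lit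 4) (nat_lit 399) (nat_lit 327) (nat_lit 294)) (XT.nd (nat_lit 78) (nat_lit 304) (nat_lit 0) (XT.lf (nat_lit 0) (nat_lit 15139990990) (nat_lit 152) (nat_lit 4384270328) (nat_lit 0) (nat_lit 145932906) (nat_lit 125) (nat_lit 5) (nat_lit 127) (nat_lit 4) (nat_lit 125) (nat_lit 4) (nat_lit 400) (nat_lit 327) (nat_lit 293)) (XT.lf (nat_lit 0) (nat_lit 538903988) (nat_lit 76) (nat_lit 7195495264) (nat_lit 152) (nat_lit 12521757808) (nat_lit 121) (nat_lit 5) (nat_lit 122) (nat_lit 5) (nat_lit 123) (nat_lit 4) (nat_lit 401) (nat_lit 327) (nat_lit 292))))) (XT.nd (nat_lit 234) (nat_lit 532) (nat_lit 0) (XT.nd (nat_lit 78) (nat_lit 304) (nat_lit 0) (XT.lf (nat_lit 0) (nat_lit 5761402531) (nat_lit 152) (nat_lit 14988630126) (nat_lit 152) (nat_lit 113095006) (nat_lit 119) (nat_lit 4) (nat_lit 121) (nat_lit 5) (nat_lit 121) (nat_lit 4) (nat_lit 402) (nat_lit 327) (nat_lit 291)) (XT.nd (nat_lit 78) (nat_lit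 152) (nat_lit 0) (XT.lf (nat_lit 0) (nat_lit 11112616184) (nat_lit 76) (nat_lit 1762249873) (nat_lit 152) (nat_lit 8615528960) (nat_lit 117) (nat_lit 5) (nat_lit 118) (nat_lit 5) (nat_lit 119) (nat_lit 4) (nat_lit 403) (nat_lit 327) (nat_lit 290)) (XT.lf (nat_lit 0) (nat_lit 4542428954) (nat_lit 152) (nat_lit 5501344305) (nat_lit 76) (nat_lit 12095962349) (nat_lit 115) (nat_lit 5) (nat_lit 117) (nat_lit 5) (nat_lit 116) (nat_lit 4) (nat_lit 404) (nat_lit 327) (nat_lit 289)))) (XT.nd (nat_lit 156) (nat_lit 228) (nat_lit 0) (XT.nd (nat_lit 78) (nat_lit 228) (nat_lit 0) (XT.lf (nat_lit 0) (nat_lit 18395260752) (nat_lit 152) (nat_lit 442059368) (nat_lit 0) (nat_lit 3975209291) (nat_lit 114) (nat_lit 5) (nat_lit 116) (nat_lit 4) (nat_lit 114) (nat_lit 4) (nat_lit 405) (nat_lit 327) (nat_lit 288)) (XT.lf (nat_lit 0) (nat_lit 4856946360) (nat_lit 76) (nat_lit 4698406229) (nat_lit 152) (nat_lit 13951370259)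 (nat_lit 111) (nat_lit 5) (nat_lit 112) (nat_lit 5) (nat_lit 113) (nat_lit 4) (nat_lit 406) (nat_lit 327) (nat_lit 287))) (XT.nd (nat_lit 78) (nat_lit 76) (nat_lit 0) (XT.lf (nat_lit 0) (nat_lit 185776891) (nat_lit 152) (nat_lit 13851082158) (nat_lit 76) (nat_lit 10188996156) (nat_lit 109) (nat_lit 5) (nat_lit 111) (nat_lit 5) (nat_lit 110) (nat_lit 4) (nat_lit 407) (nat_lit 327) (nat_lit 286)) (XT.lf (nat_lit 0) (nat_lit 14988988453) (nat_lit 152) (nat_lit 8908096447) (nat_lit 0) (nat_lit 1072283023) (nat_lit 108) (nat_lit 5) (nat_lit 110) (nat_lit 4) (nat_lit 108) (nat_lit 4) (nat_lit 408) (nat_lit 327) (nat_lit 285)))))) (XT.nd (nat_lit 546) (nat_lit 912) (nat_lit 0) (XT.nd (nat_lit 234) (nat_lit 532) (nat_lit 0) (XT.nd (nat_lit 78) (nat_lit 304) (nat_lit 0) (XT.lf (nat_lit 0) (nat_lit 5031400187) (nat_lit 152) (nat_lit 3800972615) (nat_lit 76) (nat_lit 16906031889) (nat_lit 106) (nat_lit 5)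 (nat_lit 108) (nat_lit 5) (nat_lit 107) (nat_lit 4) (nat_lit 409) (nat_lit 327) (nat_lit 284)) (XT.nd (nat_lit 78) (nat_lit 152) (nat_lit 0) (XT.lf (nat_lit 0) (nat_lit 1533298591) (nat_lit 76) (nat_lit 19348963153) (nat_lit 76) (nat_lit 5651820008) (nat_lit 104) (nat_lit 4) (nat_lit 105) (nat_lit 5) (nat_lit 105) (nat_lit 4) (nat_lit 410) (nat_lit 327) (nat_lit 283)) (XT.lf (nat_lit 0) (nat_lit 7140381030) (nat_lit 76) (nat_lit 3166925615) (nat_lit 152) (nat_lit 17048826251) (nat_lit 102) (nat_lit 5) (nat_lit 103) (nat_lit 5) (nat_lit 104) (nat_lit 4) (nat_lit 411) (nat_lit 327) (nat_lit 282)))) (XT.nd (nat_lit 156) (nat_lit 304) (nat_lit 0) (XT.nd (nat_lit 78) (nat_lit 152) (nat_lit 0) (XT.lf (nat_lit 0) (nat_lit 12957286129) (nat_lit 76) (nat_lit 14355578395) (nat_lit 76) (nat_lit 893782418) (nat_lit 101) (nat_lit 4) (nat_lit 102) (nat_lit 5) (nat_lit 102) (nat_lit 4) (nat_lit 412) (nat_lit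 327) (nat_lit 281)) (XT.lf (nat_lit 0) (nat_lit 16058751404) (nat_lit 152) (nat_lit 10111946050) (nat_lit 0) (nat_lit 2915256218) (nat_lit 99) (nat_lit 5) (nat_lit 101) (nat_lit 4) (nat_lit 99) (nat_lit 4) (nat_lit 413) (nat_lit 327) (nat_lit 280))) (XT.nd (nat_lit 78) (nat_lit 152) (nat_lit 0) (XT.lf (nat_lit 0) (nat_lit 4160079159) (nat_lit 152) (nat_lit 4768811020) (nat_lit 76) (nat_lit 21066863826) (nat_lit 97) (nat_lit 5) (nat_lit 99) (nat_lit 5) (nat_lit 98) (nat_lit 4) (nat_lit 414) (nat_lit 327) (nat_lit 279)) (XT.lf (nat_lit 0) (nat_lit 782224979) (nat_lit 76) (nat_lit 21523885423) (nat_lit 76) (nat_lit 8630000239) (nat_lit 95) (nat_lit 4) (nat_lit 96) (nat_lit 5) (nat_lit 96) (nat_lit 4) (nat_lit 415) (nat_lit 327) (nat_lit 278))))) (XT.nd (nat_lit 234) (nat_lit 532) (nat_lit 0) (XT.nd (nat_lit 78) (nat_lit 228) (nat_lit 0) (XT.lf (nat_lit 0) (nat_lit 6680696402) (nat_lit 76) (nat_lit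 2992440484) (nat_lit 152) (nat_lit 22234987846) (nat_lit 93) (nat_lit 5) (nat_lit 94) (nat_lit 5) (nat_lit 95) (nat_lit 4) (nat_lit 416) (nat_lit 327) (nat_lit 277)) (XT.nd (nat_lit 78) (nat_lit 152) (nat_lit 0) (XT.lf (nat_lit 0) (nat_lit 12785081434) (nat_lit 76) (nat_lit 16381562720) (nat_lit 76) (nat_lit 3745921162) (nat_lit 92) (nat_lit 4) (nat_lit 93) (nat_lit 5) (nat_lit 93) (nat_lit 4) (nat_lit 417) (nat_lit 327) (nat_lit 276)) (XT.lf (nat_lit 0) (nat_lit 15732292120) (nat_lit 152) (nat_lit 14807536363) (nat_lit 0) (nat_lit 3411768510) (nat_lit 90) (nat_lit 5) (nat_lit 92) (nat_lit 4) (nat_lit 90) (nat_lit 4) (nat_lit 418) (nat_lit 327) (nat_lit 275)))) (XT.nd (nat_lit 156) (nat_lit 304) (nat_lit 0) (XT.nd (nat_lit 78) (nat_lit 76) (nat_lit 0) (XT.lf (nat_lit 0) (nat_lit 1535620525) (nat_lit 152) (nat_lit 9253604843) (nat_lit 76) (nat_lit 24237206935) (nat_lit 88) (nat_lit 5) (nat_lit 90)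 (nat_lit 5) (nat_lit 89) (nat_lit 4) (nat_lit 419) (nat_lit 327) (nat_lit 274)) (XT.lf (nat_lit 0) (nat_lit 22339908014) (nat_lit 152) (nat_lit 3513819245) (nat_lit 0) (nat_lit 10282717873) (nat_lit 87) (nat_lit 5) (nat_lit 89) (nat_lit 4) (nat_lit 87) (nat_lit 4) (nat_lit 420) (nat_lit 327) (nat_lit 273))) (XT.nd (nat_lit 78) (nat_lit 76) (nat_lit 0) (XT.lf (nat_lit 0) (nat_lit 2584093327) (nat_lit 76) (nat_lit 4650221084) (nat_lit 152) (nat_lit 30051074506) (nat_lit 84) (nat_lit 5) (nat_lit 85) (nat_lit 5) (nat_lit 86) (nat_lit 4) (nat_lit 421) (nat_lit 327) (nat_lit 272)) (XT.lf (nat_lit 0) (nat_lit 8951865125) (nat_lit 76) (nat_lit 20654347304) (nat_lit 76) (nat_lit 8864224358) (nat_lit 83) (nat_lit 4) (nat_lit 84) (nat_lit 5) (nat_lit 84) (nat_lit 4) (nat_lit 422) (nat_lit 327) (nat_lit 271))))))))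
noncomputable def xc27 : XT := (XT.nd (nat_lit 49218) (nat_lit 0) (nat_lit 5776) (XT.nd (nat_lit 1014) (nat_lit 532) (nat_lit 0) (XT.nd (nat_lit 468) (nat_lit 912) (nat_lit 0) (XT.nd (nat_lit 234) (nat_lit 456) (nat_lit 0) (XT.nd (nat_lit 78) (nat_lit 228) (nat_lit 0) (XT.lf (nat_lit 0) (nat_lit 13569206904) (nat_lit 152) (nat_lit 24043673179) (nat_lit 0) (nat_lit 2084546827) (nat_lit 81) (nat_lit 5) (nat_lit 83) (nat_lit 4) (nat_lit 81) (nat_lit 4) (nat_lit 423) (nat_lit 327) (nat_lit 270)) (XT.nd (nat_lit 78) (nat_lit 152) (nat_lit 0) (XT.lf (nat_lit 0) (nat_lit 22609251803) (nat_lit 76) (nat_lit 14938239410) (nat_lit 76) (nat_lit 3417447170) (nat_lit 80) (nat_lit 4) (nat_lit 81) (nat_lit 5) (nat_lit 81) (nat_lit 4) (nat_lit 424) (nat_lit 327) (nat_lit 269)) (XT.lf (nat_lit 0) (nat_lit 20533936427) (nat_lit 152) (nat_lit 12425594438) (nat_lit 0) (nat_lit 9315291938) (nat_lit 78) (nat_lit 5) (nat_lit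 80) (nat_lit 4) (nat_lit 78) (nat_lit 4) (nat_lit 425) (nat_lit 327) (nat_lit 268)))) (XT.nd (nat_lit 78) (nat_lit 304) (nat_lit 0) (XT.lf (nat_lit 0) (nat_lit 2510256710) (nat_lit 152) (nat_lit 6154641751) (nat_lit 76) (nat_lit 34966155677) (nat_lit 76) (nat_lit 5) (nat_lit 78) (nat_lit 5) (nat_lit 77) (nat_lit 4) (nat_lit 426) (nat_lit 327) (nat_lit 267)) (XT.nd (nat_lit 78) (nat_lit 152) (nat_lit 0) (XT.lf (nat_lit 0) (nat_lit 309940523) (nat_lit 76) (nat_lit 27836123334) (nat_lit 76) (nat_lit 16883923240) (nat_lit 74) (nat_lit 4) (nat_lit 75) (nat_lit 5) (nat_lit 75) (nat_lit 4) (nat_lit 427) (nat_lit 327) (nat_lit 266)) (XT.lf (nat_lit 0) (nat_lit 7324832567) (nat_lit 76) (nat_lit 1692434568) (nat_lit 152) (nat_lit 37460541594) (nat_lit 72) (nat_lit 5) (nat_lit 73) (nat_lit 5) (nat_lit 74) (nat_lit 4) (nat_lit 428) (nat_lit 327) (nat_lit 265))))) (XT.nd (nat_lit 234) (nat_lit 608) (nat_lit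 0) (XT.nd (nat_lit 78) (nat_lit 228) (nat_lit 0) (XT.lf (nat_lit 0) (nat_lit 14543820876) (nat_lit 76) (nat_lit 22056707620) (nat_lit 76) (nat_lit 11370392013) (nat_lit 71) (nat_lit 4) (nat_lit 72) (nat_lit 5) (nat_lit 72) (nat_lit 4) (nat_lit 429) (nat_lit 327) (nat_lit 264)) (XT.nd (nat_lit 78) (nat_lit 76) (nat_lit 0) (XT.lf (nat_lit 0) (nat_lit 16290168920) (nat_lit 152) (nat_lit 27335390555) (nat_lit 0) (nat_lit 5891149502) (nat_lit 69) (nat_lit 5) (nat_lit 71) (nat_lit 4) (nat_lit 69) (nat_lit 4) (nat_lit 430) (nat_lit 327) (nat_lit 263)) (XT.lf (nat_lit 0) (nat_lit 30156187985) (nat_lit 76) (nat_lit 15689816902) (nat_lit 76) (nat_lit 5267982511) (nat_lit 68) (nat_lit 4) (nat_lit 69) (nat_lit 5) (nat_lit 69) (nat_lit 4) (nat_lit 431) (nat_lit 327) (nat_lit 262)))) (XT.nd (nat_lit 156) (nat_lit 304) (nat_lit 0) (XT.nd (nat_lit 78) (nat_lit 152) (nat_lit 0) (XT.lf (nat_lit 0) (nat_lit 24299952924)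 (nat_lit 152) (nat_lit 14303213680) (nat_lit 0) (nat_lit 14160571431) (nat_lit 66) (nat_lit 5) (nat_lit 68) (nat_lit 4) (nat_lit 66) (nat_lit 4) (nat_lit 432) (nat_lit 327) (nat_lit 261)) (XT.lf (nat_lit 0) (nat_lit 1456955106) (nat_lit 152) (nat_lit 7201853745) (nat_lit 76) (nat_lit 45813532507) (nat_lit 64) (nat_lit 5) (nat_lit 66) (nat_lit 5) (nat_lit 65) (nat_lit 4) (nat_lit 433) (nat_lit 327) (nat_lit 260))) (XT.nd (nat_lit 78) (nat_lit 152) (nat_lit 0) (XT.lf (nat_lit 0) (nat_lit 90735203) (nat_lit 76) (nat_lit 33012392836) (nat_lit 76) (nat_lit 23130250106) (nat_lit 62) (nat_lit 4) (nat_lit 63) (nat_lit 5) (nat_lit 63) (nat_lit 4) (nat_lit 434) (nat_lit 327) (nat_lit 259)) (XT.lf (nat_lit 0) (nat_lit 8090587692) (nat_lit 76) (nat_lit 771689591) (nat_lit 152) (nat_lit 49194587464) (nat_lit 60) (nat_lit 5) (nat_lit 61) (nat_lit 5) (nat_lit 62) (nat_lit 4) (nat_lit 435) (nat_lit 327) (nat_lit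 258)))))) (XT.nd (nat_lit 47658) (nat_lit 0) (nat_lit 13300) (XT.nd (nat_lit 234) (nat_lit 228) (nat_lit 0) (XT.nd (nat_lit 78) (nat_lit 228) (nat_lit 0) (XT.lf (nat_lit 0) (nat_lit 16299391604) (nat_lit 76) (nat_lit 26632223392) (nat_lit 76) (nat_lit 17004373723) (nat_lit 59) (nat_lit 4) (nat_lit 60) (nat_lit 5) (nat_lit 60) (nat_lit 4) (nat_lit 436) (nat_lit 327) (nat_lit 257)) (XT.nd (nat_lit 78) (nat_lit 76) (nat_lit 0) (XT.lf (nat_lit 0) (nat_lit 17208193874) (nat_lit 152) (nat_lit 36828173550) (nat_lit 0) (nat_lit 7845640621) (nat_lit 57) (nat_lit 5) (nat_lit 59) (nat_lit 4) (nat_lit 57) (nat_lit 4) (nat_lit 437) (nat_lit 327) (nat_lit 256)) (XT.lf (nat_lit 0) (nat_lit 34193268434) (nat_lit 76) (nat_lit 19537715164) (nat_lit 76) (nat_lit 10160755827) (nat_lit 56) (nat_lit 4) (nat_lit 57) (nat_lit 5) (nat_lit 57) (nat_lit 4) (nat_lit 438) (nat_lit 327) (nat_lit 255)))) (XT.nd (nat_lit 47268)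 (nat_lit 0) (nat_lit 17328) (XT.nd (nat_lit 78) (nat_lit 76) (nat_lit 0) (XT.lf (nat_lit 0) (nat_lit 26443065127) (nat_lit 152) (nat_lit 22199251749) (nat_lit 0) (nat_lit 17325900643) (nat_lit 54) (nat_lit 5) (nat_lit 56) (nat_lit 4) (nat_lit 54) (nat_lit 4) (nat_lit 439) (nat_lit 327) (nat_lit 254)) (XT.lf (nat_lit 0) (nat_lit 53940744127) (nat_lit 76) (nat_lit 11653395950) (nat_lit 76) (nat_lit 2523545307) (nat_lit 53) (nat_lit 4) (nat_lit 54) (nat_lit 5) (nat_lit 54) (nat_lit 4) (nat_lit 440) (nat_lit 327) (nat_lit 253))) (XT.nd (nat_lit 78) (nat_lit 456) (nat_lit 0) (XT.lf (nat_lit 0) (nat_lit 2328096206) (nat_lit 456) (nat_lit 862018005) (nat_lit 456) (nat_lit 862018005) (nat_lit 287) (nat_lit 4) (nat_lit 293) (nat_lit 5) (nat_lit 293) (nat_lit 4) (nat_lit 364) (nat_lit 328) (nat_lit 328)) (XT.lf (nat_lit 0) (nat_lit 4985688436) (nat_lit 456) (nat_lit 158808103) (nat_lit 0) (nat_lit 3103392778)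 (nat_lit 281) (nat_lit 5) (nat_lit 287) (nat_lit 4) (nat_lit 281) (nat_lit 4) (nat_lit 365) (nat_lit 328) (nat_lit 327))))) (XT.nd (nat_lit 234) (nat_lit 1900) (nat_lit 0) (XT.nd (nat_lit 78) (nat_lit 1216) (nat_lit 0) (XT.lf (nat_lit 0) (nat_lit 3322195171) (nat_lit 380) (nat_lit 124678405) (nat_lit 456) (nat_lit 4952672309) (nat_lit 269) (nat_lit 5) (nat_lit 274) (nat_lit 5) (nat_lit 275) (nat_lit 4) (nat_lit 366) (nat_lit 328) (nat_lit 326)) (XT.nd (nat_lit 78) (nat_lit 760) (nat_lit 0) (XT.lf (nat_lit 0) (nat_lit 1760303302) (nat_lit 456) (nat_lit 1652075401) (nat_lit 76) (nat_lit 5146981465) (nat_lit 263) (nat_lit 5) (nat_lit 269) (nat_lit 5) (nat_lit 264) (nat_lit 4) (nat_lit 367) (nat_lit 328) (nat_lit 325)) (XT.lf (nat_lit 0) (nat_lit 1935172213) (nat_lit 380) (nat_lit 6699316666) (nat_lit 380) (nat_lit 93365492) (nat_lit 253) (nat_lit 4) (nat_lit 258) (nat_lit 5) (nat_lit 258) (nat_lit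 4) (nat_lit 368) (nat_lit 328) (nat_lit 324)))) (XT.nd (nat_lit 156) (nat_lit 760) (nat_lit 0) (XT.nd (nat_lit 78) (nat_lit 760) (nat_lit 0) (XT.lf (nat_lit 0) (nat_lit 5654812626) (nat_lit 304) (nat_lit 1104024261) (nat_lit 380) (nat_lit 2145528878) (nat_lit 248) (nat_lit 5) (nat_lit 252) (nat_lit 5) (nat_lit 253) (nat_lit 4) (nat_lit 369) (nat_lit 328) (nat_lit 323)) (XT.lf (nat_lit 0) (nat_lit 402567171) (nat_lit 304) (nat_lit 4318097226) (nat_lit 380) (nat_lit 4369003583) (nat_lit 238) (nat_lit 5) (nat_lit 242) (nat_lit 5) (nat_lit 243) (nat_lit 4) (nat_lit 370) (nat_lit 328) (nat_lit 322))) (XT.nd (nat_lit 78) (nat_lit 380) (nat_lit 0) (XT.lf (nat_lit 0) (nat_lit 2523742961) (nat_lit 380) (nat_lit 5037760722) (nat_lit 76) (nat_lit 1722174179) (nat_lit 233) (nat_lit 5) (nat_lit 238) (nat_lit 5) (nat_lit 234) (nat_lit 4) (nat_lit 371) (nat_lit 328) (nat_lit 321)) (XT.lf (nat_lit 0) (nat_lit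 143662104) (nat_lit 380) (nat_lit 1281651397) (nat_lit 76) (nat_lit 8061846139) (nat_lit 228) (nat_lit 5) (nat_lit 233) (nat_lit 5) (nat_lit 229) (nat_lit 5) (nat_lit 372) (nat_lit 328) (nat_lit 320))))))) (XT.nd (nat_lit 1014) (nat_lit 2888) (nat_lit 0) (XT.nd (nat_lit 468) (nat_lit 2052) (nat_lit 0) (XT.nd (nat_lit 234) (nat_lit 1064) (nat_lit 0) (XT.nd (nat_lit 78) (nat_lit 988) (nat_lit 0) (XT.lf (nat_lit 0) (nat_lit 2608176838) (nat_lit 228) (nat_lit 4646050613) (nat_lit 304) (nat_lit 2444532325) (nat_lit 221) (nat_lit 5) (nat_lit 224) (nat_lit 5) (nat_lit 225) (nat_lit 4) (nat_lit 373) (nat_lit 328) (nat_lit 319)) (XT.nd (nat_lit 78) (nat_lit 608) (nat_lit 0) (XT.lf (nat_lit 0) (nat_lit 4685161835) (nat_lit 380) (nat_lit 3270234647) (nat_lit 76) (nat_lit 1964776382) (nat_lit 216) (nat_lit 5) (nat_lit 221) (nat_lit 5) (nat_lit 217) (nat_lit 4) (nat_lit 374) (nat_lit 328) (nat_lit 318)) (XT.lf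 (nat_lit 0) (nat_lit 673657022) (nat_lit 304) (nat_lit 1250965987) (nat_lit 380) (nat_lit 8226914057) (nat_lit 208) (nat_lit 5) (nat_lit 212) (nat_lit 5) (nat_lit 213) (nat_lit 5) (nat_lit 375) (nat_lit 328) (nat_lit 317)))) (XT.nd (nat_lit 78) (nat_lit 836) (nat_lit 0) (XT.lf (nat_lit 0) (nat_lit 4781296349) (nat_lit 228) (nat_lit 4590410228) (nat_lit 304) (nat_lit 1020075870) (nat_lit 205) (nat_lit 5) (nat_lit 208) (nat_lit 5) (nat_lit 209) (nat_lit 4) (nat_lit 376) (nat_lit 328) (nat_lit 316)) (XT.nd (nat_lit 78) (nat_lit 532) (nat_lit 0) (XT.lf (nat_lit 0) (nat_lit 6411029642) (nat_lit 304) (nat_lit 1641430959) (nat_lit 76) (nat_lit 2589940963) (nat_lit 201) (nat_lit 5) (nat_lit 205) (nat_lit 5) (nat_lit 202) (nat_lit 4) (nat_lit 377) (nat_lit 328) (nat_lit 315)) (XT.lf (nat_lit 0) (nat_lit 2495168176) (nat_lit 228) (nat_lit 759988564) (nat_lit 304) (nat_lit 7648185116) (nat_lit 194) (nat_lit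 5) (nat_lit 197) (nat_lit 5) (nat_lit 198) (nat_lit 5) (nat_lit 378) (nat_lit 328) (nat_lit 314))))) (XT.nd (nat_lit 234) (nat_lit 1064) (nat_lit 0) (XT.nd (nat_lit 78) (nat_lit 760) (nat_lit 0) (XT.lf (nat_lit 0) (nat_lit 6770403888) (nat_lit 228) (nat_lit 4309907812) (nat_lit 304) (nat_lit 94206286) (nat_lit 191) (nat_lit 5) (nat_lit 194) (nat_lit 5) (nat_lit 195) (nat_lit 4) (nat_lit 379) (nat_lit 328) (nat_lit 313)) (XT.nd (nat_lit 78) (nat_lit 456) (nat_lit 0) (XT.lf (nat_lit 0) (nat_lit 7700287184) (nat_lit 304) (nat_lit 306820063) (nat_lit 76) (nat_lit 3449412928) (nat_lit 187) (nat_lit 5) (nat_lit 191) (nat_lit 5) (nat_lit 188) (nat_lit 4) (nat_lit 380) (nat_lit 328) (nat_lit 312)) (XT.lf (nat_lit 0) (nat_lit 3998977475) (nat_lit 228) (nat_lit 114294688) (nat_lit 304) (nat_lit 7636214334) (nat_lit 181) (nat_lit 5) (nat_lit 184) (nat_lit 5) (nat_lit 185) (nat_lit 5) (nat_lit 381) (nat_lit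 328) (nat_lit 311)))) (XT.nd (nat_lit 156) (nat_lit 456) (nat_lit 0) (XT.nd (nat_lit 78) (nat_lit 380) (nat_lit 0) (XT.lf (nat_lit 0) (nat_lit 308824995) (nat_lit 228) (nat_lit 3638546129) (nat_lit 76) (nat_lit 8106415058) (nat_lit 178) (nat_lit 5) (nat_lit 181) (nat_lit 5) (nat_lit 179) (nat_lit 5) (nat_lit 382) (nat_lit 328) (nat_lit 310)) (XT.lf (nat_lit 0) (nat_lit 581655598) (nat_lit 152) (nat_lit 7957508359) (nat_lit 228) (nat_lit 3830489423) (nat_lit 173) (nat_lit 5) (nat_lit 175) (nat_lit 5) (nat_lit 176) (nat_lit 4) (nat_lit 383) (nat_lit 328) (nat_lit 309))) (XT.nd (nat_lit 78) (nat_lit 228) (nat_lit 0) (XT.lf (nat_lit 0) (nat_lit 4476341839) (nat_lit 228) (nat_lit 7685158985) (nat_lit 76) (nat_lit 535999729) (nat_lit 170) (nat_lit 5) (nat_lit 173) (nat_lit 5) (nat_lit 171) (nat_lit 4) (nat_lit 384) (nat_lit 328) (nat_lit 308)) (XT.lf (nat_lit 0) (nat_lit 167159663) (nat_lit 228) (nat_lit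 3481696411) (nat_lit 76) (nat_lit 9389023451) (nat_lit 167) (nat_lit 5) (nat_lit 170) (nat_lit 5) (nat_lit 168) (nat_lit 5) (nat_lit 385) (nat_lit 328) (nat_lit 307)))))) (XT.nd (nat_lit 546) (nat_lit 1292) (nat_lit 0) (XT.nd (nat_lit 234) (nat_lit 912) (nat_lit 0) (XT.nd (nat_lit 78) (nat_lit 380) (nat_lit 0) (XT.lf (nat_lit 0) (nat_lit 830547357) (nat_lit 152) (nat_lit 8051154520) (nat_lit 228) (nat_lit 4508828618) (nat_lit 163) (nat_lit 5) (nat_lit 165) (nat_lit 5) (nat_lit 166) (nat_lit 4) (nat_lit 386) (nat_lit 328) (nat_lit 306)) (XT.nd (nat_lit 78) (nat_lit 152) (nat_lit 0) (XT.lf (nat_lit 0) (nat_lit 4293024073) (nat_lit 228) (nat_lit 8396531994) (nat_lit 76) (nat_lit 1066869860) (nat_lit 160) (nat_lit 5) (nat_lit 163) (nat_lit 5) (nat_lit 161) (nat_lit 4) (nat_lit 387) (nat_lit 328) (nat_lit 305)) (XT.lf (nat_lit 0) (nat_lit 10006992029) (nat_lit 152) (nat_lit 3545574308) (nat_lit 228)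 (nat_lit 583385146) (nat_lit 158) (nat_lit 5) (nat_lit 160) (nat_lit 5) (nat_lit 161) (nat_lit 4) (nat_lit 388) (nat_lit 328) (nat_lit 304)))) (XT.nd (nat_lit 156) (nat_lit 304) (nat_lit 0) (XT.nd (nat_lit 78) (nat_lit 228) (nat_lit 0) (XT.lf (nat_lit 0) (nat_lit 237475458) (nat_lit 152) (nat_lit 8430530344) (nat_lit 228) (nat_lit 5860988866) (nat_lit 153) (nat_lit 5) (nat_lit 155) (nat_lit 5) (nat_lit 156) (nat_lit 4) (nat_lit 389) (nat_lit 328) (nat_lit 303)) (XT.lf (nat_lit 0) (nat_lit 3496523988) (nat_lit 228) (nat_lit 10091339676) (nat_lit 76) (nat_lit 1348613200) (nat_lit 150) (nat_lit 5) (nat_lit 153) (nat_lit 5) (nat_lit 151) (nat_lit 4) (nat_lit 390) (nat_lit 328) (nat_lit 302))) (XT.nd (nat_lit 78) (nat_lit 228) (nat_lit 0) (XT.lf (nat_lit 0) (nat_lit 9564500260) (nat_lit 76) (nat_lit 3772478142) (nat_lit 152) (nat_lit 2021525472) (nat_lit 149) (nat_lit 5) (nat_lit 150) (nat_lit 5) (nat_lit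 151) (nat_lit 4) (nat_lit 391) (nat_lit 328) (nat_lit 301)) (XT.lf (nat_lit 0) (nat_lit 7836244628) (nat_lit 228) (nat_lit 1388148524) (nat_lit 76) (nat_lit 6571311648) (nat_lit 146) (nat_lit 5) (nat_lit 149) (nat_lit 5) (nat_lit 147) (nat_lit 4) (nat_lit 392) (nat_lit 328) (nat_lit 300))))) (XT.nd (nat_lit 234) (nat_lit 684) (nat_lit 0) (XT.nd (nat_lit 78) (nat_lit 304) (nat_lit 0) (XT.lf (nat_lit 0) (nat_lit 2002048254) (nat_lit 228) (nat_lit 13001637656) (nat_lit 76) (nat_lit 1245493582) (nat_lit 142) (nat_lit 5) (nat_lit 145) (nat_lit 5) (nat_lit 143) (nat_lit 4) (nat_lit 393) (nat_lit 328) (nat_lit 299)) (XT.nd (nat_lit 78) (nat_lit 228) (nat_lit 0) (XT.lf (nat_lit 0) (nat_lit 8005080256) (nat_lit 76) (nat_lit 4473572871) (nat_lit 152) (nat_lit 4238861550) (nat_lit 141) (nat_lit 5) (nat_lit 142) (nat_lit 5) (nat_lit 143) (nat_lit 4) (nat_lit 394) (nat_lit 328) (nat_lit 298)) (XT.lf (nat_lit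 0) (nat_lit 6292626319) (nat_lit 228) (nat_lit 4289033620) (nat_lit 76) (nat_lit 6621444056) (nat_lit 138) (nat_lit 5) (nat_lit 141) (nat_lit 5) (nat_lit 139) (nat_lit 4) (nat_lit 395) (nat_lit 328) (nat_lit 297)))) (XT.nd (nat_lit 156) (nat_lit 304) (nat_lit 0) (XT.nd (nat_lit 78) (nat_lit 152) (nat_lit 0) (XT.lf (nat_lit 0) (nat_lit 315636521) (nat_lit 152) (nat_lit 17090417208) (nat_lit 152) (nat_lit 301369043) (nat_lit 135) (nat_lit 4) (nat_lit 137) (nat_lit 5) (nat_lit 137) (nat_lit 4) (nat_lit 396) (nat_lit 328) (nat_lit 296)) (XT.lf (nat_lit 0) (nat_lit 5074180195) (nat_lit 76) (nat_lit 5800488052) (nat_lit 152) (nat_lit 7351724775) (nat_lit 133) (nat_lit 5) (nat_lit 134) (nat_lit 5) (nat_lit 135) (nat_lit 4) (nat_lit 397) (nat_lit 328) (nat_lit 295))) (XT.nd (nat_lit 78) (nat_lit 76) (nat_lit 0) (XT.lf (nat_lit 0) (nat_lit 3921474608) (nat_lit 228) (nat_lit 8741962577) (nat_lit 76) (nat_lit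 6101754023) (nat_lit 130) (nat_lit 5) (nat_lit 133) (nat_lit 5) (nat_lit 131) (nat_lit 4) (nat_lit 398) (nat_lit 328) (nat_lit 294)) (XT.lf (nat_lit 0) (nat_lit 15141449282) (nat_lit 76) (nat_lit 637369187) (nat_lit 152) (nat_lit 3544751271) (nat_lit 129) (nat_lit 5) (nat_lit 130) (nat_lit 5) (nat_lit 131) (nat_lit 4) (nat_lit 399) (nat_lit 328) (nat_lit 293))))))))
noncomputable def xc28 : XT := (XT.nd (nat_lit 2106) (nat_lit 1824) (nat_lit 0) (XT.nd (nat_lit 1014) (nat_lit 1824) (nat_lit 0) (XT.nd (nat_lit 468) (nat_lit 912) (nat_lit 0) (XT.nd (nat_lit 234) (nat_lit 532) (nat_lit 0) (XT.nd (nat_lit 78) (nat_lit 304) (nat_lit 0) (XT.lf (nat_lit 0) (nat_lit 482443428) (nat_lit 76) (nat_lit 7918035092) (nat_lit 152) (nat_lit 11499680020) (nat_lit 125) (nat_lit 5) (nat_lit 126) (nat_lit 5) (nat_lit 127) (nat_lit 4) (nat_lit 400) (nat_lit 328) (nat_lit 292)) (XT.nd (nat_lit 78) (nat_lit 76) (nat_lit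 0) (XT.lf (nat_lit 0) (nat_lit 586781949) (nat_lit 228) (nat_lit 15056598551) (nat_lit 76) (nat_lit 4854174926) (nat_lit 122) (nat_lit 5) (nat_lit 125) (nat_lit 5) (nat_lit 123) (nat_lit 4) (nat_lit 401) (nat_lit 328) (nat_lit 291)) (XT.lf (nat_lit 0) (nat_lit 10519500061) (nat_lit 76) (nat_lit 2741350957) (nat_lit 152) (nat_lit 7853921941) (nat_lit 121) (nat_lit 5) (nat_lit 122) (nat_lit 5) (nat_lit 123) (nat_lit 4) (nat_lit 402) (nat_lit 328) (nat_lit 290)))) (XT.nd (nat_lit 78) (nat_lit 304) (nat_lit 0) (XT.lf (nat_lit 0) (nat_lit 4966398167) (nat_lit 228) (nat_lit 5981355946) (nat_lit 76) (nat_lit 10806079259) (nat_lit 118) (nat_lit 5) (nat_lit 121) (nat_lit 5) (nat_lit 119) (nat_lit 4) (nat_lit 403) (nat_lit 328) (nat_lit 289)) (XT.nd (nat_lit 78) (nat_lit 228) (nat_lit 0) (XT.lf (nat_lit 0) (nat_lit 18478589061) (nat_lit 152) (nat_lit 1184400832) (nat_lit 0) (nat_lit 2753125484) (nat_lit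 117) (nat_lit 5) (nat_lit 119) (nat_lit 4) (nat_lit 117) (nat_lit 4) (nat_lit 404) (nat_lit 328) (nat_lit 288)) (XT.lf (nat_lit 0) (nat_lit 3811660814) (nat_lit 76) (nat_lit 5873611779) (nat_lit 152) (nat_lit 13413978131) (nat_lit 114) (nat_lit 5) (nat_lit 115) (nat_lit 5) (nat_lit 116) (nat_lit 4) (nat_lit 405) (nat_lit 328) (nat_lit 287))))) (XT.nd (nat_lit 234) (nat_lit 532) (nat_lit 0) (XT.nd (nat_lit 78) (nat_lit 228) (nat_lit 0) (XT.lf (nat_lit 0) (nat_lit 366450979) (nat_lit 152) (nat_lit 14758548942) (nat_lit 76) (nat_lit 8682071206) (nat_lit 112) (nat_lit 5) (nat_lit 114) (nat_lit 5) (nat_lit 113) (nat_lit 4) (nat_lit 406) (nat_lit 328) (nat_lit 286)) (XT.nd (nat_lit 78) (nat_lit 152) (nat_lit 0) (XT.lf (nat_lit 0) (nat_lit 14447451502) (nat_lit 76) (nat_lit 359973718) (nat_lit 152) (nat_lit 9731404621) (nat_lit 111) (nat_lit 5) (nat_lit 112) (nat_lit 5) (nat_lit 113) (nat_lit 4) (nat_lit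 407) (nat_lit 328) (nat_lit 285)) (XT.lf (nat_lit 0) (nat_lit 4918405155) (nat_lit 152) (nat_lit 5273501654) (nat_lit 76) (nat_lit 15103540973) (nat_lit 109) (nat_lit 5) (nat_lit 111) (nat_lit 5) (nat_lit 110) (nat_lit 4) (nat_lit 408) (nat_lit 328) (nat_lit 284)))) (XT.nd (nat_lit 156) (nat_lit 228) (nat_lit 0) (XT.nd (nat_lit 78) (nat_lit 228) (nat_lit 0) (XT.lf (nat_lit 0) (nat_lit 20365894550) (nat_lit 152) (nat_lit 254026274) (nat_lit 0) (nat_lit 5459091796) (nat_lit 108) (nat_lit 5) (nat_lit 110) (nat_lit 4) (nat_lit 108) (nat_lit 4) (nat_lit 409) (nat_lit 328) (nat_lit 283)) (XT.lf (nat_lit 0) (nat_lit 5036179159) (nat_lit 76) (nat_lit 4831741766) (nat_lit 152) (nat_lit 17019855479) (nat_lit 105) (nat_lit 5) (nat_lit 106) (nat_lit 5) (nat_lit 107) (nat_lit 4) (nat_lit 410) (nat_lit 328) (nat_lit 282))) (XT.nd (nat_lit 78) (nat_lit 152) (nat_lit 0) (XT.lf (nat_lit 0) (nat_lit 10548445385)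 (nat_lit 76) (nat_lit 15908772948) (nat_lit 76) (nat_lit 1267642202) (nat_lit 104) (nat_lit 4) (nat_lit 105) (nat_lit 5) (nat_lit 105) (nat_lit 4) (nat_lit 411) (nat_lit 328) (nat_lit 281)) (XT.lf (nat_lit 0) (nat_lit 15274438734) (nat_lit 152) (nat_lit 12332203179) (nat_lit 0) (nat_lit 983744626) (nat_lit 102) (nat_lit 5) (nat_lit 104) (nat_lit 4) (nat_lit 102) (nat_lit 4) (nat_lit 412) (nat_lit 328) (nat_lit 280)))))) (XT.nd (nat_lit 546) (nat_lit 912) (nat_lit 0) (XT.nd (nat_lit 234) (nat_lit 456) (nat_lit 0) (XT.nd (nat_lit 78) (nat_lit 304) (nat_lit 0) (XT.lf (nat_lit 0) (nat_lit 3475908980) (nat_lit 152) (nat_lit 7306983701) (nat_lit 76) (nat_lit 18702475217) (nat_lit 100) (nat_lit 5) (nat_lit 102) (nat_lit 5) (nat_lit 101) (nat_lit 4) (nat_lit 413) (nat_lit 328) (nat_lit 279)) (XT.nd (nat_lit 78) (nat_lit 228) (nat_lit 0) (XT.lf (nat_lit 0) (nat_lit 21169781085) (nat_lit 152) (nat_lit 2083113275)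 (nat_lit 0) (nat_lit 7158114232) (nat_lit 99) (nat_lit 5) (nat_lit 101) (nat_lit 4) (nat_lit 99) (nat_lit 4) (nat_lit 414) (nat_lit 328) (nat_lit 278)) (XT.lf (nat_lit 0) (nat_lit 3433609622) (nat_lit 76) (nat_lit 5191523065) (nat_lit 152) (nat_lit 22742697530) (nat_lit 96) (nat_lit 5) (nat_lit 97) (nat_lit 5) (nat_lit 98) (nat_lit 4) (nat_lit 415) (nat_lit 328) (nat_lit 277)))) (XT.nd (nat_lit 156) (nat_lit 228) (nat_lit 0) (XT.nd (nat_lit 78) (nat_lit 152) (nat_lit 0) (XT.lf (nat_lit 0) (nat_lit 9202983910) (nat_lit 76) (nat_lit 18438852658) (nat_lit 76) (nat_lit 4714466986) (nat_lit 95) (nat_lit 4) (nat_lit 96) (nat_lit 5) (nat_lit 96) (nat_lit 4) (nat_lit 416) (nat_lit 328) (nat_lit 276)) (XT.lf (nat_lit 0) (nat_lit 14304159303) (nat_lit 152) (nat_lit 18149935439) (nat_lit 0) (nat_lit 925015260) (nat_lit 93) (nat_lit 5) (nat_lit 95) (nat_lit 4) (nat_lit 93) (nat_lit 4) (nat_lit 417) (nat_lit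 328) (nat_lit 275))) (XT.nd (nat_lit 78) (nat_lit 76) (nat_lit 0) (XT.lf (nat_lit 0) (nat_lit 239910241) (nat_lit 152) (nat_lit 12944028881) (nat_lit 76) (nat_lit 21252497426) (nat_lit 91) (nat_lit 5) (nat_lit 93) (nat_lit 5) (nat_lit 92) (nat_lit 4) (nat_lit 418) (nat_lit 328) (nat_lit 274)) (XT.lf (nat_lit 0) (nat_lit 20534215905) (nat_lit 152) (nat_lit 7548128229) (nat_lit 0) (nat_lit 7446373434) (nat_lit 90) (nat_lit 5) (nat_lit 92) (nat_lit 4) (nat_lit 90) (nat_lit 4) (nat_lit 419) (nat_lit 328) (nat_lit 273))))) (XT.nd (nat_lit 234) (nat_lit 456) (nat_lit 0) (XT.nd (nat_lit 78) (nat_lit 304) (nat_lit 0) (XT.lf (nat_lit 0) (nat_lit 5549802035) (nat_lit 152) (nat_lit 1867450372) (nat_lit 76) (nat_lit 29242379496) (nat_lit 88) (nat_lit 5) (nat_lit 90) (nat_lit 5) (nat_lit 89) (nat_lit 4) (nat_lit 420) (nat_lit 328) (nat_lit 272)) (XT.nd (nat_lit 78) (nat_lit 152) (nat_lit 0) (XT.lf (nat_lit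 0) (nat_lit 4092357313) (nat_lit 76) (nat_lit 23263608930) (nat_lit 76) (nat_lit 10470329261) (nat_lit 86) (nat_lit 4) (nat_lit 87) (nat_lit 5) (nat_lit 87) (nat_lit 4) (nat_lit 421) (nat_lit 328) (nat_lit 271)) (XT.lf (nat_lit 0) (nat_lit 10420250615) (nat_lit 76) (nat_lit 1034813191) (nat_lit 152) (nat_lit 27578823549) (nat_lit 84) (nat_lit 5) (nat_lit 85) (nat_lit 5) (nat_lit 86) (nat_lit 4) (nat_lit 422) (nat_lit 328) (nat_lit 270)))) (XT.nd (nat_lit 156) (nat_lit 228) (nat_lit 0) (XT.nd (nat_lit 78) (nat_lit 152) (nat_lit 0) (XT.lf (nat_lit 0) (nat_lit 16962016928) (nat_lit 76) (nat_lit 17907699417) (nat_lit 76) (nat_lit 5410746483) (nat_lit 83) (nat_lit 4) (nat_lit 84) (nat_lit 5) (nat_lit 84) (nat_lit 4) (nat_lit 423) (nat_lit 328) (nat_lit 269)) (XT.lf (nat_lit 0) (nat_lit 17993363214) (nat_lit 152) (nat_lit 17750576546) (nat_lit 0) (nat_lit 5825987616) (nat_lit 81) (nat_lit 5) (nat_lit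 83) (nat_lit 4) (nat_lit 81) (nat_lit 4) (nat_lit 424) (nat_lit 328) (nat_lit 268))) (XT.nd (nat_lit 78) (nat_lit 76) (nat_lit 0) (XT.lf (nat_lit 0) (nat_lit 155027947) (nat_lit 152) (nat_lit 11885441801) (nat_lit 76) (nat_lit 30863550555) (nat_lit 79) (nat_lit 5) (nat_lit 81) (nat_lit 5) (nat_lit 80) (nat_lit 4) (nat_lit 425) (nat_lit 328) (nat_lit 267)) (XT.lf (nat_lit 0) (nat_lit 25162071486) (nat_lit 152) (nat_lit 5831485449) (nat_lit 0) (nat_lit 13286963860) (nat_lit 78) (nat_lit 5) (nat_lit 80) (nat_lit 4) (nat_lit 78) (nat_lit 4) (nat_lit 426) (nat_lit 328) (nat_lit 266))))))) (XT.nd (nat_lit 1014) (nat_lit 152) (nat_lit 0) (XT.nd (nat_lit 468) (nat_lit 912) (nat_lit 0) (XT.nd (nat_lit 234) (nat_lit 304) (nat_lit 0) (XT.nd (nat_lit 78) (nat_lit 228) (nat_lit 0) (XT.lf (nat_lit 0) (nat_lit 628748860) (nat_lit 76) (nat_lit 5545003208) (nat_lit 152) (nat_lit 39532715301) (nat_lit 75) (nat_lit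 5) (nat_lit 76) (nat_lit 5) (nat_lit 77) (nat_lit 4) (nat_lit 427) (nat_lit 328) (nat_lit 265)) (XT.nd (nat_lit 78) (nat_lit 152) (nat_lit 0) (XT.lf (nat_lit 0) (nat_lit 7409379859) (nat_lit 76) (nat_lit 25675055120) (nat_lit 76) (nat_lit 14091119435) (nat_lit 74) (nat_lit 4) (nat_lit 75) (nat_lit 5) (nat_lit 75) (nat_lit 4) (nat_lit 428) (nat_lit 328) (nat_lit 264)) (XT.lf (nat_lit 0) (nat_lit 12947589554) (nat_lit 152) (nat_lit 34073350179) (nat_lit 0) (nat_lit 1676375660) (nat_lit 72) (nat_lit 5) (nat_lit 74) (nat_lit 4) (nat_lit 72) (nat_lit 4) (nat_lit 429) (nat_lit 328) (nat_lit 263)))) (XT.nd (nat_lit 78) (nat_lit 228) (nat_lit 0) (XT.lf (nat_lit 0) (nat_lit 22089972146) (nat_lit 76) (nat_lit 19736170043) (nat_lit 76) (nat_lit 8441456727) (nat_lit 71) (nat_lit 4) (nat_lit 72) (nat_lit 5) (nat_lit 72) (nat_lit 4) (nat_lit 430) (nat_lit 328) (nat_lit 262)) (XT.nd (nat_lit 78) (nat_lit 76)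 (nat_lit 0) (XT.lf (nat_lit 0) (nat_lit 20467189316) (nat_lit 152) (nat_lit 21944760064) (nat_lit 0) (nat_lit 9479719686) (nat_lit 69) (nat_lit 5) (nat_lit 71) (nat_lit 4) (nat_lit 69) (nat_lit 4) (nat_lit 431) (nat_lit 328) (nat_lit 261)) (XT.lf (nat_lit 0) (nat_lit 38227697887) (nat_lit 76) (nat_lit 13176093883) (nat_lit 76) (nat_lit 2167930399) (nat_lit 68) (nat_lit 4) (nat_lit 69) (nat_lit 5) (nat_lit 69) (nat_lit 4) (nat_lit 432) (nat_lit 328) (nat_lit 260))))) (XT.nd (nat_lit 234) (nat_lit 456) (nat_lit 0) (XT.nd (nat_lit 78) (nat_lit 304) (nat_lit 0) (XT.lf (nat_lit 0) (nat_lit 28748740778) (nat_lit 152) (nat_lit 8514101437) (nat_lit 0) (nat_lit 18042069016) (nat_lit 66) (nat_lit 5) (nat_lit 68) (nat_lit 4) (nat_lit 66) (nat_lit 4) (nat_lit 433) (nat_lit 328) (nat_lit 259)) (XT.nd (nat_lit 78) (nat_lit 152) (nat_lit 0) (XT.lf (nat_lit 0) (nat_lit 4701428266) (nat_lit 152) (nat_lit 1180995618)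 (nat_lit 76) (nat_lit 51218385780) (nat_lit 64) (nat_lit 5) (nat_lit 66) (nat_lit 5) (nat_lit 65) (nat_lit 4) (nat_lit 434) (nat_lit 328) (nat_lit 258)) (XT.lf (nat_lit 0) (nat_lit 6480344265) (nat_lit 76) (nat_lit 31449463239) (nat_lit 76) (nat_lit 21020093856) (nat_lit 62) (nat_lit 4) (nat_lit 63) (nat_lit 5) (nat_lit 63) (nat_lit 4) (nat_lit 435) (nat_lit 328) (nat_lit 257)))) (XT.nd (nat_lit 156) (nat_lit 228) (nat_lit 0) (XT.nd (nat_lit 78) (nat_lit 76) (nat_lit 0) (XT.lf (nat_lit 0) (nat_lit 12438531304) (nat_lit 152) (nat_lit 46129832695) (nat_lit 0) (nat_lit 2297349781) (nat_lit 60) (nat_lit 5) (nat_lit 62) (nat_lit 4) (nat_lit 60) (nat_lit 4) (nat_lit 436) (nat_lit 328) (nat_lit 256)) (XT.lf (nat_lit 0) (nat_lit 23259969242) (nat_lit 76) (nat_lit 24868662808) (nat_lit 76) (nat_lit 14712643016) (nat_lit 59) (nat_lit 4) (nat_lit 60) (nat_lit 5) (nat_lit 60) (nat_lit 4) (nat_lit 437) (nat_lit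 328) (nat_lit 255))) (XT.nd (nat_lit 78) (nat_lit 76) (nat_lit 0) (XT.lf (nat_lit 0) (nat_lit 21089694045) (nat_lit 152) (nat_lit 32580021112) (nat_lit 0) (nat_lit 11215760575) (nat_lit 57) (nat_lit 5) (nat_lit 59) (nat_lit 4) (nat_lit 57) (nat_lit 4) (nat_lit 438) (nat_lit 328) (nat_lit 254)) (XT.lf (nat_lit 0) (nat_lit 41817936924) (nat_lit 76) (nat_lit 17533683528) (nat_lit 76) (nat_lit 7646683314) (nat_lit 56) (nat_lit 4) (nat_lit 57) (nat_lit 5) (nat_lit 57) (nat_lit 4) (nat_lit 439) (nat_lit 328) (nat_lit 253)))))) (XT.nd (nat_lit 47502) (nat_lit 0) (nat_lit 12312) (XT.nd (nat_lit 47190) (nat_lit 0) (nat_lit 15884) (XT.nd (nat_lit 47034) (nat_lit 0) (nat_lit 18164) (XT.lf (nat_lit 0) (nat_lit 30671150161) (nat_lit 152) (nat_lit 17448261511) (nat_lit 0) (nat_lit 21060038771) (nat_lit 54) (nat_lit 5) (nat_lit 56) (nat_lit 4) (nat_lit 54) (nat_lit 4) (nat_lit 440) (nat_lit 328) (nat_lit 252))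 (XT.nd (nat_lit 78) (nat_lit 1064) (nat_lit 0) (XT.lf (nat_lit 0) (nat_lit 1546439107) (nat_lit 532) (nat_lit 825737143) (nat_lit 0) (nat_lit 1546439107) (nat_lit 307) (nat_lit 5) (nat_lit 314) (nat_lit 4) (nat_lit 307) (nat_lit 4) (nat_lit 362) (nat_lit 329) (nat_lit 329)) (XT.lf (nat_lit 0) (nat_lit 1342050488) (nat_lit 456) (nat_lit 351951642) (nat_lit 532) (nat_lit 6275051146) (nat_lit 293) (nat_lit 5) (nat_lit 299) (nat_lit 5) (nat_lit 300) (nat_lit 4) (nat_lit 363) (nat_lit 329) (nat_lit 328)))) (XT.nd (nat_lit 156) (nat_lit 1368) (nat_lit 0) (XT.nd (nat_lit 78) (nat_lit 380) (nat_lit 0) (XT.lf (nat_lit 0) (nat_lit 166099566) (nat_lit 532) (nat_lit 3637285162) (nat_lit 76) (nat_lit 4304974392) (nat_lit 286) (nat_lit 5) (nat_lit 293) (nat_lit 5) (nat_lit 287) (nat_lit 4) (nat_lit 364) (nat_lit 329) (nat_lit 327)) (XT.lf (nat_lit 0) (nat_lit 6685293460) (nat_lit 456) (nat_lit 536975191) (nat_lit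 0) (nat_lit 1033924829) (nat_lit 281) (nat_lit 5) (nat_lit 287) (nat_lit 4) (nat_lit 281) (nat_lit 4) (nat_lit 365) (nat_lit 329) (nat_lit 326))) (XT.nd (nat_lit 78) (nat_lit 456) (nat_lit 0) (XT.lf (nat_lit 0) (nat_lit 2718277510) (nat_lit 380) (nat_lit 2245734208) (nat_lit 456) (nat_lit 3447585375) (nat_lit 269) (nat_lit 5) (nat_lit 274) (nat_lit 5) (nat_lit 275) (nat_lit 4) (nat_lit 366) (nat_lit 329) (nat_lit 325)) (XT.lf (nat_lit 0) (nat_lit 3078972405) (nat_lit 456) (nat_lit 2472660814) (nat_lit 76) (nat_lit 3024055568) (nat_lit 263) (nat_lit 5) (nat_lit 269) (nat_lit 5) (nat_lit 264) (nat_lit 4) (nat_lit 367) (nat_lit 329) (nat_lit 324))))) (XT.nd (nat_lit 234) (nat_lit 1976) (nat_lit 0) (XT.nd (nat_lit 78) (nat_lit 760) (nat_lit 0) (XT.lf (nat_lit 0) (nat_lit 886458720) (nat_lit 380) (nat_lit 133305379) (nat_lit 456) (nat_lit 7729038833) (nat_lit 252) (nat_lit 5) (nat_lit 257) (nat_lit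 5) (nat_lit 258) (nat_lit 5) (nat_lit 368) (nat_lit 329) (nat_lit 323)) (XT.nd (nat_lit 78) (nat_lit 456) (nat_lit 0) (XT.lf (nat_lit 0) (nat_lit 4379436344) (nat_lit 304) (nat_lit 3353660081) (nat_lit 380) (nat_lit 1196302420) (nat_lit 248) (nat_lit 5) (nat_lit 252) (nat_lit 5) (nat_lit 253) (nat_lit 4) (nat_lit 369) (nat_lit 329) (nat_lit 322)) (XT.lf (nat_lit 0) (nat_lit 5490175784) (nat_lit 456) (nat_lit 1129426391) (nat_lit 76) (nat_lit 2499660917) (nat_lit 242) (nat_lit 5) (nat_lit 248) (nat_lit 5) (nat_lit 243) (nat_lit 4) (nat_lit 370) (nat_lit 329) (nat_lit 321)))) (XT.nd (nat_lit 156) (nat_lit 912) (nat_lit 0) (XT.nd (nat_lit 78) (nat_lit 380) (nat_lit 0) (XT.lf (nat_lit 0) (nat_lit 2454469134) (nat_lit 304) (nat_lit 629420711) (nat_lit 380) (nat_lit 6234129681) (nat_lit 233) (nat_lit 5) (nat_lit 237) (nat_lit 5) (nat_lit 238) (nat_lit 5) (nat_lit 371) (nat_lit 329) (nat_lit 320)) (XT.lf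 (nat_lit 0) (nat_lit 515690278) (nat_lit 380) (nat_lit 3363246189) (nat_lit 76) (nat_lit 5646718707) (nat_lit 228) (nat_lit 5) (nat_lit 233) (nat_lit 5) (nat_lit 229) (nat_lit 5) (nat_lit 372) (nat_lit 329) (nat_lit 319))) (XT.nd (nat_lit 78) (nat_lit 380) (nat_lit 0) (XT.lf (nat_lit 0) (nat_lit 240353083) (nat_lit 228) (nat_lit 7202882709) (nat_lit 304) (nat_lit 2299510112) (nat_lit 221) (nat_lit 5) (nat_lit 224) (nat_lit 5) (nat_lit 225) (nat_lit 4) (nat_lit 373) (nat_lit 329) (nat_lit 318)) (XT.lf (nat_lit 0) (nat_lit 4024680411) (nat_lit 304) (nat_lit 644625823) (nat_lit 380) (nat_lit 5299552375) (nat_lit 216) (nat_lit 5) (nat_lit 220) (nat_lit 5) (nat_lit 221) (nat_lit 5) (nat_lit 374) (nat_lit 329) (nat_lit 317))))))))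
noncomputable def xc29 : XT := (XT.nd (nat_lit 2106) (nat_lit 3800) (nat_lit 0) (XT.nd (nat_lit 1014) (nat_lit 2812) (nat_lit 0) (XT.nd (nat_lit 468) (nat_lit 1900) (nat_lit 0) (XT.nd (nat_lit 234) (nat_lit 1064) (nat_lit 0) (XT.nd (nat_lit 78) (nat_lit 836) (nat_lit 0) (XT.lf (nat_lit 0) (nat_lit 1709068714) (nat_lit 304) (nat_lit 2292605076) (nat_lit 76) (nat_lit 6203135805) (nat_lit 212) (nat_lit 5) (nat_lit 216) (nat_lit 5) (nat_lit 213) (nat_lit 5) (nat_lit 375) (nat_lit 329) (nat_lit 316)) (XT.nd (nat_lit 78) (nat_lit 304) (nat_lit 0) (XT.lf (nat_lit 0) (nat_lit 1497117241) (nat_lit 228) (nat_lit 7468210621) (nat_lit 304) (nat_lit 1485451846) (nat_lit 205) (nat_lit 5) (nat_lit 208) (nat_lit 5) (nat_lit 209) (nat_lit 4) (nat_lit 376) (nat_lit 329) (nat_lit 315)) (XT.lf (nat_lit 0) (nat_lit 5440557811) (nat_lit 228) (nat_lit 346694057) (nat_lit 304) (nat_lit 4919305650) (nat_lit 201) (nat_lit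 5) (nat_lit 204) (nat_lit 5) (nat_lit 205) (nat_lit 5) (nat_lit 377) (nat_lit 329) (nat_lit 314)))) (XT.nd (nat_lit 78) (nat_lit 760) (nat_lit 0) (XT.lf (nat_lit 0) (nat_lit 2409858626) (nat_lit 304) (nat_lit 1486022294) (nat_lit 76) (nat_lit 7076938929) (nat_lit 197) (nat_lit 5) (nat_lit 201) (nat_lit 5) (nat_lit 198) (nat_lit 5) (nat_lit 378) (nat_lit 329) (nat_lit 313)) (XT.nd (nat_lit 78) (nat_lit 304) (nat_lit 0) (XT.lf (nat_lit 0) (nat_lit 2457732740) (nat_lit 228) (nat_lit 7586130270) (nat_lit 304) (nat_lit 1205867486) (nat_lit 191) (nat_lit 5) (nat_lit 194) (nat_lit 5) (nat_lit 195) (nat_lit 4) (nat_lit 379) (nat_lit 329) (nat_lit 312)) (XT.lf (nat_lit 0) (nat_lit 6430437199) (nat_lit 304) (nat_lit 4996883688) (nat_lit 76) (nat_lit 110128817) (nat_lit 187) (nat_lit 5) (nat_lit 191) (nat_lit 5) (nat_lit 188) (nat_lit 4) (nat_lit 380) (nat_lit 329) (nat_lit 311))))) (XT.nd (nat_lit 234) (nat_lit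 988) (nat_lit 0) (XT.nd (nat_lit 78) (nat_lit 684) (nat_lit 0) (XT.lf (nat_lit 0) (nat_lit 2601331925) (nat_lit 228) (nat_lit 1109141373) (nat_lit 76) (nat_lit 8125957842) (nat_lit 184) (nat_lit 5) (nat_lit 187) (nat_lit 5) (nat_lit 185) (nat_lit 5) (nat_lit 381) (nat_lit 329) (nat_lit 310)) (XT.nd (nat_lit 78) (nat_lit 304) (nat_lit 0) (XT.lf (nat_lit 0) (nat_lit 2953949722) (nat_lit 152) (nat_lit 7704761276) (nat_lit 228) (nat_lit 1488056567) (nat_lit 179) (nat_lit 5) (nat_lit 181) (nat_lit 5) (nat_lit 182) (nat_lit 4) (nat_lit 382) (nat_lit 329) (nat_lit 309)) (XT.lf (nat_lit 0) (nat_lit 6574257989) (nat_lit 304) (nat_lit 5315767707) (nat_lit 76) (nat_lit 578950042) (nat_lit 175) (nat_lit 5) (nat_lit 179) (nat_lit 5) (nat_lit 176) (nat_lit 4) (nat_lit 383) (nat_lit 329) (nat_lit 308)))) (XT.nd (nat_lit 156) (nat_lit 456) (nat_lit 0) (XT.nd (nat_lit 78) (nat_lit 304) (nat_lit 0) (XT.lf (nat_lit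 0) (nat_lit 2248072590) (nat_lit 228) (nat_lit 1338375470) (nat_lit 76) (nat_lit 9217099774) (nat_lit 172) (nat_lit 5) (nat_lit 175) (nat_lit 5) (nat_lit 173) (nat_lit 5) (nat_lit 384) (nat_lit 329) (nat_lit 307)) (XT.lf (nat_lit 0) (nat_lit 2805305484) (nat_lit 152) (nat_lit 7966335649) (nat_lit 228) (nat_lit 2378589982) (nat_lit 168) (nat_lit 5) (nat_lit 170) (nat_lit 5) (nat_lit 171) (nat_lit 4) (nat_lit 385) (nat_lit 329) (nat_lit 306))) (XT.nd (nat_lit 78) (nat_lit 228) (nat_lit 0) (XT.lf (nat_lit 0) (nat_lit 6168715455) (nat_lit 228) (nat_lit 6408859749) (nat_lit 76) (nat_lit 932402364) (nat_lit 165) (nat_lit 5) (nat_lit 168) (nat_lit 5) (nat_lit 166) (nat_lit 4) (nat_lit 386) (nat_lit 329) (nat_lit 305)) (XT.lf (nat_lit 0) (nat_lit 1296142162) (nat_lit 228) (nat_lit 2365500080) (nat_lit 76) (nat_lit 10221639153) (nat_lit 162) (nat_lit 5) (nat_lit 165) (nat_lit 5) (nat_lit 163) (nat_lit 5)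 (nat_lit 387) (nat_lit 329) (nat_lit 304)))))) (XT.nd (nat_lit 546) (nat_lit 1292) (nat_lit 0) (XT.nd (nat_lit 234) (nat_lit 836) (nat_lit 0) (XT.nd (nat_lit 78) (nat_lit 380) (nat_lit 0) (XT.lf (nat_lit 0) (nat_lit 1814482795) (nat_lit 152) (nat_lit 8511822160) (nat_lit 228) (nat_lit 3943383379) (nat_lit 158) (nat_lit 5) (nat_lit 160) (nat_lit 5) (nat_lit 161) (nat_lit 4) (nat_lit 388) (nat_lit 329) (nat_lit 303)) (XT.nd (nat_lit 78) (nat_lit 152) (nat_lit 0) (XT.lf (nat_lit 0) (nat_lit 5148679340) (nat_lit 228) (nat_lit 8484776456) (nat_lit 76) (nat_lit 1036991491) (nat_lit 155) (nat_lit 5) (nat_lit 158) (nat_lit 5) (nat_lit 156) (nat_lit 4) (nat_lit 389) (nat_lit 329) (nat_lit 302)) (XT.lf (nat_lit 0) (nat_lit 10680365296) (nat_lit 152) (nat_lit 4071778455) (nat_lit 228) (nat_lit 333778521) (nat_lit 153) (nat_lit 5) (nat_lit 155) (nat_lit 5) (nat_lit 156) (nat_lit 4) (nat_lit 390) (nat_lit 329)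 (nat_lit 301)))) (XT.nd (nat_lit 156) (nat_lit 304) (nat_lit 0) (XT.nd (nat_lit 78) (nat_lit 304) (nat_lit 0) (XT.lf (nat_lit 0) (nat_lit 9250009559) (nat_lit 228) (nat_lit 232838289) (nat_lit 76) (nat_lit 6033093077) (nat_lit 150) (nat_lit 5) (nat_lit 153) (nat_lit 5) (nat_lit 151) (nat_lit 4) (nat_lit 391) (nat_lit 329) (nat_lit 300)) (XT.lf (nat_lit 0) (nat_lit 3429867327) (nat_lit 228) (nat_lit 11776071643) (nat_lit 76) (nat_lit 755770727) (nat_lit 146) (nat_lit 5) (nat_lit 149) (nat_lit 5) (nat_lit 147) (nat_lit 4) (nat_lit 392) (nat_lit 329) (nat_lit 299))) (XT.nd (nat_lit 78) (nat_lit 228) (nat_lit 0) (XT.lf (nat_lit 0) (nat_lit 8710374216) (nat_lit 76) (nat_lit 4943660370) (nat_lit 152) (nat_lit 2768676122) (nat_lit 145) (nat_lit 5) (nat_lit 146) (nat_lit 5) (nat_lit 147) (nat_lit 4) (nat_lit 393) (nat_lit 329) (nat_lit 298)) (XT.lf (nat_lit 0) (nat_lit 7475894728) (nat_lit 228) (nat_lit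 3526009959) (nat_lit 76) (nat_lit 5898521458) (nat_lit 142) (nat_lit 5) (nat_lit 145) (nat_lit 5) (nat_lit 143) (nat_lit 4) (nat_lit 394) (nat_lit 329) (nat_lit 297))))) (XT.nd (nat_lit 234) (nat_lit 684) (nat_lit 0) (XT.nd (nat_lit 78) (nat_lit 304) (nat_lit 0) (XT.lf (nat_lit 0) (nat_lit 851566997) (nat_lit 152) (nat_lit 56669193) (nat_lit 228) (nat_lit 16488272048) (nat_lit 138) (nat_lit 5) (nat_lit 140) (nat_lit 5) (nat_lit 141) (nat_lit 5) (nat_lit 395) (nat_lit 329) (nat_lit 296)) (XT.nd (nat_lit 78) (nat_lit 228) (nat_lit 0) (XT.lf (nat_lit 0) (nat_lit 5365967102) (nat_lit 76) (nat_lit 6442750081) (nat_lit 152) (nat_lit 6098498225) (nat_lit 137) (nat_lit 5) (nat_lit 138) (nat_lit 5) (nat_lit 139) (nat_lit 4) (nat_lit 396) (nat_lit 329) (nat_lit 295)) (XT.lf (nat_lit 0) (nat_lit 4873565645) (nat_lit 228) (nat_lit 8372712455) (nat_lit 76) (nat_lit 5191092215) (nat_lit 134) (nat_lit 5) (nat_lit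 137) (nat_lit 5) (nat_lit 135) (nat_lit 4) (nat_lit 397) (nat_lit 329) (nat_lit 294)))) (XT.nd (nat_lit 156) (nat_lit 304) (nat_lit 0) (XT.nd (nat_lit 78) (nat_lit 304) (nat_lit 0) (XT.lf (nat_lit 0) (nat_lit 14930141173) (nat_lit 76) (nat_lit 1517542546) (nat_lit 152) (nat_lit 2539150493) (nat_lit 133) (nat_lit 5) (nat_lit 134) (nat_lit 5) (nat_lit 135) (nat_lit 4) (nat_lit 398) (nat_lit 329) (nat_lit 293)) (XT.lf (nat_lit 0) (nat_lit 357713962) (nat_lit 76) (nat_lit 8734321287) (nat_lit 152) (nat_lit 10462180912) (nat_lit 129) (nat_lit 5) (nat_lit 130) (nat_lit 5) (nat_lit 131) (nat_lit 4) (nat_lit 399) (nat_lit 329) (nat_lit 292))) (XT.nd (nat_lit 78) (nat_lit 76) (nat_lit 0) (XT.lf (nat_lit 0) (nat_lit 1307495754) (nat_lit 228) (nat_lit 15082413366) (nat_lit 76) (nat_lit 3752206792) (nat_lit 126) (nat_lit 5) (nat_lit 129) (nat_lit 5) (nat_lit 127) (nat_lit 4) (nat_lit 400) (nat_lit 329) (nat_lit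 291)) (XT.lf (nat_lit 0) (nat_lit 9874714297) (nat_lit 76) (nat_lit 3804188900) (nat_lit 152) (nat_lit 7070511248) (nat_lit 125) (nat_lit 5) (nat_lit 126) (nat_lit 5) (nat_lit 127) (nat_lit 4) (nat_lit 401) (nat_lit 329) (nat_lit 290))))))) (XT.nd (nat_lit 1014) (nat_lit 1824) (nat_lit 0) (XT.nd (nat_lit 468) (nat_lit 988) (nat_lit 0) (XT.nd (nat_lit 234) (nat_lit 380) (nat_lit 0) (XT.nd (nat_lit 78) (nat_lit 380) (nat_lit 0) (XT.lf (nat_lit 0) (nat_lit 5419979353) (nat_lit 228) (nat_lit 6514743437) (nat_lit 76) (nat_lit 9443594658) (nat_lit 122) (nat_lit 5) (nat_lit 125) (nat_lit 5) (nat_lit 123) (nat_lit 4) (nat_lit 402) (nat_lit 329) (nat_lit 289)) (XT.nd (nat_lit 78) (nat_lit 304) (nat_lit 0) (XT.lf (nat_lit 0) (nat_lit 18600084892) (nat_lit 152) (nat_lit 1971228202) (nat_lit 0) (nat_lit 1458912773) (nat_lit 121) (nat_lit 5) (nat_lit 123) (nat_lit 4) (nat_lit 121) (nat_lit 4) (nat_lit 403)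 (nat_lit 329) (nat_lit 288)) (XT.lf (nat_lit 0) (nat_lit 2729125148) (nat_lit 76) (nat_lit 7122104215) (nat_lit 152) (nat_lit 12851200337) (nat_lit 117) (nat_lit 5) (nat_lit 118) (nat_lit 5) (nat_lit 119) (nat_lit 4) (nat_lit 404) (nat_lit 329) (nat_lit 287)))) (XT.nd (nat_lit 78) (nat_lit 228) (nat_lit 0) (XT.lf (nat_lit 0) (nat_lit 580706305) (nat_lit 152) (nat_lit 15705135063) (nat_lit 76) (nat_lit 7113239094) (nat_lit 115) (nat_lit 5) (nat_lit 117) (nat_lit 5) (nat_lit 116) (nat_lit 4) (nat_lit 405) (nat_lit 329) (nat_lit 286)) (XT.nd (nat_lit 78) (nat_lit 152) (nat_lit 0) (XT.lf (nat_lit 0) (nat_lit 12803181950) (nat_lit 76) (nat_lit 1876425634) (nat_lit 152) (nat_lit 9439303534) (nat_lit 114) (nat_lit 5) (nat_lit 115) (nat_lit 5) (nat_lit 116) (nat_lit 4) (nat_lit 406) (nat_lit 329) (nat_lit 285)) (XT.lf (nat_lit 0) (nat_lit 4846154095) (nat_lit 152) (nat_lit 6767665579) (nat_lit 76) (nat_lit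 13249763591) (nat_lit 112) (nat_lit 5) (nat_lit 114) (nat_lit 5) (nat_lit 113) (nat_lit 4) (nat_lit 407) (nat_lit 329) (nat_lit 284))))) (XT.nd (nat_lit 234) (nat_lit 608) (nat_lit 0) (XT.nd (nat_lit 78) (nat_lit 304) (nat_lit 0) (XT.lf (nat_lit 0) (nat_lit 19914473262) (nat_lit 152) (nat_lit 2023674400) (nat_lit 0) (nat_lit 3696623367) (nat_lit 111) (nat_lit 5) (nat_lit 113) (nat_lit 4) (nat_lit 111) (nat_lit 4) (nat_lit 408) (nat_lit 329) (nat_lit 283)) (XT.nd (nat_lit 78) (nat_lit 76) (nat_lit 0) (XT.lf (nat_lit 0) (nat_lit 2928249317) (nat_lit 76) (nat_lit 6548432310) (nat_lit 152) (nat_lit 16954167858) (nat_lit 108) (nat_lit 5) (nat_lit 109) (nat_lit 5) (nat_lit 110) (nat_lit 4) (nat_lit 409) (nat_lit 329) (nat_lit 282)) (XT.lf (nat_lit 0) (nat_lit 8145716745) (nat_lit 76) (nat_lit 17514013759) (nat_lit 76) (nat_lit 1594966511) (nat_lit 107) (nat_lit 4) (nat_lit 108) (nat_lit 5) (nat_lit 108)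 (nat_lit 4) (nat_lit 410) (nat_lit 329) (nat_lit 281)))) (XT.nd (nat_lit 156) (nat_lit 304) (nat_lit 0) (XT.nd (nat_lit 78) (nat_lit 152) (nat_lit 0) (XT.lf (nat_lit 0) (nat_lit 13547969572) (nat_lit 76) (nat_lit 1007522808) (nat_lit 152) (nat_lit 13550847581) (nat_lit 105) (nat_lit 5) (nat_lit 106) (nat_lit 5) (nat_lit 107) (nat_lit 4) (nat_lit 411) (nat_lit 329) (nat_lit 280)) (XT.lf (nat_lit 0) (nat_lit 2845246577) (nat_lit 152) (nat_lit 9832375681) (nat_lit 76) (nat_lit 16309356208) (nat_lit 103) (nat_lit 5) (nat_lit 105) (nat_lit 5) (nat_lit 104) (nat_lit 4) (nat_lit 412) (nat_lit 329) (nat_lit 279))) (XT.nd (nat_lit 78) (nat_lit 228) (nat_lit 0) (XT.lf (nat_lit 0) (nat_lit 20105037137) (nat_lit 152) (nat_lit 4910380926) (nat_lit 0) (nat_lit 4882481508) (nat_lit 102) (nat_lit 5) (nat_lit 104) (nat_lit 4) (nat_lit 102) (nat_lit 4) (nat_lit 413) (nat_lit 329) (nat_lit 278)) (XT.lf (nat_lit 0)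 (nat_lit 219315446) (nat_lit 76) (nat_lit 7419860042) (nat_lit 152) (nat_lit 23200776672) (nat_lit 99) (nat_lit 5) (nat_lit 100) (nat_lit 5) (nat_lit 101) (nat_lit 4) (nat_lit 414) (nat_lit 329) (nat_lit 277)))))) (XT.nd (nat_lit 546) (nat_lit 912) (nat_lit 0) (XT.nd (nat_lit 234) (nat_lit 608) (nat_lit 0) (XT.nd (nat_lit 78) (nat_lit 228) (nat_lit 0) (XT.lf (nat_lit 0) (nat_lit 5664240455) (nat_lit 76) (nat_lit 20526044368) (nat_lit 76) (nat_lit 5622413757) (nat_lit 98) (nat_lit 4) (nat_lit 99) (nat_lit 5) (nat_lit 99) (nat_lit 4) (nat_lit 415) (nat_lit 329) (nat_lit 276)) (XT.nd (nat_lit 78) (nat_lit 76) (nat_lit 0) (XT.lf (nat_lit 0) (nat_lit 11351789259) (nat_lit 76) (nat_lit 1610396230) (nat_lit 152) (nat_lit 19856862356) (nat_lit 96) (nat_lit 5) (nat_lit 97) (nat_lit 5) (nat_lit 98) (nat_lit 4) (nat_lit 416) (nat_lit 329) (nat_lit 275)) (XT.lf (nat_lit 0) (nat_lit 17265534630) (nat_lit 76)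 (nat_lit 15586439702) (nat_lit 76) (nat_lit 1007303020) (nat_lit 95) (nat_lit 4) (nat_lit 96) (nat_lit 5) (nat_lit 96) (nat_lit 4) (nat_lit 417) (nat_lit 329) (nat_lit 274)))) (XT.nd (nat_lit 156) (nat_lit 304) (nat_lit 0) (XT.nd (nat_lit 78) (nat_lit 152) (nat_lit 0) (XT.lf (nat_lit 0) (nat_lit 18808545499) (nat_lit 152) (nat_lit 11521231865) (nat_lit 0) (nat_lit 4604612791) (nat_lit 93) (nat_lit 5) (nat_lit 95) (nat_lit 4) (nat_lit 93) (nat_lit 4) (nat_lit 418) (nat_lit 329) (nat_lit 273)) (XT.lf (nat_lit 0) (nat_lit 3967439745) (nat_lit 152) (nat_lit 6197107238) (nat_lit 76) (nat_lit 25882245373) (nat_lit 91) (nat_lit 5) (nat_lit 93) (nat_lit 5) (nat_lit 92) (nat_lit 4) (nat_lit 419) (nat_lit 329) (nat_lit 272))) (XT.nd (nat_lit 78) (nat_lit 228) (nat_lit 0) (XT.lf (nat_lit 0) (nat_lit 25202930492) (nat_lit 152) (nat_lit 669493867) (nat_lit 0) (nat_lit 11323468974) (nat_lit 90) (nat_lit 5) (nat_lit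 92) (nat_lit 4) (nat_lit 90) (nat_lit 4) (nat_lit 420) (nat_lit 329) (nat_lit 271)) (XT.lf (nat_lit 0) (nat_lit 5260961880) (nat_lit 76) (nat_lit 4188240147) (nat_lit 152) (nat_lit 28934754175) (nat_lit 87) (nat_lit 5) (nat_lit 88) (nat_lit 5) (nat_lit 89) (nat_lit 4) (nat_lit 421) (nat_lit 329) (nat_lit 270))))) (XT.nd (nat_lit 234) (nat_lit 608) (nat_lit 0) (XT.nd (nat_lit 78) (nat_lit 228) (nat_lit 0) (XT.lf (nat_lit 0) (nat_lit 11421960221) (nat_lit 76) (nat_lit 20871178029) (nat_lit 76) (nat_lit 7317390819) (nat_lit 86) (nat_lit 4) (nat_lit 87) (nat_lit 5) (nat_lit 87) (nat_lit 4) (nat_lit 422) (nat_lit 329) (nat_lit 269)) (XT.nd (nat_lit 78) (nat_lit 76) (nat_lit 0) (XT.lf (nat_lit 0) (nat_lit 15551179381) (nat_lit 152) (nat_lit 22971982727) (nat_lit 0) (nat_lit 2356718741) (nat_lit 84) (nat_lit 5) (nat_lit 86) (nat_lit 4) (nat_lit 84) (nat_lit 4) (nat_lit 423) (nat_lit 329) (nat_lit 268))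 (XT.lf (nat_lit 0) (nat_lit 24669581309) (nat_lit 76) (nat_lit 15375088695) (nat_lit 76) (nat_lit 2146871930) (nat_lit 83) (nat_lit 4) (nat_lit 84) (nat_lit 5) (nat_lit 84) (nat_lit 4) (nat_lit 424) (nat_lit 329) (nat_lit 267)))) (XT.nd (nat_lit 156) (nat_lit 304) (nat_lit 0) (XT.nd (nat_lit 78) (nat_lit 152) (nat_lit 0) (XT.lf (nat_lit 0) (nat_lit 22290488032) (nat_lit 152) (nat_lit 11839665199) (nat_lit 0) (nat_lit 9416346814) (nat_lit 81) (nat_lit 5) (nat_lit 83) (nat_lit 4) (nat_lit 81) (nat_lit 4) (nat_lit 425) (nat_lit 329) (nat_lit 266)) (XT.lf (nat_lit 0) (nat_lit 3494594707) (nat_lit 152) (nat_lit 5809839981) (nat_lit 76) (nat_lit 35644832169) (nat_lit 79) (nat_lit 5) (nat_lit 81) (nat_lit 5) (nat_lit 80) (nat_lit 4) (nat_lit 426) (nat_lit 329) (nat_lit 265))) (XT.nd (nat_lit 78) (nat_lit 152) (nat_lit 0) (XT.lf (nat_lit 0) (nat_lit 429899423) (nat_lit 76) (nat_lit 29261018741) (nat_lit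 76) (nat_lit 16705506379) (nat_lit 77) (nat_lit 4) (nat_lit 78) (nat_lit 5) (nat_lit 78) (nat_lit 4) (nat_lit 427) (nat_lit 329) (nat_lit 264)) (XT.lf (nat_lit 0) (nat_lit 7208700236) (nat_lit 76) (nat_lit 2540260188) (nat_lit 152) (nat_lit 38144834691) (nat_lit 75) (nat_lit 5) (nat_lit 76) (nat_lit 5) (nat_lit 77) (nat_lit 4) (nat_lit 428) (nat_lit 329) (nat_lit 263))))))))
noncomputable def xc30 : XT := (XT.nd (nat_lit 48906) (nat_lit 0) (nat_lit 5320) (XT.nd (nat_lit 47814) (nat_lit 0) (nat_lit 12160) (XT.nd (nat_lit 468) (nat_lit 760) (nat_lit 0) (XT.nd (nat_lit 234) (nat_lit 380) (nat_lit 0) (XT.nd (nat_lit 78) (nat_lit 228) (nat_lit 0) (XT.lf (nat_lit 0) (nat_lit 14205193351) (nat_lit 76) (nat_lit 23736246080) (nat_lit 76) (nat_lit 11496809223) (nat_lit 74) (nat_lit 4) (nat_lit 75) (nat_lit 5) (nat_lit 75) (nat_lit 4) (nat_lit 429) (nat_lit 329) (nat_lit 262)) (XT.nd (nat_lit 78) (nat_lit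 76) (nat_lit 0) (XT.lf (nat_lit 0) (nat_lit 16766434986) (nat_lit 152) (nat_lit 29409496020) (nat_lit 0) (nat_lit 4861106179) (nat_lit 72) (nat_lit 5) (nat_lit 74) (nat_lit 4) (nat_lit 72) (nat_lit 4) (nat_lit 430) (nat_lit 329) (nat_lit 261)) (XT.lf (nat_lit 0) (nat_lit 29379468691) (nat_lit 76) (nat_lit 17617878357) (nat_lit 76) (nat_lit 5691234881) (nat_lit 71) (nat_lit 4) (nat_lit 72) (nat_lit 5) (nat_lit 72) (nat_lit 4) (nat_lit 431) (nat_lit 329) (nat_lit 260)))) (XT.nd (nat_lit 78) (nat_lit 228) (nat_lit 0) (XT.lf (nat_lit 0) (nat_lit 24540446242) (nat_lit 152) (nat_lit 16912837053) (nat_lit 0) (nat_lit 12941472300) (nat_lit 69) (nat_lit 5) (nat_lit 71) (nat_lit 4) (nat_lit 69) (nat_lit 4) (nat_lit 432) (nat_lit 329) (nat_lit 259)) (XT.nd (nat_lit 78) (nat_lit 76) (nat_lit 0) (XT.lf (nat_lit 0) (nat_lit 759310729) (nat_lit 152) (nat_lit 10076343096) (nat_lit 76) (nat_lit 45325574347) (nat_lit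 67) (nat_lit 5) (nat_lit 69) (nat_lit 5) (nat_lit 68) (nat_lit 4) (nat_lit 433) (nat_lit 329) (nat_lit 258)) (XT.lf (nat_lit 0) (nat_lit 33119320863) (nat_lit 152) (nat_lit 3040239227) (nat_lit 0) (nat_lit 21822602411) (nat_lit 66) (nat_lit 5) (nat_lit 68) (nat_lit 4) (nat_lit 66) (nat_lit 4) (nat_lit 434) (nat_lit 329) (nat_lit 257))))) (XT.nd (nat_lit 234) (nat_lit 304) (nat_lit 0) (XT.nd (nat_lit 78) (nat_lit 228) (nat_lit 0) (XT.lf (nat_lit 0) (nat_lit 4638172542) (nat_lit 76) (nat_lit 3219669826) (nat_lit 152) (nat_lit 52010367499) (nat_lit 63) (nat_lit 5) (nat_lit 64) (nat_lit 5) (nat_lit 65) (nat_lit 4) (nat_lit 435) (nat_lit 329) (nat_lit 256)) (XT.nd (nat_lit 78) (nat_lit 152) (nat_lit 0) (XT.lf (nat_lit 0) (nat_lit 12595810279) (nat_lit 76) (nat_lit 30107152510) (nat_lit 76) (nat_lit 19108133691) (nat_lit 62) (nat_lit 4) (nat_lit 63) (nat_lit 5) (nat_lit 63) (nat_lit 4) (nat_lit 436)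 (nat_lit 329) (nat_lit 255)) (XT.lf (nat_lit 0) (nat_lit 15909373069) (nat_lit 152) (nat_lit 42697576607) (nat_lit 0) (nat_lit 5216582337) (nat_lit 60) (nat_lit 5) (nat_lit 62) (nat_lit 4) (nat_lit 60) (nat_lit 4) (nat_lit 437) (nat_lit 329) (nat_lit 254)))) (XT.nd (nat_lit 156) (nat_lit 76) (nat_lit 0) (XT.nd (nat_lit 78) (nat_lit 152) (nat_lit 0) (XT.lf (nat_lit 0) (nat_lit 29997215375) (nat_lit 76) (nat_lit 23304683926) (nat_lit 76) (nat_lit 12598434449) (nat_lit 59) (nat_lit 4) (nat_lit 60) (nat_lit 5) (nat_lit 60) (nat_lit 4) (nat_lit 438) (nat_lit 329) (nat_lit 253)) (XT.lf (nat_lit 0) (nat_lit 24884396868) (nat_lit 152) (nat_lit 28685610725) (nat_lit 0) (nat_lit 14477535382) (nat_lit 57) (nat_lit 5) (nat_lit 59) (nat_lit 4) (nat_lit 57) (nat_lit 4) (nat_lit 439) (nat_lit 329) (nat_lit 252))) (XT.nd (nat_lit 46878) (nat_lit 0) (nat_lit 20140) (XT.lf (nat_lit 0) (nat_lit 49273917732) (nat_lit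 76) (nat_lit 15706587755) (nat_lit 76) (nat_lit 5287874347) (nat_lit 56) (nat_lit 4) (nat_lit 57) (nat_lit 5) (nat_lit 57) (nat_lit 4) (nat_lit 440) (nat_lit 329) (nat_lit 251)) (XT.lf (nat_lit 0) (nat_lit 139798362) (nat_lit 608) (nat_lit 3517742932) (nat_lit 0) (nat_lit 139798362) (nat_lit 321) (nat_lit 5) (nat_lit 329) (nat_lit 4) (nat_lit 321) (nat_lit 4) (nat_lit 360) (nat_lit 330) (nat_lit 330)))))) (XT.nd (nat_lit 546) (nat_lit 3572) (nat_lit 0) (XT.nd (nat_lit 234) (nat_lit 2280) (nat_lit 0) (XT.nd (nat_lit 78) (nat_lit 1596) (nat_lit 0) (XT.lf (nat_lit 0) (nat_lit 3222017430) (nat_lit 532) (nat_lit 3379690743) (nat_lit 532) (nat_lit 1112029839) (nat_lit 314) (nat_lit 4) (nat_lit 321) (nat_lit 5) (nat_lit 321) (nat_lit 4) (nat_lit 361) (nat_lit 330) (nat_lit 329)) (XT.nd (nat_lit 78) (nat_lit 1064) (nat_lit 0) (XT.lf (nat_lit 0) (nat_lit 5156600991) (nat_lit 532) (nat_lit 1826551794) (nat_lit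 0) (nat_lit 858214625) (nat_lit 307) (nat_lit 5) (nat_lit 314) (nat_lit 4) (nat_lit 307) (nat_lit 4) (nat_lit 362) (nat_lit 330) (nat_lit 328)) (XT.lf (nat_lit 0) (nat_lit 959319671) (nat_lit 456) (nat_lit 2614391412) (nat_lit 532) (nat_lit 4403075561) (nat_lit 293) (nat_lit 5) (nat_lit 299) (nat_lit 5) (nat_lit 300) (nat_lit 4) (nat_lit 363) (nat_lit 330) (nat_lit 327)))) (XT.nd (nat_lit 156) (nat_lit 1368) (nat_lit 0) (XT.nd (nat_lit 78) (nat_lit 380) (nat_lit 0) (XT.lf (nat_lit 0) (nat_lit 1843088956) (nat_lit 532) (nat_lit 4216927000) (nat_lit 76) (nat_lit 2060290411) (nat_lit 286) (nat_lit 5) (nat_lit 293) (nat_lit 5) (nat_lit 287) (nat_lit 4) (nat_lit 364) (nat_lit 330) (nat_lit 326)) (XT.lf (nat_lit 0) (nat_lit 6966215029) (nat_lit 380) (nat_lit 1252075211) (nat_lit 456) (nat_lit 54170265) (nat_lit 281) (nat_lit 5) (nat_lit 286) (nat_lit 5) (nat_lit 287) (nat_lit 4) (nat_lit 365) (nat_lit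 330) (nat_lit 325))) (XT.nd (nat_lit 78) (nat_lit 456) (nat_lit 0) (XT.lf (nat_lit 0) (nat_lit 1722150680) (nat_lit 380) (nat_lit 4574423548) (nat_lit 456) (nat_lit 2135489611) (nat_lit 269) (nat_lit 5) (nat_lit 274) (nat_lit 5) (nat_lit 275) (nat_lit 4) (nat_lit 366) (nat_lit 330) (nat_lit 324)) (XT.lf (nat_lit 0) (nat_lit 4208670979) (nat_lit 456) (nat_lit 3697625388) (nat_lit 76) (nat_lit 694184589) (nat_lit 263) (nat_lit 5) (nat_lit 269) (nat_lit 5) (nat_lit 264) (nat_lit 4) (nat_lit 367) (nat_lit 330) (nat_lit 323))))) (XT.nd (nat_lit 234) (nat_lit 1976) (nat_lit 0) (XT.nd (nat_lit 78) (nat_lit 1140) (nat_lit 0) (XT.lf (nat_lit 0) (nat_lit 1961194141) (nat_lit 456) (nat_lit 590414259) (nat_lit 76) (nat_lit 6225925539) (nat_lit 257) (nat_lit 5) (nat_lit 263) (nat_lit 5) (nat_lit 258) (nat_lit 5) (nat_lit 368) (nat_lit 330) (nat_lit 322)) (XT.nd (nat_lit 78) (nat_lit 456) (nat_lit 0) (XT.lf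 (nat_lit 0) (nat_lit 2679457230) (nat_lit 304) (nat_lit 5832010344) (nat_lit 380) (nat_lit 451554046) (nat_lit 248) (nat_lit 5) (nat_lit 252) (nat_lit 5) (nat_lit 253) (nat_lit 4) (nat_lit 369) (nat_lit 330) (nat_lit 321)) (XT.lf (nat_lit 0) (nat_lit 6062430015) (nat_lit 456) (nat_lit 3091076937) (nat_lit 76) (nat_lit 3902987) (nat_lit 242) (nat_lit 5) (nat_lit 248) (nat_lit 5) (nat_lit 243) (nat_lit 4) (nat_lit 370) (nat_lit 330) (nat_lit 320)))) (XT.nd (nat_lit 156) (nat_lit 912) (nat_lit 0) (XT.nd (nat_lit 78) (nat_lit 380) (nat_lit 0) (XT.lf (nat_lit 0) (nat_lit 192504519) (nat_lit 304) (nat_lit 3259736302) (nat_lit 380) (nat_lit 5908431549) (nat_lit 233) (nat_lit 5) (nat_lit 237) (nat_lit 5) (nat_lit 238) (nat_lit 5) (nat_lit 371) (nat_lit 330) (nat_lit 319)) (XT.lf (nat_lit 0) (nat_lit 673226678) (nat_lit 380) (nat_lit 5911600684) (nat_lit 76) (nat_lit 2988240917) (nat_lit 228) (nat_lit 5)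 (nat_lit 233) (nat_lit 5) (nat_lit 229) (nat_lit 5) (nat_lit 372) (nat_lit 330) (nat_lit 318))) (XT.nd (nat_lit 78) (nat_lit 608) (nat_lit 0) (XT.lf (nat_lit 0) (nat_lit 7233184945) (nat_lit 304) (nat_lit 205473589) (nat_lit 380) (nat_lit 2356363886) (nat_lit 224) (nat_lit 5) (nat_lit 228) (nat_lit 5) (nat_lit 229) (nat_lit 5) (nat_lit 373) (nat_lit 330) (nat_lit 317)) (XT.lf (nat_lit 0) (nat_lit 888349304) (nat_lit 304) (nat_lit 3559763339) (nat_lit 380) (nat_lit 5578002354) (nat_lit 216) (nat_lit 5) (nat_lit 220) (nat_lit 5) (nat_lit 221) (nat_lit 5) (nat_lit 374) (nat_lit 330) (nat_lit 316))))))) (XT.nd (nat_lit 1014) (nat_lit 2812) (nat_lit 0) (XT.nd (nat_lit 468) (nat_lit 1824) (nat_lit 0) (XT.nd (nat_lit 234) (nat_lit 1064) (nat_lit 0) (XT.nd (nat_lit 78) (nat_lit 836) (nat_lit 0) (XT.lf (nat_lit 0) (nat_lit 1268671911) (nat_lit 304) (nat_lit 5751757863) (nat_lit 76) (nat_lit 3246737919)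 (nat_lit 212) (nat_lit 5) (nat_lit 216) (nat_lit 5) (nat_lit 213) (nat_lit 5) (nat_lit 375) (nat_lit 330) (nat_lit 315)) (XT.nd (nat_lit 78) (nat_lit 532) (nat_lit 0) (XT.lf (nat_lit 0) (nat_lit 8251282100) (nat_lit 304) (nat_lit 92004191) (nat_lit 380) (nat_lit 2175300858) (nat_lit 208) (nat_lit 5) (nat_lit 212) (nat_lit 5) (nat_lit 213) (nat_lit 5) (nat_lit 376) (nat_lit 330) (nat_lit 314)) (XT.lf (nat_lit 0) (nat_lit 1320469272) (nat_lit 228) (nat_lit 3624966660) (nat_lit 304) (nat_lit 5834090816) (nat_lit 201) (nat_lit 5) (nat_lit 204) (nat_lit 5) (nat_lit 205) (nat_lit 5) (nat_lit 377) (nat_lit 330) (nat_lit 313)))) (XT.nd (nat_lit 78) (nat_lit 760) (nat_lit 0) (XT.lf (nat_lit 0) (nat_lit 1337435159) (nat_lit 304) (nat_lit 5968277729) (nat_lit 76) (nat_lit 3745604667) (nat_lit 197) (nat_lit 5) (nat_lit 201) (nat_lit 5) (nat_lit 198) (nat_lit 5) (nat_lit 378) (nat_lit 330) (nat_lit 312)) (XT.nd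 (nat_lit 78) (nat_lit 532) (nat_lit 0) (XT.lf (nat_lit 0) (nat_lit 8770813075) (nat_lit 304) (nat_lit 2377932529) (nat_lit 76) (nat_lit 185501393) (nat_lit 194) (nat_lit 5) (nat_lit 198) (nat_lit 5) (nat_lit 195) (nat_lit 4) (nat_lit 379) (nat_lit 330) (nat_lit 311)) (XT.lf (nat_lit 0) (nat_lit 1318099436) (nat_lit 228) (nat_lit 3608794843) (nat_lit 304) (nat_lit 6700637442) (nat_lit 187) (nat_lit 5) (nat_lit 190) (nat_lit 5) (nat_lit 191) (nat_lit 5) (nat_lit 380) (nat_lit 330) (nat_lit 310))))) (XT.nd (nat_lit 234) (nat_lit 912) (nat_lit 0) (XT.nd (nat_lit 78) (nat_lit 684) (nat_lit 0) (XT.lf (nat_lit 0) (nat_lit 853760242) (nat_lit 228) (nat_lit 6737883091) (nat_lit 76) (nat_lit 4340880714) (nat_lit 184) (nat_lit 5) (nat_lit 187) (nat_lit 5) (nat_lit 185) (nat_lit 5) (nat_lit 381) (nat_lit 330) (nat_lit 309)) (XT.nd (nat_lit 78) (nat_lit 456) (nat_lit 0) (XT.lf (nat_lit 0) (nat_lit 8694353956)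 (nat_lit 304) (nat_lit 3071009239) (nat_lit 76) (nat_lit 484000838) (nat_lit 181) (nat_lit 5) (nat_lit 185) (nat_lit 5) (nat_lit 182) (nat_lit 4) (nat_lit 382) (nat_lit 330) (nat_lit 308)) (XT.lf (nat_lit 0) (nat_lit 699863914) (nat_lit 228) (nat_lit 3656320614) (nat_lit 304) (nat_lit 8221727353) (nat_lit 175) (nat_lit 5) (nat_lit 178) (nat_lit 5) (nat_lit 179) (nat_lit 5) (nat_lit 383) (nat_lit 330) (nat_lit 307)))) (XT.nd (nat_lit 156) (nat_lit 532) (nat_lit 0) (XT.nd (nat_lit 78) (nat_lit 228) (nat_lit 0) (XT.lf (nat_lit 0) (nat_lit 4666536294) (nat_lit 152) (nat_lit 8020666334) (nat_lit 228) (nat_lit 231694945) (nat_lit 173) (nat_lit 5) (nat_lit 175) (nat_lit 5) (nat_lit 176) (nat_lit 4) (nat_lit 384) (nat_lit 330) (nat_lit 306)) (XT.lf (nat_lit 0) (nat_lit 8067045325) (nat_lit 228) (nat_lit 4536321981) (nat_lit 76) (nat_lit 669160847) (nat_lit 170) (nat_lit 5) (nat_lit 173) (nat_lit 5) (nat_lit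 171) (nat_lit 4) (nat_lit 385) (nat_lit 330) (nat_lit 305))) (XT.nd (nat_lit 78) (nat_lit 304) (nat_lit 0) (XT.lf (nat_lit 0) (nat_lit 3185221656) (nat_lit 228) (nat_lit 716676254) (nat_lit 76) (nat_lit 9737544825) (nat_lit 167) (nat_lit 5) (nat_lit 170) (nat_lit 5) (nat_lit 168) (nat_lit 5) (nat_lit 386) (nat_lit 330) (nat_lit 304)) (XT.lf (nat_lit 0) (nat_lit 3288004357) (nat_lit 152) (nat_lit 8722995766) (nat_lit 228) (nat_lit 2008460856) (nat_lit 163) (nat_lit 5) (nat_lit 165) (nat_lit 5) (nat_lit 166) (nat_lit 4) (nat_lit 387) (nat_lit 330) (nat_lit 303)))))) (XT.nd (nat_lit 546) (nat_lit 1216) (nat_lit 0) (XT.nd (nat_lit 234) (nat_lit 836) (nat_lit 0) (XT.nd (nat_lit 78) (nat_lit 532) (nat_lit 0) (XT.lf (nat_lit 0) (nat_lit 6824340319) (nat_lit 228) (nat_lit 6983294322) (nat_lit 76) (nat_lit 605909092) (nat_lit 160) (nat_lit 5) (nat_lit 163) (nat_lit 5) (nat_lit 161) (nat_lit 4) (nat_lit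 388) (nat_lit 330) (nat_lit 302)) (XT.nd (nat_lit 78) (nat_lit 304) (nat_lit 0) (XT.lf (nat_lit 0) (nat_lit 1349342552) (nat_lit 228) (nat_lit 3128876162) (nat_lit 76) (nat_lit 10343875142) (nat_lit 157) (nat_lit 5) (nat_lit 160) (nat_lit 5) (nat_lit 158) (nat_lit 5) (nat_lit 389) (nat_lit 330) (nat_lit 301)) (XT.lf (nat_lit 0) (nat_lit 847978862) (nat_lit 152) (nat_lit 9852446071) (nat_lit 228) (nat_lit 4544715369) (nat_lit 153) (nat_lit 5) (nat_lit 155) (nat_lit 5) (nat_lit 156) (nat_lit 4) (nat_lit 390) (nat_lit 330) (nat_lit 300)))) (XT.nd (nat_lit 156) (nat_lit 532) (nat_lit 0) (XT.nd (nat_lit 78) (nat_lit 76) (nat_lit 0) (XT.lf (nat_lit 0) (nat_lit 4882482568) (nat_lit 228) (nat_lit 10644972634) (nat_lit 76) (nat_lit 156080917) (nat_lit 150) (nat_lit 5) (nat_lit 153) (nat_lit 5) (nat_lit 151) (nat_lit 4) (nat_lit 391) (nat_lit 330) (nat_lit 299)) (XT.lf (nat_lit 0) (nat_lit 9337333298) (nat_lit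 76) (nat_lit 5524941398) (nat_lit 152) (nat_lit 1274970335) (nat_lit 149) (nat_lit 5) (nat_lit 150) (nat_lit 5) (nat_lit 151) (nat_lit 4) (nat_lit 392) (nat_lit 330) (nat_lit 298))) (XT.nd (nat_lit 78) (nat_lit 304) (nat_lit 0) (XT.lf (nat_lit 0) (nat_lit 8689216200) (nat_lit 228) (nat_lit 2843009136) (nat_lit 76) (nat_lit 5074934181) (nat_lit 146) (nat_lit 5) (nat_lit 149) (nat_lit 5) (nat_lit 147) (nat_lit 4) (nat_lit 393) (nat_lit 330) (nat_lit 297)) (XT.lf (nat_lit 0) (nat_lit 1303530100) (nat_lit 152) (nat_lit 841957738) (nat_lit 228) (nat_lit 14949320666) (nat_lit 142) (nat_lit 5) (nat_lit 144) (nat_lit 5) (nat_lit 145) (nat_lit 5) (nat_lit 394) (nat_lit 330) (nat_lit 296))))) (XT.nd (nat_lit 234) (nat_lit 836) (nat_lit 0) (XT.nd (nat_lit 78) (nat_lit 304) (nat_lit 0) (XT.lf (nat_lit 0) (nat_lit 5591109302) (nat_lit 76) (nat_lit 7186469597) (nat_lit 152) (nat_lit 4820031870) (nat_lit 141)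 (nat_lit 5) (nat_lit 142) (nat_lit 5) (nat_lit 143) (nat_lit 4) (nat_lit 395) (nat_lit 330) (nat_lit 295)) (XT.nd (nat_lit 78) (nat_lit 76) (nat_lit 0) (XT.lf (nat_lit 0) (nat_lit 5857722300) (nat_lit 228) (nat_lit 8071861035) (nat_lit 76) (nat_lit 4189628086) (nat_lit 138) (nat_lit 5) (nat_lit 141) (nat_lit 5) (nat_lit 139) (nat_lit 4) (nat_lit 396) (nat_lit 330) (nat_lit 294)) (XT.lf (nat_lit 0) (nat_lit 14667445131) (nat_lit 76) (nat_lit 2489632051) (nat_lit 152) (nat_lit 1502761272) (nat_lit 137) (nat_lit 5) (nat_lit 138) (nat_lit 5) (nat_lit 139) (nat_lit 4) (nat_lit 397) (nat_lit 330) (nat_lit 293)))) (XT.nd (nat_lit 156) (nat_lit 304) (nat_lit 0) (XT.nd (nat_lit 78) (nat_lit 228) (nat_lit 0) (XT.lf (nat_lit 0) (nat_lit 178688731) (nat_lit 76) (nat_lit 9642157946) (nat_lit 152) (nat_lit 9397284071) (nat_lit 133) (nat_lit 5) (nat_lit 134) (nat_lit 5) (nat_lit 135) (nat_lit 4) (nat_lit 398)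 (nat_lit 330) (nat_lit 292)) (XT.lf (nat_lit 0) (nat_lit 2062758644) (nat_lit 228) (nat_lit 15164376071) (nat_lit 76) (nat_lit 2569504818) (nat_lit 130) (nat_lit 5) (nat_lit 133) (nat_lit 5) (nat_lit 131) (nat_lit 4) (nat_lit 399) (nat_lit 330) (nat_lit 291))) (XT.nd (nat_lit 78) (nat_lit 228) (nat_lit 0) (XT.lf (nat_lit 0) (nat_lit 9191432745) (nat_lit 76) (nat_lit 4948834837) (nat_lit 152) (nat_lit 6253850471) (nat_lit 129) (nat_lit 5) (nat_lit 130) (nat_lit 5) (nat_lit 131) (nat_lit 4) (nat_lit 400) (nat_lit 330) (nat_lit 290)) (XT.lf (nat_lit 0) (nat_lit 5914154708) (nat_lit 228) (nat_lit 7088588917) (nat_lit 76) (nat_lit 8010239558) (nat_lit 126) (nat_lit 5) (nat_lit 129) (nat_lit 5) (nat_lit 127) (nat_lit 4) (nat_lit 401) (nat_lit 330) (nat_lit 289))))))))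
noncomputable def xc31 : XT := (XT.nd (nat_lit 2106) (nat_lit 1520) (nat_lit 0) (XT.nd (nat_lit 1014) (nat_lit 1824) (nat_lit 0) (XT.nd (nat_lit 468) (nat_lit 988) (nat_lit 0) (XT.nd (nat_lit 234) (nat_lit 304) (nat_lit 0) (XT.nd (nat_lit 78) (nat_lit 532) (nat_lit 0) (XT.lf (nat_lit 0) (nat_lit 18770484597) (nat_lit 152) (nat_lit 2789970289) (nat_lit 0) (nat_lit 94201194) (nat_lit 125) (nat_lit 5) (nat_lit 127) (nat_lit 4) (nat_lit 125) (nat_lit 4) (nat_lit 402) (nat_lit 330) (nat_lit 288)) (XT.nd (nat_lit 78) (nat_lit 228) (nat_lit 0) (XT.lf (nat_lit 0) (nat_lit 1621718280) (nat_lit 76) (nat_lit 8442090082) (nat_lit 152) (nat_lit 12252240057) (nat_lit 121) (nat_lit 5) (nat_lit 122) (nat_lit 5) (nat_lit 123) (nat_lit 4) (nat_lit 403) (nat_lit 330) (nat_lit 287)) (XT.lf (nat_lit 0) (nat_lit 838880389) (nat_lit 228) (nat_lit 16678702604) (nat_lit 76) (nat_lit 5484085386) (nat_lit 118) (nat_lit 5)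 (nat_lit 121) (nat_lit 5) (nat_lit 119) (nat_lit 4) (nat_lit 404) (nat_lit 330) (nat_lit 286)))) (XT.nd (nat_lit 78) (nat_lit 228) (nat_lit 0) (XT.lf (nat_lit 0) (nat_lit 11150879945) (nat_lit 76) (nat_lit 3454211632) (nat_lit 152) (nat_lit 9104620587) (nat_lit 117) (nat_lit 5) (nat_lit 118) (nat_lit 5) (nat_lit 119) (nat_lit 4) (nat_lit 405) (nat_lit 330) (nat_lit 285)) (XT.nd (nat_lit 78) (nat_lit 76) (nat_lit 0) (XT.lf (nat_lit 0) (nat_lit 4824476250) (nat_lit 152) (nat_lit 8272106013) (nat_lit 76) (nat_lit 11346010184) (nat_lit 115) (nat_lit 5) (nat_lit 117) (nat_lit 5) (nat_lit 116) (nat_lit 4) (nat_lit 406) (nat_lit 330) (nat_lit 284)) (XT.lf (nat_lit 0) (nat_lit 19522828154) (nat_lit 152) (nat_lit 3794554821) (nat_lit 0) (nat_lit 1884196494) (nat_lit 114) (nat_lit 5) (nat_lit 116) (nat_lit 4) (nat_lit 114) (nat_lit 4) (nat_lit 407) (nat_lit 330) (nat_lit 283))))) (XT.nd (nat_lit 234) (nat_lit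 532) (nat_lit 0) (XT.nd (nat_lit 78) (nat_lit 228) (nat_lit 0) (XT.lf (nat_lit 0) (nat_lit 827385121) (nat_lit 76) (nat_lit 8315633700) (nat_lit 152) (nat_lit 16842106898) (nat_lit 111) (nat_lit 5) (nat_lit 112) (nat_lit 5) (nat_lit 113) (nat_lit 4) (nat_lit 408) (nat_lit 330) (nat_lit 282)) (XT.nd (nat_lit 78) (nat_lit 152) (nat_lit 0) (XT.lf (nat_lit 0) (nat_lit 5759539914) (nat_lit 76) (nat_lit 19170021308) (nat_lit 76) (nat_lit 1866367430) (nat_lit 110) (nat_lit 4) (nat_lit 111) (nat_lit 5) (nat_lit 111) (nat_lit 4) (nat_lit 409) (nat_lit 330) (nat_lit 281)) (XT.lf (nat_lit 0) (nat_lit 10853008022) (nat_lit 76) (nat_lit 3058180939) (nat_lit 152) (nat_lit 13722382801) (nat_lit 108) (nat_lit 5) (nat_lit 109) (nat_lit 5) (nat_lit 110) (nat_lit 4) (nat_lit 410) (nat_lit 330) (nat_lit 280)))) (XT.nd (nat_lit 156) (nat_lit 304) (nat_lit 0) (XT.nd (nat_lit 78) (nat_lit 76) (nat_lit 0) (XT.lf (nat_lit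 0) (nat_lit 2276798609) (nat_lit 152) (nat_lit 12335188552) (nat_lit 76) (nat_lit 13888362644) (nat_lit 106) (nat_lit 5) (nat_lit 108) (nat_lit 5) (nat_lit 107) (nat_lit 4) (nat_lit 411) (nat_lit 330) (nat_lit 279)) (XT.lf (nat_lit 0) (nat_lit 19112788008) (nat_lit 152) (nat_lit 7705395291) (nat_lit 0) (nat_lit 2578588030) (nat_lit 105) (nat_lit 5) (nat_lit 107) (nat_lit 4) (nat_lit 105) (nat_lit 4) (nat_lit 412) (nat_lit 330) (nat_lit 278))) (XT.nd (nat_lit 78) (nat_lit 152) (nat_lit 0) (XT.lf (nat_lit 0) (nat_lit 6751951365) (nat_lit 152) (nat_lit 2895363528) (nat_lit 76) (nat_lit 20676079222) (nat_lit 103) (nat_lit 5) (nat_lit 105) (nat_lit 5) (nat_lit 104) (nat_lit 4) (nat_lit 413) (nat_lit 330) (nat_lit 277)) (XT.lf (nat_lit 0) (nat_lit 2177689755) (nat_lit 76) (nat_lit 22642309364) (nat_lit 76) (nat_lit 6461504126) (nat_lit 101) (nat_lit 4) (nat_lit 102) (nat_lit 5) (nat_lit 102) (nat_lit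 4) (nat_lit 414) (nat_lit 330) (nat_lit 276)))))) (XT.nd (nat_lit 546) (nat_lit 912) (nat_lit 0) (XT.nd (nat_lit 234) (nat_lit 532) (nat_lit 0) (XT.nd (nat_lit 78) (nat_lit 228) (nat_lit 0) (XT.lf (nat_lit 0) (nat_lit 7526737275) (nat_lit 76) (nat_lit 4181190648) (nat_lit 152) (nat_lit 20563418035) (nat_lit 99) (nat_lit 5) (nat_lit 100) (nat_lit 5) (nat_lit 101) (nat_lit 4) (nat_lit 415) (nat_lit 330) (nat_lit 275)) (XT.nd (nat_lit 78) (nat_lit 152) (nat_lit 0) (XT.lf (nat_lit 0) (nat_lit 13108486796) (nat_lit 76) (nat_lit 18004426553) (nat_lit 76) (nat_lit 2182026733) (nat_lit 98) (nat_lit 4) (nat_lit 99) (nat_lit 5) (nat_lit 99) (nat_lit 4) (nat_lit 416) (nat_lit 330) (nat_lit 274)) (XT.lf (nat_lit 0) (nat_lit 17170199694) (nat_lit 152) (nat_lit 15425270930) (nat_lit 0) (nat_lit 1757732464) (nat_lit 96) (nat_lit 5) (nat_lit 98) (nat_lit 4) (nat_lit 96) (nat_lit 4) (nat_lit 417) (nat_lit 330)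 (nat_lit 273)))) (XT.nd (nat_lit 156) (nat_lit 304) (nat_lit 0) (XT.nd (nat_lit 78) (nat_lit 76) (nat_lit 0) (XT.lf (nat_lit 0) (nat_lit 2469498981) (nat_lit 152) (nat_lit 10447873828) (nat_lit 76) (nat_lit 22529977574) (nat_lit 94) (nat_lit 5) (nat_lit 96) (nat_lit 5) (nat_lit 95) (nat_lit 4) (nat_lit 418) (nat_lit 330) (nat_lit 272)) (XT.lf (nat_lit 0) (nat_lit 23185869128) (nat_lit 152) (nat_lit 5261737589) (nat_lit 0) (nat_lit 8130396055) (nat_lit 93) (nat_lit 5) (nat_lit 95) (nat_lit 4) (nat_lit 93) (nat_lit 4) (nat_lit 419) (nat_lit 330) (nat_lit 271))) (XT.nd (nat_lit 78) (nat_lit 76) (nat_lit 0) (XT.lf (nat_lit 0) (nat_lit 203699926) (nat_lit 76) (nat_lit 7334168753) (nat_lit 152) (nat_lit 30210101586) (nat_lit 90) (nat_lit 5) (nat_lit 91) (nat_lit 5) (nat_lit 92) (nat_lit 4) (nat_lit 420) (nat_lit 330) (nat_lit 270)) (XT.lf (nat_lit 0) (nat_lit 5995467482) (nat_lit 76) (nat_lit 23828646433)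 (nat_lit 76) (nat_lit 9130742976) (nat_lit 89) (nat_lit 4) (nat_lit 90) (nat_lit 5) (nat_lit 90) (nat_lit 4) (nat_lit 421) (nat_lit 330) (nat_lit 269))))) (XT.nd (nat_lit 234) (nat_lit 532) (nat_lit 0) (XT.nd (nat_lit 78) (nat_lit 228) (nat_lit 0) (XT.lf (nat_lit 0) (nat_lit 12109777767) (nat_lit 76) (nat_lit 1114499912) (nat_lit 152) (nat_lit 26979797866) (nat_lit 87) (nat_lit 5) (nat_lit 88) (nat_lit 5) (nat_lit 89) (nat_lit 4) (nat_lit 422) (nat_lit 330) (nat_lit 268)) (XT.nd (nat_lit 78) (nat_lit 152) (nat_lit 0) (XT.lf (nat_lit 0) (nat_lit 18455629700) (nat_lit 76) (nat_lit 18689692624) (nat_lit 76) (nat_lit 4348607385) (nat_lit 86) (nat_lit 4) (nat_lit 87) (nat_lit 5) (nat_lit 87) (nat_lit 4) (nat_lit 423) (nat_lit 330) (nat_lit 267)) (XT.lf (nat_lit 0) (nat_lit 19534005475) (nat_lit 152) (nat_lit 17715238346) (nat_lit 0) (nat_lit 5578473058) (nat_lit 84) (nat_lit 5) (nat_lit 86) (nat_lit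 4) (nat_lit 84) (nat_lit 4) (nat_lit 424) (nat_lit 330) (nat_lit 266)))) (XT.nd (nat_lit 156) (nat_lit 304) (nat_lit 0) (XT.nd (nat_lit 78) (nat_lit 76) (nat_lit 0) (XT.lf (nat_lit 0) (nat_lit 933031085) (nat_lit 152) (nat_lit 12092097113) (nat_lit 76) (nat_lit 31182343137) (nat_lit 82) (nat_lit 5) (nat_lit 84) (nat_lit 5) (nat_lit 83) (nat_lit 4) (nat_lit 425) (nat_lit 330) (nat_lit 265)) (XT.lf (nat_lit 0) (nat_lit 26486605774) (nat_lit 152) (nat_lit 6265262814) (nat_lit 0) (nat_lit 12879508660) (nat_lit 81) (nat_lit 5) (nat_lit 83) (nat_lit 4) (nat_lit 81) (nat_lit 4) (nat_lit 426) (nat_lit 330) (nat_lit 264))) (XT.nd (nat_lit 78) (nat_lit 152) (nat_lit 0) (XT.lf (nat_lit 0) (nat_lit 6691379193) (nat_lit 152) (nat_lit 50559726) (nat_lit 76) (nat_lit 40364129638) (nat_lit 79) (nat_lit 5) (nat_lit 81) (nat_lit 5) (nat_lit 80) (nat_lit 4) (nat_lit 427) (nat_lit 330) (nat_lit 263)) (XT.lf (nat_lit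 0) (nat_lit 6505652933) (nat_lit 76) (nat_lit 27690920526) (nat_lit 76) (nat_lit 14429039028) (nat_lit 77) (nat_lit 4) (nat_lit 78) (nat_lit 5) (nat_lit 78) (nat_lit 4) (nat_lit 428) (nat_lit 330) (nat_lit 262))))))) (XT.nd (nat_lit 47658) (nat_lit 0) (nat_lit 12996) (XT.nd (nat_lit 468) (nat_lit 760) (nat_lit 0) (XT.nd (nat_lit 234) (nat_lit 380) (nat_lit 0) (XT.nd (nat_lit 78) (nat_lit 228) (nat_lit 0) (XT.lf (nat_lit 0) (nat_lit 13202215041) (nat_lit 152) (nat_lit 36693745510) (nat_lit 0) (nat_lit 303550122) (nat_lit 75) (nat_lit 5) (nat_lit 77) (nat_lit 4) (nat_lit 75) (nat_lit 4) (nat_lit 429) (nat_lit 330) (nat_lit 261)) (XT.nd (nat_lit 78) (nat_lit 152) (nat_lit 0) (XT.lf (nat_lit 0) (nat_lit 20743429889) (nat_lit 76) (nat_lit 22000099838) (nat_lit 76) (nat_lit 9079480810) (nat_lit 74) (nat_lit 4) (nat_lit 75) (nat_lit 5) (nat_lit 75) (nat_lit 4) (nat_lit 430) (nat_lit 330) (nat_lit 260))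 (XT.lf (nat_lit 0) (nat_lit 20481369845) (nat_lit 152) (nat_lit 25104440963) (nat_lit 0) (nat_lit 7916779842) (nat_lit 72) (nat_lit 5) (nat_lit 74) (nat_lit 4) (nat_lit 72) (nat_lit 4) (nat_lit 431) (nat_lit 330) (nat_lit 259)))) (XT.nd (nat_lit 78) (nat_lit 304) (nat_lit 0) (XT.lf (nat_lit 0) (nat_lit 36458417580) (nat_lit 76) (nat_lit 15682354870) (nat_lit 76) (nat_lit 3098431834) (nat_lit 71) (nat_lit 4) (nat_lit 72) (nat_lit 5) (nat_lit 72) (nat_lit 4) (nat_lit 432) (nat_lit 330) (nat_lit 258)) (XT.nd (nat_lit 78) (nat_lit 152) (nat_lit 0) (XT.lf (nat_lit 0) (nat_lit 28533815458) (nat_lit 152) (nat_lit 12199149188) (nat_lit 0) (nat_lit 16298538323) (nat_lit 69) (nat_lit 5) (nat_lit 71) (nat_lit 4) (nat_lit 69) (nat_lit 4) (nat_lit 433) (nat_lit 330) (nat_lit 257)) (XT.lf (nat_lit 0) (nat_lit 3510399451) (nat_lit 152) (nat_lit 5126191132) (nat_lit 76) (nat_lit 50251305302) (nat_lit 67) (nat_lit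 5) (nat_lit 69) (nat_lit 5) (nat_lit 68) (nat_lit 4) (nat_lit 434) (nat_lit 330) (nat_lit 256))))) (XT.nd (nat_lit 234) (nat_lit 380) (nat_lit 0) (XT.nd (nat_lit 78) (nat_lit 228) (nat_lit 0) (XT.lf (nat_lit 0) (nat_lit 2201795200) (nat_lit 76) (nat_lit 35255103916) (nat_lit 76) (nat_lit 23343923144) (nat_lit 65) (nat_lit 4) (nat_lit 66) (nat_lit 5) (nat_lit 66) (nat_lit 4) (nat_lit 435) (nat_lit 330) (nat_lit 255)) (XT.nd (nat_lit 78) (nat_lit 76) (nat_lit 0) (XT.lf (nat_lit 0) (nat_lit 10224183007) (nat_lit 76) (nat_lit 687322451) (nat_lit 152) (nat_lit 51870291773) (nat_lit 63) (nat_lit 5) (nat_lit 64) (nat_lit 5) (nat_lit 65) (nat_lit 4) (nat_lit 436) (nat_lit 330) (nat_lit 254)) (XT.lf (nat_lit 0) (nat_lit 18478615578) (nat_lit 76) (nat_lit 28968715224) (nat_lit 76) (nat_lit 17376043906) (nat_lit 62) (nat_lit 4) (nat_lit 63) (nat_lit 5) (nat_lit 63) (nat_lit 4) (nat_lit 437) (nat_lit 330)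 (nat_lit 253)))) (XT.nd (nat_lit 156) (nat_lit 152) (nat_lit 0) (XT.nd (nat_lit 78) (nat_lit 76) (nat_lit 0) (XT.lf (nat_lit 0) (nat_lit 19288891789) (nat_lit 152) (nat_lit 39627242084) (nat_lit 0) (nat_lit 8021053239) (nat_lit 60) (nat_lit 5) (nat_lit 62) (nat_lit 4) (nat_lit 60) (nat_lit 4) (nat_lit 438) (nat_lit 330) (nat_lit 252)) (XT.lf (nat_lit 0) (nat_lit 36553083101) (nat_lit 76) (nat_lit 21923512660) (nat_lit 76) (nat_lit 10643466630) (nat_lit 59) (nat_lit 4) (nat_lit 60) (nat_lit 5) (nat_lit 60) (nat_lit 4) (nat_lit 439) (nat_lit 330) (nat_lit 251))) (XT.nd (nat_lit 46722) (nat_lit 0) (nat_lit 21888) (XT.lf (nat_lit 0) (nat_lit 28614075325) (nat_lit 152) (nat_lit 25109994262) (nat_lit 0) (nat_lit 17651286780) (nat_lit 57) (nat_lit 5) (nat_lit 59) (nat_lit 4) (nat_lit 57) (nat_lit 4) (nat_lit 440) (nat_lit 330) (nat_lit 250)) (XT.lf (nat_lit 0) (nat_lit 1588499418) (nat_lit 608) (nat_lit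 1049400643) (nat_lit 608) (nat_lit 1049400643) (nat_lit 345) (nat_lit 4) (nat_lit 353) (nat_lit 5) (nat_lit 353) (nat_lit 4) (nat_lit 358) (nat_lit 331) (nat_lit 331)))))) (XT.nd (nat_lit 546) (nat_lit 3952) (nat_lit 0) (XT.nd (nat_lit 234) (nat_lit 2508) (nat_lit 0) (XT.nd (nat_lit 78) (nat_lit 1824) (nat_lit 0) (XT.lf (nat_lit 0) (nat_lit 3981507888) (nat_lit 608) (nat_lit 1971906123) (nat_lit 0) (nat_lit 1529032619) (nat_lit 337) (nat_lit 5) (nat_lit 345) (nat_lit 4) (nat_lit 337) (nat_lit 4) (nat_lit 359) (nat_lit 331) (nat_lit 330)) (XT.nd (nat_lit 78) (nat_lit 608) (nat_lit 0) (XT.lf (nat_lit 0) (nat_lit 371793879) (nat_lit 532) (nat_lit 2170058277) (nat_lit 608) (nat_lit 5056390812) (nat_lit 321) (nat_lit 5) (nat_lit 328) (nat_lit 5) (nat_lit 329) (nat_lit 4) (nat_lit 360) (nat_lit 331) (nat_lit 329)) (XT.lf (nat_lit 0) (nat_lit 965616454) (nat_lit 608) (nat_lit 4848180505) (nat_lit 76)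 (nat_lit 1907934136) (nat_lit 313) (nat_lit 5) (nat_lit 321) (nat_lit 5) (nat_lit 314) (nat_lit 4) (nat_lit 361) (nat_lit 331) (nat_lit 328)))) (XT.nd (nat_lit 156) (nat_lit 988) (nat_lit 0) (XT.nd (nat_lit 78) (nat_lit 1064) (nat_lit 0) (XT.lf (nat_lit 0) (nat_lit 5485906841) (nat_lit 456) (nat_lit 1583612388) (nat_lit 532) (nat_lit 783811428) (nat_lit 307) (nat_lit 5) (nat_lit 313) (nat_lit 5) (nat_lit 314) (nat_lit 4) (nat_lit 362) (nat_lit 331) (nat_lit 327)) (XT.lf (nat_lit 0) (nat_lit 213503379) (nat_lit 456) (nat_lit 5068440484) (nat_lit 532) (nat_lit 2710926666) (nat_lit 293) (nat_lit 5) (nat_lit 299) (nat_lit 5) (nat_lit 300) (nat_lit 4) (nat_lit 363) (nat_lit 331) (nat_lit 326))) (XT.nd (nat_lit 78) (nat_lit 456) (nat_lit 0) (XT.lf (nat_lit 0) (nat_lit 2965032408) (nat_lit 456) (nat_lit 383218464) (nat_lit 532) (nat_lit 4792270413) (nat_lit 286) (nat_lit 5) (nat_lit 292) (nat_lit 5) (nat_lit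 293) (nat_lit 5) (nat_lit 364) (nat_lit 331) (nat_lit 325)) (XT.lf (nat_lit 0) (nat_lit 1266404235) (nat_lit 456) (nat_lit 2480874554) (nat_lit 76) (nat_lit 4549077616) (nat_lit 280) (nat_lit 5) (nat_lit 286) (nat_lit 5) (nat_lit 281) (nat_lit 5) (nat_lit 365) (nat_lit 331) (nat_lit 324))))) (XT.nd (nat_lit 234) (nat_lit 2204) (nat_lit 0) (XT.nd (nat_lit 78) (nat_lit 912) (nat_lit 0) (XT.lf (nat_lit 0) (nat_lit 331442950) (nat_lit 380) (nat_lit 7116290922) (nat_lit 456) (nat_lit 1013260979) (nat_lit 269) (nat_lit 5) (nat_lit 274) (nat_lit 5) (nat_lit 275) (nat_lit 4) (nat_lit 366) (nat_lit 331) (nat_lit 323)) (XT.nd (nat_lit 78) (nat_lit 456) (nat_lit 0) (XT.lf (nat_lit 0) (nat_lit 3285247018) (nat_lit 380) (nat_lit 1884961164) (nat_lit 456) (nat_lit 3463043940) (nat_lit 263) (nat_lit 5) (nat_lit 268) (nat_lit 5) (nat_lit 269) (nat_lit 5) (nat_lit 367) (nat_lit 331) (nat_lit 322)) (XT.lf (nat_lit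 0) (nat_lit 2721885278) (nat_lit 456) (nat_lit 2463808059) (nat_lit 76) (nat_lit 3628842474) (nat_lit 257) (nat_lit 5) (nat_lit 263) (nat_lit 5) (nat_lit 258) (nat_lit 5) (nat_lit 368) (nat_lit 331) (nat_lit 321)))) (XT.nd (nat_lit 156) (nat_lit 1064) (nat_lit 0) (XT.nd (nat_lit 78) (nat_lit 380) (nat_lit 0) (XT.lf (nat_lit 0) (nat_lit 88723679) (nat_lit 380) (nat_lit 8455356269) (nat_lit 76) (nat_lit 461208100) (nat_lit 247) (nat_lit 5) (nat_lit 252) (nat_lit 5) (nat_lit 248) (nat_lit 5) (nat_lit 369) (nat_lit 331) (nat_lit 320)) (XT.lf (nat_lit 0) (nat_lit 3681882486) (nat_lit 380) (nat_lit 2779758129) (nat_lit 456) (nat_lit 2741873204) (nat_lit 242) (nat_lit 5) (nat_lit 247) (nat_lit 5) (nat_lit 248) (nat_lit 5) (nat_lit 370) (nat_lit 331) (nat_lit 319))) (XT.nd (nat_lit 78) (nat_lit 684) (nat_lit 0) (XT.lf (nat_lit 0) (nat_lit 3637089269) (nat_lit 380) (nat_lit 2478641915) (nat_lit 76) (nat_lit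 3295784276) (nat_lit 237) (nat_lit 5) (nat_lit 242) (nat_lit 5) (nat_lit 238) (nat_lit 5) (nat_lit 371) (nat_lit 331) (nat_lit 318)) (XT.lf (nat_lit 0) (nat_lit 616646393) (nat_lit 380) (nat_lit 8932782393) (nat_lit 76) (nat_lit 80083060) (nat_lit 228) (nat_lit 5) (nat_lit 233) (nat_lit 5) (nat_lit 229) (nat_lit 5) (nat_lit 372) (nat_lit 331) (nat_lit 317))))))))
noncomputable def xc32 : XT := (XT.nd (nat_lit 2028) (nat_lit 3800) (nat_lit 0) (XT.nd (nat_lit 1014) (nat_lit 2736) (nat_lit 0) (XT.nd (nat_lit 468) (nat_lit 2052) (nat_lit 0) (XT.nd (nat_lit 234) (nat_lit 1140) (nat_lit 0) (XT.nd (nat_lit 78) (nat_lit 912) (nat_lit 0) (XT.lf (nat_lit 0) (nat_lit 3988213164) (nat_lit 304) (nat_lit 3259539559) (nat_lit 380) (nat_lit 2607743030) (nat_lit 224) (nat_lit 5) (nat_lit 228) (nat_lit 5) (nat_lit 229) (nat_lit 5) (nat_lit 373) (nat_lit 331) (nat_lit 316)) (XT.nd (nat_lit 78) (nat_lit 608) (nat_lit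 0) (XT.lf (nat_lit 0) (nat_lit 4028194687) (nat_lit 304) (nat_lit 2693084505) (nat_lit 76) (nat_lit 3370584953) (nat_lit 220) (nat_lit 5) (nat_lit 224) (nat_lit 5) (nat_lit 221) (nat_lit 5) (nat_lit 374) (nat_lit 331) (nat_lit 315)) (XT.lf (nat_lit 0) (nat_lit 595908433) (nat_lit 304) (nat_lit 9725182891) (nat_lit 76) (nat_lit 17862777) (nat_lit 212) (nat_lit 5) (nat_lit 216) (nat_lit 5) (nat_lit 213) (nat_lit 5) (nat_lit 375) (nat_lit 331) (nat_lit 314)))) (XT.nd (nat_lit 78) (nat_lit 836) (nat_lit 0) (XT.lf (nat_lit 0) (nat_lit 4037055739) (nat_lit 304) (nat_lit 3495235247) (nat_lit 380) (nat_lit 3062229528) (nat_lit 208) (nat_lit 5) (nat_lit 212) (nat_lit 5) (nat_lit 213) (nat_lit 5) (nat_lit 376) (nat_lit 331) (nat_lit 313)) (XT.nd (nat_lit 78) (nat_lit 532) (nat_lit 0) (XT.lf (nat_lit 0) (nat_lit 3890320429) (nat_lit 304) (nat_lit 3277718394) (nat_lit 76) (nat_lit 3693241879) (nat_lit 204)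 (nat_lit 5) (nat_lit 208) (nat_lit 5) (nat_lit 205) (nat_lit 5) (nat_lit 377) (nat_lit 331) (nat_lit 312)) (XT.lf (nat_lit 0) (nat_lit 11347867) (nat_lit 304) (nat_lit 11010959883) (nat_lit 76) (nat_lit 117433676) (nat_lit 197) (nat_lit 5) (nat_lit 201) (nat_lit 5) (nat_lit 198) (nat_lit 5) (nat_lit 378) (nat_lit 331) (nat_lit 311))))) (XT.nd (nat_lit 234) (nat_lit 1292) (nat_lit 0) (XT.nd (nat_lit 78) (nat_lit 532) (nat_lit 0) (XT.lf (nat_lit 0) (nat_lit 3655793288) (nat_lit 228) (nat_lit 3643208965) (nat_lit 304) (nat_lit 4128040319) (nat_lit 194) (nat_lit 5) (nat_lit 197) (nat_lit 5) (nat_lit 198) (nat_lit 5) (nat_lit 379) (nat_lit 331) (nat_lit 310)) (XT.nd (nat_lit 78) (nat_lit 228) (nat_lit 0) (XT.lf (nat_lit 0) (nat_lit 3198746129) (nat_lit 304) (nat_lit 4410855983) (nat_lit 76) (nat_lit 4116998569) (nat_lit 190) (nat_lit 5) (nat_lit 194) (nat_lit 5) (nat_lit 191) (nat_lit 5) (nat_lit 380)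 (nat_lit 331) (nat_lit 309)) (XT.lf (nat_lit 0) (nat_lit 10852577316) (nat_lit 304) (nat_lit 932807319) (nat_lit 76) (nat_lit 253143522) (nat_lit 187) (nat_lit 5) (nat_lit 191) (nat_lit 5) (nat_lit 188) (nat_lit 4) (nat_lit 381) (nat_lit 331) (nat_lit 308)))) (XT.nd (nat_lit 156) (nat_lit 608) (nat_lit 0) (XT.nd (nat_lit 78) (nat_lit 228) (nat_lit 0) (XT.lf (nat_lit 0) (nat_lit 2661581281) (nat_lit 228) (nat_lit 3850866374) (nat_lit 304) (nat_lit 5848222613) (nat_lit 181) (nat_lit 5) (nat_lit 184) (nat_lit 5) (nat_lit 185) (nat_lit 5) (nat_lit 382) (nat_lit 331) (nat_lit 307)) (XT.lf (nat_lit 0) (nat_lit 1909511920) (nat_lit 228) (nat_lit 6283276560) (nat_lit 76) (nat_lit 4503037215) (nat_lit 178) (nat_lit 5) (nat_lit 181) (nat_lit 5) (nat_lit 179) (nat_lit 5) (nat_lit 383) (nat_lit 331) (nat_lit 306))) (XT.nd (nat_lit 78) (nat_lit 380) (nat_lit 0) (XT.lf (nat_lit 0) (nat_lit 10003160233) (nat_lit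 304) (nat_lit 2761682944) (nat_lit 76) (nat_lit 279089303) (nat_lit 175) (nat_lit 5) (nat_lit 179) (nat_lit 5) (nat_lit 176) (nat_lit 4) (nat_lit 384) (nat_lit 331) (nat_lit 305)) (XT.lf (nat_lit 0) (nat_lit 856599234) (nat_lit 152) (nat_lit 4261641532) (nat_lit 228) (nat_lit 8285968647) (nat_lit 170) (nat_lit 5) (nat_lit 172) (nat_lit 5) (nat_lit 173) (nat_lit 5) (nat_lit 385) (nat_lit 331) (nat_lit 304)))))) (XT.nd (nat_lit 468) (nat_lit 1368) (nat_lit 0) (XT.nd (nat_lit 234) (nat_lit 760) (nat_lit 0) (XT.nd (nat_lit 78) (nat_lit 456) (nat_lit 0) (XT.lf (nat_lit 0) (nat_lit 4674790147) (nat_lit 152) (nat_lit 9062024477) (nat_lit 228) (nat_lit 41347426) (nat_lit 168) (nat_lit 5) (nat_lit 170) (nat_lit 5) (nat_lit 171) (nat_lit 4) (nat_lit 386) (nat_lit 331) (nat_lit 303)) (XT.nd (nat_lit 78) (nat_lit 228) (nat_lit 0) (XT.lf (nat_lit 0) (nat_lit 8537880377) (nat_lit 228) (nat_lit 5570479907) (nat_lit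 76) (nat_lit 57252659) (nat_lit 165) (nat_lit 5) (nat_lit 168) (nat_lit 5) (nat_lit 166) (nat_lit 4) (nat_lit 387) (nat_lit 331) (nat_lit 302)) (XT.lf (nat_lit 0) (nat_lit 3061761208) (nat_lit 228) (nat_lit 1938202650) (nat_lit 76) (nat_lit 9567193530) (nat_lit 162) (nat_lit 5) (nat_lit 165) (nat_lit 5) (nat_lit 163) (nat_lit 5) (nat_lit 388) (nat_lit 331) (nat_lit 301)))) (XT.nd (nat_lit 78) (nat_lit 456) (nat_lit 0) (XT.lf (nat_lit 0) (nat_lit 1856502528) (nat_lit 152) (nat_lit 10338184747) (nat_lit 228) (nat_lit 2788659746) (nat_lit 158) (nat_lit 5) (nat_lit 160) (nat_lit 5) (nat_lit 161) (nat_lit 4) (nat_lit 389) (nat_lit 331) (nat_lit 300)) (XT.nd (nat_lit 78) (nat_lit 228) (nat_lit 0) (XT.lf (nat_lit 0) (nat_lit 5816191315) (nat_lit 152) (nat_lit 562738497) (nat_lit 228) (nat_lit 9035405133) (nat_lit 155) (nat_lit 5) (nat_lit 157) (nat_lit 5) (nat_lit 158) (nat_lit 5) (nat_lit 390) (nat_lit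 331) (nat_lit 299)) (XT.lf (nat_lit 0) (nat_lit 250816362) (nat_lit 228) (nat_lit 5962335040) (nat_lit 76) (nat_lit 9647732557) (nat_lit 152) (nat_lit 5) (nat_lit 155) (nat_lit 5) (nat_lit 153) (nat_lit 5) (nat_lit 391) (nat_lit 331) (nat_lit 298))))) (XT.nd (nat_lit 234) (nat_lit 836) (nat_lit 0) (XT.nd (nat_lit 78) (nat_lit 380) (nat_lit 0) (XT.lf (nat_lit 0) (nat_lit 9945662411) (nat_lit 228) (nat_lit 2225213171) (nat_lit 76) (nat_lit 4152265671) (nat_lit 150) (nat_lit 5) (nat_lit 153) (nat_lit 5) (nat_lit 151) (nat_lit 4) (nat_lit 392) (nat_lit 331) (nat_lit 297)) (XT.nd (nat_lit 78) (nat_lit 76) (nat_lit 0) (XT.lf (nat_lit 0) (nat_lit 1695370566) (nat_lit 152) (nat_lit 1727762062) (nat_lit 228) (nat_lit 13379288865) (nat_lit 146) (nat_lit 5) (nat_lit 148) (nat_lit 5) (nat_lit 149) (nat_lit 5) (nat_lit 393) (nat_lit 331) (nat_lit 296)) (XT.lf (nat_lit 0) (nat_lit 5763928647) (nat_lit 76) (nat_lit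 8029989696) (nat_lit 152) (nat_lit 3503491908) (nat_lit 145) (nat_lit 5) (nat_lit 146) (nat_lit 5) (nat_lit 147) (nat_lit 4) (nat_lit 394) (nat_lit 331) (nat_lit 295)))) (XT.nd (nat_lit 156) (nat_lit 532) (nat_lit 0) (XT.nd (nat_lit 78) (nat_lit 76) (nat_lit 0) (XT.lf (nat_lit 0) (nat_lit 6886306311) (nat_lit 228) (nat_lit 7825375594) (nat_lit 76) (nat_lit 3098860701) (nat_lit 142) (nat_lit 5) (nat_lit 145) (nat_lit 5) (nat_lit 143) (nat_lit 4) (nat_lit 395) (nat_lit 331) (nat_lit 294)) (XT.lf (nat_lit 0) (nat_lit 14366903313) (nat_lit 76) (nat_lit 3552218111) (nat_lit 152) (nat_lit 423289976) (nat_lit 141) (nat_lit 5) (nat_lit 142) (nat_lit 5) (nat_lit 143) (nat_lit 4) (nat_lit 396) (nat_lit 331) (nat_lit 293))) (XT.nd (nat_lit 78) (nat_lit 304) (nat_lit 0) (XT.lf (nat_lit 0) (nat_lit 10599267169) (nat_lit 228) (nat_lit 40301893) (nat_lit 76) (nat_lit 8252143167) (nat_lit 138) (nat_lit 5) (nat_lit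 141) (nat_lit 5) (nat_lit 139) (nat_lit 4) (nat_lit 397) (nat_lit 331) (nat_lit 292)) (XT.lf (nat_lit 0) (nat_lit 2864243420) (nat_lit 228) (nat_lit 15289231106) (nat_lit 76) (nat_lit 1307470316) (nat_lit 134) (nat_lit 5) (nat_lit 137) (nat_lit 5) (nat_lit 135) (nat_lit 4) (nat_lit 398) (nat_lit 331) (nat_lit 291))))))) (XT.nd (nat_lit 1014) (nat_lit 1824) (nat_lit 0) (XT.nd (nat_lit 468) (nat_lit 988) (nat_lit 0) (XT.nd (nat_lit 234) (nat_lit 608) (nat_lit 0) (XT.nd (nat_lit 78) (nat_lit 304) (nat_lit 0) (XT.lf (nat_lit 0) (nat_lit 8482409448) (nat_lit 76) (nat_lit 6173962500) (nat_lit 152) (nat_lit 5392330849) (nat_lit 133) (nat_lit 5) (nat_lit 134) (nat_lit 5) (nat_lit 135) (nat_lit 4) (nat_lit 399) (nat_lit 331) (nat_lit 290)) (XT.nd (nat_lit 78) (nat_lit 76) (nat_lit 0) (XT.lf (nat_lit 0) (nat_lit 6460075041) (nat_lit 228) (nat_lit 7690400181) (nat_lit 76) (nat_lit 6507170933) (nat_lit 130)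 (nat_lit 5) (nat_lit 133) (nat_lit 5) (nat_lit 131) (nat_lit 4) (nat_lit 400) (nat_lit 331) (nat_lit 289)) (XT.lf (nat_lit 0) (nat_lit 17647224867) (nat_lit 76) (nat_lit 1366614433) (nat_lit 152) (nat_lit 2274987905) (nat_lit 129) (nat_lit 5) (nat_lit 130) (nat_lit 5) (nat_lit 131) (nat_lit 4) (nat_lit 401) (nat_lit 331) (nat_lit 288)))) (XT.nd (nat_lit 78) (nat_lit 304) (nat_lit 0) (XT.lf (nat_lit 0) (nat_lit 501410050) (nat_lit 76) (nat_lit 9832350862) (nat_lit 152) (nat_lit 11606154476) (nat_lit 125) (nat_lit 5) (nat_lit 126) (nat_lit 5) (nat_lit 127) (nat_lit 4) (nat_lit 402) (nat_lit 331) (nat_lit 287)) (XT.nd (nat_lit 78) (nat_lit 76) (nat_lit 0) (XT.lf (nat_lit 0) (nat_lit 1151463326) (nat_lit 228) (nat_lit 17667528064) (nat_lit 76) (nat_lit 3795648349) (nat_lit 122) (nat_lit 5) (nat_lit 125) (nat_lit 5) (nat_lit 123) (nat_lit 4) (nat_lit 403) (nat_lit 331) (nat_lit 286)) (XT.lf (nat_lit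 0) (nat_lit 9501750105) (nat_lit 76) (nat_lit 5092363031) (nat_lit 152) (nat_lit 8716924274) (nat_lit 121) (nat_lit 5) (nat_lit 122) (nat_lit 5) (nat_lit 123) (nat_lit 4) (nat_lit 404) (nat_lit 331) (nat_lit 285))))) (XT.nd (nat_lit 234) (nat_lit 532) (nat_lit 0) (XT.nd (nat_lit 78) (nat_lit 228) (nat_lit 0) (XT.lf (nat_lit 0) (nat_lit 4863355253) (nat_lit 228) (nat_lit 9775854380) (nat_lit 76) (nat_lit 9393066240) (nat_lit 118) (nat_lit 5) (nat_lit 121) (nat_lit 5) (nat_lit 119) (nat_lit 4) (nat_lit 405) (nat_lit 331) (nat_lit 284)) (XT.nd (nat_lit 78) (nat_lit 152) (nat_lit 0) (XT.lf (nat_lit 0) (nat_lit 19200692276) (nat_lit 152) (nat_lit 5556030785) (nat_lit 0) (nat_lit 22514327) (nat_lit 117) (nat_lit 5) (nat_lit 119) (nat_lit 4) (nat_lit 117) (nat_lit 4) (nat_lit 406) (nat_lit 331) (nat_lit 283)) (XT.lf (nat_lit 0) (nat_lit 8888588616) (nat_lit 152) (nat_lit 1231483827) (nat_lit 76) (nat_lit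 15429962970) (nat_lit 115) (nat_lit 5) (nat_lit 117) (nat_lit 5) (nat_lit 116) (nat_lit 4) (nat_lit 407) (nat_lit 331) (nat_lit 282)))) (XT.nd (nat_lit 156) (nat_lit 228) (nat_lit 0) (XT.nd (nat_lit 78) (nat_lit 152) (nat_lit 0) (XT.lf (nat_lit 0) (nat_lit 3399997038) (nat_lit 76) (nat_lit 20876035791) (nat_lit 76) (nat_lit 2072313716) (nat_lit 113) (nat_lit 4) (nat_lit 114) (nat_lit 5) (nat_lit 114) (nat_lit 4) (nat_lit 408) (nat_lit 331) (nat_lit 281)) (XT.lf (nat_lit 0) (nat_lit 8192888877) (nat_lit 76) (nat_lit 5148073780) (nat_lit 152) (nat_lit 13831195560) (nat_lit 111) (nat_lit 5) (nat_lit 112) (nat_lit 5) (nat_lit 113) (nat_lit 4) (nat_lit 409) (nat_lit 331) (nat_lit 280))) (XT.nd (nat_lit 78) (nat_lit 76) (nat_lit 0) (XT.lf (nat_lit 0) (nat_lit 1779414754) (nat_lit 152) (nat_lit 14805977441) (nat_lit 76) (nat_lit 11439872219) (nat_lit 109) (nat_lit 5) (nat_lit 111) (nat_lit 5) (nat_lit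 110) (nat_lit 4) (nat_lit 410) (nat_lit 331) (nat_lit 279)) (XT.lf (nat_lit 0) (nat_lit 18201614837) (nat_lit 152) (nat_lit 10459048206) (nat_lit 0) (nat_lit 246741314) (nat_lit 108) (nat_lit 5) (nat_lit 110) (nat_lit 4) (nat_lit 108) (nat_lit 4) (nat_lit 411) (nat_lit 331) (nat_lit 278)))))) (XT.nd (nat_lit 546) (nat_lit 912) (nat_lit 0) (XT.nd (nat_lit 234) (nat_lit 456) (nat_lit 0) (XT.nd (nat_lit 78) (nat_lit 304) (nat_lit 0) (XT.lf (nat_lit 0) (nat_lit 5945136252) (nat_lit 152) (nat_lit 5955900498) (nat_lit 76) (nat_lit 17917695614) (nat_lit 106) (nat_lit 5) (nat_lit 108) (nat_lit 5) (nat_lit 107) (nat_lit 4) (nat_lit 412) (nat_lit 331) (nat_lit 277)) (XT.nd (nat_lit 78) (nat_lit 228) (nat_lit 0) (XT.lf (nat_lit 0) (nat_lit 23551139590) (nat_lit 152) (nat_lit 1223794809) (nat_lit 0) (nat_lit 5987194131) (nat_lit 105) (nat_lit 5) (nat_lit 107) (nat_lit 4) (nat_lit 105) (nat_lit 4) (nat_lit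 413) (nat_lit 331) (nat_lit 276)) (XT.lf (nat_lit 0) (nat_lit 3771450114) (nat_lit 76) (nat_lit 6768812585) (nat_lit 152) (nat_lit 21195779709) (nat_lit 102) (nat_lit 5) (nat_lit 103) (nat_lit 5) (nat_lit 104) (nat_lit 4) (nat_lit 414) (nat_lit 331) (nat_lit 275)))) (XT.nd (nat_lit 156) (nat_lit 228) (nat_lit 0) (XT.nd (nat_lit 78) (nat_lit 152) (nat_lit 0) (XT.lf (nat_lit 0) (nat_lit 9031428890) (nat_lit 76) (nat_lit 20440235189) (nat_lit 76) (nat_lit 3271594380) (nat_lit 101) (nat_lit 4) (nat_lit 102) (nat_lit 5) (nat_lit 102) (nat_lit 4) (nat_lit 415) (nat_lit 331) (nat_lit 274)) (XT.lf (nat_lit 0) (nat_lit 14521174870) (nat_lit 76) (nat_lit 1116179980) (nat_lit 152) (nat_lit 18147237490) (nat_lit 99) (nat_lit 5) (nat_lit 100) (nat_lit 5) (nat_lit 101) (nat_lit 4) (nat_lit 416) (nat_lit 331) (nat_lit 273))) (XT.nd (nat_lit 78) (nat_lit 76) (nat_lit 0) (XT.lf (nat_lit 0) (nat_lit 1063228791)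 (nat_lit 152) (nat_lit 14612614504) (nat_lit 76) (nat_lit 19185215041) (nat_lit 97) (nat_lit 5) (nat_lit 99) (nat_lit 5) (nat_lit 98) (nat_lit 4) (nat_lit 417) (nat_lit 331) (nat_lit 272)) (XT.lf (nat_lit 0) (nat_lit 21272391357) (nat_lit 152) (nat_lit 9757444712) (nat_lit 0) (nat_lit 4943716724) (nat_lit 96) (nat_lit 5) (nat_lit 98) (nat_lit 4) (nat_lit 96) (nat_lit 4) (nat_lit 418) (nat_lit 331) (nat_lit 271))))) (XT.nd (nat_lit 234) (nat_lit 456) (nat_lit 0) (XT.nd (nat_lit 78) (nat_lit 304) (nat_lit 0) (XT.lf (nat_lit 0) (nat_lit 5773498408) (nat_lit 152) (nat_lit 4652454296) (nat_lit 76) (nat_lit 26698349462) (nat_lit 94) (nat_lit 5) (nat_lit 96) (nat_lit 5) (nat_lit 95) (nat_lit 4) (nat_lit 419) (nat_lit 331) (nat_lit 270)) (XT.nd (nat_lit 78) (nat_lit 152) (nat_lit 0) (XT.lf (nat_lit 0) (nat_lit 688664531) (nat_lit 76) (nat_lit 26780484225) (nat_lit 76) (nat_lit 10844034569) (nat_lit 92)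 (nat_lit 4) (nat_lit 93) (nat_lit 5) (nat_lit 93) (nat_lit 4) (nat_lit 420) (nat_lit 331) (nat_lit 269)) (XT.lf (nat_lit 0) (nat_lit 6418115165) (nat_lit 76) (nat_lit 4613064815) (nat_lit 152) (nat_lit 28510696263) (nat_lit 90) (nat_lit 5) (nat_lit 91) (nat_lit 5) (nat_lit 92) (nat_lit 4) (nat_lit 421) (nat_lit 331) (nat_lit 268)))) (XT.nd (nat_lit 156) (nat_lit 228) (nat_lit 0) (XT.nd (nat_lit 78) (nat_lit 152) (nat_lit 0) (XT.lf (nat_lit 0) (nat_lit 12383609561) (nat_lit 76) (nat_lit 21986520707) (nat_lit 76) (nat_lit 6440825149) (nat_lit 89) (nat_lit 4) (nat_lit 90) (nat_lit 5) (nat_lit 90) (nat_lit 4) (nat_lit 422) (nat_lit 331) (nat_lit 267)) (XT.lf (nat_lit 0) (nat_lit 16898437856) (nat_lit 152) (nat_lit 23453036683) (nat_lit 0) (nat_lit 1772416395) (nat_lit 87) (nat_lit 5) (nat_lit 89) (nat_lit 4) (nat_lit 87) (nat_lit 4) (nat_lit 423) (nat_lit 331) (nat_lit 266))) (XT.nd (nat_lit 78) (nat_lit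 152) (nat_lit 0) (XT.lf (nat_lit 0) (nat_lit 25240154012) (nat_lit 76) (nat_lit 16698966999) (nat_lit 76) (nat_lit 1541409205) (nat_lit 86) (nat_lit 4) (nat_lit 87) (nat_lit 5) (nat_lit 87) (nat_lit 4) (nat_lit 424) (nat_lit 331) (nat_lit 265)) (XT.lf (nat_lit 0) (nat_lit 23417977518) (nat_lit 152) (nat_lit 12791164872) (nat_lit 0) (nat_lit 8672742180) (nat_lit 84) (nat_lit 5) (nat_lit 86) (nat_lit 4) (nat_lit 84) (nat_lit 4) (nat_lit 425) (nat_lit 331) (nat_lit 264))))))))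
noncomputable def xc33 : XT := (XT.nd (nat_lit 48594) (nat_lit 0) (nat_lit 6612) (XT.nd (nat_lit 1014) (nat_lit 228) (nat_lit 0) (XT.nd (nat_lit 468) (nat_lit 912) (nat_lit 0) (XT.nd (nat_lit 234) (nat_lit 304) (nat_lit 0) (XT.nd (nat_lit 78) (nat_lit 304) (nat_lit 0) (XT.lf (nat_lit 0) (nat_lit 3830710983) (nat_lit 152) (nat_lit 6996663289) (nat_lit 76) (nat_lit 35504939780) (nat_lit 82) (nat_lit 5) (nat_lit 84) (nat_lit 5) (nat_lit 83) (nat_lit 4) (nat_lit 426) (nat_lit 331) (nat_lit 263)) (XT.nd (nat_lit 78) (nat_lit 228) (nat_lit 0) (XT.lf (nat_lit 0) (nat_lit 30606032063) (nat_lit 152) (nat_lit 985432399) (nat_lit 0) (nat_lit 16237628769) (nat_lit 81) (nat_lit 5) (nat_lit 83) (nat_lit 4) (nat_lit 81) (nat_lit 4) (nat_lit 427) (nat_lit 331) (nat_lit 262)) (XT.lf (nat_lit 0) (nat_lit 5542385972) (nat_lit 76) (nat_lit 4277931729) (nat_lit 152) (nat_lit 39557223197) (nat_lit 78) (nat_lit 5) (nat_lit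 79) (nat_lit 5) (nat_lit 80) (nat_lit 4) (nat_lit 428) (nat_lit 331) (nat_lit 261)))) (XT.nd (nat_lit 78) (nat_lit 228) (nat_lit 0) (XT.lf (nat_lit 0) (nat_lit 12322326545) (nat_lit 76) (nat_lit 26324310860) (nat_lit 76) (nat_lit 12328048649) (nat_lit 77) (nat_lit 4) (nat_lit 78) (nat_lit 5) (nat_lit 78) (nat_lit 4) (nat_lit 429) (nat_lit 331) (nat_lit 260)) (XT.nd (nat_lit 78) (nat_lit 76) (nat_lit 0) (XT.lf (nat_lit 0) (nat_lit 16575655551) (nat_lit 152) (nat_lit 33086287976) (nat_lit 0) (nat_lit 2966142787) (nat_lit 75) (nat_lit 5) (nat_lit 77) (nat_lit 4) (nat_lit 75) (nat_lit 4) (nat_lit 430) (nat_lit 331) (nat_lit 259)) (XT.lf (nat_lit 0) (nat_lit 27066748204) (nat_lit 76) (nat_lit 20448895265) (nat_lit 76) (nat_lit 6819469477) (nat_lit 74) (nat_lit 4) (nat_lit 75) (nat_lit 5) (nat_lit 75) (nat_lit 4) (nat_lit 431) (nat_lit 331) (nat_lit 258))))) (XT.nd (nat_lit 234) (nat_lit 532) (nat_lit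 0) (XT.nd (nat_lit 78) (nat_lit 228) (nat_lit 0) (XT.lf (nat_lit 0) (nat_lit 24114611227) (nat_lit 152) (nat_lit 21121087177) (nat_lit 0) (nat_lit 10863746593) (nat_lit 72) (nat_lit 5) (nat_lit 74) (nat_lit 4) (nat_lit 72) (nat_lit 4) (nat_lit 432) (nat_lit 331) (nat_lit 257)) (XT.nd (nat_lit 78) (nat_lit 152) (nat_lit 0) (XT.lf (nat_lit 0) (nat_lit 43369751569) (nat_lit 76) (nat_lit 13911899005) (nat_lit 76) (nat_lit 643498740) (nat_lit 71) (nat_lit 4) (nat_lit 72) (nat_lit 5) (nat_lit 72) (nat_lit 4) (nat_lit 433) (nat_lit 331) (nat_lit 256)) (XT.lf (nat_lit 0) (nat_lit 32469664419) (nat_lit 152) (nat_lit 7766630713) (nat_lit 0) (nat_lit 19571508239) (nat_lit 69) (nat_lit 5) (nat_lit 71) (nat_lit 4) (nat_lit 69) (nat_lit 4) (nat_lit 434) (nat_lit 331) (nat_lit 255)))) (XT.nd (nat_lit 156) (nat_lit 228) (nat_lit 0) (XT.nd (nat_lit 78) (nat_lit 152) (nat_lit 0) (XT.lf (nat_lit 0) (nat_lit 6146802131)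 (nat_lit 152) (nat_lit 435589923) (nat_lit 76) (nat_lit 55176072143) (nat_lit 67) (nat_lit 5) (nat_lit 69) (nat_lit 5) (nat_lit 68) (nat_lit 4) (nat_lit 435) (nat_lit 331) (nat_lit 254)) (XT.lf (nat_lit 0) (nat_lit 7262069492) (nat_lit 76) (nat_lit 34528362824) (nat_lit 76) (nat_lit 21976610409) (nat_lit 65) (nat_lit 4) (nat_lit 66) (nat_lit 5) (nat_lit 66) (nat_lit 4) (nat_lit 436) (nat_lit 331) (nat_lit 253))) (XT.nd (nat_lit 78) (nat_lit 76) (nat_lit 0) (XT.lf (nat_lit 0) (nat_lit 13887024068) (nat_lit 152) (nat_lit 50273310437) (nat_lit 0) (nat_lit 1687654287) (nat_lit 63) (nat_lit 5) (nat_lit 65) (nat_lit 4) (nat_lit 63) (nat_lit 4) (nat_lit 437) (nat_lit 331) (nat_lit 252)) (XT.lf (nat_lit 0) (nat_lit 24167185617) (nat_lit 76) (nat_lit 28019151066) (nat_lit 76) (nat_lit 15807207580) (nat_lit 62) (nat_lit 4) (nat_lit 63) (nat_lit 5) (nat_lit 63) (nat_lit 4) (nat_lit 438) (nat_lit 331) (nat_lit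 251)))))) (XT.nd (nat_lit 47034) (nat_lit 0) (nat_lit 15504) (XT.nd (nat_lit 46722) (nat_lit 0) (nat_lit 20444) (XT.nd (nat_lit 78) (nat_lit 76) (nat_lit 0) (XT.lf (nat_lit 0) (nat_lit 22597145963) (nat_lit 152) (nat_lit 36887322234) (nat_lit 0) (nat_lit 10729263982) (nat_lit 60) (nat_lit 5) (nat_lit 62) (nat_lit 4) (nat_lit 60) (nat_lit 4) (nat_lit 439) (nat_lit 331) (nat_lit 250)) (XT.nd (nat_lit 46566) (nat_lit 0) (nat_lit 23864) (XT.lf (nat_lit 0) (nat_lit 42966684611) (nat_lit 76) (nat_lit 20710023475) (nat_lit 76) (nat_lit 8831068950) (nat_lit 59) (nat_lit 4) (nat_lit 60) (nat_lit 5) (nat_lit 60) (nat_lit 4) (nat_lit 440) (nat_lit 331) (nat_lit 249)) (XT.lf (nat_lit 0) (nat_lit 1555410074) (nat_lit 1292) (nat_lit 478450996) (nat_lit 0) (nat_lit 1555410074) (nat_lit 373) (nat_lit 5) (nat_lit 390) (nat_lit 4) (nat_lit 373) (nat_lit 4) (nat_lit 356) (nat_lit 332) (nat_lit 332)))) (XT.nd (nat_lit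 156) (nat_lit 1216) (nat_lit 0) (XT.nd (nat_lit 78) (nat_lit 684) (nat_lit 0) (XT.lf (nat_lit 0) (nat_lit 966374928) (nat_lit 608) (nat_lit 855446495) (nat_lit 684) (nat_lit 5453043039) (nat_lit 353) (nat_lit 5) (nat_lit 361) (nat_lit 5) (nat_lit 362) (nat_lit 4) (nat_lit 357) (nat_lit 332) (nat_lit 331)) (XT.lf (nat_lit 0) (nat_lit 402833919) (nat_lit 684) (nat_lit 4360648671) (nat_lit 76) (nat_lit 2615156637) (nat_lit 344) (nat_lit 5) (nat_lit 353) (nat_lit 5) (nat_lit 345) (nat_lit 4) (nat_lit 358) (nat_lit 332) (nat_lit 330))) (XT.nd (nat_lit 78) (nat_lit 684) (nat_lit 0) (XT.lf (nat_lit 0) (nat_lit 5185909345) (nat_lit 532) (nat_lit 1104766678) (nat_lit 608) (nat_lit 1199748534) (nat_lit 337) (nat_lit 5) (nat_lit 344) (nat_lit 5) (nat_lit 345) (nat_lit 4) (nat_lit 359) (nat_lit 332) (nat_lit 329)) (XT.lf (nat_lit 0) (nat_lit 4649419164) (nat_lit 684) (nat_lit 149411490) (nat_lit 76) (nat_lit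 2811188188) (nat_lit 328) (nat_lit 5) (nat_lit 337) (nat_lit 5) (nat_lit 329) (nat_lit 4) (nat_lit 360) (nat_lit 332) (nat_lit 328))))) (XT.nd (nat_lit 234) (nat_lit 2736) (nat_lit 0) (XT.nd (nat_lit 78) (nat_lit 1064) (nat_lit 0) (XT.lf (nat_lit 0) (nat_lit 2169297754) (nat_lit 532) (nat_lit 696390439) (nat_lit 608) (nat_lit 4871859083) (nat_lit 313) (nat_lit 5) (nat_lit 320) (nat_lit 5) (nat_lit 321) (nat_lit 5) (nat_lit 361) (nat_lit 332) (nat_lit 327)) (XT.nd (nat_lit 78) (nat_lit 532) (nat_lit 0) (XT.lf (nat_lit 0) (nat_lit 939135400) (nat_lit 532) (nat_lit 3279524659) (nat_lit 76) (nat_lit 3654364488) (nat_lit 306) (nat_lit 5) (nat_lit 313) (nat_lit 5) (nat_lit 307) (nat_lit 5) (nat_lit 362) (nat_lit 332) (nat_lit 326)) (XT.lf (nat_lit 0) (nat_lit 6831391877) (nat_lit 608) (nat_lit 879667041) (nat_lit 76) (nat_lit 306025583) (nat_lit 299) (nat_lit 5) (nat_lit 307) (nat_lit 5) (nat_lit 300)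 (nat_lit 4) (nat_lit 363) (nat_lit 332) (nat_lit 325)))) (XT.nd (nat_lit 156) (nat_lit 1292) (nat_lit 0) (XT.nd (nat_lit 78) (nat_lit 456) (nat_lit 0) (XT.lf (nat_lit 0) (nat_lit 1634806504) (nat_lit 456) (nat_lit 3068801768) (nat_lit 532) (nat_lit 3464890555) (nat_lit 286) (nat_lit 5) (nat_lit 292) (nat_lit 5) (nat_lit 293) (nat_lit 5) (nat_lit 364) (nat_lit 332) (nat_lit 324)) (XT.lf (nat_lit 0) (nat_lit 2411211056) (nat_lit 456) (nat_lit 4039885219) (nat_lit 76) (nat_lit 1877555016) (nat_lit 280) (nat_lit 5) (nat_lit 286) (nat_lit 5) (nat_lit 281) (nat_lit 5) (nat_lit 365) (nat_lit 332) (nat_lit 323))) (XT.nd (nat_lit 78) (nat_lit 836) (nat_lit 0) (XT.lf (nat_lit 0) (nat_lit 7055533253) (nat_lit 456) (nat_lit 1392086929) (nat_lit 532) (nat_lit 50017171) (nat_lit 274) (nat_lit 5) (nat_lit 280) (nat_lit 5) (nat_lit 281) (nat_lit 5) (nat_lit 366) (nat_lit 332) (nat_lit 322)) (XT.lf (nat_lit 0)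 (nat_lit 1255841506) (nat_lit 380) (nat_lit 4700817678) (nat_lit 456) (nat_lit 2717697555) (nat_lit 263) (nat_lit 5) (nat_lit 268) (nat_lit 5) (nat_lit 269) (nat_lit 5) (nat_lit 367) (nat_lit 332) (nat_lit 321))))))) (XT.nd (nat_lit 1014) (nat_lit 3344) (nat_lit 0) (XT.nd (nat_lit 468) (nat_lit 2584) (nat_lit 0) (XT.nd (nat_lit 234) (nat_lit 1368) (nat_lit 0) (XT.nd (nat_lit 78) (nat_lit 1140) (nat_lit 0) (XT.lf (nat_lit 0) (nat_lit 3295127495) (nat_lit 456) (nat_lit 4755481142) (nat_lit 76) (nat_lit 809543642) (nat_lit 257) (nat_lit 5) (nat_lit 263) (nat_lit 5) (nat_lit 258) (nat_lit 5) (nat_lit 368) (nat_lit 332) (nat_lit 320)) (XT.nd (nat_lit 78) (nat_lit 684) (nat_lit 0) (XT.lf (nat_lit 0) (nat_lit 466226493) (nat_lit 456) (nat_lit 2000597080) (nat_lit 76) (nat_lit 6588123600) (nat_lit 251) (nat_lit 5) (nat_lit 257) (nat_lit 5) (nat_lit 252) (nat_lit 5) (nat_lit 369) (nat_lit 332) (nat_lit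 319)) (XT.lf (nat_lit 0) (nat_lit 855931230) (nat_lit 380) (nat_lit 5808435262) (nat_lit 456) (nat_lit 2594049760) (nat_lit 242) (nat_lit 5) (nat_lit 247) (nat_lit 5) (nat_lit 248) (nat_lit 5) (nat_lit 370) (nat_lit 332) (nat_lit 318)))) (XT.nd (nat_lit 78) (nat_lit 988) (nat_lit 0) (XT.lf (nat_lit 0) (nat_lit 3620837261) (nat_lit 380) (nat_lit 5601947264) (nat_lit 76) (nat_lit 248426465) (nat_lit 237) (nat_lit 5) (nat_lit 242) (nat_lit 5) (nat_lit 238) (nat_lit 5) (nat_lit 371) (nat_lit 332) (nat_lit 317)) (XT.nd (nat_lit 78) (nat_lit 608) (nat_lit 0) (XT.lf (nat_lit 0) (nat_lit 402683722) (nat_lit 380) (nat_lit 2715960611) (nat_lit 76) (nat_lit 6574769859) (nat_lit 232) (nat_lit 5) (nat_lit 237) (nat_lit 5) (nat_lit 233) (nat_lit 5) (nat_lit 372) (nat_lit 332) (nat_lit 316)) (XT.lf (nat_lit 0) (nat_lit 261460989) (nat_lit 304) (nat_lit 6581414443) (nat_lit 380) (nat_lit 3082250106) (nat_lit 224)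 (nat_lit 5) (nat_lit 228) (nat_lit 5) (nat_lit 229) (nat_lit 5) (nat_lit 373) (nat_lit 332) (nat_lit 315))))) (XT.nd (nat_lit 234) (nat_lit 1672) (nat_lit 0) (XT.nd (nat_lit 78) (nat_lit 608) (nat_lit 0) (XT.lf (nat_lit 0) (nat_lit 3395503274) (nat_lit 304) (nat_lit 6754638294) (nat_lit 76) (nat_lit 16512510) (nat_lit 220) (nat_lit 5) (nat_lit 224) (nat_lit 5) (nat_lit 221) (nat_lit 5) (nat_lit 374) (nat_lit 332) (nat_lit 314)) (XT.nd (nat_lit 78) (nat_lit 304) (nat_lit 0) (XT.lf (nat_lit 0) (nat_lit 6653409404) (nat_lit 304) (nat_lit 3520245467) (nat_lit 380) (nat_lit 244480968) (nat_lit 216) (nat_lit 5) (nat_lit 220) (nat_lit 5) (nat_lit 221) (nat_lit 5) (nat_lit 375) (nat_lit 332) (nat_lit 313)) (XT.lf (nat_lit 0) (nat_lit 6493683693) (nat_lit 304) (nat_lit 689895372) (nat_lit 76) (nat_lit 3496283347) (nat_lit 212) (nat_lit 5) (nat_lit 216) (nat_lit 5) (nat_lit 213) (nat_lit 5) (nat_lit 376)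 (nat_lit 332) (nat_lit 312)))) (XT.nd (nat_lit 156) (nat_lit 836) (nat_lit 0) (XT.nd (nat_lit 78) (nat_lit 228) (nat_lit 0) (XT.lf (nat_lit 0) (nat_lit 2558214464) (nat_lit 228) (nat_lit 47446524) (nat_lit 304) (nat_lit 8346765012) (nat_lit 204) (nat_lit 5) (nat_lit 207) (nat_lit 5) (nat_lit 208) (nat_lit 5) (nat_lit 377) (nat_lit 332) (nat_lit 311)) (XT.lf (nat_lit 0) (nat_lit 5900227031) (nat_lit 228) (nat_lit 3823471673) (nat_lit 304) (nat_lit 1511480167) (nat_lit 201) (nat_lit 5) (nat_lit 204) (nat_lit 5) (nat_lit 205) (nat_lit 5) (nat_lit 378) (nat_lit 332) (nat_lit 310))) (XT.nd (nat_lit 78) (nat_lit 532) (nat_lit 0) (XT.lf (nat_lit 0) (nat_lit 5592442514) (nat_lit 304) (nat_lit 2179462915) (nat_lit 76) (nat_lit 3757407251) (nat_lit 197) (nat_lit 5) (nat_lit 201) (nat_lit 5) (nat_lit 198) (nat_lit 5) (nat_lit 379) (nat_lit 332) (nat_lit 309)) (XT.lf (nat_lit 0) (nat_lit 1125509494) (nat_lit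 228) (nat_lit 91325487) (nat_lit 304) (nat_lit 10618808778) (nat_lit 190) (nat_lit 5) (nat_lit 193) (nat_lit 5) (nat_lit 194) (nat_lit 5) (nat_lit 380) (nat_lit 332) (nat_lit 308)))))) (XT.nd (nat_lit 546) (nat_lit 1596) (nat_lit 0) (XT.nd (nat_lit 234) (nat_lit 1064) (nat_lit 0) (XT.nd (nat_lit 78) (nat_lit 456) (nat_lit 0) (XT.lf (nat_lit 0) (nat_lit 4537639380) (nat_lit 228) (nat_lit 4182168207) (nat_lit 304) (nat_lit 3432289405) (nat_lit 187) (nat_lit 5) (nat_lit 190) (nat_lit 5) (nat_lit 191) (nat_lit 5) (nat_lit 381) (nat_lit 332) (nat_lit 307)) (XT.nd (nat_lit 78) (nat_lit 228) (nat_lit 0) (XT.lf (nat_lit 0) (nat_lit 4093557827) (nat_lit 228) (nat_lit 4404359530) (nat_lit 76) (nat_lit 3983461104) (nat_lit 184) (nat_lit 5) (nat_lit 187) (nat_lit 5) (nat_lit 185) (nat_lit 5) (nat_lit 382) (nat_lit 332) (nat_lit 306)) (XT.lf (nat_lit 0) (nat_lit 11753536051) (nat_lit 228) (nat_lit 241323068)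 (nat_lit 304) (nat_lit 829140989) (nat_lit 181) (nat_lit 5) (nat_lit 184) (nat_lit 5) (nat_lit 185) (nat_lit 5) (nat_lit 383) (nat_lit 332) (nat_lit 305)))) (XT.nd (nat_lit 156) (nat_lit 380) (nat_lit 0) (XT.nd (nat_lit 78) (nat_lit 228) (nat_lit 0) (XT.lf (nat_lit 0) (nat_lit 2366696355) (nat_lit 228) (nat_lit 4741639237) (nat_lit 304) (nat_lit 6069180946) (nat_lit 175) (nat_lit 5) (nat_lit 178) (nat_lit 5) (nat_lit 179) (nat_lit 5) (nat_lit 384) (nat_lit 332) (nat_lit 304)) (XT.lf (nat_lit 0) (nat_lit 1934628519) (nat_lit 228) (nat_lit 7573463881) (nat_lit 76) (nat_lit 4037003358) (nat_lit 172) (nat_lit 5) (nat_lit 175) (nat_lit 5) (nat_lit 173) (nat_lit 5) (nat_lit 385) (nat_lit 332) (nat_lit 303))) (XT.nd (nat_lit 78) (nat_lit 228) (nat_lit 0) (XT.lf (nat_lit 0) (nat_lit 9690035601) (nat_lit 152) (nat_lit 619900466) (nat_lit 228) (nat_lit 3616410318) (nat_lit 170) (nat_lit 5) (nat_lit 172)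 (nat_lit 5) (nat_lit 173) (nat_lit 5) (nat_lit 386) (nat_lit 332) (nat_lit 302)) (XT.lf (nat_lit 0) (nat_lit 4824298194) (nat_lit 228) (nat_lit 814801304) (nat_lit 76) (nat_lit 8681977200) (nat_lit 167) (nat_lit 5) (nat_lit 170) (nat_lit 5) (nat_lit 168) (nat_lit 5) (nat_lit 387) (nat_lit 332) (nat_lit 301))))) (XT.nd (nat_lit 234) (nat_lit 836) (nat_lit 0) (XT.nd (nat_lit 78) (nat_lit 456) (nat_lit 0) (XT.lf (nat_lit 0) (nat_lit 2803606544) (nat_lit 152) (nat_lit 10941161855) (nat_lit 228) (nat_lit 985725371) (nat_lit 163) (nat_lit 5) (nat_lit 165) (nat_lit 5) (nat_lit 166) (nat_lit 4) (nat_lit 388) (nat_lit 332) (nat_lit 300)) (XT.nd (nat_lit 78) (nat_lit 228) (nat_lit 0) (XT.lf (nat_lit 0) (nat_lit 6536478194) (nat_lit 152) (nat_lit 1393805231) (nat_lit 228) (nat_lit 7223768809) (nat_lit 160) (nat_lit 5) (nat_lit 162) (nat_lit 5) (nat_lit 163) (nat_lit 5) (nat_lit 389) (nat_lit 332) (nat_lit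 299)) (XT.lf (nat_lit 0) (nat_lit 1801627134) (nat_lit 228) (nat_lit 5195024438) (nat_lit 76) (nat_lit 8596529732) (nat_lit 157) (nat_lit 5) (nat_lit 160) (nat_lit 5) (nat_lit 158) (nat_lit 5) (nat_lit 390) (nat_lit 332) (nat_lit 298)))) (XT.nd (nat_lit 156) (nat_lit 304) (nat_lit 0) (XT.nd (nat_lit 78) (nat_lit 380) (nat_lit 0) (XT.lf (nat_lit 0) (nat_lit 11258580496) (nat_lit 228) (nat_lit 1658206594) (nat_lit 76) (nat_lit 3131443476) (nat_lit 155) (nat_lit 5) (nat_lit 158) (nat_lit 5) (nat_lit 156) (nat_lit 4) (nat_lit 391) (nat_lit 332) (nat_lit 297)) (XT.lf (nat_lit 0) (nat_lit 2041344606) (nat_lit 152) (nat_lit 2712972684) (nat_lit 228) (nat_lit 11764882063) (nat_lit 150) (nat_lit 5) (nat_lit 152) (nat_lit 5) (nat_lit 153) (nat_lit 5) (nat_lit 392) (nat_lit 332) (nat_lit 296))) (XT.nd (nat_lit 78) (nat_lit 228) (nat_lit 0) (XT.lf (nat_lit 0) (nat_lit 5898359644) (nat_lit 76) (nat_lit 8972310121)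 (nat_lit 152) (nat_lit 2135796825) (nat_lit 149) (nat_lit 5) (nat_lit 150) (nat_lit 5) (nat_lit 151) (nat_lit 4) (nat_lit 393) (nat_lit 332) (nat_lit 295)) (XT.lf (nat_lit 0) (nat_lit 7971931421) (nat_lit 228) (nat_lit 7619618817) (nat_lit 76) (nat_lit 1919663065) (nat_lit 146) (nat_lit 5) (nat_lit 149) (nat_lit 5) (nat_lit 147) (nat_lit 4) (nat_lit 394) (nat_lit 332) (nat_lit 294))))))))
noncomputable def xc34 : XT := (XT.nd (nat_lit 2106) (nat_lit 2432) (nat_lit 0) (XT.nd (nat_lit 1014) (nat_lit 1824) (nat_lit 0) (XT.nd (nat_lit 468) (nat_lit 1292) (nat_lit 0) (XT.nd (nat_lit 234) (nat_lit 380) (nat_lit 0) (XT.nd (nat_lit 78) (nat_lit 456) (nat_lit 0) (XT.lf (nat_lit 0) (nat_lit 697913341) (nat_lit 152) (nat_lit 3999552170) (nat_lit 76) (nat_lit 13336732227) (nat_lit 144) (nat_lit 5) (nat_lit 146) (nat_lit 5) (nat_lit 145) (nat_lit 5) (nat_lit 395) (nat_lit 332) (nat_lit 293)) (XT.nd (nat_lit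 78) (nat_lit 304) (nat_lit 0) (XT.lf (nat_lit 0) (nat_lit 11441090710) (nat_lit 228) (nat_lit 282885964) (nat_lit 76) (nat_lit 6850778990) (nat_lit 142) (nat_lit 5) (nat_lit 145) (nat_lit 5) (nat_lit 143) (nat_lit 4) (nat_lit 396) (nat_lit 332) (nat_lit 292)) (XT.lf (nat_lit 0) (nat_lit 3690426540) (nat_lit 152) (nat_lit 33751251) (nat_lit 228) (nat_lit 15410683569) (nat_lit 138) (nat_lit 5) (nat_lit 140) (nat_lit 5) (nat_lit 141) (nat_lit 5) (nat_lit 397) (nat_lit 332) (nat_lit 291)))) (XT.nd (nat_lit 78) (nat_lit 304) (nat_lit 0) (XT.lf (nat_lit 0) (nat_lit 7760041057) (nat_lit 76) (nat_lit 7478848361) (nat_lit 152) (nat_lit 4474118656) (nat_lit 137) (nat_lit 5) (nat_lit 138) (nat_lit 5) (nat_lit 139) (nat_lit 4) (nat_lit 398) (nat_lit 332) (nat_lit 290)) (XT.nd (nat_lit 78) (nat_lit 76) (nat_lit 0) (XT.lf (nat_lit 0) (nat_lit 7069120711) (nat_lit 228) (nat_lit 8308049686) (nat_lit 76) (nat_lit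 4934971733) (nat_lit 134) (nat_lit 5) (nat_lit 137) (nat_lit 5) (nat_lit 135) (nat_lit 4) (nat_lit 399) (nat_lit 332) (nat_lit 289)) (XT.lf (nat_lit 0) (nat_lit 16430145595) (nat_lit 76) (nat_lit 2899619043) (nat_lit 152) (nat_lit 1603156077) (nat_lit 133) (nat_lit 5) (nat_lit 134) (nat_lit 5) (nat_lit 135) (nat_lit 4) (nat_lit 400) (nat_lit 332) (nat_lit 288))))) (XT.nd (nat_lit 234) (nat_lit 684) (nat_lit 0) (XT.nd (nat_lit 78) (nat_lit 380) (nat_lit 0) (XT.lf (nat_lit 0) (nat_lit 10678025247) (nat_lit 228) (nat_lit 608076931) (nat_lit 76) (nat_lit 10287577891) (nat_lit 130) (nat_lit 5) (nat_lit 133) (nat_lit 5) (nat_lit 131) (nat_lit 4) (nat_lit 401) (nat_lit 332) (nat_lit 287)) (XT.nd (nat_lit 78) (nat_lit 76) (nat_lit 0) (XT.lf (nat_lit 0) (nat_lit 1529155763) (nat_lit 228) (nat_lit 18660243777) (nat_lit 76) (nat_lit 2048419480) (nat_lit 126) (nat_lit 5) (nat_lit 129) (nat_lit 5) (nat_lit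 127) (nat_lit 4) (nat_lit 402) (nat_lit 332) (nat_lit 286)) (XT.lf (nat_lit 0) (nat_lit 7866670188) (nat_lit 76) (nat_lit 6790462885) (nat_lit 152) (nat_lit 8265577561) (nat_lit 125) (nat_lit 5) (nat_lit 126) (nat_lit 5) (nat_lit 127) (nat_lit 4) (nat_lit 403) (nat_lit 332) (nat_lit 285)))) (XT.nd (nat_lit 156) (nat_lit 380) (nat_lit 0) (XT.nd (nat_lit 78) (nat_lit 76) (nat_lit 0) (XT.lf (nat_lit 0) (nat_lit 4972985175) (nat_lit 228) (nat_lit 11268275528) (nat_lit 76) (nat_lit 7391192563) (nat_lit 122) (nat_lit 5) (nat_lit 125) (nat_lit 5) (nat_lit 123) (nat_lit 4) (nat_lit 404) (nat_lit 332) (nat_lit 284)) (XT.lf (nat_lit 0) (nat_lit 17050711452) (nat_lit 76) (nat_lit 1925818775) (nat_lit 152) (nat_lit 5390477710) (nat_lit 121) (nat_lit 5) (nat_lit 122) (nat_lit 5) (nat_lit 123) (nat_lit 4) (nat_lit 405) (nat_lit 332) (nat_lit 283))) (XT.nd (nat_lit 78) (nat_lit 152) (nat_lit 0) (XT.lf (nat_lit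 0) (nat_lit 8718795890) (nat_lit 228) (nat_lit 3247156528) (nat_lit 76) (nat_lit 13159569063) (nat_lit 118) (nat_lit 5) (nat_lit 121) (nat_lit 5) (nat_lit 119) (nat_lit 4) (nat_lit 406) (nat_lit 332) (nat_lit 282)) (XT.lf (nat_lit 0) (nat_lit 1076867267) (nat_lit 76) (nat_lit 22631816858) (nat_lit 76) (nat_lit 2203076416) (nat_lit 116) (nat_lit 4) (nat_lit 117) (nat_lit 5) (nat_lit 117) (nat_lit 4) (nat_lit 407) (nat_lit 332) (nat_lit 281)))))) (XT.nd (nat_lit 546) (nat_lit 912) (nat_lit 0) (XT.nd (nat_lit 234) (nat_lit 532) (nat_lit 0) (XT.nd (nat_lit 78) (nat_lit 228) (nat_lit 0) (XT.lf (nat_lit 0) (nat_lit 5576972878) (nat_lit 76) (nat_lit 7277127053) (nat_lit 152) (nat_lit 13867804795) (nat_lit 114) (nat_lit 5) (nat_lit 115) (nat_lit 5) (nat_lit 116) (nat_lit 4) (nat_lit 408) (nat_lit 332) (nat_lit 280)) (XT.nd (nat_lit 78) (nat_lit 76) (nat_lit 0) (XT.lf (nat_lit 0) (nat_lit 1362139231) (nat_lit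 152) (nat_lit 17235598946) (nat_lit 76) (nat_lit 8963784934) (nat_lit 112) (nat_lit 5) (nat_lit 114) (nat_lit 5) (nat_lit 113) (nat_lit 4) (nat_lit 409) (nat_lit 332) (nat_lit 279)) (XT.lf (nat_lit 0) (nat_lit 15245739217) (nat_lit 76) (nat_lit 2155281003) (nat_lit 152) (nat_lit 11027955627) (nat_lit 111) (nat_lit 5) (nat_lit 112) (nat_lit 5) (nat_lit 113) (nat_lit 4) (nat_lit 410) (nat_lit 332) (nat_lit 278)))) (XT.nd (nat_lit 156) (nat_lit 304) (nat_lit 0) (XT.nd (nat_lit 78) (nat_lit 76) (nat_lit 0) (XT.lf (nat_lit 0) (nat_lit 5225174634) (nat_lit 152) (nat_lit 8958164716) (nat_lit 76) (nat_lit 15142484611) (nat_lit 109) (nat_lit 5) (nat_lit 111) (nat_lit 5) (nat_lit 110) (nat_lit 4) (nat_lit 411) (nat_lit 332) (nat_lit 277)) (XT.lf (nat_lit 0) (nat_lit 22400342643) (nat_lit 152) (nat_lit 4515173623) (nat_lit 0) (nat_lit 3338598898) (nat_lit 108) (nat_lit 5) (nat_lit 110) (nat_lit 4) (nat_lit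 108) (nat_lit 4) (nat_lit 412) (nat_lit 332) (nat_lit 276))) (XT.nd (nat_lit 78) (nat_lit 76) (nat_lit 0) (XT.lf (nat_lit 0) (nat_lit 93755277) (nat_lit 76) (nat_lit 9373573226) (nat_lit 152) (nat_lit 21745592416) (nat_lit 105) (nat_lit 5) (nat_lit 106) (nat_lit 5) (nat_lit 107) (nat_lit 4) (nat_lit 413) (nat_lit 332) (nat_lit 275)) (XT.lf (nat_lit 0) (nat_lit 5041853918) (nat_lit 76) (nat_lit 22894230649) (nat_lit 76) (nat_lit 4267928750) (nat_lit 104) (nat_lit 4) (nat_lit 105) (nat_lit 5) (nat_lit 105) (nat_lit 4) (nat_lit 414) (nat_lit 332) (nat_lit 274))))) (XT.nd (nat_lit 234) (nat_lit 532) (nat_lit 0) (XT.nd (nat_lit 78) (nat_lit 228) (nat_lit 0) (XT.lf (nat_lit 0) (nat_lit 10193207565) (nat_lit 76) (nat_lit 4031001584) (nat_lit 152) (nat_lit 19003927380) (nat_lit 102) (nat_lit 5) (nat_lit 103) (nat_lit 5) (nat_lit 104) (nat_lit 4) (nat_lit 415) (nat_lit 332) (nat_lit 273)) (XT.nd (nat_lit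 78) (nat_lit 152) (nat_lit 0) (XT.lf (nat_lit 0) (nat_lit 15600782326) (nat_lit 76) (nat_lit 18438038654) (nat_lit 76) (nat_lit 248793190) (nat_lit 101) (nat_lit 4) (nat_lit 102) (nat_lit 5) (nat_lit 102) (nat_lit 4) (nat_lit 416) (nat_lit 332) (nat_lit 272)) (XT.lf (nat_lit 0) (nat_lit 19469637350) (nat_lit 152) (nat_lit 14150062351) (nat_lit 0) (nat_lit 1762609814) (nat_lit 99) (nat_lit 5) (nat_lit 101) (nat_lit 4) (nat_lit 99) (nat_lit 4) (nat_lit 417) (nat_lit 332) (nat_lit 271)))) (XT.nd (nat_lit 156) (nat_lit 304) (nat_lit 0) (XT.nd (nat_lit 78) (nat_lit 76) (nat_lit 0) (XT.lf (nat_lit 0) (nat_lit 4118339166) (nat_lit 152) (nat_lit 9392099904) (nat_lit 76) (nat_lit 23003613715) (nat_lit 97) (nat_lit 5) (nat_lit 99) (nat_lit 5) (nat_lit 98) (nat_lit 4) (nat_lit 418) (nat_lit 332) (nat_lit 270)) (XT.lf (nat_lit 0) (nat_lit 25278125825) (nat_lit 152) (nat_lit 4404872717) (nat_lit 0) (nat_lit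 8000968443) (nat_lit 96) (nat_lit 5) (nat_lit 98) (nat_lit 4) (nat_lit 96) (nat_lit 4) (nat_lit 419) (nat_lit 332) (nat_lit 269))) (XT.nd (nat_lit 78) (nat_lit 76) (nat_lit 0) (XT.lf (nat_lit 0) (nat_lit 862190258) (nat_lit 76) (nat_lit 8093100430) (nat_lit 152) (nat_lit 29938433067) (nat_lit 93) (nat_lit 5) (nat_lit 94) (nat_lit 5) (nat_lit 95) (nat_lit 4) (nat_lit 420) (nat_lit 332) (nat_lit 268)) (XT.lf (nat_lit 0) (nat_lit 6458647727) (nat_lit 76) (nat_lit 25266635219) (nat_lit 76) (nat_lit 8417079244) (nat_lit 92) (nat_lit 4) (nat_lit 93) (nat_lit 5) (nat_lit 93) (nat_lit 4) (nat_lit 421) (nat_lit 332) (nat_lit 267))))))) (XT.nd (nat_lit 1014) (nat_lit 760) (nat_lit 0) (XT.nd (nat_lit 468) (nat_lit 912) (nat_lit 0) (XT.nd (nat_lit 234) (nat_lit 380) (nat_lit 0) (XT.nd (nat_lit 78) (nat_lit 228) (nat_lit 0) (XT.lf (nat_lit 0) (nat_lit 12366440643) (nat_lit 76) (nat_lit 2042981208) (nat_lit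 152) (nat_lit 27024747717) (nat_lit 90) (nat_lit 5) (nat_lit 91) (nat_lit 5) (nat_lit 92) (nat_lit 4) (nat_lit 422) (nat_lit 332) (nat_lit 266)) (XT.nd (nat_lit 78) (nat_lit 152) (nat_lit 0) (XT.lf (nat_lit 0) (nat_lit 18525119929) (nat_lit 76) (nat_lit 20334320169) (nat_lit 76) (nat_lit 3908938990) (nat_lit 89) (nat_lit 4) (nat_lit 90) (nat_lit 5) (nat_lit 90) (nat_lit 4) (nat_lit 423) (nat_lit 332) (nat_lit 265)) (XT.lf (nat_lit 0) (nat_lit 20486393952) (nat_lit 152) (nat_lit 19152013173) (nat_lit 0) (nat_lit 4509387330) (nat_lit 87) (nat_lit 5) (nat_lit 89) (nat_lit 4) (nat_lit 87) (nat_lit 4) (nat_lit 424) (nat_lit 332) (nat_lit 264)))) (XT.nd (nat_lit 78) (nat_lit 228) (nat_lit 0) (XT.lf (nat_lit 0) (nat_lit 1102995810) (nat_lit 152) (nat_lit 13766529511) (nat_lit 76) (nat_lit 30704801347) (nat_lit 85) (nat_lit 5) (nat_lit 87) (nat_lit 5) (nat_lit 86) (nat_lit 4) (nat_lit 425) (nat_lit 332)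 (nat_lit 263)) (XT.nd (nat_lit 78) (nat_lit 152) (nat_lit 0) (XT.lf (nat_lit 0) (nat_lit 27225857590) (nat_lit 152) (nat_lit 8161031151) (nat_lit 0) (nat_lit 11659980621) (nat_lit 84) (nat_lit 5) (nat_lit 86) (nat_lit 4) (nat_lit 84) (nat_lit 4) (nat_lit 426) (nat_lit 332) (nat_lit 262)) (XT.lf (nat_lit 0) (nat_lit 6608213283) (nat_lit 152) (nat_lit 2176393343) (nat_lit 76) (nat_lit 39786744126) (nat_lit 82) (nat_lit 5) (nat_lit 84) (nat_lit 5) (nat_lit 83) (nat_lit 4) (nat_lit 427) (nat_lit 332) (nat_lit 261))))) (XT.nd (nat_lit 234) (nat_lit 532) (nat_lit 0) (XT.nd (nat_lit 78) (nat_lit 228) (nat_lit 0) (XT.lf (nat_lit 0) (nat_lit 4118768725) (nat_lit 76) (nat_lit 30592391532) (nat_lit 76) (nat_lit 15432142837) (nat_lit 80) (nat_lit 4) (nat_lit 81) (nat_lit 5) (nat_lit 81) (nat_lit 4) (nat_lit 428) (nat_lit 332) (nat_lit 260)) (XT.nd (nat_lit 78) (nat_lit 76) (nat_lit 0) (XT.lf (nat_lit 0) (nat_lit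 10895723171) (nat_lit 76) (nat_lit 1950658050) (nat_lit 152) (nat_lit 38923985294) (nat_lit 78) (nat_lit 5) (nat_lit 79) (nat_lit 5) (nat_lit 80) (nat_lit 4) (nat_lit 429) (nat_lit 332) (nat_lit 259)) (XT.lf (nat_lit 0) (nat_lit 17919296356) (nat_lit 76) (nat_lit 25145147090) (nat_lit 76) (nat_lit 10384412686) (nat_lit 77) (nat_lit 4) (nat_lit 78) (nat_lit 5) (nat_lit 78) (nat_lit 4) (nat_lit 430) (nat_lit 332) (nat_lit 258)))) (XT.nd (nat_lit 156) (nat_lit 304) (nat_lit 0) (XT.nd (nat_lit 78) (nat_lit 76) (nat_lit 0) (XT.lf (nat_lit 0) (nat_lit 19865508403) (nat_lit 152) (nat_lit 29804416607) (nat_lit 0) (nat_lit 5515733518) (nat_lit 75) (nat_lit 5) (nat_lit 77) (nat_lit 4) (nat_lit 75) (nat_lit 4) (nat_lit 431) (nat_lit 332) (nat_lit 257)) (XT.lf (nat_lit 0) (nat_lit 33214776608) (nat_lit 76) (nat_lit 19066614799) (nat_lit 76) (nat_lit 4698778213) (nat_lit 74) (nat_lit 4) (nat_lit 75) (nat_lit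 5) (nat_lit 75) (nat_lit 4) (nat_lit 432) (nat_lit 332) (nat_lit 256))) (XT.nd (nat_lit 78) (nat_lit 152) (nat_lit 0) (XT.lf (nat_lit 0) (nat_lit 27686938513) (nat_lit 152) (nat_lit 17425598828) (nat_lit 0) (nat_lit 13720882004) (nat_lit 72) (nat_lit 5) (nat_lit 74) (nat_lit 4) (nat_lit 72) (nat_lit 4) (nat_lit 433) (nat_lit 332) (nat_lit 255)) (XT.lf (nat_lit 0) (nat_lit 1658533390) (nat_lit 152) (nat_lit 10615139061) (nat_lit 76) (nat_lit 48478298511) (nat_lit 70) (nat_lit 5) (nat_lit 72) (nat_lit 5) (nat_lit 71) (nat_lit 4) (nat_lit 434) (nat_lit 332) (nat_lit 254)))))) (XT.nd (nat_lit 46878) (nat_lit 0) (nat_lit 19228) (XT.nd (nat_lit 234) (nat_lit 380) (nat_lit 0) (XT.nd (nat_lit 78) (nat_lit 304) (nat_lit 0) (XT.lf (nat_lit 0) (nat_lit 36369028083) (nat_lit 152) (nat_lit 3581287931) (nat_lit 0) (nat_lit 22779601112) (nat_lit 69) (nat_lit 5) (nat_lit 71) (nat_lit 4) (nat_lit 69) (nat_lit 4)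 (nat_lit 435) (nat_lit 332) (nat_lit 253)) (XT.nd (nat_lit 78) (nat_lit 76) (nat_lit 0) (XT.lf (nat_lit 0) (nat_lit 4109821899) (nat_lit 76) (nat_lit 4615919620) (nat_lit 152) (nat_lit 56052497910) (nat_lit 66) (nat_lit 5) (nat_lit 67) (nat_lit 5) (nat_lit 68) (nat_lit 4) (nat_lit 436) (nat_lit 332) (nat_lit 252)) (XT.lf (nat_lit 0) (nat_lit 12115136262) (nat_lit 76) (nat_lit 33996734445) (nat_lit 76) (nat_lit 20776566651) (nat_lit 65) (nat_lit 4) (nat_lit 66) (nat_lit 5) (nat_lit 66) (nat_lit 4) (nat_lit 437) (nat_lit 332) (nat_lit 251)))) (XT.nd (nat_lit 156) (nat_lit 152) (nat_lit 0) (XT.nd (nat_lit 78) (nat_lit 76) (nat_lit 0) (XT.lf (nat_lit 0) (nat_lit 16791697856) (nat_lit 152) (nat_lit 48337772161) (nat_lit 0) (nat_lit 3944608537) (nat_lit 63) (nat_lit 5) (nat_lit 65) (nat_lit 4) (nat_lit 63) (nat_lit 4) (nat_lit 438) (nat_lit 332) (nat_lit 250)) (XT.lf (nat_lit 0) (nat_lit 29697213162)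 (nat_lit 76) (nat_lit 27245052002) (nat_lit 76) (nat_lit 14386557963) (nat_lit 62) (nat_lit 4) (nat_lit 63) (nat_lit 5) (nat_lit 63) (nat_lit 4) (nat_lit 439) (nat_lit 332) (nat_lit 249))) (XT.nd (nat_lit 46410) (nat_lit 0) (nat_lit 26220) (XT.lf (nat_lit 0) (nat_lit 25852907647) (nat_lit 152) (nat_lit 34449346438) (nat_lit 0) (nat_lit 13358387572) (nat_lit 60) (nat_lit 5) (nat_lit 62) (nat_lit 4) (nat_lit 60) (nat_lit 4) (nat_lit 440) (nat_lit 332) (nat_lit 248)) (XT.lf (nat_lit 0) (nat_lit 689414143) (nat_lit 1140) (nat_lit 2124050178) (nat_lit 0) (nat_lit 689414143) (nat_lit 405) (nat_lit 5) (nat_lit 420) (nat_lit 4) (nat_lit 405) (nat_lit 4) (nat_lit 354) (nat_lit 333) (nat_lit 333))))) (XT.nd (nat_lit 234) (nat_lit 3040) (nat_lit 0) (XT.nd (nat_lit 78) (nat_lit 2736) (nat_lit 0) (XT.lf (nat_lit 0) (nat_lit 109739067) (nat_lit 1216) (nat_lit 2731803945) (nat_lit 76) (nat_lit 4248765573) (nat_lit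 389) (nat_lit 5) (nat_lit 405) (nat_lit 5) (nat_lit 390) (nat_lit 4) (nat_lit 355) (nat_lit 333) (nat_lit 332)) (XT.nd (nat_lit 78) (nat_lit 1520) (nat_lit 0) (XT.lf (nat_lit 0) (nat_lit 5839867524) (nat_lit 1292) (nat_lit 1103432635) (nat_lit 0) (nat_lit 239426270) (nat_lit 373) (nat_lit 5) (nat_lit 390) (nat_lit 4) (nat_lit 373) (nat_lit 4) (nat_lit 356) (nat_lit 333) (nat_lit 331)) (XT.lf (nat_lit 0) (nat_lit 635028594) (nat_lit 608) (nat_lit 3718321582) (nat_lit 684) (nat_lit 2929117511) (nat_lit 353) (nat_lit 5) (nat_lit 361) (nat_lit 5) (nat_lit 362) (nat_lit 4) (nat_lit 357) (nat_lit 333) (nat_lit 330)))) (XT.nd (nat_lit 156) (nat_lit 1748) (nat_lit 0) (XT.nd (nat_lit 78) (nat_lit 608) (nat_lit 0) (XT.lf (nat_lit 0) (nat_lit 2527611166) (nat_lit 608) (nat_lit 187572413) (nat_lit 684) (nat_lit 4675200778) (nat_lit 344) (nat_lit 5) (nat_lit 352) (nat_lit 5) (nat_lit 353) (nat_lit 5) (nat_lit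 358) (nat_lit 333) (nat_lit 329)) (XT.lf (nat_lit 0) (nat_lit 943019730) (nat_lit 608) (nat_lit 2985743457) (nat_lit 76) (nat_lit 3577179674) (nat_lit 336) (nat_lit 5) (nat_lit 344) (nat_lit 5) (nat_lit 337) (nat_lit 5) (nat_lit 359) (nat_lit 333) (nat_lit 328))) (XT.nd (nat_lit 78) (nat_lit 1140) (nat_lit 0) (XT.lf (nat_lit 0) (nat_lit 6609902409) (nat_lit 684) (nat_lit 992024834) (nat_lit 76) (nat_lit 28030132) (nat_lit 328) (nat_lit 5) (nat_lit 337) (nat_lit 5) (nat_lit 329) (nat_lit 4) (nat_lit 360) (nat_lit 333) (nat_lit 327)) (XT.lf (nat_lit 0) (nat_lit 1104404708) (nat_lit 532) (nat_lit 3523778747) (nat_lit 608) (nat_lit 3132948215) (nat_lit 313) (nat_lit 5) (nat_lit 320) (nat_lit 5) (nat_lit 321) (nat_lit 5) (nat_lit 361) (nat_lit 333) (nat_lit 326))))))))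
noncomputable def xc35 : XT := (XT.nd (nat_lit 2106) (nat_lit 4636) (nat_lit 0) (XT.nd (nat_lit 1014) (nat_lit 4408) (nat_lit 0) (XT.nd (nat_lit 468) (nat_lit 3420) (nat_lit 0) (XT.nd (nat_lit 234) (nat_lit 1824) (nat_lit 0) (XT.nd (nat_lit 78) (nat_lit 1064) (nat_lit 0) (XT.lf (nat_lit 0) (nat_lit 2486147241) (nat_lit 532) (nat_lit 4553342563) (nat_lit 76) (nat_lit 861356670) (nat_lit 306) (nat_lit 5) (nat_lit 313) (nat_lit 5) (nat_lit 307) (nat_lit 5) (nat_lit 362) (nat_lit 333) (nat_lit 325)) (XT.nd (nat_lit 78) (nat_lit 456) (nat_lit 0) (XT.lf (nat_lit 0) (nat_lit 194502033) (nat_lit 608) (nat_lit 2355442974) (nat_lit 76) (nat_lit 5498839874) (nat_lit 298) (nat_lit 5) (nat_lit 306) (nat_lit 5) (nat_lit 299) (nat_lit 5) (nat_lit 363) (nat_lit 333) (nat_lit 324)) (XT.lf (nat_lit 0) (nat_lit 5892858892) (nat_lit 532) (nat_lit 68301324) (nat_lit 76) (nat_lit 2243731269) (nat_lit 292) (nat_lit 5)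 (nat_lit 299) (nat_lit 5) (nat_lit 293) (nat_lit 5) (nat_lit 364) (nat_lit 333) (nat_lit 323)))) (XT.nd (nat_lit 78) (nat_lit 912) (nat_lit 0) (XT.lf (nat_lit 0) (nat_lit 2372860211) (nat_lit 380) (nat_lit 1020987126) (nat_lit 456) (nat_lit 4975295911) (nat_lit 280) (nat_lit 5) (nat_lit 285) (nat_lit 5) (nat_lit 286) (nat_lit 5) (nat_lit 365) (nat_lit 333) (nat_lit 322)) (XT.nd (nat_lit 78) (nat_lit 380) (nat_lit 0) (XT.lf (nat_lit 0) (nat_lit 736562780) (nat_lit 532) (nat_lit 3625951452) (nat_lit 76) (nat_lit 4179502481) (nat_lit 273) (nat_lit 5) (nat_lit 280) (nat_lit 5) (nat_lit 274) (nat_lit 5) (nat_lit 366) (nat_lit 333) (nat_lit 321)) (XT.lf (nat_lit 0) (nat_lit 6574464235) (nat_lit 456) (nat_lit 1160094821) (nat_lit 76) (nat_lit 989196586) (nat_lit 268) (nat_lit 5) (nat_lit 274) (nat_lit 5) (nat_lit 269) (nat_lit 5) (nat_lit 367) (nat_lit 333) (nat_lit 320))))) (XT.nd (nat_lit 234) (nat_lit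 1824) (nat_lit 0) (XT.nd (nat_lit 78) (nat_lit 760) (nat_lit 0) (XT.lf (nat_lit 0) (nat_lit 1420995769) (nat_lit 380) (nat_lit 2283237764) (nat_lit 456) (nat_lit 5209599986) (nat_lit 257) (nat_lit 5) (nat_lit 262) (nat_lit 5) (nat_lit 263) (nat_lit 5) (nat_lit 368) (nat_lit 333) (nat_lit 319)) (XT.nd (nat_lit 78) (nat_lit 304) (nat_lit 0) (XT.lf (nat_lit 0) (nat_lit 663489515) (nat_lit 456) (nat_lit 4976638298) (nat_lit 76) (nat_lit 3472934888) (nat_lit 251) (nat_lit 5) (nat_lit 257) (nat_lit 5) (nat_lit 252) (nat_lit 5) (nat_lit 369) (nat_lit 333) (nat_lit 318)) (XT.lf (nat_lit 0) (nat_lit 6694297374) (nat_lit 380) (nat_lit 2371021824) (nat_lit 76) (nat_lit 256232547) (nat_lit 247) (nat_lit 5) (nat_lit 252) (nat_lit 5) (nat_lit 248) (nat_lit 5) (nat_lit 370) (nat_lit 333) (nat_lit 317)))) (XT.nd (nat_lit 156) (nat_lit 760) (nat_lit 0) (XT.nd (nat_lit 78) (nat_lit 304) (nat_lit 0) (XT.lf (nat_lit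 0) (nat_lit 320550705) (nat_lit 304) (nat_lit 3110949273) (nat_lit 380) (nat_lit 6107559498) (nat_lit 237) (nat_lit 5) (nat_lit 241) (nat_lit 5) (nat_lit 242) (nat_lit 5) (nat_lit 371) (nat_lit 333) (nat_lit 316)) (XT.lf (nat_lit 0) (nat_lit 3177929470) (nat_lit 304) (nat_lit 6576570403) (nat_lit 380) (nat_lit 11693044) (nat_lit 233) (nat_lit 5) (nat_lit 237) (nat_lit 5) (nat_lit 238) (nat_lit 5) (nat_lit 372) (nat_lit 333) (nat_lit 315))) (XT.nd (nat_lit 78) (nat_lit 380) (nat_lit 0) (XT.lf (nat_lit 0) (nat_lit 6122804231) (nat_lit 304) (nat_lit 139627582) (nat_lit 380) (nat_lit 3740464671) (nat_lit 228) (nat_lit 5) (nat_lit 232) (nat_lit 5) (nat_lit 233) (nat_lit 5) (nat_lit 373) (nat_lit 333) (nat_lit 314)) (XT.lf (nat_lit 0) (nat_lit 2586067432) (nat_lit 380) (nat_lit 1087238171) (nat_lit 76) (nat_lit 6576231199) (nat_lit 223) (nat_lit 5) (nat_lit 228) (nat_lit 5) (nat_lit 224) (nat_lit 5)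 (nat_lit 374) (nat_lit 333) (nat_lit 313)))))) (XT.nd (nat_lit 546) (nat_lit 1900) (nat_lit 0) (XT.nd (nat_lit 234) (nat_lit 1292) (nat_lit 0) (XT.nd (nat_lit 78) (nat_lit 684) (nat_lit 0) (XT.lf (nat_lit 0) (nat_lit 1849740268) (nat_lit 304) (nat_lit 7333408344) (nat_lit 380) (nat_lit 1323302063) (nat_lit 216) (nat_lit 5) (nat_lit 220) (nat_lit 5) (nat_lit 221) (nat_lit 5) (nat_lit 375) (nat_lit 333) (nat_lit 312)) (XT.nd (nat_lit 78) (nat_lit 380) (nat_lit 0) (XT.lf (nat_lit 0) (nat_lit 4904809369) (nat_lit 228) (nat_lit 360846824) (nat_lit 304) (nat_lit 5507939907) (nat_lit 212) (nat_lit 5) (nat_lit 215) (nat_lit 5) (nat_lit 216) (nat_lit 5) (nat_lit 376) (nat_lit 333) (nat_lit 311)) (XT.lf (nat_lit 0) (nat_lit 1143748139) (nat_lit 380) (nat_lit 2993672438) (nat_lit 76) (nat_lit 6914098598) (nat_lit 207) (nat_lit 5) (nat_lit 212) (nat_lit 5) (nat_lit 208) (nat_lit 5) (nat_lit 377) (nat_lit 333)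 (nat_lit 310)))) (XT.nd (nat_lit 156) (nat_lit 532) (nat_lit 0) (XT.nd (nat_lit 78) (nat_lit 532) (nat_lit 0) (XT.lf (nat_lit 0) (nat_lit 8051794352) (nat_lit 304) (nat_lit 26113067) (nat_lit 76) (nat_lit 3262664373) (nat_lit 204) (nat_lit 5) (nat_lit 208) (nat_lit 5) (nat_lit 205) (nat_lit 5) (nat_lit 378) (nat_lit 333) (nat_lit 309)) (XT.lf (nat_lit 0) (nat_lit 3113162212) (nat_lit 228) (nat_lit 556839702) (nat_lit 304) (nat_lit 7970610964) (nat_lit 197) (nat_lit 5) (nat_lit 200) (nat_lit 5) (nat_lit 201) (nat_lit 5) (nat_lit 379) (nat_lit 333) (nat_lit 308))) (XT.nd (nat_lit 78) (nat_lit 304) (nat_lit 0) (XT.lf (nat_lit 0) (nat_lit 6345172455) (nat_lit 228) (nat_lit 4649588587) (nat_lit 304) (nat_lit 957336380) (nat_lit 194) (nat_lit 5) (nat_lit 197) (nat_lit 5) (nat_lit 198) (nat_lit 5) (nat_lit 380) (nat_lit 333) (nat_lit 307)) (XT.lf (nat_lit 0) (nat_lit 6341045994) (nat_lit 304) (nat_lit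 2596631137) (nat_lit 76) (nat_lit 3337847738) (nat_lit 190) (nat_lit 5) (nat_lit 194) (nat_lit 5) (nat_lit 191) (nat_lit 5) (nat_lit 381) (nat_lit 333) (nat_lit 306))))) (XT.nd (nat_lit 234) (nat_lit 988) (nat_lit 0) (XT.nd (nat_lit 78) (nat_lit 456) (nat_lit 0) (XT.lf (nat_lit 0) (nat_lit 548929565) (nat_lit 152) (nat_lit 875203745) (nat_lit 228) (nat_lit 11187876458) (nat_lit 184) (nat_lit 5) (nat_lit 186) (nat_lit 5) (nat_lit 187) (nat_lit 5) (nat_lit 382) (nat_lit 333) (nat_lit 305)) (XT.nd (nat_lit 78) (nat_lit 228) (nat_lit 0) (XT.lf (nat_lit 0) (nat_lit 3815646910) (nat_lit 228) (nat_lit 5348477509) (nat_lit 304) (nat_lit 3795346303) (nat_lit 181) (nat_lit 5) (nat_lit 184) (nat_lit 5) (nat_lit 185) (nat_lit 5) (nat_lit 383) (nat_lit 333) (nat_lit 304)) (XT.lf (nat_lit 0) (nat_lit 3971490853) (nat_lit 228) (nat_lit 6107684455) (nat_lit 76) (nat_lit 3241522856) (nat_lit 178) (nat_lit 5) (nat_lit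 181) (nat_lit 5) (nat_lit 179) (nat_lit 5) (nat_lit 384) (nat_lit 333) (nat_lit 303)))) (XT.nd (nat_lit 156) (nat_lit 380) (nat_lit 0) (XT.nd (nat_lit 78) (nat_lit 380) (nat_lit 0) (XT.lf (nat_lit 0) (nat_lit 10734862234) (nat_lit 228) (nat_lit 1416444664) (nat_lit 304) (nat_lit 1544458832) (nat_lit 175) (nat_lit 5) (nat_lit 178) (nat_lit 5) (nat_lit 179) (nat_lit 5) (nat_lit 385) (nat_lit 333) (nat_lit 302)) (XT.lf (nat_lit 0) (nat_lit 261605904) (nat_lit 152) (nat_lit 6392537877) (nat_lit 228) (nat_lit 7429523250) (nat_lit 170) (nat_lit 5) (nat_lit 172) (nat_lit 5) (nat_lit 173) (nat_lit 5) (nat_lit 386) (nat_lit 333) (nat_lit 301))) (XT.nd (nat_lit 78) (nat_lit 152) (nat_lit 0) (XT.lf (nat_lit 0) (nat_lit 861679454) (nat_lit 228) (nat_lit 10790461649) (nat_lit 76) (nat_lit 2834073262) (nat_lit 167) (nat_lit 5) (nat_lit 170) (nat_lit 5) (nat_lit 168) (nat_lit 5) (nat_lit 387) (nat_lit 333) (nat_lit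 300)) (XT.lf (nat_lit 0) (nat_lit 7215713869) (nat_lit 152) (nat_lit 2333551851) (nat_lit 228) (nat_lit 5353352235) (nat_lit 165) (nat_lit 5) (nat_lit 167) (nat_lit 5) (nat_lit 168) (nat_lit 5) (nat_lit 388) (nat_lit 333) (nat_lit 299))))))) (XT.nd (nat_lit 1014) (nat_lit 1976) (nat_lit 0) (XT.nd (nat_lit 468) (nat_lit 1368) (nat_lit 0) (XT.nd (nat_lit 234) (nat_lit 532) (nat_lit 0) (XT.nd (nat_lit 78) (nat_lit 532) (nat_lit 0) (XT.lf (nat_lit 0) (nat_lit 3416234241) (nat_lit 228) (nat_lit 4471338856) (nat_lit 76) (nat_lit 7446812364) (nat_lit 162) (nat_lit 5) (nat_lit 165) (nat_lit 5) (nat_lit 163) (nat_lit 5) (nat_lit 389) (nat_lit 333) (nat_lit 298)) (XT.nd (nat_lit 78) (nat_lit 380) (nat_lit 0) (XT.lf (nat_lit 0) (nat_lit 12641665208) (nat_lit 228) (nat_lit 1127908524) (nat_lit 76) (nat_lit 2012735085) (nat_lit 160) (nat_lit 5) (nat_lit 163) (nat_lit 5) (nat_lit 161) (nat_lit 4) (nat_lit 390)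 (nat_lit 333) (nat_lit 297)) (XT.lf (nat_lit 0) (nat_lit 2355372685) (nat_lit 152) (nat_lit 3797146914) (nat_lit 228) (nat_lit 10092496437) (nat_lit 155) (nat_lit 5) (nat_lit 157) (nat_lit 5) (nat_lit 158) (nat_lit 5) (nat_lit 391) (nat_lit 333) (nat_lit 296)))) (XT.nd (nat_lit 78) (nat_lit 380) (nat_lit 0) (XT.lf (nat_lit 0) (nat_lit 6008016225) (nat_lit 152) (nat_lit 10013090965) (nat_lit 228) (nat_lit 703546975) (nat_lit 153) (nat_lit 5) (nat_lit 155) (nat_lit 5) (nat_lit 156) (nat_lit 4) (nat_lit 392) (nat_lit 333) (nat_lit 295)) (XT.nd (nat_lit 78) (nat_lit 152) (nat_lit 0) (XT.lf (nat_lit 0) (nat_lit 9127531980) (nat_lit 228) (nat_lit 7441283620) (nat_lit 76) (nat_lit 652278755) (nat_lit 150) (nat_lit 5) (nat_lit 153) (nat_lit 5) (nat_lit 151) (nat_lit 4) (nat_lit 393) (nat_lit 333) (nat_lit 294)) (XT.lf (nat_lit 0) (nat_lit 1877996490) (nat_lit 152) (nat_lit 4049404468) (nat_lit 76) (nat_lit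 11807731007) (nat_lit 148) (nat_lit 5) (nat_lit 150) (nat_lit 5) (nat_lit 149) (nat_lit 5) (nat_lit 394) (nat_lit 333) (nat_lit 293))))) (XT.nd (nat_lit 234) (nat_lit 836) (nat_lit 0) (XT.nd (nat_lit 78) (nat_lit 380) (nat_lit 0) (XT.lf (nat_lit 0) (nat_lit 12356995912) (nat_lit 228) (nat_lit 539968524) (nat_lit 76) (nat_lit 5370215494) (nat_lit 146) (nat_lit 5) (nat_lit 149) (nat_lit 5) (nat_lit 147) (nat_lit 4) (nat_lit 395) (nat_lit 333) (nat_lit 292)) (XT.nd (nat_lit 78) (nat_lit 76) (nat_lit 0) (XT.lf (nat_lit 0) (nat_lit 3187145376) (nat_lit 152) (nat_lit 1480877123) (nat_lit 228) (nat_lit 14149828721) (nat_lit 142) (nat_lit 5) (nat_lit 144) (nat_lit 5) (nat_lit 145) (nat_lit 5) (nat_lit 396) (nat_lit 333) (nat_lit 291)) (XT.lf (nat_lit 0) (nat_lit 7036428554) (nat_lit 76) (nat_lit 8863374723) (nat_lit 152) (nat_lit 3487090429) (nat_lit 141) (nat_lit 5) (nat_lit 142) (nat_lit 5) (nat_lit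 143) (nat_lit 4) (nat_lit 397) (nat_lit 333) (nat_lit 290)))) (XT.nd (nat_lit 156) (nat_lit 532) (nat_lit 0) (XT.nd (nat_lit 78) (nat_lit 76) (nat_lit 0) (XT.lf (nat_lit 0) (nat_lit 7752964717) (nat_lit 228) (nat_lit 8929714288) (nat_lit 76) (nat_lit 3293648082) (nat_lit 138) (nat_lit 5) (nat_lit 141) (nat_lit 5) (nat_lit 139) (nat_lit 4) (nat_lit 398) (nat_lit 333) (nat_lit 289)) (XT.lf (nat_lit 0) (nat_lit 15225775752) (nat_lit 76) (nat_lit 4503016200) (nat_lit 152) (nat_lit 858027785) (nat_lit 137) (nat_lit 5) (nat_lit 138) (nat_lit 5) (nat_lit 139) (nat_lit 4) (nat_lit 399) (nat_lit 333) (nat_lit 288))) (XT.nd (nat_lit 78) (nat_lit 304) (nat_lit 0) (XT.lf (nat_lit 0) (nat_lit 11106626742) (nat_lit 228) (nat_lit 1697925662) (nat_lit 76) (nat_lit 8412675332) (nat_lit 134) (nat_lit 5) (nat_lit 137) (nat_lit 5) (nat_lit 135) (nat_lit 4) (nat_lit 400) (nat_lit 333) (nat_lit 287)) (XT.lf (nat_lit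 0) (nat_lit 1982928862) (nat_lit 228) (nat_lit 19645780121) (nat_lit 76) (nat_lit 242341342) (nat_lit 130) (nat_lit 5) (nat_lit 133) (nat_lit 5) (nat_lit 131) (nat_lit 4) (nat_lit 401) (nat_lit 333) (nat_lit 286)))))) (XT.nd (nat_lit 546) (nat_lit 836) (nat_lit 0) (XT.nd (nat_lit 234) (nat_lit 760) (nat_lit 0) (XT.nd (nat_lit 78) (nat_lit 304) (nat_lit 0) (XT.lf (nat_lit 0) (nat_lit 6256248102) (nat_lit 76) (nat_lit 8548648541) (nat_lit 152) (nat_lit 7739678325) (nat_lit 129) (nat_lit 5) (nat_lit 130) (nat_lit 5) (nat_lit 131) (nat_lit 4) (nat_lit 402) (nat_lit 333) (nat_lit 285)) (XT.nd (nat_lit 78) (nat_lit 76) (nat_lit 0) (XT.lf (nat_lit 0) (nat_lit 5163828524) (nat_lit 228) (nat_lit 12739012064) (nat_lit 76) (nat_lit 5340122934) (nat_lit 126) (nat_lit 5) (nat_lit 129) (nat_lit 5) (nat_lit 127) (nat_lit 4) (nat_lit 403) (nat_lit 333) (nat_lit 284)) (XT.lf (nat_lit 0) (nat_lit 14917772075) (nat_lit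 76) (nat_lit 3924992360) (nat_lit 152) (nat_lit 5122498490) (nat_lit 125) (nat_lit 5) (nat_lit 126) (nat_lit 5) (nat_lit 127) (nat_lit 4) (nat_lit 404) (nat_lit 333) (nat_lit 283)))) (XT.nd (nat_lit 156) (nat_lit 456) (nat_lit 0) (XT.nd (nat_lit 78) (nat_lit 76) (nat_lit 0) (XT.lf (nat_lit 0) (nat_lit 8635646845) (nat_lit 228) (nat_lit 5226130176) (nat_lit 76) (nat_lit 10849878536) (nat_lit 122) (nat_lit 5) (nat_lit 125) (nat_lit 5) (nat_lit 123) (nat_lit 4) (nat_lit 405) (nat_lit 333) (nat_lit 282)) (XT.lf (nat_lit 0) (nat_lit 23248864779) (nat_lit 152) (nat_lit 1176896793) (nat_lit 0) (nat_lit 1059891521) (nat_lit 121) (nat_lit 5) (nat_lit 123) (nat_lit 4) (nat_lit 121) (nat_lit 4) (nat_lit 406) (nat_lit 333) (nat_lit 281))) (XT.nd (nat_lit 78) (nat_lit 152) (nat_lit 0) (XT.lf (nat_lit 0) (nat_lit 3014377826) (nat_lit 76) (nat_lit 9445771884) (nat_lit 152) (nat_lit 13822485425) (nat_lit 117)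 (nat_lit 5) (nat_lit 118) (nat_lit 5) (nat_lit 119) (nat_lit 4) (nat_lit 407) (nat_lit 333) (nat_lit 280)) (XT.lf (nat_lit 0) (nat_lit 1034264083) (nat_lit 152) (nat_lit 19615159783) (nat_lit 76) (nat_lit 6459521140) (nat_lit 115) (nat_lit 5) (nat_lit 117) (nat_lit 5) (nat_lit 116) (nat_lit 4) (nat_lit 408) (nat_lit 333) (nat_lit 279))))) (XT.nd (nat_lit 234) (nat_lit 532) (nat_lit 0) (XT.nd (nat_lit 78) (nat_lit 228) (nat_lit 0) (XT.lf (nat_lit 0) (nat_lit 12110483915) (nat_lit 76) (nat_lit 4591544528) (nat_lit 152) (nat_lit 11259814815) (nat_lit 114) (nat_lit 5) (nat_lit 115) (nat_lit 5) (nat_lit 116) (nat_lit 4) (nat_lit 409) (nat_lit 333) (nat_lit 278)) (XT.nd (nat_lit 78) (nat_lit 76) (nat_lit 0) (XT.lf (nat_lit 0) (nat_lit 4600866069) (nat_lit 152) (nat_lit 11893976016) (nat_lit 76) (nat_lit 12349638585) (nat_lit 112) (nat_lit 5) (nat_lit 114) (nat_lit 5) (nat_lit 113) (nat_lit 4) (nat_lit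 410) (nat_lit 333) (nat_lit 277)) (XT.lf (nat_lit 0) (nat_lit 21355215240) (nat_lit 152) (nat_lit 7731072532) (nat_lit 0) (nat_lit 671612546) (nat_lit 111) (nat_lit 5) (nat_lit 113) (nat_lit 4) (nat_lit 111) (nat_lit 4) (nat_lit 411) (nat_lit 333) (nat_lit 276)))) (XT.nd (nat_lit 156) (nat_lit 228) (nat_lit 0) (XT.nd (nat_lit 78) (nat_lit 152) (nat_lit 0) (XT.lf (nat_lit 0) (nat_lit 8531140070) (nat_lit 152) (nat_lit 3430461526) (nat_lit 76) (nat_lit 18739172362) (nat_lit 109) (nat_lit 5) (nat_lit 111) (nat_lit 5) (nat_lit 110) (nat_lit 4) (nat_lit 412) (nat_lit 333) (nat_lit 275)) (XT.lf (nat_lit 0) (nat_lit 1147053557) (nat_lit 76) (nat_lit 25367232230) (nat_lit 76) (nat_lit 5162717354) (nat_lit 107) (nat_lit 4) (nat_lit 108) (nat_lit 5) (nat_lit 108) (nat_lit 4) (nat_lit 413) (nat_lit 333) (nat_lit 274))) (XT.nd (nat_lit 78) (nat_lit 76) (nat_lit 0) (XT.lf (nat_lit 0) (nat_lit 5968657649) (nat_lit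 76) (nat_lit 6952759438) (nat_lit 152) (nat_lit 19762728214) (nat_lit 105) (nat_lit 5) (nat_lit 106) (nat_lit 5) (nat_lit 107) (nat_lit 4) (nat_lit 414) (nat_lit 333) (nat_lit 273)) (XT.lf (nat_lit 0) (nat_lit 11055771720) (nat_lit 76) (nat_lit 21197739194) (nat_lit 76) (nat_lit 1473084405) (nat_lit 104) (nat_lit 4) (nat_lit 105) (nat_lit 5) (nat_lit 105) (nat_lit 4) (nat_lit 415) (nat_lit 333) (nat_lit 272))))))))
noncomputable def xc36 : XT := (XT.nd (nat_lit 48204) (nat_lit 0) (nat_lit 10488) (XT.nd (nat_lit 1014) (nat_lit 1444) (nat_lit 0) (XT.nd (nat_lit 468) (nat_lit 912) (nat_lit 0) (XT.nd (nat_lit 234) (nat_lit 456) (nat_lit 0) (XT.nd (nat_lit 78) (nat_lit 228) (nat_lit 0) (XT.lf (nat_lit 0) (nat_lit 16356550433) (nat_lit 76) (nat_lit 1442300752) (nat_lit 152) (nat_lit 17004789224) (nat_lit 102) (nat_lit 5) (nat_lit 103) (nat_lit 5) (nat_lit 104) (nat_lit 4) (nat_lit 416) (nat_lit 333)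 (nat_lit 271)) (XT.nd (nat_lit 78) (nat_lit 76) (nat_lit 0) (XT.lf (nat_lit 0) (nat_lit 2577609089) (nat_lit 152) (nat_lit 14013256628) (nat_lit 76) (nat_lit 19326192165) (nat_lit 100) (nat_lit 5) (nat_lit 102) (nat_lit 5) (nat_lit 101) (nat_lit 4) (nat_lit 417) (nat_lit 333) (nat_lit 270)) (XT.lf (nat_lit 0) (nat_lit 23220153805) (nat_lit 152) (nat_lit 9356195745) (nat_lit 0) (nat_lit 4491764404) (nat_lit 99) (nat_lit 5) (nat_lit 101) (nat_lit 4) (nat_lit 99) (nat_lit 4) (nat_lit 418) (nat_lit 333) (nat_lit 269)))) (XT.nd (nat_lit 78) (nat_lit 304) (nat_lit 0) (XT.lf (nat_lit 0) (nat_lit 7047112301) (nat_lit 152) (nat_lit 4463840658) (nat_lit 76) (nat_lit 26747116780) (nat_lit 97) (nat_lit 5) (nat_lit 99) (nat_lit 5) (nat_lit 98) (nat_lit 4) (nat_lit 419) (nat_lit 333) (nat_lit 268)) (XT.nd (nat_lit 78) (nat_lit 152) (nat_lit 0) (XT.lf (nat_lit 0) (nat_lit 685719591) (nat_lit 76) (nat_lit 28531489026)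 (nat_lit 76) (nat_lit 10270701423) (nat_lit 95) (nat_lit 4) (nat_lit 96) (nat_lit 5) (nat_lit 96) (nat_lit 4) (nat_lit 420) (nat_lit 333) (nat_lit 267)) (XT.lf (nat_lit 0) (nat_lit 6206424379) (nat_lit 76) (nat_lit 5864213855) (nat_lit 152) (nat_lit 28687744218) (nat_lit 93) (nat_lit 5) (nat_lit 94) (nat_lit 5) (nat_lit 95) (nat_lit 4) (nat_lit 421) (nat_lit 333) (nat_lit 266))))) (XT.nd (nat_lit 234) (nat_lit 608) (nat_lit 0) (XT.nd (nat_lit 78) (nat_lit 228) (nat_lit 0) (XT.lf (nat_lit 0) (nat_lit 11983893010) (nat_lit 76) (nat_lit 23942326874) (nat_lit 76) (nat_lit 6144820232) (nat_lit 92) (nat_lit 4) (nat_lit 93) (nat_lit 5) (nat_lit 93) (nat_lit 4) (nat_lit 422) (nat_lit 333) (nat_lit 265)) (XT.nd (nat_lit 78) (nat_lit 76) (nat_lit 0) (XT.lf (nat_lit 0) (nat_lit 17697576739) (nat_lit 152) (nat_lit 25343762360) (nat_lit 0) (nat_lit 387508435) (nat_lit 90) (nat_lit 5) (nat_lit 92) (nat_lit 4)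 (nat_lit 90) (nat_lit 4) (nat_lit 423) (nat_lit 333) (nat_lit 264)) (XT.lf (nat_lit 0) (nat_lit 24460291926) (nat_lit 76) (nat_lit 18855320464) (nat_lit 76) (nat_lit 1515789644) (nat_lit 89) (nat_lit 4) (nat_lit 90) (nat_lit 5) (nat_lit 90) (nat_lit 4) (nat_lit 424) (nat_lit 333) (nat_lit 263)))) (XT.nd (nat_lit 156) (nat_lit 304) (nat_lit 0) (XT.nd (nat_lit 78) (nat_lit 152) (nat_lit 0) (XT.lf (nat_lit 0) (nat_lit 23998726533) (nat_lit 152) (nat_lit 15144828938) (nat_lit 0) (nat_lit 7136988320) (nat_lit 87) (nat_lit 5) (nat_lit 89) (nat_lit 4) (nat_lit 87) (nat_lit 4) (nat_lit 425) (nat_lit 333) (nat_lit 262)) (XT.lf (nat_lit 0) (nat_lit 3597957943) (nat_lit 152) (nat_lit 9583828607) (nat_lit 76) (nat_lit 34598062081) (nat_lit 85) (nat_lit 5) (nat_lit 87) (nat_lit 5) (nat_lit 86) (nat_lit 4) (nat_lit 426) (nat_lit 333) (nat_lit 261))) (XT.nd (nat_lit 78) (nat_lit 228) (nat_lit 0) (XT.lf (nat_lit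 0) (nat_lit 30978970149) (nat_lit 152) (nat_lit 3789316755) (nat_lit 0) (nat_lit 14559171337) (nat_lit 84) (nat_lit 5) (nat_lit 86) (nat_lit 4) (nat_lit 84) (nat_lit 4) (nat_lit 427) (nat_lit 333) (nat_lit 260)) (XT.lf (nat_lit 0) (nat_lit 2452071668) (nat_lit 76) (nat_lit 6855671166) (nat_lit 152) (nat_lit 41621101889) (nat_lit 81) (nat_lit 5) (nat_lit 82) (nat_lit 5) (nat_lit 83) (nat_lit 4) (nat_lit 428) (nat_lit 333) (nat_lit 259)))))) (XT.nd (nat_lit 468) (nat_lit 760) (nat_lit 0) (XT.nd (nat_lit 234) (nat_lit 380) (nat_lit 0) (XT.nd (nat_lit 78) (nat_lit 228) (nat_lit 0) (XT.lf (nat_lit 0) (nat_lit 9017736987) (nat_lit 76) (nat_lit 29773625954) (nat_lit 76) (nat_lit 13788765968) (nat_lit 80) (nat_lit 4) (nat_lit 81) (nat_lit 5) (nat_lit 81) (nat_lit 4) (nat_lit 429) (nat_lit 333) (nat_lit 258)) (XT.nd (nat_lit 78) (nat_lit 76) (nat_lit 0) (XT.lf (nat_lit 0) (nat_lit 15790531018) (nat_lit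 152) (nat_lit 38247583150) (nat_lit 0) (nat_lit 251715751) (nat_lit 78) (nat_lit 5) (nat_lit 80) (nat_lit 4) (nat_lit 78) (nat_lit 4) (nat_lit 430) (nat_lit 333) (nat_lit 257)) (XT.lf (nat_lit 0) (nat_lit 23333042111) (nat_lit 76) (nat_lit 24139021848) (nat_lit 76) (nat_lit 8581603030) (nat_lit 77) (nat_lit 4) (nat_lit 78) (nat_lit 5) (nat_lit 78) (nat_lit 4) (nat_lit 431) (nat_lit 333) (nat_lit 256)))) (XT.nd (nat_lit 78) (nat_lit 228) (nat_lit 0) (XT.lf (nat_lit 0) (nat_lit 23091046930) (nat_lit 152) (nat_lit 26817371434) (nat_lit 0) (nat_lit 7969555197) (nat_lit 75) (nat_lit 5) (nat_lit 77) (nat_lit 4) (nat_lit 75) (nat_lit 4) (nat_lit 432) (nat_lit 333) (nat_lit 255)) (XT.nd (nat_lit 78) (nat_lit 152) (nat_lit 0) (XT.lf (nat_lit 0) (nat_lit 39224441510) (nat_lit 76) (nat_lit 17838788868) (nat_lit 76) (nat_lit 2700914641) (nat_lit 74) (nat_lit 4) (nat_lit 75) (nat_lit 5) (nat_lit 75) (nat_lit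 4) (nat_lit 433) (nat_lit 333) (nat_lit 254)) (XT.lf (nat_lit 0) (nat_lit 31217858431) (nat_lit 152) (nat_lit 13987089466) (nat_lit 0) (nat_lit 16505745225) (nat_lit 72) (nat_lit 5) (nat_lit 74) (nat_lit 4) (nat_lit 72) (nat_lit 4) (nat_lit 434) (nat_lit 333) (nat_lit 253))))) (XT.nd (nat_lit 234) (nat_lit 304) (nat_lit 0) (XT.nd (nat_lit 78) (nat_lit 304) (nat_lit 0) (XT.lf (nat_lit 0) (nat_lit 3846695652) (nat_lit 152) (nat_lit 6917747639) (nat_lit 76) (nat_lit 52961969151) (nat_lit 70) (nat_lit 5) (nat_lit 72) (nat_lit 5) (nat_lit 71) (nat_lit 4) (nat_lit 435) (nat_lit 333) (nat_lit 252)) (XT.nd (nat_lit 78) (nat_lit 152) (nat_lit 0) (XT.lf (nat_lit 0) (nat_lit 395829154) (nat_lit 76) (nat_lit 39859745936) (nat_lit 76) (nat_lit 25548795025) (nat_lit 68) (nat_lit 4) (nat_lit 69) (nat_lit 5) (nat_lit 69) (nat_lit 4) (nat_lit 436) (nat_lit 333) (nat_lit 251)) (XT.lf (nat_lit 0) (nat_lit 8466146435)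 (nat_lit 76) (nat_lit 2760356805) (nat_lit 152) (nat_lit 56728713922) (nat_lit 66) (nat_lit 5) (nat_lit 67) (nat_lit 5) (nat_lit 68) (nat_lit 4) (nat_lit 437) (nat_lit 333) (nat_lit 250)))) (XT.nd (nat_lit 156) (nat_lit 76) (nat_lit 0) (XT.nd (nat_lit 78) (nat_lit 152) (nat_lit 0) (XT.lf (nat_lit 0) (nat_lit 16793422140) (nat_lit 76) (nat_lit 33648456411) (nat_lit 76) (nat_lit 19730248246) (nat_lit 65) (nat_lit 4) (nat_lit 66) (nat_lit 5) (nat_lit 66) (nat_lit 4) (nat_lit 438) (nat_lit 333) (nat_lit 249)) (XT.lf (nat_lit 0) (nat_lit 19636110490) (nat_lit 152) (nat_lit 46719101769) (nat_lit 0) (nat_lit 6112425391) (nat_lit 63) (nat_lit 5) (nat_lit 65) (nat_lit 4) (nat_lit 63) (nat_lit 4) (nat_lit 439) (nat_lit 333) (nat_lit 248))) (XT.nd (nat_lit 46254) (nat_lit 0) (nat_lit 28196) (XT.lf (nat_lit 0) (nat_lit 35101954331) (nat_lit 76) (nat_lit 26634464134) (nat_lit 76) (nat_lit 13100434617) (nat_lit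 62) (nat_lit 4) (nat_lit 63) (nat_lit 5) (nat_lit 63) (nat_lit 4) (nat_lit 440) (nat_lit 333) (nat_lit 247)) (XT.lf (nat_lit 0) (nat_lit 19994695) (nat_lit 988) (nat_lit 3388316775) (nat_lit 0) (nat_lit 19994695) (nat_lit 433) (nat_lit 5) (nat_lit 446) (nat_lit 4) (nat_lit 433) (nat_lit 4) (nat_lit 352) (nat_lit 334) (nat_lit 334))))))) (XT.nd (nat_lit 1014) (nat_lit 6080) (nat_lit 0) (XT.nd (nat_lit 468) (nat_lit 4864) (nat_lit 0) (XT.nd (nat_lit 234) (nat_lit 3420) (nat_lit 0) (XT.nd (nat_lit 78) (nat_lit 2356) (nat_lit 0) (XT.lf (nat_lit 0) (nat_lit 1277342032) (nat_lit 988) (nat_lit 4423526184) (nat_lit 988) (nat_lit 1228154131) (nat_lit 420) (nat_lit 4) (nat_lit 433) (nat_lit 5) (nat_lit 433) (nat_lit 4) (nat_lit 353) (nat_lit 334) (nat_lit 333)) (XT.nd (nat_lit 78) (nat_lit 1216) (nat_lit 0) (XT.lf (nat_lit 0) (nat_lit 2603686358) (nat_lit 1064) (nat_lit 1752111617) (nat_lit 1140) (nat_lit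 2653718953) (nat_lit 405) (nat_lit 5) (nat_lit 419) (nat_lit 5) (nat_lit 420) (nat_lit 4) (nat_lit 354) (nat_lit 334) (nat_lit 332)) (XT.lf (nat_lit 0) (nat_lit 2868452146) (nat_lit 1216) (nat_lit 3047799597) (nat_lit 76) (nat_lit 1181653787) (nat_lit 389) (nat_lit 5) (nat_lit 405) (nat_lit 5) (nat_lit 390) (nat_lit 4) (nat_lit 355) (nat_lit 334) (nat_lit 331)))) (XT.nd (nat_lit 78) (nat_lit 2128) (nat_lit 0) (XT.lf (nat_lit 0) (nat_lit 1241159969) (nat_lit 1292) (nat_lit 1582807864) (nat_lit 76) (nat_lit 4370137944) (nat_lit 372) (nat_lit 5) (nat_lit 389) (nat_lit 5) (nat_lit 373) (nat_lit 5) (nat_lit 356) (nat_lit 334) (nat_lit 330)) (XT.nd (nat_lit 78) (nat_lit 1292) (nat_lit 0) (XT.lf (nat_lit 0) (nat_lit 6744095728) (nat_lit 912) (nat_lit 1636861) (nat_lit 76) (nat_lit 552739276) (nat_lit 361) (nat_lit 5) (nat_lit 373) (nat_lit 5) (nat_lit 362) (nat_lit 4) (nat_lit 357) (nat_lit 334) (nat_lit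 329)) (XT.lf (nat_lit 0) (nat_lit 1699258075) (nat_lit 608) (nat_lit 3210902065) (nat_lit 684) (nat_lit 2499546321) (nat_lit 344) (nat_lit 5) (nat_lit 352) (nat_lit 5) (nat_lit 353) (nat_lit 5) (nat_lit 358) (nat_lit 334) (nat_lit 328))))) (XT.nd (nat_lit 234) (nat_lit 3040) (nat_lit 0) (XT.nd (nat_lit 78) (nat_lit 1216) (nat_lit 0) (XT.lf (nat_lit 0) (nat_lit 2915354883) (nat_lit 608) (nat_lit 4003046337) (nat_lit 76) (nat_lit 611062267) (nat_lit 336) (nat_lit 5) (nat_lit 344) (nat_lit 5) (nat_lit 337) (nat_lit 5) (nat_lit 359) (nat_lit 334) (nat_lit 327)) (XT.nd (nat_lit 78) (nat_lit 532) (nat_lit 0) (XT.lf (nat_lit 0) (nat_lit 780256215) (nat_lit 684) (nat_lit 2201697078) (nat_lit 76) (nat_lit 4675168269) (nat_lit 327) (nat_lit 5) (nat_lit 336) (nat_lit 5) (nat_lit 328) (nat_lit 5) (nat_lit 360) (nat_lit 334) (nat_lit 326)) (XT.lf (nat_lit 0) (nat_lit 6241519475) (nat_lit 608) (nat_lit 298457719)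 (nat_lit 76) (nat_lit 1253036608) (nat_lit 320) (nat_lit 5) (nat_lit 328) (nat_lit 5) (nat_lit 321) (nat_lit 5) (nat_lit 361) (nat_lit 334) (nat_lit 325)))) (XT.nd (nat_lit 156) (nat_lit 1368) (nat_lit 0) (XT.nd (nat_lit 78) (nat_lit 608) (nat_lit 0) (XT.lf (nat_lit 0) (nat_lit 1731269680) (nat_lit 456) (nat_lit 2165751286) (nat_lit 532) (nat_lit 4039443193) (nat_lit 306) (nat_lit 5) (nat_lit 312) (nat_lit 5) (nat_lit 313) (nat_lit 5) (nat_lit 362) (nat_lit 334) (nat_lit 324)) (XT.lf (nat_lit 0) (nat_lit 1394466942) (nat_lit 608) (nat_lit 4209807581) (nat_lit 76) (nat_lit 2484185096) (nat_lit 298) (nat_lit 5) (nat_lit 306) (nat_lit 5) (nat_lit 299) (nat_lit 5) (nat_lit 363) (nat_lit 334) (nat_lit 323))) (XT.nd (nat_lit 78) (nat_lit 912) (nat_lit 0) (XT.lf (nat_lit 0) (nat_lit 6130734347) (nat_lit 456) (nat_lit 814610460) (nat_lit 532) (nat_lit 1303645788) (nat_lit 292) (nat_lit 5) (nat_lit 298)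 (nat_lit 5) (nat_lit 299) (nat_lit 5) (nat_lit 364) (nat_lit 334) (nat_lit 322)) (XT.lf (nat_lit 0) (nat_lit 52215336) (nat_lit 380) (nat_lit 4175104588) (nat_lit 456) (nat_lit 4190288746) (nat_lit 280) (nat_lit 5) (nat_lit 285) (nat_lit 5) (nat_lit 286) (nat_lit 5) (nat_lit 365) (nat_lit 334) (nat_lit 321)))))) (XT.nd (nat_lit 546) (nat_lit 2812) (nat_lit 0) (XT.nd (nat_lit 234) (nat_lit 1900) (nat_lit 0) (XT.nd (nat_lit 78) (nat_lit 836) (nat_lit 0) (XT.lf (nat_lit 0) (nat_lit 1348693756) (nat_lit 532) (nat_lit 6210155932) (nat_lit 76) (nat_lit 1036132803) (nat_lit 273) (nat_lit 5) (nat_lit 280) (nat_lit 5) (nat_lit 274) (nat_lit 5) (nat_lit 366) (nat_lit 334) (nat_lit 320)) (XT.nd (nat_lit 78) (nat_lit 456) (nat_lit 0) (XT.lf (nat_lit 0) (nat_lit 4800293469) (nat_lit 380) (nat_lit 2251104511) (nat_lit 456) (nat_lit 1729379357) (nat_lit 268) (nat_lit 5) (nat_lit 273) (nat_lit 5) (nat_lit 274)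 (nat_lit 5) (nat_lit 367) (nat_lit 334) (nat_lit 319)) (XT.lf (nat_lit 0) (nat_lit 3954718986) (nat_lit 456) (nat_lit 1661520226) (nat_lit 76) (nat_lit 3359331886) (nat_lit 262) (nat_lit 5) (nat_lit 268) (nat_lit 5) (nat_lit 263) (nat_lit 5) (nat_lit 368) (nat_lit 334) (nat_lit 318)))) (XT.nd (nat_lit 156) (nat_lit 760) (nat_lit 0) (XT.nd (nat_lit 78) (nat_lit 304) (nat_lit 0) (XT.lf (nat_lit 0) (nat_lit 671129722) (nat_lit 456) (nat_lit 8391442419) (nat_lit 76) (nat_lit 117496444) (nat_lit 251) (nat_lit 5) (nat_lit 257) (nat_lit 5) (nat_lit 252) (nat_lit 5) (nat_lit 369) (nat_lit 334) (nat_lit 317)) (XT.lf (nat_lit 0) (nat_lit 3332962109) (nat_lit 304) (nat_lit 3238987833) (nat_lit 380) (nat_lit 2820507316) (nat_lit 247) (nat_lit 5) (nat_lit 251) (nat_lit 5) (nat_lit 252) (nat_lit 5) (nat_lit 370) (nat_lit 334) (nat_lit 316))) (XT.nd (nat_lit 78) (nat_lit 304) (nat_lit 0) (XT.lf (nat_lit 0) (nat_lit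 3079155353) (nat_lit 456) (nat_lit 3623844105) (nat_lit 76) (nat_lit 2911907143) (nat_lit 241) (nat_lit 5) (nat_lit 247) (nat_lit 5) (nat_lit 242) (nat_lit 5) (nat_lit 371) (nat_lit 334) (nat_lit 315)) (XT.lf (nat_lit 0) (nat_lit 8764735837) (nat_lit 304) (nat_lit 451347294) (nat_lit 380) (nat_lit 631539074) (nat_lit 237) (nat_lit 5) (nat_lit 241) (nat_lit 5) (nat_lit 242) (nat_lit 5) (nat_lit 372) (nat_lit 334) (nat_lit 314))))) (XT.nd (nat_lit 234) (nat_lit 1520) (nat_lit 0) (XT.nd (nat_lit 78) (nat_lit 608) (nat_lit 0) (XT.lf (nat_lit 0) (nat_lit 1546024098) (nat_lit 304) (nat_lit 3962282702) (nat_lit 380) (nat_lit 4580588955) (nat_lit 228) (nat_lit 5) (nat_lit 232) (nat_lit 5) (nat_lit 233) (nat_lit 5) (nat_lit 373) (nat_lit 334) (nat_lit 313)) (XT.nd (nat_lit 78) (nat_lit 228) (nat_lit 0) (XT.lf (nat_lit 0) (nat_lit 1592430311) (nat_lit 380) (nat_lit 6021289628) (nat_lit 76) (nat_lit 2727155609)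 (nat_lit 223) (nat_lit 5) (nat_lit 228) (nat_lit 5) (nat_lit 224) (nat_lit 5) (nat_lit 374) (nat_lit 334) (nat_lit 312)) (XT.lf (nat_lit 0) (nat_lit 7187774674) (nat_lit 228) (nat_lit 820523388) (nat_lit 304) (nat_lit 2594927763) (nat_lit 220) (nat_lit 5) (nat_lit 223) (nat_lit 5) (nat_lit 224) (nat_lit 5) (nat_lit 375) (nat_lit 334) (nat_lit 311)))) (XT.nd (nat_lit 156) (nat_lit 608) (nat_lit 0) (XT.nd (nat_lit 78) (nat_lit 532) (nat_lit 0) (XT.lf (nat_lit 0) (nat_lit 3847364383) (nat_lit 380) (nat_lit 733719021) (nat_lit 76) (nat_lit 6294798958) (nat_lit 215) (nat_lit 5) (nat_lit 220) (nat_lit 5) (nat_lit 216) (nat_lit 5) (nat_lit 376) (nat_lit 334) (nat_lit 310)) (XT.lf (nat_lit 0) (nat_lit 2107613174) (nat_lit 304) (nat_lit 8506924992) (nat_lit 380) (nat_lit 545169764) (nat_lit 208) (nat_lit 5) (nat_lit 212) (nat_lit 5) (nat_lit 213) (nat_lit 5) (nat_lit 377) (nat_lit 334) (nat_lit 309))) (XT.nd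 (nat_lit 78) (nat_lit 304) (nat_lit 0) (XT.lf (nat_lit 0) (nat_lit 5042923132) (nat_lit 228) (nat_lit 1159446061) (nat_lit 304) (nat_lit 5251682932) (nat_lit 204) (nat_lit 5) (nat_lit 207) (nat_lit 5) (nat_lit 208) (nat_lit 5) (nat_lit 378) (nat_lit 334) (nat_lit 308)) (XT.lf (nat_lit 0) (nat_lit 1562621976) (nat_lit 304) (nat_lit 3674893000) (nat_lit 76) (nat_lit 6522627629) (nat_lit 200) (nat_lit 5) (nat_lit 204) (nat_lit 5) (nat_lit 201) (nat_lit 5) (nat_lit 379) (nat_lit 334) (nat_lit 307))))))))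
noncomputable def xc37 : XT := (XT.nd (nat_lit 2106) (nat_lit 3496) (nat_lit 0) (XT.nd (nat_lit 1014) (nat_lit 2584) (nat_lit 0) (XT.nd (nat_lit 468) (nat_lit 1520) (nat_lit 0) (XT.nd (nat_lit 234) (nat_lit 912) (nat_lit 0) (XT.nd (nat_lit 78) (nat_lit 760) (nat_lit 0) (XT.lf (nat_lit 0) (nat_lit 8668550953) (nat_lit 304) (nat_lit 843639693) (nat_lit 76) (nat_lit 2566001408) (nat_lit 197) (nat_lit 5) (nat_lit 201) (nat_lit 5) (nat_lit 198) (nat_lit 5) (nat_lit 380) (nat_lit 334) (nat_lit 306)) (XT.nd (nat_lit 78) (nat_lit 228) (nat_lit 0) (XT.lf (nat_lit 0) (nat_lit 2130000696) (nat_lit 228) (nat_lit 1617878355) (nat_lit 304) (nat_lit 8660109107) (nat_lit 190) (nat_lit 5) (nat_lit 193) (nat_lit 5) (nat_lit 194) (nat_lit 5) (nat_lit 381) (nat_lit 334) (nat_lit 305)) (XT.lf (nat_lit 0) (nat_lit 5219458555) (nat_lit 228) (nat_lit 6082273623) (nat_lit 304) (nat_lit 1448259918) (nat_lit 187) (nat_lit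 5) (nat_lit 190) (nat_lit 5) (nat_lit 191) (nat_lit 5) (nat_lit 382) (nat_lit 334) (nat_lit 304)))) (XT.nd (nat_lit 78) (nat_lit 684) (nat_lit 0) (XT.lf (nat_lit 0) (nat_lit 6085754303) (nat_lit 228) (nat_lit 4690003043) (nat_lit 76) (nat_lit 2329140480) (nat_lit 184) (nat_lit 5) (nat_lit 187) (nat_lit 5) (nat_lit 185) (nat_lit 5) (nat_lit 383) (nat_lit 334) (nat_lit 303)) (XT.nd (nat_lit 78) (nat_lit 380) (nat_lit 0) (XT.lf (nat_lit 0) (nat_lit 591383828) (nat_lit 304) (nat_lit 1734160359) (nat_lit 76) (nat_lit 11148087286) (nat_lit 180) (nat_lit 5) (nat_lit 184) (nat_lit 5) (nat_lit 181) (nat_lit 5) (nat_lit 384) (nat_lit 334) (nat_lit 302)) (XT.lf (nat_lit 0) (nat_lit 1316280642) (nat_lit 228) (nat_lit 7255249174) (nat_lit 304) (nat_lit 5283159323) (nat_lit 175) (nat_lit 5) (nat_lit 178) (nat_lit 5) (nat_lit 179) (nat_lit 5) (nat_lit 385) (nat_lit 334) (nat_lit 301))))) (XT.nd (nat_lit 234)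 (nat_lit 912) (nat_lit 0) (XT.nd (nat_lit 78) (nat_lit 380) (nat_lit 0) (XT.lf (nat_lit 0) (nat_lit 2765141194) (nat_lit 228) (nat_lit 9704353783) (nat_lit 76) (nat_lit 1780871353) (nat_lit 172) (nat_lit 5) (nat_lit 175) (nat_lit 5) (nat_lit 173) (nat_lit 5) (nat_lit 386) (nat_lit 334) (nat_lit 300)) (XT.nd (nat_lit 78) (nat_lit 228) (nat_lit 0) (XT.lf (nat_lit 0) (nat_lit 7868342527) (nat_lit 152) (nat_lit 3382223604) (nat_lit 228) (nat_lit 3409372797) (nat_lit 170) (nat_lit 5) (nat_lit 172) (nat_lit 5) (nat_lit 173) (nat_lit 5) (nat_lit 387) (nat_lit 334) (nat_lit 299)) (XT.lf (nat_lit 0) (nat_lit 5108945103) (nat_lit 228) (nat_lit 3777174568) (nat_lit 76) (nat_lit 6198279962) (nat_lit 167) (nat_lit 5) (nat_lit 170) (nat_lit 5) (nat_lit 168) (nat_lit 5) (nat_lit 388) (nat_lit 334) (nat_lit 298)))) (XT.nd (nat_lit 156) (nat_lit 380) (nat_lit 0) (XT.nd (nat_lit 78) (nat_lit 380) (nat_lit 0) (XT.lf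 (nat_lit 0) (nat_lit 14109034036) (nat_lit 228) (nat_lit 620505183) (nat_lit 76) (nat_lit 795740483) (nat_lit 165) (nat_lit 5) (nat_lit 168) (nat_lit 5) (nat_lit 166) (nat_lit 4) (nat_lit 389) (nat_lit 334) (nat_lit 297)) (XT.lf (nat_lit 0) (nat_lit 2651106720) (nat_lit 152) (nat_lit 4980515425) (nat_lit 228) (nat_lit 8348145304) (nat_lit 160) (nat_lit 5) (nat_lit 162) (nat_lit 5) (nat_lit 163) (nat_lit 5) (nat_lit 390) (nat_lit 334) (nat_lit 296))) (XT.nd (nat_lit 78) (nat_lit 152) (nat_lit 0) (XT.lf (nat_lit 0) (nat_lit 791300175) (nat_lit 228) (nat_lit 10353368897) (nat_lit 76) (nat_lit 5306967372) (nat_lit 157) (nat_lit 5) (nat_lit 160) (nat_lit 5) (nat_lit 158) (nat_lit 5) (nat_lit 391) (nat_lit 334) (nat_lit 295)) (XT.lf (nat_lit 0) (nat_lit 9655643884) (nat_lit 152) (nat_lit 717689270) (nat_lit 228) (nat_lit 6566538056) (nat_lit 155) (nat_lit 5) (nat_lit 157) (nat_lit 5) (nat_lit 158) (nat_lit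 5) (nat_lit 392) (nat_lit 334) (nat_lit 294)))))) (XT.nd (nat_lit 546) (nat_lit 1292) (nat_lit 0) (XT.nd (nat_lit 234) (nat_lit 608) (nat_lit 0) (XT.nd (nat_lit 78) (nat_lit 456) (nat_lit 0) (XT.lf (nat_lit 0) (nat_lit 3138200259) (nat_lit 228) (nat_lit 4108374998) (nat_lit 76) (nat_lit 10198649366) (nat_lit 152) (nat_lit 5) (nat_lit 155) (nat_lit 5) (nat_lit 153) (nat_lit 5) (nat_lit 393) (nat_lit 334) (nat_lit 293)) (XT.nd (nat_lit 78) (nat_lit 304) (nat_lit 0) (XT.lf (nat_lit 0) (nat_lit 13359764829) (nat_lit 228) (nat_lit 799215217) (nat_lit 76) (nat_lit 3809893340) (nat_lit 150) (nat_lit 5) (nat_lit 153) (nat_lit 5) (nat_lit 151) (nat_lit 4) (nat_lit 394) (nat_lit 334) (nat_lit 292)) (XT.lf (nat_lit 0) (nat_lit 2687230158) (nat_lit 152) (nat_lit 3008295383) (nat_lit 228) (nat_lit 12814654146) (nat_lit 146) (nat_lit 5) (nat_lit 148) (nat_lit 5) (nat_lit 149) (nat_lit 5) (nat_lit 395) (nat_lit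 334) (nat_lit 291)))) (XT.nd (nat_lit 156) (nat_lit 304) (nat_lit 0) (XT.nd (nat_lit 78) (nat_lit 228) (nat_lit 0) (XT.lf (nat_lit 0) (nat_lit 6323438569) (nat_lit 76) (nat_lit 10328035817) (nat_lit 152) (nat_lit 2418765680) (nat_lit 145) (nat_lit 5) (nat_lit 146) (nat_lit 5) (nat_lit 147) (nat_lit 4) (nat_lit 396) (nat_lit 334) (nat_lit 290)) (XT.lf (nat_lit 0) (nat_lit 8523638275) (nat_lit 228) (nat_lit 9543815473) (nat_lit 76) (nat_lit 1582623594) (nat_lit 142) (nat_lit 5) (nat_lit 145) (nat_lit 5) (nat_lit 143) (nat_lit 4) (nat_lit 397) (nat_lit 334) (nat_lit 289))) (XT.nd (nat_lit 78) (nat_lit 228) (nat_lit 0) (XT.lf (nat_lit 0) (nat_lit 14045275200) (nat_lit 76) (nat_lit 6177472975) (nat_lit 152) (nat_lit 27651575) (nat_lit 141) (nat_lit 5) (nat_lit 142) (nat_lit 5) (nat_lit 143) (nat_lit 4) (nat_lit 398) (nat_lit 334) (nat_lit 288)) (XT.lf (nat_lit 0) (nat_lit 11626253492) (nat_lit 228)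 (nat_lit 2767037541) (nat_lit 76) (nat_lit 6477283193) (nat_lit 138) (nat_lit 5) (nat_lit 141) (nat_lit 5) (nat_lit 139) (nat_lit 4) (nat_lit 399) (nat_lit 334) (nat_lit 287))))) (XT.nd (nat_lit 234) (nat_lit 684) (nat_lit 0) (XT.nd (nat_lit 78) (nat_lit 304) (nat_lit 0) (XT.lf (nat_lit 0) (nat_lit 884498133) (nat_lit 152) (nat_lit 1655502148) (nat_lit 228) (nat_lit 18973719778) (nat_lit 134) (nat_lit 5) (nat_lit 136) (nat_lit 5) (nat_lit 137) (nat_lit 5) (nat_lit 400) (nat_lit 334) (nat_lit 286)) (XT.nd (nat_lit 78) (nat_lit 228) (nat_lit 0) (XT.lf (nat_lit 0) (nat_lit 4680878497) (nat_lit 76) (nat_lit 10367616996) (nat_lit 152) (nat_lit 7127997508) (nat_lit 133) (nat_lit 5) (nat_lit 134) (nat_lit 5) (nat_lit 135) (nat_lit 4) (nat_lit 401) (nat_lit 334) (nat_lit 285)) (XT.lf (nat_lit 0) (nat_lit 5446676496) (nat_lit 228) (nat_lit 14177929178) (nat_lit 76) (nat_lit 3239059131) (nat_lit 130) (nat_lit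 5) (nat_lit 133) (nat_lit 5) (nat_lit 131) (nat_lit 4) (nat_lit 402) (nat_lit 334) (nat_lit 284)))) (XT.nd (nat_lit 156) (nat_lit 380) (nat_lit 0) (XT.nd (nat_lit 78) (nat_lit 228) (nat_lit 0) (XT.lf (nat_lit 0) (nat_lit 12834308490) (nat_lit 76) (nat_lit 5975440469) (nat_lit 152) (nat_lit 4764116533) (nat_lit 129) (nat_lit 5) (nat_lit 130) (nat_lit 5) (nat_lit 131) (nat_lit 4) (nat_lit 403) (nat_lit 334) (nat_lit 283)) (XT.lf (nat_lit 0) (nat_lit 8649425822) (nat_lit 228) (nat_lit 7158961395) (nat_lit 76) (nat_lit 8499902305) (nat_lit 126) (nat_lit 5) (nat_lit 129) (nat_lit 5) (nat_lit 127) (nat_lit 4) (nat_lit 404) (nat_lit 334) (nat_lit 282))) (XT.nd (nat_lit 78) (nat_lit 304) (nat_lit 0) (XT.lf (nat_lit 0) (nat_lit 21702452857) (nat_lit 76) (nat_lit 1214218241) (nat_lit 152) (nat_lit 2152901919) (nat_lit 125) (nat_lit 5) (nat_lit 126) (nat_lit 5) (nat_lit 127) (nat_lit 4) (nat_lit 405) (nat_lit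 334) (nat_lit 281)) (XT.lf (nat_lit 0) (nat_lit 514030756) (nat_lit 76) (nat_lit 11654949505) (nat_lit 152) (nat_lit 13685211542) (nat_lit 121) (nat_lit 5) (nat_lit 122) (nat_lit 5) (nat_lit 123) (nat_lit 4) (nat_lit 406) (nat_lit 334) (nat_lit 280))))))) (XT.nd (nat_lit 1014) (nat_lit 1824) (nat_lit 0) (XT.nd (nat_lit 468) (nat_lit 912) (nat_lit 0) (XT.nd (nat_lit 234) (nat_lit 304) (nat_lit 0) (XT.nd (nat_lit 78) (nat_lit 228) (nat_lit 0) (XT.lf (nat_lit 0) (nat_lit 805384515) (nat_lit 228) (nat_lit 21935965916) (nat_lit 76) (nat_lit 3926017149) (nat_lit 118) (nat_lit 5) (nat_lit 121) (nat_lit 5) (nat_lit 119) (nat_lit 4) (nat_lit 407) (nat_lit 334) (nat_lit 279)) (XT.nd (nat_lit 78) (nat_lit 152) (nat_lit 0) (XT.lf (nat_lit 0) (nat_lit 9053303703) (nat_lit 76) (nat_lit 7058280373) (nat_lit 152) (nat_lit 11394330009) (nat_lit 117) (nat_lit 5) (nat_lit 118) (nat_lit 5) (nat_lit 119) (nat_lit 4)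 (nat_lit 408) (nat_lit 334) (nat_lit 278)) (XT.lf (nat_lit 0) (nat_lit 4081310500) (nat_lit 152) (nat_lit 14755335486) (nat_lit 76) (nat_lit 9537886275) (nat_lit 115) (nat_lit 5) (nat_lit 117) (nat_lit 5) (nat_lit 116) (nat_lit 4) (nat_lit 409) (nat_lit 334) (nat_lit 277)))) (XT.nd (nat_lit 78) (nat_lit 228) (nat_lit 0) (XT.lf (nat_lit 0) (nat_lit 18389171278) (nat_lit 76) (nat_lit 2055190800) (nat_lit 152) (nat_lit 8828356376) (nat_lit 114) (nat_lit 5) (nat_lit 115) (nat_lit 5) (nat_lit 116) (nat_lit 4) (nat_lit 410) (nat_lit 334) (nat_lit 276)) (XT.nd (nat_lit 78) (nat_lit 76) (nat_lit 0) (XT.lf (nat_lit 0) (nat_lit 7706755065) (nat_lit 152) (nat_lit 6862005541) (nat_lit 76) (nat_lit 15631668727) (nat_lit 112) (nat_lit 5) (nat_lit 114) (nat_lit 5) (nat_lit 113) (nat_lit 4) (nat_lit 411) (nat_lit 334) (nat_lit 275)) (XT.lf (nat_lit 0) (nat_lit 25240116848) (nat_lit 152) (nat_lit 2594204702) (nat_lit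 0) (nat_lit 3326959558) (nat_lit 111) (nat_lit 5) (nat_lit 113) (nat_lit 4) (nat_lit 111) (nat_lit 4) (nat_lit 412) (nat_lit 334) (nat_lit 274))))) (XT.nd (nat_lit 234) (nat_lit 456) (nat_lit 0) (XT.nd (nat_lit 78) (nat_lit 228) (nat_lit 0) (XT.lf (nat_lit 0) (nat_lit 1854254292) (nat_lit 76) (nat_lit 9882905742) (nat_lit 152) (nat_lit 20415268734) (nat_lit 108) (nat_lit 5) (nat_lit 109) (nat_lit 5) (nat_lit 110) (nat_lit 4) (nat_lit 413) (nat_lit 334) (nat_lit 273)) (XT.nd (nat_lit 78) (nat_lit 152) (nat_lit 0) (XT.lf (nat_lit 0) (nat_lit 6630564702) (nat_lit 76) (nat_lit 23967173007) (nat_lit 76) (nat_lit 2580383460) (nat_lit 107) (nat_lit 4) (nat_lit 108) (nat_lit 5) (nat_lit 108) (nat_lit 4) (nat_lit 414) (nat_lit 334) (nat_lit 272)) (XT.lf (nat_lit 0) (nat_lit 11591548225) (nat_lit 76) (nat_lit 4679542581) (nat_lit 152) (nat_lit 17966153674) (nat_lit 105) (nat_lit 5) (nat_lit 106) (nat_lit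 5) (nat_lit 107) (nat_lit 4) (nat_lit 415) (nat_lit 334) (nat_lit 271)))) (XT.nd (nat_lit 156) (nat_lit 228) (nat_lit 0) (XT.nd (nat_lit 78) (nat_lit 76) (nat_lit 0) (XT.lf (nat_lit 0) (nat_lit 1158762790) (nat_lit 152) (nat_lit 18510107267) (nat_lit 76) (nat_lit 15664241506) (nat_lit 103) (nat_lit 5) (nat_lit 105) (nat_lit 5) (nat_lit 104) (nat_lit 4) (nat_lit 416) (nat_lit 334) (nat_lit 270)) (XT.lf (nat_lit 0) (nat_lit 21295781084) (nat_lit 152) (nat_lit 14173241779) (nat_lit 0) (nat_lit 996589945) (nat_lit 102) (nat_lit 5) (nat_lit 104) (nat_lit 4) (nat_lit 102) (nat_lit 4) (nat_lit 417) (nat_lit 334) (nat_lit 269))) (XT.nd (nat_lit 78) (nat_lit 76) (nat_lit 0) (XT.lf (nat_lit 0) (nat_lit 5276779199) (nat_lit 152) (nat_lit 9629651270) (nat_lit 76) (nat_lit 22729371617) (nat_lit 100) (nat_lit 5) (nat_lit 102) (nat_lit 5) (nat_lit 101) (nat_lit 4) (nat_lit 418) (nat_lit 334) (nat_lit 268)) (XT.lf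 (nat_lit 0) (nat_lit 26900013728) (nat_lit 152) (nat_lit 4834101022) (nat_lit 0) (nat_lit 7111839335) (nat_lit 99) (nat_lit 5) (nat_lit 101) (nat_lit 4) (nat_lit 99) (nat_lit 4) (nat_lit 419) (nat_lit 334) (nat_lit 267)))))) (XT.nd (nat_lit 546) (nat_lit 912) (nat_lit 0) (XT.nd (nat_lit 234) (nat_lit 456) (nat_lit 0) (XT.nd (nat_lit 78) (nat_lit 228) (nat_lit 0) (XT.lf (nat_lit 0) (nat_lit 213148592) (nat_lit 76) (nat_lit 9658079056) (nat_lit 152) (nat_lit 30225592786) (nat_lit 96) (nat_lit 5) (nat_lit 97) (nat_lit 5) (nat_lit 98) (nat_lit 4) (nat_lit 420) (nat_lit 334) (nat_lit 266)) (XT.nd (nat_lit 78) (nat_lit 152) (nat_lit 0) (XT.lf (nat_lit 0) (nat_lit 5620581378) (nat_lit 76) (nat_lit 27525080212) (nat_lit 76) (nat_lit 8242616175) (nat_lit 95) (nat_lit 4) (nat_lit 96) (nat_lit 5) (nat_lit 96) (nat_lit 4) (nat_lit 421) (nat_lit 334) (nat_lit 265)) (XT.lf (nat_lit 0) (nat_lit 11325021887) (nat_lit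 76) (nat_lit 3768724687) (nat_lit 152) (nat_lit 27629967708) (nat_lit 93) (nat_lit 5) (nat_lit 94) (nat_lit 5) (nat_lit 95) (nat_lit 4) (nat_lit 422) (nat_lit 334) (nat_lit 264)))) (XT.nd (nat_lit 156) (nat_lit 228) (nat_lit 0) (XT.nd (nat_lit 78) (nat_lit 152) (nat_lit 0) (XT.lf (nat_lit 0) (nat_lit 17301738814) (nat_lit 76) (nat_lit 22792377361) (nat_lit 76) (nat_lit 4009328387) (nat_lit 92) (nat_lit 4) (nat_lit 93) (nat_lit 5) (nat_lit 93) (nat_lit 4) (nat_lit 423) (nat_lit 334) (nat_lit 263)) (XT.lf (nat_lit 0) (nat_lit 20930123692) (nat_lit 152) (nat_lit 21933641899) (nat_lit 0) (nat_lit 2666094276) (nat_lit 90) (nat_lit 5) (nat_lit 92) (nat_lit 4) (nat_lit 90) (nat_lit 4) (nat_lit 424) (nat_lit 334) (nat_lit 262))) (XT.nd (nat_lit 78) (nat_lit 76) (nat_lit 0) (XT.lf (nat_lit 0) (nat_lit 741594830) (nat_lit 152) (nat_lit 16785315282) (nat_lit 76) (nat_lit 29477457506) (nat_lit 88) (nat_lit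 5) (nat_lit 90) (nat_lit 5) (nat_lit 89) (nat_lit 4) (nat_lit 425) (nat_lit 334) (nat_lit 261)) (XT.lf (nat_lit 0) (nat_lit 27455363887) (nat_lit 152) (nat_lit 11398864133) (nat_lit 0) (nat_lit 9672641929) (nat_lit 87) (nat_lit 5) (nat_lit 89) (nat_lit 4) (nat_lit 87) (nat_lit 4) (nat_lit 426) (nat_lit 334) (nat_lit 260))))) (XT.nd (nat_lit 234) (nat_lit 456) (nat_lit 0) (XT.nd (nat_lit 78) (nat_lit 304) (nat_lit 0) (XT.lf (nat_lit 0) (nat_lit 5990837558) (nat_lit 152) (nat_lit 5644854613) (nat_lit 76) (nat_lit 38466759441) (nat_lit 85) (nat_lit 5) (nat_lit 87) (nat_lit 5) (nat_lit 86) (nat_lit 4) (nat_lit 427) (nat_lit 334) (nat_lit 259)) (XT.nd (nat_lit 78) (nat_lit 152) (nat_lit 0) (XT.lf (nat_lit 0) (nat_lit 363703186) (nat_lit 76) (nat_lit 34337162563) (nat_lit 76) (nat_lit 17027776990) (nat_lit 83) (nat_lit 4) (nat_lit 84) (nat_lit 5) (nat_lit 84) (nat_lit 4) (nat_lit 428) (nat_lit 334) (nat_lit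 258)) (XT.lf (nat_lit 0) (nat_lit 6912784003) (nat_lit 76) (nat_lit 5029527774) (nat_lit 152) (nat_lit 41467899729) (nat_lit 81) (nat_lit 5) (nat_lit 82) (nat_lit 5) (nat_lit 83) (nat_lit 4) (nat_lit 429) (nat_lit 334) (nat_lit 257)))) (XT.nd (nat_lit 156) (nat_lit 228) (nat_lit 0) (XT.nd (nat_lit 78) (nat_lit 152) (nat_lit 0) (XT.lf (nat_lit 0) (nat_lit 13725340231) (nat_lit 76) (nat_lit 29132252688) (nat_lit 76) (nat_lit 12287742579) (nat_lit 80) (nat_lit 4) (nat_lit 81) (nat_lit 5) (nat_lit 81) (nat_lit 4) (nat_lit 430) (nat_lit 334) (nat_lit 256)) (XT.lf (nat_lit 0) (nat_lit 18685743918) (nat_lit 152) (nat_lit 35941273966) (nat_lit 0) (nat_lit 2314132941) (nat_lit 78) (nat_lit 5) (nat_lit 80) (nat_lit 4) (nat_lit 78) (nat_lit 4) (nat_lit 431) (nat_lit 334) (nat_lit 255))) (XT.nd (nat_lit 78) (nat_lit 152) (nat_lit 0) (XT.lf (nat_lit 0) (nat_lit 28597454704) (nat_lit 76) (nat_lit 23293018204)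 (nat_lit 76) (nat_lit 6904533258) (nat_lit 77) (nat_lit 4) (nat_lit 78) (nat_lit 5) (nat_lit 78) (nat_lit 4) (nat_lit 432) (nat_lit 334) (nat_lit 254)) (XT.lf (nat_lit 0) (nat_lit 26270327718) (nat_lit 152) (nat_lit 24097227759) (nat_lit 0) (nat_lit 10343574909) (nat_lit 75) (nat_lit 5) (nat_lit 77) (nat_lit 4) (nat_lit 75) (nat_lit 4) (nat_lit 433) (nat_lit 334) (nat_lit 253))))))))
noncomputable def xc38 : XT := (XT.nd (nat_lit 48126) (nat_lit 0) (nat_lit 6308) (XT.nd (nat_lit 47034) (nat_lit 0) (nat_lit 14668) (XT.nd (nat_lit 468) (nat_lit 152) (nat_lit 0) (XT.nd (nat_lit 234) (nat_lit 380) (nat_lit 0) (XT.nd (nat_lit 78) (nat_lit 304) (nat_lit 0) (XT.lf (nat_lit 0) (nat_lit 45130267733) (nat_lit 76) (nat_lit 16752354914) (nat_lit 76) (nat_lit 810742701) (nat_lit 74) (nat_lit 4) (nat_lit 75) (nat_lit 5) (nat_lit 75) (nat_lit 4) (nat_lit 434) (nat_lit 334) (nat_lit 252)) (XT.nd (nat_lit 78) (nat_lit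 152) (nat_lit 0) (XT.lf (nat_lit 0) (nat_lit 34725756335) (nat_lit 152) (nat_lit 10777337995) (nat_lit 0) (nat_lit 19234723299) (nat_lit 72) (nat_lit 5) (nat_lit 74) (nat_lit 4) (nat_lit 72) (nat_lit 4) (nat_lit 435) (nat_lit 334) (nat_lit 251)) (XT.lf (nat_lit 0) (nat_lit 5948541176) (nat_lit 152) (nat_lit 3428579806) (nat_lit 76) (nat_lit 57478326760) (nat_lit 70) (nat_lit 5) (nat_lit 72) (nat_lit 5) (nat_lit 71) (nat_lit 4) (nat_lit 436) (nat_lit 334) (nat_lit 250)))) (XT.nd (nat_lit 78) (nat_lit 228) (nat_lit 0) (XT.lf (nat_lit 0) (nat_lit 4253280356) (nat_lit 76) (nat_lit 39924335895) (nat_lit 76) (nat_lit 24859694497) (nat_lit 68) (nat_lit 4) (nat_lit 69) (nat_lit 5) (nat_lit 69) (nat_lit 4) (nat_lit 437) (nat_lit 334) (nat_lit 249)) (XT.nd (nat_lit 78) (nat_lit 76) (nat_lit 0) (XT.lf (nat_lit 0) (nat_lit 12654382047) (nat_lit 76) (nat_lit 1005985714) (nat_lit 152) (nat_lit 57636434078) (nat_lit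 66) (nat_lit 5) (nat_lit 67) (nat_lit 5) (nat_lit 68) (nat_lit 4) (nat_lit 438) (nat_lit 334) (nat_lit 248)) (XT.lf (nat_lit 0) (nat_lit 21326997162) (nat_lit 76) (nat_lit 33473178772) (nat_lit 76) (nat_lit 18825471100) (nat_lit 65) (nat_lit 4) (nat_lit 66) (nat_lit 5) (nat_lit 66) (nat_lit 4) (nat_lit 439) (nat_lit 334) (nat_lit 247))))) (XT.nd (nat_lit 46254) (nat_lit 0) (nat_lit 24776) (XT.nd (nat_lit 46098) (nat_lit 0) (nat_lit 29944) (XT.lf (nat_lit 0) (nat_lit 22436353874) (nat_lit 152) (nat_lit 45394685883) (nat_lit 0) (nat_lit 8205426639) (nat_lit 63) (nat_lit 5) (nat_lit 65) (nat_lit 4) (nat_lit 63) (nat_lit 4) (nat_lit 440) (nat_lit 334) (nat_lit 246)) (XT.nd (nat_lit 78) (nat_lit 836) (nat_lit 0) (XT.lf (nat_lit 0) (nat_lit 2460821892) (nat_lit 684) (nat_lit 451994209) (nat_lit 684) (nat_lit 451994209) (nat_lit 468) (nat_lit 4) (nat_lit 477) (nat_lit 5) (nat_lit 477) (nat_lit 4) (nat_lit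 350) (nat_lit 335) (nat_lit 335)) (XT.lf (nat_lit 0) (nat_lit 4622112351) (nat_lit 836) (nat_lit 1002504667) (nat_lit 0) (nat_lit 1166317476) (nat_lit 457) (nat_lit 5) (nat_lit 468) (nat_lit 4) (nat_lit 457) (nat_lit 4) (nat_lit 351) (nat_lit 335) (nat_lit 334)))) (XT.nd (nat_lit 156) (nat_lit 2280) (nat_lit 0) (XT.nd (nat_lit 78) (nat_lit 1976) (nat_lit 0) (XT.lf (nat_lit 0) (nat_lit 3283106300) (nat_lit 912) (nat_lit 82322301) (nat_lit 76) (nat_lit 3494544443) (nat_lit 445) (nat_lit 5) (nat_lit 457) (nat_lit 5) (nat_lit 446) (nat_lit 4) (nat_lit 352) (nat_lit 335) (nat_lit 333)) (XT.lf (nat_lit 0) (nat_lit 982310368) (nat_lit 988) (nat_lit 822193901) (nat_lit 1064) (nat_lit 5132334014) (nat_lit 419) (nat_lit 5) (nat_lit 432) (nat_lit 5) (nat_lit 433) (nat_lit 5) (nat_lit 353) (nat_lit 335) (nat_lit 332))) (XT.nd (nat_lit 78) (nat_lit 1140) (nat_lit 0) (XT.lf (nat_lit 0) (nat_lit 192913567) (nat_lit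 1140) (nat_lit 4862492880) (nat_lit 76) (nat_lit 1965906545) (nat_lit 404) (nat_lit 5) (nat_lit 419) (nat_lit 5) (nat_lit 405) (nat_lit 5) (nat_lit 354) (nat_lit 335) (nat_lit 331)) (XT.lf (nat_lit 0) (nat_lit 3441291073) (nat_lit 1140) (nat_lit 2074173959) (nat_lit 1216) (nat_lit 1597906367) (nat_lit 389) (nat_lit 5) (nat_lit 404) (nat_lit 5) (nat_lit 405) (nat_lit 5) (nat_lit 355) (nat_lit 335) (nat_lit 330)))))) (XT.nd (nat_lit 546) (nat_lit 4256) (nat_lit 0) (XT.nd (nat_lit 234) (nat_lit 2432) (nat_lit 0) (XT.nd (nat_lit 78) (nat_lit 2128) (nat_lit 0) (XT.lf (nat_lit 0) (nat_lit 3667505504) (nat_lit 1292) (nat_lit 2372140611) (nat_lit 76) (nat_lit 1173782166) (nat_lit 372) (nat_lit 5) (nat_lit 389) (nat_lit 5) (nat_lit 373) (nat_lit 5) (nat_lit 356) (nat_lit 335) (nat_lit 329)) (XT.nd (nat_lit 78) (nat_lit 1216) (nat_lit 0) (XT.lf (nat_lit 0) (nat_lit 1679112255) (nat_lit 912) (nat_lit 968869065)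 (nat_lit 76) (nat_lit 4673400269) (nat_lit 360) (nat_lit 5) (nat_lit 372) (nat_lit 5) (nat_lit 361) (nat_lit 5) (nat_lit 357) (nat_lit 335) (nat_lit 328)) (XT.lf (nat_lit 0) (nat_lit 557366969) (nat_lit 608) (nat_lit 6409983976) (nat_lit 684) (nat_lit 470069762) (nat_lit 344) (nat_lit 5) (nat_lit 352) (nat_lit 5) (nat_lit 353) (nat_lit 5) (nat_lit 358) (nat_lit 335) (nat_lit 327)))) (XT.nd (nat_lit 156) (nat_lit 1140) (nat_lit 0) (XT.nd (nat_lit 78) (nat_lit 684) (nat_lit 0) (XT.lf (nat_lit 0) (nat_lit 2188514074) (nat_lit 532) (nat_lit 2581666860) (nat_lit 608) (nat_lit 2790462986) (nat_lit 336) (nat_lit 5) (nat_lit 343) (nat_lit 5) (nat_lit 344) (nat_lit 5) (nat_lit 359) (nat_lit 335) (nat_lit 326)) (XT.lf (nat_lit 0) (nat_lit 2415629745) (nat_lit 684) (nat_lit 3755288517) (nat_lit 76) (nat_lit 1521438419) (nat_lit 327) (nat_lit 5) (nat_lit 336) (nat_lit 5) (nat_lit 328) (nat_lit 5) (nat_lit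 360) (nat_lit 335) (nat_lit 325))) (XT.nd (nat_lit 78) (nat_lit 608) (nat_lit 0) (XT.lf (nat_lit 0) (nat_lit 5793416699) (nat_lit 532) (nat_lit 1945846800) (nat_lit 608) (nat_lit 93114308) (nat_lit 320) (nat_lit 5) (nat_lit 327) (nat_lit 5) (nat_lit 328) (nat_lit 5) (nat_lit 361) (nat_lit 335) (nat_lit 324)) (XT.lf (nat_lit 0) (nat_lit 5167029286) (nat_lit 608) (nat_lit 243419294) (nat_lit 76) (nat_lit 2569756421) (nat_lit 312) (nat_lit 5) (nat_lit 320) (nat_lit 5) (nat_lit 313) (nat_lit 5) (nat_lit 362) (nat_lit 335) (nat_lit 323))))) (XT.nd (nat_lit 234) (nat_lit 2204) (nat_lit 0) (XT.nd (nat_lit 78) (nat_lit 988) (nat_lit 0) (XT.lf (nat_lit 0) (nat_lit 1696482872) (nat_lit 532) (nat_lit 747872475) (nat_lit 608) (nat_lit 5692064991) (nat_lit 298) (nat_lit 5) (nat_lit 305) (nat_lit 5) (nat_lit 306) (nat_lit 5) (nat_lit 363) (nat_lit 335) (nat_lit 322)) (XT.nd (nat_lit 78) (nat_lit 532) (nat_lit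 0) (XT.lf (nat_lit 0) (nat_lit 3732844966) (nat_lit 456) (nat_lit 4131213715) (nat_lit 532) (nat_lit 436827867) (nat_lit 292) (nat_lit 5) (nat_lit 298) (nat_lit 5) (nat_lit 299) (nat_lit 5) (nat_lit 364) (nat_lit 335) (nat_lit 321)) (XT.lf (nat_lit 0) (nat_lit 4920772864) (nat_lit 532) (nat_lit 2607833278) (nat_lit 76) (nat_lit 945342018) (nat_lit 285) (nat_lit 5) (nat_lit 292) (nat_lit 5) (nat_lit 286) (nat_lit 5) (nat_lit 365) (nat_lit 335) (nat_lit 320)))) (XT.nd (nat_lit 156) (nat_lit 912) (nat_lit 0) (XT.nd (nat_lit 78) (nat_lit 836) (nat_lit 0) (XT.lf (nat_lit 0) (nat_lit 1817130033) (nat_lit 456) (nat_lit 556198861) (nat_lit 76) (nat_lit 6282496700) (nat_lit 279) (nat_lit 5) (nat_lit 285) (nat_lit 5) (nat_lit 280) (nat_lit 5) (nat_lit 366) (nat_lit 335) (nat_lit 319)) (XT.lf (nat_lit 0) (nat_lit 1619385338) (nat_lit 380) (nat_lit 5747417917) (nat_lit 456) (nat_lit 1479408116) (nat_lit 268)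 (nat_lit 5) (nat_lit 273) (nat_lit 5) (nat_lit 274) (nat_lit 5) (nat_lit 367) (nat_lit 335) (nat_lit 318))) (XT.nd (nat_lit 78) (nat_lit 456) (nat_lit 0) (XT.lf (nat_lit 0) (nat_lit 3905306555) (nat_lit 380) (nat_lit 136727067) (nat_lit 456) (nat_lit 5003632787) (nat_lit 262) (nat_lit 5) (nat_lit 267) (nat_lit 5) (nat_lit 268) (nat_lit 5) (nat_lit 368) (nat_lit 335) (nat_lit 317)) (XT.lf (nat_lit 0) (nat_lit 552491093) (nat_lit 456) (nat_lit 2973049639) (nat_lit 76) (nat_lit 5728683857) (nat_lit 256) (nat_lit 5) (nat_lit 262) (nat_lit 5) (nat_lit 257) (nat_lit 5) (nat_lit 369) (nat_lit 335) (nat_lit 316))))))) (XT.nd (nat_lit 1014) (nat_lit 3344) (nat_lit 0) (XT.nd (nat_lit 468) (nat_lit 2280) (nat_lit 0) (XT.nd (nat_lit 234) (nat_lit 1292) (nat_lit 0) (XT.nd (nat_lit 78) (nat_lit 1064) (nat_lit 0) (XT.lf (nat_lit 0) (nat_lit 6269683809) (nat_lit 456) (nat_lit 722067656) (nat_lit 76) (nat_lit 2480370621)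 (nat_lit 251) (nat_lit 5) (nat_lit 257) (nat_lit 5) (nat_lit 252) (nat_lit 5) (nat_lit 370) (nat_lit 335) (nat_lit 315)) (XT.nd (nat_lit 78) (nat_lit 304) (nat_lit 0) (XT.lf (nat_lit 0) (nat_lit 1663582208) (nat_lit 380) (nat_lit 877414430) (nat_lit 456) (nat_lit 7158595351) (nat_lit 241) (nat_lit 5) (nat_lit 246) (nat_lit 5) (nat_lit 247) (nat_lit 5) (nat_lit 371) (nat_lit 335) (nat_lit 314)) (XT.lf (nat_lit 0) (nat_lit 4146052764) (nat_lit 304) (nat_lit 4395478130) (nat_lit 380) (nat_lit 1394868504) (nat_lit 237) (nat_lit 5) (nat_lit 241) (nat_lit 5) (nat_lit 242) (nat_lit 5) (nat_lit 372) (nat_lit 335) (nat_lit 313)))) (XT.nd (nat_lit 78) (nat_lit 912) (nat_lit 0) (XT.lf (nat_lit 0) (nat_lit 4577328168) (nat_lit 380) (nat_lit 3457134314) (nat_lit 76) (nat_lit 2148906930) (nat_lit 232) (nat_lit 5) (nat_lit 237) (nat_lit 5) (nat_lit 233) (nat_lit 5) (nat_lit 373) (nat_lit 335) (nat_lit 312)) (XT.nd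 (nat_lit 78) (nat_lit 532) (nat_lit 0) (XT.lf (nat_lit 0) (nat_lit 403048611) (nat_lit 380) (nat_lit 1020315359) (nat_lit 76) (nat_lit 9017799142) (nat_lit 227) (nat_lit 5) (nat_lit 232) (nat_lit 5) (nat_lit 228) (nat_lit 5) (nat_lit 374) (nat_lit 335) (nat_lit 311)) (XT.lf (nat_lit 0) (nat_lit 1506194679) (nat_lit 228) (nat_lit 5155415584) (nat_lit 304) (nat_lit 4046622309) (nat_lit 220) (nat_lit 5) (nat_lit 223) (nat_lit 5) (nat_lit 224) (nat_lit 5) (nat_lit 375) (nat_lit 335) (nat_lit 310))))) (XT.nd (nat_lit 234) (nat_lit 1292) (nat_lit 0) (XT.nd (nat_lit 78) (nat_lit 608) (nat_lit 0) (XT.lf (nat_lit 0) (nat_lit 2246341377) (nat_lit 380) (nat_lit 6812007396) (nat_lit 76) (nat_lit 1928288660) (nat_lit 215) (nat_lit 5) (nat_lit 220) (nat_lit 5) (nat_lit 216) (nat_lit 5) (nat_lit 376) (nat_lit 335) (nat_lit 309)) (XT.nd (nat_lit 78) (nat_lit 380) (nat_lit 0) (XT.lf (nat_lit 0) (nat_lit 6931724608)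 (nat_lit 228) (nat_lit 1900007809) (nat_lit 304) (nat_lit 2444184068) (nat_lit 212) (nat_lit 5) (nat_lit 215) (nat_lit 5) (nat_lit 216) (nat_lit 5) (nat_lit 377) (nat_lit 335) (nat_lit 308)) (XT.lf (nat_lit 0) (nat_lit 4155844727) (nat_lit 380) (nat_lit 1796460202) (nat_lit 76) (nat_lit 5624040388) (nat_lit 207) (nat_lit 5) (nat_lit 212) (nat_lit 5) (nat_lit 208) (nat_lit 5) (nat_lit 378) (nat_lit 335) (nat_lit 307)))) (XT.nd (nat_lit 156) (nat_lit 532) (nat_lit 0) (XT.nd (nat_lit 78) (nat_lit 304) (nat_lit 0) (XT.lf (nat_lit 0) (nat_lit 888174796) (nat_lit 228) (nat_lit 10213593017) (nat_lit 304) (nat_lit 787308513) (nat_lit 201) (nat_lit 5) (nat_lit 204) (nat_lit 5) (nat_lit 205) (nat_lit 5) (nat_lit 379) (nat_lit 335) (nat_lit 306)) (XT.lf (nat_lit 0) (nat_lit 3675657057) (nat_lit 228) (nat_lit 2489068205) (nat_lit 304) (nat_lit 6047705309) (nat_lit 197) (nat_lit 5) (nat_lit 200) (nat_lit 5)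 (nat_lit 201) (nat_lit 5) (nat_lit 380) (nat_lit 335) (nat_lit 305))) (XT.nd (nat_lit 78) (nat_lit 228) (nat_lit 0) (XT.lf (nat_lit 0) (nat_lit 969531473) (nat_lit 304) (nat_lit 5964603332) (nat_lit 76) (nat_lit 5614605475) (nat_lit 193) (nat_lit 5) (nat_lit 197) (nat_lit 5) (nat_lit 194) (nat_lit 5) (nat_lit 381) (nat_lit 335) (nat_lit 304)) (XT.lf (nat_lit 0) (nat_lit 8293668372) (nat_lit 304) (nat_lit 3305013566) (nat_lit 76) (nat_lit 1298953768) (nat_lit 190) (nat_lit 5) (nat_lit 194) (nat_lit 5) (nat_lit 191) (nat_lit 5) (nat_lit 382) (nat_lit 335) (nat_lit 303)))))) (XT.nd (nat_lit 546) (nat_lit 1444) (nat_lit 0) (XT.nd (nat_lit 234) (nat_lit 988) (nat_lit 0) (XT.nd (nat_lit 78) (nat_lit 608) (nat_lit 0) (XT.lf (nat_lit 0) (nat_lit 2787100789) (nat_lit 304) (nat_lit 550898006) (nat_lit 76) (nat_lit 9921588438) (nat_lit 186) (nat_lit 5) (nat_lit 190) (nat_lit 5) (nat_lit 187) (nat_lit 5) (nat_lit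 383) (nat_lit 335) (nat_lit 302)) (XT.nd (nat_lit 78) (nat_lit 228) (nat_lit 0) (XT.lf (nat_lit 0) (nat_lit 2347978749) (nat_lit 228) (nat_lit 8236286965) (nat_lit 304) (nat_lit 3050050293) (nat_lit 181) (nat_lit 5) (nat_lit 184) (nat_lit 5) (nat_lit 185) (nat_lit 5) (nat_lit 384) (nat_lit 335) (nat_lit 301)) (XT.lf (nat_lit 0) (nat_lit 4759272840) (nat_lit 228) (nat_lit 8644483991) (nat_lit 76) (nat_lit 619406621) (nat_lit 178) (nat_lit 5) (nat_lit 181) (nat_lit 5) (nat_lit 179) (nat_lit 5) (nat_lit 385) (nat_lit 335) (nat_lit 300)))) (XT.nd (nat_lit 156) (nat_lit 532) (nat_lit 0) (XT.nd (nat_lit 78) (nat_lit 228) (nat_lit 0) (XT.lf (nat_lit 0) (nat_lit 8508608926) (nat_lit 228) (nat_lit 4540783226) (nat_lit 304) (nat_lit 1376552869) (nat_lit 175) (nat_lit 5) (nat_lit 178) (nat_lit 5) (nat_lit 179) (nat_lit 5) (nat_lit 386) (nat_lit 335) (nat_lit 299)) (XT.lf (nat_lit 0) (nat_lit 6894560436) (nat_lit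 228) (nat_lit 3098641243) (nat_lit 76) (nat_lit 4849948103) (nat_lit 172) (nat_lit 5) (nat_lit 175) (nat_lit 5) (nat_lit 173) (nat_lit 5) (nat_lit 387) (nat_lit 335) (nat_lit 298))) (XT.nd (nat_lit 78) (nat_lit 304) (nat_lit 0) (XT.lf (nat_lit 0) (nat_lit 395619752) (nat_lit 228) (nat_lit 131365249) (nat_lit 76) (nat_lit 14749815055) (nat_lit 169) (nat_lit 5) (nat_lit 172) (nat_lit 5) (nat_lit 170) (nat_lit 5) (nat_lit 388) (nat_lit 335) (nat_lit 297)) (XT.lf (nat_lit 0) (nat_lit 2941997126) (nat_lit 152) (nat_lit 6263992221) (nat_lit 228) (nat_lit 6517382358) (nat_lit 165) (nat_lit 5) (nat_lit 167) (nat_lit 5) (nat_lit 168) (nat_lit 5) (nat_lit 389) (nat_lit 335) (nat_lit 296))))) (XT.nd (nat_lit 234) (nat_lit 836) (nat_lit 0) (XT.nd (nat_lit 78) (nat_lit 380) (nat_lit 0) (XT.lf (nat_lit 0) (nat_lit 2363215903) (nat_lit 228) (nat_lit 10004941518) (nat_lit 76) (nat_lit 3819177421) (nat_lit 162)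 (nat_lit 5) (nat_lit 165) (nat_lit 5) (nat_lit 163) (nat_lit 5) (nat_lit 390) (nat_lit 335) (nat_lit 295)) (XT.nd (nat_lit 78) (nat_lit 228) (nat_lit 0) (XT.lf (nat_lit 0) (nat_lit 9531462828) (nat_lit 152) (nat_lit 2192039454) (nat_lit 228) (nat_lit 4943944568) (nat_lit 160) (nat_lit 5) (nat_lit 162) (nat_lit 5) (nat_lit 163) (nat_lit 5) (nat_lit 391) (nat_lit 335) (nat_lit 294)) (XT.lf (nat_lit 0) (nat_lit 4491955628) (nat_lit 228) (nat_lit 4164041085) (nat_lit 76) (nat_lit 8508388840) (nat_lit 157) (nat_lit 5) (nat_lit 160) (nat_lit 5) (nat_lit 158) (nat_lit 5) (nat_lit 392) (nat_lit 335) (nat_lit 293)))) (XT.nd (nat_lit 156) (nat_lit 304) (nat_lit 0) (XT.nd (nat_lit 78) (nat_lit 380) (nat_lit 0) (XT.lf (nat_lit 0) (nat_lit 14462637389) (nat_lit 228) (nat_lit 1048476935) (nat_lit 76) (nat_lit 2168631320) (nat_lit 155) (nat_lit 5) (nat_lit 158) (nat_lit 5) (nat_lit 156) (nat_lit 4) (nat_lit 393)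 (nat_lit 335) (nat_lit 292)) (XT.lf (nat_lit 0) (nat_lit 2202651655) (nat_lit 152) (nat_lit 4617041748) (nat_lit 228) (nat_lit 11392054957) (nat_lit 150) (nat_lit 5) (nat_lit 152) (nat_lit 5) (nat_lit 153) (nat_lit 5) (nat_lit 394) (nat_lit 335) (nat_lit 291))) (XT.nd (nat_lit 78) (nat_lit 228) (nat_lit 0) (XT.lf (nat_lit 0) (nat_lit 5632764566) (nat_lit 76) (nat_lit 11873947009) (nat_lit 152) (nat_lit 1256236726) (nat_lit 149) (nat_lit 5) (nat_lit 150) (nat_lit 5) (nat_lit 151) (nat_lit 4) (nat_lit 395) (nat_lit 335) (nat_lit 290)) (XT.lf (nat_lit 0) (nat_lit 9192317738) (nat_lit 152) (nat_lit 203235121) (nat_lit 228) (nat_lit 9937678281) (nat_lit 146) (nat_lit 5) (nat_lit 148) (nat_lit 5) (nat_lit 149) (nat_lit 5) (nat_lit 396) (nat_lit 335) (nat_lit 289))))))))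
noncomputable def xc39 : XT := (XT.nd (nat_lit 2106) (nat_lit 2128) (nat_lit 0) (XT.nd (nat_lit 1014) (nat_lit 1824) (nat_lit 0) (XT.nd (nat_lit 468) (nat_lit 1216) (nat_lit 0) (XT.nd (nat_lit 234) (nat_lit 532) (nat_lit 0) (XT.nd (nat_lit 78) (nat_lit 304) (nat_lit 0) (XT.lf (nat_lit 0) (nat_lit 882774967) (nat_lit 152) (nat_lit 7032565038) (nat_lit 76) (nat_lit 12007956856) (nat_lit 144) (nat_lit 5) (nat_lit 146) (nat_lit 5) (nat_lit 145) (nat_lit 5) (nat_lit 397) (nat_lit 335) (nat_lit 288)) (XT.nd (nat_lit 78) (nat_lit 152) (nat_lit 0) (XT.lf (nat_lit 0) (nat_lit 12248832889) (nat_lit 228) (nat_lit 3804698934) (nat_lit 76) (nat_lit 4480079005) (nat_lit 142) (nat_lit 5) (nat_lit 145) (nat_lit 5) (nat_lit 143) (nat_lit 4) (nat_lit 398) (nat_lit 335) (nat_lit 287)) (XT.lf (nat_lit 0) (nat_lit 3203174110) (nat_lit 152) (nat_lit 412667567) (nat_lit 76) (nat_lit 17550137183) (nat_lit 140) (nat_lit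 5) (nat_lit 142) (nat_lit 5) (nat_lit 141) (nat_lit 5) (nat_lit 399) (nat_lit 335) (nat_lit 286)))) (XT.nd (nat_lit 78) (nat_lit 304) (nat_lit 0) (XT.lf (nat_lit 0) (nat_lit 3150799203) (nat_lit 76) (nat_lit 12248633094) (nat_lit 152) (nat_lit 6418914657) (nat_lit 137) (nat_lit 5) (nat_lit 138) (nat_lit 5) (nat_lit 139) (nat_lit 4) (nat_lit 400) (nat_lit 335) (nat_lit 285)) (XT.nd (nat_lit 78) (nat_lit 76) (nat_lit 0) (XT.lf (nat_lit 0) (nat_lit 5832711813) (nat_lit 228) (nat_lit 15575059692) (nat_lit 76) (nat_lit 1086663213) (nat_lit 134) (nat_lit 5) (nat_lit 137) (nat_lit 5) (nat_lit 135) (nat_lit 4) (nat_lit 401) (nat_lit 335) (nat_lit 284)) (XT.lf (nat_lit 0) (nat_lit 10809872169) (nat_lit 76) (nat_lit 8078591011) (nat_lit 152) (nat_lit 4304228184) (nat_lit 133) (nat_lit 5) (nat_lit 134) (nat_lit 5) (nat_lit 135) (nat_lit 4) (nat_lit 402) (nat_lit 335) (nat_lit 283))))) (XT.nd (nat_lit 234)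 (nat_lit 684) (nat_lit 0) (XT.nd (nat_lit 78) (nat_lit 304) (nat_lit 0) (XT.lf (nat_lit 0) (nat_lit 8770802785) (nat_lit 228) (nat_lit 9036358563) (nat_lit 76) (nat_lit 6108132925) (nat_lit 130) (nat_lit 5) (nat_lit 133) (nat_lit 5) (nat_lit 131) (nat_lit 4) (nat_lit 403) (nat_lit 335) (nat_lit 282)) (XT.nd (nat_lit 78) (nat_lit 228) (nat_lit 0) (XT.lf (nat_lit 0) (nat_lit 19158788525) (nat_lit 76) (nat_lit 3552543105) (nat_lit 152) (nat_lit 1952394281) (nat_lit 129) (nat_lit 5) (nat_lit 130) (nat_lit 5) (nat_lit 131) (nat_lit 4) (nat_lit 404) (nat_lit 335) (nat_lit 281)) (XT.lf (nat_lit 0) (nat_lit 12009249378) (nat_lit 228) (nat_lit 1877906043) (nat_lit 76) (nat_lit 11548728009) (nat_lit 126) (nat_lit 5) (nat_lit 129) (nat_lit 5) (nat_lit 127) (nat_lit 4) (nat_lit 405) (nat_lit 335) (nat_lit 280)))) (XT.nd (nat_lit 156) (nat_lit 304) (nat_lit 0) (XT.nd (nat_lit 78) (nat_lit 76) (nat_lit 0) (XT.lf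 (nat_lit 0) (nat_lit 685456568) (nat_lit 228) (nat_lit 24189471915) (nat_lit 76) (nat_lit 1361718314) (nat_lit 122) (nat_lit 5) (nat_lit 125) (nat_lit 5) (nat_lit 123) (nat_lit 4) (nat_lit 406) (nat_lit 335) (nat_lit 279)) (XT.lf (nat_lit 0) (nat_lit 6082297548) (nat_lit 76) (nat_lit 9557126713) (nat_lit 152) (nat_lit 11421617282) (nat_lit 121) (nat_lit 5) (nat_lit 122) (nat_lit 5) (nat_lit 123) (nat_lit 4) (nat_lit 407) (nat_lit 335) (nat_lit 278))) (XT.nd (nat_lit 78) (nat_lit 76) (nat_lit 0) (XT.lf (nat_lit 0) (nat_lit 3675964058) (nat_lit 228) (nat_lit 17534376727) (nat_lit 76) (nat_lit 6705485864) (nat_lit 118) (nat_lit 5) (nat_lit 121) (nat_lit 5) (nat_lit 119) (nat_lit 4) (nat_lit 408) (nat_lit 335) (nat_lit 277)) (XT.lf (nat_lit 0) (nat_lit 14846746200) (nat_lit 76) (nat_lit 4817289534) (nat_lit 152) (nat_lit 9134767881) (nat_lit 117) (nat_lit 5) (nat_lit 118) (nat_lit 5) (nat_lit 119)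 (nat_lit 4) (nat_lit 409) (nat_lit 335) (nat_lit 276)))))) (XT.nd (nat_lit 546) (nat_lit 912) (nat_lit 0) (XT.nd (nat_lit 234) (nat_lit 532) (nat_lit 0) (XT.nd (nat_lit 78) (nat_lit 228) (nat_lit 0) (XT.lf (nat_lit 0) (nat_lit 7002231547) (nat_lit 152) (nat_lit 10195521955) (nat_lit 76) (nat_lit 12513999706) (nat_lit 115) (nat_lit 5) (nat_lit 117) (nat_lit 5) (nat_lit 116) (nat_lit 4) (nat_lit 410) (nat_lit 335) (nat_lit 275)) (XT.nd (nat_lit 78) (nat_lit 152) (nat_lit 0) (XT.lf (nat_lit 0) (nat_lit 24106897898) (nat_lit 152) (nat_lit 6206262345) (nat_lit 0) (nat_lit 343984602) (nat_lit 114) (nat_lit 5) (nat_lit 116) (nat_lit 4) (nat_lit 114) (nat_lit 4) (nat_lit 411) (nat_lit 335) (nat_lit 274)) (XT.lf (nat_lit 0) (nat_lit 10700569637) (nat_lit 152) (nat_lit 2101550919) (nat_lit 76) (nat_lit 18830075939) (nat_lit 112) (nat_lit 5) (nat_lit 114) (nat_lit 5) (nat_lit 113) (nat_lit 4) (nat_lit 412)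 (nat_lit 335) (nat_lit 273)))) (XT.nd (nat_lit 156) (nat_lit 228) (nat_lit 0) (XT.nd (nat_lit 78) (nat_lit 152) (nat_lit 0) (XT.lf (nat_lit 0) (nat_lit 2331486851) (nat_lit 76) (nat_lit 26748277310) (nat_lit 76) (nat_lit 3562251759) (nat_lit 110) (nat_lit 4) (nat_lit 111) (nat_lit 5) (nat_lit 111) (nat_lit 4) (nat_lit 413) (nat_lit 335) (nat_lit 272)) (XT.lf (nat_lit 0) (nat_lit 6960958345) (nat_lit 76) (nat_lit 7916144983) (nat_lit 152) (nat_lit 18806354319) (nat_lit 108) (nat_lit 5) (nat_lit 109) (nat_lit 5) (nat_lit 110) (nat_lit 4) (nat_lit 414) (nat_lit 335) (nat_lit 271))) (XT.nd (nat_lit 78) (nat_lit 152) (nat_lit 0) (XT.lf (nat_lit 0) (nat_lit 11883778622) (nat_lit 76) (nat_lit 22745195300) (nat_lit 76) (nat_lit 133012826) (nat_lit 107) (nat_lit 4) (nat_lit 108) (nat_lit 5) (nat_lit 108) (nat_lit 4) (nat_lit 415) (nat_lit 335) (nat_lit 270)) (XT.lf (nat_lit 0) (nat_lit 17000565721) (nat_lit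 76) (nat_lit 2536327121) (nat_lit 152) (nat_lit 16338646436) (nat_lit 105) (nat_lit 5) (nat_lit 106) (nat_lit 5) (nat_lit 107) (nat_lit 4) (nat_lit 416) (nat_lit 335) (nat_lit 269))))) (XT.nd (nat_lit 234) (nat_lit 532) (nat_lit 0) (XT.nd (nat_lit 78) (nat_lit 228) (nat_lit 0) (XT.lf (nat_lit 0) (nat_lit 3643294103) (nat_lit 152) (nat_lit 14647050893) (nat_lit 76) (nat_lit 18736624349) (nat_lit 103) (nat_lit 5) (nat_lit 105) (nat_lit 5) (nat_lit 104) (nat_lit 4) (nat_lit 417) (nat_lit 335) (nat_lit 268)) (XT.nd (nat_lit 78) (nat_lit 152) (nat_lit 0) (XT.lf (nat_lit 0) (nat_lit 24738388580) (nat_lit 152) (nat_lit 10181998921) (nat_lit 0) (nat_lit 3297171396) (nat_lit 102) (nat_lit 5) (nat_lit 104) (nat_lit 4) (nat_lit 102) (nat_lit 4) (nat_lit 418) (nat_lit 335) (nat_lit 267)) (XT.lf (nat_lit 0) (nat_lit 7871946645) (nat_lit 152) (nat_lit 5499552710) (nat_lit 76) (nat_lit 26076152981) (nat_lit 100)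 (nat_lit 5) (nat_lit 102) (nat_lit 5) (nat_lit 101) (nat_lit 4) (nat_lit 419) (nat_lit 335) (nat_lit 266)))) (XT.nd (nat_lit 156) (nat_lit 228) (nat_lit 0) (XT.nd (nat_lit 78) (nat_lit 228) (nat_lit 0) (XT.lf (nat_lit 0) (nat_lit 30529687641) (nat_lit 152) (nat_lit 549815588) (nat_lit 0) (nat_lit 9640208363) (nat_lit 99) (nat_lit 5) (nat_lit 101) (nat_lit 4) (nat_lit 99) (nat_lit 4) (nat_lit 420) (nat_lit 335) (nat_lit 265)) (XT.lf (nat_lit 0) (nat_lit 4753023641) (nat_lit 76) (nat_lit 7895403516) (nat_lit 152) (nat_lit 29384725156) (nat_lit 96) (nat_lit 5) (nat_lit 97) (nat_lit 5) (nat_lit 98) (nat_lit 4) (nat_lit 421) (nat_lit 335) (nat_lit 264))) (XT.nd (nat_lit 78) (nat_lit 152) (nat_lit 0) (XT.lf (nat_lit 0) (nat_lit 10346577166) (nat_lit 76) (nat_lit 26694546680) (nat_lit 76) (nat_lit 6349422432) (nat_lit 95) (nat_lit 4) (nat_lit 96) (nat_lit 5) (nat_lit 96) (nat_lit 4) (nat_lit 422) (nat_lit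 335) (nat_lit 263)) (XT.lf (nat_lit 0) (nat_lit 16252521316) (nat_lit 76) (nat_lit 1790539732) (nat_lit 152) (nat_lit 26751000133) (nat_lit 93) (nat_lit 5) (nat_lit 94) (nat_lit 5) (nat_lit 95) (nat_lit 4) (nat_lit 423) (nat_lit 335) (nat_lit 262))))))) (XT.nd (nat_lit 1014) (nat_lit 532) (nat_lit 0) (XT.nd (nat_lit 468) (nat_lit 836) (nat_lit 0) (XT.nd (nat_lit 234) (nat_lit 380) (nat_lit 0) (XT.nd (nat_lit 78) (nat_lit 304) (nat_lit 0) (XT.lf (nat_lit 0) (nat_lit 22446781450) (nat_lit 76) (nat_lit 21803138310) (nat_lit 76) (nat_lit 1994164098) (nat_lit 92) (nat_lit 4) (nat_lit 93) (nat_lit 5) (nat_lit 93) (nat_lit 4) (nat_lit 424) (nat_lit 335) (nat_lit 261)) (XT.nd (nat_lit 78) (nat_lit 152) (nat_lit 0) (XT.lf (nat_lit 0) (nat_lit 24106034064) (nat_lit 152) (nat_lit 18787867233) (nat_lit 0) (nat_lit 4848569437) (nat_lit 90) (nat_lit 5) (nat_lit 92) (nat_lit 4) (nat_lit 90) (nat_lit 4) (nat_lit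 425) (nat_lit 335) (nat_lit 260)) (XT.lf (nat_lit 0) (nat_lit 2866762113) (nat_lit 152) (nat_lit 13462176420) (nat_lit 76) (nat_lit 32963004838) (nat_lit 88) (nat_lit 5) (nat_lit 90) (nat_lit 5) (nat_lit 89) (nat_lit 4) (nat_lit 426) (nat_lit 335) (nat_lit 259)))) (XT.nd (nat_lit 78) (nat_lit 304) (nat_lit 0) (XT.lf (nat_lit 0) (nat_lit 30875026438) (nat_lit 152) (nat_lit 7884266522) (nat_lit 0) (nat_lit 12132513657) (nat_lit 87) (nat_lit 5) (nat_lit 89) (nat_lit 4) (nat_lit 87) (nat_lit 4) (nat_lit 427) (nat_lit 335) (nat_lit 258)) (XT.nd (nat_lit 78) (nat_lit 152) (nat_lit 0) (XT.lf (nat_lit 0) (nat_lit 8297619088) (nat_lit 152) (nat_lit 1919691063) (nat_lit 76) (nat_lit 42330046852) (nat_lit 85) (nat_lit 5) (nat_lit 87) (nat_lit 5) (nat_lit 86) (nat_lit 4) (nat_lit 428) (nat_lit 335) (nat_lit 257)) (XT.lf (nat_lit 0) (nat_lit 4392474609) (nat_lit 76) (nat_lit 34049742606) (nat_lit 76) (nat_lit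 15812668416) (nat_lit 83) (nat_lit 4) (nat_lit 84) (nat_lit 5) (nat_lit 84) (nat_lit 4) (nat_lit 429) (nat_lit 335) (nat_lit 256))))) (XT.nd (nat_lit 234) (nat_lit 456) (nat_lit 0) (XT.nd (nat_lit 78) (nat_lit 228) (nat_lit 0) (XT.lf (nat_lit 0) (nat_lit 11193215721) (nat_lit 76) (nat_lit 3313723482) (nat_lit 152) (nat_lit 41514757522) (nat_lit 81) (nat_lit 5) (nat_lit 82) (nat_lit 5) (nat_lit 83) (nat_lit 4) (nat_lit 430) (nat_lit 335) (nat_lit 255)) (XT.nd (nat_lit 78) (nat_lit 152) (nat_lit 0) (XT.lf (nat_lit 0) (nat_lit 18272574495) (nat_lit 76) (nat_lit 28656843044) (nat_lit 76) (nat_lit 10915316387) (nat_lit 80) (nat_lit 4) (nat_lit 81) (nat_lit 5) (nat_lit 81) (nat_lit 4) (nat_lit 431) (nat_lit 335) (nat_lit 254)) (XT.lf (nat_lit 0) (nat_lit 21529950704) (nat_lit 152) (nat_lit 33911862978) (nat_lit 0) (nat_lit 4289097096) (nat_lit 78) (nat_lit 5) (nat_lit 80) (nat_lit 4) (nat_lit 78) (nat_lit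 4) (nat_lit 432) (nat_lit 335) (nat_lit 253)))) (XT.nd (nat_lit 156) (nat_lit 228) (nat_lit 0) (XT.nd (nat_lit 78) (nat_lit 152) (nat_lit 0) (XT.lf (nat_lit 0) (nat_lit 33744116997) (nat_lit 76) (nat_lit 22595578650) (nat_lit 76) (nat_lit 5339419854) (nat_lit 77) (nat_lit 4) (nat_lit 78) (nat_lit 5) (nat_lit 78) (nat_lit 4) (nat_lit 433) (nat_lit 335) (nat_lit 252)) (XT.lf (nat_lit 0) (nat_lit 29420332486) (nat_lit 152) (nat_lit 21618631326) (nat_lit 0) (nat_lit 12652628442) (nat_lit 75) (nat_lit 5) (nat_lit 77) (nat_lit 4) (nat_lit 75) (nat_lit 4) (nat_lit 434) (nat_lit 335) (nat_lit 251))) (XT.nd (nat_lit 78) (nat_lit 76) (nat_lit 0) (XT.lf (nat_lit 0) (nat_lit 966418665) (nat_lit 152) (nat_lit 14819352070) (nat_lit 76) (nat_lit 49988475762) (nat_lit 73) (nat_lit 5) (nat_lit 75) (nat_lit 5) (nat_lit 74) (nat_lit 4) (nat_lit 435) (nat_lit 335) (nat_lit 250)) (XT.lf (nat_lit 0) (nat_lit 38228035066)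 (nat_lit 152) (nat_lit 7770530569) (nat_lit 0) (nat_lit 21923163149) (nat_lit 72) (nat_lit 5) (nat_lit 74) (nat_lit 4) (nat_lit 72) (nat_lit 4) (nat_lit 436) (nat_lit 335) (nat_lit 249)))))) (XT.nd (nat_lit 46410) (nat_lit 0) (nat_lit 22420) (XT.nd (nat_lit 234) (nat_lit 76) (nat_lit 0) (XT.nd (nat_lit 78) (nat_lit 304) (nat_lit 0) (XT.lf (nat_lit 0) (nat_lit 7977950766) (nat_lit 152) (nat_lit 121500665) (nat_lit 76) (nat_lit 62046809222) (nat_lit 70) (nat_lit 5) (nat_lit 72) (nat_lit 5) (nat_lit 71) (nat_lit 4) (nat_lit 437) (nat_lit 335) (nat_lit 248)) (XT.nd (nat_lit 78) (nat_lit 152) (nat_lit 0) (XT.lf (nat_lit 0) (nat_lit 7946814890) (nat_lit 76) (nat_lit 40171439459) (nat_lit 76) (nat_lit 24318969219) (nat_lit 68) (nat_lit 4) (nat_lit 69) (nat_lit 5) (nat_lit 69) (nat_lit 4) (nat_lit 438) (nat_lit 335) (nat_lit 247)) (XT.lf (nat_lit 0) (nat_lit 16048180483) (nat_lit 152) (nat_lit 58115032321)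 (nat_lit 0) (nat_lit 647285297) (nat_lit 66) (nat_lit 5) (nat_lit 68) (nat_lit 4) (nat_lit 66) (nat_lit 4) (nat_lit 439) (nat_lit 335) (nat_lit 246)))) (XT.nd (nat_lit 46020) (nat_lit 0) (nat_lit 30552) (XT.nd (nat_lit 45942) (nat_lit 0) (nat_lit 31996) (XT.lf (nat_lit 0) (nat_lit 25743826761) (nat_lit 76) (nat_lit 33461848631) (nat_lit 76) (nat_lit 18051289273) (nat_lit 65) (nat_lit 4) (nat_lit 66) (nat_lit 5) (nat_lit 66) (nat_lit 4) (nat_lit 440) (nat_lit 335) (nat_lit 245)) (XT.lf (nat_lit 0) (nat_lit 1842359770) (nat_lit 532) (nat_lit 735301214) (nat_lit 532) (nat_lit 735301214) (nat_lit 486) (nat_lit 4) (nat_lit 493) (nat_lit 5) (nat_lit 493) (nat_lit 4) (nat_lit 348) (nat_lit 336) (nat_lit 336))) (XT.nd (nat_lit 78) (nat_lit 760) (nat_lit 0) (XT.lf (nat_lit 0) (nat_lit 3955408670) (nat_lit 684) (nat_lit 2502479013) (nat_lit 0) (nat_lit 217966512) (nat_lit 477) (nat_lit 5) (nat_lit 486) (nat_lit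 4) (nat_lit 477) (nat_lit 4) (nat_lit 349) (nat_lit 336) (nat_lit 335)) (XT.lf (nat_lit 0) (nat_lit 2630580598) (nat_lit 760) (nat_lit 1956832264) (nat_lit 76) (nat_lit 2145818118) (nat_lit 467) (nat_lit 5) (nat_lit 477) (nat_lit 5) (nat_lit 468) (nat_lit 4) (nat_lit 350) (nat_lit 336) (nat_lit 334))))) (XT.nd (nat_lit 234) (nat_lit 4484) (nat_lit 0) (XT.nd (nat_lit 78) (nat_lit 2812) (nat_lit 0) (XT.lf (nat_lit 0) (nat_lit 1162315567) (nat_lit 836) (nat_lit 1288925084) (nat_lit 76) (nat_lit 4347341730) (nat_lit 456) (nat_lit 5) (nat_lit 467) (nat_lit 5) (nat_lit 457) (nat_lit 5) (nat_lit 351) (nat_lit 336) (nat_lit 333)) (XT.nd (nat_lit 78) (nat_lit 1976) (nat_lit 0) (XT.lf (nat_lit 0) (nat_lit 6370265239) (nat_lit 836) (nat_lit 38410440) (nat_lit 912) (nat_lit 463217214) (nat_lit 445) (nat_lit 5) (nat_lit 456) (nat_lit 5) (nat_lit 457) (nat_lit 5) (nat_lit 352) (nat_lit 336) (nat_lit 332)) (XT.lf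 (nat_lit 0) (nat_lit 380367194) (nat_lit 988) (nat_lit 4333595233) (nat_lit 1064) (nat_lit 2238200781) (nat_lit 419) (nat_lit 5) (nat_lit 432) (nat_lit 5) (nat_lit 433) (nat_lit 5) (nat_lit 353) (nat_lit 336) (nat_lit 331)))) (XT.nd (nat_lit 156) (nat_lit 2128) (nat_lit 0) (XT.nd (nat_lit 78) (nat_lit 1216) (nat_lit 0) (XT.lf (nat_lit 0) (nat_lit 1398268944) (nat_lit 1064) (nat_lit 1476344943) (nat_lit 1140) (nat_lit 4165868164) (nat_lit 404) (nat_lit 5) (nat_lit 418) (nat_lit 5) (nat_lit 419) (nat_lit 5) (nat_lit 354) (nat_lit 336) (nat_lit 330)) (XT.lf (nat_lit 0) (nat_lit 895437526) (nat_lit 1216) (nat_lit 4608038857) (nat_lit 76) (nat_lit 1633209441) (nat_lit 388) (nat_lit 5) (nat_lit 404) (nat_lit 5) (nat_lit 389) (nat_lit 5) (nat_lit 355) (nat_lit 336) (nat_lit 329))) (XT.nd (nat_lit 78) (nat_lit 912) (nat_lit 0) (XT.lf (nat_lit 0) (nat_lit 3761126821) (nat_lit 1216) (nat_lit 2226059594)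 (nat_lit 1292) (nat_lit 1253369951) (nat_lit 372) (nat_lit 5) (nat_lit 388) (nat_lit 5) (nat_lit 389) (nat_lit 5) (nat_lit 356) (nat_lit 336) (nat_lit 328)) (XT.lf (nat_lit 0) (nat_lit 3776381915) (nat_lit 912) (nat_lit 2250348328) (nat_lit 76) (nat_lit 1325634725) (nat_lit 360) (nat_lit 5) (nat_lit 372) (nat_lit 5) (nat_lit 361) (nat_lit 5) (nat_lit 357) (nat_lit 336) (nat_lit 327))))))))
noncomputable def xc40 : XT := (XT.nd (nat_lit 2028) (nat_lit 5320) (nat_lit 0) (XT.nd (nat_lit 1014) (nat_lit 4864) (nat_lit 0) (XT.nd (nat_lit 468) (nat_lit 4104) (nat_lit 0) (XT.nd (nat_lit 234) (nat_lit 1672) (nat_lit 0) (XT.nd (nat_lit 78) (nat_lit 1824) (nat_lit 0) (XT.lf (nat_lit 0) (nat_lit 1422007196) (nat_lit 684) (nat_lit 919793559) (nat_lit 76) (nat_lit 5130434859) (nat_lit 351) (nat_lit 5) (nat_lit 360) (nat_lit 5) (nat_lit 352) (nat_lit 5) (nat_lit 358) (nat_lit 336) (nat_lit 326)) (XT.nd (nat_lit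 78) (nat_lit 684) (nat_lit 0) (XT.lf (nat_lit 0) (nat_lit 520900909) (nat_lit 532) (nat_lit 5973929523) (nat_lit 608) (nat_lit 1105240478) (nat_lit 336) (nat_lit 5) (nat_lit 343) (nat_lit 5) (nat_lit 344) (nat_lit 5) (nat_lit 359) (nat_lit 336) (nat_lit 325)) (XT.lf (nat_lit 0) (nat_lit 2071255897) (nat_lit 608) (nat_lit 1856173569) (nat_lit 684) (nat_lit 3808084364) (nat_lit 327) (nat_lit 5) (nat_lit 335) (nat_lit 5) (nat_lit 336) (nat_lit 5) (nat_lit 360) (nat_lit 336) (nat_lit 324)))) (XT.nd (nat_lit 78) (nat_lit 1064) (nat_lit 0) (XT.lf (nat_lit 0) (nat_lit 1206035029) (nat_lit 608) (nat_lit 4150068971) (nat_lit 76) (nat_lit 2523313835) (nat_lit 319) (nat_lit 5) (nat_lit 327) (nat_lit 5) (nat_lit 320) (nat_lit 5) (nat_lit 361) (nat_lit 336) (nat_lit 323)) (XT.nd (nat_lit 78) (nat_lit 532) (nat_lit 0) (XT.lf (nat_lit 0) (nat_lit 5487055899) (nat_lit 532) (nat_lit 829371712) (nat_lit 608) (nat_lit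 1715228587) (nat_lit 312) (nat_lit 5) (nat_lit 319) (nat_lit 5) (nat_lit 320) (nat_lit 5) (nat_lit 362) (nat_lit 336) (nat_lit 322)) (XT.lf (nat_lit 0) (nat_lit 3374320356) (nat_lit 532) (nat_lit 861013792) (nat_lit 76) (nat_lit 3956617479) (nat_lit 305) (nat_lit 5) (nat_lit 312) (nat_lit 5) (nat_lit 306) (nat_lit 5) (nat_lit 363) (nat_lit 336) (nat_lit 321))))) (XT.nd (nat_lit 234) (nat_lit 2128) (nat_lit 0) (XT.nd (nat_lit 78) (nat_lit 912) (nat_lit 0) (XT.lf (nat_lit 0) (nat_lit 262601449) (nat_lit 532) (nat_lit 7404067309) (nat_lit 76) (nat_lit 694616837) (nat_lit 291) (nat_lit 5) (nat_lit 298) (nat_lit 5) (nat_lit 292) (nat_lit 5) (nat_lit 364) (nat_lit 336) (nat_lit 320)) (XT.nd (nat_lit 78) (nat_lit 456) (nat_lit 0) (XT.lf (nat_lit 0) (nat_lit 2856094924) (nat_lit 456) (nat_lit 2623680320) (nat_lit 532) (nat_lit 3058403076) (nat_lit 285) (nat_lit 5) (nat_lit 291) (nat_lit 5) (nat_lit 292)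 (nat_lit 5) (nat_lit 365) (nat_lit 336) (nat_lit 319)) (XT.lf (nat_lit 0) (nat_lit 2153977963) (nat_lit 456) (nat_lit 3859642547) (nat_lit 76) (nat_lit 2710740649) (nat_lit 279) (nat_lit 5) (nat_lit 285) (nat_lit 5) (nat_lit 280) (nat_lit 5) (nat_lit 366) (nat_lit 336) (nat_lit 318)))) (XT.nd (nat_lit 156) (nat_lit 836) (nat_lit 0) (XT.nd (nat_lit 78) (nat_lit 836) (nat_lit 0) (XT.lf (nat_lit 0) (nat_lit 6976315198) (nat_lit 456) (nat_lit 559799710) (nat_lit 532) (nat_lit 1383658115) (nat_lit 273) (nat_lit 5) (nat_lit 279) (nat_lit 5) (nat_lit 280) (nat_lit 5) (nat_lit 367) (nat_lit 336) (nat_lit 317)) (XT.lf (nat_lit 0) (nat_lit 38130637) (nat_lit 380) (nat_lit 3948605586) (nat_lit 456) (nat_lit 5136939595) (nat_lit 262) (nat_lit 5) (nat_lit 267) (nat_lit 5) (nat_lit 268) (nat_lit 5) (nat_lit 368) (nat_lit 336) (nat_lit 316))) (XT.nd (nat_lit 78) (nat_lit 380) (nat_lit 0) (XT.lf (nat_lit 0) (nat_lit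 259396904) (nat_lit 456) (nat_lit 7161179742) (nat_lit 76) (nat_lit 1916567455) (nat_lit 256) (nat_lit 5) (nat_lit 262) (nat_lit 5) (nat_lit 257) (nat_lit 5) (nat_lit 369) (nat_lit 336) (nat_lit 315)) (XT.lf (nat_lit 0) (nat_lit 4383596578) (nat_lit 380) (nat_lit 1443904398) (nat_lit 456) (nat_lit 3732013282) (nat_lit 251) (nat_lit 5) (nat_lit 256) (nat_lit 5) (nat_lit 257) (nat_lit 5) (nat_lit 370) (nat_lit 336) (nat_lit 314)))))) (XT.nd (nat_lit 468) (nat_lit 2432) (nat_lit 0) (XT.nd (nat_lit 234) (nat_lit 988) (nat_lit 0) (XT.nd (nat_lit 78) (nat_lit 1064) (nat_lit 0) (XT.lf (nat_lit 0) (nat_lit 1865784806) (nat_lit 380) (nat_lit 3100984666) (nat_lit 76) (nat_lit 4825046529) (nat_lit 246) (nat_lit 5) (nat_lit 251) (nat_lit 5) (nat_lit 247) (nat_lit 5) (nat_lit 371) (nat_lit 336) (nat_lit 313)) (XT.nd (nat_lit 78) (nat_lit 684) (nat_lit 0) (XT.lf (nat_lit 0) (nat_lit 7676869921) (nat_lit 456)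 (nat_lit 933540359) (nat_lit 76) (nat_lit 1423896604) (nat_lit 241) (nat_lit 5) (nat_lit 247) (nat_lit 5) (nat_lit 242) (nat_lit 5) (nat_lit 372) (nat_lit 336) (nat_lit 312)) (XT.lf (nat_lit 0) (nat_lit 1338344744) (nat_lit 304) (nat_lit 2135222854) (nat_lit 380) (nat_lit 6812786142) (nat_lit 232) (nat_lit 5) (nat_lit 236) (nat_lit 5) (nat_lit 237) (nat_lit 5) (nat_lit 373) (nat_lit 336) (nat_lit 311)))) (XT.nd (nat_lit 78) (nat_lit 684) (nat_lit 0) (XT.lf (nat_lit 0) (nat_lit 3727853079) (nat_lit 304) (nat_lit 5870019621) (nat_lit 380) (nat_lit 950914838) (nat_lit 228) (nat_lit 5) (nat_lit 232) (nat_lit 5) (nat_lit 233) (nat_lit 5) (nat_lit 374) (nat_lit 336) (nat_lit 310)) (XT.nd (nat_lit 78) (nat_lit 304) (nat_lit 0) (XT.lf (nat_lit 0) (nat_lit 5136398848) (nat_lit 380) (nat_lit 4613949680) (nat_lit 76) (nat_lit 1071476806) (nat_lit 223) (nat_lit 5) (nat_lit 228) (nat_lit 5) (nat_lit 224) (nat_lit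 5) (nat_lit 375) (nat_lit 336) (nat_lit 309)) (XT.lf (nat_lit 0) (nat_lit 461222063) (nat_lit 304) (nat_lit 2314351095) (nat_lit 76) (nat_lit 8330478455) (nat_lit 219) (nat_lit 5) (nat_lit 223) (nat_lit 5) (nat_lit 220) (nat_lit 5) (nat_lit 376) (nat_lit 336) (nat_lit 308))))) (XT.nd (nat_lit 234) (nat_lit 1292) (nat_lit 0) (XT.nd (nat_lit 78) (nat_lit 608) (nat_lit 0) (XT.lf (nat_lit 0) (nat_lit 55005266) (nat_lit 228) (nat_lit 6804532245) (nat_lit 304) (nat_lit 4541405421) (nat_lit 212) (nat_lit 5) (nat_lit 215) (nat_lit 5) (nat_lit 216) (nat_lit 5) (nat_lit 377) (nat_lit 336) (nat_lit 307)) (XT.nd (nat_lit 78) (nat_lit 228) (nat_lit 0) (XT.lf (nat_lit 0) (nat_lit 1911825572) (nat_lit 380) (nat_lit 9113006681) (nat_lit 76) (nat_lit 682775970) (nat_lit 207) (nat_lit 5) (nat_lit 212) (nat_lit 5) (nat_lit 208) (nat_lit 5) (nat_lit 378) (nat_lit 336) (nat_lit 306)) (XT.lf (nat_lit 0) (nat_lit 5201832584)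 (nat_lit 228) (nat_lit 3490358908) (nat_lit 304) (nat_lit 3333114455) (nat_lit 204) (nat_lit 5) (nat_lit 207) (nat_lit 5) (nat_lit 208) (nat_lit 5) (nat_lit 379) (nat_lit 336) (nat_lit 305)))) (XT.nd (nat_lit 156) (nat_lit 760) (nat_lit 0) (XT.nd (nat_lit 78) (nat_lit 228) (nat_lit 0) (XT.lf (nat_lit 0) (nat_lit 3464352230) (nat_lit 304) (nat_lit 4435791160) (nat_lit 76) (nat_lit 4455378305) (nat_lit 200) (nat_lit 5) (nat_lit 204) (nat_lit 5) (nat_lit 201) (nat_lit 5) (nat_lit 380) (nat_lit 336) (nat_lit 304)) (XT.lf (nat_lit 0) (nat_lit 10612114114) (nat_lit 304) (nat_lit 1937463019) (nat_lit 76) (nat_lit 149300388) (nat_lit 197) (nat_lit 5) (nat_lit 201) (nat_lit 5) (nat_lit 198) (nat_lit 5) (nat_lit 381) (nat_lit 336) (nat_lit 303))) (XT.nd (nat_lit 78) (nat_lit 228) (nat_lit 0) (XT.lf (nat_lit 0) (nat_lit 630846019) (nat_lit 228) (nat_lit 4464486010) (nat_lit 304) (nat_lit 7958525546) (nat_lit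 190) (nat_lit 5) (nat_lit 193) (nat_lit 5) (nat_lit 194) (nat_lit 5) (nat_lit 382) (nat_lit 336) (nat_lit 302)) (XT.lf (nat_lit 0) (nat_lit 3371529738) (nat_lit 228) (nat_lit 9337235798) (nat_lit 304) (nat_lit 713739542) (nat_lit 187) (nat_lit 5) (nat_lit 190) (nat_lit 5) (nat_lit 191) (nat_lit 5) (nat_lit 383) (nat_lit 336) (nat_lit 301))))))) (XT.nd (nat_lit 1014) (nat_lit 2356) (nat_lit 0) (XT.nd (nat_lit 468) (nat_lit 1444) (nat_lit 0) (XT.nd (nat_lit 234) (nat_lit 836) (nat_lit 0) (XT.nd (nat_lit 78) (nat_lit 456) (nat_lit 0) (XT.lf (nat_lit 0) (nat_lit 6201569395) (nat_lit 152) (nat_lit 664862431) (nat_lit 228) (nat_lit 6937935488) (nat_lit 184) (nat_lit 5) (nat_lit 186) (nat_lit 5) (nat_lit 187) (nat_lit 5) (nat_lit 384) (nat_lit 336) (nat_lit 300)) (XT.nd (nat_lit 78) (nat_lit 152) (nat_lit 0) (XT.lf (nat_lit 0) (nat_lit 746115698) (nat_lit 304) (nat_lit 5057275730) (nat_lit 76) (nat_lit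 8396978671) (nat_lit 180) (nat_lit 5) (nat_lit 184) (nat_lit 5) (nat_lit 181) (nat_lit 5) (nat_lit 385) (nat_lit 336) (nat_lit 299)) (XT.lf (nat_lit 0) (nat_lit 8788456892) (nat_lit 228) (nat_lit 2421993629) (nat_lit 76) (nat_lit 3400134492) (nat_lit 178) (nat_lit 5) (nat_lit 181) (nat_lit 5) (nat_lit 179) (nat_lit 5) (nat_lit 386) (nat_lit 336) (nat_lit 298)))) (XT.nd (nat_lit 78) (nat_lit 380) (nat_lit 0) (XT.lf (nat_lit 0) (nat_lit 345205772) (nat_lit 152) (nat_lit 1950122821) (nat_lit 228) (nat_lit 12740955360) (nat_lit 172) (nat_lit 5) (nat_lit 174) (nat_lit 5) (nat_lit 175) (nat_lit 5) (nat_lit 387) (nat_lit 336) (nat_lit 297)) (XT.nd (nat_lit 78) (nat_lit 228) (nat_lit 0) (XT.lf (nat_lit 0) (nat_lit 3241360052) (nat_lit 152) (nat_lit 7649188094) (nat_lit 228) (nat_lit 4585221335) (nat_lit 170) (nat_lit 5) (nat_lit 172) (nat_lit 5) (nat_lit 173) (nat_lit 5) (nat_lit 388) (nat_lit 336) (nat_lit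 296)) (XT.lf (nat_lit 0) (nat_lit 4040446277) (nat_lit 228) (nat_lit 9651625517) (nat_lit 76) (nat_lit 2239816898) (nat_lit 167) (nat_lit 5) (nat_lit 170) (nat_lit 5) (nat_lit 168) (nat_lit 5) (nat_lit 389) (nat_lit 336) (nat_lit 295))))) (XT.nd (nat_lit 234) (nat_lit 912) (nat_lit 0) (XT.nd (nat_lit 78) (nat_lit 380) (nat_lit 0) (XT.lf (nat_lit 0) (nat_lit 9426477720) (nat_lit 152) (nat_lit 3759520545) (nat_lit 228) (nat_lit 3217950742) (nat_lit 165) (nat_lit 5) (nat_lit 167) (nat_lit 5) (nat_lit 168) (nat_lit 5) (nat_lit 390) (nat_lit 336) (nat_lit 294)) (XT.nd (nat_lit 78) (nat_lit 152) (nat_lit 0) (XT.lf (nat_lit 0) (nat_lit 5953219594) (nat_lit 228) (nat_lit 4204115381) (nat_lit 76) (nat_lit 6735211322) (nat_lit 162) (nat_lit 5) (nat_lit 165) (nat_lit 5) (nat_lit 163) (nat_lit 5) (nat_lit 391) (nat_lit 336) (nat_lit 293)) (XT.lf (nat_lit 0) (nat_lit 15679386947) (nat_lit 228) (nat_lit 1275727447)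 (nat_lit 76) (nat_lit 444613512) (nat_lit 160) (nat_lit 5) (nat_lit 163) (nat_lit 5) (nat_lit 161) (nat_lit 4) (nat_lit 392) (nat_lit 336) (nat_lit 292)))) (XT.nd (nat_lit 156) (nat_lit 304) (nat_lit 0) (XT.nd (nat_lit 78) (nat_lit 228) (nat_lit 0) (XT.lf (nat_lit 0) (nat_lit 1745256415) (nat_lit 152) (nat_lit 6308790422) (nat_lit 228) (nat_lit 9868433190) (nat_lit 155) (nat_lit 5) (nat_lit 157) (nat_lit 5) (nat_lit 158) (nat_lit 5) (nat_lit 393) (nat_lit 336) (nat_lit 291)) (XT.lf (nat_lit 0) (nat_lit 13633415) (nat_lit 228) (nat_lit 13489086113) (nat_lit 76) (nat_lit 4962217104) (nat_lit 152) (nat_lit 5) (nat_lit 155) (nat_lit 5) (nat_lit 153) (nat_lit 5) (nat_lit 394) (nat_lit 336) (nat_lit 290))) (XT.nd (nat_lit 78) (nat_lit 152) (nat_lit 0) (XT.lf (nat_lit 0) (nat_lit 8301263474) (nat_lit 152) (nat_lit 2094675577) (nat_lit 228) (nat_lit 8629338898) (nat_lit 150) (nat_lit 5) (nat_lit 152) (nat_lit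 5) (nat_lit 153) (nat_lit 5) (nat_lit 395) (nat_lit 336) (nat_lit 289)) (XT.lf (nat_lit 0) (nat_lit 1900987706) (nat_lit 152) (nat_lit 7825051269) (nat_lit 76) (nat_lit 9879608220) (nat_lit 148) (nat_lit 5) (nat_lit 150) (nat_lit 5) (nat_lit 149) (nat_lit 5) (nat_lit 396) (nat_lit 336) (nat_lit 288)))))) (XT.nd (nat_lit 546) (nat_lit 1216) (nat_lit 0) (XT.nd (nat_lit 234) (nat_lit 608) (nat_lit 0) (XT.nd (nat_lit 78) (nat_lit 380) (nat_lit 0) (XT.lf (nat_lit 0) (nat_lit 12986781129) (nat_lit 228) (nat_lit 4800307982) (nat_lit 76) (nat_lit 2419160068) (nat_lit 146) (nat_lit 5) (nat_lit 149) (nat_lit 5) (nat_lit 147) (nat_lit 4) (nat_lit 397) (nat_lit 336) (nat_lit 287)) (XT.nd (nat_lit 78) (nat_lit 228) (nat_lit 0) (XT.lf (nat_lit 0) (nat_lit 3986251729) (nat_lit 152) (nat_lit 1645269618) (nat_lit 76) (nat_lit 15196160215) (nat_lit 144) (nat_lit 5) (nat_lit 146) (nat_lit 5) (nat_lit 145) (nat_lit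 5) (nat_lit 398) (nat_lit 336) (nat_lit 286)) (XT.lf (nat_lit 0) (nat_lit 1676147778) (nat_lit 76) (nat_lit 14193540681) (nat_lit 152) (nat_lit 5600350493) (nat_lit 141) (nat_lit 5) (nat_lit 142) (nat_lit 5) (nat_lit 143) (nat_lit 4) (nat_lit 399) (nat_lit 336) (nat_lit 285)))) (XT.nd (nat_lit 156) (nat_lit 304) (nat_lit 0) (XT.nd (nat_lit 78) (nat_lit 76) (nat_lit 0) (XT.lf (nat_lit 0) (nat_lit 5203322248) (nat_lit 152) (nat_lit 1141222373) (nat_lit 228) (nat_lit 15790296827) (nat_lit 138) (nat_lit 5) (nat_lit 140) (nat_lit 5) (nat_lit 141) (nat_lit 5) (nat_lit 400) (nat_lit 336) (nat_lit 284)) (XT.lf (nat_lit 0) (nat_lit 8853927887) (nat_lit 76) (nat_lit 10236428714) (nat_lit 152) (nat_lit 3731279120) (nat_lit 137) (nat_lit 5) (nat_lit 138) (nat_lit 5) (nat_lit 139) (nat_lit 4) (nat_lit 401) (nat_lit 336) (nat_lit 283))) (XT.nd (nat_lit 78) (nat_lit 76) (nat_lit 0) (XT.lf (nat_lit 0) (nat_lit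 9010896974) (nat_lit 228) (nat_lit 10849128824) (nat_lit 76) (nat_lit 3672534168) (nat_lit 134) (nat_lit 5) (nat_lit 137) (nat_lit 5) (nat_lit 135) (nat_lit 4) (nat_lit 402) (nat_lit 336) (nat_lit 282)) (XT.lf (nat_lit 0) (nat_lit 16697258972) (nat_lit 76) (nat_lit 5936119804) (nat_lit 152) (nat_lit 1634932383) (nat_lit 133) (nat_lit 5) (nat_lit 134) (nat_lit 5) (nat_lit 135) (nat_lit 4) (nat_lit 403) (nat_lit 336) (nat_lit 281))))) (XT.nd (nat_lit 234) (nat_lit 608) (nat_lit 0) (XT.nd (nat_lit 78) (nat_lit 380) (nat_lit 0) (XT.lf (nat_lit 0) (nat_lit 11977408651) (nat_lit 228) (nat_lit 4181630392) (nat_lit 76) (nat_lit 8868977972) (nat_lit 130) (nat_lit 5) (nat_lit 133) (nat_lit 5) (nat_lit 131) (nat_lit 4) (nat_lit 404) (nat_lit 336) (nat_lit 280)) (XT.nd (nat_lit 78) (nat_lit 228) (nat_lit 0) (XT.lf (nat_lit 0) (nat_lit 702381903) (nat_lit 152) (nat_lit 552061313) (nat_lit 76) (nat_lit 24561688389)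 (nat_lit 128) (nat_lit 5) (nat_lit 130) (nat_lit 5) (nat_lit 129) (nat_lit 5) (nat_lit 405) (nat_lit 336) (nat_lit 279)) (XT.lf (nat_lit 0) (nat_lit 3205491674) (nat_lit 76) (nat_lit 12090228117) (nat_lit 152) (nat_lit 11331377572) (nat_lit 125) (nat_lit 5) (nat_lit 126) (nat_lit 5) (nat_lit 127) (nat_lit 4) (nat_lit 406) (nat_lit 336) (nat_lit 278)))) (XT.nd (nat_lit 156) (nat_lit 304) (nat_lit 0) (XT.nd (nat_lit 78) (nat_lit 76) (nat_lit 0) (XT.lf (nat_lit 0) (nat_lit 3394697452) (nat_lit 228) (nat_lit 20223317090) (nat_lit 76) (nat_lit 3850215552) (nat_lit 122) (nat_lit 5) (nat_lit 125) (nat_lit 5) (nat_lit 123) (nat_lit 4) (nat_lit 407) (nat_lit 336) (nat_lit 277)) (XT.lf (nat_lit 0) (nat_lit 11413682496) (nat_lit 76) (nat_lit 7603626798) (nat_lit 152) (nat_lit 9318906911) (nat_lit 121) (nat_lit 5) (nat_lit 122) (nat_lit 5) (nat_lit 123) (nat_lit 4) (nat_lit 408) (nat_lit 336) (nat_lit 276)))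 (XT.nd (nat_lit 78) (nat_lit 76) (nat_lit 0) (XT.lf (nat_lit 0) (nat_lit 6426937153) (nat_lit 228) (nat_lit 13423896030) (nat_lit 76) (nat_lit 9383769552) (nat_lit 118) (nat_lit 5) (nat_lit 121) (nat_lit 5) (nat_lit 119) (nat_lit 4) (nat_lit 409) (nat_lit 336) (nat_lit 275)) (XT.lf (nat_lit 0) (nat_lit 20433325970) (nat_lit 76) (nat_lit 2705405841) (nat_lit 152) (nat_lit 7025267156) (nat_lit 117) (nat_lit 5) (nat_lit 118) (nat_lit 5) (nat_lit 119) (nat_lit 4) (nat_lit 410) (nat_lit 336) (nat_lit 274))))))))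
noncomputable def xc41 : XT := (XT.nd (nat_lit 2106) (nat_lit 456) (nat_lit 0) (XT.nd (nat_lit 1014) (nat_lit 1748) (nat_lit 0) (XT.nd (nat_lit 468) (nat_lit 836) (nat_lit 0) (XT.nd (nat_lit 234) (nat_lit 380) (nat_lit 0) (XT.nd (nat_lit 78) (nat_lit 304) (nat_lit 0) (XT.lf (nat_lit 0) (nat_lit 9816611172) (nat_lit 152) (nat_lit 5900236552) (nat_lit 76) (nat_lit 15406565104) (nat_lit 115) (nat_lit 5) (nat_lit 117) (nat_lit 5) (nat_lit 116) (nat_lit 4) (nat_lit 411) (nat_lit 336) (nat_lit 273)) (XT.nd (nat_lit 78) (nat_lit 228) (nat_lit 0) (XT.lf (nat_lit 0) (nat_lit 27725903795) (nat_lit 152) (nat_lit 1799370336) (nat_lit 0) (nat_lit 2592318127) (nat_lit 114) (nat_lit 5) (nat_lit 116) (nat_lit 4) (nat_lit 114) (nat_lit 4) (nat_lit 412) (nat_lit 336) (nat_lit 272)) (XT.lf (nat_lit 0) (nat_lit 2470657704) (nat_lit 76) (nat_lit 11154655256) (nat_lit 152) (nat_lit 19516801915) (nat_lit 111) (nat_lit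 5) (nat_lit 112) (nat_lit 5) (nat_lit 113) (nat_lit 4) (nat_lit 413) (nat_lit 336) (nat_lit 271)))) (XT.nd (nat_lit 78) (nat_lit 304) (nat_lit 0) (XT.lf (nat_lit 0) (nat_lit 7082630842) (nat_lit 76) (nat_lit 25813340592) (nat_lit 76) (nat_lit 1307278711) (nat_lit 110) (nat_lit 4) (nat_lit 111) (nat_lit 5) (nat_lit 111) (nat_lit 4) (nat_lit 414) (nat_lit 336) (nat_lit 270)) (XT.nd (nat_lit 78) (nat_lit 152) (nat_lit 0) (XT.lf (nat_lit 0) (nat_lit 11856844212) (nat_lit 76) (nat_lit 6079837905) (nat_lit 152) (nat_lit 17361476704) (nat_lit 108) (nat_lit 5) (nat_lit 109) (nat_lit 5) (nat_lit 110) (nat_lit 4) (nat_lit 415) (nat_lit 336) (nat_lit 269)) (XT.lf (nat_lit 0) (nat_lit 2154322787) (nat_lit 152) (nat_lit 19511061417) (nat_lit 76) (nat_lit 14766004330) (nat_lit 106) (nat_lit 5) (nat_lit 108) (nat_lit 5) (nat_lit 107) (nat_lit 4) (nat_lit 416) (nat_lit 336) (nat_lit 268))))) (XT.nd (nat_lit 234)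 (nat_lit 532) (nat_lit 0) (XT.nd (nat_lit 78) (nat_lit 228) (nat_lit 0) (XT.lf (nat_lit 0) (nat_lit 22231038529) (nat_lit 76) (nat_lit 506959724) (nat_lit 152) (nat_lit 14864590167) (nat_lit 105) (nat_lit 5) (nat_lit 106) (nat_lit 5) (nat_lit 107) (nat_lit 4) (nat_lit 417) (nat_lit 336) (nat_lit 267)) (XT.nd (nat_lit 78) (nat_lit 76) (nat_lit 0) (XT.lf (nat_lit 0) (nat_lit 6026450349) (nat_lit 152) (nat_lit 11036036783) (nat_lit 76) (nat_lit 21749800934) (nat_lit 103) (nat_lit 5) (nat_lit 105) (nat_lit 5) (nat_lit 104) (nat_lit 4) (nat_lit 418) (nat_lit 336) (nat_lit 266)) (XT.lf (nat_lit 0) (nat_lit 28132059429) (nat_lit 152) (nat_lit 6428146533) (nat_lit 0) (nat_lit 5503528336) (nat_lit 102) (nat_lit 5) (nat_lit 104) (nat_lit 4) (nat_lit 102) (nat_lit 4) (nat_lit 419) (nat_lit 336) (nat_lit 265)))) (XT.nd (nat_lit 156) (nat_lit 228) (nat_lit 0) (XT.nd (nat_lit 78) (nat_lit 152) (nat_lit 0) (XT.lf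 (nat_lit 0) (nat_lit 10380127638) (nat_lit 152) (nat_lit 1591690324) (nat_lit 76) (nat_lit 29384779482) (nat_lit 100) (nat_lit 5) (nat_lit 102) (nat_lit 5) (nat_lit 101) (nat_lit 4) (nat_lit 420) (nat_lit 336) (nat_lit 264)) (XT.lf (nat_lit 0) (nat_lit 3598112557) (nat_lit 76) (nat_lit 30564912690) (nat_lit 76) (nat_lit 8529466328) (nat_lit 98) (nat_lit 4) (nat_lit 99) (nat_lit 5) (nat_lit 99) (nat_lit 4) (nat_lit 421) (nat_lit 336) (nat_lit 263))) (XT.nd (nat_lit 78) (nat_lit 76) (nat_lit 0) (XT.lf (nat_lit 0) (nat_lit 9098808717) (nat_lit 76) (nat_lit 6253366895) (nat_lit 152) (nat_lit 28720494502) (nat_lit 96) (nat_lit 5) (nat_lit 97) (nat_lit 5) (nat_lit 98) (nat_lit 4) (nat_lit 422) (nat_lit 336) (nat_lit 262)) (XT.lf (nat_lit 0) (nat_lit 14895621869) (nat_lit 76) (nat_lit 26027652661) (nat_lit 76) (nat_lit 4575896227) (nat_lit 95) (nat_lit 4) (nat_lit 96) (nat_lit 5) (nat_lit 96) (nat_lit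 4) (nat_lit 423) (nat_lit 336) (nat_lit 261)))))) (XT.nd (nat_lit 546) (nat_lit 836) (nat_lit 0) (XT.nd (nat_lit 234) (nat_lit 532) (nat_lit 0) (XT.nd (nat_lit 78) (nat_lit 228) (nat_lit 0) (XT.lf (nat_lit 0) (nat_lit 20936623867) (nat_lit 152) (nat_lit 25953936562) (nat_lit 0) (nat_lit 83461519) (nat_lit 93) (nat_lit 5) (nat_lit 95) (nat_lit 4) (nat_lit 93) (nat_lit 4) (nat_lit 424) (nat_lit 336) (nat_lit 260)) (XT.nd (nat_lit 78) (nat_lit 152) (nat_lit 0) (XT.lf (nat_lit 0) (nat_lit 27451166504) (nat_lit 76) (nat_lit 20962358337) (nat_lit 76) (nat_lit 84229937) (nat_lit 92) (nat_lit 4) (nat_lit 93) (nat_lit 5) (nat_lit 93) (nat_lit 4) (nat_lit 425) (nat_lit 336) (nat_lit 259)) (XT.lf (nat_lit 0) (nat_lit 27242768137) (nat_lit 152) (nat_lit 15879227251) (nat_lit 0) (nat_lit 6949655912) (nat_lit 90) (nat_lit 5) (nat_lit 92) (nat_lit 4) (nat_lit 90) (nat_lit 4) (nat_lit 426) (nat_lit 336) (nat_lit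 258)))) (XT.nd (nat_lit 156) (nat_lit 304) (nat_lit 0) (XT.nd (nat_lit 78) (nat_lit 76) (nat_lit 0) (XT.lf (nat_lit 0) (nat_lit 4904057174) (nat_lit 152) (nat_lit 10359861544) (nat_lit 76) (nat_lit 36435803114) (nat_lit 88) (nat_lit 5) (nat_lit 90) (nat_lit 5) (nat_lit 89) (nat_lit 4) (nat_lit 427) (nat_lit 336) (nat_lit 257)) (XT.lf (nat_lit 0) (nat_lit 34275371280) (nat_lit 152) (nat_lit 4573680920) (nat_lit 0) (nat_lit 14531646942) (nat_lit 87) (nat_lit 5) (nat_lit 89) (nat_lit 4) (nat_lit 87) (nat_lit 4) (nat_lit 428) (nat_lit 336) (nat_lit 256))) (XT.nd (nat_lit 78) (nat_lit 76) (nat_lit 0) (XT.lf (nat_lit 0) (nat_lit 1651384470) (nat_lit 76) (nat_lit 8897615225) (nat_lit 152) (nat_lit 44570630168) (nat_lit 84) (nat_lit 5) (nat_lit 85) (nat_lit 5) (nat_lit 86) (nat_lit 4) (nat_lit 429) (nat_lit 336) (nat_lit 255)) (XT.lf (nat_lit 0) (nat_lit 8249818305) (nat_lit 76) (nat_lit 33934290430) (nat_lit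 76) (nat_lit 14728927757) (nat_lit 83) (nat_lit 4) (nat_lit 84) (nat_lit 5) (nat_lit 84) (nat_lit 4) (nat_lit 430) (nat_lit 336) (nat_lit 254))))) (XT.nd (nat_lit 234) (nat_lit 456) (nat_lit 0) (XT.nd (nat_lit 78) (nat_lit 228) (nat_lit 0) (XT.lf (nat_lit 0) (nat_lit 15321849313) (nat_lit 76) (nat_lit 1695028087) (nat_lit 152) (nat_lit 41752366425) (nat_lit 81) (nat_lit 5) (nat_lit 82) (nat_lit 5) (nat_lit 83) (nat_lit 4) (nat_lit 431) (nat_lit 336) (nat_lit 253)) (XT.nd (nat_lit 78) (nat_lit 152) (nat_lit 0) (XT.lf (nat_lit 0) (nat_lit 22688214332) (nat_lit 76) (nat_lit 28337284036) (nat_lit 76) (nat_lit 9658983955) (nat_lit 80) (nat_lit 4) (nat_lit 81) (nat_lit 5) (nat_lit 81) (nat_lit 4) (nat_lit 432) (nat_lit 336) (nat_lit 252)) (XT.lf (nat_lit 0) (nat_lit 24338801610) (nat_lit 152) (nat_lit 32136730788) (nat_lit 0) (nat_lit 6189953318) (nat_lit 78) (nat_lit 5) (nat_lit 80) (nat_lit 4) (nat_lit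 78) (nat_lit 4) (nat_lit 433) (nat_lit 336) (nat_lit 251)))) (XT.nd (nat_lit 156) (nat_lit 228) (nat_lit 0) (XT.nd (nat_lit 78) (nat_lit 152) (nat_lit 0) (XT.lf (nat_lit 0) (nat_lit 38802560541) (nat_lit 76) (nat_lit 22036386640) (nat_lit 76) (nat_lit 3873656092) (nat_lit 77) (nat_lit 4) (nat_lit 78) (nat_lit 5) (nat_lit 78) (nat_lit 4) (nat_lit 434) (nat_lit 336) (nat_lit 250)) (XT.lf (nat_lit 0) (nat_lit 32557098209) (nat_lit 152) (nat_lit 19358558066) (nat_lit 0) (nat_lit 14910543118) (nat_lit 75) (nat_lit 5) (nat_lit 77) (nat_lit 4) (nat_lit 75) (nat_lit 4) (nat_lit 435) (nat_lit 336) (nat_lit 249))) (XT.nd (nat_lit 78) (nat_lit 76) (nat_lit 0) (XT.lf (nat_lit 0) (nat_lit 2648378570) (nat_lit 152) (nat_lit 12282571462) (nat_lit 76) (nat_lit 54082999621) (nat_lit 73) (nat_lit 5) (nat_lit 75) (nat_lit 5) (nat_lit 74) (nat_lit 4) (nat_lit 436) (nat_lit 336) (nat_lit 248)) (XT.lf (nat_lit 0) (nat_lit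 41741242636) (nat_lit 152) (nat_lit 4943025963) (nat_lit 0) (nat_lit 24585492449) (nat_lit 72) (nat_lit 5) (nat_lit 74) (nat_lit 4) (nat_lit 72) (nat_lit 4) (nat_lit 437) (nat_lit 336) (nat_lit 247))))))) (XT.nd (nat_lit 46722) (nat_lit 0) (nat_lit 14896) (XT.nd (nat_lit 46176) (nat_lit 0) (nat_lit 24472) (XT.nd (nat_lit 45942) (nat_lit 0) (nat_lit 31844) (XT.nd (nat_lit 78) (nat_lit 228) (nat_lit 0) (XT.lf (nat_lit 0) (nat_lit 3087787574) (nat_lit 76) (nat_lit 6889701646) (nat_lit 152) (nat_lit 63628065239) (nat_lit 69) (nat_lit 5) (nat_lit 70) (nat_lit 5) (nat_lit 71) (nat_lit 4) (nat_lit 438) (nat_lit 336) (nat_lit 246)) (XT.nd (nat_lit 78) (nat_lit 152) (nat_lit 0) (XT.lf (nat_lit 0) (nat_lit 11501407803) (nat_lit 76) (nat_lit 40593514169) (nat_lit 76) (nat_lit 23917040127) (nat_lit 68) (nat_lit 4) (nat_lit 69) (nat_lit 5) (nat_lit 69) (nat_lit 4) (nat_lit 439) (nat_lit 336) (nat_lit 245))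 (XT.lf (nat_lit 0) (nat_lit 18406097889) (nat_lit 152) (nat_lit 57892117448) (nat_lit 0) (nat_lit 2206142418) (nat_lit 66) (nat_lit 5) (nat_lit 68) (nat_lit 4) (nat_lit 66) (nat_lit 4) (nat_lit 440) (nat_lit 336) (nat_lit 244)))) (XT.nd (nat_lit 78) (nat_lit 1140) (nat_lit 0) (XT.lf (nat_lit 0) (nat_lit 1609295266) (nat_lit 380) (nat_lit 831695811) (nat_lit 380) (nat_lit 831695811) (nat_lit 500) (nat_lit 4) (nat_lit 505) (nat_lit 5) (nat_lit 505) (nat_lit 4) (nat_lit 346) (nat_lit 337) (nat_lit 337)) (XT.nd (nat_lit 78) (nat_lit 608) (nat_lit 0) (XT.lf (nat_lit 0) (nat_lit 3324529454) (nat_lit 456) (nat_lit 364058948) (nat_lit 532) (nat_lit 2895201321) (nat_lit 493) (nat_lit 5) (nat_lit 499) (nat_lit 5) (nat_lit 500) (nat_lit 4) (nat_lit 347) (nat_lit 337) (nat_lit 336)) (XT.lf (nat_lit 0) (nat_lit 2369806677) (nat_lit 608) (nat_lit 3080901561) (nat_lit 76) (nat_lit 1179018307) (nat_lit 485) (nat_lit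 5) (nat_lit 493) (nat_lit 5) (nat_lit 486) (nat_lit 4) (nat_lit 348) (nat_lit 337) (nat_lit 335))))) (XT.nd (nat_lit 234) (nat_lit 5168) (nat_lit 0) (XT.nd (nat_lit 78) (nat_lit 1520) (nat_lit 0) (XT.lf (nat_lit 0) (nat_lit 916222317) (nat_lit 684) (nat_lit 2785684711) (nat_lit 76) (nat_lit 2981524637) (nat_lit 476) (nat_lit 5) (nat_lit 485) (nat_lit 5) (nat_lit 477) (nat_lit 5) (nat_lit 349) (nat_lit 337) (nat_lit 334)) (XT.nd (nat_lit 78) (nat_lit 836) (nat_lit 0) (XT.lf (nat_lit 0) (nat_lit 4369034892) (nat_lit 684) (nat_lit 1682356156) (nat_lit 760) (nat_lit 693516034) (nat_lit 467) (nat_lit 5) (nat_lit 476) (nat_lit 5) (nat_lit 477) (nat_lit 5) (nat_lit 350) (nat_lit 337) (nat_lit 333)) (XT.lf (nat_lit 0) (nat_lit 4348325670) (nat_lit 836) (nat_lit 1859881484) (nat_lit 76) (nat_lit 605766201) (nat_lit 456) (nat_lit 5) (nat_lit 467) (nat_lit 5) (nat_lit 457) (nat_lit 5) (nat_lit 351) (nat_lit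 337) (nat_lit 332)))) (XT.nd (nat_lit 156) (nat_lit 3268) (nat_lit 0) (XT.nd (nat_lit 78) (nat_lit 988) (nat_lit 0) (XT.lf (nat_lit 0) (nat_lit 2516756678) (nat_lit 912) (nat_lit 1240022653) (nat_lit 76) (nat_lit 3133858201) (nat_lit 444) (nat_lit 5) (nat_lit 456) (nat_lit 5) (nat_lit 445) (nat_lit 5) (nat_lit 352) (nat_lit 337) (nat_lit 331)) (XT.lf (nat_lit 0) (nat_lit 535056247) (nat_lit 988) (nat_lit 498197213) (nat_lit 76) (nat_lit 5942268818) (nat_lit 431) (nat_lit 5) (nat_lit 444) (nat_lit 5) (nat_lit 432) (nat_lit 5) (nat_lit 353) (nat_lit 337) (nat_lit 330))) (XT.nd (nat_lit 78) (nat_lit 1216) (nat_lit 0) (XT.lf (nat_lit 0) (nat_lit 339725684) (nat_lit 1064) (nat_lit 5116398508) (nat_lit 1140) (nat_lit 1611513622) (nat_lit 404) (nat_lit 5) (nat_lit 418) (nat_lit 5) (nat_lit 419) (nat_lit 5) (nat_lit 354) (nat_lit 337) (nat_lit 329)) (XT.lf (nat_lit 0) (nat_lit 1297065721) (nat_lit 1140)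 (nat_lit 1955461564) (nat_lit 1216) (nat_lit 3915000286) (nat_lit 388) (nat_lit 5) (nat_lit 403) (nat_lit 5) (nat_lit 404) (nat_lit 5) (nat_lit 355) (nat_lit 337) (nat_lit 328)))))) (XT.nd (nat_lit 546) (nat_lit 3800) (nat_lit 0) (XT.nd (nat_lit 234) (nat_lit 2964) (nat_lit 0) (XT.nd (nat_lit 78) (nat_lit 1520) (nat_lit 0) (XT.lf (nat_lit 0) (nat_lit 903643932) (nat_lit 1292) (nat_lit 4907876241) (nat_lit 76) (nat_lit 1464017497) (nat_lit 371) (nat_lit 5) (nat_lit 388) (nat_lit 5) (nat_lit 372) (nat_lit 5) (nat_lit 356) (nat_lit 337) (nat_lit 327)) (XT.nd (nat_lit 78) (nat_lit 684) (nat_lit 0) (XT.lf (nat_lit 0) (nat_lit 3531337819) (nat_lit 836) (nat_lit 2237946241) (nat_lit 912) (nat_lit 1621890386) (nat_lit 360) (nat_lit 5) (nat_lit 371) (nat_lit 5) (nat_lit 372) (nat_lit 5) (nat_lit 357) (nat_lit 337) (nat_lit 326)) (XT.lf (nat_lit 0) (nat_lit 3191146077) (nat_lit 684) (nat_lit 2714753806)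 (nat_lit 76) (nat_lit 1608986363) (nat_lit 351) (nat_lit 5) (nat_lit 360) (nat_lit 5) (nat_lit 352) (nat_lit 5) (nat_lit 358) (nat_lit 337) (nat_lit 325)))) (XT.nd (nat_lit 156) (nat_lit 1748) (nat_lit 0) (XT.nd (nat_lit 78) (nat_lit 532) (nat_lit 0) (XT.lf (nat_lit 0) (nat_lit 463944420) (nat_lit 684) (nat_lit 1468625488) (nat_lit 76) (nat_lit 5714327897) (nat_lit 342) (nat_lit 5) (nat_lit 351) (nat_lit 5) (nat_lit 343) (nat_lit 5) (nat_lit 359) (nat_lit 337) (nat_lit 324)) (XT.lf (nat_lit 0) (nat_lit 5319601025) (nat_lit 608) (nat_lit 142535180) (nat_lit 76) (nat_lit 2324549176) (nat_lit 335) (nat_lit 5) (nat_lit 343) (nat_lit 5) (nat_lit 336) (nat_lit 5) (nat_lit 360) (nat_lit 337) (nat_lit 323))) (XT.nd (nat_lit 78) (nat_lit 532) (nat_lit 0) (XT.lf (nat_lit 0) (nat_lit 1312321653) (nat_lit 532) (nat_lit 1059321718) (nat_lit 608) (nat_lit 5563036016) (nat_lit 319) (nat_lit 5) (nat_lit 326) (nat_lit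 5) (nat_lit 327) (nat_lit 5) (nat_lit 361) (nat_lit 337) (nat_lit 322)) (XT.lf (nat_lit 0) (nat_lit 2860098414) (nat_lit 532) (nat_lit 4490440765) (nat_lit 608) (nat_lit 740323476) (nat_lit 312) (nat_lit 5) (nat_lit 319) (nat_lit 5) (nat_lit 320) (nat_lit 5) (nat_lit 362) (nat_lit 337) (nat_lit 321))))) (XT.nd (nat_lit 234) (nat_lit 2204) (nat_lit 0) (XT.nd (nat_lit 78) (nat_lit 1064) (nat_lit 0) (XT.lf (nat_lit 0) (nat_lit 4173658022) (nat_lit 532) (nat_lit 3751625517) (nat_lit 76) (nat_lit 330289709) (nat_lit 305) (nat_lit 5) (nat_lit 312) (nat_lit 5) (nat_lit 306) (nat_lit 5) (nat_lit 363) (nat_lit 337) (nat_lit 320)) (XT.nd (nat_lit 78) (nat_lit 456) (nat_lit 0) (XT.lf (nat_lit 0) (nat_lit 847021649) (nat_lit 608) (nat_lit 2189540063) (nat_lit 76) (nat_lit 5392241521) (nat_lit 297) (nat_lit 5) (nat_lit 305) (nat_lit 5) (nat_lit 298) (nat_lit 5) (nat_lit 364) (nat_lit 337) (nat_lit 319)) (XT.lf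 (nat_lit 0) (nat_lit 5896721698) (nat_lit 532) (nat_lit 543416505) (nat_lit 76) (nat_lit 2170581967) (nat_lit 291) (nat_lit 5) (nat_lit 298) (nat_lit 5) (nat_lit 292) (nat_lit 5) (nat_lit 365) (nat_lit 337) (nat_lit 318)))) (XT.nd (nat_lit 156) (nat_lit 836) (nat_lit 0) (XT.nd (nat_lit 78) (nat_lit 456) (nat_lit 0) (XT.lf (nat_lit 0) (nat_lit 1221045311) (nat_lit 380) (nat_lit 1116544003) (nat_lit 456) (nat_lit 6463836556) (nat_lit 279) (nat_lit 5) (nat_lit 284) (nat_lit 5) (nat_lit 285) (nat_lit 5) (nat_lit 366) (nat_lit 337) (nat_lit 317)) (XT.lf (nat_lit 0) (nat_lit 3078098170) (nat_lit 456) (nat_lit 4509422267) (nat_lit 532) (nat_lit 1413283473) (nat_lit 273) (nat_lit 5) (nat_lit 279) (nat_lit 5) (nat_lit 280) (nat_lit 5) (nat_lit 367) (nat_lit 337) (nat_lit 316))) (XT.nd (nat_lit 78) (nat_lit 380) (nat_lit 0) (XT.lf (nat_lit 0) (nat_lit 3796736777) (nat_lit 456) (nat_lit 4179579943) (nat_lit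 76) (nat_lit 1233227094) (nat_lit 267) (nat_lit 5) (nat_lit 273) (nat_lit 5) (nat_lit 268) (nat_lit 5) (nat_lit 368) (nat_lit 337) (nat_lit 315)) (XT.lf (nat_lit 0) (nat_lit 7080479962) (nat_lit 380) (nat_lit 2170491159) (nat_lit 456) (nat_lit 176941545) (nat_lit 262) (nat_lit 5) (nat_lit 267) (nat_lit 5) (nat_lit 268) (nat_lit 5) (nat_lit 369) (nat_lit 337) (nat_lit 314))))))))
noncomputable def xc42 : XT := (XT.nd (nat_lit 2106) (nat_lit 4104) (nat_lit 0) (XT.nd (nat_lit 1014) (nat_lit 3268) (nat_lit 0) (XT.nd (nat_lit 468) (nat_lit 2584) (nat_lit 0) (XT.nd (nat_lit 234) (nat_lit 1064) (nat_lit 0) (XT.nd (nat_lit 78) (nat_lit 1140) (nat_lit 0) (XT.lf (nat_lit 0) (nat_lit 5229745337) (nat_lit 456) (nat_lit 452801642) (nat_lit 76) (nat_lit 3972732970) (nat_lit 256) (nat_lit 5) (nat_lit 262) (nat_lit 5) (nat_lit 257) (nat_lit 5) (nat_lit 370) (nat_lit 337) (nat_lit 313)) (XT.nd (nat_lit 78) (nat_lit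 380) (nat_lit 0) (XT.lf (nat_lit 0) (nat_lit 1013503871) (nat_lit 380) (nat_lit 8304594044) (nat_lit 76) (nat_lit 574852553) (nat_lit 246) (nat_lit 5) (nat_lit 251) (nat_lit 5) (nat_lit 247) (nat_lit 5) (nat_lit 371) (nat_lit 337) (nat_lit 312)) (XT.lf (nat_lit 0) (nat_lit 3696672994) (nat_lit 380) (nat_lit 2987492180) (nat_lit 456) (nat_lit 3455488893) (nat_lit 241) (nat_lit 5) (nat_lit 246) (nat_lit 5) (nat_lit 247) (nat_lit 5) (nat_lit 372) (nat_lit 337) (nat_lit 311)))) (XT.nd (nat_lit 78) (nat_lit 684) (nat_lit 0) (XT.lf (nat_lit 0) (nat_lit 2226845100) (nat_lit 380) (nat_lit 4485466786) (nat_lit 76) (nat_lit 3684808616) (nat_lit 236) (nat_lit 5) (nat_lit 241) (nat_lit 5) (nat_lit 237) (nat_lit 5) (nat_lit 373) (nat_lit 337) (nat_lit 310)) (XT.nd (nat_lit 78) (nat_lit 380) (nat_lit 0) (XT.lf (nat_lit 0) (nat_lit 8155069629) (nat_lit 380) (nat_lit 2435667392) (nat_lit 76) (nat_lit 74699697)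 (nat_lit 232) (nat_lit 5) (nat_lit 237) (nat_lit 5) (nat_lit 233) (nat_lit 5) (nat_lit 374) (nat_lit 337) (nat_lit 309)) (XT.lf (nat_lit 0) (nat_lit 3442847006) (nat_lit 380) (nat_lit 325071512) (nat_lit 76) (nat_lit 7175941611) (nat_lit 227) (nat_lit 5) (nat_lit 232) (nat_lit 5) (nat_lit 228) (nat_lit 5) (nat_lit 375) (nat_lit 337) (nat_lit 308))))) (XT.nd (nat_lit 234) (nat_lit 1444) (nat_lit 0) (XT.nd (nat_lit 78) (nat_lit 608) (nat_lit 0) (XT.lf (nat_lit 0) (nat_lit 1930223947) (nat_lit 228) (nat_lit 7779210471) (nat_lit 304) (nat_lit 1523995713) (nat_lit 220) (nat_lit 5) (nat_lit 223) (nat_lit 5) (nat_lit 224) (nat_lit 5) (nat_lit 376) (nat_lit 337) (nat_lit 307)) (XT.nd (nat_lit 78) (nat_lit 228) (nat_lit 0) (XT.lf (nat_lit 0) (nat_lit 4281085396) (nat_lit 304) (nat_lit 441414220) (nat_lit 380) (nat_lit 6811708085) (nat_lit 215) (nat_lit 5) (nat_lit 219) (nat_lit 5) (nat_lit 220) (nat_lit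 5) (nat_lit 377) (nat_lit 337) (nat_lit 306)) (XT.lf (nat_lit 0) (nat_lit 6724389500) (nat_lit 228) (nat_lit 4624159056) (nat_lit 304) (nat_lit 498060498) (nat_lit 212) (nat_lit 5) (nat_lit 215) (nat_lit 5) (nat_lit 216) (nat_lit 5) (nat_lit 378) (nat_lit 337) (nat_lit 305)))) (XT.nd (nat_lit 156) (nat_lit 760) (nat_lit 0) (XT.nd (nat_lit 78) (nat_lit 304) (nat_lit 0) (XT.lf (nat_lit 0) (nat_lit 6082227643) (nat_lit 380) (nat_lit 2914743388) (nat_lit 76) (nat_lit 3173773279) (nat_lit 207) (nat_lit 5) (nat_lit 212) (nat_lit 5) (nat_lit 208) (nat_lit 5) (nat_lit 379) (nat_lit 337) (nat_lit 304)) (XT.lf (nat_lit 0) (nat_lit 550461787) (nat_lit 304) (nat_lit 588576181) (nat_lit 76) (nat_lit 11369084369) (nat_lit 203) (nat_lit 5) (nat_lit 207) (nat_lit 5) (nat_lit 204) (nat_lit 5) (nat_lit 380) (nat_lit 337) (nat_lit 303))) (XT.nd (nat_lit 78) (nat_lit 304) (nat_lit 0) (XT.lf (nat_lit 0) (nat_lit 1824469278)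 (nat_lit 228) (nat_lit 5708094064) (nat_lit 304) (nat_lit 5323884633) (nat_lit 197) (nat_lit 5) (nat_lit 200) (nat_lit 5) (nat_lit 201) (nat_lit 5) (nat_lit 381) (nat_lit 337) (nat_lit 302)) (XT.lf (nat_lit 0) (nat_lit 1708903148) (nat_lit 304) (nat_lit 8834298321) (nat_lit 76) (nat_lit 2675534341) (nat_lit 193) (nat_lit 5) (nat_lit 197) (nat_lit 5) (nat_lit 194) (nat_lit 5) (nat_lit 382) (nat_lit 337) (nat_lit 301)))))) (XT.nd (nat_lit 546) (nat_lit 1520) (nat_lit 0) (XT.nd (nat_lit 234) (nat_lit 1064) (nat_lit 0) (XT.nd (nat_lit 78) (nat_lit 456) (nat_lit 0) (XT.lf (nat_lit 0) (nat_lit 7028213432) (nat_lit 228) (nat_lit 2075830151) (nat_lit 304) (nat_lit 4489888522) (nat_lit 190) (nat_lit 5) (nat_lit 193) (nat_lit 5) (nat_lit 194) (nat_lit 5) (nat_lit 383) (nat_lit 337) (nat_lit 300)) (XT.nd (nat_lit 78) (nat_lit 152) (nat_lit 0) (XT.lf (nat_lit 0) (nat_lit 2960781033) (nat_lit 304) (nat_lit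 4204417927) (nat_lit 76) (nat_lit 6817779984) (nat_lit 186) (nat_lit 5) (nat_lit 190) (nat_lit 5) (nat_lit 187) (nat_lit 5) (nat_lit 384) (nat_lit 337) (nat_lit 299)) (XT.lf (nat_lit 0) (nat_lit 10806673931) (nat_lit 228) (nat_lit 1733562758) (nat_lit 76) (nat_lit 1846441375) (nat_lit 184) (nat_lit 5) (nat_lit 187) (nat_lit 5) (nat_lit 185) (nat_lit 5) (nat_lit 385) (nat_lit 337) (nat_lit 298)))) (XT.nd (nat_lit 156) (nat_lit 380) (nat_lit 0) (XT.nd (nat_lit 78) (nat_lit 228) (nat_lit 0) (XT.lf (nat_lit 0) (nat_lit 840126017) (nat_lit 152) (nat_lit 3476246705) (nat_lit 228) (nat_lit 10488027345) (nat_lit 178) (nat_lit 5) (nat_lit 180) (nat_lit 5) (nat_lit 181) (nat_lit 5) (nat_lit 386) (nat_lit 337) (nat_lit 297)) (XT.lf (nat_lit 0) (nat_lit 3562445103) (nat_lit 228) (nat_lit 9138427705) (nat_lit 304) (nat_lit 2536051662) (nat_lit 175) (nat_lit 5) (nat_lit 178) (nat_lit 5) (nat_lit 179) (nat_lit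 5) (nat_lit 387) (nat_lit 337) (nat_lit 296))) (XT.nd (nat_lit 78) (nat_lit 152) (nat_lit 0) (XT.lf (nat_lit 0) (nat_lit 5838127915) (nat_lit 228) (nat_lit 9280536888) (nat_lit 76) (nat_lit 566592361) (nat_lit 172) (nat_lit 5) (nat_lit 175) (nat_lit 5) (nat_lit 173) (nat_lit 5) (nat_lit 388) (nat_lit 337) (nat_lit 295)) (XT.lf (nat_lit 0) (nat_lit 9353256486) (nat_lit 152) (nat_lit 5422551462) (nat_lit 228) (nat_lit 1373528035) (nat_lit 170) (nat_lit 5) (nat_lit 172) (nat_lit 5) (nat_lit 173) (nat_lit 5) (nat_lit 389) (nat_lit 337) (nat_lit 294))))) (XT.nd (nat_lit 234) (nat_lit 760) (nat_lit 0) (XT.nd (nat_lit 78) (nat_lit 532) (nat_lit 0) (XT.lf (nat_lit 0) (nat_lit 7536554943) (nat_lit 228) (nat_lit 4216382400) (nat_lit 76) (nat_lit 4876723193) (nat_lit 167) (nat_lit 5) (nat_lit 170) (nat_lit 5) (nat_lit 168) (nat_lit 5) (nat_lit 390) (nat_lit 337) (nat_lit 293)) (XT.nd (nat_lit 78) (nat_lit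 380) (nat_lit 0) (XT.lf (nat_lit 0) (nat_lit 15645992750) (nat_lit 152) (nat_lit 1391785655) (nat_lit 228) (nat_lit 90593645) (nat_lit 165) (nat_lit 5) (nat_lit 167) (nat_lit 5) (nat_lit 168) (nat_lit 5) (nat_lit 391) (nat_lit 337) (nat_lit 292)) (XT.lf (nat_lit 0) (nat_lit 1326829217) (nat_lit 152) (nat_lit 8085869502) (nat_lit 228) (nat_lit 8229620349) (nat_lit 160) (nat_lit 5) (nat_lit 162) (nat_lit 5) (nat_lit 163) (nat_lit 5) (nat_lit 392) (nat_lit 337) (nat_lit 291)))) (XT.nd (nat_lit 156) (nat_lit 380) (nat_lit 0) (XT.nd (nat_lit 78) (nat_lit 152) (nat_lit 0) (XT.lf (nat_lit 0) (nat_lit 1378215606) (nat_lit 228) (nat_lit 13825031667) (nat_lit 76) (nat_lit 2972508191) (nat_lit 157) (nat_lit 5) (nat_lit 160) (nat_lit 5) (nat_lit 158) (nat_lit 5) (nat_lit 393) (nat_lit 337) (nat_lit 290)) (XT.lf (nat_lit 0) (nat_lit 7460197936) (nat_lit 152) (nat_lit 4062636102) (nat_lit 228) (nat_lit 7203787445)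 (nat_lit 155) (nat_lit 5) (nat_lit 157) (nat_lit 5) (nat_lit 158) (nat_lit 5) (nat_lit 394) (nat_lit 337) (nat_lit 289))) (XT.nd (nat_lit 78) (nat_lit 152) (nat_lit 0) (XT.lf (nat_lit 0) (nat_lit 3040692278) (nat_lit 228) (nat_lit 8571519051) (nat_lit 76) (nat_lit 7685180820) (nat_lit 152) (nat_lit 5) (nat_lit 155) (nat_lit 5) (nat_lit 153) (nat_lit 5) (nat_lit 395) (nat_lit 337) (nat_lit 288)) (XT.lf (nat_lit 0) (nat_lit 13853076109) (nat_lit 228) (nat_lit 5743316716) (nat_lit 76) (nat_lit 292028819) (nat_lit 150) (nat_lit 5) (nat_lit 153) (nat_lit 5) (nat_lit 151) (nat_lit 4) (nat_lit 396) (nat_lit 337) (nat_lit 287))))))) (XT.nd (nat_lit 1014) (nat_lit 1900) (nat_lit 0) (XT.nd (nat_lit 468) (nat_lit 1216) (nat_lit 0) (XT.nd (nat_lit 234) (nat_lit 380) (nat_lit 0) (XT.nd (nat_lit 78) (nat_lit 456) (nat_lit 0) (XT.lf (nat_lit 0) (nat_lit 4893358525) (nat_lit 152) (nat_lit 2820419794) (nat_lit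 76) (nat_lit 12785231592) (nat_lit 148) (nat_lit 5) (nat_lit 150) (nat_lit 5) (nat_lit 149) (nat_lit 5) (nat_lit 397) (nat_lit 337) (nat_lit 286)) (XT.nd (nat_lit 78) (nat_lit 228) (nat_lit 0) (XT.lf (nat_lit 0) (nat_lit 267018439) (nat_lit 76) (nat_lit 16204776815) (nat_lit 152) (nat_lit 4659696132) (nat_lit 145) (nat_lit 5) (nat_lit 146) (nat_lit 5) (nat_lit 147) (nat_lit 4) (nat_lit 398) (nat_lit 337) (nat_lit 285)) (XT.lf (nat_lit 0) (nat_lit 3547055676) (nat_lit 152) (nat_lit 3447514872) (nat_lit 228) (nat_lit 14790224907) (nat_lit 142) (nat_lit 5) (nat_lit 144) (nat_lit 5) (nat_lit 145) (nat_lit 5) (nat_lit 399) (nat_lit 337) (nat_lit 284)))) (XT.nd (nat_lit 78) (nat_lit 304) (nat_lit 0) (XT.lf (nat_lit 0) (nat_lit 6975908616) (nat_lit 76) (nat_lit 12451509114) (nat_lit 152) (nat_lit 3033195824) (nat_lit 141) (nat_lit 5) (nat_lit 142) (nat_lit 5) (nat_lit 143) (nat_lit 4) (nat_lit 400) (nat_lit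 337) (nat_lit 283)) (XT.nd (nat_lit 78) (nat_lit 76) (nat_lit 0) (XT.lf (nat_lit 0) (nat_lit 9381343788) (nat_lit 228) (nat_lit 12588124800) (nat_lit 76) (nat_lit 1190527775) (nat_lit 138) (nat_lit 5) (nat_lit 141) (nat_lit 5) (nat_lit 139) (nat_lit 4) (nat_lit 401) (nat_lit 337) (nat_lit 282)) (XT.lf (nat_lit 0) (nat_lit 14326636729) (nat_lit 76) (nat_lit 8367627896) (nat_lit 152) (nat_lit 1188971176) (nat_lit 137) (nat_lit 5) (nat_lit 138) (nat_lit 5) (nat_lit 139) (nat_lit 4) (nat_lit 402) (nat_lit 337) (nat_lit 281))))) (XT.nd (nat_lit 234) (nat_lit 608) (nat_lit 0) (XT.nd (nat_lit 78) (nat_lit 380) (nat_lit 0) (XT.lf (nat_lit 0) (nat_lit 12079627374) (nat_lit 228) (nat_lit 6398674742) (nat_lit 76) (nat_lit 6152340282) (nat_lit 134) (nat_lit 5) (nat_lit 137) (nat_lit 5) (nat_lit 135) (nat_lit 4) (nat_lit 403) (nat_lit 337) (nat_lit 280)) (XT.nd (nat_lit 78) (nat_lit 228) (nat_lit 0) (XT.lf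 (nat_lit 0) (nat_lit 882098576) (nat_lit 152) (nat_lit 3032259200) (nat_lit 76) (nat_lit 21490905623) (nat_lit 132) (nat_lit 5) (nat_lit 134) (nat_lit 5) (nat_lit 133) (nat_lit 5) (nat_lit 404) (nat_lit 337) (nat_lit 279)) (XT.lf (nat_lit 0) (nat_lit 430890045) (nat_lit 76) (nat_lit 14660248228) (nat_lit 152) (nat_lit 11112833815) (nat_lit 129) (nat_lit 5) (nat_lit 130) (nat_lit 5) (nat_lit 131) (nat_lit 4) (nat_lit 405) (nat_lit 337) (nat_lit 278)))) (XT.nd (nat_lit 156) (nat_lit 304) (nat_lit 0) (XT.nd (nat_lit 78) (nat_lit 76) (nat_lit 0) (XT.lf (nat_lit 0) (nat_lit 3247857297) (nat_lit 228) (nat_lit 22814408671) (nat_lit 76) (nat_lit 969361527) (nat_lit 126) (nat_lit 5) (nat_lit 129) (nat_lit 5) (nat_lit 127) (nat_lit 4) (nat_lit 406) (nat_lit 337) (nat_lit 277)) (XT.lf (nat_lit 0) (nat_lit 8097317944) (nat_lit 76) (nat_lit 10417010359) (nat_lit 152) (nat_lit 9370509253) (nat_lit 125) (nat_lit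 5) (nat_lit 126) (nat_lit 5) (nat_lit 127) (nat_lit 4) (nat_lit 407) (nat_lit 337) (nat_lit 276))) (XT.nd (nat_lit 78) (nat_lit 76) (nat_lit 0) (XT.lf (nat_lit 0) (nat_lit 5990707206) (nat_lit 228) (nat_lit 16540035397) (nat_lit 76) (nat_lit 6238110750) (nat_lit 122) (nat_lit 5) (nat_lit 125) (nat_lit 5) (nat_lit 123) (nat_lit 4) (nat_lit 408) (nat_lit 337) (nat_lit 275)) (XT.lf (nat_lit 0) (nat_lit 16544248772) (nat_lit 76) (nat_lit 5778496346) (nat_lit 152) (nat_lit 7359644787) (nat_lit 121) (nat_lit 5) (nat_lit 122) (nat_lit 5) (nat_lit 123) (nat_lit 4) (nat_lit 409) (nat_lit 337) (nat_lit 274)))))) (XT.nd (nat_lit 546) (nat_lit 912) (nat_lit 0) (XT.nd (nat_lit 234) (nat_lit 532) (nat_lit 0) (XT.nd (nat_lit 78) (nat_lit 228) (nat_lit 0) (XT.lf (nat_lit 0) (nat_lit 9076787313) (nat_lit 228) (nat_lit 9571553840) (nat_lit 76) (nat_lit 11978136620) (nat_lit 118) (nat_lit 5) (nat_lit 121) (nat_lit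 5) (nat_lit 119) (nat_lit 4) (nat_lit 410) (nat_lit 337) (nat_lit 273)) (XT.nd (nat_lit 78) (nat_lit 152) (nat_lit 0) (XT.lf (nat_lit 0) (nat_lit 25848862980) (nat_lit 76) (nat_lit 706664188) (nat_lit 152) (nat_lit 5048875985) (nat_lit 117) (nat_lit 5) (nat_lit 118) (nat_lit 5) (nat_lit 119) (nat_lit 4) (nat_lit 411) (nat_lit 337) (nat_lit 272)) (XT.lf (nat_lit 0) (nat_lit 12542605492) (nat_lit 152) (nat_lit 1836915952) (nat_lit 76) (nat_lit 18233007113) (nat_lit 115) (nat_lit 5) (nat_lit 117) (nat_lit 5) (nat_lit 116) (nat_lit 4) (nat_lit 412) (nat_lit 337) (nat_lit 271)))) (XT.nd (nat_lit 156) (nat_lit 228) (nat_lit 0) (XT.nd (nat_lit 78) (nat_lit 152) (nat_lit 0) (XT.lf (nat_lit 0) (nat_lit 2436857111) (nat_lit 76) (nat_lit 28888028114) (nat_lit 76) (nat_lit 2332206058) (nat_lit 113) (nat_lit 4) (nat_lit 114) (nat_lit 5) (nat_lit 114) (nat_lit 4) (nat_lit 413) (nat_lit 337) (nat_lit 270)) (XT.lf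 (nat_lit 0) (nat_lit 6876460341) (nat_lit 76) (nat_lit 9617282397) (nat_lit 152) (nat_lit 18239862956) (nat_lit 111) (nat_lit 5) (nat_lit 112) (nat_lit 5) (nat_lit 113) (nat_lit 4) (nat_lit 414) (nat_lit 337) (nat_lit 269))) (XT.nd (nat_lit 78) (nat_lit 76) (nat_lit 0) (XT.lf (nat_lit 0) (nat_lit 817958765) (nat_lit 152) (nat_lit 24216700111) (nat_lit 76) (nat_lit 10814235130) (nat_lit 109) (nat_lit 5) (nat_lit 111) (nat_lit 5) (nat_lit 110) (nat_lit 4) (nat_lit 415) (nat_lit 337) (nat_lit 268)) (XT.lf (nat_lit 0) (nat_lit 16574709506) (nat_lit 76) (nat_lit 4359236305) (nat_lit 152) (nat_lit 16066108063) (nat_lit 108) (nat_lit 5) (nat_lit 109) (nat_lit 5) (nat_lit 110) (nat_lit 4) (nat_lit 416) (nat_lit 337) (nat_lit 267))))) (XT.nd (nat_lit 234) (nat_lit 532) (nat_lit 0) (XT.nd (nat_lit 78) (nat_lit 228) (nat_lit 0) (XT.lf (nat_lit 0) (nat_lit 4340280122) (nat_lit 152) (nat_lit 16396170420) (nat_lit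 76) (nat_lit 17454160183) (nat_lit 106) (nat_lit 5) (nat_lit 108) (nat_lit 5) (nat_lit 107) (nat_lit 4) (nat_lit 417) (nat_lit 337) (nat_lit 266)) (XT.nd (nat_lit 78) (nat_lit 152) (nat_lit 0) (XT.lf (nat_lit 0) (nat_lit 25906050981) (nat_lit 152) (nat_lit 12120093705) (nat_lit 0) (nat_lit 1395638571) (nat_lit 105) (nat_lit 5) (nat_lit 107) (nat_lit 4) (nat_lit 105) (nat_lit 4) (nat_lit 418) (nat_lit 337) (nat_lit 265)) (XT.lf (nat_lit 0) (nat_lit 8324137077) (nat_lit 152) (nat_lit 7648277031) (nat_lit 76) (nat_lit 24720597436) (nat_lit 103) (nat_lit 5) (nat_lit 105) (nat_lit 5) (nat_lit 104) (nat_lit 4) (nat_lit 419) (nat_lit 337) (nat_lit 264)))) (XT.nd (nat_lit 156) (nat_lit 228) (nat_lit 0) (XT.nd (nat_lit 78) (nat_lit 228) (nat_lit 0) (XT.lf (nat_lit 0) (nat_lit 31494899517) (nat_lit 152) (nat_lit 2882930428) (nat_lit 0) (nat_lit 7630403955) (nat_lit 102) (nat_lit 5) (nat_lit 104) (nat_lit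 4) (nat_lit 102) (nat_lit 4) (nat_lit 420) (nat_lit 337) (nat_lit 263)) (XT.lf (nat_lit 0) (nat_lit 2164929944) (nat_lit 76) (nat_lit 10673004422) (nat_lit 152) (nat_lit 30528328940) (nat_lit 99) (nat_lit 5) (nat_lit 100) (nat_lit 5) (nat_lit 101) (nat_lit 4) (nat_lit 421) (nat_lit 337) (nat_lit 262))) (XT.nd (nat_lit 78) (nat_lit 152) (nat_lit 0) (XT.lf (nat_lit 0) (nat_lit 7575667577) (nat_lit 76) (nat_lit 30211620580) (nat_lit 76) (nat_lit 6982344648) (nat_lit 98) (nat_lit 4) (nat_lit 99) (nat_lit 5) (nat_lit 99) (nat_lit 4) (nat_lit 422) (nat_lit 337) (nat_lit 261)) (XT.lf (nat_lit 0) (nat_lit 13279947697) (nat_lit 76) (nat_lit 4718591434) (nat_lit 152) (nat_lit 28221401848) (nat_lit 96) (nat_lit 5) (nat_lit 97) (nat_lit 5) (nat_lit 98) (nat_lit 4) (nat_lit 423) (nat_lit 337) (nat_lit 260))))))))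
noncomputable def xc43 : XT := (XT.nd (nat_lit 47658) (nat_lit 0) (nat_lit 10336) (XT.nd (nat_lit 1014) (nat_lit 532) (nat_lit 0) (XT.nd (nat_lit 468) (nat_lit 912) (nat_lit 0) (XT.nd (nat_lit 234) (nat_lit 304) (nat_lit 0) (XT.nd (nat_lit 78) (nat_lit 304) (nat_lit 0) (XT.lf (nat_lit 0) (nat_lit 19297288083) (nat_lit 76) (nat_lit 25513505722) (nat_lit 76) (nat_lit 2908094824) (nat_lit 95) (nat_lit 4) (nat_lit 96) (nat_lit 5) (nat_lit 96) (nat_lit 4) (nat_lit 424) (nat_lit 337) (nat_lit 259)) (XT.nd (nat_lit 78) (nat_lit 152) (nat_lit 0) (XT.lf (nat_lit 0) (nat_lit 23806114577) (nat_lit 152) (nat_lit 23626592169) (nat_lit 0) (nat_lit 1835336514) (nat_lit 93) (nat_lit 5) (nat_lit 95) (nat_lit 4) (nat_lit 93) (nat_lit 4) (nat_lit 425) (nat_lit 337) (nat_lit 258)) (XT.lf (nat_lit 0) (nat_lit 1700519755) (nat_lit 152) (nat_lit 18541367904) (nat_lit 76) (nat_lit 30627163301) (nat_lit 91) (nat_lit 5)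 (nat_lit 93) (nat_lit 5) (nat_lit 92) (nat_lit 4) (nat_lit 426) (nat_lit 337) (nat_lit 257)))) (XT.nd (nat_lit 78) (nat_lit 228) (nat_lit 0) (XT.lf (nat_lit 0) (nat_lit 30356772639) (nat_lit 152) (nat_lit 13182908938) (nat_lit 0) (nat_lit 8982996306) (nat_lit 90) (nat_lit 5) (nat_lit 92) (nat_lit 4) (nat_lit 90) (nat_lit 4) (nat_lit 427) (nat_lit 337) (nat_lit 256)) (XT.nd (nat_lit 78) (nat_lit 76) (nat_lit 0) (XT.lf (nat_lit 0) (nat_lit 6867134821) (nat_lit 152) (nat_lit 7453434035) (nat_lit 76) (nat_lit 39912602824) (nat_lit 88) (nat_lit 5) (nat_lit 90) (nat_lit 5) (nat_lit 89) (nat_lit 4) (nat_lit 428) (nat_lit 337) (nat_lit 255)) (XT.lf (nat_lit 0) (nat_lit 37673124897) (nat_lit 152) (nat_lit 1442003126) (nat_lit 0) (nat_lit 16884086525) (nat_lit 87) (nat_lit 5) (nat_lit 89) (nat_lit 4) (nat_lit 87) (nat_lit 4) (nat_lit 429) (nat_lit 337) (nat_lit 254))))) (XT.nd (nat_lit 234) (nat_lit 456)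 (nat_lit 0) (XT.nd (nat_lit 78) (nat_lit 228) (nat_lit 0) (XT.lf (nat_lit 0) (nat_lit 5096471594) (nat_lit 76) (nat_lit 7663661695) (nat_lit 152) (nat_lit 45064967560) (nat_lit 84) (nat_lit 5) (nat_lit 85) (nat_lit 5) (nat_lit 86) (nat_lit 4) (nat_lit 430) (nat_lit 337) (nat_lit 253)) (XT.nd (nat_lit 78) (nat_lit 152) (nat_lit 0) (XT.lf (nat_lit 0) (nat_lit 11961828465) (nat_lit 76) (nat_lit 33982080411) (nat_lit 76) (nat_lit 13765261601) (nat_lit 83) (nat_lit 4) (nat_lit 84) (nat_lit 5) (nat_lit 84) (nat_lit 4) (nat_lit 431) (nat_lit 337) (nat_lit 252)) (XT.lf (nat_lit 0) (nat_lit 19325105321) (nat_lit 76) (nat_lit 161292807) (nat_lit 152) (nat_lit 42172747582) (nat_lit 81) (nat_lit 5) (nat_lit 82) (nat_lit 5) (nat_lit 83) (nat_lit 4) (nat_lit 432) (nat_lit 337) (nat_lit 251)))) (XT.nd (nat_lit 156) (nat_lit 228) (nat_lit 0) (XT.nd (nat_lit 78) (nat_lit 152) (nat_lit 0) (XT.lf (nat_lit 0) (nat_lit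 26999052362) (nat_lit 76) (nat_lit 28164668727) (nat_lit 76) (nat_lit 8507376916) (nat_lit 80) (nat_lit 4) (nat_lit 81) (nat_lit 5) (nat_lit 81) (nat_lit 4) (nat_lit 433) (nat_lit 337) (nat_lit 250)) (XT.lf (nat_lit 0) (nat_lit 27127037264) (nat_lit 152) (nat_lit 30595517133) (nat_lit 0) (nat_lit 8029066737) (nat_lit 78) (nat_lit 5) (nat_lit 80) (nat_lit 4) (nat_lit 78) (nat_lit 4) (nat_lit 434) (nat_lit 337) (nat_lit 249))) (XT.nd (nat_lit 78) (nat_lit 152) (nat_lit 0) (XT.lf (nat_lit 0) (nat_lit 43800500535) (nat_lit 76) (nat_lit 21606259539) (nat_lit 76) (nat_lit 2495697397) (nat_lit 77) (nat_lit 4) (nat_lit 78) (nat_lit 5) (nat_lit 78) (nat_lit 4) (nat_lit 435) (nat_lit 337) (nat_lit 248)) (XT.lf (nat_lit 0) (nat_lit 35695836657) (nat_lit 152) (nat_lit 17296096104) (nat_lit 0) (nat_lit 17130250096) (nat_lit 75) (nat_lit 5) (nat_lit 77) (nat_lit 4) (nat_lit 75) (nat_lit 4) (nat_lit 436) (nat_lit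 337) (nat_lit 247)))))) (XT.nd (nat_lit 46098) (nat_lit 0) (nat_lit 27588) (XT.nd (nat_lit 234) (nat_lit 76) (nat_lit 0) (XT.nd (nat_lit 78) (nat_lit 304) (nat_lit 0) (XT.lf (nat_lit 0) (nat_lit 4262556203) (nat_lit 152) (nat_lit 9923685783) (nat_lit 76) (nat_lit 58233952388) (nat_lit 73) (nat_lit 5) (nat_lit 75) (nat_lit 5) (nat_lit 74) (nat_lit 4) (nat_lit 437) (nat_lit 337) (nat_lit 246)) (XT.nd (nat_lit 78) (nat_lit 228) (nat_lit 0) (XT.lf (nat_lit 0) (nat_lit 45281189863) (nat_lit 152) (nat_lit 2273142218) (nat_lit 0) (nat_lit 27235330466) (nat_lit 72) (nat_lit 5) (nat_lit 74) (nat_lit 4) (nat_lit 72) (nat_lit 4) (nat_lit 438) (nat_lit 337) (nat_lit 245)) (XT.lf (nat_lit 0) (nat_lit 6160909180) (nat_lit 76) (nat_lit 5768417456) (nat_lit 152) (nat_lit 65312916657) (nat_lit 69) (nat_lit 5) (nat_lit 70) (nat_lit 5) (nat_lit 71) (nat_lit 4) (nat_lit 439) (nat_lit 337) (nat_lit 244)))) (XT.nd (nat_lit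 45708) (nat_lit 0) (nat_lit 32756) (XT.nd (nat_lit 45630) (nat_lit 0) (nat_lit 33592) (XT.lf (nat_lit 0) (nat_lit 14940198981) (nat_lit 76) (nat_lit 41184190094) (nat_lit 76) (nat_lit 23645429499) (nat_lit 68) (nat_lit 4) (nat_lit 69) (nat_lit 5) (nat_lit 69) (nat_lit 4) (nat_lit 440) (nat_lit 337) (nat_lit 243)) (XT.lf (nat_lit 0) (nat_lit 1760455882) (nat_lit 228) (nat_lit 741745387) (nat_lit 228) (nat_lit 741745387) (nat_lit 510) (nat_lit 4) (nat_lit 513) (nat_lit 5) (nat_lit 513) (nat_lit 4) (nat_lit 344) (nat_lit 338) (nat_lit 338))) (XT.nd (nat_lit 78) (nat_lit 456) (nat_lit 0) (XT.lf (nat_lit 0) (nat_lit 3242645104) (nat_lit 304) (nat_lit 572753647) (nat_lit 380) (nat_lit 2699357061) (nat_lit 505) (nat_lit 5) (nat_lit 509) (nat_lit 5) (nat_lit 510) (nat_lit 4) (nat_lit 345) (nat_lit 338) (nat_lit 337)) (XT.lf (nat_lit 0) (nat_lit 2499503979) (nat_lit 456) (nat_lit 3460782181) (nat_lit 76)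 (nat_lit 588978575) (nat_lit 499) (nat_lit 5) (nat_lit 505) (nat_lit 5) (nat_lit 500) (nat_lit 4) (nat_lit 346) (nat_lit 338) (nat_lit 336))))) (XT.nd (nat_lit 234) (nat_lit 3420) (nat_lit 0) (XT.nd (nat_lit 78) (nat_lit 1216) (nat_lit 0) (XT.lf (nat_lit 0) (nat_lit 1055500789) (nat_lit 532) (nat_lit 3535389287) (nat_lit 76) (nat_lit 2000524270) (nat_lit 492) (nat_lit 5) (nat_lit 499) (nat_lit 5) (nat_lit 493) (nat_lit 5) (nat_lit 347) (nat_lit 338) (nat_lit 335)) (XT.nd (nat_lit 78) (nat_lit 684) (nat_lit 0) (XT.lf (nat_lit 0) (nat_lit 3145940474) (nat_lit 532) (nat_lit 2958906195) (nat_lit 608) (nat_lit 536444576) (nat_lit 485) (nat_lit 5) (nat_lit 492) (nat_lit 5) (nat_lit 493) (nat_lit 5) (nat_lit 348) (nat_lit 338) (nat_lit 334)) (XT.lf (nat_lit 0) (nat_lit 3352145080) (nat_lit 608) (nat_lit 1052698794) (nat_lit 684) (nat_lit 2293944580) (nat_lit 476) (nat_lit 5) (nat_lit 484) (nat_lit 5)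 (nat_lit 485) (nat_lit 5) (nat_lit 349) (nat_lit 338) (nat_lit 333)))) (XT.nd (nat_lit 156) (nat_lit 1824) (nat_lit 0) (XT.nd (nat_lit 78) (nat_lit 836) (nat_lit 0) (XT.lf (nat_lit 0) (nat_lit 2574372849) (nat_lit 760) (nat_lit 3088777129) (nat_lit 76) (nat_lit 1100846264) (nat_lit 466) (nat_lit 5) (nat_lit 476) (nat_lit 5) (nat_lit 467) (nat_lit 5) (nat_lit 350) (nat_lit 338) (nat_lit 332)) (XT.lf (nat_lit 0) (nat_lit 610363229) (nat_lit 836) (nat_lit 2722417472) (nat_lit 76) (nat_lit 3504192835) (nat_lit 455) (nat_lit 5) (nat_lit 466) (nat_lit 5) (nat_lit 456) (nat_lit 5) (nat_lit 351) (nat_lit 338) (nat_lit 331))) (XT.nd (nat_lit 78) (nat_lit 988) (nat_lit 0) (XT.lf (nat_lit 0) (nat_lit 4667159895) (nat_lit 836) (nat_lit 717951073) (nat_lit 912) (nat_lit 1532601995) (nat_lit 444) (nat_lit 5) (nat_lit 455) (nat_lit 5) (nat_lit 456) (nat_lit 5) (nat_lit 352) (nat_lit 338) (nat_lit 330)) (XT.lf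 (nat_lit 0) (nat_lit 3181895371) (nat_lit 988) (nat_lit 1684919317) (nat_lit 76) (nat_lit 2139133542) (nat_lit 431) (nat_lit 5) (nat_lit 444) (nat_lit 5) (nat_lit 432) (nat_lit 5) (nat_lit 353) (nat_lit 338) (nat_lit 329))))))) (XT.nd (nat_lit 1014) (nat_lit 6080) (nat_lit 0) (XT.nd (nat_lit 468) (nat_lit 4408) (nat_lit 0) (XT.nd (nat_lit 234) (nat_lit 2204) (nat_lit 0) (XT.nd (nat_lit 78) (nat_lit 3496) (nat_lit 0) (XT.lf (nat_lit 0) (nat_lit 832506679) (nat_lit 1064) (nat_lit 1005889213) (nat_lit 76) (nat_lit 5263961591) (nat_lit 417) (nat_lit 5) (nat_lit 431) (nat_lit 5) (nat_lit 418) (nat_lit 5) (nat_lit 354) (nat_lit 338) (nat_lit 328)) (XT.nd (nat_lit 78) (nat_lit 2432) (nat_lit 0) (XT.lf (nat_lit 0) (nat_lit 5511277093) (nat_lit 1140) (nat_lit 234678584) (nat_lit 76) (nat_lit 1460441560) (nat_lit 403) (nat_lit 5) (nat_lit 418) (nat_lit 5) (nat_lit 404) (nat_lit 5) (nat_lit 355) (nat_lit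 338) (nat_lit 327)) (XT.lf (nat_lit 0) (nat_lit 644703455) (nat_lit 1216) (nat_lit 2291721194) (nat_lit 1292) (nat_lit 4381655969) (nat_lit 371) (nat_lit 5) (nat_lit 387) (nat_lit 5) (nat_lit 388) (nat_lit 5) (nat_lit 356) (nat_lit 338) (nat_lit 326)))) (XT.nd (nat_lit 78) (nat_lit 1292) (nat_lit 0) (XT.lf (nat_lit 0) (nat_lit 213412567) (nat_lit 912) (nat_lit 5796460912) (nat_lit 76) (nat_lit 1428170103) (nat_lit 359) (nat_lit 5) (nat_lit 371) (nat_lit 5) (nat_lit 360) (nat_lit 5) (nat_lit 357) (nat_lit 338) (nat_lit 325)) (XT.nd (nat_lit 78) (nat_lit 684) (nat_lit 0) (XT.lf (nat_lit 0) (nat_lit 2716926558) (nat_lit 608) (nat_lit 2138834705) (nat_lit 684) (nat_lit 2709697566) (nat_lit 351) (nat_lit 5) (nat_lit 359) (nat_lit 5) (nat_lit 360) (nat_lit 5) (nat_lit 358) (nat_lit 338) (nat_lit 324)) (XT.lf (nat_lit 0) (nat_lit 1903565831) (nat_lit 684) (nat_lit 3801106879) (nat_lit 76) (nat_lit 1996619986)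 (nat_lit 342) (nat_lit 5) (nat_lit 351) (nat_lit 5) (nat_lit 343) (nat_lit 5) (nat_lit 359) (nat_lit 338) (nat_lit 323))))) (XT.nd (nat_lit 234) (nat_lit 2584) (nat_lit 0) (XT.nd (nat_lit 78) (nat_lit 1292) (nat_lit 0) (XT.lf (nat_lit 0) (nat_lit 5181594501) (nat_lit 532) (nat_lit 1434522811) (nat_lit 608) (nat_lit 1229256112) (nat_lit 335) (nat_lit 5) (nat_lit 342) (nat_lit 5) (nat_lit 343) (nat_lit 5) (nat_lit 360) (nat_lit 338) (nat_lit 322)) (XT.nd (nat_lit 78) (nat_lit 608) (nat_lit 0) (XT.lf (nat_lit 0) (nat_lit 3439097175) (nat_lit 684) (nat_lit 1450695011) (nat_lit 76) (nat_lit 3107604882) (nat_lit 326) (nat_lit 5) (nat_lit 335) (nat_lit 5) (nat_lit 327) (nat_lit 5) (nat_lit 361) (nat_lit 338) (nat_lit 321)) (XT.lf (nat_lit 0) (nat_lit 89493595) (nat_lit 608) (nat_lit 124911640) (nat_lit 76) (nat_lit 7944191630) (nat_lit 318) (nat_lit 5) (nat_lit 326) (nat_lit 5) (nat_lit 319) (nat_lit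 5) (nat_lit 362) (nat_lit 338) (nat_lit 320)))) (XT.nd (nat_lit 156) (nat_lit 988) (nat_lit 0) (XT.nd (nat_lit 78) (nat_lit 608) (nat_lit 0) (XT.lf (nat_lit 0) (nat_lit 1277088290) (nat_lit 456) (nat_lit 3585340092) (nat_lit 532) (nat_lit 3464463594) (nat_lit 305) (nat_lit 5) (nat_lit 311) (nat_lit 5) (nat_lit 312) (nat_lit 5) (nat_lit 363) (nat_lit 338) (nat_lit 319)) (XT.lf (nat_lit 0) (nat_lit 1297456584) (nat_lit 608) (nat_lit 5706848426) (nat_lit 76) (nat_lit 1500287931) (nat_lit 297) (nat_lit 5) (nat_lit 305) (nat_lit 5) (nat_lit 298) (nat_lit 5) (nat_lit 364) (nat_lit 338) (nat_lit 318))) (XT.nd (nat_lit 78) (nat_lit 532) (nat_lit 0) (XT.lf (nat_lit 0) (nat_lit 4395016657) (nat_lit 456) (nat_lit 1811683766) (nat_lit 532) (nat_lit 2484023141) (nat_lit 291) (nat_lit 5) (nat_lit 297) (nat_lit 5) (nat_lit 298) (nat_lit 5) (nat_lit 365) (nat_lit 338) (nat_lit 317)) (XT.lf (nat_lit 0) (nat_lit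 2414079749) (nat_lit 532) (nat_lit 2803026627) (nat_lit 76) (nat_lit 3668726485) (nat_lit 284) (nat_lit 5) (nat_lit 291) (nat_lit 5) (nat_lit 285) (nat_lit 5) (nat_lit 366) (nat_lit 338) (nat_lit 316)))))) (XT.nd (nat_lit 546) (nat_lit 2736) (nat_lit 0) (XT.nd (nat_lit 234) (nat_lit 1672) (nat_lit 0) (XT.nd (nat_lit 78) (nat_lit 1292) (nat_lit 0) (XT.lf (nat_lit 0) (nat_lit 7487251625) (nat_lit 456) (nat_lit 1214169979) (nat_lit 76) (nat_lit 389092075) (nat_lit 279) (nat_lit 5) (nat_lit 285) (nat_lit 5) (nat_lit 280) (nat_lit 5) (nat_lit 367) (nat_lit 338) (nat_lit 315)) (XT.nd (nat_lit 78) (nat_lit 380) (nat_lit 0) (XT.lf (nat_lit 0) (nat_lit 442813469) (nat_lit 380) (nat_lit 3021373001) (nat_lit 456) (nat_lit 5839510265) (nat_lit 267) (nat_lit 5) (nat_lit 272) (nat_lit 5) (nat_lit 273) (nat_lit 5) (nat_lit 368) (nat_lit 338) (nat_lit 314)) (XT.lf (nat_lit 0) (nat_lit 2229283744) (nat_lit 380)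 (nat_lit 6537977247) (nat_lit 456) (nat_lit 759339391) (nat_lit 262) (nat_lit 5) (nat_lit 267) (nat_lit 5) (nat_lit 268) (nat_lit 5) (nat_lit 369) (nat_lit 338) (nat_lit 313)))) (XT.nd (nat_lit 156) (nat_lit 760) (nat_lit 0) (XT.nd (nat_lit 78) (nat_lit 456) (nat_lit 0) (XT.lf (nat_lit 0) (nat_lit 4095116287) (nat_lit 380) (nat_lit 401582394) (nat_lit 456) (nat_lit 5262297340) (nat_lit 256) (nat_lit 5) (nat_lit 261) (nat_lit 5) (nat_lit 262) (nat_lit 5) (nat_lit 370) (nat_lit 338) (nat_lit 312)) (XT.lf (nat_lit 0) (nat_lit 43625608) (nat_lit 456) (nat_lit 3949707938) (nat_lit 76) (nat_lit 6008057612) (nat_lit 250) (nat_lit 5) (nat_lit 256) (nat_lit 5) (nat_lit 251) (nat_lit 5) (nat_lit 371) (nat_lit 338) (nat_lit 311))) (XT.nd (nat_lit 78) (nat_lit 456) (nat_lit 0) (XT.lf (nat_lit 0) (nat_lit 5530423299) (nat_lit 380) (nat_lit 2166898518) (nat_lit 76) (nat_lit 2556288848) (nat_lit 246) (nat_lit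 5) (nat_lit 251) (nat_lit 5) (nat_lit 247) (nat_lit 5) (nat_lit 372) (nat_lit 338) (nat_lit 310)) (XT.lf (nat_lit 0) (nat_lit 800008502) (nat_lit 456) (nat_lit 278443874) (nat_lit 76) (nat_lit 9438506566) (nat_lit 240) (nat_lit 5) (nat_lit 246) (nat_lit 5) (nat_lit 241) (nat_lit 5) (nat_lit 373) (nat_lit 338) (nat_lit 309))))) (XT.nd (nat_lit 234) (nat_lit 1444) (nat_lit 0) (XT.nd (nat_lit 78) (nat_lit 684) (nat_lit 0) (XT.lf (nat_lit 0) (nat_lit 1696776016) (nat_lit 304) (nat_lit 4887705321) (nat_lit 380) (nat_lit 4205106371) (nat_lit 232) (nat_lit 5) (nat_lit 236) (nat_lit 5) (nat_lit 237) (nat_lit 5) (nat_lit 374) (nat_lit 338) (nat_lit 308)) (XT.nd (nat_lit 78) (nat_lit 304) (nat_lit 0) (XT.lf (nat_lit 0) (nat_lit 1601489856) (nat_lit 380) (nat_lit 7280022033) (nat_lit 76) (nat_lit 2192378607) (nat_lit 227) (nat_lit 5) (nat_lit 232) (nat_lit 5) (nat_lit 228) (nat_lit 5) (nat_lit 375) (nat_lit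 338) (nat_lit 307)) (XT.lf (nat_lit 0) (nat_lit 5967699332) (nat_lit 304) (nat_lit 1715379939) (nat_lit 380) (nat_lit 3685931167) (nat_lit 223) (nat_lit 5) (nat_lit 227) (nat_lit 5) (nat_lit 228) (nat_lit 5) (nat_lit 376) (nat_lit 338) (nat_lit 306)))) (XT.nd (nat_lit 156) (nat_lit 836) (nat_lit 0) (XT.nd (nat_lit 78) (nat_lit 304) (nat_lit 0) (XT.lf (nat_lit 0) (nat_lit 2428233925) (nat_lit 304) (nat_lit 3440970482) (nat_lit 76) (nat_lit 5806442578) (nat_lit 219) (nat_lit 5) (nat_lit 223) (nat_lit 5) (nat_lit 220) (nat_lit 5) (nat_lit 377) (nat_lit 338) (nat_lit 305)) (XT.lf (nat_lit 0) (nat_lit 8841741111) (nat_lit 380) (nat_lit 1386043187) (nat_lit 76) (nat_lit 1766640293) (nat_lit 215) (nat_lit 5) (nat_lit 220) (nat_lit 5) (nat_lit 216) (nat_lit 5) (nat_lit 378) (nat_lit 338) (nat_lit 304))) (XT.nd (nat_lit 78) (nat_lit 228) (nat_lit 0) (XT.lf (nat_lit 0) (nat_lit 764022718) (nat_lit 304) (nat_lit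 2528371541) (nat_lit 380) (nat_lit 9032541473) (nat_lit 207) (nat_lit 5) (nat_lit 211) (nat_lit 5) (nat_lit 212) (nat_lit 5) (nat_lit 379) (nat_lit 338) (nat_lit 303)) (XT.lf (nat_lit 0) (nat_lit 3034019904) (nat_lit 228) (nat_lit 7077457484) (nat_lit 304) (nat_lit 2556049987) (nat_lit 204) (nat_lit 5) (nat_lit 207) (nat_lit 5) (nat_lit 208) (nat_lit 5) (nat_lit 380) (nat_lit 338) (nat_lit 302))))))))
noncomputable def xc44 : XT := (XT.nd (nat_lit 2106) (nat_lit 3496) (nat_lit 0) (XT.nd (nat_lit 1014) (nat_lit 2584) (nat_lit 0) (XT.nd (nat_lit 468) (nat_lit 1596) (nat_lit 0) (XT.nd (nat_lit 234) (nat_lit 912) (nat_lit 0) (XT.nd (nat_lit 78) (nat_lit 532) (nat_lit 0) (XT.lf (nat_lit 0) (nat_lit 4253184273) (nat_lit 304) (nat_lit 7612983835) (nat_lit 76) (nat_lit 1157104365) (nat_lit 200) (nat_lit 5) (nat_lit 204) (nat_lit 5) (nat_lit 201) (nat_lit 5) (nat_lit 381) (nat_lit 338) (nat_lit 301)) (XT.nd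 (nat_lit 78) (nat_lit 304) (nat_lit 0) (XT.lf (nat_lit 0) (nat_lit 7879180256) (nat_lit 228) (nat_lit 3604302460) (nat_lit 304) (nat_lit 1908558920) (nat_lit 197) (nat_lit 5) (nat_lit 200) (nat_lit 5) (nat_lit 201) (nat_lit 5) (nat_lit 382) (nat_lit 338) (nat_lit 300)) (XT.lf (nat_lit 0) (nat_lit 5311255684) (nat_lit 304) (nat_lit 3331627585) (nat_lit 76) (nat_lit 5131282111) (nat_lit 193) (nat_lit 5) (nat_lit 197) (nat_lit 5) (nat_lit 194) (nat_lit 5) (nat_lit 383) (nat_lit 338) (nat_lit 299)))) (XT.nd (nat_lit 78) (nat_lit 684) (nat_lit 0) (XT.lf (nat_lit 0) (nat_lit 12966005419) (nat_lit 304) (nat_lit 1019686338) (nat_lit 76) (nat_lit 185734164) (nat_lit 190) (nat_lit 5) (nat_lit 194) (nat_lit 5) (nat_lit 191) (nat_lit 5) (nat_lit 384) (nat_lit 338) (nat_lit 298)) (XT.nd (nat_lit 78) (nat_lit 228) (nat_lit 0) (XT.lf (nat_lit 0) (nat_lit 1364275379) (nat_lit 152) (nat_lit 5109662168) (nat_lit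 228) (nat_lit 8107236821) (nat_lit 184) (nat_lit 5) (nat_lit 186) (nat_lit 5) (nat_lit 187) (nat_lit 5) (nat_lit 385) (nat_lit 338) (nat_lit 297)) (XT.lf (nat_lit 0) (nat_lit 3918503899) (nat_lit 228) (nat_lit 10734770450) (nat_lit 304) (nat_lit 353549617) (nat_lit 181) (nat_lit 5) (nat_lit 184) (nat_lit 5) (nat_lit 185) (nat_lit 5) (nat_lit 386) (nat_lit 338) (nat_lit 296))))) (XT.nd (nat_lit 234) (nat_lit 912) (nat_lit 0) (XT.nd (nat_lit 78) (nat_lit 456) (nat_lit 0) (XT.lf (nat_lit 0) (nat_lit 6556461318) (nat_lit 152) (nat_lit 1227441088) (nat_lit 228) (nat_lit 7663166332) (nat_lit 178) (nat_lit 5) (nat_lit 180) (nat_lit 5) (nat_lit 181) (nat_lit 5) (nat_lit 387) (nat_lit 338) (nat_lit 295)) (XT.nd (nat_lit 78) (nat_lit 152) (nat_lit 0) (XT.lf (nat_lit 0) (nat_lit 593242129) (nat_lit 304) (nat_lit 6585027402) (nat_lit 76) (nat_lit 8725145038) (nat_lit 174) (nat_lit 5) (nat_lit 178) (nat_lit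 5) (nat_lit 175) (nat_lit 5) (nat_lit 388) (nat_lit 338) (nat_lit 294)) (XT.lf (nat_lit 0) (nat_lit 9257214315) (nat_lit 228) (nat_lit 4188634353) (nat_lit 76) (nat_lit 2929855954) (nat_lit 172) (nat_lit 5) (nat_lit 175) (nat_lit 5) (nat_lit 173) (nat_lit 5) (nat_lit 389) (nat_lit 338) (nat_lit 293)))) (XT.nd (nat_lit 156) (nat_lit 380) (nat_lit 0) (XT.nd (nat_lit 78) (nat_lit 304) (nat_lit 0) (XT.lf (nat_lit 0) (nat_lit 1646082341) (nat_lit 228) (nat_lit 1664447472) (nat_lit 76) (nat_lit 13554884544) (nat_lit 169) (nat_lit 5) (nat_lit 172) (nat_lit 5) (nat_lit 170) (nat_lit 5) (nat_lit 390) (nat_lit 338) (nat_lit 292)) (XT.lf (nat_lit 0) (nat_lit 959156245) (nat_lit 152) (nat_lit 9951279868) (nat_lit 228) (nat_lit 6460795848) (nat_lit 165) (nat_lit 5) (nat_lit 167) (nat_lit 5) (nat_lit 168) (nat_lit 5) (nat_lit 391) (nat_lit 338) (nat_lit 291))) (XT.nd (nat_lit 78) (nat_lit 152) (nat_lit 0) (XT.lf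 (nat_lit 0) (nat_lit 2876382796) (nat_lit 228) (nat_lit 14114507027) (nat_lit 76) (nat_lit 904838763) (nat_lit 162) (nat_lit 5) (nat_lit 165) (nat_lit 5) (nat_lit 163) (nat_lit 5) (nat_lit 392) (nat_lit 338) (nat_lit 290)) (XT.lf (nat_lit 0) (nat_lit 6680249149) (nat_lit 152) (nat_lit 6110200882) (nat_lit 228) (nat_lit 5646771500) (nat_lit 160) (nat_lit 5) (nat_lit 162) (nat_lit 5) (nat_lit 163) (nat_lit 5) (nat_lit 393) (nat_lit 338) (nat_lit 289)))))) (XT.nd (nat_lit 546) (nat_lit 1216) (nat_lit 0) (XT.nd (nat_lit 234) (nat_lit 760) (nat_lit 0) (XT.nd (nat_lit 78) (nat_lit 380) (nat_lit 0) (XT.lf (nat_lit 0) (nat_lit 4315686547) (nat_lit 228) (nat_lit 9261176185) (nat_lit 76) (nat_lit 5421623700) (nat_lit 157) (nat_lit 5) (nat_lit 160) (nat_lit 5) (nat_lit 158) (nat_lit 5) (nat_lit 394) (nat_lit 338) (nat_lit 288)) (XT.nd (nat_lit 78) (nat_lit 228) (nat_lit 0) (XT.lf (nat_lit 0) (nat_lit 12937678309)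 (nat_lit 152) (nat_lit 1942326782) (nat_lit 228) (nat_lit 4699516586) (nat_lit 155) (nat_lit 5) (nat_lit 157) (nat_lit 5) (nat_lit 158) (nat_lit 5) (nat_lit 395) (nat_lit 338) (nat_lit 287)) (XT.lf (nat_lit 0) (nat_lit 5937740218) (nat_lit 228) (nat_lit 3927966778) (nat_lit 76) (nat_lit 10314204360) (nat_lit 152) (nat_lit 5) (nat_lit 155) (nat_lit 5) (nat_lit 153) (nat_lit 5) (nat_lit 396) (nat_lit 338) (nat_lit 286)))) (XT.nd (nat_lit 156) (nat_lit 304) (nat_lit 0) (XT.nd (nat_lit 78) (nat_lit 304) (nat_lit 0) (XT.lf (nat_lit 0) (nat_lit 17229160456) (nat_lit 228) (nat_lit 1045669477) (nat_lit 76) (nat_lit 2527509876) (nat_lit 150) (nat_lit 5) (nat_lit 153) (nat_lit 5) (nat_lit 151) (nat_lit 4) (nat_lit 397) (nat_lit 338) (nat_lit 285)) (XT.lf (nat_lit 0) (nat_lit 1971251313) (nat_lit 152) (nat_lit 5813679960) (nat_lit 228) (nat_lit 13659621989) (nat_lit 146) (nat_lit 5) (nat_lit 148) (nat_lit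 5) (nat_lit 149) (nat_lit 5) (nat_lit 398) (nat_lit 338) (nat_lit 284))) (XT.nd (nat_lit 78) (nat_lit 228) (nat_lit 0) (XT.lf (nat_lit 0) (nat_lit 5185271074) (nat_lit 76) (nat_lit 14726975624) (nat_lit 152) (nat_lit 2197313407) (nat_lit 145) (nat_lit 5) (nat_lit 146) (nat_lit 5) (nat_lit 147) (nat_lit 4) (nat_lit 399) (nat_lit 338) (nat_lit 283)) (XT.lf (nat_lit 0) (nat_lit 8539800816) (nat_lit 152) (nat_lit 1367711712) (nat_lit 228) (nat_lit 12889626296) (nat_lit 142) (nat_lit 5) (nat_lit 144) (nat_lit 5) (nat_lit 145) (nat_lit 5) (nat_lit 400) (nat_lit 338) (nat_lit 282))))) (XT.nd (nat_lit 234) (nat_lit 760) (nat_lit 0) (XT.nd (nat_lit 78) (nat_lit 380) (nat_lit 0) (XT.lf (nat_lit 0) (nat_lit 12055727583) (nat_lit 76) (nat_lit 10850312596) (nat_lit 152) (nat_lit 602386506) (nat_lit 141) (nat_lit 5) (nat_lit 142) (nat_lit 5) (nat_lit 143) (nat_lit 4) (nat_lit 401) (nat_lit 338) (nat_lit 281))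 (XT.nd (nat_lit 78) (nat_lit 152) (nat_lit 0) (XT.lf (nat_lit 0) (nat_lit 12327590632) (nat_lit 228) (nat_lit 8520522671) (nat_lit 76) (nat_lit 3395567488) (nat_lit 138) (nat_lit 5) (nat_lit 141) (nat_lit 5) (nat_lit 139) (nat_lit 4) (nat_lit 402) (nat_lit 338) (nat_lit 280)) (XT.lf (nat_lit 0) (nat_lit 1202809258) (nat_lit 152) (nat_lit 5411759456) (nat_lit 76) (nat_lit 18390382859) (nat_lit 136) (nat_lit 5) (nat_lit 138) (nat_lit 5) (nat_lit 137) (nat_lit 5) (nat_lit 403) (nat_lit 338) (nat_lit 279)))) (XT.nd (nat_lit 156) (nat_lit 304) (nat_lit 0) (XT.nd (nat_lit 78) (nat_lit 304) (nat_lit 0) (XT.lf (nat_lit 0) (nat_lit 15058380218) (nat_lit 228) (nat_lit 2189891451) (nat_lit 76) (nat_lit 8542659705) (nat_lit 134) (nat_lit 5) (nat_lit 137) (nat_lit 5) (nat_lit 135) (nat_lit 4) (nat_lit 404) (nat_lit 338) (nat_lit 278)) (XT.lf (nat_lit 0) (nat_lit 1286440752) (nat_lit 152) (nat_lit 1978912472)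 (nat_lit 228) (nat_lit 23339998855) (nat_lit 130) (nat_lit 5) (nat_lit 132) (nat_lit 5) (nat_lit 133) (nat_lit 5) (nat_lit 405) (nat_lit 338) (nat_lit 277))) (XT.nd (nat_lit 78) (nat_lit 228) (nat_lit 0) (XT.lf (nat_lit 0) (nat_lit 4905029317) (nat_lit 76) (nat_lit 13260761458) (nat_lit 152) (nat_lit 9278777050) (nat_lit 129) (nat_lit 5) (nat_lit 130) (nat_lit 5) (nat_lit 131) (nat_lit 4) (nat_lit 406) (nat_lit 338) (nat_lit 276)) (XT.lf (nat_lit 0) (nat_lit 5703907260) (nat_lit 228) (nat_lit 19536822371) (nat_lit 76) (nat_lit 3073669526) (nat_lit 126) (nat_lit 5) (nat_lit 129) (nat_lit 5) (nat_lit 127) (nat_lit 4) (nat_lit 407) (nat_lit 338) (nat_lit 275))))))) (XT.nd (nat_lit 1014) (nat_lit 1748) (nat_lit 0) (XT.nd (nat_lit 468) (nat_lit 836) (nat_lit 0) (XT.nd (nat_lit 234) (nat_lit 532) (nat_lit 0) (XT.nd (nat_lit 78) (nat_lit 304) (nat_lit 0) (XT.lf (nat_lit 0) (nat_lit 12793840699) (nat_lit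 76) (nat_lit 8871893382) (nat_lit 152) (nat_lit 7546574673) (nat_lit 125) (nat_lit 5) (nat_lit 126) (nat_lit 5) (nat_lit 127) (nat_lit 4) (nat_lit 408) (nat_lit 338) (nat_lit 274)) (XT.nd (nat_lit 78) (nat_lit 76) (nat_lit 0) (XT.lf (nat_lit 0) (nat_lit 8490945406) (nat_lit 228) (nat_lit 13109034856) (nat_lit 76) (nat_lit 8541294673) (nat_lit 122) (nat_lit 5) (nat_lit 125) (nat_lit 5) (nat_lit 123) (nat_lit 4) (nat_lit 409) (nat_lit 338) (nat_lit 273)) (XT.lf (nat_lit 0) (nat_lit 21507408740) (nat_lit 76) (nat_lit 4067138358) (nat_lit 152) (nat_lit 5527892361) (nat_lit 121) (nat_lit 5) (nat_lit 122) (nat_lit 5) (nat_lit 123) (nat_lit 4) (nat_lit 410) (nat_lit 338) (nat_lit 272)))) (XT.nd (nat_lit 78) (nat_lit 304) (nat_lit 0) (XT.lf (nat_lit 0) (nat_lit 11642647815) (nat_lit 228) (nat_lit 5947150134) (nat_lit 76) (nat_lit 14504643078) (nat_lit 118) (nat_lit 5) (nat_lit 121) (nat_lit 5) (nat_lit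 119) (nat_lit 4) (nat_lit 411) (nat_lit 338) (nat_lit 271)) (XT.nd (nat_lit 78) (nat_lit 228) (nat_lit 0) (XT.lf (nat_lit 0) (nat_lit 29944535797) (nat_lit 152) (nat_lit 2007927918) (nat_lit 0) (nat_lit 1170322628) (nat_lit 117) (nat_lit 5) (nat_lit 119) (nat_lit 4) (nat_lit 117) (nat_lit 4) (nat_lit 412) (nat_lit 338) (nat_lit 270)) (XT.lf (nat_lit 0) (nat_lit 2064663255) (nat_lit 76) (nat_lit 13152278738) (nat_lit 152) (nat_lit 18964796805) (nat_lit 114) (nat_lit 5) (nat_lit 115) (nat_lit 5) (nat_lit 116) (nat_lit 4) (nat_lit 413) (nat_lit 338) (nat_lit 269))))) (XT.nd (nat_lit 234) (nat_lit 456) (nat_lit 0) (XT.nd (nat_lit 78) (nat_lit 304) (nat_lit 0) (XT.lf (nat_lit 0) (nat_lit 6516792949) (nat_lit 76) (nat_lit 28398109028) (nat_lit 76) (nat_lit 364330696) (nat_lit 113) (nat_lit 4) (nat_lit 114) (nat_lit 5) (nat_lit 114) (nat_lit 4) (nat_lit 414) (nat_lit 338) (nat_lit 268)) (XT.nd (nat_lit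 78) (nat_lit 152) (nat_lit 0) (XT.lf (nat_lit 0) (nat_lit 11104428259) (nat_lit 76) (nat_lit 8197823957) (nat_lit 152) (nat_lit 17108519093) (nat_lit 111) (nat_lit 5) (nat_lit 112) (nat_lit 5) (nat_lit 113) (nat_lit 4) (nat_lit 415) (nat_lit 338) (nat_lit 267)) (XT.lf (nat_lit 0) (nat_lit 2821501793) (nat_lit 152) (nat_lit 21575602711) (nat_lit 76) (nat_lit 13185354849) (nat_lit 109) (nat_lit 5) (nat_lit 111) (nat_lit 5) (nat_lit 110) (nat_lit 4) (nat_lit 416) (nat_lit 338) (nat_lit 266)))) (XT.nd (nat_lit 156) (nat_lit 228) (nat_lit 0) (XT.nd (nat_lit 78) (nat_lit 152) (nat_lit 0) (XT.lf (nat_lit 0) (nat_lit 21144962517) (nat_lit 76) (nat_lit 2740832139) (nat_lit 152) (nat_lit 14907107365) (nat_lit 108) (nat_lit 5) (nat_lit 109) (nat_lit 5) (nat_lit 110) (nat_lit 4) (nat_lit 417) (nat_lit 338) (nat_lit 265)) (XT.lf (nat_lit 0) (nat_lit 6442320156) (nat_lit 152) (nat_lit 13505825592) (nat_lit 76)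 (nat_lit 20095444733) (nat_lit 106) (nat_lit 5) (nat_lit 108) (nat_lit 5) (nat_lit 107) (nat_lit 4) (nat_lit 418) (nat_lit 338) (nat_lit 264))) (XT.nd (nat_lit 78) (nat_lit 152) (nat_lit 0) (XT.lf (nat_lit 0) (nat_lit 29048310158) (nat_lit 152) (nat_lit 9084450486) (nat_lit 0) (nat_lit 3204703076) (nat_lit 105) (nat_lit 5) (nat_lit 107) (nat_lit 4) (nat_lit 105) (nat_lit 4) (nat_lit 419) (nat_lit 338) (nat_lit 263)) (XT.lf (nat_lit 0) (nat_lit 10551105118) (nat_lit 152) (nat_lit 4457392386) (nat_lit 76) (nat_lit 27664841780) (nat_lit 103) (nat_lit 5) (nat_lit 105) (nat_lit 5) (nat_lit 104) (nat_lit 4) (nat_lit 420) (nat_lit 338) (nat_lit 262)))))) (XT.nd (nat_lit 546) (nat_lit 836) (nat_lit 0) (XT.nd (nat_lit 234) (nat_lit 532) (nat_lit 0) (XT.nd (nat_lit 78) (nat_lit 228) (nat_lit 0) (XT.lf (nat_lit 0) (nat_lit 489618709) (nat_lit 76) (nat_lit 34359097029) (nat_lit 76) (nat_lit 9206557720) (nat_lit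 101) (nat_lit 4) (nat_lit 102) (nat_lit 5) (nat_lit 102) (nat_lit 4) (nat_lit 421) (nat_lit 338) (nat_lit 261)) (XT.nd (nat_lit 78) (nat_lit 76) (nat_lit 0) (XT.lf (nat_lit 0) (nat_lit 5782896559) (nat_lit 76) (nat_lit 9470345313) (nat_lit 152) (nat_lit 30228132275) (nat_lit 99) (nat_lit 5) (nat_lit 100) (nat_lit 5) (nat_lit 101) (nat_lit 4) (nat_lit 422) (nat_lit 338) (nat_lit 260)) (XT.lf (nat_lit 0) (nat_lit 11399030903) (nat_lit 76) (nat_lit 30015591410) (nat_lit 76) (nat_lit 5541353040) (nat_lit 98) (nat_lit 4) (nat_lit 99) (nat_lit 5) (nat_lit 99) (nat_lit 4) (nat_lit 423) (nat_lit 338) (nat_lit 259)))) (XT.nd (nat_lit 156) (nat_lit 304) (nat_lit 0) (XT.nd (nat_lit 78) (nat_lit 76) (nat_lit 0) (XT.lf (nat_lit 0) (nat_lit 17323717004) (nat_lit 76) (nat_lit 3278835013) (nat_lit 152) (nat_lit 27877263432) (nat_lit 96) (nat_lit 5) (nat_lit 97) (nat_lit 5) (nat_lit 98) (nat_lit 4) (nat_lit 424)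 (nat_lit 338) (nat_lit 258)) (XT.lf (nat_lit 0) (nat_lit 23579055091) (nat_lit 76) (nat_lit 25142442167) (nat_lit 76) (nat_lit 1333230890) (nat_lit 95) (nat_lit 4) (nat_lit 96) (nat_lit 5) (nat_lit 96) (nat_lit 4) (nat_lit 425) (nat_lit 338) (nat_lit 257))) (XT.nd (nat_lit 78) (nat_lit 152) (nat_lit 0) (XT.lf (nat_lit 0) (nat_lit 26649626217) (nat_lit 152) (nat_lit 21519902529) (nat_lit 0) (nat_lit 3512320499) (nat_lit 93) (nat_lit 5) (nat_lit 95) (nat_lit 4) (nat_lit 93) (nat_lit 4) (nat_lit 426) (nat_lit 338) (nat_lit 256)) (XT.lf (nat_lit 0) (nat_lit 3406620916) (nat_lit 152) (nat_lit 16242404888) (nat_lit 76) (nat_lit 33714845448) (nat_lit 91) (nat_lit 5) (nat_lit 93) (nat_lit 5) (nat_lit 92) (nat_lit 4) (nat_lit 427) (nat_lit 338) (nat_lit 255))))) (XT.nd (nat_lit 234) (nat_lit 456) (nat_lit 0) (XT.nd (nat_lit 78) (nat_lit 304) (nat_lit 0) (XT.lf (nat_lit 0) (nat_lit 33463605461) (nat_lit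 152) (nat_lit 10676267830) (nat_lit 0) (nat_lit 10961268660) (nat_lit 90) (nat_lit 5) (nat_lit 92) (nat_lit 4) (nat_lit 90) (nat_lit 4) (nat_lit 428) (nat_lit 338) (nat_lit 254)) (XT.nd (nat_lit 78) (nat_lit 152) (nat_lit 0) (XT.lf (nat_lit 0) (nat_lit 8768654636) (nat_lit 152) (nat_lit 4720055318) (nat_lit 76) (nat_lit 43409375419) (nat_lit 88) (nat_lit 5) (nat_lit 90) (nat_lit 5) (nat_lit 89) (nat_lit 4) (nat_lit 429) (nat_lit 338) (nat_lit 253)) (XT.lf (nat_lit 0) (nat_lit 1564370466) (nat_lit 76) (nat_lit 39534872445) (nat_lit 76) (nat_lit 17653658511) (nat_lit 86) (nat_lit 4) (nat_lit 87) (nat_lit 5) (nat_lit 87) (nat_lit 4) (nat_lit 430) (nat_lit 338) (nat_lit 252)))) (XT.nd (nat_lit 156) (nat_lit 228) (nat_lit 0) (XT.nd (nat_lit 78) (nat_lit 76) (nat_lit 0) (XT.lf (nat_lit 0) (nat_lit 8401198031) (nat_lit 76) (nat_lit 6524092588) (nat_lit 152) (nat_lit 45745250752) (nat_lit 84) (nat_lit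 5) (nat_lit 85) (nat_lit 5) (nat_lit 86) (nat_lit 4) (nat_lit 431) (nat_lit 338) (nat_lit 251)) (XT.lf (nat_lit 0) (nat_lit 15552681107) (nat_lit 76) (nat_lit 34185561266) (nat_lit 76) (nat_lit 12911472487) (nat_lit 83) (nat_lit 4) (nat_lit 84) (nat_lit 5) (nat_lit 84) (nat_lit 4) (nat_lit 432) (nat_lit 338) (nat_lit 250))) (XT.nd (nat_lit 78) (nat_lit 76) (nat_lit 0) (XT.lf (nat_lit 0) (nat_lit 21941389153) (nat_lit 152) (nat_lit 41482977513) (nat_lit 0) (nat_lit 1273316196) (nat_lit 81) (nat_lit 5) (nat_lit 83) (nat_lit 4) (nat_lit 81) (nat_lit 4) (nat_lit 433) (nat_lit 338) (nat_lit 249)) (XT.lf (nat_lit 0) (nat_lit 31230118190) (nat_lit 76) (nat_lit 28131197392) (nat_lit 76) (nat_lit 7450155071) (nat_lit 80) (nat_lit 4) (nat_lit 81) (nat_lit 5) (nat_lit 81) (nat_lit 4) (nat_lit 434) (nat_lit 338) (nat_lit 248))))))))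
noncomputable def xc45 : XT := (XT.nd (nat_lit 47502) (nat_lit 0) (nat_lit 7980) (XT.nd (nat_lit 46410) (nat_lit 0) (nat_lit 18924) (XT.nd (nat_lit 45864) (nat_lit 0) (nat_lit 31540) (XT.nd (nat_lit 234) (nat_lit 456) (nat_lit 0) (XT.nd (nat_lit 78) (nat_lit 228) (nat_lit 0) (XT.lf (nat_lit 0) (nat_lit 29908600533) (nat_lit 152) (nat_lit 29269918664) (nat_lit 0) (nat_lit 9817926653) (nat_lit 78) (nat_lit 5) (nat_lit 80) (nat_lit 4) (nat_lit 78) (nat_lit 4) (nat_lit 435) (nat_lit 338) (nat_lit 247)) (XT.nd (nat_lit 78) (nat_lit 152) (nat_lit 0) (XT.lf (nat_lit 0) (nat_lit 48764051156) (nat_lit 76) (nat_lit 21297051942) (nat_lit 76) (nat_lit 1194957096) (nat_lit 77) (nat_lit 4) (nat_lit 78) (nat_lit 5) (nat_lit 78) (nat_lit 4) (nat_lit 436) (nat_lit 338) (nat_lit 246)) (XT.lf (nat_lit 0) (nat_lit 38851044396) (nat_lit 152) (nat_lit 15412247971) (nat_lit 0) (nat_lit 19323887156) (nat_lit 75) (nat_lit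 5) (nat_lit 77) (nat_lit 4) (nat_lit 75) (nat_lit 4) (nat_lit 437) (nat_lit 338) (nat_lit 245)))) (XT.nd (nat_lit 78) (nat_lit 304) (nat_lit 0) (XT.lf (nat_lit 0) (nat_lit 5819682838) (nat_lit 152) (nat_lit 7723258507) (nat_lit 76) (nat_lit 62457942784) (nat_lit 73) (nat_lit 5) (nat_lit 75) (nat_lit 5) (nat_lit 74) (nat_lit 4) (nat_lit 438) (nat_lit 338) (nat_lit 244)) (XT.nd (nat_lit 78) (nat_lit 152) (nat_lit 0) (XT.lf (nat_lit 0) (nat_lit 264192796) (nat_lit 76) (nat_lit 48601405752) (nat_lit 76) (nat_lit 29623936650) (nat_lit 71) (nat_lit 4) (nat_lit 72) (nat_lit 5) (nat_lit 72) (nat_lit 4) (nat_lit 439) (nat_lit 338) (nat_lit 243)) (XT.lf (nat_lit 0) (nat_lit 9116330809) (nat_lit 76) (nat_lit 4727342390) (nat_lit 152) (nat_lit 67221145851) (nat_lit 69) (nat_lit 5) (nat_lit 70) (nat_lit 5) (nat_lit 71) (nat_lit 4) (nat_lit 440) (nat_lit 338) (nat_lit 242))))) (XT.nd (nat_lit 234) (nat_lit 1900)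 (nat_lit 0) (XT.nd (nat_lit 78) (nat_lit 532) (nat_lit 0) (XT.lf (nat_lit 0) (nat_lit 2296756486) (nat_lit 76) (nat_lit 465004065) (nat_lit 76) (nat_lit 465004065) (nat_lit 516) (nat_lit 4) (nat_lit 517) (nat_lit 5) (nat_lit 517) (nat_lit 4) (nat_lit 342) (nat_lit 339) (nat_lit 339)) (XT.nd (nat_lit 78) (nat_lit 304) (nat_lit 0) (XT.lf (nat_lit 0) (nat_lit 3929658642) (nat_lit 152) (nat_lit 404940409) (nat_lit 228) (nat_lit 2134202704) (nat_lit 513) (nat_lit 5) (nat_lit 515) (nat_lit 5) (nat_lit 516) (nat_lit 4) (nat_lit 343) (nat_lit 339) (nat_lit 338)) (XT.lf (nat_lit 0) (nat_lit 3020511929) (nat_lit 304) (nat_lit 3098720225) (nat_lit 76) (nat_lit 372538646) (nat_lit 509) (nat_lit 5) (nat_lit 513) (nat_lit 5) (nat_lit 510) (nat_lit 4) (nat_lit 344) (nat_lit 339) (nat_lit 337)))) (XT.nd (nat_lit 156) (nat_lit 1064) (nat_lit 0) (XT.nd (nat_lit 78) (nat_lit 456) (nat_lit 0) (XT.lf (nat_lit 0) (nat_lit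 1580962742) (nat_lit 380) (nat_lit 3542290141) (nat_lit 76) (nat_lit 1399142591) (nat_lit 504) (nat_lit 5) (nat_lit 509) (nat_lit 5) (nat_lit 505) (nat_lit 5) (nat_lit 345) (nat_lit 339) (nat_lit 336)) (XT.lf (nat_lit 0) (nat_lit 8645475) (nat_lit 456) (nat_lit 3866398123) (nat_lit 76) (nat_lit 2685804270) (nat_lit 498) (nat_lit 5) (nat_lit 504) (nat_lit 5) (nat_lit 499) (nat_lit 5) (nat_lit 346) (nat_lit 339) (nat_lit 335))) (XT.nd (nat_lit 78) (nat_lit 608) (nat_lit 0) (XT.lf (nat_lit 0) (nat_lit 2518915058) (nat_lit 456) (nat_lit 2353706430) (nat_lit 532) (nat_lit 1734075932) (nat_lit 492) (nat_lit 5) (nat_lit 498) (nat_lit 5) (nat_lit 499) (nat_lit 5) (nat_lit 347) (nat_lit 339) (nat_lit 334)) (XT.lf (nat_lit 0) (nat_lit 2469547533) (nat_lit 532) (nat_lit 570410501) (nat_lit 608) (nat_lit 3620526078) (nat_lit 484) (nat_lit 5) (nat_lit 491) (nat_lit 5) (nat_lit 492) (nat_lit 5) (nat_lit 348)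 (nat_lit 339) (nat_lit 333)))))) (XT.nd (nat_lit 546) (nat_lit 6384) (nat_lit 0) (XT.nd (nat_lit 234) (nat_lit 4028) (nat_lit 0) (XT.nd (nat_lit 78) (nat_lit 1520) (nat_lit 0) (XT.lf (nat_lit 0) (nat_lit 1081322274) (nat_lit 684) (nat_lit 4189371597) (nat_lit 76) (nat_lit 1451186827) (nat_lit 475) (nat_lit 5) (nat_lit 484) (nat_lit 5) (nat_lit 476) (nat_lit 5) (nat_lit 349) (nat_lit 339) (nat_lit 332)) (XT.nd (nat_lit 78) (nat_lit 836) (nat_lit 0) (XT.lf (nat_lit 0) (nat_lit 2704975783) (nat_lit 684) (nat_lit 3051333008) (nat_lit 760) (nat_lit 1034575207) (nat_lit 466) (nat_lit 5) (nat_lit 475) (nat_lit 5) (nat_lit 476) (nat_lit 5) (nat_lit 350) (nat_lit 339) (nat_lit 331)) (XT.lf (nat_lit 0) (nat_lit 2991871628) (nat_lit 760) (nat_lit 553026828) (nat_lit 836) (nat_lit 3322821386) (nat_lit 455) (nat_lit 5) (nat_lit 465) (nat_lit 5) (nat_lit 466) (nat_lit 5) (nat_lit 351) (nat_lit 339) (nat_lit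 330)))) (XT.nd (nat_lit 156) (nat_lit 2204) (nat_lit 0) (XT.nd (nat_lit 78) (nat_lit 912) (nat_lit 0) (XT.lf (nat_lit 0) (nat_lit 1206439371) (nat_lit 912) (nat_lit 3568294216) (nat_lit 76) (nat_lit 2177469984) (nat_lit 443) (nat_lit 5) (nat_lit 455) (nat_lit 5) (nat_lit 444) (nat_lit 5) (nat_lit 352) (nat_lit 339) (nat_lit 329)) (XT.lf (nat_lit 0) (nat_lit 3884059668) (nat_lit 912) (nat_lit 1856497327) (nat_lit 988) (nat_lit 1303954069) (nat_lit 431) (nat_lit 5) (nat_lit 443) (nat_lit 5) (nat_lit 444) (nat_lit 5) (nat_lit 353) (nat_lit 339) (nat_lit 328))) (XT.nd (nat_lit 78) (nat_lit 1140) (nat_lit 0) (XT.lf (nat_lit 0) (nat_lit 3158165598) (nat_lit 1064) (nat_lit 2658538967) (nat_lit 76) (nat_lit 1327846920) (nat_lit 417) (nat_lit 5) (nat_lit 431) (nat_lit 5) (nat_lit 418) (nat_lit 5) (nat_lit 354) (nat_lit 339) (nat_lit 327)) (XT.lf (nat_lit 0) (nat_lit 436574112) (nat_lit 1140) (nat_lit 2055693761)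 (nat_lit 76) (nat_lit 4760362397) (nat_lit 402) (nat_lit 5) (nat_lit 417) (nat_lit 5) (nat_lit 403) (nat_lit 5) (nat_lit 355) (nat_lit 339) (nat_lit 326))))) (XT.nd (nat_lit 234) (nat_lit 2508) (nat_lit 0) (XT.nd (nat_lit 78) (nat_lit 2736) (nat_lit 0) (XT.lf (nat_lit 0) (nat_lit 4881713174) (nat_lit 1216) (nat_lit 1366122654) (nat_lit 76) (nat_lit 1120588824) (nat_lit 387) (nat_lit 5) (nat_lit 403) (nat_lit 5) (nat_lit 388) (nat_lit 5) (nat_lit 356) (nat_lit 339) (nat_lit 325)) (XT.nd (nat_lit 78) (nat_lit 1444) (nat_lit 0) (XT.lf (nat_lit 0) (nat_lit 1925843221) (nat_lit 1292) (nat_lit 584319210) (nat_lit 76) (nat_lit 4982044822) (nat_lit 370) (nat_lit 5) (nat_lit 387) (nat_lit 5) (nat_lit 371) (nat_lit 5) (nat_lit 357) (nat_lit 339) (nat_lit 324)) (XT.lf (nat_lit 0) (nat_lit 300890220) (nat_lit 608) (nat_lit 6115988211) (nat_lit 684) (nat_lit 1207283473) (nat_lit 351) (nat_lit 5) (nat_lit 359)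 (nat_lit 5) (nat_lit 360) (nat_lit 5) (nat_lit 358) (nat_lit 339) (nat_lit 323)))) (XT.nd (nat_lit 156) (nat_lit 1292) (nat_lit 0) (XT.nd (nat_lit 78) (nat_lit 532) (nat_lit 0) (XT.lf (nat_lit 0) (nat_lit 1279425046) (nat_lit 608) (nat_lit 1956896861) (nat_lit 684) (nat_lit 4527450814) (nat_lit 342) (nat_lit 5) (nat_lit 350) (nat_lit 5) (nat_lit 351) (nat_lit 5) (nat_lit 359) (nat_lit 339) (nat_lit 322)) (XT.lf (nat_lit 0) (nat_lit 2362111744) (nat_lit 532) (nat_lit 5449021313) (nat_lit 608) (nat_lit 100852605) (nat_lit 335) (nat_lit 5) (nat_lit 342) (nat_lit 5) (nat_lit 343) (nat_lit 5) (nat_lit 360) (nat_lit 339) (nat_lit 321))) (XT.nd (nat_lit 78) (nat_lit 608) (nat_lit 0) (XT.lf (nat_lit 0) (nat_lit 3522573248) (nat_lit 608) (nat_lit 873806773) (nat_lit 684) (nat_lit 3671776919) (nat_lit 326) (nat_lit 5) (nat_lit 334) (nat_lit 5) (nat_lit 335) (nat_lit 5) (nat_lit 361) (nat_lit 339) (nat_lit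 320)) (XT.lf (nat_lit 0) (nat_lit 831813063) (nat_lit 608) (nat_lit 3455185106) (nat_lit 76) (nat_lit 3945910043) (nat_lit 318) (nat_lit 5) (nat_lit 326) (nat_lit 5) (nat_lit 319) (nat_lit 5) (nat_lit 362) (nat_lit 339) (nat_lit 319))))))) (XT.nd (nat_lit 1014) (nat_lit 4408) (nat_lit 0) (XT.nd (nat_lit 468) (nat_lit 3040) (nat_lit 0) (XT.nd (nat_lit 234) (nat_lit 1444) (nat_lit 0) (XT.nd (nat_lit 78) (nat_lit 1520) (nat_lit 0) (XT.lf (nat_lit 0) (nat_lit 5435575342) (nat_lit 608) (nat_lit 2281967555) (nat_lit 76) (nat_lit 688735600) (nat_lit 311) (nat_lit 5) (nat_lit 319) (nat_lit 5) (nat_lit 312) (nat_lit 5) (nat_lit 363) (nat_lit 339) (nat_lit 318)) (XT.nd (nat_lit 78) (nat_lit 988) (nat_lit 0) (XT.lf (nat_lit 0) (nat_lit 1634743118) (nat_lit 532) (nat_lit 1031537526) (nat_lit 76) (nat_lit 5921961595) (nat_lit 304) (nat_lit 5) (nat_lit 311) (nat_lit 5) (nat_lit 305) (nat_lit 5) (nat_lit 364)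 (nat_lit 339) (nat_lit 317)) (XT.lf (nat_lit 0) (nat_lit 307399158) (nat_lit 456) (nat_lit 6081770975) (nat_lit 532) (nat_lit 2389847233) (nat_lit 291) (nat_lit 5) (nat_lit 297) (nat_lit 5) (nat_lit 298) (nat_lit 5) (nat_lit 365) (nat_lit 339) (nat_lit 316)))) (XT.nd (nat_lit 78) (nat_lit 912) (nat_lit 0) (XT.lf (nat_lit 0) (nat_lit 1759447641) (nat_lit 456) (nat_lit 591508267) (nat_lit 532) (nat_lit 6627807460) (nat_lit 284) (nat_lit 5) (nat_lit 290) (nat_lit 5) (nat_lit 291) (nat_lit 5) (nat_lit 366) (nat_lit 339) (nat_lit 315)) (XT.nd (nat_lit 78) (nat_lit 532) (nat_lit 0) (XT.lf (nat_lit 0) (nat_lit 3282223400) (nat_lit 380) (nat_lit 4013199190) (nat_lit 456) (nat_lit 1891882750) (nat_lit 279) (nat_lit 5) (nat_lit 284) (nat_lit 5) (nat_lit 285) (nat_lit 5) (nat_lit 367) (nat_lit 339) (nat_lit 314)) (XT.lf (nat_lit 0) (nat_lit 3017678505) (nat_lit 532) (nat_lit 4506741430) (nat_lit 76) (nat_lit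 1881057271) (nat_lit 272) (nat_lit 5) (nat_lit 279) (nat_lit 5) (nat_lit 273) (nat_lit 5) (nat_lit 368) (nat_lit 339) (nat_lit 313))))) (XT.nd (nat_lit 234) (nat_lit 1444) (nat_lit 0) (XT.nd (nat_lit 78) (nat_lit 1216) (nat_lit 0) (XT.lf (nat_lit 0) (nat_lit 6606335658) (nat_lit 380) (nat_lit 1548072502) (nat_lit 456) (nat_lit 1478963040) (nat_lit 267) (nat_lit 5) (nat_lit 272) (nat_lit 5) (nat_lit 273) (nat_lit 5) (nat_lit 369) (nat_lit 339) (nat_lit 312)) (XT.nd (nat_lit 78) (nat_lit 760) (nat_lit 0) (XT.lf (nat_lit 0) (nat_lit 3636820658) (nat_lit 456) (nat_lit 1484780898) (nat_lit 76) (nat_lit 4749001710) (nat_lit 261) (nat_lit 5) (nat_lit 267) (nat_lit 5) (nat_lit 262) (nat_lit 5) (nat_lit 370) (nat_lit 339) (nat_lit 311)) (XT.lf (nat_lit 0) (nat_lit 164442455) (nat_lit 380) (nat_lit 8836988627) (nat_lit 456) (nat_lit 1117117816) (nat_lit 251) (nat_lit 5) (nat_lit 256) (nat_lit 5) (nat_lit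 257) (nat_lit 5) (nat_lit 371) (nat_lit 339) (nat_lit 310)))) (XT.nd (nat_lit 156) (nat_lit 684) (nat_lit 0) (XT.nd (nat_lit 78) (nat_lit 380) (nat_lit 0) (XT.lf (nat_lit 0) (nat_lit 1902322983) (nat_lit 304) (nat_lit 2338158651) (nat_lit 380) (nat_lit 6135138840) (nat_lit 246) (nat_lit 5) (nat_lit 250) (nat_lit 5) (nat_lit 251) (nat_lit 5) (nat_lit 372) (nat_lit 339) (nat_lit 309)) (XT.lf (nat_lit 0) (nat_lit 3741462313) (nat_lit 380) (nat_lit 6152462554) (nat_lit 456) (nat_lit 749756919) (nat_lit 241) (nat_lit 5) (nat_lit 246) (nat_lit 5) (nat_lit 247) (nat_lit 5) (nat_lit 373) (nat_lit 339) (nat_lit 308))) (XT.nd (nat_lit 78) (nat_lit 304) (nat_lit 0) (XT.lf (nat_lit 0) (nat_lit 4854784878) (nat_lit 380) (nat_lit 5260253736) (nat_lit 76) (nat_lit 807324997) (nat_lit 236) (nat_lit 5) (nat_lit 241) (nat_lit 5) (nat_lit 237) (nat_lit 5) (nat_lit 374) (nat_lit 339) (nat_lit 307)) (XT.lf (nat_lit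 0) (nat_lit 7677532463) (nat_lit 304) (nat_lit 3129567865) (nat_lit 380) (nat_lit 405164917) (nat_lit 232) (nat_lit 5) (nat_lit 236) (nat_lit 5) (nat_lit 237) (nat_lit 5) (nat_lit 375) (nat_lit 339) (nat_lit 306)))))) (XT.nd (nat_lit 546) (nat_lit 1976) (nat_lit 0) (XT.nd (nat_lit 234) (nat_lit 1140) (nat_lit 0) (XT.nd (nat_lit 78) (nat_lit 912) (nat_lit 0) (XT.lf (nat_lit 0) (nat_lit 5501302195) (nat_lit 380) (nat_lit 1746334456) (nat_lit 76) (nat_lit 4265356233) (nat_lit 227) (nat_lit 5) (nat_lit 232) (nat_lit 5) (nat_lit 228) (nat_lit 5) (nat_lit 376) (nat_lit 339) (nat_lit 305)) (XT.nd (nat_lit 78) (nat_lit 380) (nat_lit 0) (XT.lf (nat_lit 0) (nat_lit 169088011) (nat_lit 228) (nat_lit 11594938131) (nat_lit 304) (nat_lit 62531031) (nat_lit 220) (nat_lit 5) (nat_lit 223) (nat_lit 5) (nat_lit 224) (nat_lit 5) (nat_lit 377) (nat_lit 339) (nat_lit 304)) (XT.lf (nat_lit 0) (nat_lit 2154199917) (nat_lit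 304) (nat_lit 4041734911) (nat_lit 380) (nat_lit 5954105829) (nat_lit 215) (nat_lit 5) (nat_lit 219) (nat_lit 5) (nat_lit 220) (nat_lit 5) (nat_lit 378) (nat_lit 339) (nat_lit 303)))) (XT.nd (nat_lit 156) (nat_lit 532) (nat_lit 0) (XT.nd (nat_lit 78) (nat_lit 304) (nat_lit 0) (XT.lf (nat_lit 0) (nat_lit 356829804) (nat_lit 304) (nat_lit 8216047683) (nat_lit 76) (nat_lit 3914146420) (nat_lit 211) (nat_lit 5) (nat_lit 215) (nat_lit 5) (nat_lit 212) (nat_lit 5) (nat_lit 379) (nat_lit 339) (nat_lit 302)) (XT.lf (nat_lit 0) (nat_lit 6465956718) (nat_lit 304) (nat_lit 490224899) (nat_lit 380) (nat_lit 5880025874) (nat_lit 207) (nat_lit 5) (nat_lit 211) (nat_lit 5) (nat_lit 212) (nat_lit 5) (nat_lit 380) (nat_lit 339) (nat_lit 301))) (XT.nd (nat_lit 78) (nat_lit 228) (nat_lit 0) (XT.lf (nat_lit 0) (nat_lit 808267630) (nat_lit 304) (nat_lit 4437787928) (nat_lit 76) (nat_lit 7952429696) (nat_lit 203) (nat_lit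 5) (nat_lit 207) (nat_lit 5) (nat_lit 204) (nat_lit 5) (nat_lit 381) (nat_lit 339) (nat_lit 300)) (XT.lf (nat_lit 0) (nat_lit 7815335408) (nat_lit 304) (nat_lit 2424948842) (nat_lit 76) (nat_lit 3333667088) (nat_lit 200) (nat_lit 5) (nat_lit 204) (nat_lit 5) (nat_lit 201) (nat_lit 5) (nat_lit 382) (nat_lit 339) (nat_lit 299))))) (XT.nd (nat_lit 234) (nat_lit 912) (nat_lit 0) (XT.nd (nat_lit 78) (nat_lit 760) (nat_lit 0) (XT.lf (nat_lit 0) (nat_lit 1309204511) (nat_lit 304) (nat_lit 295021193) (nat_lit 76) (nat_lit 12359773330) (nat_lit 196) (nat_lit 5) (nat_lit 200) (nat_lit 5) (nat_lit 197) (nat_lit 5) (nat_lit 383) (nat_lit 339) (nat_lit 298)) (XT.nd (nat_lit 78) (nat_lit 304) (nat_lit 0) (XT.lf (nat_lit 0) (nat_lit 1931208894) (nat_lit 228) (nat_lit 6854112200) (nat_lit 304) (nat_lit 5581297475) (nat_lit 190) (nat_lit 5) (nat_lit 193) (nat_lit 5) (nat_lit 194) (nat_lit 5) (nat_lit 384) (nat_lit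 339) (nat_lit 297)) (XT.lf (nat_lit 0) (nat_lit 1940789985) (nat_lit 304) (nat_lit 10481647096) (nat_lit 76) (nat_lit 2362471635) (nat_lit 186) (nat_lit 5) (nat_lit 190) (nat_lit 5) (nat_lit 187) (nat_lit 5) (nat_lit 385) (nat_lit 339) (nat_lit 296)))) (XT.nd (nat_lit 156) (nat_lit 456) (nat_lit 0) (XT.nd (nat_lit 78) (nat_lit 304) (nat_lit 0) (XT.lf (nat_lit 0) (nat_lit 6753826265) (nat_lit 152) (nat_lit 3135325833) (nat_lit 228) (nat_lit 5328335458) (nat_lit 184) (nat_lit 5) (nat_lit 186) (nat_lit 5) (nat_lit 187) (nat_lit 5) (nat_lit 386) (nat_lit 339) (nat_lit 295)) (XT.lf (nat_lit 0) (nat_lit 2680936809) (nat_lit 304) (nat_lit 6340498653) (nat_lit 76) (nat_lit 6644489159) (nat_lit 180) (nat_lit 5) (nat_lit 184) (nat_lit 5) (nat_lit 181) (nat_lit 5) (nat_lit 387) (nat_lit 339) (nat_lit 294))) (XT.nd (nat_lit 78) (nat_lit 304) (nat_lit 0) (XT.lf (nat_lit 0) (nat_lit 11131229061) (nat_lit 228)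 (nat_lit 4108605942) (nat_lit 76) (nat_lit 890843227) (nat_lit 178) (nat_lit 5) (nat_lit 181) (nat_lit 5) (nat_lit 179) (nat_lit 5) (nat_lit 388) (nat_lit 339) (nat_lit 293)) (XT.lf (nat_lit 0) (nat_lit 3529148678) (nat_lit 304) (nat_lit 1791758181) (nat_lit 76) (nat_lit 11290491105) (nat_lit 174) (nat_lit 5) (nat_lit 178) (nat_lit 5) (nat_lit 175) (nat_lit 5) (nat_lit 389) (nat_lit 339) (nat_lit 292))))))))
noncomputable def xc46 : XT := (XT.nd (nat_lit 2106) (nat_lit 2888) (nat_lit 0) (XT.nd (nat_lit 1014) (nat_lit 2204) (nat_lit 0) (XT.nd (nat_lit 468) (nat_lit 1292) (nat_lit 0) (XT.nd (nat_lit 234) (nat_lit 608) (nat_lit 0) (XT.nd (nat_lit 78) (nat_lit 380) (nat_lit 0) (XT.lf (nat_lit 0) (nat_lit 654089294) (nat_lit 152) (nat_lit 11908717691) (nat_lit 228) (nat_lit 4546400910) (nat_lit 170) (nat_lit 5) (nat_lit 172) (nat_lit 5) (nat_lit 173) (nat_lit 5) (nat_lit 390) (nat_lit 339) (nat_lit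 291)) (XT.nd (nat_lit 78) (nat_lit 152) (nat_lit 0) (XT.lf (nat_lit 0) (nat_lit 3266245644) (nat_lit 152) (nat_lit 1269178940) (nat_lit 228) (nat_lit 13089049346) (nat_lit 167) (nat_lit 5) (nat_lit 169) (nat_lit 5) (nat_lit 170) (nat_lit 5) (nat_lit 391) (nat_lit 339) (nat_lit 290)) (XT.lf (nat_lit 0) (nat_lit 5972617691) (nat_lit 152) (nat_lit 8241124679) (nat_lit 228) (nat_lit 3943317655) (nat_lit 165) (nat_lit 5) (nat_lit 167) (nat_lit 5) (nat_lit 168) (nat_lit 5) (nat_lit 392) (nat_lit 339) (nat_lit 289)))) (XT.nd (nat_lit 78) (nat_lit 380) (nat_lit 0) (XT.lf (nat_lit 0) (nat_lit 5740481691) (nat_lit 228) (nat_lit 9883176639) (nat_lit 76) (nat_lit 3085248293) (nat_lit 162) (nat_lit 5) (nat_lit 165) (nat_lit 5) (nat_lit 163) (nat_lit 5) (nat_lit 393) (nat_lit 339) (nat_lit 288)) (XT.nd (nat_lit 78) (nat_lit 228) (nat_lit 0) (XT.lf (nat_lit 0) (nat_lit 11809797634) (nat_lit 152) (nat_lit 4257015148)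 (nat_lit 228) (nat_lit 3213164618) (nat_lit 160) (nat_lit 5) (nat_lit 162) (nat_lit 5) (nat_lit 163) (nat_lit 5) (nat_lit 394) (nat_lit 339) (nat_lit 287)) (XT.lf (nat_lit 0) (nat_lit 7133339501) (nat_lit 228) (nat_lit 4957697973) (nat_lit 76) (nat_lit 7779317221) (nat_lit 157) (nat_lit 5) (nat_lit 160) (nat_lit 5) (nat_lit 158) (nat_lit 5) (nat_lit 395) (nat_lit 339) (nat_lit 286))))) (XT.nd (nat_lit 234) (nat_lit 684) (nat_lit 0) (XT.nd (nat_lit 78) (nat_lit 456) (nat_lit 0) (XT.lf (nat_lit 0) (nat_lit 18147134475) (nat_lit 228) (nat_lit 2269009602) (nat_lit 76) (nat_lit 66659809) (nat_lit 155) (nat_lit 5) (nat_lit 158) (nat_lit 5) (nat_lit 156) (nat_lit 4) (nat_lit 396) (nat_lit 339) (nat_lit 285)) (XT.nd (nat_lit 78) (nat_lit 76) (nat_lit 0) (XT.lf (nat_lit 0) (nat_lit 485682108) (nat_lit 152) (nat_lit 8243421799) (nat_lit 228) (nat_lit 12384968716) (nat_lit 150) (nat_lit 5) (nat_lit 152) (nat_lit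 5) (nat_lit 153) (nat_lit 5) (nat_lit 397) (nat_lit 339) (nat_lit 284)) (XT.lf (nat_lit 0) (nat_lit 3491552211) (nat_lit 76) (nat_lit 17066579809) (nat_lit 152) (nat_lit 1210299374) (nat_lit 149) (nat_lit 5) (nat_lit 150) (nat_lit 5) (nat_lit 151) (nat_lit 4) (nat_lit 398) (nat_lit 339) (nat_lit 283)))) (XT.nd (nat_lit 156) (nat_lit 304) (nat_lit 0) (XT.nd (nat_lit 78) (nat_lit 152) (nat_lit 0) (XT.lf (nat_lit 0) (nat_lit 6597369957) (nat_lit 152) (nat_lit 4003963032) (nat_lit 228) (nat_lit 11842633282) (nat_lit 146) (nat_lit 5) (nat_lit 148) (nat_lit 5) (nat_lit 149) (nat_lit 5) (nat_lit 399) (nat_lit 339) (nat_lit 282)) (XT.lf (nat_lit 0) (nat_lit 134913681) (nat_lit 152) (nat_lit 13251728603) (nat_lit 76) (nat_lit 9757149025) (nat_lit 144) (nat_lit 5) (nat_lit 146) (nat_lit 5) (nat_lit 145) (nat_lit 5) (nat_lit 400) (nat_lit 339) (nat_lit 281))) (XT.nd (nat_lit 78) (nat_lit 152) (nat_lit 0)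 (XT.lf (nat_lit 0) (nat_lit 12733630242) (nat_lit 228) (nat_lit 10538586714) (nat_lit 76) (nat_lit 594856546) (nat_lit 142) (nat_lit 5) (nat_lit 145) (nat_lit 5) (nat_lit 143) (nat_lit 4) (nat_lit 401) (nat_lit 339) (nat_lit 280)) (XT.lf (nat_lit 0) (nat_lit 1676504060) (nat_lit 152) (nat_lit 7682368029) (nat_lit 76) (nat_lit 15256258309) (nat_lit 140) (nat_lit 5) (nat_lit 142) (nat_lit 5) (nat_lit 141) (nat_lit 5) (nat_lit 402) (nat_lit 339) (nat_lit 279)))))) (XT.nd (nat_lit 546) (nat_lit 1064) (nat_lit 0) (XT.nd (nat_lit 234) (nat_lit 608) (nat_lit 0) (XT.nd (nat_lit 78) (nat_lit 380) (nat_lit 0) (XT.lf (nat_lit 0) (nat_lit 15190845134) (nat_lit 228) (nat_lit 4686223753) (nat_lit 76) (nat_lit 5511389695) (nat_lit 138) (nat_lit 5) (nat_lit 141) (nat_lit 5) (nat_lit 139) (nat_lit 4) (nat_lit 403) (nat_lit 339) (nat_lit 278)) (XT.nd (nat_lit 78) (nat_lit 228) (nat_lit 0) (XT.lf (nat_lit 0) (nat_lit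 3464190382) (nat_lit 152) (nat_lit 1500334734) (nat_lit 76) (nat_lit 21224636816) (nat_lit 136) (nat_lit 5) (nat_lit 138) (nat_lit 5) (nat_lit 137) (nat_lit 5) (nat_lit 404) (nat_lit 339) (nat_lit 277)) (XT.lf (nat_lit 0) (nat_lit 1844282412) (nat_lit 76) (nat_lit 16138732919) (nat_lit 152) (nat_lit 9032311128) (nat_lit 133) (nat_lit 5) (nat_lit 134) (nat_lit 5) (nat_lit 135) (nat_lit 4) (nat_lit 405) (nat_lit 339) (nat_lit 276)))) (XT.nd (nat_lit 156) (nat_lit 304) (nat_lit 0) (XT.nd (nat_lit 78) (nat_lit 76) (nat_lit 0) (XT.lf (nat_lit 0) (nat_lit 5462942574) (nat_lit 152) (nat_lit 115668471) (nat_lit 228) (nat_lit 22292508933) (nat_lit 130) (nat_lit 5) (nat_lit 132) (nat_lit 5) (nat_lit 133) (nat_lit 5) (nat_lit 406) (nat_lit 339) (nat_lit 275)) (XT.lf (nat_lit 0) (nat_lit 9188915495) (nat_lit 76) (nat_lit 11989559911) (nat_lit 152) (nat_lit 7575188958) (nat_lit 129) (nat_lit 5) (nat_lit 130)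 (nat_lit 5) (nat_lit 131) (nat_lit 4) (nat_lit 407) (nat_lit 339) (nat_lit 274))) (XT.nd (nat_lit 78) (nat_lit 76) (nat_lit 0) (XT.lf (nat_lit 0) (nat_lit 8069517224) (nat_lit 228) (nat_lit 16506129037) (nat_lit 76) (nat_lit 5092060415) (nat_lit 126) (nat_lit 5) (nat_lit 129) (nat_lit 5) (nat_lit 127) (nat_lit 4) (nat_lit 408) (nat_lit 339) (nat_lit 273)) (XT.lf (nat_lit 0) (nat_lit 17326192015) (nat_lit 76) (nat_lit 7441594631) (nat_lit 152) (nat_lit 5844574569) (nat_lit 125) (nat_lit 5) (nat_lit 126) (nat_lit 5) (nat_lit 127) (nat_lit 4) (nat_lit 409) (nat_lit 339) (nat_lit 272))))) (XT.nd (nat_lit 234) (nat_lit 532) (nat_lit 0) (XT.nd (nat_lit 78) (nat_lit 304) (nat_lit 0) (XT.lf (nat_lit 0) (nat_lit 10911595026) (nat_lit 228) (nat_lit 9902352984) (nat_lit 76) (nat_lit 10774507602) (nat_lit 122) (nat_lit 5) (nat_lit 125) (nat_lit 5) (nat_lit 123) (nat_lit 4) (nat_lit 410) (nat_lit 339) (nat_lit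 271)) (XT.nd (nat_lit 78) (nat_lit 228) (nat_lit 0) (XT.lf (nat_lit 0) (nat_lit 26334205507) (nat_lit 76) (nat_lit 2456179807) (nat_lit 152) (nat_lit 3809062792) (nat_lit 121) (nat_lit 5) (nat_lit 122) (nat_lit 5) (nat_lit 123) (nat_lit 4) (nat_lit 411) (nat_lit 339) (nat_lit 270)) (XT.lf (nat_lit 0) (nat_lit 14140445635) (nat_lit 228) (nat_lit 2522982563) (nat_lit 76) (nat_lit 16978264917) (nat_lit 118) (nat_lit 5) (nat_lit 121) (nat_lit 5) (nat_lit 119) (nat_lit 4) (nat_lit 412) (nat_lit 339) (nat_lit 269)))) (XT.nd (nat_lit 156) (nat_lit 228) (nat_lit 0) (XT.nd (nat_lit 78) (nat_lit 152) (nat_lit 0) (XT.lf (nat_lit 0) (nat_lit 1576180241) (nat_lit 76) (nat_lit 31756801401) (nat_lit 76) (nat_lit 1389207445) (nat_lit 116) (nat_lit 4) (nat_lit 117) (nat_lit 5) (nat_lit 117) (nat_lit 4) (nat_lit 413) (nat_lit 339) (nat_lit 268)) (XT.lf (nat_lit 0) (nat_lit 5824867978) (nat_lit 76) (nat_lit 12026948920)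 (nat_lit 152) (nat_lit 17982788005) (nat_lit 114) (nat_lit 5) (nat_lit 115) (nat_lit 5) (nat_lit 116) (nat_lit 4) (nat_lit 414) (nat_lit 339) (nat_lit 267))) (XT.nd (nat_lit 78) (nat_lit 76) (nat_lit 0) (XT.lf (nat_lit 0) (nat_lit 1478713418) (nat_lit 152) (nat_lit 26569883249) (nat_lit 76) (nat_lit 8939094085) (nat_lit 112) (nat_lit 5) (nat_lit 114) (nat_lit 5) (nat_lit 113) (nat_lit 4) (nat_lit 415) (nat_lit 339) (nat_lit 266)) (XT.lf (nat_lit 0) (nat_lit 15182683595) (nat_lit 76) (nat_lit 6884066575) (nat_lit 152) (nat_lit 16110578144) (nat_lit 111) (nat_lit 5) (nat_lit 112) (nat_lit 5) (nat_lit 113) (nat_lit 4) (nat_lit 416) (nat_lit 339) (nat_lit 265))))))) (XT.nd (nat_lit 1014) (nat_lit 1292) (nat_lit 0) (XT.nd (nat_lit 468) (nat_lit 836) (nat_lit 0) (XT.nd (nat_lit 234) (nat_lit 380) (nat_lit 0) (XT.nd (nat_lit 78) (nat_lit 228) (nat_lit 0) (XT.lf (nat_lit 0) (nat_lit 4742753834) (nat_lit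 152) (nat_lit 19160566607) (nat_lit 76) (nat_lit 15504856572) (nat_lit 109) (nat_lit 5) (nat_lit 111) (nat_lit 5) (nat_lit 110) (nat_lit 4) (nat_lit 417) (nat_lit 339) (nat_lit 264)) (XT.nd (nat_lit 78) (nat_lit 152) (nat_lit 0) (XT.lf (nat_lit 0) (nat_lit 25595877342) (nat_lit 76) (nat_lit 1212235668) (nat_lit 152) (nat_lit 13872593254) (nat_lit 108) (nat_lit 5) (nat_lit 109) (nat_lit 5) (nat_lit 110) (nat_lit 4) (nat_lit 418) (nat_lit 339) (nat_lit 263)) (XT.lf (nat_lit 0) (nat_lit 8474210338) (nat_lit 152) (nat_lit 10815898414) (nat_lit 76) (nat_lit 22704368028) (nat_lit 106) (nat_lit 5) (nat_lit 108) (nat_lit 5) (nat_lit 107) (nat_lit 4) (nat_lit 419) (nat_lit 339) (nat_lit 262)))) (XT.nd (nat_lit 78) (nat_lit 304) (nat_lit 0) (XT.lf (nat_lit 0) (nat_lit 32175969773) (nat_lit 152) (nat_lit 6235591011) (nat_lit 0) (nat_lit 4942518799) (nat_lit 105) (nat_lit 5) (nat_lit 107) (nat_lit 4) (nat_lit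 105) (nat_lit 4) (nat_lit 420) (nat_lit 339) (nat_lit 261)) (XT.nd (nat_lit 78) (nat_lit 152) (nat_lit 0) (XT.lf (nat_lit 0) (nat_lit 12721074150) (nat_lit 152) (nat_lit 1439174935) (nat_lit 76) (nat_lit 30597484751) (nat_lit 103) (nat_lit 5) (nat_lit 105) (nat_lit 5) (nat_lit 104) (nat_lit 4) (nat_lit 421) (nat_lit 339) (nat_lit 260)) (XT.lf (nat_lit 0) (nat_lit 3758490053) (nat_lit 76) (nat_lit 34473249654) (nat_lit 76) (nat_lit 7977079778) (nat_lit 101) (nat_lit 4) (nat_lit 102) (nat_lit 5) (nat_lit 102) (nat_lit 4) (nat_lit 422) (nat_lit 339) (nat_lit 259))))) (XT.nd (nat_lit 234) (nat_lit 456) (nat_lit 0) (XT.nd (nat_lit 78) (nat_lit 228) (nat_lit 0) (XT.lf (nat_lit 0) (nat_lit 9255460996) (nat_lit 76) (nat_lit 8368978832) (nat_lit 152) (nat_lit 30082746951) (nat_lit 99) (nat_lit 5) (nat_lit 100) (nat_lit 5) (nat_lit 101) (nat_lit 4) (nat_lit 423) (nat_lit 339) (nat_lit 258)) (XT.nd (nat_lit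 78) (nat_lit 152) (nat_lit 0) (XT.lf (nat_lit 0) (nat_lit 15093318001) (nat_lit 76) (nat_lit 29968425221) (nat_lit 76) (nat_lit 4194739204) (nat_lit 98) (nat_lit 4) (nat_lit 99) (nat_lit 5) (nat_lit 99) (nat_lit 4) (nat_lit 424) (nat_lit 339) (nat_lit 257)) (XT.lf (nat_lit 0) (nat_lit 21255455618) (nat_lit 76) (nat_lit 1922880173) (nat_lit 152) (nat_lit 27679100747) (nat_lit 96) (nat_lit 5) (nat_lit 97) (nat_lit 5) (nat_lit 98) (nat_lit 4) (nat_lit 425) (nat_lit 339) (nat_lit 256)))) (XT.nd (nat_lit 156) (nat_lit 228) (nat_lit 0) (XT.nd (nat_lit 78) (nat_lit 76) (nat_lit 0) (XT.lf (nat_lit 0) (nat_lit 157311163) (nat_lit 152) (nat_lit 24747023905) (nat_lit 76) (nat_lit 27607636586) (nat_lit 94) (nat_lit 5) (nat_lit 96) (nat_lit 5) (nat_lit 95) (nat_lit 4) (nat_lit 426) (nat_lit 339) (nat_lit 255)) (XT.lf (nat_lit 0) (nat_lit 29481614023) (nat_lit 152) (nat_lit 19613567272) (nat_lit 0) (nat_lit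 5125775218) (nat_lit 93) (nat_lit 5) (nat_lit 95) (nat_lit 4) (nat_lit 93) (nat_lit 4) (nat_lit 427) (nat_lit 339) (nat_lit 254))) (XT.nd (nat_lit 78) (nat_lit 76) (nat_lit 0) (XT.lf (nat_lit 0) (nat_lit 5047314931) (nat_lit 152) (nat_lit 14128419545) (nat_lit 76) (nat_lit 36812219450) (nat_lit 91) (nat_lit 5) (nat_lit 93) (nat_lit 5) (nat_lit 92) (nat_lit 4) (nat_lit 428) (nat_lit 339) (nat_lit 253)) (XT.lf (nat_lit 0) (nat_lit 36578050306) (nat_lit 152) (nat_lit 8338619494) (nat_lit 0) (nat_lit 12896291312) (nat_lit 90) (nat_lit 5) (nat_lit 92) (nat_lit 4) (nat_lit 90) (nat_lit 4) (nat_lit 429) (nat_lit 339) (nat_lit 252)))))) (XT.nd (nat_lit 546) (nat_lit 380) (nat_lit 0) (XT.nd (nat_lit 234) (nat_lit 456) (nat_lit 0) (XT.nd (nat_lit 78) (nat_lit 304) (nat_lit 0) (XT.lf (nat_lit 0) (nat_lit 10620387208) (nat_lit 152) (nat_lit 2138778792) (nat_lit 76) (nat_lit 46941424646) (nat_lit 88) (nat_lit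 5) (nat_lit 90) (nat_lit 5) (nat_lit 89) (nat_lit 4) (nat_lit 430) (nat_lit 339) (nat_lit 251)) (XT.nd (nat_lit 78) (nat_lit 152) (nat_lit 0) (XT.lf (nat_lit 0) (nat_lit 4462187514) (nat_lit 76) (nat_lit 40104539919) (nat_lit 76) (nat_lit 17081443389) (nat_lit 86) (nat_lit 4) (nat_lit 87) (nat_lit 5) (nat_lit 87) (nat_lit 4) (nat_lit 431) (nat_lit 339) (nat_lit 250)) (XT.lf (nat_lit 0) (nat_lit 11587609730) (nat_lit 76) (nat_lit 5469116091) (nat_lit 152) (nat_lit 46605787498) (nat_lit 84) (nat_lit 5) (nat_lit 85) (nat_lit 5) (nat_lit 86) (nat_lit 4) (nat_lit 432) (nat_lit 339) (nat_lit 249)))) (XT.nd (nat_lit 156) (nat_lit 228) (nat_lit 0) (XT.nd (nat_lit 78) (nat_lit 152) (nat_lit 0) (XT.lf (nat_lit 0) (nat_lit 19044837810) (nat_lit 76) (nat_lit 34538265029) (nat_lit 76) (nat_lit 12158359313) (nat_lit 83) (nat_lit 4) (nat_lit 84) (nat_lit 5) (nat_lit 84) (nat_lit 4) (nat_lit 433) (nat_lit 339)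 (nat_lit 248)) (XT.lf (nat_lit 0) (nat_lit 24382947578) (nat_lit 152) (nat_lit 40866752757) (nat_lit 0) (nat_lit 2642532002) (nat_lit 81) (nat_lit 5) (nat_lit 83) (nat_lit 4) (nat_lit 81) (nat_lit 4) (nat_lit 434) (nat_lit 339) (nat_lit 247))) (XT.nd (nat_lit 78) (nat_lit 152) (nat_lit 0) (XT.lf (nat_lit 0) (nat_lit 35404878711) (nat_lit 76) (nat_lit 28230088534) (nat_lit 76) (nat_lit 6477909363) (nat_lit 80) (nat_lit 4) (nat_lit 81) (nat_lit 5) (nat_lit 81) (nat_lit 4) (nat_lit 435) (nat_lit 339) (nat_lit 246)) (XT.lf (nat_lit 0) (nat_lit 32696739317) (nat_lit 152) (nat_lit 28143505911) (nat_lit 0) (nat_lit 11567241651) (nat_lit 78) (nat_lit 5) (nat_lit 80) (nat_lit 4) (nat_lit 78) (nat_lit 4) (nat_lit 436) (nat_lit 339) (nat_lit 245))))) (XT.nd (nat_lit 45552) (nat_lit 0) (nat_lit 33364) (XT.nd (nat_lit 78) (nat_lit 228) (nat_lit 0) (XT.lf (nat_lit 0) (nat_lit 37541256) (nat_lit 152) (nat_lit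 21063648069) (nat_lit 76) (nat_lit 53680002838) (nat_lit 76) (nat_lit 5) (nat_lit 78) (nat_lit 5) (nat_lit 77) (nat_lit 4) (nat_lit 437) (nat_lit 339) (nat_lit 244)) (XT.nd (nat_lit 78) (nat_lit 152) (nat_lit 0) (XT.lf (nat_lit 0) (nat_lit 42036604241) (nat_lit 152) (nat_lit 13689751128) (nat_lit 0) (nat_lit 21502892902) (nat_lit 75) (nat_lit 5) (nat_lit 77) (nat_lit 4) (nat_lit 75) (nat_lit 4) (nat_lit 438) (nat_lit 339) (nat_lit 243)) (XT.lf (nat_lit 0) (nat_lit 7329713534) (nat_lit 152) (nat_lit 5663515250) (nat_lit 76) (nat_lit 66771128155) (nat_lit 73) (nat_lit 5) (nat_lit 75) (nat_lit 5) (nat_lit 74) (nat_lit 4) (nat_lit 439) (nat_lit 339) (nat_lit 242)))) (XT.nd (nat_lit 156) (nat_lit 380) (nat_lit 0) (XT.nd (nat_lit 78) (nat_lit 76) (nat_lit 0) (XT.lf (nat_lit 0) (nat_lit 1073741823) (nat_lit 0) (nat_lit 0) (nat_lit 0) (nat_lit 0) (nat_lit 518) (nat_lit 0) (nat_lit 1) (nat_lit 0) (nat_lit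 1) (nat_lit 0) (nat_lit 340) (nat_lit 340) (nat_lit 340)) (XT.lf (nat_lit 0) (nat_lit 5250585706) (nat_lit 76) (nat_lit 1057879537) (nat_lit 0) (nat_lit 137529402) (nat_lit 517) (nat_lit 5) (nat_lit 518) (nat_lit 0) (nat_lit 517) (nat_lit 4) (nat_lit 341) (nat_lit 340) (nat_lit 339))) (XT.nd (nat_lit 78) (nat_lit 228) (nat_lit 0) (XT.lf (nat_lit 0) (nat_lit 3935816027) (nat_lit 152) (nat_lit 1992927202) (nat_lit 76) (nat_lit 528547876) (nat_lit 515) (nat_lit 5) (nat_lit 517) (nat_lit 5) (nat_lit 516) (nat_lit 4) (nat_lit 342) (nat_lit 340) (nat_lit 338)) (XT.lf (nat_lit 0) (nat_lit 2495538505) (nat_lit 228) (nat_lit 2806619667) (nat_lit 76) (nat_lit 1174202563) (nat_lit 512) (nat_lit 5) (nat_lit 515) (nat_lit 5) (nat_lit 513) (nat_lit 5) (nat_lit 343) (nat_lit 340) (nat_lit 337))))))))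
noncomputable def xc47 : XT := (XT.nd (nat_lit 2106) (nat_lit 8208) (nat_lit 0) (XT.nd (nat_lit 1014) (nat_lit 9576) (nat_lit 0) (XT.nd (nat_lit 468) (nat_lit 6688) (nat_lit 0) (XT.nd (nat_lit 234) (nat_lit 1748) (nat_lit 0) (XT.nd (nat_lit 78) (nat_lit 760) (nat_lit 0) (XT.lf (nat_lit 0) (nat_lit 926776536) (nat_lit 304) (nat_lit 3500066189) (nat_lit 76) (nat_lit 2076395277) (nat_lit 508) (nat_lit 5) (nat_lit 512) (nat_lit 5) (nat_lit 509) (nat_lit 5) (nat_lit 344) (nat_lit 340) (nat_lit 336)) (XT.nd (nat_lit 78) (nat_lit 456) (nat_lit 0) (XT.lf (nat_lit 0) (nat_lit 2456148949) (nat_lit 304) (nat_lit 3292370132) (nat_lit 380) (nat_lit 789224828) (nat_lit 504) (nat_lit 5) (nat_lit 508) (nat_lit 5) (nat_lit 509) (nat_lit 5) (nat_lit 345) (nat_lit 340) (nat_lit 335)) (XT.lf (nat_lit 0) (nat_lit 2025448737) (nat_lit 380) (nat_lit 1892462304) (nat_lit 456) (nat_lit 2661945389) (nat_lit 498) (nat_lit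 5) (nat_lit 503) (nat_lit 5) (nat_lit 504) (nat_lit 5) (nat_lit 346) (nat_lit 340) (nat_lit 334)))) (XT.nd (nat_lit 78) (nat_lit 1216) (nat_lit 0) (XT.lf (nat_lit 0) (nat_lit 1720463056) (nat_lit 456) (nat_lit 232311349) (nat_lit 532) (nat_lit 4677149736) (nat_lit 491) (nat_lit 5) (nat_lit 497) (nat_lit 5) (nat_lit 498) (nat_lit 5) (nat_lit 347) (nat_lit 340) (nat_lit 333)) (XT.nd (nat_lit 78) (nat_lit 684) (nat_lit 0) (XT.lf (nat_lit 0) (nat_lit 1523482135) (nat_lit 532) (nat_lit 5026197611) (nat_lit 608) (nat_lit 137829734) (nat_lit 484) (nat_lit 5) (nat_lit 491) (nat_lit 5) (nat_lit 492) (nat_lit 5) (nat_lit 348) (nat_lit 340) (nat_lit 332)) (XT.lf (nat_lit 0) (nat_lit 1427332419) (nat_lit 608) (nat_lit 2915948061) (nat_lit 684) (nat_lit 2409204598) (nat_lit 475) (nat_lit 5) (nat_lit 483) (nat_lit 5) (nat_lit 484) (nat_lit 5) (nat_lit 349) (nat_lit 340) (nat_lit 331))))) (XT.nd (nat_lit 234)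 (nat_lit 4256) (nat_lit 0) (XT.nd (nat_lit 78) (nat_lit 1672) (nat_lit 0) (XT.lf (nat_lit 0) (nat_lit 1455091987) (nat_lit 684) (nat_lit 540379630) (nat_lit 760) (nat_lit 4830136454) (nat_lit 465) (nat_lit 5) (nat_lit 474) (nat_lit 5) (nat_lit 475) (nat_lit 5) (nat_lit 350) (nat_lit 340) (nat_lit 330)) (XT.nd (nat_lit 78) (nat_lit 912) (nat_lit 0) (XT.lf (nat_lit 0) (nat_lit 1582523222) (nat_lit 760) (nat_lit 4835054490) (nat_lit 836) (nat_lit 488683232) (nat_lit 455) (nat_lit 5) (nat_lit 465) (nat_lit 5) (nat_lit 466) (nat_lit 5) (nat_lit 351) (nat_lit 340) (nat_lit 329)) (XT.lf (nat_lit 0) (nat_lit 1807451239) (nat_lit 836) (nat_lit 2026322696) (nat_lit 912) (nat_lit 3160698415) (nat_lit 443) (nat_lit 5) (nat_lit 454) (nat_lit 5) (nat_lit 455) (nat_lit 5) (nat_lit 352) (nat_lit 340) (nat_lit 328)))) (XT.nd (nat_lit 156) (nat_lit 2280) (nat_lit 0) (XT.nd (nat_lit 78) (nat_lit 988) (nat_lit 0)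 (XT.lf (nat_lit 0) (nat_lit 1108616269) (nat_lit 988) (nat_lit 4943883497) (nat_lit 76) (nat_lit 1038335522) (nat_lit 430) (nat_lit 5) (nat_lit 443) (nat_lit 5) (nat_lit 431) (nat_lit 5) (nat_lit 353) (nat_lit 340) (nat_lit 327)) (XT.lf (nat_lit 0) (nat_lit 2573428716) (nat_lit 988) (nat_lit 2833672274) (nat_lit 1064) (nat_lit 1787544390) (nat_lit 417) (nat_lit 5) (nat_lit 430) (nat_lit 5) (nat_lit 431) (nat_lit 5) (nat_lit 354) (nat_lit 340) (nat_lit 326))) (XT.nd (nat_lit 78) (nat_lit 1140) (nat_lit 0) (XT.lf (nat_lit 0) (nat_lit 2441582327) (nat_lit 1140) (nat_lit 4198724266) (nat_lit 76) (nat_lit 666311253) (nat_lit 402) (nat_lit 5) (nat_lit 417) (nat_lit 5) (nat_lit 403) (nat_lit 5) (nat_lit 355) (nat_lit 340) (nat_lit 325)) (XT.lf (nat_lit 0) (nat_lit 3733801322) (nat_lit 1140) (nat_lit 3020728890) (nat_lit 1216) (nat_lit 671847751) (nat_lit 387) (nat_lit 5) (nat_lit 402) (nat_lit 5) (nat_lit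 403) (nat_lit 5) (nat_lit 356) (nat_lit 340) (nat_lit 324)))))) (XT.nd (nat_lit 546) (nat_lit 3800) (nat_lit 0) (XT.nd (nat_lit 234) (nat_lit 2964) (nat_lit 0) (XT.nd (nat_lit 78) (nat_lit 1520) (nat_lit 0) (XT.lf (nat_lit 0) (nat_lit 3555992096) (nat_lit 1292) (nat_lit 3100242768) (nat_lit 76) (nat_lit 897881343) (nat_lit 370) (nat_lit 5) (nat_lit 387) (nat_lit 5) (nat_lit 371) (nat_lit 5) (nat_lit 357) (nat_lit 340) (nat_lit 323)) (XT.nd (nat_lit 78) (nat_lit 608) (nat_lit 0) (XT.lf (nat_lit 0) (nat_lit 216753580) (nat_lit 912) (nat_lit 2417384412) (nat_lit 76) (nat_lit 5055943553) (nat_lit 358) (nat_lit 5) (nat_lit 370) (nat_lit 5) (nat_lit 359) (nat_lit 5) (nat_lit 358) (nat_lit 340) (nat_lit 322)) (XT.lf (nat_lit 0) (nat_lit 4484408704) (nat_lit 684) (nat_lit 1660042144) (nat_lit 76) (nat_lit 1689465115) (nat_lit 350) (nat_lit 5) (nat_lit 359) (nat_lit 5) (nat_lit 351) (nat_lit 5) (nat_lit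 359) (nat_lit 340) (nat_lit 321)))) (XT.nd (nat_lit 156) (nat_lit 1140) (nat_lit 0) (XT.nd (nat_lit 78) (nat_lit 1140) (nat_lit 0) (XT.lf (nat_lit 0) (nat_lit 904276510) (nat_lit 684) (nat_lit 807381640) (nat_lit 76) (nat_lit 6274714038) (nat_lit 341) (nat_lit 5) (nat_lit 350) (nat_lit 5) (nat_lit 342) (nat_lit 5) (nat_lit 360) (nat_lit 340) (nat_lit 320)) (XT.lf (nat_lit 0) (nat_lit 117268014) (nat_lit 608) (nat_lit 5140079195) (nat_lit 684) (nat_lit 2889432991) (nat_lit 326) (nat_lit 5) (nat_lit 334) (nat_lit 5) (nat_lit 335) (nat_lit 5) (nat_lit 361) (nat_lit 340) (nat_lit 319))) (XT.nd (nat_lit 78) (nat_lit 532) (nat_lit 0) (XT.lf (nat_lit 0) (nat_lit 1161603262) (nat_lit 532) (nat_lit 280803971) (nat_lit 608) (nat_lit 6873593131) (nat_lit 318) (nat_lit 5) (nat_lit 325) (nat_lit 5) (nat_lit 326) (nat_lit 5) (nat_lit 362) (nat_lit 340) (nat_lit 318)) (XT.lf (nat_lit 0) (nat_lit 2266550841) (nat_lit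 532) (nat_lit 3653323470) (nat_lit 608) (nat_lit 2573285193) (nat_lit 311) (nat_lit 5) (nat_lit 318) (nat_lit 5) (nat_lit 319) (nat_lit 5) (nat_lit 363) (nat_lit 340) (nat_lit 317))))) (XT.nd (nat_lit 234) (nat_lit 2204) (nat_lit 0) (XT.nd (nat_lit 78) (nat_lit 1064) (nat_lit 0) (XT.lf (nat_lit 0) (nat_lit 1871663475) (nat_lit 532) (nat_lit 5206748431) (nat_lit 76) (nat_lit 1601179011) (nat_lit 304) (nat_lit 5) (nat_lit 311) (nat_lit 5) (nat_lit 305) (nat_lit 5) (nat_lit 364) (nat_lit 340) (nat_lit 316)) (XT.nd (nat_lit 78) (nat_lit 532) (nat_lit 0) (XT.lf (nat_lit 0) (nat_lit 4756448129) (nat_lit 532) (nat_lit 1723618452) (nat_lit 608) (nat_lit 2394680180) (nat_lit 297) (nat_lit 5) (nat_lit 304) (nat_lit 5) (nat_lit 305) (nat_lit 5) (nat_lit 365) (nat_lit 340) (nat_lit 315)) (XT.lf (nat_lit 0) (nat_lit 2198075677) (nat_lit 532) (nat_lit 2956282682) (nat_lit 76) (nat_lit 3924580045) (nat_lit 290)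 (nat_lit 5) (nat_lit 297) (nat_lit 5) (nat_lit 291) (nat_lit 5) (nat_lit 366) (nat_lit 340) (nat_lit 314)))) (XT.nd (nat_lit 156) (nat_lit 1292) (nat_lit 0) (XT.nd (nat_lit 78) (nat_lit 456) (nat_lit 0) (XT.lf (nat_lit 0) (nat_lit 6966426909) (nat_lit 532) (nat_lit 1706355696) (nat_lit 76) (nat_lit 619981233) (nat_lit 284) (nat_lit 5) (nat_lit 291) (nat_lit 5) (nat_lit 285) (nat_lit 5) (nat_lit 367) (nat_lit 340) (nat_lit 313)) (XT.lf (nat_lit 0) (nat_lit 2439510256) (nat_lit 456) (nat_lit 394174638) (nat_lit 76) (nat_lit 6681941855) (nat_lit 278) (nat_lit 5) (nat_lit 284) (nat_lit 5) (nat_lit 279) (nat_lit 5) (nat_lit 368) (nat_lit 340) (nat_lit 312))) (XT.nd (nat_lit 78) (nat_lit 456) (nat_lit 0) (XT.lf (nat_lit 0) (nat_lit 1022678634) (nat_lit 380) (nat_lit 6401407410) (nat_lit 456) (nat_lit 2323999315) (nat_lit 267) (nat_lit 5) (nat_lit 272) (nat_lit 5) (nat_lit 273) (nat_lit 5) (nat_lit 369)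 (nat_lit 340) (nat_lit 311)) (XT.lf (nat_lit 0) (nat_lit 2538843177) (nat_lit 380) (nat_lit 100581790) (nat_lit 456) (nat_lit 7351201622) (nat_lit 261) (nat_lit 5) (nat_lit 266) (nat_lit 5) (nat_lit 267) (nat_lit 5) (nat_lit 370) (nat_lit 340) (nat_lit 310))))))) (XT.nd (nat_lit 1014) (nat_lit 3344) (nat_lit 0) (XT.nd (nat_lit 468) (nat_lit 2280) (nat_lit 0) (XT.nd (nat_lit 234) (nat_lit 1444) (nat_lit 0) (XT.nd (nat_lit 78) (nat_lit 760) (nat_lit 0) (XT.lf (nat_lit 0) (nat_lit 4117460210) (nat_lit 380) (nat_lit 3748553092) (nat_lit 456) (nat_lit 2376699580) (nat_lit 256) (nat_lit 5) (nat_lit 261) (nat_lit 5) (nat_lit 262) (nat_lit 5) (nat_lit 371) (nat_lit 340) (nat_lit 309)) (XT.nd (nat_lit 78) (nat_lit 304) (nat_lit 0) (XT.lf (nat_lit 0) (nat_lit 2827428047) (nat_lit 456) (nat_lit 4714445809) (nat_lit 76) (nat_lit 2963615362) (nat_lit 250) (nat_lit 5) (nat_lit 256) (nat_lit 5) (nat_lit 251)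 (nat_lit 5) (nat_lit 372) (nat_lit 340) (nat_lit 308)) (XT.lf (nat_lit 0) (nat_lit 7559392510) (nat_lit 304) (nat_lit 734685545) (nat_lit 380) (nat_lit 2485076273) (nat_lit 246) (nat_lit 5) (nat_lit 250) (nat_lit 5) (nat_lit 251) (nat_lit 5) (nat_lit 373) (nat_lit 340) (nat_lit 307)))) (XT.nd (nat_lit 78) (nat_lit 988) (nat_lit 0) (XT.lf (nat_lit 0) (nat_lit 2992264805) (nat_lit 456) (nat_lit 1666447633) (nat_lit 76) (nat_lit 6404456034) (nat_lit 240) (nat_lit 5) (nat_lit 246) (nat_lit 5) (nat_lit 241) (nat_lit 5) (nat_lit 374) (nat_lit 340) (nat_lit 306)) (XT.nd (nat_lit 78) (nat_lit 684) (nat_lit 0) (XT.lf (nat_lit 0) (nat_lit 8751542939) (nat_lit 380) (nat_lit 17678750) (nat_lit 76) (nat_lit 2589639538) (nat_lit 236) (nat_lit 5) (nat_lit 241) (nat_lit 5) (nat_lit 237) (nat_lit 5) (nat_lit 375) (nat_lit 340) (nat_lit 305)) (XT.lf (nat_lit 0) (nat_lit 1745428841) (nat_lit 304) (nat_lit 1420616224)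 (nat_lit 380) (nat_lit 8499461125) (nat_lit 227) (nat_lit 5) (nat_lit 231) (nat_lit 5) (nat_lit 232) (nat_lit 5) (nat_lit 376) (nat_lit 340) (nat_lit 304))))) (XT.nd (nat_lit 234) (nat_lit 1368) (nat_lit 0) (XT.nd (nat_lit 78) (nat_lit 608) (nat_lit 0) (XT.lf (nat_lit 0) (nat_lit 3585696153) (nat_lit 304) (nat_lit 5689753883) (nat_lit 380) (nat_lit 2708220011) (nat_lit 223) (nat_lit 5) (nat_lit 227) (nat_lit 5) (nat_lit 228) (nat_lit 5) (nat_lit 377) (nat_lit 340) (nat_lit 303)) (XT.nd (nat_lit 78) (nat_lit 304) (nat_lit 0) (XT.lf (nat_lit 0) (nat_lit 3388558604) (nat_lit 304) (nat_lit 6787156504) (nat_lit 76) (nat_lit 2138600808) (nat_lit 219) (nat_lit 5) (nat_lit 223) (nat_lit 5) (nat_lit 220) (nat_lit 5) (nat_lit 378) (nat_lit 340) (nat_lit 302)) (XT.lf (nat_lit 0) (nat_lit 7558168495) (nat_lit 304) (nat_lit 2286983449) (nat_lit 380) (nat_lit 2812208135) (nat_lit 215) (nat_lit 5) (nat_lit 219)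 (nat_lit 5) (nat_lit 220) (nat_lit 5) (nat_lit 379) (nat_lit 340) (nat_lit 301)))) (XT.nd (nat_lit 156) (nat_lit 760) (nat_lit 0) (XT.nd (nat_lit 78) (nat_lit 304) (nat_lit 0) (XT.lf (nat_lit 0) (nat_lit 3655361179) (nat_lit 304) (nat_lit 3338075748) (nat_lit 76) (nat_lit 6019517479) (nat_lit 211) (nat_lit 5) (nat_lit 215) (nat_lit 5) (nat_lit 212) (nat_lit 5) (nat_lit 380) (nat_lit 340) (nat_lit 300)) (XT.lf (nat_lit 0) (nat_lit 10491763618) (nat_lit 380) (nat_lit 1470299917) (nat_lit 76) (nat_lit 1420321142) (nat_lit 207) (nat_lit 5) (nat_lit 212) (nat_lit 5) (nat_lit 208) (nat_lit 5) (nat_lit 381) (nat_lit 340) (nat_lit 299))) (XT.nd (nat_lit 78) (nat_lit 228) (nat_lit 0) (XT.lf (nat_lit 0) (nat_lit 475770929) (nat_lit 228) (nat_lit 3497436761) (nat_lit 304) (nat_lit 9791466027) (nat_lit 200) (nat_lit 5) (nat_lit 203) (nat_lit 5) (nat_lit 204) (nat_lit 5) (nat_lit 382) (nat_lit 340) (nat_lit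 298)) (XT.lf (nat_lit 0) (nat_lit 2554614150) (nat_lit 228) (nat_lit 8714132453) (nat_lit 304) (nat_lit 2892022970) (nat_lit 197) (nat_lit 5) (nat_lit 200) (nat_lit 5) (nat_lit 201) (nat_lit 5) (nat_lit 383) (nat_lit 340) (nat_lit 297)))))) (XT.nd (nat_lit 546) (nat_lit 1444) (nat_lit 0) (XT.nd (nat_lit 234) (nat_lit 1064) (nat_lit 0) (XT.nd (nat_lit 78) (nat_lit 532) (nat_lit 0) (XT.lf (nat_lit 0) (nat_lit 4393442670) (nat_lit 304) (nat_lit 9827021690) (nat_lit 76) (nat_lit 351171287) (nat_lit 193) (nat_lit 5) (nat_lit 197) (nat_lit 5) (nat_lit 194) (nat_lit 5) (nat_lit 384) (nat_lit 340) (nat_lit 296)) (XT.nd (nat_lit 78) (nat_lit 304) (nat_lit 0) (XT.lf (nat_lit 0) (nat_lit 7015559885) (nat_lit 228) (nat_lit 5150341362) (nat_lit 304) (nat_lit 2830808828) (nat_lit 190) (nat_lit 5) (nat_lit 193) (nat_lit 5) (nat_lit 194) (nat_lit 5) (nat_lit 385) (nat_lit 340) (nat_lit 295)) (XT.lf (nat_lit 0)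 (nat_lit 4933415890) (nat_lit 304) (nat_lit 6036683105) (nat_lit 76) (nat_lit 4467187565) (nat_lit 186) (nat_lit 5) (nat_lit 190) (nat_lit 5) (nat_lit 187) (nat_lit 5) (nat_lit 386) (nat_lit 340) (nat_lit 294)))) (XT.nd (nat_lit 156) (nat_lit 608) (nat_lit 0) (XT.nd (nat_lit 78) (nat_lit 304) (nat_lit 0) (XT.lf (nat_lit 0) (nat_lit 11918127208) (nat_lit 152) (nat_lit 1269580158) (nat_lit 228) (nat_lit 2706531638) (nat_lit 184) (nat_lit 5) (nat_lit 186) (nat_lit 5) (nat_lit 187) (nat_lit 5) (nat_lit 387) (nat_lit 340) (nat_lit 293)) (XT.lf (nat_lit 0) (nat_lit 5576815786) (nat_lit 304) (nat_lit 1851474646) (nat_lit 76) (nat_lit 8938075456) (nat_lit 180) (nat_lit 5) (nat_lit 184) (nat_lit 5) (nat_lit 181) (nat_lit 5) (nat_lit 388) (nat_lit 340) (nat_lit 292))) (XT.nd (nat_lit 78) (nat_lit 228) (nat_lit 0) (XT.lf (nat_lit 0) (nat_lit 423611339) (nat_lit 228) (nat_lit 13962600749) (nat_lit 304) (nat_lit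 2470047406) (nat_lit 175) (nat_lit 5) (nat_lit 178) (nat_lit 5) (nat_lit 179) (nat_lit 5) (nat_lit 389) (nat_lit 340) (nat_lit 291)) (XT.lf (nat_lit 0) (nat_lit 2819958639) (nat_lit 152) (nat_lit 3548804022) (nat_lit 228) (nat_lit 10993310506) (nat_lit 172) (nat_lit 5) (nat_lit 174) (nat_lit 5) (nat_lit 175) (nat_lit 5) (nat_lit 390) (nat_lit 340) (nat_lit 290))))) (XT.nd (nat_lit 234) (nat_lit 912) (nat_lit 0) (XT.nd (nat_lit 78) (nat_lit 380) (nat_lit 0) (XT.lf (nat_lit 0) (nat_lit 5348640021) (nat_lit 152) (nat_lit 10459858560) (nat_lit 228) (nat_lit 2077643171) (nat_lit 170) (nat_lit 5) (nat_lit 172) (nat_lit 5) (nat_lit 173) (nat_lit 5) (nat_lit 391) (nat_lit 340) (nat_lit 289)) (XT.nd (nat_lit 78) (nat_lit 152) (nat_lit 0) (XT.lf (nat_lit 0) (nat_lit 7330388535) (nat_lit 228) (nat_lit 10426559311) (nat_lit 76) (nat_lit 671704000) (nat_lit 167) (nat_lit 5) (nat_lit 170) (nat_lit 5) (nat_lit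 168) (nat_lit 5) (nat_lit 392) (nat_lit 340) (nat_lit 288)) (XT.lf (nat_lit 0) (nat_lit 10775106748) (nat_lit 152) (nat_lit 6650714535) (nat_lit 228) (nat_lit 1564049990) (nat_lit 165) (nat_lit 5) (nat_lit 167) (nat_lit 5) (nat_lit 168) (nat_lit 5) (nat_lit 393) (nat_lit 340) (nat_lit 287)))) (XT.nd (nat_lit 156) (nat_lit 532) (nat_lit 0) (XT.nd (nat_lit 78) (nat_lit 152) (nat_lit 0) (XT.lf (nat_lit 0) (nat_lit 8494879703) (nat_lit 228) (nat_lit 5899280378) (nat_lit 76) (nat_lit 5176170655) (nat_lit 162) (nat_lit 5) (nat_lit 165) (nat_lit 5) (nat_lit 163) (nat_lit 5) (nat_lit 394) (nat_lit 340) (nat_lit 286)) (XT.lf (nat_lit 0) (nat_lit 16749980058) (nat_lit 152) (nat_lit 2511865199) (nat_lit 228) (nat_lit 910380257) (nat_lit 160) (nat_lit 5) (nat_lit 162) (nat_lit 5) (nat_lit 163) (nat_lit 5) (nat_lit 395) (nat_lit 340) (nat_lit 285))) (XT.nd (nat_lit 78) (nat_lit 304) (nat_lit 0) (XT.lf (nat_lit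 0) (nat_lit 9849978020) (nat_lit 228) (nat_lit 882193284) (nat_lit 76) (nat_lit 10060901980) (nat_lit 157) (nat_lit 5) (nat_lit 160) (nat_lit 5) (nat_lit 158) (nat_lit 5) (nat_lit 396) (nat_lit 340) (nat_lit 284)) (XT.lf (nat_lit 0) (nat_lit 1904426916) (nat_lit 152) (nat_lit 19474705043) (nat_lit 228) (nat_lit 58072899) (nat_lit 153) (nat_lit 5) (nat_lit 155) (nat_lit 5) (nat_lit 156) (nat_lit 4) (nat_lit 397) (nat_lit 340) (nat_lit 283))))))))
noncomputable def xc48 : XT := (XT.nd (nat_lit 2028) (nat_lit 1976) (nat_lit 0) (XT.nd (nat_lit 1014) (nat_lit 1824) (nat_lit 0) (XT.nd (nat_lit 468) (nat_lit 1140) (nat_lit 0) (XT.nd (nat_lit 234) (nat_lit 456) (nat_lit 0) (XT.nd (nat_lit 78) (nat_lit 304) (nat_lit 0) (XT.lf (nat_lit 0) (nat_lit 4765866603) (nat_lit 152) (nat_lit 6698932075) (nat_lit 228) (nat_lit 10636000390) (nat_lit 150) (nat_lit 5) (nat_lit 152) (nat_lit 5) (nat_lit 153) (nat_lit 5)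 (nat_lit 398) (nat_lit 340) (nat_lit 282)) (XT.nd (nat_lit 78) (nat_lit 152) (nat_lit 0) (XT.lf (nat_lit 0) (nat_lit 1024110977) (nat_lit 152) (nat_lit 14950690963) (nat_lit 76) (nat_lit 6814313684) (nat_lit 148) (nat_lit 5) (nat_lit 150) (nat_lit 5) (nat_lit 149) (nat_lit 5) (nat_lit 399) (nat_lit 340) (nat_lit 281)) (XT.lf (nat_lit 0) (nat_lit 11033865284) (nat_lit 152) (nat_lit 2299035627) (nat_lit 228) (nat_lit 10167218636) (nat_lit 146) (nat_lit 5) (nat_lit 148) (nat_lit 5) (nat_lit 149) (nat_lit 5) (nat_lit 400) (nat_lit 340) (nat_lit 280)))) (XT.nd (nat_lit 78) (nat_lit 304) (nat_lit 0) (XT.lf (nat_lit 0) (nat_lit 2315873775) (nat_lit 152) (nat_lit 9835769125) (nat_lit 76) (nat_lit 12084111543) (nat_lit 144) (nat_lit 5) (nat_lit 146) (nat_lit 5) (nat_lit 145) (nat_lit 5) (nat_lit 401) (nat_lit 340) (nat_lit 279)) (XT.nd (nat_lit 78) (nat_lit 152) (nat_lit 0) (XT.lf (nat_lit 0) (nat_lit 15496884756)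 (nat_lit 228) (nat_lit 7058428930) (nat_lit 76) (nat_lit 2441316302) (nat_lit 142) (nat_lit 5) (nat_lit 145) (nat_lit 5) (nat_lit 143) (nat_lit 4) (nat_lit 402) (nat_lit 340) (nat_lit 278)) (XT.lf (nat_lit 0) (nat_lit 3843474319) (nat_lit 152) (nat_lit 4132802988) (nat_lit 76) (nat_lit 17807115259) (nat_lit 140) (nat_lit 5) (nat_lit 142) (nat_lit 5) (nat_lit 141) (nat_lit 5) (nat_lit 403) (nat_lit 340) (nat_lit 277))))) (XT.nd (nat_lit 234) (nat_lit 608) (nat_lit 0) (XT.nd (nat_lit 78) (nat_lit 380) (nat_lit 0) (XT.lf (nat_lit 0) (nat_lit 17988369223) (nat_lit 228) (nat_lit 1056294531) (nat_lit 76) (nat_lit 7552078301) (nat_lit 138) (nat_lit 5) (nat_lit 141) (nat_lit 5) (nat_lit 139) (nat_lit 4) (nat_lit 404) (nat_lit 340) (nat_lit 276)) (XT.nd (nat_lit 78) (nat_lit 76) (nat_lit 0) (XT.lf (nat_lit 0) (nat_lit 2261997031) (nat_lit 152) (nat_lit 3393736737) (nat_lit 228) (nat_lit 21782336245) (nat_lit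 134) (nat_lit 5) (nat_lit 136) (nat_lit 5) (nat_lit 137) (nat_lit 5) (nat_lit 405) (nat_lit 340) (nat_lit 275)) (XT.lf (nat_lit 0) (nat_lit 5736433700) (nat_lit 76) (nat_lit 15135990088) (nat_lit 152) (nat_lit 7433961263) (nat_lit 133) (nat_lit 5) (nat_lit 134) (nat_lit 5) (nat_lit 135) (nat_lit 4) (nat_lit 406) (nat_lit 340) (nat_lit 274)))) (XT.nd (nat_lit 156) (nat_lit 304) (nat_lit 0) (XT.nd (nat_lit 78) (nat_lit 76) (nat_lit 0) (XT.lf (nat_lit 0) (nat_lit 7823586761) (nat_lit 228) (nat_lit 19756155565) (nat_lit 76) (nat_lit 1625952297) (nat_lit 130) (nat_lit 5) (nat_lit 133) (nat_lit 5) (nat_lit 131) (nat_lit 4) (nat_lit 407) (nat_lit 340) (nat_lit 273)) (XT.lf (nat_lit 0) (nat_lit 13311522006) (nat_lit 76) (nat_lit 10834625553) (nat_lit 152) (nat_lit 5987937572) (nat_lit 129) (nat_lit 5) (nat_lit 130) (nat_lit 5) (nat_lit 131) (nat_lit 4) (nat_lit 408) (nat_lit 340) (nat_lit 272))) (XT.nd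 (nat_lit 78) (nat_lit 76) (nat_lit 0) (XT.lf (nat_lit 0) (nat_lit 10359990456) (nat_lit 228) (nat_lit 13696483605) (nat_lit 76) (nat_lit 7038008028) (nat_lit 126) (nat_lit 5) (nat_lit 129) (nat_lit 5) (nat_lit 127) (nat_lit 4) (nat_lit 409) (nat_lit 340) (nat_lit 271)) (XT.lf (nat_lit 0) (nat_lit 21723258334) (nat_lit 76) (nat_lit 6113997791) (nat_lit 152) (nat_lit 4250790747) (nat_lit 125) (nat_lit 5) (nat_lit 126) (nat_lit 5) (nat_lit 127) (nat_lit 4) (nat_lit 410) (nat_lit 340) (nat_lit 270)))))) (XT.nd (nat_lit 468) (nat_lit 836) (nat_lit 0) (XT.nd (nat_lit 234) (nat_lit 380) (nat_lit 0) (XT.nd (nat_lit 78) (nat_lit 380) (nat_lit 0) (XT.lf (nat_lit 0) (nat_lit 13267698450) (nat_lit 228) (nat_lit 6894401594) (nat_lit 76) (nat_lit 12951462638) (nat_lit 122) (nat_lit 5) (nat_lit 125) (nat_lit 5) (nat_lit 123) (nat_lit 4) (nat_lit 411) (nat_lit 340) (nat_lit 269)) (XT.nd (nat_lit 78) (nat_lit 304)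 (nat_lit 0) (XT.lf (nat_lit 0) (nat_lit 31053570051) (nat_lit 76) (nat_lit 933351184) (nat_lit 152) (nat_lit 2189788778) (nat_lit 121) (nat_lit 5) (nat_lit 122) (nat_lit 5) (nat_lit 123) (nat_lit 4) (nat_lit 412) (nat_lit 340) (nat_lit 268)) (XT.lf (nat_lit 0) (nat_lit 740858068) (nat_lit 76) (nat_lit 15851296446) (nat_lit 152) (nat_lit 18679282660) (nat_lit 117) (nat_lit 5) (nat_lit 118) (nat_lit 5) (nat_lit 119) (nat_lit 4) (nat_lit 413) (nat_lit 340) (nat_lit 267)))) (XT.nd (nat_lit 78) (nat_lit 228) (nat_lit 0) (XT.lf (nat_lit 0) (nat_lit 321105338) (nat_lit 152) (nat_lit 31374420183) (nat_lit 76) (nat_lit 4710654391) (nat_lit 115) (nat_lit 5) (nat_lit 117) (nat_lit 5) (nat_lit 116) (nat_lit 4) (nat_lit 414) (nat_lit 340) (nat_lit 266)) (XT.nd (nat_lit 78) (nat_lit 152) (nat_lit 0) (XT.lf (nat_lit 0) (nat_lit 9433092385) (nat_lit 76) (nat_lit 11011113822) (nat_lit 152) (nat_lit 17131134988)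 (nat_lit 114) (nat_lit 5) (nat_lit 115) (nat_lit 5) (nat_lit 116) (nat_lit 4) (nat_lit 415) (nat_lit 340) (nat_lit 265)) (XT.lf (nat_lit 0) (nat_lit 3234096504) (nat_lit 152) (nat_lit 24608580419) (nat_lit 76) (nat_lit 10943954944) (nat_lit 112) (nat_lit 5) (nat_lit 114) (nat_lit 5) (nat_lit 113) (nat_lit 4) (nat_lit 416) (nat_lit 340) (nat_lit 264))))) (XT.nd (nat_lit 234) (nat_lit 532) (nat_lit 0) (XT.nd (nat_lit 78) (nat_lit 228) (nat_lit 0) (XT.lf (nat_lit 0) (nat_lit 19137313397) (nat_lit 76) (nat_lit 5664869831) (nat_lit 152) (nat_lit 15235048635) (nat_lit 111) (nat_lit 5) (nat_lit 112) (nat_lit 5) (nat_lit 113) (nat_lit 4) (nat_lit 417) (nat_lit 340) (nat_lit 263)) (XT.nd (nat_lit 78) (nat_lit 76) (nat_lit 0) (XT.lf (nat_lit 0) (nat_lit 6594564497) (nat_lit 152) (nat_lit 16949600615) (nat_lit 76) (nat_lit 17785980562) (nat_lit 109) (nat_lit 5) (nat_lit 111) (nat_lit 5) (nat_lit 110) (nat_lit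 4) (nat_lit 418) (nat_lit 340) (nat_lit 262)) (XT.lf (nat_lit 0) (nat_lit 29718178740) (nat_lit 152) (nat_lit 12716180626) (nat_lit 0) (nat_lit 233292409) (nat_lit 108) (nat_lit 5) (nat_lit 110) (nat_lit 4) (nat_lit 108) (nat_lit 4) (nat_lit 419) (nat_lit 340) (nat_lit 261)))) (XT.nd (nat_lit 156) (nat_lit 304) (nat_lit 0) (XT.nd (nat_lit 78) (nat_lit 76) (nat_lit 0) (XT.lf (nat_lit 0) (nat_lit 10448736433) (nat_lit 152) (nat_lit 8304340992) (nat_lit 76) (nat_lit 25294598726) (nat_lit 106) (nat_lit 5) (nat_lit 108) (nat_lit 5) (nat_lit 107) (nat_lit 4) (nat_lit 420) (nat_lit 340) (nat_lit 260)) (XT.lf (nat_lit 0) (nat_lit 35304264050) (nat_lit 152) (nat_lit 3551377819) (nat_lit 0) (nat_lit 6620556819) (nat_lit 105) (nat_lit 5) (nat_lit 107) (nat_lit 4) (nat_lit 105) (nat_lit 4) (nat_lit 421) (nat_lit 340) (nat_lit 259))) (XT.nd (nat_lit 78) (nat_lit 76) (nat_lit 0) (XT.lf (nat_lit 0) (nat_lit 1457060328)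 (nat_lit 76) (nat_lit 13403791395) (nat_lit 152) (nat_lit 32089657089) (nat_lit 102) (nat_lit 5) (nat_lit 103) (nat_lit 5) (nat_lit 104) (nat_lit 4) (nat_lit 422) (nat_lit 340) (nat_lit 258)) (XT.lf (nat_lit 0) (nat_lit 6889172296) (nat_lit 76) (nat_lit 34742216239) (nat_lit 76) (nat_lit 6843230069) (nat_lit 101) (nat_lit 4) (nat_lit 102) (nat_lit 5) (nat_lit 102) (nat_lit 4) (nat_lit 423) (nat_lit 340) (nat_lit 257))))))) (XT.nd (nat_lit 1014) (nat_lit 380) (nat_lit 0) (XT.nd (nat_lit 468) (nat_lit 836) (nat_lit 0) (XT.nd (nat_lit 234) (nat_lit 380) (nat_lit 0) (XT.nd (nat_lit 78) (nat_lit 228) (nat_lit 0) (XT.lf (nat_lit 0) (nat_lit 12605689473) (nat_lit 76) (nat_lit 7358961790) (nat_lit 152) (nat_lit 30084125172) (nat_lit 99) (nat_lit 5) (nat_lit 100) (nat_lit 5) (nat_lit 101) (nat_lit 4) (nat_lit 424) (nat_lit 340) (nat_lit 256)) (XT.nd (nat_lit 78) (nat_lit 152) (nat_lit 0) (XT.lf (nat_lit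 0) (nat_lit 18681848348) (nat_lit 76) (nat_lit 30062814048) (nat_lit 76) (nat_lit 2931749191) (nat_lit 98) (nat_lit 4) (nat_lit 99) (nat_lit 5) (nat_lit 99) (nat_lit 4) (nat_lit 425) (nat_lit 340) (nat_lit 255)) (XT.lf (nat_lit 0) (nat_lit 25098775123) (nat_lit 76) (nat_lit 640433169) (nat_lit 152) (nat_lit 27619041401) (nat_lit 96) (nat_lit 5) (nat_lit 97) (nat_lit 5) (nat_lit 98) (nat_lit 4) (nat_lit 426) (nat_lit 340) (nat_lit 254)))) (XT.nd (nat_lit 78) (nat_lit 228) (nat_lit 0) (XT.lf (nat_lit 0) (nat_lit 1552829016) (nat_lit 152) (nat_lit 23227934118) (nat_lit 76) (nat_lit 30315177534) (nat_lit 94) (nat_lit 5) (nat_lit 96) (nat_lit 5) (nat_lit 95) (nat_lit 4) (nat_lit 427) (nat_lit 340) (nat_lit 253)) (XT.nd (nat_lit 78) (nat_lit 152) (nat_lit 0) (XT.lf (nat_lit 0) (nat_lit 32315791318) (nat_lit 152) (nat_lit 17889184063) (nat_lit 0) (nat_lit 6686226060) (nat_lit 93) (nat_lit 5) (nat_lit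 95) (nat_lit 4) (nat_lit 93) (nat_lit 4) (nat_lit 428) (nat_lit 340) (nat_lit 252)) (XT.lf (nat_lit 0) (nat_lit 6633343235) (nat_lit 152) (nat_lit 12180776496) (nat_lit 76) (nat_lit 39933222015) (nat_lit 91) (nat_lit 5) (nat_lit 93) (nat_lit 5) (nat_lit 92) (nat_lit 4) (nat_lit 429) (nat_lit 340) (nat_lit 251))))) (XT.nd (nat_lit 234) (nat_lit 456) (nat_lit 0) (XT.nd (nat_lit 78) (nat_lit 304) (nat_lit 0) (XT.lf (nat_lit 0) (nat_lit 39714222274) (nat_lit 152) (nat_lit 6151050036) (nat_lit 0) (nat_lit 14799118774) (nat_lit 90) (nat_lit 5) (nat_lit 92) (nat_lit 4) (nat_lit 90) (nat_lit 4) (nat_lit 430) (nat_lit 340) (nat_lit 250)) (XT.nd (nat_lit 78) (nat_lit 76) (nat_lit 0) (XT.lf (nat_lit 0) (nat_lit 315800030) (nat_lit 76) (nat_lit 12120546818) (nat_lit 152) (nat_lit 50210725122) (nat_lit 87) (nat_lit 5) (nat_lit 88) (nat_lit 5) (nat_lit 89) (nat_lit 4) (nat_lit 431) (nat_lit 340) (nat_lit 249))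 (XT.lf (nat_lit 0) (nat_lit 7242755869) (nat_lit 76) (nat_lit 40833507370) (nat_lit 76) (nat_lit 16615880141) (nat_lit 86) (nat_lit 4) (nat_lit 87) (nat_lit 5) (nat_lit 87) (nat_lit 4) (nat_lit 432) (nat_lit 340) (nat_lit 248)))) (XT.nd (nat_lit 156) (nat_lit 228) (nat_lit 0) (XT.nd (nat_lit 78) (nat_lit 76) (nat_lit 0) (XT.lf (nat_lit 0) (nat_lit 14676152845) (nat_lit 76) (nat_lit 4489799899) (nat_lit 152) (nat_lit 47641994522) (nat_lit 84) (nat_lit 5) (nat_lit 85) (nat_lit 5) (nat_lit 86) (nat_lit 4) (nat_lit 433) (nat_lit 340) (nat_lit 247)) (XT.lf (nat_lit 0) (nat_lit 22459231761) (nat_lit 76) (nat_lit 35034725400) (nat_lit 76) (nat_lit 11497627123) (nat_lit 83) (nat_lit 4) (nat_lit 84) (nat_lit 5) (nat_lit 84) (nat_lit 4) (nat_lit 434) (nat_lit 340) (nat_lit 246))) (XT.nd (nat_lit 78) (nat_lit 76) (nat_lit 0) (XT.lf (nat_lit 0) (nat_lit 26821586083) (nat_lit 152) (nat_lit 40469842203) (nat_lit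 0) (nat_lit 3958830933) (nat_lit 81) (nat_lit 5) (nat_lit 83) (nat_lit 4) (nat_lit 81) (nat_lit 4) (nat_lit 435) (nat_lit 340) (nat_lit 245)) (XT.lf (nat_lit 0) (nat_lit 39545421614) (nat_lit 76) (nat_lit 28455498878) (nat_lit 76) (nat_lit 5582073800) (nat_lit 80) (nat_lit 4) (nat_lit 81) (nat_lit 5) (nat_lit 81) (nat_lit 4) (nat_lit 436) (nat_lit 340) (nat_lit 244)))))) (XT.nd (nat_lit 45942) (nat_lit 0) (nat_lit 29564) (XT.nd (nat_lit 45630) (nat_lit 0) (nat_lit 32832) (XT.nd (nat_lit 78) (nat_lit 228) (nat_lit 0) (XT.lf (nat_lit 0) (nat_lit 35504101233) (nat_lit 152) (nat_lit 27201557683) (nat_lit 0) (nat_lit 13287026559) (nat_lit 78) (nat_lit 5) (nat_lit 80) (nat_lit 4) (nat_lit 78) (nat_lit 4) (nat_lit 437) (nat_lit 340) (nat_lit 243)) (XT.nd (nat_lit 78) (nat_lit 76) (nat_lit 0) (XT.lf (nat_lit 0) (nat_lit 1189316182) (nat_lit 152) (nat_lit 19812158880) (nat_lit 76) (nat_lit 57484279772)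 (nat_lit 76) (nat_lit 5) (nat_lit 78) (nat_lit 5) (nat_lit 77) (nat_lit 4) (nat_lit 438) (nat_lit 340) (nat_lit 242)) (XT.lf (nat_lit 0) (nat_lit 45265879010) (nat_lit 152) (nat_lit 12112915109) (nat_lit 0) (nat_lit 23678093227) (nat_lit 75) (nat_lit 5) (nat_lit 77) (nat_lit 4) (nat_lit 75) (nat_lit 4) (nat_lit 439) (nat_lit 340) (nat_lit 241)))) (XT.nd (nat_lit 156) (nat_lit 304) (nat_lit 0) (XT.nd (nat_lit 78) (nat_lit 228) (nat_lit 0) (XT.lf (nat_lit 0) (nat_lit 1902157132) (nat_lit 228) (nat_lit 662275846) (nat_lit 228) (nat_lit 662275846) (nat_lit 514) (nat_lit 3) (nat_lit 517) (nat_lit 3) (nat_lit 517) (nat_lit 5) (nat_lit 341) (nat_lit 341) (nat_lit 338)) (XT.lf (nat_lit 0) (nat_lit 2233435613) (nat_lit 228) (nat_lit 2389408840) (nat_lit 304) (nat_lit 1845818259) (nat_lit 511) (nat_lit 5) (nat_lit 514) (nat_lit 3) (nat_lit 515) (nat_lit 5) (nat_lit 342) (nat_lit 341) (nat_lit 337))) (XT.nd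 (nat_lit 78) (nat_lit 0) (nat_lit 0) (XT.lf (nat_lit 0) (nat_lit 535029725) (nat_lit 304) (nat_lit 3333517827) (nat_lit 380) (nat_lit 2623209893) (nat_lit 507) (nat_lit 5) (nat_lit 511) (nat_lit 5) (nat_lit 512) (nat_lit 5) (nat_lit 343) (nat_lit 341) (nat_lit 336)) (XT.lf (nat_lit 76) (nat_lit 2351747623) (nat_lit 0) (nat_lit 2850657978) (nat_lit 380) (nat_lit 1319957410) (nat_lit 508) (nat_lit 5) (nat_lit 507) (nat_lit 5) (nat_lit 512) (nat_lit 5) (nat_lit 344) (nat_lit 341) (nat_lit 335))))) (XT.nd (nat_lit 234) (nat_lit 2052) (nat_lit 0) (XT.nd (nat_lit 78) (nat_lit 836) (nat_lit 0) (XT.lf (nat_lit 76) (nat_lit 1665462436) (nat_lit 0) (nat_lit 1572484261) (nat_lit 456) (nat_lit 3322772536) (nat_lit 503) (nat_lit 5) (nat_lit 502) (nat_lit 5) (nat_lit 508) (nat_lit 5) (nat_lit 345) (nat_lit 341) (nat_lit 334)) (XT.nd (nat_lit 78) (nat_lit 380) (nat_lit 0) (XT.lf (nat_lit 76) (nat_lit 1104507309)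 (nat_lit 0) (nat_lit 35630160) (nat_lit 532) (nat_lit 5466915317) (nat_lit 497) (nat_lit 5) (nat_lit 496) (nat_lit 5) (nat_lit 503) (nat_lit 5) (nat_lit 346) (nat_lit 341) (nat_lit 333)) (XT.lf (nat_lit 0) (nat_lit 640625210) (nat_lit 456) (nat_lit 4920003543) (nat_lit 532) (nat_lit 1099992627) (nat_lit 491) (nat_lit 5) (nat_lit 497) (nat_lit 5) (nat_lit 498) (nat_lit 5) (nat_lit 347) (nat_lit 341) (nat_lit 332)))) (XT.nd (nat_lit 156) (nat_lit 760) (nat_lit 0) (XT.nd (nat_lit 78) (nat_lit 684) (nat_lit 0) (XT.lf (nat_lit 0) (nat_lit 286731633) (nat_lit 532) (nat_lit 2929802399) (nat_lit 608) (nat_lit 3505351249) (nat_lit 483) (nat_lit 5) (nat_lit 490) (nat_lit 5) (nat_lit 491) (nat_lit 5) (nat_lit 348) (nat_lit 341) (nat_lit 331)) (XT.lf (nat_lit 0) (nat_lit 55458143) (nat_lit 608) (nat_lit 676931741) (nat_lit 684) (nat_lit 6058910043) (nat_lit 474) (nat_lit 5) (nat_lit 482) (nat_lit 5) (nat_lit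 483) (nat_lit 5) (nat_lit 349) (nat_lit 341) (nat_lit 330))) (XT.nd (nat_lit 78) (nat_lit 760) (nat_lit 0) (XT.lf (nat_lit 0) (nat_lit 4951685028) (nat_lit 684) (nat_lit 87550786) (nat_lit 76) (nat_lit 1828643408) (nat_lit 474) (nat_lit 5) (nat_lit 483) (nat_lit 5) (nat_lit 475) (nat_lit 5) (nat_lit 350) (nat_lit 341) (nat_lit 329)) (XT.lf (nat_lit 0) (nat_lit 2227155048) (nat_lit 760) (nat_lit 124526546) (nat_lit 76) (nat_lit 4600674463) (nat_lit 464) (nat_lit 5) (nat_lit 474) (nat_lit 5) (nat_lit 465) (nat_lit 5) (nat_lit 351) (nat_lit 341) (nat_lit 328))))))))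
noncomputable def xc49 : XT := (XT.nd (nat_lit 2106) (nat_lit 6460) (nat_lit 0) (XT.nd (nat_lit 1014) (nat_lit 6688) (nat_lit 0) (XT.nd (nat_lit 468) (nat_lit 4560) (nat_lit 0) (XT.nd (nat_lit 234) (nat_lit 3496) (nat_lit 0) (XT.nd (nat_lit 78) (nat_lit 2888) (nat_lit 0) (XT.lf (nat_lit 0) (nat_lit 6389542841) (nat_lit 836) (nat_lit 53293221) (nat_lit 76) (nat_lit 602106477) (nat_lit 454) (nat_lit 5) (nat_lit 465) (nat_lit 5) (nat_lit 455) (nat_lit 5) (nat_lit 352) (nat_lit 341) (nat_lit 327)) (XT.nd (nat_lit 78) (nat_lit 1064) (nat_lit 0) (XT.lf (nat_lit 0) (nat_lit 93463870) (nat_lit 912) (nat_lit 3335043379) (nat_lit 988) (nat_lit 3716171365) (nat_lit 430) (nat_lit 5) (nat_lit 442) (nat_lit 5) (nat_lit 443) (nat_lit 5) (nat_lit 353) (nat_lit 341) (nat_lit 326)) (XT.lf (nat_lit 0) (nat_lit 312786151) (nat_lit 1064) (nat_lit 6889139729) (nat_lit 76) (nat_lit 51116229) (nat_lit 416) (nat_lit 5)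 (nat_lit 430) (nat_lit 5) (nat_lit 417) (nat_lit 5) (nat_lit 354) (nat_lit 341) (nat_lit 325)))) (XT.nd (nat_lit 78) (nat_lit 2432) (nat_lit 0) (XT.lf (nat_lit 0) (nat_lit 694818782) (nat_lit 1064) (nat_lit 3683889426) (nat_lit 1140) (nat_lit 2989640576) (nat_lit 402) (nat_lit 5) (nat_lit 416) (nat_lit 5) (nat_lit 417) (nat_lit 5) (nat_lit 355) (nat_lit 341) (nat_lit 324)) (XT.nd (nat_lit 78) (nat_lit 1216) (nat_lit 0) (XT.lf (nat_lit 0) (nat_lit 1023778315) (nat_lit 1216) (nat_lit 6346582588) (nat_lit 76) (nat_lit 122089420) (nat_lit 386) (nat_lit 5) (nat_lit 402) (nat_lit 5) (nat_lit 387) (nat_lit 5) (nat_lit 356) (nat_lit 341) (nat_lit 323)) (XT.lf (nat_lit 0) (nat_lit 1660581829) (nat_lit 1216) (nat_lit 3450405887) (nat_lit 1292) (nat_lit 2512832713) (nat_lit 370) (nat_lit 5) (nat_lit 386) (nat_lit 5) (nat_lit 387) (nat_lit 5) (nat_lit 357) (nat_lit 341) (nat_lit 322))))) (XT.nd (nat_lit 234)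 (nat_lit 2356) (nat_lit 0) (XT.nd (nat_lit 78) (nat_lit 1292) (nat_lit 0) (XT.lf (nat_lit 0) (nat_lit 1521619669) (nat_lit 912) (nat_lit 5479657753) (nat_lit 76) (nat_lit 762623277) (nat_lit 358) (nat_lit 5) (nat_lit 370) (nat_lit 5) (nat_lit 359) (nat_lit 5) (nat_lit 358) (nat_lit 341) (nat_lit 321)) (XT.nd (nat_lit 78) (nat_lit 684) (nat_lit 0) (XT.lf (nat_lit 0) (nat_lit 2979401930) (nat_lit 608) (nat_lit 2676792535) (nat_lit 684) (nat_lit 2255533060) (nat_lit 350) (nat_lit 5) (nat_lit 358) (nat_lit 5) (nat_lit 359) (nat_lit 5) (nat_lit 359) (nat_lit 341) (nat_lit 320)) (XT.lf (nat_lit 0) (nat_lit 1834708178) (nat_lit 684) (nat_lit 4297989934) (nat_lit 76) (nat_lit 1935436015) (nat_lit 341) (nat_lit 5) (nat_lit 350) (nat_lit 5) (nat_lit 342) (nat_lit 5) (nat_lit 360) (nat_lit 341) (nat_lit 319)))) (XT.nd (nat_lit 156) (nat_lit 1140) (nat_lit 0) (XT.nd (nat_lit 78) (nat_lit 684) (nat_lit 0) (XT.lf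 (nat_lit 0) (nat_lit 4644685879) (nat_lit 532) (nat_lit 1397375510) (nat_lit 608) (nat_lit 2190852277) (nat_lit 334) (nat_lit 5) (nat_lit 341) (nat_lit 5) (nat_lit 342) (nat_lit 5) (nat_lit 361) (nat_lit 341) (nat_lit 318)) (XT.lf (nat_lit 0) (nat_lit 1988511942) (nat_lit 684) (nat_lit 2806834580) (nat_lit 76) (nat_lit 3610751176) (nat_lit 325) (nat_lit 5) (nat_lit 334) (nat_lit 5) (nat_lit 326) (nat_lit 5) (nat_lit 362) (nat_lit 341) (nat_lit 317))) (XT.nd (nat_lit 78) (nat_lit 608) (nat_lit 0) (XT.lf (nat_lit 0) (nat_lit 6297105870) (nat_lit 608) (nat_lit 1937600228) (nat_lit 76) (nat_lit 353616936) (nat_lit 318) (nat_lit 5) (nat_lit 326) (nat_lit 5) (nat_lit 319) (nat_lit 5) (nat_lit 363) (nat_lit 341) (nat_lit 316)) (XT.lf (nat_lit 0) (nat_lit 2005973401) (nat_lit 608) (nat_lit 1007347390) (nat_lit 76) (nat_lit 5765619931) (nat_lit 310) (nat_lit 5) (nat_lit 318) (nat_lit 5) (nat_lit 311) (nat_lit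 5) (nat_lit 364) (nat_lit 341) (nat_lit 315)))))) (XT.nd (nat_lit 546) (nat_lit 2964) (nat_lit 0) (XT.nd (nat_lit 234) (nat_lit 1748) (nat_lit 0) (XT.nd (nat_lit 78) (nat_lit 988) (nat_lit 0) (XT.lf (nat_lit 0) (nat_lit 6126163) (nat_lit 532) (nat_lit 6452383581) (nat_lit 608) (nat_lit 2520262825) (nat_lit 297) (nat_lit 5) (nat_lit 304) (nat_lit 5) (nat_lit 305) (nat_lit 5) (nat_lit 365) (nat_lit 341) (nat_lit 314)) (XT.nd (nat_lit 78) (nat_lit 456) (nat_lit 0) (XT.lf (nat_lit 0) (nat_lit 1125155374) (nat_lit 456) (nat_lit 793530836) (nat_lit 532) (nat_lit 7269001939) (nat_lit 290) (nat_lit 5) (nat_lit 296) (nat_lit 5) (nat_lit 297) (nat_lit 5) (nat_lit 366) (nat_lit 341) (nat_lit 313)) (XT.lf (nat_lit 0) (nat_lit 2305791013) (nat_lit 456) (nat_lit 4249703705) (nat_lit 532) (nat_lit 2849965148) (nat_lit 284) (nat_lit 5) (nat_lit 290) (nat_lit 5) (nat_lit 291) (nat_lit 5) (nat_lit 367) (nat_lit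 341) (nat_lit 312)))) (XT.nd (nat_lit 156) (nat_lit 836) (nat_lit 0) (XT.nd (nat_lit 78) (nat_lit 456) (nat_lit 0) (XT.lf (nat_lit 0) (nat_lit 1765580259) (nat_lit 456) (nat_lit 6050114506) (nat_lit 76) (nat_lit 1817594603) (nat_lit 278) (nat_lit 5) (nat_lit 284) (nat_lit 5) (nat_lit 279) (nat_lit 5) (nat_lit 368) (nat_lit 341) (nat_lit 311)) (XT.lf (nat_lit 0) (nat_lit 4931385328) (nat_lit 456) (nat_lit 1656845272) (nat_lit 532) (nat_lit 3282375142) (nat_lit 272) (nat_lit 5) (nat_lit 278) (nat_lit 5) (nat_lit 279) (nat_lit 5) (nat_lit 369) (nat_lit 341) (nat_lit 310))) (XT.nd (nat_lit 78) (nat_lit 380) (nat_lit 0) (XT.lf (nat_lit 0) (nat_lit 1548016230) (nat_lit 456) (nat_lit 3754638478) (nat_lit 76) (nat_lit 4815320667) (nat_lit 266) (nat_lit 5) (nat_lit 272) (nat_lit 5) (nat_lit 267) (nat_lit 5) (nat_lit 370) (nat_lit 341) (nat_lit 309)) (XT.lf (nat_lit 0) (nat_lit 6587306795) (nat_lit 456)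 (nat_lit 2493706267) (nat_lit 76) (nat_lit 1294667538) (nat_lit 261) (nat_lit 5) (nat_lit 267) (nat_lit 5) (nat_lit 262) (nat_lit 5) (nat_lit 371) (nat_lit 341) (nat_lit 308))))) (XT.nd (nat_lit 234) (nat_lit 1368) (nat_lit 0) (XT.nd (nat_lit 78) (nat_lit 1140) (nat_lit 0) (XT.lf (nat_lit 0) (nat_lit 1274577492) (nat_lit 456) (nat_lit 1156585502) (nat_lit 76) (nat_lit 8212762734) (nat_lit 255) (nat_lit 5) (nat_lit 261) (nat_lit 5) (nat_lit 256) (nat_lit 5) (nat_lit 372) (nat_lit 341) (nat_lit 307)) (XT.nd (nat_lit 78) (nat_lit 456) (nat_lit 0) (XT.lf (nat_lit 0) (nat_lit 248412303) (nat_lit 304) (nat_lit 6330496409) (nat_lit 380) (nat_lit 4343551689) (nat_lit 246) (nat_lit 5) (nat_lit 250) (nat_lit 5) (nat_lit 251) (nat_lit 5) (nat_lit 373) (nat_lit 341) (nat_lit 306)) (XT.lf (nat_lit 0) (nat_lit 985601678) (nat_lit 456) (nat_lit 9426394476) (nat_lit 76) (nat_lit 800547934) (nat_lit 240) (nat_lit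 5) (nat_lit 246) (nat_lit 5) (nat_lit 241) (nat_lit 5) (nat_lit 374) (nat_lit 341) (nat_lit 305)))) (XT.nd (nat_lit 156) (nat_lit 684) (nat_lit 0) (XT.nd (nat_lit 78) (nat_lit 380) (nat_lit 0) (XT.lf (nat_lit 0) (nat_lit 3371175055) (nat_lit 304) (nat_lit 3217301613) (nat_lit 380) (nat_lit 4924452269) (nat_lit 236) (nat_lit 5) (nat_lit 240) (nat_lit 5) (nat_lit 241) (nat_lit 5) (nat_lit 375) (nat_lit 341) (nat_lit 304)) (XT.lf (nat_lit 0) (nat_lit 712114622) (nat_lit 380) (nat_lit 6758710218) (nat_lit 76) (nat_lit 4354877635) (nat_lit 231) (nat_lit 5) (nat_lit 236) (nat_lit 5) (nat_lit 232) (nat_lit 5) (nat_lit 376) (nat_lit 341) (nat_lit 303))) (XT.nd (nat_lit 78) (nat_lit 380) (nat_lit 0) (XT.lf (nat_lit 0) (nat_lit 6609641863) (nat_lit 380) (nat_lit 5307097369) (nat_lit 76) (nat_lit 233483431) (nat_lit 227) (nat_lit 5) (nat_lit 232) (nat_lit 5) (nat_lit 228) (nat_lit 5) (nat_lit 377) (nat_lit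 341) (nat_lit 302)) (XT.lf (nat_lit 0) (nat_lit 433520219) (nat_lit 380) (nat_lit 3777812241) (nat_lit 76) (nat_lit 8275691279) (nat_lit 222) (nat_lit 5) (nat_lit 227) (nat_lit 5) (nat_lit 223) (nat_lit 5) (nat_lit 378) (nat_lit 341) (nat_lit 301))))))) (XT.nd (nat_lit 1014) (nat_lit 2660) (nat_lit 0) (XT.nd (nat_lit 468) (nat_lit 1900) (nat_lit 0) (XT.nd (nat_lit 234) (nat_lit 760) (nat_lit 0) (XT.nd (nat_lit 78) (nat_lit 912) (nat_lit 0) (XT.lf (nat_lit 0) (nat_lit 6689900341) (nat_lit 304) (nat_lit 2180886233) (nat_lit 76) (nat_lit 3965287724) (nat_lit 219) (nat_lit 5) (nat_lit 223) (nat_lit 5) (nat_lit 220) (nat_lit 5) (nat_lit 379) (nat_lit 341) (nat_lit 300)) (XT.nd (nat_lit 78) (nat_lit 532) (nat_lit 0) (XT.lf (nat_lit 0) (nat_lit 163743934) (nat_lit 380) (nat_lit 461025256) (nat_lit 76) (nat_lit 12574542152) (nat_lit 214) (nat_lit 5) (nat_lit 219) (nat_lit 5) (nat_lit 215) (nat_lit 5) (nat_lit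 380) (nat_lit 341) (nat_lit 299)) (XT.lf (nat_lit 0) (nat_lit 1317809894) (nat_lit 304) (nat_lit 5508669373) (nat_lit 380) (nat_lit 6747472358) (nat_lit 207) (nat_lit 5) (nat_lit 211) (nat_lit 5) (nat_lit 212) (nat_lit 5) (nat_lit 381) (nat_lit 341) (nat_lit 298)))) (XT.nd (nat_lit 78) (nat_lit 532) (nat_lit 0) (XT.lf (nat_lit 0) (nat_lit 3248384964) (nat_lit 228) (nat_lit 10695084252) (nat_lit 304) (nat_lit 20221172) (nat_lit 204) (nat_lit 5) (nat_lit 207) (nat_lit 5) (nat_lit 208) (nat_lit 5) (nat_lit 382) (nat_lit 341) (nat_lit 297)) (XT.nd (nat_lit 78) (nat_lit 228) (nat_lit 0) (XT.lf (nat_lit 0) (nat_lit 5241677362) (nat_lit 228) (nat_lit 1805664445) (nat_lit 304) (nat_lit 7319301384) (nat_lit 200) (nat_lit 5) (nat_lit 203) (nat_lit 5) (nat_lit 204) (nat_lit 5) (nat_lit 383) (nat_lit 341) (nat_lit 296)) (XT.lf (nat_lit 0) (nat_lit 7354893368) (nat_lit 228) (nat_lit 7277841252) (nat_lit 304)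 (nat_lit 152056910) (nat_lit 197) (nat_lit 5) (nat_lit 200) (nat_lit 5) (nat_lit 201) (nat_lit 5) (nat_lit 384) (nat_lit 341) (nat_lit 295))))) (XT.nd (nat_lit 234) (nat_lit 1064) (nat_lit 0) (XT.nd (nat_lit 78) (nat_lit 532) (nat_lit 0) (XT.lf (nat_lit 0) (nat_lit 7368703760) (nat_lit 304) (nat_lit 5660791072) (nat_lit 76) (nat_lit 2188054929) (nat_lit 193) (nat_lit 5) (nat_lit 197) (nat_lit 5) (nat_lit 194) (nat_lit 5) (nat_lit 385) (nat_lit 341) (nat_lit 294)) (XT.nd (nat_lit 78) (nat_lit 304) (nat_lit 0) (XT.lf (nat_lit 0) (nat_lit 11890410937) (nat_lit 228) (nat_lit 3551643965) (nat_lit 304) (nat_lit 224454919) (nat_lit 190) (nat_lit 5) (nat_lit 193) (nat_lit 5) (nat_lit 194) (nat_lit 5) (nat_lit 386) (nat_lit 341) (nat_lit 293)) (XT.lf (nat_lit 0) (nat_lit 7806468912) (nat_lit 304) (nat_lit 1831445744) (nat_lit 76) (nat_lit 6492444765) (nat_lit 186) (nat_lit 5) (nat_lit 190) (nat_lit 5) (nat_lit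 187) (nat_lit 5) (nat_lit 387) (nat_lit 341) (nat_lit 292)))) (XT.nd (nat_lit 156) (nat_lit 456) (nat_lit 0) (XT.nd (nat_lit 78) (nat_lit 228) (nat_lit 0) (XT.lf (nat_lit 0) (nat_lit 279903792) (nat_lit 228) (nat_lit 16118098733) (nat_lit 304) (nat_lit 214421134) (nat_lit 181) (nat_lit 5) (nat_lit 184) (nat_lit 5) (nat_lit 185) (nat_lit 5) (nat_lit 388) (nat_lit 341) (nat_lit 291)) (XT.lf (nat_lit 0) (nat_lit 2463246495) (nat_lit 152) (nat_lit 5921151474) (nat_lit 228) (nat_lit 8724423972) (nat_lit 178) (nat_lit 5) (nat_lit 180) (nat_lit 5) (nat_lit 181) (nat_lit 5) (nat_lit 389) (nat_lit 341) (nat_lit 290))) (XT.nd (nat_lit 78) (nat_lit 228) (nat_lit 0) (XT.lf (nat_lit 0) (nat_lit 4819853457) (nat_lit 228) (nat_lit 12771579483) (nat_lit 304) (nat_lit 33062221) (nat_lit 175) (nat_lit 5) (nat_lit 178) (nat_lit 5) (nat_lit 179) (nat_lit 5) (nat_lit 390) (nat_lit 341) (nat_lit 289)) (XT.lf (nat_lit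 0) (nat_lit 7259139978) (nat_lit 152) (nat_lit 1860352080) (nat_lit 228) (nat_lit 9037716029) (nat_lit 172) (nat_lit 5) (nat_lit 174) (nat_lit 5) (nat_lit 175) (nat_lit 5) (nat_lit 391) (nat_lit 341) (nat_lit 288)))))) (XT.nd (nat_lit 546) (nat_lit 1140) (nat_lit 0) (XT.nd (nat_lit 234) (nat_lit 912) (nat_lit 0) (XT.nd (nat_lit 78) (nat_lit 380) (nat_lit 0) (XT.lf (nat_lit 0) (nat_lit 258747120) (nat_lit 228) (nat_lit 8867255687) (nat_lit 76) (nat_lit 9583144047) (nat_lit 169) (nat_lit 5) (nat_lit 172) (nat_lit 5) (nat_lit 170) (nat_lit 5) (nat_lit 392) (nat_lit 341) (nat_lit 287)) (XT.nd (nat_lit 78) (nat_lit 228) (nat_lit 0) (XT.lf (nat_lit 0) (nat_lit 10037953632) (nat_lit 228) (nat_lit 6742199965) (nat_lit 76) (nat_lit 2499699471) (nat_lit 167) (nat_lit 5) (nat_lit 170) (nat_lit 5) (nat_lit 168) (nat_lit 5) (nat_lit 393) (nat_lit 341) (nat_lit 286)) (XT.lf (nat_lit 0) (nat_lit 681093589) (nat_lit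 228) (nat_lit 4478982928) (nat_lit 76) (nat_lit 14711022915) (nat_lit 164) (nat_lit 5) (nat_lit 167) (nat_lit 5) (nat_lit 165) (nat_lit 5) (nat_lit 394) (nat_lit 341) (nat_lit 285)))) (XT.nd (nat_lit 156) (nat_lit 380) (nat_lit 0) (XT.nd (nat_lit 78) (nat_lit 380) (nat_lit 0) (XT.lf (nat_lit 0) (nat_lit 11157604575) (nat_lit 228) (nat_lit 2132516422) (nat_lit 76) (nat_lit 7191586850) (nat_lit 162) (nat_lit 5) (nat_lit 165) (nat_lit 5) (nat_lit 163) (nat_lit 5) (nat_lit 395) (nat_lit 341) (nat_lit 284)) (XT.lf (nat_lit 0) (nat_lit 412786758) (nat_lit 152) (nat_lit 844748531) (nat_lit 228) (nat_lit 19857733716) (nat_lit 157) (nat_lit 5) (nat_lit 159) (nat_lit 5) (nat_lit 160) (nat_lit 5) (nat_lit 396) (nat_lit 341) (nat_lit 283))) (XT.nd (nat_lit 78) (nat_lit 228) (nat_lit 0) (XT.lf (nat_lit 0) (nat_lit 3054747990) (nat_lit 152) (nat_lit 9457656795) (nat_lit 228) (nat_lit 9255224327) (nat_lit 155)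 (nat_lit 5) (nat_lit 157) (nat_lit 5) (nat_lit 158) (nat_lit 5) (nat_lit 397) (nat_lit 341) (nat_lit 282)) (XT.lf (nat_lit 0) (nat_lit 2091003095) (nat_lit 228) (nat_lit 16534685512) (nat_lit 76) (nat_lit 3818870385) (nat_lit 152) (nat_lit 5) (nat_lit 155) (nat_lit 5) (nat_lit 153) (nat_lit 5) (nat_lit 398) (nat_lit 341) (nat_lit 281))))) (XT.nd (nat_lit 234) (nat_lit 684) (nat_lit 0) (XT.nd (nat_lit 78) (nat_lit 304) (nat_lit 0) (XT.lf (nat_lit 0) (nat_lit 8864387043) (nat_lit 152) (nat_lit 5259129640) (nat_lit 228) (nat_lit 9019757995) (nat_lit 150) (nat_lit 5) (nat_lit 152) (nat_lit 5) (nat_lit 153) (nat_lit 5) (nat_lit 399) (nat_lit 341) (nat_lit 280)) (XT.nd (nat_lit 78) (nat_lit 152) (nat_lit 0) (XT.lf (nat_lit 0) (nat_lit 3134388777) (nat_lit 152) (nat_lit 11863471465) (nat_lit 76) (nat_lit 8868938996) (nat_lit 148) (nat_lit 5) (nat_lit 150) (nat_lit 5) (nat_lit 149) (nat_lit 5) (nat_lit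 400) (nat_lit 341) (nat_lit 279)) (XT.lf (nat_lit 0) (nat_lit 15310390138) (nat_lit 152) (nat_lit 685982369) (nat_lit 228) (nat_lit 8618848220) (nat_lit 146) (nat_lit 5) (nat_lit 148) (nat_lit 5) (nat_lit 149) (nat_lit 5) (nat_lit 401) (nat_lit 341) (nat_lit 278)))) (XT.nd (nat_lit 156) (nat_lit 380) (nat_lit 0) (XT.nd (nat_lit 78) (nat_lit 152) (nat_lit 0) (XT.lf (nat_lit 0) (nat_lit 4403744025) (nat_lit 152) (nat_lit 6628196213) (nat_lit 76) (nat_lit 14356439629) (nat_lit 144) (nat_lit 5) (nat_lit 146) (nat_lit 5) (nat_lit 145) (nat_lit 5) (nat_lit 402) (nat_lit 341) (nat_lit 277)) (XT.lf (nat_lit 0) (nat_lit 18200593393) (nat_lit 228) (nat_lit 3776804237) (nat_lit 76) (nat_lit 4211197925) (nat_lit 142) (nat_lit 5) (nat_lit 145) (nat_lit 5) (nat_lit 143) (nat_lit 4) (nat_lit 403) (nat_lit 341) (nat_lit 276))) (XT.nd (nat_lit 78) (nat_lit 228) (nat_lit 0) (XT.lf (nat_lit 0) (nat_lit 5925122009)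 (nat_lit 152) (nat_lit 771476295) (nat_lit 76) (nat_lit 20319279671) (nat_lit 140) (nat_lit 5) (nat_lit 142) (nat_lit 5) (nat_lit 141) (nat_lit 5) (nat_lit 404) (nat_lit 341) (nat_lit 275)) (XT.lf (nat_lit 0) (nat_lit 2443553230) (nat_lit 76) (nat_lit 18316232982) (nat_lit 152) (nat_lit 7110632992) (nat_lit 137) (nat_lit 5) (nat_lit 138) (nat_lit 5) (nat_lit 139) (nat_lit 4) (nat_lit 405) (nat_lit 341) (nat_lit 274))))))))
noncomputable def xc50 : XT := (XT.nd (nat_lit 2106) (nat_lit 836) (nat_lit 0) (XT.nd (nat_lit 1014) (nat_lit 1824) (nat_lit 0) (XT.nd (nat_lit 468) (nat_lit 1064) (nat_lit 0) (XT.nd (nat_lit 234) (nat_lit 380) (nat_lit 0) (XT.nd (nat_lit 78) (nat_lit 304) (nat_lit 0) (XT.lf (nat_lit 0) (nat_lit 5884122810) (nat_lit 152) (nat_lit 1899094688) (nat_lit 228) (nat_lit 20971415103) (nat_lit 134) (nat_lit 5) (nat_lit 136) (nat_lit 5) (nat_lit 137) (nat_lit 5) (nat_lit 406) (nat_lit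 341) (nat_lit 273)) (XT.nd (nat_lit 78) (nat_lit 228) (nat_lit 0) (XT.lf (nat_lit 0) (nat_lit 9469910413) (nat_lit 76) (nat_lit 14251356960) (nat_lit 152) (nat_lit 5946280260) (nat_lit 133) (nat_lit 5) (nat_lit 134) (nat_lit 5) (nat_lit 135) (nat_lit 4) (nat_lit 407) (nat_lit 341) (nat_lit 272)) (XT.lf (nat_lit 0) (nat_lit 9999085947) (nat_lit 228) (nat_lit 17323316413) (nat_lit 76) (nat_lit 3290047398) (nat_lit 130) (nat_lit 5) (nat_lit 133) (nat_lit 5) (nat_lit 131) (nat_lit 4) (nat_lit 408) (nat_lit 341) (nat_lit 271)))) (XT.nd (nat_lit 78) (nat_lit 304) (nat_lit 0) (XT.lf (nat_lit 0) (nat_lit 17299692879) (nat_lit 76) (nat_lit 9785053108) (nat_lit 152) (nat_lit 4504104669) (nat_lit 129) (nat_lit 5) (nat_lit 130) (nat_lit 5) (nat_lit 131) (nat_lit 4) (nat_lit 409) (nat_lit 341) (nat_lit 270)) (XT.nd (nat_lit 78) (nat_lit 76) (nat_lit 0) (XT.lf (nat_lit 0) (nat_lit 12589552220) (nat_lit 228)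 (nat_lit 11084299274) (nat_lit 76) (nat_lit 8924007833) (nat_lit 126) (nat_lit 5) (nat_lit 129) (nat_lit 5) (nat_lit 127) (nat_lit 4) (nat_lit 410) (nat_lit 341) (nat_lit 269)) (XT.lf (nat_lit 0) (nat_lit 26011921675) (nat_lit 76) (nat_lit 4878040926) (nat_lit 152) (nat_lit 2752661304) (nat_lit 125) (nat_lit 5) (nat_lit 126) (nat_lit 5) (nat_lit 127) (nat_lit 4) (nat_lit 411) (nat_lit 341) (nat_lit 268))))) (XT.nd (nat_lit 234) (nat_lit 456) (nat_lit 0) (XT.nd (nat_lit 78) (nat_lit 380) (nat_lit 0) (XT.lf (nat_lit 0) (nat_lit 15573281715) (nat_lit 228) (nat_lit 4061734791) (nat_lit 76) (nat_lit 15084958360) (nat_lit 122) (nat_lit 5) (nat_lit 125) (nat_lit 5) (nat_lit 123) (nat_lit 4) (nat_lit 412) (nat_lit 341) (nat_lit 267)) (XT.nd (nat_lit 78) (nat_lit 304) (nat_lit 0) (XT.lf (nat_lit 0) (nat_lit 35184860843) (nat_lit 152) (nat_lit 150106904) (nat_lit 0) (nat_lit 502619960) (nat_lit 121) (nat_lit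 5) (nat_lit 123) (nat_lit 4) (nat_lit 121) (nat_lit 4) (nat_lit 413) (nat_lit 341) (nat_lit 266)) (XT.lf (nat_lit 0) (nat_lit 3900542853) (nat_lit 76) (nat_lit 15127258820) (nat_lit 152) (nat_lit 17959026176) (nat_lit 117) (nat_lit 5) (nat_lit 118) (nat_lit 5) (nat_lit 119) (nat_lit 4) (nat_lit 414) (nat_lit 341) (nat_lit 265)))) (XT.nd (nat_lit 156) (nat_lit 228) (nat_lit 0) (XT.nd (nat_lit 78) (nat_lit 76) (nat_lit 0) (XT.lf (nat_lit 0) (nat_lit 1925649760) (nat_lit 152) (nat_lit 29845755706) (nat_lit 76) (nat_lit 6407428768) (nat_lit 115) (nat_lit 5) (nat_lit 117) (nat_lit 5) (nat_lit 116) (nat_lit 4) (nat_lit 415) (nat_lit 341) (nat_lit 264)) (XT.lf (nat_lit 0) (nat_lit 12913346558) (nat_lit 76) (nat_lit 10094837273) (nat_lit 152) (nat_lit 16399671404) (nat_lit 114) (nat_lit 5) (nat_lit 115) (nat_lit 5) (nat_lit 116) (nat_lit 4) (nat_lit 416) (nat_lit 341) (nat_lit 263))) (XT.nd (nat_lit 78)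 (nat_lit 76) (nat_lit 0) (XT.lf (nat_lit 0) (nat_lit 4920923701) (nat_lit 152) (nat_lit 22855066590) (nat_lit 76) (nat_lit 12904219499) (nat_lit 112) (nat_lit 5) (nat_lit 114) (nat_lit 5) (nat_lit 113) (nat_lit 4) (nat_lit 417) (nat_lit 341) (nat_lit 262)) (XT.lf (nat_lit 0) (nat_lit 22992587794) (nat_lit 76) (nat_lit 4530063370) (nat_lit 152) (nat_lit 14472031529) (nat_lit 111) (nat_lit 5) (nat_lit 112) (nat_lit 5) (nat_lit 113) (nat_lit 4) (nat_lit 418) (nat_lit 341) (nat_lit 261)))))) (XT.nd (nat_lit 546) (nat_lit 912) (nat_lit 0) (XT.nd (nat_lit 234) (nat_lit 532) (nat_lit 0) (XT.nd (nat_lit 78) (nat_lit 228) (nat_lit 0) (XT.lf (nat_lit 0) (nat_lit 8388848706) (nat_lit 152) (nat_lit 14922709378) (nat_lit 76) (nat_lit 20041158195) (nat_lit 109) (nat_lit 5) (nat_lit 111) (nat_lit 5) (nat_lit 110) (nat_lit 4) (nat_lit 419) (nat_lit 341) (nat_lit 260)) (XT.nd (nat_lit 78) (nat_lit 152) (nat_lit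 0) (XT.lf (nat_lit 0) (nat_lit 32638913498) (nat_lit 152) (nat_lit 10530534460) (nat_lit 0) (nat_lit 1588541631) (nat_lit 108) (nat_lit 5) (nat_lit 110) (nat_lit 4) (nat_lit 108) (nat_lit 4) (nat_lit 420) (nat_lit 341) (nat_lit 259)) (XT.lf (nat_lit 0) (nat_lit 12377808699) (nat_lit 152) (nat_lit 5950984488) (nat_lit 76) (nat_lit 27879067708) (nat_lit 106) (nat_lit 5) (nat_lit 108) (nat_lit 5) (nat_lit 107) (nat_lit 4) (nat_lit 421) (nat_lit 341) (nat_lit 258)))) (XT.nd (nat_lit 156) (nat_lit 228) (nat_lit 0) (XT.nd (nat_lit 78) (nat_lit 228) (nat_lit 0) (XT.lf (nat_lit 0) (nat_lit 38447704726) (nat_lit 152) (nat_lit 1011492975) (nat_lit 0) (nat_lit 8249464098) (nat_lit 105) (nat_lit 5) (nat_lit 107) (nat_lit 4) (nat_lit 105) (nat_lit 4) (nat_lit 422) (nat_lit 341) (nat_lit 257)) (XT.lf (nat_lit 0) (nat_lit 4249431289) (nat_lit 76) (nat_lit 12731822568) (nat_lit 152) (nat_lit 32275459609) (nat_lit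 102) (nat_lit 5) (nat_lit 103) (nat_lit 5) (nat_lit 104) (nat_lit 4) (nat_lit 423) (nat_lit 341) (nat_lit 256))) (XT.nd (nat_lit 78) (nat_lit 152) (nat_lit 0) (XT.lf (nat_lit 0) (nat_lit 9902798930) (nat_lit 76) (nat_lit 35159874990) (nat_lit 76) (nat_lit 5795184136) (nat_lit 101) (nat_lit 4) (nat_lit 102) (nat_lit 5) (nat_lit 102) (nat_lit 4) (nat_lit 424) (nat_lit 341) (nat_lit 255)) (XT.lf (nat_lit 0) (nat_lit 15854981137) (nat_lit 76) (nat_lit 6431249123) (nat_lit 152) (nat_lit 30225284603) (nat_lit 99) (nat_lit 5) (nat_lit 100) (nat_lit 5) (nat_lit 101) (nat_lit 4) (nat_lit 425) (nat_lit 341) (nat_lit 254))))) (XT.nd (nat_lit 234) (nat_lit 532) (nat_lit 0) (XT.nd (nat_lit 78) (nat_lit 304) (nat_lit 0) (XT.lf (nat_lit 0) (nat_lit 22186339357) (nat_lit 76) (nat_lit 30292455944) (nat_lit 76) (nat_lit 1742529872) (nat_lit 98) (nat_lit 4) (nat_lit 99) (nat_lit 5) (nat_lit 99) (nat_lit 4) (nat_lit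 426) (nat_lit 341) (nat_lit 253)) (XT.nd (nat_lit 78) (nat_lit 152) (nat_lit 0) (XT.lf (nat_lit 0) (nat_lit 28303339645) (nat_lit 152) (nat_lit 27117817779) (nat_lit 0) (nat_lit 566689625) (nat_lit 96) (nat_lit 5) (nat_lit 98) (nat_lit 4) (nat_lit 96) (nat_lit 4) (nat_lit 427) (nat_lit 341) (nat_lit 252)) (XT.lf (nat_lit 0) (nat_lit 2889112004) (nat_lit 152) (nat_lit 21889157598) (nat_lit 76) (nat_lit 33034708853) (nat_lit 94) (nat_lit 5) (nat_lit 96) (nat_lit 5) (nat_lit 95) (nat_lit 4) (nat_lit 428) (nat_lit 341) (nat_lit 251)))) (XT.nd (nat_lit 156) (nat_lit 304) (nat_lit 0) (XT.nd (nat_lit 78) (nat_lit 152) (nat_lit 0) (XT.lf (nat_lit 0) (nat_lit 35165228588) (nat_lit 152) (nat_lit 16330072679) (nat_lit 0) (nat_lit 8203450815) (nat_lit 93) (nat_lit 5) (nat_lit 95) (nat_lit 4) (nat_lit 93) (nat_lit 4) (nat_lit 429) (nat_lit 341) (nat_lit 250)) (XT.lf (nat_lit 0) (nat_lit 8174681650) (nat_lit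 152) (nat_lit 10382501012) (nat_lit 76) (nat_lit 43091236033) (nat_lit 91) (nat_lit 5) (nat_lit 93) (nat_lit 5) (nat_lit 92) (nat_lit 4) (nat_lit 430) (nat_lit 341) (nat_lit 249))) (XT.nd (nat_lit 78) (nat_lit 228) (nat_lit 0) (XT.lf (nat_lit 0) (nat_lit 42885665317) (nat_lit 152) (nat_lit 4096243868) (nat_lit 0) (nat_lit 16680129495) (nat_lit 90) (nat_lit 5) (nat_lit 92) (nat_lit 4) (nat_lit 90) (nat_lit 4) (nat_lit 431) (nat_lit 341) (nat_lit 248)) (XT.lf (nat_lit 0) (nat_lit 2695501096) (nat_lit 76) (nat_lit 11548111729) (nat_lit 152) (nat_lit 51500249284) (nat_lit 87) (nat_lit 5) (nat_lit 88) (nat_lit 5) (nat_lit 89) (nat_lit 4) (nat_lit 432) (nat_lit 341) (nat_lit 247))))))) (XT.nd (nat_lit 46488) (nat_lit 0) (nat_lit 19608) (XT.nd (nat_lit 468) (nat_lit 152) (nat_lit 0) (XT.nd (nat_lit 234) (nat_lit 380) (nat_lit 0) (XT.nd (nat_lit 78) (nat_lit 228) (nat_lit 0) (XT.lf (nat_lit 0) (nat_lit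 9924584346) (nat_lit 76) (nat_lit 41717577709) (nat_lit 76) (nat_lit 16249725924) (nat_lit 86) (nat_lit 4) (nat_lit 87) (nat_lit 5) (nat_lit 87) (nat_lit 4) (nat_lit 433) (nat_lit 341) (nat_lit 246)) (XT.nd (nat_lit 78) (nat_lit 76) (nat_lit 0) (XT.lf (nat_lit 0) (nat_lit 17685844958) (nat_lit 76) (nat_lit 3577988764) (nat_lit 152) (nat_lit 48850323408) (nat_lit 84) (nat_lit 5) (nat_lit 85) (nat_lit 5) (nat_lit 86) (nat_lit 4) (nat_lit 434) (nat_lit 341) (nat_lit 245)) (XT.lf (nat_lit 0) (nat_lit 25815437849) (nat_lit 76) (nat_lit 35670404636) (nat_lit 76) (nat_lit 10921805389) (nat_lit 83) (nat_lit 4) (nat_lit 84) (nat_lit 5) (nat_lit 84) (nat_lit 4) (nat_lit 435) (nat_lit 341) (nat_lit 244)))) (XT.nd (nat_lit 78) (nat_lit 228) (nat_lit 0) (XT.lf (nat_lit 0) (nat_lit 29268779788) (nat_lit 152) (nat_lit 40279957268) (nat_lit 0) (nat_lit 5230851693) (nat_lit 81) (nat_lit 5) (nat_lit 83) (nat_lit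 4) (nat_lit 81) (nat_lit 4) (nat_lit 436) (nat_lit 341) (nat_lit 243)) (XT.nd (nat_lit 78) (nat_lit 152) (nat_lit 0) (XT.lf (nat_lit 0) (nat_lit 43672623731) (nat_lit 76) (nat_lit 28802451524) (nat_lit 76) (nat_lit 4754845490) (nat_lit 80) (nat_lit 4) (nat_lit 81) (nat_lit 5) (nat_lit 81) (nat_lit 4) (nat_lit 437) (nat_lit 341) (nat_lit 242)) (XT.lf (nat_lit 0) (nat_lit 38342820988) (nat_lit 152) (nat_lit 26430911282) (nat_lit 0) (nat_lit 14986682038) (nat_lit 78) (nat_lit 5) (nat_lit 80) (nat_lit 4) (nat_lit 78) (nat_lit 4) (nat_lit 438) (nat_lit 341) (nat_lit 241))))) (XT.nd (nat_lit 45708) (nat_lit 0) (nat_lit 31388) (XT.nd (nat_lit 45552) (nat_lit 0) (nat_lit 32680) (XT.lf (nat_lit 0) (nat_lit 2291773250) (nat_lit 152) (nat_lit 18712361752) (nat_lit 76) (nat_lit 61374617836) (nat_lit 76) (nat_lit 5) (nat_lit 78) (nat_lit 5) (nat_lit 77) (nat_lit 4) (nat_lit 439) (nat_lit 341) (nat_lit 240))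 (XT.nd (nat_lit 78) (nat_lit 0) (nat_lit 0) (XT.lf (nat_lit 0) (nat_lit 202287422) (nat_lit 380) (nat_lit 1520839517) (nat_lit 380) (nat_lit 1520839517) (nat_lit 506) (nat_lit 3) (nat_lit 511) (nat_lit 3) (nat_lit 511) (nat_lit 5) (nat_lit 342) (nat_lit 342) (nat_lit 336)) (XT.lf (nat_lit 76) (nat_lit 2381955483) (nat_lit 0) (nat_lit 2547788712) (nat_lit 380) (nat_lit 1584935391) (nat_lit 507) (nat_lit 5) (nat_lit 506) (nat_lit 3) (nat_lit 511) (nat_lit 5) (nat_lit 343) (nat_lit 342) (nat_lit 335)))) (XT.nd (nat_lit 156) (nat_lit 532) (nat_lit 0) (XT.nd (nat_lit 78) (nat_lit 380) (nat_lit 0) (XT.lf (nat_lit 76) (nat_lit 1439270195) (nat_lit 0) (nat_lit 1391485589) (nat_lit 456) (nat_lit 3718495091) (nat_lit 502) (nat_lit 5) (nat_lit 501) (nat_lit 5) (nat_lit 507) (nat_lit 5) (nat_lit 344) (nat_lit 342) (nat_lit 334)) (XT.lf (nat_lit 0) (nat_lit 599898940) (nat_lit 456) (nat_lit 5970351396) (nat_lit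 532) (nat_lit 21571658) (nat_lit 496) (nat_lit 5) (nat_lit 502) (nat_lit 5) (nat_lit 503) (nat_lit 5) (nat_lit 345) (nat_lit 342) (nat_lit 333))) (XT.nd (nat_lit 78) (nat_lit 532) (nat_lit 0) (XT.lf (nat_lit 0) (nat_lit 4856077195) (nat_lit 456) (nat_lit 103431256) (nat_lit 532) (nat_lit 1681945656) (nat_lit 496) (nat_lit 5) (nat_lit 502) (nat_lit 5) (nat_lit 503) (nat_lit 5) (nat_lit 346) (nat_lit 342) (nat_lit 332)) (XT.lf (nat_lit 0) (nat_lit 2379744340) (nat_lit 532) (nat_lit 703479717) (nat_lit 608) (nat_lit 3615596967) (nat_lit 489) (nat_lit 5) (nat_lit 496) (nat_lit 5) (nat_lit 497) (nat_lit 5) (nat_lit 347) (nat_lit 342) (nat_lit 331)))))) (XT.nd (nat_lit 546) (nat_lit 7220) (nat_lit 0) (XT.nd (nat_lit 234) (nat_lit 3344) (nat_lit 0) (XT.nd (nat_lit 78) (nat_lit 1216) (nat_lit 0) (XT.lf (nat_lit 76) (nat_lit 5577580693) (nat_lit 0) (nat_lit 945677996) (nat_lit 608) (nat_lit 241055447) (nat_lit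 490) (nat_lit 5) (nat_lit 489) (nat_lit 5) (nat_lit 497) (nat_lit 5) (nat_lit 348) (nat_lit 342) (nat_lit 330)) (XT.nd (nat_lit 78) (nat_lit 684) (nat_lit 0) (XT.lf (nat_lit 0) (nat_lit 3794199460) (nat_lit 608) (nat_lit 1589061285) (nat_lit 76) (nat_lit 1453690327) (nat_lit 482) (nat_lit 5) (nat_lit 490) (nat_lit 5) (nat_lit 483) (nat_lit 5) (nat_lit 349) (nat_lit 342) (nat_lit 329)) (XT.lf (nat_lit 0) (nat_lit 930963041) (nat_lit 684) (nat_lit 1883460647) (nat_lit 76) (nat_lit 4103215580) (nat_lit 473) (nat_lit 5) (nat_lit 482) (nat_lit 5) (nat_lit 474) (nat_lit 5) (nat_lit 350) (nat_lit 342) (nat_lit 328)))) (XT.nd (nat_lit 156) (nat_lit 1824) (nat_lit 0) (XT.nd (nat_lit 78) (nat_lit 836) (nat_lit 0) (XT.lf (nat_lit 0) (nat_lit 4883330498) (nat_lit 760) (nat_lit 2080219419) (nat_lit 76) (nat_lit 42621296) (nat_lit 464) (nat_lit 5) (nat_lit 474) (nat_lit 5) (nat_lit 465) (nat_lit 5) (nat_lit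 351) (nat_lit 342) (nat_lit 327)) (XT.lf (nat_lit 0) (nat_lit 1778263723) (nat_lit 836) (nat_lit 2197154618) (nat_lit 76) (nat_lit 3126699033) (nat_lit 453) (nat_lit 5) (nat_lit 464) (nat_lit 5) (nat_lit 454) (nat_lit 5) (nat_lit 352) (nat_lit 342) (nat_lit 326))) (XT.nd (nat_lit 78) (nat_lit 988) (nat_lit 0) (XT.lf (nat_lit 0) (nat_lit 4995839302) (nat_lit 836) (nat_lit 698995976) (nat_lit 912) (nat_lit 1511465553) (nat_lit 442) (nat_lit 5) (nat_lit 453) (nat_lit 5) (nat_lit 454) (nat_lit 5) (nat_lit 353) (nat_lit 342) (nat_lit 325)) (XT.lf (nat_lit 0) (nat_lit 2344004772) (nat_lit 988) (nat_lit 2149876267) (nat_lit 76) (nat_lit 2824061461) (nat_lit 429) (nat_lit 5) (nat_lit 442) (nat_lit 5) (nat_lit 430) (nat_lit 5) (nat_lit 354) (nat_lit 342) (nat_lit 324))))) (XT.nd (nat_lit 234) (nat_lit 3952) (nat_lit 0) (XT.nd (nat_lit 78) (nat_lit 2280) (nat_lit 0) (XT.lf (nat_lit 0) (nat_lit 5449503678)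 (nat_lit 988) (nat_lit 803142357) (nat_lit 1064) (nat_lit 1185321563) (nat_lit 416) (nat_lit 5) (nat_lit 429) (nat_lit 5) (nat_lit 430) (nat_lit 5) (nat_lit 355) (nat_lit 342) (nat_lit 323)) (XT.nd (nat_lit 78) (nat_lit 1140) (nat_lit 0) (XT.lf (nat_lit 0) (nat_lit 2662216733) (nat_lit 1140) (nat_lit 1760511302) (nat_lit 76) (nat_lit 3142740930) (nat_lit 401) (nat_lit 5) (nat_lit 416) (nat_lit 5) (nat_lit 402) (nat_lit 5) (nat_lit 356) (nat_lit 342) (nat_lit 322)) (XT.lf (nat_lit 0) (nat_lit 6271445162) (nat_lit 1140) (nat_lit 317718697) (nat_lit 1216) (nat_lit 1112483081) (nat_lit 386) (nat_lit 5) (nat_lit 401) (nat_lit 5) (nat_lit 402) (nat_lit 5) (nat_lit 357) (nat_lit 342) (nat_lit 321)))) (XT.nd (nat_lit 156) (nat_lit 1824) (nat_lit 0) (XT.nd (nat_lit 78) (nat_lit 836) (nat_lit 0) (XT.lf (nat_lit 0) (nat_lit 2763066492) (nat_lit 1292) (nat_lit 1042908067) (nat_lit 76) (nat_lit 4039296129)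 (nat_lit 369) (nat_lit 5) (nat_lit 386) (nat_lit 5) (nat_lit 370) (nat_lit 5) (nat_lit 358) (nat_lit 342) (nat_lit 320)) (XT.lf (nat_lit 0) (nat_lit 6740522913) (nat_lit 912) (nat_lit 554100925) (nat_lit 76) (nat_lit 703187228) (nat_lit 358) (nat_lit 5) (nat_lit 370) (nat_lit 5) (nat_lit 359) (nat_lit 5) (nat_lit 359) (nat_lit 342) (nat_lit 319))) (XT.nd (nat_lit 78) (nat_lit 1140) (nat_lit 0) (XT.lf (nat_lit 0) (nat_lit 2673353951) (nat_lit 684) (nat_lit 6261042) (nat_lit 76) (nat_lit 5478518396) (nat_lit 349) (nat_lit 5) (nat_lit 358) (nat_lit 5) (nat_lit 350) (nat_lit 5) (nat_lit 360) (nat_lit 342) (nat_lit 318)) (XT.lf (nat_lit 0) (nat_lit 644255699) (nat_lit 532) (nat_lit 6095927050) (nat_lit 608) (nat_lit 1586945910) (nat_lit 334) (nat_lit 5) (nat_lit 341) (nat_lit 5) (nat_lit 342) (nat_lit 5) (nat_lit 361) (nat_lit 342) (nat_lit 317))))))))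
noncomputable def xc51 : XT := (XT.nd (nat_lit 2106) (nat_lit 5092) (nat_lit 0) (XT.nd (nat_lit 1014) (nat_lit 4712) (nat_lit 0) (XT.nd (nat_lit 468) (nat_lit 3344) (nat_lit 0) (XT.nd (nat_lit 234) (nat_lit 1520) (nat_lit 0) (XT.nd (nat_lit 78) (nat_lit 1140) (nat_lit 0) (XT.lf (nat_lit 0) (nat_lit 1371329520) (nat_lit 608) (nat_lit 1058805703) (nat_lit 684) (nat_lit 6074518277) (nat_lit 325) (nat_lit 5) (nat_lit 333) (nat_lit 5) (nat_lit 334) (nat_lit 5) (nat_lit 362) (nat_lit 342) (nat_lit 316)) (XT.nd (nat_lit 78) (nat_lit 608) (nat_lit 0) (XT.lf (nat_lit 0) (nat_lit 2169988360) (nat_lit 532) (nat_lit 4440590001) (nat_lit 608) (nat_lit 2080144998) (nat_lit 318) (nat_lit 5) (nat_lit 325) (nat_lit 5) (nat_lit 326) (nat_lit 5) (nat_lit 363) (nat_lit 342) (nat_lit 315)) (XT.lf (nat_lit 0) (nat_lit 2054545992) (nat_lit 608) (nat_lit 5827490448) (nat_lit 76) (nat_lit 1003995162) (nat_lit 310) (nat_lit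 5) (nat_lit 318) (nat_lit 5) (nat_lit 311) (nat_lit 5) (nat_lit 364) (nat_lit 342) (nat_lit 314)))) (XT.nd (nat_lit 78) (nat_lit 1064) (nat_lit 0) (XT.lf (nat_lit 0) (nat_lit 4013453804) (nat_lit 456) (nat_lit 2353799933) (nat_lit 532) (nat_lit 2722804569) (nat_lit 304) (nat_lit 5) (nat_lit 310) (nat_lit 5) (nat_lit 311) (nat_lit 5) (nat_lit 365) (nat_lit 342) (nat_lit 313)) (XT.nd (nat_lit 78) (nat_lit 456) (nat_lit 0) (XT.lf (nat_lit 0) (nat_lit 1570333305) (nat_lit 608) (nat_lit 4249895372) (nat_lit 76) (nat_lit 3483296523) (nat_lit 296) (nat_lit 5) (nat_lit 304) (nat_lit 5) (nat_lit 297) (nat_lit 5) (nat_lit 366) (nat_lit 342) (nat_lit 312)) (XT.lf (nat_lit 0) (nat_lit 6030754635) (nat_lit 532) (nat_lit 3348227694) (nat_lit 76) (nat_lit 147606204) (nat_lit 290) (nat_lit 5) (nat_lit 297) (nat_lit 5) (nat_lit 291) (nat_lit 5) (nat_lit 367) (nat_lit 342) (nat_lit 311))))) (XT.nd (nat_lit 234)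 (nat_lit 1900) (nat_lit 0) (XT.nd (nat_lit 78) (nat_lit 912) (nat_lit 0) (XT.lf (nat_lit 0) (nat_lit 984572960) (nat_lit 532) (nat_lit 2384936382) (nat_lit 76) (nat_lit 6389527200) (nat_lit 283) (nat_lit 5) (nat_lit 290) (nat_lit 5) (nat_lit 284) (nat_lit 5) (nat_lit 368) (nat_lit 342) (nat_lit 310)) (XT.nd (nat_lit 78) (nat_lit 532) (nat_lit 0) (XT.lf (nat_lit 0) (nat_lit 5643708166) (nat_lit 456) (nat_lit 1353534890) (nat_lit 76) (nat_lit 3004015314) (nat_lit 278) (nat_lit 5) (nat_lit 284) (nat_lit 5) (nat_lit 279) (nat_lit 5) (nat_lit 369) (nat_lit 342) (nat_lit 309)) (XT.lf (nat_lit 0) (nat_lit 313014890) (nat_lit 532) (nat_lit 223780944) (nat_lit 76) (nat_lit 9717566430) (nat_lit 271) (nat_lit 5) (nat_lit 278) (nat_lit 5) (nat_lit 272) (nat_lit 5) (nat_lit 370) (nat_lit 342) (nat_lit 308)))) (XT.nd (nat_lit 156) (nat_lit 760) (nat_lit 0) (XT.nd (nat_lit 78) (nat_lit 380) (nat_lit 0) (XT.lf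 (nat_lit 0) (nat_lit 959418793) (nat_lit 380) (nat_lit 4249459710) (nat_lit 456) (nat_lit 5307491796) (nat_lit 261) (nat_lit 5) (nat_lit 266) (nat_lit 5) (nat_lit 267) (nat_lit 5) (nat_lit 371) (nat_lit 342) (nat_lit 307)) (XT.lf (nat_lit 0) (nat_lit 2259857044) (nat_lit 380) (nat_lit 8140602415) (nat_lit 456) (nat_lit 389491552) (nat_lit 256) (nat_lit 5) (nat_lit 261) (nat_lit 5) (nat_lit 262) (nat_lit 5) (nat_lit 372) (nat_lit 342) (nat_lit 306))) (XT.nd (nat_lit 78) (nat_lit 304) (nat_lit 0) (XT.lf (nat_lit 0) (nat_lit 3618962675) (nat_lit 380) (nat_lit 1129564648) (nat_lit 456) (nat_lit 6325288064) (nat_lit 250) (nat_lit 5) (nat_lit 255) (nat_lit 5) (nat_lit 256) (nat_lit 5) (nat_lit 373) (nat_lit 342) (nat_lit 305)) (XT.lf (nat_lit 0) (nat_lit 5065457366) (nat_lit 304) (nat_lit 5160891405) (nat_lit 380) (nat_lit 1142679811) (nat_lit 246) (nat_lit 5) (nat_lit 250) (nat_lit 5) (nat_lit 251)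 (nat_lit 5) (nat_lit 374) (nat_lit 342) (nat_lit 304)))))) (XT.nd (nat_lit 546) (nat_lit 2052) (nat_lit 0) (XT.nd (nat_lit 234) (nat_lit 1520) (nat_lit 0) (XT.nd (nat_lit 78) (nat_lit 684) (nat_lit 0) (XT.lf (nat_lit 0) (nat_lit 4286493977) (nat_lit 456) (nat_lit 5083274864) (nat_lit 76) (nat_lit 2305854085) (nat_lit 240) (nat_lit 5) (nat_lit 246) (nat_lit 5) (nat_lit 241) (nat_lit 5) (nat_lit 375) (nat_lit 342) (nat_lit 303)) (XT.nd (nat_lit 78) (nat_lit 380) (nat_lit 0) (XT.lf (nat_lit 0) (nat_lit 8216168207) (nat_lit 304) (nat_lit 1843458581) (nat_lit 380) (nat_lit 1934696807) (nat_lit 236) (nat_lit 5) (nat_lit 240) (nat_lit 5) (nat_lit 241) (nat_lit 5) (nat_lit 376) (nat_lit 342) (nat_lit 302)) (XT.lf (nat_lit 0) (nat_lit 3828500884) (nat_lit 380) (nat_lit 2415726404) (nat_lit 76) (nat_lit 6080336895) (nat_lit 231) (nat_lit 5) (nat_lit 236) (nat_lit 5) (nat_lit 232) (nat_lit 5) (nat_lit 377)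 (nat_lit 342) (nat_lit 301)))) (XT.nd (nat_lit 156) (nat_lit 608) (nat_lit 0) (XT.nd (nat_lit 78) (nat_lit 608) (nat_lit 0) (XT.lf (nat_lit 0) (nat_lit 9932988509) (nat_lit 380) (nat_lit 951458836) (nat_lit 76) (nat_lit 1783500515) (nat_lit 227) (nat_lit 5) (nat_lit 232) (nat_lit 5) (nat_lit 228) (nat_lit 5) (nat_lit 378) (nat_lit 342) (nat_lit 300)) (XT.lf (nat_lit 0) (nat_lit 591529938) (nat_lit 228) (nat_lit 2791494615) (nat_lit 304) (nat_lit 9640515524) (nat_lit 219) (nat_lit 5) (nat_lit 222) (nat_lit 5) (nat_lit 223) (nat_lit 5) (nat_lit 379) (nat_lit 342) (nat_lit 299))) (XT.nd (nat_lit 78) (nat_lit 304) (nat_lit 0) (XT.lf (nat_lit 0) (nat_lit 2239602641) (nat_lit 304) (nat_lit 7647059294) (nat_lit 380) (nat_lit 3505348081) (nat_lit 215) (nat_lit 5) (nat_lit 219) (nat_lit 5) (nat_lit 220) (nat_lit 5) (nat_lit 380) (nat_lit 342) (nat_lit 298)) (XT.lf (nat_lit 0) (nat_lit 2994815619) (nat_lit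 304) (nat_lit 9778134833) (nat_lit 76) (nat_lit 1001639922) (nat_lit 211) (nat_lit 5) (nat_lit 215) (nat_lit 5) (nat_lit 212) (nat_lit 5) (nat_lit 381) (nat_lit 342) (nat_lit 297))))) (XT.nd (nat_lit 234) (nat_lit 1216) (nat_lit 0) (XT.nd (nat_lit 78) (nat_lit 532) (nat_lit 0) (XT.lf (nat_lit 0) (nat_lit 5821383287) (nat_lit 304) (nat_lit 4088109354) (nat_lit 380) (nat_lit 4260905883) (nat_lit 207) (nat_lit 5) (nat_lit 211) (nat_lit 5) (nat_lit 212) (nat_lit 5) (nat_lit 382) (nat_lit 342) (nat_lit 296)) (XT.nd (nat_lit 78) (nat_lit 228) (nat_lit 0) (XT.lf (nat_lit 0) (nat_lit 2674315032) (nat_lit 304) (nat_lit 6822693183) (nat_lit 76) (nat_lit 5084018826) (nat_lit 203) (nat_lit 5) (nat_lit 207) (nat_lit 5) (nat_lit 204) (nat_lit 5) (nat_lit 383) (nat_lit 342) (nat_lit 295)) (XT.lf (nat_lit 0) (nat_lit 9805001943) (nat_lit 228) (nat_lit 202846394) (nat_lit 304) (nat_lit 4998882830) (nat_lit 200)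 (nat_lit 5) (nat_lit 203) (nat_lit 5) (nat_lit 204) (nat_lit 5) (nat_lit 384) (nat_lit 342) (nat_lit 294)))) (XT.nd (nat_lit 156) (nat_lit 684) (nat_lit 0) (XT.nd (nat_lit 78) (nat_lit 228) (nat_lit 0) (XT.lf (nat_lit 0) (nat_lit 2408788127) (nat_lit 304) (nat_lit 3510663941) (nat_lit 76) (nat_lit 9527665111) (nat_lit 196) (nat_lit 5) (nat_lit 200) (nat_lit 5) (nat_lit 197) (nat_lit 5) (nat_lit 385) (nat_lit 342) (nat_lit 293)) (XT.lf (nat_lit 0) (nat_lit 10236539362) (nat_lit 304) (nat_lit 1719266724) (nat_lit 76) (nat_lit 3947639151) (nat_lit 193) (nat_lit 5) (nat_lit 197) (nat_lit 5) (nat_lit 194) (nat_lit 5) (nat_lit 386) (nat_lit 342) (nat_lit 292))) (XT.nd (nat_lit 78) (nat_lit 152) (nat_lit 0) (XT.lf (nat_lit 0) (nat_lit 193236121) (nat_lit 228) (nat_lit 2021327701) (nat_lit 304) (nat_lit 14161970178) (nat_lit 186) (nat_lit 5) (nat_lit 189) (nat_lit 5) (nat_lit 190) (nat_lit 5) (nat_lit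 387) (nat_lit 342) (nat_lit 291)) (XT.lf (nat_lit 0) (nat_lit 2208117010) (nat_lit 152) (nat_lit 8392107220) (nat_lit 228) (nat_lit 6264550205) (nat_lit 184) (nat_lit 5) (nat_lit 186) (nat_lit 5) (nat_lit 187) (nat_lit 5) (nat_lit 388) (nat_lit 342) (nat_lit 290))))))) (XT.nd (nat_lit 1014) (nat_lit 2356) (nat_lit 0) (XT.nd (nat_lit 468) (nat_lit 1444) (nat_lit 0) (XT.nd (nat_lit 234) (nat_lit 532) (nat_lit 0) (XT.nd (nat_lit 78) (nat_lit 456) (nat_lit 0) (XT.lf (nat_lit 0) (nat_lit 2165025583) (nat_lit 304) (nat_lit 12995335883) (nat_lit 76) (nat_lit 2211175070) (nat_lit 180) (nat_lit 5) (nat_lit 184) (nat_lit 5) (nat_lit 181) (nat_lit 5) (nat_lit 389) (nat_lit 342) (nat_lit 289)) (XT.nd (nat_lit 78) (nat_lit 304) (nat_lit 0) (XT.lf (nat_lit 0) (nat_lit 6619048501) (nat_lit 152) (nat_lit 4495499699) (nat_lit 228) (nat_lit 6780386928) (nat_lit 178) (nat_lit 5) (nat_lit 180) (nat_lit 5) (nat_lit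 181) (nat_lit 5) (nat_lit 390) (nat_lit 342) (nat_lit 288)) (XT.lf (nat_lit 0) (nat_lit 2243080655) (nat_lit 304) (nat_lit 9430911164) (nat_lit 76) (nat_lit 6763424555) (nat_lit 174) (nat_lit 5) (nat_lit 178) (nat_lit 5) (nat_lit 175) (nat_lit 5) (nat_lit 391) (nat_lit 342) (nat_lit 287)))) (XT.nd (nat_lit 78) (nat_lit 380) (nat_lit 0) (XT.lf (nat_lit 0) (nat_lit 11520676030) (nat_lit 152) (nat_lit 260950506) (nat_lit 228) (nat_lit 7217257158) (nat_lit 172) (nat_lit 5) (nat_lit 174) (nat_lit 5) (nat_lit 175) (nat_lit 5) (nat_lit 392) (nat_lit 342) (nat_lit 286)) (XT.nd (nat_lit 78) (nat_lit 152) (nat_lit 0) (XT.lf (nat_lit 0) (nat_lit 2446471809) (nat_lit 228) (nat_lit 5432023482) (nat_lit 76) (nat_lit 11700865285) (nat_lit 169) (nat_lit 5) (nat_lit 172) (nat_lit 5) (nat_lit 170) (nat_lit 5) (nat_lit 393) (nat_lit 342) (nat_lit 285)) (XT.lf (nat_lit 0) (nat_lit 12663248747) (nat_lit 228) (nat_lit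 3264627595) (nat_lit 76) (nat_lit 4252267457) (nat_lit 167) (nat_lit 5) (nat_lit 170) (nat_lit 5) (nat_lit 168) (nat_lit 5) (nat_lit 394) (nat_lit 342) (nat_lit 284))))) (XT.nd (nat_lit 234) (nat_lit 684) (nat_lit 0) (XT.nd (nat_lit 78) (nat_lit 532) (nat_lit 0) (XT.lf (nat_lit 0) (nat_lit 2793424747) (nat_lit 228) (nat_lit 956235034) (nat_lit 76) (nat_lit 17052646329) (nat_lit 164) (nat_lit 5) (nat_lit 167) (nat_lit 5) (nat_lit 165) (nat_lit 5) (nat_lit 395) (nat_lit 342) (nat_lit 283)) (XT.nd (nat_lit 78) (nat_lit 228) (nat_lit 0) (XT.lf (nat_lit 0) (nat_lit 1473722395) (nat_lit 152) (nat_lit 12285843366) (nat_lit 228) (nat_lit 7684905050) (nat_lit 160) (nat_lit 5) (nat_lit 162) (nat_lit 5) (nat_lit 163) (nat_lit 5) (nat_lit 396) (nat_lit 342) (nat_lit 282)) (XT.lf (nat_lit 0) (nat_lit 3350517953) (nat_lit 228) (nat_lit 17994373629) (nat_lit 76) (nat_lit 765237697) (nat_lit 157) (nat_lit 5) (nat_lit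 160) (nat_lit 5) (nat_lit 158) (nat_lit 5) (nat_lit 397) (nat_lit 342) (nat_lit 281)))) (XT.nd (nat_lit 156) (nat_lit 304) (nat_lit 0) (XT.nd (nat_lit 78) (nat_lit 228) (nat_lit 0) (XT.lf (nat_lit 0) (nat_lit 6835137257) (nat_lit 152) (nat_lit 8279313405) (nat_lit 228) (nat_lit 7682267136) (nat_lit 155) (nat_lit 5) (nat_lit 157) (nat_lit 5) (nat_lit 158) (nat_lit 5) (nat_lit 398) (nat_lit 342) (nat_lit 280)) (XT.lf (nat_lit 0) (nat_lit 4146382972) (nat_lit 228) (nat_lit 13756752954) (nat_lit 76) (nat_lit 5605126125) (nat_lit 152) (nat_lit 5) (nat_lit 155) (nat_lit 5) (nat_lit 153) (nat_lit 5) (nat_lit 399) (nat_lit 342) (nat_lit 279))) (XT.nd (nat_lit 78) (nat_lit 152) (nat_lit 0) (XT.lf (nat_lit 0) (nat_lit 12808946178) (nat_lit 152) (nat_lit 3912336428) (nat_lit 228) (nat_lit 7522408104) (nat_lit 150) (nat_lit 5) (nat_lit 152) (nat_lit 5) (nat_lit 153) (nat_lit 5) (nat_lit 400) (nat_lit 342)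 (nat_lit 278)) (XT.lf (nat_lit 0) (nat_lit 5158747445) (nat_lit 152) (nat_lit 8978410077) (nat_lit 76) (nat_lit 10866952501) (nat_lit 148) (nat_lit 5) (nat_lit 150) (nat_lit 5) (nat_lit 149) (nat_lit 5) (nat_lit 401) (nat_lit 342) (nat_lit 277)))))) (XT.nd (nat_lit 546) (nat_lit 1216) (nat_lit 0) (XT.nd (nat_lit 234) (nat_lit 684) (nat_lit 0) (XT.nd (nat_lit 78) (nat_lit 304) (nat_lit 0) (XT.lf (nat_lit 0) (nat_lit 18615514233) (nat_lit 228) (nat_lit 6345347203) (nat_lit 76) (nat_lit 830540635) (nat_lit 146) (nat_lit 5) (nat_lit 149) (nat_lit 5) (nat_lit 147) (nat_lit 4) (nat_lit 402) (nat_lit 342) (nat_lit 276)) (XT.nd (nat_lit 78) (nat_lit 152) (nat_lit 0) (XT.lf (nat_lit 0) (nat_lit 6412662801) (nat_lit 152) (nat_lit 3604176212) (nat_lit 76) (nat_lit 16587297900) (nat_lit 144) (nat_lit 5) (nat_lit 146) (nat_lit 5) (nat_lit 145) (nat_lit 5) (nat_lit 403) (nat_lit 342) (nat_lit 275)) (XT.lf (nat_lit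 0) (nat_lit 20860159934) (nat_lit 228) (nat_lit 669003959) (nat_lit 76) (nat_lit 5916375334) (nat_lit 142) (nat_lit 5) (nat_lit 145) (nat_lit 5) (nat_lit 143) (nat_lit 4) (nat_lit 404) (nat_lit 342) (nat_lit 274)))) (XT.nd (nat_lit 156) (nat_lit 304) (nat_lit 0) (XT.nd (nat_lit 78) (nat_lit 76) (nat_lit 0) (XT.lf (nat_lit 0) (nat_lit 2474487149) (nat_lit 152) (nat_lit 5484485837) (nat_lit 228) (nat_lit 20355571041) (nat_lit 138) (nat_lit 5) (nat_lit 140) (nat_lit 5) (nat_lit 141) (nat_lit 5) (nat_lit 405) (nat_lit 342) (nat_lit 273)) (XT.lf (nat_lit 0) (nat_lit 5808121764) (nat_lit 76) (nat_lit 17697474300) (nat_lit 152) (nat_lit 5707109483) (nat_lit 137) (nat_lit 5) (nat_lit 138) (nat_lit 5) (nat_lit 139) (nat_lit 4) (nat_lit 406) (nat_lit 342) (nat_lit 272))) (XT.nd (nat_lit 78) (nat_lit 76) (nat_lit 0) (XT.lf (nat_lit 0) (nat_lit 9361118909) (nat_lit 152) (nat_lit 484454062) (nat_lit 228) (nat_lit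 20296595424) (nat_lit 134) (nat_lit 5) (nat_lit 136) (nat_lit 5) (nat_lit 137) (nat_lit 5) (nat_lit 407) (nat_lit 342) (nat_lit 271)) (XT.lf (nat_lit 0) (nat_lit 13069623645) (nat_lit 76) (nat_lit 13475097023) (nat_lit 152) (nat_lit 4557082648) (nat_lit 133) (nat_lit 5) (nat_lit 134) (nat_lit 5) (nat_lit 135) (nat_lit 4) (nat_lit 408) (nat_lit 342) (nat_lit 270))))) (XT.nd (nat_lit 234) (nat_lit 684) (nat_lit 0) (XT.nd (nat_lit 78) (nat_lit 304) (nat_lit 0) (XT.lf (nat_lit 0) (nat_lit 12117470945) (nat_lit 228) (nat_lit 15086854633) (nat_lit 76) (nat_lit 4890193747) (nat_lit 130) (nat_lit 5) (nat_lit 133) (nat_lit 5) (nat_lit 131) (nat_lit 4) (nat_lit 409) (nat_lit 342) (nat_lit 269)) (XT.nd (nat_lit 78) (nat_lit 228) (nat_lit 0) (XT.lf (nat_lit 0) (nat_lit 21178368926) (nat_lit 76) (nat_lit 8830946378) (nat_lit 152) (nat_lit 3111867924) (nat_lit 129) (nat_lit 5) (nat_lit 130) (nat_lit 5) (nat_lit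 131) (nat_lit 4) (nat_lit 410) (nat_lit 342) (nat_lit 268)) (XT.lf (nat_lit 0) (nat_lit 14771467238) (nat_lit 228) (nat_lit 8648030327) (nat_lit 76) (nat_lit 10761681607) (nat_lit 126) (nat_lit 5) (nat_lit 129) (nat_lit 5) (nat_lit 127) (nat_lit 4) (nat_lit 411) (nat_lit 342) (nat_lit 267)))) (XT.nd (nat_lit 156) (nat_lit 380) (nat_lit 0) (XT.nd (nat_lit 78) (nat_lit 228) (nat_lit 0) (XT.lf (nat_lit 0) (nat_lit 30217280049) (nat_lit 76) (nat_lit 3723614851) (nat_lit 152) (nat_lit 1338667176) (nat_lit 125) (nat_lit 5) (nat_lit 126) (nat_lit 5) (nat_lit 127) (nat_lit 4) (nat_lit 412) (nat_lit 342) (nat_lit 266)) (XT.lf (nat_lit 0) (nat_lit 17841468107) (nat_lit 228) (nat_lit 1382837963) (nat_lit 76) (nat_lit 17186981870) (nat_lit 122) (nat_lit 5) (nat_lit 125) (nat_lit 5) (nat_lit 123) (nat_lit 4) (nat_lit 413) (nat_lit 342) (nat_lit 265))) (XT.nd (nat_lit 78) (nat_lit 76) (nat_lit 0) (XT.lf (nat_lit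 0) (nat_lit 827424170) (nat_lit 228) (nat_lit 34867746784) (nat_lit 76) (nat_lit 1889511377) (nat_lit 118) (nat_lit 5) (nat_lit 121) (nat_lit 5) (nat_lit 119) (nat_lit 4) (nat_lit 414) (nat_lit 342) (nat_lit 264)) (XT.lf (nat_lit 0) (nat_lit 6927898233) (nat_lit 76) (nat_lit 14508018634) (nat_lit 152) (nat_lit 17356550622) (nat_lit 117) (nat_lit 5) (nat_lit 118) (nat_lit 5) (nat_lit 119) (nat_lit 4) (nat_lit 415) (nat_lit 342) (nat_lit 263))))))))
noncomputable def xc52 : XT := (XT.nd (nat_lit 47658) (nat_lit 0) (nat_lit 13908) (XT.nd (nat_lit 1014) (nat_lit 1368) (nat_lit 0) (XT.nd (nat_lit 468) (nat_lit 912) (nat_lit 0) (XT.nd (nat_lit 234) (nat_lit 304) (nat_lit 0) (XT.nd (nat_lit 78) (nat_lit 228) (nat_lit 0) (XT.lf (nat_lit 0) (nat_lit 3462738738) (nat_lit 152) (nat_lit 28528623548) (nat_lit 76) (nat_lit 8053189464) (nat_lit 115) (nat_lit 5) (nat_lit 117) (nat_lit 5) (nat_lit 116) (nat_lit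 4) (nat_lit 416) (nat_lit 342) (nat_lit 262)) (XT.nd (nat_lit 78) (nat_lit 152) (nat_lit 0) (XT.lf (nat_lit 0) (nat_lit 16287902369) (nat_lit 76) (nat_lit 9269119056) (nat_lit 152) (nat_lit 15779273720) (nat_lit 114) (nat_lit 5) (nat_lit 115) (nat_lit 5) (nat_lit 116) (nat_lit 4) (nat_lit 417) (nat_lit 342) (nat_lit 261)) (XT.lf (nat_lit 0) (nat_lit 6550300835) (nat_lit 152) (nat_lit 21291295792) (nat_lit 76) (nat_lit 14831123723) (nat_lit 112) (nat_lit 5) (nat_lit 114) (nat_lit 5) (nat_lit 113) (nat_lit 4) (nat_lit 418) (nat_lit 342) (nat_lit 260)))) (XT.nd (nat_lit 78) (nat_lit 228) (nat_lit 0) (XT.lf (nat_lit 0) (nat_lit 26771159340) (nat_lit 76) (nat_lit 3470353430) (nat_lit 152) (nat_lit 13812622187) (nat_lit 111) (nat_lit 5) (nat_lit 112) (nat_lit 5) (nat_lit 113) (nat_lit 4) (nat_lit 419) (nat_lit 342) (nat_lit 259)) (XT.nd (nat_lit 78) (nat_lit 76) (nat_lit 0) (XT.lf (nat_lit 0) (nat_lit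 10136686591) (nat_lit 152) (nat_lit 13061705375) (nat_lit 76) (nat_lit 22282108263) (nat_lit 109) (nat_lit 5) (nat_lit 111) (nat_lit 5) (nat_lit 110) (nat_lit 4) (nat_lit 420) (nat_lit 342) (nat_lit 258)) (XT.lf (nat_lit 0) (nat_lit 35572288489) (nat_lit 152) (nat_lit 8497918148) (nat_lit 0) (nat_lit 2886639552) (nat_lit 108) (nat_lit 5) (nat_lit 110) (nat_lit 4) (nat_lit 108) (nat_lit 4) (nat_lit 421) (nat_lit 342) (nat_lit 257))))) (XT.nd (nat_lit 234) (nat_lit 456) (nat_lit 0) (XT.nd (nat_lit 78) (nat_lit 304) (nat_lit 0) (XT.lf (nat_lit 0) (nat_lit 14272558948) (nat_lit 152) (nat_lit 3737355886) (nat_lit 76) (nat_lit 30470063311) (nat_lit 106) (nat_lit 5) (nat_lit 108) (nat_lit 5) (nat_lit 107) (nat_lit 4) (nat_lit 422) (nat_lit 342) (nat_lit 256)) (XT.nd (nat_lit 78) (nat_lit 152) (nat_lit 0) (XT.lf (nat_lit 0) (nat_lit 1430660355) (nat_lit 76) (nat_lit 40203274935) (nat_lit 76) (nat_lit 8422244239)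 (nat_lit 104) (nat_lit 4) (nat_lit 105) (nat_lit 5) (nat_lit 105) (nat_lit 4) (nat_lit 423) (nat_lit 342) (nat_lit 255)) (XT.lf (nat_lit 0) (nat_lit 6928585797) (nat_lit 76) (nat_lit 12151036466) (nat_lit 152) (nat_lit 32602447705) (nat_lit 102) (nat_lit 5) (nat_lit 103) (nat_lit 5) (nat_lit 104) (nat_lit 4) (nat_lit 424) (nat_lit 342) (nat_lit 254)))) (XT.nd (nat_lit 156) (nat_lit 228) (nat_lit 0) (XT.nd (nat_lit 78) (nat_lit 152) (nat_lit 0) (XT.lf (nat_lit 0) (nat_lit 12818952953) (nat_lit 76) (nat_lit 35721086824) (nat_lit 76) (nat_lit 4823984217) (nat_lit 101) (nat_lit 4) (nat_lit 102) (nat_lit 5) (nat_lit 102) (nat_lit 4) (nat_lit 425) (nat_lit 342) (nat_lit 253)) (XT.lf (nat_lit 0) (nat_lit 19023246920) (nat_lit 76) (nat_lit 5577609080) (nat_lit 152) (nat_lit 30500225180) (nat_lit 99) (nat_lit 5) (nat_lit 100) (nat_lit 5) (nat_lit 101) (nat_lit 4) (nat_lit 426) (nat_lit 342) (nat_lit 252)))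 (XT.nd (nat_lit 78) (nat_lit 152) (nat_lit 0) (XT.lf (nat_lit 0) (nat_lit 25627083619) (nat_lit 76) (nat_lit 30651977783) (nat_lit 76) (nat_lit 618040240) (nat_lit 98) (nat_lit 4) (nat_lit 99) (nat_lit 5) (nat_lit 99) (nat_lit 4) (nat_lit 427) (nat_lit 342) (nat_lit 251)) (XT.lf (nat_lit 0) (nat_lit 30882801399) (nat_lit 152) (nat_lit 26162446562) (nat_lit 0) (nat_lit 1707062597) (nat_lit 96) (nat_lit 5) (nat_lit 98) (nat_lit 4) (nat_lit 96) (nat_lit 4) (nat_lit 428) (nat_lit 342) (nat_lit 250)))))) (XT.nd (nat_lit 546) (nat_lit 456) (nat_lit 0) (XT.nd (nat_lit 234) (nat_lit 532) (nat_lit 0) (XT.nd (nat_lit 78) (nat_lit 228) (nat_lit 0) (XT.lf (nat_lit 0) (nat_lit 4175192581) (nat_lit 152) (nat_lit 20715884660) (nat_lit 76) (nat_lit 35778301387) (nat_lit 94) (nat_lit 5) (nat_lit 96) (nat_lit 5) (nat_lit 95) (nat_lit 4) (nat_lit 429) (nat_lit 342) (nat_lit 249)) (XT.nd (nat_lit 78) (nat_lit 152)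 (nat_lit 0) (XT.lf (nat_lit 0) (nat_lit 38042444852) (nat_lit 152) (nat_lit 14921115462) (nat_lit 0) (nat_lit 9686560727) (nat_lit 93) (nat_lit 5) (nat_lit 95) (nat_lit 4) (nat_lit 93) (nat_lit 4) (nat_lit 430) (nat_lit 342) (nat_lit 248)) (XT.lf (nat_lit 0) (nat_lit 9680623219) (nat_lit 152) (nat_lit 8718121021) (nat_lit 76) (nat_lit 46299179166) (nat_lit 91) (nat_lit 5) (nat_lit 93) (nat_lit 5) (nat_lit 92) (nat_lit 4) (nat_lit 431) (nat_lit 342) (nat_lit 247)))) (XT.nd (nat_lit 156) (nat_lit 228) (nat_lit 0) (XT.nd (nat_lit 78) (nat_lit 228) (nat_lit 0) (XT.lf (nat_lit 0) (nat_lit 46105442397) (nat_lit 152) (nat_lit 2158327109) (nat_lit 0) (nat_lit 18549106293) (nat_lit 90) (nat_lit 5) (nat_lit 92) (nat_lit 4) (nat_lit 90) (nat_lit 4) (nat_lit 432) (nat_lit 342) (nat_lit 246)) (XT.lf (nat_lit 0) (nat_lit 4974413171) (nat_lit 76) (nat_lit 11056617153) (nat_lit 152) (nat_lit 52967767785) (nat_lit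 87) (nat_lit 5) (nat_lit 88) (nat_lit 5) (nat_lit 89) (nat_lit 4) (nat_lit 433) (nat_lit 342) (nat_lit 245))) (XT.nd (nat_lit 78) (nat_lit 152) (nat_lit 0) (XT.lf (nat_lit 0) (nat_lit 12524841395) (nat_lit 76) (nat_lit 42753474708) (nat_lit 76) (nat_lit 15976544897) (nat_lit 86) (nat_lit 4) (nat_lit 87) (nat_lit 5) (nat_lit 87) (nat_lit 4) (nat_lit 434) (nat_lit 342) (nat_lit 244)) (XT.lf (nat_lit 0) (nat_lit 20634431510) (nat_lit 76) (nat_lit 2726229580) (nat_lit 152) (nat_lit 50228194826) (nat_lit 84) (nat_lit 5) (nat_lit 85) (nat_lit 5) (nat_lit 86) (nat_lit 4) (nat_lit 435) (nat_lit 342) (nat_lit 243))))) (XT.nd (nat_lit 234) (nat_lit 152) (nat_lit 0) (XT.nd (nat_lit 78) (nat_lit 228) (nat_lit 0) (XT.lf (nat_lit 0) (nat_lit 29131828336) (nat_lit 76) (nat_lit 36441628238) (nat_lit 76) (nat_lit 10424174035) (nat_lit 83) (nat_lit 4) (nat_lit 84) (nat_lit 5) (nat_lit 84) (nat_lit 4) (nat_lit 436)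 (nat_lit 342) (nat_lit 242)) (XT.nd (nat_lit 78) (nat_lit 76) (nat_lit 0) (XT.lf (nat_lit 0) (nat_lit 31735497145) (nat_lit 152) (nat_lit 40286356905) (nat_lit 0) (nat_lit 6466615785) (nat_lit 81) (nat_lit 5) (nat_lit 83) (nat_lit 4) (nat_lit 81) (nat_lit 4) (nat_lit 437) (nat_lit 342) (nat_lit 241)) (XT.lf (nat_lit 0) (nat_lit 47806305744) (nat_lit 76) (nat_lit 29266771562) (nat_lit 76) (nat_lit 3989112027) (nat_lit 80) (nat_lit 4) (nat_lit 81) (nat_lit 5) (nat_lit 81) (nat_lit 4) (nat_lit 438) (nat_lit 342) (nat_lit 240)))) (XT.nd (nat_lit 45708) (nat_lit 0) (nat_lit 31616) (XT.nd (nat_lit 45630) (nat_lit 0) (nat_lit 32148) (XT.lf (nat_lit 0) (nat_lit 41224601216) (nat_lit 152) (nat_lit 25819827109) (nat_lit 0) (nat_lit 16675067523) (nat_lit 78) (nat_lit 5) (nat_lit 80) (nat_lit 4) (nat_lit 78) (nat_lit 4) (nat_lit 439) (nat_lit 342) (nat_lit 239)) (XT.lf (nat_lit 0) (nat_lit 673789165) (nat_lit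 0) (nat_lit 673789165) (nat_lit 380) (nat_lit 1925136875) (nat_lit 501) (nat_lit 5) (nat_lit 501) (nat_lit 3) (nat_lit 506) (nat_lit 3) (nat_lit 343) (nat_lit 343) (nat_lit 334))) (XT.nd (nat_lit 78) (nat_lit 0) (nat_lit 76) (XT.lf (nat_lit 76) (nat_lit 272405636) (nat_lit 0) (nat_lit 57448801) (nat_lit 532) (nat_lit 6254368611) (nat_lit 495) (nat_lit 5) (nat_lit 494) (nat_lit 3) (nat_lit 501) (nat_lit 5) (nat_lit 344) (nat_lit 343) (nat_lit 333)) (XT.lf (nat_lit 0) (nat_lit 4437843985) (nat_lit 456) (nat_lit 700859503) (nat_lit 532) (nat_lit 1491153644) (nat_lit 495) (nat_lit 5) (nat_lit 501) (nat_lit 5) (nat_lit 502) (nat_lit 5) (nat_lit 345) (nat_lit 343) (nat_lit 332))))))) (XT.nd (nat_lit 1014) (nat_lit 8208) (nat_lit 0) (XT.nd (nat_lit 468) (nat_lit 7144) (nat_lit 0) (XT.nd (nat_lit 234) (nat_lit 1368) (nat_lit 0) (XT.nd (nat_lit 78) (nat_lit 532) (nat_lit 0) (XT.lf (nat_lit 0) (nat_lit 1825054939)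 (nat_lit 532) (nat_lit 1554615964) (nat_lit 608) (nat_lit 3303742411) (nat_lit 488) (nat_lit 5) (nat_lit 495) (nat_lit 5) (nat_lit 496) (nat_lit 5) (nat_lit 346) (nat_lit 343) (nat_lit 331)) (XT.nd (nat_lit 78) (nat_lit 532) (nat_lit 0) (XT.lf (nat_lit 76) (nat_lit 4445605933) (nat_lit 0) (nat_lit 1354937905) (nat_lit 608) (nat_lit 944365326) (nat_lit 489) (nat_lit 5) (nat_lit 488) (nat_lit 5) (nat_lit 496) (nat_lit 5) (nat_lit 347) (nat_lit 343) (nat_lit 330)) (XT.lf (nat_lit 0) (nat_lit 2926624795) (nat_lit 608) (nat_lit 2953787264) (nat_lit 684) (nat_lit 933463005) (nat_lit 481) (nat_lit 5) (nat_lit 489) (nat_lit 5) (nat_lit 490) (nat_lit 5) (nat_lit 348) (nat_lit 343) (nat_lit 329)))) (XT.nd (nat_lit 78) (nat_lit 1368) (nat_lit 0) (XT.lf (nat_lit 76) (nat_lit 3384192350) (nat_lit 0) (nat_lit 3429192207) (nat_lit 684) (nat_lit 77371666) (nat_lit 482) (nat_lit 5) (nat_lit 481) (nat_lit 5) (nat_lit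 490) (nat_lit 5) (nat_lit 349) (nat_lit 343) (nat_lit 328)) (XT.nd (nat_lit 78) (nat_lit 684) (nat_lit 0) (XT.lf (nat_lit 76) (nat_lit 3002329622) (nat_lit 0) (nat_lit 682475763) (nat_lit 760) (nat_lit 3290394054) (nat_lit 473) (nat_lit 5) (nat_lit 472) (nat_lit 5) (nat_lit 482) (nat_lit 5) (nat_lit 350) (nat_lit 343) (nat_lit 327)) (XT.lf (nat_lit 0) (nat_lit 429702808) (nat_lit 760) (nat_lit 4345040255) (nat_lit 76) (nat_lit 2292799414) (nat_lit 463) (nat_lit 5) (nat_lit 473) (nat_lit 5) (nat_lit 464) (nat_lit 5) (nat_lit 351) (nat_lit 343) (nat_lit 326))))) (XT.nd (nat_lit 234) (nat_lit 4560) (nat_lit 0) (XT.nd (nat_lit 78) (nat_lit 1824) (nat_lit 0) (XT.lf (nat_lit 0) (nat_lit 2530288531) (nat_lit 760) (nat_lit 1605847293) (nat_lit 836) (nat_lit 3031338047) (nat_lit 453) (nat_lit 5) (nat_lit 463) (nat_lit 5) (nat_lit 464) (nat_lit 5) (nat_lit 352) (nat_lit 343) (nat_lit 325)) (XT.nd (nat_lit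 78) (nat_lit 912) (nat_lit 0) (XT.lf (nat_lit 0) (nat_lit 628945774) (nat_lit 912) (nat_lit 4835025053) (nat_lit 76) (nat_lit 1811567159) (nat_lit 441) (nat_lit 5) (nat_lit 453) (nat_lit 5) (nat_lit 442) (nat_lit 5) (nat_lit 353) (nat_lit 343) (nat_lit 324)) (XT.lf (nat_lit 0) (nat_lit 2429143033) (nat_lit 912) (nat_lit 1878853461) (nat_lit 988) (nat_lit 3083155052) (nat_lit 429) (nat_lit 5) (nat_lit 441) (nat_lit 5) (nat_lit 442) (nat_lit 5) (nat_lit 354) (nat_lit 343) (nat_lit 323)))) (XT.nd (nat_lit 156) (nat_lit 2432) (nat_lit 0) (XT.nd (nat_lit 78) (nat_lit 1064) (nat_lit 0) (XT.lf (nat_lit 0) (nat_lit 555411056) (nat_lit 1064) (nat_lit 4997381510) (nat_lit 76) (nat_lit 1962269156) (nat_lit 415) (nat_lit 5) (nat_lit 429) (nat_lit 5) (nat_lit 416) (nat_lit 5) (nat_lit 355) (nat_lit 343) (nat_lit 322)) (XT.lf (nat_lit 0) (nat_lit 2680182290) (nat_lit 1064) (nat_lit 1552407111) (nat_lit 1140)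 (nat_lit 3414048770) (nat_lit 401) (nat_lit 5) (nat_lit 415) (nat_lit 5) (nat_lit 416) (nat_lit 5) (nat_lit 356) (nat_lit 343) (nat_lit 321))) (XT.nd (nat_lit 78) (nat_lit 1216) (nat_lit 0) (XT.lf (nat_lit 0) (nat_lit 238567767) (nat_lit 1216) (nat_lit 4848662677) (nat_lit 76) (nat_lit 2699401107) (nat_lit 385) (nat_lit 5) (nat_lit 401) (nat_lit 5) (nat_lit 386) (nat_lit 5) (nat_lit 357) (nat_lit 343) (nat_lit 320)) (XT.lf (nat_lit 0) (nat_lit 3269779637) (nat_lit 1216) (nat_lit 668548552) (nat_lit 1292) (nat_lit 3996228711) (nat_lit 369) (nat_lit 5) (nat_lit 385) (nat_lit 5) (nat_lit 386) (nat_lit 5) (nat_lit 358) (nat_lit 343) (nat_lit 319)))))) (XT.nd (nat_lit 546) (nat_lit 3724) (nat_lit 0) (XT.nd (nat_lit 234) (nat_lit 2356) (nat_lit 0) (XT.nd (nat_lit 78) (nat_lit 1292) (nat_lit 0) (XT.lf (nat_lit 0) (nat_lit 3687219304) (nat_lit 836) (nat_lit 4102101648) (nat_lit 912) (nat_lit 301570237)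 (nat_lit 358) (nat_lit 5) (nat_lit 369) (nat_lit 5) (nat_lit 370) (nat_lit 5) (nat_lit 359) (nat_lit 343) (nat_lit 318)) (XT.nd (nat_lit 78) (nat_lit 608) (nat_lit 0) (XT.lf (nat_lit 0) (nat_lit 3457418784) (nat_lit 684) (nat_lit 4073830067) (nat_lit 76) (nat_lit 724279160) (nat_lit 349) (nat_lit 5) (nat_lit 358) (nat_lit 5) (nat_lit 350) (nat_lit 5) (nat_lit 360) (nat_lit 343) (nat_lit 317)) (XT.lf (nat_lit 0) (nat_lit 4757384502) (nat_lit 608) (nat_lit 2626387912) (nat_lit 684) (nat_lit 1044965121) (nat_lit 341) (nat_lit 5) (nat_lit 349) (nat_lit 5) (nat_lit 350) (nat_lit 5) (nat_lit 361) (nat_lit 343) (nat_lit 316)))) (XT.nd (nat_lit 156) (nat_lit 1140) (nat_lit 0) (XT.nd (nat_lit 78) (nat_lit 608) (nat_lit 0) (XT.lf (nat_lit 0) (nat_lit 2816183192) (nat_lit 608) (nat_lit 3203288402) (nat_lit 76) (nat_lit 2590995191) (nat_lit 333) (nat_lit 5) (nat_lit 341) (nat_lit 5) (nat_lit 334) (nat_lit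 5) (nat_lit 362) (nat_lit 343) (nat_lit 315)) (XT.lf (nat_lit 0) (nat_lit 6148648116) (nat_lit 608) (nat_lit 686315384) (nat_lit 684) (nat_lit 1966423029) (nat_lit 325) (nat_lit 5) (nat_lit 333) (nat_lit 5) (nat_lit 334) (nat_lit 5) (nat_lit 363) (nat_lit 343) (nat_lit 314))) (XT.nd (nat_lit 78) (nat_lit 532) (nat_lit 0) (XT.lf (nat_lit 0) (nat_lit 2027719592) (nat_lit 608) (nat_lit 2048179428) (nat_lit 76) (nat_lit 4924912834) (nat_lit 317) (nat_lit 5) (nat_lit 325) (nat_lit 5) (nat_lit 318) (nat_lit 5) (nat_lit 364) (nat_lit 343) (nat_lit 313)) (XT.lf (nat_lit 0) (nat_lit 6178608429) (nat_lit 608) (nat_lit 1363768185) (nat_lit 76) (nat_lit 1667316514) (nat_lit 310) (nat_lit 5) (nat_lit 318) (nat_lit 5) (nat_lit 311) (nat_lit 5) (nat_lit 365) (nat_lit 343) (nat_lit 312))))) (XT.nd (nat_lit 234) (nat_lit 1672) (nat_lit 0) (XT.nd (nat_lit 78) (nat_lit 1520) (nat_lit 0) (XT.lf (nat_lit 0) (nat_lit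 1109443991) (nat_lit 532) (nat_lit 606291490) (nat_lit 76) (nat_lit 7712272186) (nat_lit 303) (nat_lit 5) (nat_lit 310) (nat_lit 5) (nat_lit 304) (nat_lit 5) (nat_lit 366) (nat_lit 343) (nat_lit 311)) (XT.nd (nat_lit 78) (nat_lit 532) (nat_lit 0) (XT.lf (nat_lit 0) (nat_lit 209216907) (nat_lit 456) (nat_lit 5219395563) (nat_lit 532) (nat_lit 4226696114) (nat_lit 290) (nat_lit 5) (nat_lit 296) (nat_lit 5) (nat_lit 297) (nat_lit 5) (nat_lit 367) (nat_lit 343) (nat_lit 310)) (XT.lf (nat_lit 0) (nat_lit 98233822) (nat_lit 532) (nat_lit 8753028343) (nat_lit 76) (nat_lit 1041797354) (nat_lit 283) (nat_lit 5) (nat_lit 290) (nat_lit 5) (nat_lit 284) (nat_lit 5) (nat_lit 368) (nat_lit 343) (nat_lit 309)))) (XT.nd (nat_lit 156) (nat_lit 836) (nat_lit 0) (XT.nd (nat_lit 78) (nat_lit 456) (nat_lit 0) (XT.lf (nat_lit 0) (nat_lit 2109266918) (nat_lit 380) (nat_lit 2499134632) (nat_lit 456) (nat_lit 5531348821)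 (nat_lit 278) (nat_lit 5) (nat_lit 283) (nat_lit 5) (nat_lit 284) (nat_lit 5) (nat_lit 369) (nat_lit 343) (nat_lit 308)) (XT.lf (nat_lit 0) (nat_lit 3175063050) (nat_lit 456) (nat_lit 6218855837) (nat_lit 532) (nat_lit 1003361641) (nat_lit 272) (nat_lit 5) (nat_lit 278) (nat_lit 5) (nat_lit 279) (nat_lit 5) (nat_lit 370) (nat_lit 343) (nat_lit 307))) (XT.nd (nat_lit 78) (nat_lit 380) (nat_lit 0) (XT.lf (nat_lit 0) (nat_lit 3724958277) (nat_lit 456) (nat_lit 6350814568) (nat_lit 76) (nat_lit 589418754) (nat_lit 266) (nat_lit 5) (nat_lit 272) (nat_lit 5) (nat_lit 267) (nat_lit 5) (nat_lit 371) (nat_lit 343) (nat_lit 306)) (XT.lf (nat_lit 0) (nat_lit 5524623380) (nat_lit 380) (nat_lit 3230061545) (nat_lit 456) (nat_lit 2188943014) (nat_lit 261) (nat_lit 5) (nat_lit 266) (nat_lit 5) (nat_lit 267) (nat_lit 5) (nat_lit 372) (nat_lit 343) (nat_lit 305))))))))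
noncomputable def xc53 : XT := (XT.nd (nat_lit 2106) (nat_lit 4104) (nat_lit 0) (XT.nd (nat_lit 1014) (nat_lit 3420) (nat_lit 0) (XT.nd (nat_lit 468) (nat_lit 2052) (nat_lit 0) (XT.nd (nat_lit 234) (nat_lit 1368) (nat_lit 0) (XT.nd (nat_lit 78) (nat_lit 760) (nat_lit 0) (XT.lf (nat_lit 0) (nat_lit 2813712627) (nat_lit 456) (nat_lit 4416706999) (nat_lit 76) (nat_lit 4002705922) (nat_lit 255) (nat_lit 5) (nat_lit 261) (nat_lit 5) (nat_lit 256) (nat_lit 5) (nat_lit 373) (nat_lit 343) (nat_lit 304)) (XT.nd (nat_lit 78) (nat_lit 380) (nat_lit 0) (XT.lf (nat_lit 0) (nat_lit 8091038086) (nat_lit 456) (nat_lit 3329652549) (nat_lit 76) (nat_lit 113662989) (nat_lit 250) (nat_lit 5) (nat_lit 256) (nat_lit 5) (nat_lit 251) (nat_lit 5) (nat_lit 374) (nat_lit 343) (nat_lit 303)) (XT.lf (nat_lit 0) (nat_lit 1863373041) (nat_lit 380) (nat_lit 2188782960) (nat_lit 76) (nat_lit 7794476786) (nat_lit 245) (nat_lit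 5) (nat_lit 250) (nat_lit 5) (nat_lit 246) (nat_lit 5) (nat_lit 375) (nat_lit 343) (nat_lit 302)))) (XT.nd (nat_lit 78) (nat_lit 988) (nat_lit 0) (XT.lf (nat_lit 0) (nat_lit 7450126807) (nat_lit 456) (nat_lit 970600207) (nat_lit 76) (nat_lit 3750197814) (nat_lit 240) (nat_lit 5) (nat_lit 246) (nat_lit 5) (nat_lit 241) (nat_lit 5) (nat_lit 376) (nat_lit 343) (nat_lit 301)) (XT.nd (nat_lit 78) (nat_lit 304) (nat_lit 0) (XT.lf (nat_lit 0) (nat_lit 358396575) (nat_lit 304) (nat_lit 531110047) (nat_lit 380) (nat_lit 11618680042) (nat_lit 231) (nat_lit 5) (nat_lit 235) (nat_lit 5) (nat_lit 236) (nat_lit 5) (nat_lit 377) (nat_lit 343) (nat_lit 300)) (XT.lf (nat_lit 0) (nat_lit 1743235900) (nat_lit 304) (nat_lit 5087805836) (nat_lit 380) (nat_lit 6025417182) (nat_lit 227) (nat_lit 5) (nat_lit 231) (nat_lit 5) (nat_lit 232) (nat_lit 5) (nat_lit 378) (nat_lit 343) (nat_lit 299))))) (XT.nd (nat_lit 234) (nat_lit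 1140) (nat_lit 0) (XT.nd (nat_lit 78) (nat_lit 608) (nat_lit 0) (XT.lf (nat_lit 0) (nat_lit 3255879390) (nat_lit 304) (nat_lit 9919672422) (nat_lit 380) (nat_lit 43416025) (nat_lit 223) (nat_lit 5) (nat_lit 227) (nat_lit 5) (nat_lit 228) (nat_lit 5) (nat_lit 379) (nat_lit 343) (nat_lit 298)) (XT.nd (nat_lit 78) (nat_lit 304) (nat_lit 0) (XT.lf (nat_lit 0) (nat_lit 4827163538) (nat_lit 228) (nat_lit 1415912529) (nat_lit 304) (nat_lit 7350914004) (nat_lit 219) (nat_lit 5) (nat_lit 222) (nat_lit 5) (nat_lit 223) (nat_lit 5) (nat_lit 380) (nat_lit 343) (nat_lit 297)) (XT.lf (nat_lit 0) (nat_lit 6501339956) (nat_lit 304) (nat_lit 6496178319) (nat_lit 380) (nat_lit 985596544) (nat_lit 215) (nat_lit 5) (nat_lit 219) (nat_lit 5) (nat_lit 220) (nat_lit 5) (nat_lit 381) (nat_lit 343) (nat_lit 296)))) (XT.nd (nat_lit 156) (nat_lit 532) (nat_lit 0) (XT.nd (nat_lit 78) (nat_lit 304) (nat_lit 0) (XT.lf (nat_lit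 0) (nat_lit 5715062769) (nat_lit 304) (nat_lit 6123148507) (nat_lit 76) (nat_lit 2547993426) (nat_lit 211) (nat_lit 5) (nat_lit 215) (nat_lit 5) (nat_lit 212) (nat_lit 5) (nat_lit 382) (nat_lit 343) (nat_lit 295)) (XT.lf (nat_lit 0) (nat_lit 10137561657) (nat_lit 304) (nat_lit 2754198732) (nat_lit 380) (nat_lit 1912554268) (nat_lit 207) (nat_lit 5) (nat_lit 211) (nat_lit 5) (nat_lit 212) (nat_lit 5) (nat_lit 383) (nat_lit 343) (nat_lit 294))) (XT.nd (nat_lit 78) (nat_lit 228) (nat_lit 0) (XT.lf (nat_lit 0) (nat_lit 5252595815) (nat_lit 304) (nat_lit 3147344019) (nat_lit 76) (nat_lit 6836801609) (nat_lit 203) (nat_lit 5) (nat_lit 207) (nat_lit 5) (nat_lit 204) (nat_lit 5) (nat_lit 384) (nat_lit 343) (nat_lit 293)) (XT.lf (nat_lit 0) (nat_lit 12886614751) (nat_lit 304) (nat_lit 1502208424) (nat_lit 76) (nat_lit 1296893331) (nat_lit 200) (nat_lit 5) (nat_lit 204) (nat_lit 5) (nat_lit 201) (nat_lit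 5) (nat_lit 385) (nat_lit 343) (nat_lit 292)))))) (XT.nd (nat_lit 546) (nat_lit 1444) (nat_lit 0) (XT.nd (nat_lit 234) (nat_lit 912) (nat_lit 0) (XT.nd (nat_lit 78) (nat_lit 532) (nat_lit 0) (XT.lf (nat_lit 0) (nat_lit 208293155) (nat_lit 228) (nat_lit 4649768680) (nat_lit 304) (nat_lit 11291546174) (nat_lit 193) (nat_lit 5) (nat_lit 196) (nat_lit 5) (nat_lit 197) (nat_lit 5) (nat_lit 386) (nat_lit 343) (nat_lit 291)) (XT.nd (nat_lit 78) (nat_lit 304) (nat_lit 0) (XT.lf (nat_lit 0) (nat_lit 2066906727) (nat_lit 228) (nat_lit 10968357829) (nat_lit 304) (nat_lit 3594745997) (nat_lit 190) (nat_lit 5) (nat_lit 193) (nat_lit 5) (nat_lit 194) (nat_lit 5) (nat_lit 387) (nat_lit 343) (nat_lit 290)) (XT.lf (nat_lit 0) (nat_lit 4043930804) (nat_lit 228) (nat_lit 534868660) (nat_lit 304) (nat_lit 12548956012) (nat_lit 186) (nat_lit 5) (nat_lit 189) (nat_lit 5) (nat_lit 190) (nat_lit 5) (nat_lit 388) (nat_lit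 343) (nat_lit 289)))) (XT.nd (nat_lit 156) (nat_lit 456) (nat_lit 0) (XT.nd (nat_lit 78) (nat_lit 304) (nat_lit 0) (XT.lf (nat_lit 0) (nat_lit 6100297801) (nat_lit 152) (nat_lit 7227021533) (nat_lit 228) (nat_lit 4314781306) (nat_lit 184) (nat_lit 5) (nat_lit 186) (nat_lit 5) (nat_lit 187) (nat_lit 5) (nat_lit 389) (nat_lit 343) (nat_lit 288)) (XT.lf (nat_lit 0) (nat_lit 4437244608) (nat_lit 304) (nat_lit 9879437575) (nat_lit 76) (nat_lit 3858512147) (nat_lit 180) (nat_lit 5) (nat_lit 184) (nat_lit 5) (nat_lit 181) (nat_lit 5) (nat_lit 390) (nat_lit 343) (nat_lit 287))) (XT.nd (nat_lit 78) (nat_lit 304) (nat_lit 0) (XT.lf (nat_lit 0) (nat_lit 10607723994) (nat_lit 152) (nat_lit 3158633551) (nat_lit 228) (nat_lit 4960441881) (nat_lit 178) (nat_lit 5) (nat_lit 180) (nat_lit 5) (nat_lit 181) (nat_lit 5) (nat_lit 391) (nat_lit 343) (nat_lit 286)) (XT.lf (nat_lit 0) (nat_lit 4420648354) (nat_lit 304)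 (nat_lit 6261976976) (nat_lit 76) (nat_lit 8614699454) (nat_lit 174) (nat_lit 5) (nat_lit 178) (nat_lit 5) (nat_lit 175) (nat_lit 5) (nat_lit 392) (nat_lit 343) (nat_lit 285))))) (XT.nd (nat_lit 234) (nat_lit 760) (nat_lit 0) (XT.nd (nat_lit 78) (nat_lit 532) (nat_lit 0) (XT.lf (nat_lit 0) (nat_lit 14383882141) (nat_lit 228) (nat_lit 4268082596) (nat_lit 76) (nat_lit 1236467915) (nat_lit 172) (nat_lit 5) (nat_lit 175) (nat_lit 5) (nat_lit 173) (nat_lit 5) (nat_lit 393) (nat_lit 343) (nat_lit 284)) (XT.nd (nat_lit 78) (nat_lit 304) (nat_lit 0) (XT.lf (nat_lit 0) (nat_lit 4541391620) (nat_lit 228) (nat_lit 2185624666) (nat_lit 76) (nat_lit 13772134433) (nat_lit 169) (nat_lit 5) (nat_lit 172) (nat_lit 5) (nat_lit 170) (nat_lit 5) (nat_lit 394) (nat_lit 343) (nat_lit 283)) (XT.lf (nat_lit 0) (nat_lit 32810637) (nat_lit 152) (nat_lit 15189900009) (nat_lit 228) (nat_lit 5908651358) (nat_lit 165) (nat_lit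 5) (nat_lit 167) (nat_lit 5) (nat_lit 168) (nat_lit 5) (nat_lit 395) (nat_lit 343) (nat_lit 282)))) (XT.nd (nat_lit 156) (nat_lit 380) (nat_lit 0) (XT.nd (nat_lit 78) (nat_lit 152) (nat_lit 0) (XT.lf (nat_lit 0) (nat_lit 2441969497) (nat_lit 152) (nat_lit 2399658222) (nat_lit 228) (nat_lit 16943537744) (nat_lit 162) (nat_lit 5) (nat_lit 164) (nat_lit 5) (nat_lit 165) (nat_lit 5) (nat_lit 396) (nat_lit 343) (nat_lit 281)) (XT.lf (nat_lit 0) (nat_lit 4955506438) (nat_lit 152) (nat_lit 11365990747) (nat_lit 228) (nat_lit 6138978572) (nat_lit 160) (nat_lit 5) (nat_lit 162) (nat_lit 5) (nat_lit 163) (nat_lit 5) (nat_lit 397) (nat_lit 343) (nat_lit 280))) (XT.nd (nat_lit 78) (nat_lit 152) (nat_lit 0) (XT.lf (nat_lit 0) (nat_lit 5367143307) (nat_lit 228) (nat_lit 15506603440) (nat_lit 76) (nat_lit 2286416011) (nat_lit 157) (nat_lit 5) (nat_lit 160) (nat_lit 5) (nat_lit 158) (nat_lit 5) (nat_lit 398) (nat_lit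 343) (nat_lit 279)) (XT.lf (nat_lit 0) (nat_lit 10467281302) (nat_lit 152) (nat_lit 7195568210) (nat_lit 228) (nat_lit 6219923888) (nat_lit 155) (nat_lit 5) (nat_lit 157) (nat_lit 5) (nat_lit 158) (nat_lit 5) (nat_lit 399) (nat_lit 343) (nat_lit 278))))))) (XT.nd (nat_lit 1014) (nat_lit 1900) (nat_lit 0) (XT.nd (nat_lit 468) (nat_lit 1140) (nat_lit 0) (XT.nd (nat_lit 234) (nat_lit 532) (nat_lit 0) (XT.nd (nat_lit 78) (nat_lit 304) (nat_lit 0) (XT.lf (nat_lit 0) (nat_lit 6123162185) (nat_lit 228) (nat_lit 11175051523) (nat_lit 76) (nat_lit 7332377642) (nat_lit 152) (nat_lit 5) (nat_lit 155) (nat_lit 5) (nat_lit 153) (nat_lit 5) (nat_lit 400) (nat_lit 343) (nat_lit 277)) (XT.nd (nat_lit 78) (nat_lit 152) (nat_lit 0) (XT.lf (nat_lit 0) (nat_lit 16625211884) (nat_lit 152) (nat_lit 2647862824) (nat_lit 228) (nat_lit 6131328699) (nat_lit 150) (nat_lit 5) (nat_lit 152) (nat_lit 5) (nat_lit 153) (nat_lit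 5) (nat_lit 401) (nat_lit 343) (nat_lit 276)) (XT.lf (nat_lit 0) (nat_lit 7110688653) (nat_lit 152) (nat_lit 6272468937) (nat_lit 76) (nat_lit 12820337818) (nat_lit 148) (nat_lit 5) (nat_lit 150) (nat_lit 5) (nat_lit 149) (nat_lit 5) (nat_lit 402) (nat_lit 343) (nat_lit 275)))) (XT.nd (nat_lit 78) (nat_lit 380) (nat_lit 0) (XT.lf (nat_lit 0) (nat_lit 21202749705) (nat_lit 228) (nat_lit 3562568187) (nat_lit 76) (nat_lit 2265960489) (nat_lit 146) (nat_lit 5) (nat_lit 149) (nat_lit 5) (nat_lit 147) (nat_lit 4) (nat_lit 403) (nat_lit 343) (nat_lit 274)) (XT.nd (nat_lit 78) (nat_lit 228) (nat_lit 0) (XT.lf (nat_lit 0) (nat_lit 8355728209) (nat_lit 152) (nat_lit 740911270) (nat_lit 76) (nat_lit 18789031312) (nat_lit 144) (nat_lit 5) (nat_lit 146) (nat_lit 5) (nat_lit 145) (nat_lit 5) (nat_lit 404) (nat_lit 343) (nat_lit 273)) (XT.lf (nat_lit 0) (nat_lit 2333225582) (nat_lit 76) (nat_lit 21179252255)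 (nat_lit 152) (nat_lit 5257059054) (nat_lit 141) (nat_lit 5) (nat_lit 142) (nat_lit 5) (nat_lit 143) (nat_lit 4) (nat_lit 405) (nat_lit 343) (nat_lit 272))))) (XT.nd (nat_lit 234) (nat_lit 608) (nat_lit 0) (XT.nd (nat_lit 78) (nat_lit 304) (nat_lit 0) (XT.lf (nat_lit 0) (nat_lit 5592006379) (nat_lit 152) (nat_lit 4348168359) (nat_lit 228) (nat_lit 19742598898) (nat_lit 138) (nat_lit 5) (nat_lit 140) (nat_lit 5) (nat_lit 141) (nat_lit 5) (nat_lit 406) (nat_lit 343) (nat_lit 271)) (XT.nd (nat_lit 78) (nat_lit 228) (nat_lit 0) (XT.lf (nat_lit 0) (nat_lit 9039471954) (nat_lit 76) (nat_lit 17190447488) (nat_lit 152) (nat_lit 4396950075) (nat_lit 137) (nat_lit 5) (nat_lit 138) (nat_lit 5) (nat_lit 139) (nat_lit 4) (nat_lit 407) (nat_lit 343) (nat_lit 270)) (XT.lf (nat_lit 0) (nat_lit 11863760774) (nat_lit 228) (nat_lit 18895960873) (nat_lit 76) (nat_lit 843777892) (nat_lit 134) (nat_lit 5) (nat_lit 137)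 (nat_lit 5) (nat_lit 135) (nat_lit 4) (nat_lit 408) (nat_lit 343) (nat_lit 269)))) (XT.nd (nat_lit 156) (nat_lit 304) (nat_lit 0) (XT.nd (nat_lit 78) (nat_lit 228) (nat_lit 0) (XT.lf (nat_lit 0) (nat_lit 16558676448) (nat_lit 76) (nat_lit 12798441186) (nat_lit 152) (nat_lit 3255221020) (nat_lit 133) (nat_lit 5) (nat_lit 134) (nat_lit 5) (nat_lit 135) (nat_lit 4) (nat_lit 409) (nat_lit 343) (nat_lit 268)) (XT.lf (nat_lit 0) (nat_lit 14191308847) (nat_lit 228) (nat_lit 13027022670) (nat_lit 76) (nat_lit 6436874843) (nat_lit 130) (nat_lit 5) (nat_lit 133) (nat_lit 5) (nat_lit 131) (nat_lit 4) (nat_lit 410) (nat_lit 343) (nat_lit 267))) (XT.nd (nat_lit 78) (nat_lit 228) (nat_lit 0) (XT.lf (nat_lit 0) (nat_lit 24970794315) (nat_lit 76) (nat_lit 7963324186) (nat_lit 152) (nat_lit 1800393766) (nat_lit 129) (nat_lit 5) (nat_lit 130) (nat_lit 5) (nat_lit 131) (nat_lit 4) (nat_lit 411) (nat_lit 343) (nat_lit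 266)) (XT.lf (nat_lit 0) (nat_lit 16918147091) (nat_lit 228) (nat_lit 6367974781) (nat_lit 76) (nat_lit 12561873063) (nat_lit 126) (nat_lit 5) (nat_lit 129) (nat_lit 5) (nat_lit 127) (nat_lit 4) (nat_lit 412) (nat_lit 343) (nat_lit 265)))))) (XT.nd (nat_lit 546) (nat_lit 836) (nat_lit 0) (XT.nd (nat_lit 234) (nat_lit 456) (nat_lit 0) (XT.nd (nat_lit 78) (nat_lit 456) (nat_lit 0) (XT.lf (nat_lit 0) (nat_lit 1736508) (nat_lit 152) (nat_lit 2639716722) (nat_lit 76) (nat_lit 34361095032) (nat_lit 124) (nat_lit 5) (nat_lit 126) (nat_lit 5) (nat_lit 125) (nat_lit 5) (nat_lit 413) (nat_lit 343) (nat_lit 264)) (XT.nd (nat_lit 78) (nat_lit 228) (nat_lit 0) (XT.lf (nat_lit 0) (nat_lit 1185191546) (nat_lit 76) (nat_lit 18910783393) (nat_lit 152) (nat_lit 18095004396) (nat_lit 121) (nat_lit 5) (nat_lit 122) (nat_lit 5) (nat_lit 123) (nat_lit 4) (nat_lit 414) (nat_lit 343) (nat_lit 263)) (XT.lf (nat_lit 0)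 (nat_lit 2230223034) (nat_lit 228) (nat_lit 33966315731) (nat_lit 76) (nat_lit 3226534853) (nat_lit 118) (nat_lit 5) (nat_lit 121) (nat_lit 5) (nat_lit 119) (nat_lit 4) (nat_lit 415) (nat_lit 343) (nat_lit 262)))) (XT.nd (nat_lit 156) (nat_lit 228) (nat_lit 0) (XT.nd (nat_lit 78) (nat_lit 152) (nat_lit 0) (XT.lf (nat_lit 0) (nat_lit 9843298349) (nat_lit 76) (nat_lit 13985706979) (nat_lit 152) (nat_lit 16863446757) (nat_lit 117) (nat_lit 5) (nat_lit 118) (nat_lit 5) (nat_lit 119) (nat_lit 4) (nat_lit 416) (nat_lit 343) (nat_lit 261)) (XT.lf (nat_lit 0) (nat_lit 4942729634) (nat_lit 152) (nat_lit 27406828021) (nat_lit 76) (nat_lit 9658016065) (nat_lit 115) (nat_lit 5) (nat_lit 117) (nat_lit 5) (nat_lit 116) (nat_lit 4) (nat_lit 417) (nat_lit 343) (nat_lit 260))) (XT.nd (nat_lit 78) (nat_lit 152) (nat_lit 0) (XT.lf (nat_lit 0) (nat_lit 19577479786) (nat_lit 76) (nat_lit 8525808495) (nat_lit 152) (nat_lit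 15261769148) (nat_lit 114) (nat_lit 5) (nat_lit 115) (nat_lit 5) (nat_lit 116) (nat_lit 4) (nat_lit 418) (nat_lit 343) (nat_lit 259)) (XT.lf (nat_lit 0) (nat_lit 8132537827) (nat_lit 152) (nat_lit 19900963415) (nat_lit 76) (nat_lit 16735213468) (nat_lit 112) (nat_lit 5) (nat_lit 114) (nat_lit 5) (nat_lit 113) (nat_lit 4) (nat_lit 419) (nat_lit 343) (nat_lit 258))))) (XT.nd (nat_lit 234) (nat_lit 532) (nat_lit 0) (XT.nd (nat_lit 78) (nat_lit 228) (nat_lit 0) (XT.lf (nat_lit 0) (nat_lit 30494245340) (nat_lit 76) (nat_lit 2477237896) (nat_lit 152) (nat_lit 13248821623) (nat_lit 111) (nat_lit 5) (nat_lit 112) (nat_lit 5) (nat_lit 113) (nat_lit 4) (nat_lit 420) (nat_lit 343) (nat_lit 257)) (XT.nd (nat_lit 78) (nat_lit 76) (nat_lit 0) (XT.lf (nat_lit 0) (nat_lit 11848414753) (nat_lit 152) (nat_lit 11350038289) (nat_lit 76) (nat_lit 24519925384) (nat_lit 109) (nat_lit 5) (nat_lit 111) (nat_lit 5) (nat_lit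 110) (nat_lit 4) (nat_lit 421) (nat_lit 343) (nat_lit 256)) (XT.lf (nat_lit 0) (nat_lit 38531337667) (nat_lit 152) (nat_lit 6601595883) (nat_lit 0) (nat_lit 4136341906) (nat_lit 108) (nat_lit 5) (nat_lit 110) (nat_lit 4) (nat_lit 108) (nat_lit 4) (nat_lit 422) (nat_lit 343) (nat_lit 255)))) (XT.nd (nat_lit 156) (nat_lit 228) (nat_lit 0) (XT.nd (nat_lit 78) (nat_lit 152) (nat_lit 0) (XT.lf (nat_lit 0) (nat_lit 16143429357) (nat_lit 152) (nat_lit 1646511367) (nat_lit 76) (nat_lit 33079319055) (nat_lit 106) (nat_lit 5) (nat_lit 108) (nat_lit 5) (nat_lit 107) (nat_lit 4) (nat_lit 423) (nat_lit 343) (nat_lit 254)) (XT.lf (nat_lit 0) (nat_lit 3782343222) (nat_lit 76) (nat_lit 41089078180) (nat_lit 76) (nat_lit 7652893423) (nat_lit 104) (nat_lit 4) (nat_lit 105) (nat_lit 5) (nat_lit 105) (nat_lit 4) (nat_lit 424) (nat_lit 343) (nat_lit 253))) (XT.nd (nat_lit 78) (nat_lit 76) (nat_lit 0) (XT.lf (nat_lit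 0) (nat_lit 9512369230) (nat_lit 76) (nat_lit 11654391255) (nat_lit 152) (nat_lit 33065418268) (nat_lit 102) (nat_lit 5) (nat_lit 103) (nat_lit 5) (nat_lit 104) (nat_lit 4) (nat_lit 425) (nat_lit 343) (nat_lit 252)) (XT.lf (nat_lit 0) (nat_lit 15655831735) (nat_lit 76) (nat_lit 36421624689) (nat_lit 76) (nat_lit 3921456329) (nat_lit 101) (nat_lit 4) (nat_lit 102) (nat_lit 5) (nat_lit 102) (nat_lit 4) (nat_lit 426) (nat_lit 343) (nat_lit 251))))))))
noncomputable def xc54 : XT := (XT.nd (nat_lit 47736) (nat_lit 0) (nat_lit 9576) (XT.nd (nat_lit 46644) (nat_lit 0) (nat_lit 24320) (XT.nd (nat_lit 468) (nat_lit 836) (nat_lit 0) (XT.nd (nat_lit 234) (nat_lit 380) (nat_lit 0) (XT.nd (nat_lit 78) (nat_lit 228) (nat_lit 0) (XT.lf (nat_lit 0) (nat_lit 22129072963) (nat_lit 76) (nat_lit 4790546223) (nat_lit 152) (nat_lit 30903854441) (nat_lit 99) (nat_lit 5) (nat_lit 100) (nat_lit 5) (nat_lit 101) (nat_lit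 4) (nat_lit 427) (nat_lit 343) (nat_lit 250)) (XT.nd (nat_lit 78) (nat_lit 76) (nat_lit 0) (XT.lf (nat_lit 0) (nat_lit 441247597) (nat_lit 152) (nat_lit 30691162719) (nat_lit 76) (nat_lit 28577407749) (nat_lit 97) (nat_lit 5) (nat_lit 99) (nat_lit 5) (nat_lit 98) (nat_lit 4) (nat_lit 428) (nat_lit 343) (nat_lit 249)) (XT.lf (nat_lit 0) (nat_lit 33482991149) (nat_lit 152) (nat_lit 25374186027) (nat_lit 0) (nat_lit 2801067420) (nat_lit 96) (nat_lit 5) (nat_lit 98) (nat_lit 4) (nat_lit 96) (nat_lit 4) (nat_lit 429) (nat_lit 343) (nat_lit 248)))) (XT.nd (nat_lit 78) (nat_lit 228) (nat_lit 0) (XT.lf (nat_lit 0) (nat_lit 5419439718) (nat_lit 152) (nat_lit 19694780193) (nat_lit 76) (nat_lit 38557563025) (nat_lit 94) (nat_lit 5) (nat_lit 96) (nat_lit 5) (nat_lit 95) (nat_lit 4) (nat_lit 430) (nat_lit 343) (nat_lit 247)) (XT.nd (nat_lit 78) (nat_lit 152) (nat_lit 0) (XT.lf (nat_lit 0) (nat_lit 40959492114)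 (nat_lit 152) (nat_lit 13648612641) (nat_lit 0) (nat_lit 11144074587) (nat_lit 93) (nat_lit 5) (nat_lit 95) (nat_lit 4) (nat_lit 93) (nat_lit 4) (nat_lit 431) (nat_lit 343) (nat_lit 246)) (XT.lf (nat_lit 0) (nat_lit 11159853914) (nat_lit 152) (nat_lit 7173523632) (nat_lit 76) (nat_lit 49569586044) (nat_lit 91) (nat_lit 5) (nat_lit 93) (nat_lit 5) (nat_lit 92) (nat_lit 4) (nat_lit 432) (nat_lit 343) (nat_lit 245))))) (XT.nd (nat_lit 234) (nat_lit 456) (nat_lit 0) (XT.nd (nat_lit 78) (nat_lit 304) (nat_lit 0) (XT.lf (nat_lit 0) (nat_lit 49386219110) (nat_lit 152) (nat_lit 322725141) (nat_lit 0) (nat_lit 20415310201) (nat_lit 90) (nat_lit 5) (nat_lit 92) (nat_lit 4) (nat_lit 90) (nat_lit 4) (nat_lit 433) (nat_lit 343) (nat_lit 244)) (XT.nd (nat_lit 78) (nat_lit 76) (nat_lit 0) (XT.lf (nat_lit 0) (nat_lit 7167929312) (nat_lit 76) (nat_lit 10639924054) (nat_lit 152) (nat_lit 54611626503) (nat_lit 87)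 (nat_lit 5) (nat_lit 88) (nat_lit 5) (nat_lit 89) (nat_lit 4) (nat_lit 434) (nat_lit 343) (nat_lit 243)) (XT.lf (nat_lit 0) (nat_lit 15059498731) (nat_lit 76) (nat_lit 43938783921) (nat_lit 76) (nat_lit 15790639875) (nat_lit 86) (nat_lit 4) (nat_lit 87) (nat_lit 5) (nat_lit 87) (nat_lit 4) (nat_lit 435) (nat_lit 343) (nat_lit 242)))) (XT.nd (nat_lit 156) (nat_lit 228) (nat_lit 0) (XT.nd (nat_lit 78) (nat_lit 76) (nat_lit 0) (XT.lf (nat_lit 0) (nat_lit 23538528871) (nat_lit 76) (nat_lit 1927703307) (nat_lit 152) (nat_lit 51773940393) (nat_lit 84) (nat_lit 5) (nat_lit 85) (nat_lit 5) (nat_lit 86) (nat_lit 4) (nat_lit 436) (nat_lit 343) (nat_lit 241)) (XT.lf (nat_lit 0) (nat_lit 32425715530) (nat_lit 76) (nat_lit 37345526766) (nat_lit 76) (nat_lit 9998696457) (nat_lit 83) (nat_lit 4) (nat_lit 84) (nat_lit 5) (nat_lit 84) (nat_lit 4) (nat_lit 437) (nat_lit 343) (nat_lit 240))) (XT.nd (nat_lit 78) (nat_lit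 76) (nat_lit 0) (XT.lf (nat_lit 0) (nat_lit 34232275057) (nat_lit 152) (nat_lit 40479723978) (nat_lit 0) (nat_lit 7673594201) (nat_lit 81) (nat_lit 5) (nat_lit 83) (nat_lit 4) (nat_lit 81) (nat_lit 4) (nat_lit 438) (nat_lit 343) (nat_lit 239)) (XT.lf (nat_lit 0) (nat_lit 51965374615) (nat_lit 76) (nat_lit 29845028474) (nat_lit 76) (nat_lit 3278385553) (nat_lit 80) (nat_lit 4) (nat_lit 81) (nat_lit 5) (nat_lit 81) (nat_lit 4) (nat_lit 439) (nat_lit 343) (nat_lit 238)))))) (XT.nd (nat_lit 546) (nat_lit 5396) (nat_lit 0) (XT.nd (nat_lit 234) (nat_lit 1216) (nat_lit 0) (XT.nd (nat_lit 78) (nat_lit 532) (nat_lit 0) (XT.lf (nat_lit 0) (nat_lit 2149283314) (nat_lit 532) (nat_lit 581856804) (nat_lit 532) (nat_lit 581856804) (nat_lit 494) (nat_lit 3) (nat_lit 501) (nat_lit 3) (nat_lit 501) (nat_lit 5) (nat_lit 344) (nat_lit 344) (nat_lit 332)) (XT.nd (nat_lit 78) (nat_lit 0) (nat_lit 0) (XT.lf (nat_lit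 0) (nat_lit 1548109711) (nat_lit 532) (nat_lit 2272127727) (nat_lit 608) (nat_lit 2855479091) (nat_lit 487) (nat_lit 5) (nat_lit 494) (nat_lit 3) (nat_lit 495) (nat_lit 5) (nat_lit 345) (nat_lit 344) (nat_lit 331)) (XT.lf (nat_lit 76) (nat_lit 3456947048) (nat_lit 0) (nat_lit 1910793672) (nat_lit 608) (nat_lit 1365539752) (nat_lit 488) (nat_lit 5) (nat_lit 487) (nat_lit 5) (nat_lit 495) (nat_lit 5) (nat_lit 346) (nat_lit 344) (nat_lit 330)))) (XT.nd (nat_lit 156) (nat_lit 684) (nat_lit 0) (XT.nd (nat_lit 78) (nat_lit 0) (nat_lit 0) (XT.lf (nat_lit 0) (nat_lit 2346506820) (nat_lit 608) (nat_lit 4182224590) (nat_lit 684) (nat_lit 269876502) (nat_lit 480) (nat_lit 5) (nat_lit 488) (nat_lit 5) (nat_lit 489) (nat_lit 5) (nat_lit 347) (nat_lit 344) (nat_lit 329)) (XT.lf (nat_lit 76) (nat_lit 1871281731) (nat_lit 0) (nat_lit 4188186890) (nat_lit 684) (nat_lit 812020867) (nat_lit 481) (nat_lit 5) (nat_lit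 480) (nat_lit 5) (nat_lit 489) (nat_lit 5) (nat_lit 348) (nat_lit 344) (nat_lit 328))) (XT.nd (nat_lit 78) (nat_lit 0) (nat_lit 76) (XT.lf (nat_lit 76) (nat_lit 1224384815) (nat_lit 0) (nat_lit 1561555481) (nat_lit 760) (nat_lit 4166168387) (nat_lit 472) (nat_lit 5) (nat_lit 471) (nat_lit 5) (nat_lit 481) (nat_lit 5) (nat_lit 349) (nat_lit 344) (nat_lit 327)) (XT.lf (nat_lit 76) (nat_lit 681165479) (nat_lit 0) (nat_lit 5725349414) (nat_lit 760) (nat_lit 634217474) (nat_lit 473) (nat_lit 5) (nat_lit 472) (nat_lit 5) (nat_lit 482) (nat_lit 5) (nat_lit 350) (nat_lit 344) (nat_lit 326))))) (XT.nd (nat_lit 234) (nat_lit 3952) (nat_lit 0) (XT.nd (nat_lit 78) (nat_lit 760) (nat_lit 0) (XT.lf (nat_lit 76) (nat_lit 215064496) (nat_lit 0) (nat_lit 2672684033) (nat_lit 836) (nat_lit 4248949870) (nat_lit 463) (nat_lit 5) (nat_lit 462) (nat_lit 5) (nat_lit 473) (nat_lit 5) (nat_lit 351) (nat_lit 344) (nat_lit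 325)) (XT.nd (nat_lit 78) (nat_lit 836) (nat_lit 0) (XT.lf (nat_lit 0) (nat_lit 6449038907) (nat_lit 760) (nat_lit 140126134) (nat_lit 76) (nat_lit 651819032) (nat_lit 463) (nat_lit 5) (nat_lit 473) (nat_lit 5) (nat_lit 464) (nat_lit 5) (nat_lit 352) (nat_lit 344) (nat_lit 324)) (XT.lf (nat_lit 0) (nat_lit 2689699700) (nat_lit 836) (nat_lit 427402710) (nat_lit 76) (nat_lit 4235348195) (nat_lit 452) (nat_lit 5) (nat_lit 463) (nat_lit 5) (nat_lit 453) (nat_lit 5) (nat_lit 353) (nat_lit 344) (nat_lit 323)))) (XT.nd (nat_lit 156) (nat_lit 2128) (nat_lit 0) (XT.nd (nat_lit 78) (nat_lit 988) (nat_lit 0) (XT.lf (nat_lit 0) (nat_lit 6222979799) (nat_lit 912) (nat_lit 612518475) (nat_lit 76) (nat_lit 636939009) (nat_lit 441) (nat_lit 5) (nat_lit 453) (nat_lit 5) (nat_lit 442) (nat_lit 5) (nat_lit 354) (nat_lit 344) (nat_lit 322)) (XT.lf (nat_lit 0) (nat_lit 2218108756) (nat_lit 988) (nat_lit 735382785)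 (nat_lit 76) (nat_lit 4646383655) (nat_lit 428) (nat_lit 5) (nat_lit 441) (nat_lit 5) (nat_lit 429) (nat_lit 5) (nat_lit 355) (nat_lit 344) (nat_lit 321))) (XT.nd (nat_lit 78) (nat_lit 1140) (nat_lit 0) (XT.lf (nat_lit 0) (nat_lit 5751874088) (nat_lit 1064) (nat_lit 767435672) (nat_lit 76) (nat_lit 1216444274) (nat_lit 415) (nat_lit 5) (nat_lit 429) (nat_lit 5) (nat_lit 416) (nat_lit 5) (nat_lit 356) (nat_lit 344) (nat_lit 320)) (XT.lf (nat_lit 0) (nat_lit 1498745204) (nat_lit 1140) (nat_lit 729138559) (nat_lit 76) (nat_lit 5651713730) (nat_lit 400) (nat_lit 5) (nat_lit 415) (nat_lit 5) (nat_lit 401) (nat_lit 5) (nat_lit 357) (nat_lit 344) (nat_lit 319))))))) (XT.nd (nat_lit 1014) (nat_lit 5472) (nat_lit 0) (XT.nd (nat_lit 468) (nat_lit 3572) (nat_lit 0) (XT.nd (nat_lit 234) (nat_lit 2432) (nat_lit 0) (XT.nd (nat_lit 78) (nat_lit 2128) (nat_lit 0) (XT.lf (nat_lit 0) (nat_lit 5062125035) (nat_lit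 1216) (nat_lit 618278891) (nat_lit 76) (nat_lit 2351210336) (nat_lit 385) (nat_lit 5) (nat_lit 401) (nat_lit 5) (nat_lit 386) (nat_lit 5) (nat_lit 358) (nat_lit 344) (nat_lit 318)) (XT.nd (nat_lit 78) (nat_lit 836) (nat_lit 0) (XT.lf (nat_lit 0) (nat_lit 555891219) (nat_lit 1292) (nat_lit 420133520) (nat_lit 76) (nat_lit 7216368509) (nat_lit 368) (nat_lit 5) (nat_lit 385) (nat_lit 5) (nat_lit 369) (nat_lit 5) (nat_lit 359) (nat_lit 344) (nat_lit 317)) (XT.lf (nat_lit 0) (nat_lit 4176913691) (nat_lit 912) (nat_lit 174074008) (nat_lit 76) (nat_lit 4009917859) (nat_lit 357) (nat_lit 5) (nat_lit 369) (nat_lit 5) (nat_lit 358) (nat_lit 5) (nat_lit 360) (nat_lit 344) (nat_lit 316)))) (XT.nd (nat_lit 78) (nat_lit 1216) (nat_lit 0) (XT.lf (nat_lit 0) (nat_lit 174575395) (nat_lit 608) (nat_lit 7772649477) (nat_lit 684) (nat_lit 591571484) (nat_lit 341) (nat_lit 5) (nat_lit 349) (nat_lit 5) (nat_lit 350)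 (nat_lit 5) (nat_lit 361) (nat_lit 344) (nat_lit 315)) (XT.nd (nat_lit 78) (nat_lit 608) (nat_lit 0) (XT.lf (nat_lit 0) (nat_lit 571382839) (nat_lit 532) (nat_lit 2550715211) (nat_lit 608) (nat_lit 5602455750) (nat_lit 333) (nat_lit 5) (nat_lit 340) (nat_lit 5) (nat_lit 341) (nat_lit 5) (nat_lit 362) (nat_lit 344) (nat_lit 314)) (XT.lf (nat_lit 0) (nat_lit 1054133700) (nat_lit 608) (nat_lit 5949237448) (nat_lit 684) (nat_lit 1916227612) (nat_lit 325) (nat_lit 5) (nat_lit 333) (nat_lit 5) (nat_lit 334) (nat_lit 5) (nat_lit 363) (nat_lit 344) (nat_lit 313))))) (XT.nd (nat_lit 234) (nat_lit 1900) (nat_lit 0) (XT.nd (nat_lit 78) (nat_lit 1064) (nat_lit 0) (XT.lf (nat_lit 0) (nat_lit 1615051339) (nat_lit 532) (nat_lit 299585143) (nat_lit 608) (nat_lit 7209242099) (nat_lit 317) (nat_lit 5) (nat_lit 324) (nat_lit 5) (nat_lit 325) (nat_lit 5) (nat_lit 364) (nat_lit 344) (nat_lit 312)) (XT.nd (nat_lit 78)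 (nat_lit 532) (nat_lit 0) (XT.lf (nat_lit 0) (nat_lit 2226275490) (nat_lit 532) (nat_lit 3705864110) (nat_lit 608) (nat_lit 3404621825) (nat_lit 310) (nat_lit 5) (nat_lit 317) (nat_lit 5) (nat_lit 318) (nat_lit 5) (nat_lit 365) (nat_lit 344) (nat_lit 311)) (XT.lf (nat_lit 0) (nat_lit 591574197) (nat_lit 532) (nat_lit 6627311043) (nat_lit 76) (nat_lit 2340847097) (nat_lit 303) (nat_lit 5) (nat_lit 310) (nat_lit 5) (nat_lit 304) (nat_lit 5) (nat_lit 366) (nat_lit 344) (nat_lit 310)))) (XT.nd (nat_lit 156) (nat_lit 912) (nat_lit 0) (XT.nd (nat_lit 78) (nat_lit 456) (nat_lit 0) (XT.lf (nat_lit 0) (nat_lit 3695517044) (nat_lit 532) (nat_lit 1053766689) (nat_lit 608) (nat_lit 5042593291) (nat_lit 296) (nat_lit 5) (nat_lit 303) (nat_lit 5) (nat_lit 304) (nat_lit 5) (nat_lit 367) (nat_lit 344) (nat_lit 309)) (XT.lf (nat_lit 0) (nat_lit 4537516629) (nat_lit 456) (nat_lit 4630564037) (nat_lit 532) (nat_lit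 865952220) (nat_lit 290) (nat_lit 5) (nat_lit 296) (nat_lit 5) (nat_lit 297) (nat_lit 5) (nat_lit 368) (nat_lit 344) (nat_lit 308))) (XT.nd (nat_lit 78) (nat_lit 380) (nat_lit 0) (XT.lf (nat_lit 0) (nat_lit 3488216350) (nat_lit 532) (nat_lit 4836117164) (nat_lit 76) (nat_lit 1961826857) (nat_lit 283) (nat_lit 5) (nat_lit 290) (nat_lit 5) (nat_lit 284) (nat_lit 5) (nat_lit 369) (nat_lit 344) (nat_lit 307)) (XT.lf (nat_lit 0) (nat_lit 6444470197) (nat_lit 380) (nat_lit 1658887265) (nat_lit 456) (nat_lit 2445444352) (nat_lit 278) (nat_lit 5) (nat_lit 283) (nat_lit 5) (nat_lit 284) (nat_lit 5) (nat_lit 370) (nat_lit 344) (nat_lit 306)))))) (XT.nd (nat_lit 546) (nat_lit 2280) (nat_lit 0) (XT.nd (nat_lit 234) (nat_lit 1824) (nat_lit 0) (XT.nd (nat_lit 78) (nat_lit 836) (nat_lit 0) (XT.lf (nat_lit 0) (nat_lit 2156537370) (nat_lit 532) (nat_lit 3315111831) (nat_lit 76) (nat_lit 5350113902) (nat_lit 271)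 (nat_lit 5) (nat_lit 278) (nat_lit 5) (nat_lit 272) (nat_lit 5) (nat_lit 371) (nat_lit 344) (nat_lit 305)) (XT.nd (nat_lit 78) (nat_lit 456) (nat_lit 0) (XT.lf (nat_lit 0) (nat_lit 6998768175) (nat_lit 456) (nat_lit 2450178011) (nat_lit 76) (nat_lit 1656878132) (nat_lit 266) (nat_lit 5) (nat_lit 272) (nat_lit 5) (nat_lit 267) (nat_lit 5) (nat_lit 372) (nat_lit 344) (nat_lit 304)) (XT.lf (nat_lit 0) (nat_lit 755884502) (nat_lit 456) (nat_lit 1510703721) (nat_lit 76) (nat_lit 9134601175) (nat_lit 260) (nat_lit 5) (nat_lit 266) (nat_lit 5) (nat_lit 261) (nat_lit 5) (nat_lit 373) (nat_lit 344) (nat_lit 303)))) (XT.nd (nat_lit 156) (nat_lit 760) (nat_lit 0) (XT.nd (nat_lit 78) (nat_lit 684) (nat_lit 0) (XT.lf (nat_lit 0) (nat_lit 5870224432) (nat_lit 456) (nat_lit 523292521) (nat_lit 76) (nat_lit 5313790088) (nat_lit 255) (nat_lit 5) (nat_lit 261) (nat_lit 5) (nat_lit 256) (nat_lit 5) (nat_lit 374)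 (nat_lit 344) (nat_lit 302)) (XT.lf (nat_lit 0) (nat_lit 584700123) (nat_lit 304) (nat_lit 10743254459) (nat_lit 380) (nat_lit 698145786) (nat_lit 246) (nat_lit 5) (nat_lit 250) (nat_lit 5) (nat_lit 251) (nat_lit 5) (nat_lit 375) (nat_lit 344) (nat_lit 301))) (XT.nd (nat_lit 78) (nat_lit 304) (nat_lit 0) (XT.lf (nat_lit 0) (nat_lit 1743448256) (nat_lit 380) (nat_lit 2987017295) (nat_lit 456) (nat_lit 7625281160) (nat_lit 240) (nat_lit 5) (nat_lit 245) (nat_lit 5) (nat_lit 246) (nat_lit 5) (nat_lit 376) (nat_lit 344) (nat_lit 300)) (XT.lf (nat_lit 0) (nat_lit 3000266952) (nat_lit 304) (nat_lit 7526316013) (nat_lit 380) (nat_lit 2171769610) (nat_lit 236) (nat_lit 5) (nat_lit 240) (nat_lit 5) (nat_lit 241) (nat_lit 5) (nat_lit 377) (nat_lit 344) (nat_lit 299))))) (XT.nd (nat_lit 234) (nat_lit 1216) (nat_lit 0) (XT.nd (nat_lit 78) (nat_lit 684) (nat_lit 0) (XT.lf (nat_lit 0) (nat_lit 3589915387) (nat_lit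 380) (nat_lit 8708364863) (nat_lit 76) (nat_lit 755637744) (nat_lit 231) (nat_lit 5) (nat_lit 236) (nat_lit 5) (nat_lit 232) (nat_lit 5) (nat_lit 378) (nat_lit 344) (nat_lit 298)) (XT.nd (nat_lit 78) (nat_lit 380) (nat_lit 0) (XT.lf (nat_lit 0) (nat_lit 5758044136) (nat_lit 304) (nat_lit 3986870393) (nat_lit 380) (nat_lit 3677197713) (nat_lit 227) (nat_lit 5) (nat_lit 231) (nat_lit 5) (nat_lit 232) (nat_lit 5) (nat_lit 379) (nat_lit 344) (nat_lit 297)) (XT.lf (nat_lit 0) (nat_lit 2479559015) (nat_lit 380) (nat_lit 6533202967) (nat_lit 76) (nat_lit 4791439705) (nat_lit 222) (nat_lit 5) (nat_lit 227) (nat_lit 5) (nat_lit 223) (nat_lit 5) (nat_lit 380) (nat_lit 344) (nat_lit 296)))) (XT.nd (nat_lit 156) (nat_lit 608) (nat_lit 0) (XT.nd (nat_lit 78) (nat_lit 380) (nat_lit 0) (XT.lf (nat_lit 0) (nat_lit 8883539496) (nat_lit 228) (nat_lit 112416259) (nat_lit 304) (nat_lit 5204512044) (nat_lit 219) (nat_lit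 5) (nat_lit 222) (nat_lit 5) (nat_lit 223) (nat_lit 5) (nat_lit 381) (nat_lit 344) (nat_lit 295)) (XT.lf (nat_lit 0) (nat_lit 1382079167) (nat_lit 380) (nat_lit 4034263397) (nat_lit 76) (nat_lit 9194323591) (nat_lit 214) (nat_lit 5) (nat_lit 219) (nat_lit 5) (nat_lit 215) (nat_lit 5) (nat_lit 382) (nat_lit 344) (nat_lit 294))) (XT.nd (nat_lit 78) (nat_lit 380) (nat_lit 0) (XT.lf (nat_lit 0) (nat_lit 8332340958) (nat_lit 304) (nat_lit 2670672764) (nat_lit 76) (nat_lit 4032555463) (nat_lit 211) (nat_lit 5) (nat_lit 215) (nat_lit 5) (nat_lit 212) (nat_lit 5) (nat_lit 383) (nat_lit 344) (nat_lit 293)) (XT.lf (nat_lit 0) (nat_lit 308932164) (nat_lit 380) (nat_lit 1184558855) (nat_lit 76) (nat_lit 13983280669) (nat_lit 206) (nat_lit 5) (nat_lit 211) (nat_lit 5) (nat_lit 207) (nat_lit 5) (nat_lit 384) (nat_lit 344) (nat_lit 292))))))))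
noncomputable def xc55 : XT := (XT.nd (nat_lit 2106) (nat_lit 3572) (nat_lit 0) (XT.nd (nat_lit 1014) (nat_lit 2432) (nat_lit 0) (XT.nd (nat_lit 468) (nat_lit 1672) (nat_lit 0) (XT.nd (nat_lit 234) (nat_lit 684) (nat_lit 0) (XT.nd (nat_lit 78) (nat_lit 532) (nat_lit 0) (XT.lf (nat_lit 0) (nat_lit 345091994) (nat_lit 228) (nat_lit 7390743392) (nat_lit 304) (nat_lit 8196124836) (nat_lit 200) (nat_lit 5) (nat_lit 203) (nat_lit 5) (nat_lit 204) (nat_lit 5) (nat_lit 385) (nat_lit 344) (nat_lit 291)) (XT.nd (nat_lit 78) (nat_lit 304) (nat_lit 0) (XT.lf (nat_lit 0) (nat_lit 2052353438) (nat_lit 228) (nat_lit 13657432884) (nat_lit 304) (nat_lit 694850784) (nat_lit 197) (nat_lit 5) (nat_lit 200) (nat_lit 5) (nat_lit 201) (nat_lit 5) (nat_lit 386) (nat_lit 344) (nat_lit 290)) (XT.lf (nat_lit 0) (nat_lit 3817667309) (nat_lit 228) (nat_lit 3428398289) (nat_lit 304) (nat_lit 9646669792) (nat_lit 193) (nat_lit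 5) (nat_lit 196) (nat_lit 5) (nat_lit 197) (nat_lit 5) (nat_lit 387) (nat_lit 344) (nat_lit 289)))) (XT.nd (nat_lit 78) (nat_lit 456) (nat_lit 0) (XT.lf (nat_lit 0) (nat_lit 5714981683) (nat_lit 228) (nat_lit 10062383116) (nat_lit 304) (nat_lit 1621436170) (nat_lit 190) (nat_lit 5) (nat_lit 193) (nat_lit 5) (nat_lit 194) (nat_lit 5) (nat_lit 388) (nat_lit 344) (nat_lit 288)) (XT.nd (nat_lit 78) (nat_lit 152) (nat_lit 0) (XT.lf (nat_lit 0) (nat_lit 6860180077) (nat_lit 304) (nat_lit 10201208881) (nat_lit 76) (nat_lit 861181073) (nat_lit 186) (nat_lit 5) (nat_lit 190) (nat_lit 5) (nat_lit 187) (nat_lit 5) (nat_lit 389) (nat_lit 344) (nat_lit 287)) (XT.lf (nat_lit 0) (nat_lit 9835494043) (nat_lit 152) (nat_lit 6151011115) (nat_lit 228) (nat_lit 2477915919) (nat_lit 184) (nat_lit 5) (nat_lit 186) (nat_lit 5) (nat_lit 187) (nat_lit 5) (nat_lit 390) (nat_lit 344) (nat_lit 286))))) (XT.nd (nat_lit 234)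 (nat_lit 912) (nat_lit 0) (XT.nd (nat_lit 78) (nat_lit 456) (nat_lit 0) (XT.lf (nat_lit 0) (nat_lit 6621889375) (nat_lit 304) (nat_lit 6957840201) (nat_lit 76) (nat_lit 5445340995) (nat_lit 180) (nat_lit 5) (nat_lit 184) (nat_lit 5) (nat_lit 181) (nat_lit 5) (nat_lit 391) (nat_lit 344) (nat_lit 285)) (XT.nd (nat_lit 78) (nat_lit 304) (nat_lit 0) (XT.lf (nat_lit 0) (nat_lit 14455772840) (nat_lit 152) (nat_lit 1900110687) (nat_lit 228) (nat_lit 3250219628) (nat_lit 178) (nat_lit 5) (nat_lit 180) (nat_lit 5) (nat_lit 181) (nat_lit 5) (nat_lit 392) (nat_lit 344) (nat_lit 284)) (XT.lf (nat_lit 0) (nat_lit 6515071852) (nat_lit 304) (nat_lit 3273053378) (nat_lit 76) (nat_lit 10417864060) (nat_lit 174) (nat_lit 5) (nat_lit 178) (nat_lit 5) (nat_lit 175) (nat_lit 5) (nat_lit 393) (nat_lit 344) (nat_lit 283)))) (XT.nd (nat_lit 156) (nat_lit 380) (nat_lit 0) (XT.nd (nat_lit 78) (nat_lit 380) (nat_lit 0) (XT.lf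 (nat_lit 0) (nat_lit 16931473629) (nat_lit 228) (nat_lit 1233049886) (nat_lit 76) (nat_lit 2663478848) (nat_lit 172) (nat_lit 5) (nat_lit 175) (nat_lit 5) (nat_lit 173) (nat_lit 5) (nat_lit 394) (nat_lit 344) (nat_lit 282)) (XT.lf (nat_lit 0) (nat_lit 913856427) (nat_lit 152) (nat_lit 5652592242) (nat_lit 228) (nat_lit 14903719962) (nat_lit 167) (nat_lit 5) (nat_lit 169) (nat_lit 5) (nat_lit 170) (nat_lit 5) (nat_lit 395) (nat_lit 344) (nat_lit 281))) (XT.nd (nat_lit 78) (nat_lit 228) (nat_lit 0) (XT.lf (nat_lit 0) (nat_lit 3235259085) (nat_lit 152) (nat_lit 14526279540) (nat_lit 228) (nat_lit 4373060706) (nat_lit 165) (nat_lit 5) (nat_lit 167) (nat_lit 5) (nat_lit 168) (nat_lit 5) (nat_lit 396) (nat_lit 344) (nat_lit 280)) (XT.lf (nat_lit 0) (nat_lit 5707831041) (nat_lit 152) (nat_lit 1115901040) (nat_lit 228) (nat_lit 15998490966) (nat_lit 162) (nat_lit 5) (nat_lit 164) (nat_lit 5) (nat_lit 165)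 (nat_lit 5) (nat_lit 397) (nat_lit 344) (nat_lit 279)))))) (XT.nd (nat_lit 546) (nat_lit 1216) (nat_lit 0) (XT.nd (nat_lit 234) (nat_lit 684) (nat_lit 0) (XT.nd (nat_lit 78) (nat_lit 380) (nat_lit 0) (XT.lf (nat_lit 0) (nat_lit 8294527041) (nat_lit 152) (nat_lit 10542775739) (nat_lit 228) (nat_lit 4695204843) (nat_lit 160) (nat_lit 5) (nat_lit 162) (nat_lit 5) (nat_lit 163) (nat_lit 5) (nat_lit 398) (nat_lit 344) (nat_lit 278)) (XT.nd (nat_lit 78) (nat_lit 152) (nat_lit 0) (XT.lf (nat_lit 0) (nat_lit 7312688188) (nat_lit 228) (nat_lit 13209381349) (nat_lit 76) (nat_lit 3745785728) (nat_lit 157) (nat_lit 5) (nat_lit 160) (nat_lit 5) (nat_lit 158) (nat_lit 5) (nat_lit 399) (nat_lit 344) (nat_lit 277)) (XT.lf (nat_lit 0) (nat_lit 13975123536) (nat_lit 152) (nat_lit 6196878715) (nat_lit 228) (nat_lit 4856129511) (nat_lit 155) (nat_lit 5) (nat_lit 157) (nat_lit 5) (nat_lit 158) (nat_lit 5) (nat_lit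 400) (nat_lit 344) (nat_lit 276)))) (XT.nd (nat_lit 156) (nat_lit 304) (nat_lit 0) (XT.nd (nat_lit 78) (nat_lit 152) (nat_lit 0) (XT.lf (nat_lit 0) (nat_lit 8034272735) (nat_lit 228) (nat_lit 8768235775) (nat_lit 76) (nat_lit 9011463836) (nat_lit 152) (nat_lit 5) (nat_lit 155) (nat_lit 5) (nat_lit 153) (nat_lit 5) (nat_lit 401) (nat_lit 344) (nat_lit 275)) (XT.lf (nat_lit 0) (nat_lit 20337033382) (nat_lit 152) (nat_lit 1455910908) (nat_lit 228) (nat_lit 4834992812) (nat_lit 150) (nat_lit 5) (nat_lit 152) (nat_lit 5) (nat_lit 153) (nat_lit 5) (nat_lit 402) (nat_lit 344) (nat_lit 274))) (XT.nd (nat_lit 78) (nat_lit 152) (nat_lit 0) (XT.lf (nat_lit 0) (nat_lit 9002734502) (nat_lit 152) (nat_lit 3724539873) (nat_lit 76) (nat_lit 14740300462) (nat_lit 148) (nat_lit 5) (nat_lit 150) (nat_lit 5) (nat_lit 149) (nat_lit 5) (nat_lit 403) (nat_lit 344) (nat_lit 273)) (XT.lf (nat_lit 0) (nat_lit 23765345024)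 (nat_lit 228) (nat_lit 928863149) (nat_lit 76) (nat_lit 3643560393) (nat_lit 146) (nat_lit 5) (nat_lit 149) (nat_lit 5) (nat_lit 147) (nat_lit 4) (nat_lit 404) (nat_lit 344) (nat_lit 272))))) (XT.nd (nat_lit 234) (nat_lit 608) (nat_lit 0) (XT.nd (nat_lit 78) (nat_lit 304) (nat_lit 0) (XT.lf (nat_lit 0) (nat_lit 2022020478) (nat_lit 152) (nat_lit 8242524932) (nat_lit 228) (nat_lit 18970677997) (nat_lit 142) (nat_lit 5) (nat_lit 144) (nat_lit 5) (nat_lit 145) (nat_lit 5) (nat_lit 405) (nat_lit 344) (nat_lit 271)) (XT.nd (nat_lit 78) (nat_lit 228) (nat_lit 0) (XT.lf (nat_lit 0) (nat_lit 5216018339) (nat_lit 76) (nat_lit 20938021452) (nat_lit 152) (nat_lit 4009995803) (nat_lit 141) (nat_lit 5) (nat_lit 142) (nat_lit 5) (nat_lit 143) (nat_lit 4) (nat_lit 406) (nat_lit 344) (nat_lit 270)) (XT.lf (nat_lit 0) (nat_lit 8587066899) (nat_lit 152) (nat_lit 3286173812) (nat_lit 228) (nat_lit 19250589890) (nat_lit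 138) (nat_lit 5) (nat_lit 140) (nat_lit 5) (nat_lit 141) (nat_lit 5) (nat_lit 407) (nat_lit 344) (nat_lit 269)))) (XT.nd (nat_lit 156) (nat_lit 304) (nat_lit 0) (XT.nd (nat_lit 78) (nat_lit 228) (nat_lit 0) (XT.lf (nat_lit 0) (nat_lit 12158968547) (nat_lit 76) (nat_lit 16787475054) (nat_lit 152) (nat_lit 3169618547) (nat_lit 137) (nat_lit 5) (nat_lit 138) (nat_lit 5) (nat_lit 139) (nat_lit 4) (nat_lit 408) (nat_lit 344) (nat_lit 268)) (XT.lf (nat_lit 0) (nat_lit 13845428511) (nat_lit 228) (nat_lit 17192911864) (nat_lit 76) (nat_lit 2103679751) (nat_lit 134) (nat_lit 5) (nat_lit 137) (nat_lit 5) (nat_lit 135) (nat_lit 4) (nat_lit 409) (nat_lit 344) (nat_lit 267))) (XT.nd (nat_lit 78) (nat_lit 228) (nat_lit 0) (XT.lf (nat_lit 0) (nat_lit 19958557319) (nat_lit 76) (nat_lit 12213500942) (nat_lit 152) (nat_lit 2030484784) (nat_lit 133) (nat_lit 5) (nat_lit 134) (nat_lit 5) (nat_lit 135) (nat_lit 4)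 (nat_lit 410) (nat_lit 344) (nat_lit 266)) (XT.lf (nat_lit 0) (nat_lit 16232361233) (nat_lit 228) (nat_lit 11125834398) (nat_lit 76) (nat_lit 7939826439) (nat_lit 130) (nat_lit 5) (nat_lit 133) (nat_lit 5) (nat_lit 131) (nat_lit 4) (nat_lit 411) (nat_lit 344) (nat_lit 265))))))) (XT.nd (nat_lit 1014) (nat_lit 1672) (nat_lit 0) (XT.nd (nat_lit 468) (nat_lit 912) (nat_lit 0) (XT.nd (nat_lit 234) (nat_lit 532) (nat_lit 0) (XT.nd (nat_lit 78) (nat_lit 380) (nat_lit 0) (XT.lf (nat_lit 0) (nat_lit 28698705406) (nat_lit 76) (nat_lit 7174035057) (nat_lit 152) (nat_lit 559739936) (nat_lit 129) (nat_lit 5) (nat_lit 130) (nat_lit 5) (nat_lit 131) (nat_lit 4) (nat_lit 412) (nat_lit 344) (nat_lit 264)) (XT.nd (nat_lit 78) (nat_lit 152) (nat_lit 0) (XT.lf (nat_lit 0) (nat_lit 19041248542) (nat_lit 228) (nat_lit 4226095006) (nat_lit 76) (nat_lit 14334735311) (nat_lit 126) (nat_lit 5) (nat_lit 129) (nat_lit 5)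 (nat_lit 127) (nat_lit 4) (nat_lit 413) (nat_lit 344) (nat_lit 263)) (XT.lf (nat_lit 0) (nat_lit 1253441216) (nat_lit 152) (nat_lit 357037784) (nat_lit 76) (nat_lit 37204648139) (nat_lit 124) (nat_lit 5) (nat_lit 126) (nat_lit 5) (nat_lit 125) (nat_lit 5) (nat_lit 414) (nat_lit 344) (nat_lit 262)))) (XT.nd (nat_lit 78) (nat_lit 304) (nat_lit 0) (XT.lf (nat_lit 0) (nat_lit 3662653984) (nat_lit 76) (nat_lit 18686798635) (nat_lit 152) (nat_lit 17713615315) (nat_lit 121) (nat_lit 5) (nat_lit 122) (nat_lit 5) (nat_lit 123) (nat_lit 4) (nat_lit 415) (nat_lit 344) (nat_lit 261)) (XT.nd (nat_lit 78) (nat_lit 76) (nat_lit 0) (XT.lf (nat_lit 0) (nat_lit 3576589202) (nat_lit 228) (nat_lit 33265703271) (nat_lit 76) (nat_lit 4514889176) (nat_lit 118) (nat_lit 5) (nat_lit 121) (nat_lit 5) (nat_lit 119) (nat_lit 4) (nat_lit 416) (nat_lit 344) (nat_lit 260)) (XT.lf (nat_lit 0) (nat_lit 12665626717) (nat_lit 76)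 (nat_lit 13553280230) (nat_lit 152) (nat_lit 16472214201) (nat_lit 117) (nat_lit 5) (nat_lit 118) (nat_lit 5) (nat_lit 119) (nat_lit 4) (nat_lit 417) (nat_lit 344) (nat_lit 259))))) (XT.nd (nat_lit 234) (nat_lit 532) (nat_lit 0) (XT.nd (nat_lit 78) (nat_lit 228) (nat_lit 0) (XT.lf (nat_lit 0) (nat_lit 6375221180) (nat_lit 152) (nat_lit 26465852682) (nat_lit 76) (nat_lit 11231317891) (nat_lit 115) (nat_lit 5) (nat_lit 117) (nat_lit 5) (nat_lit 116) (nat_lit 4) (nat_lit 418) (nat_lit 344) (nat_lit 258)) (XT.nd (nat_lit 78) (nat_lit 152) (nat_lit 0) (XT.lf (nat_lit 0) (nat_lit 22801417085) (nat_lit 76) (nat_lit 7857526118) (nat_lit 152) (nat_lit 14839852382) (nat_lit 114) (nat_lit 5) (nat_lit 115) (nat_lit 5) (nat_lit 116) (nat_lit 4) (nat_lit 419) (nat_lit 344) (nat_lit 257)) (XT.lf (nat_lit 0) (nat_lit 9677234514) (nat_lit 152) (nat_lit 18669347488) (nat_lit 76) (nat_lit 18626426349) (nat_lit 112)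 (nat_lit 5) (nat_lit 114) (nat_lit 5) (nat_lit 113) (nat_lit 4) (nat_lit 420) (nat_lit 344) (nat_lit 256)))) (XT.nd (nat_lit 156) (nat_lit 304) (nat_lit 0) (XT.nd (nat_lit 78) (nat_lit 152) (nat_lit 0) (XT.lf (nat_lit 0) (nat_lit 34181794825) (nat_lit 76) (nat_lit 1542929083) (nat_lit 152) (nat_lit 12773456199) (nat_lit 111) (nat_lit 5) (nat_lit 112) (nat_lit 5) (nat_lit 113) (nat_lit 4) (nat_lit 421) (nat_lit 344) (nat_lit 255)) (XT.lf (nat_lit 0) (nat_lit 13533709714) (nat_lit 152) (nat_lit 9772640108) (nat_lit 76) (nat_lit 26765161297) (nat_lit 109) (nat_lit 5) (nat_lit 111) (nat_lit 5) (nat_lit 110) (nat_lit 4) (nat_lit 422) (nat_lit 344) (nat_lit 254))) (XT.nd (nat_lit 78) (nat_lit 228) (nat_lit 0) (XT.lf (nat_lit 0) (nat_lit 41528593669) (nat_lit 152) (nat_lit 4826262368) (nat_lit 0) (nat_lit 5345762518) (nat_lit 108) (nat_lit 5) (nat_lit 110) (nat_lit 4) (nat_lit 108) (nat_lit 4) (nat_lit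 423) (nat_lit 344) (nat_lit 253)) (XT.lf (nat_lit 0) (nat_lit 343824531) (nat_lit 76) (nat_lit 17659734372) (nat_lit 152) (nat_lit 35377575123) (nat_lit 105) (nat_lit 5) (nat_lit 106) (nat_lit 5) (nat_lit 107) (nat_lit 4) (nat_lit 424) (nat_lit 344) (nat_lit 252)))))) (XT.nd (nat_lit 546) (nat_lit 836) (nat_lit 0) (XT.nd (nat_lit 234) (nat_lit 532) (nat_lit 0) (XT.nd (nat_lit 78) (nat_lit 228) (nat_lit 0) (XT.lf (nat_lit 0) (nat_lit 6039623512) (nat_lit 76) (nat_lit 42123703970) (nat_lit 76) (nat_lit 6955753034) (nat_lit 104) (nat_lit 4) (nat_lit 105) (nat_lit 5) (nat_lit 105) (nat_lit 4) (nat_lit 425) (nat_lit 344) (nat_lit 251)) (XT.nd (nat_lit 78) (nat_lit 76) (nat_lit 0) (XT.lf (nat_lit 0) (nat_lit 12017333854) (nat_lit 76) (nat_lit 11235571557) (nat_lit 152) (nat_lit 33660048073) (nat_lit 102) (nat_lit 5) (nat_lit 103) (nat_lit 5) (nat_lit 104) (nat_lit 4) (nat_lit 426) (nat_lit 344) (nat_lit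 250)) (XT.lf (nat_lit 0) (nat_lit 18430397593) (nat_lit 76) (nat_lit 37258110481) (nat_lit 76) (nat_lit 3080134953) (nat_lit 101) (nat_lit 4) (nat_lit 102) (nat_lit 5) (nat_lit 102) (nat_lit 4) (nat_lit 427) (nat_lit 344) (nat_lit 249)))) (XT.nd (nat_lit 156) (nat_lit 228) (nat_lit 0) (XT.nd (nat_lit 78) (nat_lit 152) (nat_lit 0) (XT.lf (nat_lit 0) (nat_lit 25189870101) (nat_lit 76) (nat_lit 4063231529) (nat_lit 152) (nat_lit 31431920634) (nat_lit 99) (nat_lit 5) (nat_lit 100) (nat_lit 5) (nat_lit 101) (nat_lit 4) (nat_lit 428) (nat_lit 344) (nat_lit 248)) (XT.lf (nat_lit 0) (nat_lit 1440658411) (nat_lit 152) (nat_lit 30288198701) (nat_lit 76) (nat_lit 30937131404) (nat_lit 97) (nat_lit 5) (nat_lit 99) (nat_lit 5) (nat_lit 98) (nat_lit 4) (nat_lit 429) (nat_lit 344) (nat_lit 247))) (XT.nd (nat_lit 78) (nat_lit 152) (nat_lit 0) (XT.lf (nat_lit 0) (nat_lit 36115008896) (nat_lit 152) (nat_lit 24741414274)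 (nat_lit 0) (nat_lit 3855997610) (nat_lit 96) (nat_lit 5) (nat_lit 98) (nat_lit 4) (nat_lit 96) (nat_lit 4) (nat_lit 430) (nat_lit 344) (nat_lit 246)) (XT.lf (nat_lit 0) (nat_lit 6629629398) (nat_lit 152) (nat_lit 18813851447) (nat_lit 76) (nat_lit 41383714707) (nat_lit 94) (nat_lit 5) (nat_lit 96) (nat_lit 5) (nat_lit 95) (nat_lit 4) (nat_lit 431) (nat_lit 344) (nat_lit 245))))) (XT.nd (nat_lit 234) (nat_lit 456) (nat_lit 0) (XT.nd (nat_lit 78) (nat_lit 304) (nat_lit 0) (XT.lf (nat_lit 0) (nat_lit 43928033631) (nat_lit 152) (nat_lit 12500151124) (nat_lit 0) (nat_lit 12583986547) (nat_lit 93) (nat_lit 5) (nat_lit 95) (nat_lit 4) (nat_lit 93) (nat_lit 4) (nat_lit 432) (nat_lit 344) (nat_lit 244)) (XT.nd (nat_lit 78) (nat_lit 152) (nat_lit 0) (XT.lf (nat_lit 0) (nat_lit 12620521924) (nat_lit 152) (nat_lit 5735824812) (nat_lit 76) (nat_lit 52914684774) (nat_lit 91) (nat_lit 5) (nat_lit 93) (nat_lit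 5) (nat_lit 92) (nat_lit 4) (nat_lit 433) (nat_lit 344) (nat_lit 243)) (XT.lf (nat_lit 0) (nat_lit 1452306748) (nat_lit 76) (nat_lit 51301995201) (nat_lit 76) (nat_lit 20849202070) (nat_lit 89) (nat_lit 4) (nat_lit 90) (nat_lit 5) (nat_lit 90) (nat_lit 4) (nat_lit 434) (nat_lit 344) (nat_lit 242)))) (XT.nd (nat_lit 156) (nat_lit 228) (nat_lit 0) (XT.nd (nat_lit 78) (nat_lit 76) (nat_lit 0) (XT.lf (nat_lit 0) (nat_lit 9290312610) (nat_lit 76) (nat_lit 10292533447) (nat_lit 152) (nat_lit 56431069804) (nat_lit 87) (nat_lit 5) (nat_lit 88) (nat_lit 5) (nat_lit 89) (nat_lit 4) (nat_lit 435) (nat_lit 344) (nat_lit 241)) (XT.lf (nat_lit 0) (nat_lit 17543462572) (nat_lit 76) (nat_lit 45271900421) (nat_lit 76) (nat_lit 15686990675) (nat_lit 86) (nat_lit 4) (nat_lit 87) (nat_lit 5) (nat_lit 87) (nat_lit 4) (nat_lit 436) (nat_lit 344) (nat_lit 240))) (XT.nd (nat_lit 78) (nat_lit 76) (nat_lit 0) (XT.lf (nat_lit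 0) (nat_lit 26413755347) (nat_lit 76) (nat_lit 1176163073) (nat_lit 152) (nat_lit 53486751540) (nat_lit 84) (nat_lit 5) (nat_lit 85) (nat_lit 5) (nat_lit 86) (nat_lit 4) (nat_lit 437) (nat_lit 344) (nat_lit 239)) (XT.lf (nat_lit 0) (nat_lit 35713482737) (nat_lit 76) (nat_lit 38379984162) (nat_lit 76) (nat_lit 9639958917) (nat_lit 83) (nat_lit 4) (nat_lit 84) (nat_lit 5) (nat_lit 84) (nat_lit 4) (nat_lit 438) (nat_lit 344) (nat_lit 238))))))))
noncomputable def xc56 : XT := (XT.nd (nat_lit 47736) (nat_lit 0) (nat_lit 6536) (XT.nd (nat_lit 46722) (nat_lit 0) (nat_lit 15808) (XT.nd (nat_lit 46176) (nat_lit 0) (nat_lit 25384) (XT.nd (nat_lit 45942) (nat_lit 0) (nat_lit 29564) (XT.nd (nat_lit 45786) (nat_lit 0) (nat_lit 30172) (XT.lf (nat_lit 0) (nat_lit 36769288406) (nat_lit 152) (nat_lit 40852054147) (nat_lit 0) (nat_lit 8858768356) (nat_lit 81) (nat_lit 5) (nat_lit 83) (nat_lit 4) (nat_lit 81) (nat_lit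 4) (nat_lit 439) (nat_lit 344) (nat_lit 237)) (XT.nd (nat_lit 78) (nat_lit 684) (nat_lit 0) (XT.lf (nat_lit 0) (nat_lit 1305902636) (nat_lit 0) (nat_lit 1305902636) (nat_lit 532) (nat_lit 752898038) (nat_lit 487) (nat_lit 5) (nat_lit 487) (nat_lit 3) (nat_lit 494) (nat_lit 3) (nat_lit 345) (nat_lit 345) (nat_lit 330)) (XT.lf (nat_lit 76) (nat_lit 1511244068) (nat_lit 0) (nat_lit 546221596) (nat_lit 684) (nat_lit 4733497561) (nat_lit 479) (nat_lit 5) (nat_lit 478) (nat_lit 3) (nat_lit 487) (nat_lit 5) (nat_lit 346) (nat_lit 345) (nat_lit 329)))) (XT.nd (nat_lit 78) (nat_lit 684) (nat_lit 0) (XT.lf (nat_lit 76) (nat_lit 504393876) (nat_lit 0) (nat_lit 5099152433) (nat_lit 684) (nat_lit 1256530145) (nat_lit 480) (nat_lit 5) (nat_lit 479) (nat_lit 5) (nat_lit 488) (nat_lit 5) (nat_lit 347) (nat_lit 345) (nat_lit 328)) (XT.nd (nat_lit 78) (nat_lit 0) (nat_lit 76) (XT.lf (nat_lit 0) (nat_lit 2187716552)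 (nat_lit 684) (nat_lit 400251636) (nat_lit 760) (nat_lit 4348782134) (nat_lit 470) (nat_lit 5) (nat_lit 479) (nat_lit 5) (nat_lit 480) (nat_lit 5) (nat_lit 348) (nat_lit 345) (nat_lit 327)) (XT.lf (nat_lit 0) (nat_lit 5626721430) (nat_lit 684) (nat_lit 1191517452) (nat_lit 760) (nat_lit 203189790) (nat_lit 471) (nat_lit 5) (nat_lit 480) (nat_lit 5) (nat_lit 481) (nat_lit 5) (nat_lit 349) (nat_lit 345) (nat_lit 326))))) (XT.nd (nat_lit 234) (nat_lit 2736) (nat_lit 0) (XT.nd (nat_lit 78) (nat_lit 760) (nat_lit 0) (XT.lf (nat_lit 0) (nat_lit 1964977190) (nat_lit 760) (nat_lit 1913193353) (nat_lit 836) (nat_lit 3235182312) (nat_lit 461) (nat_lit 5) (nat_lit 471) (nat_lit 5) (nat_lit 472) (nat_lit 5) (nat_lit 350) (nat_lit 345) (nat_lit 325)) (XT.nd (nat_lit 78) (nat_lit 760) (nat_lit 0) (XT.lf (nat_lit 76) (nat_lit 4678219357) (nat_lit 0) (nat_lit 649545204) (nat_lit 836) (nat_lit 1885775517) (nat_lit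 462) (nat_lit 5) (nat_lit 461) (nat_lit 5) (nat_lit 472) (nat_lit 5) (nat_lit 351) (nat_lit 345) (nat_lit 324)) (XT.lf (nat_lit 0) (nat_lit 1411011045) (nat_lit 836) (nat_lit 3086354593) (nat_lit 912) (nat_lit 2823893738) (nat_lit 451) (nat_lit 5) (nat_lit 462) (nat_lit 5) (nat_lit 463) (nat_lit 5) (nat_lit 352) (nat_lit 345) (nat_lit 323)))) (XT.nd (nat_lit 156) (nat_lit 1900) (nat_lit 0) (XT.nd (nat_lit 78) (nat_lit 836) (nat_lit 0) (XT.lf (nat_lit 76) (nat_lit 3884849672) (nat_lit 0) (nat_lit 840259104) (nat_lit 912) (nat_lit 2711951555) (nat_lit 452) (nat_lit 5) (nat_lit 451) (nat_lit 5) (nat_lit 463) (nat_lit 5) (nat_lit 353) (nat_lit 345) (nat_lit 322)) (XT.lf (nat_lit 0) (nat_lit 557289099) (nat_lit 912) (nat_lit 3943512247) (nat_lit 76) (nat_lit 3059954423) (nat_lit 440) (nat_lit 5) (nat_lit 452) (nat_lit 5) (nat_lit 441) (nat_lit 5) (nat_lit 354) (nat_lit 345) (nat_lit 321))) (XT.nd (nat_lit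 78) (nat_lit 988) (nat_lit 0) (XT.lf (nat_lit 0) (nat_lit 3430934739) (nat_lit 912) (nat_lit 415841062) (nat_lit 988) (nat_lit 3845668508) (nat_lit 428) (nat_lit 5) (nat_lit 440) (nat_lit 5) (nat_lit 441) (nat_lit 5) (nat_lit 355) (nat_lit 345) (nat_lit 320)) (XT.lf (nat_lit 0) (nat_lit 3323177897) (nat_lit 988) (nat_lit 3928710356) (nat_lit 1064) (nat_lit 580294481) (nat_lit 415) (nat_lit 5) (nat_lit 428) (nat_lit 5) (nat_lit 429) (nat_lit 5) (nat_lit 356) (nat_lit 345) (nat_lit 319)))))) (XT.nd (nat_lit 468) (nat_lit 3876) (nat_lit 0) (XT.nd (nat_lit 234) (nat_lit 2128) (nat_lit 0) (XT.nd (nat_lit 78) (nat_lit 2432) (nat_lit 0) (XT.lf (nat_lit 0) (nat_lit 2724400806) (nat_lit 1140) (nat_lit 4685301064) (nat_lit 76) (nat_lit 570435785) (nat_lit 400) (nat_lit 5) (nat_lit 415) (nat_lit 5) (nat_lit 401) (nat_lit 5) (nat_lit 357) (nat_lit 345) (nat_lit 318)) (XT.nd (nat_lit 78) (nat_lit 1292) (nat_lit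 0) (XT.lf (nat_lit 0) (nat_lit 3336871542) (nat_lit 1140) (nat_lit 2816320083) (nat_lit 1216) (nat_lit 1983000468) (nat_lit 385) (nat_lit 5) (nat_lit 400) (nat_lit 5) (nat_lit 401) (nat_lit 5) (nat_lit 358) (nat_lit 345) (nat_lit 317)) (XT.lf (nat_lit 0) (nat_lit 1384119465) (nat_lit 1292) (nat_lit 4839228263) (nat_lit 76) (nat_lit 2077509186) (nat_lit 368) (nat_lit 5) (nat_lit 385) (nat_lit 5) (nat_lit 369) (nat_lit 5) (nat_lit 359) (nat_lit 345) (nat_lit 316)))) (XT.nd (nat_lit 78) (nat_lit 1292) (nat_lit 0) (XT.lf (nat_lit 0) (nat_lit 3655171952) (nat_lit 836) (nat_lit 1199523962) (nat_lit 912) (nat_lit 3619186692) (nat_lit 357) (nat_lit 5) (nat_lit 368) (nat_lit 5) (nat_lit 369) (nat_lit 5) (nat_lit 360) (nat_lit 345) (nat_lit 315)) (XT.nd (nat_lit 78) (nat_lit 684) (nat_lit 0) (XT.lf (nat_lit 0) (nat_lit 3927177805) (nat_lit 608) (nat_lit 4566521105) (nat_lit 684) (nat_lit 162013739) (nat_lit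 349) (nat_lit 5) (nat_lit 357) (nat_lit 5) (nat_lit 358) (nat_lit 5) (nat_lit 361) (nat_lit 345) (nat_lit 314)) (XT.lf (nat_lit 0) (nat_lit 3383740685) (nat_lit 684) (nat_lit 4581597610) (nat_lit 76) (nat_lit 880793910) (nat_lit 340) (nat_lit 5) (nat_lit 349) (nat_lit 5) (nat_lit 341) (nat_lit 5) (nat_lit 362) (nat_lit 345) (nat_lit 313))))) (XT.nd (nat_lit 234) (nat_lit 2128) (nat_lit 0) (XT.nd (nat_lit 78) (nat_lit 1216) (nat_lit 0) (XT.lf (nat_lit 0) (nat_lit 4674570586) (nat_lit 532) (nat_lit 2445438064) (nat_lit 608) (nat_lit 1925518669) (nat_lit 333) (nat_lit 5) (nat_lit 340) (nat_lit 5) (nat_lit 341) (nat_lit 5) (nat_lit 363) (nat_lit 345) (nat_lit 312)) (XT.nd (nat_lit 78) (nat_lit 532) (nat_lit 0) (XT.lf (nat_lit 0) (nat_lit 1763951902) (nat_lit 684) (nat_lit 4097432011) (nat_lit 76) (nat_lit 3392673151) (nat_lit 324) (nat_lit 5) (nat_lit 333) (nat_lit 5) (nat_lit 325) (nat_lit 5) (nat_lit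 364) (nat_lit 345) (nat_lit 311)) (XT.lf (nat_lit 0) (nat_lit 5608900434) (nat_lit 608) (nat_lit 3754176974) (nat_lit 76) (nat_lit 109039139) (nat_lit 317) (nat_lit 5) (nat_lit 325) (nat_lit 5) (nat_lit 318) (nat_lit 5) (nat_lit 365) (nat_lit 345) (nat_lit 310)))) (XT.nd (nat_lit 156) (nat_lit 1064) (nat_lit 0) (XT.nd (nat_lit 78) (nat_lit 532) (nat_lit 0) (XT.lf (nat_lit 0) (nat_lit 6346355539) (nat_lit 532) (nat_lit 3350979006) (nat_lit 608) (nat_lit 2207314) (nat_lit 310) (nat_lit 5) (nat_lit 317) (nat_lit 5) (nat_lit 318) (nat_lit 5) (nat_lit 366) (nat_lit 345) (nat_lit 309)) (XT.lf (nat_lit 0) (nat_lit 4001004308) (nat_lit 532) (nat_lit 2901523966) (nat_lit 76) (nat_lit 3033795137) (nat_lit 303) (nat_lit 5) (nat_lit 310) (nat_lit 5) (nat_lit 304) (nat_lit 5) (nat_lit 367) (nat_lit 345) (nat_lit 308))) (XT.nd (nat_lit 78) (nat_lit 532) (nat_lit 0) (XT.lf (nat_lit 0) (nat_lit 7821148059) (nat_lit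 532) (nat_lit 422387867) (nat_lit 608) (nat_lit 1940231307) (nat_lit 296) (nat_lit 5) (nat_lit 303) (nat_lit 5) (nat_lit 304) (nat_lit 5) (nat_lit 368) (nat_lit 345) (nat_lit 307)) (XT.lf (nat_lit 0) (nat_lit 2285249894) (nat_lit 532) (nat_lit 1782970967) (nat_lit 76) (nat_lit 6372473168) (nat_lit 289) (nat_lit 5) (nat_lit 296) (nat_lit 5) (nat_lit 290) (nat_lit 5) (nat_lit 369) (nat_lit 345) (nat_lit 306))))))) (XT.nd (nat_lit 1014) (nat_lit 3952) (nat_lit 0) (XT.nd (nat_lit 468) (nat_lit 2356) (nat_lit 0) (XT.nd (nat_lit 234) (nat_lit 1216) (nat_lit 0) (XT.nd (nat_lit 78) (nat_lit 1292) (nat_lit 0) (XT.lf (nat_lit 0) (nat_lit 6732986202) (nat_lit 532) (nat_lit 1128206382) (nat_lit 76) (nat_lit 2847165033) (nat_lit 283) (nat_lit 5) (nat_lit 290) (nat_lit 5) (nat_lit 284) (nat_lit 5) (nat_lit 370) (nat_lit 345) (nat_lit 305)) (XT.nd (nat_lit 78) (nat_lit 836) (nat_lit 0) (XT.lf (nat_lit 0) (nat_lit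 472736195) (nat_lit 456) (nat_lit 388853155) (nat_lit 76) (nat_lit 10125682609) (nat_lit 277) (nat_lit 5) (nat_lit 283) (nat_lit 5) (nat_lit 278) (nat_lit 5) (nat_lit 371) (nat_lit 345) (nat_lit 304)) (XT.lf (nat_lit 0) (nat_lit 388934654) (nat_lit 380) (nat_lit 4772146887) (nat_lit 456) (nat_lit 6114868197) (nat_lit 266) (nat_lit 5) (nat_lit 271) (nat_lit 5) (nat_lit 272) (nat_lit 5) (nat_lit 372) (nat_lit 345) (nat_lit 303)))) (XT.nd (nat_lit 78) (nat_lit 836) (nat_lit 0) (XT.lf (nat_lit 0) (nat_lit 1278267839) (nat_lit 380) (nat_lit 8883235973) (nat_lit 456) (nat_lit 1415227805) (nat_lit 261) (nat_lit 5) (nat_lit 266) (nat_lit 5) (nat_lit 267) (nat_lit 5) (nat_lit 373) (nat_lit 345) (nat_lit 302)) (XT.nd (nat_lit 78) (nat_lit 380) (nat_lit 0) (XT.lf (nat_lit 0) (nat_lit 2227899873) (nat_lit 380) (nat_lit 1316831794) (nat_lit 456) (nat_lit 8343985613) (nat_lit 255) (nat_lit 5) (nat_lit 260) (nat_lit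 5) (nat_lit 261) (nat_lit 5) (nat_lit 374) (nat_lit 345) (nat_lit 301)) (XT.lf (nat_lit 0) (nat_lit 3245622513) (nat_lit 380) (nat_lit 5594052342) (nat_lit 456) (nat_lit 3372719362) (nat_lit 250) (nat_lit 5) (nat_lit 255) (nat_lit 5) (nat_lit 256) (nat_lit 5) (nat_lit 375) (nat_lit 345) (nat_lit 300))))) (XT.nd (nat_lit 234) (nat_lit 1216) (nat_lit 0) (XT.nd (nat_lit 78) (nat_lit 760) (nat_lit 0) (XT.lf (nat_lit 0) (nat_lit 1907122636) (nat_lit 380) (nat_lit 8189614742) (nat_lit 76) (nat_lit 2452103269) (nat_lit 245) (nat_lit 5) (nat_lit 250) (nat_lit 5) (nat_lit 246) (nat_lit 5) (nat_lit 376) (nat_lit 345) (nat_lit 299)) (XT.nd (nat_lit 78) (nat_lit 380) (nat_lit 0) (XT.lf (nat_lit 0) (nat_lit 5538021567) (nat_lit 380) (nat_lit 1965434787) (nat_lit 456) (nat_lit 5393983667) (nat_lit 240) (nat_lit 5) (nat_lit 245) (nat_lit 5) (nat_lit 246) (nat_lit 5) (nat_lit 377) (nat_lit 345) (nat_lit 298))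 (XT.lf (nat_lit 0) (nat_lit 250137183) (nat_lit 380) (nat_lit 6447484770) (nat_lit 76) (nat_lit 6561725938) (nat_lit 235) (nat_lit 5) (nat_lit 240) (nat_lit 5) (nat_lit 236) (nat_lit 5) (nat_lit 378) (nat_lit 345) (nat_lit 297)))) (XT.nd (nat_lit 156) (nat_lit 608) (nat_lit 0) (XT.nd (nat_lit 78) (nat_lit 304) (nat_lit 0) (XT.lf (nat_lit 0) (nat_lit 6183283315) (nat_lit 380) (nat_lit 5476160333) (nat_lit 76) (nat_lit 1974754082) (nat_lit 231) (nat_lit 5) (nat_lit 236) (nat_lit 5) (nat_lit 232) (nat_lit 5) (nat_lit 379) (nat_lit 345) (nat_lit 296)) (XT.lf (nat_lit 0) (nat_lit 9608437446) (nat_lit 304) (nat_lit 2956893519) (nat_lit 380) (nat_lit 1457891768) (nat_lit 227) (nat_lit 5) (nat_lit 231) (nat_lit 5) (nat_lit 232) (nat_lit 5) (nat_lit 380) (nat_lit 345) (nat_lit 295))) (XT.nd (nat_lit 78) (nat_lit 228) (nat_lit 0) (XT.lf (nat_lit 0) (nat_lit 4893111822) (nat_lit 380) (nat_lit 3297412598)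 (nat_lit 76) (nat_lit 6235200105) (nat_lit 222) (nat_lit 5) (nat_lit 227) (nat_lit 5) (nat_lit 223) (nat_lit 5) (nat_lit 381) (nat_lit 345) (nat_lit 294)) (XT.lf (nat_lit 0) (nat_lit 11670411569) (nat_lit 304) (nat_lit 2066874520) (nat_lit 76) (nat_lit 1106465359) (nat_lit 219) (nat_lit 5) (nat_lit 223) (nat_lit 5) (nat_lit 220) (nat_lit 5) (nat_lit 382) (nat_lit 345) (nat_lit 293)))))) (XT.nd (nat_lit 546) (nat_lit 1672) (nat_lit 0) (XT.nd (nat_lit 234) (nat_lit 1064) (nat_lit 0) (XT.nd (nat_lit 78) (nat_lit 836) (nat_lit 0) (XT.lf (nat_lit 0) (nat_lit 3625116345) (nat_lit 380) (nat_lit 778695529) (nat_lit 76) (nat_lit 10872169593) (nat_lit 214) (nat_lit 5) (nat_lit 219) (nat_lit 5) (nat_lit 215) (nat_lit 5) (nat_lit 383) (nat_lit 345) (nat_lit 292)) (XT.nd (nat_lit 78) (nat_lit 304) (nat_lit 0) (XT.lf (nat_lit 0) (nat_lit 617025060) (nat_lit 304) (nat_lit 10252626119) (nat_lit 380) (nat_lit 4854075670)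 (nat_lit 207) (nat_lit 5) (nat_lit 211) (nat_lit 5) (nat_lit 212) (nat_lit 5) (nat_lit 384) (nat_lit 345) (nat_lit 291)) (XT.lf (nat_lit 0) (nat_lit 2150770159) (nat_lit 228) (nat_lit 260430328) (nat_lit 304) (nat_lit 13776805135) (nat_lit 203) (nat_lit 5) (nat_lit 206) (nat_lit 5) (nat_lit 207) (nat_lit 5) (nat_lit 385) (nat_lit 345) (nat_lit 290)))) (XT.nd (nat_lit 156) (nat_lit 532) (nat_lit 0) (XT.nd (nat_lit 78) (nat_lit 304) (nat_lit 0) (XT.lf (nat_lit 0) (nat_lit 3732481241) (nat_lit 228) (nat_lit 6433691411) (nat_lit 304) (nat_lit 6501079216) (nat_lit 200) (nat_lit 5) (nat_lit 203) (nat_lit 5) (nat_lit 204) (nat_lit 5) (nat_lit 386) (nat_lit 345) (nat_lit 289)) (XT.lf (nat_lit 0) (nat_lit 1294648689) (nat_lit 304) (nat_lit 11702188522) (nat_lit 76) (nat_lit 4167941998) (nat_lit 196) (nat_lit 5) (nat_lit 200) (nat_lit 5) (nat_lit 197) (nat_lit 5) (nat_lit 387) (nat_lit 345) (nat_lit 288)))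 (XT.nd (nat_lit 78) (nat_lit 304) (nat_lit 0) (XT.lf (nat_lit 0) (nat_lit 7272913030) (nat_lit 228) (nat_lit 2281125391) (nat_lit 304) (nat_lit 8124963652) (nat_lit 193) (nat_lit 5) (nat_lit 196) (nat_lit 5) (nat_lit 197) (nat_lit 5) (nat_lit 388) (nat_lit 345) (nat_lit 287)) (XT.lf (nat_lit 0) (nat_lit 245483626) (nat_lit 304) (nat_lit 8998362776) (nat_lit 76) (nat_lit 8967942495) (nat_lit 189) (nat_lit 5) (nat_lit 193) (nat_lit 5) (nat_lit 190) (nat_lit 5) (nat_lit 389) (nat_lit 345) (nat_lit 286))))) (XT.nd (nat_lit 234) (nat_lit 988) (nat_lit 0) (XT.nd (nat_lit 78) (nat_lit 456) (nat_lit 0) (XT.lf (nat_lit 0) (nat_lit 9069709896) (nat_lit 304) (nat_lit 7508177746) (nat_lit 76) (nat_lit 2184815267) (nat_lit 186) (nat_lit 5) (nat_lit 190) (nat_lit 5) (nat_lit 187) (nat_lit 5) (nat_lit 390) (nat_lit 345) (nat_lit 285)) (XT.nd (nat_lit 78) (nat_lit 304) (nat_lit 0) (XT.lf (nat_lit 0) (nat_lit 13438544348)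 (nat_lit 152) (nat_lit 5154832424) (nat_lit 228) (nat_lit 740038969) (nat_lit 184) (nat_lit 5) (nat_lit 186) (nat_lit 5) (nat_lit 187) (nat_lit 5) (nat_lit 391) (nat_lit 345) (nat_lit 284)) (XT.lf (nat_lit 0) (nat_lit 8733285464) (nat_lit 304) (nat_lit 4207710213) (nat_lit 76) (nat_lit 6981919374) (nat_lit 180) (nat_lit 5) (nat_lit 184) (nat_lit 5) (nat_lit 181) (nat_lit 5) (nat_lit 392) (nat_lit 345) (nat_lit 283)))) (XT.nd (nat_lit 156) (nat_lit 532) (nat_lit 0) (XT.nd (nat_lit 78) (nat_lit 304) (nat_lit 0) (XT.lf (nat_lit 0) (nat_lit 18187779301) (nat_lit 152) (nat_lit 710350197) (nat_lit 228) (nat_lit 1636545261) (nat_lit 178) (nat_lit 5) (nat_lit 180) (nat_lit 5) (nat_lit 181) (nat_lit 5) (nat_lit 393) (nat_lit 345) (nat_lit 282)) (XT.lf (nat_lit 0) (nat_lit 8540046379) (nat_lit 304) (nat_lit 441674350) (nat_lit 76) (nat_lit 12183591397) (nat_lit 174) (nat_lit 5) (nat_lit 178) (nat_lit 5)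 (nat_lit 175) (nat_lit 5) (nat_lit 394) (nat_lit 345) (nat_lit 281))) (XT.nd (nat_lit 78) (nat_lit 228) (nat_lit 0) (XT.lf (nat_lit 0) (nat_lit 1684598170) (nat_lit 152) (nat_lit 17768052852) (nat_lit 228) (nat_lit 2366513347) (nat_lit 170) (nat_lit 5) (nat_lit 172) (nat_lit 5) (nat_lit 173) (nat_lit 5) (nat_lit 395) (nat_lit 345) (nat_lit 280)) (XT.lf (nat_lit 0) (nat_lit 3911418141) (nat_lit 152) (nat_lit 4634587923) (nat_lit 228) (nat_lit 13948133949) (nat_lit 167) (nat_lit 5) (nat_lit 169) (nat_lit 5) (nat_lit 170) (nat_lit 5) (nat_lit 396) (nat_lit 345) (nat_lit 279))))))))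
noncomputable def xc57 : XT := (XT.nd (nat_lit 2106) (nat_lit 1976) (nat_lit 0) (XT.nd (nat_lit 1014) (nat_lit 2128) (nat_lit 0) (XT.nd (nat_lit 468) (nat_lit 1140) (nat_lit 0) (XT.nd (nat_lit 234) (nat_lit 608) (nat_lit 0) (XT.nd (nat_lit 78) (nat_lit 380) (nat_lit 0) (XT.lf (nat_lit 0) (nat_lit 6300249174) (nat_lit 152) (nat_lit 13961785836) (nat_lit 228) (nat_lit 2930921704) (nat_lit 165) (nat_lit 5) (nat_lit 167) (nat_lit 5) (nat_lit 168) (nat_lit 5) (nat_lit 397) (nat_lit 345) (nat_lit 278)) (XT.nd (nat_lit 78) (nat_lit 152) (nat_lit 0) (XT.lf (nat_lit 0) (nat_lit 8744146859) (nat_lit 228) (nat_lit 15072254307) (nat_lit 76) (nat_lit 99556187) (nat_lit 162) (nat_lit 5) (nat_lit 165) (nat_lit 5) (nat_lit 163) (nat_lit 5) (nat_lit 398) (nat_lit 345) (nat_lit 277)) (XT.lf (nat_lit 0) (nat_lit 11513103989) (nat_lit 152) (nat_lit 9807769813) (nat_lit 228) (nat_lit 3342008026) (nat_lit 160) (nat_lit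 5) (nat_lit 162) (nat_lit 5) (nat_lit 163) (nat_lit 5) (nat_lit 399) (nat_lit 345) (nat_lit 276)))) (XT.nd (nat_lit 78) (nat_lit 380) (nat_lit 0) (XT.lf (nat_lit 0) (nat_lit 9199581296) (nat_lit 228) (nat_lit 11082954940) (nat_lit 76) (nat_lit 5153074031) (nat_lit 157) (nat_lit 5) (nat_lit 160) (nat_lit 5) (nat_lit 158) (nat_lit 5) (nat_lit 400) (nat_lit 345) (nat_lit 275)) (XT.nd (nat_lit 78) (nat_lit 228) (nat_lit 0) (XT.lf (nat_lit 0) (nat_lit 17380889390) (nat_lit 152) (nat_lit 5274552215) (nat_lit 228) (nat_lit 3579851567) (nat_lit 155) (nat_lit 5) (nat_lit 157) (nat_lit 5) (nat_lit 158) (nat_lit 5) (nat_lit 401) (nat_lit 345) (nat_lit 274)) (XT.lf (nat_lit 0) (nat_lit 9891725546) (nat_lit 228) (nat_lit 6516789672) (nat_lit 76) (nat_lit 10652483569) (nat_lit 152) (nat_lit 5) (nat_lit 155) (nat_lit 5) (nat_lit 153) (nat_lit 5) (nat_lit 402) (nat_lit 345) (nat_lit 273))))) (XT.nd (nat_lit 234)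 (nat_lit 608) (nat_lit 0) (XT.nd (nat_lit 78) (nat_lit 380) (nat_lit 0) (XT.lf (nat_lit 0) (nat_lit 23966638706) (nat_lit 152) (nat_lit 327486447) (nat_lit 228) (nat_lit 3622862795) (nat_lit 150) (nat_lit 5) (nat_lit 152) (nat_lit 5) (nat_lit 153) (nat_lit 5) (nat_lit 403) (nat_lit 345) (nat_lit 272)) (XT.nd (nat_lit 78) (nat_lit 228) (nat_lit 0) (XT.lf (nat_lit 0) (nat_lit 10846532375) (nat_lit 152) (nat_lit 1315254385) (nat_lit 76) (nat_lit 16637356984) (nat_lit 148) (nat_lit 5) (nat_lit 150) (nat_lit 5) (nat_lit 149) (nat_lit 5) (nat_lit 404) (nat_lit 345) (nat_lit 271)) (XT.lf (nat_lit 0) (nat_lit 1606457286) (nat_lit 76) (nat_lit 24725370783) (nat_lit 152) (nat_lit 3381482451) (nat_lit 145) (nat_lit 5) (nat_lit 146) (nat_lit 5) (nat_lit 147) (nat_lit 4) (nat_lit 405) (nat_lit 345) (nat_lit 270)))) (XT.nd (nat_lit 156) (nat_lit 304) (nat_lit 0) (XT.nd (nat_lit 78) (nat_lit 76) (nat_lit 0) (XT.lf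 (nat_lit 0) (nat_lit 4676826880) (nat_lit 152) (nat_lit 7460272621) (nat_lit 228) (nat_lit 18519105272) (nat_lit 142) (nat_lit 5) (nat_lit 144) (nat_lit 5) (nat_lit 145) (nat_lit 5) (nat_lit 406) (nat_lit 345) (nat_lit 269)) (XT.lf (nat_lit 0) (nat_lit 7985782047) (nat_lit 76) (nat_lit 20805608768) (nat_lit 152) (nat_lit 2840957087) (nat_lit 141) (nat_lit 5) (nat_lit 142) (nat_lit 5) (nat_lit 143) (nat_lit 4) (nat_lit 407) (nat_lit 345) (nat_lit 268))) (XT.nd (nat_lit 78) (nat_lit 76) (nat_lit 0) (XT.lf (nat_lit 0) (nat_lit 11479422694) (nat_lit 152) (nat_lit 2290026298) (nat_lit 228) (nat_lit 18871496752) (nat_lit 138) (nat_lit 5) (nat_lit 140) (nat_lit 5) (nat_lit 141) (nat_lit 5) (nat_lit 408) (nat_lit 345) (nat_lit 267)) (XT.lf (nat_lit 0) (nat_lit 15186438965) (nat_lit 76) (nat_lit 16481728798) (nat_lit 152) (nat_lit 2015465431) (nat_lit 137) (nat_lit 5) (nat_lit 138) (nat_lit 5) (nat_lit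 139) (nat_lit 4) (nat_lit 409) (nat_lit 345) (nat_lit 266)))))) (XT.nd (nat_lit 546) (nat_lit 912) (nat_lit 0) (XT.nd (nat_lit 234) (nat_lit 684) (nat_lit 0) (XT.nd (nat_lit 78) (nat_lit 304) (nat_lit 0) (XT.lf (nat_lit 0) (nat_lit 15797091952) (nat_lit 228) (nat_lit 15650882126) (nat_lit 76) (nat_lit 3313365293) (nat_lit 134) (nat_lit 5) (nat_lit 137) (nat_lit 5) (nat_lit 135) (nat_lit 4) (nat_lit 410) (nat_lit 345) (nat_lit 265)) (XT.nd (nat_lit 78) (nat_lit 228) (nat_lit 0) (XT.lf (nat_lit 0) (nat_lit 23289316975) (nat_lit 76) (nat_lit 11713189774) (nat_lit 152) (nat_lit 873508082) (nat_lit 133) (nat_lit 5) (nat_lit 134) (nat_lit 5) (nat_lit 135) (nat_lit 4) (nat_lit 411) (nat_lit 345) (nat_lit 264)) (XT.lf (nat_lit 0) (nat_lit 18251677202) (nat_lit 228) (nat_lit 9366897632) (nat_lit 76) (nat_lit 9408117402) (nat_lit 130) (nat_lit 5) (nat_lit 133) (nat_lit 5) (nat_lit 131) (nat_lit 4) (nat_lit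 412) (nat_lit 345) (nat_lit 263)))) (XT.nd (nat_lit 156) (nat_lit 380) (nat_lit 0) (XT.nd (nat_lit 78) (nat_lit 152) (nat_lit 0) (XT.lf (nat_lit 0) (nat_lit 607149704) (nat_lit 152) (nat_lit 5842399088) (nat_lit 76) (nat_lit 31769222876) (nat_lit 128) (nat_lit 5) (nat_lit 130) (nat_lit 5) (nat_lit 129) (nat_lit 5) (nat_lit 413) (nat_lit 345) (nat_lit 262)) (XT.lf (nat_lit 0) (nat_lit 21151763664) (nat_lit 228) (nat_lit 2205854619) (nat_lit 76) (nat_lit 16089810938) (nat_lit 126) (nat_lit 5) (nat_lit 129) (nat_lit 5) (nat_lit 127) (nat_lit 4) (nat_lit 414) (nat_lit 345) (nat_lit 261))) (XT.nd (nat_lit 78) (nat_lit 76) (nat_lit 0) (XT.lf (nat_lit 0) (nat_lit 1851410137) (nat_lit 152) (nat_lit 617754340) (nat_lit 228) (nat_lit 38252127483) (nat_lit 122) (nat_lit 5) (nat_lit 124) (nat_lit 5) (nat_lit 125) (nat_lit 5) (nat_lit 415) (nat_lit 345) (nat_lit 260)) (XT.lf (nat_lit 0) (nat_lit 6039167963)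 (nat_lit 76) (nat_lit 18560345888) (nat_lit 152) (nat_lit 17432729821) (nat_lit 121) (nat_lit 5) (nat_lit 122) (nat_lit 5) (nat_lit 123) (nat_lit 4) (nat_lit 416) (nat_lit 345) (nat_lit 259))))) (XT.nd (nat_lit 234) (nat_lit 456) (nat_lit 0) (XT.nd (nat_lit 78) (nat_lit 228) (nat_lit 0) (XT.lf (nat_lit 0) (nat_lit 4875468564) (nat_lit 228) (nat_lit 32753089798) (nat_lit 76) (nat_lit 5762880873) (nat_lit 118) (nat_lit 5) (nat_lit 121) (nat_lit 5) (nat_lit 119) (nat_lit 4) (nat_lit 417) (nat_lit 345) (nat_lit 258)) (XT.nd (nat_lit 78) (nat_lit 152) (nat_lit 0) (XT.lf (nat_lit 0) (nat_lit 15412434992) (nat_lit 76) (nat_lit 13204448009) (nat_lit 152) (nat_lit 16176183284) (nat_lit 117) (nat_lit 5) (nat_lit 118) (nat_lit 5) (nat_lit 119) (nat_lit 4) (nat_lit 418) (nat_lit 345) (nat_lit 257)) (XT.lf (nat_lit 0) (nat_lit 7769134225) (nat_lit 152) (nat_lit 25692712900) (nat_lit 76) (nat_lit 12781909656)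 (nat_lit 115) (nat_lit 5) (nat_lit 117) (nat_lit 5) (nat_lit 116) (nat_lit 4) (nat_lit 419) (nat_lit 345) (nat_lit 256)))) (XT.nd (nat_lit 156) (nat_lit 228) (nat_lit 0) (XT.nd (nat_lit 78) (nat_lit 152) (nat_lit 0) (XT.lf (nat_lit 0) (nat_lit 25977826541) (nat_lit 76) (nat_lit 7257592626) (nat_lit 152) (nat_lit 14507010332) (nat_lit 114) (nat_lit 5) (nat_lit 115) (nat_lit 5) (nat_lit 116) (nat_lit 4) (nat_lit 420) (nat_lit 345) (nat_lit 255)) (XT.lf (nat_lit 0) (nat_lit 11193359093) (nat_lit 152) (nat_lit 17583164887) (nat_lit 76) (nat_lit 20514166903) (nat_lit 112) (nat_lit 5) (nat_lit 114) (nat_lit 5) (nat_lit 113) (nat_lit 4) (nat_lit 421) (nat_lit 345) (nat_lit 254))) (XT.nd (nat_lit 78) (nat_lit 152) (nat_lit 0) (XT.lf (nat_lit 0) (nat_lit 37852641680) (nat_lit 76) (nat_lit 660283512) (nat_lit 152) (nat_lit 12380104967) (nat_lit 111) (nat_lit 5) (nat_lit 112) (nat_lit 5) (nat_lit 113) (nat_lit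 4) (nat_lit 422) (nat_lit 345) (nat_lit 253)) (XT.lf (nat_lit 0) (nat_lit 15201664338) (nat_lit 152) (nat_lit 8315784499) (nat_lit 76) (nat_lit 29027899766) (nat_lit 109) (nat_lit 5) (nat_lit 111) (nat_lit 5) (nat_lit 110) (nat_lit 4) (nat_lit 423) (nat_lit 345) (nat_lit 252))))))) (XT.nd (nat_lit 1014) (nat_lit 304) (nat_lit 0) (XT.nd (nat_lit 468) (nat_lit 912) (nat_lit 0) (XT.nd (nat_lit 234) (nat_lit 380) (nat_lit 0) (XT.nd (nat_lit 78) (nat_lit 304) (nat_lit 0) (XT.lf (nat_lit 0) (nat_lit 44576169946) (nat_lit 152) (nat_lit 3157903551) (nat_lit 0) (nat_lit 6522441588) (nat_lit 108) (nat_lit 5) (nat_lit 110) (nat_lit 4) (nat_lit 108) (nat_lit 4) (nat_lit 424) (nat_lit 345) (nat_lit 251)) (XT.nd (nat_lit 78) (nat_lit 76) (nat_lit 0) (XT.lf (nat_lit 0) (nat_lit 2272189193) (nat_lit 76) (nat_lit 17601985261) (nat_lit 152) (nat_lit 36146903145) (nat_lit 105) (nat_lit 5) (nat_lit 106) (nat_lit 5)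 (nat_lit 107) (nat_lit 4) (nat_lit 425) (nat_lit 345) (nat_lit 250)) (XT.lf (nat_lit 0) (nat_lit 8217489611) (nat_lit 76) (nat_lit 43304875002) (nat_lit 76) (nat_lit 6324143806) (nat_lit 104) (nat_lit 4) (nat_lit 105) (nat_lit 5) (nat_lit 105) (nat_lit 4) (nat_lit 426) (nat_lit 345) (nat_lit 249)))) (XT.nd (nat_lit 78) (nat_lit 228) (nat_lit 0) (XT.lf (nat_lit 0) (nat_lit 14458877337) (nat_lit 76) (nat_lit 10888924502) (nat_lit 152) (nat_lit 34382831784) (nat_lit 102) (nat_lit 5) (nat_lit 103) (nat_lit 5) (nat_lit 104) (nat_lit 4) (nat_lit 427) (nat_lit 345) (nat_lit 248)) (XT.nd (nat_lit 78) (nat_lit 152) (nat_lit 0) (XT.lf (nat_lit 0) (nat_lit 21158515452) (nat_lit 76) (nat_lit 38227958913) (nat_lit 76) (nat_lit 2293194586) (nat_lit 101) (nat_lit 4) (nat_lit 102) (nat_lit 5) (nat_lit 102) (nat_lit 4) (nat_lit 428) (nat_lit 345) (nat_lit 247)) (XT.lf (nat_lit 0) (nat_lit 28222010761) (nat_lit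 76) (nat_lit 3389438906) (nat_lit 152) (nat_lit 32080952921) (nat_lit 99) (nat_lit 5) (nat_lit 100) (nat_lit 5) (nat_lit 101) (nat_lit 4) (nat_lit 429) (nat_lit 345) (nat_lit 246))))) (XT.nd (nat_lit 234) (nat_lit 532) (nat_lit 0) (XT.nd (nat_lit 78) (nat_lit 228) (nat_lit 0) (XT.lf (nat_lit 0) (nat_lit 2399175173) (nat_lit 152) (nat_lit 30045218926) (nat_lit 76) (nat_lit 33328299327) (nat_lit 97) (nat_lit 5) (nat_lit 99) (nat_lit 5) (nat_lit 98) (nat_lit 4) (nat_lit 430) (nat_lit 345) (nat_lit 245)) (XT.nd (nat_lit 78) (nat_lit 152) (nat_lit 0) (XT.lf (nat_lit 0) (nat_lit 38789574026) (nat_lit 152) (nat_lit 24253785619) (nat_lit 0) (nat_lit 4878617735) (nat_lit 96) (nat_lit 5) (nat_lit 98) (nat_lit 4) (nat_lit 96) (nat_lit 4) (nat_lit 431) (nat_lit 345) (nat_lit 244)) (XT.lf (nat_lit 0) (nat_lit 7813009003) (nat_lit 152) (nat_lit 18062328368) (nat_lit 76) (nat_lit 44267661015) (nat_lit 94) (nat_lit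 5) (nat_lit 96) (nat_lit 5) (nat_lit 95) (nat_lit 4) (nat_lit 432) (nat_lit 345) (nat_lit 243)))) (XT.nd (nat_lit 156) (nat_lit 304) (nat_lit 0) (XT.nd (nat_lit 78) (nat_lit 152) (nat_lit 0) (XT.lf (nat_lit 0) (nat_lit 46959416638) (nat_lit 152) (nat_lit 11464485529) (nat_lit 0) (nat_lit 14013828261) (nat_lit 93) (nat_lit 5) (nat_lit 95) (nat_lit 4) (nat_lit 93) (nat_lit 4) (nat_lit 433) (nat_lit 345) (nat_lit 242)) (XT.lf (nat_lit 0) (nat_lit 14070301140) (nat_lit 152) (nat_lit 4393250972) (nat_lit 76) (nat_lit 56346468381) (nat_lit 91) (nat_lit 5) (nat_lit 93) (nat_lit 5) (nat_lit 92) (nat_lit 4) (nat_lit 434) (nat_lit 345) (nat_lit 241))) (XT.nd (nat_lit 78) (nat_lit 152) (nat_lit 0) (XT.lf (nat_lit 0) (nat_lit 3155681408) (nat_lit 76) (nat_lit 53054561537) (nat_lit 76) (nat_lit 21048889497) (nat_lit 89) (nat_lit 4) (nat_lit 90) (nat_lit 5) (nat_lit 90) (nat_lit 4) (nat_lit 435) (nat_lit 345)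 (nat_lit 240)) (XT.lf (nat_lit 0) (nat_lit 11354816298) (nat_lit 76) (nat_lit 10009530361) (nat_lit 152) (nat_lit 58426194247) (nat_lit 87) (nat_lit 5) (nat_lit 88) (nat_lit 5) (nat_lit 89) (nat_lit 4) (nat_lit 436) (nat_lit 345) (nat_lit 239)))))) (XT.nd (nat_lit 46332) (nat_lit 0) (nat_lit 26144) (XT.nd (nat_lit 46020) (nat_lit 0) (nat_lit 28652) (XT.nd (nat_lit 78) (nat_lit 228) (nat_lit 0) (XT.lf (nat_lit 0) (nat_lit 19990693663) (nat_lit 76) (nat_lit 46751982792) (nat_lit 76) (nat_lit 15661198536) (nat_lit 86) (nat_lit 4) (nat_lit 87) (nat_lit 5) (nat_lit 87) (nat_lit 4) (nat_lit 437) (nat_lit 345) (nat_lit 238)) (XT.nd (nat_lit 78) (nat_lit 76) (nat_lit 0) (XT.lf (nat_lit 0) (nat_lit 29274851307) (nat_lit 76) (nat_lit 465877895) (nat_lit 152) (nat_lit 55366634810) (nat_lit 84) (nat_lit 5) (nat_lit 85) (nat_lit 5) (nat_lit 86) (nat_lit 4) (nat_lit 438) (nat_lit 345) (nat_lit 237)) (XT.lf (nat_lit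 0) (nat_lit 39010704656) (nat_lit 76) (nat_lit 39543592039) (nat_lit 76) (nat_lit 9343115718) (nat_lit 83) (nat_lit 4) (nat_lit 84) (nat_lit 5) (nat_lit 84) (nat_lit 4) (nat_lit 439) (nat_lit 345) (nat_lit 236)))) (XT.nd (nat_lit 156) (nat_lit 684) (nat_lit 0) (XT.nd (nat_lit 78) (nat_lit 684) (nat_lit 0) (XT.lf (nat_lit 0) (nat_lit 2725621739) (nat_lit 684) (nat_lit 351261281) (nat_lit 684) (nat_lit 351261281) (nat_lit 478) (nat_lit 3) (nat_lit 487) (nat_lit 3) (nat_lit 487) (nat_lit 5) (nat_lit 346) (nat_lit 346) (nat_lit 328)) (XT.lf (nat_lit 0) (nat_lit 1894907650) (nat_lit 684) (nat_lit 1858828344) (nat_lit 760) (nat_lit 3175165859) (nat_lit 469) (nat_lit 5) (nat_lit 478) (nat_lit 3) (nat_lit 479) (nat_lit 5) (nat_lit 347) (nat_lit 346) (nat_lit 327))) (XT.nd (nat_lit 78) (nat_lit 684) (nat_lit 0) (XT.lf (nat_lit 76) (nat_lit 4094063092) (nat_lit 0) (nat_lit 1074086615) (nat_lit 760) (nat_lit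 1841458214) (nat_lit 470) (nat_lit 5) (nat_lit 469) (nat_lit 5) (nat_lit 479) (nat_lit 5) (nat_lit 348) (nat_lit 346) (nat_lit 326)) (XT.lf (nat_lit 0) (nat_lit 1347129794) (nat_lit 760) (nat_lit 3892256476) (nat_lit 836) (nat_lit 1858550234) (nat_lit 460) (nat_lit 5) (nat_lit 470) (nat_lit 5) (nat_lit 471) (nat_lit 5) (nat_lit 349) (nat_lit 346) (nat_lit 325))))) (XT.nd (nat_lit 234) (nat_lit 1748) (nat_lit 0) (XT.nd (nat_lit 78) (nat_lit 760) (nat_lit 0) (XT.lf (nat_lit 76) (nat_lit 2404501724) (nat_lit 0) (nat_lit 2123940052) (nat_lit 836) (nat_lit 2665551408) (nat_lit 461) (nat_lit 5) (nat_lit 460) (nat_lit 5) (nat_lit 471) (nat_lit 5) (nat_lit 350) (nat_lit 346) (nat_lit 324)) (XT.nd (nat_lit 78) (nat_lit 0) (nat_lit 0) (XT.lf (nat_lit 0) (nat_lit 445063844) (nat_lit 836) (nat_lit 5596764747) (nat_lit 912) (nat_lit 1256389669) (nat_lit 450) (nat_lit 5) (nat_lit 461) (nat_lit 5) (nat_lit 462)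 (nat_lit 5) (nat_lit 351) (nat_lit 346) (nat_lit 323)) (XT.lf (nat_lit 76) (nat_lit 1062946777) (nat_lit 0) (nat_lit 2496569959) (nat_lit 912) (nat_lit 3850243067) (nat_lit 451) (nat_lit 5) (nat_lit 450) (nat_lit 5) (nat_lit 462) (nat_lit 5) (nat_lit 352) (nat_lit 346) (nat_lit 322)))) (XT.nd (nat_lit 156) (nat_lit 912) (nat_lit 0) (XT.nd (nat_lit 78) (nat_lit 912) (nat_lit 0) (XT.lf (nat_lit 76) (nat_lit 523257430) (nat_lit 0) (nat_lit 6210817464) (nat_lit 912) (nat_lit 795672051) (nat_lit 452) (nat_lit 5) (nat_lit 451) (nat_lit 5) (nat_lit 463) (nat_lit 5) (nat_lit 353) (nat_lit 346) (nat_lit 321)) (XT.lf (nat_lit 76) (nat_lit 45714070) (nat_lit 0) (nat_lit 2245222399) (nat_lit 988) (nat_lit 5366310459) (nat_lit 440) (nat_lit 5) (nat_lit 439) (nat_lit 5) (nat_lit 452) (nat_lit 5) (nat_lit 354) (nat_lit 346) (nat_lit 320))) (XT.nd (nat_lit 78) (nat_lit 988) (nat_lit 0) (XT.lf (nat_lit 0) (nat_lit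 5448722196) (nat_lit 912) (nat_lit 342691170) (nat_lit 76) (nat_lit 2001473132) (nat_lit 440) (nat_lit 5) (nat_lit 452) (nat_lit 5) (nat_lit 441) (nat_lit 5) (nat_lit 355) (nat_lit 346) (nat_lit 319)) (XT.lf (nat_lit 0) (nat_lit 754487542) (nat_lit 988) (nat_lit 652831141) (nat_lit 76) (nat_lit 6529502965) (nat_lit 427) (nat_lit 5) (nat_lit 440) (nat_lit 5) (nat_lit 428) (nat_lit 5) (nat_lit 356) (nat_lit 346) (nat_lit 318))))))))
noncomputable def xc58 : XT := (XT.nd (nat_lit 2106) (nat_lit 5928) (nat_lit 0) (XT.nd (nat_lit 1014) (nat_lit 5624) (nat_lit 0) (XT.nd (nat_lit 468) (nat_lit 4484) (nat_lit 0) (XT.nd (nat_lit 234) (nat_lit 2736) (nat_lit 0) (XT.nd (nat_lit 78) (nat_lit 2280) (nat_lit 0) (XT.lf (nat_lit 0) (nat_lit 3918916625) (nat_lit 1064) (nat_lit 910190585) (nat_lit 76) (nat_lit 3259370292) (nat_lit 414) (nat_lit 5) (nat_lit 428) (nat_lit 5) (nat_lit 415) (nat_lit 5) (nat_lit 357)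 (nat_lit 346) (nat_lit 317)) (XT.nd (nat_lit 78) (nat_lit 1216) (nat_lit 0) (XT.lf (nat_lit 0) (nat_lit 7174580278) (nat_lit 1064) (nat_lit 17093560) (nat_lit 1140) (nat_lit 1057539111) (nat_lit 400) (nat_lit 5) (nat_lit 414) (nat_lit 5) (nat_lit 415) (nat_lit 5) (nat_lit 358) (nat_lit 346) (nat_lit 316)) (XT.lf (nat_lit 0) (nat_lit 2160231229) (nat_lit 1216) (nat_lit 1200769777) (nat_lit 76) (nat_lit 5056548595) (nat_lit 384) (nat_lit 5) (nat_lit 400) (nat_lit 5) (nat_lit 385) (nat_lit 5) (nat_lit 359) (nat_lit 346) (nat_lit 315)))) (XT.nd (nat_lit 78) (nat_lit 1520) (nat_lit 0) (XT.lf (nat_lit 0) (nat_lit 5487491520) (nat_lit 1292) (nat_lit 1247869126) (nat_lit 76) (nat_lit 1859514132) (nat_lit 368) (nat_lit 5) (nat_lit 385) (nat_lit 5) (nat_lit 369) (nat_lit 5) (nat_lit 360) (nat_lit 346) (nat_lit 314)) (XT.nd (nat_lit 78) (nat_lit 608) (nat_lit 0) (XT.lf (nat_lit 0) (nat_lit 190258022) (nat_lit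 912) (nat_lit 1221736628) (nat_lit 76) (nat_lit 7369190481) (nat_lit 356) (nat_lit 5) (nat_lit 368) (nat_lit 5) (nat_lit 357) (nat_lit 5) (nat_lit 361) (nat_lit 346) (nat_lit 313)) (XT.lf (nat_lit 0) (nat_lit 3597760115) (nat_lit 684) (nat_lit 1157254068) (nat_lit 76) (nat_lit 4220596506) (nat_lit 348) (nat_lit 5) (nat_lit 357) (nat_lit 5) (nat_lit 349) (nat_lit 5) (nat_lit 362) (nat_lit 346) (nat_lit 312))))) (XT.nd (nat_lit 234) (nat_lit 2660) (nat_lit 0) (XT.nd (nat_lit 78) (nat_lit 1216) (nat_lit 0) (XT.lf (nat_lit 0) (nat_lit 7174487691) (nat_lit 684) (nat_lit 1005812614) (nat_lit 76) (nat_lit 999491711) (nat_lit 340) (nat_lit 5) (nat_lit 349) (nat_lit 5) (nat_lit 341) (nat_lit 5) (nat_lit 363) (nat_lit 346) (nat_lit 311)) (XT.nd (nat_lit 78) (nat_lit 608) (nat_lit 0) (XT.lf (nat_lit 0) (nat_lit 1536790207) (nat_lit 608) (nat_lit 804233022) (nat_lit 76) (nat_lit 7051789528) (nat_lit 332) (nat_lit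 5) (nat_lit 340) (nat_lit 5) (nat_lit 333) (nat_lit 5) (nat_lit 364) (nat_lit 346) (nat_lit 310)) (XT.lf (nat_lit 0) (nat_lit 5241472643) (nat_lit 684) (nat_lit 545418937) (nat_lit 76) (nat_lit 3828188643) (nat_lit 324) (nat_lit 5) (nat_lit 333) (nat_lit 5) (nat_lit 325) (nat_lit 5) (nat_lit 365) (nat_lit 346) (nat_lit 309)))) (XT.nd (nat_lit 156) (nat_lit 1064) (nat_lit 0) (XT.nd (nat_lit 78) (nat_lit 1064) (nat_lit 0) (XT.lf (nat_lit 0) (nat_lit 9156062836) (nat_lit 608) (nat_lit 198513628) (nat_lit 76) (nat_lit 493144388) (nat_lit 317) (nat_lit 5) (nat_lit 325) (nat_lit 5) (nat_lit 318) (nat_lit 5) (nat_lit 366) (nat_lit 346) (nat_lit 308)) (XT.lf (nat_lit 0) (nat_lit 182031644) (nat_lit 456) (nat_lit 2994706852) (nat_lit 532) (nat_lit 6912410795) (nat_lit 303) (nat_lit 5) (nat_lit 309) (nat_lit 5) (nat_lit 310) (nat_lit 5) (nat_lit 367) (nat_lit 346) (nat_lit 307))) (XT.nd (nat_lit 78) (nat_lit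 532) (nat_lit 0) (XT.lf (nat_lit 0) (nat_lit 645961912) (nat_lit 532) (nat_lit 6626926847) (nat_lit 608) (nat_lit 3068095796) (nat_lit 296) (nat_lit 5) (nat_lit 303) (nat_lit 5) (nat_lit 304) (nat_lit 5) (nat_lit 368) (nat_lit 346) (nat_lit 306)) (XT.lf (nat_lit 0) (nat_lit 999168772) (nat_lit 532) (nat_lit 9409595258) (nat_lit 76) (nat_lit 194879332) (nat_lit 289) (nat_lit 5) (nat_lit 296) (nat_lit 5) (nat_lit 290) (nat_lit 5) (nat_lit 369) (nat_lit 346) (nat_lit 305)))))) (XT.nd (nat_lit 546) (nat_lit 2660) (nat_lit 0) (XT.nd (nat_lit 234) (nat_lit 1596) (nat_lit 0) (XT.nd (nat_lit 78) (nat_lit 912) (nat_lit 0) (XT.lf (nat_lit 0) (nat_lit 1772103080) (nat_lit 456) (nat_lit 3525856079) (nat_lit 532) (nat_lit 5577816168) (nat_lit 283) (nat_lit 5) (nat_lit 289) (nat_lit 5) (nat_lit 290) (nat_lit 5) (nat_lit 370) (nat_lit 346) (nat_lit 304)) (XT.nd (nat_lit 78) (nat_lit 532) (nat_lit 0) (XT.lf (nat_lit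 0) (nat_lit 2445615489) (nat_lit 380) (nat_lit 7432434930) (nat_lit 456) (nat_lit 1281472633) (nat_lit 278) (nat_lit 5) (nat_lit 283) (nat_lit 5) (nat_lit 284) (nat_lit 5) (nat_lit 371) (nat_lit 346) (nat_lit 303)) (XT.lf (nat_lit 0) (nat_lit 3187706074) (nat_lit 456) (nat_lit 51642323) (nat_lit 532) (nat_lit 8214997897) (nat_lit 271) (nat_lit 5) (nat_lit 277) (nat_lit 5) (nat_lit 278) (nat_lit 5) (nat_lit 372) (nat_lit 346) (nat_lit 302)))) (XT.nd (nat_lit 156) (nat_lit 760) (nat_lit 0) (XT.nd (nat_lit 78) (nat_lit 456) (nat_lit 0) (XT.lf (nat_lit 0) (nat_lit 3981241400) (nat_lit 380) (nat_lit 4096255628) (nat_lit 456) (nat_lit 3682499355) (nat_lit 266) (nat_lit 5) (nat_lit 271) (nat_lit 5) (nat_lit 272) (nat_lit 5) (nat_lit 373) (nat_lit 346) (nat_lit 301)) (XT.lf (nat_lit 0) (nat_lit 1142662094) (nat_lit 456) (nat_lit 7207993750) (nat_lit 76) (nat_lit 3727351253) (nat_lit 260) (nat_lit 5) (nat_lit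 266) (nat_lit 5) (nat_lit 261) (nat_lit 5) (nat_lit 374) (nat_lit 346) (nat_lit 300))) (XT.nd (nat_lit 78) (nat_lit 380) (nat_lit 0) (XT.lf (nat_lit 0) (nat_lit 5827465429) (nat_lit 380) (nat_lit 403894479) (nat_lit 456) (nat_lit 6176511487) (nat_lit 255) (nat_lit 5) (nat_lit 260) (nat_lit 5) (nat_lit 261) (nat_lit 5) (nat_lit 375) (nat_lit 346) (nat_lit 299)) (XT.lf (nat_lit 0) (nat_lit 6860071381) (nat_lit 380) (nat_lit 4853628974) (nat_lit 456) (nat_lit 1036352320) (nat_lit 250) (nat_lit 5) (nat_lit 255) (nat_lit 5) (nat_lit 256) (nat_lit 5) (nat_lit 376) (nat_lit 346) (nat_lit 298))))) (XT.nd (nat_lit 234) (nat_lit 1520) (nat_lit 0) (XT.nd (nat_lit 78) (nat_lit 760) (nat_lit 0) (XT.lf (nat_lit 0) (nat_lit 4384221358) (nat_lit 380) (nat_lit 5137137237) (nat_lit 76) (nat_lit 3583471805) (nat_lit 245) (nat_lit 5) (nat_lit 250) (nat_lit 5) (nat_lit 246) (nat_lit 5) (nat_lit 377) (nat_lit 346) (nat_lit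 297)) (XT.nd (nat_lit 78) (nat_lit 380) (nat_lit 0) (XT.lf (nat_lit 0) (nat_lit 9177644549) (nat_lit 380) (nat_lit 1001635440) (nat_lit 456) (nat_lit 3294012509) (nat_lit 240) (nat_lit 5) (nat_lit 245) (nat_lit 5) (nat_lit 246) (nat_lit 5) (nat_lit 378) (nat_lit 346) (nat_lit 296)) (XT.lf (nat_lit 0) (nat_lit 2517516855) (nat_lit 380) (nat_lit 3401528000) (nat_lit 76) (nat_lit 7935624247) (nat_lit 235) (nat_lit 5) (nat_lit 240) (nat_lit 5) (nat_lit 236) (nat_lit 5) (nat_lit 379) (nat_lit 346) (nat_lit 295)))) (XT.nd (nat_lit 156) (nat_lit 836) (nat_lit 0) (XT.nd (nat_lit 78) (nat_lit 380) (nat_lit 0) (XT.lf (nat_lit 0) (nat_lit 8681900686) (nat_lit 380) (nat_lit 2423326377) (nat_lit 76) (nat_lit 3144996956) (nat_lit 231) (nat_lit 5) (nat_lit 236) (nat_lit 5) (nat_lit 232) (nat_lit 5) (nat_lit 380) (nat_lit 346) (nat_lit 294)) (XT.lf (nat_lit 0) (nat_lit 636292426) (nat_lit 380) (nat_lit 1346990627)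 (nat_lit 76) (nat_lit 12677426034) (nat_lit 226) (nat_lit 5) (nat_lit 231) (nat_lit 5) (nat_lit 227) (nat_lit 5) (nat_lit 381) (nat_lit 346) (nat_lit 293))) (XT.nd (nat_lit 78) (nat_lit 532) (nat_lit 0) (XT.lf (nat_lit 0) (nat_lit 7214479302) (nat_lit 380) (nat_lit 231035594) (nat_lit 76) (nat_lit 7639194500) (nat_lit 222) (nat_lit 5) (nat_lit 227) (nat_lit 5) (nat_lit 223) (nat_lit 5) (nat_lit 382) (nat_lit 346) (nat_lit 292)) (XT.lf (nat_lit 0) (nat_lit 1038033492) (nat_lit 304) (nat_lit 13244736432) (nat_lit 380) (nat_lit 1242303963) (nat_lit 215) (nat_lit 5) (nat_lit 219) (nat_lit 5) (nat_lit 220) (nat_lit 5) (nat_lit 383) (nat_lit 346) (nat_lit 291))))))) (XT.nd (nat_lit 1014) (nat_lit 2508) (nat_lit 0) (XT.nd (nat_lit 468) (nat_lit 1748) (nat_lit 0) (XT.nd (nat_lit 234) (nat_lit 760) (nat_lit 0) (XT.nd (nat_lit 78) (nat_lit 608) (nat_lit 0) (XT.lf (nat_lit 0) (nat_lit 2364362744) (nat_lit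 228) (nat_lit 3436558633) (nat_lit 304) (nat_lit 10179022687) (nat_lit 211) (nat_lit 5) (nat_lit 214) (nat_lit 5) (nat_lit 215) (nat_lit 5) (nat_lit 384) (nat_lit 346) (nat_lit 290)) (XT.nd (nat_lit 78) (nat_lit 304) (nat_lit 0) (XT.lf (nat_lit 0) (nat_lit 3801654698) (nat_lit 304) (nat_lit 9559946517) (nat_lit 380) (nat_lit 3089857953) (nat_lit 207) (nat_lit 5) (nat_lit 211) (nat_lit 5) (nat_lit 212) (nat_lit 5) (nat_lit 385) (nat_lit 346) (nat_lit 289)) (XT.lf (nat_lit 0) (nat_lit 4444512592) (nat_lit 304) (nat_lit 11589448477) (nat_lit 76) (nat_lit 906062271) (nat_lit 203) (nat_lit 5) (nat_lit 207) (nat_lit 5) (nat_lit 204) (nat_lit 5) (nat_lit 386) (nat_lit 346) (nat_lit 288)))) (XT.nd (nat_lit 78) (nat_lit 532) (nat_lit 0) (XT.lf (nat_lit 0) (nat_lit 6975916775) (nat_lit 228) (nat_lit 5552120517) (nat_lit 304) (nat_lit 4916970490) (nat_lit 200) (nat_lit 5) (nat_lit 203) (nat_lit 5) (nat_lit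 204) (nat_lit 5) (nat_lit 387) (nat_lit 346) (nat_lit 287)) (XT.nd (nat_lit 78) (nat_lit 228) (nat_lit 0) (XT.lf (nat_lit 0) (nat_lit 3182514928) (nat_lit 304) (nat_lit 9239047579) (nat_lit 76) (nat_lit 5546761649) (nat_lit 196) (nat_lit 5) (nat_lit 200) (nat_lit 5) (nat_lit 197) (nat_lit 5) (nat_lit 388) (nat_lit 346) (nat_lit 286)) (XT.lf (nat_lit 0) (nat_lit 10597431565) (nat_lit 228) (nat_lit 1199088407) (nat_lit 304) (nat_lit 6713488816) (nat_lit 193) (nat_lit 5) (nat_lit 196) (nat_lit 5) (nat_lit 197) (nat_lit 5) (nat_lit 389) (nat_lit 346) (nat_lit 285))))) (XT.nd (nat_lit 234) (nat_lit 988) (nat_lit 0) (XT.nd (nat_lit 78) (nat_lit 456) (nat_lit 0) (XT.lf (nat_lit 0) (nat_lit 1994510228) (nat_lit 304) (nat_lit 6497458306) (nat_lit 76) (nat_lit 10578307236) (nat_lit 189) (nat_lit 5) (nat_lit 193) (nat_lit 5) (nat_lit 190) (nat_lit 5) (nat_lit 390) (nat_lit 346) (nat_lit 284)) (XT.nd (nat_lit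 78) (nat_lit 228) (nat_lit 0) (XT.lf (nat_lit 0) (nat_lit 11216184792) (nat_lit 304) (nat_lit 4978288148) (nat_lit 76) (nat_lit 3455575432) (nat_lit 186) (nat_lit 5) (nat_lit 190) (nat_lit 5) (nat_lit 187) (nat_lit 5) (nat_lit 391) (nat_lit 346) (nat_lit 283)) (XT.lf (nat_lit 0) (nat_lit 893852429) (nat_lit 228) (nat_lit 3327174600) (nat_lit 76) (nat_lit 16029611666) (nat_lit 183) (nat_lit 5) (nat_lit 186) (nat_lit 5) (nat_lit 184) (nat_lit 5) (nat_lit 392) (nat_lit 346) (nat_lit 282)))) (XT.nd (nat_lit 156) (nat_lit 380) (nat_lit 0) (XT.nd (nat_lit 78) (nat_lit 380) (nat_lit 0) (XT.lf (nat_lit 0) (nat_lit 10784735787) (nat_lit 304) (nat_lit 1608098446) (nat_lit 76) (nat_lit 8477782989) (nat_lit 180) (nat_lit 5) (nat_lit 184) (nat_lit 5) (nat_lit 181) (nat_lit 5) (nat_lit 393) (nat_lit 346) (nat_lit 281)) (XT.lf (nat_lit 0) (nat_lit 314232669) (nat_lit 228) (nat_lit 21099984551) (nat_lit 304) (nat_lit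 100055839) (nat_lit 175) (nat_lit 5) (nat_lit 178) (nat_lit 5) (nat_lit 179) (nat_lit 5) (nat_lit 394) (nat_lit 346) (nat_lit 280))) (XT.nd (nat_lit 78) (nat_lit 152) (nat_lit 0) (XT.lf (nat_lit 0) (nat_lit 2297659584) (nat_lit 152) (nat_lit 8232719101) (nat_lit 228) (nat_lit 11646299148) (nat_lit 172) (nat_lit 5) (nat_lit 174) (nat_lit 5) (nat_lit 175) (nat_lit 5) (nat_lit 395) (nat_lit 346) (nat_lit 279)) (XT.lf (nat_lit 0) (nat_lit 4494513037) (nat_lit 152) (nat_lit 17461198538) (nat_lit 228) (nat_lit 908498173) (nat_lit 170) (nat_lit 5) (nat_lit 172) (nat_lit 5) (nat_lit 173) (nat_lit 5) (nat_lit 396) (nat_lit 346) (nat_lit 278)))))) (XT.nd (nat_lit 546) (nat_lit 1140) (nat_lit 0) (XT.nd (nat_lit 234) (nat_lit 760) (nat_lit 0) (XT.nd (nat_lit 78) (nat_lit 380) (nat_lit 0) (XT.lf (nat_lit 0) (nat_lit 6784421150) (nat_lit 152) (nat_lit 3686604004) (nat_lit 228) (nat_lit 13102890297) (nat_lit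 167) (nat_lit 5) (nat_lit 169) (nat_lit 5) (nat_lit 170) (nat_lit 5) (nat_lit 397) (nat_lit 346) (nat_lit 277)) (XT.nd (nat_lit 78) (nat_lit 228) (nat_lit 0) (XT.lf (nat_lit 0) (nat_lit 9248574227) (nat_lit 152) (nat_lit 13489074509) (nat_lit 228) (nat_lit 1571080455) (nat_lit 165) (nat_lit 5) (nat_lit 167) (nat_lit 5) (nat_lit 168) (nat_lit 5) (nat_lit 398) (nat_lit 346) (nat_lit 276)) (XT.lf (nat_lit 0) (nat_lit 10623976636) (nat_lit 228) (nat_lit 13207640955) (nat_lit 76) (nat_lit 1236858958) (nat_lit 162) (nat_lit 5) (nat_lit 165) (nat_lit 5) (nat_lit 163) (nat_lit 5) (nat_lit 399) (nat_lit 346) (nat_lit 275)))) (XT.nd (nat_lit 156) (nat_lit 380) (nat_lit 0) (XT.nd (nat_lit 78) (nat_lit 228) (nat_lit 0) (XT.lf (nat_lit 0) (nat_lit 14631934332) (nat_lit 152) (nat_lit 9153355843) (nat_lit 228) (nat_lit 2068784564) (nat_lit 160) (nat_lit 5) (nat_lit 162) (nat_lit 5) (nat_lit 163) (nat_lit 5) (nat_lit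 400) (nat_lit 346) (nat_lit 274)) (XT.lf (nat_lit 0) (nat_lit 11039386845) (nat_lit 228) (nat_lit 9109306337) (nat_lit 76) (nat_lit 6517302805) (nat_lit 157) (nat_lit 5) (nat_lit 160) (nat_lit 5) (nat_lit 158) (nat_lit 5) (nat_lit 401) (nat_lit 346) (nat_lit 273))) (XT.nd (nat_lit 78) (nat_lit 228) (nat_lit 0) (XT.lf (nat_lit 0) (nat_lit 20705271435) (nat_lit 152) (nat_lit 4420664918) (nat_lit 228) (nat_lit 2380989798) (nat_lit 155) (nat_lit 5) (nat_lit 157) (nat_lit 5) (nat_lit 158) (nat_lit 5) (nat_lit 402) (nat_lit 346) (nat_lit 272)) (XT.lf (nat_lit 0) (nat_lit 11706710168) (nat_lit 228) (nat_lit 4402848756) (nat_lit 76) (nat_lit 12264877853) (nat_lit 152) (nat_lit 5) (nat_lit 155) (nat_lit 5) (nat_lit 153) (nat_lit 5) (nat_lit 403) (nat_lit 346) (nat_lit 271))))) (XT.nd (nat_lit 234) (nat_lit 608) (nat_lit 0) (XT.nd (nat_lit 78) (nat_lit 380) (nat_lit 0) (XT.lf (nat_lit 0) (nat_lit 26796301983)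 (nat_lit 228) (nat_lit 1746780984) (nat_lit 76) (nat_lit 731130260) (nat_lit 150) (nat_lit 5) (nat_lit 153) (nat_lit 5) (nat_lit 151) (nat_lit 4) (nat_lit 404) (nat_lit 346) (nat_lit 270)) (XT.nd (nat_lit 78) (nat_lit 76) (nat_lit 0) (XT.lf (nat_lit 0) (nat_lit 992557601) (nat_lit 152) (nat_lit 11669934208) (nat_lit 228) (nat_lit 17538400139) (nat_lit 146) (nat_lit 5) (nat_lit 148) (nat_lit 5) (nat_lit 149) (nat_lit 5) (nat_lit 405) (nat_lit 346) (nat_lit 269)) (XT.lf (nat_lit 0) (nat_lit 4046121739) (nat_lit 76) (nat_lit 24861052946) (nat_lit 152) (nat_lit 2254038705) (nat_lit 145) (nat_lit 5) (nat_lit 146) (nat_lit 5) (nat_lit 147) (nat_lit 4) (nat_lit 406) (nat_lit 346) (nat_lit 268)))) (XT.nd (nat_lit 156) (nat_lit 304) (nat_lit 0) (XT.nd (nat_lit 78) (nat_lit 76) (nat_lit 0) (XT.lf (nat_lit 0) (nat_lit 7226954282) (nat_lit 152) (nat_lit 6749949691) (nat_lit 228) (nat_lit 18175122554) (nat_lit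 142) (nat_lit 5) (nat_lit 144) (nat_lit 5) (nat_lit 145) (nat_lit 5) (nat_lit 407) (nat_lit 346) (nat_lit 267)) (XT.lf (nat_lit 0) (nat_lit 10660774362) (nat_lit 76) (nat_lit 20776216865) (nat_lit 152) (nat_lit 1740793145) (nat_lit 141) (nat_lit 5) (nat_lit 142) (nat_lit 5) (nat_lit 143) (nat_lit 4) (nat_lit 408) (nat_lit 346) (nat_lit 266))) (XT.nd (nat_lit 78) (nat_lit 76) (nat_lit 0) (XT.lf (nat_lit 0) (nat_lit 14287409656) (nat_lit 152) (nat_lit 1351959627) (nat_lit 228) (nat_lit 18598180313) (nat_lit 138) (nat_lit 5) (nat_lit 140) (nat_lit 5) (nat_lit 141) (nat_lit 5) (nat_lit 409) (nat_lit 346) (nat_lit 265)) (XT.lf (nat_lit 0) (nat_lit 18140338683) (nat_lit 76) (nat_lit 16267157635) (nat_lit 152) (nat_lit 925640932) (nat_lit 137) (nat_lit 5) (nat_lit 138) (nat_lit 5) (nat_lit 139) (nat_lit 4) (nat_lit 410) (nat_lit 346) (nat_lit 264))))))))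
noncomputable def xc59 : XT := (XT.nd (nat_lit 2106) (nat_lit 228) (nat_lit 0) (XT.nd (nat_lit 1014) (nat_lit 1824) (nat_lit 0) (XT.nd (nat_lit 468) (nat_lit 836) (nat_lit 0) (XT.nd (nat_lit 234) (nat_lit 608) (nat_lit 0) (XT.nd (nat_lit 78) (nat_lit 304) (nat_lit 0) (XT.lf (nat_lit 0) (nat_lit 17729252234) (nat_lit 228) (nat_lit 14255035910) (nat_lit 76) (nat_lit 4480849026) (nat_lit 134) (nat_lit 5) (nat_lit 137) (nat_lit 5) (nat_lit 135) (nat_lit 4) (nat_lit 411) (nat_lit 346) (nat_lit 263)) (XT.nd (nat_lit 78) (nat_lit 152) (nat_lit 0) (XT.lf (nat_lit 0) (nat_lit 219936792) (nat_lit 152) (nat_lit 11068994291) (nat_lit 76) (nat_lit 26347572302) (nat_lit 132) (nat_lit 5) (nat_lit 134) (nat_lit 5) (nat_lit 133) (nat_lit 5) (nat_lit 412) (nat_lit 346) (nat_lit 262)) (XT.lf (nat_lit 0) (nat_lit 20259678666) (nat_lit 228) (nat_lit 7735262028) (nat_lit 76) (nat_lit 10850223627) (nat_lit 130) (nat_lit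 5) (nat_lit 133) (nat_lit 5) (nat_lit 131) (nat_lit 4) (nat_lit 413) (nat_lit 346) (nat_lit 261)))) (XT.nd (nat_lit 78) (nat_lit 456) (nat_lit 0) (XT.lf (nat_lit 0) (nat_lit 1710893102) (nat_lit 152) (nat_lit 4073371591) (nat_lit 76) (nat_lit 34313243982) (nat_lit 128) (nat_lit 5) (nat_lit 130) (nat_lit 5) (nat_lit 129) (nat_lit 5) (nat_lit 414) (nat_lit 346) (nat_lit 260)) (XT.nd (nat_lit 78) (nat_lit 304) (nat_lit 0) (XT.lf (nat_lit 0) (nat_lit 23260102592) (nat_lit 228) (nat_lit 292070128) (nat_lit 76) (nat_lit 17836105441) (nat_lit 126) (nat_lit 5) (nat_lit 129) (nat_lit 5) (nat_lit 127) (nat_lit 4) (nat_lit 415) (nat_lit 346) (nat_lit 259)) (XT.lf (nat_lit 0) (nat_lit 3644963251) (nat_lit 228) (nat_lit 38758968855) (nat_lit 76) (nat_lit 321854235) (nat_lit 122) (nat_lit 5) (nat_lit 125) (nat_lit 5) (nat_lit 123) (nat_lit 4) (nat_lit 416) (nat_lit 346) (nat_lit 258))))) (XT.nd (nat_lit 234)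 (nat_lit 456) (nat_lit 0) (XT.nd (nat_lit 78) (nat_lit 304) (nat_lit 0) (XT.lf (nat_lit 0) (nat_lit 8330587840) (nat_lit 76) (nat_lit 18526192952) (nat_lit 152) (nat_lit 17246256326) (nat_lit 121) (nat_lit 5) (nat_lit 122) (nat_lit 5) (nat_lit 123) (nat_lit 4) (nat_lit 417) (nat_lit 346) (nat_lit 257)) (XT.nd (nat_lit 78) (nat_lit 76) (nat_lit 0) (XT.lf (nat_lit 0) (nat_lit 6135160270) (nat_lit 228) (nat_lit 32417140082) (nat_lit 76) (nat_lit 6978233296) (nat_lit 118) (nat_lit 5) (nat_lit 121) (nat_lit 5) (nat_lit 119) (nat_lit 4) (nat_lit 418) (nat_lit 346) (nat_lit 256)) (XT.lf (nat_lit 0) (nat_lit 18100087979) (nat_lit 76) (nat_lit 12933608066) (nat_lit 152) (nat_lit 15969444487) (nat_lit 117) (nat_lit 5) (nat_lit 118) (nat_lit 5) (nat_lit 119) (nat_lit 4) (nat_lit 419) (nat_lit 346) (nat_lit 255)))) (XT.nd (nat_lit 156) (nat_lit 228) (nat_lit 0) (XT.nd (nat_lit 78) (nat_lit 76) (nat_lit 0)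 (XT.lf (nat_lit 0) (nat_lit 9132785482) (nat_lit 152) (nat_lit 25075822543) (nat_lit 76) (nat_lit 14318080759) (nat_lit 115) (nat_lit 5) (nat_lit 117) (nat_lit 5) (nat_lit 116) (nat_lit 4) (nat_lit 420) (nat_lit 346) (nat_lit 254)) (XT.lf (nat_lit 0) (nat_lit 29123737009) (nat_lit 76) (nat_lit 6719964505) (nat_lit 152) (nat_lit 14257454120) (nat_lit 114) (nat_lit 5) (nat_lit 115) (nat_lit 5) (nat_lit 116) (nat_lit 4) (nat_lit 421) (nat_lit 346) (nat_lit 253))) (XT.nd (nat_lit 78) (nat_lit 76) (nat_lit 0) (XT.lf (nat_lit 0) (nat_lit 12689319885) (nat_lit 152) (nat_lit 16630441068) (nat_lit 76) (nat_lit 22407375689) (nat_lit 112) (nat_lit 5) (nat_lit 114) (nat_lit 5) (nat_lit 113) (nat_lit 4) (nat_lit 422) (nat_lit 346) (nat_lit 252)) (XT.lf (nat_lit 0) (nat_lit 41349087275) (nat_lit 152) (nat_lit 11887475966) (nat_lit 0) (nat_lit 173802952) (nat_lit 111) (nat_lit 5) (nat_lit 113) (nat_lit 4) (nat_lit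 111) (nat_lit 4) (nat_lit 423) (nat_lit 346) (nat_lit 251)))))) (XT.nd (nat_lit 546) (nat_lit 912) (nat_lit 0) (XT.nd (nat_lit 234) (nat_lit 456) (nat_lit 0) (XT.nd (nat_lit 78) (nat_lit 304) (nat_lit 0) (XT.lf (nat_lit 0) (nat_lit 16860857883) (nat_lit 152) (nat_lit 6966959107) (nat_lit 76) (nat_lit 31317825732) (nat_lit 109) (nat_lit 5) (nat_lit 111) (nat_lit 5) (nat_lit 110) (nat_lit 4) (nat_lit 424) (nat_lit 346) (nat_lit 250)) (XT.nd (nat_lit 78) (nat_lit 228) (nat_lit 0) (XT.lf (nat_lit 0) (nat_lit 47685837031) (nat_lit 152) (nat_lit 1583669989) (nat_lit 0) (nat_lit 7673408061) (nat_lit 108) (nat_lit 5) (nat_lit 110) (nat_lit 4) (nat_lit 108) (nat_lit 4) (nat_lit 425) (nat_lit 346) (nat_lit 249)) (XT.lf (nat_lit 0) (nat_lit 4119289296) (nat_lit 76) (nat_lit 17628809395) (nat_lit 152) (nat_lit 37047626322) (nat_lit 105) (nat_lit 5) (nat_lit 106) (nat_lit 5) (nat_lit 107) (nat_lit 4) (nat_lit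 426) (nat_lit 346) (nat_lit 248)))) (XT.nd (nat_lit 156) (nat_lit 228) (nat_lit 0) (XT.nd (nat_lit 78) (nat_lit 152) (nat_lit 0) (XT.lf (nat_lit 0) (nat_lit 10329847016) (nat_lit 76) (nat_lit 44631103635) (nat_lit 76) (nat_lit 5752009156) (nat_lit 104) (nat_lit 4) (nat_lit 105) (nat_lit 5) (nat_lit 105) (nat_lit 4) (nat_lit 427) (nat_lit 346) (nat_lit 247)) (XT.lf (nat_lit 0) (nat_lit 16851369313) (nat_lit 76) (nat_lit 10609401899) (nat_lit 152) (nat_lit 35231026714) (nat_lit 102) (nat_lit 5) (nat_lit 103) (nat_lit 5) (nat_lit 104) (nat_lit 4) (nat_lit 428) (nat_lit 346) (nat_lit 246))) (XT.nd (nat_lit 78) (nat_lit 152) (nat_lit 0) (XT.lf (nat_lit 0) (nat_lit 23855078847) (nat_lit 76) (nat_lit 39329327751) (nat_lit 76) (nat_lit 1554387545) (nat_lit 101) (nat_lit 4) (nat_lit 102) (nat_lit 5) (nat_lit 102) (nat_lit 4) (nat_lit 429) (nat_lit 346) (nat_lit 245)) (XT.lf (nat_lit 0) (nat_lit 31240954525)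 (nat_lit 76) (nat_lit 2763487542) (nat_lit 152) (nat_lit 32848208055) (nat_lit 99) (nat_lit 5) (nat_lit 100) (nat_lit 5) (nat_lit 101) (nat_lit 4) (nat_lit 430) (nat_lit 346) (nat_lit 244))))) (XT.nd (nat_lit 234) (nat_lit 532) (nat_lit 0) (XT.nd (nat_lit 78) (nat_lit 228) (nat_lit 0) (XT.lf (nat_lit 0) (nat_lit 3323200907) (nat_lit 152) (nat_lit 29953475601) (nat_lit 76) (nat_lit 35760529580) (nat_lit 97) (nat_lit 5) (nat_lit 99) (nat_lit 5) (nat_lit 98) (nat_lit 4) (nat_lit 431) (nat_lit 346) (nat_lit 243)) (XT.nd (nat_lit 78) (nat_lit 152) (nat_lit 0) (XT.lf (nat_lit 0) (nat_lit 41517093258) (nat_lit 152) (nat_lit 23902121730) (nat_lit 0) (nat_lit 5875220044) (nat_lit 96) (nat_lit 5) (nat_lit 98) (nat_lit 4) (nat_lit 96) (nat_lit 4) (nat_lit 432) (nat_lit 346) (nat_lit 242)) (XT.lf (nat_lit 0) (nat_lit 8976356174) (nat_lit 152) (nat_lit 17430555306) (nat_lit 76) (nat_lit 47220055922) (nat_lit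 94) (nat_lit 5) (nat_lit 96) (nat_lit 5) (nat_lit 95) (nat_lit 4) (nat_lit 433) (nat_lit 346) (nat_lit 241)))) (XT.nd (nat_lit 156) (nat_lit 304) (nat_lit 0) (XT.nd (nat_lit 78) (nat_lit 152) (nat_lit 0) (XT.lf (nat_lit 0) (nat_lit 50064740145) (nat_lit 152) (nat_lit 10531430304) (nat_lit 0) (nat_lit 15440725920) (nat_lit 93) (nat_lit 5) (nat_lit 95) (nat_lit 4) (nat_lit 93) (nat_lit 4) (nat_lit 434) (nat_lit 346) (nat_lit 240)) (XT.lf (nat_lit 0) (nat_lit 15516449412) (nat_lit 152) (nat_lit 3135031361) (nat_lit 76) (nat_lit 59876761748) (nat_lit 91) (nat_lit 5) (nat_lit 93) (nat_lit 5) (nat_lit 92) (nat_lit 4) (nat_lit 435) (nat_lit 346) (nat_lit 239))) (XT.nd (nat_lit 78) (nat_lit 152) (nat_lit 0) (XT.lf (nat_lit 0) (nat_lit 4792612257) (nat_lit 76) (nat_lit 54970297847) (nat_lit 76) (nat_lit 21336914311) (nat_lit 89) (nat_lit 4) (nat_lit 90) (nat_lit 5) (nat_lit 90) (nat_lit 4) (nat_lit 436)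 (nat_lit 346) (nat_lit 238)) (XT.lf (nat_lit 0) (nat_lit 13373793446) (nat_lit 76) (nat_lit 9786533175) (nat_lit 152) (nat_lit 60597908452) (nat_lit 87) (nat_lit 5) (nat_lit 88) (nat_lit 5) (nat_lit 89) (nat_lit 4) (nat_lit 437) (nat_lit 346) (nat_lit 237))))))) (XT.nd (nat_lit 46878) (nat_lit 0) (nat_lit 15124) (XT.nd (nat_lit 46332) (nat_lit 0) (nat_lit 25080) (XT.nd (nat_lit 46098) (nat_lit 0) (nat_lit 28500) (XT.nd (nat_lit 78) (nat_lit 152) (nat_lit 0) (XT.lf (nat_lit 0) (nat_lit 22414317201) (nat_lit 76) (nat_lit 48378912862) (nat_lit 76) (nat_lit 15709436085) (nat_lit 86) (nat_lit 4) (nat_lit 87) (nat_lit 5) (nat_lit 87) (nat_lit 4) (nat_lit 438) (nat_lit 346) (nat_lit 236)) (XT.nd (nat_lit 45942) (nat_lit 0) (nat_lit 29260) (XT.lf (nat_lit 0) (nat_lit 31929374425) (nat_lit 152) (nat_lit 57207957988) (nat_lit 0) (nat_lit 204351537) (nat_lit 84) (nat_lit 5) (nat_lit 86) (nat_lit 4) (nat_lit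 84) (nat_lit 4) (nat_lit 439) (nat_lit 346) (nat_lit 235)) (XT.lf (nat_lit 0) (nat_lit 1254025093) (nat_lit 0) (nat_lit 1254025093) (nat_lit 684) (nat_lit 994774912) (nat_lit 469) (nat_lit 5) (nat_lit 469) (nat_lit 3) (nat_lit 478) (nat_lit 3) (nat_lit 347) (nat_lit 347) (nat_lit 326)))) (XT.nd (nat_lit 78) (nat_lit 0) (nat_lit 0) (XT.lf (nat_lit 0) (nat_lit 1030429187) (nat_lit 760) (nat_lit 5726887915) (nat_lit 836) (nat_lit 333164719) (nat_lit 459) (nat_lit 5) (nat_lit 469) (nat_lit 5) (nat_lit 470) (nat_lit 5) (nat_lit 348) (nat_lit 347) (nat_lit 325)) (XT.nd (nat_lit 78) (nat_lit 0) (nat_lit 0) (XT.lf (nat_lit 76) (nat_lit 285354517) (nat_lit 0) (nat_lit 3757115734) (nat_lit 836) (nat_lit 3140027519) (nat_lit 460) (nat_lit 5) (nat_lit 459) (nat_lit 5) (nat_lit 470) (nat_lit 5) (nat_lit 349) (nat_lit 347) (nat_lit 324)) (XT.lf (nat_lit 76) (nat_lit 6612952712) (nat_lit 0) (nat_lit 466308067)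 (nat_lit 836) (nat_lit 203629315) (nat_lit 460) (nat_lit 5) (nat_lit 459) (nat_lit 5) (nat_lit 470) (nat_lit 5) (nat_lit 350) (nat_lit 347) (nat_lit 323))))) (XT.nd (nat_lit 234) (nat_lit 1824) (nat_lit 0) (XT.nd (nat_lit 78) (nat_lit 836) (nat_lit 0) (XT.lf (nat_lit 0) (nat_lit 2732176677) (nat_lit 836) (nat_lit 1569730870) (nat_lit 912) (nat_lit 3088300706) (nat_lit 449) (nat_lit 5) (nat_lit 460) (nat_lit 5) (nat_lit 461) (nat_lit 5) (nat_lit 351) (nat_lit 347) (nat_lit 322)) (XT.nd (nat_lit 78) (nat_lit 836) (nat_lit 0) (XT.lf (nat_lit 76) (nat_lit 5133791639) (nat_lit 0) (nat_lit 568249808) (nat_lit 912) (nat_lit 1804045993) (nat_lit 450) (nat_lit 5) (nat_lit 449) (nat_lit 5) (nat_lit 461) (nat_lit 5) (nat_lit 352) (nat_lit 347) (nat_lit 321)) (XT.lf (nat_lit 0) (nat_lit 1098787888) (nat_lit 912) (nat_lit 3115372784) (nat_lit 988) (nat_lit 3415373333) (nat_lit 438) (nat_lit 5) (nat_lit 450)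 (nat_lit 5) (nat_lit 451) (nat_lit 5) (nat_lit 353) (nat_lit 347) (nat_lit 320)))) (XT.nd (nat_lit 156) (nat_lit 1824) (nat_lit 0) (XT.nd (nat_lit 78) (nat_lit 0) (nat_lit 76) (XT.lf (nat_lit 76) (nat_lit 3980903896) (nat_lit 0) (nat_lit 40792686) (nat_lit 988) (nat_lit 3739553153) (nat_lit 439) (nat_lit 5) (nat_lit 438) (nat_lit 5) (nat_lit 451) (nat_lit 5) (nat_lit 354) (nat_lit 347) (nat_lit 319)) (XT.lf (nat_lit 76) (nat_lit 3514529362) (nat_lit 0) (nat_lit 3534235729) (nat_lit 988) (nat_lit 852045730) (nat_lit 440) (nat_lit 5) (nat_lit 439) (nat_lit 5) (nat_lit 452) (nat_lit 5) (nat_lit 355) (nat_lit 347) (nat_lit 318))) (XT.nd (nat_lit 78) (nat_lit 988) (nat_lit 0) (XT.lf (nat_lit 0) (nat_lit 2072280323) (nat_lit 988) (nat_lit 4923129767) (nat_lit 76) (nat_lit 1053261863) (nat_lit 427) (nat_lit 5) (nat_lit 440) (nat_lit 5) (nat_lit 428) (nat_lit 5) (nat_lit 356) (nat_lit 347) (nat_lit 317))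 (XT.lf (nat_lit 0) (nat_lit 2800410257) (nat_lit 988) (nat_lit 2294135422) (nat_lit 1064) (nat_lit 3110047039) (nat_lit 414) (nat_lit 5) (nat_lit 427) (nat_lit 5) (nat_lit 428) (nat_lit 5) (nat_lit 357) (nat_lit 347) (nat_lit 316)))))) (XT.nd (nat_lit 546) (nat_lit 3724) (nat_lit 0) (XT.nd (nat_lit 234) (nat_lit 2736) (nat_lit 0) (XT.nd (nat_lit 78) (nat_lit 2432) (nat_lit 0) (XT.lf (nat_lit 0) (nat_lit 2557616302) (nat_lit 1064) (nat_lit 5678281425) (nat_lit 1140) (nat_lit 133372592) (nat_lit 400) (nat_lit 5) (nat_lit 414) (nat_lit 5) (nat_lit 415) (nat_lit 5) (nat_lit 358) (nat_lit 347) (nat_lit 315)) (XT.nd (nat_lit 78) (nat_lit 1216) (nat_lit 0) (XT.lf (nat_lit 0) (nat_lit 2371785846) (nat_lit 1140) (nat_lit 534932006) (nat_lit 1216) (nat_lit 5635411993) (nat_lit 384) (nat_lit 5) (nat_lit 399) (nat_lit 5) (nat_lit 400) (nat_lit 5) (nat_lit 359) (nat_lit 347) (nat_lit 314)) (XT.lf (nat_lit 0)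 (nat_lit 2246523278) (nat_lit 1216) (nat_lit 3854426908) (nat_lit 1292) (nat_lit 2622495673) (nat_lit 368) (nat_lit 5) (nat_lit 384) (nat_lit 5) (nat_lit 385) (nat_lit 5) (nat_lit 360) (nat_lit 347) (nat_lit 313)))) (XT.nd (nat_lit 156) (nat_lit 1216) (nat_lit 0) (XT.nd (nat_lit 78) (nat_lit 608) (nat_lit 0) (XT.lf (nat_lit 0) (nat_lit 517704174) (nat_lit 912) (nat_lit 6709490384) (nat_lit 76) (nat_lit 1686861210) (nat_lit 356) (nat_lit 5) (nat_lit 368) (nat_lit 5) (nat_lit 357) (nat_lit 5) (nat_lit 361) (nat_lit 347) (nat_lit 312)) (XT.lf (nat_lit 0) (nat_lit 2208231009) (nat_lit 608) (nat_lit 1564920535) (nat_lit 684) (nat_lit 5339891425) (nat_lit 348) (nat_lit 5) (nat_lit 356) (nat_lit 5) (nat_lit 357) (nat_lit 5) (nat_lit 362) (nat_lit 347) (nat_lit 311))) (XT.nd (nat_lit 78) (nat_lit 608) (nat_lit 0) (XT.lf (nat_lit 0) (nat_lit 2281625714) (nat_lit 608) (nat_lit 4932517145) (nat_lit 684) (nat_lit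 2107153524) (nat_lit 340) (nat_lit 5) (nat_lit 348) (nat_lit 5) (nat_lit 349) (nat_lit 5) (nat_lit 363) (nat_lit 347) (nat_lit 310)) (XT.lf (nat_lit 0) (nat_lit 1276615821) (nat_lit 608) (nat_lit 7109360212) (nat_lit 76) (nat_lit 1153179841) (nat_lit 332) (nat_lit 5) (nat_lit 340) (nat_lit 5) (nat_lit 333) (nat_lit 5) (nat_lit 364) (nat_lit 347) (nat_lit 309))))) (XT.nd (nat_lit 234) (nat_lit 1976) (nat_lit 0) (XT.nd (nat_lit 78) (nat_lit 1140) (nat_lit 0) (XT.lf (nat_lit 0) (nat_lit 2622453854) (nat_lit 608) (nat_lit 2208341242) (nat_lit 684) (nat_lit 4935143338) (nat_lit 324) (nat_lit 5) (nat_lit 332) (nat_lit 5) (nat_lit 333) (nat_lit 5) (nat_lit 365) (nat_lit 347) (nat_lit 308)) (XT.nd (nat_lit 78) (nat_lit 608) (nat_lit 0) (XT.lf (nat_lit 0) (nat_lit 2891335634) (nat_lit 532) (nat_lit 5714219932) (nat_lit 608) (nat_lit 1397218388) (nat_lit 317) (nat_lit 5) (nat_lit 324) (nat_lit 5) (nat_lit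 325) (nat_lit 5) (nat_lit 366) (nat_lit 347) (nat_lit 307)) (XT.lf (nat_lit 0) (nat_lit 2311829903) (nat_lit 608) (nat_lit 7022608929) (nat_lit 76) (nat_lit 915160517) (nat_lit 309) (nat_lit 5) (nat_lit 317) (nat_lit 5) (nat_lit 310) (nat_lit 5) (nat_lit 367) (nat_lit 347) (nat_lit 306)))) (XT.nd (nat_lit 156) (nat_lit 988) (nat_lit 0) (XT.nd (nat_lit 78) (nat_lit 532) (nat_lit 0) (XT.lf (nat_lit 0) (nat_lit 3613288592) (nat_lit 456) (nat_lit 2637052204) (nat_lit 532) (nat_lit 4255822998) (nat_lit 303) (nat_lit 5) (nat_lit 309) (nat_lit 5) (nat_lit 310) (nat_lit 5) (nat_lit 368) (nat_lit 347) (nat_lit 305)) (XT.lf (nat_lit 0) (nat_lit 4082518868) (nat_lit 532) (nat_lit 6367350260) (nat_lit 608) (nat_lit 323764576) (nat_lit 296) (nat_lit 5) (nat_lit 303) (nat_lit 5) (nat_lit 304) (nat_lit 5) (nat_lit 369) (nat_lit 347) (nat_lit 304))) (XT.nd (nat_lit 78) (nat_lit 456) (nat_lit 0) (XT.lf (nat_lit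 0) (nat_lit 3793329337) (nat_lit 532) (nat_lit 6442320275) (nat_lit 76) (nat_lit 815849854) (nat_lit 289) (nat_lit 5) (nat_lit 296) (nat_lit 5) (nat_lit 290) (nat_lit 5) (nat_lit 370) (nat_lit 347) (nat_lit 303)) (XT.lf (nat_lit 0) (nat_lit 5199920430) (nat_lit 456) (nat_lit 3008561073) (nat_lit 532) (nat_lit 3131713860) (nat_lit 283) (nat_lit 5) (nat_lit 289) (nat_lit 5) (nat_lit 290) (nat_lit 5) (nat_lit 371) (nat_lit 347) (nat_lit 302))))))))
noncomputable def xc60 : XT := (XT.nd (nat_lit 2106) (nat_lit 4408) (nat_lit 0) (XT.nd (nat_lit 1014) (nat_lit 3572) (nat_lit 0) (XT.nd (nat_lit 468) (nat_lit 2660) (nat_lit 0) (XT.nd (nat_lit 234) (nat_lit 1292) (nat_lit 0) (XT.nd (nat_lit 78) (nat_lit 836) (nat_lit 0) (XT.lf (nat_lit 0) (nat_lit 1263884676) (nat_lit 456) (nat_lit 5771146575) (nat_lit 76) (nat_lit 4605360744) (nat_lit 277) (nat_lit 5) (nat_lit 283) (nat_lit 5) (nat_lit 278) (nat_lit 5)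 (nat_lit 372) (nat_lit 347) (nat_lit 301)) (XT.nd (nat_lit 78) (nat_lit 380) (nat_lit 0) (XT.lf (nat_lit 0) (nat_lit 5899858287) (nat_lit 532) (nat_lit 5343126569) (nat_lit 76) (nat_lit 709122478) (nat_lit 271) (nat_lit 5) (nat_lit 278) (nat_lit 5) (nat_lit 272) (nat_lit 5) (nat_lit 373) (nat_lit 347) (nat_lit 300)) (XT.lf (nat_lit 0) (nat_lit 7420992825) (nat_lit 380) (nat_lit 3471591218) (nat_lit 456) (nat_lit 1383075795) (nat_lit 266) (nat_lit 5) (nat_lit 271) (nat_lit 5) (nat_lit 272) (nat_lit 5) (nat_lit 374) (nat_lit 347) (nat_lit 299)))) (XT.nd (nat_lit 78) (nat_lit 836) (nat_lit 0) (XT.lf (nat_lit 0) (nat_lit 3557758273) (nat_lit 456) (nat_lit 4311151731) (nat_lit 76) (nat_lit 4742258555) (nat_lit 260) (nat_lit 5) (nat_lit 266) (nat_lit 5) (nat_lit 261) (nat_lit 5) (nat_lit 375) (nat_lit 347) (nat_lit 298)) (XT.nd (nat_lit 78) (nat_lit 456) (nat_lit 0) (XT.lf (nat_lit 0) (nat_lit 8823477402)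 (nat_lit 456) (nat_lit 3681727264) (nat_lit 76) (nat_lit 454643813) (nat_lit 255) (nat_lit 5) (nat_lit 261) (nat_lit 5) (nat_lit 256) (nat_lit 5) (nat_lit 376) (nat_lit 347) (nat_lit 297)) (XT.lf (nat_lit 0) (nat_lit 1160838670) (nat_lit 456) (nat_lit 2998465217) (nat_lit 76) (nat_lit 9161731991) (nat_lit 249) (nat_lit 5) (nat_lit 255) (nat_lit 5) (nat_lit 250) (nat_lit 5) (nat_lit 377) (nat_lit 347) (nat_lit 296))))) (XT.nd (nat_lit 234) (nat_lit 1596) (nat_lit 0) (XT.nd (nat_lit 78) (nat_lit 760) (nat_lit 0) (XT.lf (nat_lit 0) (nat_lit 6763743166) (nat_lit 380) (nat_lit 2253895921) (nat_lit 76) (nat_lit 4677623511) (nat_lit 245) (nat_lit 5) (nat_lit 250) (nat_lit 5) (nat_lit 246) (nat_lit 5) (nat_lit 378) (nat_lit 347) (nat_lit 295)) (XT.nd (nat_lit 78) (nat_lit 380) (nat_lit 0) (XT.lf (nat_lit 0) (nat_lit 12686614671) (nat_lit 380) (nat_lit 88387429) (nat_lit 456) (nat_lit 1309352280) (nat_lit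 240) (nat_lit 5) (nat_lit 245) (nat_lit 5) (nat_lit 246) (nat_lit 5) (nat_lit 379) (nat_lit 347) (nat_lit 294)) (XT.lf (nat_lit 0) (nat_lit 4688628809) (nat_lit 380) (nat_lit 516428881) (nat_lit 76) (nat_lit 9280987784) (nat_lit 235) (nat_lit 5) (nat_lit 240) (nat_lit 5) (nat_lit 236) (nat_lit 5) (nat_lit 380) (nat_lit 347) (nat_lit 293)))) (XT.nd (nat_lit 156) (nat_lit 608) (nat_lit 0) (XT.nd (nat_lit 78) (nat_lit 380) (nat_lit 0) (XT.lf (nat_lit 0) (nat_lit 482280668) (nat_lit 304) (nat_lit 10624249628) (nat_lit 380) (nat_lit 3796488888) (nat_lit 227) (nat_lit 5) (nat_lit 231) (nat_lit 5) (nat_lit 232) (nat_lit 5) (nat_lit 381) (nat_lit 347) (nat_lit 292)) (XT.lf (nat_lit 0) (nat_lit 1586059987) (nat_lit 304) (nat_lit 1035803558) (nat_lit 380) (nat_lit 12713268300) (nat_lit 222) (nat_lit 5) (nat_lit 226) (nat_lit 5) (nat_lit 227) (nat_lit 5) (nat_lit 382) (nat_lit 347) (nat_lit 291))) (XT.nd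 (nat_lit 78) (nat_lit 380) (nat_lit 0) (XT.lf (nat_lit 0) (nat_lit 2741750918) (nat_lit 228) (nat_lit 6743446636) (nat_lit 304) (nat_lit 6296447482) (nat_lit 219) (nat_lit 5) (nat_lit 222) (nat_lit 5) (nat_lit 223) (nat_lit 5) (nat_lit 383) (nat_lit 347) (nat_lit 290)) (XT.lf (nat_lit 0) (nat_lit 598960005) (nat_lit 380) (nat_lit 12212324191) (nat_lit 76) (nat_lit 3434081794) (nat_lit 214) (nat_lit 5) (nat_lit 219) (nat_lit 5) (nat_lit 215) (nat_lit 5) (nat_lit 384) (nat_lit 347) (nat_lit 289)))))) (XT.nd (nat_lit 546) (nat_lit 1672) (nat_lit 0) (XT.nd (nat_lit 234) (nat_lit 1064) (nat_lit 0) (XT.nd (nat_lit 78) (nat_lit 608) (nat_lit 0) (XT.lf (nat_lit 0) (nat_lit 5383501966) (nat_lit 228) (nat_lit 2523851146) (nat_lit 304) (nat_lit 8817096584) (nat_lit 211) (nat_lit 5) (nat_lit 214) (nat_lit 5) (nat_lit 215) (nat_lit 5) (nat_lit 385) (nat_lit 347) (nat_lit 288)) (XT.nd (nat_lit 78) (nat_lit 304)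 (nat_lit 0) (XT.lf (nat_lit 0) (nat_lit 6852307397) (nat_lit 304) (nat_lit 8944691318) (nat_lit 380) (nat_lit 1424013888) (nat_lit 207) (nat_lit 5) (nat_lit 211) (nat_lit 5) (nat_lit 212) (nat_lit 5) (nat_lit 386) (nat_lit 347) (nat_lit 287)) (XT.lf (nat_lit 0) (nat_lit 6404044950) (nat_lit 304) (nat_lit 9314480834) (nat_lit 76) (nat_lit 2016379520) (nat_lit 203) (nat_lit 5) (nat_lit 207) (nat_lit 5) (nat_lit 204) (nat_lit 5) (nat_lit 387) (nat_lit 347) (nat_lit 286)))) (XT.nd (nat_lit 156) (nat_lit 532) (nat_lit 0) (XT.nd (nat_lit 78) (nat_lit 304) (nat_lit 0) (XT.lf (nat_lit 0) (nat_lit 10097330728) (nat_lit 228) (nat_lit 4738338366) (nat_lit 304) (nat_lit 3431152179) (nat_lit 200) (nat_lit 5) (nat_lit 203) (nat_lit 5) (nat_lit 204) (nat_lit 5) (nat_lit 388) (nat_lit 347) (nat_lit 285)) (XT.lf (nat_lit 0) (nat_lit 4995276779) (nat_lit 304) (nat_lit 6936147016) (nat_lit 76) (nat_lit 6885707487)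 (nat_lit 196) (nat_lit 5) (nat_lit 200) (nat_lit 5) (nat_lit 197) (nat_lit 5) (nat_lit 389) (nat_lit 347) (nat_lit 284))) (XT.nd (nat_lit 78) (nat_lit 304) (nat_lit 0) (XT.lf (nat_lit 0) (nat_lit 13812902132) (nat_lit 228) (nat_lit 174150987) (nat_lit 304) (nat_lit 5400434894) (nat_lit 193) (nat_lit 5) (nat_lit 196) (nat_lit 5) (nat_lit 197) (nat_lit 5) (nat_lit 390) (nat_lit 347) (nat_lit 283)) (XT.lf (nat_lit 0) (nat_lit 3669521382) (nat_lit 304) (nat_lit 4145848129) (nat_lit 76) (nat_lit 12161161479) (nat_lit 189) (nat_lit 5) (nat_lit 193) (nat_lit 5) (nat_lit 190) (nat_lit 5) (nat_lit 391) (nat_lit 347) (nat_lit 282))))) (XT.nd (nat_lit 234) (nat_lit 836) (nat_lit 0) (XT.nd (nat_lit 78) (nat_lit 608) (nat_lit 0) (XT.lf (nat_lit 0) (nat_lit 13312585325) (nat_lit 304) (nat_lit 2592011186) (nat_lit 76) (nat_lit 4681886541) (nat_lit 186) (nat_lit 5) (nat_lit 190) (nat_lit 5) (nat_lit 187) (nat_lit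 5) (nat_lit 392) (nat_lit 347) (nat_lit 281)) (XT.nd (nat_lit 78) (nat_lit 380) (nat_lit 0) (XT.lf (nat_lit 0) (nat_lit 2440341404) (nat_lit 228) (nat_lit 903990500) (nat_lit 76) (nat_lit 17873784835) (nat_lit 183) (nat_lit 5) (nat_lit 186) (nat_lit 5) (nat_lit 184) (nat_lit 5) (nat_lit 393) (nat_lit 347) (nat_lit 280)) (XT.lf (nat_lit 0) (nat_lit 877367597) (nat_lit 152) (nat_lit 11919697322) (nat_lit 228) (nat_lit 9072890394) (nat_lit 178) (nat_lit 5) (nat_lit 180) (nat_lit 5) (nat_lit 181) (nat_lit 5) (nat_lit 394) (nat_lit 347) (nat_lit 279)))) (XT.nd (nat_lit 156) (nat_lit 380) (nat_lit 0) (XT.nd (nat_lit 78) (nat_lit 152) (nat_lit 0) (XT.lf (nat_lit 0) (nat_lit 1364842372) (nat_lit 304) (nat_lit 19671811533) (nat_lit 76) (nat_lit 1509327575) (nat_lit 174) (nat_lit 5) (nat_lit 178) (nat_lit 5) (nat_lit 175) (nat_lit 5) (nat_lit 395) (nat_lit 347) (nat_lit 278)) (XT.lf (nat_lit 0) (nat_lit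 4925601382) (nat_lit 152) (nat_lit 7553406565) (nat_lit 228) (nat_lit 10763840468) (nat_lit 172) (nat_lit 5) (nat_lit 174) (nat_lit 5) (nat_lit 175) (nat_lit 5) (nat_lit 396) (nat_lit 347) (nat_lit 277))) (XT.nd (nat_lit 78) (nat_lit 152) (nat_lit 0) (XT.lf (nat_lit 0) (nat_lit 466578699) (nat_lit 228) (nat_lit 16778834943) (nat_lit 76) (nat_lit 6720225066) (nat_lit 169) (nat_lit 5) (nat_lit 172) (nat_lit 5) (nat_lit 170) (nat_lit 5) (nat_lit 397) (nat_lit 347) (nat_lit 276)) (XT.lf (nat_lit 0) (nat_lit 9552152051) (nat_lit 152) (nat_lit 2800899450) (nat_lit 228) (nat_lit 12358805470) (nat_lit 167) (nat_lit 5) (nat_lit 169) (nat_lit 5) (nat_lit 170) (nat_lit 5) (nat_lit 398) (nat_lit 347) (nat_lit 275))))))) (XT.nd (nat_lit 1014) (nat_lit 2052) (nat_lit 0) (XT.nd (nat_lit 468) (nat_lit 1216) (nat_lit 0) (XT.nd (nat_lit 234) (nat_lit 608) (nat_lit 0) (XT.nd (nat_lit 78) (nat_lit 380) (nat_lit 0)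 (XT.lf (nat_lit 0) (nat_lit 12099495087) (nat_lit 152) (nat_lit 13101577560) (nat_lit 228) (nat_lit 283296758) (nat_lit 165) (nat_lit 5) (nat_lit 167) (nat_lit 5) (nat_lit 168) (nat_lit 5) (nat_lit 399) (nat_lit 347) (nat_lit 274)) (XT.nd (nat_lit 78) (nat_lit 152) (nat_lit 0) (XT.lf (nat_lit 0) (nat_lit 12463676542) (nat_lit 228) (nat_lit 11493214778) (nat_lit 76) (nat_lit 2325754025) (nat_lit 162) (nat_lit 5) (nat_lit 165) (nat_lit 5) (nat_lit 163) (nat_lit 5) (nat_lit 400) (nat_lit 347) (nat_lit 273)) (XT.lf (nat_lit 0) (nat_lit 17670265872) (nat_lit 152) (nat_lit 8572654056) (nat_lit 228) (nat_lit 865807590) (nat_lit 160) (nat_lit 5) (nat_lit 162) (nat_lit 5) (nat_lit 163) (nat_lit 5) (nat_lit 401) (nat_lit 347) (nat_lit 272)))) (XT.nd (nat_lit 78) (nat_lit 380) (nat_lit 0) (XT.lf (nat_lit 0) (nat_lit 12842899484) (nat_lit 228) (nat_lit 7271985848) (nat_lit 76) (nat_lit 7846864155) (nat_lit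 157) (nat_lit 5) (nat_lit 160) (nat_lit 5) (nat_lit 158) (nat_lit 5) (nat_lit 402) (nat_lit 347) (nat_lit 271)) (XT.nd (nat_lit 78) (nat_lit 228) (nat_lit 0) (XT.lf (nat_lit 0) (nat_lit 23967598568) (nat_lit 152) (nat_lit 3627988497) (nat_lit 228) (nat_lit 1250284777) (nat_lit 155) (nat_lit 5) (nat_lit 157) (nat_lit 5) (nat_lit 158) (nat_lit 5) (nat_lit 403) (nat_lit 347) (nat_lit 270)) (XT.lf (nat_lit 0) (nat_lit 13489685898) (nat_lit 228) (nat_lit 2410038450) (nat_lit 76) (nat_lit 13857505061) (nat_lit 152) (nat_lit 5) (nat_lit 155) (nat_lit 5) (nat_lit 153) (nat_lit 5) (nat_lit 404) (nat_lit 347) (nat_lit 269))))) (XT.nd (nat_lit 234) (nat_lit 684) (nat_lit 0) (XT.nd (nat_lit 78) (nat_lit 304) (nat_lit 0) (XT.lf (nat_lit 0) (nat_lit 347518741) (nat_lit 76) (nat_lit 28962710761) (nat_lit 152) (nat_lit 1392471015) (nat_lit 149) (nat_lit 5) (nat_lit 150) (nat_lit 5) (nat_lit 151) (nat_lit 4) (nat_lit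 405) (nat_lit 347) (nat_lit 268)) (XT.nd (nat_lit 78) (nat_lit 76) (nat_lit 0) (XT.lf (nat_lit 0) (nat_lit 3220017367) (nat_lit 152) (nat_lit 11243102160) (nat_lit 228) (nat_lit 17212791924) (nat_lit 146) (nat_lit 5) (nat_lit 148) (nat_lit 5) (nat_lit 149) (nat_lit 5) (nat_lit 406) (nat_lit 347) (nat_lit 267)) (XT.lf (nat_lit 0) (nat_lit 6388420197) (nat_lit 76) (nat_lit 25105841306) (nat_lit 152) (nat_lit 1190760714) (nat_lit 145) (nat_lit 5) (nat_lit 146) (nat_lit 5) (nat_lit 147) (nat_lit 4) (nat_lit 407) (nat_lit 347) (nat_lit 266)))) (XT.nd (nat_lit 156) (nat_lit 380) (nat_lit 0) (XT.nd (nat_lit 78) (nat_lit 76) (nat_lit 0) (XT.lf (nat_lit 0) (nat_lit 9689241730) (nat_lit 152) (nat_lit 6104828980) (nat_lit 228) (nat_lit 17932007496) (nat_lit 142) (nat_lit 5) (nat_lit 144) (nat_lit 5) (nat_lit 145) (nat_lit 5) (nat_lit 408) (nat_lit 347) (nat_lit 265)) (XT.lf (nat_lit 0) (nat_lit 13257942978)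 (nat_lit 76) (nat_lit 20844803362) (nat_lit 152) (nat_lit 701110084) (nat_lit 141) (nat_lit 5) (nat_lit 142) (nat_lit 5) (nat_lit 143) (nat_lit 4) (nat_lit 409) (nat_lit 347) (nat_lit 264))) (XT.nd (nat_lit 78) (nat_lit 152) (nat_lit 0) (XT.lf (nat_lit 0) (nat_lit 17028098350) (nat_lit 152) (nat_lit 464847417) (nat_lit 228) (nat_lit 18424333068) (nat_lit 138) (nat_lit 5) (nat_lit 140) (nat_lit 5) (nat_lit 141) (nat_lit 5) (nat_lit 410) (nat_lit 347) (nat_lit 263)) (XT.lf (nat_lit 0) (nat_lit 105877133) (nat_lit 152) (nat_lit 16031476167) (nat_lit 76) (nat_lit 20930956062) (nat_lit 136) (nat_lit 5) (nat_lit 138) (nat_lit 5) (nat_lit 137) (nat_lit 5) (nat_lit 411) (nat_lit 347) (nat_lit 262)))))) (XT.nd (nat_lit 546) (nat_lit 912) (nat_lit 0) (XT.nd (nat_lit 234) (nat_lit 684) (nat_lit 0) (XT.nd (nat_lit 78) (nat_lit 304) (nat_lit 0) (XT.lf (nat_lit 0) (nat_lit 19651819774) (nat_lit 228) (nat_lit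 12991923467) (nat_lit 76) (nat_lit 5613567640) (nat_lit 134) (nat_lit 5) (nat_lit 137) (nat_lit 5) (nat_lit 135) (nat_lit 4) (nat_lit 412) (nat_lit 347) (nat_lit 261)) (XT.nd (nat_lit 78) (nat_lit 152) (nat_lit 0) (XT.lf (nat_lit 0) (nat_lit 1246101637) (nat_lit 152) (nat_lit 9683013685) (nat_lit 76) (nat_lit 28558758192) (nat_lit 132) (nat_lit 5) (nat_lit 134) (nat_lit 5) (nat_lit 133) (nat_lit 5) (nat_lit 413) (nat_lit 347) (nat_lit 260)) (XT.lf (nat_lit 0) (nat_lit 22266238656) (nat_lit 228) (nat_lit 6217280925) (nat_lit 76) (nat_lit 12274095674) (nat_lit 130) (nat_lit 5) (nat_lit 133) (nat_lit 5) (nat_lit 131) (nat_lit 4) (nat_lit 414) (nat_lit 347) (nat_lit 259)))) (XT.nd (nat_lit 156) (nat_lit 304) (nat_lit 0) (XT.nd (nat_lit 78) (nat_lit 228) (nat_lit 0) (XT.lf (nat_lit 0) (nat_lit 2770030421) (nat_lit 152) (nat_lit 2407518673) (nat_lit 76) (nat_lit 36895627234) (nat_lit 128) (nat_lit 5)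 (nat_lit 130) (nat_lit 5) (nat_lit 129) (nat_lit 5) (nat_lit 415) (nat_lit 347) (nat_lit 258)) (XT.lf (nat_lit 0) (nat_lit 1559658630) (nat_lit 76) (nat_lit 23831503383) (nat_lit 152) (nat_lit 18037488426) (nat_lit 125) (nat_lit 5) (nat_lit 126) (nat_lit 5) (nat_lit 127) (nat_lit 4) (nat_lit 416) (nat_lit 347) (nat_lit 257))) (XT.nd (nat_lit 78) (nat_lit 76) (nat_lit 0) (XT.lf (nat_lit 0) (nat_lit 4787370773) (nat_lit 228) (nat_lit 38839164994) (nat_lit 76) (nat_lit 1206735111) (nat_lit 122) (nat_lit 5) (nat_lit 125) (nat_lit 5) (nat_lit 123) (nat_lit 4) (nat_lit 417) (nat_lit 347) (nat_lit 256)) (XT.lf (nat_lit 0) (nat_lit 10551617439) (nat_lit 76) (nat_lit 18579785838) (nat_lit 152) (nat_lit 17148832194) (nat_lit 121) (nat_lit 5) (nat_lit 122) (nat_lit 5) (nat_lit 123) (nat_lit 4) (nat_lit 418) (nat_lit 347) (nat_lit 255))))) (XT.nd (nat_lit 234) (nat_lit 456) (nat_lit 0) (XT.nd (nat_lit 78)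 (nat_lit 228) (nat_lit 0) (XT.lf (nat_lit 0) (nat_lit 7363386110) (nat_lit 228) (nat_lit 32247879893) (nat_lit 76) (nat_lit 8168150293) (nat_lit 118) (nat_lit 5) (nat_lit 121) (nat_lit 5) (nat_lit 119) (nat_lit 4) (nat_lit 419) (nat_lit 347) (nat_lit 254)) (XT.nd (nat_lit 78) (nat_lit 152) (nat_lit 0) (XT.lf (nat_lit 0) (nat_lit 20743896221) (nat_lit 76) (nat_lit 12735787478) (nat_lit 152) (nat_lit 15846784774) (nat_lit 117) (nat_lit 5) (nat_lit 118) (nat_lit 5) (nat_lit 119) (nat_lit 4) (nat_lit 420) (nat_lit 347) (nat_lit 253)) (XT.lf (nat_lit 0) (nat_lit 10473954956) (nat_lit 152) (nat_lit 24604873533) (nat_lit 76) (nat_lit 15847658828) (nat_lit 115) (nat_lit 5) (nat_lit 117) (nat_lit 5) (nat_lit 116) (nat_lit 4) (nat_lit 421) (nat_lit 347) (nat_lit 252)))) (XT.nd (nat_lit 156) (nat_lit 228) (nat_lit 0) (XT.nd (nat_lit 78) (nat_lit 152) (nat_lit 0) (XT.lf (nat_lit 0) (nat_lit 32255224667) (nat_lit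 76) (nat_lit 6239175653) (nat_lit 152) (nat_lit 14086057683) (nat_lit 114) (nat_lit 5) (nat_lit 115) (nat_lit 5) (nat_lit 116) (nat_lit 4) (nat_lit 422) (nat_lit 347) (nat_lit 251)) (XT.lf (nat_lit 0) (nat_lit 14173031083) (nat_lit 152) (nat_lit 15800392089) (nat_lit 76) (nat_lit 24314592946) (nat_lit 112) (nat_lit 5) (nat_lit 114) (nat_lit 5) (nat_lit 113) (nat_lit 4) (nat_lit 423) (nat_lit 347) (nat_lit 250))) (XT.nd (nat_lit 78) (nat_lit 152) (nat_lit 0) (XT.lf (nat_lit 0) (nat_lit 44248451139) (nat_lit 152) (nat_lit 10850768099) (nat_lit 0) (nat_lit 956707980) (nat_lit 111) (nat_lit 5) (nat_lit 113) (nat_lit 4) (nat_lit 111) (nat_lit 4) (nat_lit 424) (nat_lit 347) (nat_lit 249)) (XT.lf (nat_lit 0) (nat_lit 18519420350) (nat_lit 152) (nat_lit 5714749587) (nat_lit 76) (nat_lit 33644289334) (nat_lit 109) (nat_lit 5) (nat_lit 111) (nat_lit 5) (nat_lit 110) (nat_lit 4) (nat_lit 425) (nat_lit 347)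 (nat_lit 248))))))))
noncomputable def xc61 : XT := (XT.nd (nat_lit 48048) (nat_lit 0) (nat_lit 9120) (XT.nd (nat_lit 1014) (nat_lit 76) (nat_lit 0) (XT.nd (nat_lit 468) (nat_lit 912) (nat_lit 0) (XT.nd (nat_lit 234) (nat_lit 380) (nat_lit 0) (XT.nd (nat_lit 78) (nat_lit 304) (nat_lit 0) (XT.lf (nat_lit 0) (nat_lit 50869093589) (nat_lit 152) (nat_lit 91761662) (nat_lit 0) (nat_lit 8805236645) (nat_lit 108) (nat_lit 5) (nat_lit 110) (nat_lit 4) (nat_lit 108) (nat_lit 4) (nat_lit 426) (nat_lit 347) (nat_lit 247)) (XT.nd (nat_lit 78) (nat_lit 76) (nat_lit 0) (XT.lf (nat_lit 0) (nat_lit 5897580876) (nat_lit 76) (nat_lit 17736304170) (nat_lit 152) (nat_lit 38077674776) (nat_lit 105) (nat_lit 5) (nat_lit 106) (nat_lit 5) (nat_lit 107) (nat_lit 4) (nat_lit 427) (nat_lit 347) (nat_lit 246)) (XT.lf (nat_lit 0) (nat_lit 12389634536) (nat_lit 76) (nat_lit 46101647372) (nat_lit 76) (nat_lit 5233857377) (nat_lit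 104) (nat_lit 4) (nat_lit 105) (nat_lit 5) (nat_lit 105) (nat_lit 4) (nat_lit 428) (nat_lit 347) (nat_lit 245)))) (XT.nd (nat_lit 78) (nat_lit 228) (nat_lit 0) (XT.lf (nat_lit 0) (nat_lit 19208267130) (nat_lit 76) (nat_lit 10392507978) (nat_lit 152) (nat_lit 36202603755) (nat_lit 102) (nat_lit 5) (nat_lit 103) (nat_lit 5) (nat_lit 104) (nat_lit 4) (nat_lit 429) (nat_lit 347) (nat_lit 244)) (XT.nd (nat_lit 78) (nat_lit 152) (nat_lit 0) (XT.lf (nat_lit 0) (nat_lit 26534125418) (nat_lit 76) (nat_lit 40561073860) (nat_lit 76) (nat_lit 857987403) (nat_lit 101) (nat_lit 4) (nat_lit 102) (nat_lit 5) (nat_lit 102) (nat_lit 4) (nat_lit 430) (nat_lit 347) (nat_lit 243)) (XT.lf (nat_lit 0) (nat_lit 34261363453) (nat_lit 76) (nat_lit 2180189528) (nat_lit 152) (nat_lit 33731622981) (nat_lit 99) (nat_lit 5) (nat_lit 100) (nat_lit 5) (nat_lit 101) (nat_lit 4) (nat_lit 431) (nat_lit 347) (nat_lit 242))))) (XT.nd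 (nat_lit 234) (nat_lit 532) (nat_lit 0) (XT.nd (nat_lit 78) (nat_lit 228) (nat_lit 0) (XT.lf (nat_lit 0) (nat_lit 4218673403) (nat_lit 152) (nat_lit 30005340518) (nat_lit 76) (nat_lit 38243173099) (nat_lit 97) (nat_lit 5) (nat_lit 99) (nat_lit 5) (nat_lit 98) (nat_lit 4) (nat_lit 432) (nat_lit 347) (nat_lit 241)) (XT.nd (nat_lit 78) (nat_lit 152) (nat_lit 0) (XT.lf (nat_lit 0) (nat_lit 44307723912) (nat_lit 152) (nat_lit 23678313377) (nat_lit 0) (nat_lit 6851676215) (nat_lit 96) (nat_lit 5) (nat_lit 98) (nat_lit 4) (nat_lit 96) (nat_lit 4) (nat_lit 433) (nat_lit 347) (nat_lit 240)) (XT.lf (nat_lit 0) (nat_lit 10126032687) (nat_lit 152) (nat_lit 16909893067) (nat_lit 76) (nat_lit 50251364258) (nat_lit 94) (nat_lit 5) (nat_lit 96) (nat_lit 5) (nat_lit 95) (nat_lit 4) (nat_lit 434) (nat_lit 347) (nat_lit 239)))) (XT.nd (nat_lit 156) (nat_lit 304) (nat_lit 0) (XT.nd (nat_lit 78) (nat_lit 152) (nat_lit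 0) (XT.lf (nat_lit 0) (nat_lit 53254918355) (nat_lit 152) (nat_lit 9691761908) (nat_lit 0) (nat_lit 16871452688) (nat_lit 93) (nat_lit 5) (nat_lit 95) (nat_lit 4) (nat_lit 93) (nat_lit 4) (nat_lit 435) (nat_lit 347) (nat_lit 238)) (XT.lf (nat_lit 0) (nat_lit 16965862100) (nat_lit 152) (nat_lit 1951300244) (nat_lit 76) (nat_lit 63517284596) (nat_lit 91) (nat_lit 5) (nat_lit 93) (nat_lit 5) (nat_lit 92) (nat_lit 4) (nat_lit 436) (nat_lit 347) (nat_lit 237))) (XT.nd (nat_lit 78) (nat_lit 152) (nat_lit 0) (XT.lf (nat_lit 0) (nat_lit 6373872600) (nat_lit 76) (nat_lit 57050339480) (nat_lit 76) (nat_lit 21710408860) (nat_lit 89) (nat_lit 4) (nat_lit 90) (nat_lit 5) (nat_lit 90) (nat_lit 4) (nat_lit 437) (nat_lit 347) (nat_lit 236)) (XT.lf (nat_lit 0) (nat_lit 15358797252) (nat_lit 76) (nat_lit 9619647857) (nat_lit 152) (nat_lit 62947898652) (nat_lit 87) (nat_lit 5) (nat_lit 88) (nat_lit 5) (nat_lit 89)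 (nat_lit 4) (nat_lit 438) (nat_lit 347) (nat_lit 235)))))) (XT.nd (nat_lit 46488) (nat_lit 0) (nat_lit 22648) (XT.nd (nat_lit 46176) (nat_lit 0) (nat_lit 26676) (XT.nd (nat_lit 46020) (nat_lit 0) (nat_lit 28272) (XT.lf (nat_lit 0) (nat_lit 24826723633) (nat_lit 76) (nat_lit 50153260709) (nat_lit 76) (nat_lit 15828402330) (nat_lit 86) (nat_lit 4) (nat_lit 87) (nat_lit 5) (nat_lit 87) (nat_lit 4) (nat_lit 439) (nat_lit 347) (nat_lit 234)) (XT.nd (nat_lit 78) (nat_lit 0) (nat_lit 0) (XT.lf (nat_lit 0) (nat_lit 1942336644) (nat_lit 836) (nat_lit 823468440) (nat_lit 836) (nat_lit 823468440) (nat_lit 458) (nat_lit 3) (nat_lit 469) (nat_lit 3) (nat_lit 469) (nat_lit 5) (nat_lit 348) (nat_lit 348) (nat_lit 324)) (XT.lf (nat_lit 76) (nat_lit 4403184040) (nat_lit 0) (nat_lit 2354281415) (nat_lit 836) (nat_lit 517275012) (nat_lit 459) (nat_lit 5) (nat_lit 458) (nat_lit 3) (nat_lit 469) (nat_lit 5) (nat_lit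 349) (nat_lit 348) (nat_lit 323)))) (XT.nd (nat_lit 156) (nat_lit 836) (nat_lit 0) (XT.nd (nat_lit 78) (nat_lit 0) (nat_lit 0) (XT.lf (nat_lit 0) (nat_lit 2234148902) (nat_lit 836) (nat_lit 4027904044) (nat_lit 912) (nat_lit 1116515277) (nat_lit 448) (nat_lit 5) (nat_lit 459) (nat_lit 5) (nat_lit 460) (nat_lit 5) (nat_lit 350) (nat_lit 348) (nat_lit 322)) (XT.lf (nat_lit 76) (nat_lit 2375842572) (nat_lit 0) (nat_lit 2643872049) (nat_lit 912) (nat_lit 2470501040) (nat_lit 449) (nat_lit 5) (nat_lit 448) (nat_lit 5) (nat_lit 460) (nat_lit 5) (nat_lit 351) (nat_lit 348) (nat_lit 321))) (XT.nd (nat_lit 78) (nat_lit 0) (nat_lit 0) (XT.lf (nat_lit 0) (nat_lit 235439813) (nat_lit 912) (nat_lit 6118413975) (nat_lit 988) (nat_lit 1256347319) (nat_lit 437) (nat_lit 5) (nat_lit 449) (nat_lit 5) (nat_lit 450) (nat_lit 5) (nat_lit 352) (nat_lit 348) (nat_lit 320)) (XT.lf (nat_lit 76) (nat_lit 659826047) (nat_lit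 0) (nat_lit 2296138805) (nat_lit 988) (nat_lit 4781575734) (nat_lit 438) (nat_lit 5) (nat_lit 437) (nat_lit 5) (nat_lit 450) (nat_lit 5) (nat_lit 353) (nat_lit 348) (nat_lit 319))))) (XT.nd (nat_lit 234) (nat_lit 3116) (nat_lit 0) (XT.nd (nat_lit 78) (nat_lit 988) (nat_lit 0) (XT.lf (nat_lit 0) (nat_lit 5745704056) (nat_lit 912) (nat_lit 87541007) (nat_lit 988) (nat_lit 2040006339) (nat_lit 438) (nat_lit 5) (nat_lit 450) (nat_lit 5) (nat_lit 451) (nat_lit 5) (nat_lit 354) (nat_lit 348) (nat_lit 318)) (XT.nd (nat_lit 78) (nat_lit 0) (nat_lit 76) (XT.lf (nat_lit 0) (nat_lit 596721077) (nat_lit 988) (nat_lit 750779088) (nat_lit 1064) (nat_lit 6669545449) (nat_lit 425) (nat_lit 5) (nat_lit 438) (nat_lit 5) (nat_lit 439) (nat_lit 5) (nat_lit 355) (nat_lit 348) (nat_lit 317)) (XT.lf (nat_lit 0) (nat_lit 3376102200) (nat_lit 988) (nat_lit 1368102246) (nat_lit 1064) (nat_lit 3424306142) (nat_lit 426) (nat_lit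 5) (nat_lit 439) (nat_lit 5) (nat_lit 440) (nat_lit 5) (nat_lit 356) (nat_lit 348) (nat_lit 316)))) (XT.nd (nat_lit 156) (nat_lit 2204) (nat_lit 0) (XT.nd (nat_lit 78) (nat_lit 1064) (nat_lit 0) (XT.lf (nat_lit 0) (nat_lit 6247717676) (nat_lit 988) (nat_lit 1901441621) (nat_lit 76) (nat_lit 179791553) (nat_lit 427) (nat_lit 5) (nat_lit 440) (nat_lit 5) (nat_lit 428) (nat_lit 5) (nat_lit 357) (nat_lit 348) (nat_lit 315)) (XT.lf (nat_lit 0) (nat_lit 745309731) (nat_lit 1064) (nat_lit 2390272846) (nat_lit 76) (nat_lit 5361767395) (nat_lit 413) (nat_lit 5) (nat_lit 427) (nat_lit 5) (nat_lit 414) (nat_lit 5) (nat_lit 358) (nat_lit 348) (nat_lit 314))) (XT.nd (nat_lit 78) (nat_lit 1140) (nat_lit 0) (XT.lf (nat_lit 0) (nat_lit 3646183530) (nat_lit 1140) (nat_lit 2821658110) (nat_lit 76) (nat_lit 2206427818) (nat_lit 399) (nat_lit 5) (nat_lit 414) (nat_lit 5) (nat_lit 400) (nat_lit 5) (nat_lit 359) (nat_lit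 348) (nat_lit 313)) (XT.lf (nat_lit 0) (nat_lit 5675609045) (nat_lit 1140) (nat_lit 1010388873) (nat_lit 1216) (nat_lit 2174220094) (nat_lit 384) (nat_lit 5) (nat_lit 399) (nat_lit 5) (nat_lit 400) (nat_lit 5) (nat_lit 360) (nat_lit 348) (nat_lit 312))))))) (XT.nd (nat_lit 1014) (nat_lit 5396) (nat_lit 0) (XT.nd (nat_lit 468) (nat_lit 3572) (nat_lit 0) (XT.nd (nat_lit 234) (nat_lit 1824) (nat_lit 0) (XT.nd (nat_lit 78) (nat_lit 1444) (nat_lit 0) (XT.lf (nat_lit 0) (nat_lit 822233452) (nat_lit 1292) (nat_lit 3500189325) (nat_lit 76) (nat_lit 4732325835) (nat_lit 367) (nat_lit 5) (nat_lit 384) (nat_lit 5) (nat_lit 368) (nat_lit 5) (nat_lit 361) (nat_lit 348) (nat_lit 311)) (XT.nd (nat_lit 78) (nat_lit 608) (nat_lit 0) (XT.lf (nat_lit 0) (nat_lit 3926592957) (nat_lit 912) (nat_lit 3761189733) (nat_lit 76) (nat_lit 1570485758) (nat_lit 356) (nat_lit 5) (nat_lit 368) (nat_lit 5) (nat_lit 357) (nat_lit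 5) (nat_lit 362) (nat_lit 348) (nat_lit 310)) (XT.lf (nat_lit 0) (nat_lit 5508288973) (nat_lit 608) (nat_lit 1706089147) (nat_lit 684) (nat_lit 2256739928) (nat_lit 348) (nat_lit 5) (nat_lit 356) (nat_lit 5) (nat_lit 357) (nat_lit 5) (nat_lit 363) (nat_lit 348) (nat_lit 309)))) (XT.nd (nat_lit 78) (nat_lit 1140) (nat_lit 0) (XT.lf (nat_lit 0) (nat_lit 989438642) (nat_lit 684) (nat_lit 4113936965) (nat_lit 76) (nat_lit 4589860362) (nat_lit 339) (nat_lit 5) (nat_lit 348) (nat_lit 5) (nat_lit 340) (nat_lit 5) (nat_lit 364) (nat_lit 348) (nat_lit 308)) (XT.nd (nat_lit 78) (nat_lit 608) (nat_lit 0) (XT.lf (nat_lit 0) (nat_lit 4380405420) (nat_lit 608) (nat_lit 4211756786) (nat_lit 76) (nat_lit 1332752697) (nat_lit 332) (nat_lit 5) (nat_lit 340) (nat_lit 5) (nat_lit 333) (nat_lit 5) (nat_lit 365) (nat_lit 348) (nat_lit 307)) (XT.lf (nat_lit 0) (nat_lit 5913399344) (nat_lit 608) (nat_lit 2084508521) (nat_lit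 684) (nat_lit 2168560300) (nat_lit 324) (nat_lit 5) (nat_lit 332) (nat_lit 5) (nat_lit 333) (nat_lit 5) (nat_lit 366) (nat_lit 348) (nat_lit 306))))) (XT.nd (nat_lit 234) (nat_lit 1976) (nat_lit 0) (XT.nd (nat_lit 78) (nat_lit 988) (nat_lit 0) (XT.lf (nat_lit 0) (nat_lit 1408163162) (nat_lit 608) (nat_lit 4243943298) (nat_lit 76) (nat_lit 4765830833) (nat_lit 316) (nat_lit 5) (nat_lit 324) (nat_lit 5) (nat_lit 317) (nat_lit 5) (nat_lit 367) (nat_lit 348) (nat_lit 305)) (XT.nd (nat_lit 78) (nat_lit 456) (nat_lit 0) (XT.lf (nat_lit 0) (nat_lit 5172059041) (nat_lit 608) (nat_lit 4178142434) (nat_lit 76) (nat_lit 1329538713) (nat_lit 309) (nat_lit 5) (nat_lit 317) (nat_lit 5) (nat_lit 310) (nat_lit 5) (nat_lit 368) (nat_lit 348) (nat_lit 304)) (XT.lf (nat_lit 0) (nat_lit 6897948818) (nat_lit 456) (nat_lit 2308687136) (nat_lit 532) (nat_lit 1745522686) (nat_lit 303) (nat_lit 5) (nat_lit 309) (nat_lit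 5) (nat_lit 310) (nat_lit 5) (nat_lit 369) (nat_lit 348) (nat_lit 303)))) (XT.nd (nat_lit 156) (nat_lit 912) (nat_lit 0) (XT.nd (nat_lit 78) (nat_lit 456) (nat_lit 0) (XT.lf (nat_lit 0) (nat_lit 2243724655) (nat_lit 608) (nat_lit 3883351382) (nat_lit 76) (nat_lit 5108026075) (nat_lit 295) (nat_lit 5) (nat_lit 303) (nat_lit 5) (nat_lit 296) (nat_lit 5) (nat_lit 370) (nat_lit 348) (nat_lit 302)) (XT.lf (nat_lit 0) (nat_lit 6472068028) (nat_lit 532) (nat_lit 3646291394) (nat_lit 76) (nat_lit 1411042851) (nat_lit 289) (nat_lit 5) (nat_lit 296) (nat_lit 5) (nat_lit 290) (nat_lit 5) (nat_lit 371) (nat_lit 348) (nat_lit 301))) (XT.nd (nat_lit 78) (nat_lit 456) (nat_lit 0) (XT.lf (nat_lit 0) (nat_lit 8488680349) (nat_lit 456) (nat_lit 2529884536) (nat_lit 532) (nat_lit 816650467) (nat_lit 283) (nat_lit 5) (nat_lit 289) (nat_lit 5) (nat_lit 290) (nat_lit 5) (nat_lit 372) (nat_lit 348) (nat_lit 300)) (XT.lf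 (nat_lit 0) (nat_lit 3670094319) (nat_lit 456) (nat_lit 3007076101) (nat_lit 76) (nat_lit 5474950713) (nat_lit 277) (nat_lit 5) (nat_lit 283) (nat_lit 5) (nat_lit 278) (nat_lit 5) (nat_lit 373) (nat_lit 348) (nat_lit 299)))))) (XT.nd (nat_lit 546) (nat_lit 2204) (nat_lit 0) (XT.nd (nat_lit 234) (nat_lit 1900) (nat_lit 0) (XT.nd (nat_lit 78) (nat_lit 836) (nat_lit 0) (XT.lf (nat_lit 0) (nat_lit 8461575654) (nat_lit 532) (nat_lit 2584138295) (nat_lit 76) (nat_lit 1435997019) (nat_lit 271) (nat_lit 5) (nat_lit 278) (nat_lit 5) (nat_lit 272) (nat_lit 5) (nat_lit 374) (nat_lit 348) (nat_lit 298)) (XT.nd (nat_lit 78) (nat_lit 380) (nat_lit 0) (XT.lf (nat_lit 0) (nat_lit 784803022) (nat_lit 456) (nat_lit 2100082520) (nat_lit 76) (nat_lit 9938715248) (nat_lit 265) (nat_lit 5) (nat_lit 271) (nat_lit 5) (nat_lit 266) (nat_lit 5) (nat_lit 375) (nat_lit 348) (nat_lit 297)) (XT.lf (nat_lit 0) (nat_lit 5874388205)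 (nat_lit 456) (nat_lit 1572295072) (nat_lit 76) (nat_lit 5730881451) (nat_lit 260) (nat_lit 5) (nat_lit 266) (nat_lit 5) (nat_lit 261) (nat_lit 5) (nat_lit 376) (nat_lit 348) (nat_lit 296)))) (XT.nd (nat_lit 156) (nat_lit 1064) (nat_lit 0) (XT.nd (nat_lit 78) (nat_lit 456) (nat_lit 0) (XT.lf (nat_lit 0) (nat_lit 11336874495) (nat_lit 456) (nat_lit 941893087) (nat_lit 76) (nat_lit 1266906624) (nat_lit 255) (nat_lit 5) (nat_lit 261) (nat_lit 5) (nat_lit 256) (nat_lit 5) (nat_lit 377) (nat_lit 348) (nat_lit 295)) (XT.lf (nat_lit 0) (nat_lit 3239537740) (nat_lit 456) (nat_lit 268066494) (nat_lit 76) (nat_lit 10418863724) (nat_lit 249) (nat_lit 5) (nat_lit 255) (nat_lit 5) (nat_lit 250) (nat_lit 5) (nat_lit 378) (nat_lit 348) (nat_lit 294))) (XT.nd (nat_lit 78) (nat_lit 380) (nat_lit 0) (XT.lf (nat_lit 0) (nat_lit 491155100) (nat_lit 380) (nat_lit 8574962032) (nat_lit 456) (nat_lit 5254982993) (nat_lit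 240) (nat_lit 5) (nat_lit 245) (nat_lit 5) (nat_lit 246) (nat_lit 5) (nat_lit 379) (nat_lit 348) (nat_lit 293)) (XT.lf (nat_lit 0) (nat_lit 584428635) (nat_lit 380) (nat_lit 13361897943) (nat_lit 76) (nat_lit 784669364) (nat_lit 235) (nat_lit 5) (nat_lit 240) (nat_lit 5) (nat_lit 236) (nat_lit 5) (nat_lit 380) (nat_lit 348) (nat_lit 292))))) (XT.nd (nat_lit 234) (nat_lit 1216) (nat_lit 0) (XT.nd (nat_lit 78) (nat_lit 684) (nat_lit 0) (XT.lf (nat_lit 0) (nat_lit 2273243091) (nat_lit 304) (nat_lit 4526758404) (nat_lit 380) (nat_lit 8354038015) (nat_lit 231) (nat_lit 5) (nat_lit 235) (nat_lit 5) (nat_lit 236) (nat_lit 5) (nat_lit 381) (nat_lit 348) (nat_lit 291)) (XT.nd (nat_lit 78) (nat_lit 380) (nat_lit 0) (XT.lf (nat_lit 0) (nat_lit 3297699699) (nat_lit 304) (nat_lit 10192257414) (nat_lit 380) (nat_lit 2103370022) (nat_lit 227) (nat_lit 5) (nat_lit 231) (nat_lit 5) (nat_lit 232) (nat_lit 5) (nat_lit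 382) (nat_lit 348) (nat_lit 290)) (XT.lf (nat_lit 0) (nat_lit 4412345562) (nat_lit 304) (nat_lit 125302843) (nat_lit 380) (nat_lit 11510699284) (nat_lit 222) (nat_lit 5) (nat_lit 226) (nat_lit 5) (nat_lit 227) (nat_lit 5) (nat_lit 383) (nat_lit 348) (nat_lit 289)))) (XT.nd (nat_lit 156) (nat_lit 608) (nat_lit 0) (XT.nd (nat_lit 78) (nat_lit 380) (nat_lit 0) (XT.lf (nat_lit 0) (nat_lit 5590100375) (nat_lit 228) (nat_lit 6103935375) (nat_lit 304) (nat_lit 4824654189) (nat_lit 219) (nat_lit 5) (nat_lit 222) (nat_lit 5) (nat_lit 223) (nat_lit 5) (nat_lit 384) (nat_lit 348) (nat_lit 288)) (XT.lf (nat_lit 0) (nat_lit 2332241567) (nat_lit 380) (nat_lit 10114070242) (nat_lit 76) (nat_lit 4560222474) (nat_lit 214) (nat_lit 5) (nat_lit 219) (nat_lit 5) (nat_lit 215) (nat_lit 5) (nat_lit 385) (nat_lit 348) (nat_lit 287))) (XT.nd (nat_lit 78) (nat_lit 380) (nat_lit 0) (XT.lf (nat_lit 0) (nat_lit 8283898004)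 (nat_lit 228) (nat_lit 1666338109) (nat_lit 304) (nat_lit 7561010608) (nat_lit 211) (nat_lit 5) (nat_lit 214) (nat_lit 5) (nat_lit 215) (nat_lit 5) (nat_lit 386) (nat_lit 348) (nat_lit 286)) (XT.lf (nat_lit 0) (nat_lit 152842830) (nat_lit 380) (nat_lit 8245927374) (nat_lit 76) (nat_lit 9635157805) (nat_lit 206) (nat_lit 5) (nat_lit 211) (nat_lit 5) (nat_lit 207) (nat_lit 5) (nat_lit 387) (nat_lit 348) (nat_lit 285))))))))
noncomputable def xc62 : XT := (XT.nd (nat_lit 2106) (nat_lit 3420) (nat_lit 0) (XT.nd (nat_lit 1014) (nat_lit 2432) (nat_lit 0) (XT.nd (nat_lit 468) (nat_lit 1672) (nat_lit 0) (XT.nd (nat_lit 234) (nat_lit 760) (nat_lit 0) (XT.nd (nat_lit 78) (nat_lit 532) (nat_lit 0) (XT.lf (nat_lit 0) (nat_lit 8300035613) (nat_lit 304) (nat_lit 7191143592) (nat_lit 76) (nat_lit 3083197713) (nat_lit 203) (nat_lit 5) (nat_lit 207) (nat_lit 5) (nat_lit 204) (nat_lit 5) (nat_lit 388) (nat_lit 348)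 (nat_lit 284)) (XT.nd (nat_lit 78) (nat_lit 304) (nat_lit 0) (XT.lf (nat_lit 0) (nat_lit 13117043627) (nat_lit 228) (nat_lit 3985334035) (nat_lit 304) (nat_lit 2032036921) (nat_lit 200) (nat_lit 5) (nat_lit 203) (nat_lit 5) (nat_lit 204) (nat_lit 5) (nat_lit 389) (nat_lit 348) (nat_lit 283)) (XT.lf (nat_lit 0) (nat_lit 6744937311) (nat_lit 304) (nat_lit 4775151244) (nat_lit 76) (nat_lit 8192902390) (nat_lit 196) (nat_lit 5) (nat_lit 200) (nat_lit 5) (nat_lit 197) (nat_lit 5) (nat_lit 390) (nat_lit 348) (nat_lit 282)))) (XT.nd (nat_lit 78) (nat_lit 532) (nat_lit 0) (XT.lf (nat_lit 0) (nat_lit 16145995685) (nat_lit 304) (nat_lit 3381542409) (nat_lit 76) (nat_lit 785536623) (nat_lit 193) (nat_lit 5) (nat_lit 197) (nat_lit 5) (nat_lit 194) (nat_lit 5) (nat_lit 391) (nat_lit 348) (nat_lit 281)) (XT.nd (nat_lit 78) (nat_lit 228) (nat_lit 0) (XT.lf (nat_lit 0) (nat_lit 5281827965) (nat_lit 304) (nat_lit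 1925491473) (nat_lit 76) (nat_lit 13725173186) (nat_lit 189) (nat_lit 5) (nat_lit 193) (nat_lit 5) (nat_lit 190) (nat_lit 5) (nat_lit 392) (nat_lit 348) (nat_lit 280)) (XT.lf (nat_lit 0) (nat_lit 15371041161) (nat_lit 304) (nat_lit 331415491) (nat_lit 76) (nat_lit 5871565755) (nat_lit 186) (nat_lit 5) (nat_lit 190) (nat_lit 5) (nat_lit 187) (nat_lit 5) (nat_lit 393) (nat_lit 348) (nat_lit 279))))) (XT.nd (nat_lit 234) (nat_lit 760) (nat_lit 0) (XT.nd (nat_lit 78) (nat_lit 456) (nat_lit 0) (XT.lf (nat_lit 0) (nat_lit 1427456474) (nat_lit 228) (nat_lit 2510797148) (nat_lit 304) (nat_lit 18299492099) (nat_lit 180) (nat_lit 5) (nat_lit 183) (nat_lit 5) (nat_lit 184) (nat_lit 5) (nat_lit 394) (nat_lit 348) (nat_lit 278)) (XT.nd (nat_lit 78) (nat_lit 304) (nat_lit 0) (XT.lf (nat_lit 0) (nat_lit 3279036880) (nat_lit 152) (nat_lit 11509034390) (nat_lit 228) (nat_lit 8134847217) (nat_lit 178) (nat_lit 5)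 (nat_lit 180) (nat_lit 5) (nat_lit 181) (nat_lit 5) (nat_lit 395) (nat_lit 348) (nat_lit 277)) (XT.lf (nat_lit 0) (nat_lit 2764468556) (nat_lit 304) (nat_lit 18308716406) (nat_lit 76) (nat_lit 2560154072) (nat_lit 174) (nat_lit 5) (nat_lit 178) (nat_lit 5) (nat_lit 175) (nat_lit 5) (nat_lit 396) (nat_lit 348) (nat_lit 276)))) (XT.nd (nat_lit 156) (nat_lit 380) (nat_lit 0) (XT.nd (nat_lit 78) (nat_lit 228) (nat_lit 0) (XT.lf (nat_lit 0) (nat_lit 7451299881) (nat_lit 152) (nat_lit 6941554451) (nat_lit 228) (nat_lit 9973439624) (nat_lit 172) (nat_lit 5) (nat_lit 174) (nat_lit 5) (nat_lit 175) (nat_lit 5) (nat_lit 397) (nat_lit 348) (nat_lit 275)) (XT.lf (nat_lit 0) (nat_lit 1761460745) (nat_lit 228) (nat_lit 15350042529) (nat_lit 76) (nat_lit 8014270775) (nat_lit 169) (nat_lit 5) (nat_lit 172) (nat_lit 5) (nat_lit 170) (nat_lit 5) (nat_lit 398) (nat_lit 348) (nat_lit 274))) (XT.nd (nat_lit 78) (nat_lit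 228) (nat_lit 0) (XT.lf (nat_lit 0) (nat_lit 12232489670) (nat_lit 152) (nat_lit 1970391358) (nat_lit 228) (nat_lit 11707603483) (nat_lit 167) (nat_lit 5) (nat_lit 169) (nat_lit 5) (nat_lit 170) (nat_lit 5) (nat_lit 399) (nat_lit 348) (nat_lit 273)) (XT.lf (nat_lit 0) (nat_lit 923468164) (nat_lit 228) (nat_lit 11860642490) (nat_lit 76) (nat_lit 13938109248) (nat_lit 164) (nat_lit 5) (nat_lit 167) (nat_lit 5) (nat_lit 165) (nat_lit 5) (nat_lit 400) (nat_lit 348) (nat_lit 272)))))) (XT.nd (nat_lit 546) (nat_lit 1064) (nat_lit 0) (XT.nd (nat_lit 234) (nat_lit 836) (nat_lit 0) (XT.nd (nat_lit 78) (nat_lit 380) (nat_lit 0) (XT.lf (nat_lit 0) (nat_lit 14273709415) (nat_lit 228) (nat_lit 9913854451) (nat_lit 76) (nat_lit 3373608274) (nat_lit 162) (nat_lit 5) (nat_lit 165) (nat_lit 5) (nat_lit 163) (nat_lit 5) (nat_lit 401) (nat_lit 348) (nat_lit 271)) (XT.nd (nat_lit 78) (nat_lit 152) (nat_lit 0) (XT.lf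 (nat_lit 0) (nat_lit 270477013) (nat_lit 228) (nat_lit 7786246640) (nat_lit 76) (nat_lit 20372847349) (nat_lit 159) (nat_lit 5) (nat_lit 162) (nat_lit 5) (nat_lit 160) (nat_lit 5) (nat_lit 402) (nat_lit 348) (nat_lit 270)) (XT.lf (nat_lit 0) (nat_lit 14620231121) (nat_lit 228) (nat_lit 5555960827) (nat_lit 76) (nat_lit 9149589413) (nat_lit 157) (nat_lit 5) (nat_lit 160) (nat_lit 5) (nat_lit 158) (nat_lit 5) (nat_lit 403) (nat_lit 348) (nat_lit 269)))) (XT.nd (nat_lit 156) (nat_lit 456) (nat_lit 0) (XT.nd (nat_lit 78) (nat_lit 228) (nat_lit 0) (XT.lf (nat_lit 0) (nat_lit 27185990796) (nat_lit 152) (nat_lit 2889923371) (nat_lit 228) (nat_lit 179234834) (nat_lit 155) (nat_lit 5) (nat_lit 157) (nat_lit 5) (nat_lit 158) (nat_lit 5) (nat_lit 404) (nat_lit 348) (nat_lit 268)) (XT.lf (nat_lit 0) (nat_lit 15250465178) (nat_lit 228) (nat_lit 523327000) (nat_lit 76) (nat_lit 15438709852) (nat_lit 152) (nat_lit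 5) (nat_lit 155) (nat_lit 5) (nat_lit 153) (nat_lit 5) (nat_lit 405) (nat_lit 348) (nat_lit 267))) (XT.nd (nat_lit 78) (nat_lit 228) (nat_lit 0) (XT.lf (nat_lit 0) (nat_lit 2376814279) (nat_lit 76) (nat_lit 29480191087) (nat_lit 152) (nat_lit 348392245) (nat_lit 149) (nat_lit 5) (nat_lit 150) (nat_lit 5) (nat_lit 151) (nat_lit 4) (nat_lit 406) (nat_lit 348) (nat_lit 266)) (XT.lf (nat_lit 0) (nat_lit 5356375955) (nat_lit 152) (nat_lit 10888859302) (nat_lit 228) (nat_lit 16982702974) (nat_lit 146) (nat_lit 5) (nat_lit 148) (nat_lit 5) (nat_lit 149) (nat_lit 5) (nat_lit 407) (nat_lit 348) (nat_lit 265))))) (XT.nd (nat_lit 234) (nat_lit 608) (nat_lit 0) (XT.nd (nat_lit 78) (nat_lit 380) (nat_lit 0) (XT.lf (nat_lit 0) (nat_lit 8648877370) (nat_lit 76) (nat_lit 25455678236) (nat_lit 152) (nat_lit 183650291) (nat_lit 145) (nat_lit 5) (nat_lit 146) (nat_lit 5) (nat_lit 147) (nat_lit 4) (nat_lit 408) (nat_lit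 348) (nat_lit 264)) (XT.nd (nat_lit 78) (nat_lit 152) (nat_lit 0) (XT.lf (nat_lit 0) (nat_lit 12079318088) (nat_lit 152) (nat_lit 5518806760) (nat_lit 228) (nat_lit 17783826751) (nat_lit 142) (nat_lit 5) (nat_lit 144) (nat_lit 5) (nat_lit 145) (nat_lit 5) (nat_lit 409) (nat_lit 348) (nat_lit 263)) (XT.lf (nat_lit 0) (nat_lit 280228043) (nat_lit 152) (nat_lit 20723963650) (nat_lit 76) (nat_lit 15510008995) (nat_lit 140) (nat_lit 5) (nat_lit 142) (nat_lit 5) (nat_lit 141) (nat_lit 5) (nat_lit 410) (nat_lit 348) (nat_lit 262)))) (XT.nd (nat_lit 156) (nat_lit 304) (nat_lit 0) (XT.nd (nat_lit 78) (nat_lit 152) (nat_lit 0) (XT.lf (nat_lit 0) (nat_lit 19343205345) (nat_lit 228) (nat_lit 17970181984) (nat_lit 76) (nat_lit 370487079) (nat_lit 138) (nat_lit 5) (nat_lit 141) (nat_lit 5) (nat_lit 139) (nat_lit 4) (nat_lit 411) (nat_lit 348) (nat_lit 261)) (XT.lf (nat_lit 0) (nat_lit 1071564998) (nat_lit 152)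 (nat_lit 15008451689) (nat_lit 76) (nat_lit 22812896323) (nat_lit 136) (nat_lit 5) (nat_lit 138) (nat_lit 5) (nat_lit 137) (nat_lit 5) (nat_lit 412) (nat_lit 348) (nat_lit 260))) (XT.nd (nat_lit 78) (nat_lit 152) (nat_lit 0) (XT.lf (nat_lit 0) (nat_lit 21574188475) (nat_lit 228) (nat_lit 11849352531) (nat_lit 76) (nat_lit 6718442087) (nat_lit 134) (nat_lit 5) (nat_lit 137) (nat_lit 5) (nat_lit 135) (nat_lit 4) (nat_lit 413) (nat_lit 348) (nat_lit 259)) (XT.lf (nat_lit 0) (nat_lit 2229194025) (nat_lit 152) (nat_lit 8408043897) (nat_lit 76) (nat_lit 30797405649) (nat_lit 132) (nat_lit 5) (nat_lit 134) (nat_lit 5) (nat_lit 133) (nat_lit 5) (nat_lit 414) (nat_lit 348) (nat_lit 258))))))) (XT.nd (nat_lit 1014) (nat_lit 1520) (nat_lit 0) (XT.nd (nat_lit 468) (nat_lit 836) (nat_lit 0) (XT.nd (nat_lit 234) (nat_lit 532) (nat_lit 0) (XT.nd (nat_lit 78) (nat_lit 380) (nat_lit 0) (XT.lf (nat_lit 0) (nat_lit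 24280753362) (nat_lit 228) (nat_lit 4800485828) (nat_lit 76) (nat_lit 13687220744) (nat_lit 130) (nat_lit 5) (nat_lit 133) (nat_lit 5) (nat_lit 131) (nat_lit 4) (nat_lit 415) (nat_lit 348) (nat_lit 257)) (XT.nd (nat_lit 78) (nat_lit 228) (nat_lit 0) (XT.lf (nat_lit 0) (nat_lit 3791609189) (nat_lit 152) (nat_lit 832183497) (nat_lit 76) (nat_lit 39526550141) (nat_lit 128) (nat_lit 5) (nat_lit 130) (nat_lit 5) (nat_lit 129) (nat_lit 5) (nat_lit 416) (nat_lit 348) (nat_lit 256)) (XT.lf (nat_lit 0) (nat_lit 3335995912) (nat_lit 76) (nat_lit 24205505060) (nat_lit 152) (nat_lit 18032158563) (nat_lit 125) (nat_lit 5) (nat_lit 126) (nat_lit 5) (nat_lit 127) (nat_lit 4) (nat_lit 417) (nat_lit 348) (nat_lit 255)))) (XT.nd (nat_lit 78) (nat_lit 304) (nat_lit 0) (XT.lf (nat_lit 0) (nat_lit 5897632155) (nat_lit 228) (nat_lit 39096087140) (nat_lit 76) (nat_lit 2055088341) (nat_lit 122) (nat_lit 5) (nat_lit 125)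 (nat_lit 5) (nat_lit 123) (nat_lit 4) (nat_lit 418) (nat_lit 348) (nat_lit 254)) (XT.nd (nat_lit 78) (nat_lit 228) (nat_lit 0) (XT.lf (nat_lit 0) (nat_lit 12715933193) (nat_lit 76) (nat_lit 18717195300) (nat_lit 152) (nat_lit 17135764100) (nat_lit 121) (nat_lit 5) (nat_lit 122) (nat_lit 5) (nat_lit 123) (nat_lit 4) (nat_lit 419) (nat_lit 348) (nat_lit 253)) (XT.lf (nat_lit 0) (nat_lit 8567353897) (nat_lit 228) (nat_lit 32236584823) (nat_lit 76) (nat_lit 9339374436) (nat_lit 118) (nat_lit 5) (nat_lit 121) (nat_lit 5) (nat_lit 119) (nat_lit 4) (nat_lit 420) (nat_lit 348) (nat_lit 252))))) (XT.nd (nat_lit 234) (nat_lit 532) (nat_lit 0) (XT.nd (nat_lit 78) (nat_lit 228) (nat_lit 0) (XT.lf (nat_lit 0) (nat_lit 23358237375) (nat_lit 76) (nat_lit 12606589558) (nat_lit 152) (nat_lit 15803630192) (nat_lit 117) (nat_lit 5) (nat_lit 118) (nat_lit 5) (nat_lit 119) (nat_lit 4) (nat_lit 421) (nat_lit 348) (nat_lit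 251)) (XT.nd (nat_lit 78) (nat_lit 76) (nat_lit 0) (XT.lf (nat_lit 0) (nat_lit 11799947670) (nat_lit 152) (nat_lit 24270727062) (nat_lit 76) (nat_lit 17378068102) (nat_lit 115) (nat_lit 5) (nat_lit 117) (nat_lit 5) (nat_lit 116) (nat_lit 4) (nat_lit 422) (nat_lit 348) (nat_lit 250)) (XT.lf (nat_lit 0) (nat_lit 35387533118) (nat_lit 76) (nat_lit 5810284479) (nat_lit 152) (nat_lit 13988302389) (nat_lit 114) (nat_lit 5) (nat_lit 115) (nat_lit 5) (nat_lit 116) (nat_lit 4) (nat_lit 423) (nat_lit 348) (nat_lit 249)))) (XT.nd (nat_lit 156) (nat_lit 304) (nat_lit 0) (XT.nd (nat_lit 78) (nat_lit 76) (nat_lit 0) (XT.lf (nat_lit 0) (nat_lit 15651973072) (nat_lit 152) (nat_lit 15083317786) (nat_lit 76) (nat_lit 26244017354) (nat_lit 112) (nat_lit 5) (nat_lit 114) (nat_lit 5) (nat_lit 113) (nat_lit 4) (nat_lit 424) (nat_lit 348) (nat_lit 248)) (XT.lf (nat_lit 0) (nat_lit 47215440136) (nat_lit 152) (nat_lit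 9913867352) (nat_lit 0) (nat_lit 1706779098) (nat_lit 111) (nat_lit 5) (nat_lit 113) (nat_lit 4) (nat_lit 111) (nat_lit 4) (nat_lit 425) (nat_lit 348) (nat_lit 247))) (XT.nd (nat_lit 78) (nat_lit 152) (nat_lit 0) (XT.lf (nat_lit 0) (nat_lit 20185091660) (nat_lit 152) (nat_lit 4548734254) (nat_lit 76) (nat_lit 36016365311) (nat_lit 109) (nat_lit 5) (nat_lit 111) (nat_lit 5) (nat_lit 110) (nat_lit 4) (nat_lit 426) (nat_lit 348) (nat_lit 246)) (XT.lf (nat_lit 0) (nat_lit 1355120130) (nat_lit 76) (nat_lit 52795138922) (nat_lit 76) (nat_lit 8582006115) (nat_lit 107) (nat_lit 4) (nat_lit 108) (nat_lit 5) (nat_lit 108) (nat_lit 4) (nat_lit 427) (nat_lit 348) (nat_lit 245)))))) (XT.nd (nat_lit 546) (nat_lit 684) (nat_lit 0) (XT.nd (nat_lit 234) (nat_lit 456) (nat_lit 0) (XT.nd (nat_lit 78) (nat_lit 228) (nat_lit 0) (XT.lf (nat_lit 0) (nat_lit 7618606963) (nat_lit 76) (nat_lit 17921127818) (nat_lit 152)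 (nat_lit 39235678368) (nat_lit 105) (nat_lit 5) (nat_lit 106) (nat_lit 5) (nat_lit 107) (nat_lit 4) (nat_lit 428) (nat_lit 348) (nat_lit 244)) (XT.nd (nat_lit 78) (nat_lit 152) (nat_lit 0) (XT.lf (nat_lit 0) (nat_lit 14408930475) (nat_lit 76) (nat_lit 47716469927) (nat_lit 76) (nat_lit 4764709215) (nat_lit 104) (nat_lit 4) (nat_lit 105) (nat_lit 5) (nat_lit 105) (nat_lit 4) (nat_lit 429) (nat_lit 348) (nat_lit 243)) (XT.lf (nat_lit 0) (nat_lit 21542221848) (nat_lit 76) (nat_lit 10234252183) (nat_lit 152) (nat_lit 37296203970) (nat_lit 102) (nat_lit 5) (nat_lit 103) (nat_lit 5) (nat_lit 104) (nat_lit 4) (nat_lit 430) (nat_lit 348) (nat_lit 242)))) (XT.nd (nat_lit 156) (nat_lit 228) (nat_lit 0) (XT.nd (nat_lit 78) (nat_lit 152) (nat_lit 0) (XT.lf (nat_lit 0) (nat_lit 29208942916) (nat_lit 76) (nat_lit 41922714601) (nat_lit 76) (nat_lit 198737549) (nat_lit 101) (nat_lit 4) (nat_lit 102) (nat_lit 5)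 (nat_lit 102) (nat_lit 4) (nat_lit 431) (nat_lit 348) (nat_lit 241)) (XT.lf (nat_lit 0) (nat_lit 37297208226) (nat_lit 76) (nat_lit 1634802279) (nat_lit 152) (nat_lit 34729772859) (nat_lit 99) (nat_lit 5) (nat_lit 100) (nat_lit 5) (nat_lit 101) (nat_lit 4) (nat_lit 432) (nat_lit 348) (nat_lit 240))) (XT.nd (nat_lit 78) (nat_lit 76) (nat_lit 0) (XT.lf (nat_lit 0) (nat_lit 5091114964) (nat_lit 152) (nat_lit 30194216285) (nat_lit 76) (nat_lit 40785369885) (nat_lit 97) (nat_lit 5) (nat_lit 99) (nat_lit 5) (nat_lit 98) (nat_lit 4) (nat_lit 433) (nat_lit 348) (nat_lit 239)) (XT.lf (nat_lit 0) (nat_lit 47171433002) (nat_lit 152) (nat_lit 23575231822) (nat_lit 0) (nat_lit 7813484668) (nat_lit 96) (nat_lit 5) (nat_lit 98) (nat_lit 4) (nat_lit 96) (nat_lit 4) (nat_lit 434) (nat_lit 348) (nat_lit 238))))) (XT.nd (nat_lit 234) (nat_lit 304) (nat_lit 0) (XT.nd (nat_lit 78) (nat_lit 228) (nat_lit 0) (XT.lf (nat_lit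 0) (nat_lit 11268033826) (nat_lit 152) (nat_lit 16492630347) (nat_lit 76) (nat_lit 53371919354) (nat_lit 94) (nat_lit 5) (nat_lit 96) (nat_lit 5) (nat_lit 95) (nat_lit 4) (nat_lit 435) (nat_lit 348) (nat_lit 237)) (XT.nd (nat_lit 78) (nat_lit 152) (nat_lit 0) (XT.lf (nat_lit 0) (nat_lit 56540740194) (nat_lit 152) (nat_lit 8937130129) (nat_lit 0) (nat_lit 18312476998) (nat_lit 93) (nat_lit 5) (nat_lit 95) (nat_lit 4) (nat_lit 93) (nat_lit 4) (nat_lit 436) (nat_lit 348) (nat_lit 236)) (XT.lf (nat_lit 0) (nat_lit 18425121389) (nat_lit 152) (nat_lit 833007946) (nat_lit 76) (nat_lit 67279710967) (nat_lit 91) (nat_lit 5) (nat_lit 93) (nat_lit 5) (nat_lit 92) (nat_lit 4) (nat_lit 437) (nat_lit 348) (nat_lit 235)))) (XT.nd (nat_lit 46176) (nat_lit 0) (nat_lit 27360) (XT.nd (nat_lit 78) (nat_lit 152) (nat_lit 0) (XT.lf (nat_lit 0) (nat_lit 7909463945) (nat_lit 76) (nat_lit 59296531503) (nat_lit 76) (nat_lit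 22167039356) (nat_lit 89) (nat_lit 4) (nat_lit 90) (nat_lit 5) (nat_lit 90) (nat_lit 4) (nat_lit 438) (nat_lit 348) (nat_lit 234)) (XT.lf (nat_lit 0) (nat_lit 17320672837) (nat_lit 76) (nat_lit 9505426643) (nat_lit 152) (nat_lit 65478599506) (nat_lit 87) (nat_lit 5) (nat_lit 88) (nat_lit 5) (nat_lit 89) (nat_lit 4) (nat_lit 439) (nat_lit 348) (nat_lit 233))) (XT.nd (nat_lit 78) (nat_lit 0) (nat_lit 0) (XT.lf (nat_lit 0) (nat_lit 515946859) (nat_lit 0) (nat_lit 515946859) (nat_lit 836) (nat_lit 2655519184) (nat_lit 447) (nat_lit 5) (nat_lit 447) (nat_lit 3) (nat_lit 458) (nat_lit 3) (nat_lit 349) (nat_lit 349) (nat_lit 322)) (XT.lf (nat_lit 0) (nat_lit 4669429553) (nat_lit 836) (nat_lit 214431114) (nat_lit 912) (nat_lit 2598714362) (nat_lit 447) (nat_lit 5) (nat_lit 458) (nat_lit 3) (nat_lit 459) (nat_lit 5) (nat_lit 350) (nat_lit 349) (nat_lit 321))))))))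
noncomputable def xc63 : XT := (XT.nd (nat_lit 2106) (nat_lit 7448) (nat_lit 0) (XT.nd (nat_lit 1014) (nat_lit 7676) (nat_lit 0) (XT.nd (nat_lit 468) (nat_lit 5244) (nat_lit 0) (XT.nd (nat_lit 234) (nat_lit 836) (nat_lit 0) (XT.nd (nat_lit 78) (nat_lit 836) (nat_lit 0) (XT.lf (nat_lit 76) (nat_lit 6245385953) (nat_lit 0) (nat_lit 1069335341) (nat_lit 912) (nat_lit 283709392) (nat_lit 448) (nat_lit 5) (nat_lit 447) (nat_lit 5) (nat_lit 459) (nat_lit 5) (nat_lit 351) (nat_lit 349) (nat_lit 320)) (XT.nd (nat_lit 78) (nat_lit 0) (nat_lit 0) (XT.lf (nat_lit 0) (nat_lit 2253031072) (nat_lit 912) (nat_lit 2445906139) (nat_lit 988) (nat_lit 3022644144) (nat_lit 436) (nat_lit 5) (nat_lit 448) (nat_lit 5) (nat_lit 449) (nat_lit 5) (nat_lit 352) (nat_lit 349) (nat_lit 319)) (XT.lf (nat_lit 76) (nat_lit 4395841280) (nat_lit 0) (nat_lit 433544579) (nat_lit 988) (nat_lit 3023860082) (nat_lit 437) (nat_lit 5)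 (nat_lit 436) (nat_lit 5) (nat_lit 449) (nat_lit 5) (nat_lit 353) (nat_lit 349) (nat_lit 318)))) (XT.nd (nat_lit 78) (nat_lit 912) (nat_lit 0) (XT.lf (nat_lit 76) (nat_lit 3578748943) (nat_lit 0) (nat_lit 3912761739) (nat_lit 988) (nat_lit 501274506) (nat_lit 438) (nat_lit 5) (nat_lit 437) (nat_lit 5) (nat_lit 450) (nat_lit 5) (nat_lit 354) (nat_lit 349) (nat_lit 317)) (XT.nd (nat_lit 78) (nat_lit 0) (nat_lit 0) (XT.lf (nat_lit 0) (nat_lit 2043643913) (nat_lit 988) (nat_lit 5309834379) (nat_lit 1064) (nat_lit 787060595) (nat_lit 425) (nat_lit 5) (nat_lit 438) (nat_lit 5) (nat_lit 439) (nat_lit 5) (nat_lit 355) (nat_lit 349) (nat_lit 316)) (XT.lf (nat_lit 76) (nat_lit 2138527826) (nat_lit 0) (nat_lit 2541811657) (nat_lit 1064) (nat_lit 3615944942) (nat_lit 426) (nat_lit 5) (nat_lit 425) (nat_lit 5) (nat_lit 439) (nat_lit 5) (nat_lit 356) (nat_lit 349) (nat_lit 315))))) (XT.nd (nat_lit 234) (nat_lit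 3268) (nat_lit 0) (XT.nd (nat_lit 78) (nat_lit 2052) (nat_lit 0) (XT.lf (nat_lit 76) (nat_lit 1521891711) (nat_lit 0) (nat_lit 5895506551) (nat_lit 1064) (nat_lit 1043363126) (nat_lit 427) (nat_lit 5) (nat_lit 426) (nat_lit 5) (nat_lit 440) (nat_lit 5) (nat_lit 357) (nat_lit 349) (nat_lit 314)) (XT.nd (nat_lit 78) (nat_lit 988) (nat_lit 0) (XT.lf (nat_lit 76) (nat_lit 964326607) (nat_lit 0) (nat_lit 638570006) (nat_lit 1140) (nat_lit 7030765516) (nat_lit 413) (nat_lit 5) (nat_lit 412) (nat_lit 5) (nat_lit 427) (nat_lit 5) (nat_lit 358) (nat_lit 349) (nat_lit 313)) (XT.lf (nat_lit 0) (nat_lit 449301434) (nat_lit 1064) (nat_lit 3917761897) (nat_lit 1140) (nat_lit 4447619497) (nat_lit 399) (nat_lit 5) (nat_lit 413) (nat_lit 5) (nat_lit 414) (nat_lit 5) (nat_lit 359) (nat_lit 349) (nat_lit 312)))) (XT.nd (nat_lit 156) (nat_lit 2052) (nat_lit 0) (XT.nd (nat_lit 78) (nat_lit 76) (nat_lit 0) (XT.lf (nat_lit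 0) (nat_lit 11850729) (nat_lit 1140) (nat_lit 7248494709) (nat_lit 1216) (nat_lit 1744681912) (nat_lit 384) (nat_lit 5) (nat_lit 399) (nat_lit 5) (nat_lit 400) (nat_lit 5) (nat_lit 360) (nat_lit 349) (nat_lit 311)) (XT.lf (nat_lit 0) (nat_lit 1090346195) (nat_lit 1216) (nat_lit 366545201) (nat_lit 76) (nat_lit 7747133991) (nat_lit 383) (nat_lit 5) (nat_lit 399) (nat_lit 5) (nat_lit 384) (nat_lit 5) (nat_lit 361) (nat_lit 349) (nat_lit 310))) (XT.nd (nat_lit 78) (nat_lit 836) (nat_lit 0) (XT.lf (nat_lit 0) (nat_lit 4058012568) (nat_lit 1292) (nat_lit 705484594) (nat_lit 76) (nat_lit 4648148857) (nat_lit 367) (nat_lit 5) (nat_lit 384) (nat_lit 5) (nat_lit 368) (nat_lit 5) (nat_lit 362) (nat_lit 349) (nat_lit 309)) (XT.lf (nat_lit 0) (nat_lit 7191406573) (nat_lit 912) (nat_lit 970768340) (nat_lit 76) (nat_lit 1466952439) (nat_lit 356) (nat_lit 5) (nat_lit 368) (nat_lit 5) (nat_lit 357) (nat_lit 5)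 (nat_lit 363) (nat_lit 349) (nat_lit 308)))))) (XT.nd (nat_lit 546) (nat_lit 3572) (nat_lit 0) (XT.nd (nat_lit 234) (nat_lit 2280) (nat_lit 0) (XT.nd (nat_lit 78) (nat_lit 1140) (nat_lit 0) (XT.lf (nat_lit 0) (nat_lit 656047681) (nat_lit 684) (nat_lit 1185793767) (nat_lit 76) (nat_lit 8014134268) (nat_lit 347) (nat_lit 5) (nat_lit 356) (nat_lit 5) (nat_lit 348) (nat_lit 5) (nat_lit 364) (nat_lit 349) (nat_lit 307)) (XT.nd (nat_lit 78) (nat_lit 532) (nat_lit 0) (XT.lf (nat_lit 0) (nat_lit 3904013322) (nat_lit 684) (nat_lit 1365938369) (nat_lit 76) (nat_lit 4821992993) (nat_lit 339) (nat_lit 5) (nat_lit 348) (nat_lit 5) (nat_lit 340) (nat_lit 5) (nat_lit 365) (nat_lit 349) (nat_lit 306)) (XT.lf (nat_lit 0) (nat_lit 7356757944) (nat_lit 608) (nat_lit 1471712937) (nat_lit 76) (nat_lit 1509969801) (nat_lit 332) (nat_lit 5) (nat_lit 340) (nat_lit 5) (nat_lit 333) (nat_lit 5) (nat_lit 366) (nat_lit 349)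 (nat_lit 305)))) (XT.nd (nat_lit 156) (nat_lit 1064) (nat_lit 0) (XT.nd (nat_lit 78) (nat_lit 532) (nat_lit 0) (XT.lf (nat_lit 0) (nat_lit 447297972) (nat_lit 684) (nat_lit 1524447685) (nat_lit 76) (nat_lit 8623306930) (nat_lit 323) (nat_lit 5) (nat_lit 332) (nat_lit 5) (nat_lit 324) (nat_lit 5) (nat_lit 367) (nat_lit 349) (nat_lit 304)) (XT.lf (nat_lit 0) (nat_lit 4060534557) (nat_lit 608) (nat_lit 1545515088) (nat_lit 76) (nat_lit 5255325615) (nat_lit 316) (nat_lit 5) (nat_lit 324) (nat_lit 5) (nat_lit 317) (nat_lit 5) (nat_lit 368) (nat_lit 349) (nat_lit 303))) (XT.nd (nat_lit 78) (nat_lit 532) (nat_lit 0) (XT.lf (nat_lit 0) (nat_lit 7920129242) (nat_lit 608) (nat_lit 1488548929) (nat_lit 76) (nat_lit 1730365009) (nat_lit 309) (nat_lit 5) (nat_lit 317) (nat_lit 5) (nat_lit 310) (nat_lit 5) (nat_lit 369) (nat_lit 349) (nat_lit 302)) (XT.lf (nat_lit 0) (nat_lit 624692795) (nat_lit 532) (nat_lit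 1375689524) (nat_lit 76) (nat_lit 9427260980) (nat_lit 302) (nat_lit 5) (nat_lit 309) (nat_lit 5) (nat_lit 303) (nat_lit 5) (nat_lit 370) (nat_lit 349) (nat_lit 301))))) (XT.nd (nat_lit 234) (nat_lit 2052) (nat_lit 0) (XT.nd (nat_lit 78) (nat_lit 988) (nat_lit 0) (XT.lf (nat_lit 0) (nat_lit 4693365543) (nat_lit 608) (nat_lit 1230306831) (nat_lit 76) (nat_lit 5803061204) (nat_lit 295) (nat_lit 5) (nat_lit 303) (nat_lit 5) (nat_lit 296) (nat_lit 5) (nat_lit 371) (nat_lit 349) (nat_lit 300)) (XT.nd (nat_lit 78) (nat_lit 532) (nat_lit 0) (XT.lf (nat_lit 0) (nat_lit 9053333310) (nat_lit 532) (nat_lit 1000356627) (nat_lit 76) (nat_lit 1984452593) (nat_lit 289) (nat_lit 5) (nat_lit 296) (nat_lit 5) (nat_lit 290) (nat_lit 5) (nat_lit 372) (nat_lit 349) (nat_lit 299)) (XT.lf (nat_lit 0) (nat_lit 1357361436) (nat_lit 532) (nat_lit 714694229) (nat_lit 76) (nat_lit 10289224379) (nat_lit 282) (nat_lit 5) (nat_lit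 289) (nat_lit 5) (nat_lit 283) (nat_lit 5) (nat_lit 373) (nat_lit 349) (nat_lit 298)))) (XT.nd (nat_lit 156) (nat_lit 836) (nat_lit 0) (XT.nd (nat_lit 78) (nat_lit 836) (nat_lit 0) (XT.lf (nat_lit 0) (nat_lit 5978783079) (nat_lit 456) (nat_lit 388606503) (nat_lit 76) (nat_lit 6328582087) (nat_lit 277) (nat_lit 5) (nat_lit 283) (nat_lit 5) (nat_lit 278) (nat_lit 5) (nat_lit 374) (nat_lit 349) (nat_lit 297)) (XT.lf (nat_lit 0) (nat_lit 32083209) (nat_lit 380) (nat_lit 10908865528) (nat_lit 456) (nat_lit 2103158951) (nat_lit 266) (nat_lit 5) (nat_lit 271) (nat_lit 5) (nat_lit 272) (nat_lit 5) (nat_lit 375) (nat_lit 349) (nat_lit 296))) (XT.nd (nat_lit 78) (nat_lit 380) (nat_lit 0) (XT.lf (nat_lit 0) (nat_lit 510876150) (nat_lit 380) (nat_lit 2321428786) (nat_lit 456) (nat_lit 10572228041) (nat_lit 260) (nat_lit 5) (nat_lit 265) (nat_lit 5) (nat_lit 266) (nat_lit 5) (nat_lit 376) (nat_lit 349) (nat_lit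 295)) (XT.lf (nat_lit 0) (nat_lit 1049306739) (nat_lit 380) (nat_lit 7068789510) (nat_lit 456) (nat_lit 5659847055) (nat_lit 255) (nat_lit 5) (nat_lit 260) (nat_lit 5) (nat_lit 261) (nat_lit 5) (nat_lit 377) (nat_lit 349) (nat_lit 294))))))) (XT.nd (nat_lit 1014) (nat_lit 3268) (nat_lit 0) (XT.nd (nat_lit 468) (nat_lit 2052) (nat_lit 0) (XT.nd (nat_lit 234) (nat_lit 988) (nat_lit 0) (XT.nd (nat_lit 78) (nat_lit 760) (nat_lit 0) (XT.lf (nat_lit 0) (nat_lit 1696193219) (nat_lit 380) (nat_lit 12103397397) (nat_lit 456) (nat_lit 366491129) (nat_lit 250) (nat_lit 5) (nat_lit 255) (nat_lit 5) (nat_lit 256) (nat_lit 5) (nat_lit 378) (nat_lit 349) (nat_lit 293)) (XT.nd (nat_lit 78) (nat_lit 380) (nat_lit 0) (XT.lf (nat_lit 0) (nat_lit 2377459934) (nat_lit 304) (nat_lit 2879703880) (nat_lit 380) (nat_lit 9309958066) (nat_lit 245) (nat_lit 5) (nat_lit 249) (nat_lit 5) (nat_lit 250) (nat_lit 5) (nat_lit 379)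 (nat_lit 349) (nat_lit 292)) (XT.lf (nat_lit 0) (nat_lit 3150493457) (nat_lit 380) (nat_lit 8171549646) (nat_lit 456) (nat_lit 3661033425) (nat_lit 240) (nat_lit 5) (nat_lit 245) (nat_lit 5) (nat_lit 246) (nat_lit 5) (nat_lit 380) (nat_lit 349) (nat_lit 291)))) (XT.nd (nat_lit 78) (nat_lit 608) (nat_lit 0) (XT.lf (nat_lit 0) (nat_lit 2380401917) (nat_lit 380) (nat_lit 11390817357) (nat_lit 76) (nat_lit 1643323909) (nat_lit 235) (nat_lit 5) (nat_lit 240) (nat_lit 5) (nat_lit 236) (nat_lit 5) (nat_lit 381) (nat_lit 349) (nat_lit 290)) (XT.nd (nat_lit 78) (nat_lit 304) (nat_lit 0) (XT.lf (nat_lit 0) (nat_lit 4950429293) (nat_lit 304) (nat_lit 3896835248) (nat_lit 380) (nat_lit 7013259055) (nat_lit 231) (nat_lit 5) (nat_lit 235) (nat_lit 5) (nat_lit 236) (nat_lit 5) (nat_lit 382) (nat_lit 349) (nat_lit 289)) (XT.lf (nat_lit 0) (nat_lit 5994380600) (nat_lit 304) (nat_lit 9828215232) (nat_lit 380) (nat_lit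 500653434) (nat_lit 227) (nat_lit 5) (nat_lit 231) (nat_lit 5) (nat_lit 232) (nat_lit 5) (nat_lit 383) (nat_lit 349) (nat_lit 288))))) (XT.nd (nat_lit 234) (nat_lit 1064) (nat_lit 0) (XT.nd (nat_lit 78) (nat_lit 608) (nat_lit 0) (XT.lf (nat_lit 0) (nat_lit 6390424218) (nat_lit 380) (nat_lit 9684770449) (nat_lit 76) (nat_lit 726793604) (nat_lit 222) (nat_lit 5) (nat_lit 227) (nat_lit 5) (nat_lit 223) (nat_lit 5) (nat_lit 384) (nat_lit 349) (nat_lit 287)) (XT.nd (nat_lit 78) (nat_lit 380) (nat_lit 0) (XT.lf (nat_lit 0) (nat_lit 8328799870) (nat_lit 228) (nat_lit 5523251334) (nat_lit 304) (nat_lit 3445373822) (nat_lit 219) (nat_lit 5) (nat_lit 222) (nat_lit 5) (nat_lit 223) (nat_lit 5) (nat_lit 385) (nat_lit 349) (nat_lit 286)) (XT.lf (nat_lit 0) (nat_lit 3993827397) (nat_lit 380) (nat_lit 8162748668) (nat_lit 76) (nat_lit 5653935720) (nat_lit 214) (nat_lit 5) (nat_lit 219) (nat_lit 5) (nat_lit 215)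 (nat_lit 5) (nat_lit 386) (nat_lit 349) (nat_lit 285)))) (XT.nd (nat_lit 156) (nat_lit 456) (nat_lit 0) (XT.nd (nat_lit 78) (nat_lit 380) (nat_lit 0) (XT.lf (nat_lit 0) (nat_lit 11084687860) (nat_lit 228) (nat_lit 857405043) (nat_lit 304) (nat_lit 6399885805) (nat_lit 211) (nat_lit 5) (nat_lit 214) (nat_lit 5) (nat_lit 215) (nat_lit 5) (nat_lit 387) (nat_lit 349) (nat_lit 284)) (XT.lf (nat_lit 0) (nat_lit 1628857209) (nat_lit 380) (nat_lit 6275602267) (nat_lit 76) (nat_lit 10987113766) (nat_lit 206) (nat_lit 5) (nat_lit 211) (nat_lit 5) (nat_lit 207) (nat_lit 5) (nat_lit 388) (nat_lit 349) (nat_lit 283))) (XT.nd (nat_lit 78) (nat_lit 228) (nat_lit 0) (XT.lf (nat_lit 0) (nat_lit 10144323938) (nat_lit 304) (nat_lit 5202345865) (nat_lit 76) (nat_lit 4113547364) (nat_lit 203) (nat_lit 5) (nat_lit 207) (nat_lit 5) (nat_lit 204) (nat_lit 5) (nat_lit 389) (nat_lit 349) (nat_lit 282)) (XT.lf (nat_lit 0)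 (nat_lit 16053935593) (nat_lit 228) (nat_lit 3286712982) (nat_lit 304) (nat_lit 708992175) (nat_lit 200) (nat_lit 5) (nat_lit 203) (nat_lit 5) (nat_lit 204) (nat_lit 5) (nat_lit 390) (nat_lit 349) (nat_lit 281)))))) (XT.nd (nat_lit 546) (nat_lit 1292) (nat_lit 0) (XT.nd (nat_lit 234) (nat_lit 912) (nat_lit 0) (XT.nd (nat_lit 78) (nat_lit 760) (nat_lit 0) (XT.lf (nat_lit 0) (nat_lit 8442634691) (nat_lit 304) (nat_lit 2739257448) (nat_lit 76) (nat_lit 9475934837) (nat_lit 196) (nat_lit 5) (nat_lit 200) (nat_lit 5) (nat_lit 197) (nat_lit 5) (nat_lit 391) (nat_lit 349) (nat_lit 280)) (XT.nd (nat_lit 78) (nat_lit 532) (nat_lit 0) (XT.lf (nat_lit 0) (nat_lit 18278780872) (nat_lit 304) (nat_lit 1310243095) (nat_lit 76) (nat_lit 1699939923) (nat_lit 193) (nat_lit 5) (nat_lit 197) (nat_lit 5) (nat_lit 194) (nat_lit 5) (nat_lit 392) (nat_lit 349) (nat_lit 279)) (XT.lf (nat_lit 0) (nat_lit 183769216) (nat_lit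 228) (nat_lit 6659908045) (nat_lit 304) (nat_lit 15096507257) (nat_lit 186) (nat_lit 5) (nat_lit 189) (nat_lit 5) (nat_lit 190) (nat_lit 5) (nat_lit 393) (nat_lit 349) (nat_lit 278)))) (XT.nd (nat_lit 156) (nat_lit 456) (nat_lit 0) (XT.nd (nat_lit 78) (nat_lit 304) (nat_lit 0) (XT.lf (nat_lit 0) (nat_lit 1856213608) (nat_lit 152) (nat_lit 15564557429) (nat_lit 228) (nat_lit 5193517156) (nat_lit 184) (nat_lit 5) (nat_lit 186) (nat_lit 5) (nat_lit 187) (nat_lit 5) (nat_lit 394) (nat_lit 349) (nat_lit 277)) (XT.lf (nat_lit 0) (nat_lit 3671652194) (nat_lit 228) (nat_lit 1719932189) (nat_lit 304) (nat_lit 17920356082) (nat_lit 180) (nat_lit 5) (nat_lit 183) (nat_lit 5) (nat_lit 184) (nat_lit 5) (nat_lit 395) (nat_lit 349) (nat_lit 276))) (XT.nd (nat_lit 78) (nat_lit 304) (nat_lit 0) (XT.lf (nat_lit 0) (nat_lit 5581583646) (nat_lit 152) (nat_lit 11171426882) (nat_lit 228) (nat_lit 7279287811) (nat_lit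 178) (nat_lit 5) (nat_lit 180) (nat_lit 5) (nat_lit 181) (nat_lit 5) (nat_lit 396) (nat_lit 349) (nat_lit 275)) (XT.lf (nat_lit 0) (nat_lit 4110296578) (nat_lit 304) (nat_lit 17095639116) (nat_lit 76) (nat_lit 3572842154) (nat_lit 174) (nat_lit 5) (nat_lit 178) (nat_lit 5) (nat_lit 175) (nat_lit 5) (nat_lit 397) (nat_lit 349) (nat_lit 274))))) (XT.nd (nat_lit 234) (nat_lit 760) (nat_lit 0) (XT.nd (nat_lit 78) (nat_lit 380) (nat_lit 0) (XT.lf (nat_lit 0) (nat_lit 9891364584) (nat_lit 152) (nat_lit 6391106150) (nat_lit 228) (nat_lit 9267038709) (nat_lit 172) (nat_lit 5) (nat_lit 174) (nat_lit 5) (nat_lit 175) (nat_lit 5) (nat_lit 398) (nat_lit 349) (nat_lit 273)) (XT.nd (nat_lit 78) (nat_lit 152) (nat_lit 0) (XT.lf (nat_lit 0) (nat_lit 3002869938) (nat_lit 228) (nat_lit 14060642922) (nat_lit 76) (nat_lit 9283949807) (nat_lit 169) (nat_lit 5) (nat_lit 172) (nat_lit 5) (nat_lit 170) (nat_lit 5) (nat_lit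 399) (nat_lit 349) (nat_lit 272)) (XT.lf (nat_lit 0) (nat_lit 14842055211) (nat_lit 152) (nat_lit 1188590686) (nat_lit 228) (nat_lit 11141834214) (nat_lit 167) (nat_lit 5) (nat_lit 169) (nat_lit 5) (nat_lit 170) (nat_lit 5) (nat_lit 400) (nat_lit 349) (nat_lit 271)))) (XT.nd (nat_lit 156) (nat_lit 380) (nat_lit 0) (XT.nd (nat_lit 78) (nat_lit 152) (nat_lit 0) (XT.lf (nat_lit 0) (nat_lit 2071795961) (nat_lit 228) (nat_lit 10466721179) (nat_lit 76) (nat_lit 15486749125) (nat_lit 164) (nat_lit 5) (nat_lit 167) (nat_lit 5) (nat_lit 165) (nat_lit 5) (nat_lit 401) (nat_lit 349) (nat_lit 270)) (XT.lf (nat_lit 0) (nat_lit 16063901958) (nat_lit 228) (nat_lit 8455786569) (nat_lit 76) (nat_lit 4387247008) (nat_lit 162) (nat_lit 5) (nat_lit 165) (nat_lit 5) (nat_lit 163) (nat_lit 5) (nat_lit 402) (nat_lit 349) (nat_lit 269))) (XT.nd (nat_lit 78) (nat_lit 152) (nat_lit 0) (XT.lf (nat_lit 0) (nat_lit 1337819647)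 (nat_lit 228) (nat_lit 6256829464) (nat_lit 76) (nat_lit 22224785879) (nat_lit 159) (nat_lit 5) (nat_lit 162) (nat_lit 5) (nat_lit 160) (nat_lit 5) (nat_lit 403) (nat_lit 349) (nat_lit 268)) (XT.lf (nat_lit 0) (nat_lit 16380890445) (nat_lit 228) (nat_lit 3947478312) (nat_lit 76) (nat_lit 10432812240) (nat_lit 157) (nat_lit 5) (nat_lit 160) (nat_lit 5) (nat_lit 158) (nat_lit 5) (nat_lit 404) (nat_lit 349) (nat_lit 267))))))))
noncomputable def xc64 : XT := (XT.nd (nat_lit 2028) (nat_lit 1140) (nat_lit 0) (XT.nd (nat_lit 1014) (nat_lit 1672) (nat_lit 0) (XT.nd (nat_lit 468) (nat_lit 1216) (nat_lit 0) (XT.nd (nat_lit 234) (nat_lit 456) (nat_lit 0) (XT.nd (nat_lit 78) (nat_lit 456) (nat_lit 0) (XT.lf (nat_lit 0) (nat_lit 823588526) (nat_lit 228) (nat_lit 1368532933) (nat_lit 76) (nat_lit 29545595884) (nat_lit 154) (nat_lit 5) (nat_lit 157) (nat_lit 5) (nat_lit 155) (nat_lit 5) (nat_lit 405) (nat_lit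 349) (nat_lit 266)) (XT.nd (nat_lit 78) (nat_lit 152) (nat_lit 0) (XT.lf (nat_lit 0) (nat_lit 1296405897) (nat_lit 152) (nat_lit 15714345961) (nat_lit 228) (nat_lit 15732442371) (nat_lit 150) (nat_lit 5) (nat_lit 152) (nat_lit 5) (nat_lit 153) (nat_lit 5) (nat_lit 406) (nat_lit 349) (nat_lit 265)) (XT.lf (nat_lit 0) (nat_lit 631775407) (nat_lit 152) (nat_lit 29471913829) (nat_lit 76) (nat_lit 3682370279) (nat_lit 148) (nat_lit 5) (nat_lit 150) (nat_lit 5) (nat_lit 149) (nat_lit 5) (nat_lit 407) (nat_lit 349) (nat_lit 264)))) (XT.nd (nat_lit 78) (nat_lit 304) (nat_lit 0) (XT.lf (nat_lit 0) (nat_lit 7415902436) (nat_lit 152) (nat_lit 10602102297) (nat_lit 228) (nat_lit 16842515178) (nat_lit 146) (nat_lit 5) (nat_lit 148) (nat_lit 5) (nat_lit 149) (nat_lit 5) (nat_lit 408) (nat_lit 349) (nat_lit 263)) (XT.nd (nat_lit 78) (nat_lit 152) (nat_lit 0) (XT.lf (nat_lit 0) (nat_lit 759532601) (nat_lit 152)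 (nat_lit 25139985257) (nat_lit 76) (nat_lit 10074695866) (nat_lit 144) (nat_lit 5) (nat_lit 146) (nat_lit 5) (nat_lit 145) (nat_lit 5) (nat_lit 409) (nat_lit 349) (nat_lit 262)) (XT.lf (nat_lit 0) (nat_lit 14411732312) (nat_lit 152) (nat_lit 4986344677) (nat_lit 228) (nat_lit 17725370814) (nat_lit 142) (nat_lit 5) (nat_lit 144) (nat_lit 5) (nat_lit 145) (nat_lit 5) (nat_lit 410) (nat_lit 349) (nat_lit 261))))) (XT.nd (nat_lit 234) (nat_lit 760) (nat_lit 0) (XT.nd (nat_lit 78) (nat_lit 304) (nat_lit 0) (XT.lf (nat_lit 0) (nat_lit 1203108733) (nat_lit 152) (nat_lit 20043908776) (nat_lit 76) (nat_lit 17065627134) (nat_lit 140) (nat_lit 5) (nat_lit 142) (nat_lit 5) (nat_lit 141) (nat_lit 5) (nat_lit 411) (nat_lit 349) (nat_lit 260)) (XT.nd (nat_lit 78) (nat_lit 152) (nat_lit 0) (XT.lf (nat_lit 0) (nat_lit 21199530335) (nat_lit 228) (nat_lit 17182735792) (nat_lit 76) (nat_lit 1159127059) (nat_lit 138)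 (nat_lit 5) (nat_lit 141) (nat_lit 5) (nat_lit 139) (nat_lit 4) (nat_lit 412) (nat_lit 349) (nat_lit 259)) (XT.lf (nat_lit 0) (nat_lit 1996248925) (nat_lit 152) (nat_lit 14103909842) (nat_lit 76) (nat_lit 24711266724) (nat_lit 136) (nat_lit 5) (nat_lit 138) (nat_lit 5) (nat_lit 137) (nat_lit 5) (nat_lit 413) (nat_lit 349) (nat_lit 258)))) (XT.nd (nat_lit 156) (nat_lit 456) (nat_lit 0) (XT.nd (nat_lit 78) (nat_lit 152) (nat_lit 0) (XT.lf (nat_lit 0) (nat_lit 23505303988) (nat_lit 228) (nat_lit 10816271758) (nat_lit 76) (nat_lit 7801934319) (nat_lit 134) (nat_lit 5) (nat_lit 137) (nat_lit 5) (nat_lit 135) (nat_lit 4) (nat_lit 414) (nat_lit 349) (nat_lit 257)) (XT.lf (nat_lit 0) (nat_lit 3175834956) (nat_lit 152) (nat_lit 7232871968) (nat_lit 76) (nat_lit 33072613388) (nat_lit 132) (nat_lit 5) (nat_lit 134) (nat_lit 5) (nat_lit 133) (nat_lit 5) (nat_lit 415) (nat_lit 349) (nat_lit 256))) (XT.nd (nat_lit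 78) (nat_lit 304) (nat_lit 0) (XT.lf (nat_lit 0) (nat_lit 26312208512) (nat_lit 228) (nat_lit 3473472348) (nat_lit 76) (nat_lit 15096679547) (nat_lit 130) (nat_lit 5) (nat_lit 133) (nat_lit 5) (nat_lit 131) (nat_lit 4) (nat_lit 416) (nat_lit 349) (nat_lit 255)) (XT.lf (nat_lit 0) (nat_lit 677487511) (nat_lit 152) (nat_lit 4111191656) (nat_lit 228) (nat_lit 41544956116) (nat_lit 126) (nat_lit 5) (nat_lit 128) (nat_lit 5) (nat_lit 129) (nat_lit 5) (nat_lit 417) (nat_lit 349) (nat_lit 254)))))) (XT.nd (nat_lit 468) (nat_lit 836) (nat_lit 0) (XT.nd (nat_lit 234) (nat_lit 456) (nat_lit 0) (XT.nd (nat_lit 78) (nat_lit 304) (nat_lit 0) (XT.lf (nat_lit 0) (nat_lit 5043253168) (nat_lit 76) (nat_lit 24674217055) (nat_lit 152) (nat_lit 18110905463) (nat_lit 125) (nat_lit 5) (nat_lit 126) (nat_lit 5) (nat_lit 127) (nat_lit 4) (nat_lit 418) (nat_lit 349) (nat_lit 253)) (XT.nd (nat_lit 78) (nat_lit 76) (nat_lit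 0) (XT.lf (nat_lit 0) (nat_lit 6982439244) (nat_lit 228) (nat_lit 39522514079) (nat_lit 76) (nat_lit 2872596931) (nat_lit 122) (nat_lit 5) (nat_lit 125) (nat_lit 5) (nat_lit 123) (nat_lit 4) (nat_lit 419) (nat_lit 349) (nat_lit 252)) (XT.lf (nat_lit 0) (nat_lit 14836296638) (nat_lit 76) (nat_lit 18935068825) (nat_lit 152) (nat_lit 17202974343) (nat_lit 121) (nat_lit 5) (nat_lit 122) (nat_lit 5) (nat_lit 123) (nat_lit 4) (nat_lit 420) (nat_lit 349) (nat_lit 251)))) (XT.nd (nat_lit 78) (nat_lit 228) (nat_lit 0) (XT.lf (nat_lit 0) (nat_lit 9753815452) (nat_lit 228) (nat_lit 32375680219) (nat_lit 76) (nat_lit 10498240326) (nat_lit 118) (nat_lit 5) (nat_lit 121) (nat_lit 5) (nat_lit 119) (nat_lit 4) (nat_lit 421) (nat_lit 349) (nat_lit 250)) (XT.nd (nat_lit 78) (nat_lit 152) (nat_lit 0) (XT.lf (nat_lit 0) (nat_lit 25956667469) (nat_lit 76) (nat_lit 12542145980) (nat_lit 152) (nat_lit 15835994177) (nat_lit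 117) (nat_lit 5) (nat_lit 118) (nat_lit 5) (nat_lit 119) (nat_lit 4) (nat_lit 422) (nat_lit 349) (nat_lit 249)) (XT.lf (nat_lit 0) (nat_lit 13117650238) (nat_lit 152) (nat_lit 24065315436) (nat_lit 76) (nat_lit 18916383147) (nat_lit 115) (nat_lit 5) (nat_lit 117) (nat_lit 5) (nat_lit 116) (nat_lit 4) (nat_lit 423) (nat_lit 349) (nat_lit 248))))) (XT.nd (nat_lit 234) (nat_lit 532) (nat_lit 0) (XT.nd (nat_lit 78) (nat_lit 228) (nat_lit 0) (XT.lf (nat_lit 0) (nat_lit 38535183895) (nat_lit 76) (nat_lit 5428825953) (nat_lit 152) (nat_lit 13960227096) (nat_lit 114) (nat_lit 5) (nat_lit 115) (nat_lit 5) (nat_lit 116) (nat_lit 4) (nat_lit 424) (nat_lit 349) (nat_lit 247)) (XT.nd (nat_lit 78) (nat_lit 76) (nat_lit 0) (XT.lf (nat_lit 0) (nat_lit 17133247857) (nat_lit 152) (nat_lit 14470505075) (nat_lit 76) (nat_lit 28203560407) (nat_lit 112) (nat_lit 5) (nat_lit 114) (nat_lit 5) (nat_lit 113) (nat_lit 4)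 (nat_lit 425) (nat_lit 349) (nat_lit 246)) (XT.lf (nat_lit 0) (nat_lit 50260626147) (nat_lit 152) (nat_lit 9067665797) (nat_lit 0) (nat_lit 2429066551) (nat_lit 111) (nat_lit 5) (nat_lit 113) (nat_lit 4) (nat_lit 111) (nat_lit 4) (nat_lit 426) (nat_lit 349) (nat_lit 245)))) (XT.nd (nat_lit 156) (nat_lit 228) (nat_lit 0) (XT.nd (nat_lit 78) (nat_lit 152) (nat_lit 0) (XT.lf (nat_lit 0) (nat_lit 21865276214) (nat_lit 152) (nat_lit 3459388371) (nat_lit 76) (nat_lit 38442908303) (nat_lit 109) (nat_lit 5) (nat_lit 111) (nat_lit 5) (nat_lit 110) (nat_lit 4) (nat_lit 427) (nat_lit 349) (nat_lit 244)) (XT.lf (nat_lit 0) (nat_lit 2741141374) (nat_lit 76) (nat_lit 54786612843) (nat_lit 76) (nat_lit 8321024741) (nat_lit 107) (nat_lit 4) (nat_lit 108) (nat_lit 5) (nat_lit 108) (nat_lit 4) (nat_lit 428) (nat_lit 349) (nat_lit 243))) (XT.nd (nat_lit 78) (nat_lit 76) (nat_lit 0) (XT.lf (nat_lit 0) (nat_lit 9293094719)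 (nat_lit 76) (nat_lit 18180457170) (nat_lit 152) (nat_lit 40520927006) (nat_lit 105) (nat_lit 5) (nat_lit 106) (nat_lit 5) (nat_lit 107) (nat_lit 4) (nat_lit 429) (nat_lit 349) (nat_lit 242)) (XT.lf (nat_lit 0) (nat_lit 16399049754) (nat_lit 76) (nat_lit 49476207425) (nat_lit 76) (nat_lit 4340050316) (nat_lit 104) (nat_lit 4) (nat_lit 105) (nat_lit 5) (nat_lit 105) (nat_lit 4) (nat_lit 430) (nat_lit 349) (nat_lit 241))))))) (XT.nd (nat_lit 47112) (nat_lit 0) (nat_lit 17860) (XT.nd (nat_lit 468) (nat_lit 380) (nat_lit 0) (XT.nd (nat_lit 234) (nat_lit 380) (nat_lit 0) (XT.nd (nat_lit 78) (nat_lit 228) (nat_lit 0) (XT.lf (nat_lit 0) (nat_lit 23865175445) (nat_lit 76) (nat_lit 10131106566) (nat_lit 152) (nat_lit 38511100361) (nat_lit 102) (nat_lit 5) (nat_lit 103) (nat_lit 5) (nat_lit 104) (nat_lit 4) (nat_lit 431) (nat_lit 349) (nat_lit 240)) (XT.nd (nat_lit 78) (nat_lit 76) (nat_lit 0) (XT.lf (nat_lit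 0) (nat_lit 419839978) (nat_lit 152) (nat_lit 42990314600) (nat_lit 76) (nat_lit 31468087146) (nat_lit 100) (nat_lit 5) (nat_lit 102) (nat_lit 5) (nat_lit 101) (nat_lit 4) (nat_lit 432) (nat_lit 349) (nat_lit 239)) (XT.lf (nat_lit 0) (nat_lit 40361866008) (nat_lit 76) (nat_lit 1122985272) (nat_lit 152) (nat_lit 35841834046) (nat_lit 99) (nat_lit 5) (nat_lit 100) (nat_lit 5) (nat_lit 101) (nat_lit 4) (nat_lit 433) (nat_lit 349) (nat_lit 238)))) (XT.nd (nat_lit 78) (nat_lit 228) (nat_lit 0) (XT.lf (nat_lit 0) (nat_lit 5945677869) (nat_lit 152) (nat_lit 30514456570) (nat_lit 76) (nat_lit 43396101537) (nat_lit 97) (nat_lit 5) (nat_lit 99) (nat_lit 5) (nat_lit 98) (nat_lit 4) (nat_lit 434) (nat_lit 349) (nat_lit 237)) (XT.nd (nat_lit 78) (nat_lit 152) (nat_lit 0) (XT.lf (nat_lit 0) (nat_lit 50118052630) (nat_lit 152) (nat_lit 23586648992) (nat_lit 0) (nat_lit 8765813906) (nat_lit 96) (nat_lit 5) (nat_lit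 98) (nat_lit 4) (nat_lit 96) (nat_lit 4) (nat_lit 435) (nat_lit 349) (nat_lit 236)) (XT.lf (nat_lit 0) (nat_lit 12408033707) (nat_lit 152) (nat_lit 16171903702) (nat_lit 76) (nat_lit 56591977348) (nat_lit 94) (nat_lit 5) (nat_lit 96) (nat_lit 5) (nat_lit 95) (nat_lit 4) (nat_lit 436) (nat_lit 349) (nat_lit 235))))) (XT.nd (nat_lit 46332) (nat_lit 0) (nat_lit 26296) (XT.nd (nat_lit 78) (nat_lit 304) (nat_lit 0) (XT.lf (nat_lit 0) (nat_lit 59932925431) (nat_lit 152) (nat_lit 8259977680) (nat_lit 0) (nat_lit 19770007130) (nat_lit 93) (nat_lit 5) (nat_lit 95) (nat_lit 4) (nat_lit 93) (nat_lit 4) (nat_lit 437) (nat_lit 349) (nat_lit 234)) (XT.nd (nat_lit 78) (nat_lit 76) (nat_lit 0) (XT.lf (nat_lit 0) (nat_lit 232700910) (nat_lit 76) (nat_lit 19670077750) (nat_lit 152) (nat_lit 70945261620) (nat_lit 90) (nat_lit 5) (nat_lit 91) (nat_lit 5) (nat_lit 92) (nat_lit 4) (nat_lit 438) (nat_lit 349) (nat_lit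 233)) (XT.lf (nat_lit 0) (nat_lit 9408699242) (nat_lit 76) (nat_lit 61711403475) (nat_lit 76) (nat_lit 22704969604) (nat_lit 89) (nat_lit 4) (nat_lit 90) (nat_lit 5) (nat_lit 90) (nat_lit 4) (nat_lit 439) (nat_lit 349) (nat_lit 232)))) (XT.nd (nat_lit 156) (nat_lit 0) (nat_lit 0) (XT.nd (nat_lit 78) (nat_lit 912) (nat_lit 0) (XT.lf (nat_lit 0) (nat_lit 1786290090) (nat_lit 0) (nat_lit 1786290090) (nat_lit 836) (nat_lit 224530614) (nat_lit 447) (nat_lit 5) (nat_lit 447) (nat_lit 3) (nat_lit 458) (nat_lit 3) (nat_lit 350) (nat_lit 350) (nat_lit 320)) (XT.lf (nat_lit 0) (nat_lit 1891768266) (nat_lit 912) (nat_lit 5376606616) (nat_lit 988) (nat_lit 445542760) (nat_lit 435) (nat_lit 5) (nat_lit 447) (nat_lit 5) (nat_lit 448) (nat_lit 5) (nat_lit 351) (nat_lit 350) (nat_lit 319))) (XT.nd (nat_lit 78) (nat_lit 0) (nat_lit 76) (XT.lf (nat_lit 76) (nat_lit 1158469073) (nat_lit 0) (nat_lit 3122642998) (nat_lit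 988) (nat_lit 3560130238) (nat_lit 436) (nat_lit 5) (nat_lit 435) (nat_lit 5) (nat_lit 448) (nat_lit 5) (nat_lit 352) (nat_lit 350) (nat_lit 318)) (XT.lf (nat_lit 76) (nat_lit 62728036) (nat_lit 0) (nat_lit 6654068565) (nat_lit 988) (nat_lit 1260330402) (nat_lit 437) (nat_lit 5) (nat_lit 436) (nat_lit 5) (nat_lit 449) (nat_lit 5) (nat_lit 353) (nat_lit 350) (nat_lit 317)))))) (XT.nd (nat_lit 546) (nat_lit 5700) (nat_lit 0) (XT.nd (nat_lit 234) (nat_lit 1824) (nat_lit 0) (XT.nd (nat_lit 78) (nat_lit 0) (nat_lit 76) (XT.lf (nat_lit 0) (nat_lit 1096067491) (nat_lit 988) (nat_lit 961658274) (nat_lit 1064) (nat_lit 6062823174) (nat_lit 423) (nat_lit 5) (nat_lit 436) (nat_lit 5) (nat_lit 437) (nat_lit 5) (nat_lit 354) (nat_lit 350) (nat_lit 316)) (XT.nd (nat_lit 78) (nat_lit 0) (nat_lit 0) (XT.lf (nat_lit 0) (nat_lit 3503153050) (nat_lit 988) (nat_lit 1932063175) (nat_lit 1064) (nat_lit 2836783391) (nat_lit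 424) (nat_lit 5) (nat_lit 437) (nat_lit 5) (nat_lit 438) (nat_lit 5) (nat_lit 355) (nat_lit 350) (nat_lit 315)) (XT.lf (nat_lit 76) (nat_lit 5600873685) (nat_lit 0) (nat_lit 389867222) (nat_lit 1064) (nat_lit 2441477480) (nat_lit 425) (nat_lit 5) (nat_lit 424) (nat_lit 5) (nat_lit 438) (nat_lit 5) (nat_lit 356) (nat_lit 350) (nat_lit 314)))) (XT.nd (nat_lit 156) (nat_lit 988) (nat_lit 0) (XT.nd (nat_lit 78) (nat_lit 988) (nat_lit 0) (XT.lf (nat_lit 76) (nat_lit 4914420153) (nat_lit 0) (nat_lit 3683846472) (nat_lit 1064) (nat_lit 2314716) (nat_lit 426) (nat_lit 5) (nat_lit 425) (nat_lit 5) (nat_lit 439) (nat_lit 5) (nat_lit 357) (nat_lit 350) (nat_lit 313)) (XT.lf (nat_lit 0) (nat_lit 2485987333) (nat_lit 1064) (nat_lit 4495141945) (nat_lit 1140) (nat_lit 1796181882) (nat_lit 412) (nat_lit 5) (nat_lit 426) (nat_lit 5) (nat_lit 427) (nat_lit 5) (nat_lit 358) (nat_lit 350) (nat_lit 312))) (XT.nd (nat_lit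 78) (nat_lit 988) (nat_lit 0) (XT.lf (nat_lit 76) (nat_lit 3712991073) (nat_lit 0) (nat_lit 1386619068) (nat_lit 1140) (nat_lit 3863238033) (nat_lit 413) (nat_lit 5) (nat_lit 412) (nat_lit 5) (nat_lit 427) (nat_lit 5) (nat_lit 359) (nat_lit 350) (nat_lit 311)) (XT.lf (nat_lit 0) (nat_lit 3201052308) (nat_lit 1064) (nat_lit 4657918715) (nat_lit 1140) (nat_lit 1298239311) (nat_lit 399) (nat_lit 5) (nat_lit 413) (nat_lit 5) (nat_lit 414) (nat_lit 5) (nat_lit 360) (nat_lit 350) (nat_lit 310))))) (XT.nd (nat_lit 234) (nat_lit 2432) (nat_lit 0) (XT.nd (nat_lit 78) (nat_lit 2052) (nat_lit 0) (XT.lf (nat_lit 0) (nat_lit 1374049449) (nat_lit 1216) (nat_lit 6610607589) (nat_lit 76) (nat_lit 1376043419) (nat_lit 383) (nat_lit 5) (nat_lit 399) (nat_lit 5) (nat_lit 384) (nat_lit 5) (nat_lit 361) (nat_lit 350) (nat_lit 309)) (XT.nd (nat_lit 78) (nat_lit 836) (nat_lit 0) (XT.lf (nat_lit 0) (nat_lit 2341405717)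 (nat_lit 1216) (nat_lit 1845220219) (nat_lit 1292) (nat_lit 5386347848) (nat_lit 367) (nat_lit 5) (nat_lit 383) (nat_lit 5) (nat_lit 384) (nat_lit 5) (nat_lit 362) (nat_lit 350) (nat_lit 308)) (XT.lf (nat_lit 0) (nat_lit 1991725228) (nat_lit 836) (nat_lit 5185991195) (nat_lit 912) (nat_lit 2617007801) (nat_lit 356) (nat_lit 5) (nat_lit 367) (nat_lit 5) (nat_lit 368) (nat_lit 5) (nat_lit 363) (nat_lit 350) (nat_lit 307)))) (XT.nd (nat_lit 156) (nat_lit 1140) (nat_lit 0) (XT.nd (nat_lit 78) (nat_lit 608) (nat_lit 0) (XT.lf (nat_lit 0) (nat_lit 317758302) (nat_lit 684) (nat_lit 8313964515) (nat_lit 76) (nat_lit 1394776498) (nat_lit 347) (nat_lit 5) (nat_lit 356) (nat_lit 5) (nat_lit 348) (nat_lit 5) (nat_lit 364) (nat_lit 350) (nat_lit 306)) (XT.lf (nat_lit 0) (nat_lit 1461345529) (nat_lit 608) (nat_lit 1943942473) (nat_lit 684) (nat_lit 6861993361) (nat_lit 339) (nat_lit 5) (nat_lit 347) (nat_lit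 5) (nat_lit 348) (nat_lit 5) (nat_lit 365) (nat_lit 350) (nat_lit 305))) (XT.nd (nat_lit 78) (nat_lit 608) (nat_lit 0) (XT.lf (nat_lit 0) (nat_lit 1269628575) (nat_lit 532) (nat_lit 5440522511) (nat_lit 608) (nat_lit 3808062720) (nat_lit 332) (nat_lit 5) (nat_lit 339) (nat_lit 5) (nat_lit 340) (nat_lit 5) (nat_lit 366) (nat_lit 350) (nat_lit 304)) (XT.lf (nat_lit 0) (nat_lit 1153520680) (nat_lit 608) (nat_lit 9083145141) (nat_lit 684) (nat_lit 543334794) (nat_lit 324) (nat_lit 5) (nat_lit 332) (nat_lit 5) (nat_lit 333) (nat_lit 5) (nat_lit 367) (nat_lit 350) (nat_lit 303))))))))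
noncomputable def xc65 : XT := (XT.nd (nat_lit 2106) (nat_lit 4940) (nat_lit 0) (XT.nd (nat_lit 1014) (nat_lit 4484) (nat_lit 0) (XT.nd (nat_lit 468) (nat_lit 2888) (nat_lit 0) (XT.nd (nat_lit 234) (nat_lit 1520) (nat_lit 0) (XT.nd (nat_lit 78) (nat_lit 988) (nat_lit 0) (XT.lf (nat_lit 0) (nat_lit 1068143112) (nat_lit 532) (nat_lit 1842494020) (nat_lit 608) (nat_lit 8140938856) (nat_lit 316) (nat_lit 5) (nat_lit 323) (nat_lit 5) (nat_lit 324) (nat_lit 5) (nat_lit 368) (nat_lit 350) (nat_lit 302)) (XT.nd (nat_lit 78) (nat_lit 456) (nat_lit 0) (XT.lf (nat_lit 0) (nat_lit 1037477087) (nat_lit 532) (nat_lit 5577973831) (nat_lit 608) (nat_lit 4718436417) (nat_lit 309) (nat_lit 5) (nat_lit 316) (nat_lit 5) (nat_lit 317) (nat_lit 5) (nat_lit 369) (nat_lit 350) (nat_lit 301)) (XT.lf (nat_lit 0) (nat_lit 1087265604) (nat_lit 456) (nat_lit 9497341743) (nat_lit 532) (nat_lit 1043333843) (nat_lit 303) (nat_lit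 5) (nat_lit 309) (nat_lit 5) (nat_lit 310) (nat_lit 5) (nat_lit 370) (nat_lit 350) (nat_lit 300)))) (XT.nd (nat_lit 78) (nat_lit 912) (nat_lit 0) (XT.lf (nat_lit 0) (nat_lit 1175852344) (nat_lit 532) (nat_lit 1687955981) (nat_lit 608) (nat_lit 9068980713) (nat_lit 295) (nat_lit 5) (nat_lit 302) (nat_lit 5) (nat_lit 303) (nat_lit 5) (nat_lit 371) (nat_lit 350) (nat_lit 299)) (XT.nd (nat_lit 78) (nat_lit 456) (nat_lit 0) (XT.lf (nat_lit 0) (nat_lit 1316370277) (nat_lit 456) (nat_lit 5744457577) (nat_lit 532) (nat_lit 5188258583) (nat_lit 289) (nat_lit 5) (nat_lit 295) (nat_lit 5) (nat_lit 296) (nat_lit 5) (nat_lit 372) (nat_lit 350) (nat_lit 298)) (XT.lf (nat_lit 0) (nat_lit 1545081160) (nat_lit 456) (nat_lit 10023536958) (nat_lit 532) (nat_lit 1009552994) (nat_lit 283) (nat_lit 5) (nat_lit 289) (nat_lit 5) (nat_lit 290) (nat_lit 5) (nat_lit 373) (nat_lit 350) (nat_lit 297))))) (XT.nd (nat_lit 234)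 (nat_lit 1596) (nat_lit 0) (XT.nd (nat_lit 78) (nat_lit 836) (nat_lit 0) (XT.lf (nat_lit 0) (nat_lit 1816468024) (nat_lit 380) (nat_lit 1619974725) (nat_lit 456) (nat_lit 9482564899) (nat_lit 277) (nat_lit 5) (nat_lit 282) (nat_lit 5) (nat_lit 283) (nat_lit 5) (nat_lit 374) (nat_lit 350) (nat_lit 296)) (XT.nd (nat_lit 78) (nat_lit 380) (nat_lit 0) (XT.lf (nat_lit 0) (nat_lit 2145228759) (nat_lit 456) (nat_lit 6080719300) (nat_lit 532) (nat_lit 5046375419) (nat_lit 271) (nat_lit 5) (nat_lit 277) (nat_lit 5) (nat_lit 278) (nat_lit 5) (nat_lit 375) (nat_lit 350) (nat_lit 295)) (XT.lf (nat_lit 0) (nat_lit 2572852276) (nat_lit 380) (nat_lit 10804391721) (nat_lit 456) (nat_lit 262391641) (nat_lit 266) (nat_lit 5) (nat_lit 271) (nat_lit 5) (nat_lit 272) (nat_lit 5) (nat_lit 376) (nat_lit 350) (nat_lit 294)))) (XT.nd (nat_lit 156) (nat_lit 760) (nat_lit 0) (XT.nd (nat_lit 78) (nat_lit 380) (nat_lit 0)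 (XT.lf (nat_lit 0) (nat_lit 3039683762) (nat_lit 380) (nat_lit 1775397654) (nat_lit 456) (nat_lit 9204443372) (nat_lit 260) (nat_lit 5) (nat_lit 265) (nat_lit 5) (nat_lit 266) (nat_lit 5) (nat_lit 377) (nat_lit 350) (nat_lit 293)) (XT.lf (nat_lit 0) (nat_lit 3580749772) (nat_lit 380) (nat_lit 6726629091) (nat_lit 456) (nat_lit 4105960273) (nat_lit 255) (nat_lit 5) (nat_lit 260) (nat_lit 5) (nat_lit 261) (nat_lit 5) (nat_lit 378) (nat_lit 350) (nat_lit 292))) (XT.nd (nat_lit 78) (nat_lit 304) (nat_lit 0) (XT.lf (nat_lit 0) (nat_lit 1368213061) (nat_lit 456) (nat_lit 10601553444) (nat_lit 76) (nat_lit 2852364712) (nat_lit 249) (nat_lit 5) (nat_lit 255) (nat_lit 5) (nat_lit 250) (nat_lit 5) (nat_lit 379) (nat_lit 350) (nat_lit 291)) (XT.lf (nat_lit 0) (nat_lit 4913141597) (nat_lit 304) (nat_lit 2292511878) (nat_lit 380) (nat_lit 8039255555) (nat_lit 245) (nat_lit 5) (nat_lit 249) (nat_lit 5) (nat_lit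 250) (nat_lit 5) (nat_lit 380) (nat_lit 350) (nat_lit 290)))))) (XT.nd (nat_lit 546) (nat_lit 2128) (nat_lit 0) (XT.nd (nat_lit 234) (nat_lit 1292) (nat_lit 0) (XT.nd (nat_lit 78) (nat_lit 684) (nat_lit 0) (XT.lf (nat_lit 0) (nat_lit 5697841805) (nat_lit 380) (nat_lit 7825333036) (nat_lit 456) (nat_lit 2160004625) (nat_lit 240) (nat_lit 5) (nat_lit 245) (nat_lit 5) (nat_lit 246) (nat_lit 5) (nat_lit 381) (nat_lit 350) (nat_lit 289)) (XT.nd (nat_lit 78) (nat_lit 304) (nat_lit 0) (XT.lf (nat_lit 0) (nat_lit 4101918023) (nat_lit 380) (nat_lit 9566548263) (nat_lit 76) (nat_lit 2468729176) (nat_lit 235) (nat_lit 5) (nat_lit 240) (nat_lit 5) (nat_lit 236) (nat_lit 5) (nat_lit 382) (nat_lit 350) (nat_lit 288)) (XT.lf (nat_lit 0) (nat_lit 7523142638) (nat_lit 304) (nat_lit 3315022973) (nat_lit 380) (nat_lit 5768928030) (nat_lit 231) (nat_lit 5) (nat_lit 235) (nat_lit 5) (nat_lit 236) (nat_lit 5) (nat_lit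 383) (nat_lit 350) (nat_lit 287)))) (XT.nd (nat_lit 156) (nat_lit 608) (nat_lit 0) (XT.nd (nat_lit 78) (nat_lit 304) (nat_lit 0) (XT.lf (nat_lit 0) (nat_lit 1003445483) (nat_lit 380) (nat_lit 8513616791) (nat_lit 76) (nat_lit 7576934844) (nat_lit 226) (nat_lit 5) (nat_lit 231) (nat_lit 5) (nat_lit 227) (nat_lit 5) (nat_lit 384) (nat_lit 350) (nat_lit 286)) (XT.lf (nat_lit 0) (nat_lit 8185825795) (nat_lit 380) (nat_lit 7872621605) (nat_lit 76) (nat_lit 1539363873) (nat_lit 222) (nat_lit 5) (nat_lit 227) (nat_lit 5) (nat_lit 223) (nat_lit 5) (nat_lit 385) (nat_lit 350) (nat_lit 285))) (XT.nd (nat_lit 78) (nat_lit 380) (nat_lit 0) (XT.lf (nat_lit 0) (nat_lit 10975801748) (nat_lit 228) (nat_lit 4995893891) (nat_lit 304) (nat_lit 2147789382) (nat_lit 219) (nat_lit 5) (nat_lit 222) (nat_lit 5) (nat_lit 223) (nat_lit 5) (nat_lit 386) (nat_lit 350) (nat_lit 284)) (XT.lf (nat_lit 0) (nat_lit 5594855503)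 (nat_lit 380) (nat_lit 6342291918) (nat_lit 76) (nat_lit 6721849851) (nat_lit 214) (nat_lit 5) (nat_lit 219) (nat_lit 5) (nat_lit 215) (nat_lit 5) (nat_lit 387) (nat_lit 350) (nat_lit 283))))) (XT.nd (nat_lit 234) (nat_lit 1292) (nat_lit 0) (XT.nd (nat_lit 78) (nat_lit 608) (nat_lit 0) (XT.lf (nat_lit 0) (nat_lit 13803634231) (nat_lit 228) (nat_lit 90978268) (nat_lit 304) (nat_lit 5323802696) (nat_lit 211) (nat_lit 5) (nat_lit 214) (nat_lit 5) (nat_lit 215) (nat_lit 5) (nat_lit 388) (nat_lit 350) (nat_lit 282)) (XT.nd (nat_lit 78) (nat_lit 228) (nat_lit 0) (XT.lf (nat_lit 0) (nat_lit 3042156974) (nat_lit 380) (nat_lit 4428274467) (nat_lit 76) (nat_lit 12325764757) (nat_lit 206) (nat_lit 5) (nat_lit 211) (nat_lit 5) (nat_lit 207) (nat_lit 5) (nat_lit 389) (nat_lit 350) (nat_lit 281)) (XT.lf (nat_lit 0) (nat_lit 11947945164) (nat_lit 304) (nat_lit 3332436032) (nat_lit 76) (nat_lit 5113954679) (nat_lit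 203) (nat_lit 5) (nat_lit 207) (nat_lit 5) (nat_lit 204) (nat_lit 5) (nat_lit 390) (nat_lit 350) (nat_lit 280)))) (XT.nd (nat_lit 156) (nat_lit 760) (nat_lit 0) (XT.nd (nat_lit 78) (nat_lit 228) (nat_lit 0) (XT.lf (nat_lit 0) (nat_lit 537066003) (nat_lit 304) (nat_lit 2094148653) (nat_lit 76) (nat_lit 18383113382) (nat_lit 199) (nat_lit 5) (nat_lit 203) (nat_lit 5) (nat_lit 200) (nat_lit 5) (nat_lit 391) (nat_lit 350) (nat_lit 279)) (XT.lf (nat_lit 0) (nat_lit 10098735147) (nat_lit 304) (nat_lit 813044485) (nat_lit 76) (nat_lit 10741919632) (nat_lit 196) (nat_lit 5) (nat_lit 200) (nat_lit 5) (nat_lit 197) (nat_lit 5) (nat_lit 392) (nat_lit 350) (nat_lit 278))) (XT.nd (nat_lit 78) (nat_lit 304) (nat_lit 0) (XT.lf (nat_lit 0) (nat_lit 669394517) (nat_lit 228) (nat_lit 19732014362) (nat_lit 304) (nat_lit 1915742537) (nat_lit 190) (nat_lit 5) (nat_lit 193) (nat_lit 5) (nat_lit 194) (nat_lit 5) (nat_lit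 393) (nat_lit 350) (nat_lit 277)) (XT.lf (nat_lit 0) (nat_lit 2229939420) (nat_lit 228) (nat_lit 6151004820) (nat_lit 304) (nat_lit 14620397011) (nat_lit 186) (nat_lit 5) (nat_lit 189) (nat_lit 5) (nat_lit 190) (nat_lit 5) (nat_lit 394) (nat_lit 350) (nat_lit 276))))))) (XT.nd (nat_lit 1014) (nat_lit 2204) (nat_lit 0) (XT.nd (nat_lit 468) (nat_lit 1444) (nat_lit 0) (XT.nd (nat_lit 234) (nat_lit 684) (nat_lit 0) (XT.nd (nat_lit 78) (nat_lit 456) (nat_lit 0) (XT.lf (nat_lit 0) (nat_lit 3954580282) (nat_lit 152) (nat_lit 15502389804) (nat_lit 228) (nat_lit 4253077702) (nat_lit 184) (nat_lit 5) (nat_lit 186) (nat_lit 5) (nat_lit 187) (nat_lit 5) (nat_lit 395) (nat_lit 350) (nat_lit 275)) (XT.nd (nat_lit 78) (nat_lit 152) (nat_lit 0) (XT.lf (nat_lit 0) (nat_lit 5826049221) (nat_lit 228) (nat_lit 974722616) (nat_lit 304) (nat_lit 17642577404) (nat_lit 180) (nat_lit 5) (nat_lit 183) (nat_lit 5) (nat_lit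 184) (nat_lit 5) (nat_lit 396) (nat_lit 350) (nat_lit 274)) (XT.lf (nat_lit 0) (nat_lit 7800431466) (nat_lit 152) (nat_lit 10901826591) (nat_lit 228) (nat_lit 6498307289) (nat_lit 178) (nat_lit 5) (nat_lit 180) (nat_lit 5) (nat_lit 181) (nat_lit 5) (nat_lit 397) (nat_lit 350) (nat_lit 273)))) (XT.nd (nat_lit 78) (nat_lit 380) (nat_lit 0) (XT.lf (nat_lit 0) (nat_lit 5411144372) (nat_lit 304) (nat_lit 16019796935) (nat_lit 76) (nat_lit 4553915444) (nat_lit 174) (nat_lit 5) (nat_lit 178) (nat_lit 5) (nat_lit 175) (nat_lit 5) (nat_lit 398) (nat_lit 350) (nat_lit 272)) (XT.nd (nat_lit 78) (nat_lit 228) (nat_lit 0) (XT.lf (nat_lit 0) (nat_lit 12261215997) (nat_lit 152) (nat_lit 5896578896) (nat_lit 228) (nat_lit 8637354004) (nat_lit 172) (nat_lit 5) (nat_lit 174) (nat_lit 5) (nat_lit 175) (nat_lit 5) (nat_lit 399) (nat_lit 350) (nat_lit 271)) (XT.lf (nat_lit 0) (nat_lit 4199123327) (nat_lit 228) (nat_lit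 12898004562) (nat_lit 76) (nat_lit 10536324615) (nat_lit 169) (nat_lit 5) (nat_lit 172) (nat_lit 5) (nat_lit 170) (nat_lit 5) (nat_lit 400) (nat_lit 350) (nat_lit 270))))) (XT.nd (nat_lit 234) (nat_lit 912) (nat_lit 0) (XT.nd (nat_lit 78) (nat_lit 380) (nat_lit 0) (XT.lf (nat_lit 0) (nat_lit 17396349408) (nat_lit 152) (nat_lit 449543813) (nat_lit 228) (nat_lit 10654799446) (nat_lit 167) (nat_lit 5) (nat_lit 169) (nat_lit 5) (nat_lit 170) (nat_lit 5) (nat_lit 401) (nat_lit 350) (nat_lit 269)) (XT.nd (nat_lit 78) (nat_lit 152) (nat_lit 0) (XT.lf (nat_lit 0) (nat_lit 3175072280) (nat_lit 228) (nat_lit 9187831900) (nat_lit 76) (nat_lit 17033634803) (nat_lit 164) (nat_lit 5) (nat_lit 167) (nat_lit 5) (nat_lit 165) (nat_lit 5) (nat_lit 402) (nat_lit 350) (nat_lit 268)) (XT.lf (nat_lit 0) (nat_lit 17843520703) (nat_lit 228) (nat_lit 7106457436) (nat_lit 76) (nat_lit 5373011463) (nat_lit 162) (nat_lit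 5) (nat_lit 165) (nat_lit 5) (nat_lit 163) (nat_lit 5) (nat_lit 403) (nat_lit 350) (nat_lit 267)))) (XT.nd (nat_lit 156) (nat_lit 532) (nat_lit 0) (XT.nd (nat_lit 78) (nat_lit 152) (nat_lit 0) (XT.lf (nat_lit 0) (nat_lit 2360555330) (nat_lit 228) (nat_lit 4829326712) (nat_lit 76) (nat_lit 24091849356) (nat_lit 159) (nat_lit 5) (nat_lit 162) (nat_lit 5) (nat_lit 160) (nat_lit 5) (nat_lit 404) (nat_lit 350) (nat_lit 266)) (XT.lf (nat_lit 0) (nat_lit 18133855844) (nat_lit 228) (nat_lit 2433940158) (nat_lit 76) (nat_lit 11703426418) (nat_lit 157) (nat_lit 5) (nat_lit 160) (nat_lit 5) (nat_lit 158) (nat_lit 5) (nat_lit 405) (nat_lit 350) (nat_lit 265))) (XT.nd (nat_lit 78) (nat_lit 152) (nat_lit 0) (XT.lf (nat_lit 0) (nat_lit 247945970) (nat_lit 152) (nat_lit 1533593335) (nat_lit 228) (nat_lit 31515560764) (nat_lit 152) (nat_lit 5) (nat_lit 154) (nat_lit 5) (nat_lit 155) (nat_lit 5) (nat_lit 406) (nat_lit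 350) (nat_lit 264)) (XT.lf (nat_lit 0) (nat_lit 3045430493) (nat_lit 152) (nat_lit 15725746132) (nat_lit 228) (nat_lit 15581880700) (nat_lit 150) (nat_lit 5) (nat_lit 152) (nat_lit 5) (nat_lit 153) (nat_lit 5) (nat_lit 407) (nat_lit 350) (nat_lit 263)))))) (XT.nd (nat_lit 546) (nat_lit 1140) (nat_lit 0) (XT.nd (nat_lit 234) (nat_lit 608) (nat_lit 0) (XT.nd (nat_lit 78) (nat_lit 304) (nat_lit 0) (XT.lf (nat_lit 0) (nat_lit 1561730580) (nat_lit 152) (nat_lit 29272419033) (nat_lit 76) (nat_lit 4614261886) (nat_lit 148) (nat_lit 5) (nat_lit 150) (nat_lit 5) (nat_lit 149) (nat_lit 5) (nat_lit 408) (nat_lit 350) (nat_lit 262)) (XT.nd (nat_lit 78) (nat_lit 152) (nat_lit 0) (XT.lf (nat_lit 0) (nat_lit 9411829242) (nat_lit 152) (nat_lit 10378284537) (nat_lit 228) (nat_lit 16787295863) (nat_lit 146) (nat_lit 5) (nat_lit 148) (nat_lit 5) (nat_lit 149) (nat_lit 5) (nat_lit 409) (nat_lit 350) (nat_lit 261))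 (XT.lf (nat_lit 0) (nat_lit 1657919703) (nat_lit 152) (nat_lit 24782965408) (nat_lit 76) (nat_lit 11306226985) (nat_lit 144) (nat_lit 5) (nat_lit 146) (nat_lit 5) (nat_lit 145) (nat_lit 5) (nat_lit 410) (nat_lit 350) (nat_lit 260)))) (XT.nd (nat_lit 156) (nat_lit 304) (nat_lit 0) (XT.nd (nat_lit 78) (nat_lit 152) (nat_lit 0) (XT.lf (nat_lit 0) (nat_lit 16700072504) (nat_lit 152) (nat_lit 4502417084) (nat_lit 228) (nat_lit 17752095341) (nat_lit 142) (nat_lit 5) (nat_lit 144) (nat_lit 5) (nat_lit 145) (nat_lit 5) (nat_lit 411) (nat_lit 350) (nat_lit 259)) (XT.lf (nat_lit 0) (nat_lit 2087635406) (nat_lit 152) (nat_lit 19489412100) (nat_lit 76) (nat_lit 18626498232) (nat_lit 140) (nat_lit 5) (nat_lit 142) (nat_lit 5) (nat_lit 141) (nat_lit 5) (nat_lit 412) (nat_lit 350) (nat_lit 258))) (XT.nd (nat_lit 78) (nat_lit 152) (nat_lit 0) (XT.lf (nat_lit 0) (nat_lit 23066005467) (nat_lit 228) (nat_lit 16512661434)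 (nat_lit 76) (nat_lit 1915600987) (nat_lit 138) (nat_lit 5) (nat_lit 141) (nat_lit 5) (nat_lit 139) (nat_lit 4) (nat_lit 413) (nat_lit 350) (nat_lit 257)) (XT.lf (nat_lit 0) (nat_lit 2886179899) (nat_lit 152) (nat_lit 13308003808) (nat_lit 76) (nat_lit 26634109502) (nat_lit 136) (nat_lit 5) (nat_lit 138) (nat_lit 5) (nat_lit 137) (nat_lit 5) (nat_lit 414) (nat_lit 350) (nat_lit 256))))) (XT.nd (nat_lit 234) (nat_lit 684) (nat_lit 0) (XT.nd (nat_lit 78) (nat_lit 304) (nat_lit 0) (XT.lf (nat_lit 0) (nat_lit 25453726637) (nat_lit 228) (nat_lit 9882665030) (nat_lit 76) (nat_lit 8870099178) (nat_lit 134) (nat_lit 5) (nat_lit 137) (nat_lit 5) (nat_lit 135) (nat_lit 4) (nat_lit 415) (nat_lit 350) (nat_lit 255)) (XT.nd (nat_lit 78) (nat_lit 152) (nat_lit 0) (XT.lf (nat_lit 0) (nat_lit 4092160700) (nat_lit 152) (nat_lit 6147282800) (nat_lit 76) (nat_lit 35393216808) (nat_lit 132) (nat_lit 5) (nat_lit 134)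 (nat_lit 5) (nat_lit 133) (nat_lit 5) (nat_lit 416) (nat_lit 350) (nat_lit 254)) (XT.lf (nat_lit 0) (nat_lit 28369240689) (nat_lit 228) (nat_lit 2225796514) (nat_lit 76) (nat_lit 16509198572) (nat_lit 130) (nat_lit 5) (nat_lit 133) (nat_lit 5) (nat_lit 131) (nat_lit 4) (nat_lit 417) (nat_lit 350) (nat_lit 253)))) (XT.nd (nat_lit 156) (nat_lit 304) (nat_lit 0) (XT.nd (nat_lit 78) (nat_lit 76) (nat_lit 0) (XT.lf (nat_lit 0) (nat_lit 2134192156) (nat_lit 152) (nat_lit 3634107920) (nat_lit 228) (nat_lit 42859811362) (nat_lit 126) (nat_lit 5) (nat_lit 128) (nat_lit 5) (nat_lit 129) (nat_lit 5) (nat_lit 418) (nat_lit 350) (nat_lit 252)) (XT.lf (nat_lit 0) (nat_lit 6692656154) (nat_lit 76) (nat_lit 25235308172) (nat_lit 152) (nat_lit 18270091526) (nat_lit 125) (nat_lit 5) (nat_lit 126) (nat_lit 5) (nat_lit 127) (nat_lit 4) (nat_lit 419) (nat_lit 350) (nat_lit 251))) (XT.nd (nat_lit 78) (nat_lit 76) (nat_lit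 0) (XT.lf (nat_lit 0) (nat_lit 8048046904) (nat_lit 228) (nat_lit 40112356411) (nat_lit 76) (nat_lit 3664529881) (nat_lit 122) (nat_lit 5) (nat_lit 125) (nat_lit 5) (nat_lit 123) (nat_lit 4) (nat_lit 420) (nat_lit 350) (nat_lit 250)) (XT.lf (nat_lit 0) (nat_lit 16924657308) (nat_lit 76) (nat_lit 19230587582) (nat_lit 152) (nat_lit 17346952572) (nat_lit 121) (nat_lit 5) (nat_lit 122) (nat_lit 5) (nat_lit 123) (nat_lit 4) (nat_lit 421) (nat_lit 350) (nat_lit 249))))))))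
noncomputable def xc66 : XT := (XT.nd (nat_lit 48282) (nat_lit 0) (nat_lit 10032) (XT.nd (nat_lit 1014) (nat_lit 684) (nat_lit 0) (XT.nd (nat_lit 468) (nat_lit 912) (nat_lit 0) (XT.nd (nat_lit 234) (nat_lit 304) (nat_lit 0) (XT.nd (nat_lit 78) (nat_lit 228) (nat_lit 0) (XT.lf (nat_lit 0) (nat_lit 10929119704) (nat_lit 228) (nat_lit 32658651219) (nat_lit 76) (nat_lit 11650723471) (nat_lit 118) (nat_lit 5) (nat_lit 121) (nat_lit 5) (nat_lit 119) (nat_lit 4) (nat_lit 422) (nat_lit 350) (nat_lit 248)) (XT.nd (nat_lit 78) (nat_lit 152) (nat_lit 0) (XT.lf (nat_lit 0) (nat_lit 28552023042) (nat_lit 76) (nat_lit 12539073637) (nat_lit 152) (nat_lit 15940431052) (nat_lit 117) (nat_lit 5) (nat_lit 118) (nat_lit 5) (nat_lit 119) (nat_lit 4) (nat_lit 423) (nat_lit 350) (nat_lit 247)) (XT.lf (nat_lit 0) (nat_lit 14433582804) (nat_lit 152) (nat_lit 23981553562) (nat_lit 76) (nat_lit 20469378394) (nat_lit 115)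 (nat_lit 5) (nat_lit 117) (nat_lit 5) (nat_lit 116) (nat_lit 4) (nat_lit 424) (nat_lit 350) (nat_lit 246)))) (XT.nd (nat_lit 78) (nat_lit 228) (nat_lit 0) (XT.lf (nat_lit 0) (nat_lit 41712078346) (nat_lit 76) (nat_lit 5090768158) (nat_lit 152) (nat_lit 13998383202) (nat_lit 114) (nat_lit 5) (nat_lit 115) (nat_lit 5) (nat_lit 116) (nat_lit 4) (nat_lit 425) (nat_lit 350) (nat_lit 245)) (XT.nd (nat_lit 78) (nat_lit 76) (nat_lit 0) (XT.lf (nat_lit 0) (nat_lit 18623630096) (nat_lit 152) (nat_lit 13954140441) (nat_lit 76) (nat_lit 30200896872) (nat_lit 112) (nat_lit 5) (nat_lit 114) (nat_lit 5) (nat_lit 113) (nat_lit 4) (nat_lit 426) (nat_lit 350) (nat_lit 244)) (XT.lf (nat_lit 0) (nat_lit 53394441132) (nat_lit 152) (nat_lit 8303910835) (nat_lit 0) (nat_lit 3128250942) (nat_lit 111) (nat_lit 5) (nat_lit 113) (nat_lit 4) (nat_lit 111) (nat_lit 4) (nat_lit 427) (nat_lit 350) (nat_lit 243))))) (XT.nd (nat_lit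 234) (nat_lit 456) (nat_lit 0) (XT.nd (nat_lit 78) (nat_lit 304) (nat_lit 0) (XT.lf (nat_lit 0) (nat_lit 23567093286) (nat_lit 152) (nat_lit 2437997158) (nat_lit 76) (nat_lit 40932604491) (nat_lit 109) (nat_lit 5) (nat_lit 111) (nat_lit 5) (nat_lit 110) (nat_lit 4) (nat_lit 428) (nat_lit 350) (nat_lit 242)) (XT.nd (nat_lit 78) (nat_lit 152) (nat_lit 0) (XT.lf (nat_lit 0) (nat_lit 4073903873) (nat_lit 76) (nat_lit 56937931672) (nat_lit 76) (nat_lit 8111151553) (nat_lit 107) (nat_lit 4) (nat_lit 108) (nat_lit 5) (nat_lit 108) (nat_lit 4) (nat_lit 429) (nat_lit 350) (nat_lit 241)) (XT.lf (nat_lit 0) (nat_lit 10931044157) (nat_lit 76) (nat_lit 18511949834) (nat_lit 152) (nat_lit 41933335913) (nat_lit 105) (nat_lit 5) (nat_lit 106) (nat_lit 5) (nat_lit 107) (nat_lit 4) (nat_lit 430) (nat_lit 350) (nat_lit 240)))) (XT.nd (nat_lit 156) (nat_lit 228) (nat_lit 0) (XT.nd (nat_lit 78) (nat_lit 152) (nat_lit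 0) (XT.lf (nat_lit 0) (nat_lit 18370632859) (nat_lit 76) (nat_lit 51382139340) (nat_lit 76) (nat_lit 3955788107) (nat_lit 104) (nat_lit 4) (nat_lit 105) (nat_lit 5) (nat_lit 105) (nat_lit 4) (nat_lit 431) (nat_lit 350) (nat_lit 239)) (XT.lf (nat_lit 0) (nat_lit 26188450095) (nat_lit 76) (nat_lit 10079967359) (nat_lit 152) (nat_lit 39847164397) (nat_lit 102) (nat_lit 5) (nat_lit 103) (nat_lit 5) (nat_lit 104) (nat_lit 4) (nat_lit 432) (nat_lit 350) (nat_lit 238))) (XT.nd (nat_lit 78) (nat_lit 76) (nat_lit 0) (XT.lf (nat_lit 0) (nat_lit 1007219656) (nat_lit 152) (nat_lit 44019463661) (nat_lit 76) (nat_lit 33578478863) (nat_lit 100) (nat_lit 5) (nat_lit 102) (nat_lit 5) (nat_lit 101) (nat_lit 4) (nat_lit 433) (nat_lit 350) (nat_lit 237)) (XT.lf (nat_lit 0) (nat_lit 43468210891) (nat_lit 76) (nat_lit 640760730) (nat_lit 152) (nat_lit 37067551638) (nat_lit 99) (nat_lit 5) (nat_lit 100) (nat_lit 5) (nat_lit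 101) (nat_lit 4) (nat_lit 434) (nat_lit 350) (nat_lit 236)))))) (XT.nd (nat_lit 46722) (nat_lit 0) (nat_lit 24320) (XT.nd (nat_lit 234) (nat_lit 304) (nat_lit 0) (XT.nd (nat_lit 78) (nat_lit 228) (nat_lit 0) (XT.lf (nat_lit 0) (nat_lit 6787185942) (nat_lit 152) (nat_lit 30961294564) (nat_lit 76) (nat_lit 46084240543) (nat_lit 97) (nat_lit 5) (nat_lit 99) (nat_lit 5) (nat_lit 98) (nat_lit 4) (nat_lit 435) (nat_lit 350) (nat_lit 235)) (XT.nd (nat_lit 78) (nat_lit 152) (nat_lit 0) (XT.lf (nat_lit 0) (nat_lit 53157332111) (nat_lit 152) (nat_lit 23707165641) (nat_lit 0) (nat_lit 9713542247) (nat_lit 96) (nat_lit 5) (nat_lit 98) (nat_lit 4) (nat_lit 96) (nat_lit 4) (nat_lit 436) (nat_lit 350) (nat_lit 234)) (XT.lf (nat_lit 0) (nat_lit 13551426949) (nat_lit 152) (nat_lit 15941625271) (nat_lit 76) (nat_lit 59921768529) (nat_lit 94) (nat_lit 5) (nat_lit 96) (nat_lit 5) (nat_lit 95) (nat_lit 4) (nat_lit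 437) (nat_lit 350) (nat_lit 233)))) (XT.nd (nat_lit 46332) (nat_lit 0) (nat_lit 26144) (XT.nd (nat_lit 78) (nat_lit 228) (nat_lit 0) (XT.lf (nat_lit 0) (nat_lit 63442177805) (nat_lit 152) (nat_lit 7653467306) (nat_lit 0) (nat_lit 21250032458) (nat_lit 93) (nat_lit 5) (nat_lit 95) (nat_lit 4) (nat_lit 93) (nat_lit 4) (nat_lit 438) (nat_lit 350) (nat_lit 232)) (XT.lf (nat_lit 0) (nat_lit 1264532483) (nat_lit 76) (nat_lit 20145835255) (nat_lit 152) (nat_lit 73964701053) (nat_lit 90) (nat_lit 5) (nat_lit 91) (nat_lit 5) (nat_lit 92) (nat_lit 4) (nat_lit 439) (nat_lit 350) (nat_lit 231))) (XT.nd (nat_lit 78) (nat_lit 0) (nat_lit 0) (XT.lf (nat_lit 0) (nat_lit 2048876204) (nat_lit 988) (nat_lit 934878565) (nat_lit 988) (nat_lit 934878565) (nat_lit 434) (nat_lit 3) (nat_lit 447) (nat_lit 3) (nat_lit 447) (nat_lit 5) (nat_lit 351) (nat_lit 351) (nat_lit 318)) (XT.lf (nat_lit 76) (nat_lit 4740017121) (nat_lit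 0) (nat_lit 1606600344) (nat_lit 988) (nat_lit 1622188235) (nat_lit 435) (nat_lit 5) (nat_lit 434) (nat_lit 3) (nat_lit 447) (nat_lit 5) (nat_lit 352) (nat_lit 351) (nat_lit 317))))) (XT.nd (nat_lit 234) (nat_lit 912) (nat_lit 0) (XT.nd (nat_lit 78) (nat_lit 0) (nat_lit 0) (XT.lf (nat_lit 0) (nat_lit 536631829) (nat_lit 988) (nat_lit 4534977540) (nat_lit 1064) (nat_lit 3036718331) (nat_lit 422) (nat_lit 5) (nat_lit 435) (nat_lit 5) (nat_lit 436) (nat_lit 5) (nat_lit 353) (nat_lit 351) (nat_lit 316)) (XT.nd (nat_lit 78) (nat_lit 0) (nat_lit 76) (XT.lf (nat_lit 76) (nat_lit 2468753709) (nat_lit 0) (nat_lit 244803314) (nat_lit 1064) (nat_lit 5542475535) (nat_lit 423) (nat_lit 5) (nat_lit 422) (nat_lit 5) (nat_lit 436) (nat_lit 5) (nat_lit 354) (nat_lit 351) (nat_lit 315)) (XT.lf (nat_lit 76) (nat_lit 1410615909) (nat_lit 0) (nat_lit 3571650356) (nat_lit 1064) (nat_lit 3429368259) (nat_lit 424) (nat_lit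 5) (nat_lit 423) (nat_lit 5) (nat_lit 437) (nat_lit 5) (nat_lit 355) (nat_lit 351) (nat_lit 314)))) (XT.nd (nat_lit 156) (nat_lit 0) (nat_lit 76) (XT.nd (nat_lit 78) (nat_lit 1064) (nat_lit 0) (XT.lf (nat_lit 76) (nat_lit 426472365) (nat_lit 0) (nat_lit 6901489351) (nat_lit 1064) (nat_lit 1248148351) (nat_lit 425) (nat_lit 5) (nat_lit 424) (nat_lit 5) (nat_lit 438) (nat_lit 5) (nat_lit 356) (nat_lit 351) (nat_lit 313)) (XT.lf (nat_lit 0) (nat_lit 1015874648) (nat_lit 1064) (nat_lit 501348318) (nat_lit 1140) (nat_lit 7231463556) (nat_lit 410) (nat_lit 5) (nat_lit 424) (nat_lit 5) (nat_lit 425) (nat_lit 5) (nat_lit 357) (nat_lit 351) (nat_lit 312))) (XT.nd (nat_lit 78) (nat_lit 0) (nat_lit 76) (XT.lf (nat_lit 0) (nat_lit 3372115410) (nat_lit 1064) (nat_lit 1382455969) (nat_lit 1140) (nat_lit 4174804777) (nat_lit 411) (nat_lit 5) (nat_lit 425) (nat_lit 5) (nat_lit 426) (nat_lit 5) (nat_lit 358) (nat_lit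 351) (nat_lit 311)) (XT.lf (nat_lit 0) (nat_lit 5839439402) (nat_lit 1064) (nat_lit 2198229837) (nat_lit 1140) (nat_lit 1081632897) (nat_lit 412) (nat_lit 5) (nat_lit 426) (nat_lit 5) (nat_lit 427) (nat_lit 5) (nat_lit 359) (nat_lit 351) (nat_lit 310))))))) (XT.nd (nat_lit 1014) (nat_lit 5548) (nat_lit 0) (XT.nd (nat_lit 468) (nat_lit 3952) (nat_lit 0) (XT.nd (nat_lit 234) (nat_lit 2736) (nat_lit 0) (XT.nd (nat_lit 78) (nat_lit 2204) (nat_lit 0) (XT.lf (nat_lit 76) (nat_lit 6348026691) (nat_lit 0) (nat_lit 2105492482) (nat_lit 1140) (nat_lit 864503556) (nat_lit 413) (nat_lit 5) (nat_lit 412) (nat_lit 5) (nat_lit 427) (nat_lit 5) (nat_lit 360) (nat_lit 351) (nat_lit 309)) (XT.nd (nat_lit 78) (nat_lit 1140) (nat_lit 0) (XT.lf (nat_lit 0) (nat_lit 1662057291) (nat_lit 1140) (nat_lit 3705641616) (nat_lit 76) (nat_lit 4157806789) (nat_lit 398) (nat_lit 5) (nat_lit 413) (nat_lit 5) (nat_lit 399) (nat_lit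 5) (nat_lit 361) (nat_lit 351) (nat_lit 308)) (XT.lf (nat_lit 0) (nat_lit 4318233262) (nat_lit 1216) (nat_lit 4388196139) (nat_lit 76) (nat_lit 1036041638) (nat_lit 383) (nat_lit 5) (nat_lit 399) (nat_lit 5) (nat_lit 384) (nat_lit 5) (nat_lit 362) (nat_lit 351) (nat_lit 307)))) (XT.nd (nat_lit 78) (nat_lit 1520) (nat_lit 0) (XT.lf (nat_lit 0) (nat_lit 4938238267) (nat_lit 1216) (nat_lit 2220109616) (nat_lit 1292) (nat_lit 2810402871) (nat_lit 367) (nat_lit 5) (nat_lit 383) (nat_lit 5) (nat_lit 384) (nat_lit 5) (nat_lit 363) (nat_lit 351) (nat_lit 306)) (XT.nd (nat_lit 78) (nat_lit 684) (nat_lit 0) (XT.lf (nat_lit 0) (nat_lit 4583127004) (nat_lit 836) (nat_lit 5605688906) (nat_lit 912) (nat_lit 16078114) (nat_lit 356) (nat_lit 5) (nat_lit 367) (nat_lit 5) (nat_lit 368) (nat_lit 5) (nat_lit 364) (nat_lit 351) (nat_lit 305)) (XT.lf (nat_lit 0) (nat_lit 2907351541) (nat_lit 684) (nat_lit 6179269532)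 (nat_lit 76) (nat_lit 1363992049) (nat_lit 347) (nat_lit 5) (nat_lit 356) (nat_lit 5) (nat_lit 348) (nat_lit 5) (nat_lit 365) (nat_lit 351) (nat_lit 304))))) (XT.nd (nat_lit 234) (nat_lit 2128) (nat_lit 0) (XT.nd (nat_lit 78) (nat_lit 1216) (nat_lit 0) (XT.lf (nat_lit 0) (nat_lit 4011699505) (nat_lit 608) (nat_lit 2038814020) (nat_lit 684) (nat_lit 4655883072) (nat_lit 339) (nat_lit 5) (nat_lit 347) (nat_lit 5) (nat_lit 348) (nat_lit 5) (nat_lit 366) (nat_lit 351) (nat_lit 303)) (XT.nd (nat_lit 78) (nat_lit 684) (nat_lit 0) (XT.lf (nat_lit 0) (nat_lit 3811484570) (nat_lit 532) (nat_lit 5615124845) (nat_lit 608) (nat_lit 1546086559) (nat_lit 332) (nat_lit 5) (nat_lit 339) (nat_lit 5) (nat_lit 340) (nat_lit 5) (nat_lit 367) (nat_lit 351) (nat_lit 302)) (XT.lf (nat_lit 0) (nat_lit 1755589687) (nat_lit 684) (nat_lit 7580443863) (nat_lit 76) (nat_lit 1913682856) (nat_lit 323) (nat_lit 5) (nat_lit 332)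 (nat_lit 5) (nat_lit 324) (nat_lit 5) (nat_lit 368) (nat_lit 351) (nat_lit 301)))) (XT.nd (nat_lit 156) (nat_lit 1064) (nat_lit 0) (XT.nd (nat_lit 78) (nat_lit 532) (nat_lit 0) (XT.lf (nat_lit 0) (nat_lit 3571137256) (nat_lit 532) (nat_lit 1713301215) (nat_lit 608) (nat_lit 6252868232) (nat_lit 316) (nat_lit 5) (nat_lit 323) (nat_lit 5) (nat_lit 324) (nat_lit 5) (nat_lit 369) (nat_lit 351) (nat_lit 300)) (XT.lf (nat_lit 0) (nat_lit 3531586451) (nat_lit 532) (nat_lit 5562300819) (nat_lit 608) (nat_lit 2742264517) (nat_lit 309) (nat_lit 5) (nat_lit 316) (nat_lit 5) (nat_lit 317) (nat_lit 5) (nat_lit 370) (nat_lit 351) (nat_lit 299))) (XT.nd (nat_lit 78) (nat_lit 532) (nat_lit 0) (XT.lf (nat_lit 0) (nat_lit 1017855557) (nat_lit 532) (nat_lit 8583482335) (nat_lit 76) (nat_lit 2545556909) (nat_lit 302) (nat_lit 5) (nat_lit 309) (nat_lit 5) (nat_lit 303) (nat_lit 5) (nat_lit 371) (nat_lit 351) (nat_lit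 298)) (XT.lf (nat_lit 0) (nat_lit 3637433360) (nat_lit 532) (nat_lit 1385023340) (nat_lit 608) (nat_lit 7446508050) (nat_lit 295) (nat_lit 5) (nat_lit 302) (nat_lit 5) (nat_lit 303) (nat_lit 5) (nat_lit 372) (nat_lit 351) (nat_lit 297)))))) (XT.nd (nat_lit 546) (nat_lit 2508) (nat_lit 0) (XT.nd (nat_lit 234) (nat_lit 1672) (nat_lit 0) (XT.nd (nat_lit 78) (nat_lit 912) (nat_lit 0) (XT.lf (nat_lit 0) (nat_lit 3771215769) (nat_lit 456) (nat_lit 5588647995) (nat_lit 532) (nat_lit 3443297158) (nat_lit 289) (nat_lit 5) (nat_lit 295) (nat_lit 5) (nat_lit 296) (nat_lit 5) (nat_lit 373) (nat_lit 351) (nat_lit 296)) (XT.nd (nat_lit 78) (nat_lit 380) (nat_lit 0) (XT.lf (nat_lit 0) (nat_lit 859466029) (nat_lit 532) (nat_lit 9163648947) (nat_lit 76) (nat_lit 3127306032) (nat_lit 282) (nat_lit 5) (nat_lit 289) (nat_lit 5) (nat_lit 283) (nat_lit 5) (nat_lit 374) (nat_lit 351) (nat_lit 295)) (XT.lf (nat_lit 0)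 (nat_lit 4249089134) (nat_lit 380) (nat_lit 1190078600) (nat_lit 456) (nat_lit 8070863211) (nat_lit 277) (nat_lit 5) (nat_lit 282) (nat_lit 5) (nat_lit 283) (nat_lit 5) (nat_lit 375) (nat_lit 351) (nat_lit 294)))) (XT.nd (nat_lit 156) (nat_lit 760) (nat_lit 0) (XT.nd (nat_lit 78) (nat_lit 456) (nat_lit 0) (XT.lf (nat_lit 0) (nat_lit 4575743095) (nat_lit 456) (nat_lit 5832229067) (nat_lit 532) (nat_lit 3474845688) (nat_lit 271) (nat_lit 5) (nat_lit 277) (nat_lit 5) (nat_lit 278) (nat_lit 5) (nat_lit 376) (nat_lit 351) (nat_lit 293)) (XT.lf (nat_lit 0) (nat_lit 1460434831) (nat_lit 456) (nat_lit 9279934994) (nat_lit 76) (nat_lit 3529409952) (nat_lit 265) (nat_lit 5) (nat_lit 271) (nat_lit 5) (nat_lit 266) (nat_lit 5) (nat_lit 377) (nat_lit 351) (nat_lit 292))) (XT.nd (nat_lit 78) (nat_lit 380) (nat_lit 0) (XT.lf (nat_lit 0) (nat_lit 5462202014) (nat_lit 380) (nat_lit 1263620986) (nat_lit 456) (nat_lit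 7944578402) (nat_lit 260) (nat_lit 5) (nat_lit 265) (nat_lit 5) (nat_lit 266) (nat_lit 5) (nat_lit 378) (nat_lit 351) (nat_lit 291)) (XT.lf (nat_lit 0) (nat_lit 6008293106) (nat_lit 380) (nat_lit 6432030936) (nat_lit 456) (nat_lit 2645154763) (nat_lit 255) (nat_lit 5) (nat_lit 260) (nat_lit 5) (nat_lit 261) (nat_lit 5) (nat_lit 379) (nat_lit 351) (nat_lit 290))))) (XT.nd (nat_lit 234) (nat_lit 1368) (nat_lit 0) (XT.nd (nat_lit 78) (nat_lit 684) (nat_lit 0) (XT.lf (nat_lit 0) (nat_lit 3019861454) (nat_lit 456) (nat_lit 8874823474) (nat_lit 76) (nat_lit 3621055718) (nat_lit 249) (nat_lit 5) (nat_lit 255) (nat_lit 5) (nat_lit 250) (nat_lit 5) (nat_lit 380) (nat_lit 351) (nat_lit 289)) (XT.nd (nat_lit 78) (nat_lit 380) (nat_lit 0) (XT.lf (nat_lit 0) (nat_lit 7350915381) (nat_lit 304) (nat_lit 1743938201) (nat_lit 380) (nat_lit 6866433377) (nat_lit 245) (nat_lit 5) (nat_lit 249) (nat_lit 5) (nat_lit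 250) (nat_lit 5) (nat_lit 381) (nat_lit 351) (nat_lit 288)) (XT.lf (nat_lit 0) (nat_lit 8150374417) (nat_lit 380) (nat_lit 7531979196) (nat_lit 456) (nat_lit 740494226) (nat_lit 240) (nat_lit 5) (nat_lit 245) (nat_lit 5) (nat_lit 246) (nat_lit 5) (nat_lit 382) (nat_lit 351) (nat_lit 287)))) (XT.nd (nat_lit 156) (nat_lit 684) (nat_lit 0) (XT.nd (nat_lit 78) (nat_lit 304) (nat_lit 0) (XT.lf (nat_lit 0) (nat_lit 5760525044) (nat_lit 380) (nat_lit 7873619475) (nat_lit 76) (nat_lit 3266305383) (nat_lit 235) (nat_lit 5) (nat_lit 240) (nat_lit 5) (nat_lit 236) (nat_lit 5) (nat_lit 383) (nat_lit 351) (nat_lit 286)) (XT.lf (nat_lit 0) (nat_lit 10008317347) (nat_lit 304) (nat_lit 2776326016) (nat_lit 380) (nat_lit 4610667876) (nat_lit 231) (nat_lit 5) (nat_lit 235) (nat_lit 5) (nat_lit 236) (nat_lit 5) (nat_lit 384) (nat_lit 351) (nat_lit 285))) (XT.nd (nat_lit 78) (nat_lit 304) (nat_lit 0) (XT.lf (nat_lit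 0) (nat_lit 2431280850) (nat_lit 380) (nat_lit 6828964668) (nat_lit 76) (nat_lit 8647121563) (nat_lit 226) (nat_lit 5) (nat_lit 231) (nat_lit 5) (nat_lit 227) (nat_lit 5) (nat_lit 385) (nat_lit 351) (nat_lit 284)) (XT.lf (nat_lit 0) (nat_lit 9933784085) (nat_lit 380) (nat_lit 6183361650) (nat_lit 76) (nat_lit 2320396093) (nat_lit 222) (nat_lit 5) (nat_lit 227) (nat_lit 5) (nat_lit 223) (nat_lit 5) (nat_lit 386) (nat_lit 351) (nat_lit 283))))))))
noncomputable def xc67 : XT := (XT.nd (nat_lit 2106) (nat_lit 3572) (nat_lit 0) (XT.nd (nat_lit 1014) (nat_lit 2584) (nat_lit 0) (XT.nd (nat_lit 468) (nat_lit 1900) (nat_lit 0) (XT.nd (nat_lit 234) (nat_lit 912) (nat_lit 0) (XT.nd (nat_lit 78) (nat_lit 608) (nat_lit 0) (XT.lf (nat_lit 0) (nat_lit 13547777217) (nat_lit 228) (nat_lit 4516872251) (nat_lit 304) (nat_lit 921978732) (nat_lit 219) (nat_lit 5) (nat_lit 222) (nat_lit 5) (nat_lit 223) (nat_lit 5)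 (nat_lit 387) (nat_lit 351) (nat_lit 282)) (XT.nd (nat_lit 78) (nat_lit 228) (nat_lit 0) (XT.lf (nat_lit 0) (nat_lit 7145652007) (nat_lit 380) (nat_lit 4638005894) (nat_lit 76) (nat_lit 7770157622) (nat_lit 214) (nat_lit 5) (nat_lit 219) (nat_lit 5) (nat_lit 215) (nat_lit 5) (nat_lit 388) (nat_lit 351) (nat_lit 281)) (XT.lf (nat_lit 0) (nat_lit 15824882373) (nat_lit 304) (nat_lit 3691318328) (nat_lit 76) (nat_lit 626069076) (nat_lit 211) (nat_lit 5) (nat_lit 215) (nat_lit 5) (nat_lit 212) (nat_lit 5) (nat_lit 389) (nat_lit 351) (nat_lit 280)))) (XT.nd (nat_lit 78) (nat_lit 532) (nat_lit 0) (XT.lf (nat_lit 0) (nat_lit 4402298296) (nat_lit 380) (nat_lit 2689499606) (nat_lit 76) (nat_lit 13657967101) (nat_lit 206) (nat_lit 5) (nat_lit 211) (nat_lit 5) (nat_lit 207) (nat_lit 5) (nat_lit 390) (nat_lit 351) (nat_lit 279)) (XT.nd (nat_lit 78) (nat_lit 304) (nat_lit 0) (XT.lf (nat_lit 0) (nat_lit 13721220000)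 (nat_lit 304) (nat_lit 1567060440) (nat_lit 76) (nat_lit 6090495901) (nat_lit 203) (nat_lit 5) (nat_lit 207) (nat_lit 5) (nat_lit 204) (nat_lit 5) (nat_lit 391) (nat_lit 351) (nat_lit 278)) (XT.lf (nat_lit 0) (nat_lit 1713108462) (nat_lit 304) (nat_lit 299367893) (nat_lit 76) (nat_lit 20018092411) (nat_lit 199) (nat_lit 5) (nat_lit 203) (nat_lit 5) (nat_lit 200) (nat_lit 5) (nat_lit 392) (nat_lit 351) (nat_lit 277))))) (XT.nd (nat_lit 234) (nat_lit 912) (nat_lit 0) (XT.nd (nat_lit 78) (nat_lit 532) (nat_lit 0) (XT.lf (nat_lit 0) (nat_lit 1037918113) (nat_lit 228) (nat_lit 10694976901) (nat_lit 304) (nat_lit 10969612520) (nat_lit 193) (nat_lit 5) (nat_lit 196) (nat_lit 5) (nat_lit 197) (nat_lit 5) (nat_lit 393) (nat_lit 351) (nat_lit 276)) (XT.nd (nat_lit 78) (nat_lit 304) (nat_lit 0) (XT.lf (nat_lit 0) (nat_lit 2582710042) (nat_lit 228) (nat_lit 19947319630) (nat_lit 304) (nat_lit 869722804) (nat_lit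 190) (nat_lit 5) (nat_lit 193) (nat_lit 5) (nat_lit 194) (nat_lit 5) (nat_lit 394) (nat_lit 351) (nat_lit 275)) (XT.lf (nat_lit 0) (nat_lit 4189038879) (nat_lit 228) (nat_lit 5694928187) (nat_lit 304) (nat_lit 14234921979) (nat_lit 186) (nat_lit 5) (nat_lit 189) (nat_lit 5) (nat_lit 190) (nat_lit 5) (nat_lit 395) (nat_lit 351) (nat_lit 274)))) (XT.nd (nat_lit 156) (nat_lit 456) (nat_lit 0) (XT.nd (nat_lit 78) (nat_lit 304) (nat_lit 0) (XT.lf (nat_lit 0) (nat_lit 5971407704) (nat_lit 152) (nat_lit 15515245805) (nat_lit 228) (nat_lit 3377191621) (nat_lit 184) (nat_lit 5) (nat_lit 186) (nat_lit 5) (nat_lit 187) (nat_lit 5) (nat_lit 396) (nat_lit 351) (nat_lit 273)) (XT.lf (nat_lit 0) (nat_lit 7904938456) (nat_lit 228) (nat_lit 269530237) (nat_lit 304) (nat_lit 17460038262) (nat_lit 180) (nat_lit 5) (nat_lit 183) (nat_lit 5) (nat_lit 184) (nat_lit 5) (nat_lit 397) (nat_lit 351) (nat_lit 272))) (XT.nd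 (nat_lit 78) (nat_lit 304) (nat_lit 0) (XT.lf (nat_lit 0) (nat_lit 9949880375) (nat_lit 152) (nat_lit 10695741835) (nat_lit 228) (nat_lit 5784723866) (nat_lit 178) (nat_lit 5) (nat_lit 180) (nat_lit 5) (nat_lit 181) (nat_lit 5) (nat_lit 398) (nat_lit 351) (nat_lit 271)) (XT.lf (nat_lit 0) (nat_lit 6675200878) (nat_lit 304) (nat_lit 15069653778) (nat_lit 76) (nat_lit 5509439953) (nat_lit 174) (nat_lit 5) (nat_lit 178) (nat_lit 5) (nat_lit 175) (nat_lit 5) (nat_lit 399) (nat_lit 351) (nat_lit 270)))))) (XT.nd (nat_lit 546) (nat_lit 1292) (nat_lit 0) (XT.nd (nat_lit 234) (nat_lit 760) (nat_lit 0) (XT.nd (nat_lit 78) (nat_lit 380) (nat_lit 0) (XT.lf (nat_lit 0) (nat_lit 14575213924) (nat_lit 152) (nat_lit 5453010960) (nat_lit 228) (nat_lit 8077805251) (nat_lit 172) (nat_lit 5) (nat_lit 174) (nat_lit 5) (nat_lit 175) (nat_lit 5) (nat_lit 400) (nat_lit 351) (nat_lit 269)) (XT.nd (nat_lit 78) (nat_lit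 152) (nat_lit 0) (XT.lf (nat_lit 0) (nat_lit 5357932003) (nat_lit 228) (nat_lit 11850686643) (nat_lit 76) (nat_lit 11778040907) (nat_lit 169) (nat_lit 5) (nat_lit 172) (nat_lit 5) (nat_lit 170) (nat_lit 5) (nat_lit 401) (nat_lit 351) (nat_lit 268)) (XT.lf (nat_lit 0) (nat_lit 19660081794) (nat_lit 228) (nat_lit 9990689786) (nat_lit 76) (nat_lit 247298903) (nat_lit 167) (nat_lit 5) (nat_lit 170) (nat_lit 5) (nat_lit 168) (nat_lit 5) (nat_lit 402) (nat_lit 351) (nat_lit 267)))) (XT.nd (nat_lit 156) (nat_lit 380) (nat_lit 0) (XT.nd (nat_lit 78) (nat_lit 152) (nat_lit 0) (XT.lf (nat_lit 0) (nat_lit 4240571038) (nat_lit 228) (nat_lit 8012551987) (nat_lit 76) (nat_lit 18586040553) (nat_lit 164) (nat_lit 5) (nat_lit 167) (nat_lit 5) (nat_lit 165) (nat_lit 5) (nat_lit 403) (nat_lit 351) (nat_lit 266)) (XT.lf (nat_lit 0) (nat_lit 19621341770) (nat_lit 228) (nat_lit 5854416624) (nat_lit 76) (nat_lit 6336811337)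 (nat_lit 162) (nat_lit 5) (nat_lit 165) (nat_lit 5) (nat_lit 163) (nat_lit 5) (nat_lit 404) (nat_lit 351) (nat_lit 265))) (XT.nd (nat_lit 78) (nat_lit 152) (nat_lit 0) (XT.lf (nat_lit 0) (nat_lit 3345562417) (nat_lit 228) (nat_lit 3492249532) (nat_lit 76) (nat_lit 25981996639) (nat_lit 159) (nat_lit 5) (nat_lit 162) (nat_lit 5) (nat_lit 160) (nat_lit 5) (nat_lit 405) (nat_lit 351) (nat_lit 264)) (XT.lf (nat_lit 0) (nat_lit 19887642403) (nat_lit 228) (nat_lit 1003789484) (nat_lit 76) (nat_lit 12967938842) (nat_lit 157) (nat_lit 5) (nat_lit 160) (nat_lit 5) (nat_lit 158) (nat_lit 5) (nat_lit 406) (nat_lit 351) (nat_lit 263))))) (XT.nd (nat_lit 234) (nat_lit 608) (nat_lit 0) (XT.nd (nat_lit 78) (nat_lit 304) (nat_lit 0) (XT.lf (nat_lit 0) (nat_lit 1814541784) (nat_lit 152) (nat_lit 900391214) (nat_lit 228) (nat_lit 32221692573) (nat_lit 152) (nat_lit 5) (nat_lit 154) (nat_lit 5) (nat_lit 155) (nat_lit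 5) (nat_lit 407) (nat_lit 351) (nat_lit 262)) (XT.nd (nat_lit 78) (nat_lit 152) (nat_lit 0) (XT.lf (nat_lit 0) (nat_lit 4725324967) (nat_lit 152) (nat_lit 15809704979) (nat_lit 228) (nat_lit 15510921410) (nat_lit 150) (nat_lit 5) (nat_lit 152) (nat_lit 5) (nat_lit 153) (nat_lit 5) (nat_lit 408) (nat_lit 351) (nat_lit 261)) (XT.lf (nat_lit 0) (nat_lit 2454661918) (nat_lit 152) (nat_lit 29218497592) (nat_lit 76) (nat_lit 5523227219) (nat_lit 148) (nat_lit 5) (nat_lit 150) (nat_lit 5) (nat_lit 149) (nat_lit 5) (nat_lit 409) (nat_lit 351) (nat_lit 260)))) (XT.nd (nat_lit 156) (nat_lit 304) (nat_lit 0) (XT.nd (nat_lit 78) (nat_lit 152) (nat_lit 0) (XT.lf (nat_lit 0) (nat_lit 11356463049) (nat_lit 152) (nat_lit 10213368492) (nat_lit 228) (nat_lit 16812742222) (nat_lit 146) (nat_lit 5) (nat_lit 148) (nat_lit 5) (nat_lit 149) (nat_lit 5) (nat_lit 410) (nat_lit 351) (nat_lit 259)) (XT.lf (nat_lit 0) (nat_lit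 2521233349) (nat_lit 152) (nat_lit 24558150766) (nat_lit 76) (nat_lit 12531671056) (nat_lit 144) (nat_lit 5) (nat_lit 146) (nat_lit 5) (nat_lit 145) (nat_lit 5) (nat_lit 411) (nat_lit 351) (nat_lit 258))) (XT.nd (nat_lit 78) (nat_lit 152) (nat_lit 0) (XT.lf (nat_lit 0) (nat_lit 18957074839) (nat_lit 152) (nat_lit 4062463266) (nat_lit 228) (nat_lit 17860068350) (nat_lit 142) (nat_lit 5) (nat_lit 144) (nat_lit 5) (nat_lit 145) (nat_lit 5) (nat_lit 412) (nat_lit 351) (nat_lit 257)) (XT.lf (nat_lit 0) (nat_lit 2939746189) (nat_lit 152) (nat_lit 19051917069) (nat_lit 76) (nat_lit 20199627897) (nat_lit 140) (nat_lit 5) (nat_lit 142) (nat_lit 5) (nat_lit 141) (nat_lit 5) (nat_lit 413) (nat_lit 351) (nat_lit 256))))))) (XT.nd (nat_lit 1014) (nat_lit 1596) (nat_lit 0) (XT.nd (nat_lit 468) (nat_lit 912) (nat_lit 0) (XT.nd (nat_lit 234) (nat_lit 608) (nat_lit 0) (XT.nd (nat_lit 78) (nat_lit 304) (nat_lit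 0) (XT.lf (nat_lit 0) (nat_lit 24950823758) (nat_lit 228) (nat_lit 15951254915) (nat_lit 76) (nat_lit 2644957068) (nat_lit 138) (nat_lit 5) (nat_lit 141) (nat_lit 5) (nat_lit 139) (nat_lit 4) (nat_lit 414) (nat_lit 351) (nat_lit 255)) (XT.nd (nat_lit 78) (nat_lit 152) (nat_lit 0) (XT.lf (nat_lit 0) (nat_lit 3747149691) (nat_lit 152) (nat_lit 12611860665) (nat_lit 76) (nat_lit 28589197691) (nat_lit 136) (nat_lit 5) (nat_lit 138) (nat_lit 5) (nat_lit 137) (nat_lit 5) (nat_lit 415) (nat_lit 351) (nat_lit 254)) (XT.lf (nat_lit 0) (nat_lit 27427689568) (nat_lit 228) (nat_lit 9039455591) (nat_lit 76) (nat_lit 9928631930) (nat_lit 134) (nat_lit 5) (nat_lit 137) (nat_lit 5) (nat_lit 135) (nat_lit 4) (nat_lit 416) (nat_lit 351) (nat_lit 253)))) (XT.nd (nat_lit 78) (nat_lit 456) (nat_lit 0) (XT.lf (nat_lit 0) (nat_lit 4983874400) (nat_lit 152) (nat_lit 5141964160) (nat_lit 76) (nat_lit 37767841595) (nat_lit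 132) (nat_lit 5) (nat_lit 134) (nat_lit 5) (nat_lit 133) (nat_lit 5) (nat_lit 417) (nat_lit 351) (nat_lit 252)) (XT.nd (nat_lit 78) (nat_lit 304) (nat_lit 0) (XT.lf (nat_lit 0) (nat_lit 30460194108) (nat_lit 228) (nat_lit 1047880487) (nat_lit 76) (nat_lit 17931198227) (nat_lit 130) (nat_lit 5) (nat_lit 133) (nat_lit 5) (nat_lit 131) (nat_lit 4) (nat_lit 418) (nat_lit 351) (nat_lit 251)) (XT.lf (nat_lit 0) (nat_lit 3531450761) (nat_lit 152) (nat_lit 3196635704) (nat_lit 228) (nat_lit 44311289404) (nat_lit 126) (nat_lit 5) (nat_lit 128) (nat_lit 5) (nat_lit 129) (nat_lit 5) (nat_lit 419) (nat_lit 351) (nat_lit 250))))) (XT.nd (nat_lit 234) (nat_lit 532) (nat_lit 0) (XT.nd (nat_lit 78) (nat_lit 304) (nat_lit 0) (XT.lf (nat_lit 0) (nat_lit 8294627127) (nat_lit 76) (nat_lit 25886987653) (nat_lit 152) (nat_lit 18506626298) (nat_lit 125) (nat_lit 5) (nat_lit 126) (nat_lit 5) (nat_lit 127) (nat_lit 4)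 (nat_lit 420) (nat_lit 351) (nat_lit 249)) (XT.nd (nat_lit 78) (nat_lit 76) (nat_lit 0) (XT.lf (nat_lit 0) (nat_lit 9100322897) (nat_lit 228) (nat_lit 40860574347) (nat_lit 76) (nat_lit 4435786402) (nat_lit 122) (nat_lit 5) (nat_lit 125) (nat_lit 5) (nat_lit 123) (nat_lit 4) (nat_lit 421) (nat_lit 351) (nat_lit 248)) (XT.lf (nat_lit 0) (nat_lit 18992246942) (nat_lit 76) (nat_lit 19601427904) (nat_lit 152) (nat_lit 17564712457) (nat_lit 121) (nat_lit 5) (nat_lit 122) (nat_lit 5) (nat_lit 123) (nat_lit 4) (nat_lit 422) (nat_lit 351) (nat_lit 247)))) (XT.nd (nat_lit 156) (nat_lit 228) (nat_lit 0) (XT.nd (nat_lit 78) (nat_lit 76) (nat_lit 0) (XT.lf (nat_lit 0) (nat_lit 12099261385) (nat_lit 228) (nat_lit 33079962000) (nat_lit 76) (nat_lit 12802485157) (nat_lit 118) (nat_lit 5) (nat_lit 121) (nat_lit 5) (nat_lit 119) (nat_lit 4) (nat_lit 423) (nat_lit 351) (nat_lit 246)) (XT.lf (nat_lit 0) (nat_lit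 31156515078) (nat_lit 76) (nat_lit 12594435806) (nat_lit 152) (nat_lit 16113994252) (nat_lit 117) (nat_lit 5) (nat_lit 118) (nat_lit 5) (nat_lit 119) (nat_lit 4) (nat_lit 424) (nat_lit 351) (nat_lit 245))) (XT.nd (nat_lit 78) (nat_lit 76) (nat_lit 0) (XT.lf (nat_lit 0) (nat_lit 15753946800) (nat_lit 152) (nat_lit 24013259225) (nat_lit 76) (nat_lit 22043573927) (nat_lit 115) (nat_lit 5) (nat_lit 117) (nat_lit 5) (nat_lit 116) (nat_lit 4) (nat_lit 425) (nat_lit 351) (nat_lit 244)) (XT.lf (nat_lit 0) (nat_lit 44931591793) (nat_lit 76) (nat_lit 4792472921) (nat_lit 152) (nat_lit 14099794200) (nat_lit 114) (nat_lit 5) (nat_lit 115) (nat_lit 5) (nat_lit 116) (nat_lit 4) (nat_lit 426) (nat_lit 351) (nat_lit 243)))))) (XT.nd (nat_lit 546) (nat_lit 684) (nat_lit 0) (XT.nd (nat_lit 234) (nat_lit 532) (nat_lit 0) (XT.nd (nat_lit 78) (nat_lit 228) (nat_lit 0) (XT.lf (nat_lit 0) (nat_lit 20129614183) (nat_lit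 152) (nat_lit 13527230786) (nat_lit 76) (nat_lit 32243511734) (nat_lit 112) (nat_lit 5) (nat_lit 114) (nat_lit 5) (nat_lit 113) (nat_lit 4) (nat_lit 427) (nat_lit 351) (nat_lit 242)) (XT.nd (nat_lit 78) (nat_lit 152) (nat_lit 0) (XT.lf (nat_lit 0) (nat_lit 56627232284) (nat_lit 152) (nat_lit 7615126103) (nat_lit 0) (nat_lit 3808682595) (nat_lit 111) (nat_lit 5) (nat_lit 113) (nat_lit 4) (nat_lit 111) (nat_lit 4) (nat_lit 428) (nat_lit 351) (nat_lit 241)) (XT.lf (nat_lit 0) (nat_lit 25297423698) (nat_lit 152) (nat_lit 1476576715) (nat_lit 76) (nat_lit 43494019996) (nat_lit 109) (nat_lit 5) (nat_lit 111) (nat_lit 5) (nat_lit 110) (nat_lit 4) (nat_lit 429) (nat_lit 351) (nat_lit 240)))) (XT.nd (nat_lit 156) (nat_lit 228) (nat_lit 0) (XT.nd (nat_lit 78) (nat_lit 152) (nat_lit 0) (XT.lf (nat_lit 0) (nat_lit 5362139140) (nat_lit 76) (nat_lit 59251484206) (nat_lit 76) (nat_lit 7948977226) (nat_lit 107)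 (nat_lit 4) (nat_lit 108) (nat_lit 5) (nat_lit 108) (nat_lit 4) (nat_lit 430) (nat_lit 351) (nat_lit 239)) (XT.lf (nat_lit 0) (nat_lit 12541809246) (nat_lit 76) (nat_lit 18913710416) (nat_lit 152) (nat_lit 43473415459) (nat_lit 105) (nat_lit 5) (nat_lit 106) (nat_lit 5) (nat_lit 107) (nat_lit 4) (nat_lit 431) (nat_lit 351) (nat_lit 238))) (XT.nd (nat_lit 78) (nat_lit 152) (nat_lit 0) (XT.lf (nat_lit 0) (nat_lit 20333727419) (nat_lit 76) (nat_lit 53436163806) (nat_lit 76) (nat_lit 3608212683) (nat_lit 104) (nat_lit 4) (nat_lit 105) (nat_lit 5) (nat_lit 105) (nat_lit 4) (nat_lit 432) (nat_lit 351) (nat_lit 237)) (XT.lf (nat_lit 0) (nat_lit 28522830311) (nat_lit 76) (nat_lit 10078120343) (nat_lit 152) (nat_lit 41304836920) (nat_lit 102) (nat_lit 5) (nat_lit 103) (nat_lit 5) (nat_lit 104) (nat_lit 4) (nat_lit 433) (nat_lit 351) (nat_lit 236))))) (XT.nd (nat_lit 234) (nat_lit 304) (nat_lit 0) (XT.nd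 (nat_lit 78) (nat_lit 228) (nat_lit 0) (XT.lf (nat_lit 0) (nat_lit 1571310960) (nat_lit 152) (nat_lit 45204231249) (nat_lit 76) (nat_lit 35744466170) (nat_lit 100) (nat_lit 5) (nat_lit 102) (nat_lit 5) (nat_lit 101) (nat_lit 4) (nat_lit 434) (nat_lit 351) (nat_lit 235)) (XT.nd (nat_lit 78) (nat_lit 152) (nat_lit 0) (XT.lf (nat_lit 0) (nat_lit 46628697701) (nat_lit 76) (nat_lit 184477854) (nat_lit 152) (nat_lit 38407211206) (nat_lit 99) (nat_lit 5) (nat_lit 100) (nat_lit 5) (nat_lit 101) (nat_lit 4) (nat_lit 435) (nat_lit 351) (nat_lit 234)) (XT.lf (nat_lit 0) (nat_lit 7620172612) (nat_lit 152) (nat_lit 31530778943) (nat_lit 76) (nat_lit 48858596725) (nat_lit 97) (nat_lit 5) (nat_lit 99) (nat_lit 5) (nat_lit 98) (nat_lit 4) (nat_lit 436) (nat_lit 351) (nat_lit 233)))) (XT.nd (nat_lit 156) (nat_lit 76) (nat_lit 0) (XT.nd (nat_lit 78) (nat_lit 152) (nat_lit 0) (XT.lf (nat_lit 0) (nat_lit 56298987243)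 (nat_lit 152) (nat_lit 23932146779) (nat_lit 0) (nat_lit 10661294322) (nat_lit 96) (nat_lit 5) (nat_lit 98) (nat_lit 4) (nat_lit 96) (nat_lit 4) (nat_lit 437) (nat_lit 351) (nat_lit 232)) (XT.lf (nat_lit 0) (nat_lit 14703367054) (nat_lit 152) (nat_lit 15796417541) (nat_lit 76) (nat_lit 63371546129) (nat_lit 94) (nat_lit 5) (nat_lit 96) (nat_lit 5) (nat_lit 95) (nat_lit 4) (nat_lit 438) (nat_lit 351) (nat_lit 231))) (XT.nd (nat_lit 46332) (nat_lit 0) (nat_lit 24928) (XT.lf (nat_lit 0) (nat_lit 67079235541) (nat_lit 152) (nat_lit 7111415722) (nat_lit 0) (nat_lit 22758361721) (nat_lit 93) (nat_lit 5) (nat_lit 95) (nat_lit 4) (nat_lit 93) (nat_lit 4) (nat_lit 439) (nat_lit 351) (nat_lit 230)) (XT.lf (nat_lit 0) (nat_lit 82608967) (nat_lit 0) (nat_lit 82608967) (nat_lit 988) (nat_lit 3887208637) (nat_lit 421) (nat_lit 5) (nat_lit 421) (nat_lit 3) (nat_lit 434) (nat_lit 3) (nat_lit 352) (nat_lit 352)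 (nat_lit 316))))))))
noncomputable def xc68 : XT := (XT.nd (nat_lit 2028) (nat_lit 7828) (nat_lit 0) (XT.nd (nat_lit 1014) (nat_lit 6840) (nat_lit 0) (XT.nd (nat_lit 468) (nat_lit 4180) (nat_lit 0) (XT.nd (nat_lit 234) (nat_lit 836) (nat_lit 0) (XT.nd (nat_lit 78) (nat_lit 0) (nat_lit 76) (XT.lf (nat_lit 0) (nat_lit 2328183421) (nat_lit 988) (nat_lit 1225242091) (nat_lit 1064) (nat_lit 4694364359) (nat_lit 421) (nat_lit 5) (nat_lit 434) (nat_lit 3) (nat_lit 435) (nat_lit 5) (nat_lit 353) (nat_lit 352) (nat_lit 315)) (XT.nd (nat_lit 78) (nat_lit 0) (nat_lit 0) (XT.lf (nat_lit 0) (nat_lit 4374641714) (nat_lit 988) (nat_lit 2543131313) (nat_lit 1064) (nat_lit 1481635709) (nat_lit 422) (nat_lit 5) (nat_lit 435) (nat_lit 5) (nat_lit 436) (nat_lit 5) (nat_lit 354) (nat_lit 352) (nat_lit 314)) (XT.lf (nat_lit 76) (nat_lit 4747190914) (nat_lit 0) (nat_lit 1752452745) (nat_lit 1064) (nat_lit 2059678262)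 (nat_lit 423) (nat_lit 5) (nat_lit 422) (nat_lit 5) (nat_lit 436) (nat_lit 5) (nat_lit 355) (nat_lit 352) (nat_lit 313)))) (XT.nd (nat_lit 78) (nat_lit 988) (nat_lit 0) (XT.lf (nat_lit 76) (nat_lit 3694709451) (nat_lit 0) (nat_lit 5020837768) (nat_lit 1064) (nat_lit 12144002) (nat_lit 424) (nat_lit 5) (nat_lit 423) (nat_lit 5) (nat_lit 437) (nat_lit 5) (nat_lit 356) (nat_lit 352) (nat_lit 312)) (XT.nd (nat_lit 78) (nat_lit 0) (nat_lit 0) (XT.lf (nat_lit 0) (nat_lit 2076353020) (nat_lit 1064) (nat_lit 6214120585) (nat_lit 1140) (nat_lit 613979848) (nat_lit 410) (nat_lit 5) (nat_lit 424) (nat_lit 5) (nat_lit 425) (nat_lit 5) (nat_lit 357) (nat_lit 352) (nat_lit 311)) (XT.lf (nat_lit 76) (nat_lit 1726708218) (nat_lit 0) (nat_lit 2557829887) (nat_lit 1140) (nat_lit 4805046652) (nat_lit 411) (nat_lit 5) (nat_lit 410) (nat_lit 5) (nat_lit 425) (nat_lit 5) (nat_lit 358) (nat_lit 352) (nat_lit 310)))))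 (XT.nd (nat_lit 234) (nat_lit 3192) (nat_lit 0) (XT.nd (nat_lit 78) (nat_lit 1064) (nat_lit 0) (XT.lf (nat_lit 76) (nat_lit 821124526) (nat_lit 0) (nat_lit 5788259363) (nat_lit 1140) (nat_lit 2674401194) (nat_lit 412) (nat_lit 5) (nat_lit 411) (nat_lit 5) (nat_lit 426) (nat_lit 5) (nat_lit 359) (nat_lit 352) (nat_lit 309)) (XT.nd (nat_lit 78) (nat_lit 1140) (nat_lit 0) (XT.lf (nat_lit 0) (nat_lit 9060348064) (nat_lit 1064) (nat_lit 20913025) (nat_lit 1140) (nat_lit 406138054) (nat_lit 412) (nat_lit 5) (nat_lit 426) (nat_lit 5) (nat_lit 427) (nat_lit 5) (nat_lit 360) (nat_lit 352) (nat_lit 308)) (XT.lf (nat_lit 0) (nat_lit 1948633742) (nat_lit 1140) (nat_lit 831610142) (nat_lit 1216) (nat_lit 6918782268) (nat_lit 397) (nat_lit 5) (nat_lit 412) (nat_lit 5) (nat_lit 413) (nat_lit 5) (nat_lit 361) (nat_lit 352) (nat_lit 307)))) (XT.nd (nat_lit 156) (nat_lit 2128) (nat_lit 0) (XT.nd (nat_lit 78) (nat_lit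 1140) (nat_lit 0) (XT.lf (nat_lit 0) (nat_lit 4464986529) (nat_lit 1140) (nat_lit 1591403636) (nat_lit 76) (nat_lit 3863796025) (nat_lit 398) (nat_lit 5) (nat_lit 413) (nat_lit 5) (nat_lit 399) (nat_lit 5) (nat_lit 362) (nat_lit 352) (nat_lit 306)) (XT.lf (nat_lit 0) (nat_lit 7142291266) (nat_lit 1216) (nat_lit 2292012451) (nat_lit 76) (nat_lit 717046484) (nat_lit 383) (nat_lit 5) (nat_lit 399) (nat_lit 5) (nat_lit 384) (nat_lit 5) (nat_lit 363) (nat_lit 352) (nat_lit 305))) (XT.nd (nat_lit 78) (nat_lit 912) (nat_lit 0) (XT.lf (nat_lit 0) (nat_lit 7434367653) (nat_lit 1216) (nat_lit 2587467374) (nat_lit 1292) (nat_lit 370186172) (nat_lit 367) (nat_lit 5) (nat_lit 383) (nat_lit 5) (nat_lit 384) (nat_lit 5) (nat_lit 364) (nat_lit 352) (nat_lit 304)) (XT.lf (nat_lit 0) (nat_lit 2412901566) (nat_lit 912) (nat_lit 3594192063) (nat_lit 76) (nat_lit 4635166341) (nat_lit 355) (nat_lit 5) (nat_lit 367)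 (nat_lit 5) (nat_lit 356) (nat_lit 5) (nat_lit 365) (nat_lit 352) (nat_lit 303)))))) (XT.nd (nat_lit 468) (nat_lit 3344) (nat_lit 0) (XT.nd (nat_lit 234) (nat_lit 1672) (nat_lit 0) (XT.nd (nat_lit 78) (nat_lit 1216) (nat_lit 0) (XT.lf (nat_lit 0) (nat_lit 5387145716) (nat_lit 684) (nat_lit 4174951186) (nat_lit 76) (nat_lit 1341014078) (nat_lit 347) (nat_lit 5) (nat_lit 356) (nat_lit 5) (nat_lit 348) (nat_lit 5) (nat_lit 366) (nat_lit 352) (nat_lit 302)) (XT.nd (nat_lit 78) (nat_lit 608) (nat_lit 0) (XT.lf (nat_lit 0) (nat_lit 6459256544) (nat_lit 608) (nat_lit 2138645354) (nat_lit 684) (nat_lit 2576468649) (nat_lit 339) (nat_lit 5) (nat_lit 347) (nat_lit 5) (nat_lit 348) (nat_lit 5) (nat_lit 367) (nat_lit 352) (nat_lit 301)) (XT.lf (nat_lit 0) (nat_lit 589261959) (nat_lit 608) (nat_lit 5212302486) (nat_lit 76) (nat_lit 5654805238) (nat_lit 331) (nat_lit 5) (nat_lit 339) (nat_lit 5) (nat_lit 332)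 (nat_lit 5) (nat_lit 368) (nat_lit 352) (nat_lit 300)))) (XT.nd (nat_lit 78) (nat_lit 1064) (nat_lit 0) (XT.lf (nat_lit 0) (nat_lit 3943104938) (nat_lit 684) (nat_lit 5672050129) (nat_lit 76) (nat_lit 2134055087) (nat_lit 323) (nat_lit 5) (nat_lit 332) (nat_lit 5) (nat_lit 324) (nat_lit 5) (nat_lit 369) (nat_lit 352) (nat_lit 299)) (XT.nd (nat_lit 78) (nat_lit 532) (nat_lit 0) (XT.lf (nat_lit 0) (nat_lit 5971541728) (nat_lit 532) (nat_lit 1598224774) (nat_lit 608) (nat_lit 4483772353) (nat_lit 316) (nat_lit 5) (nat_lit 323) (nat_lit 5) (nat_lit 324) (nat_lit 5) (nat_lit 370) (nat_lit 352) (nat_lit 298)) (XT.lf (nat_lit 0) (nat_lit 5923345375) (nat_lit 532) (nat_lit 5573230642) (nat_lit 608) (nat_lit 872943528) (nat_lit 309) (nat_lit 5) (nat_lit 316) (nat_lit 5) (nat_lit 317) (nat_lit 5) (nat_lit 371) (nat_lit 352) (nat_lit 297))))) (XT.nd (nat_lit 234) (nat_lit 1824) (nat_lit 0) (XT.nd (nat_lit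 78) (nat_lit 988) (nat_lit 0) (XT.lf (nat_lit 0) (nat_lit 2966234894) (nat_lit 532) (nat_lit 6768940887) (nat_lit 76) (nat_lit 2962139163) (nat_lit 302) (nat_lit 5) (nat_lit 309) (nat_lit 5) (nat_lit 303) (nat_lit 5) (nat_lit 372) (nat_lit 352) (nat_lit 296)) (XT.nd (nat_lit 78) (nat_lit 456) (nat_lit 0) (XT.lf (nat_lit 0) (nat_lit 5998704936) (nat_lit 532) (nat_lit 1102954381) (nat_lit 608) (nat_lit 5935911278) (nat_lit 295) (nat_lit 5) (nat_lit 302) (nat_lit 5) (nat_lit 303) (nat_lit 5) (nat_lit 373) (nat_lit 352) (nat_lit 295)) (XT.lf (nat_lit 0) (nat_lit 6126694453) (nat_lit 456) (nat_lit 5466236894) (nat_lit 532) (nat_lit 1797435391) (nat_lit 289) (nat_lit 5) (nat_lit 295) (nat_lit 5) (nat_lit 296) (nat_lit 5) (nat_lit 374) (nat_lit 352) (nat_lit 294)))) (XT.nd (nat_lit 156) (nat_lit 912) (nat_lit 0) (XT.nd (nat_lit 78) (nat_lit 380) (nat_lit 0) (XT.lf (nat_lit 0) (nat_lit 2624717479) (nat_lit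 532) (nat_lit 7435068727) (nat_lit 76) (nat_lit 3696487509) (nat_lit 282) (nat_lit 5) (nat_lit 289) (nat_lit 5) (nat_lit 283) (nat_lit 5) (nat_lit 375) (nat_lit 352) (nat_lit 293)) (XT.lf (nat_lit 0) (nat_lit 6585623145) (nat_lit 380) (nat_lit 786185830) (nat_lit 456) (nat_lit 6763903032) (nat_lit 277) (nat_lit 5) (nat_lit 282) (nat_lit 5) (nat_lit 283) (nat_lit 5) (nat_lit 376) (nat_lit 352) (nat_lit 292))) (XT.nd (nat_lit 78) (nat_lit 456) (nat_lit 0) (XT.lf (nat_lit 0) (nat_lit 6911789115) (nat_lit 456) (nat_lit 5622682971) (nat_lit 532) (nat_lit 1994303618) (nat_lit 271) (nat_lit 5) (nat_lit 277) (nat_lit 5) (nat_lit 278) (nat_lit 5) (nat_lit 377) (nat_lit 352) (nat_lit 291)) (XT.lf (nat_lit 0) (nat_lit 3103134430) (nat_lit 456) (nat_lit 7623714824) (nat_lit 76) (nat_lit 4209329175) (nat_lit 265) (nat_lit 5) (nat_lit 271) (nat_lit 5) (nat_lit 266) (nat_lit 5) (nat_lit 378) (nat_lit 352) (nat_lit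 290))))))) (XT.nd (nat_lit 1014) (nat_lit 3344) (nat_lit 0) (XT.nd (nat_lit 468) (nat_lit 2204) (nat_lit 0) (XT.nd (nat_lit 234) (nat_lit 1064) (nat_lit 0) (XT.nd (nat_lit 78) (nat_lit 836) (nat_lit 0) (XT.lf (nat_lit 0) (nat_lit 7794753442) (nat_lit 380) (nat_lit 782088611) (nat_lit 456) (nat_lit 6781637582) (nat_lit 260) (nat_lit 5) (nat_lit 265) (nat_lit 5) (nat_lit 266) (nat_lit 5) (nat_lit 379) (nat_lit 352) (nat_lit 289)) (XT.nd (nat_lit 78) (nat_lit 456) (nat_lit 0) (XT.lf (nat_lit 0) (nat_lit 8348168847) (nat_lit 380) (nat_lit 6181360729) (nat_lit 456) (nat_lit 1266207491) (nat_lit 255) (nat_lit 5) (nat_lit 260) (nat_lit 5) (nat_lit 261) (nat_lit 5) (nat_lit 380) (nat_lit 352) (nat_lit 288)) (XT.lf (nat_lit 0) (nat_lit 4606897828) (nat_lit 456) (nat_lit 7271573589) (nat_lit 76) (nat_lit 4369974962) (nat_lit 249) (nat_lit 5) (nat_lit 255) (nat_lit 5) (nat_lit 250) (nat_lit 5) (nat_lit 381)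 (nat_lit 352) (nat_lit 287)))) (XT.nd (nat_lit 78) (nat_lit 760) (nat_lit 0) (XT.lf (nat_lit 0) (nat_lit 9706775621) (nat_lit 304) (nat_lit 1229593822) (nat_lit 380) (nat_lit 5781378669) (nat_lit 245) (nat_lit 5) (nat_lit 249) (nat_lit 5) (nat_lit 250) (nat_lit 5) (nat_lit 382) (nat_lit 352) (nat_lit 286)) (XT.nd (nat_lit 78) (nat_lit 304) (nat_lit 0) (XT.lf (nat_lit 0) (nat_lit 596114387) (nat_lit 456) (nat_lit 6685473214) (nat_lit 76) (nat_lit 9921873015) (nat_lit 239) (nat_lit 5) (nat_lit 245) (nat_lit 5) (nat_lit 240) (nat_lit 5) (nat_lit 383) (nat_lit 352) (nat_lit 285)) (XT.lf (nat_lit 0) (nat_lit 7366928729) (nat_lit 380) (nat_lit 6297907069) (nat_lit 76) (nat_lit 4041085276) (nat_lit 235) (nat_lit 5) (nat_lit 240) (nat_lit 5) (nat_lit 236) (nat_lit 5) (nat_lit 384) (nat_lit 352) (nat_lit 284))))) (XT.nd (nat_lit 234) (nat_lit 1216) (nat_lit 0) (XT.nd (nat_lit 78) (nat_lit 684) (nat_lit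 0) (XT.lf (nat_lit 0) (nat_lit 12421674329) (nat_lit 304) (nat_lit 2276187118) (nat_lit 380) (nat_lit 3528995777) (nat_lit 231) (nat_lit 5) (nat_lit 235) (nat_lit 5) (nat_lit 236) (nat_lit 5) (nat_lit 385) (nat_lit 352) (nat_lit 283)) (XT.nd (nat_lit 78) (nat_lit 304) (nat_lit 0) (XT.lf (nat_lit 0) (nat_lit 3802425928) (nat_lit 380) (nat_lit 5256278695) (nat_lit 76) (nat_lit 9706543380) (nat_lit 226) (nat_lit 5) (nat_lit 231) (nat_lit 5) (nat_lit 227) (nat_lit 5) (nat_lit 386) (nat_lit 352) (nat_lit 282)) (XT.lf (nat_lit 0) (nat_lit 11644683719) (nat_lit 380) (nat_lit 4603286163) (nat_lit 76) (nat_lit 3075022724) (nat_lit 222) (nat_lit 5) (nat_lit 227) (nat_lit 5) (nat_lit 223) (nat_lit 5) (nat_lit 387) (nat_lit 352) (nat_lit 281)))) (XT.nd (nat_lit 156) (nat_lit 608) (nat_lit 0) (XT.nd (nat_lit 78) (nat_lit 304) (nat_lit 0) (XT.lf (nat_lit 0) (nat_lit 236467963) (nat_lit 304) (nat_lit 3842802138)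 (nat_lit 76) (nat_lit 15821399034) (nat_lit 218) (nat_lit 5) (nat_lit 222) (nat_lit 5) (nat_lit 219) (nat_lit 5) (nat_lit 388) (nat_lit 352) (nat_lit 280)) (XT.lf (nat_lit 0) (nat_lit 8655817809) (nat_lit 380) (nat_lit 3036436239) (nat_lit 76) (nat_lit 8804665756) (nat_lit 214) (nat_lit 5) (nat_lit 219) (nat_lit 5) (nat_lit 215) (nat_lit 5) (nat_lit 389) (nat_lit 352) (nat_lit 279))) (XT.nd (nat_lit 78) (nat_lit 380) (nat_lit 0) (XT.lf (nat_lit 0) (nat_lit 17737629906) (nat_lit 304) (nat_lit 2067917425) (nat_lit 76) (nat_lit 1310190832) (nat_lit 211) (nat_lit 5) (nat_lit 215) (nat_lit 5) (nat_lit 212) (nat_lit 5) (nat_lit 390) (nat_lit 352) (nat_lit 278)) (XT.lf (nat_lit 0) (nat_lit 5718135182) (nat_lit 380) (nat_lit 1046025757) (nat_lit 76) (nat_lit 14990220655) (nat_lit 206) (nat_lit 5) (nat_lit 211) (nat_lit 5) (nat_lit 207) (nat_lit 5) (nat_lit 391) (nat_lit 352) (nat_lit 277)))))) (XT.nd (nat_lit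 546) (nat_lit 1368) (nat_lit 0) (XT.nd (nat_lit 234) (nat_lit 988) (nat_lit 0) (XT.nd (nat_lit 78) (nat_lit 532) (nat_lit 0) (XT.lf (nat_lit 0) (nat_lit 109093941) (nat_lit 228) (nat_lit 15365791362) (nat_lit 304) (nat_lit 6940801726) (nat_lit 200) (nat_lit 5) (nat_lit 203) (nat_lit 5) (nat_lit 204) (nat_lit 5) (nat_lit 392) (nat_lit 352) (nat_lit 276)) (XT.nd (nat_lit 78) (nat_lit 228) (nat_lit 0) (XT.lf (nat_lit 0) (nat_lit 1436588514) (nat_lit 228) (nat_lit 1418333182) (nat_lit 304) (nat_lit 20245490774) (nat_lit 196) (nat_lit 5) (nat_lit 199) (nat_lit 5) (nat_lit 200) (nat_lit 5) (nat_lit 393) (nat_lit 352) (nat_lit 275)) (XT.lf (nat_lit 0) (nat_lit 2820975071) (nat_lit 228) (nat_lit 10530394793) (nat_lit 304) (nat_lit 10455308143) (nat_lit 193) (nat_lit 5) (nat_lit 196) (nat_lit 5) (nat_lit 197) (nat_lit 5) (nat_lit 394) (nat_lit 352) (nat_lit 274)))) (XT.nd (nat_lit 156) (nat_lit 456) (nat_lit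 0) (XT.nd (nat_lit 78) (nat_lit 228) (nat_lit 0) (XT.lf (nat_lit 0) (nat_lit 120054221) (nat_lit 304) (nat_lit 20123831368) (nat_lit 76) (nat_lit 4295654566) (nat_lit 189) (nat_lit 5) (nat_lit 193) (nat_lit 5) (nat_lit 190) (nat_lit 5) (nat_lit 395) (nat_lit 352) (nat_lit 273)) (XT.lf (nat_lit 0) (nat_lit 6074320744) (nat_lit 228) (nat_lit 5287042512) (nat_lit 304) (nat_lit 13933974307) (nat_lit 186) (nat_lit 5) (nat_lit 189) (nat_lit 5) (nat_lit 190) (nat_lit 5) (nat_lit 396) (nat_lit 352) (nat_lit 272))) (XT.nd (nat_lit 78) (nat_lit 304) (nat_lit 0) (XT.lf (nat_lit 0) (nat_lit 7919953969) (nat_lit 152) (nat_lit 15599612640) (nat_lit 228) (nat_lit 2558713365) (nat_lit 184) (nat_lit 5) (nat_lit 186) (nat_lit 5) (nat_lit 187) (nat_lit 5) (nat_lit 397) (nat_lit 352) (nat_lit 271)) (XT.lf (nat_lit 0) (nat_lit 9524603654) (nat_lit 304) (nat_lit 16970379281) (nat_lit 76) (nat_lit 393007023) (nat_lit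 180) (nat_lit 5) (nat_lit 184) (nat_lit 5) (nat_lit 181) (nat_lit 5) (nat_lit 398) (nat_lit 352) (nat_lit 270))))) (XT.nd (nat_lit 234) (nat_lit 760) (nat_lit 0) (XT.nd (nat_lit 78) (nat_lit 456) (nat_lit 0) (XT.lf (nat_lit 0) (nat_lit 12043226852) (nat_lit 152) (nat_lit 10549190073) (nat_lit 228) (nat_lit 5132011046) (nat_lit 178) (nat_lit 5) (nat_lit 180) (nat_lit 5) (nat_lit 181) (nat_lit 5) (nat_lit 399) (nat_lit 352) (nat_lit 269)) (XT.nd (nat_lit 78) (nat_lit 152) (nat_lit 0) (XT.lf (nat_lit 0) (nat_lit 7910094063) (nat_lit 304) (nat_lit 14234807212) (nat_lit 76) (nat_lit 6445074070) (nat_lit 174) (nat_lit 5) (nat_lit 178) (nat_lit 5) (nat_lit 175) (nat_lit 5) (nat_lit 400) (nat_lit 352) (nat_lit 268)) (XT.lf (nat_lit 0) (nat_lit 16846774736) (nat_lit 152) (nat_lit 5055913770) (nat_lit 228) (nat_lit 7582451564) (nat_lit 172) (nat_lit 5) (nat_lit 174) (nat_lit 5) (nat_lit 175) (nat_lit 5)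 (nat_lit 401) (nat_lit 352) (nat_lit 267)))) (XT.nd (nat_lit 156) (nat_lit 380) (nat_lit 0) (XT.nd (nat_lit 78) (nat_lit 152) (nat_lit 0) (XT.lf (nat_lit 0) (nat_lit 6486465800) (nat_lit 228) (nat_lit 10908329233) (nat_lit 76) (nat_lit 13015378382) (nat_lit 169) (nat_lit 5) (nat_lit 172) (nat_lit 5) (nat_lit 170) (nat_lit 5) (nat_lit 402) (nat_lit 352) (nat_lit 266)) (XT.lf (nat_lit 0) (nat_lit 21483386352) (nat_lit 228) (nat_lit 8980624927) (nat_lit 76) (nat_lit 903753713) (nat_lit 167) (nat_lit 5) (nat_lit 170) (nat_lit 5) (nat_lit 168) (nat_lit 5) (nat_lit 403) (nat_lit 352) (nat_lit 265))) (XT.nd (nat_lit 78) (nat_lit 152) (nat_lit 0) (XT.lf (nat_lit 0) (nat_lit 5275044164) (nat_lit 228) (nat_lit 6930484340) (nat_lit 76) (nat_lit 20150919915) (nat_lit 164) (nat_lit 5) (nat_lit 167) (nat_lit 5) (nat_lit 165) (nat_lit 5) (nat_lit 404) (nat_lit 352) (nat_lit 264)) (XT.lf (nat_lit 0) (nat_lit 21405715010)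 (nat_lit 228) (nat_lit 4689211212) (nat_lit 76) (nat_lit 7284172812) (nat_lit 162) (nat_lit 5) (nat_lit 165) (nat_lit 5) (nat_lit 163) (nat_lit 5) (nat_lit 405) (nat_lit 352) (nat_lit 263))))))))
noncomputable def xc69 : XT := (XT.nd (nat_lit 2106) (nat_lit 836) (nat_lit 0) (XT.nd (nat_lit 1014) (nat_lit 2052) (nat_lit 0) (XT.nd (nat_lit 468) (nat_lit 1064) (nat_lit 0) (XT.nd (nat_lit 234) (nat_lit 456) (nat_lit 0) (XT.nd (nat_lit 78) (nat_lit 532) (nat_lit 0) (XT.lf (nat_lit 0) (nat_lit 4299216339) (nat_lit 228) (nat_lit 2235076508) (nat_lit 76) (nat_lit 27902914897) (nat_lit 159) (nat_lit 5) (nat_lit 162) (nat_lit 5) (nat_lit 160) (nat_lit 5) (nat_lit 406) (nat_lit 352) (nat_lit 262)) (XT.nd (nat_lit 78) (nat_lit 228) (nat_lit 0) (XT.lf (nat_lit 0) (nat_lit 360629821) (nat_lit 152) (nat_lit 21293200313) (nat_lit 228) (nat_lit 13875354962) (nat_lit 155) (nat_lit 5) (nat_lit 157) (nat_lit 5) (nat_lit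 158) (nat_lit 5) (nat_lit 407) (nat_lit 352) (nat_lit 261)) (XT.lf (nat_lit 0) (nat_lit 3314972742) (nat_lit 152) (nat_lit 301527067) (nat_lit 228) (nat_lit 33043982435) (nat_lit 152) (nat_lit 5) (nat_lit 154) (nat_lit 5) (nat_lit 155) (nat_lit 5) (nat_lit 408) (nat_lit 352) (nat_lit 260)))) (XT.nd (nat_lit 78) (nat_lit 304) (nat_lit 0) (XT.lf (nat_lit 0) (nat_lit 6347190263) (nat_lit 152) (nat_lit 15963157612) (nat_lit 228) (nat_lit 15515444057) (nat_lit 150) (nat_lit 5) (nat_lit 152) (nat_lit 5) (nat_lit 153) (nat_lit 5) (nat_lit 409) (nat_lit 352) (nat_lit 259)) (XT.nd (nat_lit 78) (nat_lit 152) (nat_lit 0) (XT.lf (nat_lit 0) (nat_lit 3316483276) (nat_lit 152) (nat_lit 29302966786) (nat_lit 76) (nat_lit 6414583355) (nat_lit 148) (nat_lit 5) (nat_lit 150) (nat_lit 5) (nat_lit 149) (nat_lit 5) (nat_lit 410) (nat_lit 352) (nat_lit 258)) (XT.lf (nat_lit 0) (nat_lit 13261286060) (nat_lit 152) (nat_lit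 10103782701) (nat_lit 228) (nat_lit 16915131320) (nat_lit 146) (nat_lit 5) (nat_lit 148) (nat_lit 5) (nat_lit 149) (nat_lit 5) (nat_lit 411) (nat_lit 352) (nat_lit 257))))) (XT.nd (nat_lit 234) (nat_lit 608) (nat_lit 0) (XT.nd (nat_lit 78) (nat_lit 304) (nat_lit 0) (XT.lf (nat_lit 0) (nat_lit 3355156841) (nat_lit 152) (nat_lit 24458200788) (nat_lit 76) (nat_lit 13757014447) (nat_lit 144) (nat_lit 5) (nat_lit 146) (nat_lit 5) (nat_lit 145) (nat_lit 5) (nat_lit 412) (nat_lit 352) (nat_lit 256)) (XT.nd (nat_lit 78) (nat_lit 152) (nat_lit 0) (XT.lf (nat_lit 0) (nat_lit 21194723329) (nat_lit 152) (nat_lit 3662344096) (nat_lit 228) (nat_lit 18045922781) (nat_lit 142) (nat_lit 5) (nat_lit 144) (nat_lit 5) (nat_lit 145) (nat_lit 5) (nat_lit 413) (nat_lit 352) (nat_lit 255)) (XT.lf (nat_lit 0) (nat_lit 3764945754) (nat_lit 152) (nat_lit 18723818467) (nat_lit 76) (nat_lit 21791745124) (nat_lit 140) (nat_lit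 5) (nat_lit 142) (nat_lit 5) (nat_lit 141) (nat_lit 5) (nat_lit 414) (nat_lit 352) (nat_lit 254)))) (XT.nd (nat_lit 156) (nat_lit 304) (nat_lit 0) (XT.nd (nat_lit 78) (nat_lit 152) (nat_lit 0) (XT.lf (nat_lit 0) (nat_lit 26861873352) (nat_lit 228) (nat_lit 15490731865) (nat_lit 76) (nat_lit 3351877059) (nat_lit 138) (nat_lit 5) (nat_lit 141) (nat_lit 5) (nat_lit 139) (nat_lit 4) (nat_lit 415) (nat_lit 352) (nat_lit 253)) (XT.lf (nat_lit 0) (nat_lit 4584539643) (nat_lit 152) (nat_lit 12007493758) (nat_lit 76) (nat_lit 30584084073) (nat_lit 136) (nat_lit 5) (nat_lit 138) (nat_lit 5) (nat_lit 137) (nat_lit 5) (nat_lit 416) (nat_lit 352) (nat_lit 252))) (XT.nd (nat_lit 78) (nat_lit 152) (nat_lit 0) (XT.lf (nat_lit 0) (nat_lit 29435152594) (nat_lit 228) (nat_lit 8278419127) (nat_lit 76) (nat_lit 10982911866) (nat_lit 134) (nat_lit 5) (nat_lit 137) (nat_lit 5) (nat_lit 135) (nat_lit 4) (nat_lit 417)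 (nat_lit 352) (nat_lit 251)) (XT.lf (nat_lit 0) (nat_lit 5856293213) (nat_lit 152) (nat_lit 4208420389) (nat_lit 76) (nat_lit 40204953807) (nat_lit 132) (nat_lit 5) (nat_lit 134) (nat_lit 5) (nat_lit 133) (nat_lit 5) (nat_lit 418) (nat_lit 352) (nat_lit 250)))))) (XT.nd (nat_lit 546) (nat_lit 912) (nat_lit 0) (XT.nd (nat_lit 234) (nat_lit 608) (nat_lit 0) (XT.nd (nat_lit 78) (nat_lit 304) (nat_lit 0) (XT.lf (nat_lit 0) (nat_lit 70447892) (nat_lit 76) (nat_lit 32523402620) (nat_lit 152) (nat_lit 19299066550) (nat_lit 129) (nat_lit 5) (nat_lit 130) (nat_lit 5) (nat_lit 131) (nat_lit 4) (nat_lit 419) (nat_lit 352) (nat_lit 249)) (XT.nd (nat_lit 78) (nat_lit 76) (nat_lit 0) (XT.lf (nat_lit 0) (nat_lit 4878589283) (nat_lit 152) (nat_lit 2794855142) (nat_lit 228) (nat_lit 45899631629) (nat_lit 126) (nat_lit 5) (nat_lit 128) (nat_lit 5) (nat_lit 129) (nat_lit 5) (nat_lit 420) (nat_lit 352) (nat_lit 248))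 (XT.lf (nat_lit 0) (nat_lit 9858871559) (nat_lit 76) (nat_lit 26627971115) (nat_lit 152) (nat_lit 18817926044) (nat_lit 125) (nat_lit 5) (nat_lit 126) (nat_lit 5) (nat_lit 127) (nat_lit 4) (nat_lit 421) (nat_lit 352) (nat_lit 247)))) (XT.nd (nat_lit 156) (nat_lit 304) (nat_lit 0) (XT.nd (nat_lit 78) (nat_lit 76) (nat_lit 0) (XT.lf (nat_lit 0) (nat_lit 10144793598) (nat_lit 228) (nat_lit 41763104304) (nat_lit 76) (nat_lit 5190936290) (nat_lit 122) (nat_lit 5) (nat_lit 125) (nat_lit 5) (nat_lit 123) (nat_lit 4) (nat_lit 422) (nat_lit 352) (nat_lit 246)) (XT.lf (nat_lit 0) (nat_lit 21049665883) (nat_lit 76) (nat_lit 20045726913) (nat_lit 152) (nat_lit 17853752847) (nat_lit 121) (nat_lit 5) (nat_lit 122) (nat_lit 5) (nat_lit 123) (nat_lit 4) (nat_lit 423) (nat_lit 352) (nat_lit 245))) (XT.nd (nat_lit 78) (nat_lit 76) (nat_lit 0) (XT.lf (nat_lit 0) (nat_lit 13269925765) (nat_lit 228) (nat_lit 33634983430)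 (nat_lit 76) (nat_lit 13958913735) (nat_lit 118) (nat_lit 5) (nat_lit 121) (nat_lit 5) (nat_lit 119) (nat_lit 4) (nat_lit 424) (nat_lit 352) (nat_lit 244)) (XT.lf (nat_lit 0) (nat_lit 33781815557) (nat_lit 76) (nat_lit 12705707246) (nat_lit 152) (nat_lit 16354198860) (nat_lit 117) (nat_lit 5) (nat_lit 118) (nat_lit 5) (nat_lit 119) (nat_lit 4) (nat_lit 425) (nat_lit 352) (nat_lit 243))))) (XT.nd (nat_lit 234) (nat_lit 532) (nat_lit 0) (XT.nd (nat_lit 78) (nat_lit 228) (nat_lit 0) (XT.lf (nat_lit 0) (nat_lit 17084668953) (nat_lit 152) (nat_lit 24155081357) (nat_lit 76) (nat_lit 23645277895) (nat_lit 115) (nat_lit 5) (nat_lit 117) (nat_lit 5) (nat_lit 116) (nat_lit 4) (nat_lit 426) (nat_lit 352) (nat_lit 242)) (XT.nd (nat_lit 78) (nat_lit 152) (nat_lit 0) (XT.lf (nat_lit 0) (nat_lit 48206660753) (nat_lit 76) (nat_lit 4530660155) (nat_lit 152) (nat_lit 14261919364) (nat_lit 114) (nat_lit 5) (nat_lit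 115) (nat_lit 5) (nat_lit 116) (nat_lit 4) (nat_lit 427) (nat_lit 352) (nat_lit 241)) (XT.lf (nat_lit 0) (nat_lit 21657457778) (nat_lit 152) (nat_lit 13183531846) (nat_lit 76) (nat_lit 34338744027) (nat_lit 112) (nat_lit 5) (nat_lit 114) (nat_lit 5) (nat_lit 113) (nat_lit 4) (nat_lit 428) (nat_lit 352) (nat_lit 240)))) (XT.nd (nat_lit 156) (nat_lit 304) (nat_lit 0) (XT.nd (nat_lit 78) (nat_lit 152) (nat_lit 0) (XT.lf (nat_lit 0) (nat_lit 59969314166) (nat_lit 152) (nat_lit 6994539756) (nat_lit 0) (nat_lit 4474417501) (nat_lit 111) (nat_lit 5) (nat_lit 113) (nat_lit 4) (nat_lit 111) (nat_lit 4) (nat_lit 429) (nat_lit 352) (nat_lit 239)) (XT.lf (nat_lit 0) (nat_lit 27062953157) (nat_lit 152) (nat_lit 567802104) (nat_lit 76) (nat_lit 46135646421) (nat_lit 109) (nat_lit 5) (nat_lit 111) (nat_lit 5) (nat_lit 110) (nat_lit 4) (nat_lit 430) (nat_lit 352) (nat_lit 238))) (XT.nd (nat_lit 78) (nat_lit 152)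 (nat_lit 0) (XT.lf (nat_lit 0) (nat_lit 6613955914) (nat_lit 76) (nat_lit 61730299642) (nat_lit 76) (nat_lit 7831476513) (nat_lit 107) (nat_lit 4) (nat_lit 108) (nat_lit 5) (nat_lit 108) (nat_lit 4) (nat_lit 431) (nat_lit 352) (nat_lit 237)) (XT.lf (nat_lit 0) (nat_lit 14134172163) (nat_lit 76) (nat_lit 19384260417) (nat_lit 152) (nat_lit 45142245189) (nat_lit 105) (nat_lit 5) (nat_lit 106) (nat_lit 5) (nat_lit 107) (nat_lit 4) (nat_lit 432) (nat_lit 352) (nat_lit 236))))))) (XT.nd (nat_lit 47346) (nat_lit 0) (nat_lit 16264) (XT.nd (nat_lit 468) (nat_lit 152) (nat_lit 0) (XT.nd (nat_lit 234) (nat_lit 304) (nat_lit 0) (XT.nd (nat_lit 78) (nat_lit 304) (nat_lit 0) (XT.lf (nat_lit 0) (nat_lit 22297863149) (nat_lit 76) (nat_lit 55640776985) (nat_lit 76) (nat_lit 3293961340) (nat_lit 104) (nat_lit 4) (nat_lit 105) (nat_lit 5) (nat_lit 105) (nat_lit 4) (nat_lit 433) (nat_lit 352) (nat_lit 235)) (XT.nd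 (nat_lit 78) (nat_lit 152) (nat_lit 0) (XT.lf (nat_lit 0) (nat_lit 30878638686) (nat_lit 76) (nat_lit 10123209685) (nat_lit 152) (nat_lit 42885103076) (nat_lit 102) (nat_lit 5) (nat_lit 103) (nat_lit 5) (nat_lit 104) (nat_lit 4) (nat_lit 434) (nat_lit 352) (nat_lit 234)) (XT.lf (nat_lit 0) (nat_lit 2115845053) (nat_lit 152) (nat_lit 46542714381) (nat_lit 76) (nat_lit 37973470308) (nat_lit 100) (nat_lit 5) (nat_lit 102) (nat_lit 5) (nat_lit 101) (nat_lit 4) (nat_lit 435) (nat_lit 352) (nat_lit 233)))) (XT.nd (nat_lit 78) (nat_lit 228) (nat_lit 0) (XT.lf (nat_lit 0) (nat_lit 49608615794) (nat_lit 152) (nat_lit 39614790321) (nat_lit 0) (nat_lit 244356540) (nat_lit 99) (nat_lit 5) (nat_lit 101) (nat_lit 4) (nat_lit 99) (nat_lit 4) (nat_lit 436) (nat_lit 352) (nat_lit 232)) (XT.nd (nat_lit 78) (nat_lit 76) (nat_lit 0) (XT.lf (nat_lit 0) (nat_lit 8448915822) (nat_lit 152) (nat_lit 32219716668) (nat_lit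 76) (nat_lit 51727961168) (nat_lit 97) (nat_lit 5) (nat_lit 99) (nat_lit 5) (nat_lit 98) (nat_lit 4) (nat_lit 437) (nat_lit 352) (nat_lit 231)) (XT.lf (nat_lit 0) (nat_lit 59552747059) (nat_lit 152) (nat_lit 24257663738) (nat_lit 0) (nat_lit 11613474650) (nat_lit 96) (nat_lit 5) (nat_lit 98) (nat_lit 4) (nat_lit 96) (nat_lit 4) (nat_lit 438) (nat_lit 352) (nat_lit 230))))) (XT.nd (nat_lit 46566) (nat_lit 0) (nat_lit 23864) (XT.nd (nat_lit 46410) (nat_lit 0) (nat_lit 24852) (XT.lf (nat_lit 0) (nat_lit 15868801854) (nat_lit 152) (nat_lit 15731554523) (nat_lit 76) (nat_lit 66951632890) (nat_lit 94) (nat_lit 5) (nat_lit 96) (nat_lit 5) (nat_lit 95) (nat_lit 4) (nat_lit 439) (nat_lit 352) (nat_lit 229)) (XT.nd (nat_lit 78) (nat_lit 0) (nat_lit 0) (XT.lf (nat_lit 0) (nat_lit 1043299697) (nat_lit 0) (nat_lit 1043299697) (nat_lit 988) (nat_lit 2111054888) (nat_lit 421) (nat_lit 5) (nat_lit 421) (nat_lit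 3) (nat_lit 434) (nat_lit 3) (nat_lit 353) (nat_lit 353) (nat_lit 314)) (XT.lf (nat_lit 76) (nat_lit 675533013) (nat_lit 0) (nat_lit 5402078019) (nat_lit 1064) (nat_lit 2473577780) (nat_lit 422) (nat_lit 5) (nat_lit 421) (nat_lit 5) (nat_lit 435) (nat_lit 5) (nat_lit 354) (nat_lit 353) (nat_lit 313)))) (XT.nd (nat_lit 156) (nat_lit 0) (nat_lit 76) (XT.nd (nat_lit 78) (nat_lit 1064) (nat_lit 0) (XT.lf (nat_lit 0) (nat_lit 8050224859) (nat_lit 988) (nat_lit 657956720) (nat_lit 1064) (nat_lit 7492062) (nat_lit 422) (nat_lit 5) (nat_lit 435) (nat_lit 5) (nat_lit 436) (nat_lit 5) (nat_lit 355) (nat_lit 353) (nat_lit 312)) (XT.lf (nat_lit 0) (nat_lit 1223349989) (nat_lit 1064) (nat_lit 1960752244) (nat_lit 1140) (nat_lit 5703495125) (nat_lit 408) (nat_lit 5) (nat_lit 422) (nat_lit 5) (nat_lit 423) (nat_lit 5) (nat_lit 356) (nat_lit 353) (nat_lit 311))) (XT.nd (nat_lit 78) (nat_lit 0) (nat_lit 0) (XT.lf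 (nat_lit 0) (nat_lit 3179029909) (nat_lit 1064) (nat_lit 3213223873) (nat_lit 1140) (nat_lit 2676079709) (nat_lit 409) (nat_lit 5) (nat_lit 423) (nat_lit 5) (nat_lit 424) (nat_lit 5) (nat_lit 357) (nat_lit 353) (nat_lit 310)) (XT.lf (nat_lit 76) (nat_lit 4843270965) (nat_lit 0) (nat_lit 389473610) (nat_lit 1140) (nat_lit 4025354332) (nat_lit 410) (nat_lit 5) (nat_lit 409) (nat_lit 5) (nat_lit 424) (nat_lit 5) (nat_lit 358) (nat_lit 353) (nat_lit 309)))))) (XT.nd (nat_lit 546) (nat_lit 4408) (nat_lit 0) (XT.nd (nat_lit 234) (nat_lit 2280) (nat_lit 0) (XT.nd (nat_lit 78) (nat_lit 1064) (nat_lit 0) (XT.lf (nat_lit 76) (nat_lit 3866196154) (nat_lit 0) (nat_lit 3555952678) (nat_lit 1140) (nat_lit 2034213648) (nat_lit 411) (nat_lit 5) (nat_lit 410) (nat_lit 5) (nat_lit 425) (nat_lit 5) (nat_lit 359) (nat_lit 353) (nat_lit 308)) (XT.nd (nat_lit 78) (nat_lit 0) (nat_lit 0) (XT.lf (nat_lit 0) (nat_lit 70636824)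 (nat_lit 1140) (nat_lit 6714985538) (nat_lit 1216) (nat_lit 2878442931) (nat_lit 396) (nat_lit 5) (nat_lit 411) (nat_lit 5) (nat_lit 412) (nat_lit 5) (nat_lit 360) (nat_lit 353) (nat_lit 307)) (XT.lf (nat_lit 76) (nat_lit 2068669326) (nat_lit 0) (nat_lit 196827258) (nat_lit 1216) (nat_lit 7615247318) (nat_lit 397) (nat_lit 5) (nat_lit 396) (nat_lit 5) (nat_lit 412) (nat_lit 5) (nat_lit 361) (nat_lit 353) (nat_lit 306)))) (XT.nd (nat_lit 156) (nat_lit 1292) (nat_lit 0) (XT.nd (nat_lit 78) (nat_lit 1064) (nat_lit 0) (XT.lf (nat_lit 76) (nat_lit 1216914051) (nat_lit 0) (nat_lit 3415587801) (nat_lit 1216) (nat_lit 5473882514) (nat_lit 398) (nat_lit 5) (nat_lit 397) (nat_lit 5) (nat_lit 413) (nat_lit 5) (nat_lit 362) (nat_lit 353) (nat_lit 305)) (XT.lf (nat_lit 0) (nat_lit 423013174) (nat_lit 1140) (nat_lit 6736251640) (nat_lit 1216) (nat_lit 3182799817) (nat_lit 383) (nat_lit 5) (nat_lit 398) (nat_lit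 5) (nat_lit 399) (nat_lit 5) (nat_lit 363) (nat_lit 353) (nat_lit 304))) (XT.nd (nat_lit 78) (nat_lit 1292) (nat_lit 0) (XT.lf (nat_lit 0) (nat_lit 9865071445) (nat_lit 1216) (nat_lit 306301513) (nat_lit 76) (nat_lit 416574786) (nat_lit 383) (nat_lit 5) (nat_lit 399) (nat_lit 5) (nat_lit 384) (nat_lit 5) (nat_lit 364) (nat_lit 353) (nat_lit 303)) (XT.lf (nat_lit 0) (nat_lit 1914016234) (nat_lit 1292) (nat_lit 1016015769) (nat_lit 76) (nat_lit 7912848541) (nat_lit 366) (nat_lit 5) (nat_lit 383) (nat_lit 5) (nat_lit 367) (nat_lit 5) (nat_lit 365) (nat_lit 353) (nat_lit 302))))) (XT.nd (nat_lit 234) (nat_lit 2356) (nat_lit 0) (XT.nd (nat_lit 78) (nat_lit 1216) (nat_lit 0) (XT.lf (nat_lit 0) (nat_lit 4737133181) (nat_lit 912) (nat_lit 1680023182) (nat_lit 76) (nat_lit 4691109008) (nat_lit 355) (nat_lit 5) (nat_lit 367) (nat_lit 5) (nat_lit 356) (nat_lit 5) (nat_lit 366) (nat_lit 353) (nat_lit 301))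 (XT.nd (nat_lit 78) (nat_lit 608) (nat_lit 0) (XT.lf (nat_lit 0) (nat_lit 7773896741) (nat_lit 684) (nat_lit 2285483940) (nat_lit 76) (nat_lit 1325364035) (nat_lit 347) (nat_lit 5) (nat_lit 356) (nat_lit 5) (nat_lit 348) (nat_lit 5) (nat_lit 367) (nat_lit 353) (nat_lit 300)) (XT.lf (nat_lit 0) (nat_lit 8820289270) (nat_lit 608) (nat_lit 2243664364) (nat_lit 684) (nat_lit 608050741) (nat_lit 339) (nat_lit 5) (nat_lit 347) (nat_lit 5) (nat_lit 348) (nat_lit 5) (nat_lit 368) (nat_lit 353) (nat_lit 299)))) (XT.nd (nat_lit 156) (nat_lit 1140) (nat_lit 0) (XT.nd (nat_lit 78) (nat_lit 608) (nat_lit 0) (XT.lf (nat_lit 0) (nat_lit 2596933350) (nat_lit 608) (nat_lit 3394582498) (nat_lit 76) (nat_lit 5978326071) (nat_lit 331) (nat_lit 5) (nat_lit 339) (nat_lit 5) (nat_lit 332) (nat_lit 5) (nat_lit 369) (nat_lit 353) (nat_lit 298)) (XT.lf (nat_lit 0) (nat_lit 6044782422) (nat_lit 684) (nat_lit 3880898961)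 (nat_lit 76) (nat_lit 2353853613) (nat_lit 323) (nat_lit 5) (nat_lit 332) (nat_lit 5) (nat_lit 324) (nat_lit 5) (nat_lit 370) (nat_lit 353) (nat_lit 297))) (XT.nd (nat_lit 78) (nat_lit 608) (nat_lit 0) (XT.lf (nat_lit 0) (nat_lit 8285400092) (nat_lit 532) (nat_lit 1496057554) (nat_lit 608) (nat_lit 2819762068) (nat_lit 316) (nat_lit 5) (nat_lit 323) (nat_lit 5) (nat_lit 324) (nat_lit 5) (nat_lit 371) (nat_lit 353) (nat_lit 296)) (XT.lf (nat_lit 0) (nat_lit 885677553) (nat_lit 608) (nat_lit 4714926144) (nat_lit 76) (nat_lit 7334124682) (nat_lit 308) (nat_lit 5) (nat_lit 316) (nat_lit 5) (nat_lit 309) (nat_lit 5) (nat_lit 372) (nat_lit 353) (nat_lit 295))))))))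
noncomputable def xc70 : XT := (XT.nd (nat_lit 2106) (nat_lit 4788) (nat_lit 0) (XT.nd (nat_lit 1014) (nat_lit 4180) (nat_lit 0) (XT.nd (nat_lit 468) (nat_lit 2736) (nat_lit 0) (XT.nd (nat_lit 234) (nat_lit 1368) (nat_lit 0) (XT.nd (nat_lit 78) (nat_lit 988) (nat_lit 0) (XT.lf (nat_lit 0) (nat_lit 4835622883) (nat_lit 532) (nat_lit 5072271773) (nat_lit 76) (nat_lit 3372653748) (nat_lit 302) (nat_lit 5) (nat_lit 309) (nat_lit 5) (nat_lit 303) (nat_lit 5) (nat_lit 373) (nat_lit 353) (nat_lit 294)) (XT.nd (nat_lit 78) (nat_lit 456) (nat_lit 0) (XT.lf (nat_lit 0) (nat_lit 8275420145) (nat_lit 532) (nat_lit 839444388) (nat_lit 608) (nat_lit 4524840924) (nat_lit 295) (nat_lit 5) (nat_lit 302) (nat_lit 5) (nat_lit 303) (nat_lit 5) (nat_lit 374) (nat_lit 353) (nat_lit 293)) (XT.lf (nat_lit 0) (nat_lit 8398487583) (nat_lit 456) (nat_lit 5375064837) (nat_lit 532) (nat_lit 238303419) (nat_lit 289) (nat_lit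 5) (nat_lit 295) (nat_lit 5) (nat_lit 296) (nat_lit 5) (nat_lit 375) (nat_lit 353) (nat_lit 292)))) (XT.nd (nat_lit 78) (nat_lit 836) (nat_lit 0) (XT.lf (nat_lit 0) (nat_lit 4318110402) (nat_lit 532) (nat_lit 5823363962) (nat_lit 76) (nat_lit 4255748324) (nat_lit 282) (nat_lit 5) (nat_lit 289) (nat_lit 5) (nat_lit 283) (nat_lit 5) (nat_lit 376) (nat_lit 353) (nat_lit 291)) (XT.nd (nat_lit 78) (nat_lit 456) (nat_lit 0) (XT.lf (nat_lit 0) (nat_lit 8841507072) (nat_lit 380) (nat_lit 405180655) (nat_lit 456) (nat_lit 5550621231) (nat_lit 277) (nat_lit 5) (nat_lit 282) (nat_lit 5) (nat_lit 283) (nat_lit 5) (nat_lit 377) (nat_lit 353) (nat_lit 290)) (XT.lf (nat_lit 0) (nat_lit 9168724480) (nat_lit 456) (nat_lit 5449252449) (nat_lit 532) (nat_lit 593534123) (nat_lit 271) (nat_lit 5) (nat_lit 277) (nat_lit 5) (nat_lit 278) (nat_lit 5) (nat_lit 378) (nat_lit 353) (nat_lit 289))))) (XT.nd (nat_lit 234) (nat_lit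 1444) (nat_lit 0) (XT.nd (nat_lit 78) (nat_lit 836) (nat_lit 0) (XT.lf (nat_lit 0) (nat_lit 4682035241) (nat_lit 456) (nat_lit 6081801318) (nat_lit 76) (nat_lit 4876438470) (nat_lit 265) (nat_lit 5) (nat_lit 271) (nat_lit 5) (nat_lit 266) (nat_lit 5) (nat_lit 379) (nat_lit 353) (nat_lit 288)) (XT.nd (nat_lit 78) (nat_lit 456) (nat_lit 0) (XT.lf (nat_lit 0) (nat_lit 10052465108) (nat_lit 380) (nat_lit 327121908) (nat_lit 456) (nat_lit 5705599515) (nat_lit 260) (nat_lit 5) (nat_lit 265) (nat_lit 5) (nat_lit 266) (nat_lit 5) (nat_lit 380) (nat_lit 353) (nat_lit 287)) (XT.lf (nat_lit 0) (nat_lit 40385867) (nat_lit 456) (nat_lit 5930567728) (nat_lit 76) (nat_lit 10574634927) (nat_lit 254) (nat_lit 5) (nat_lit 260) (nat_lit 5) (nat_lit 255) (nat_lit 5) (nat_lit 381) (nat_lit 353) (nat_lit 286)))) (XT.nd (nat_lit 156) (nat_lit 760) (nat_lit 0) (XT.nd (nat_lit 78) (nat_lit 304) (nat_lit 0) (XT.lf (nat_lit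 0) (nat_lit 6139776326) (nat_lit 456) (nat_lit 5778471036) (nat_lit 76) (nat_lit 5103545328) (nat_lit 249) (nat_lit 5) (nat_lit 255) (nat_lit 5) (nat_lit 250) (nat_lit 5) (nat_lit 382) (nat_lit 353) (nat_lit 285)) (XT.lf (nat_lit 0) (nat_lit 11995574239) (nat_lit 304) (nat_lit 745457832) (nat_lit 380) (nat_lit 4774868121) (nat_lit 245) (nat_lit 5) (nat_lit 249) (nat_lit 5) (nat_lit 250) (nat_lit 5) (nat_lit 383) (nat_lit 353) (nat_lit 284))) (XT.nd (nat_lit 78) (nat_lit 304) (nat_lit 0) (XT.lf (nat_lit 0) (nat_lit 1858084397) (nat_lit 456) (nat_lit 5211901168) (nat_lit 76) (nat_lit 10956683154) (nat_lit 239) (nat_lit 5) (nat_lit 245) (nat_lit 5) (nat_lit 240) (nat_lit 5) (nat_lit 384) (nat_lit 353) (nat_lit 283)) (XT.lf (nat_lit 0) (nat_lit 8931082361) (nat_lit 380) (nat_lit 4826504572) (nat_lit 76) (nat_lit 4797755979) (nat_lit 235) (nat_lit 5) (nat_lit 240) (nat_lit 5) (nat_lit 236) (nat_lit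 5) (nat_lit 385) (nat_lit 353) (nat_lit 282)))))) (XT.nd (nat_lit 546) (nat_lit 1748) (nat_lit 0) (XT.nd (nat_lit 234) (nat_lit 1444) (nat_lit 0) (XT.nd (nat_lit 78) (nat_lit 684) (nat_lit 0) (XT.lf (nat_lit 0) (nat_lit 14777852026) (nat_lit 304) (nat_lit 1810445273) (nat_lit 380) (nat_lit 2515236502) (nat_lit 231) (nat_lit 5) (nat_lit 235) (nat_lit 5) (nat_lit 236) (nat_lit 5) (nat_lit 386) (nat_lit 353) (nat_lit 281)) (XT.nd (nat_lit 78) (nat_lit 304) (nat_lit 0) (XT.lf (nat_lit 0) (nat_lit 5125954061) (nat_lit 380) (nat_lit 3782916479) (nat_lit 76) (nat_lit 10760637659) (nat_lit 226) (nat_lit 5) (nat_lit 231) (nat_lit 5) (nat_lit 227) (nat_lit 5) (nat_lit 387) (nat_lit 353) (nat_lit 280)) (XT.lf (nat_lit 0) (nat_lit 13328242558) (nat_lit 380) (nat_lit 3119850861) (nat_lit 76) (nat_lit 3808009077) (nat_lit 222) (nat_lit 5) (nat_lit 227) (nat_lit 5) (nat_lit 223) (nat_lit 5) (nat_lit 388) (nat_lit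 353) (nat_lit 279)))) (XT.nd (nat_lit 156) (nat_lit 836) (nat_lit 0) (XT.nd (nat_lit 78) (nat_lit 304) (nat_lit 0) (XT.lf (nat_lit 0) (nat_lit 1323715352) (nat_lit 304) (nat_lit 2349059577) (nat_lit 76) (nat_lit 17190664942) (nat_lit 218) (nat_lit 5) (nat_lit 222) (nat_lit 5) (nat_lit 219) (nat_lit 5) (nat_lit 389) (nat_lit 353) (nat_lit 278)) (XT.lf (nat_lit 0) (nat_lit 10134307748) (nat_lit 380) (nat_lit 1525246759) (nat_lit 76) (nat_lit 9830840316) (nat_lit 214) (nat_lit 5) (nat_lit 219) (nat_lit 5) (nat_lit 215) (nat_lit 5) (nat_lit 390) (nat_lit 353) (nat_lit 277))) (XT.nd (nat_lit 78) (nat_lit 608) (nat_lit 0) (XT.lf (nat_lit 0) (nat_lit 19641748058) (nat_lit 304) (nat_lit 531434095) (nat_lit 76) (nat_lit 1967825819) (nat_lit 211) (nat_lit 5) (nat_lit 215) (nat_lit 5) (nat_lit 212) (nat_lit 5) (nat_lit 391) (nat_lit 353) (nat_lit 276)) (XT.lf (nat_lit 0) (nat_lit 524561028) (nat_lit 228)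 (nat_lit 6478375443) (nat_lit 304) (nat_lit 15809197368) (nat_lit 203) (nat_lit 5) (nat_lit 206) (nat_lit 5) (nat_lit 207) (nat_lit 5) (nat_lit 392) (nat_lit 353) (nat_lit 275))))) (XT.nd (nat_lit 234) (nat_lit 988) (nat_lit 0) (XT.nd (nat_lit 78) (nat_lit 532) (nat_lit 0) (XT.lf (nat_lit 0) (nat_lit 1735641026) (nat_lit 228) (nat_lit 15495968867) (nat_lit 304) (nat_lit 6275372078) (nat_lit 200) (nat_lit 5) (nat_lit 203) (nat_lit 5) (nat_lit 204) (nat_lit 5) (nat_lit 393) (nat_lit 353) (nat_lit 274)) (XT.nd (nat_lit 78) (nat_lit 228) (nat_lit 0) (XT.lf (nat_lit 0) (nat_lit 3102232642) (nat_lit 228) (nat_lit 856196625) (nat_lit 304) (nat_lit 20268180981) (nat_lit 196) (nat_lit 5) (nat_lit 199) (nat_lit 5) (nat_lit 200) (nat_lit 5) (nat_lit 394) (nat_lit 353) (nat_lit 273)) (XT.lf (nat_lit 0) (nat_lit 4532237932) (nat_lit 228) (nat_lit 10422600742) (nat_lit 304) (nat_lit 10014096224) (nat_lit 193)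 (nat_lit 5) (nat_lit 196) (nat_lit 5) (nat_lit 197) (nat_lit 5) (nat_lit 395) (nat_lit 353) (nat_lit 272)))) (XT.nd (nat_lit 156) (nat_lit 456) (nat_lit 0) (XT.nd (nat_lit 78) (nat_lit 228) (nat_lit 0) (XT.lf (nat_lit 0) (nat_lit 1047093822) (nat_lit 304) (nat_lit 19565138705) (nat_lit 76) (nat_lit 5126653529) (nat_lit 189) (nat_lit 5) (nat_lit 193) (nat_lit 5) (nat_lit 190) (nat_lit 5) (nat_lit 396) (nat_lit 353) (nat_lit 271)) (XT.lf (nat_lit 0) (nat_lit 7898063920) (nat_lit 228) (nat_lit 4923156919) (nat_lit 304) (nat_lit 13712129919) (nat_lit 186) (nat_lit 5) (nat_lit 189) (nat_lit 5) (nat_lit 190) (nat_lit 5) (nat_lit 397) (nat_lit 353) (nat_lit 270))) (XT.nd (nat_lit 78) (nat_lit 304) (nat_lit 0) (XT.lf (nat_lit 0) (nat_lit 9812528429) (nat_lit 152) (nat_lit 15752477213) (nat_lit 228) (nat_lit 1791104509) (nat_lit 184) (nat_lit 5) (nat_lit 186) (nat_lit 5) (nat_lit 187) (nat_lit 5) (nat_lit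 398) (nat_lit 353) (nat_lit 269)) (XT.lf (nat_lit 0) (nat_lit 10857189356) (nat_lit 304) (nat_lit 16328696693) (nat_lit 76) (nat_lit 1020812741) (nat_lit 180) (nat_lit 5) (nat_lit 184) (nat_lit 5) (nat_lit 181) (nat_lit 5) (nat_lit 399) (nat_lit 353) (nat_lit 268))))))) (XT.nd (nat_lit 1014) (nat_lit 2204) (nat_lit 0) (XT.nd (nat_lit 468) (nat_lit 1368) (nat_lit 0) (XT.nd (nat_lit 234) (nat_lit 608) (nat_lit 0) (XT.nd (nat_lit 78) (nat_lit 456) (nat_lit 0) (XT.lf (nat_lit 0) (nat_lit 14092873418) (nat_lit 152) (nat_lit 10458655152) (nat_lit 228) (nat_lit 4534236076) (nat_lit 178) (nat_lit 5) (nat_lit 180) (nat_lit 5) (nat_lit 181) (nat_lit 5) (nat_lit 400) (nat_lit 353) (nat_lit 267)) (XT.nd (nat_lit 78) (nat_lit 152) (nat_lit 0) (XT.lf (nat_lit 0) (nat_lit 9122953090) (nat_lit 304) (nat_lit 13505886117) (nat_lit 76) (nat_lit 7366114276) (nat_lit 174) (nat_lit 5) (nat_lit 178) (nat_lit 5) (nat_lit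 175) (nat_lit 5) (nat_lit 401) (nat_lit 353) (nat_lit 266)) (XT.lf (nat_lit 0) (nat_lit 19088478657) (nat_lit 152) (nat_lit 4701228517) (nat_lit 228) (nat_lit 7145933372) (nat_lit 172) (nat_lit 5) (nat_lit 174) (nat_lit 5) (nat_lit 175) (nat_lit 5) (nat_lit 402) (nat_lit 353) (nat_lit 265)))) (XT.nd (nat_lit 78) (nat_lit 380) (nat_lit 0) (XT.lf (nat_lit 0) (nat_lit 7591412398) (nat_lit 228) (nat_lit 10061553638) (nat_lit 76) (nat_lit 14254297351) (nat_lit 169) (nat_lit 5) (nat_lit 172) (nat_lit 5) (nat_lit 170) (nat_lit 5) (nat_lit 403) (nat_lit 353) (nat_lit 264)) (XT.nd (nat_lit 78) (nat_lit 228) (nat_lit 0) (XT.lf (nat_lit 0) (nat_lit 23319732966) (nat_lit 228) (nat_lit 8060405064) (nat_lit 76) (nat_lit 1533149894) (nat_lit 167) (nat_lit 5) (nat_lit 170) (nat_lit 5) (nat_lit 168) (nat_lit 5) (nat_lit 404) (nat_lit 353) (nat_lit 263)) (XT.lf (nat_lit 0) (nat_lit 6284777846) (nat_lit 228) (nat_lit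 5932160262) (nat_lit 76) (nat_lit 21734953288) (nat_lit 164) (nat_lit 5) (nat_lit 167) (nat_lit 5) (nat_lit 165) (nat_lit 5) (nat_lit 405) (nat_lit 353) (nat_lit 262))))) (XT.nd (nat_lit 234) (nat_lit 684) (nat_lit 0) (XT.nd (nat_lit 78) (nat_lit 532) (nat_lit 0) (XT.lf (nat_lit 0) (nat_lit 23204623121) (nat_lit 228) (nat_lit 3601289692) (nat_lit 76) (nat_lit 8220282502) (nat_lit 162) (nat_lit 5) (nat_lit 165) (nat_lit 5) (nat_lit 163) (nat_lit 5) (nat_lit 406) (nat_lit 353) (nat_lit 261)) (XT.nd (nat_lit 78) (nat_lit 304) (nat_lit 0) (XT.lf (nat_lit 0) (nat_lit 5227443188) (nat_lit 228) (nat_lit 1048158677) (nat_lit 76) (nat_lit 29862068285) (nat_lit 159) (nat_lit 5) (nat_lit 162) (nat_lit 5) (nat_lit 160) (nat_lit 5) (nat_lit 407) (nat_lit 353) (nat_lit 260)) (XT.lf (nat_lit 0) (nat_lit 1680779252) (nat_lit 152) (nat_lit 21765165281) (nat_lit 228) (nat_lit 13838417132) (nat_lit 155) (nat_lit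 5) (nat_lit 157) (nat_lit 5) (nat_lit 158) (nat_lit 5) (nat_lit 408) (nat_lit 353) (nat_lit 259)))) (XT.nd (nat_lit 156) (nat_lit 304) (nat_lit 0) (XT.nd (nat_lit 78) (nat_lit 152) (nat_lit 0) (XT.lf (nat_lit 0) (nat_lit 4494516848) (nat_lit 228) (nat_lit 33715873955) (nat_lit 76) (nat_lit 262199793) (nat_lit 152) (nat_lit 5) (nat_lit 155) (nat_lit 5) (nat_lit 153) (nat_lit 5) (nat_lit 409) (nat_lit 353) (nat_lit 258)) (XT.lf (nat_lit 0) (nat_lit 7921328957) (nat_lit 152) (nat_lit 16183508131) (nat_lit 228) (nat_lit 15591875286) (nat_lit 150) (nat_lit 5) (nat_lit 152) (nat_lit 5) (nat_lit 153) (nat_lit 5) (nat_lit 410) (nat_lit 353) (nat_lit 257))) (XT.nd (nat_lit 78) (nat_lit 152) (nat_lit 0) (XT.lf (nat_lit 0) (nat_lit 4152682282) (nat_lit 152) (nat_lit 29519629244) (nat_lit 76) (nat_lit 7293312318) (nat_lit 148) (nat_lit 5) (nat_lit 150) (nat_lit 5) (nat_lit 149) (nat_lit 5) (nat_lit 411) (nat_lit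 353) (nat_lit 256)) (XT.lf (nat_lit 0) (nat_lit 15137048648) (nat_lit 152) (nat_lit 10046382979) (nat_lit 228) (nat_lit 17091275176) (nat_lit 146) (nat_lit 5) (nat_lit 148) (nat_lit 5) (nat_lit 149) (nat_lit 5) (nat_lit 412) (nat_lit 353) (nat_lit 255)))))) (XT.nd (nat_lit 546) (nat_lit 1140) (nat_lit 0) (XT.nd (nat_lit 234) (nat_lit 608) (nat_lit 0) (XT.nd (nat_lit 78) (nat_lit 304) (nat_lit 0) (XT.lf (nat_lit 0) (nat_lit 4164966224) (nat_lit 152) (nat_lit 24476704916) (nat_lit 76) (nat_lit 14987957993) (nat_lit 144) (nat_lit 5) (nat_lit 146) (nat_lit 5) (nat_lit 145) (nat_lit 5) (nat_lit 413) (nat_lit 353) (nat_lit 254)) (XT.nd (nat_lit 78) (nat_lit 152) (nat_lit 0) (XT.lf (nat_lit 0) (nat_lit 23424341353) (nat_lit 152) (nat_lit 3298302722) (nat_lit 228) (nat_lit 18306813943) (nat_lit 142) (nat_lit 5) (nat_lit 144) (nat_lit 5) (nat_lit 145) (nat_lit 5) (nat_lit 414) (nat_lit 353) (nat_lit 253))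 (XT.lf (nat_lit 0) (nat_lit 4568351551) (nat_lit 152) (nat_lit 18498381767) (nat_lit 76) (nat_lit 23409346739) (nat_lit 140) (nat_lit 5) (nat_lit 142) (nat_lit 5) (nat_lit 141) (nat_lit 5) (nat_lit 415) (nat_lit 353) (nat_lit 252)))) (XT.nd (nat_lit 156) (nat_lit 304) (nat_lit 0) (XT.nd (nat_lit 78) (nat_lit 152) (nat_lit 0) (XT.lf (nat_lit 0) (nat_lit 28806788704) (nat_lit 228) (nat_lit 15124147555) (nat_lit 76) (nat_lit 4040715481) (nat_lit 138) (nat_lit 5) (nat_lit 141) (nat_lit 5) (nat_lit 139) (nat_lit 4) (nat_lit 416) (nat_lit 353) (nat_lit 251)) (XT.lf (nat_lit 0) (nat_lit 5403365236) (nat_lit 152) (nat_lit 11487723376) (nat_lit 76) (nat_lit 32626146778) (nat_lit 136) (nat_lit 5) (nat_lit 138) (nat_lit 5) (nat_lit 137) (nat_lit 5) (nat_lit 417) (nat_lit 353) (nat_lit 250))) (XT.nd (nat_lit 78) (nat_lit 152) (nat_lit 0) (XT.lf (nat_lit 0) (nat_lit 31483852217) (nat_lit 228) (nat_lit 7592104942)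 (nat_lit 76) (nat_lit 12038042348) (nat_lit 134) (nat_lit 5) (nat_lit 137) (nat_lit 5) (nat_lit 135) (nat_lit 4) (nat_lit 418) (nat_lit 353) (nat_lit 249)) (XT.lf (nat_lit 0) (nat_lit 6714391404) (nat_lit 152) (nat_lit 3338894036) (nat_lit 76) (nat_lit 42712906833) (nat_lit 132) (nat_lit 5) (nat_lit 134) (nat_lit 5) (nat_lit 133) (nat_lit 5) (nat_lit 419) (nat_lit 353) (nat_lit 248))))) (XT.nd (nat_lit 234) (nat_lit 608) (nat_lit 0) (XT.nd (nat_lit 78) (nat_lit 304) (nat_lit 0) (XT.lf (nat_lit 0) (nat_lit 1155711805) (nat_lit 76) (nat_lit 33631489920) (nat_lit 152) (nat_lit 19683451430) (nat_lit 129) (nat_lit 5) (nat_lit 130) (nat_lit 5) (nat_lit 131) (nat_lit 4) (nat_lit 420) (nat_lit 353) (nat_lit 247)) (XT.nd (nat_lit 78) (nat_lit 76) (nat_lit 0) (XT.lf (nat_lit 0) (nat_lit 6184256601) (nat_lit 152) (nat_lit 2425198945) (nat_lit 228) (nat_lit 47625704144) (nat_lit 126) (nat_lit 5) (nat_lit 128)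 (nat_lit 5) (nat_lit 129) (nat_lit 5) (nat_lit 421) (nat_lit 353) (nat_lit 246)) (XT.lf (nat_lit 0) (nat_lit 11394457382) (nat_lit 76) (nat_lit 27457450469) (nat_lit 152) (nat_lit 19201877612) (nat_lit 125) (nat_lit 5) (nat_lit 126) (nat_lit 5) (nat_lit 127) (nat_lit 4) (nat_lit 422) (nat_lit 353) (nat_lit 245)))) (XT.nd (nat_lit 156) (nat_lit 304) (nat_lit 0) (XT.nd (nat_lit 78) (nat_lit 76) (nat_lit 0) (XT.lf (nat_lit 0) (nat_lit 11186685937) (nat_lit 228) (nat_lit 42816793522) (nat_lit 76) (nat_lit 5934256863) (nat_lit 122) (nat_lit 5) (nat_lit 125) (nat_lit 5) (nat_lit 123) (nat_lit 4) (nat_lit 423) (nat_lit 353) (nat_lit 244)) (XT.lf (nat_lit 0) (nat_lit 23106962413) (nat_lit 76) (nat_lit 20562051910) (nat_lit 152) (nat_lit 18212023045) (nat_lit 121) (nat_lit 5) (nat_lit 122) (nat_lit 5) (nat_lit 123) (nat_lit 4) (nat_lit 424) (nat_lit 353) (nat_lit 243))) (XT.nd (nat_lit 78) (nat_lit 76)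 (nat_lit 0) (XT.lf (nat_lit 0) (nat_lit 14446529819) (nat_lit 228) (nat_lit 34319928365) (nat_lit 76) (nat_lit 15125162660) (nat_lit 118) (nat_lit 5) (nat_lit 121) (nat_lit 5) (nat_lit 119) (nat_lit 4) (nat_lit 425) (nat_lit 353) (nat_lit 242)) (XT.lf (nat_lit 0) (nat_lit 36439137378) (nat_lit 76) (nat_lit 12870742856) (nat_lit 152) (nat_lit 16658988073) (nat_lit 117) (nat_lit 5) (nat_lit 118) (nat_lit 5) (nat_lit 119) (nat_lit 4) (nat_lit 426) (nat_lit 353) (nat_lit 241))))))))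
noncomputable def xc71 : XT := (XT.nd (nat_lit 48594) (nat_lit 0) (nat_lit 7524) (XT.nd (nat_lit 47502) (nat_lit 0) (nat_lit 19000) (XT.nd (nat_lit 468) (nat_lit 760) (nat_lit 0) (XT.nd (nat_lit 234) (nat_lit 380) (nat_lit 0) (XT.nd (nat_lit 78) (nat_lit 228) (nat_lit 0) (XT.lf (nat_lit 0) (nat_lit 18431441913) (nat_lit 152) (nat_lit 24402435580) (nat_lit 76) (nat_lit 25280625937) (nat_lit 115) (nat_lit 5) (nat_lit 117) (nat_lit 5) (nat_lit 116) (nat_lit 4) (nat_lit 427) (nat_lit 353) (nat_lit 240)) (XT.nd (nat_lit 78) (nat_lit 152) (nat_lit 0) (XT.lf (nat_lit 0) (nat_lit 51549863967) (nat_lit 76) (nat_lit 4302375556) (nat_lit 152) (nat_lit 14482621186) (nat_lit 114) (nat_lit 5) (nat_lit 115) (nat_lit 5) (nat_lit 116) (nat_lit 4) (nat_lit 428) (nat_lit 353) (nat_lit 239)) (XT.lf (nat_lit 0) (nat_lit 23213222174) (nat_lit 152) (nat_lit 12917483515) (nat_lit 76) (nat_lit 36493827900) (nat_lit 112)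 (nat_lit 5) (nat_lit 114) (nat_lit 5) (nat_lit 113) (nat_lit 4) (nat_lit 429) (nat_lit 353) (nat_lit 238)))) (XT.nd (nat_lit 78) (nat_lit 304) (nat_lit 0) (XT.lf (nat_lit 0) (nat_lit 63431018213) (nat_lit 152) (nat_lit 6436019441) (nat_lit 0) (nat_lit 5129250191) (nat_lit 111) (nat_lit 5) (nat_lit 113) (nat_lit 4) (nat_lit 111) (nat_lit 4) (nat_lit 430) (nat_lit 353) (nat_lit 237)) (XT.nd (nat_lit 78) (nat_lit 76) (nat_lit 0) (XT.lf (nat_lit 0) (nat_lit 300930317) (nat_lit 76) (nat_lit 28572175037) (nat_lit 152) (nat_lit 48567906276) (nat_lit 108) (nat_lit 5) (nat_lit 109) (nat_lit 5) (nat_lit 110) (nat_lit 4) (nat_lit 431) (nat_lit 353) (nat_lit 236)) (XT.lf (nat_lit 0) (nat_lit 7836907512) (nat_lit 76) (nat_lit 64378031155) (nat_lit 76) (nat_lit 7755975896) (nat_lit 107) (nat_lit 4) (nat_lit 108) (nat_lit 5) (nat_lit 108) (nat_lit 4) (nat_lit 432) (nat_lit 353) (nat_lit 235))))) (XT.nd (nat_lit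 234) (nat_lit 380) (nat_lit 0) (XT.nd (nat_lit 78) (nat_lit 228) (nat_lit 0) (XT.lf (nat_lit 0) (nat_lit 15716411342) (nat_lit 76) (nat_lit 19922511515) (nat_lit 152) (nat_lit 46941451741) (nat_lit 105) (nat_lit 5) (nat_lit 106) (nat_lit 5) (nat_lit 107) (nat_lit 4) (nat_lit 433) (nat_lit 353) (nat_lit 234)) (XT.nd (nat_lit 78) (nat_lit 152) (nat_lit 0) (XT.lf (nat_lit 0) (nat_lit 24272120804) (nat_lit 76) (nat_lit 57999056186) (nat_lit 76) (nat_lit 3009986412) (nat_lit 104) (nat_lit 4) (nat_lit 105) (nat_lit 5) (nat_lit 105) (nat_lit 4) (nat_lit 434) (nat_lit 353) (nat_lit 233)) (XT.lf (nat_lit 0) (nat_lit 33265805866) (nat_lit 76) (nat_lit 10213209920) (nat_lit 152) (nat_lit 44589470983) (nat_lit 102) (nat_lit 5) (nat_lit 103) (nat_lit 5) (nat_lit 104) (nat_lit 4) (nat_lit 435) (nat_lit 353) (nat_lit 232)))) (XT.nd (nat_lit 156) (nat_lit 152) (nat_lit 0) (XT.nd (nat_lit 78) (nat_lit 76) (nat_lit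 0) (XT.lf (nat_lit 0) (nat_lit 2644284512) (nat_lit 152) (nat_lit 48033815242) (nat_lit 76) (nat_lit 40272852059) (nat_lit 100) (nat_lit 5) (nat_lit 102) (nat_lit 5) (nat_lit 101) (nat_lit 4) (nat_lit 436) (nat_lit 353) (nat_lit 231)) (XT.lf (nat_lit 0) (nat_lit 52503235645) (nat_lit 152) (nat_lit 40775011730) (nat_lit 0) (nat_lit 650477741) (nat_lit 99) (nat_lit 5) (nat_lit 101) (nat_lit 4) (nat_lit 99) (nat_lit 4) (nat_lit 437) (nat_lit 353) (nat_lit 230))) (XT.nd (nat_lit 46566) (nat_lit 0) (nat_lit 24624) (XT.lf (nat_lit 0) (nat_lit 9277470075) (nat_lit 152) (nat_lit 33025622026) (nat_lit 76) (nat_lit 54701147985) (nat_lit 97) (nat_lit 5) (nat_lit 99) (nat_lit 5) (nat_lit 98) (nat_lit 4) (nat_lit 438) (nat_lit 353) (nat_lit 229)) (XT.lf (nat_lit 0) (nat_lit 1963093056) (nat_lit 0) (nat_lit 1963093056) (nat_lit 988) (nat_lit 429293181) (nat_lit 421) (nat_lit 5) (nat_lit 421) (nat_lit 3) (nat_lit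 434) (nat_lit 3) (nat_lit 354) (nat_lit 354) (nat_lit 312)))))) (XT.nd (nat_lit 546) (nat_lit 3648) (nat_lit 0) (XT.nd (nat_lit 234) (nat_lit 912) (nat_lit 0) (XT.nd (nat_lit 78) (nat_lit 0) (nat_lit 0) (XT.lf (nat_lit 0) (nat_lit 792859708) (nat_lit 1064) (nat_lit 6375161744) (nat_lit 1140) (nat_lit 1711292757) (nat_lit 407) (nat_lit 5) (nat_lit 421) (nat_lit 5) (nat_lit 422) (nat_lit 5) (nat_lit 355) (nat_lit 354) (nat_lit 311)) (XT.nd (nat_lit 78) (nat_lit 0) (nat_lit 76) (XT.lf (nat_lit 76) (nat_lit 1118052746) (nat_lit 0) (nat_lit 1387943970) (nat_lit 1140) (nat_lit 6549929602) (nat_lit 408) (nat_lit 5) (nat_lit 407) (nat_lit 5) (nat_lit 422) (nat_lit 5) (nat_lit 356) (nat_lit 354) (nat_lit 310)) (XT.lf (nat_lit 0) (nat_lit 4317452488) (nat_lit 1064) (nat_lit 225505064) (nat_lit 1140) (nat_lit 4698031624) (nat_lit 408) (nat_lit 5) (nat_lit 422) (nat_lit 5) (nat_lit 423) (nat_lit 5) (nat_lit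 357) (nat_lit 354) (nat_lit 309)))) (XT.nd (nat_lit 156) (nat_lit 1064) (nat_lit 0) (XT.nd (nat_lit 78) (nat_lit 0) (nat_lit 0) (XT.lf (nat_lit 0) (nat_lit 6232795273) (nat_lit 1064) (nat_lit 1495169045) (nat_lit 1140) (nat_lit 1706941431) (nat_lit 409) (nat_lit 5) (nat_lit 423) (nat_lit 5) (nat_lit 424) (nat_lit 5) (nat_lit 358) (nat_lit 354) (nat_lit 308)) (XT.lf (nat_lit 76) (nat_lit 6910297518) (nat_lit 0) (nat_lit 1358591575) (nat_lit 1140) (nat_lit 1368879542) (nat_lit 410) (nat_lit 5) (nat_lit 409) (nat_lit 5) (nat_lit 424) (nat_lit 5) (nat_lit 359) (nat_lit 354) (nat_lit 307))) (XT.nd (nat_lit 78) (nat_lit 0) (nat_lit 76) (XT.lf (nat_lit 0) (nat_lit 583603967) (nat_lit 1140) (nat_lit 3933578528) (nat_lit 1216) (nat_lit 5332278602) (nat_lit 395) (nat_lit 5) (nat_lit 410) (nat_lit 5) (nat_lit 411) (nat_lit 5) (nat_lit 360) (nat_lit 354) (nat_lit 306)) (XT.lf (nat_lit 0) (nat_lit 2635585009)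 (nat_lit 1140) (nat_lit 5106231715) (nat_lit 1216) (nat_lit 2328609344) (nat_lit 396) (nat_lit 5) (nat_lit 411) (nat_lit 5) (nat_lit 412) (nat_lit 5) (nat_lit 361) (nat_lit 354) (nat_lit 305))))) (XT.nd (nat_lit 234) (nat_lit 2736) (nat_lit 0) (XT.nd (nat_lit 78) (nat_lit 988) (nat_lit 0) (XT.lf (nat_lit 76) (nat_lit 4060867101) (nat_lit 0) (nat_lit 775504407) (nat_lit 1216) (nat_lit 5464681587) (nat_lit 397) (nat_lit 5) (nat_lit 396) (nat_lit 5) (nat_lit 412) (nat_lit 5) (nat_lit 362) (nat_lit 354) (nat_lit 304)) (XT.nd (nat_lit 78) (nat_lit 1064) (nat_lit 0) (XT.lf (nat_lit 76) (nat_lit 3189308877) (nat_lit 0) (nat_lit 4028556950) (nat_lit 1216) (nat_lit 3323225592) (nat_lit 398) (nat_lit 5) (nat_lit 397) (nat_lit 5) (nat_lit 413) (nat_lit 5) (nat_lit 363) (nat_lit 354) (nat_lit 303)) (XT.lf (nat_lit 0) (nat_lit 2373635622) (nat_lit 1140) (nat_lit 7399747585) (nat_lit 1216) (nat_lit 1018100001)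 (nat_lit 383) (nat_lit 5) (nat_lit 398) (nat_lit 5) (nat_lit 399) (nat_lit 5) (nat_lit 364) (nat_lit 354) (nat_lit 302)))) (XT.nd (nat_lit 156) (nat_lit 608) (nat_lit 0) (XT.nd (nat_lit 78) (nat_lit 836) (nat_lit 0) (XT.lf (nat_lit 0) (nat_lit 1438441891) (nat_lit 1292) (nat_lit 9451668704) (nat_lit 76) (nat_lit 161973896) (nat_lit 366) (nat_lit 5) (nat_lit 383) (nat_lit 5) (nat_lit 367) (nat_lit 5) (nat_lit 365) (nat_lit 354) (nat_lit 301)) (XT.lf (nat_lit 0) (nat_lit 841471218) (nat_lit 836) (nat_lit 3258082289) (nat_lit 912) (nat_lit 7222775971) (nat_lit 355) (nat_lit 5) (nat_lit 366) (nat_lit 5) (nat_lit 367) (nat_lit 5) (nat_lit 366) (nat_lit 354) (nat_lit 300))) (XT.nd (nat_lit 78) (nat_lit 0) (nat_lit 0) (XT.lf (nat_lit 0) (nat_lit 137875617) (nat_lit 608) (nat_lit 6836157515) (nat_lit 684) (nat_lit 4629644209) (nat_lit 347) (nat_lit 5) (nat_lit 355) (nat_lit 5) (nat_lit 356) (nat_lit 5)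 (nat_lit 367) (nat_lit 354) (nat_lit 299)) (XT.lf (nat_lit 0) (nat_lit 10083130118) (nat_lit 684) (nat_lit 496615457) (nat_lit 76) (nat_lit 1316620222) (nat_lit 347) (nat_lit 5) (nat_lit 356) (nat_lit 5) (nat_lit 348) (nat_lit 5) (nat_lit 368) (nat_lit 354) (nat_lit 298))))))) (XT.nd (nat_lit 1014) (nat_lit 4864) (nat_lit 0) (XT.nd (nat_lit 468) (nat_lit 3192) (nat_lit 0) (XT.nd (nat_lit 234) (nat_lit 1596) (nat_lit 0) (XT.nd (nat_lit 78) (nat_lit 1140) (nat_lit 0) (XT.lf (nat_lit 0) (nat_lit 1239145024) (nat_lit 684) (nat_lit 1102454241) (nat_lit 76) (nat_lit 9858235252) (nat_lit 338) (nat_lit 5) (nat_lit 347) (nat_lit 5) (nat_lit 339) (nat_lit 5) (nat_lit 369) (nat_lit 354) (nat_lit 297)) (XT.nd (nat_lit 78) (nat_lit 608) (nat_lit 0) (XT.lf (nat_lit 0) (nat_lit 4521073254) (nat_lit 608) (nat_lit 1679200409) (nat_lit 76) (nat_lit 6314231554) (nat_lit 331) (nat_lit 5) (nat_lit 339) (nat_lit 5)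 (nat_lit 332) (nat_lit 5) (nat_lit 370) (nat_lit 354) (nat_lit 296)) (XT.lf (nat_lit 0) (nat_lit 8074479354) (nat_lit 684) (nat_lit 2193081165) (nat_lit 76) (nat_lit 2574127492) (nat_lit 323) (nat_lit 5) (nat_lit 332) (nat_lit 5) (nat_lit 324) (nat_lit 5) (nat_lit 371) (nat_lit 354) (nat_lit 295)))) (XT.nd (nat_lit 78) (nat_lit 1064) (nat_lit 0) (XT.lf (nat_lit 0) (nat_lit 10527589623) (nat_lit 532) (nat_lit 1405709901) (nat_lit 608) (nat_lit 1248098105) (nat_lit 316) (nat_lit 5) (nat_lit 323) (nat_lit 5) (nat_lit 324) (nat_lit 5) (nat_lit 372) (nat_lit 354) (nat_lit 294)) (XT.nd (nat_lit 78) (nat_lit 456) (nat_lit 0) (XT.lf (nat_lit 0) (nat_lit 2548448753) (nat_lit 608) (nat_lit 3096027640) (nat_lit 76) (nat_lit 7888433785) (nat_lit 308) (nat_lit 5) (nat_lit 316) (nat_lit 5) (nat_lit 309) (nat_lit 5) (nat_lit 373) (nat_lit 354) (nat_lit 293)) (XT.lf (nat_lit 0) (nat_lit 6638470915) (nat_lit 532)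 (nat_lit 3479975014) (nat_lit 76) (nat_lit 3779297888) (nat_lit 302) (nat_lit 5) (nat_lit 309) (nat_lit 5) (nat_lit 303) (nat_lit 5) (nat_lit 374) (nat_lit 354) (nat_lit 292))))) (XT.nd (nat_lit 234) (nat_lit 1672) (nat_lit 0) (XT.nd (nat_lit 78) (nat_lit 988) (nat_lit 0) (XT.lf (nat_lit 0) (nat_lit 10482188850) (nat_lit 532) (nat_lit 592384670) (nat_lit 608) (nat_lit 3201998237) (nat_lit 295) (nat_lit 5) (nat_lit 302) (nat_lit 5) (nat_lit 303) (nat_lit 5) (nat_lit 375) (nat_lit 354) (nat_lit 291)) (XT.nd (nat_lit 78) (nat_lit 456) (nat_lit 0) (XT.lf (nat_lit 0) (nat_lit 1221172682) (nat_lit 532) (nat_lit 4079716303) (nat_lit 76) (nat_lit 9367636545) (nat_lit 288) (nat_lit 5) (nat_lit 295) (nat_lit 5) (nat_lit 289) (nat_lit 5) (nat_lit 376) (nat_lit 354) (nat_lit 290)) (XT.lf (nat_lit 0) (nat_lit 5950938417) (nat_lit 532) (nat_lit 4315477102) (nat_lit 76) (nat_lit 4808160629) (nat_lit 282) (nat_lit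 5) (nat_lit 289) (nat_lit 5) (nat_lit 283) (nat_lit 5) (nat_lit 377) (nat_lit 354) (nat_lit 289)))) (XT.nd (nat_lit 156) (nat_lit 760) (nat_lit 0) (XT.nd (nat_lit 78) (nat_lit 532) (nat_lit 0) (XT.lf (nat_lit 0) (nat_lit 11031067932) (nat_lit 380) (nat_lit 44202077) (nat_lit 456) (nat_lit 4420916961) (nat_lit 277) (nat_lit 5) (nat_lit 282) (nat_lit 5) (nat_lit 283) (nat_lit 5) (nat_lit 378) (nat_lit 354) (nat_lit 288)) (XT.lf (nat_lit 0) (nat_lit 723376394) (nat_lit 532) (nat_lit 4578730437) (nat_lit 76) (nat_lit 10630126709) (nat_lit 270) (nat_lit 5) (nat_lit 277) (nat_lit 5) (nat_lit 271) (nat_lit 5) (nat_lit 379) (nat_lit 354) (nat_lit 287))) (XT.nd (nat_lit 78) (nat_lit 380) (nat_lit 0) (XT.lf (nat_lit 0) (nat_lit 6207514861) (nat_lit 456) (nat_lit 4641583677) (nat_lit 76) (nat_lit 5534448906) (nat_lit 265) (nat_lit 5) (nat_lit 271) (nat_lit 5) (nat_lit 266) (nat_lit 5) (nat_lit 380) (nat_lit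 354) (nat_lit 286)) (XT.lf (nat_lit 0) (nat_lit 12145742809) (nat_lit 456) (nat_lit 4603670954) (nat_lit 76) (nat_lit 102616802) (nat_lit 260) (nat_lit 5) (nat_lit 266) (nat_lit 5) (nat_lit 261) (nat_lit 5) (nat_lit 381) (nat_lit 354) (nat_lit 285)))))) (XT.nd (nat_lit 546) (nat_lit 2280) (nat_lit 0) (XT.nd (nat_lit 234) (nat_lit 1444) (nat_lit 0) (XT.nd (nat_lit 78) (nat_lit 684) (nat_lit 0) (XT.lf (nat_lit 0) (nat_lit 1261416546) (nat_lit 456) (nat_lit 4524965716) (nat_lit 76) (nat_lit 11549915345) (nat_lit 254) (nat_lit 5) (nat_lit 260) (nat_lit 5) (nat_lit 255) (nat_lit 5) (nat_lit 382) (nat_lit 354) (nat_lit 284)) (XT.nd (nat_lit 78) (nat_lit 304) (nat_lit 0) (XT.lf (nat_lit 0) (nat_lit 7628201520) (nat_lit 456) (nat_lit 4383329978) (nat_lit 76) (nat_lit 5825907735) (nat_lit 249) (nat_lit 5) (nat_lit 255) (nat_lit 5) (nat_lit 250) (nat_lit 5) (nat_lit 383) (nat_lit 354) (nat_lit 283)) (XT.lf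 (nat_lit 0) (nat_lit 14231144187) (nat_lit 304) (nat_lit 287841216) (nat_lit 380) (nat_lit 3838482747) (nat_lit 245) (nat_lit 5) (nat_lit 249) (nat_lit 5) (nat_lit 250) (nat_lit 5) (nat_lit 384) (nat_lit 354) (nat_lit 282)))) (XT.nd (nat_lit 156) (nat_lit 684) (nat_lit 0) (XT.nd (nat_lit 78) (nat_lit 304) (nat_lit 0) (XT.lf (nat_lit 0) (nat_lit 3068597951) (nat_lit 456) (nat_lit 3832726878) (nat_lit 76) (nat_lit 11993149046) (nat_lit 239) (nat_lit 5) (nat_lit 245) (nat_lit 5) (nat_lit 240) (nat_lit 5) (nat_lit 385) (nat_lit 354) (nat_lit 281)) (XT.lf (nat_lit 0) (nat_lit 10462268855) (nat_lit 380) (nat_lit 3447604994) (nat_lit 76) (nat_lit 5540697237) (nat_lit 235) (nat_lit 5) (nat_lit 240) (nat_lit 5) (nat_lit 236) (nat_lit 5) (nat_lit 386) (nat_lit 354) (nat_lit 280))) (XT.nd (nat_lit 78) (nat_lit 380) (nat_lit 0) (XT.lf (nat_lit 0) (nat_lit 17090526016) (nat_lit 304) (nat_lit 1375297514) (nat_lit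 380) (nat_lit 1561443621) (nat_lit 231) (nat_lit 5) (nat_lit 235) (nat_lit 5) (nat_lit 236) (nat_lit 5) (nat_lit 387) (nat_lit 354) (nat_lit 279)) (XT.lf (nat_lit 0) (nat_lit 6410285175) (nat_lit 380) (nat_lit 2397299355) (nat_lit 76) (nat_lit 11814558077) (nat_lit 226) (nat_lit 5) (nat_lit 231) (nat_lit 5) (nat_lit 227) (nat_lit 5) (nat_lit 388) (nat_lit 354) (nat_lit 278))))) (XT.nd (nat_lit 234) (nat_lit 1368) (nat_lit 0) (XT.nd (nat_lit 78) (nat_lit 608) (nat_lit 0) (XT.lf (nat_lit 0) (nat_lit 14993588612) (nat_lit 380) (nat_lit 1721558044) (nat_lit 76) (nat_lit 4523792947) (nat_lit 222) (nat_lit 5) (nat_lit 227) (nat_lit 5) (nat_lit 223) (nat_lit 5) (nat_lit 389) (nat_lit 354) (nat_lit 277)) (XT.nd (nat_lit 78) (nat_lit 304) (nat_lit 0) (XT.lf (nat_lit 0) (nat_lit 2365342381) (nat_lit 304) (nat_lit 937367280) (nat_lit 76) (nat_lit 18574638966) (nat_lit 218) (nat_lit 5) (nat_lit 222) (nat_lit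 5) (nat_lit 219) (nat_lit 5) (nat_lit 390) (nat_lit 354) (nat_lit 276)) (XT.lf (nat_lit 0) (nat_lit 11589502998) (nat_lit 380) (nat_lit 93108832) (nat_lit 76) (nat_lit 10853848339) (nat_lit 214) (nat_lit 5) (nat_lit 219) (nat_lit 5) (nat_lit 215) (nat_lit 5) (nat_lit 391) (nat_lit 354) (nat_lit 275)))) (XT.nd (nat_lit 156) (nat_lit 532) (nat_lit 0) (XT.nd (nat_lit 78) (nat_lit 304) (nat_lit 0) (XT.lf (nat_lit 0) (nat_lit 947910116) (nat_lit 304) (nat_lit 20607700871) (nat_lit 380) (nat_lit 1664494118) (nat_lit 207) (nat_lit 5) (nat_lit 211) (nat_lit 5) (nat_lit 212) (nat_lit 5) (nat_lit 392) (nat_lit 354) (nat_lit 274)) (XT.lf (nat_lit 0) (nat_lit 2042623035) (nat_lit 228) (nat_lit 6226253857) (nat_lit 304) (nat_lit 15656389830) (nat_lit 203) (nat_lit 5) (nat_lit 206) (nat_lit 5) (nat_lit 207) (nat_lit 5) (nat_lit 393) (nat_lit 354) (nat_lit 273))) (XT.nd (nat_lit 78) (nat_lit 304) (nat_lit 0)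 (XT.lf (nat_lit 0) (nat_lit 3292801661) (nat_lit 228) (nat_lit 15691980858) (nat_lit 304) (nat_lit 5670800787) (nat_lit 200) (nat_lit 5) (nat_lit 203) (nat_lit 5) (nat_lit 204) (nat_lit 5) (nat_lit 394) (nat_lit 354) (nat_lit 272)) (XT.lf (nat_lit 0) (nat_lit 4702981193) (nat_lit 228) (nat_lit 324808528) (nat_lit 304) (nat_lit 20384007870) (nat_lit 196) (nat_lit 5) (nat_lit 199) (nat_lit 5) (nat_lit 200) (nat_lit 5) (nat_lit 395) (nat_lit 354) (nat_lit 271))))))))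
noncomputable def xc72 : XT := (XT.nd (nat_lit 2028) (nat_lit 2280) (nat_lit 0) (XT.nd (nat_lit 1014) (nat_lit 2128) (nat_lit 0) (XT.nd (nat_lit 468) (nat_lit 1596) (nat_lit 0) (XT.nd (nat_lit 234) (nat_lit 608) (nat_lit 0) (XT.nd (nat_lit 78) (nat_lit 532) (nat_lit 0) (XT.lf (nat_lit 0) (nat_lit 6183080311) (nat_lit 228) (nat_lit 10368389474) (nat_lit 304) (nat_lit 9640445183) (nat_lit 193) (nat_lit 5) (nat_lit 196) (nat_lit 5) (nat_lit 197) (nat_lit 5) (nat_lit 396) (nat_lit 354) (nat_lit 270)) (XT.nd (nat_lit 78) (nat_lit 228) (nat_lit 0) (XT.lf (nat_lit 0) (nat_lit 1934856122) (nat_lit 304) (nat_lit 19123999512) (nat_lit 76) (nat_lit 5941912497) (nat_lit 189) (nat_lit 5) (nat_lit 193) (nat_lit 5) (nat_lit 190) (nat_lit 5) (nat_lit 397) (nat_lit 354) (nat_lit 269)) (XT.lf (nat_lit 0) (nat_lit 9671676539) (nat_lit 228) (nat_lit 4599484634) (nat_lit 304) (nat_lit 13564590743) (nat_lit 186) (nat_lit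 5) (nat_lit 189) (nat_lit 5) (nat_lit 190) (nat_lit 5) (nat_lit 398) (nat_lit 354) (nat_lit 268)))) (XT.nd (nat_lit 78) (nat_lit 456) (nat_lit 0) (XT.lf (nat_lit 0) (nat_lit 11660594090) (nat_lit 152) (nat_lit 15971288322) (nat_lit 228) (nat_lit 1068374453) (nat_lit 184) (nat_lit 5) (nat_lit 186) (nat_lit 5) (nat_lit 187) (nat_lit 5) (nat_lit 399) (nat_lit 354) (nat_lit 267)) (XT.nd (nat_lit 78) (nat_lit 152) (nat_lit 0) (XT.lf (nat_lit 0) (nat_lit 12176788524) (nat_lit 304) (nat_lit 15793474792) (nat_lit 76) (nat_lit 1623468223) (nat_lit 180) (nat_lit 5) (nat_lit 184) (nat_lit 5) (nat_lit 181) (nat_lit 5) (nat_lit 400) (nat_lit 354) (nat_lit 266)) (XT.lf (nat_lit 0) (nat_lit 16110428856) (nat_lit 152) (nat_lit 10421048749) (nat_lit 228) (nat_lit 3986004096) (nat_lit 178) (nat_lit 5) (nat_lit 180) (nat_lit 5) (nat_lit 181) (nat_lit 5) (nat_lit 401) (nat_lit 354) (nat_lit 265))))) (XT.nd (nat_lit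 234) (nat_lit 912) (nat_lit 0) (XT.nd (nat_lit 78) (nat_lit 380) (nat_lit 0) (XT.lf (nat_lit 0) (nat_lit 10320465209) (nat_lit 304) (nat_lit 12874458014) (nat_lit 76) (nat_lit 8277537000) (nat_lit 174) (nat_lit 5) (nat_lit 178) (nat_lit 5) (nat_lit 175) (nat_lit 5) (nat_lit 402) (nat_lit 354) (nat_lit 264)) (XT.nd (nat_lit 78) (nat_lit 228) (nat_lit 0) (XT.lf (nat_lit 0) (nat_lit 21312168064) (nat_lit 152) (nat_lit 4385286821) (nat_lit 228) (nat_lit 6763419819) (nat_lit 172) (nat_lit 5) (nat_lit 174) (nat_lit 5) (nat_lit 175) (nat_lit 5) (nat_lit 403) (nat_lit 354) (nat_lit 263)) (XT.lf (nat_lit 0) (nat_lit 8679031370) (nat_lit 228) (nat_lit 9301872084) (nat_lit 76) (nat_lit 15500481652) (nat_lit 169) (nat_lit 5) (nat_lit 172) (nat_lit 5) (nat_lit 170) (nat_lit 5) (nat_lit 404) (nat_lit 354) (nat_lit 262)))) (XT.nd (nat_lit 156) (nat_lit 532) (nat_lit 0) (XT.nd (nat_lit 78) (nat_lit 228) (nat_lit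 0) (XT.lf (nat_lit 0) (nat_lit 25177036889) (nat_lit 228) (nat_lit 7221474197) (nat_lit 76) (nat_lit 2139701715) (nat_lit 167) (nat_lit 5) (nat_lit 170) (nat_lit 5) (nat_lit 168) (nat_lit 5) (nat_lit 405) (nat_lit 354) (nat_lit 261)) (XT.lf (nat_lit 0) (nat_lit 7275643926) (nat_lit 228) (nat_lit 5008951227) (nat_lit 76) (nat_lit 23344591998) (nat_lit 164) (nat_lit 5) (nat_lit 167) (nat_lit 5) (nat_lit 165) (nat_lit 5) (nat_lit 406) (nat_lit 354) (nat_lit 260))) (XT.nd (nat_lit 78) (nat_lit 380) (nat_lit 0) (XT.lf (nat_lit 0) (nat_lit 25025736235) (nat_lit 228) (nat_lit 2581914647) (nat_lit 76) (nat_lit 9150027739) (nat_lit 162) (nat_lit 5) (nat_lit 165) (nat_lit 5) (nat_lit 163) (nat_lit 5) (nat_lit 407) (nat_lit 354) (nat_lit 259)) (XT.lf (nat_lit 0) (nat_lit 78906616) (nat_lit 152) (nat_lit 6057620547) (nat_lit 228) (nat_lit 31788595139) (nat_lit 157) (nat_lit 5) (nat_lit 159) (nat_lit 5) (nat_lit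 160) (nat_lit 5) (nat_lit 408) (nat_lit 354) (nat_lit 258)))))) (XT.nd (nat_lit 468) (nat_lit 1140) (nat_lit 0) (XT.nd (nat_lit 234) (nat_lit 456) (nat_lit 0) (XT.nd (nat_lit 78) (nat_lit 380) (nat_lit 0) (XT.lf (nat_lit 0) (nat_lit 2945877570) (nat_lit 152) (nat_lit 22315831665) (nat_lit 228) (nat_lit 13867566488) (nat_lit 155) (nat_lit 5) (nat_lit 157) (nat_lit 5) (nat_lit 158) (nat_lit 5) (nat_lit 409) (nat_lit 354) (nat_lit 257)) (XT.nd (nat_lit 78) (nat_lit 152) (nat_lit 0) (XT.lf (nat_lit 0) (nat_lit 5354376870) (nat_lit 228) (nat_lit 34228091565) (nat_lit 76) (nat_lit 794697665) (nat_lit 152) (nat_lit 5) (nat_lit 155) (nat_lit 5) (nat_lit 153) (nat_lit 5) (nat_lit 410) (nat_lit 354) (nat_lit 256)) (XT.lf (nat_lit 0) (nat_lit 9457331170) (nat_lit 152) (nat_lit 16468595227) (nat_lit 228) (nat_lit 15737146172) (nat_lit 150) (nat_lit 5) (nat_lit 152) (nat_lit 5) (nat_lit 153) (nat_lit 5) (nat_lit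 411) (nat_lit 354) (nat_lit 255)))) (XT.nd (nat_lit 78) (nat_lit 304) (nat_lit 0) (XT.lf (nat_lit 0) (nat_lit 4968366138) (nat_lit 152) (nat_lit 29863197208) (nat_lit 76) (nat_lit 8164100198) (nat_lit 148) (nat_lit 5) (nat_lit 150) (nat_lit 5) (nat_lit 149) (nat_lit 5) (nat_lit 412) (nat_lit 354) (nat_lit 254)) (XT.nd (nat_lit 78) (nat_lit 152) (nat_lit 0) (XT.lf (nat_lit 0) (nat_lit 16993854173) (nat_lit 152) (nat_lit 10038417450) (nat_lit 228) (nat_lit 17338480467) (nat_lit 146) (nat_lit 5) (nat_lit 148) (nat_lit 5) (nat_lit 149) (nat_lit 5) (nat_lit 413) (nat_lit 354) (nat_lit 253)) (XT.lf (nat_lit 0) (nat_lit 4955574210) (nat_lit 152) (nat_lit 24608108496) (nat_lit 76) (nat_lit 16229957093) (nat_lit 144) (nat_lit 5) (nat_lit 146) (nat_lit 5) (nat_lit 145) (nat_lit 5) (nat_lit 414) (nat_lit 354) (nat_lit 252))))) (XT.nd (nat_lit 234) (nat_lit 684) (nat_lit 0) (XT.nd (nat_lit 78) (nat_lit 304)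 (nat_lit 0) (XT.lf (nat_lit 0) (nat_lit 25656675752) (nat_lit 152) (nat_lit 2966928897) (nat_lit 228) (nat_lit 18640381419) (nat_lit 142) (nat_lit 5) (nat_lit 144) (nat_lit 5) (nat_lit 145) (nat_lit 5) (nat_lit 415) (nat_lit 354) (nat_lit 251)) (XT.nd (nat_lit 78) (nat_lit 152) (nat_lit 0) (XT.lf (nat_lit 0) (nat_lit 5354736030) (nat_lit 152) (nat_lit 18369670357) (nat_lit 76) (nat_lit 25058738665) (nat_lit 140) (nat_lit 5) (nat_lit 142) (nat_lit 5) (nat_lit 141) (nat_lit 5) (nat_lit 416) (nat_lit 354) (nat_lit 250)) (XT.lf (nat_lit 0) (nat_lit 30792998147) (nat_lit 228) (nat_lit 14845324635) (nat_lit 76) (nat_lit 4715535444) (nat_lit 138) (nat_lit 5) (nat_lit 141) (nat_lit 5) (nat_lit 139) (nat_lit 4) (nat_lit 417) (nat_lit 354) (nat_lit 249)))) (XT.nd (nat_lit 156) (nat_lit 380) (nat_lit 0) (XT.nd (nat_lit 78) (nat_lit 152) (nat_lit 0) (XT.lf (nat_lit 0) (nat_lit 6208316818) (nat_lit 152) (nat_lit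 11046104946) (nat_lit 76) (nat_lit 34722631896) (nat_lit 136) (nat_lit 5) (nat_lit 138) (nat_lit 5) (nat_lit 137) (nat_lit 5) (nat_lit 418) (nat_lit 354) (nat_lit 248)) (XT.lf (nat_lit 0) (nat_lit 33581348223) (nat_lit 228) (nat_lit 6973764483) (nat_lit 76) (nat_lit 13098887674) (nat_lit 134) (nat_lit 5) (nat_lit 137) (nat_lit 5) (nat_lit 135) (nat_lit 4) (nat_lit 419) (nat_lit 354) (nat_lit 247))) (XT.nd (nat_lit 78) (nat_lit 228) (nat_lit 0) (XT.lf (nat_lit 0) (nat_lit 7562839801) (nat_lit 152) (nat_lit 2526294636) (nat_lit 76) (nat_lit 45299985586) (nat_lit 132) (nat_lit 5) (nat_lit 134) (nat_lit 5) (nat_lit 133) (nat_lit 5) (nat_lit 420) (nat_lit 354) (nat_lit 246)) (XT.lf (nat_lit 0) (nat_lit 2194668841) (nat_lit 76) (nat_lit 34843148016) (nat_lit 152) (nat_lit 20141031304) (nat_lit 129) (nat_lit 5) (nat_lit 130) (nat_lit 5) (nat_lit 131) (nat_lit 4) (nat_lit 421) (nat_lit 354) (nat_lit 245)))))))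 (XT.nd (nat_lit 1014) (nat_lit 456) (nat_lit 0) (XT.nd (nat_lit 468) (nat_lit 912) (nat_lit 0) (XT.nd (nat_lit 234) (nat_lit 380) (nat_lit 0) (XT.nd (nat_lit 78) (nat_lit 304) (nat_lit 0) (XT.lf (nat_lit 0) (nat_lit 7456496962) (nat_lit 152) (nat_lit 2084419024) (nat_lit 228) (nat_lit 49490972058) (nat_lit 126) (nat_lit 5) (nat_lit 128) (nat_lit 5) (nat_lit 129) (nat_lit 5) (nat_lit 422) (nat_lit 354) (nat_lit 244)) (XT.nd (nat_lit 78) (nat_lit 228) (nat_lit 0) (XT.lf (nat_lit 0) (nat_lit 12909887502) (nat_lit 76) (nat_lit 28375067479) (nat_lit 152) (nat_lit 19656806202) (nat_lit 125) (nat_lit 5) (nat_lit 126) (nat_lit 5) (nat_lit 127) (nat_lit 4) (nat_lit 423) (nat_lit 354) (nat_lit 243)) (XT.lf (nat_lit 0) (nat_lit 12230965956) (nat_lit 228) (nat_lit 44019342045) (nat_lit 76) (nat_lit 6669766765) (nat_lit 122) (nat_lit 5) (nat_lit 125) (nat_lit 5) (nat_lit 123) (nat_lit 4) (nat_lit 424) (nat_lit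 354) (nat_lit 242)))) (XT.nd (nat_lit 78) (nat_lit 304) (nat_lit 0) (XT.lf (nat_lit 0) (nat_lit 25173705760) (nat_lit 76) (nat_lit 21149373237) (nat_lit 152) (nat_lit 18637891821) (nat_lit 121) (nat_lit 5) (nat_lit 122) (nat_lit 5) (nat_lit 123) (nat_lit 4) (nat_lit 425) (nat_lit 354) (nat_lit 241)) (XT.nd (nat_lit 78) (nat_lit 76) (nat_lit 0) (XT.lf (nat_lit 0) (nat_lit 15634260178) (nat_lit 228) (nat_lit 35131793957) (nat_lit 76) (nat_lit 16306185635) (nat_lit 118) (nat_lit 5) (nat_lit 121) (nat_lit 5) (nat_lit 119) (nat_lit 4) (nat_lit 426) (nat_lit 354) (nat_lit 240)) (XT.lf (nat_lit 0) (nat_lit 39139308345) (nat_lit 76) (nat_lit 13087749612) (nat_lit 152) (nat_lit 17026703255) (nat_lit 117) (nat_lit 5) (nat_lit 118) (nat_lit 5) (nat_lit 119) (nat_lit 4) (nat_lit 427) (nat_lit 354) (nat_lit 239))))) (XT.nd (nat_lit 234) (nat_lit 532) (nat_lit 0) (XT.nd (nat_lit 78) (nat_lit 228) (nat_lit 0)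 (XT.lf (nat_lit 0) (nat_lit 19799761867) (nat_lit 152) (nat_lit 24751446388) (nat_lit 76) (nat_lit 26955617911) (nat_lit 115) (nat_lit 5) (nat_lit 117) (nat_lit 5) (nat_lit 116) (nat_lit 4) (nat_lit 428) (nat_lit 354) (nat_lit 238)) (XT.nd (nat_lit 78) (nat_lit 152) (nat_lit 0) (XT.lf (nat_lit 0) (nat_lit 54973497915) (nat_lit 76) (nat_lit 4104961357) (nat_lit 152) (nat_lit 14760136240) (nat_lit 114) (nat_lit 5) (nat_lit 115) (nat_lit 5) (nat_lit 116) (nat_lit 4) (nat_lit 429) (nat_lit 354) (nat_lit 237)) (XT.lf (nat_lit 0) (nat_lit 24802809820) (nat_lit 152) (nat_lit 12724151410) (nat_lit 76) (nat_lit 38715931242) (nat_lit 112) (nat_lit 5) (nat_lit 114) (nat_lit 5) (nat_lit 113) (nat_lit 4) (nat_lit 430) (nat_lit 354) (nat_lit 236)))) (XT.nd (nat_lit 156) (nat_lit 228) (nat_lit 0) (XT.nd (nat_lit 78) (nat_lit 228) (nat_lit 0) (XT.lf (nat_lit 0) (nat_lit 67022739952) (nat_lit 152) (nat_lit 5934013335)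 (nat_lit 0) (nat_lit 5776743825) (nat_lit 111) (nat_lit 5) (nat_lit 113) (nat_lit 4) (nat_lit 111) (nat_lit 4) (nat_lit 431) (nat_lit 354) (nat_lit 235)) (XT.lf (nat_lit 0) (nat_lit 1140455672) (nat_lit 76) (nat_lit 29596123146) (nat_lit 152) (nat_lit 50563888847) (nat_lit 108) (nat_lit 5) (nat_lit 109) (nat_lit 5) (nat_lit 110) (nat_lit 4) (nat_lit 432) (nat_lit 354) (nat_lit 234))) (XT.nd (nat_lit 78) (nat_lit 152) (nat_lit 0) (XT.lf (nat_lit 0) (nat_lit 9038053388) (nat_lit 76) (nat_lit 67198943172) (nat_lit 76) (nat_lit 7720124402) (nat_lit 107) (nat_lit 4) (nat_lit 108) (nat_lit 5) (nat_lit 108) (nat_lit 4) (nat_lit 433) (nat_lit 354) (nat_lit 233)) (XT.lf (nat_lit 0) (nat_lit 17296363947) (nat_lit 76) (nat_lit 20527741922) (nat_lit 152) (nat_lit 48873190353) (nat_lit 105) (nat_lit 5) (nat_lit 106) (nat_lit 5) (nat_lit 107) (nat_lit 4) (nat_lit 434) (nat_lit 354) (nat_lit 232)))))) (XT.nd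 (nat_lit 47112) (nat_lit 0) (nat_lit 22420) (XT.nd (nat_lit 234) (nat_lit 76) (nat_lit 0) (XT.nd (nat_lit 78) (nat_lit 304) (nat_lit 0) (XT.lf (nat_lit 0) (nat_lit 26265195776) (nat_lit 76) (nat_lit 60514646503) (nat_lit 76) (nat_lit 2753526099) (nat_lit 104) (nat_lit 4) (nat_lit 105) (nat_lit 5) (nat_lit 105) (nat_lit 4) (nat_lit 435) (nat_lit 354) (nat_lit 231)) (XT.nd (nat_lit 78) (nat_lit 152) (nat_lit 0) (XT.lf (nat_lit 0) (nat_lit 35693935385) (nat_lit 76) (nat_lit 10346400802) (nat_lit 152) (nat_lit 46419953832) (nat_lit 102) (nat_lit 5) (nat_lit 103) (nat_lit 5) (nat_lit 104) (nat_lit 4) (nat_lit 436) (nat_lit 354) (nat_lit 230)) (XT.lf (nat_lit 0) (nat_lit 3159852213) (nat_lit 152) (nat_lit 49677197743) (nat_lit 76) (nat_lit 42649948843) (nat_lit 100) (nat_lit 5) (nat_lit 102) (nat_lit 5) (nat_lit 101) (nat_lit 4) (nat_lit 437) (nat_lit 354) (nat_lit 229)))) (XT.nd (nat_lit 46722) (nat_lit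 0) (nat_lit 23408) (XT.nd (nat_lit 46644) (nat_lit 0) (nat_lit 23332) (XT.lf (nat_lit 0) (nat_lit 55504079115) (nat_lit 152) (nat_lit 42069528207) (nat_lit 0) (nat_lit 1040283599) (nat_lit 99) (nat_lit 5) (nat_lit 101) (nat_lit 4) (nat_lit 99) (nat_lit 4) (nat_lit 438) (nat_lit 354) (nat_lit 228)) (XT.lf (nat_lit 0) (nat_lit 1147550547) (nat_lit 1140) (nat_lit 1689073663) (nat_lit 1140) (nat_lit 1689073663) (nat_lit 406) (nat_lit 3) (nat_lit 421) (nat_lit 3) (nat_lit 421) (nat_lit 5) (nat_lit 355) (nat_lit 355) (nat_lit 310))) (XT.nd (nat_lit 78) (nat_lit 0) (nat_lit 0) (XT.lf (nat_lit 0) (nat_lit 3861468267) (nat_lit 1064) (nat_lit 4998400171) (nat_lit 1140) (nat_lit 372542514) (nat_lit 407) (nat_lit 5) (nat_lit 421) (nat_lit 5) (nat_lit 422) (nat_lit 5) (nat_lit 356) (nat_lit 355) (nat_lit 309)) (XT.lf (nat_lit 76) (nat_lit 2820873313) (nat_lit 0) (nat_lit 2710983539) (nat_lit 1140) (nat_lit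 3889848973) (nat_lit 408) (nat_lit 5) (nat_lit 407) (nat_lit 5) (nat_lit 422) (nat_lit 5) (nat_lit 357) (nat_lit 355) (nat_lit 308))))) (XT.nd (nat_lit 234) (nat_lit 0) (nat_lit 76) (XT.nd (nat_lit 78) (nat_lit 1064) (nat_lit 0) (XT.lf (nat_lit 76) (nat_lit 1454444481) (nat_lit 0) (nat_lit 5843823092) (nat_lit 1140) (nat_lit 2321822788) (nat_lit 409) (nat_lit 5) (nat_lit 408) (nat_lit 5) (nat_lit 423) (nat_lit 5) (nat_lit 358) (nat_lit 355) (nat_lit 307)) (XT.nd (nat_lit 78) (nat_lit 1140) (nat_lit 0) (XT.lf (nat_lit 76) (nat_lit 136792632) (nat_lit 0) (nat_lit 9034638852) (nat_lit 1140) (nat_lit 656409659) (nat_lit 410) (nat_lit 5) (nat_lit 409) (nat_lit 5) (nat_lit 424) (nat_lit 5) (nat_lit 359) (nat_lit 355) (nat_lit 306)) (XT.lf (nat_lit 0) (nat_lit 1132200173) (nat_lit 1140) (nat_lit 1144243339) (nat_lit 1216) (nat_lit 7767383757) (nat_lit 394) (nat_lit 5) (nat_lit 409) (nat_lit 5) (nat_lit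 410) (nat_lit 5) (nat_lit 360) (nat_lit 355) (nat_lit 305)))) (XT.nd (nat_lit 156) (nat_lit 0) (nat_lit 76) (XT.nd (nat_lit 78) (nat_lit 0) (nat_lit 76) (XT.lf (nat_lit 0) (nat_lit 3041671895) (nat_lit 1140) (nat_lit 2392784163) (nat_lit 1216) (nat_lit 4834611462) (nat_lit 395) (nat_lit 5) (nat_lit 410) (nat_lit 5) (nat_lit 411) (nat_lit 5) (nat_lit 361) (nat_lit 355) (nat_lit 304)) (XT.lf (nat_lit 0) (nat_lit 5090644389) (nat_lit 1140) (nat_lit 3597821668) (nat_lit 1216) (nat_lit 1815782910) (nat_lit 396) (nat_lit 5) (nat_lit 411) (nat_lit 5) (nat_lit 412) (nat_lit 5) (nat_lit 362) (nat_lit 355) (nat_lit 303))) (XT.nd (nat_lit 78) (nat_lit 0) (nat_lit 76) (XT.lf (nat_lit 76) (nat_lit 5977075363) (nat_lit 0) (nat_lit 1330230453) (nat_lit 1216) (nat_lit 3441926462) (nat_lit 397) (nat_lit 5) (nat_lit 396) (nat_lit 5) (nat_lit 412) (nat_lit 5) (nat_lit 363) (nat_lit 355) (nat_lit 302)) (XT.lf (nat_lit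 76) (nat_lit 5082605724) (nat_lit 0) (nat_lit 4631063944) (nat_lit 1216) (nat_lit 1290429005) (nat_lit 398) (nat_lit 5) (nat_lit 397) (nat_lit 5) (nat_lit 413) (nat_lit 5) (nat_lit 364) (nat_lit 355) (nat_lit 301))))))))
noncomputable def xc73 : XT := (XT.nd (nat_lit 2106) (nat_lit 5776) (nat_lit 0) (XT.nd (nat_lit 1014) (nat_lit 5624) (nat_lit 0) (XT.nd (nat_lit 468) (nat_lit 3268) (nat_lit 0) (XT.nd (nat_lit 234) (nat_lit 1824) (nat_lit 0) (XT.nd (nat_lit 78) (nat_lit 2052) (nat_lit 0) (XT.lf (nat_lit 0) (nat_lit 1018515745) (nat_lit 1216) (nat_lit 7037245647) (nat_lit 76) (nat_lit 3213604437) (nat_lit 382) (nat_lit 5) (nat_lit 398) (nat_lit 5) (nat_lit 383) (nat_lit 5) (nat_lit 365) (nat_lit 355) (nat_lit 300)) (XT.nd (nat_lit 78) (nat_lit 836) (nat_lit 0) (XT.lf (nat_lit 0) (nat_lit 3422027451) (nat_lit 1216) (nat_lit 71642083) (nat_lit 1292) (nat_lit 8051520016) (nat_lit 366) (nat_lit 5) (nat_lit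 382) (nat_lit 5) (nat_lit 383) (nat_lit 5) (nat_lit 366) (nat_lit 355) (nat_lit 299)) (XT.lf (nat_lit 0) (nat_lit 2633675862) (nat_lit 836) (nat_lit 3575885206) (nat_lit 912) (nat_lit 5621733988) (nat_lit 355) (nat_lit 5) (nat_lit 366) (nat_lit 5) (nat_lit 367) (nat_lit 5) (nat_lit 367) (nat_lit 355) (nat_lit 298)))) (XT.nd (nat_lit 78) (nat_lit 1216) (nat_lit 0) (XT.lf (nat_lit 0) (nat_lit 1901692302) (nat_lit 608) (nat_lit 7250827202) (nat_lit 684) (nat_lit 2976448163) (nat_lit 347) (nat_lit 5) (nat_lit 355) (nat_lit 5) (nat_lit 356) (nat_lit 5) (nat_lit 368) (nat_lit 355) (nat_lit 297)) (XT.nd (nat_lit 78) (nat_lit 608) (nat_lit 0) (XT.lf (nat_lit 0) (nat_lit 1228737374) (nat_lit 608) (nat_lit 11112345694) (nat_lit 684) (nat_lit 97487125) (nat_lit 339) (nat_lit 5) (nat_lit 347) (nat_lit 5) (nat_lit 348) (nat_lit 5) (nat_lit 369) (nat_lit 355) (nat_lit 296)) (XT.lf (nat_lit 0) (nat_lit 563819218)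 (nat_lit 532) (nat_lit 2434439594) (nat_lit 608) (nat_lit 9760652734) (nat_lit 331) (nat_lit 5) (nat_lit 338) (nat_lit 5) (nat_lit 339) (nat_lit 5) (nat_lit 370) (nat_lit 355) (nat_lit 295))))) (XT.nd (nat_lit 234) (nat_lit 2052) (nat_lit 0) (XT.nd (nat_lit 78) (nat_lit 1216) (nat_lit 0) (XT.lf (nat_lit 0) (nat_lit 6374603775) (nat_lit 608) (nat_lit 53308989) (nat_lit 76) (nat_lit 6663493408) (nat_lit 331) (nat_lit 5) (nat_lit 339) (nat_lit 5) (nat_lit 332) (nat_lit 5) (nat_lit 371) (nat_lit 355) (nat_lit 294)) (XT.nd (nat_lit 78) (nat_lit 608) (nat_lit 0) (XT.lf (nat_lit 0) (nat_lit 10045058479) (nat_lit 684) (nat_lit 595830239) (nat_lit 76) (nat_lit 2795878037) (nat_lit 323) (nat_lit 5) (nat_lit 332) (nat_lit 5) (nat_lit 324) (nat_lit 5) (nat_lit 372) (nat_lit 355) (nat_lit 293)) (XT.lf (nat_lit 0) (nat_lit 238182598) (nat_lit 608) (nat_lit 1085611221) (nat_lit 76) (nat_lit 12471358223) (nat_lit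 315) (nat_lit 5) (nat_lit 323) (nat_lit 5) (nat_lit 316) (nat_lit 5) (nat_lit 373) (nat_lit 355) (nat_lit 292)))) (XT.nd (nat_lit 156) (nat_lit 1064) (nat_lit 0) (XT.nd (nat_lit 78) (nat_lit 456) (nat_lit 0) (XT.lf (nat_lit 0) (nat_lit 4143886902) (nat_lit 608) (nat_lit 1568611507) (nat_lit 76) (nat_lit 8453016807) (nat_lit 308) (nat_lit 5) (nat_lit 316) (nat_lit 5) (nat_lit 309) (nat_lit 5) (nat_lit 374) (nat_lit 355) (nat_lit 291)) (XT.lf (nat_lit 0) (nat_lit 8386328146) (nat_lit 532) (nat_lit 1979678665) (nat_lit 76) (nat_lit 4184146187) (nat_lit 302) (nat_lit 5) (nat_lit 309) (nat_lit 5) (nat_lit 303) (nat_lit 5) (nat_lit 375) (nat_lit 355) (nat_lit 290))) (XT.nd (nat_lit 78) (nat_lit 532) (nat_lit 0) (XT.lf (nat_lit 0) (nat_lit 12632600060) (nat_lit 532) (nat_lit 359843415) (nat_lit 608) (nat_lit 1957032631) (nat_lit 295) (nat_lit 5) (nat_lit 302) (nat_lit 5) (nat_lit 303) (nat_lit 5) (nat_lit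 376) (nat_lit 355) (nat_lit 289)) (XT.lf (nat_lit 0) (nat_lit 2612397853) (nat_lit 532) (nat_lit 2640241700) (nat_lit 76) (nat_lit 10109407258) (nat_lit 288) (nat_lit 5) (nat_lit 295) (nat_lit 5) (nat_lit 289) (nat_lit 5) (nat_lit 377) (nat_lit 355) (nat_lit 288)))))) (XT.nd (nat_lit 546) (nat_lit 2660) (nat_lit 0) (XT.nd (nat_lit 234) (nat_lit 1596) (nat_lit 0) (XT.nd (nat_lit 78) (nat_lit 912) (nat_lit 0) (XT.lf (nat_lit 0) (nat_lit 7533675809) (nat_lit 532) (nat_lit 2899454987) (nat_lit 76) (nat_lit 5356618446) (nat_lit 282) (nat_lit 5) (nat_lit 289) (nat_lit 5) (nat_lit 283) (nat_lit 5) (nat_lit 378) (nat_lit 355) (nat_lit 287)) (XT.nd (nat_lit 78) (nat_lit 532) (nat_lit 0) (XT.lf (nat_lit 0) (nat_lit 12871138463) (nat_lit 456) (nat_lit 3069055149) (nat_lit 76) (nat_lit 293539558) (nat_lit 277) (nat_lit 5) (nat_lit 283) (nat_lit 5) (nat_lit 278) (nat_lit 5) (nat_lit 379) (nat_lit 355) (nat_lit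 286)) (XT.lf (nat_lit 0) (nat_lit 1969909057) (nat_lit 532) (nat_lit 3211109336) (nat_lit 76) (nat_lit 11511515910) (nat_lit 270) (nat_lit 5) (nat_lit 277) (nat_lit 5) (nat_lit 271) (nat_lit 5) (nat_lit 380) (nat_lit 355) (nat_lit 285)))) (XT.nd (nat_lit 156) (nat_lit 836) (nat_lit 0) (XT.nd (nat_lit 78) (nat_lit 380) (nat_lit 0) (XT.lf (nat_lit 0) (nat_lit 7689208390) (nat_lit 456) (nat_lit 3291524351) (nat_lit 76) (nat_lit 6186852542) (nat_lit 265) (nat_lit 5) (nat_lit 271) (nat_lit 5) (nat_lit 266) (nat_lit 5) (nat_lit 381) (nat_lit 355) (nat_lit 284)) (XT.lf (nat_lit 0) (nat_lit 13887250505) (nat_lit 456) (nat_lit 3267065549) (nat_lit 76) (nat_lit 506289423) (nat_lit 260) (nat_lit 5) (nat_lit 266) (nat_lit 5) (nat_lit 261) (nat_lit 5) (nat_lit 382) (nat_lit 355) (nat_lit 283))) (XT.nd (nat_lit 78) (nat_lit 380) (nat_lit 0) (XT.lf (nat_lit 0) (nat_lit 2430166634) (nat_lit 456) (nat_lit 3207331554)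 (nat_lit 76) (nat_lit 12532443922) (nat_lit 254) (nat_lit 5) (nat_lit 260) (nat_lit 5) (nat_lit 255) (nat_lit 5) (nat_lit 383) (nat_lit 355) (nat_lit 282)) (XT.lf (nat_lit 0) (nat_lit 9081209218) (nat_lit 456) (nat_lit 3075000232) (nat_lit 76) (nat_lit 6540953816) (nat_lit 249) (nat_lit 5) (nat_lit 255) (nat_lit 5) (nat_lit 250) (nat_lit 5) (nat_lit 384) (nat_lit 355) (nat_lit 281))))) (XT.nd (nat_lit 234) (nat_lit 1596) (nat_lit 0) (XT.nd (nat_lit 78) (nat_lit 760) (nat_lit 0) (XT.lf (nat_lit 0) (nat_lit 16281175826) (nat_lit 380) (nat_lit 2819293997) (nat_lit 76) (nat_lit 143784500) (nat_lit 245) (nat_lit 5) (nat_lit 250) (nat_lit 5) (nat_lit 246) (nat_lit 5) (nat_lit 385) (nat_lit 355) (nat_lit 280)) (XT.nd (nat_lit 78) (nat_lit 304) (nat_lit 0) (XT.lf (nat_lit 0) (nat_lit 4235732460) (nat_lit 456) (nat_lit 2537044084) (nat_lit 76) (nat_lit 13036009886) (nat_lit 239) (nat_lit 5) (nat_lit 245)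 (nat_lit 5) (nat_lit 240) (nat_lit 5) (nat_lit 386) (nat_lit 355) (nat_lit 279)) (XT.lf (nat_lit 0) (nat_lit 11969175837) (nat_lit 380) (nat_lit 2150393581) (nat_lit 76) (nat_lit 6274016416) (nat_lit 235) (nat_lit 5) (nat_lit 240) (nat_lit 5) (nat_lit 236) (nat_lit 5) (nat_lit 387) (nat_lit 355) (nat_lit 278)))) (XT.nd (nat_lit 156) (nat_lit 912) (nat_lit 0) (XT.nd (nat_lit 78) (nat_lit 380) (nat_lit 0) (XT.lf (nat_lit 0) (nat_lit 19372518429) (nat_lit 304) (nat_lit 967264183) (nat_lit 380) (nat_lit 660327860) (nat_lit 231) (nat_lit 5) (nat_lit 235) (nat_lit 5) (nat_lit 236) (nat_lit 5) (nat_lit 388) (nat_lit 355) (nat_lit 277)) (XT.lf (nat_lit 0) (nat_lit 7663256042) (nat_lit 380) (nat_lit 1088807906) (nat_lit 76) (nat_lit 12873212090) (nat_lit 226) (nat_lit 5) (nat_lit 231) (nat_lit 5) (nat_lit 227) (nat_lit 5) (nat_lit 389) (nat_lit 355) (nat_lit 276))) (XT.nd (nat_lit 78) (nat_lit 608) (nat_lit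 0) (XT.lf (nat_lit 0) (nat_lit 16649330561) (nat_lit 380) (nat_lit 397853306) (nat_lit 76) (nat_lit 5226520841) (nat_lit 222) (nat_lit 5) (nat_lit 227) (nat_lit 5) (nat_lit 223) (nat_lit 5) (nat_lit 390) (nat_lit 355) (nat_lit 275)) (XT.lf (nat_lit 0) (nat_lit 410759596) (nat_lit 304) (nat_lit 2961552355) (nat_lit 380) (nat_lit 19572243034) (nat_lit 214) (nat_lit 5) (nat_lit 218) (nat_lit 5) (nat_lit 219) (nat_lit 5) (nat_lit 391) (nat_lit 355) (nat_lit 274))))))) (XT.nd (nat_lit 1014) (nat_lit 2584) (nat_lit 0) (XT.nd (nat_lit 468) (nat_lit 1596) (nat_lit 0) (XT.nd (nat_lit 234) (nat_lit 760) (nat_lit 0) (XT.nd (nat_lit 78) (nat_lit 608) (nat_lit 0) (XT.lf (nat_lit 0) (nat_lit 1295682667) (nat_lit 228) (nat_lit 11746049569) (nat_lit 304) (nat_lit 10595368317) (nat_lit 211) (nat_lit 5) (nat_lit 214) (nat_lit 5) (nat_lit 215) (nat_lit 5) (nat_lit 392) (nat_lit 355) (nat_lit 273)) (XT.nd (nat_lit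 78) (nat_lit 304) (nat_lit 0) (XT.lf (nat_lit 0) (nat_lit 2371288685) (nat_lit 304) (nat_lit 21112212758) (nat_lit 380) (nat_lit 872105621) (nat_lit 207) (nat_lit 5) (nat_lit 211) (nat_lit 5) (nat_lit 212) (nat_lit 5) (nat_lit 393) (nat_lit 355) (nat_lit 272)) (XT.lf (nat_lit 0) (nat_lit 3497891561) (nat_lit 228) (nat_lit 6015080965) (nat_lit 304) (nat_lit 15583637978) (nat_lit 203) (nat_lit 5) (nat_lit 206) (nat_lit 5) (nat_lit 207) (nat_lit 5) (nat_lit 394) (nat_lit 355) (nat_lit 271)))) (XT.nd (nat_lit 78) (nat_lit 532) (nat_lit 0) (XT.lf (nat_lit 0) (nat_lit 4791118463) (nat_lit 228) (nat_lit 15951603527) (nat_lit 304) (nat_lit 5121379470) (nat_lit 200) (nat_lit 5) (nat_lit 203) (nat_lit 5) (nat_lit 204) (nat_lit 5) (nat_lit 395) (nat_lit 355) (nat_lit 270)) (XT.nd (nat_lit 78) (nat_lit 228) (nat_lit 0) (XT.lf (nat_lit 0) (nat_lit 6071328076) (nat_lit 304) (nat_lit 20411037308) (nat_lit 76)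 (nat_lit 176257620) (nat_lit 196) (nat_lit 5) (nat_lit 200) (nat_lit 5) (nat_lit 197) (nat_lit 5) (nat_lit 396) (nat_lit 355) (nat_lit 269)) (XT.lf (nat_lit 0) (nat_lit 7784053359) (nat_lit 228) (nat_lit 10364957423) (nat_lit 304) (nat_lit 9329400910) (nat_lit 193) (nat_lit 5) (nat_lit 196) (nat_lit 5) (nat_lit 197) (nat_lit 5) (nat_lit 397) (nat_lit 355) (nat_lit 268))))) (XT.nd (nat_lit 234) (nat_lit 912) (nat_lit 0) (XT.nd (nat_lit 78) (nat_lit 380) (nat_lit 0) (XT.lf (nat_lit 0) (nat_lit 2789338256) (nat_lit 304) (nat_lit 18792765357) (nat_lit 76) (nat_lit 6745970744) (nat_lit 189) (nat_lit 5) (nat_lit 193) (nat_lit 5) (nat_lit 190) (nat_lit 5) (nat_lit 398) (nat_lit 355) (nat_lit 267)) (XT.nd (nat_lit 78) (nat_lit 152) (nat_lit 0) (XT.lf (nat_lit 0) (nat_lit 11405790456) (nat_lit 228) (nat_lit 4312606140) (nat_lit 304) (nat_lit 13487132596) (nat_lit 186) (nat_lit 5) (nat_lit 189) (nat_lit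 5) (nat_lit 190) (nat_lit 5) (nat_lit 399) (nat_lit 355) (nat_lit 266)) (XT.lf (nat_lit 0) (nat_lit 13474861200) (nat_lit 152) (nat_lit 16253922804) (nat_lit 228) (nat_lit 385026479) (nat_lit 184) (nat_lit 5) (nat_lit 186) (nat_lit 5) (nat_lit 187) (nat_lit 5) (nat_lit 400) (nat_lit 355) (nat_lit 265)))) (XT.nd (nat_lit 156) (nat_lit 456) (nat_lit 0) (XT.nd (nat_lit 78) (nat_lit 152) (nat_lit 0) (XT.lf (nat_lit 0) (nat_lit 13490153755) (nat_lit 304) (nat_lit 15357156027) (nat_lit 76) (nat_lit 2204972560) (nat_lit 180) (nat_lit 5) (nat_lit 184) (nat_lit 5) (nat_lit 181) (nat_lit 5) (nat_lit 401) (nat_lit 355) (nat_lit 264)) (XT.lf (nat_lit 0) (nat_lit 18106799974) (nat_lit 152) (nat_lit 10433675644) (nat_lit 228) (nat_lit 3482407444) (nat_lit 178) (nat_lit 5) (nat_lit 180) (nat_lit 5) (nat_lit 181) (nat_lit 5) (nat_lit 402) (nat_lit 355) (nat_lit 263))) (XT.nd (nat_lit 78) (nat_lit 152) (nat_lit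 0) (XT.lf (nat_lit 0) (nat_lit 11508927894) (nat_lit 304) (nat_lit 12332945170) (nat_lit 76) (nat_lit 9184036988) (nat_lit 174) (nat_lit 5) (nat_lit 178) (nat_lit 5) (nat_lit 175) (nat_lit 5) (nat_lit 403) (nat_lit 355) (nat_lit 262)) (XT.lf (nat_lit 0) (nat_lit 23529037667) (nat_lit 152) (nat_lit 4104775088) (nat_lit 228) (nat_lit 6430561130) (nat_lit 172) (nat_lit 5) (nat_lit 174) (nat_lit 5) (nat_lit 175) (nat_lit 5) (nat_lit 404) (nat_lit 355) (nat_lit 261)))))) (XT.nd (nat_lit 546) (nat_lit 1064) (nat_lit 0) (XT.nd (nat_lit 234) (nat_lit 912) (nat_lit 0) (XT.nd (nat_lit 78) (nat_lit 380) (nat_lit 0) (XT.lf (nat_lit 0) (nat_lit 9755203666) (nat_lit 228) (nat_lit 8621605838) (nat_lit 76) (nat_lit 16759378236) (nat_lit 169) (nat_lit 5) (nat_lit 172) (nat_lit 5) (nat_lit 170) (nat_lit 5) (nat_lit 405) (nat_lit 355) (nat_lit 260)) (XT.nd (nat_lit 78) (nat_lit 228) (nat_lit 0) (XT.lf (nat_lit 0)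 (nat_lit 27062933881) (nat_lit 228) (nat_lit 6456061631) (nat_lit 76) (nat_lit 2727316576) (nat_lit 167) (nat_lit 5) (nat_lit 170) (nat_lit 5) (nat_lit 168) (nat_lit 5) (nat_lit 406) (nat_lit 355) (nat_lit 259)) (XT.lf (nat_lit 0) (nat_lit 8253146927) (nat_lit 228) (nat_lit 4152988767) (nat_lit 76) (nat_lit 24986099190) (nat_lit 164) (nat_lit 5) (nat_lit 167) (nat_lit 5) (nat_lit 165) (nat_lit 5) (nat_lit 407) (nat_lit 355) (nat_lit 258)))) (XT.nd (nat_lit 156) (nat_lit 380) (nat_lit 0) (XT.nd (nat_lit 78) (nat_lit 380) (nat_lit 0) (XT.lf (nat_lit 0) (nat_lit 26876462466) (nat_lit 228) (nat_lit 1623083369) (nat_lit 76) (nat_lit 10078033535) (nat_lit 162) (nat_lit 5) (nat_lit 165) (nat_lit 5) (nat_lit 163) (nat_lit 5) (nat_lit 408) (nat_lit 355) (nat_lit 257)) (XT.lf (nat_lit 0) (nat_lit 1172535993) (nat_lit 152) (nat_lit 5868097968) (nat_lit 228) (nat_lit 32762826043) (nat_lit 157) (nat_lit 5)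 (nat_lit 159) (nat_lit 5) (nat_lit 160) (nat_lit 5) (nat_lit 409) (nat_lit 355) (nat_lit 256))) (XT.nd (nat_lit 78) (nat_lit 228) (nat_lit 0) (XT.lf (nat_lit 0) (nat_lit 4164427100) (nat_lit 152) (nat_lit 22944011566) (nat_lit 228) (nat_lit 13959791524) (nat_lit 155) (nat_lit 5) (nat_lit 157) (nat_lit 5) (nat_lit 158) (nat_lit 5) (nat_lit 410) (nat_lit 355) (nat_lit 255)) (XT.lf (nat_lit 0) (nat_lit 6198181137) (nat_lit 228) (nat_lit 34875028036) (nat_lit 76) (nat_lit 1305532669) (nat_lit 152) (nat_lit 5) (nat_lit 155) (nat_lit 5) (nat_lit 153) (nat_lit 5) (nat_lit 411) (nat_lit 355) (nat_lit 254))))) (XT.nd (nat_lit 234) (nat_lit 608) (nat_lit 0) (XT.nd (nat_lit 78) (nat_lit 304) (nat_lit 0) (XT.lf (nat_lit 0) (nat_lit 10964153071) (nat_lit 152) (nat_lit 16816661442) (nat_lit 228) (nat_lit 15948653931) (nat_lit 150) (nat_lit 5) (nat_lit 152) (nat_lit 5) (nat_lit 153) (nat_lit 5) (nat_lit 412)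 (nat_lit 355) (nat_lit 253)) (XT.nd (nat_lit 78) (nat_lit 152) (nat_lit 0) (XT.lf (nat_lit 0) (nat_lit 5768303486) (nat_lit 152) (nat_lit 30329224643) (nat_lit 76) (nat_lit 9031373020) (nat_lit 148) (nat_lit 5) (nat_lit 150) (nat_lit 5) (nat_lit 149) (nat_lit 5) (nat_lit 413) (nat_lit 355) (nat_lit 252)) (XT.lf (nat_lit 0) (nat_lit 18841236762) (nat_lit 152) (nat_lit 10077495078) (nat_lit 228) (nat_lit 17654512456) (nat_lit 146) (nat_lit 5) (nat_lit 148) (nat_lit 5) (nat_lit 149) (nat_lit 5) (nat_lit 414) (nat_lit 355) (nat_lit 251)))) (XT.nd (nat_lit 156) (nat_lit 304) (nat_lit 0) (XT.nd (nat_lit 78) (nat_lit 152) (nat_lit 0) (XT.lf (nat_lit 0) (nat_lit 5731570313) (nat_lit 152) (nat_lit 24847646198) (nat_lit 76) (nat_lit 17488258758) (nat_lit 144) (nat_lit 5) (nat_lit 146) (nat_lit 5) (nat_lit 145) (nat_lit 5) (nat_lit 415) (nat_lit 355) (nat_lit 250)) (XT.lf (nat_lit 0) (nat_lit 27901974239)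 (nat_lit 152) (nat_lit 2665126625) (nat_lit 228) (nat_lit 19044715028) (nat_lit 142) (nat_lit 5) (nat_lit 144) (nat_lit 5) (nat_lit 145) (nat_lit 5) (nat_lit 416) (nat_lit 355) (nat_lit 249))) (XT.nd (nat_lit 78) (nat_lit 152) (nat_lit 0) (XT.lf (nat_lit 0) (nat_lit 6128565260) (nat_lit 152) (nat_lit 18332479955) (nat_lit 76) (nat_lit 26746074319) (nat_lit 140) (nat_lit 5) (nat_lit 142) (nat_lit 5) (nat_lit 141) (nat_lit 5) (nat_lit 417) (nat_lit 355) (nat_lit 248)) (XT.lf (nat_lit 0) (nat_lit 32827768243) (nat_lit 228) (nat_lit 14648787875) (nat_lit 76) (nat_lit 5380141414) (nat_lit 138) (nat_lit 5) (nat_lit 141) (nat_lit 5) (nat_lit 139) (nat_lit 4) (nat_lit 418) (nat_lit 355) (nat_lit 247))))))))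
noncomputable def xc74 : XT := (XT.nd (nat_lit 48750) (nat_lit 0) (nat_lit 9880) (XT.nd (nat_lit 1014) (nat_lit 912) (nat_lit 0) (XT.nd (nat_lit 468) (nat_lit 988) (nat_lit 0) (XT.nd (nat_lit 234) (nat_lit 532) (nat_lit 0) (XT.nd (nat_lit 78) (nat_lit 304) (nat_lit 0) (XT.lf (nat_lit 0) (nat_lit 7003796895) (nat_lit 152) (nat_lit 10676864072) (nat_lit 76) (nat_lit 36880693449) (nat_lit 136) (nat_lit 5) (nat_lit 138) (nat_lit 5) (nat_lit 137) (nat_lit 5) (nat_lit 419) (nat_lit 355) (nat_lit 246)) (XT.nd (nat_lit 78) (nat_lit 152) (nat_lit 0) (XT.lf (nat_lit 0) (nat_lit 35735067240) (nat_lit 228) (nat_lit 6417286534) (nat_lit 76) (nat_lit 14170107078) (nat_lit 134) (nat_lit 5) (nat_lit 137) (nat_lit 5) (nat_lit 135) (nat_lit 4) (nat_lit 420) (nat_lit 355) (nat_lit 245)) (XT.lf (nat_lit 0) (nat_lit 8406041951) (nat_lit 152) (nat_lit 1764133992) (nat_lit 76) (nat_lit 47974448276) (nat_lit 132) (nat_lit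 5) (nat_lit 134) (nat_lit 5) (nat_lit 133) (nat_lit 5) (nat_lit 421) (nat_lit 355) (nat_lit 244)))) (XT.nd (nat_lit 78) (nat_lit 304) (nat_lit 0) (XT.lf (nat_lit 0) (nat_lit 3194353708) (nat_lit 76) (nat_lit 36159077390) (nat_lit 152) (nat_lit 20670447770) (nat_lit 129) (nat_lit 5) (nat_lit 130) (nat_lit 5) (nat_lit 131) (nat_lit 4) (nat_lit 422) (nat_lit 355) (nat_lit 243)) (XT.nd (nat_lit 78) (nat_lit 76) (nat_lit 0) (XT.lf (nat_lit 0) (nat_lit 8702816170) (nat_lit 152) (nat_lit 1769556195) (nat_lit 228) (nat_lit 51497477764) (nat_lit 126) (nat_lit 5) (nat_lit 128) (nat_lit 5) (nat_lit 129) (nat_lit 5) (nat_lit 423) (nat_lit 355) (nat_lit 242)) (XT.lf (nat_lit 0) (nat_lit 14413166233) (nat_lit 76) (nat_lit 29380890683) (nat_lit 152) (nat_lit 20181446701) (nat_lit 125) (nat_lit 5) (nat_lit 126) (nat_lit 5) (nat_lit 127) (nat_lit 4) (nat_lit 424) (nat_lit 355) (nat_lit 241))))) (XT.nd (nat_lit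 234) (nat_lit 456) (nat_lit 0) (XT.nd (nat_lit 78) (nat_lit 304) (nat_lit 0) (XT.lf (nat_lit 0) (nat_lit 13282374320) (nat_lit 228) (nat_lit 45369251412) (nat_lit 76) (nat_lit 7401256971) (nat_lit 122) (nat_lit 5) (nat_lit 125) (nat_lit 5) (nat_lit 123) (nat_lit 4) (nat_lit 425) (nat_lit 355) (nat_lit 240)) (XT.nd (nat_lit 78) (nat_lit 228) (nat_lit 0) (XT.lf (nat_lit 0) (nat_lit 27259053384) (nat_lit 76) (nat_lit 21807040295) (nat_lit 152) (nat_lit 19130119858) (nat_lit 121) (nat_lit 5) (nat_lit 122) (nat_lit 5) (nat_lit 123) (nat_lit 4) (nat_lit 426) (nat_lit 355) (nat_lit 239)) (XT.lf (nat_lit 0) (nat_lit 16838108215) (nat_lit 228) (nat_lit 36068310343) (nat_lit 76) (nat_lit 17506769149) (nat_lit 118) (nat_lit 5) (nat_lit 121) (nat_lit 5) (nat_lit 119) (nat_lit 4) (nat_lit 427) (nat_lit 355) (nat_lit 238)))) (XT.nd (nat_lit 156) (nat_lit 228) (nat_lit 0) (XT.nd (nat_lit 78) (nat_lit 152) (nat_lit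 0) (XT.lf (nat_lit 0) (nat_lit 41892839837) (nat_lit 76) (nat_lit 13355261458) (nat_lit 152) (nat_lit 17456057264) (nat_lit 117) (nat_lit 5) (nat_lit 118) (nat_lit 5) (nat_lit 119) (nat_lit 4) (nat_lit 428) (nat_lit 355) (nat_lit 237)) (XT.lf (nat_lit 0) (nat_lit 21194963436) (nat_lit 152) (nat_lit 25198895379) (nat_lit 76) (nat_lit 28676152256) (nat_lit 115) (nat_lit 5) (nat_lit 117) (nat_lit 5) (nat_lit 116) (nat_lit 4) (nat_lit 429) (nat_lit 355) (nat_lit 236))) (XT.nd (nat_lit 78) (nat_lit 152) (nat_lit 0) (XT.lf (nat_lit 0) (nat_lit 58489647413) (nat_lit 76) (nat_lit 3936029853) (nat_lit 152) (nat_lit 15093049169) (nat_lit 114) (nat_lit 5) (nat_lit 115) (nat_lit 5) (nat_lit 116) (nat_lit 4) (nat_lit 430) (nat_lit 355) (nat_lit 235)) (XT.lf (nat_lit 0) (nat_lit 26431999324) (nat_lit 152) (nat_lit 12599174146) (nat_lit 76) (nat_lit 41012192156) (nat_lit 112) (nat_lit 5) (nat_lit 114) (nat_lit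 5) (nat_lit 113) (nat_lit 4) (nat_lit 431) (nat_lit 355) (nat_lit 234)))))) (XT.nd (nat_lit 47190) (nat_lit 0) (nat_lit 22268) (XT.nd (nat_lit 234) (nat_lit 532) (nat_lit 0) (XT.nd (nat_lit 78) (nat_lit 304) (nat_lit 0) (XT.lf (nat_lit 0) (nat_lit 70754984277) (nat_lit 152) (nat_lit 5483496697) (nat_lit 0) (nat_lit 6420257774) (nat_lit 111) (nat_lit 5) (nat_lit 113) (nat_lit 4) (nat_lit 111) (nat_lit 4) (nat_lit 432) (nat_lit 355) (nat_lit 233)) (XT.nd (nat_lit 78) (nat_lit 76) (nat_lit 0) (XT.lf (nat_lit 0) (nat_lit 1945305067) (nat_lit 76) (nat_lit 30708890171) (nat_lit 152) (nat_lit 52699872186) (nat_lit 108) (nat_lit 5) (nat_lit 109) (nat_lit 5) (nat_lit 110) (nat_lit 4) (nat_lit 433) (nat_lit 355) (nat_lit 232)) (XT.lf (nat_lit 0) (nat_lit 10224015469) (nat_lit 76) (nat_lit 70197902085) (nat_lit 76) (nat_lit 7721867322) (nat_lit 107) (nat_lit 4) (nat_lit 108) (nat_lit 5) (nat_lit 108) (nat_lit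 4) (nat_lit 434) (nat_lit 355) (nat_lit 231)))) (XT.nd (nat_lit 156) (nat_lit 304) (nat_lit 0) (XT.nd (nat_lit 78) (nat_lit 76) (nat_lit 0) (XT.lf (nat_lit 0) (nat_lit 18881483312) (nat_lit 76) (nat_lit 21199575578) (nat_lit 152) (nat_lit 50940129711) (nat_lit 105) (nat_lit 5) (nat_lit 106) (nat_lit 5) (nat_lit 107) (nat_lit 4) (nat_lit 435) (nat_lit 355) (nat_lit 230)) (XT.lf (nat_lit 0) (nat_lit 28285456864) (nat_lit 76) (nat_lit 63191750717) (nat_lit 76) (nat_lit 2522078021) (nat_lit 104) (nat_lit 4) (nat_lit 105) (nat_lit 5) (nat_lit 105) (nat_lit 4) (nat_lit 436) (nat_lit 355) (nat_lit 229))) (XT.nd (nat_lit 78) (nat_lit 152) (nat_lit 0) (XT.lf (nat_lit 0) (nat_lit 38172363878) (nat_lit 76) (nat_lit 10521344775) (nat_lit 152) (nat_lit 48379055198) (nat_lit 102) (nat_lit 5) (nat_lit 103) (nat_lit 5) (nat_lit 104) (nat_lit 4) (nat_lit 437) (nat_lit 355) (nat_lit 228)) (XT.lf (nat_lit 0) (nat_lit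 3665557727) (nat_lit 152) (nat_lit 51473249684) (nat_lit 76) (nat_lit 45112109942) (nat_lit 100) (nat_lit 5) (nat_lit 102) (nat_lit 5) (nat_lit 101) (nat_lit 4) (nat_lit 438) (nat_lit 355) (nat_lit 227))))) (XT.nd (nat_lit 234) (nat_lit 988) (nat_lit 0) (XT.nd (nat_lit 78) (nat_lit 0) (nat_lit 0) (XT.lf (nat_lit 0) (nat_lit 2646662749) (nat_lit 1140) (nat_lit 1031033989) (nat_lit 1140) (nat_lit 1031033989) (nat_lit 406) (nat_lit 3) (nat_lit 421) (nat_lit 3) (nat_lit 421) (nat_lit 5) (nat_lit 356) (nat_lit 356) (nat_lit 308)) (XT.nd (nat_lit 78) (nat_lit 0) (nat_lit 76) (XT.lf (nat_lit 76) (nat_lit 5892081236) (nat_lit 0) (nat_lit 918652155) (nat_lit 1140) (nat_lit 2800612358) (nat_lit 407) (nat_lit 5) (nat_lit 406) (nat_lit 3) (nat_lit 421) (nat_lit 5) (nat_lit 357) (nat_lit 356) (nat_lit 307)) (XT.lf (nat_lit 76) (nat_lit 4455720090) (nat_lit 0) (nat_lit 3983623302) (nat_lit 1140) (nat_lit 1374520914)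 (nat_lit 408) (nat_lit 5) (nat_lit 407) (nat_lit 5) (nat_lit 422) (nat_lit 5) (nat_lit 358) (nat_lit 356) (nat_lit 306)))) (XT.nd (nat_lit 156) (nat_lit 0) (nat_lit 76) (XT.nd (nat_lit 78) (nat_lit 0) (nat_lit 0) (XT.lf (nat_lit 0) (nat_lit 144499812) (nat_lit 1140) (nat_lit 6961780117) (nat_lit 1216) (nat_lit 2919472754) (nat_lit 393) (nat_lit 5) (nat_lit 408) (nat_lit 5) (nat_lit 409) (nat_lit 5) (nat_lit 359) (nat_lit 356) (nat_lit 305)) (XT.lf (nat_lit 76) (nat_lit 1701972888) (nat_lit 0) (nat_lit 43114425) (nat_lit 1216) (nat_lit 8501718604) (nat_lit 394) (nat_lit 5) (nat_lit 393) (nat_lit 5) (nat_lit 409) (nat_lit 5) (nat_lit 360) (nat_lit 356) (nat_lit 304))) (XT.nd (nat_lit 78) (nat_lit 0) (nat_lit 76) (XT.lf (nat_lit 76) (nat_lit 352622619) (nat_lit 0) (nat_lit 3144771140) (nat_lit 1216) (nat_lit 6979367367) (nat_lit 395) (nat_lit 5) (nat_lit 394) (nat_lit 5) (nat_lit 410) (nat_lit 5)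 (nat_lit 361) (nat_lit 356) (nat_lit 303)) (XT.lf (nat_lit 0) (nat_lit 5396828260) (nat_lit 1140) (nat_lit 936483878) (nat_lit 1216) (nat_lit 4383116575) (nat_lit 395) (nat_lit 5) (nat_lit 410) (nat_lit 5) (nat_lit 411) (nat_lit 5) (nat_lit 362) (nat_lit 356) (nat_lit 302))))))) (XT.nd (nat_lit 1014) (nat_lit 5928) (nat_lit 0) (XT.nd (nat_lit 468) (nat_lit 3572) (nat_lit 0) (XT.nd (nat_lit 234) (nat_lit 1976) (nat_lit 0) (XT.nd (nat_lit 78) (nat_lit 1140) (nat_lit 0) (XT.lf (nat_lit 0) (nat_lit 7452460174) (nat_lit 1140) (nat_lit 2177965238) (nat_lit 1216) (nat_lit 1335817497) (nat_lit 396) (nat_lit 5) (nat_lit 411) (nat_lit 5) (nat_lit 412) (nat_lit 5) (nat_lit 363) (nat_lit 356) (nat_lit 301)) (XT.nd (nat_lit 78) (nat_lit 1140) (nat_lit 0) (XT.lf (nat_lit 76) (nat_lit 7829820203) (nat_lit 0) (nat_lit 1864724584) (nat_lit 1216) (nat_lit 1531492895) (nat_lit 397) (nat_lit 5) (nat_lit 396) (nat_lit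 5) (nat_lit 412) (nat_lit 5) (nat_lit 364) (nat_lit 356) (nat_lit 300)) (XT.lf (nat_lit 0) (nat_lit 627088853) (nat_lit 1216) (nat_lit 4592986529) (nat_lit 1292) (nat_lit 6275950983) (nat_lit 381) (nat_lit 5) (nat_lit 397) (nat_lit 5) (nat_lit 398) (nat_lit 5) (nat_lit 365) (nat_lit 356) (nat_lit 299)))) (XT.nd (nat_lit 78) (nat_lit 2052) (nat_lit 0) (XT.lf (nat_lit 0) (nat_lit 2943963627) (nat_lit 1216) (nat_lit 5764420047) (nat_lit 76) (nat_lit 3068214783) (nat_lit 382) (nat_lit 5) (nat_lit 398) (nat_lit 5) (nat_lit 383) (nat_lit 5) (nat_lit 366) (nat_lit 356) (nat_lit 298)) (XT.nd (nat_lit 78) (nat_lit 836) (nat_lit 0) (XT.lf (nat_lit 0) (nat_lit 5171245353) (nat_lit 1216) (nat_lit 297536617) (nat_lit 1292) (nat_lit 6599654189) (nat_lit 366) (nat_lit 5) (nat_lit 382) (nat_lit 5) (nat_lit 383) (nat_lit 5) (nat_lit 367) (nat_lit 356) (nat_lit 297)) (XT.lf (nat_lit 0) (nat_lit 4352780138) (nat_lit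 836) (nat_lit 3895177246) (nat_lit 912) (nat_lit 4123064877) (nat_lit 355) (nat_lit 5) (nat_lit 366) (nat_lit 5) (nat_lit 367) (nat_lit 5) (nat_lit 368) (nat_lit 356) (nat_lit 296))))) (XT.nd (nat_lit 234) (nat_lit 1748) (nat_lit 0) (XT.nd (nat_lit 78) (nat_lit 1216) (nat_lit 0) (XT.lf (nat_lit 0) (nat_lit 3590357783) (nat_lit 608) (nat_lit 7679456372) (nat_lit 684) (nat_lit 1415811835) (nat_lit 347) (nat_lit 5) (nat_lit 355) (nat_lit 5) (nat_lit 356) (nat_lit 5) (nat_lit 369) (nat_lit 356) (nat_lit 295)) (XT.nd (nat_lit 78) (nat_lit 532) (nat_lit 0) (XT.lf (nat_lit 0) (nat_lit 1510813827) (nat_lit 684) (nat_lit 10140393806) (nat_lit 76) (nat_lit 1360985253) (nat_lit 338) (nat_lit 5) (nat_lit 347) (nat_lit 5) (nat_lit 339) (nat_lit 5) (nat_lit 370) (nat_lit 356) (nat_lit 294)) (XT.lf (nat_lit 0) (nat_lit 2174263443) (nat_lit 532) (nat_lit 2523573009) (nat_lit 608) (nat_lit 8652530731) (nat_lit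 331) (nat_lit 5) (nat_lit 338) (nat_lit 5) (nat_lit 339) (nat_lit 5) (nat_lit 371) (nat_lit 356) (nat_lit 293)))) (XT.nd (nat_lit 156) (nat_lit 608) (nat_lit 0) (XT.nd (nat_lit 78) (nat_lit 532) (nat_lit 0) (XT.lf (nat_lit 0) (nat_lit 1524662885) (nat_lit 608) (nat_lit 6659496557) (nat_lit 684) (nat_lit 5517092275) (nat_lit 323) (nat_lit 5) (nat_lit 331) (nat_lit 5) (nat_lit 332) (nat_lit 5) (nat_lit 372) (nat_lit 356) (nat_lit 292)) (XT.lf (nat_lit 0) (nat_lit 940952762) (nat_lit 532) (nat_lit 11036587471) (nat_lit 608) (nat_lit 2088157996) (nat_lit 316) (nat_lit 5) (nat_lit 323) (nat_lit 5) (nat_lit 324) (nat_lit 5) (nat_lit 373) (nat_lit 356) (nat_lit 291))) (XT.nd (nat_lit 78) (nat_lit 0) (nat_lit 0) (XT.lf (nat_lit 0) (nat_lit 399227221) (nat_lit 532) (nat_lit 1236210491) (nat_lit 608) (nat_lit 12807911553) (nat_lit 308) (nat_lit 5) (nat_lit 315) (nat_lit 5) (nat_lit 316) (nat_lit 5) (nat_lit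 374) (nat_lit 356) (nat_lit 290)) (XT.lf (nat_lit 0) (nat_lit 5682614773) (nat_lit 608) (nat_lit 121221206) (nat_lit 76) (nat_lit 9030008992) (nat_lit 308) (nat_lit 5) (nat_lit 316) (nat_lit 5) (nat_lit 309) (nat_lit 5) (nat_lit 375) (nat_lit 356) (nat_lit 289)))))) (XT.nd (nat_lit 546) (nat_lit 2660) (nat_lit 0) (XT.nd (nat_lit 234) (nat_lit 1748) (nat_lit 0) (XT.nd (nat_lit 78) (nat_lit 1064) (nat_lit 0) (XT.lf (nat_lit 0) (nat_lit 10089938145) (nat_lit 532) (nat_lit 560027587) (nat_lit 76) (nat_lit 4589166107) (nat_lit 302) (nat_lit 5) (nat_lit 309) (nat_lit 5) (nat_lit 303) (nat_lit 5) (nat_lit 376) (nat_lit 356) (nat_lit 288)) (XT.nd (nat_lit 78) (nat_lit 532) (nat_lit 0) (XT.lf (nat_lit 0) (nat_lit 14739333706) (nat_lit 532) (nat_lit 140048296) (nat_lit 608) (nat_lit 780448419) (nat_lit 295) (nat_lit 5) (nat_lit 302) (nat_lit 5) (nat_lit 303) (nat_lit 5) (nat_lit 377) (nat_lit 356) (nat_lit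 287)) (XT.lf (nat_lit 0) (nat_lit 3949518006) (nat_lit 532) (nat_lit 1281586739) (nat_lit 76) (nat_lit 10862849399) (nat_lit 288) (nat_lit 5) (nat_lit 295) (nat_lit 5) (nat_lit 289) (nat_lit 5) (nat_lit 378) (nat_lit 356) (nat_lit 286)))) (XT.nd (nat_lit 156) (nat_lit 912) (nat_lit 0) (XT.nd (nat_lit 78) (nat_lit 380) (nat_lit 0) (XT.lf (nat_lit 0) (nat_lit 9076065242) (nat_lit 532) (nat_lit 1564340688) (nat_lit 76) (nat_lit 5903859605) (nat_lit 282) (nat_lit 5) (nat_lit 289) (nat_lit 5) (nat_lit 283) (nat_lit 5) (nat_lit 379) (nat_lit 356) (nat_lit 285)) (XT.lf (nat_lit 0) (nat_lit 14641725859) (nat_lit 456) (nat_lit 1754141739) (nat_lit 76) (nat_lit 615741316) (nat_lit 277) (nat_lit 5) (nat_lit 283) (nat_lit 5) (nat_lit 278) (nat_lit 5) (nat_lit 380) (nat_lit 356) (nat_lit 284))) (XT.nd (nat_lit 78) (nat_lit 380) (nat_lit 0) (XT.lf (nat_lit 0) (nat_lit 3166240194) (nat_lit 532) (nat_lit 1923539974)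 (nat_lit 76) (nat_lit 12404445779) (nat_lit 270) (nat_lit 5) (nat_lit 277) (nat_lit 5) (nat_lit 271) (nat_lit 5) (nat_lit 381) (nat_lit 356) (nat_lit 283)) (XT.lf (nat_lit 0) (nat_lit 9136088569) (nat_lit 456) (nat_lit 2021054301) (nat_lit 76) (nat_lit 6836949084) (nat_lit 265) (nat_lit 5) (nat_lit 271) (nat_lit 5) (nat_lit 266) (nat_lit 5) (nat_lit 382) (nat_lit 356) (nat_lit 282))))) (XT.nd (nat_lit 234) (nat_lit 1444) (nat_lit 0) (XT.nd (nat_lit 78) (nat_lit 836) (nat_lit 0) (XT.lf (nat_lit 0) (nat_lit 15610384509) (nat_lit 456) (nat_lit 2009295059) (nat_lit 76) (nat_lit 893093038) (nat_lit 260) (nat_lit 5) (nat_lit 266) (nat_lit 5) (nat_lit 261) (nat_lit 5) (nat_lit 383) (nat_lit 356) (nat_lit 281)) (XT.nd (nat_lit 78) (nat_lit 380) (nat_lit 0) (XT.lf (nat_lit 0) (nat_lit 3554558649) (nat_lit 456) (nat_lit 1967351240) (nat_lit 76) (nat_lit 13526442815) (nat_lit 254) (nat_lit 5) (nat_lit 260)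 (nat_lit 5) (nat_lit 255) (nat_lit 5) (nat_lit 384) (nat_lit 356) (nat_lit 280)) (XT.lf (nat_lit 0) (nat_lit 10507240310) (nat_lit 456) (nat_lit 1843266122) (nat_lit 76) (nat_lit 7252355878) (nat_lit 249) (nat_lit 5) (nat_lit 255) (nat_lit 5) (nat_lit 250) (nat_lit 5) (nat_lit 385) (nat_lit 356) (nat_lit 279)))) (XT.nd (nat_lit 156) (nat_lit 684) (nat_lit 0) (XT.nd (nat_lit 78) (nat_lit 456) (nat_lit 0) (XT.lf (nat_lit 0) (nat_lit 18037771038) (nat_lit 380) (nat_lit 1590244263) (nat_lit 76) (nat_lit 550175646) (nat_lit 245) (nat_lit 5) (nat_lit 250) (nat_lit 5) (nat_lit 246) (nat_lit 5) (nat_lit 386) (nat_lit 356) (nat_lit 278)) (XT.lf (nat_lit 0) (nat_lit 5366979048) (nat_lit 456) (nat_lit 1314853987) (nat_lit 76) (nat_lit 14089808918) (nat_lit 239) (nat_lit 5) (nat_lit 245) (nat_lit 5) (nat_lit 240) (nat_lit 5) (nat_lit 387) (nat_lit 356) (nat_lit 277))) (XT.nd (nat_lit 78) (nat_lit 380) (nat_lit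 0) (XT.lf (nat_lit 0) (nat_lit 13459964370) (nat_lit 380) (nat_lit 924950302) (nat_lit 76) (nat_lit 7001580562) (nat_lit 235) (nat_lit 5) (nat_lit 240) (nat_lit 5) (nat_lit 236) (nat_lit 5) (nat_lit 388) (nat_lit 356) (nat_lit 276)) (XT.lf (nat_lit 0) (nat_lit 191006668) (nat_lit 380) (nat_lit 390221902) (nat_lit 76) (nat_lit 21442962732) (nat_lit 230) (nat_lit 5) (nat_lit 235) (nat_lit 5) (nat_lit 231) (nat_lit 5) (nat_lit 389) (nat_lit 356) (nat_lit 275))))))))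
noncomputable def xc75 : XT := (XT.nd (nat_lit 2106) (nat_lit 3192) (nat_lit 0) (XT.nd (nat_lit 1014) (nat_lit 2736) (nat_lit 0) (XT.nd (nat_lit 468) (nat_lit 1748) (nat_lit 0) (XT.nd (nat_lit 234) (nat_lit 836) (nat_lit 0) (XT.nd (nat_lit 78) (nat_lit 608) (nat_lit 0) (XT.lf (nat_lit 0) (nat_lit 155344401) (nat_lit 304) (nat_lit 8738333340) (nat_lit 380) (nat_lit 13787444333) (nat_lit 222) (nat_lit 5) (nat_lit 226) (nat_lit 5) (nat_lit 227) (nat_lit 5) (nat_lit 390) (nat_lit 356) (nat_lit 274)) (XT.nd (nat_lit 78) (nat_lit 380) (nat_lit 0) (XT.lf (nat_lit 0) (nat_lit 878103400) (nat_lit 228) (nat_lit 17433959969) (nat_lit 304) (nat_lit 5050418586) (nat_lit 219) (nat_lit 5) (nat_lit 222) (nat_lit 5) (nat_lit 223) (nat_lit 5) (nat_lit 391) (nat_lit 356) (nat_lit 273)) (XT.lf (nat_lit 0) (nat_lit 1714366475) (nat_lit 304) (nat_lit 2641392657) (nat_lit 380) (nat_lit 19711578655) (nat_lit 214) (nat_lit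 5) (nat_lit 218) (nat_lit 5) (nat_lit 219) (nat_lit 5) (nat_lit 392) (nat_lit 356) (nat_lit 272)))) (XT.nd (nat_lit 78) (nat_lit 608) (nat_lit 0) (XT.lf (nat_lit 0) (nat_lit 2626129061) (nat_lit 228) (nat_lit 11860172837) (nat_lit 304) (nat_lit 10308879191) (nat_lit 211) (nat_lit 5) (nat_lit 214) (nat_lit 5) (nat_lit 215) (nat_lit 5) (nat_lit 393) (nat_lit 356) (nat_lit 271)) (XT.nd (nat_lit 78) (nat_lit 304) (nat_lit 0) (XT.lf (nat_lit 0) (nat_lit 3737910319) (nat_lit 304) (nat_lit 21690840940) (nat_lit 380) (nat_lit 121503915) (nat_lit 207) (nat_lit 5) (nat_lit 211) (nat_lit 5) (nat_lit 212) (nat_lit 5) (nat_lit 394) (nat_lit 356) (nat_lit 270)) (XT.lf (nat_lit 0) (nat_lit 4900121627) (nat_lit 228) (nat_lit 5841925186) (nat_lit 304) (nat_lit 15586791448) (nat_lit 203) (nat_lit 5) (nat_lit 206) (nat_lit 5) (nat_lit 207) (nat_lit 5) (nat_lit 395) (nat_lit 356) (nat_lit 269))))) (XT.nd (nat_lit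 234) (nat_lit 988) (nat_lit 0) (XT.nd (nat_lit 78) (nat_lit 532) (nat_lit 0) (XT.lf (nat_lit 0) (nat_lit 6240358486) (nat_lit 228) (nat_lit 16273014657) (nat_lit 304) (nat_lit 4621927939) (nat_lit 200) (nat_lit 5) (nat_lit 203) (nat_lit 5) (nat_lit 204) (nat_lit 5) (nat_lit 396) (nat_lit 356) (nat_lit 268)) (XT.nd (nat_lit 78) (nat_lit 228) (nat_lit 0) (XT.lf (nat_lit 0) (nat_lit 7096370435) (nat_lit 304) (nat_lit 20225292993) (nat_lit 76) (nat_lit 648246449) (nat_lit 196) (nat_lit 5) (nat_lit 200) (nat_lit 5) (nat_lit 197) (nat_lit 5) (nat_lit 397) (nat_lit 356) (nat_lit 267)) (XT.lf (nat_lit 0) (nat_lit 9344973970) (nat_lit 228) (nat_lit 10409870577) (nat_lit 304) (nat_lit 9076536232) (nat_lit 193) (nat_lit 5) (nat_lit 196) (nat_lit 5) (nat_lit 197) (nat_lit 5) (nat_lit 398) (nat_lit 356) (nat_lit 266)))) (XT.nd (nat_lit 156) (nat_lit 456) (nat_lit 0) (XT.nd (nat_lit 78) (nat_lit 228) (nat_lit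 0) (XT.lf (nat_lit 0) (nat_lit 3616097077) (nat_lit 304) (nat_lit 18564662918) (nat_lit 76) (nat_lit 7543099324) (nat_lit 189) (nat_lit 5) (nat_lit 193) (nat_lit 5) (nat_lit 190) (nat_lit 5) (nat_lit 399) (nat_lit 356) (nat_lit 265)) (XT.lf (nat_lit 0) (nat_lit 13110347633) (nat_lit 228) (nat_lit 4059435789) (nat_lit 304) (nat_lit 13476058220) (nat_lit 186) (nat_lit 5) (nat_lit 189) (nat_lit 5) (nat_lit 190) (nat_lit 5) (nat_lit 400) (nat_lit 356) (nat_lit 264))) (XT.nd (nat_lit 78) (nat_lit 228) (nat_lit 0) (XT.lf (nat_lit 0) (nat_lit 258839886) (nat_lit 228) (nat_lit 16337201623) (nat_lit 76) (nat_lit 15003919220) (nat_lit 183) (nat_lit 5) (nat_lit 186) (nat_lit 5) (nat_lit 184) (nat_lit 5) (nat_lit 401) (nat_lit 356) (nat_lit 263)) (XT.lf (nat_lit 0) (nat_lit 14803687116) (nat_lit 304) (nat_lit 15013002487) (nat_lit 76) (nat_lit 2769036086) (nat_lit 180) (nat_lit 5) (nat_lit 184) (nat_lit 5)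 (nat_lit 181) (nat_lit 5) (nat_lit 402) (nat_lit 356) (nat_lit 262)))))) (XT.nd (nat_lit 546) (nat_lit 1368) (nat_lit 0) (XT.nd (nat_lit 234) (nat_lit 760) (nat_lit 0) (XT.nd (nat_lit 78) (nat_lit 456) (nat_lit 0) (XT.lf (nat_lit 0) (nat_lit 20092275733) (nat_lit 152) (nat_lit 10494202471) (nat_lit 228) (nat_lit 3018979647) (nat_lit 178) (nat_lit 5) (nat_lit 180) (nat_lit 5) (nat_lit 181) (nat_lit 5) (nat_lit 403) (nat_lit 356) (nat_lit 261)) (XT.nd (nat_lit 78) (nat_lit 152) (nat_lit 0) (XT.lf (nat_lit 0) (nat_lit 12694296669) (nat_lit 304) (nat_lit 11874548669) (nat_lit 76) (nat_lit 10090062545) (nat_lit 174) (nat_lit 5) (nat_lit 178) (nat_lit 5) (nat_lit 175) (nat_lit 5) (nat_lit 404) (nat_lit 356) (nat_lit 260)) (XT.lf (nat_lit 0) (nat_lit 25749717396) (nat_lit 152) (nat_lit 3856702211) (nat_lit 228) (nat_lit 6143445485) (nat_lit 172) (nat_lit 5) (nat_lit 174) (nat_lit 5) (nat_lit 175) (nat_lit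 5) (nat_lit 405) (nat_lit 356) (nat_lit 259)))) (XT.nd (nat_lit 156) (nat_lit 380) (nat_lit 0) (XT.nd (nat_lit 78) (nat_lit 152) (nat_lit 0) (XT.lf (nat_lit 0) (nat_lit 10825476980) (nat_lit 228) (nat_lit 8013810982) (nat_lit 76) (nat_lit 18036233770) (nat_lit 169) (nat_lit 5) (nat_lit 172) (nat_lit 5) (nat_lit 170) (nat_lit 5) (nat_lit 406) (nat_lit 356) (nat_lit 258)) (XT.lf (nat_lit 0) (nat_lit 28984829008) (nat_lit 228) (nat_lit 5757108452) (nat_lit 76) (nat_lit 3299627778) (nat_lit 167) (nat_lit 5) (nat_lit 170) (nat_lit 5) (nat_lit 168) (nat_lit 5) (nat_lit 407) (nat_lit 356) (nat_lit 257))) (XT.nd (nat_lit 78) (nat_lit 152) (nat_lit 0) (XT.lf (nat_lit 0) (nat_lit 9222467134) (nat_lit 228) (nat_lit 3357091702) (nat_lit 76) (nat_lit 26665587907) (nat_lit 164) (nat_lit 5) (nat_lit 167) (nat_lit 5) (nat_lit 165) (nat_lit 5) (nat_lit 408) (nat_lit 356) (nat_lit 256)) (XT.lf (nat_lit 0) (nat_lit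 28763994812) (nat_lit 228) (nat_lit 717455669) (nat_lit 76) (nat_lit 11008696581) (nat_lit 162) (nat_lit 5) (nat_lit 165) (nat_lit 5) (nat_lit 163) (nat_lit 5) (nat_lit 409) (nat_lit 356) (nat_lit 255))))) (XT.nd (nat_lit 234) (nat_lit 608) (nat_lit 0) (XT.nd (nat_lit 78) (nat_lit 380) (nat_lit 0) (XT.lf (nat_lit 0) (nat_lit 2219538345) (nat_lit 152) (nat_lit 5714878281) (nat_lit 228) (nat_lit 33842963850) (nat_lit 157) (nat_lit 5) (nat_lit 159) (nat_lit 5) (nat_lit 160) (nat_lit 5) (nat_lit 410) (nat_lit 356) (nat_lit 254)) (XT.nd (nat_lit 78) (nat_lit 228) (nat_lit 0) (XT.lf (nat_lit 0) (nat_lit 5344308910) (nat_lit 152) (nat_lit 23648933975) (nat_lit 228) (nat_lit 14112517347) (nat_lit 155) (nat_lit 5) (nat_lit 157) (nat_lit 5) (nat_lit 158) (nat_lit 5) (nat_lit 411) (nat_lit 356) (nat_lit 253)) (XT.lf (nat_lit 0) (nat_lit 7030616656) (nat_lit 228) (nat_lit 35653275486) (nat_lit 76) (nat_lit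 1798110999) (nat_lit 152) (nat_lit 5) (nat_lit 155) (nat_lit 5) (nat_lit 153) (nat_lit 5) (nat_lit 412) (nat_lit 356) (nat_lit 252)))) (XT.nd (nat_lit 156) (nat_lit 304) (nat_lit 0) (XT.nd (nat_lit 78) (nat_lit 152) (nat_lit 0) (XT.lf (nat_lit 0) (nat_lit 12450188699) (nat_lit 152) (nat_lit 17226325765) (nat_lit 228) (nat_lit 16224227625) (nat_lit 150) (nat_lit 5) (nat_lit 152) (nat_lit 5) (nat_lit 153) (nat_lit 5) (nat_lit 413) (nat_lit 356) (nat_lit 251)) (XT.lf (nat_lit 0) (nat_lit 6556962689) (nat_lit 152) (nat_lit 30914046488) (nat_lit 76) (nat_lit 9899329710) (nat_lit 148) (nat_lit 5) (nat_lit 150) (nat_lit 5) (nat_lit 149) (nat_lit 5) (nat_lit 414) (nat_lit 356) (nat_lit 250))) (XT.nd (nat_lit 78) (nat_lit 152) (nat_lit 0) (XT.lf (nat_lit 0) (nat_lit 20688232732) (nat_lit 152) (nat_lit 10161557365) (nat_lit 228) (nat_lit 18037562765) (nat_lit 146) (nat_lit 5) (nat_lit 148) (nat_lit 5) (nat_lit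 149) (nat_lit 5) (nat_lit 415) (nat_lit 356) (nat_lit 249)) (XT.lf (nat_lit 0) (nat_lit 6497257574) (nat_lit 152) (nat_lit 25191282273) (nat_lit 76) (nat_lit 18767935922) (nat_lit 144) (nat_lit 5) (nat_lit 146) (nat_lit 5) (nat_lit 145) (nat_lit 5) (nat_lit 416) (nat_lit 356) (nat_lit 248))))))) (XT.nd (nat_lit 1014) (nat_lit 1140) (nat_lit 0) (XT.nd (nat_lit 468) (nat_lit 1140) (nat_lit 0) (XT.nd (nat_lit 234) (nat_lit 456) (nat_lit 0) (XT.nd (nat_lit 78) (nat_lit 304) (nat_lit 0) (XT.lf (nat_lit 0) (nat_lit 30170056805) (nat_lit 152) (nat_lit 2390084800) (nat_lit 228) (nat_lit 19518324510) (nat_lit 142) (nat_lit 5) (nat_lit 144) (nat_lit 5) (nat_lit 145) (nat_lit 5) (nat_lit 417) (nat_lit 356) (nat_lit 247)) (XT.nd (nat_lit 78) (nat_lit 152) (nat_lit 0) (XT.lf (nat_lit 0) (nat_lit 6894034273) (nat_lit 152) (nat_lit 18382279534) (nat_lit 76) (nat_lit 28477390479) (nat_lit 140) (nat_lit 5) (nat_lit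 142) (nat_lit 5) (nat_lit 141) (nat_lit 5) (nat_lit 418) (nat_lit 356) (nat_lit 246)) (XT.lf (nat_lit 0) (nat_lit 34918245262) (nat_lit 228) (nat_lit 14529705281) (nat_lit 76) (nat_lit 6038109207) (nat_lit 138) (nat_lit 5) (nat_lit 141) (nat_lit 5) (nat_lit 139) (nat_lit 4) (nat_lit 419) (nat_lit 356) (nat_lit 245)))) (XT.nd (nat_lit 78) (nat_lit 304) (nat_lit 0) (XT.lf (nat_lit 0) (nat_lit 7793954301) (nat_lit 152) (nat_lit 10374837777) (nat_lit 76) (nat_lit 39107431031) (nat_lit 136) (nat_lit 5) (nat_lit 138) (nat_lit 5) (nat_lit 137) (nat_lit 5) (nat_lit 420) (nat_lit 356) (nat_lit 244)) (XT.nd (nat_lit 78) (nat_lit 152) (nat_lit 0) (XT.lf (nat_lit 0) (nat_lit 37952343601) (nat_lit 228) (nat_lit 5917138458) (nat_lit 76) (nat_lit 15256186146) (nat_lit 134) (nat_lit 5) (nat_lit 137) (nat_lit 5) (nat_lit 135) (nat_lit 4) (nat_lit 421) (nat_lit 356) (nat_lit 243)) (XT.lf (nat_lit 0) (nat_lit 9248167323)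 (nat_lit 152) (nat_lit 1046467335) (nat_lit 76) (nat_lit 50744566074) (nat_lit 132) (nat_lit 5) (nat_lit 134) (nat_lit 5) (nat_lit 133) (nat_lit 5) (nat_lit 422) (nat_lit 356) (nat_lit 242))))) (XT.nd (nat_lit 234) (nat_lit 608) (nat_lit 0) (XT.nd (nat_lit 78) (nat_lit 304) (nat_lit 0) (XT.lf (nat_lit 0) (nat_lit 4161283569) (nat_lit 76) (nat_lit 37580429874) (nat_lit 152) (nat_lit 21270741044) (nat_lit 129) (nat_lit 5) (nat_lit 130) (nat_lit 5) (nat_lit 131) (nat_lit 4) (nat_lit 423) (nat_lit 356) (nat_lit 241)) (XT.nd (nat_lit 78) (nat_lit 76) (nat_lit 0) (XT.lf (nat_lit 0) (nat_lit 9930242113) (nat_lit 152) (nat_lit 1477912662) (nat_lit 228) (nat_lit 53647822947) (nat_lit 126) (nat_lit 5) (nat_lit 128) (nat_lit 5) (nat_lit 129) (nat_lit 5) (nat_lit 424) (nat_lit 356) (nat_lit 240)) (XT.lf (nat_lit 0) (nat_lit 15911860241) (nat_lit 76) (nat_lit 30475395381) (nat_lit 152) (nat_lit 20774918301)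 (nat_lit 125) (nat_lit 5) (nat_lit 126) (nat_lit 5) (nat_lit 127) (nat_lit 4) (nat_lit 425) (nat_lit 356) (nat_lit 239)))) (XT.nd (nat_lit 156) (nat_lit 304) (nat_lit 0) (XT.nd (nat_lit 78) (nat_lit 76) (nat_lit 0) (XT.lf (nat_lit 0) (nat_lit 14345459081) (nat_lit 228) (nat_lit 46865779529) (nat_lit 76) (nat_lit 8132319247) (nat_lit 122) (nat_lit 5) (nat_lit 125) (nat_lit 5) (nat_lit 123) (nat_lit 4) (nat_lit 426) (nat_lit 356) (nat_lit 238)) (XT.lf (nat_lit 0) (nat_lit 29371813161) (nat_lit 76) (nat_lit 22534760469) (nat_lit 152) (nat_lit 19687835326) (nat_lit 121) (nat_lit 5) (nat_lit 122) (nat_lit 5) (nat_lit 123) (nat_lit 4) (nat_lit 427) (nat_lit 356) (nat_lit 237))) (XT.nd (nat_lit 78) (nat_lit 76) (nat_lit 0) (XT.lf (nat_lit 0) (nat_lit 18062902541) (nat_lit 228) (nat_lit 37127895192) (nat_lit 76) (nat_lit 18731562693) (nat_lit 118) (nat_lit 5) (nat_lit 121) (nat_lit 5) (nat_lit 119) (nat_lit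 4) (nat_lit 428) (nat_lit 356) (nat_lit 236)) (XT.lf (nat_lit 0) (nat_lit 44709990741) (nat_lit 76) (nat_lit 13672116926) (nat_lit 152) (nat_lit 17946110781) (nat_lit 117) (nat_lit 5) (nat_lit 118) (nat_lit 5) (nat_lit 119) (nat_lit 4) (nat_lit 429) (nat_lit 356) (nat_lit 235)))))) (XT.nd (nat_lit 546) (nat_lit 228) (nat_lit 0) (XT.nd (nat_lit 234) (nat_lit 532) (nat_lit 0) (XT.nd (nat_lit 78) (nat_lit 228) (nat_lit 0) (XT.lf (nat_lit 0) (nat_lit 22622252176) (nat_lit 152) (nat_lit 25742174996) (nat_lit 76) (nat_lit 30448058235) (nat_lit 115) (nat_lit 5) (nat_lit 117) (nat_lit 5) (nat_lit 116) (nat_lit 4) (nat_lit 430) (nat_lit 356) (nat_lit 234)) (XT.nd (nat_lit 78) (nat_lit 152) (nat_lit 0) (XT.lf (nat_lit 0) (nat_lit 62110251873) (nat_lit 76) (nat_lit 3793439445) (nat_lit 152) (nat_lit 15480269535) (nat_lit 114) (nat_lit 5) (nat_lit 115) (nat_lit 5) (nat_lit 116) (nat_lit 4) (nat_lit 431) (nat_lit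 356) (nat_lit 233)) (XT.lf (nat_lit 0) (nat_lit 28106478213) (nat_lit 152) (nat_lit 12538715770) (nat_lit 76) (nat_lit 43389753556) (nat_lit 112) (nat_lit 5) (nat_lit 114) (nat_lit 5) (nat_lit 113) (nat_lit 4) (nat_lit 432) (nat_lit 356) (nat_lit 232)))) (XT.nd (nat_lit 156) (nat_lit 228) (nat_lit 0) (XT.nd (nat_lit 78) (nat_lit 228) (nat_lit 0) (XT.lf (nat_lit 0) (nat_lit 74638409071) (nat_lit 152) (nat_lit 5079923411) (nat_lit 0) (nat_lit 7062972936) (nat_lit 111) (nat_lit 5) (nat_lit 113) (nat_lit 4) (nat_lit 111) (nat_lit 4) (nat_lit 433) (nat_lit 356) (nat_lit 231)) (XT.lf (nat_lit 0) (nat_lit 2720871103) (nat_lit 76) (nat_lit 31911419367) (nat_lit 152) (nat_lit 54979118762) (nat_lit 108) (nat_lit 5) (nat_lit 109) (nat_lit 5) (nat_lit 110) (nat_lit 4) (nat_lit 434) (nat_lit 356) (nat_lit 230))) (XT.nd (nat_lit 78) (nat_lit 152) (nat_lit 0) (XT.lf (nat_lit 0) (nat_lit 11401029767) (nat_lit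 76) (nat_lit 73380370209) (nat_lit 76) (nat_lit 7759422547) (nat_lit 107) (nat_lit 4) (nat_lit 108) (nat_lit 5) (nat_lit 108) (nat_lit 4) (nat_lit 435) (nat_lit 356) (nat_lit 229)) (XT.lf (nat_lit 0) (nat_lit 20478891870) (nat_lit 76) (nat_lit 21937963935) (nat_lit 152) (nat_lit 53145439907) (nat_lit 105) (nat_lit 5) (nat_lit 106) (nat_lit 5) (nat_lit 107) (nat_lit 4) (nat_lit 436) (nat_lit 356) (nat_lit 228))))) (XT.nd (nat_lit 46956) (nat_lit 0) (nat_lit 22040) (XT.nd (nat_lit 78) (nat_lit 152) (nat_lit 0) (XT.lf (nat_lit 0) (nat_lit 30341000726) (nat_lit 76) (nat_lit 66035122279) (nat_lit 76) (nat_lit 2313375225) (nat_lit 104) (nat_lit 4) (nat_lit 105) (nat_lit 5) (nat_lit 105) (nat_lit 4) (nat_lit 437) (nat_lit 356) (nat_lit 227)) (XT.nd (nat_lit 46800) (nat_lit 0) (nat_lit 23104) (XT.lf (nat_lit 0) (nat_lit 40710217196) (nat_lit 76) (nat_lit 10736866828) (nat_lit 152) (nat_lit 50469757321)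 (nat_lit 102) (nat_lit 5) (nat_lit 103) (nat_lit 5) (nat_lit 104) (nat_lit 4) (nat_lit 438) (nat_lit 356) (nat_lit 226)) (XT.lf (nat_lit 0) (nat_lit 4086691736) (nat_lit 1140) (nat_lit 409122326) (nat_lit 1140) (nat_lit 409122326) (nat_lit 406) (nat_lit 3) (nat_lit 421) (nat_lit 3) (nat_lit 421) (nat_lit 5) (nat_lit 357) (nat_lit 357) (nat_lit 306)))) (XT.nd (nat_lit 156) (nat_lit 0) (nat_lit 76) (XT.nd (nat_lit 78) (nat_lit 1064) (nat_lit 0) (XT.lf (nat_lit 76) (nat_lit 7495002639) (nat_lit 0) (nat_lit 2159693006) (nat_lit 1140) (nat_lit 362114623) (nat_lit 407) (nat_lit 5) (nat_lit 406) (nat_lit 3) (nat_lit 421) (nat_lit 5) (nat_lit 358) (nat_lit 357) (nat_lit 305)) (XT.lf (nat_lit 0) (nat_lit 994840837) (nat_lit 1140) (nat_lit 4209292368) (nat_lit 1216) (nat_lit 5028542771) (nat_lit 392) (nat_lit 5) (nat_lit 407) (nat_lit 5) (nat_lit 408) (nat_lit 5) (nat_lit 359) (nat_lit 357) (nat_lit 304)))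 (XT.nd (nat_lit 78) (nat_lit 0) (nat_lit 0) (XT.lf (nat_lit 0) (nat_lit 2450900548) (nat_lit 1140) (nat_lit 5868859292) (nat_lit 1216) (nat_lit 2138305204) (nat_lit 393) (nat_lit 5) (nat_lit 408) (nat_lit 5) (nat_lit 409) (nat_lit 5) (nat_lit 360) (nat_lit 357) (nat_lit 303)) (XT.lf (nat_lit 76) (nat_lit 3186775105) (nat_lit 0) (nat_lit 848712566) (nat_lit 1216) (nat_lit 6657564162) (nat_lit 394) (nat_lit 5) (nat_lit 393) (nat_lit 5) (nat_lit 409) (nat_lit 5) (nat_lit 361) (nat_lit 357) (nat_lit 302))))))))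
noncomputable def xc76 : XT := (XT.nd (nat_lit 2106) (nat_lit 6916) (nat_lit 0) (XT.nd (nat_lit 1014) (nat_lit 5852) (nat_lit 0) (XT.nd (nat_lit 468) (nat_lit 4864) (nat_lit 0) (XT.nd (nat_lit 234) (nat_lit 1064) (nat_lit 0) (XT.nd (nat_lit 78) (nat_lit 0) (nat_lit 76) (XT.lf (nat_lit 76) (nat_lit 1801536695) (nat_lit 0) (nat_lit 3975363988) (nat_lit 1216) (nat_lit 5160559381) (nat_lit 395) (nat_lit 5) (nat_lit 394) (nat_lit 5) (nat_lit 410) (nat_lit 5) (nat_lit 362) (nat_lit 357) (nat_lit 301)) (XT.nd (nat_lit 78) (nat_lit 0) (nat_lit 76) (XT.lf (nat_lit 76) (nat_lit 454994077) (nat_lit 0) (nat_lit 7214301222) (nat_lit 1216) (nat_lit 3522876080) (nat_lit 396) (nat_lit 5) (nat_lit 395) (nat_lit 5) (nat_lit 411) (nat_lit 5) (nat_lit 363) (nat_lit 357) (nat_lit 300)) (XT.lf (nat_lit 0) (nat_lit 9736451495) (nat_lit 1140) (nat_lit 835845348) (nat_lit 1216) (nat_lit 884917162) (nat_lit 396) (nat_lit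 5) (nat_lit 411) (nat_lit 5) (nat_lit 412) (nat_lit 5) (nat_lit 364) (nat_lit 357) (nat_lit 299)))) (XT.nd (nat_lit 78) (nat_lit 0) (nat_lit 76) (XT.lf (nat_lit 0) (nat_lit 275368095) (nat_lit 1216) (nat_lit 2104286061) (nat_lit 1292) (nat_lit 9352587448) (nat_lit 380) (nat_lit 5) (nat_lit 396) (nat_lit 5) (nat_lit 397) (nat_lit 5) (nat_lit 365) (nat_lit 357) (nat_lit 298)) (XT.nd (nat_lit 78) (nat_lit 0) (nat_lit 76) (XT.lf (nat_lit 0) (nat_lit 2432229550) (nat_lit 1216) (nat_lit 3360906644) (nat_lit 1292) (nat_lit 6224477901) (nat_lit 381) (nat_lit 5) (nat_lit 397) (nat_lit 5) (nat_lit 398) (nat_lit 5) (nat_lit 366) (nat_lit 357) (nat_lit 297)) (XT.lf (nat_lit 0) (nat_lit 4791408606) (nat_lit 1216) (nat_lit 4579001248) (nat_lit 76) (nat_lit 2944011122) (nat_lit 382) (nat_lit 5) (nat_lit 398) (nat_lit 5) (nat_lit 383) (nat_lit 5) (nat_lit 367) (nat_lit 357) (nat_lit 296))))) (XT.nd (nat_lit 234)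 (nat_lit 2280) (nat_lit 0) (XT.nd (nat_lit 78) (nat_lit 1520) (nat_lit 0) (XT.lf (nat_lit 0) (nat_lit 6861205833) (nat_lit 1216) (nat_lit 514057375) (nat_lit 1292) (nat_lit 5247603494) (nat_lit 366) (nat_lit 5) (nat_lit 382) (nat_lit 5) (nat_lit 383) (nat_lit 5) (nat_lit 368) (nat_lit 357) (nat_lit 295)) (XT.nd (nat_lit 78) (nat_lit 684) (nat_lit 0) (XT.lf (nat_lit 0) (nat_lit 6010256318) (nat_lit 836) (nat_lit 4217371736) (nat_lit 912) (nat_lit 2714927137) (nat_lit 355) (nat_lit 5) (nat_lit 366) (nat_lit 5) (nat_lit 367) (nat_lit 5) (nat_lit 369) (nat_lit 357) (nat_lit 294)) (XT.lf (nat_lit 0) (nat_lit 62679592) (nat_lit 684) (nat_lit 8060060250) (nat_lit 76) (nat_lit 5151987961) (nat_lit 346) (nat_lit 5) (nat_lit 355) (nat_lit 5) (nat_lit 347) (nat_lit 5) (nat_lit 370) (nat_lit 357) (nat_lit 293)))) (XT.nd (nat_lit 156) (nat_lit 1140) (nat_lit 0) (XT.nd (nat_lit 78) (nat_lit 532) (nat_lit 0)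 (XT.lf (nat_lit 0) (nat_lit 3047740340) (nat_lit 684) (nat_lit 9169910827) (nat_lit 76) (nat_lit 1401309789) (nat_lit 338) (nat_lit 5) (nat_lit 347) (nat_lit 5) (nat_lit 339) (nat_lit 5) (nat_lit 371) (nat_lit 357) (nat_lit 292)) (XT.lf (nat_lit 0) (nat_lit 3718126967) (nat_lit 532) (nat_lit 2620192871) (nat_lit 608) (nat_lit 7637397957) (nat_lit 331) (nat_lit 5) (nat_lit 338) (nat_lit 5) (nat_lit 339) (nat_lit 5) (nat_lit 372) (nat_lit 357) (nat_lit 291))) (XT.nd (nat_lit 78) (nat_lit 532) (nat_lit 0) (XT.lf (nat_lit 0) (nat_lit 3035591110) (nat_lit 608) (nat_lit 6910496710) (nat_lit 684) (nat_lit 4399644871) (nat_lit 323) (nat_lit 5) (nat_lit 331) (nat_lit 5) (nat_lit 332) (nat_lit 5) (nat_lit 373) (nat_lit 357) (nat_lit 290)) (XT.lf (nat_lit 0) (nat_lit 2420223179) (nat_lit 532) (nat_lit 11459017083) (nat_lit 608) (nat_lit 850658188) (nat_lit 316) (nat_lit 5) (nat_lit 323) (nat_lit 5) (nat_lit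 324) (nat_lit 5) (nat_lit 374) (nat_lit 357) (nat_lit 289)))))) (XT.nd (nat_lit 546) (nat_lit 2888) (nat_lit 0) (XT.nd (nat_lit 234) (nat_lit 1368) (nat_lit 0) (XT.nd (nat_lit 78) (nat_lit 988) (nat_lit 0) (XT.lf (nat_lit 0) (nat_lit 1835791835) (nat_lit 532) (nat_lit 1148103834) (nat_lit 608) (nat_lit 12143620477) (nat_lit 308) (nat_lit 5) (nat_lit 315) (nat_lit 5) (nat_lit 316) (nat_lit 5) (nat_lit 375) (nat_lit 357) (nat_lit 288)) (XT.nd (nat_lit 78) (nat_lit 532) (nat_lit 0) (XT.lf (nat_lit 0) (nat_lit 1281692687) (nat_lit 456) (nat_lit 5905113398) (nat_lit 532) (nat_lit 8352129318) (nat_lit 302) (nat_lit 5) (nat_lit 308) (nat_lit 5) (nat_lit 309) (nat_lit 5) (nat_lit 376) (nat_lit 357) (nat_lit 287)) (XT.lf (nat_lit 0) (nat_lit 805128716) (nat_lit 532) (nat_lit 10961937873) (nat_lit 608) (nat_lit 4198842897) (nat_lit 295) (nat_lit 5) (nat_lit 302) (nat_lit 5) (nat_lit 303) (nat_lit 5) (nat_lit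 377) (nat_lit 357) (nat_lit 286)))) (XT.nd (nat_lit 156) (nat_lit 380) (nat_lit 0) (XT.nd (nat_lit 78) (nat_lit 456) (nat_lit 0) (XT.lf (nat_lit 0) (nat_lit 334584792) (nat_lit 532) (nat_lit 15999795924) (nat_lit 76) (nat_lit 74535601) (nat_lit 288) (nat_lit 5) (nat_lit 295) (nat_lit 5) (nat_lit 289) (nat_lit 5) (nat_lit 378) (nat_lit 357) (nat_lit 285)) (XT.lf (nat_lit 0) (nat_lit 6540506) (nat_lit 456) (nat_lit 5234847573) (nat_lit 532) (nat_lit 11624431947) (nat_lit 282) (nat_lit 5) (nat_lit 288) (nat_lit 5) (nat_lit 289) (nat_lit 5) (nat_lit 379) (nat_lit 357) (nat_lit 284))) (XT.nd (nat_lit 78) (nat_lit 380) (nat_lit 0) (XT.lf (nat_lit 0) (nat_lit 10587197885) (nat_lit 532) (nat_lit 300075138) (nat_lit 76) (nat_lit 6452485906) (nat_lit 282) (nat_lit 5) (nat_lit 289) (nat_lit 5) (nat_lit 283) (nat_lit 5) (nat_lit 380) (nat_lit 357) (nat_lit 283)) (XT.lf (nat_lit 0) (nat_lit 16396062014) (nat_lit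 456) (nat_lit 509997427) (nat_lit 76) (nat_lit 925462423) (nat_lit 277) (nat_lit 5) (nat_lit 283) (nat_lit 5) (nat_lit 278) (nat_lit 5) (nat_lit 381) (nat_lit 357) (nat_lit 282))))) (XT.nd (nat_lit 234) (nat_lit 1596) (nat_lit 0) (XT.nd (nat_lit 78) (nat_lit 760) (nat_lit 0) (XT.lf (nat_lit 0) (nat_lit 4320321533) (nat_lit 532) (nat_lit 706225065) (nat_lit 76) (nat_lit 13312517567) (nat_lit 270) (nat_lit 5) (nat_lit 277) (nat_lit 5) (nat_lit 271) (nat_lit 5) (nat_lit 382) (nat_lit 357) (nat_lit 281)) (XT.nd (nat_lit 78) (nat_lit 380) (nat_lit 0) (XT.lf (nat_lit 0) (nat_lit 10556539038) (nat_lit 456) (nat_lit 820477748) (nat_lit 76) (nat_lit 7487870384) (nat_lit 265) (nat_lit 5) (nat_lit 271) (nat_lit 5) (nat_lit 266) (nat_lit 5) (nat_lit 383) (nat_lit 357) (nat_lit 280)) (XT.lf (nat_lit 0) (nat_lit 17324029792) (nat_lit 456) (nat_lit 820758663) (nat_lit 76) (nat_lit 1265629000) (nat_lit 260) (nat_lit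 5) (nat_lit 266) (nat_lit 5) (nat_lit 261) (nat_lit 5) (nat_lit 384) (nat_lit 357) (nat_lit 279)))) (XT.nd (nat_lit 156) (nat_lit 760) (nat_lit 0) (XT.nd (nat_lit 78) (nat_lit 380) (nat_lit 0) (XT.lf (nat_lit 0) (nat_lit 4641931646) (nat_lit 456) (nat_lit 795562892) (nat_lit 76) (nat_lit 14535986451) (nat_lit 254) (nat_lit 5) (nat_lit 260) (nat_lit 5) (nat_lit 255) (nat_lit 5) (nat_lit 385) (nat_lit 357) (nat_lit 278)) (XT.lf (nat_lit 0) (nat_lit 11914208341) (nat_lit 456) (nat_lit 678754487) (nat_lit 76) (nat_lit 7963594417) (nat_lit 249) (nat_lit 5) (nat_lit 255) (nat_lit 5) (nat_lit 250) (nat_lit 5) (nat_lit 386) (nat_lit 357) (nat_lit 277))) (XT.nd (nat_lit 78) (nat_lit 456) (nat_lit 0) (XT.lf (nat_lit 0) (nat_lit 19794567907) (nat_lit 380) (nat_lit 427112999) (nat_lit 76) (nat_lit 939772339) (nat_lit 245) (nat_lit 5) (nat_lit 250) (nat_lit 5) (nat_lit 246) (nat_lit 5) (nat_lit 387) (nat_lit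 357) (nat_lit 276)) (XT.lf (nat_lit 0) (nat_lit 6469305293) (nat_lit 456) (nat_lit 156975551) (nat_lit 76) (nat_lit 15158923888) (nat_lit 239) (nat_lit 5) (nat_lit 245) (nat_lit 5) (nat_lit 240) (nat_lit 5) (nat_lit 388) (nat_lit 357) (nat_lit 275))))))) (XT.nd (nat_lit 1014) (nat_lit 2888) (nat_lit 0) (XT.nd (nat_lit 468) (nat_lit 1900) (nat_lit 0) (XT.nd (nat_lit 234) (nat_lit 836) (nat_lit 0) (XT.nd (nat_lit 78) (nat_lit 684) (nat_lit 0) (XT.lf (nat_lit 0) (nat_lit 242572339) (nat_lit 304) (nat_lit 14702091381) (nat_lit 380) (nat_lit 7486805241) (nat_lit 231) (nat_lit 5) (nat_lit 235) (nat_lit 5) (nat_lit 236) (nat_lit 5) (nat_lit 389) (nat_lit 357) (nat_lit 274)) (XT.nd (nat_lit 78) (nat_lit 304) (nat_lit 0) (XT.lf (nat_lit 0) (nat_lit 795897506) (nat_lit 304) (nat_lit 202170718) (nat_lit 380) (nat_lit 22103407307) (nat_lit 226) (nat_lit 5) (nat_lit 230) (nat_lit 5) (nat_lit 231) (nat_lit 5)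 (nat_lit 390) (nat_lit 357) (nat_lit 273)) (XT.lf (nat_lit 0) (nat_lit 1361611019) (nat_lit 304) (nat_lit 8755405677) (nat_lit 380) (nat_lit 13674801829) (nat_lit 222) (nat_lit 5) (nat_lit 226) (nat_lit 5) (nat_lit 227) (nat_lit 5) (nat_lit 391) (nat_lit 357) (nat_lit 272)))) (XT.nd (nat_lit 78) (nat_lit 608) (nat_lit 0) (XT.lf (nat_lit 0) (nat_lit 2104923161) (nat_lit 228) (nat_lit 17879534150) (nat_lit 304) (nat_lit 4523445018) (nat_lit 219) (nat_lit 5) (nat_lit 222) (nat_lit 5) (nat_lit 223) (nat_lit 5) (nat_lit 392) (nat_lit 357) (nat_lit 271)) (XT.nd (nat_lit 78) (nat_lit 228) (nat_lit 0) (XT.lf (nat_lit 0) (nat_lit 2963866113) (nat_lit 304) (nat_lit 2348757242) (nat_lit 380) (nat_lit 19935909034) (nat_lit 214) (nat_lit 5) (nat_lit 218) (nat_lit 5) (nat_lit 219) (nat_lit 5) (nat_lit 393) (nat_lit 357) (nat_lit 270)) (XT.lf (nat_lit 0) (nat_lit 3905428494) (nat_lit 228) (nat_lit 12023993987)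 (nat_lit 304) (nat_lit 10083953499) (nat_lit 211) (nat_lit 5) (nat_lit 214) (nat_lit 5) (nat_lit 215) (nat_lit 5) (nat_lit 394) (nat_lit 357) (nat_lit 269))))) (XT.nd (nat_lit 234) (nat_lit 1064) (nat_lit 0) (XT.nd (nat_lit 78) (nat_lit 456) (nat_lit 0) (XT.lf (nat_lit 0) (nat_lit 581222569) (nat_lit 380) (nat_lit 21755654062) (nat_lit 76) (nat_lit 4469738728) (nat_lit 206) (nat_lit 5) (nat_lit 211) (nat_lit 5) (nat_lit 207) (nat_lit 5) (nat_lit 395) (nat_lit 357) (nat_lit 268)) (XT.nd (nat_lit 78) (nat_lit 228) (nat_lit 0) (XT.lf (nat_lit 0) (nat_lit 6258357175) (nat_lit 228) (nat_lit 5704171262) (nat_lit 304) (nat_lit 15662250358) (nat_lit 203) (nat_lit 5) (nat_lit 206) (nat_lit 5) (nat_lit 207) (nat_lit 5) (nat_lit 396) (nat_lit 357) (nat_lit 267)) (XT.lf (nat_lit 0) (nat_lit 7649595548) (nat_lit 228) (nat_lit 16654766028) (nat_lit 304) (nat_lit 4167744967) (nat_lit 200) (nat_lit 5) (nat_lit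 203) (nat_lit 5) (nat_lit 204) (nat_lit 5) (nat_lit 397) (nat_lit 357) (nat_lit 266)))) (XT.nd (nat_lit 156) (nat_lit 532) (nat_lit 0) (XT.nd (nat_lit 78) (nat_lit 228) (nat_lit 0) (XT.lf (nat_lit 0) (nat_lit 8105588916) (nat_lit 304) (nat_lit 20142411447) (nat_lit 76) (nat_lit 1100773009) (nat_lit 196) (nat_lit 5) (nat_lit 200) (nat_lit 5) (nat_lit 197) (nat_lit 5) (nat_lit 398) (nat_lit 357) (nat_lit 265)) (XT.lf (nat_lit 0) (nat_lit 10875005383) (nat_lit 228) (nat_lit 10501035566) (nat_lit 304) (nat_lit 8877905244) (nat_lit 193) (nat_lit 5) (nat_lit 196) (nat_lit 5) (nat_lit 197) (nat_lit 5) (nat_lit 399) (nat_lit 357) (nat_lit 264))) (XT.nd (nat_lit 78) (nat_lit 228) (nat_lit 0) (XT.lf (nat_lit 0) (nat_lit 4420295951) (nat_lit 304) (nat_lit 18433720819) (nat_lit 76) (nat_lit 8337333694) (nat_lit 189) (nat_lit 5) (nat_lit 193) (nat_lit 5) (nat_lit 190) (nat_lit 5) (nat_lit 400) (nat_lit 357)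 (nat_lit 263)) (XT.lf (nat_lit 0) (nat_lit 14794679214) (nat_lit 228) (nat_lit 3837191561) (nat_lit 304) (nat_lit 13528155003) (nat_lit 186) (nat_lit 5) (nat_lit 189) (nat_lit 5) (nat_lit 190) (nat_lit 5) (nat_lit 401) (nat_lit 357) (nat_lit 262)))))) (XT.nd (nat_lit 546) (nat_lit 1444) (nat_lit 0) (XT.nd (nat_lit 234) (nat_lit 836) (nat_lit 0) (XT.nd (nat_lit 78) (nat_lit 380) (nat_lit 0) (XT.lf (nat_lit 0) (nat_lit 866093695) (nat_lit 228) (nat_lit 16129291673) (nat_lit 76) (nat_lit 16166744044) (nat_lit 183) (nat_lit 5) (nat_lit 186) (nat_lit 5) (nat_lit 184) (nat_lit 5) (nat_lit 402) (nat_lit 357) (nat_lit 261)) (XT.nd (nat_lit 78) (nat_lit 152) (nat_lit 0) (XT.lf (nat_lit 0) (nat_lit 16123486595) (nat_lit 304) (nat_lit 14755025544) (nat_lit 76) (nat_lit 3319111381) (nat_lit 180) (nat_lit 5) (nat_lit 184) (nat_lit 5) (nat_lit 181) (nat_lit 5) (nat_lit 403) (nat_lit 357) (nat_lit 260)) (XT.lf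 (nat_lit 0) (nat_lit 22076604494) (nat_lit 152) (nat_lit 10600629643) (nat_lit 228) (nat_lit 2591653646) (nat_lit 178) (nat_lit 5) (nat_lit 180) (nat_lit 5) (nat_lit 181) (nat_lit 5) (nat_lit 404) (nat_lit 357) (nat_lit 259)))) (XT.nd (nat_lit 156) (nat_lit 380) (nat_lit 0) (XT.nd (nat_lit 78) (nat_lit 152) (nat_lit 0) (XT.lf (nat_lit 0) (nat_lit 13882229081) (nat_lit 304) (nat_lit 11493179722) (nat_lit 76) (nat_lit 10999847947) (nat_lit 174) (nat_lit 5) (nat_lit 178) (nat_lit 5) (nat_lit 175) (nat_lit 5) (nat_lit 405) (nat_lit 357) (nat_lit 258)) (XT.lf (nat_lit 0) (nat_lit 27984348705) (nat_lit 152) (nat_lit 3638370308) (nat_lit 228) (nat_lit 5898559981) (nat_lit 172) (nat_lit 5) (nat_lit 174) (nat_lit 5) (nat_lit 175) (nat_lit 5) (nat_lit 406) (nat_lit 357) (nat_lit 257))) (XT.nd (nat_lit 78) (nat_lit 152) (nat_lit 0) (XT.lf (nat_lit 0) (nat_lit 11895107411) (nat_lit 228) (nat_lit 7472211147)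 (nat_lit 76) (nat_lit 19336128563) (nat_lit 169) (nat_lit 5) (nat_lit 172) (nat_lit 5) (nat_lit 170) (nat_lit 5) (nat_lit 407) (nat_lit 357) (nat_lit 256)) (XT.lf (nat_lit 0) (nat_lit 30949942053) (nat_lit 228) (nat_lit 5118200827) (nat_lit 76) (nat_lit 3860024472) (nat_lit 167) (nat_lit 5) (nat_lit 170) (nat_lit 5) (nat_lit 168) (nat_lit 5) (nat_lit 408) (nat_lit 357) (nat_lit 255))))) (XT.nd (nat_lit 234) (nat_lit 684) (nat_lit 0) (XT.nd (nat_lit 78) (nat_lit 532) (nat_lit 0) (XT.lf (nat_lit 0) (nat_lit 10188500116) (nat_lit 228) (nat_lit 2614700024) (nat_lit 76) (nat_lit 28389056651) (nat_lit 164) (nat_lit 5) (nat_lit 167) (nat_lit 5) (nat_lit 165) (nat_lit 5) (nat_lit 409) (nat_lit 357) (nat_lit 254)) (XT.nd (nat_lit 78) (nat_lit 228) (nat_lit 0) (XT.lf (nat_lit 0) (nat_lit 144532133) (nat_lit 152) (nat_lit 30552212044) (nat_lit 228) (nat_lit 11803073750) (nat_lit 160) (nat_lit 5) (nat_lit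 162) (nat_lit 5) (nat_lit 163) (nat_lit 5) (nat_lit 410) (nat_lit 357) (nat_lit 253)) (XT.lf (nat_lit 0) (nat_lit 3227001024) (nat_lit 152) (nat_lit 5595520529) (nat_lit 228) (nat_lit 35028986424) (nat_lit 157) (nat_lit 5) (nat_lit 159) (nat_lit 5) (nat_lit 160) (nat_lit 5) (nat_lit 411) (nat_lit 357) (nat_lit 252)))) (XT.nd (nat_lit 156) (nat_lit 304) (nat_lit 0) (XT.nd (nat_lit 78) (nat_lit 228) (nat_lit 0) (XT.lf (nat_lit 0) (nat_lit 6492849031) (nat_lit 152) (nat_lit 24430221336) (nat_lit 228) (nat_lit 14323572917) (nat_lit 155) (nat_lit 5) (nat_lit 157) (nat_lit 5) (nat_lit 158) (nat_lit 5) (nat_lit 412) (nat_lit 357) (nat_lit 251)) (XT.lf (nat_lit 0) (nat_lit 7856094393) (nat_lit 228) (nat_lit 36560198714) (nat_lit 76) (nat_lit 2275591784) (nat_lit 152) (nat_lit 5) (nat_lit 155) (nat_lit 5) (nat_lit 153) (nat_lit 5) (nat_lit 413) (nat_lit 357) (nat_lit 250))) (XT.nd (nat_lit 78) (nat_lit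 152) (nat_lit 0) (XT.lf (nat_lit 0) (nat_lit 13923335753) (nat_lit 152) (nat_lit 17696559287) (nat_lit 228) (nat_lit 16562097508) (nat_lit 150) (nat_lit 5) (nat_lit 152) (nat_lit 5) (nat_lit 153) (nat_lit 5) (nat_lit 414) (nat_lit 357) (nat_lit 249)) (XT.lf (nat_lit 0) (nat_lit 7338546903) (nat_lit 152) (nat_lit 31614724424) (nat_lit 76) (nat_lit 10771972421) (nat_lit 148) (nat_lit 5) (nat_lit 150) (nat_lit 5) (nat_lit 149) (nat_lit 5) (nat_lit 415) (nat_lit 357) (nat_lit 248))))))))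
noncomputable def xc77 : XT := (XT.nd (nat_lit 48906) (nat_lit 0) (nat_lit 10336) (XT.nd (nat_lit 1014) (nat_lit 1292) (nat_lit 0) (XT.nd (nat_lit 468) (nat_lit 1140) (nat_lit 0) (XT.nd (nat_lit 234) (nat_lit 456) (nat_lit 0) (XT.nd (nat_lit 78) (nat_lit 304) (nat_lit 0) (XT.lf (nat_lit 0) (nat_lit 22543446302) (nat_lit 152) (nat_lit 10288852950) (nat_lit 228) (nat_lit 18486220663) (nat_lit 146) (nat_lit 5) (nat_lit 148) (nat_lit 5) (nat_lit 149) (nat_lit 5) (nat_lit 416) (nat_lit 357) (nat_lit 247)) (XT.nd (nat_lit 78) (nat_lit 152) (nat_lit 0) (XT.lf (nat_lit 0) (nat_lit 7256686208) (nat_lit 152) (nat_lit 25635657058) (nat_lit 76) (nat_lit 20073919319) (nat_lit 144) (nat_lit 5) (nat_lit 146) (nat_lit 5) (nat_lit 145) (nat_lit 5) (nat_lit 417) (nat_lit 357) (nat_lit 246)) (XT.lf (nat_lit 0) (nat_lit 32470381735) (nat_lit 152) (nat_lit 2139250577) (nat_lit 228) (nat_lit 20060112601) (nat_lit 142)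 (nat_lit 5) (nat_lit 144) (nat_lit 5) (nat_lit 145) (nat_lit 5) (nat_lit 418) (nat_lit 357) (nat_lit 245)))) (XT.nd (nat_lit 78) (nat_lit 304) (nat_lit 0) (XT.lf (nat_lit 0) (nat_lit 7655099480) (nat_lit 152) (nat_lit 18515158211) (nat_lit 76) (nat_lit 30258640906) (nat_lit 140) (nat_lit 5) (nat_lit 142) (nat_lit 5) (nat_lit 141) (nat_lit 5) (nat_lit 419) (nat_lit 357) (nat_lit 244)) (XT.nd (nat_lit 78) (nat_lit 152) (nat_lit 0) (XT.lf (nat_lit 0) (nat_lit 37071494130) (nat_lit 228) (nat_lit 14483835001) (nat_lit 76) (nat_lit 6692813509) (nat_lit 138) (nat_lit 5) (nat_lit 141) (nat_lit 5) (nat_lit 139) (nat_lit 4) (nat_lit 420) (nat_lit 357) (nat_lit 243)) (XT.lf (nat_lit 0) (nat_lit 8582715564) (nat_lit 152) (nat_lit 10135421392) (nat_lit 76) (nat_lit 41409925404) (nat_lit 136) (nat_lit 5) (nat_lit 138) (nat_lit 5) (nat_lit 137) (nat_lit 5) (nat_lit 421) (nat_lit 357) (nat_lit 242))))) (XT.nd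 (nat_lit 234) (nat_lit 608) (nat_lit 0) (XT.nd (nat_lit 78) (nat_lit 380) (nat_lit 0) (XT.lf (nat_lit 0) (nat_lit 40240457831) (nat_lit 228) (nat_lit 5468312930) (nat_lit 76) (nat_lit 16361465942) (nat_lit 134) (nat_lit 5) (nat_lit 137) (nat_lit 5) (nat_lit 135) (nat_lit 4) (nat_lit 422) (nat_lit 357) (nat_lit 241)) (XT.nd (nat_lit 78) (nat_lit 228) (nat_lit 0) (XT.lf (nat_lit 0) (nat_lit 10093181833) (nat_lit 152) (nat_lit 367839811) (nat_lit 76) (nat_lit 53618660940) (nat_lit 132) (nat_lit 5) (nat_lit 134) (nat_lit 5) (nat_lit 133) (nat_lit 5) (nat_lit 423) (nat_lit 357) (nat_lit 240)) (XT.lf (nat_lit 0) (nat_lit 5101512987) (nat_lit 76) (nat_lit 39108792515) (nat_lit 152) (nat_lit 21941326517) (nat_lit 129) (nat_lit 5) (nat_lit 130) (nat_lit 5) (nat_lit 131) (nat_lit 4) (nat_lit 424) (nat_lit 357) (nat_lit 239)))) (XT.nd (nat_lit 156) (nat_lit 304) (nat_lit 0) (XT.nd (nat_lit 78) (nat_lit 76)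 (nat_lit 0) (XT.lf (nat_lit 0) (nat_lit 11145380190) (nat_lit 152) (nat_lit 1207027031) (nat_lit 228) (nat_lit 55945154045) (nat_lit 126) (nat_lit 5) (nat_lit 128) (nat_lit 5) (nat_lit 129) (nat_lit 5) (nat_lit 425) (nat_lit 357) (nat_lit 238)) (XT.lf (nat_lit 0) (nat_lit 17413154565) (nat_lit 76) (nat_lit 31659446477) (nat_lit 152) (nat_lit 21436702097) (nat_lit 125) (nat_lit 5) (nat_lit 126) (nat_lit 5) (nat_lit 127) (nat_lit 4) (nat_lit 426) (nat_lit 357) (nat_lit 237))) (XT.nd (nat_lit 78) (nat_lit 76) (nat_lit 0) (XT.lf (nat_lit 0) (nat_lit 15424606000) (nat_lit 228) (nat_lit 48508901200) (nat_lit 76) (nat_lit 8866372331) (nat_lit 122) (nat_lit 5) (nat_lit 125) (nat_lit 5) (nat_lit 123) (nat_lit 4) (nat_lit 427) (nat_lit 357) (nat_lit 236)) (XT.lf (nat_lit 0) (nat_lit 31520500969) (nat_lit 76) (nat_lit 23332580724) (nat_lit 152) (nat_lit 20310512330) (nat_lit 121) (nat_lit 5) (nat_lit 122)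 (nat_lit 5) (nat_lit 123) (nat_lit 4) (nat_lit 428) (nat_lit 357) (nat_lit 235)))))) (XT.nd (nat_lit 546) (nat_lit 304) (nat_lit 0) (XT.nd (nat_lit 234) (nat_lit 532) (nat_lit 0) (XT.nd (nat_lit 78) (nat_lit 228) (nat_lit 0) (XT.lf (nat_lit 0) (nat_lit 19313339200) (nat_lit 228) (nat_lit 38309613608) (nat_lit 76) (nat_lit 19985106893) (nat_lit 118) (nat_lit 5) (nat_lit 121) (nat_lit 5) (nat_lit 119) (nat_lit 4) (nat_lit 429) (nat_lit 357) (nat_lit 234)) (XT.nd (nat_lit 78) (nat_lit 152) (nat_lit 0) (XT.lf (nat_lit 0) (nat_lit 47600827159) (nat_lit 76) (nat_lit 14037439230) (nat_lit 152) (nat_lit 18496251380) (nat_lit 117) (nat_lit 5) (nat_lit 118) (nat_lit 5) (nat_lit 119) (nat_lit 4) (nat_lit 430) (nat_lit 357) (nat_lit 233)) (XT.lf (nat_lit 0) (nat_lit 24086734914) (nat_lit 152) (nat_lit 26379247327) (nat_lit 76) (nat_lit 32277126332) (nat_lit 115) (nat_lit 5) (nat_lit 117) (nat_lit 5) (nat_lit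 116) (nat_lit 4) (nat_lit 431) (nat_lit 357) (nat_lit 232)))) (XT.nd (nat_lit 156) (nat_lit 304) (nat_lit 0) (XT.nd (nat_lit 78) (nat_lit 152) (nat_lit 0) (XT.lf (nat_lit 0) (nat_lit 65847167721) (nat_lit 76) (nat_lit 3675272958) (nat_lit 152) (nat_lit 15921011272) (nat_lit 114) (nat_lit 5) (nat_lit 115) (nat_lit 5) (nat_lit 116) (nat_lit 4) (nat_lit 432) (nat_lit 357) (nat_lit 231)) (XT.lf (nat_lit 0) (nat_lit 29831873710) (nat_lit 152) (nat_lit 12539422911) (nat_lit 76) (nat_lit 45855796148) (nat_lit 112) (nat_lit 5) (nat_lit 114) (nat_lit 5) (nat_lit 113) (nat_lit 4) (nat_lit 433) (nat_lit 357) (nat_lit 230))) (XT.nd (nat_lit 78) (nat_lit 228) (nat_lit 0) (XT.lf (nat_lit 0) (nat_lit 78683867466) (nat_lit 152) (nat_lit 4719182056) (nat_lit 0) (nat_lit 7707915029) (nat_lit 111) (nat_lit 5) (nat_lit 113) (nat_lit 4) (nat_lit 111) (nat_lit 4) (nat_lit 434) (nat_lit 357) (nat_lit 229)) (XT.lf (nat_lit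 0) (nat_lit 3472153462) (nat_lit 76) (nat_lit 33205026333) (nat_lit 152) (nat_lit 57405401655) (nat_lit 108) (nat_lit 5) (nat_lit 109) (nat_lit 5) (nat_lit 110) (nat_lit 4) (nat_lit 435) (nat_lit 357) (nat_lit 228))))) (XT.nd (nat_lit 47034) (nat_lit 0) (nat_lit 21812) (XT.nd (nat_lit 78) (nat_lit 228) (nat_lit 0) (XT.lf (nat_lit 0) (nat_lit 12574993750) (nat_lit 76) (nat_lit 76752402796) (nat_lit 76) (nat_lit 7831259306) (nat_lit 107) (nat_lit 4) (nat_lit 108) (nat_lit 5) (nat_lit 108) (nat_lit 4) (nat_lit 436) (nat_lit 357) (nat_lit 227)) (XT.nd (nat_lit 78) (nat_lit 76) (nat_lit 0) (XT.lf (nat_lit 0) (nat_lit 22095430016) (nat_lit 76) (nat_lit 22743170139) (nat_lit 152) (nat_lit 55492783296) (nat_lit 105) (nat_lit 5) (nat_lit 106) (nat_lit 5) (nat_lit 107) (nat_lit 4) (nat_lit 437) (nat_lit 357) (nat_lit 226)) (XT.lf (nat_lit 0) (nat_lit 32439702481) (nat_lit 76) (nat_lit 69050061184) (nat_lit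 76) (nat_lit 2125364442) (nat_lit 104) (nat_lit 4) (nat_lit 105) (nat_lit 5) (nat_lit 105) (nat_lit 4) (nat_lit 438) (nat_lit 357) (nat_lit 225)))) (XT.nd (nat_lit 156) (nat_lit 0) (nat_lit 76) (XT.nd (nat_lit 78) (nat_lit 0) (nat_lit 0) (XT.lf (nat_lit 0) (nat_lit 179495497) (nat_lit 0) (nat_lit 179495497) (nat_lit 1140) (nat_lit 4755398497) (nat_lit 391) (nat_lit 5) (nat_lit 391) (nat_lit 3) (nat_lit 406) (nat_lit 3) (nat_lit 358) (nat_lit 358) (nat_lit 304)) (XT.lf (nat_lit 0) (nat_lit 1920361904) (nat_lit 1140) (nat_lit 1411922269) (nat_lit 1216) (nat_lit 7116681373) (nat_lit 391) (nat_lit 5) (nat_lit 406) (nat_lit 3) (nat_lit 407) (nat_lit 5) (nat_lit 359) (nat_lit 358) (nat_lit 303))) (XT.nd (nat_lit 78) (nat_lit 0) (nat_lit 76) (XT.lf (nat_lit 0) (nat_lit 3230455760) (nat_lit 1140) (nat_lit 3147298314) (nat_lit 1216) (nat_lit 4300979514) (nat_lit 392) (nat_lit 5) (nat_lit 407) (nat_lit 5)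 (nat_lit 408) (nat_lit 5) (nat_lit 360) (nat_lit 358) (nat_lit 302)) (XT.lf (nat_lit 0) (nat_lit 4658865752) (nat_lit 1140) (nat_lit 4855263862) (nat_lit 1216) (nat_lit 1404276077) (nat_lit 393) (nat_lit 5) (nat_lit 408) (nat_lit 5) (nat_lit 409) (nat_lit 5) (nat_lit 361) (nat_lit 358) (nat_lit 301))))))) (XT.nd (nat_lit 1014) (nat_lit 6308) (nat_lit 0) (XT.nd (nat_lit 468) (nat_lit 4332) (nat_lit 0) (XT.nd (nat_lit 234) (nat_lit 988) (nat_lit 0) (XT.nd (nat_lit 78) (nat_lit 0) (nat_lit 76) (XT.lf (nat_lit 76) (nat_lit 4615686262) (nat_lit 0) (nat_lit 1619894154) (nat_lit 1216) (nat_lit 4932174458) (nat_lit 394) (nat_lit 5) (nat_lit 393) (nat_lit 5) (nat_lit 409) (nat_lit 5) (nat_lit 362) (nat_lit 358) (nat_lit 300)) (XT.nd (nat_lit 78) (nat_lit 0) (nat_lit 76) (XT.lf (nat_lit 76) (nat_lit 3189829353) (nat_lit 0) (nat_lit 4784884379) (nat_lit 1216) (nat_lit 3452350295) (nat_lit 395) (nat_lit 5)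 (nat_lit 394) (nat_lit 5) (nat_lit 410) (nat_lit 5) (nat_lit 363) (nat_lit 358) (nat_lit 299)) (XT.lf (nat_lit 76) (nat_lit 1800076578) (nat_lit 0) (nat_lit 8077867979) (nat_lit 1216) (nat_lit 1819079857) (nat_lit 396) (nat_lit 5) (nat_lit 395) (nat_lit 5) (nat_lit 411) (nat_lit 5) (nat_lit 364) (nat_lit 358) (nat_lit 298)))) (XT.nd (nat_lit 78) (nat_lit 1216) (nat_lit 0) (XT.lf (nat_lit 76) (nat_lit 447205206) (nat_lit 0) (nat_lit 11514035077) (nat_lit 1216) (nat_lit 16695435) (nat_lit 397) (nat_lit 5) (nat_lit 396) (nat_lit 5) (nat_lit 412) (nat_lit 5) (nat_lit 365) (nat_lit 358) (nat_lit 297)) (XT.nd (nat_lit 78) (nat_lit 0) (nat_lit 76) (XT.lf (nat_lit 0) (nat_lit 1969006291) (nat_lit 1216) (nat_lit 897677631) (nat_lit 1292) (nat_lit 9401773668) (nat_lit 380) (nat_lit 5) (nat_lit 396) (nat_lit 5) (nat_lit 397) (nat_lit 5) (nat_lit 366) (nat_lit 358) (nat_lit 296)) (XT.lf (nat_lit 0) (nat_lit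 4162717449) (nat_lit 1216) (nat_lit 2203120492) (nat_lit 1292) (nat_lit 6204390566) (nat_lit 381) (nat_lit 5) (nat_lit 397) (nat_lit 5) (nat_lit 398) (nat_lit 5) (nat_lit 367) (nat_lit 358) (nat_lit 295))))) (XT.nd (nat_lit 234) (nat_lit 2432) (nat_lit 0) (XT.nd (nat_lit 78) (nat_lit 2052) (nat_lit 0) (XT.lf (nat_lit 0) (nat_lit 6573153002) (nat_lit 1216) (nat_lit 3471316570) (nat_lit 76) (nat_lit 2839407234) (nat_lit 382) (nat_lit 5) (nat_lit 398) (nat_lit 5) (nat_lit 383) (nat_lit 5) (nat_lit 368) (nat_lit 358) (nat_lit 294)) (XT.nd (nat_lit 78) (nat_lit 836) (nat_lit 0) (XT.lf (nat_lit 0) (nat_lit 8502586499) (nat_lit 1216) (nat_lit 722657230) (nat_lit 1292) (nat_lit 3984329788) (nat_lit 366) (nat_lit 5) (nat_lit 382) (nat_lit 5) (nat_lit 383) (nat_lit 5) (nat_lit 369) (nat_lit 358) (nat_lit 293)) (XT.lf (nat_lit 0) (nat_lit 7616743893) (nat_lit 836) (nat_lit 4543828193) (nat_lit 912) (nat_lit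 1386463984) (nat_lit 355) (nat_lit 5) (nat_lit 366) (nat_lit 5) (nat_lit 367) (nat_lit 5) (nat_lit 370) (nat_lit 358) (nat_lit 292)))) (XT.nd (nat_lit 156) (nat_lit 1140) (nat_lit 0) (XT.nd (nat_lit 78) (nat_lit 608) (nat_lit 0) (XT.lf (nat_lit 0) (nat_lit 1444746044) (nat_lit 684) (nat_lit 7124576880) (nat_lit 76) (nat_lit 5327773294) (nat_lit 346) (nat_lit 5) (nat_lit 355) (nat_lit 5) (nat_lit 347) (nat_lit 5) (nat_lit 371) (nat_lit 358) (nat_lit 291)) (XT.lf (nat_lit 0) (nat_lit 4525647377) (nat_lit 684) (nat_lit 8288267892) (nat_lit 76) (nat_lit 1446228134) (nat_lit 338) (nat_lit 5) (nat_lit 347) (nat_lit 5) (nat_lit 339) (nat_lit 5) (nat_lit 372) (nat_lit 358) (nat_lit 290))) (XT.nd (nat_lit 78) (nat_lit 608) (nat_lit 0) (XT.lf (nat_lit 0) (nat_lit 5205756991) (nat_lit 532) (nat_lit 2724391822) (nat_lit 608) (nat_lit 6706107482) (nat_lit 331) (nat_lit 5) (nat_lit 338) (nat_lit 5) (nat_lit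 339) (nat_lit 5) (nat_lit 373) (nat_lit 358) (nat_lit 289)) (XT.lf (nat_lit 0) (nat_lit 4488681396) (nat_lit 608) (nat_lit 7181668100) (nat_lit 684) (nat_lit 3355861112) (nat_lit 323) (nat_lit 5) (nat_lit 331) (nat_lit 5) (nat_lit 332) (nat_lit 5) (nat_lit 374) (nat_lit 358) (nat_lit 288)))))) (XT.nd (nat_lit 546) (nat_lit 2812) (nat_lit 0) (XT.nd (nat_lit 234) (nat_lit 1900) (nat_lit 0) (XT.nd (nat_lit 78) (nat_lit 988) (nat_lit 0) (XT.lf (nat_lit 0) (nat_lit 317637148) (nat_lit 608) (nat_lit 11593753878) (nat_lit 76) (nat_lit 3519457958) (nat_lit 315) (nat_lit 5) (nat_lit 323) (nat_lit 5) (nat_lit 316) (nat_lit 5) (nat_lit 375) (nat_lit 358) (nat_lit 287)) (XT.nd (nat_lit 78) (nat_lit 456) (nat_lit 0) (XT.lf (nat_lit 0) (nat_lit 3212482336) (nat_lit 532) (nat_lit 1069529723) (nat_lit 608) (nat_lit 11567412246) (nat_lit 308) (nat_lit 5) (nat_lit 315) (nat_lit 5) (nat_lit 316) (nat_lit 5) (nat_lit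 376) (nat_lit 358) (nat_lit 286)) (XT.lf (nat_lit 0) (nat_lit 2626056796) (nat_lit 456) (nat_lit 6027852349) (nat_lit 532) (nat_lit 7628740145) (nat_lit 302) (nat_lit 5) (nat_lit 308) (nat_lit 5) (nat_lit 309) (nat_lit 5) (nat_lit 377) (nat_lit 358) (nat_lit 285)))) (XT.nd (nat_lit 156) (nat_lit 836) (nat_lit 0) (XT.nd (nat_lit 78) (nat_lit 532) (nat_lit 0) (XT.lf (nat_lit 0) (nat_lit 2119635141) (nat_lit 532) (nat_lit 11304625164) (nat_lit 608) (nat_lit 3307879443) (nat_lit 295) (nat_lit 5) (nat_lit 302) (nat_lit 5) (nat_lit 303) (nat_lit 5) (nat_lit 378) (nat_lit 358) (nat_lit 284)) (XT.lf (nat_lit 0) (nat_lit 1393534319) (nat_lit 532) (nat_lit 15512091479) (nat_lit 76) (nat_lit 292469726) (nat_lit 288) (nat_lit 5) (nat_lit 295) (nat_lit 5) (nat_lit 289) (nat_lit 5) (nat_lit 379) (nat_lit 358) (nat_lit 283))) (XT.nd (nat_lit 78) (nat_lit 380) (nat_lit 0) (XT.lf (nat_lit 0) (nat_lit 1257650276)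 (nat_lit 456) (nat_lit 5250421246) (nat_lit 532) (nat_lit 11170901084) (nat_lit 282) (nat_lit 5) (nat_lit 288) (nat_lit 5) (nat_lit 289) (nat_lit 5) (nat_lit 380) (nat_lit 358) (nat_lit 282)) (XT.lf (nat_lit 0) (nat_lit 920555740) (nat_lit 380) (nat_lit 11163879902) (nat_lit 456) (nat_lit 6093274899) (nat_lit 277) (nat_lit 5) (nat_lit 282) (nat_lit 5) (nat_lit 283) (nat_lit 5) (nat_lit 381) (nat_lit 358) (nat_lit 281))))) (XT.nd (nat_lit 234) (nat_lit 1520) (nat_lit 0) (XT.nd (nat_lit 78) (nat_lit 836) (nat_lit 0) (XT.lf (nat_lit 0) (nat_lit 685915869) (nat_lit 456) (nat_lit 17463753447) (nat_lit 532) (nat_lit 545414515) (nat_lit 271) (nat_lit 5) (nat_lit 277) (nat_lit 5) (nat_lit 278) (nat_lit 5) (nat_lit 382) (nat_lit 358) (nat_lit 280)) (XT.nd (nat_lit 78) (nat_lit 380) (nat_lit 0) (XT.lf (nat_lit 0) (nat_lit 458792250) (nat_lit 380) (nat_lit 4985147685) (nat_lit 456) (nat_lit 13784849368) (nat_lit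 265) (nat_lit 5) (nat_lit 270) (nat_lit 5) (nat_lit 271) (nat_lit 5) (nat_lit 383) (nat_lit 358) (nat_lit 279)) (XT.lf (nat_lit 0) (nat_lit 325465483) (nat_lit 380) (nat_lit 11636084446) (nat_lit 456) (nat_lit 7820266082) (nat_lit 260) (nat_lit 5) (nat_lit 265) (nat_lit 5) (nat_lit 266) (nat_lit 5) (nat_lit 384) (nat_lit 358) (nat_lit 278)))) (XT.nd (nat_lit 156) (nat_lit 684) (nat_lit 0) (XT.nd (nat_lit 78) (nat_lit 456) (nat_lit 0) (XT.lf (nat_lit 0) (nat_lit 313482618) (nat_lit 380) (nat_lit 18726134892) (nat_lit 456) (nat_lit 1315839231) (nat_lit 255) (nat_lit 5) (nat_lit 260) (nat_lit 5) (nat_lit 261) (nat_lit 5) (nat_lit 385) (nat_lit 358) (nat_lit 277)) (XT.lf (nat_lit 0) (nat_lit 323031320) (nat_lit 380) (nat_lit 5379176970) (nat_lit 456) (nat_lit 15245101346) (nat_lit 249) (nat_lit 5) (nat_lit 254) (nat_lit 5) (nat_lit 255) (nat_lit 5) (nat_lit 386) (nat_lit 358) (nat_lit 276))) (XT.nd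 (nat_lit 78) (nat_lit 380) (nat_lit 0) (XT.lf (nat_lit 0) (nat_lit 435650106) (nat_lit 304) (nat_lit 12878099031) (nat_lit 380) (nat_lit 8246521059) (nat_lit 245) (nat_lit 5) (nat_lit 249) (nat_lit 5) (nat_lit 250) (nat_lit 5) (nat_lit 387) (nat_lit 358) (nat_lit 275)) (XT.lf (nat_lit 0) (nat_lit 692151994) (nat_lit 380) (nat_lit 20874224742) (nat_lit 456) (nat_lit 629686759) (nat_lit 240) (nat_lit 5) (nat_lit 245) (nat_lit 5) (nat_lit 246) (nat_lit 5) (nat_lit 388) (nat_lit 358) (nat_lit 274))))))))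
noncomputable def xc78 : XT := (XT.nd (nat_lit 2106) (nat_lit 3420) (nat_lit 0) (XT.nd (nat_lit 1014) (nat_lit 2964) (nat_lit 0) (XT.nd (nat_lit 468) (nat_lit 1900) (nat_lit 0) (XT.nd (nat_lit 234) (nat_lit 912) (nat_lit 0) (XT.nd (nat_lit 78) (nat_lit 684) (nat_lit 0) (XT.lf (nat_lit 0) (nat_lit 963844181) (nat_lit 304) (nat_lit 6594633424) (nat_lit 380) (nat_lit 15293016152) (nat_lit 235) (nat_lit 5) (nat_lit 239) (nat_lit 5) (nat_lit 240) (nat_lit 5) (nat_lit 389) (nat_lit 358) (nat_lit 273)) (XT.nd (nat_lit 78) (nat_lit 380) (nat_lit 0) (XT.lf (nat_lit 0) (nat_lit 1373158007) (nat_lit 304) (nat_lit 15063612079) (nat_lit 380) (nat_lit 7093926128) (nat_lit 231) (nat_lit 5) (nat_lit 235) (nat_lit 5) (nat_lit 236) (nat_lit 5) (nat_lit 390) (nat_lit 358) (nat_lit 272)) (XT.lf (nat_lit 0) (nat_lit 1776535229) (nat_lit 380) (nat_lit 22299661741) (nat_lit 76) (nat_lit 158495429) (nat_lit 226) (nat_lit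 5) (nat_lit 231) (nat_lit 5) (nat_lit 227) (nat_lit 5) (nat_lit 391) (nat_lit 358) (nat_lit 271)))) (XT.nd (nat_lit 78) (nat_lit 608) (nat_lit 0) (XT.lf (nat_lit 0) (nat_lit 2516765855) (nat_lit 304) (nat_lit 8812364778) (nat_lit 380) (nat_lit 13631090926) (nat_lit 222) (nat_lit 5) (nat_lit 226) (nat_lit 5) (nat_lit 227) (nat_lit 5) (nat_lit 392) (nat_lit 358) (nat_lit 270)) (XT.nd (nat_lit 78) (nat_lit 380) (nat_lit 0) (XT.lf (nat_lit 0) (nat_lit 3283107724) (nat_lit 228) (nat_lit 18387003995) (nat_lit 304) (nat_lit 4042592781) (nat_lit 219) (nat_lit 5) (nat_lit 222) (nat_lit 5) (nat_lit 223) (nat_lit 5) (nat_lit 393) (nat_lit 358) (nat_lit 269)) (XT.lf (nat_lit 0) (nat_lit 4167643377) (nat_lit 304) (nat_lit 2080975106) (nat_lit 380) (nat_lit 20242229607) (nat_lit 214) (nat_lit 5) (nat_lit 218) (nat_lit 5) (nat_lit 219) (nat_lit 5) (nat_lit 394) (nat_lit 358) (nat_lit 268))))) (XT.nd (nat_lit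 234) (nat_lit 1064) (nat_lit 0) (XT.nd (nat_lit 78) (nat_lit 608) (nat_lit 0) (XT.lf (nat_lit 0) (nat_lit 5141963393) (nat_lit 228) (nat_lit 12235907979) (nat_lit 304) (nat_lit 9916614074) (nat_lit 211) (nat_lit 5) (nat_lit 214) (nat_lit 5) (nat_lit 215) (nat_lit 5) (nat_lit 395) (nat_lit 358) (nat_lit 267)) (XT.nd (nat_lit 78) (nat_lit 228) (nat_lit 0) (XT.lf (nat_lit 0) (nat_lit 1250929641) (nat_lit 380) (nat_lit 21803906908) (nat_lit 76) (nat_lit 5072890200) (nat_lit 206) (nat_lit 5) (nat_lit 211) (nat_lit 5) (nat_lit 207) (nat_lit 5) (nat_lit 396) (nat_lit 358) (nat_lit 266)) (XT.lf (nat_lit 0) (nat_lit 7581006977) (nat_lit 228) (nat_lit 5599493037) (nat_lit 304) (nat_lit 15806922367) (nat_lit 203) (nat_lit 5) (nat_lit 206) (nat_lit 5) (nat_lit 207) (nat_lit 5) (nat_lit 397) (nat_lit 358) (nat_lit 265)))) (XT.nd (nat_lit 156) (nat_lit 532) (nat_lit 0) (XT.nd (nat_lit 78) (nat_lit 304) (nat_lit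 0) (XT.lf (nat_lit 0) (nat_lit 9027285428) (nat_lit 228) (nat_lit 17095758877) (nat_lit 304) (nat_lit 3754563627) (nat_lit 200) (nat_lit 5) (nat_lit 203) (nat_lit 5) (nat_lit 204) (nat_lit 5) (nat_lit 398) (nat_lit 358) (nat_lit 264)) (XT.lf (nat_lit 0) (nat_lit 9104428415) (nat_lit 304) (nat_lit 20157109166) (nat_lit 76) (nat_lit 1536867658) (nat_lit 196) (nat_lit 5) (nat_lit 200) (nat_lit 5) (nat_lit 197) (nat_lit 5) (nat_lit 399) (nat_lit 358) (nat_lit 263))) (XT.nd (nat_lit 78) (nat_lit 304) (nat_lit 0) (XT.lf (nat_lit 0) (nat_lit 12382730903) (nat_lit 228) (nat_lit 10636673701) (nat_lit 304) (nat_lit 8730002050) (nat_lit 193) (nat_lit 5) (nat_lit 196) (nat_lit 5) (nat_lit 197) (nat_lit 5) (nat_lit 400) (nat_lit 358) (nat_lit 262)) (XT.lf (nat_lit 0) (nat_lit 5206747502) (nat_lit 304) (nat_lit 18394703690) (nat_lit 76) (nat_lit 9132503692) (nat_lit 189) (nat_lit 5) (nat_lit 193) (nat_lit 5)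 (nat_lit 190) (nat_lit 5) (nat_lit 401) (nat_lit 358) (nat_lit 261)))))) (XT.nd (nat_lit 546) (nat_lit 1444) (nat_lit 0) (XT.nd (nat_lit 234) (nat_lit 836) (nat_lit 0) (XT.nd (nat_lit 78) (nat_lit 456) (nat_lit 0) (XT.lf (nat_lit 0) (nat_lit 16467577981) (nat_lit 228) (nat_lit 3643367678) (nat_lit 304) (nat_lit 13640656968) (nat_lit 186) (nat_lit 5) (nat_lit 189) (nat_lit 5) (nat_lit 190) (nat_lit 5) (nat_lit 402) (nat_lit 358) (nat_lit 260)) (XT.nd (nat_lit 78) (nat_lit 228) (nat_lit 0) (XT.lf (nat_lit 0) (nat_lit 1448456714) (nat_lit 228) (nat_lit 16006259630) (nat_lit 76) (nat_lit 17349347788) (nat_lit 183) (nat_lit 5) (nat_lit 186) (nat_lit 5) (nat_lit 184) (nat_lit 5) (nat_lit 403) (nat_lit 358) (nat_lit 259)) (XT.lf (nat_lit 0) (nat_lit 17455388928) (nat_lit 304) (nat_lit 14577922338) (nat_lit 76) (nat_lit 3858421590) (nat_lit 180) (nat_lit 5) (nat_lit 184) (nat_lit 5) (nat_lit 181) (nat_lit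 5) (nat_lit 404) (nat_lit 358) (nat_lit 258)))) (XT.nd (nat_lit 156) (nat_lit 380) (nat_lit 0) (XT.nd (nat_lit 78) (nat_lit 304) (nat_lit 0) (XT.lf (nat_lit 0) (nat_lit 24069065082) (nat_lit 152) (nat_lit 10751266157) (nat_lit 228) (nat_lit 2196723872) (nat_lit 178) (nat_lit 5) (nat_lit 180) (nat_lit 5) (nat_lit 181) (nat_lit 5) (nat_lit 405) (nat_lit 358) (nat_lit 257)) (XT.lf (nat_lit 0) (nat_lit 15078125187) (nat_lit 304) (nat_lit 11183397546) (nat_lit 76) (nat_lit 11917443315) (nat_lit 174) (nat_lit 5) (nat_lit 178) (nat_lit 5) (nat_lit 175) (nat_lit 5) (nat_lit 406) (nat_lit 358) (nat_lit 256))) (XT.nd (nat_lit 78) (nat_lit 228) (nat_lit 0) (XT.lf (nat_lit 0) (nat_lit 30242654973) (nat_lit 152) (nat_lit 3447348223) (nat_lit 228) (nat_lit 5692755301) (nat_lit 172) (nat_lit 5) (nat_lit 174) (nat_lit 5) (nat_lit 175) (nat_lit 5) (nat_lit 407) (nat_lit 358) (nat_lit 255)) (XT.lf (nat_lit 0) (nat_lit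 12969097776) (nat_lit 228) (nat_lit 6991136549) (nat_lit 76) (nat_lit 20664008102) (nat_lit 169) (nat_lit 5) (nat_lit 172) (nat_lit 5) (nat_lit 170) (nat_lit 5) (nat_lit 408) (nat_lit 358) (nat_lit 254))))) (XT.nd (nat_lit 234) (nat_lit 760) (nat_lit 0) (XT.nd (nat_lit 78) (nat_lit 532) (nat_lit 0) (XT.lf (nat_lit 0) (nat_lit 32965349899) (nat_lit 228) (nat_lit 4533509465) (nat_lit 76) (nat_lit 4411679034) (nat_lit 167) (nat_lit 5) (nat_lit 170) (nat_lit 5) (nat_lit 168) (nat_lit 5) (nat_lit 409) (nat_lit 358) (nat_lit 253)) (XT.nd (nat_lit 78) (nat_lit 304) (nat_lit 0) (XT.lf (nat_lit 0) (nat_lit 11155893035) (nat_lit 228) (nat_lit 1919814833) (nat_lit 76) (nat_lit 30162422726) (nat_lit 164) (nat_lit 5) (nat_lit 167) (nat_lit 5) (nat_lit 165) (nat_lit 5) (nat_lit 410) (nat_lit 358) (nat_lit 252)) (XT.lf (nat_lit 0) (nat_lit 979743592) (nat_lit 152) (nat_lit 31707107814) (nat_lit 228) (nat_lit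 11924299317) (nat_lit 160) (nat_lit 5) (nat_lit 162) (nat_lit 5) (nat_lit 163) (nat_lit 5) (nat_lit 411) (nat_lit 358) (nat_lit 251)))) (XT.nd (nat_lit 156) (nat_lit 380) (nat_lit 0) (XT.nd (nat_lit 78) (nat_lit 152) (nat_lit 0) (XT.lf (nat_lit 0) (nat_lit 4201490088) (nat_lit 152) (nat_lit 5507857403) (nat_lit 228) (nat_lit 36321364889) (nat_lit 157) (nat_lit 5) (nat_lit 159) (nat_lit 5) (nat_lit 160) (nat_lit 5) (nat_lit 412) (nat_lit 358) (nat_lit 250)) (XT.lf (nat_lit 0) (nat_lit 7616878943) (nat_lit 152) (nat_lit 25287869058) (nat_lit 228) (nat_lit 14591161723) (nat_lit 155) (nat_lit 5) (nat_lit 157) (nat_lit 5) (nat_lit 158) (nat_lit 5) (nat_lit 413) (nat_lit 358) (nat_lit 249))) (XT.nd (nat_lit 78) (nat_lit 152) (nat_lit 0) (XT.lf (nat_lit 0) (nat_lit 8678782925) (nat_lit 228) (nat_lit 37593886159) (nat_lit 76) (nat_lit 2740913536) (nat_lit 152) (nat_lit 5) (nat_lit 155) (nat_lit 5) (nat_lit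 153) (nat_lit 5) (nat_lit 414) (nat_lit 358) (nat_lit 248)) (XT.lf (nat_lit 0) (nat_lit 15391055937) (nat_lit 152) (nat_lit 18226663654) (nat_lit 228) (nat_lit 16960867691) (nat_lit 150) (nat_lit 5) (nat_lit 152) (nat_lit 5) (nat_lit 153) (nat_lit 5) (nat_lit 415) (nat_lit 358) (nat_lit 247))))))) (XT.nd (nat_lit 1014) (nat_lit 1292) (nat_lit 0) (XT.nd (nat_lit 468) (nat_lit 1216) (nat_lit 0) (XT.nd (nat_lit 234) (nat_lit 456) (nat_lit 0) (XT.nd (nat_lit 78) (nat_lit 304) (nat_lit 0) (XT.lf (nat_lit 0) (nat_lit 8117026248) (nat_lit 152) (nat_lit 32428998616) (nat_lit 76) (nat_lit 11653134512) (nat_lit 148) (nat_lit 5) (nat_lit 150) (nat_lit 5) (nat_lit 149) (nat_lit 5) (nat_lit 416) (nat_lit 358) (nat_lit 246)) (XT.nd (nat_lit 78) (nat_lit 152) (nat_lit 0) (XT.lf (nat_lit 0) (nat_lit 24415110167) (nat_lit 152) (nat_lit 10457914841) (nat_lit 228) (nat_lit 18999447579) (nat_lit 146) (nat_lit 5) (nat_lit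 148) (nat_lit 5) (nat_lit 149) (nat_lit 5) (nat_lit 417) (nat_lit 358) (nat_lit 245)) (XT.lf (nat_lit 0) (nat_lit 8013684469) (nat_lit 152) (nat_lit 26178039159) (nat_lit 76) (nat_lit 21411027167) (nat_lit 144) (nat_lit 5) (nat_lit 146) (nat_lit 5) (nat_lit 145) (nat_lit 5) (nat_lit 418) (nat_lit 358) (nat_lit 244)))) (XT.nd (nat_lit 78) (nat_lit 304) (nat_lit 0) (XT.lf (nat_lit 0) (nat_lit 34812106799) (nat_lit 152) (nat_lit 1910305202) (nat_lit 228) (nat_lit 20669351215) (nat_lit 142) (nat_lit 5) (nat_lit 144) (nat_lit 5) (nat_lit 145) (nat_lit 5) (nat_lit 419) (nat_lit 358) (nat_lit 243)) (XT.nd (nat_lit 78) (nat_lit 152) (nat_lit 0) (XT.lf (nat_lit 0) (nat_lit 8415508416) (nat_lit 152) (nat_lit 18727777528) (nat_lit 76) (nat_lit 32095727964) (nat_lit 140) (nat_lit 5) (nat_lit 142) (nat_lit 5) (nat_lit 141) (nat_lit 5) (nat_lit 420) (nat_lit 358) (nat_lit 242)) (XT.lf (nat_lit 0) (nat_lit 39294535144)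 (nat_lit 228) (nat_lit 14507477505) (nat_lit 76) (nat_lit 7347453134) (nat_lit 138) (nat_lit 5) (nat_lit 141) (nat_lit 5) (nat_lit 139) (nat_lit 4) (nat_lit 421) (nat_lit 358) (nat_lit 241))))) (XT.nd (nat_lit 234) (nat_lit 608) (nat_lit 0) (XT.nd (nat_lit 78) (nat_lit 456) (nat_lit 0) (XT.lf (nat_lit 0) (nat_lit 9373813743) (nat_lit 152) (nat_lit 9954520557) (nat_lit 76) (nat_lit 43795272305) (nat_lit 136) (nat_lit 5) (nat_lit 138) (nat_lit 5) (nat_lit 137) (nat_lit 5) (nat_lit 422) (nat_lit 358) (nat_lit 240)) (XT.nd (nat_lit 78) (nat_lit 304) (nat_lit 0) (XT.lf (nat_lit 0) (nat_lit 42606673059) (nat_lit 228) (nat_lit 5066279641) (nat_lit 76) (nat_lit 17490170068) (nat_lit 134) (nat_lit 5) (nat_lit 137) (nat_lit 5) (nat_lit 135) (nat_lit 4) (nat_lit 423) (nat_lit 358) (nat_lit 239)) (XT.lf (nat_lit 0) (nat_lit 282270313) (nat_lit 152) (nat_lit 10665319018) (nat_lit 228) (nat_lit 56325584930)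 (nat_lit 130) (nat_lit 5) (nat_lit 132) (nat_lit 5) (nat_lit 133) (nat_lit 5) (nat_lit 424) (nat_lit 358) (nat_lit 238)))) (XT.nd (nat_lit 156) (nat_lit 304) (nat_lit 0) (XT.nd (nat_lit 78) (nat_lit 228) (nat_lit 0) (XT.lf (nat_lit 0) (nat_lit 6020684092) (nat_lit 76) (nat_lit 40746174225) (nat_lit 152) (nat_lit 22681974178) (nat_lit 129) (nat_lit 5) (nat_lit 130) (nat_lit 5) (nat_lit 131) (nat_lit 4) (nat_lit 425) (nat_lit 358) (nat_lit 237)) (XT.lf (nat_lit 0) (nat_lit 12354464139) (nat_lit 152) (nat_lit 954651614) (nat_lit 228) (nat_lit 58393150932) (nat_lit 126) (nat_lit 5) (nat_lit 128) (nat_lit 5) (nat_lit 129) (nat_lit 5) (nat_lit 426) (nat_lit 358) (nat_lit 236))) (XT.nd (nat_lit 78) (nat_lit 228) (nat_lit 0) (XT.lf (nat_lit 0) (nat_lit 18923904186) (nat_lit 76) (nat_lit 32934283950) (nat_lit 152) (nat_lit 22166621449) (nat_lit 125) (nat_lit 5) (nat_lit 126) (nat_lit 5) (nat_lit 127) (nat_lit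 4) (nat_lit 427) (nat_lit 358) (nat_lit 235)) (XT.lf (nat_lit 0) (nat_lit 16524066653) (nat_lit 228) (nat_lit 50299273874) (nat_lit 76) (nat_lit 9606686069) (nat_lit 122) (nat_lit 5) (nat_lit 125) (nat_lit 5) (nat_lit 123) (nat_lit 4) (nat_lit 428) (nat_lit 358) (nat_lit 234)))))) (XT.nd (nat_lit 546) (nat_lit 456) (nat_lit 0) (XT.nd (nat_lit 234) (nat_lit 456) (nat_lit 0) (XT.nd (nat_lit 78) (nat_lit 304) (nat_lit 0) (XT.lf (nat_lit 0) (nat_lit 33713394181) (nat_lit 76) (nat_lit 24200871647) (nat_lit 152) (nat_lit 20997951994) (nat_lit 121) (nat_lit 5) (nat_lit 122) (nat_lit 5) (nat_lit 123) (nat_lit 4) (nat_lit 429) (nat_lit 358) (nat_lit 233)) (XT.nd (nat_lit 78) (nat_lit 76) (nat_lit 0) (XT.lf (nat_lit 0) (nat_lit 20594009818) (nat_lit 228) (nat_lit 39613142957) (nat_lit 76) (nat_lit 21271859802) (nat_lit 118) (nat_lit 5) (nat_lit 121) (nat_lit 5) (nat_lit 119) (nat_lit 4) (nat_lit 430) (nat_lit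 358) (nat_lit 232)) (XT.lf (nat_lit 0) (nat_lit 50575278387) (nat_lit 76) (nat_lit 14450618637) (nat_lit 152) (nat_lit 19106175115) (nat_lit 117) (nat_lit 5) (nat_lit 118) (nat_lit 5) (nat_lit 119) (nat_lit 4) (nat_lit 431) (nat_lit 358) (nat_lit 231)))) (XT.nd (nat_lit 156) (nat_lit 228) (nat_lit 0) (XT.nd (nat_lit 78) (nat_lit 76) (nat_lit 0) (XT.lf (nat_lit 0) (nat_lit 25593448195) (nat_lit 152) (nat_lit 27108607500) (nat_lit 76) (nat_lit 34169137011) (nat_lit 115) (nat_lit 5) (nat_lit 117) (nat_lit 5) (nat_lit 116) (nat_lit 4) (nat_lit 432) (nat_lit 358) (nat_lit 230)) (XT.lf (nat_lit 0) (nat_lit 69712227473) (nat_lit 76) (nat_lit 3579818049) (nat_lit 152) (nat_lit 16414774543) (nat_lit 114) (nat_lit 5) (nat_lit 115) (nat_lit 5) (nat_lit 116) (nat_lit 4) (nat_lit 433) (nat_lit 358) (nat_lit 229))) (XT.nd (nat_lit 78) (nat_lit 76) (nat_lit 0) (XT.lf (nat_lit 0) (nat_lit 31613781759) (nat_lit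 152) (nat_lit 12598386213) (nat_lit 76) (nat_lit 48417570004) (nat_lit 112) (nat_lit 5) (nat_lit 114) (nat_lit 5) (nat_lit 113) (nat_lit 4) (nat_lit 434) (nat_lit 358) (nat_lit 228)) (XT.lf (nat_lit 0) (nat_lit 82902448994) (nat_lit 152) (nat_lit 4397556101) (nat_lit 0) (nat_lit 8357976038) (nat_lit 111) (nat_lit 5) (nat_lit 113) (nat_lit 4) (nat_lit 111) (nat_lit 4) (nat_lit 435) (nat_lit 358) (nat_lit 227))))) (XT.nd (nat_lit 47112) (nat_lit 0) (nat_lit 21736) (XT.nd (nat_lit 78) (nat_lit 228) (nat_lit 0) (XT.lf (nat_lit 0) (nat_lit 4203800867) (nat_lit 76) (nat_lit 34591387398) (nat_lit 152) (nat_lit 59982997773) (nat_lit 108) (nat_lit 5) (nat_lit 109) (nat_lit 5) (nat_lit 110) (nat_lit 4) (nat_lit 436) (nat_lit 358) (nat_lit 226)) (XT.nd (nat_lit 78) (nat_lit 152) (nat_lit 0) (XT.lf (nat_lit 0) (nat_lit 13751509872) (nat_lit 76) (nat_lit 80320647949) (nat_lit 76) (nat_lit 7936079080) (nat_lit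 107) (nat_lit 4) (nat_lit 108) (nat_lit 5) (nat_lit 108) (nat_lit 4) (nat_lit 437) (nat_lit 358) (nat_lit 225)) (XT.lf (nat_lit 0) (nat_lit 23737701339) (nat_lit 76) (nat_lit 23615755410) (nat_lit 152) (nat_lit 57986308078) (nat_lit 105) (nat_lit 5) (nat_lit 106) (nat_lit 5) (nat_lit 107) (nat_lit 4) (nat_lit 438) (nat_lit 358) (nat_lit 224)))) (XT.nd (nat_lit 156) (nat_lit 0) (nat_lit 76) (XT.nd (nat_lit 78) (nat_lit 0) (nat_lit 0) (XT.lf (nat_lit 0) (nat_lit 737098286) (nat_lit 0) (nat_lit 737098286) (nat_lit 1140) (nat_lit 3862994711) (nat_lit 391) (nat_lit 5) (nat_lit 391) (nat_lit 3) (nat_lit 406) (nat_lit 3) (nat_lit 359) (nat_lit 359) (nat_lit 302)) (XT.lf (nat_lit 0) (nat_lit 4096346250) (nat_lit 1140) (nat_lit 364767061) (nat_lit 1216) (nat_lit 6447901525) (nat_lit 391) (nat_lit 5) (nat_lit 406) (nat_lit 3) (nat_lit 407) (nat_lit 5) (nat_lit 360) (nat_lit 359) (nat_lit 301))) (XT.nd (nat_lit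 78) (nat_lit 0) (nat_lit 76) (XT.lf (nat_lit 0) (nat_lit 5374629688) (nat_lit 1140) (nat_lit 2150505704) (nat_lit 1216) (nat_lit 3628055342) (nat_lit 392) (nat_lit 5) (nat_lit 407) (nat_lit 5) (nat_lit 408) (nat_lit 5) (nat_lit 361) (nat_lit 359) (nat_lit 300)) (XT.lf (nat_lit 0) (nat_lit 6783346615) (nat_lit 1140) (nat_lit 3912504702) (nat_lit 1216) (nat_lit 711728532) (nat_lit 393) (nat_lit 5) (nat_lit 408) (nat_lit 5) (nat_lit 409) (nat_lit 5) (nat_lit 362) (nat_lit 359) (nat_lit 299))))))))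
noncomputable def xc79 : XT := (XT.nd (nat_lit 2106) (nat_lit 6764) (nat_lit 0) (XT.nd (nat_lit 1014) (nat_lit 6384) (nat_lit 0) (XT.nd (nat_lit 468) (nat_lit 4332) (nat_lit 0) (XT.nd (nat_lit 234) (nat_lit 988) (nat_lit 0) (XT.nd (nat_lit 78) (nat_lit 0) (nat_lit 76) (XT.lf (nat_lit 76) (nat_lit 5998010168) (nat_lit 0) (nat_lit 2361882929) (nat_lit 1216) (nat_lit 3311873511) (nat_lit 394) (nat_lit 5) (nat_lit 393) (nat_lit 5) (nat_lit 409) (nat_lit 5) (nat_lit 363) (nat_lit 359) (nat_lit 298)) (XT.nd (nat_lit 78) (nat_lit 0) (nat_lit 76) (XT.lf (nat_lit 76) (nat_lit 4526840842) (nat_lit 0) (nat_lit 5578098841) (nat_lit 1216) (nat_lit 1841532839) (nat_lit 395) (nat_lit 5) (nat_lit 394) (nat_lit 5) (nat_lit 410) (nat_lit 5) (nat_lit 364) (nat_lit 359) (nat_lit 297)) (XT.lf (nat_lit 76) (nat_lit 3089475234) (nat_lit 0) (nat_lit 8937862689) (nat_lit 1216) (nat_lit 204872828) (nat_lit 396) (nat_lit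 5) (nat_lit 395) (nat_lit 5) (nat_lit 411) (nat_lit 5) (nat_lit 365) (nat_lit 359) (nat_lit 296)))) (XT.nd (nat_lit 78) (nat_lit 0) (nat_lit 0) (XT.lf (nat_lit 0) (nat_lit 1582687862) (nat_lit 1216) (nat_lit 10857743544) (nat_lit 1292) (nat_lit 88409875) (nat_lit 380) (nat_lit 5) (nat_lit 396) (nat_lit 5) (nat_lit 397) (nat_lit 5) (nat_lit 366) (nat_lit 359) (nat_lit 295)) (XT.nd (nat_lit 78) (nat_lit 0) (nat_lit 76) (XT.lf (nat_lit 76) (nat_lit 252222138) (nat_lit 0) (nat_lit 3341350402) (nat_lit 1292) (nat_lit 9242524452) (nat_lit 381) (nat_lit 5) (nat_lit 380) (nat_lit 5) (nat_lit 397) (nat_lit 5) (nat_lit 367) (nat_lit 359) (nat_lit 294)) (XT.lf (nat_lit 0) (nat_lit 5830151663) (nat_lit 1216) (nat_lit 1110708278) (nat_lit 1292) (nat_lit 6214101042) (nat_lit 381) (nat_lit 5) (nat_lit 397) (nat_lit 5) (nat_lit 398) (nat_lit 5) (nat_lit 368) (nat_lit 359) (nat_lit 293))))) (XT.nd (nat_lit 234)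 (nat_lit 2432) (nat_lit 0) (XT.nd (nat_lit 78) (nat_lit 2052) (nat_lit 0) (XT.lf (nat_lit 0) (nat_lit 8300607901) (nat_lit 1216) (nat_lit 2432515286) (nat_lit 76) (nat_lit 2752983542) (nat_lit 382) (nat_lit 5) (nat_lit 398) (nat_lit 5) (nat_lit 383) (nat_lit 5) (nat_lit 369) (nat_lit 359) (nat_lit 292)) (XT.nd (nat_lit 78) (nat_lit 836) (nat_lit 0) (XT.lf (nat_lit 0) (nat_lit 10105330676) (nat_lit 1216) (nat_lit 924683050) (nat_lit 1292) (nat_lit 2799733233) (nat_lit 366) (nat_lit 5) (nat_lit 382) (nat_lit 5) (nat_lit 383) (nat_lit 5) (nat_lit 370) (nat_lit 359) (nat_lit 291)) (XT.lf (nat_lit 0) (nat_lit 9182138694) (nat_lit 836) (nat_lit 4875861209) (nat_lit 912) (nat_lit 127705995) (nat_lit 355) (nat_lit 5) (nat_lit 366) (nat_lit 5) (nat_lit 367) (nat_lit 5) (nat_lit 371) (nat_lit 359) (nat_lit 290)))) (XT.nd (nat_lit 156) (nat_lit 1140) (nat_lit 0) (XT.nd (nat_lit 78) (nat_lit 608) (nat_lit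 0) (XT.lf (nat_lit 0) (nat_lit 2767715748) (nat_lit 684) (nat_lit 6266759119) (nat_lit 76) (nat_lit 5519954190) (nat_lit 346) (nat_lit 5) (nat_lit 355) (nat_lit 5) (nat_lit 347) (nat_lit 5) (nat_lit 372) (nat_lit 359) (nat_lit 289)) (XT.lf (nat_lit 0) (nat_lit 5954215478) (nat_lit 684) (nat_lit 7487136183) (nat_lit 76) (nat_lit 1495730340) (nat_lit 338) (nat_lit 5) (nat_lit 347) (nat_lit 5) (nat_lit 339) (nat_lit 5) (nat_lit 373) (nat_lit 359) (nat_lit 288))) (XT.nd (nat_lit 78) (nat_lit 608) (nat_lit 0) (XT.lf (nat_lit 0) (nat_lit 6646746588) (nat_lit 532) (nat_lit 2836293325) (nat_lit 608) (nat_lit 5850337688) (nat_lit 331) (nat_lit 5) (nat_lit 338) (nat_lit 5) (nat_lit 339) (nat_lit 5) (nat_lit 374) (nat_lit 359) (nat_lit 287)) (XT.lf (nat_lit 0) (nat_lit 5893442659) (nat_lit 608) (nat_lit 7473310737) (nat_lit 684) (nat_lit 2377381149) (nat_lit 323) (nat_lit 5) (nat_lit 331) (nat_lit 5) (nat_lit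 332) (nat_lit 5) (nat_lit 375) (nat_lit 359) (nat_lit 286)))))) (XT.nd (nat_lit 546) (nat_lit 2888) (nat_lit 0) (XT.nd (nat_lit 234) (nat_lit 1900) (nat_lit 0) (XT.nd (nat_lit 78) (nat_lit 988) (nat_lit 0) (XT.lf (nat_lit 0) (nat_lit 1415966961) (nat_lit 608) (nat_lit 10973605510) (nat_lit 76) (nat_lit 3780345523) (nat_lit 315) (nat_lit 5) (nat_lit 323) (nat_lit 5) (nat_lit 316) (nat_lit 5) (nat_lit 376) (nat_lit 359) (nat_lit 285)) (XT.nd (nat_lit 78) (nat_lit 456) (nat_lit 0) (XT.lf (nat_lit 0) (nat_lit 4538549455) (nat_lit 532) (nat_lit 999668974) (nat_lit 608) (nat_lit 11072413919) (nat_lit 308) (nat_lit 5) (nat_lit 315) (nat_lit 5) (nat_lit 316) (nat_lit 5) (nat_lit 377) (nat_lit 359) (nat_lit 284)) (XT.lf (nat_lit 0) (nat_lit 3918610860) (nat_lit 456) (nat_lit 6172767217) (nat_lit 532) (nat_lit 6975260473) (nat_lit 302) (nat_lit 5) (nat_lit 308) (nat_lit 5) (nat_lit 309) (nat_lit 5) (nat_lit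 378) (nat_lit 359) (nat_lit 283)))) (XT.nd (nat_lit 156) (nat_lit 836) (nat_lit 0) (XT.nd (nat_lit 78) (nat_lit 532) (nat_lit 0) (XT.lf (nat_lit 0) (nat_lit 3381399201) (nat_lit 532) (nat_lit 11683543858) (nat_lit 608) (nat_lit 2474719584) (nat_lit 295) (nat_lit 5) (nat_lit 302) (nat_lit 5) (nat_lit 303) (nat_lit 5) (nat_lit 379) (nat_lit 359) (nat_lit 282)) (XT.lf (nat_lit 0) (nat_lit 2408535558) (nat_lit 532) (nat_lit 15119719416) (nat_lit 76) (nat_lit 501385589) (nat_lit 288) (nat_lit 5) (nat_lit 295) (nat_lit 5) (nat_lit 289) (nat_lit 5) (nat_lit 380) (nat_lit 359) (nat_lit 281))) (XT.nd (nat_lit 78) (nat_lit 380) (nat_lit 0) (XT.lf (nat_lit 0) (nat_lit 2455029610) (nat_lit 456) (nat_lit 5289660035) (nat_lit 532) (nat_lit 10790895154) (nat_lit 282) (nat_lit 5) (nat_lit 288) (nat_lit 5) (nat_lit 289) (nat_lit 5) (nat_lit 381) (nat_lit 359) (nat_lit 280)) (XT.lf (nat_lit 0) (nat_lit 2093028265)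 (nat_lit 380) (nat_lit 11476324733) (nat_lit 456) (nat_lit 5490822203) (nat_lit 277) (nat_lit 5) (nat_lit 282) (nat_lit 5) (nat_lit 283) (nat_lit 5) (nat_lit 382) (nat_lit 359) (nat_lit 279))))) (XT.nd (nat_lit 234) (nat_lit 1596) (nat_lit 0) (XT.nd (nat_lit 78) (nat_lit 760) (nat_lit 0) (XT.lf (nat_lit 0) (nat_lit 298672895) (nat_lit 532) (nat_lit 17769477664) (nat_lit 76) (nat_lit 1536047124) (nat_lit 270) (nat_lit 5) (nat_lit 277) (nat_lit 5) (nat_lit 271) (nat_lit 5) (nat_lit 383) (nat_lit 359) (nat_lit 278)) (XT.nd (nat_lit 78) (nat_lit 380) (nat_lit 0) (XT.lf (nat_lit 0) (nat_lit 1583851224) (nat_lit 380) (nat_lit 4962101844) (nat_lit 456) (nat_lit 13619381216) (nat_lit 265) (nat_lit 5) (nat_lit 270) (nat_lit 5) (nat_lit 271) (nat_lit 5) (nat_lit 384) (nat_lit 359) (nat_lit 277)) (XT.lf (nat_lit 0) (nat_lit 1433904463) (nat_lit 380) (nat_lit 11929015509) (nat_lit 456) (nat_lit 7383888062)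 (nat_lit 260) (nat_lit 5) (nat_lit 265) (nat_lit 5) (nat_lit 266) (nat_lit 5) (nat_lit 385) (nat_lit 359) (nat_lit 276)))) (XT.nd (nat_lit 156) (nat_lit 760) (nat_lit 0) (XT.nd (nat_lit 78) (nat_lit 456) (nat_lit 0) (XT.lf (nat_lit 0) (nat_lit 1410726506) (nat_lit 380) (nat_lit 19358953706) (nat_lit 456) (nat_lit 580206910) (nat_lit 255) (nat_lit 5) (nat_lit 260) (nat_lit 5) (nat_lit 261) (nat_lit 5) (nat_lit 386) (nat_lit 359) (nat_lit 275)) (XT.lf (nat_lit 0) (nat_lit 1404940058) (nat_lit 380) (nat_lit 5340990602) (nat_lit 456) (nat_lit 15225986099) (nat_lit 249) (nat_lit 5) (nat_lit 254) (nat_lit 5) (nat_lit 255) (nat_lit 5) (nat_lit 387) (nat_lit 359) (nat_lit 274))) (XT.nd (nat_lit 78) (nat_lit 456) (nat_lit 0) (XT.lf (nat_lit 0) (nat_lit 1511878227) (nat_lit 304) (nat_lit 13202993794) (nat_lit 380) (nat_lit 7901348622) (nat_lit 245) (nat_lit 5) (nat_lit 249) (nat_lit 5) (nat_lit 250) (nat_lit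 5) (nat_lit 388) (nat_lit 359) (nat_lit 273)) (XT.lf (nat_lit 0) (nat_lit 72151674) (nat_lit 456) (nat_lit 21515741552) (nat_lit 76) (nat_lit 1696551482) (nat_lit 239) (nat_lit 5) (nat_lit 245) (nat_lit 5) (nat_lit 240) (nat_lit 5) (nat_lit 389) (nat_lit 359) (nat_lit 272))))))) (XT.nd (nat_lit 1014) (nat_lit 2964) (nat_lit 0) (XT.nd (nat_lit 468) (nat_lit 1900) (nat_lit 0) (XT.nd (nat_lit 234) (nat_lit 912) (nat_lit 0) (XT.nd (nat_lit 78) (nat_lit 684) (nat_lit 0) (XT.lf (nat_lit 0) (nat_lit 2038747356) (nat_lit 304) (nat_lit 6593638687) (nat_lit 380) (nat_lit 15340802866) (nat_lit 235) (nat_lit 5) (nat_lit 239) (nat_lit 5) (nat_lit 240) (nat_lit 5) (nat_lit 390) (nat_lit 359) (nat_lit 271)) (XT.nd (nat_lit 78) (nat_lit 380) (nat_lit 0) (XT.lf (nat_lit 0) (nat_lit 2456289422) (nat_lit 304) (nat_lit 15477941099) (nat_lit 380) (nat_lit 6752731845) (nat_lit 231) (nat_lit 5) (nat_lit 235) (nat_lit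 5) (nat_lit 236) (nat_lit 5) (nat_lit 391) (nat_lit 359) (nat_lit 270)) (XT.lf (nat_lit 0) (nat_lit 2528041494) (nat_lit 380) (nat_lit 22399538591) (nat_lit 76) (nat_lit 498966550) (nat_lit 226) (nat_lit 5) (nat_lit 231) (nat_lit 5) (nat_lit 227) (nat_lit 5) (nat_lit 392) (nat_lit 359) (nat_lit 269)))) (XT.nd (nat_lit 78) (nat_lit 608) (nat_lit 0) (XT.lf (nat_lit 0) (nat_lit 3628612569) (nat_lit 304) (nat_lit 8907576048) (nat_lit 380) (nat_lit 13652825977) (nat_lit 222) (nat_lit 5) (nat_lit 226) (nat_lit 5) (nat_lit 227) (nat_lit 5) (nat_lit 393) (nat_lit 359) (nat_lit 268)) (XT.nd (nat_lit 78) (nat_lit 380) (nat_lit 0) (XT.lf (nat_lit 0) (nat_lit 4420449871) (nat_lit 228) (nat_lit 18955781076) (nat_lit 304) (nat_lit 3603430368) (nat_lit 219) (nat_lit 5) (nat_lit 222) (nat_lit 5) (nat_lit 223) (nat_lit 5) (nat_lit 394) (nat_lit 359) (nat_lit 267)) (XT.lf (nat_lit 0) (nat_lit 5333471313) (nat_lit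 304) (nat_lit 1835617967) (nat_lit 380) (nat_lit 20628060018) (nat_lit 214) (nat_lit 5) (nat_lit 218) (nat_lit 5) (nat_lit 219) (nat_lit 5) (nat_lit 395) (nat_lit 359) (nat_lit 266))))) (XT.nd (nat_lit 234) (nat_lit 1064) (nat_lit 0) (XT.nd (nat_lit 78) (nat_lit 608) (nat_lit 0) (XT.lf (nat_lit 0) (nat_lit 6343518228) (nat_lit 228) (nat_lit 12494609766) (nat_lit 304) (nat_lit 9803340833) (nat_lit 211) (nat_lit 5) (nat_lit 214) (nat_lit 5) (nat_lit 215) (nat_lit 5) (nat_lit 396) (nat_lit 359) (nat_lit 265)) (XT.nd (nat_lit 78) (nat_lit 228) (nat_lit 0) (XT.lf (nat_lit 0) (nat_lit 1894560879) (nat_lit 380) (nat_lit 21951218029) (nat_lit 76) (nat_lit 5670901636) (nat_lit 206) (nat_lit 5) (nat_lit 211) (nat_lit 5) (nat_lit 207) (nat_lit 5) (nat_lit 397) (nat_lit 359) (nat_lit 264)) (XT.lf (nat_lit 0) (nat_lit 8875913963) (nat_lit 228) (nat_lit 5525828879) (nat_lit 304) (nat_lit 16018184123) (nat_lit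 203) (nat_lit 5) (nat_lit 206) (nat_lit 5) (nat_lit 207) (nat_lit 5) (nat_lit 398) (nat_lit 359) (nat_lit 263)))) (XT.nd (nat_lit 156) (nat_lit 532) (nat_lit 0) (XT.nd (nat_lit 78) (nat_lit 304) (nat_lit 0) (XT.lf (nat_lit 0) (nat_lit 10381334599) (nat_lit 228) (nat_lit 17595222147) (nat_lit 304) (nat_lit 3378510775) (nat_lit 200) (nat_lit 5) (nat_lit 203) (nat_lit 5) (nat_lit 204) (nat_lit 5) (nat_lit 399) (nat_lit 359) (nat_lit 262)) (XT.lf (nat_lit 0) (nat_lit 10098026301) (nat_lit 304) (nat_lit 20264807841) (nat_lit 76) (nat_lit 1959340064) (nat_lit 196) (nat_lit 5) (nat_lit 200) (nat_lit 5) (nat_lit 197) (nat_lit 5) (nat_lit 400) (nat_lit 359) (nat_lit 261))) (XT.nd (nat_lit 78) (nat_lit 304) (nat_lit 0) (XT.lf (nat_lit 0) (nat_lit 13876221418) (nat_lit 228) (nat_lit 10815297733) (nat_lit 304) (nat_lit 8629723506) (nat_lit 193) (nat_lit 5) (nat_lit 196) (nat_lit 5) (nat_lit 197) (nat_lit 5)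 (nat_lit 401) (nat_lit 359) (nat_lit 260)) (XT.lf (nat_lit 0) (nat_lit 5979952681) (nat_lit 304) (nat_lit 18443052779) (nat_lit 76) (nat_lit 9932261135) (nat_lit 189) (nat_lit 5) (nat_lit 193) (nat_lit 5) (nat_lit 190) (nat_lit 5) (nat_lit 402) (nat_lit 359) (nat_lit 259)))))) (XT.nd (nat_lit 546) (nat_lit 1444) (nat_lit 0) (XT.nd (nat_lit 234) (nat_lit 836) (nat_lit 0) (XT.nd (nat_lit 78) (nat_lit 456) (nat_lit 0) (XT.lf (nat_lit 0) (nat_lit 18137364868) (nat_lit 228) (nat_lit 3475709792) (nat_lit 304) (nat_lit 13811210647) (nat_lit 186) (nat_lit 5) (nat_lit 189) (nat_lit 5) (nat_lit 190) (nat_lit 5) (nat_lit 403) (nat_lit 359) (nat_lit 258)) (XT.nd (nat_lit 78) (nat_lit 228) (nat_lit 0) (XT.lf (nat_lit 0) (nat_lit 2009821349) (nat_lit 228) (nat_lit 15963491771) (nat_lit 76) (nat_lit 18556285965) (nat_lit 183) (nat_lit 5) (nat_lit 186) (nat_lit 5) (nat_lit 184) (nat_lit 5) (nat_lit 404) (nat_lit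 359) (nat_lit 257)) (XT.lf (nat_lit 0) (nat_lit 18805009170) (nat_lit 304) (nat_lit 14477018471) (nat_lit 76) (nat_lit 4389986334) (nat_lit 180) (nat_lit 5) (nat_lit 184) (nat_lit 5) (nat_lit 181) (nat_lit 5) (nat_lit 405) (nat_lit 359) (nat_lit 256)))) (XT.nd (nat_lit 156) (nat_lit 380) (nat_lit 0) (XT.nd (nat_lit 78) (nat_lit 304) (nat_lit 0) (XT.lf (nat_lit 0) (nat_lit 26078532270) (nat_lit 152) (nat_lit 10944707045) (nat_lit 228) (nat_lit 1830811806) (nat_lit 178) (nat_lit 5) (nat_lit 180) (nat_lit 5) (nat_lit 181) (nat_lit 5) (nat_lit 406) (nat_lit 359) (nat_lit 255)) (XT.lf (nat_lit 0) (nat_lit 16287164918) (nat_lit 304) (nat_lit 10940353218) (nat_lit 76) (nat_lit 12846742211) (nat_lit 174) (nat_lit 5) (nat_lit 178) (nat_lit 5) (nat_lit 175) (nat_lit 5) (nat_lit 407) (nat_lit 359) (nat_lit 254))) (XT.nd (nat_lit 78) (nat_lit 228) (nat_lit 0) (XT.lf (nat_lit 0) (nat_lit 32534006618) (nat_lit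 152) (nat_lit 3281447515) (nat_lit 228) (nat_lit 5523213766) (nat_lit 172) (nat_lit 5) (nat_lit 174) (nat_lit 5) (nat_lit 175) (nat_lit 5) (nat_lit 408) (nat_lit 359) (nat_lit 253)) (XT.lf (nat_lit 0) (nat_lit 14052232932) (nat_lit 228) (nat_lit 6565468746) (nat_lit 76) (nat_lit 22024712463) (nat_lit 169) (nat_lit 5) (nat_lit 172) (nat_lit 5) (nat_lit 170) (nat_lit 5) (nat_lit 409) (nat_lit 359) (nat_lit 252))))) (XT.nd (nat_lit 234) (nat_lit 760) (nat_lit 0) (XT.nd (nat_lit 78) (nat_lit 532) (nat_lit 0) (XT.lf (nat_lit 0) (nat_lit 35038026232) (nat_lit 228) (nat_lit 3997734686) (nat_lit 76) (nat_lit 4957572136) (nat_lit 167) (nat_lit 5) (nat_lit 170) (nat_lit 5) (nat_lit 168) (nat_lit 5) (nat_lit 410) (nat_lit 359) (nat_lit 251)) (XT.nd (nat_lit 78) (nat_lit 304) (nat_lit 0) (XT.lf (nat_lit 0) (nat_lit 12129078085) (nat_lit 228) (nat_lit 1266943722) (nat_lit 76) (nat_lit 31991553605) (nat_lit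 164) (nat_lit 5) (nat_lit 167) (nat_lit 5) (nat_lit 165) (nat_lit 5) (nat_lit 411) (nat_lit 359) (nat_lit 250)) (XT.lf (nat_lit 0) (nat_lit 1779737440) (nat_lit 152) (nat_lit 32954399865) (nat_lit 228) (nat_lit 12095182654) (nat_lit 160) (nat_lit 5) (nat_lit 162) (nat_lit 5) (nat_lit 163) (nat_lit 5) (nat_lit 412) (nat_lit 359) (nat_lit 249)))) (XT.nd (nat_lit 156) (nat_lit 380) (nat_lit 0) (XT.nd (nat_lit 78) (nat_lit 152) (nat_lit 0) (XT.lf (nat_lit 0) (nat_lit 5149105647) (nat_lit 152) (nat_lit 5449972130) (nat_lit 228) (nat_lit 37721042334) (nat_lit 157) (nat_lit 5) (nat_lit 159) (nat_lit 5) (nat_lit 160) (nat_lit 5) (nat_lit 413) (nat_lit 359) (nat_lit 248)) (XT.lf (nat_lit 0) (nat_lit 8722790882) (nat_lit 152) (nat_lit 26222227731) (nat_lit 228) (nat_lit 14913835602) (nat_lit 155) (nat_lit 5) (nat_lit 157) (nat_lit 5) (nat_lit 158) (nat_lit 5) (nat_lit 414) (nat_lit 359) (nat_lit 247))) (XT.nd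 (nat_lit 78) (nat_lit 152) (nat_lit 0) (XT.lf (nat_lit 0) (nat_lit 9502639363) (nat_lit 228) (nat_lit 38753106552) (nat_lit 76) (nat_lit 3196818318) (nat_lit 152) (nat_lit 5) (nat_lit 155) (nat_lit 5) (nat_lit 153) (nat_lit 5) (nat_lit 415) (nat_lit 359) (nat_lit 246)) (XT.lf (nat_lit 0) (nat_lit 16860430408) (nat_lit 152) (nat_lit 18816252077) (nat_lit 228) (nat_lit 17419491853) (nat_lit 150) (nat_lit 5) (nat_lit 152) (nat_lit 5) (nat_lit 153) (nat_lit 5) (nat_lit 416) (nat_lit 359) (nat_lit 245))))))))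
noncomputable def xc80 : XT := (XT.nd (nat_lit 48984) (nat_lit 0) (nat_lit 10032) (XT.nd (nat_lit 1014) (nat_lit 1140) (nat_lit 0) (XT.nd (nat_lit 468) (nat_lit 1216) (nat_lit 0) (XT.nd (nat_lit 234) (nat_lit 456) (nat_lit 0) (XT.nd (nat_lit 78) (nat_lit 304) (nat_lit 0) (XT.lf (nat_lit 0) (nat_lit 8896167356) (nat_lit 152) (nat_lit 33355244892) (nat_lit 76) (nat_lit 12546506403) (nat_lit 148) (nat_lit 5) (nat_lit 150) (nat_lit 5) (nat_lit 149) (nat_lit 5) (nat_lit 417) (nat_lit 359) (nat_lit 244)) (XT.nd (nat_lit 78) (nat_lit 152) (nat_lit 0) (XT.lf (nat_lit 0) (nat_lit 26311141457) (nat_lit 152) (nat_lit 10667540057) (nat_lit 228) (nat_lit 19576554545) (nat_lit 146) (nat_lit 5) (nat_lit 148) (nat_lit 5) (nat_lit 149) (nat_lit 5) (nat_lit 418) (nat_lit 359) (nat_lit 243)) (XT.lf (nat_lit 0) (nat_lit 8771887015) (nat_lit 152) (nat_lit 26816282839) (nat_lit 76) (nat_lit 22783992931) (nat_lit 144)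 (nat_lit 5) (nat_lit 146) (nat_lit 5) (nat_lit 145) (nat_lit 5) (nat_lit 419) (nat_lit 359) (nat_lit 242)))) (XT.nd (nat_lit 78) (nat_lit 304) (nat_lit 0) (XT.lf (nat_lit 0) (nat_lit 37204146132) (nat_lit 152) (nat_lit 1701142092) (nat_lit 228) (nat_lit 21345660484) (nat_lit 142) (nat_lit 5) (nat_lit 144) (nat_lit 5) (nat_lit 145) (nat_lit 5) (nat_lit 420) (nat_lit 359) (nat_lit 241)) (XT.nd (nat_lit 78) (nat_lit 152) (nat_lit 0) (XT.lf (nat_lit 0) (nat_lit 9178827112) (nat_lit 152) (nat_lit 19017328678) (nat_lit 76) (nat_lit 33994532515) (nat_lit 140) (nat_lit 5) (nat_lit 142) (nat_lit 5) (nat_lit 141) (nat_lit 5) (nat_lit 421) (nat_lit 359) (nat_lit 240)) (XT.lf (nat_lit 0) (nat_lit 41594378734) (nat_lit 228) (nat_lit 14597432562) (nat_lit 76) (nat_lit 8005074271) (nat_lit 138) (nat_lit 5) (nat_lit 141) (nat_lit 5) (nat_lit 139) (nat_lit 4) (nat_lit 422) (nat_lit 359) (nat_lit 239))))) (XT.nd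 (nat_lit 234) (nat_lit 608) (nat_lit 0) (XT.nd (nat_lit 78) (nat_lit 456) (nat_lit 0) (XT.lf (nat_lit 0) (nat_lit 10170814998) (nat_lit 152) (nat_lit 9828507896) (nat_lit 76) (nat_lit 46270614724) (nat_lit 136) (nat_lit 5) (nat_lit 138) (nat_lit 5) (nat_lit 137) (nat_lit 5) (nat_lit 423) (nat_lit 359) (nat_lit 238)) (XT.nd (nat_lit 78) (nat_lit 304) (nat_lit 0) (XT.lf (nat_lit 0) (nat_lit 45058269602) (nat_lit 228) (nat_lit 4706941528) (nat_lit 76) (nat_lit 18646429890) (nat_lit 134) (nat_lit 5) (nat_lit 137) (nat_lit 5) (nat_lit 135) (nat_lit 4) (nat_lit 424) (nat_lit 359) (nat_lit 237)) (XT.lf (nat_lit 0) (nat_lit 909707081) (nat_lit 152) (nat_lit 10905928377) (nat_lit 228) (nat_lit 58811577517) (nat_lit 130) (nat_lit 5) (nat_lit 132) (nat_lit 5) (nat_lit 133) (nat_lit 5) (nat_lit 425) (nat_lit 359) (nat_lit 236)))) (XT.nd (nat_lit 156) (nat_lit 304) (nat_lit 0) (XT.nd (nat_lit 78) (nat_lit 228)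 (nat_lit 0) (XT.lf (nat_lit 0) (nat_lit 6924072451) (nat_lit 76) (nat_lit 42494995030) (nat_lit 152) (nat_lit 23492790651) (nat_lit 129) (nat_lit 5) (nat_lit 130) (nat_lit 5) (nat_lit 131) (nat_lit 4) (nat_lit 426) (nat_lit 359) (nat_lit 235)) (XT.lf (nat_lit 0) (nat_lit 13563402712) (nat_lit 152) (nat_lit 718731796) (nat_lit 228) (nat_lit 60996018623) (nat_lit 126) (nat_lit 5) (nat_lit 128) (nat_lit 5) (nat_lit 129) (nat_lit 5) (nat_lit 427) (nat_lit 359) (nat_lit 234))) (XT.nd (nat_lit 78) (nat_lit 228) (nat_lit 0) (XT.lf (nat_lit 0) (nat_lit 20450681611) (nat_lit 76) (nat_lit 34301510755) (nat_lit 152) (nat_lit 22964824854) (nat_lit 125) (nat_lit 5) (nat_lit 126) (nat_lit 5) (nat_lit 127) (nat_lit 4) (nat_lit 428) (nat_lit 359) (nat_lit 233)) (XT.lf (nat_lit 0) (nat_lit 17647984592) (nat_lit 228) (nat_lit 52238208193) (nat_lit 76) (nat_lit 10356403703) (nat_lit 122) (nat_lit 5) (nat_lit 125)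 (nat_lit 5) (nat_lit 123) (nat_lit 4) (nat_lit 429) (nat_lit 359) (nat_lit 232)))))) (XT.nd (nat_lit 468) (nat_lit 380) (nat_lit 0) (XT.nd (nat_lit 234) (nat_lit 380) (nat_lit 0) (XT.nd (nat_lit 78) (nat_lit 304) (nat_lit 0) (XT.lf (nat_lit 0) (nat_lit 35958581498) (nat_lit 76) (nat_lit 25140313767) (nat_lit 152) (nat_lit 21750265964) (nat_lit 121) (nat_lit 5) (nat_lit 122) (nat_lit 5) (nat_lit 123) (nat_lit 4) (nat_lit 430) (nat_lit 359) (nat_lit 231)) (XT.nd (nat_lit 78) (nat_lit 76) (nat_lit 0) (XT.lf (nat_lit 0) (nat_lit 21909427912) (nat_lit 228) (nat_lit 41038742207) (nat_lit 76) (nat_lit 22596221558) (nat_lit 118) (nat_lit 5) (nat_lit 121) (nat_lit 5) (nat_lit 119) (nat_lit 4) (nat_lit 431) (nat_lit 359) (nat_lit 230)) (XT.lf (nat_lit 0) (nat_lit 53643189580) (nat_lit 76) (nat_lit 14911296911) (nat_lit 152) (nat_lit 19775870416) (nat_lit 117) (nat_lit 5) (nat_lit 118) (nat_lit 5) (nat_lit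 119) (nat_lit 4) (nat_lit 432) (nat_lit 359) (nat_lit 229)))) (XT.nd (nat_lit 78) (nat_lit 228) (nat_lit 0) (XT.lf (nat_lit 0) (nat_lit 27147385035) (nat_lit 152) (nat_lit 27929251305) (nat_lit 76) (nat_lit 36129888069) (nat_lit 115) (nat_lit 5) (nat_lit 117) (nat_lit 5) (nat_lit 116) (nat_lit 4) (nat_lit 433) (nat_lit 359) (nat_lit 228)) (XT.nd (nat_lit 78) (nat_lit 152) (nat_lit 0) (XT.lf (nat_lit 0) (nat_lit 73717295867) (nat_lit 76) (nat_lit 3505549489) (nat_lit 152) (nat_lit 16961329785) (nat_lit 114) (nat_lit 5) (nat_lit 115) (nat_lit 5) (nat_lit 116) (nat_lit 4) (nat_lit 434) (nat_lit 359) (nat_lit 227)) (XT.lf (nat_lit 0) (nat_lit 33457794532) (nat_lit 152) (nat_lit 12713105666) (nat_lit 76) (nat_lit 51082424966) (nat_lit 112) (nat_lit 5) (nat_lit 114) (nat_lit 5) (nat_lit 113) (nat_lit 4) (nat_lit 435) (nat_lit 359) (nat_lit 226))))) (XT.nd (nat_lit 47190) (nat_lit 0) (nat_lit 21584) (XT.nd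 (nat_lit 78) (nat_lit 304) (nat_lit 0) (XT.lf (nat_lit 0) (nat_lit 87305519884) (nat_lit 152) (nat_lit 4111687823) (nat_lit 0) (nat_lit 9015934029) (nat_lit 111) (nat_lit 5) (nat_lit 113) (nat_lit 4) (nat_lit 111) (nat_lit 4) (nat_lit 436) (nat_lit 359) (nat_lit 225)) (XT.nd (nat_lit 78) (nat_lit 76) (nat_lit 0) (XT.lf (nat_lit 0) (nat_lit 4920149397) (nat_lit 76) (nat_lit 36072530235) (nat_lit 152) (nat_lit 62716683748) (nat_lit 108) (nat_lit 5) (nat_lit 109) (nat_lit 5) (nat_lit 110) (nat_lit 4) (nat_lit 437) (nat_lit 359) (nat_lit 224)) (XT.lf (nat_lit 0) (nat_lit 14935925669) (nat_lit 76) (nat_lit 84092349292) (nat_lit 76) (nat_lit 8072798507) (nat_lit 107) (nat_lit 4) (nat_lit 108) (nat_lit 5) (nat_lit 108) (nat_lit 4) (nat_lit 438) (nat_lit 359) (nat_lit 223)))) (XT.nd (nat_lit 156) (nat_lit 0) (nat_lit 76) (XT.nd (nat_lit 78) (nat_lit 0) (nat_lit 0) (XT.lf (nat_lit 0) (nat_lit 1271574983)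 (nat_lit 0) (nat_lit 1271574983) (nat_lit 1140) (nat_lit 3031043576) (nat_lit 391) (nat_lit 5) (nat_lit 391) (nat_lit 3) (nat_lit 406) (nat_lit 3) (nat_lit 360) (nat_lit 360) (nat_lit 300)) (XT.lf (nat_lit 76) (nat_lit 643382697) (nat_lit 0) (nat_lit 5550556156) (nat_lit 1216) (nat_lit 5203743466) (nat_lit 392) (nat_lit 5) (nat_lit 391) (nat_lit 5) (nat_lit 407) (nat_lit 5) (nat_lit 361) (nat_lit 360) (nat_lit 299))) (XT.nd (nat_lit 78) (nat_lit 0) (nat_lit 76) (XT.lf (nat_lit 0) (nat_lit 7441684201) (nat_lit 1140) (nat_lit 1211176090) (nat_lit 1216) (nat_lit 3004040289) (nat_lit 392) (nat_lit 5) (nat_lit 407) (nat_lit 5) (nat_lit 408) (nat_lit 5) (nat_lit 362) (nat_lit 360) (nat_lit 298)) (XT.lf (nat_lit 0) (nat_lit 8838194287) (nat_lit 1140) (nat_lit 3032826215) (nat_lit 1216) (nat_lit 55467929) (nat_lit 393) (nat_lit 5) (nat_lit 408) (nat_lit 5) (nat_lit 409) (nat_lit 5) (nat_lit 363) (nat_lit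 360) (nat_lit 297))))))) (XT.nd (nat_lit 1014) (nat_lit 6384) (nat_lit 0) (XT.nd (nat_lit 468) (nat_lit 4256) (nat_lit 0) (XT.nd (nat_lit 234) (nat_lit 0) (nat_lit 0) (XT.nd (nat_lit 78) (nat_lit 1064) (nat_lit 0) (XT.lf (nat_lit 76) (nat_lit 7342391033) (nat_lit 0) (nat_lit 3079518180) (nat_lit 1216) (nat_lit 1784125082) (nat_lit 394) (nat_lit 5) (nat_lit 393) (nat_lit 5) (nat_lit 409) (nat_lit 5) (nat_lit 364) (nat_lit 360) (nat_lit 296)) (XT.nd (nat_lit 78) (nat_lit 1140) (nat_lit 0) (XT.lf (nat_lit 76) (nat_lit 5821228255) (nat_lit 0) (nat_lit 6359471122) (nat_lit 1216) (nat_lit 315981389) (nat_lit 395) (nat_lit 5) (nat_lit 394) (nat_lit 5) (nat_lit 410) (nat_lit 5) (nat_lit 365) (nat_lit 360) (nat_lit 295)) (XT.lf (nat_lit 0) (nat_lit 1305532192) (nat_lit 1216) (nat_lit 8479737649) (nat_lit 1292) (nat_lit 3013119953) (nat_lit 379) (nat_lit 5) (nat_lit 395) (nat_lit 5) (nat_lit 396) (nat_lit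 5) (nat_lit 366) (nat_lit 360) (nat_lit 294)))) (XT.nd (nat_lit 78) (nat_lit 0) (nat_lit 76) (XT.lf (nat_lit 76) (nat_lit 2841607680) (nat_lit 0) (nat_lit 273982953) (nat_lit 1292) (nat_lit 9996079660) (nat_lit 380) (nat_lit 5) (nat_lit 379) (nat_lit 5) (nat_lit 396) (nat_lit 5) (nat_lit 367) (nat_lit 360) (nat_lit 293)) (XT.nd (nat_lit 78) (nat_lit 0) (nat_lit 76) (XT.lf (nat_lit 76) (nat_lit 1365552042) (nat_lit 0) (nat_lit 3800312943) (nat_lit 1292) (nat_lit 8270258442) (nat_lit 381) (nat_lit 5) (nat_lit 380) (nat_lit 5) (nat_lit 397) (nat_lit 5) (nat_lit 368) (nat_lit 360) (nat_lit 292)) (XT.lf (nat_lit 0) (nat_lit 7445285859) (nat_lit 1216) (nat_lit 75478848) (nat_lit 1292) (nat_lit 6252235526) (nat_lit 381) (nat_lit 5) (nat_lit 397) (nat_lit 5) (nat_lit 398) (nat_lit 5) (nat_lit 369) (nat_lit 360) (nat_lit 291))))) (XT.nd (nat_lit 234) (nat_lit 2356) (nat_lit 0) (XT.nd (nat_lit 78) (nat_lit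 2128) (nat_lit 0) (XT.lf (nat_lit 0) (nat_lit 9984388634) (nat_lit 1216) (nat_lit 1454488341) (nat_lit 76) (nat_lit 2683472579) (nat_lit 382) (nat_lit 5) (nat_lit 398) (nat_lit 5) (nat_lit 383) (nat_lit 5) (nat_lit 370) (nat_lit 360) (nat_lit 290)) (XT.nd (nat_lit 78) (nat_lit 912) (nat_lit 0) (XT.lf (nat_lit 0) (nat_lit 11678728595) (nat_lit 1216) (nat_lit 1121387005) (nat_lit 1292) (nat_lit 1684560671) (nat_lit 366) (nat_lit 5) (nat_lit 382) (nat_lit 5) (nat_lit 383) (nat_lit 5) (nat_lit 371) (nat_lit 360) (nat_lit 289)) (XT.lf (nat_lit 0) (nat_lit 1049627839) (nat_lit 912) (nat_lit 4154521674) (nat_lit 76) (nat_lit 9655447272) (nat_lit 354) (nat_lit 5) (nat_lit 366) (nat_lit 5) (nat_lit 355) (nat_lit 5) (nat_lit 372) (nat_lit 360) (nat_lit 288)))) (XT.nd (nat_lit 156) (nat_lit 1140) (nat_lit 0) (XT.nd (nat_lit 78) (nat_lit 608) (nat_lit 0) (XT.lf (nat_lit 0) (nat_lit 4040552694) (nat_lit 684)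 (nat_lit 5478921016) (nat_lit 76) (nat_lit 5728643266) (nat_lit 346) (nat_lit 5) (nat_lit 355) (nat_lit 5) (nat_lit 347) (nat_lit 5) (nat_lit 373) (nat_lit 360) (nat_lit 287)) (XT.lf (nat_lit 0) (nat_lit 7342434853) (nat_lit 684) (nat_lit 6758957752) (nat_lit 76) (nat_lit 1549828239) (nat_lit 338) (nat_lit 5) (nat_lit 347) (nat_lit 5) (nat_lit 339) (nat_lit 5) (nat_lit 374) (nat_lit 360) (nat_lit 286))) (XT.nd (nat_lit 78) (nat_lit 608) (nat_lit 0) (XT.lf (nat_lit 0) (nat_lit 8050015207) (nat_lit 532) (nat_lit 2956050768) (nat_lit 608) (nat_lit 5062514284) (nat_lit 331) (nat_lit 5) (nat_lit 338) (nat_lit 5) (nat_lit 339) (nat_lit 5) (nat_lit 375) (nat_lit 360) (nat_lit 285)) (XT.lf (nat_lit 0) (nat_lit 7258706350) (nat_lit 608) (nat_lit 7785805510) (nat_lit 684) (nat_lit 1456546788) (nat_lit 323) (nat_lit 5) (nat_lit 331) (nat_lit 5) (nat_lit 332) (nat_lit 5) (nat_lit 376) (nat_lit 360) (nat_lit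 284)))))) (XT.nd (nat_lit 546) (nat_lit 2888) (nat_lit 0) (XT.nd (nat_lit 234) (nat_lit 1900) (nat_lit 0) (XT.nd (nat_lit 78) (nat_lit 988) (nat_lit 0) (XT.lf (nat_lit 0) (nat_lit 2468577513) (nat_lit 608) (nat_lit 10433999109) (nat_lit 76) (nat_lit 4046382906) (nat_lit 315) (nat_lit 5) (nat_lit 323) (nat_lit 5) (nat_lit 316) (nat_lit 5) (nat_lit 377) (nat_lit 360) (nat_lit 283)) (XT.nd (nat_lit 78) (nat_lit 456) (nat_lit 0) (XT.lf (nat_lit 0) (nat_lit 5822568085) (nat_lit 532) (nat_lit 937781913) (nat_lit 608) (nat_lit 10652457347) (nat_lit 308) (nat_lit 5) (nat_lit 315) (nat_lit 5) (nat_lit 316) (nat_lit 5) (nat_lit 378) (nat_lit 360) (nat_lit 282)) (XT.lf (nat_lit 0) (nat_lit 5167830496) (nat_lit 456) (nat_lit 6339475647) (nat_lit 532) (nat_lit 6385323561) (nat_lit 302) (nat_lit 5) (nat_lit 308) (nat_lit 5) (nat_lit 309) (nat_lit 5) (nat_lit 379) (nat_lit 360) (nat_lit 281)))) (XT.nd (nat_lit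 156) (nat_lit 836) (nat_lit 0) (XT.nd (nat_lit 78) (nat_lit 532) (nat_lit 0) (XT.lf (nat_lit 0) (nat_lit 4598797781) (nat_lit 532) (nat_lit 12098730063) (nat_lit 608) (nat_lit 1692737803) (nat_lit 295) (nat_lit 5) (nat_lit 302) (nat_lit 5) (nat_lit 303) (nat_lit 5) (nat_lit 380) (nat_lit 360) (nat_lit 280)) (XT.lf (nat_lit 0) (nat_lit 3386399546) (nat_lit 532) (nat_lit 14816316148) (nat_lit 76) (nat_lit 702683782) (nat_lit 288) (nat_lit 5) (nat_lit 295) (nat_lit 5) (nat_lit 289) (nat_lit 5) (nat_lit 381) (nat_lit 360) (nat_lit 279))) (XT.nd (nat_lit 78) (nat_lit 380) (nat_lit 0) (XT.lf (nat_lit 0) (nat_lit 3606803150) (nat_lit 456) (nat_lit 5351619433) (nat_lit 532) (nat_lit 10479146503) (nat_lit 282) (nat_lit 5) (nat_lit 288) (nat_lit 5) (nat_lit 289) (nat_lit 5) (nat_lit 382) (nat_lit 360) (nat_lit 278)) (XT.lf (nat_lit 0) (nat_lit 3219398261) (nat_lit 380) (nat_lit 11827239234) (nat_lit 456)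 (nat_lit 4942581960) (nat_lit 277) (nat_lit 5) (nat_lit 282) (nat_lit 5) (nat_lit 283) (nat_lit 5) (nat_lit 383) (nat_lit 360) (nat_lit 277))))) (XT.nd (nat_lit 234) (nat_lit 1596) (nat_lit 0) (XT.nd (nat_lit 78) (nat_lit 760) (nat_lit 0) (XT.lf (nat_lit 0) (nat_lit 1093817865) (nat_lit 532) (nat_lit 17628796268) (nat_lit 76) (nat_lit 1838387095) (nat_lit 270) (nat_lit 5) (nat_lit 277) (nat_lit 5) (nat_lit 271) (nat_lit 5) (nat_lit 384) (nat_lit 360) (nat_lit 276)) (XT.nd (nat_lit 78) (nat_lit 380) (nat_lit 0) (XT.lf (nat_lit 0) (nat_lit 2662698536) (nat_lit 380) (nat_lit 4963219884) (nat_lit 456) (nat_lit 13525102548) (nat_lit 265) (nat_lit 5) (nat_lit 270) (nat_lit 5) (nat_lit 271) (nat_lit 5) (nat_lit 385) (nat_lit 360) (nat_lit 275)) (XT.lf (nat_lit 0) (nat_lit 2496226178) (nat_lit 380) (nat_lit 12263449814) (nat_lit 456) (nat_lit 7002614144) (nat_lit 260) (nat_lit 5) (nat_lit 265) (nat_lit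 5) (nat_lit 266) (nat_lit 5) (nat_lit 386) (nat_lit 360) (nat_lit 274)))) (XT.nd (nat_lit 156) (nat_lit 760) (nat_lit 0) (XT.nd (nat_lit 78) (nat_lit 380) (nat_lit 0) (XT.lf (nat_lit 0) (nat_lit 115401476) (nat_lit 456) (nat_lit 19935062088) (nat_lit 76) (nat_lit 2345711679) (nat_lit 254) (nat_lit 5) (nat_lit 260) (nat_lit 5) (nat_lit 255) (nat_lit 5) (nat_lit 387) (nat_lit 360) (nat_lit 273)) (XT.lf (nat_lit 0) (nat_lit 2441860233) (nat_lit 380) (nat_lit 5329450367) (nat_lit 456) (nat_lit 15278559495) (nat_lit 249) (nat_lit 5) (nat_lit 254) (nat_lit 5) (nat_lit 255) (nat_lit 5) (nat_lit 388) (nat_lit 360) (nat_lit 272))) (XT.nd (nat_lit 78) (nat_lit 456) (nat_lit 0) (XT.lf (nat_lit 0) (nat_lit 2543885396) (nat_lit 304) (nat_lit 13573791838) (nat_lit 380) (nat_lit 7609342593) (nat_lit 245) (nat_lit 5) (nat_lit 249) (nat_lit 5) (nat_lit 250) (nat_lit 5) (nat_lit 389) (nat_lit 360) (nat_lit 271))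 (XT.lf (nat_lit 0) (nat_lit 729202288) (nat_lit 456) (nat_lit 21632789453) (nat_lit 76) (nat_lit 2067071912) (nat_lit 239) (nat_lit 5) (nat_lit 245) (nat_lit 5) (nat_lit 240) (nat_lit 5) (nat_lit 390) (nat_lit 360) (nat_lit 270))))))))
noncomputable def xc81 : XT := (XT.nd (nat_lit 2106) (nat_lit 3192) (nat_lit 0) (XT.nd (nat_lit 1014) (nat_lit 2964) (nat_lit 0) (XT.nd (nat_lit 468) (nat_lit 1900) (nat_lit 0) (XT.nd (nat_lit 234) (nat_lit 912) (nat_lit 0) (XT.nd (nat_lit 78) (nat_lit 684) (nat_lit 0) (XT.lf (nat_lit 0) (nat_lit 3071941834) (nat_lit 304) (nat_lit 6623342019) (nat_lit 380) (nat_lit 15457626145) (nat_lit 235) (nat_lit 5) (nat_lit 239) (nat_lit 5) (nat_lit 240) (nat_lit 5) (nat_lit 391) (nat_lit 360) (nat_lit 269)) (XT.nd (nat_lit 78) (nat_lit 380) (nat_lit 0) (XT.lf (nat_lit 0) (nat_lit 3499261277) (nat_lit 304) (nat_lit 15944489779) (nat_lit 380) (nat_lit 6459175159) (nat_lit 231)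 (nat_lit 5) (nat_lit 235) (nat_lit 5) (nat_lit 236) (nat_lit 5) (nat_lit 392) (nat_lit 360) (nat_lit 268)) (XT.lf (nat_lit 0) (nat_lit 3255513412) (nat_lit 380) (nat_lit 22598784239) (nat_lit 76) (nat_lit 825544219) (nat_lit 226) (nat_lit 5) (nat_lit 231) (nat_lit 5) (nat_lit 227) (nat_lit 5) (nat_lit 393) (nat_lit 360) (nat_lit 267)))) (XT.nd (nat_lit 78) (nat_lit 608) (nat_lit 0) (XT.lf (nat_lit 0) (nat_lit 4704381901) (nat_lit 304) (nat_lit 9039660548) (nat_lit 380) (nat_lit 13736991542) (nat_lit 222) (nat_lit 5) (nat_lit 226) (nat_lit 5) (nat_lit 227) (nat_lit 5) (nat_lit 394) (nat_lit 360) (nat_lit 266)) (XT.nd (nat_lit 78) (nat_lit 380) (nat_lit 0) (XT.lf (nat_lit 0) (nat_lit 5524181445) (nat_lit 228) (nat_lit 19585589977) (nat_lit 304) (nat_lit 3201931091) (nat_lit 219) (nat_lit 5) (nat_lit 222) (nat_lit 5) (nat_lit 223) (nat_lit 5) (nat_lit 395) (nat_lit 360) (nat_lit 265)) (XT.lf (nat_lit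 0) (nat_lit 6468576413) (nat_lit 304) (nat_lit 1610477420) (nat_lit 380) (nat_lit 21091407627) (nat_lit 214) (nat_lit 5) (nat_lit 218) (nat_lit 5) (nat_lit 219) (nat_lit 5) (nat_lit 396) (nat_lit 360) (nat_lit 264))))) (XT.nd (nat_lit 234) (nat_lit 1064) (nat_lit 0) (XT.nd (nat_lit 78) (nat_lit 608) (nat_lit 0) (XT.lf (nat_lit 0) (nat_lit 7517344177) (nat_lit 228) (nat_lit 12799073939) (nat_lit 304) (nat_lit 9741032641) (nat_lit 211) (nat_lit 5) (nat_lit 214) (nat_lit 5) (nat_lit 215) (nat_lit 5) (nat_lit 397) (nat_lit 360) (nat_lit 263)) (XT.nd (nat_lit 78) (nat_lit 228) (nat_lit 0) (XT.lf (nat_lit 0) (nat_lit 2516349926) (nat_lit 380) (nat_lit 22193555144) (nat_lit 76) (nat_lit 6266797671) (nat_lit 206) (nat_lit 5) (nat_lit 211) (nat_lit 5) (nat_lit 207) (nat_lit 5) (nat_lit 398) (nat_lit 360) (nat_lit 262)) (XT.lf (nat_lit 0) (nat_lit 10150418629) (nat_lit 228) (nat_lit 5481359497) (nat_lit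 304) (nat_lit 16293846742) (nat_lit 203) (nat_lit 5) (nat_lit 206) (nat_lit 5) (nat_lit 207) (nat_lit 5) (nat_lit 399) (nat_lit 360) (nat_lit 261)))) (XT.nd (nat_lit 156) (nat_lit 532) (nat_lit 0) (XT.nd (nat_lit 78) (nat_lit 304) (nat_lit 0) (XT.lf (nat_lit 0) (nat_lit 11719163143) (nat_lit 228) (nat_lit 18152693300) (nat_lit 304) (nat_lit 3036070298) (nat_lit 200) (nat_lit 5) (nat_lit 203) (nat_lit 5) (nat_lit 204) (nat_lit 5) (nat_lit 400) (nat_lit 360) (nat_lit 260)) (XT.lf (nat_lit 0) (nat_lit 11091250941) (nat_lit 304) (nat_lit 20461579496) (nat_lit 76) (nat_lit 2370802780) (nat_lit 196) (nat_lit 5) (nat_lit 200) (nat_lit 5) (nat_lit 197) (nat_lit 5) (nat_lit 401) (nat_lit 360) (nat_lit 259))) (XT.nd (nat_lit 78) (nat_lit 304) (nat_lit 0) (XT.lf (nat_lit 0) (nat_lit 15363097314) (nat_lit 228) (nat_lit 11035691053) (nat_lit 304) (nat_lit 8574335626) (nat_lit 193) (nat_lit 5) (nat_lit 196)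 (nat_lit 5) (nat_lit 197) (nat_lit 5) (nat_lit 402) (nat_lit 360) (nat_lit 258)) (XT.lf (nat_lit 0) (nat_lit 6744136531) (nat_lit 304) (nat_lit 18574832542) (nat_lit 76) (nat_lit 10740105264) (nat_lit 189) (nat_lit 5) (nat_lit 193) (nat_lit 5) (nat_lit 190) (nat_lit 5) (nat_lit 403) (nat_lit 360) (nat_lit 257)))))) (XT.nd (nat_lit 546) (nat_lit 1444) (nat_lit 0) (XT.nd (nat_lit 234) (nat_lit 836) (nat_lit 0) (XT.nd (nat_lit 78) (nat_lit 456) (nat_lit 0) (XT.lf (nat_lit 0) (nat_lit 19811950107) (nat_lit 228) (nat_lit 3332192543) (nat_lit 304) (nat_lit 14037844494) (nat_lit 186) (nat_lit 5) (nat_lit 189) (nat_lit 5) (nat_lit 190) (nat_lit 5) (nat_lit 404) (nat_lit 360) (nat_lit 256)) (XT.nd (nat_lit 78) (nat_lit 228) (nat_lit 0) (XT.lf (nat_lit 0) (nat_lit 2553797043) (nat_lit 228) (nat_lit 15996967184) (nat_lit 76) (nat_lit 19792010274) (nat_lit 183) (nat_lit 5) (nat_lit 186) (nat_lit 5) (nat_lit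 184) (nat_lit 5) (nat_lit 405) (nat_lit 360) (nat_lit 255)) (XT.lf (nat_lit 0) (nat_lit 20177777358) (nat_lit 304) (nat_lit 14448216347) (nat_lit 76) (nat_lit 4916645437) (nat_lit 180) (nat_lit 5) (nat_lit 184) (nat_lit 5) (nat_lit 181) (nat_lit 5) (nat_lit 406) (nat_lit 360) (nat_lit 254)))) (XT.nd (nat_lit 156) (nat_lit 380) (nat_lit 0) (XT.nd (nat_lit 78) (nat_lit 304) (nat_lit 0) (XT.lf (nat_lit 0) (nat_lit 28113537282) (nat_lit 152) (nat_lit 11179813218) (nat_lit 228) (nat_lit 1490834700) (nat_lit 178) (nat_lit 5) (nat_lit 180) (nat_lit 5) (nat_lit 181) (nat_lit 5) (nat_lit 407) (nat_lit 360) (nat_lit 253)) (XT.lf (nat_lit 0) (nat_lit 17514342638) (nat_lit 304) (nat_lit 10759738947) (nat_lit 76) (nat_lit 13791507195) (nat_lit 174) (nat_lit 5) (nat_lit 178) (nat_lit 5) (nat_lit 175) (nat_lit 5) (nat_lit 408) (nat_lit 360) (nat_lit 252))) (XT.nd (nat_lit 78) (nat_lit 228) (nat_lit 0) (XT.lf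 (nat_lit 0) (nat_lit 34867481458) (nat_lit 152) (nat_lit 3138700735) (nat_lit 228) (nat_lit 5387420440) (nat_lit 172) (nat_lit 5) (nat_lit 174) (nat_lit 5) (nat_lit 175) (nat_lit 5) (nat_lit 409) (nat_lit 360) (nat_lit 251)) (XT.lf (nat_lit 0) (nat_lit 15149112395) (nat_lit 228) (nat_lit 6190590591) (nat_lit 76) (nat_lit 23423003827) (nat_lit 169) (nat_lit 5) (nat_lit 172) (nat_lit 5) (nat_lit 170) (nat_lit 5) (nat_lit 410) (nat_lit 360) (nat_lit 250))))) (XT.nd (nat_lit 234) (nat_lit 760) (nat_lit 0) (XT.nd (nat_lit 78) (nat_lit 532) (nat_lit 0) (XT.lf (nat_lit 0) (nat_lit 37174878870) (nat_lit 228) (nat_lit 3506056565) (nat_lit 76) (nat_lit 5500515731) (nat_lit 167) (nat_lit 5) (nat_lit 170) (nat_lit 5) (nat_lit 168) (nat_lit 5) (nat_lit 411) (nat_lit 360) (nat_lit 249)) (XT.nd (nat_lit 78) (nat_lit 304) (nat_lit 0) (XT.lf (nat_lit 0) (nat_lit 13112303325) (nat_lit 228) (nat_lit 651051132) (nat_lit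 76) (nat_lit 33882296585) (nat_lit 164) (nat_lit 5) (nat_lit 167) (nat_lit 5) (nat_lit 165) (nat_lit 5) (nat_lit 412) (nat_lit 360) (nat_lit 248)) (XT.lf (nat_lit 0) (nat_lit 2549909499) (nat_lit 152) (nat_lit 34295486443) (nat_lit 228) (nat_lit 12314153461) (nat_lit 160) (nat_lit 5) (nat_lit 162) (nat_lit 5) (nat_lit 163) (nat_lit 5) (nat_lit 413) (nat_lit 360) (nat_lit 247)))) (XT.nd (nat_lit 156) (nat_lit 380) (nat_lit 0) (XT.nd (nat_lit 78) (nat_lit 152) (nat_lit 0) (XT.lf (nat_lit 0) (nat_lit 6075532408) (nat_lit 152) (nat_lit 5420177637) (nat_lit 228) (nat_lit 39229415721) (nat_lit 157) (nat_lit 5) (nat_lit 159) (nat_lit 5) (nat_lit 160) (nat_lit 5) (nat_lit 414) (nat_lit 360) (nat_lit 246)) (XT.lf (nat_lit 0) (nat_lit 9816588468) (nat_lit 152) (nat_lit 27233987843) (nat_lit 228) (nat_lit 15290471411) (nat_lit 155) (nat_lit 5) (nat_lit 157) (nat_lit 5) (nat_lit 158) (nat_lit 5) (nat_lit 415)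 (nat_lit 360) (nat_lit 245))) (XT.nd (nat_lit 78) (nat_lit 152) (nat_lit 0) (XT.lf (nat_lit 0) (nat_lit 10331437808) (nat_lit 228) (nat_lit 40037270801) (nat_lit 76) (nat_lit 3645873841) (nat_lit 152) (nat_lit 5) (nat_lit 155) (nat_lit 5) (nat_lit 153) (nat_lit 5) (nat_lit 416) (nat_lit 360) (nat_lit 244)) (XT.lf (nat_lit 0) (nat_lit 18338210817) (nat_lit 152) (nat_lit 19465232699) (nat_lit 228) (nat_lit 17937251732) (nat_lit 150) (nat_lit 5) (nat_lit 152) (nat_lit 5) (nat_lit 153) (nat_lit 5) (nat_lit 417) (nat_lit 360) (nat_lit 243))))))) (XT.nd (nat_lit 1014) (nat_lit 1064) (nat_lit 0) (XT.nd (nat_lit 468) (nat_lit 1216) (nat_lit 0) (XT.nd (nat_lit 234) (nat_lit 456) (nat_lit 0) (XT.nd (nat_lit 78) (nat_lit 304) (nat_lit 0) (XT.lf (nat_lit 0) (nat_lit 9679560573) (nat_lit 152) (nat_lit 34392436927) (nat_lit 76) (nat_lit 13455659538) (nat_lit 148) (nat_lit 5) (nat_lit 150) (nat_lit 5) (nat_lit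 149) (nat_lit 5) (nat_lit 418) (nat_lit 360) (nat_lit 242)) (XT.nd (nat_lit 78) (nat_lit 152) (nat_lit 0) (XT.lf (nat_lit 0) (nat_lit 28239193570) (nat_lit 152) (nat_lit 10916771457) (nat_lit 228) (nat_lit 20217182351) (nat_lit 146) (nat_lit 5) (nat_lit 148) (nat_lit 5) (nat_lit 149) (nat_lit 5) (nat_lit 419) (nat_lit 360) (nat_lit 241)) (XT.lf (nat_lit 0) (nat_lit 9534761024) (nat_lit 152) (nat_lit 27548790153) (nat_lit 76) (nat_lit 24197491358) (nat_lit 144) (nat_lit 5) (nat_lit 146) (nat_lit 5) (nat_lit 145) (nat_lit 5) (nat_lit 420) (nat_lit 360) (nat_lit 240)))) (XT.nd (nat_lit 78) (nat_lit 304) (nat_lit 0) (XT.lf (nat_lit 0) (nat_lit 39655223274) (nat_lit 152) (nat_lit 1509846933) (nat_lit 228) (nat_lit 22088990410) (nat_lit 142) (nat_lit 5) (nat_lit 144) (nat_lit 5) (nat_lit 145) (nat_lit 5) (nat_lit 421) (nat_lit 360) (nat_lit 239)) (XT.nd (nat_lit 78) (nat_lit 152) (nat_lit 0) (XT.lf (nat_lit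 0) (nat_lit 9948465317) (nat_lit 152) (nat_lit 19381494226) (nat_lit 76) (nat_lit 35960942272) (nat_lit 140) (nat_lit 5) (nat_lit 142) (nat_lit 5) (nat_lit 141) (nat_lit 5) (nat_lit 422) (nat_lit 360) (nat_lit 238)) (XT.lf (nat_lit 0) (nat_lit 43978058517) (nat_lit 228) (nat_lit 14750960592) (nat_lit 76) (nat_lit 8668591912) (nat_lit 138) (nat_lit 5) (nat_lit 141) (nat_lit 5) (nat_lit 139) (nat_lit 4) (nat_lit 423) (nat_lit 360) (nat_lit 237))))) (XT.nd (nat_lit 234) (nat_lit 608) (nat_lit 0) (XT.nd (nat_lit 78) (nat_lit 456) (nat_lit 0) (XT.lf (nat_lit 0) (nat_lit 10977143112) (nat_lit 152) (nat_lit 9754183913) (nat_lit 76) (nat_lit 48843173854) (nat_lit 136) (nat_lit 5) (nat_lit 138) (nat_lit 5) (nat_lit 137) (nat_lit 5) (nat_lit 424) (nat_lit 360) (nat_lit 236)) (XT.nd (nat_lit 78) (nat_lit 304) (nat_lit 0) (XT.lf (nat_lit 0) (nat_lit 47602577994) (nat_lit 228) (nat_lit 4386595094) (nat_lit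 76) (nat_lit 19834308136) (nat_lit 134) (nat_lit 5) (nat_lit 137) (nat_lit 5) (nat_lit 135) (nat_lit 4) (nat_lit 425) (nat_lit 360) (nat_lit 235)) (XT.lf (nat_lit 0) (nat_lit 1511494705) (nat_lit 152) (nat_lit 11185776640) (nat_lit 228) (nat_lit 61452576656) (nat_lit 130) (nat_lit 5) (nat_lit 132) (nat_lit 5) (nat_lit 133) (nat_lit 5) (nat_lit 426) (nat_lit 360) (nat_lit 234)))) (XT.nd (nat_lit 156) (nat_lit 304) (nat_lit 0) (XT.nd (nat_lit 78) (nat_lit 228) (nat_lit 0) (XT.lf (nat_lit 0) (nat_lit 7816629048) (nat_lit 76) (nat_lit 44358077747) (nat_lit 152) (nat_lit 24374203666) (nat_lit 129) (nat_lit 5) (nat_lit 130) (nat_lit 5) (nat_lit 131) (nat_lit 4) (nat_lit 427) (nat_lit 360) (nat_lit 233)) (XT.lf (nat_lit 0) (nat_lit 14777822612) (nat_lit 152) (nat_lit 497387298) (nat_lit 228) (nat_lit 63758481816) (nat_lit 126) (nat_lit 5) (nat_lit 128) (nat_lit 5) (nat_lit 129) (nat_lit 5) (nat_lit 428)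 (nat_lit 360) (nat_lit 232))) (XT.nd (nat_lit 78) (nat_lit 228) (nat_lit 0) (XT.lf (nat_lit 0) (nat_lit 21999820876) (nat_lit 76) (nat_lit 35763082988) (nat_lit 152) (nat_lit 23831771160) (nat_lit 125) (nat_lit 5) (nat_lit 126) (nat_lit 5) (nat_lit 127) (nat_lit 4) (nat_lit 429) (nat_lit 360) (nat_lit 231)) (XT.lf (nat_lit 0) (nat_lit 18800419746) (nat_lit 228) (nat_lit 54327642980) (nat_lit 76) (nat_lit 11118562510) (nat_lit 122) (nat_lit 5) (nat_lit 125) (nat_lit 5) (nat_lit 123) (nat_lit 4) (nat_lit 430) (nat_lit 360) (nat_lit 230)))))) (XT.nd (nat_lit 546) (nat_lit 228) (nat_lit 0) (XT.nd (nat_lit 234) (nat_lit 456) (nat_lit 0) (XT.nd (nat_lit 78) (nat_lit 304) (nat_lit 0) (XT.lf (nat_lit 0) (nat_lit 38264009538) (nat_lit 76) (nat_lit 26151885952) (nat_lit 152) (nat_lit 22567862137) (nat_lit 121) (nat_lit 5) (nat_lit 122) (nat_lit 5) (nat_lit 123) (nat_lit 4) (nat_lit 431) (nat_lit 360) (nat_lit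 229)) (XT.nd (nat_lit 78) (nat_lit 76) (nat_lit 0) (XT.lf (nat_lit 0) (nat_lit 23264053596) (nat_lit 228) (nat_lit 42587225443) (nat_lit 76) (nat_lit 23962557594) (nat_lit 118) (nat_lit 5) (nat_lit 121) (nat_lit 5) (nat_lit 119) (nat_lit 4) (nat_lit 432) (nat_lit 360) (nat_lit 228)) (XT.lf (nat_lit 0) (nat_lit 56814371530) (nat_lit 76) (nat_lit 15419353677) (nat_lit 152) (nat_lit 20505604114) (nat_lit 117) (nat_lit 5) (nat_lit 118) (nat_lit 5) (nat_lit 119) (nat_lit 4) (nat_lit 433) (nat_lit 360) (nat_lit 227)))) (XT.nd (nat_lit 156) (nat_lit 228) (nat_lit 0) (XT.nd (nat_lit 78) (nat_lit 76) (nat_lit 0) (XT.lf (nat_lit 0) (nat_lit 28753520210) (nat_lit 152) (nat_lit 28840646686) (nat_lit 76) (nat_lit 38165220755) (nat_lit 115) (nat_lit 5) (nat_lit 117) (nat_lit 5) (nat_lit 116) (nat_lit 4) (nat_lit 434) (nat_lit 360) (nat_lit 226)) (XT.lf (nat_lit 0) (nat_lit 77874323491) (nat_lit 76) (nat_lit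 3451113166) (nat_lit 152) (nat_lit 17560703771) (nat_lit 114) (nat_lit 5) (nat_lit 115) (nat_lit 5) (nat_lit 116) (nat_lit 4) (nat_lit 435) (nat_lit 360) (nat_lit 225))) (XT.nd (nat_lit 78) (nat_lit 76) (nat_lit 0) (XT.lf (nat_lit 0) (nat_lit 35369526604) (nat_lit 152) (nat_lit 12881459491) (nat_lit 76) (nat_lit 53857840057) (nat_lit 112) (nat_lit 5) (nat_lit 114) (nat_lit 5) (nat_lit 113) (nat_lit 4) (nat_lit 436) (nat_lit 360) (nat_lit 224)) (XT.lf (nat_lit 0) (nat_lit 91904762718) (nat_lit 152) (nat_lit 3858545608) (nat_lit 0) (nat_lit 9684471493) (nat_lit 111) (nat_lit 5) (nat_lit 113) (nat_lit 4) (nat_lit 111) (nat_lit 4) (nat_lit 437) (nat_lit 360) (nat_lit 223))))) (XT.nd (nat_lit 47268) (nat_lit 0) (nat_lit 20520) (XT.nd (nat_lit 47112) (nat_lit 0) (nat_lit 21508) (XT.lf (nat_lit 0) (nat_lit 5625257535) (nat_lit 76) (nat_lit 37650826559) (nat_lit 152) (nat_lit 65611734341) (nat_lit 108)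 (nat_lit 5) (nat_lit 109) (nat_lit 5) (nat_lit 110) (nat_lit 4) (nat_lit 438) (nat_lit 360) (nat_lit 222)) (XT.nd (nat_lit 78) (nat_lit 0) (nat_lit 0) (XT.lf (nat_lit 0) (nat_lit 1786511357) (nat_lit 0) (nat_lit 1786511357) (nat_lit 1140) (nat_lit 2252799046) (nat_lit 391) (nat_lit 5) (nat_lit 391) (nat_lit 3) (nat_lit 406) (nat_lit 3) (nat_lit 361) (nat_lit 361) (nat_lit 298)) (XT.lf (nat_lit 76) (nat_lit 1613429991) (nat_lit 0) (nat_lit 6610414645) (nat_lit 1216) (nat_lit 3692115534) (nat_lit 392) (nat_lit 5) (nat_lit 391) (nat_lit 5) (nat_lit 407) (nat_lit 5) (nat_lit 362) (nat_lit 361) (nat_lit 297)))) (XT.nd (nat_lit 156) (nat_lit 1064) (nat_lit 0) (XT.nd (nat_lit 78) (nat_lit 0) (nat_lit 0) (XT.lf (nat_lit 0) (nat_lit 9444900411) (nat_lit 1140) (nat_lit 322206642) (nat_lit 1216) (nat_lit 2423704597) (nat_lit 392) (nat_lit 5) (nat_lit 407) (nat_lit 5) (nat_lit 408) (nat_lit 5) (nat_lit 363)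 (nat_lit 361) (nat_lit 296)) (XT.lf (nat_lit 76) (nat_lit 10261243667) (nat_lit 0) (nat_lit 580614197) (nat_lit 1216) (nat_lit 1634102373) (nat_lit 393) (nat_lit 5) (nat_lit 392) (nat_lit 5) (nat_lit 408) (nat_lit 5) (nat_lit 364) (nat_lit 361) (nat_lit 295))) (XT.nd (nat_lit 78) (nat_lit 1140) (nat_lit 0) (XT.lf (nat_lit 76) (nat_lit 8656885058) (nat_lit 0) (nat_lit 3777295544) (nat_lit 1216) (nat_lit 337420129) (nat_lit 394) (nat_lit 5) (nat_lit 393) (nat_lit 5) (nat_lit 409) (nat_lit 5) (nat_lit 365) (nat_lit 361) (nat_lit 294)) (XT.lf (nat_lit 0) (nat_lit 1113299070) (nat_lit 1216) (nat_lit 6008656159) (nat_lit 1292) (nat_lit 5956497094) (nat_lit 378) (nat_lit 5) (nat_lit 394) (nat_lit 5) (nat_lit 395) (nat_lit 5) (nat_lit 366) (nat_lit 361) (nat_lit 293))))))))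
noncomputable def xc82 : XT := (XT.nd (nat_lit 2106) (nat_lit 6460) (nat_lit 0) (XT.nd (nat_lit 1014) (nat_lit 5852) (nat_lit 0) (XT.nd (nat_lit 468) (nat_lit 4408) (nat_lit 0) (XT.nd (nat_lit 234) (nat_lit 988) (nat_lit 0) (XT.nd (nat_lit 78) (nat_lit 0) (nat_lit 0) (XT.lf (nat_lit 0) (nat_lit 2746274529) (nat_lit 1216) (nat_lit 7889604974) (nat_lit 1292) (nat_lit 2761165808) (nat_lit 379) (nat_lit 5) (nat_lit 395) (nat_lit 5) (nat_lit 396) (nat_lit 5) (nat_lit 367) (nat_lit 361) (nat_lit 292)) (XT.nd (nat_lit 78) (nat_lit 0) (nat_lit 76) (XT.lf (nat_lit 76) (nat_lit 3968738088) (nat_lit 0) (nat_lit 622068340) (nat_lit 1292) (nat_lit 9136864292) (nat_lit 380) (nat_lit 5) (nat_lit 379) (nat_lit 5) (nat_lit 396) (nat_lit 5) (nat_lit 368) (nat_lit 361) (nat_lit 291)) (XT.lf (nat_lit 76) (nat_lit 2432214041) (nat_lit 0) (nat_lit 4255085978) (nat_lit 1292) (nat_lit 7382735326) (nat_lit 381) (nat_lit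 5) (nat_lit 380) (nat_lit 5) (nat_lit 397) (nat_lit 5) (nat_lit 369) (nat_lit 361) (nat_lit 290)))) (XT.nd (nat_lit 78) (nat_lit 1140) (nat_lit 0) (XT.lf (nat_lit 76) (nat_lit 928215911) (nat_lit 0) (nat_lit 8098825177) (nat_lit 1292) (nat_lit 5398324429) (nat_lit 382) (nat_lit 5) (nat_lit 381) (nat_lit 5) (nat_lit 398) (nat_lit 5) (nat_lit 370) (nat_lit 361) (nat_lit 289)) (XT.nd (nat_lit 78) (nat_lit 1216) (nat_lit 0) (XT.lf (nat_lit 0) (nat_lit 11634402024) (nat_lit 1216) (nat_lit 529795335) (nat_lit 76) (nat_lit 2629745855) (nat_lit 382) (nat_lit 5) (nat_lit 398) (nat_lit 5) (nat_lit 383) (nat_lit 5) (nat_lit 371) (nat_lit 361) (nat_lit 288)) (XT.lf (nat_lit 0) (nat_lit 13231491678) (nat_lit 1216) (nat_lit 1313936902) (nat_lit 1292) (nat_lit 630322288) (nat_lit 366) (nat_lit 5) (nat_lit 382) (nat_lit 5) (nat_lit 383) (nat_lit 5) (nat_lit 372) (nat_lit 361) (nat_lit 287))))) (XT.nd (nat_lit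 234) (nat_lit 2280) (nat_lit 0) (XT.nd (nat_lit 78) (nat_lit 1216) (nat_lit 0) (XT.lf (nat_lit 0) (nat_lit 2173404044) (nat_lit 912) (nat_lit 3366388417) (nat_lit 76) (nat_lit 10030645320) (nat_lit 354) (nat_lit 5) (nat_lit 366) (nat_lit 5) (nat_lit 355) (nat_lit 5) (nat_lit 373) (nat_lit 361) (nat_lit 286)) (XT.nd (nat_lit 78) (nat_lit 608) (nat_lit 0) (XT.lf (nat_lit 0) (nat_lit 5271560971) (nat_lit 684) (nat_lit 4754067920) (nat_lit 76) (nat_lit 5954024515) (nat_lit 346) (nat_lit 5) (nat_lit 355) (nat_lit 5) (nat_lit 347) (nat_lit 5) (nat_lit 374) (nat_lit 361) (nat_lit 285)) (XT.lf (nat_lit 0) (nat_lit 8698680043) (nat_lit 684) (nat_lit 6096873675) (nat_lit 76) (nat_lit 1608554465) (nat_lit 338) (nat_lit 5) (nat_lit 347) (nat_lit 5) (nat_lit 339) (nat_lit 5) (nat_lit 375) (nat_lit 361) (nat_lit 284)))) (XT.nd (nat_lit 156) (nat_lit 1140) (nat_lit 0) (XT.nd (nat_lit 78) (nat_lit 608) (nat_lit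 0) (XT.lf (nat_lit 0) (nat_lit 9423882216) (nat_lit 532) (nat_lit 3083846754) (nat_lit 608) (nat_lit 4335739510) (nat_lit 331) (nat_lit 5) (nat_lit 338) (nat_lit 5) (nat_lit 339) (nat_lit 5) (nat_lit 376) (nat_lit 361) (nat_lit 283)) (XT.lf (nat_lit 0) (nat_lit 8592699770) (nat_lit 608) (nat_lit 8119612099) (nat_lit 684) (nat_lit 586332479) (nat_lit 323) (nat_lit 5) (nat_lit 331) (nat_lit 5) (nat_lit 332) (nat_lit 5) (nat_lit 377) (nat_lit 361) (nat_lit 282))) (XT.nd (nat_lit 78) (nat_lit 532) (nat_lit 0) (XT.lf (nat_lit 0) (nat_lit 3482539000) (nat_lit 608) (nat_lit 9968590967) (nat_lit 76) (nat_lit 4318561558) (nat_lit 315) (nat_lit 5) (nat_lit 323) (nat_lit 5) (nat_lit 316) (nat_lit 5) (nat_lit 378) (nat_lit 361) (nat_lit 281)) (XT.lf (nat_lit 0) (nat_lit 7072509331) (nat_lit 532) (nat_lit 883201160) (nat_lit 608) (nat_lit 10302016932) (nat_lit 308) (nat_lit 5) (nat_lit 315) (nat_lit 5) (nat_lit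 316) (nat_lit 5) (nat_lit 379) (nat_lit 361) (nat_lit 280)))))) (XT.nd (nat_lit 546) (nat_lit 2584) (nat_lit 0) (XT.nd (nat_lit 234) (nat_lit 1748) (nat_lit 0) (XT.nd (nat_lit 78) (nat_lit 1064) (nat_lit 0) (XT.lf (nat_lit 0) (nat_lit 6381586276) (nat_lit 456) (nat_lit 6527714798) (nat_lit 532) (nat_lit 5853161226) (nat_lit 302) (nat_lit 5) (nat_lit 308) (nat_lit 5) (nat_lit 309) (nat_lit 5) (nat_lit 380) (nat_lit 361) (nat_lit 279)) (XT.nd (nat_lit 78) (nat_lit 532) (nat_lit 0) (XT.lf (nat_lit 0) (nat_lit 5779602631) (nat_lit 532) (nat_lit 12550386759) (nat_lit 608) (nat_lit 955861985) (nat_lit 295) (nat_lit 5) (nat_lit 302) (nat_lit 5) (nat_lit 303) (nat_lit 5) (nat_lit 381) (nat_lit 361) (nat_lit 278)) (XT.lf (nat_lit 0) (nat_lit 4333440348) (nat_lit 532) (nat_lit 14596234686) (nat_lit 76) (nat_lit 897662790) (nat_lit 288) (nat_lit 5) (nat_lit 295) (nat_lit 5) (nat_lit 289) (nat_lit 5) (nat_lit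 382) (nat_lit 361) (nat_lit 277)))) (XT.nd (nat_lit 156) (nat_lit 912) (nat_lit 0) (XT.nd (nat_lit 78) (nat_lit 380) (nat_lit 0) (XT.lf (nat_lit 0) (nat_lit 4720496649) (nat_lit 456) (nat_lit 5435505527) (nat_lit 532) (nat_lit 10230955610) (nat_lit 282) (nat_lit 5) (nat_lit 288) (nat_lit 5) (nat_lit 289) (nat_lit 5) (nat_lit 383) (nat_lit 361) (nat_lit 276)) (XT.lf (nat_lit 0) (nat_lit 4307097048) (nat_lit 380) (nat_lit 12216422751) (nat_lit 456) (nat_lit 4443424116) (nat_lit 277) (nat_lit 5) (nat_lit 282) (nat_lit 5) (nat_lit 283) (nat_lit 5) (nat_lit 384) (nat_lit 361) (nat_lit 275))) (XT.nd (nat_lit 78) (nat_lit 380) (nat_lit 0) (XT.lf (nat_lit 0) (nat_lit 1856183429) (nat_lit 532) (nat_lit 17576761906) (nat_lit 76) (nat_lit 2134875714) (nat_lit 270) (nat_lit 5) (nat_lit 277) (nat_lit 5) (nat_lit 271) (nat_lit 5) (nat_lit 385) (nat_lit 361) (nat_lit 274)) (XT.lf (nat_lit 0) (nat_lit 3702549789)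 (nat_lit 380) (nat_lit 4987356341) (nat_lit 456) (nat_lit 13498185133) (nat_lit 265) (nat_lit 5) (nat_lit 270) (nat_lit 5) (nat_lit 271) (nat_lit 5) (nat_lit 386) (nat_lit 361) (nat_lit 273))))) (XT.nd (nat_lit 234) (nat_lit 1368) (nat_lit 0) (XT.nd (nat_lit 78) (nat_lit 836) (nat_lit 0) (XT.lf (nat_lit 0) (nat_lit 3519564916) (nat_lit 380) (nat_lit 12638965642) (nat_lit 456) (nat_lit 6672047962) (nat_lit 260) (nat_lit 5) (nat_lit 265) (nat_lit 5) (nat_lit 266) (nat_lit 5) (nat_lit 387) (nat_lit 361) (nat_lit 272)) (XT.nd (nat_lit 78) (nat_lit 380) (nat_lit 0) (XT.lf (nat_lit 0) (nat_lit 767639314) (nat_lit 456) (nat_lit 20029139100) (nat_lit 76) (nat_lit 2699811558) (nat_lit 254) (nat_lit 5) (nat_lit 260) (nat_lit 5) (nat_lit 255) (nat_lit 5) (nat_lit 388) (nat_lit 361) (nat_lit 271)) (XT.lf (nat_lit 0) (nat_lit 3440754307) (nat_lit 380) (nat_lit 5343233755) (nat_lit 456) (nat_lit 15399652179)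 (nat_lit 249) (nat_lit 5) (nat_lit 254) (nat_lit 5) (nat_lit 255) (nat_lit 5) (nat_lit 389) (nat_lit 361) (nat_lit 270)))) (XT.nd (nat_lit 156) (nat_lit 608) (nat_lit 0) (XT.nd (nat_lit 78) (nat_lit 456) (nat_lit 0) (XT.lf (nat_lit 0) (nat_lit 3538574683) (nat_lit 304) (nat_lit 13990030959) (nat_lit 380) (nat_lit 7366613841) (nat_lit 245) (nat_lit 5) (nat_lit 249) (nat_lit 5) (nat_lit 250) (nat_lit 5) (nat_lit 390) (nat_lit 361) (nat_lit 269)) (XT.lf (nat_lit 0) (nat_lit 1358354494) (nat_lit 456) (nat_lit 21844824230) (nat_lit 76) (nat_lit 2429557349) (nat_lit 239) (nat_lit 5) (nat_lit 245) (nat_lit 5) (nat_lit 240) (nat_lit 5) (nat_lit 391) (nat_lit 361) (nat_lit 268))) (XT.nd (nat_lit 78) (nat_lit 304) (nat_lit 0) (XT.lf (nat_lit 0) (nat_lit 4070216578) (nat_lit 304) (nat_lit 6682419685) (nat_lit 380) (nat_lit 15640741589) (nat_lit 235) (nat_lit 5) (nat_lit 239) (nat_lit 5) (nat_lit 240) (nat_lit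 5) (nat_lit 392) (nat_lit 361) (nat_lit 267)) (XT.lf (nat_lit 0) (nat_lit 4508834213) (nat_lit 304) (nat_lit 16462940231) (nat_lit 380) (nat_lit 6209623007) (nat_lit 231) (nat_lit 5) (nat_lit 235) (nat_lit 5) (nat_lit 236) (nat_lit 5) (nat_lit 393) (nat_lit 361) (nat_lit 266))))))) (XT.nd (nat_lit 1014) (nat_lit 2812) (nat_lit 0) (XT.nd (nat_lit 468) (nat_lit 1748) (nat_lit 0) (XT.nd (nat_lit 234) (nat_lit 988) (nat_lit 0) (XT.nd (nat_lit 78) (nat_lit 532) (nat_lit 0) (XT.lf (nat_lit 0) (nat_lit 3963477150) (nat_lit 380) (nat_lit 22893593037) (nat_lit 76) (nat_lit 1140408135) (nat_lit 226) (nat_lit 5) (nat_lit 231) (nat_lit 5) (nat_lit 227) (nat_lit 5) (nat_lit 394) (nat_lit 361) (nat_lit 265)) (XT.nd (nat_lit 78) (nat_lit 228) (nat_lit 0) (XT.lf (nat_lit 0) (nat_lit 5750792564) (nat_lit 304) (nat_lit 9207476407) (nat_lit 380) (nat_lit 13881005987) (nat_lit 222) (nat_lit 5) (nat_lit 226) (nat_lit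 5) (nat_lit 227) (nat_lit 5) (nat_lit 395) (nat_lit 361) (nat_lit 264)) (XT.lf (nat_lit 0) (nat_lit 6601033675) (nat_lit 228) (nat_lit 20276452104) (nat_lit 304) (nat_lit 2834435087) (nat_lit 219) (nat_lit 5) (nat_lit 222) (nat_lit 5) (nat_lit 223) (nat_lit 5) (nat_lit 396) (nat_lit 361) (nat_lit 263)))) (XT.nd (nat_lit 78) (nat_lit 608) (nat_lit 0) (XT.lf (nat_lit 0) (nat_lit 7579698236) (nat_lit 304) (nat_lit 1403544197) (nat_lit 380) (nat_lit 21630735023) (nat_lit 214) (nat_lit 5) (nat_lit 218) (nat_lit 5) (nat_lit 219) (nat_lit 5) (nat_lit 397) (nat_lit 361) (nat_lit 262)) (XT.nd (nat_lit 78) (nat_lit 380) (nat_lit 0) (XT.lf (nat_lit 0) (nat_lit 8670218222) (nat_lit 228) (nat_lit 13148536647) (nat_lit 304) (nat_lit 9726972950) (nat_lit 211) (nat_lit 5) (nat_lit 214) (nat_lit 5) (nat_lit 215) (nat_lit 5) (nat_lit 398) (nat_lit 361) (nat_lit 261)) (XT.lf (nat_lit 0) (nat_lit 3120227289) (nat_lit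 380) (nat_lit 22527519716) (nat_lit 76) (nat_lit 6863449077) (nat_lit 206) (nat_lit 5) (nat_lit 211) (nat_lit 5) (nat_lit 207) (nat_lit 5) (nat_lit 399) (nat_lit 361) (nat_lit 260))))) (XT.nd (nat_lit 234) (nat_lit 988) (nat_lit 0) (XT.nd (nat_lit 78) (nat_lit 532) (nat_lit 0) (XT.lf (nat_lit 0) (nat_lit 11411417083) (nat_lit 228) (nat_lit 5464487948) (nat_lit 304) (nat_lit 16632124941) (nat_lit 203) (nat_lit 5) (nat_lit 206) (nat_lit 5) (nat_lit 207) (nat_lit 5) (nat_lit 400) (nat_lit 361) (nat_lit 259)) (XT.nd (nat_lit 78) (nat_lit 304) (nat_lit 0) (XT.lf (nat_lit 0) (nat_lit 13047762402) (nat_lit 228) (nat_lit 18768001477) (nat_lit 304) (nat_lit 2724049761) (nat_lit 200) (nat_lit 5) (nat_lit 203) (nat_lit 5) (nat_lit 204) (nat_lit 5) (nat_lit 401) (nat_lit 361) (nat_lit 258)) (XT.lf (nat_lit 0) (nat_lit 12088737139) (nat_lit 304) (nat_lit 20744097258) (nat_lit 76) (nat_lit 2773692772) (nat_lit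 196) (nat_lit 5) (nat_lit 200) (nat_lit 5) (nat_lit 197) (nat_lit 5) (nat_lit 402) (nat_lit 361) (nat_lit 257)))) (XT.nd (nat_lit 156) (nat_lit 456) (nat_lit 0) (XT.nd (nat_lit 78) (nat_lit 304) (nat_lit 0) (XT.lf (nat_lit 0) (nat_lit 16850585354) (nat_lit 228) (nat_lit 11296889150) (nat_lit 304) (nat_lit 8561443287) (nat_lit 193) (nat_lit 5) (nat_lit 196) (nat_lit 5) (nat_lit 197) (nat_lit 5) (nat_lit 403) (nat_lit 361) (nat_lit 256)) (XT.lf (nat_lit 0) (nat_lit 7503280969) (nat_lit 304) (nat_lit 18786682672) (nat_lit 76) (nat_lit 11559406285) (nat_lit 189) (nat_lit 5) (nat_lit 193) (nat_lit 5) (nat_lit 190) (nat_lit 5) (nat_lit 404) (nat_lit 361) (nat_lit 255))) (XT.nd (nat_lit 78) (nat_lit 228) (nat_lit 0) (XT.lf (nat_lit 0) (nat_lit 21498889559) (nat_lit 228) (nat_lit 3210999233) (nat_lit 304) (nat_lit 14318941540) (nat_lit 186) (nat_lit 5) (nat_lit 189) (nat_lit 5) (nat_lit 190) (nat_lit 5)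 (nat_lit 405) (nat_lit 361) (nat_lit 254)) (XT.lf (nat_lit 0) (nat_lit 3083740524) (nat_lit 228) (nat_lit 16103210849) (nat_lit 76) (nat_lit 21060894244) (nat_lit 183) (nat_lit 5) (nat_lit 186) (nat_lit 5) (nat_lit 184) (nat_lit 5) (nat_lit 406) (nat_lit 361) (nat_lit 253)))))) (XT.nd (nat_lit 546) (nat_lit 1368) (nat_lit 0) (XT.nd (nat_lit 234) (nat_lit 760) (nat_lit 0) (XT.nd (nat_lit 78) (nat_lit 456) (nat_lit 0) (XT.lf (nat_lit 0) (nat_lit 21578972556) (nat_lit 304) (nat_lit 14487948664) (nat_lit 76) (nat_lit 5441080689) (nat_lit 180) (nat_lit 5) (nat_lit 184) (nat_lit 5) (nat_lit 181) (nat_lit 5) (nat_lit 407) (nat_lit 361) (nat_lit 252)) (XT.nd (nat_lit 78) (nat_lit 304) (nat_lit 0) (XT.lf (nat_lit 0) (nat_lit 30182323805) (nat_lit 152) (nat_lit 11455693512) (nat_lit 228) (nat_lit 1173977164) (nat_lit 178) (nat_lit 5) (nat_lit 180) (nat_lit 5) (nat_lit 181) (nat_lit 5) (nat_lit 408) (nat_lit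 361) (nat_lit 251)) (XT.lf (nat_lit 0) (nat_lit 18764499203) (nat_lit 304) (nat_lit 10637742282) (nat_lit 76) (nat_lit 14755393551) (nat_lit 174) (nat_lit 5) (nat_lit 178) (nat_lit 5) (nat_lit 175) (nat_lit 5) (nat_lit 409) (nat_lit 361) (nat_lit 250)))) (XT.nd (nat_lit 156) (nat_lit 380) (nat_lit 0) (XT.nd (nat_lit 78) (nat_lit 228) (nat_lit 0) (XT.lf (nat_lit 0) (nat_lit 37251920846) (nat_lit 152) (nat_lit 3017341753) (nat_lit 228) (nat_lit 5283137027) (nat_lit 172) (nat_lit 5) (nat_lit 174) (nat_lit 5) (nat_lit 175) (nat_lit 5) (nat_lit 410) (nat_lit 361) (nat_lit 249)) (XT.lf (nat_lit 0) (nat_lit 16264180547) (nat_lit 228) (nat_lit 5862340899) (nat_lit 76) (nat_lit 24863592333) (nat_lit 169) (nat_lit 5) (nat_lit 172) (nat_lit 5) (nat_lit 170) (nat_lit 5) (nat_lit 411) (nat_lit 361) (nat_lit 248))) (XT.nd (nat_lit 78) (nat_lit 228) (nat_lit 0) (XT.lf (nat_lit 0) (nat_lit 39382785015) (nat_lit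 228) (nat_lit 3054089683) (nat_lit 76) (nat_lit 6043174161) (nat_lit 167) (nat_lit 5) (nat_lit 170) (nat_lit 5) (nat_lit 168) (nat_lit 5) (nat_lit 412) (nat_lit 361) (nat_lit 247)) (XT.lf (nat_lit 0) (nat_lit 14109661199) (nat_lit 228) (nat_lit 67513190) (nat_lit 76) (nat_lit 35840506924) (nat_lit 164) (nat_lit 5) (nat_lit 167) (nat_lit 5) (nat_lit 165) (nat_lit 5) (nat_lit 413) (nat_lit 361) (nat_lit 246))))) (XT.nd (nat_lit 234) (nat_lit 684) (nat_lit 0) (XT.nd (nat_lit 78) (nat_lit 380) (nat_lit 0) (XT.lf (nat_lit 0) (nat_lit 3295260019) (nat_lit 152) (nat_lit 35732135219) (nat_lit 228) (nat_lit 12579939750) (nat_lit 160) (nat_lit 5) (nat_lit 162) (nat_lit 5) (nat_lit 163) (nat_lit 5) (nat_lit 414) (nat_lit 361) (nat_lit 245)) (XT.nd (nat_lit 78) (nat_lit 152) (nat_lit 0) (XT.lf (nat_lit 0) (nat_lit 6986085879) (nat_lit 152) (nat_lit 5416997766) (nat_lit 228) (nat_lit 40848320766) (nat_lit 157)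 (nat_lit 5) (nat_lit 159) (nat_lit 5) (nat_lit 160) (nat_lit 5) (nat_lit 415) (nat_lit 361) (nat_lit 244)) (XT.lf (nat_lit 0) (nat_lit 10903933122) (nat_lit 152) (nat_lit 28324166805) (nat_lit 228) (nat_lit 15720250337) (nat_lit 155) (nat_lit 5) (nat_lit 157) (nat_lit 5) (nat_lit 158) (nat_lit 5) (nat_lit 416) (nat_lit 361) (nat_lit 243)))) (XT.nd (nat_lit 156) (nat_lit 304) (nat_lit 0) (XT.nd (nat_lit 78) (nat_lit 152) (nat_lit 0) (XT.lf (nat_lit 0) (nat_lit 11168795618) (nat_lit 228) (nat_lit 41446398669) (nat_lit 76) (nat_lit 4090493708) (nat_lit 152) (nat_lit 5) (nat_lit 155) (nat_lit 5) (nat_lit 153) (nat_lit 5) (nat_lit 417) (nat_lit 361) (nat_lit 242)) (XT.lf (nat_lit 0) (nat_lit 19830866381) (nat_lit 152) (nat_lit 20173794125) (nat_lit 228) (nat_lit 18513738160) (nat_lit 150) (nat_lit 5) (nat_lit 152) (nat_lit 5) (nat_lit 153) (nat_lit 5) (nat_lit 418) (nat_lit 361) (nat_lit 241))) (XT.nd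 (nat_lit 78) (nat_lit 152) (nat_lit 0) (XT.lf (nat_lit 0) (nat_lit 10470645040) (nat_lit 152) (nat_lit 35540113006) (nat_lit 76) (nat_lit 14384068650) (nat_lit 148) (nat_lit 5) (nat_lit 150) (nat_lit 5) (nat_lit 149) (nat_lit 5) (nat_lit 419) (nat_lit 361) (nat_lit 240)) (XT.lf (nat_lit 0) (nat_lit 30206704305) (nat_lit 152) (nat_lit 11204881592) (nat_lit 228) (nat_lit 20921284171) (nat_lit 146) (nat_lit 5) (nat_lit 148) (nat_lit 5) (nat_lit 149) (nat_lit 5) (nat_lit 420) (nat_lit 361) (nat_lit 239))))))))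
noncomputable def xc83 : XT := (XT.nd (nat_lit 49218) (nat_lit 0) (nat_lit 8208) (XT.nd (nat_lit 1014) (nat_lit 532) (nat_lit 0) (XT.nd (nat_lit 468) (nat_lit 1216) (nat_lit 0) (XT.nd (nat_lit 234) (nat_lit 456) (nat_lit 0) (XT.nd (nat_lit 78) (nat_lit 304) (nat_lit 0) (XT.lf (nat_lit 0) (nat_lit 10305630284) (nat_lit 152) (nat_lit 28374477436) (nat_lit 76) (nat_lit 25656163006) (nat_lit 144) (nat_lit 5) (nat_lit 146) (nat_lit 5) (nat_lit 145) (nat_lit 5) (nat_lit 421) (nat_lit 361) (nat_lit 238)) (XT.nd (nat_lit 78) (nat_lit 152) (nat_lit 0) (XT.lf (nat_lit 0) (nat_lit 42173920796) (nat_lit 152) (nat_lit 1334679630) (nat_lit 228) (nat_lit 22899604920) (nat_lit 142) (nat_lit 5) (nat_lit 144) (nat_lit 5) (nat_lit 145) (nat_lit 5) (nat_lit 422) (nat_lit 361) (nat_lit 237)) (XT.lf (nat_lit 0) (nat_lit 10727699784) (nat_lit 152) (nat_lit 19818413938) (nat_lit 76) (nat_lit 38000878848) (nat_lit 140)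 (nat_lit 5) (nat_lit 142) (nat_lit 5) (nat_lit 141) (nat_lit 5) (nat_lit 423) (nat_lit 361) (nat_lit 236)))) (XT.nd (nat_lit 78) (nat_lit 304) (nat_lit 0) (XT.lf (nat_lit 0) (nat_lit 46452662890) (nat_lit 228) (nat_lit 14965747987) (nat_lit 76) (nat_lit 9340809650) (nat_lit 138) (nat_lit 5) (nat_lit 141) (nat_lit 5) (nat_lit 139) (nat_lit 4) (nat_lit 424) (nat_lit 361) (nat_lit 235)) (XT.nd (nat_lit 78) (nat_lit 152) (nat_lit 0) (XT.lf (nat_lit 0) (nat_lit 11796102184) (nat_lit 152) (nat_lit 9728741745) (nat_lit 76) (nat_lit 51520278935) (nat_lit 136) (nat_lit 5) (nat_lit 138) (nat_lit 5) (nat_lit 137) (nat_lit 5) (nat_lit 425) (nat_lit 361) (nat_lit 234)) (XT.lf (nat_lit 0) (nat_lit 50247010668) (nat_lit 228) (nat_lit 4101894453) (nat_lit 76) (nat_lit 21057821050) (nat_lit 134) (nat_lit 5) (nat_lit 137) (nat_lit 5) (nat_lit 135) (nat_lit 4) (nat_lit 426) (nat_lit 361) (nat_lit 233))))) (XT.nd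 (nat_lit 234) (nat_lit 608) (nat_lit 0) (XT.nd (nat_lit 78) (nat_lit 304) (nat_lit 0) (XT.lf (nat_lit 0) (nat_lit 2091651997) (nat_lit 152) (nat_lit 11504296169) (nat_lit 228) (nat_lit 64253477836) (nat_lit 130) (nat_lit 5) (nat_lit 132) (nat_lit 5) (nat_lit 133) (nat_lit 5) (nat_lit 427) (nat_lit 361) (nat_lit 232)) (XT.nd (nat_lit 78) (nat_lit 228) (nat_lit 0) (XT.lf (nat_lit 0) (nat_lit 8703018754) (nat_lit 76) (nat_lit 46338641920) (nat_lit 152) (nat_lit 25326948754) (nat_lit 129) (nat_lit 5) (nat_lit 130) (nat_lit 5) (nat_lit 131) (nat_lit 4) (nat_lit 428) (nat_lit 361) (nat_lit 231)) (XT.lf (nat_lit 0) (nat_lit 16003108086) (nat_lit 152) (nat_lit 288895133) (nat_lit 228) (nat_lit 66685782109) (nat_lit 126) (nat_lit 5) (nat_lit 128) (nat_lit 5) (nat_lit 129) (nat_lit 5) (nat_lit 429) (nat_lit 361) (nat_lit 230)))) (XT.nd (nat_lit 156) (nat_lit 304) (nat_lit 0) (XT.nd (nat_lit 78) (nat_lit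 228) (nat_lit 0) (XT.lf (nat_lit 0) (nat_lit 23577458346) (nat_lit 76) (nat_lit 37321302168) (nat_lit 152) (nat_lit 24768216918) (nat_lit 125) (nat_lit 5) (nat_lit 126) (nat_lit 5) (nat_lit 127) (nat_lit 4) (nat_lit 430) (nat_lit 361) (nat_lit 229)) (XT.lf (nat_lit 0) (nat_lit 19985371276) (nat_lit 228) (nat_lit 56570124337) (nat_lit 76) (nat_lit 11896112968) (nat_lit 122) (nat_lit 5) (nat_lit 125) (nat_lit 5) (nat_lit 123) (nat_lit 4) (nat_lit 431) (nat_lit 361) (nat_lit 228))) (XT.nd (nat_lit 78) (nat_lit 228) (nat_lit 0) (XT.lf (nat_lit 0) (nat_lit 40637526536) (nat_lit 76) (nat_lit 27236855756) (nat_lit 152) (nat_lit 23451432455) (nat_lit 121) (nat_lit 5) (nat_lit 122) (nat_lit 5) (nat_lit 123) (nat_lit 4) (nat_lit 432) (nat_lit 361) (nat_lit 227)) (XT.lf (nat_lit 0) (nat_lit 24662316855) (nat_lit 228) (nat_lit 44259939209) (nat_lit 76) (nat_lit 25375220583) (nat_lit 118) (nat_lit 5) (nat_lit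 121) (nat_lit 5) (nat_lit 119) (nat_lit 4) (nat_lit 433) (nat_lit 361) (nat_lit 226)))))) (XT.nd (nat_lit 47658) (nat_lit 0) (nat_lit 20216) (XT.nd (nat_lit 234) (nat_lit 228) (nat_lit 0) (XT.nd (nat_lit 78) (nat_lit 228) (nat_lit 0) (XT.lf (nat_lit 0) (nat_lit 60098647903) (nat_lit 76) (nat_lit 15974894531) (nat_lit 152) (nat_lit 21295909424) (nat_lit 117) (nat_lit 5) (nat_lit 118) (nat_lit 5) (nat_lit 119) (nat_lit 4) (nat_lit 434) (nat_lit 361) (nat_lit 225)) (XT.nd (nat_lit 78) (nat_lit 76) (nat_lit 0) (XT.lf (nat_lit 0) (nat_lit 30416834247) (nat_lit 152) (nat_lit 29842708786) (nat_lit 76) (nat_lit 40281044861) (nat_lit 115) (nat_lit 5) (nat_lit 117) (nat_lit 5) (nat_lit 116) (nat_lit 4) (nat_lit 435) (nat_lit 361) (nat_lit 224)) (XT.lf (nat_lit 0) (nat_lit 82195398242) (nat_lit 76) (nat_lit 3415311638) (nat_lit 152) (nat_lit 18213167528) (nat_lit 114) (nat_lit 5) (nat_lit 115) (nat_lit 5)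 (nat_lit 116) (nat_lit 4) (nat_lit 436) (nat_lit 361) (nat_lit 223)))) (XT.nd (nat_lit 47268) (nat_lit 0) (nat_lit 21280) (XT.nd (nat_lit 78) (nat_lit 76) (nat_lit 0) (XT.lf (nat_lit 0) (nat_lit 37354639982) (nat_lit 152) (nat_lit 13101676268) (nat_lit 76) (nat_lit 56751452099) (nat_lit 112) (nat_lit 5) (nat_lit 114) (nat_lit 5) (nat_lit 113) (nat_lit 4) (nat_lit 437) (nat_lit 361) (nat_lit 222)) (XT.lf (nat_lit 0) (nat_lit 96712215674) (nat_lit 152) (nat_lit 3635394334) (nat_lit 0) (nat_lit 10366192357) (nat_lit 111) (nat_lit 5) (nat_lit 113) (nat_lit 4) (nat_lit 111) (nat_lit 4) (nat_lit 438) (nat_lit 361) (nat_lit 221))) (XT.nd (nat_lit 78) (nat_lit 0) (nat_lit 0) (XT.lf (nat_lit 0) (nat_lit 2285231597) (nat_lit 0) (nat_lit 2285231597) (nat_lit 1140) (nat_lit 1522085975) (nat_lit 391) (nat_lit 5) (nat_lit 391) (nat_lit 3) (nat_lit 406) (nat_lit 3) (nat_lit 362) (nat_lit 362) (nat_lit 296)) (XT.lf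 (nat_lit 76) (nat_lit 2544784628) (nat_lit 0) (nat_lit 7650532366) (nat_lit 1216) (nat_lit 2269632779) (nat_lit 392) (nat_lit 5) (nat_lit 391) (nat_lit 5) (nat_lit 407) (nat_lit 5) (nat_lit 363) (nat_lit 362) (nat_lit 295))))) (XT.nd (nat_lit 234) (nat_lit 0) (nat_lit 76) (XT.nd (nat_lit 78) (nat_lit 1140) (nat_lit 0) (XT.lf (nat_lit 76) (nat_lit 533340536) (nat_lit 0) (nat_lit 10868416497) (nat_lit 1216) (nat_lit 1354056851) (nat_lit 393) (nat_lit 5) (nat_lit 392) (nat_lit 5) (nat_lit 408) (nat_lit 5) (nat_lit 364) (nat_lit 362) (nat_lit 294)) (XT.nd (nat_lit 78) (nat_lit 1140) (nat_lit 0) (XT.lf (nat_lit 76) (nat_lit 11610868405) (nat_lit 0) (nat_lit 1190157053) (nat_lit 1216) (nat_lit 256220550) (nat_lit 393) (nat_lit 5) (nat_lit 392) (nat_lit 5) (nat_lit 408) (nat_lit 5) (nat_lit 365) (nat_lit 362) (nat_lit 293)) (XT.lf (nat_lit 0) (nat_lit 1018554374) (nat_lit 1216) (nat_lit 3430564495) (nat_lit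 1292) (nat_lit 8920186108) (nat_lit 377) (nat_lit 5) (nat_lit 393) (nat_lit 5) (nat_lit 394) (nat_lit 5) (nat_lit 366) (nat_lit 362) (nat_lit 292)))) (XT.nd (nat_lit 156) (nat_lit 0) (nat_lit 76) (XT.nd (nat_lit 78) (nat_lit 0) (nat_lit 76) (XT.lf (nat_lit 0) (nat_lit 2473821437) (nat_lit 1216) (nat_lit 5404436176) (nat_lit 1292) (nat_lit 5814971604) (nat_lit 378) (nat_lit 5) (nat_lit 394) (nat_lit 5) (nat_lit 395) (nat_lit 5) (nat_lit 367) (nat_lit 362) (nat_lit 291)) (XT.lf (nat_lit 0) (nat_lit 4131176218) (nat_lit 1216) (nat_lit 7364248890) (nat_lit 1292) (nat_lit 2534044831) (nat_lit 379) (nat_lit 5) (nat_lit 395) (nat_lit 5) (nat_lit 396) (nat_lit 5) (nat_lit 368) (nat_lit 362) (nat_lit 290))) (XT.nd (nat_lit 78) (nat_lit 0) (nat_lit 76) (XT.lf (nat_lit 76) (nat_lit 5060644402) (nat_lit 0) (nat_lit 956469933) (nat_lit 1292) (nat_lit 8361036893) (nat_lit 380) (nat_lit 5) (nat_lit 379) (nat_lit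 5) (nat_lit 396) (nat_lit 5) (nat_lit 369) (nat_lit 362) (nat_lit 289)) (XT.lf (nat_lit 76) (nat_lit 3459388821) (nat_lit 0) (nat_lit 4707983032) (nat_lit 1292) (nat_lit 6571794053) (nat_lit 381) (nat_lit 5) (nat_lit 380) (nat_lit 5) (nat_lit 397) (nat_lit 5) (nat_lit 370) (nat_lit 362) (nat_lit 288))))))) (XT.nd (nat_lit 1014) (nat_lit 5244) (nat_lit 0) (XT.nd (nat_lit 468) (nat_lit 3800) (nat_lit 0) (XT.nd (nat_lit 234) (nat_lit 2052) (nat_lit 0) (XT.nd (nat_lit 78) (nat_lit 1216) (nat_lit 0) (XT.lf (nat_lit 76) (nat_lit 1889861163) (nat_lit 0) (nat_lit 8686280664) (nat_lit 1292) (nat_lit 4537559506) (nat_lit 382) (nat_lit 5) (nat_lit 381) (nat_lit 5) (nat_lit 398) (nat_lit 5) (nat_lit 371) (nat_lit 362) (nat_lit 287)) (XT.nd (nat_lit 78) (nat_lit 76) (nat_lit 0) (XT.lf (nat_lit 0) (nat_lit 355335783) (nat_lit 1216) (nat_lit 12908006090) (nat_lit 1292) (nat_lit 2238881909) (nat_lit 366) (nat_lit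 5) (nat_lit 382) (nat_lit 5) (nat_lit 383) (nat_lit 5) (nat_lit 372) (nat_lit 362) (nat_lit 286)) (XT.lf (nat_lit 0) (nat_lit 363548861) (nat_lit 1292) (nat_lit 1136205635) (nat_lit 76) (nat_lit 14404600604) (nat_lit 365) (nat_lit 5) (nat_lit 382) (nat_lit 5) (nat_lit 366) (nat_lit 5) (nat_lit 373) (nat_lit 362) (nat_lit 285)))) (XT.nd (nat_lit 78) (nat_lit 1216) (nat_lit 0) (XT.lf (nat_lit 0) (nat_lit 3253770222) (nat_lit 912) (nat_lit 2631434059) (nat_lit 76) (nat_lit 10434604510) (nat_lit 354) (nat_lit 5) (nat_lit 366) (nat_lit 5) (nat_lit 355) (nat_lit 5) (nat_lit 374) (nat_lit 362) (nat_lit 284)) (XT.nd (nat_lit 78) (nat_lit 608) (nat_lit 0) (XT.lf (nat_lit 0) (nat_lit 6468454794) (nat_lit 684) (nat_lit 4085831047) (nat_lit 76) (nat_lit 6196350761) (nat_lit 346) (nat_lit 5) (nat_lit 355) (nat_lit 5) (nat_lit 347) (nat_lit 5) (nat_lit 375) (nat_lit 362) (nat_lit 283)) (XT.lf (nat_lit 0) (nat_lit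 10030778169) (nat_lit 684) (nat_lit 5494658887) (nat_lit 76) (nat_lit 1671961611) (nat_lit 338) (nat_lit 5) (nat_lit 347) (nat_lit 5) (nat_lit 339) (nat_lit 5) (nat_lit 376) (nat_lit 362) (nat_lit 282))))) (XT.nd (nat_lit 234) (nat_lit 2052) (nat_lit 0) (XT.nd (nat_lit 78) (nat_lit 1216) (nat_lit 0) (XT.lf (nat_lit 0) (nat_lit 10776134149) (nat_lit 532) (nat_lit 3219892560) (nat_lit 608) (nat_lit 3663727857) (nat_lit 331) (nat_lit 5) (nat_lit 338) (nat_lit 5) (nat_lit 339) (nat_lit 5) (nat_lit 377) (nat_lit 362) (nat_lit 281)) (XT.nd (nat_lit 78) (nat_lit 532) (nat_lit 0) (XT.lf (nat_lit 0) (nat_lit 235039720) (nat_lit 684) (nat_lit 8237854204) (nat_lit 76) (nat_lit 9665699922) (nat_lit 322) (nat_lit 5) (nat_lit 331) (nat_lit 5) (nat_lit 323) (nat_lit 5) (nat_lit 378) (nat_lit 362) (nat_lit 280)) (XT.lf (nat_lit 0) (nat_lit 4464405281) (nat_lit 608) (nat_lit 9571684373) (nat_lit 76) (nat_lit 4597854269)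 (nat_lit 315) (nat_lit 5) (nat_lit 323) (nat_lit 5) (nat_lit 316) (nat_lit 5) (nat_lit 379) (nat_lit 362) (nat_lit 279)))) (XT.nd (nat_lit 156) (nat_lit 1064) (nat_lit 0) (XT.nd (nat_lit 78) (nat_lit 456) (nat_lit 0) (XT.lf (nat_lit 0) (nat_lit 8295806310) (nat_lit 532) (nat_lit 835325073) (nat_lit 608) (nat_lit 10016153350) (nat_lit 308) (nat_lit 5) (nat_lit 315) (nat_lit 5) (nat_lit 316) (nat_lit 5) (nat_lit 380) (nat_lit 362) (nat_lit 278)) (XT.lf (nat_lit 0) (nat_lit 7567209133) (nat_lit 456) (nat_lit 6737334432) (nat_lit 532) (nat_lit 5373548527) (nat_lit 302) (nat_lit 5) (nat_lit 308) (nat_lit 5) (nat_lit 309) (nat_lit 5) (nat_lit 381) (nat_lit 362) (nat_lit 277))) (XT.nd (nat_lit 78) (nat_lit 532) (nat_lit 0) (XT.lf (nat_lit 0) (nat_lit 6931045312) (nat_lit 532) (nat_lit 13038876793) (nat_lit 608) (nat_lit 258518841) (nat_lit 295) (nat_lit 5) (nat_lit 302) (nat_lit 5) (nat_lit 303) (nat_lit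 5) (nat_lit 382) (nat_lit 362) (nat_lit 276)) (XT.lf (nat_lit 0) (nat_lit 5255528080) (nat_lit 532) (nat_lit 14454484272) (nat_lit 76) (nat_lit 1087529893) (nat_lit 288) (nat_lit 5) (nat_lit 295) (nat_lit 5) (nat_lit 289) (nat_lit 5) (nat_lit 383) (nat_lit 362) (nat_lit 275)))))) (XT.nd (nat_lit 546) (nat_lit 2280) (nat_lit 0) (XT.nd (nat_lit 234) (nat_lit 1596) (nat_lit 0) (XT.nd (nat_lit 78) (nat_lit 912) (nat_lit 0) (XT.lf (nat_lit 0) (nat_lit 5803100477) (nat_lit 456) (nat_lit 5540664133) (nat_lit 532) (nat_lit 10042142196) (nat_lit 282) (nat_lit 5) (nat_lit 288) (nat_lit 5) (nat_lit 289) (nat_lit 5) (nat_lit 384) (nat_lit 362) (nat_lit 274)) (XT.nd (nat_lit 78) (nat_lit 532) (nat_lit 0) (XT.lf (nat_lit 0) (nat_lit 5363022307) (nat_lit 380) (nat_lit 12643862079) (nat_lit 456) (nat_lit 3988691067) (nat_lit 277) (nat_lit 5) (nat_lit 282) (nat_lit 5) (nat_lit 283) (nat_lit 5) (nat_lit 385) (nat_lit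 362) (nat_lit 273)) (XT.lf (nat_lit 0) (nat_lit 2590874388) (nat_lit 532) (nat_lit 17608911406) (nat_lit 76) (nat_lit 2427169854) (nat_lit 270) (nat_lit 5) (nat_lit 277) (nat_lit 5) (nat_lit 271) (nat_lit 5) (nat_lit 386) (nat_lit 362) (nat_lit 272)))) (XT.nd (nat_lit 156) (nat_lit 836) (nat_lit 0) (XT.nd (nat_lit 78) (nat_lit 380) (nat_lit 0) (XT.lf (nat_lit 0) (nat_lit 4710095715) (nat_lit 380) (nat_lit 5033527299) (nat_lit 456) (nat_lit 13535296165) (nat_lit 265) (nat_lit 5) (nat_lit 270) (nat_lit 5) (nat_lit 271) (nat_lit 5) (nat_lit 387) (nat_lit 362) (nat_lit 271)) (XT.lf (nat_lit 0) (nat_lit 4510534028) (nat_lit 380) (nat_lit 13055352326) (nat_lit 456) (nat_lit 6388238215) (nat_lit 260) (nat_lit 5) (nat_lit 265) (nat_lit 5) (nat_lit 266) (nat_lit 5) (nat_lit 388) (nat_lit 362) (nat_lit 270))) (XT.nd (nat_lit 78) (nat_lit 380) (nat_lit 0) (XT.lf (nat_lit 0) (nat_lit 1392386599) (nat_lit 456)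 (nat_lit 20211842230) (nat_lit 76) (nat_lit 3049599682) (nat_lit 254) (nat_lit 5) (nat_lit 260) (nat_lit 5) (nat_lit 255) (nat_lit 5) (nat_lit 389) (nat_lit 362) (nat_lit 269)) (XT.lf (nat_lit 0) (nat_lit 4408076434) (nat_lit 380) (nat_lit 5381198953) (nat_lit 456) (nat_lit 15586564229) (nat_lit 249) (nat_lit 5) (nat_lit 254) (nat_lit 5) (nat_lit 255) (nat_lit 5) (nat_lit 390) (nat_lit 362) (nat_lit 268))))) (XT.nd (nat_lit 234) (nat_lit 1216) (nat_lit 0) (XT.nd (nat_lit 78) (nat_lit 760) (nat_lit 0) (XT.lf (nat_lit 0) (nat_lit 4502346971) (nat_lit 304) (nat_lit 14451482192) (nat_lit 380) (nat_lit 7169687497) (nat_lit 245) (nat_lit 5) (nat_lit 249) (nat_lit 5) (nat_lit 250) (nat_lit 5) (nat_lit 391) (nat_lit 362) (nat_lit 267)) (XT.nd (nat_lit 78) (nat_lit 304) (nat_lit 0) (XT.lf (nat_lit 0) (nat_lit 1963861418) (nat_lit 456) (nat_lit 22148308347) (nat_lit 76) (nat_lit 2786075436) (nat_lit 239)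 (nat_lit 5) (nat_lit 245) (nat_lit 5) (nat_lit 240) (nat_lit 5) (nat_lit 392) (nat_lit 362) (nat_lit 266)) (XT.lf (nat_lit 0) (nat_lit 5039874937) (nat_lit 304) (nat_lit 6769747531) (nat_lit 380) (nat_lit 15887843645) (nat_lit 235) (nat_lit 5) (nat_lit 239) (nat_lit 5) (nat_lit 240) (nat_lit 5) (nat_lit 393) (nat_lit 362) (nat_lit 265)))) (XT.nd (nat_lit 156) (nat_lit 532) (nat_lit 0) (XT.nd (nat_lit 78) (nat_lit 380) (nat_lit 0) (XT.lf (nat_lit 0) (nat_lit 5491291680) (nat_lit 304) (nat_lit 17033230974) (nat_lit 380) (nat_lit 6000819886) (nat_lit 231) (nat_lit 5) (nat_lit 235) (nat_lit 5) (nat_lit 236) (nat_lit 5) (nat_lit 394) (nat_lit 362) (nat_lit 264)) (XT.lf (nat_lit 0) (nat_lit 4656152656) (nat_lit 380) (nat_lit 23280784785) (nat_lit 76) (nat_lit 1445579748) (nat_lit 226) (nat_lit 5) (nat_lit 231) (nat_lit 5) (nat_lit 227) (nat_lit 5) (nat_lit 395) (nat_lit 362) (nat_lit 263))) (XT.nd (nat_lit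 78) (nat_lit 228) (nat_lit 0) (XT.lf (nat_lit 0) (nat_lit 6774106858) (nat_lit 304) (nat_lit 9410102230) (nat_lit 380) (nat_lit 14082688820) (nat_lit 222) (nat_lit 5) (nat_lit 226) (nat_lit 5) (nat_lit 227) (nat_lit 5) (nat_lit 396) (nat_lit 362) (nat_lit 262)) (XT.lf (nat_lit 0) (nat_lit 7657292304) (nat_lit 228) (nat_lit 21028671651) (nat_lit 304) (nat_lit 2497614838) (nat_lit 219) (nat_lit 5) (nat_lit 222) (nat_lit 5) (nat_lit 223) (nat_lit 5) (nat_lit 397) (nat_lit 362) (nat_lit 261))))))))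
noncomputable def xc84 : XT := (XT.nd (nat_lit 2106) (nat_lit 2128) (nat_lit 0) (XT.nd (nat_lit 1014) (nat_lit 2584) (nat_lit 0) (XT.nd (nat_lit 468) (nat_lit 1672) (nat_lit 0) (XT.nd (nat_lit 234) (nat_lit 760) (nat_lit 0) (XT.nd (nat_lit 78) (nat_lit 608) (nat_lit 0) (XT.lf (nat_lit 0) (nat_lit 8673143921) (nat_lit 304) (nat_lit 1212989349) (nat_lit 380) (nat_lit 22244931198) (nat_lit 214) (nat_lit 5) (nat_lit 218) (nat_lit 5) (nat_lit 219) (nat_lit 5) (nat_lit 398) (nat_lit 362) (nat_lit 260)) (XT.nd (nat_lit 78) (nat_lit 380) (nat_lit 0) (XT.lf (nat_lit 0) (nat_lit 9808497238) (nat_lit 228) (nat_lit 13542479590) (nat_lit 304) (nat_lit 9758798855) (nat_lit 211) (nat_lit 5) (nat_lit 214) (nat_lit 5) (nat_lit 215) (nat_lit 5) (nat_lit 399) (nat_lit 362) (nat_lit 259)) (XT.lf (nat_lit 0) (nat_lit 3709853045) (nat_lit 380) (nat_lit 22950300977) (nat_lit 76) (nat_lit 7463593433) (nat_lit 206) (nat_lit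 5) (nat_lit 211) (nat_lit 5) (nat_lit 207) (nat_lit 5) (nat_lit 400) (nat_lit 362) (nat_lit 258)))) (XT.nd (nat_lit 78) (nat_lit 532) (nat_lit 0) (XT.lf (nat_lit 0) (nat_lit 12665414261) (nat_lit 228) (nat_lit 5473821620) (nat_lit 304) (nat_lit 17031609521) (nat_lit 203) (nat_lit 5) (nat_lit 206) (nat_lit 5) (nat_lit 207) (nat_lit 5) (nat_lit 401) (nat_lit 362) (nat_lit 257)) (XT.nd (nat_lit 78) (nat_lit 304) (nat_lit 0) (XT.lf (nat_lit 0) (nat_lit 14373747893) (nat_lit 228) (nat_lit 19441252808) (nat_lit 304) (nat_lit 2439550162) (nat_lit 200) (nat_lit 5) (nat_lit 203) (nat_lit 5) (nat_lit 204) (nat_lit 5) (nat_lit 402) (nat_lit 362) (nat_lit 256)) (XT.lf (nat_lit 0) (nat_lit 13094918804) (nat_lit 304) (nat_lit 21109591270) (nat_lit 76) (nat_lit 3170291109) (nat_lit 196) (nat_lit 5) (nat_lit 200) (nat_lit 5) (nat_lit 197) (nat_lit 5) (nat_lit 403) (nat_lit 362) (nat_lit 255))))) (XT.nd (nat_lit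 234) (nat_lit 912) (nat_lit 0) (XT.nd (nat_lit 78) (nat_lit 532) (nat_lit 0) (XT.lf (nat_lit 0) (nat_lit 18345571015) (nat_lit 228) (nat_lit 11598163126) (nat_lit 304) (nat_lit 8588962962) (nat_lit 193) (nat_lit 5) (nat_lit 196) (nat_lit 5) (nat_lit 197) (nat_lit 5) (nat_lit 404) (nat_lit 362) (nat_lit 254)) (XT.nd (nat_lit 78) (nat_lit 228) (nat_lit 0) (XT.lf (nat_lit 0) (nat_lit 8261154869) (nat_lit 304) (nat_lit 19075775085) (nat_lit 76) (nat_lit 12393427173) (nat_lit 189) (nat_lit 5) (nat_lit 193) (nat_lit 5) (nat_lit 190) (nat_lit 5) (nat_lit 405) (nat_lit 362) (nat_lit 253)) (XT.lf (nat_lit 0) (nat_lit 23205436709) (nat_lit 228) (nat_lit 3110503446) (nat_lit 304) (nat_lit 14653214985) (nat_lit 186) (nat_lit 5) (nat_lit 189) (nat_lit 5) (nat_lit 190) (nat_lit 5) (nat_lit 406) (nat_lit 362) (nat_lit 252)))) (XT.nd (nat_lit 156) (nat_lit 456) (nat_lit 0) (XT.nd (nat_lit 78) (nat_lit 228) (nat_lit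 0) (XT.lf (nat_lit 0) (nat_lit 3602783449) (nat_lit 228) (nat_lit 16279251488) (nat_lit 76) (nat_lit 22367257284) (nat_lit 183) (nat_lit 5) (nat_lit 186) (nat_lit 5) (nat_lit 184) (nat_lit 5) (nat_lit 407) (nat_lit 362) (nat_lit 251)) (XT.lf (nat_lit 0) (nat_lit 23013754590) (nat_lit 304) (nat_lit 14593136572) (nat_lit 76) (nat_lit 5965835840) (nat_lit 180) (nat_lit 5) (nat_lit 184) (nat_lit 5) (nat_lit 181) (nat_lit 5) (nat_lit 408) (nat_lit 362) (nat_lit 250))) (XT.nd (nat_lit 78) (nat_lit 304) (nat_lit 0) (XT.lf (nat_lit 0) (nat_lit 32292900003) (nat_lit 152) (nat_lit 11771688740) (nat_lit 228) (nat_lit 877665346) (nat_lit 178) (nat_lit 5) (nat_lit 180) (nat_lit 5) (nat_lit 181) (nat_lit 5) (nat_lit 409) (nat_lit 362) (nat_lit 249)) (XT.lf (nat_lit 0) (nat_lit 20042351767) (nat_lit 304) (nat_lit 10571004805) (nat_lit 76) (nat_lit 15741971388) (nat_lit 174) (nat_lit 5) (nat_lit 178) (nat_lit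 5) (nat_lit 175) (nat_lit 5) (nat_lit 410) (nat_lit 362) (nat_lit 248)))))) (XT.nd (nat_lit 546) (nat_lit 1140) (nat_lit 0) (XT.nd (nat_lit 234) (nat_lit 912) (nat_lit 0) (XT.nd (nat_lit 78) (nat_lit 380) (nat_lit 0) (XT.lf (nat_lit 0) (nat_lit 39695982026) (nat_lit 152) (nat_lit 2915787962) (nat_lit 228) (nat_lit 5208378292) (nat_lit 172) (nat_lit 5) (nat_lit 174) (nat_lit 5) (nat_lit 175) (nat_lit 5) (nat_lit 411) (nat_lit 362) (nat_lit 247)) (XT.nd (nat_lit 78) (nat_lit 152) (nat_lit 0) (XT.lf (nat_lit 0) (nat_lit 17401754682) (nat_lit 228) (nat_lit 5576973388) (nat_lit 76) (nat_lit 26351160444) (nat_lit 169) (nat_lit 5) (nat_lit 172) (nat_lit 5) (nat_lit 170) (nat_lit 5) (nat_lit 412) (nat_lit 362) (nat_lit 246)) (XT.lf (nat_lit 0) (nat_lit 41668624675) (nat_lit 228) (nat_lit 2637842050) (nat_lit 76) (nat_lit 6588083565) (nat_lit 167) (nat_lit 5) (nat_lit 170) (nat_lit 5) (nat_lit 168) (nat_lit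 5) (nat_lit 413) (nat_lit 362) (nat_lit 245)))) (XT.nd (nat_lit 156) (nat_lit 380) (nat_lit 0) (XT.nd (nat_lit 78) (nat_lit 152) (nat_lit 0) (XT.lf (nat_lit 0) (nat_lit 497634027) (nat_lit 152) (nat_lit 14632264505) (nat_lit 228) (nat_lit 37379224219) (nat_lit 162) (nat_lit 5) (nat_lit 164) (nat_lit 5) (nat_lit 165) (nat_lit 5) (nat_lit 414) (nat_lit 362) (nat_lit 244)) (XT.lf (nat_lit 0) (nat_lit 4020435759) (nat_lit 152) (nat_lit 37266473911) (nat_lit 228) (nat_lit 12891547728) (nat_lit 160) (nat_lit 5) (nat_lit 162) (nat_lit 5) (nat_lit 163) (nat_lit 5) (nat_lit 415) (nat_lit 362) (nat_lit 243))) (XT.nd (nat_lit 78) (nat_lit 152) (nat_lit 0) (XT.lf (nat_lit 0) (nat_lit 7885754664) (nat_lit 152) (nat_lit 5439150373) (nat_lit 228) (nat_lit 42580019579) (nat_lit 157) (nat_lit 5) (nat_lit 159) (nat_lit 5) (nat_lit 160) (nat_lit 5) (nat_lit 416) (nat_lit 362) (nat_lit 242)) (XT.lf (nat_lit 0) (nat_lit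 11990186677) (nat_lit 152) (nat_lit 29494098111) (nat_lit 228) (nat_lit 16202639593) (nat_lit 155) (nat_lit 5) (nat_lit 157) (nat_lit 5) (nat_lit 158) (nat_lit 5) (nat_lit 417) (nat_lit 362) (nat_lit 241))))) (XT.nd (nat_lit 234) (nat_lit 608) (nat_lit 0) (XT.nd (nat_lit 78) (nat_lit 304) (nat_lit 0) (XT.lf (nat_lit 0) (nat_lit 12018197685) (nat_lit 228) (nat_lit 42981089874) (nat_lit 76) (nat_lit 4532955967) (nat_lit 152) (nat_lit 5) (nat_lit 155) (nat_lit 5) (nat_lit 153) (nat_lit 5) (nat_lit 418) (nat_lit 362) (nat_lit 240)) (XT.nd (nat_lit 78) (nat_lit 152) (nat_lit 0) (XT.lf (nat_lit 0) (nat_lit 21344627409) (nat_lit 152) (nat_lit 20942392937) (nat_lit 228) (nat_lit 19148834449) (nat_lit 150) (nat_lit 5) (nat_lit 152) (nat_lit 5) (nat_lit 153) (nat_lit 5) (nat_lit 419) (nat_lit 362) (nat_lit 239)) (XT.lf (nat_lit 0) (nat_lit 11272731886) (nat_lit 152) (nat_lit 36798346985) (nat_lit 76) (nat_lit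 15335132523) (nat_lit 148) (nat_lit 5) (nat_lit 150) (nat_lit 5) (nat_lit 149) (nat_lit 5) (nat_lit 420) (nat_lit 362) (nat_lit 238)))) (XT.nd (nat_lit 156) (nat_lit 304) (nat_lit 0) (XT.nd (nat_lit 78) (nat_lit 152) (nat_lit 0) (XT.lf (nat_lit 0) (nat_lit 32220940706) (nat_lit 152) (nat_lit 11531358382) (nat_lit 228) (nat_lit 21689110468) (nat_lit 146) (nat_lit 5) (nat_lit 148) (nat_lit 5) (nat_lit 149) (nat_lit 5) (nat_lit 421) (nat_lit 362) (nat_lit 237)) (XT.lf (nat_lit 0) (nat_lit 11087697475) (nat_lit 152) (nat_lit 29292745775) (nat_lit 76) (nat_lit 27164637442) (nat_lit 144) (nat_lit 5) (nat_lit 146) (nat_lit 5) (nat_lit 145) (nat_lit 5) (nat_lit 422) (nat_lit 362) (nat_lit 236))) (XT.nd (nat_lit 78) (nat_lit 152) (nat_lit 0) (XT.lf (nat_lit 0) (nat_lit 44768726911) (nat_lit 152) (nat_lit 1174057921) (nat_lit 228) (nat_lit 23778068150) (nat_lit 142) (nat_lit 5) (nat_lit 144) (nat_lit 5)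 (nat_lit 145) (nat_lit 5) (nat_lit 423) (nat_lit 362) (nat_lit 235)) (XT.lf (nat_lit 0) (nat_lit 11519695839) (nat_lit 152) (nat_lit 20326654364) (nat_lit 76) (nat_lit 40120323663) (nat_lit 140) (nat_lit 5) (nat_lit 142) (nat_lit 5) (nat_lit 141) (nat_lit 5) (nat_lit 424) (nat_lit 362) (nat_lit 234))))))) (XT.nd (nat_lit 48282) (nat_lit 0) (nat_lit 17784) (XT.nd (nat_lit 468) (nat_lit 1064) (nat_lit 0) (XT.nd (nat_lit 234) (nat_lit 608) (nat_lit 0) (XT.nd (nat_lit 78) (nat_lit 304) (nat_lit 0) (XT.lf (nat_lit 0) (nat_lit 49025365375) (nat_lit 228) (nat_lit 15239876082) (nat_lit 76) (nat_lit 10024438018) (nat_lit 138) (nat_lit 5) (nat_lit 141) (nat_lit 5) (nat_lit 139) (nat_lit 4) (nat_lit 425) (nat_lit 362) (nat_lit 233)) (XT.nd (nat_lit 78) (nat_lit 152) (nat_lit 0) (XT.lf (nat_lit 0) (nat_lit 12630897694) (nat_lit 152) (nat_lit 9749735420) (nat_lit 76) (nat_lit 54309396182) (nat_lit 136) (nat_lit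 5) (nat_lit 138) (nat_lit 5) (nat_lit 137) (nat_lit 5) (nat_lit 426) (nat_lit 362) (nat_lit 232)) (XT.lf (nat_lit 0) (nat_lit 52999092517) (nat_lit 228) (nat_lit 3849818749) (nat_lit 76) (nat_lit 22320959275) (nat_lit 134) (nat_lit 5) (nat_lit 137) (nat_lit 5) (nat_lit 135) (nat_lit 4) (nat_lit 427) (nat_lit 362) (nat_lit 231)))) (XT.nd (nat_lit 78) (nat_lit 304) (nat_lit 0) (XT.lf (nat_lit 0) (nat_lit 2653905851) (nat_lit 152) (nat_lit 11861126123) (nat_lit 228) (nat_lit 67219686737) (nat_lit 130) (nat_lit 5) (nat_lit 132) (nat_lit 5) (nat_lit 133) (nat_lit 5) (nat_lit 428) (nat_lit 362) (nat_lit 230)) (XT.nd (nat_lit 78) (nat_lit 228) (nat_lit 0) (XT.lf (nat_lit 0) (nat_lit 9587655636) (nat_lit 76) (nat_lit 48440299899) (nat_lit 152) (nat_lit 26352058010) (nat_lit 129) (nat_lit 5) (nat_lit 130) (nat_lit 5) (nat_lit 131) (nat_lit 4) (nat_lit 429) (nat_lit 362) (nat_lit 229)) (XT.lf (nat_lit 0)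 (nat_lit 17244437499) (nat_lit 152) (nat_lit 91674103) (nat_lit 228) (nat_lit 69783677746) (nat_lit 126) (nat_lit 5) (nat_lit 128) (nat_lit 5) (nat_lit 129) (nat_lit 5) (nat_lit 430) (nat_lit 362) (nat_lit 228))))) (XT.nd (nat_lit 234) (nat_lit 684) (nat_lit 0) (XT.nd (nat_lit 78) (nat_lit 304) (nat_lit 0) (XT.lf (nat_lit 0) (nat_lit 25189570651) (nat_lit 76) (nat_lit 38978809481) (nat_lit 152) (nat_lit 25775205724) (nat_lit 125) (nat_lit 5) (nat_lit 126) (nat_lit 5) (nat_lit 127) (nat_lit 4) (nat_lit 431) (nat_lit 362) (nat_lit 227)) (XT.nd (nat_lit 78) (nat_lit 76) (nat_lit 0) (XT.lf (nat_lit 0) (nat_lit 21206799063) (nat_lit 228) (nat_lit 58968788565) (nat_lit 76) (nat_lit 12691936605) (nat_lit 122) (nat_lit 5) (nat_lit 125) (nat_lit 5) (nat_lit 123) (nat_lit 4) (nat_lit 432) (nat_lit 362) (nat_lit 226)) (XT.lf (nat_lit 0) (nat_lit 43086923516) (nat_lit 76) (nat_lit 28396771566) (nat_lit 152)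 (nat_lit 24401942591) (nat_lit 121) (nat_lit 5) (nat_lit 122) (nat_lit 5) (nat_lit 123) (nat_lit 4) (nat_lit 433) (nat_lit 362) (nat_lit 225)))) (XT.nd (nat_lit 234) (nat_lit 380) (nat_lit 0) (XT.nd (nat_lit 78) (nat_lit 76) (nat_lit 0) (XT.lf (nat_lit 0) (nat_lit 26108639572) (nat_lit 228) (nat_lit 46058743421) (nat_lit 76) (nat_lit 26838571280) (nat_lit 118) (nat_lit 5) (nat_lit 121) (nat_lit 5) (nat_lit 119) (nat_lit 4) (nat_lit 434) (nat_lit 362) (nat_lit 224)) (XT.lf (nat_lit 0) (nat_lit 63505900295) (nat_lit 76) (nat_lit 16578240773) (nat_lit 152) (nat_lit 22147575737) (nat_lit 117) (nat_lit 5) (nat_lit 118) (nat_lit 5) (nat_lit 119) (nat_lit 4) (nat_lit 435) (nat_lit 362) (nat_lit 223))) (XT.nd (nat_lit 78) (nat_lit 152) (nat_lit 0) (XT.lf (nat_lit 0) (nat_lit 86692794980) (nat_lit 76) (nat_lit 3397091109) (nat_lit 152) (nat_lit 18919225966) (nat_lit 114) (nat_lit 5) (nat_lit 115) (nat_lit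 5) (nat_lit 116) (nat_lit 4) (nat_lit 437) (nat_lit 362) (nat_lit 221)) (XT.lf (nat_lit 0) (nat_lit 39418868170) (nat_lit 152) (nat_lit 13372310015) (nat_lit 76) (nat_lit 59771083696) (nat_lit 112) (nat_lit 5) (nat_lit 114) (nat_lit 5) (nat_lit 113) (nat_lit 4) (nat_lit 438) (nat_lit 362) (nat_lit 220)))))) (XT.nd (nat_lit 546) (nat_lit 2280) (nat_lit 0) (XT.nd (nat_lit 234) (nat_lit 1140) (nat_lit 0) (XT.nd (nat_lit 78) (nat_lit 0) (nat_lit 0) (XT.lf (nat_lit 0) (nat_lit 2770826212) (nat_lit 0) (nat_lit 2770826212) (nat_lit 1140) (nat_lit 833244221) (nat_lit 391) (nat_lit 5) (nat_lit 391) (nat_lit 3) (nat_lit 406) (nat_lit 3) (nat_lit 363) (nat_lit 363) (nat_lit 294)) (XT.nd (nat_lit 78) (nat_lit 0) (nat_lit 76) (XT.lf (nat_lit 76) (nat_lit 3443618543) (nat_lit 0) (nat_lit 8676684372) (nat_lit 1216) (nat_lit 925437746) (nat_lit 392) (nat_lit 5) (nat_lit 391) (nat_lit 5) (nat_lit 407) (nat_lit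 5) (nat_lit 364) (nat_lit 363) (nat_lit 293)) (XT.lf (nat_lit 76) (nat_lit 1356733805) (nat_lit 0) (nat_lit 11964706032) (nat_lit 1216) (nat_lit 31676893) (nat_lit 393) (nat_lit 5) (nat_lit 392) (nat_lit 5) (nat_lit 408) (nat_lit 5) (nat_lit 365) (nat_lit 363) (nat_lit 292)))) (XT.nd (nat_lit 156) (nat_lit 0) (nat_lit 152) (XT.nd (nat_lit 78) (nat_lit 0) (nat_lit 76) (XT.lf (nat_lit 0) (nat_lit 1034272747) (nat_lit 1216) (nat_lit 731489660) (nat_lit 1292) (nat_lit 11905481848) (nat_lit 376) (nat_lit 5) (nat_lit 392) (nat_lit 5) (nat_lit 393) (nat_lit 5) (nat_lit 366) (nat_lit 363) (nat_lit 291)) (XT.lf (nat_lit 0) (nat_lit 2308422696) (nat_lit 1216) (nat_lit 2798028049) (nat_lit 1292) (nat_lit 8894151264) (nat_lit 377) (nat_lit 5) (nat_lit 393) (nat_lit 5) (nat_lit 394) (nat_lit 5) (nat_lit 367) (nat_lit 363) (nat_lit 290))) (XT.nd (nat_lit 78) (nat_lit 0) (nat_lit 76) (XT.lf (nat_lit 0) (nat_lit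 3781056648) (nat_lit 1216) (nat_lit 4854111236) (nat_lit 1292) (nat_lit 5707216470) (nat_lit 378) (nat_lit 5) (nat_lit 394) (nat_lit 5) (nat_lit 395) (nat_lit 5) (nat_lit 368) (nat_lit 363) (nat_lit 289)) (XT.lf (nat_lit 0) (nat_lit 5469334087) (nat_lit 1216) (nat_lit 6898142664) (nat_lit 1292) (nat_lit 2329518713) (nat_lit 379) (nat_lit 5) (nat_lit 395) (nat_lit 5) (nat_lit 396) (nat_lit 5) (nat_lit 369) (nat_lit 363) (nat_lit 288))))) (XT.nd (nat_lit 234) (nat_lit 2508) (nat_lit 0) (XT.nd (nat_lit 78) (nat_lit 0) (nat_lit 76) (XT.lf (nat_lit 76) (nat_lit 6124079715) (nat_lit 0) (nat_lit 1279393816) (nat_lit 1292) (nat_lit 7661020154) (nat_lit 380) (nat_lit 5) (nat_lit 379) (nat_lit 5) (nat_lit 396) (nat_lit 5) (nat_lit 370) (nat_lit 363) (nat_lit 287)) (XT.nd (nat_lit 78) (nat_lit 0) (nat_lit 76) (XT.lf (nat_lit 76) (nat_lit 4453731576) (nat_lit 0) (nat_lit 5161198743) (nat_lit 1292) (nat_lit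 5830018188) (nat_lit 381) (nat_lit 5) (nat_lit 380) (nat_lit 5) (nat_lit 397) (nat_lit 5) (nat_lit 371) (nat_lit 363) (nat_lit 286)) (XT.lf (nat_lit 76) (nat_lit 2814498853) (nat_lit 0) (nat_lit 9286140481) (nat_lit 1292) (nat_lit 3738876353) (nat_lit 382) (nat_lit 5) (nat_lit 381) (nat_lit 5) (nat_lit 398) (nat_lit 5) (nat_lit 372) (nat_lit 363) (nat_lit 285)))) (XT.nd (nat_lit 156) (nat_lit 1444) (nat_lit 0) (XT.nd (nat_lit 78) (nat_lit 76) (nat_lit 0) (XT.lf (nat_lit 0) (nat_lit 1210011462) (nat_lit 1216) (nat_lit 13671303422) (nat_lit 1292) (nat_lit 1367375910) (nat_lit 366) (nat_lit 5) (nat_lit 382) (nat_lit 5) (nat_lit 383) (nat_lit 5) (nat_lit 373) (nat_lit 363) (nat_lit 284)) (XT.lf (nat_lit 0) (nat_lit 1300068629) (nat_lit 1292) (nat_lit 377683019) (nat_lit 76) (nat_lit 14994270937) (nat_lit 365) (nat_lit 5) (nat_lit 382) (nat_lit 5) (nat_lit 366) (nat_lit 5) (nat_lit 374) (nat_lit 363)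 (nat_lit 283))) (XT.nd (nat_lit 78) (nat_lit 608) (nat_lit 0) (XT.lf (nat_lit 0) (nat_lit 4297815627) (nat_lit 912) (nat_lit 1943709818) (nat_lit 76) (nat_lit 10867833079) (nat_lit 354) (nat_lit 5) (nat_lit 366) (nat_lit 5) (nat_lit 355) (nat_lit 5) (nat_lit 375) (nat_lit 363) (nat_lit 282)) (XT.lf (nat_lit 0) (nat_lit 7638422455) (nat_lit 684) (nat_lit 3468408070) (nat_lit 76) (nat_lit 6455941560) (nat_lit 346) (nat_lit 5) (nat_lit 355) (nat_lit 5) (nat_lit 347) (nat_lit 5) (nat_lit 376) (nat_lit 363) (nat_lit 281))))))))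
noncomputable def xc85 : XT := (XT.nd (nat_lit 2106) (nat_lit 5396) (nat_lit 0) (XT.nd (nat_lit 1014) (nat_lit 4560) (nat_lit 0) (XT.nd (nat_lit 468) (nat_lit 3192) (nat_lit 0) (XT.nd (nat_lit 234) (nat_lit 1520) (nat_lit 0) (XT.nd (nat_lit 78) (nat_lit 1216) (nat_lit 0) (XT.lf (nat_lit 0) (nat_lit 11346071386) (nat_lit 684) (nat_lit 4946663060) (nat_lit 76) (nat_lit 1740121526) (nat_lit 338) (nat_lit 5) (nat_lit 347) (nat_lit 5) (nat_lit 339) (nat_lit 5) (nat_lit 377) (nat_lit 363) (nat_lit 280)) (XT.nd (nat_lit 78) (nat_lit 684) (nat_lit 0) (XT.lf (nat_lit 0) (nat_lit 12114086273) (nat_lit 532) (nat_lit 3364427749) (nat_lit 608) (nat_lit 3040747693) (nat_lit 331) (nat_lit 5) (nat_lit 338) (nat_lit 5) (nat_lit 339) (nat_lit 5) (nat_lit 378) (nat_lit 363) (nat_lit 279)) (XT.lf (nat_lit 0) (nat_lit 1007494919) (nat_lit 684) (nat_lit 7835715525) (nat_lit 76) (nat_lit 10179491999) (nat_lit 322) (nat_lit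 5) (nat_lit 331) (nat_lit 5) (nat_lit 323) (nat_lit 5) (nat_lit 379) (nat_lit 363) (nat_lit 278)))) (XT.nd (nat_lit 78) (nat_lit 988) (nat_lit 0) (XT.lf (nat_lit 0) (nat_lit 5420268929) (nat_lit 608) (nat_lit 9238172317) (nat_lit 76) (nat_lit 4885220571) (nat_lit 315) (nat_lit 5) (nat_lit 323) (nat_lit 5) (nat_lit 316) (nat_lit 5) (nat_lit 380) (nat_lit 363) (nat_lit 277)) (XT.nd (nat_lit 78) (nat_lit 456) (nat_lit 0) (XT.lf (nat_lit 0) (nat_lit 9499414323) (nat_lit 532) (nat_lit 793611831) (nat_lit 608) (nat_lit 9790462670) (nat_lit 308) (nat_lit 5) (nat_lit 315) (nat_lit 5) (nat_lit 316) (nat_lit 5) (nat_lit 381) (nat_lit 363) (nat_lit 276)) (XT.lf (nat_lit 0) (nat_lit 8731550128) (nat_lit 456) (nat_lit 6968290853) (nat_lit 532) (nat_lit 4941753608) (nat_lit 302) (nat_lit 5) (nat_lit 308) (nat_lit 5) (nat_lit 309) (nat_lit 5) (nat_lit 382) (nat_lit 363) (nat_lit 275))))) (XT.nd (nat_lit 234)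 (nat_lit 1672) (nat_lit 0) (XT.nd (nat_lit 78) (nat_lit 912) (nat_lit 0) (XT.lf (nat_lit 0) (nat_lit 396524146) (nat_lit 608) (nat_lit 13164188693) (nat_lit 76) (nat_lit 7659348272) (nat_lit 294) (nat_lit 5) (nat_lit 302) (nat_lit 5) (nat_lit 295) (nat_lit 5) (nat_lit 383) (nat_lit 363) (nat_lit 274)) (XT.nd (nat_lit 78) (nat_lit 456) (nat_lit 0) (XT.lf (nat_lit 0) (nat_lit 6158137332) (nat_lit 532) (nat_lit 14386675924) (nat_lit 76) (nat_lit 1273411116) (nat_lit 288) (nat_lit 5) (nat_lit 295) (nat_lit 5) (nat_lit 289) (nat_lit 5) (nat_lit 384) (nat_lit 363) (nat_lit 273)) (XT.lf (nat_lit 0) (nat_lit 6861127605) (nat_lit 456) (nat_lit 5666571109) (nat_lit 532) (nat_lit 9909001057) (nat_lit 282) (nat_lit 5) (nat_lit 288) (nat_lit 5) (nat_lit 289) (nat_lit 5) (nat_lit 385) (nat_lit 363) (nat_lit 272)))) (XT.nd (nat_lit 156) (nat_lit 760) (nat_lit 0) (XT.nd (nat_lit 78) (nat_lit 532) (nat_lit 0) (XT.lf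 (nat_lit 0) (nat_lit 6393595560) (nat_lit 380) (nat_lit 13109722476) (nat_lit 456) (nat_lit 3574153506) (nat_lit 277) (nat_lit 5) (nat_lit 282) (nat_lit 5) (nat_lit 283) (nat_lit 5) (nat_lit 386) (nat_lit 363) (nat_lit 271)) (XT.lf (nat_lit 0) (nat_lit 3302623811) (nat_lit 532) (nat_lit 17721385461) (nat_lit 76) (nat_lit 2716827988) (nat_lit 270) (nat_lit 5) (nat_lit 277) (nat_lit 5) (nat_lit 271) (nat_lit 5) (nat_lit 387) (nat_lit 363) (nat_lit 270))) (XT.nd (nat_lit 78) (nat_lit 380) (nat_lit 0) (XT.lf (nat_lit 0) (nat_lit 5691558266) (nat_lit 380) (nat_lit 5100898123) (nat_lit 456) (nat_lit 13633559182) (nat_lit 265) (nat_lit 5) (nat_lit 270) (nat_lit 5) (nat_lit 271) (nat_lit 5) (nat_lit 388) (nat_lit 363) (nat_lit 269)) (XT.lf (nat_lit 0) (nat_lit 5475281469) (nat_lit 380) (nat_lit 13512599217) (nat_lit 456) (nat_lit 6147639110) (nat_lit 260) (nat_lit 5) (nat_lit 265) (nat_lit 5) (nat_lit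 266) (nat_lit 5) (nat_lit 389) (nat_lit 363) (nat_lit 268)))))) (XT.nd (nat_lit 546) (nat_lit 1976) (nat_lit 0) (XT.nd (nat_lit 234) (nat_lit 1444) (nat_lit 0) (XT.nd (nat_lit 78) (nat_lit 684) (nat_lit 0) (XT.lf (nat_lit 0) (nat_lit 1993856558) (nat_lit 456) (nat_lit 20479800487) (nat_lit 76) (nat_lit 3396907373) (nat_lit 254) (nat_lit 5) (nat_lit 260) (nat_lit 5) (nat_lit 255) (nat_lit 5) (nat_lit 390) (nat_lit 363) (nat_lit 267)) (XT.nd (nat_lit 78) (nat_lit 304) (nat_lit 0) (XT.lf (nat_lit 0) (nat_lit 5349826660) (nat_lit 380) (nat_lit 5442370928) (nat_lit 456) (nat_lit 15837030256) (nat_lit 249) (nat_lit 5) (nat_lit 254) (nat_lit 5) (nat_lit 255) (nat_lit 5) (nat_lit 391) (nat_lit 363) (nat_lit 266)) (XT.lf (nat_lit 0) (nat_lit 5441154617) (nat_lit 304) (nat_lit 14958137649) (nat_lit 380) (nat_lit 7015467078) (nat_lit 245) (nat_lit 5) (nat_lit 249) (nat_lit 5) (nat_lit 250) (nat_lit 5) (nat_lit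 392) (nat_lit 363) (nat_lit 265)))) (XT.nd (nat_lit 156) (nat_lit 684) (nat_lit 0) (XT.nd (nat_lit 78) (nat_lit 304) (nat_lit 0) (XT.lf (nat_lit 0) (nat_lit 2549663739) (nat_lit 456) (nat_lit 22540297829) (nat_lit 76) (nat_lit 3138567615) (nat_lit 239) (nat_lit 5) (nat_lit 245) (nat_lit 5) (nat_lit 240) (nat_lit 5) (nat_lit 393) (nat_lit 363) (nat_lit 264)) (XT.lf (nat_lit 0) (nat_lit 5986787078) (nat_lit 304) (nat_lit 6884386256) (nat_lit 380) (nat_lit 16197033992) (nat_lit 235) (nat_lit 5) (nat_lit 239) (nat_lit 5) (nat_lit 240) (nat_lit 5) (nat_lit 394) (nat_lit 363) (nat_lit 263))) (XT.nd (nat_lit 78) (nat_lit 380) (nat_lit 0) (XT.lf (nat_lit 0) (nat_lit 6452491871) (nat_lit 304) (nat_lit 17655544433) (nat_lit 380) (nat_lit 5829854738) (nat_lit 231) (nat_lit 5) (nat_lit 235) (nat_lit 5) (nat_lit 236) (nat_lit 5) (nat_lit 395) (nat_lit 363) (nat_lit 262)) (XT.lf (nat_lit 0) (nat_lit 5337487861)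 (nat_lit 380) (nat_lit 23757760166) (nat_lit 76) (nat_lit 1742939195) (nat_lit 226) (nat_lit 5) (nat_lit 231) (nat_lit 5) (nat_lit 227) (nat_lit 5) (nat_lit 396) (nat_lit 363) (nat_lit 261))))) (XT.nd (nat_lit 234) (nat_lit 1064) (nat_lit 0) (XT.nd (nat_lit 78) (nat_lit 608) (nat_lit 0) (XT.lf (nat_lit 0) (nat_lit 7780181511) (nat_lit 304) (nat_lit 9646822309) (nat_lit 380) (nat_lit 14340231454) (nat_lit 222) (nat_lit 5) (nat_lit 226) (nat_lit 5) (nat_lit 227) (nat_lit 5) (nat_lit 397) (nat_lit 363) (nat_lit 260)) (XT.nd (nat_lit 78) (nat_lit 380) (nat_lit 0) (XT.lf (nat_lit 0) (nat_lit 8698848026) (nat_lit 228) (nat_lit 21842823548) (nat_lit 304) (nat_lit 2188443876) (nat_lit 219) (nat_lit 5) (nat_lit 222) (nat_lit 5) (nat_lit 223) (nat_lit 5) (nat_lit 398) (nat_lit 363) (nat_lit 259)) (XT.lf (nat_lit 0) (nat_lit 9754838099) (nat_lit 304) (nat_lit 1037147154) (nat_lit 380) (nat_lit 22933286078)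 (nat_lit 214) (nat_lit 5) (nat_lit 218) (nat_lit 5) (nat_lit 219) (nat_lit 5) (nat_lit 399) (nat_lit 363) (nat_lit 258)))) (XT.nd (nat_lit 156) (nat_lit 456) (nat_lit 0) (XT.nd (nat_lit 78) (nat_lit 380) (nat_lit 0) (XT.lf (nat_lit 0) (nat_lit 10938167548) (nat_lit 228) (nat_lit 13980615914) (nat_lit 304) (nat_lit 9834473272) (nat_lit 211) (nat_lit 5) (nat_lit 214) (nat_lit 5) (nat_lit 215) (nat_lit 5) (nat_lit 400) (nat_lit 363) (nat_lit 257)) (XT.lf (nat_lit 0) (nat_lit 4288646732) (nat_lit 380) (nat_lit 23459634869) (nat_lit 76) (nat_lit 8069854195) (nat_lit 206) (nat_lit 5) (nat_lit 211) (nat_lit 5) (nat_lit 207) (nat_lit 5) (nat_lit 401) (nat_lit 363) (nat_lit 256))) (XT.nd (nat_lit 78) (nat_lit 228) (nat_lit 0) (XT.lf (nat_lit 0) (nat_lit 13918572796) (nat_lit 228) (nat_lit 5508156035) (nat_lit 304) (nat_lit 17491242907) (nat_lit 203) (nat_lit 5) (nat_lit 206) (nat_lit 5) (nat_lit 207) (nat_lit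 5) (nat_lit 402) (nat_lit 363) (nat_lit 255)) (XT.lf (nat_lit 0) (nat_lit 15703407959) (nat_lit 228) (nat_lit 20172817723) (nat_lit 304) (nat_lit 2179938476) (nat_lit 200) (nat_lit 5) (nat_lit 203) (nat_lit 5) (nat_lit 204) (nat_lit 5) (nat_lit 403) (nat_lit 363) (nat_lit 254))))))) (XT.nd (nat_lit 1014) (nat_lit 2356) (nat_lit 0) (XT.nd (nat_lit 468) (nat_lit 1520) (nat_lit 0) (XT.nd (nat_lit 234) (nat_lit 684) (nat_lit 0) (XT.nd (nat_lit 78) (nat_lit 532) (nat_lit 0) (XT.lf (nat_lit 0) (nat_lit 14114059128) (nat_lit 304) (nat_lit 21555809291) (nat_lit 76) (nat_lit 3562740992) (nat_lit 196) (nat_lit 5) (nat_lit 200) (nat_lit 5) (nat_lit 197) (nat_lit 5) (nat_lit 404) (nat_lit 363) (nat_lit 253)) (XT.nd (nat_lit 78) (nat_lit 304) (nat_lit 0) (XT.lf (nat_lit 0) (nat_lit 19854646749) (nat_lit 228) (nat_lit 11939005086) (nat_lit 304) (nat_lit 8655098194) (nat_lit 193) (nat_lit 5) (nat_lit 196) (nat_lit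 5) (nat_lit 197) (nat_lit 5) (nat_lit 405) (nat_lit 363) (nat_lit 252)) (XT.lf (nat_lit 0) (nat_lit 9021341729) (nat_lit 304) (nat_lit 19439775431) (nat_lit 76) (nat_lit 13245343950) (nat_lit 189) (nat_lit 5) (nat_lit 193) (nat_lit 5) (nat_lit 190) (nat_lit 5) (nat_lit 406) (nat_lit 363) (nat_lit 251)))) (XT.nd (nat_lit 78) (nat_lit 456) (nat_lit 0) (XT.lf (nat_lit 0) (nat_lit 24938590787) (nat_lit 228) (nat_lit 3029252430) (nat_lit 304) (nat_lit 15039686499) (nat_lit 186) (nat_lit 5) (nat_lit 189) (nat_lit 5) (nat_lit 190) (nat_lit 5) (nat_lit 407) (nat_lit 363) (nat_lit 250)) (XT.nd (nat_lit 78) (nat_lit 228) (nat_lit 0) (XT.lf (nat_lit 0) (nat_lit 4113857677) (nat_lit 228) (nat_lit 16522583764) (nat_lit 76) (nat_lit 23715387338) (nat_lit 183) (nat_lit 5) (nat_lit 186) (nat_lit 5) (nat_lit 184) (nat_lit 5) (nat_lit 408) (nat_lit 363) (nat_lit 249)) (XT.lf (nat_lit 0) (nat_lit 24487193708) (nat_lit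 304) (nat_lit 14761152109) (nat_lit 76) (nat_lit 6493334994) (nat_lit 180) (nat_lit 5) (nat_lit 184) (nat_lit 5) (nat_lit 181) (nat_lit 5) (nat_lit 409) (nat_lit 363) (nat_lit 248))))) (XT.nd (nat_lit 234) (nat_lit 912) (nat_lit 0) (XT.nd (nat_lit 78) (nat_lit 456) (nat_lit 0) (XT.lf (nat_lit 0) (nat_lit 34453086961) (nat_lit 152) (nat_lit 12127357577) (nat_lit 228) (nat_lit 599543464) (nat_lit 178) (nat_lit 5) (nat_lit 180) (nat_lit 5) (nat_lit 181) (nat_lit 5) (nat_lit 410) (nat_lit 363) (nat_lit 247)) (XT.nd (nat_lit 78) (nat_lit 152) (nat_lit 0) (XT.lf (nat_lit 0) (nat_lit 21352521604) (nat_lit 304) (nat_lit 10556584894) (nat_lit 76) (nat_lit 16754746293) (nat_lit 174) (nat_lit 5) (nat_lit 178) (nat_lit 5) (nat_lit 175) (nat_lit 5) (nat_lit 411) (nat_lit 363) (nat_lit 246)) (XT.lf (nat_lit 0) (nat_lit 42208187148) (nat_lit 152) (nat_lit 2832624182) (nat_lit 228) (nat_lit 5161390779) (nat_lit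 172) (nat_lit 5) (nat_lit 174) (nat_lit 5) (nat_lit 175) (nat_lit 5) (nat_lit 412) (nat_lit 363) (nat_lit 245)))) (XT.nd (nat_lit 156) (nat_lit 532) (nat_lit 0) (XT.nd (nat_lit 78) (nat_lit 152) (nat_lit 0) (XT.lf (nat_lit 0) (nat_lit 18566051131) (nat_lit 228) (nat_lit 5331119514) (nat_lit 76) (nat_lit 27890386034) (nat_lit 169) (nat_lit 5) (nat_lit 172) (nat_lit 5) (nat_lit 170) (nat_lit 5) (nat_lit 413) (nat_lit 363) (nat_lit 244)) (XT.lf (nat_lit 0) (nat_lit 44039312515) (nat_lit 228) (nat_lit 2253677810) (nat_lit 76) (nat_lit 7137669781) (nat_lit 167) (nat_lit 5) (nat_lit 170) (nat_lit 5) (nat_lit 168) (nat_lit 5) (nat_lit 414) (nat_lit 363) (nat_lit 243))) (XT.nd (nat_lit 78) (nat_lit 152) (nat_lit 0) (XT.lf (nat_lit 0) (nat_lit 1039462398) (nat_lit 152) (nat_lit 15133052840) (nat_lit 228) (nat_lit 38953479997) (nat_lit 162) (nat_lit 5) (nat_lit 164) (nat_lit 5) (nat_lit 165) (nat_lit 5)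 (nat_lit 415) (nat_lit 363) (nat_lit 242)) (XT.lf (nat_lit 0) (nat_lit 4729768422) (nat_lit 152) (nat_lit 38900983032) (nat_lit 228) (nat_lit 13248243926) (nat_lit 160) (nat_lit 5) (nat_lit 162) (nat_lit 5) (nat_lit 163) (nat_lit 5) (nat_lit 416) (nat_lit 363) (nat_lit 241)))))) (XT.nd (nat_lit 546) (nat_lit 1140) (nat_lit 0) (XT.nd (nat_lit 234) (nat_lit 608) (nat_lit 0) (XT.nd (nat_lit 78) (nat_lit 380) (nat_lit 0) (XT.lf (nat_lit 0) (nat_lit 8779239214) (nat_lit 152) (nat_lit 5485532126) (nat_lit 228) (nat_lit 44427190876) (nat_lit 157) (nat_lit 5) (nat_lit 159) (nat_lit 5) (nat_lit 160) (nat_lit 5) (nat_lit 417) (nat_lit 363) (nat_lit 240)) (XT.nd (nat_lit 78) (nat_lit 228) (nat_lit 0) (XT.lf (nat_lit 0) (nat_lit 13080450568) (nat_lit 152) (nat_lit 30745422487) (nat_lit 228) (nat_lit 16737376325) (nat_lit 155) (nat_lit 5) (nat_lit 157) (nat_lit 5) (nat_lit 158) (nat_lit 5) (nat_lit 418) (nat_lit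 363) (nat_lit 239)) (XT.lf (nat_lit 0) (nat_lit 12883018940) (nat_lit 228) (nat_lit 44642499264) (nat_lit 76) (nat_lit 4975420159) (nat_lit 152) (nat_lit 5) (nat_lit 155) (nat_lit 5) (nat_lit 153) (nat_lit 5) (nat_lit 419) (nat_lit 363) (nat_lit 238)))) (XT.nd (nat_lit 156) (nat_lit 304) (nat_lit 0) (XT.nd (nat_lit 78) (nat_lit 152) (nat_lit 0) (XT.lf (nat_lit 0) (nat_lit 22885525635) (nat_lit 152) (nat_lit 21771743067) (nat_lit 228) (nat_lit 19842701913) (nat_lit 150) (nat_lit 5) (nat_lit 152) (nat_lit 5) (nat_lit 153) (nat_lit 5) (nat_lit 420) (nat_lit 363) (nat_lit 237)) (XT.lf (nat_lit 0) (nat_lit 12089025707) (nat_lit 152) (nat_lit 38167723136) (nat_lit 76) (nat_lit 16312193404) (nat_lit 148) (nat_lit 5) (nat_lit 150) (nat_lit 5) (nat_lit 149) (nat_lit 5) (nat_lit 421) (nat_lit 363) (nat_lit 236))) (XT.nd (nat_lit 78) (nat_lit 152) (nat_lit 0) (XT.lf (nat_lit 0) (nat_lit 34289040971) (nat_lit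 152) (nat_lit 11895892477) (nat_lit 228) (nat_lit 22521196003) (nat_lit 146) (nat_lit 5) (nat_lit 148) (nat_lit 5) (nat_lit 149) (nat_lit 5) (nat_lit 422) (nat_lit 363) (nat_lit 235)) (XT.lf (nat_lit 0) (nat_lit 11884064822) (nat_lit 152) (nat_lit 30303455143) (nat_lit 76) (nat_lit 28727555288) (nat_lit 144) (nat_lit 5) (nat_lit 146) (nat_lit 5) (nat_lit 145) (nat_lit 5) (nat_lit 423) (nat_lit 363) (nat_lit 234))))) (XT.nd (nat_lit 234) (nat_lit 684) (nat_lit 0) (XT.nd (nat_lit 78) (nat_lit 304) (nat_lit 0) (XT.lf (nat_lit 0) (nat_lit 47448079425) (nat_lit 152) (nat_lit 1026542503) (nat_lit 228) (nat_lit 24725232768) (nat_lit 142) (nat_lit 5) (nat_lit 144) (nat_lit 5) (nat_lit 145) (nat_lit 5) (nat_lit 424) (nat_lit 363) (nat_lit 233)) (XT.nd (nat_lit 78) (nat_lit 152) (nat_lit 0) (XT.lf (nat_lit 0) (nat_lit 12327527404) (nat_lit 152) (nat_lit 20905181848) (nat_lit 76) (nat_lit 42325342905) (nat_lit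 140) (nat_lit 5) (nat_lit 142) (nat_lit 5) (nat_lit 141) (nat_lit 5) (nat_lit 425) (nat_lit 363) (nat_lit 232)) (XT.lf (nat_lit 0) (nat_lit 51703453907) (nat_lit 228) (nat_lit 15571793419) (nat_lit 76) (nat_lit 10722111515) (nat_lit 138) (nat_lit 5) (nat_lit 141) (nat_lit 5) (nat_lit 139) (nat_lit 4) (nat_lit 426) (nat_lit 363) (nat_lit 231)))) (XT.nd (nat_lit 156) (nat_lit 380) (nat_lit 0) (XT.nd (nat_lit 78) (nat_lit 152) (nat_lit 0) (XT.lf (nat_lit 0) (nat_lit 13484656094) (nat_lit 152) (nat_lit 9815051294) (nat_lit 76) (nat_lit 57218156967) (nat_lit 136) (nat_lit 5) (nat_lit 138) (nat_lit 5) (nat_lit 137) (nat_lit 5) (nat_lit 427) (nat_lit 363) (nat_lit 230)) (XT.lf (nat_lit 0) (nat_lit 55866490512) (nat_lit 228) (nat_lit 3627642634) (nat_lit 76) (nat_lit 23627707621) (nat_lit 134) (nat_lit 5) (nat_lit 137) (nat_lit 5) (nat_lit 135) (nat_lit 4) (nat_lit 428) (nat_lit 363) (nat_lit 229))) (XT.nd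 (nat_lit 78) (nat_lit 76) (nat_lit 0) (XT.lf (nat_lit 0) (nat_lit 3201722463) (nat_lit 152) (nat_lit 12256100928) (nat_lit 228) (nat_lit 70357120061) (nat_lit 130) (nat_lit 5) (nat_lit 132) (nat_lit 5) (nat_lit 133) (nat_lit 5) (nat_lit 429) (nat_lit 363) (nat_lit 228)) (XT.lf (nat_lit 0) (nat_lit 10474735419) (nat_lit 76) (nat_lit 50667054924) (nat_lit 152) (nat_lit 27450850768) (nat_lit 129) (nat_lit 5) (nat_lit 130) (nat_lit 5) (nat_lit 131) (nat_lit 4) (nat_lit 430) (nat_lit 363) (nat_lit 227))))))))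
noncomputable def xc86 : XT := (XT.nd (nat_lit 49452) (nat_lit 0) (nat_lit 5016) (XT.nd (nat_lit 48360) (nat_lit 0) (nat_lit 14288) (XT.nd (nat_lit 546) (nat_lit 76) (nat_lit 0) (XT.nd (nat_lit 234) (nat_lit 532) (nat_lit 0) (XT.nd (nat_lit 78) (nat_lit 304) (nat_lit 0) (XT.lf (nat_lit 0) (nat_lit 18412008113) (nat_lit 228) (nat_lit 72963636698) (nat_lit 76) (nat_lit 93861276) (nat_lit 126) (nat_lit 5) (nat_lit 129) (nat_lit 5) (nat_lit 127) (nat_lit 4) (nat_lit 431) (nat_lit 363) (nat_lit 226)) (XT.nd (nat_lit 78) (nat_lit 228) (nat_lit 0) (XT.lf (nat_lit 0) (nat_lit 26842010081) (nat_lit 76) (nat_lit 40738581886) (nat_lit 152) (nat_lit 26854059397) (nat_lit 125) (nat_lit 5) (nat_lit 126) (nat_lit 5) (nat_lit 127) (nat_lit 4) (nat_lit 432) (nat_lit 363) (nat_lit 225)) (XT.lf (nat_lit 0) (nat_lit 22468643980) (nat_lit 228) (nat_lit 61527348639) (nat_lit 76) (nat_lit 13508862677) (nat_lit 122) (nat_lit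 5) (nat_lit 125) (nat_lit 5) (nat_lit 123) (nat_lit 4) (nat_lit 433) (nat_lit 363) (nat_lit 224)))) (XT.nd (nat_lit 78) (nat_lit 456) (nat_lit 0) (XT.lf (nat_lit 0) (nat_lit 45619973233) (nat_lit 76) (nat_lit 29633456423) (nat_lit 152) (nat_lit 25420623407) (nat_lit 121) (nat_lit 5) (nat_lit 122) (nat_lit 5) (nat_lit 123) (nat_lit 4) (nat_lit 434) (nat_lit 363) (nat_lit 223)) (XT.nd (nat_lit 156) (nat_lit 228) (nat_lit 0) (XT.lf (nat_lit 0) (nat_lit 27607456471) (nat_lit 228) (nat_lit 47985995559) (nat_lit 76) (nat_lit 28356998410) (nat_lit 118) (nat_lit 5) (nat_lit 121) (nat_lit 5) (nat_lit 119) (nat_lit 4) (nat_lit 435) (nat_lit 363) (nat_lit 222)) (XT.lf (nat_lit 0) (nat_lit 33935086077) (nat_lit 152) (nat_lit 32120602564) (nat_lit 76) (nat_lit 44778293721) (nat_lit 115) (nat_lit 5) (nat_lit 117) (nat_lit 5) (nat_lit 116) (nat_lit 4) (nat_lit 437) (nat_lit 363) (nat_lit 220))))) (XT.nd (nat_lit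 47502) (nat_lit 0) (nat_lit 19912) (XT.nd (nat_lit 47346) (nat_lit 0) (nat_lit 19836) (XT.lf (nat_lit 0) (nat_lit 91379023688) (nat_lit 76) (nat_lit 3395529692) (nat_lit 152) (nat_lit 19679609089) (nat_lit 114) (nat_lit 5) (nat_lit 115) (nat_lit 5) (nat_lit 116) (nat_lit 4) (nat_lit 438) (nat_lit 363) (nat_lit 219)) (XT.nd (nat_lit 78) (nat_lit 1216) (nat_lit 0) (XT.lf (nat_lit 0) (nat_lit 3246177532) (nat_lit 0) (nat_lit 3246177532) (nat_lit 1140) (nat_lit 181077812) (nat_lit 391) (nat_lit 5) (nat_lit 391) (nat_lit 3) (nat_lit 406) (nat_lit 3) (nat_lit 364) (nat_lit 364) (nat_lit 292)) (XT.lf (nat_lit 0) (nat_lit 343607612) (nat_lit 1216) (nat_lit 9347228415) (nat_lit 1292) (nat_lit 3968581217) (nat_lit 375) (nat_lit 5) (nat_lit 391) (nat_lit 5) (nat_lit 392) (nat_lit 5) (nat_lit 365) (nat_lit 364) (nat_lit 291)))) (XT.nd (nat_lit 156) (nat_lit 0) (nat_lit 76) (XT.nd (nat_lit 78) (nat_lit 0) (nat_lit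 0) (XT.lf (nat_lit 0) (nat_lit 1203630728) (nat_lit 1216) (nat_lit 11848624513) (nat_lit 1292) (nat_lit 931439644) (nat_lit 376) (nat_lit 5) (nat_lit 392) (nat_lit 5) (nat_lit 393) (nat_lit 5) (nat_lit 366) (nat_lit 364) (nat_lit 290)) (XT.lf (nat_lit 0) (nat_lit 2263360127) (nat_lit 1216) (nat_lit 56390013) (nat_lit 1292) (nat_lit 11999735115) (nat_lit 376) (nat_lit 5) (nat_lit 392) (nat_lit 5) (nat_lit 393) (nat_lit 5) (nat_lit 367) (nat_lit 364) (nat_lit 289))) (XT.nd (nat_lit 78) (nat_lit 0) (nat_lit 76) (XT.lf (nat_lit 0) (nat_lit 3547599480) (nat_lit 1216) (nat_lit 2208619092) (nat_lit 1292) (nat_lit 8910700868) (nat_lit 377) (nat_lit 5) (nat_lit 393) (nat_lit 5) (nat_lit 394) (nat_lit 5) (nat_lit 368) (nat_lit 364) (nat_lit 288)) (XT.lf (nat_lit 0) (nat_lit 5043618904) (nat_lit 1216) (nat_lit 4352556709) (nat_lit 1292) (nat_lit 5631122677) (nat_lit 378) (nat_lit 5) (nat_lit 394) (nat_lit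 5) (nat_lit 395) (nat_lit 5) (nat_lit 369) (nat_lit 364) (nat_lit 287)))))) (XT.nd (nat_lit 546) (nat_lit 3952) (nat_lit 0) (XT.nd (nat_lit 234) (nat_lit 1900) (nat_lit 0) (XT.nd (nat_lit 78) (nat_lit 0) (nat_lit 0) (XT.lf (nat_lit 0) (nat_lit 6769194495) (nat_lit 1216) (nat_lit 6486298170) (nat_lit 1292) (nat_lit 2145560762) (nat_lit 379) (nat_lit 5) (nat_lit 395) (nat_lit 5) (nat_lit 396) (nat_lit 5) (nat_lit 370) (nat_lit 364) (nat_lit 286)) (XT.nd (nat_lit 78) (nat_lit 0) (nat_lit 76) (XT.lf (nat_lit 76) (nat_lit 7165343195) (nat_lit 0) (nat_lit 1592887667) (nat_lit 1292) (nat_lit 7029949998) (nat_lit 380) (nat_lit 5) (nat_lit 379) (nat_lit 5) (nat_lit 396) (nat_lit 5) (nat_lit 371) (nat_lit 364) (nat_lit 285)) (XT.lf (nat_lit 76) (nat_lit 5421427964) (nat_lit 0) (nat_lit 5616824719) (nat_lit 1292) (nat_lit 5150665974) (nat_lit 381) (nat_lit 5) (nat_lit 380) (nat_lit 5) (nat_lit 397) (nat_lit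 5) (nat_lit 372) (nat_lit 364) (nat_lit 284)))) (XT.nd (nat_lit 156) (nat_lit 912) (nat_lit 0) (XT.nd (nat_lit 78) (nat_lit 1140) (nat_lit 0) (XT.lf (nat_lit 76) (nat_lit 3708189448) (nat_lit 0) (nat_lit 9900602412) (nat_lit 1292) (nat_lit 2995605995) (nat_lit 382) (nat_lit 5) (nat_lit 381) (nat_lit 5) (nat_lit 398) (nat_lit 5) (nat_lit 373) (nat_lit 364) (nat_lit 283)) (XT.lf (nat_lit 0) (nat_lit 2029613069) (nat_lit 1216) (nat_lit 14461804673) (nat_lit 1292) (nat_lit 543726479) (nat_lit 366) (nat_lit 5) (nat_lit 382) (nat_lit 5) (nat_lit 383) (nat_lit 5) (nat_lit 374) (nat_lit 364) (nat_lit 282))) (XT.nd (nat_lit 78) (nat_lit 0) (nat_lit 0) (XT.lf (nat_lit 0) (nat_lit 349789455) (nat_lit 836) (nat_lit 1851608555) (nat_lit 912) (nat_lit 15279135925) (nat_lit 354) (nat_lit 5) (nat_lit 365) (nat_lit 5) (nat_lit 366) (nat_lit 5) (nat_lit 375) (nat_lit 364) (nat_lit 281)) (XT.lf (nat_lit 0) (nat_lit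 5312123091) (nat_lit 912) (nat_lit 1297769736) (nat_lit 76) (nat_lit 11330951122) (nat_lit 354) (nat_lit 5) (nat_lit 366) (nat_lit 5) (nat_lit 355) (nat_lit 5) (nat_lit 376) (nat_lit 364) (nat_lit 280))))) (XT.nd (nat_lit 234) (nat_lit 2204) (nat_lit 0) (XT.nd (nat_lit 78) (nat_lit 1140) (nat_lit 0) (XT.lf (nat_lit 0) (nat_lit 8788184776) (nat_lit 684) (nat_lit 2896509172) (nat_lit 76) (nat_lit 6733181505) (nat_lit 346) (nat_lit 5) (nat_lit 355) (nat_lit 5) (nat_lit 347) (nat_lit 5) (nat_lit 377) (nat_lit 364) (nat_lit 279)) (XT.nd (nat_lit 78) (nat_lit 532) (nat_lit 0) (XT.lf (nat_lit 0) (nat_lit 12651474101) (nat_lit 684) (nat_lit 4447756964) (nat_lit 76) (nat_lit 1813124732) (nat_lit 338) (nat_lit 5) (nat_lit 347) (nat_lit 5) (nat_lit 339) (nat_lit 5) (nat_lit 378) (nat_lit 364) (nat_lit 278)) (XT.lf (nat_lit 0) (nat_lit 13444639038) (nat_lit 532) (nat_lit 3517719939) (nat_lit 608) (nat_lit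 2461568246) (nat_lit 331) (nat_lit 5) (nat_lit 338) (nat_lit 5) (nat_lit 339) (nat_lit 5) (nat_lit 379) (nat_lit 364) (nat_lit 277)))) (XT.nd (nat_lit 156) (nat_lit 988) (nat_lit 0) (XT.nd (nat_lit 78) (nat_lit 532) (nat_lit 0) (XT.lf (nat_lit 0) (nat_lit 1747849904) (nat_lit 684) (nat_lit 7489150834) (nat_lit 76) (nat_lit 10716137420) (nat_lit 322) (nat_lit 5) (nat_lit 331) (nat_lit 5) (nat_lit 323) (nat_lit 5) (nat_lit 380) (nat_lit 364) (nat_lit 276)) (XT.lf (nat_lit 0) (nat_lit 6355811521) (nat_lit 608) (nat_lit 8963485672) (nat_lit 76) (nat_lit 5181611840) (nat_lit 315) (nat_lit 5) (nat_lit 323) (nat_lit 5) (nat_lit 316) (nat_lit 5) (nat_lit 381) (nat_lit 364) (nat_lit 275))) (XT.nd (nat_lit 78) (nat_lit 456) (nat_lit 0) (XT.lf (nat_lit 0) (nat_lit 10689865944) (nat_lit 532) (nat_lit 757574059) (nat_lit 608) (nat_lit 9621030386) (nat_lit 308) (nat_lit 5) (nat_lit 315) (nat_lit 5) (nat_lit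 316) (nat_lit 5) (nat_lit 382) (nat_lit 364) (nat_lit 274)) (XT.lf (nat_lit 0) (nat_lit 9881035151) (nat_lit 456) (nat_lit 7220641632) (nat_lit 532) (nat_lit 4553492223) (nat_lit 302) (nat_lit 5) (nat_lit 308) (nat_lit 5) (nat_lit 309) (nat_lit 5) (nat_lit 383) (nat_lit 364) (nat_lit 273))))))) (XT.nd (nat_lit 1014) (nat_lit 3876) (nat_lit 0) (XT.nd (nat_lit 468) (nat_lit 2584) (nat_lit 0) (XT.nd (nat_lit 234) (nat_lit 1292) (nat_lit 0) (XT.nd (nat_lit 78) (nat_lit 912) (nat_lit 0) (XT.lf (nat_lit 0) (nat_lit 1017413450) (nat_lit 608) (nat_lit 13100885719) (nat_lit 76) (nat_lit 8144733104) (nat_lit 294) (nat_lit 5) (nat_lit 302) (nat_lit 5) (nat_lit 295) (nat_lit 5) (nat_lit 384) (nat_lit 364) (nat_lit 272)) (XT.nd (nat_lit 78) (nat_lit 456) (nat_lit 0) (XT.lf (nat_lit 0) (nat_lit 7046391452) (nat_lit 532) (nat_lit 14388973383) (nat_lit 76) (nat_lit 1456360337) (nat_lit 288) (nat_lit 5) (nat_lit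 295) (nat_lit 5) (nat_lit 289) (nat_lit 5) (nat_lit 385) (nat_lit 364) (nat_lit 271)) (XT.lf (nat_lit 0) (nat_lit 7900666619) (nat_lit 456) (nat_lit 5812823718) (nat_lit 532) (nat_lit 9828262221) (nat_lit 282) (nat_lit 5) (nat_lit 288) (nat_lit 5) (nat_lit 289) (nat_lit 5) (nat_lit 386) (nat_lit 364) (nat_lit 270)))) (XT.nd (nat_lit 78) (nat_lit 912) (nat_lit 0) (XT.lf (nat_lit 0) (nat_lit 7404814692) (nat_lit 380) (nat_lit 13614339931) (nat_lit 456) (nat_lit 3195970376) (nat_lit 277) (nat_lit 5) (nat_lit 282) (nat_lit 5) (nat_lit 283) (nat_lit 5) (nat_lit 387) (nat_lit 364) (nat_lit 269)) (XT.nd (nat_lit 78) (nat_lit 380) (nat_lit 0) (XT.lf (nat_lit 0) (nat_lit 3995832737) (nat_lit 532) (nat_lit 17910881931) (nat_lit 76) (nat_lit 3005322122) (nat_lit 270) (nat_lit 5) (nat_lit 277) (nat_lit 5) (nat_lit 271) (nat_lit 5) (nat_lit 388) (nat_lit 364) (nat_lit 268)) (XT.lf (nat_lit 0) (nat_lit 6652741863)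 (nat_lit 380) (nat_lit 5188772470) (nat_lit 456) (nat_lit 13790518963) (nat_lit 265) (nat_lit 5) (nat_lit 270) (nat_lit 5) (nat_lit 271) (nat_lit 5) (nat_lit 389) (nat_lit 364) (nat_lit 267))))) (XT.nd (nat_lit 234) (nat_lit 1368) (nat_lit 0) (XT.nd (nat_lit 78) (nat_lit 836) (nat_lit 0) (XT.lf (nat_lit 0) (nat_lit 6419540545) (nat_lit 380) (nat_lit 14010886117) (nat_lit 456) (nat_lit 5947074566) (nat_lit 260) (nat_lit 5) (nat_lit 265) (nat_lit 5) (nat_lit 266) (nat_lit 5) (nat_lit 390) (nat_lit 364) (nat_lit 266)) (XT.nd (nat_lit 78) (nat_lit 380) (nat_lit 0) (XT.lf (nat_lit 0) (nat_lit 2575953585) (nat_lit 456) (nat_lit 20830199713) (nat_lit 76) (nat_lit 3743467214) (nat_lit 254) (nat_lit 5) (nat_lit 260) (nat_lit 5) (nat_lit 255) (nat_lit 5) (nat_lit 391) (nat_lit 364) (nat_lit 265)) (XT.lf (nat_lit 0) (nat_lit 6271600446) (nat_lit 380) (nat_lit 5525928956) (nat_lit 456) (nat_lit 16149188177)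 (nat_lit 249) (nat_lit 5) (nat_lit 254) (nat_lit 5) (nat_lit 255) (nat_lit 5) (nat_lit 392) (nat_lit 364) (nat_lit 264)))) (XT.nd (nat_lit 156) (nat_lit 608) (nat_lit 0) (XT.nd (nat_lit 78) (nat_lit 456) (nat_lit 0) (XT.lf (nat_lit 0) (nat_lit 6360550486) (nat_lit 304) (nat_lit 15510199948) (nat_lit 380) (nat_lit 6901202069) (nat_lit 245) (nat_lit 5) (nat_lit 249) (nat_lit 5) (nat_lit 250) (nat_lit 5) (nat_lit 393) (nat_lit 364) (nat_lit 263)) (XT.lf (nat_lit 0) (nat_lit 3119422890) (nat_lit 456) (nat_lit 23018400308) (nat_lit 76) (nat_lit 3488864165) (nat_lit 239) (nat_lit 5) (nat_lit 245) (nat_lit 5) (nat_lit 240) (nat_lit 5) (nat_lit 394) (nat_lit 364) (nat_lit 262))) (XT.nd (nat_lit 78) (nat_lit 304) (nat_lit 0) (XT.lf (nat_lit 0) (nat_lit 6916437901) (nat_lit 304) (nat_lit 7025568244) (nat_lit 380) (nat_lit 16566793324) (nat_lit 235) (nat_lit 5) (nat_lit 239) (nat_lit 5) (nat_lit 240) (nat_lit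 5) (nat_lit 395) (nat_lit 364) (nat_lit 261)) (XT.lf (nat_lit 0) (nat_lit 7397915200) (nat_lit 304) (nat_lit 18330296176) (nat_lit 380) (nat_lit 5694131019) (nat_lit 231) (nat_lit 5) (nat_lit 235) (nat_lit 5) (nat_lit 236) (nat_lit 5) (nat_lit 396) (nat_lit 364) (nat_lit 260)))))) (XT.nd (nat_lit 546) (nat_lit 1748) (nat_lit 0) (XT.nd (nat_lit 234) (nat_lit 1216) (nat_lit 0) (XT.nd (nat_lit 78) (nat_lit 532) (nat_lit 0) (XT.lf (nat_lit 0) (nat_lit 6011189983) (nat_lit 380) (nat_lit 24322461002) (nat_lit 76) (nat_lit 2034240766) (nat_lit 226) (nat_lit 5) (nat_lit 231) (nat_lit 5) (nat_lit 227) (nat_lit 5) (nat_lit 397) (nat_lit 364) (nat_lit 259)) (XT.nd (nat_lit 78) (nat_lit 228) (nat_lit 0) (XT.lf (nat_lit 0) (nat_lit 8774514225) (nat_lit 304) (nat_lit 9917113508) (nat_lit 380) (nat_lit 14652171094) (nat_lit 222) (nat_lit 5) (nat_lit 226) (nat_lit 5) (nat_lit 227) (nat_lit 5) (nat_lit 398) (nat_lit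 364) (nat_lit 258)) (XT.lf (nat_lit 0) (nat_lit 9731242678) (nat_lit 228) (nat_lit 22719743241) (nat_lit 304) (nat_lit 1904168380) (nat_lit 219) (nat_lit 5) (nat_lit 222) (nat_lit 5) (nat_lit 223) (nat_lit 5) (nat_lit 399) (nat_lit 364) (nat_lit 257)))) (XT.nd (nat_lit 156) (nat_lit 608) (nat_lit 0) (XT.nd (nat_lit 78) (nat_lit 228) (nat_lit 0) (XT.lf (nat_lit 0) (nat_lit 10830368650) (nat_lit 304) (nat_lit 874499602) (nat_lit 380) (nat_lit 23695468134) (nat_lit 214) (nat_lit 5) (nat_lit 218) (nat_lit 5) (nat_lit 219) (nat_lit 5) (nat_lit 400) (nat_lit 364) (nat_lit 256)) (XT.lf (nat_lit 0) (nat_lit 12064890389) (nat_lit 228) (nat_lit 14462877862) (nat_lit 304) (nat_lit 9952259951) (nat_lit 211) (nat_lit 5) (nat_lit 214) (nat_lit 5) (nat_lit 215) (nat_lit 5) (nat_lit 401) (nat_lit 364) (nat_lit 255))) (XT.nd (nat_lit 78) (nat_lit 228) (nat_lit 0) (XT.lf (nat_lit 0) (nat_lit 4859814702) (nat_lit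 380) (nat_lit 24053767490) (nat_lit 76) (nat_lit 8684758325) (nat_lit 206) (nat_lit 5) (nat_lit 211) (nat_lit 5) (nat_lit 207) (nat_lit 5) (nat_lit 402) (nat_lit 364) (nat_lit 254)) (XT.lf (nat_lit 0) (nat_lit 15176757964) (nat_lit 228) (nat_lit 5566460284) (nat_lit 304) (nat_lit 18010297488) (nat_lit 203) (nat_lit 5) (nat_lit 206) (nat_lit 5) (nat_lit 207) (nat_lit 5) (nat_lit 403) (nat_lit 364) (nat_lit 253))))) (XT.nd (nat_lit 234) (nat_lit 988) (nat_lit 0) (XT.nd (nat_lit 78) (nat_lit 532) (nat_lit 0) (XT.lf (nat_lit 0) (nat_lit 17042748581) (nat_lit 228) (nat_lit 20963320083) (nat_lit 304) (nat_lit 1942822751) (nat_lit 200) (nat_lit 5) (nat_lit 203) (nat_lit 5) (nat_lit 204) (nat_lit 5) (nat_lit 404) (nat_lit 364) (nat_lit 252)) (XT.nd (nat_lit 78) (nat_lit 228) (nat_lit 0) (XT.lf (nat_lit 0) (nat_lit 15150278532) (nat_lit 304) (nat_lit 22080981576) (nat_lit 76) (nat_lit 3953064280) (nat_lit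 196) (nat_lit 5) (nat_lit 200) (nat_lit 5) (nat_lit 197) (nat_lit 5) (nat_lit 405) (nat_lit 364) (nat_lit 251)) (XT.lf (nat_lit 0) (nat_lit 21384156577) (nat_lit 228) (nat_lit 12319115253) (nat_lit 304) (nat_lit 8758317578) (nat_lit 193) (nat_lit 5) (nat_lit 196) (nat_lit 5) (nat_lit 197) (nat_lit 5) (nat_lit 406) (nat_lit 364) (nat_lit 250)))) (XT.nd (nat_lit 156) (nat_lit 456) (nat_lit 0) (XT.nd (nat_lit 78) (nat_lit 228) (nat_lit 0) (XT.lf (nat_lit 0) (nat_lit 9787265158) (nat_lit 304) (nat_lit 19876808729) (nat_lit 76) (nat_lit 14118264588) (nat_lit 189) (nat_lit 5) (nat_lit 193) (nat_lit 5) (nat_lit 190) (nat_lit 5) (nat_lit 407) (nat_lit 364) (nat_lit 249)) (XT.lf (nat_lit 0) (nat_lit 26705141408) (nat_lit 228) (nat_lit 2965952068) (nat_lit 304) (nat_lit 15477666983) (nat_lit 186) (nat_lit 5) (nat_lit 189) (nat_lit 5) (nat_lit 190) (nat_lit 5) (nat_lit 408) (nat_lit 364) (nat_lit 248))) (XT.nd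 (nat_lit 78) (nat_lit 228) (nat_lit 0) (XT.lf (nat_lit 0) (nat_lit 4619718412) (nat_lit 228) (nat_lit 16831134451) (nat_lit 76) (nat_lit 25109562321) (nat_lit 183) (nat_lit 5) (nat_lit 186) (nat_lit 5) (nat_lit 184) (nat_lit 5) (nat_lit 409) (nat_lit 364) (nat_lit 247)) (XT.lf (nat_lit 0) (nat_lit 26004298417) (nat_lit 304) (nat_lit 14989784506) (nat_lit 76) (nat_lit 7025899577) (nat_lit 180) (nat_lit 5) (nat_lit 184) (nat_lit 5) (nat_lit 181) (nat_lit 5) (nat_lit 410) (nat_lit 364) (nat_lit 246))))))))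
noncomputable def xc87 : XT := (XT.nd (nat_lit 49608) (nat_lit 0) (nat_lit 10412) (XT.nd (nat_lit 1014) (nat_lit 2204) (nat_lit 0) (XT.nd (nat_lit 468) (nat_lit 1216) (nat_lit 0) (XT.nd (nat_lit 234) (nat_lit 760) (nat_lit 0) (XT.nd (nat_lit 78) (nat_lit 456) (nat_lit 0) (XT.lf (nat_lit 0) (nat_lit 36670563946) (nat_lit 152) (nat_lit 12522464142) (nat_lit 228) (nat_lit 337452476) (nat_lit 178) (nat_lit 5) (nat_lit 180) (nat_lit 5) (nat_lit 181) (nat_lit 5) (nat_lit 411) (nat_lit 364) (nat_lit 245)) (XT.nd (nat_lit 78) (nat_lit 152) (nat_lit 0) (XT.lf (nat_lit 0) (nat_lit 22699560154) (nat_lit 304) (nat_lit 10591924206) (nat_lit 76) (nat_lit 17797178696) (nat_lit 174) (nat_lit 5) (nat_lit 178) (nat_lit 5) (nat_lit 175) (nat_lit 5) (nat_lit 412) (nat_lit 364) (nat_lit 244)) (XT.lf (nat_lit 0) (nat_lit 44796969313) (nat_lit 152) (nat_lit 2766588110) (nat_lit 228) (nat_lit 5140633625) (nat_lit 172)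 (nat_lit 5) (nat_lit 174) (nat_lit 5) (nat_lit 175) (nat_lit 5) (nat_lit 413) (nat_lit 364) (nat_lit 243)))) (XT.nd (nat_lit 78) (nat_lit 532) (nat_lit 0) (XT.lf (nat_lit 0) (nat_lit 19761209665) (nat_lit 228) (nat_lit 5121754814) (nat_lit 76) (nat_lit 29485964355) (nat_lit 169) (nat_lit 5) (nat_lit 172) (nat_lit 5) (nat_lit 170) (nat_lit 5) (nat_lit 414) (nat_lit 364) (nat_lit 242)) (XT.nd (nat_lit 78) (nat_lit 380) (nat_lit 0) (XT.lf (nat_lit 0) (nat_lit 46501828351) (nat_lit 228) (nat_lit 1898283385) (nat_lit 76) (nat_lit 7694264869) (nat_lit 167) (nat_lit 5) (nat_lit 170) (nat_lit 5) (nat_lit 168) (nat_lit 5) (nat_lit 415) (nat_lit 364) (nat_lit 241)) (XT.lf (nat_lit 0) (nat_lit 1560321387) (nat_lit 152) (nat_lit 15680340502) (nat_lit 228) (nat_lit 40633847482) (nat_lit 162) (nat_lit 5) (nat_lit 164) (nat_lit 5) (nat_lit 165) (nat_lit 5) (nat_lit 416) (nat_lit 364) (nat_lit 240))))) (XT.nd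 (nat_lit 234) (nat_lit 684) (nat_lit 0) (XT.nd (nat_lit 78) (nat_lit 380) (nat_lit 0) (XT.lf (nat_lit 0) (nat_lit 5427309791) (nat_lit 152) (nat_lit 40638490619) (nat_lit 228) (nat_lit 13649539398) (nat_lit 160) (nat_lit 5) (nat_lit 162) (nat_lit 5) (nat_lit 163) (nat_lit 5) (nat_lit 417) (nat_lit 364) (nat_lit 239)) (XT.nd (nat_lit 78) (nat_lit 152) (nat_lit 0) (XT.lf (nat_lit 0) (nat_lit 9670987403) (nat_lit 152) (nat_lit 5555204863) (nat_lit 228) (nat_lit 46392922589) (nat_lit 157) (nat_lit 5) (nat_lit 159) (nat_lit 5) (nat_lit 160) (nat_lit 5) (nat_lit 418) (nat_lit 364) (nat_lit 238)) (XT.lf (nat_lit 0) (nat_lit 14179601946) (nat_lit 152) (nat_lit 32080080885) (nat_lit 228) (nat_lit 17324453533) (nat_lit 155) (nat_lit 5) (nat_lit 157) (nat_lit 5) (nat_lit 158) (nat_lit 5) (nat_lit 419) (nat_lit 364) (nat_lit 237)))) (XT.nd (nat_lit 156) (nat_lit 304) (nat_lit 0) (XT.nd (nat_lit 78) (nat_lit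 152) (nat_lit 0) (XT.lf (nat_lit 0) (nat_lit 13766545279) (nat_lit 228) (nat_lit 46432315742) (nat_lit 76) (nat_lit 5419942997) (nat_lit 152) (nat_lit 5) (nat_lit 155) (nat_lit 5) (nat_lit 153) (nat_lit 5) (nat_lit 420) (nat_lit 364) (nat_lit 236)) (XT.lf (nat_lit 0) (nat_lit 24459431717) (nat_lit 152) (nat_lit 22662806848) (nat_lit 228) (nat_lit 20595767387) (nat_lit 150) (nat_lit 5) (nat_lit 152) (nat_lit 5) (nat_lit 153) (nat_lit 5) (nat_lit 421) (nat_lit 364) (nat_lit 235))) (XT.nd (nat_lit 78) (nat_lit 152) (nat_lit 0) (XT.lf (nat_lit 0) (nat_lit 12922644546) (nat_lit 152) (nat_lit 39649314555) (nat_lit 76) (nat_lit 17318555232) (nat_lit 148) (nat_lit 5) (nat_lit 150) (nat_lit 5) (nat_lit 149) (nat_lit 5) (nat_lit 422) (nat_lit 364) (nat_lit 234)) (XT.lf (nat_lit 0) (nat_lit 36418053772) (nat_lit 152) (nat_lit 12298366173) (nat_lit 228) (nat_lit 23418348784) (nat_lit 146) (nat_lit 5) (nat_lit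 148) (nat_lit 5) (nat_lit 149) (nat_lit 5) (nat_lit 423) (nat_lit 364) (nat_lit 233)))))) (XT.nd (nat_lit 546) (nat_lit 988) (nat_lit 0) (XT.nd (nat_lit 234) (nat_lit 760) (nat_lit 0) (XT.nd (nat_lit 78) (nat_lit 304) (nat_lit 0) (XT.lf (nat_lit 0) (nat_lit 12697753300) (nat_lit 152) (nat_lit 31406901894) (nat_lit 76) (nat_lit 30349589264) (nat_lit 144) (nat_lit 5) (nat_lit 146) (nat_lit 5) (nat_lit 145) (nat_lit 5) (nat_lit 424) (nat_lit 364) (nat_lit 232)) (XT.nd (nat_lit 78) (nat_lit 152) (nat_lit 0) (XT.lf (nat_lit 0) (nat_lit 50220407359) (nat_lit 152) (nat_lit 890823538) (nat_lit 228) (nat_lit 25742230197) (nat_lit 142) (nat_lit 5) (nat_lit 144) (nat_lit 5) (nat_lit 145) (nat_lit 5) (nat_lit 425) (nat_lit 364) (nat_lit 231)) (XT.lf (nat_lit 0) (nat_lit 13154195631) (nat_lit 152) (nat_lit 21553338687) (nat_lit 76) (nat_lit 44622111691) (nat_lit 140) (nat_lit 5) (nat_lit 142) (nat_lit 5) (nat_lit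 141) (nat_lit 5) (nat_lit 426) (nat_lit 364) (nat_lit 230)))) (XT.nd (nat_lit 156) (nat_lit 456) (nat_lit 0) (XT.nd (nat_lit 78) (nat_lit 152) (nat_lit 0) (XT.lf (nat_lit 0) (nat_lit 54494359267) (nat_lit 228) (nat_lit 15960291056) (nat_lit 76) (nat_lit 11436404479) (nat_lit 138) (nat_lit 5) (nat_lit 141) (nat_lit 5) (nat_lit 139) (nat_lit 4) (nat_lit 427) (nat_lit 364) (nat_lit 229)) (XT.lf (nat_lit 0) (nat_lit 14360443108) (nat_lit 152) (nat_lit 9922882411) (nat_lit 76) (nat_lit 60254385428) (nat_lit 136) (nat_lit 5) (nat_lit 138) (nat_lit 5) (nat_lit 137) (nat_lit 5) (nat_lit 428) (nat_lit 364) (nat_lit 228))) (XT.nd (nat_lit 78) (nat_lit 304) (nat_lit 0) (XT.lf (nat_lit 0) (nat_lit 58857042584) (nat_lit 228) (nat_lit 3432909524) (nat_lit 76) (nat_lit 24982063871) (nat_lit 134) (nat_lit 5) (nat_lit 137) (nat_lit 5) (nat_lit 135) (nat_lit 4) (nat_lit 429) (nat_lit 364) (nat_lit 227)) (XT.lf (nat_lit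 0) (nat_lit 3738335859) (nat_lit 152) (nat_lit 12689240213) (nat_lit 228) (nat_lit 73672208706) (nat_lit 130) (nat_lit 5) (nat_lit 132) (nat_lit 5) (nat_lit 133) (nat_lit 5) (nat_lit 430) (nat_lit 364) (nat_lit 226))))) (XT.nd (nat_lit 234) (nat_lit 608) (nat_lit 0) (XT.nd (nat_lit 78) (nat_lit 304) (nat_lit 0) (XT.lf (nat_lit 0) (nat_lit 11368265389) (nat_lit 76) (nat_lit 53023301121) (nat_lit 152) (nat_lit 28624926057) (nat_lit 129) (nat_lit 5) (nat_lit 130) (nat_lit 5) (nat_lit 131) (nat_lit 4) (nat_lit 431) (nat_lit 364) (nat_lit 225)) (XT.nd (nat_lit 78) (nat_lit 76) (nat_lit 0) (XT.lf (nat_lit 0) (nat_lit 19523099421) (nat_lit 228) (nat_lit 76244872996) (nat_lit 76) (nat_lit 269294248) (nat_lit 126) (nat_lit 5) (nat_lit 129) (nat_lit 5) (nat_lit 127) (nat_lit 4) (nat_lit 432) (nat_lit 364) (nat_lit 224)) (XT.lf (nat_lit 0) (nat_lit 28540537702) (nat_lit 76) (nat_lit 42603929966) (nat_lit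 152) (nat_lit 28006370881) (nat_lit 125) (nat_lit 5) (nat_lit 126) (nat_lit 5) (nat_lit 127) (nat_lit 4) (nat_lit 433) (nat_lit 364) (nat_lit 223)))) (XT.nd (nat_lit 234) (nat_lit 304) (nat_lit 0) (XT.nd (nat_lit 78) (nat_lit 76) (nat_lit 0) (XT.lf (nat_lit 0) (nat_lit 23774847122) (nat_lit 228) (nat_lit 64250084003) (nat_lit 76) (nat_lit 14349683808) (nat_lit 122) (nat_lit 5) (nat_lit 125) (nat_lit 5) (nat_lit 123) (nat_lit 4) (nat_lit 434) (nat_lit 364) (nat_lit 222)) (XT.lf (nat_lit 0) (nat_lit 48244467170) (nat_lit 76) (nat_lit 30949003420) (nat_lit 152) (nat_lit 26508964043) (nat_lit 121) (nat_lit 5) (nat_lit 122) (nat_lit 5) (nat_lit 123) (nat_lit 4) (nat_lit 435) (nat_lit 364) (nat_lit 221))) (XT.nd (nat_lit 47502) (nat_lit 0) (nat_lit 19532) (XT.lf (nat_lit 0) (nat_lit 70729406635) (nat_lit 76) (nat_lit 17930661840) (nat_lit 152) (nat_lit 24039380215) (nat_lit 117) (nat_lit 5) (nat_lit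 118) (nat_lit 5) (nat_lit 119) (nat_lit 4) (nat_lit 437) (nat_lit 364) (nat_lit 219)) (XT.lf (nat_lit 0) (nat_lit 430621103) (nat_lit 1292) (nat_lit 3279013484) (nat_lit 1292) (nat_lit 3279013484) (nat_lit 374) (nat_lit 3) (nat_lit 391) (nat_lit 3) (nat_lit 391) (nat_lit 5) (nat_lit 365) (nat_lit 365) (nat_lit 290))))))) (XT.nd (nat_lit 1014) (nat_lit 6992) (nat_lit 0) (XT.nd (nat_lit 468) (nat_lit 2204) (nat_lit 0) (XT.nd (nat_lit 234) (nat_lit 0) (nat_lit 152) (XT.nd (nat_lit 78) (nat_lit 0) (nat_lit 76) (XT.lf (nat_lit 0) (nat_lit 1536620819) (nat_lit 1216) (nat_lit 9156395602) (nat_lit 1292) (nat_lit 3614096700) (nat_lit 375) (nat_lit 5) (nat_lit 391) (nat_lit 5) (nat_lit 392) (nat_lit 5) (nat_lit 366) (nat_lit 365) (nat_lit 289)) (XT.nd (nat_lit 78) (nat_lit 0) (nat_lit 0) (XT.lf (nat_lit 0) (nat_lit 2385120591) (nat_lit 1216) (nat_lit 11763270853) (nat_lit 1292) (nat_lit 500848936) (nat_lit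 376) (nat_lit 5) (nat_lit 392) (nat_lit 5) (nat_lit 393) (nat_lit 5) (nat_lit 367) (nat_lit 365) (nat_lit 288)) (XT.lf (nat_lit 76) (nat_lit 597968418) (nat_lit 0) (nat_lit 2852220445) (nat_lit 1292) (nat_lit 11553060833) (nat_lit 377) (nat_lit 5) (nat_lit 376) (nat_lit 5) (nat_lit 393) (nat_lit 5) (nat_lit 368) (nat_lit 365) (nat_lit 287)))) (XT.nd (nat_lit 78) (nat_lit 0) (nat_lit 76) (XT.lf (nat_lit 0) (nat_lit 4744258954) (nat_lit 1216) (nat_lit 1657544052) (nat_lit 1292) (nat_lit 8967884020) (nat_lit 377) (nat_lit 5) (nat_lit 393) (nat_lit 5) (nat_lit 394) (nat_lit 5) (nat_lit 369) (nat_lit 365) (nat_lit 286)) (XT.nd (nat_lit 78) (nat_lit 0) (nat_lit 76) (XT.lf (nat_lit 0) (nat_lit 6269504541) (nat_lit 1216) (nat_lit 3895118703) (nat_lit 1292) (nat_lit 5584828819) (nat_lit 378) (nat_lit 5) (nat_lit 394) (nat_lit 5) (nat_lit 395) (nat_lit 5) (nat_lit 370) (nat_lit 365) (nat_lit 285)) (XT.lf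 (nat_lit 0) (nat_lit 8038623565) (nat_lit 1216) (nat_lit 6124217044) (nat_lit 1292) (nat_lit 1980336408) (nat_lit 379) (nat_lit 5) (nat_lit 395) (nat_lit 5) (nat_lit 396) (nat_lit 5) (nat_lit 371) (nat_lit 365) (nat_lit 284))))) (XT.nd (nat_lit 234) (nat_lit 2508) (nat_lit 0) (XT.nd (nat_lit 78) (nat_lit 0) (nat_lit 76) (XT.lf (nat_lit 76) (nat_lit 8190330984) (nat_lit 0) (nat_lit 1898857820) (nat_lit 1292) (nat_lit 6461609707) (nat_lit 380) (nat_lit 5) (nat_lit 379) (nat_lit 5) (nat_lit 396) (nat_lit 5) (nat_lit 372) (nat_lit 365) (nat_lit 283)) (XT.nd (nat_lit 78) (nat_lit 0) (nat_lit 76) (XT.lf (nat_lit 76) (nat_lit 6368245220) (nat_lit 0) (nat_lit 6076864177) (nat_lit 1292) (nat_lit 4527606870) (nat_lit 381) (nat_lit 5) (nat_lit 380) (nat_lit 5) (nat_lit 397) (nat_lit 5) (nat_lit 373) (nat_lit 365) (nat_lit 282)) (XT.lf (nat_lit 76) (nat_lit 4576560963) (nat_lit 0) (nat_lit 10531827459) (nat_lit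 1292) (nat_lit 2301654616) (nat_lit 382) (nat_lit 5) (nat_lit 381) (nat_lit 5) (nat_lit 398) (nat_lit 5) (nat_lit 374) (nat_lit 365) (nat_lit 281)))) (XT.nd (nat_lit 156) (nat_lit 608) (nat_lit 0) (XT.nd (nat_lit 78) (nat_lit 836) (nat_lit 0) (XT.lf (nat_lit 0) (nat_lit 233526390) (nat_lit 1292) (nat_lit 15046004534) (nat_lit 76) (nat_lit 2583736187) (nat_lit 365) (nat_lit 5) (nat_lit 382) (nat_lit 5) (nat_lit 366) (nat_lit 5) (nat_lit 375) (nat_lit 365) (nat_lit 280)) (XT.lf (nat_lit 0) (nat_lit 1051405086) (nat_lit 836) (nat_lit 2022161567) (nat_lit 912) (nat_lit 15258131016) (nat_lit 354) (nat_lit 5) (nat_lit 365) (nat_lit 5) (nat_lit 366) (nat_lit 5) (nat_lit 376) (nat_lit 365) (nat_lit 279))) (XT.nd (nat_lit 78) (nat_lit 608) (nat_lit 0) (XT.lf (nat_lit 0) (nat_lit 6302823744) (nat_lit 912) (nat_lit 688621422) (nat_lit 76) (nat_lit 11824688146) (nat_lit 354) (nat_lit 5) (nat_lit 366) (nat_lit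 5) (nat_lit 355) (nat_lit 5) (nat_lit 377) (nat_lit 365) (nat_lit 278)) (XT.lf (nat_lit 0) (nat_lit 9924048616) (nat_lit 684) (nat_lit 2365308054) (nat_lit 76) (nat_lit 7028518918) (nat_lit 346) (nat_lit 5) (nat_lit 355) (nat_lit 5) (nat_lit 347) (nat_lit 5) (nat_lit 378) (nat_lit 365) (nat_lit 277)))))) (XT.nd (nat_lit 546) (nat_lit 3040) (nat_lit 0) (XT.nd (nat_lit 234) (nat_lit 2128) (nat_lit 0) (XT.nd (nat_lit 78) (nat_lit 1216) (nat_lit 0) (XT.lf (nat_lit 0) (nat_lit 13953525489) (nat_lit 684) (nat_lit 3993283815) (nat_lit 76) (nat_lit 1891079952) (nat_lit 338) (nat_lit 5) (nat_lit 347) (nat_lit 5) (nat_lit 339) (nat_lit 5) (nat_lit 379) (nat_lit 365) (nat_lit 276)) (XT.nd (nat_lit 78) (nat_lit 684) (nat_lit 0) (XT.lf (nat_lit 0) (nat_lit 14774329902) (nat_lit 532) (nat_lit 3680064714) (nat_lit 608) (nat_lit 1921411437) (nat_lit 331) (nat_lit 5) (nat_lit 338) (nat_lit 5) (nat_lit 339) (nat_lit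 5) (nat_lit 380) (nat_lit 365) (nat_lit 275)) (XT.lf (nat_lit 0) (nat_lit 2461074815) (nat_lit 684) (nat_lit 7193902737) (nat_lit 76) (nat_lit 11277042542) (nat_lit 322) (nat_lit 5) (nat_lit 331) (nat_lit 5) (nat_lit 323) (nat_lit 5) (nat_lit 381) (nat_lit 365) (nat_lit 274)))) (XT.nd (nat_lit 156) (nat_lit 1064) (nat_lit 0) (XT.nd (nat_lit 78) (nat_lit 532) (nat_lit 0) (XT.lf (nat_lit 0) (nat_lit 7276349622) (nat_lit 608) (nat_lit 8743546341) (nat_lit 76) (nat_lit 5487976096) (nat_lit 315) (nat_lit 5) (nat_lit 323) (nat_lit 5) (nat_lit 316) (nat_lit 5) (nat_lit 382) (nat_lit 365) (nat_lit 273)) (XT.lf (nat_lit 0) (nat_lit 11873321513) (nat_lit 532) (nat_lit 726773974) (nat_lit 608) (nat_lit 9504389917) (nat_lit 308) (nat_lit 5) (nat_lit 315) (nat_lit 5) (nat_lit 316) (nat_lit 5) (nat_lit 383) (nat_lit 365) (nat_lit 272))) (XT.nd (nat_lit 78) (nat_lit 608) (nat_lit 0) (XT.lf (nat_lit 0) (nat_lit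 11021715042) (nat_lit 456) (nat_lit 7494541048) (nat_lit 532) (nat_lit 4204886503) (nat_lit 302) (nat_lit 5) (nat_lit 308) (nat_lit 5) (nat_lit 309) (nat_lit 5) (nat_lit 384) (nat_lit 365) (nat_lit 271)) (XT.lf (nat_lit 0) (nat_lit 1613466070) (nat_lit 608) (nat_lit 13101496982) (nat_lit 76) (nat_lit 8644865376) (nat_lit 294) (nat_lit 5) (nat_lit 302) (nat_lit 5) (nat_lit 295) (nat_lit 5) (nat_lit 385) (nat_lit 365) (nat_lit 270))))) (XT.nd (nat_lit 234) (nat_lit 1748) (nat_lit 0) (XT.nd (nat_lit 78) (nat_lit 836) (nat_lit 0) (XT.lf (nat_lit 0) (nat_lit 7925103092) (nat_lit 532) (nat_lit 14458048958) (nat_lit 76) (nat_lit 1637367620) (nat_lit 288) (nat_lit 5) (nat_lit 295) (nat_lit 5) (nat_lit 289) (nat_lit 5) (nat_lit 386) (nat_lit 365) (nat_lit 269)) (XT.nd (nat_lit 78) (nat_lit 380) (nat_lit 0) (XT.lf (nat_lit 0) (nat_lit 8927430230) (nat_lit 456) (nat_lit 5979132979) (nat_lit 532) (nat_lit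 9797055026) (nat_lit 282) (nat_lit 5) (nat_lit 288) (nat_lit 5) (nat_lit 289) (nat_lit 5) (nat_lit 387) (nat_lit 365) (nat_lit 268)) (XT.lf (nat_lit 0) (nat_lit 8402302007) (nat_lit 380) (nat_lit 14158214598) (nat_lit 456) (nat_lit 2850652517) (nat_lit 277) (nat_lit 5) (nat_lit 282) (nat_lit 5) (nat_lit 283) (nat_lit 5) (nat_lit 388) (nat_lit 365) (nat_lit 267)))) (XT.nd (nat_lit 156) (nat_lit 836) (nat_lit 0) (XT.nd (nat_lit 78) (nat_lit 380) (nat_lit 0) (XT.lf (nat_lit 0) (nat_lit 4674606447) (nat_lit 532) (nat_lit 18174613962) (nat_lit 76) (nat_lit 3294048759) (nat_lit 270) (nat_lit 5) (nat_lit 277) (nat_lit 5) (nat_lit 271) (nat_lit 5) (nat_lit 389) (nat_lit 365) (nat_lit 266)) (XT.lf (nat_lit 0) (nat_lit 7599080256) (nat_lit 380) (nat_lit 5296582469) (nat_lit 456) (nat_lit 14004110056) (nat_lit 265) (nat_lit 5) (nat_lit 270) (nat_lit 5) (nat_lit 271) (nat_lit 5) (nat_lit 390) (nat_lit 365)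 (nat_lit 265))) (XT.nd (nat_lit 78) (nat_lit 456) (nat_lit 0) (XT.lf (nat_lit 0) (nat_lit 7348676304) (nat_lit 380) (nat_lit 14550575039) (nat_lit 456) (nat_lit 5783705846) (nat_lit 260) (nat_lit 5) (nat_lit 265) (nat_lit 5) (nat_lit 266) (nat_lit 5) (nat_lit 391) (nat_lit 365) (nat_lit 264)) (XT.lf (nat_lit 0) (nat_lit 3142306094) (nat_lit 456) (nat_lit 21260742989) (nat_lit 76) (nat_lit 4090925811) (nat_lit 254) (nat_lit 5) (nat_lit 260) (nat_lit 5) (nat_lit 255) (nat_lit 5) (nat_lit 392) (nat_lit 365) (nat_lit 263))))))))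
noncomputable def xc88 : XT := (XT.nd (nat_lit 2028) (nat_lit 3192) (nat_lit 0) (XT.nd (nat_lit 1014) (nat_lit 3040) (nat_lit 0) (XT.nd (nat_lit 468) (nat_lit 1976) (nat_lit 0) (XT.nd (nat_lit 234) (nat_lit 988) (nat_lit 0) (XT.nd (nat_lit 78) (nat_lit 760) (nat_lit 0) (XT.lf (nat_lit 0) (nat_lit 7178633940) (nat_lit 380) (nat_lit 5631195454) (nat_lit 456) (nat_lit 16521551357) (nat_lit 249) (nat_lit 5) (nat_lit 254) (nat_lit 5) (nat_lit 255) (nat_lit 5) (nat_lit 393) (nat_lit 365) (nat_lit 262)) (XT.nd (nat_lit 78) (nat_lit 456) (nat_lit 0) (XT.lf (nat_lit 0) (nat_lit 7265732785) (nat_lit 304) (nat_lit 16108073136) (nat_lit 380) (nat_lit 6824458669) (nat_lit 245) (nat_lit 5) (nat_lit 249) (nat_lit 5) (nat_lit 250) (nat_lit 5) (nat_lit 394) (nat_lit 365) (nat_lit 261)) (XT.lf (nat_lit 0) (nat_lit 3676551372) (nat_lit 456) (nat_lit 23580737636) (nat_lit 76) (nat_lit 3838698004) (nat_lit 239) (nat_lit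 5) (nat_lit 245) (nat_lit 5) (nat_lit 240) (nat_lit 5) (nat_lit 395) (nat_lit 365) (nat_lit 260)))) (XT.nd (nat_lit 78) (nat_lit 684) (nat_lit 0) (XT.lf (nat_lit 0) (nat_lit 7833970879) (nat_lit 304) (nat_lit 7192685816) (nat_lit 380) (nat_lit 16995956239) (nat_lit 235) (nat_lit 5) (nat_lit 239) (nat_lit 5) (nat_lit 240) (nat_lit 5) (nat_lit 396) (nat_lit 365) (nat_lit 259)) (XT.nd (nat_lit 78) (nat_lit 380) (nat_lit 0) (XT.lf (nat_lit 0) (nat_lit 8332707774) (nat_lit 304) (nat_lit 19058125744) (nat_lit 380) (nat_lit 5591339651) (nat_lit 231) (nat_lit 5) (nat_lit 235) (nat_lit 5) (nat_lit 236) (nat_lit 5) (nat_lit 397) (nat_lit 365) (nat_lit 258)) (XT.lf (nat_lit 0) (nat_lit 6680754226) (nat_lit 380) (nat_lit 24973334915) (nat_lit 76) (nat_lit 2321127055) (nat_lit 226) (nat_lit 5) (nat_lit 231) (nat_lit 5) (nat_lit 227) (nat_lit 5) (nat_lit 398) (nat_lit 365) (nat_lit 257))))) (XT.nd (nat_lit 234)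 (nat_lit 1064) (nat_lit 0) (XT.nd (nat_lit 78) (nat_lit 608) (nat_lit 0) (XT.lf (nat_lit 0) (nat_lit 9762286319) (nat_lit 304) (nat_lit 10220633659) (nat_lit 380) (nat_lit 15017367464) (nat_lit 222) (nat_lit 5) (nat_lit 226) (nat_lit 5) (nat_lit 227) (nat_lit 5) (nat_lit 399) (nat_lit 365) (nat_lit 256)) (XT.nd (nat_lit 78) (nat_lit 380) (nat_lit 0) (XT.lf (nat_lit 0) (nat_lit 10759711616) (nat_lit 228) (nat_lit 23660518173) (nat_lit 304) (nat_lit 1642281388) (nat_lit 219) (nat_lit 5) (nat_lit 222) (nat_lit 5) (nat_lit 223) (nat_lit 5) (nat_lit 400) (nat_lit 365) (nat_lit 255)) (XT.lf (nat_lit 0) (nat_lit 11905028711) (nat_lit 304) (nat_lit 723662307) (nat_lit 380) (nat_lit 24531504807) (nat_lit 214) (nat_lit 5) (nat_lit 218) (nat_lit 5) (nat_lit 219) (nat_lit 5) (nat_lit 401) (nat_lit 365) (nat_lit 254)))) (XT.nd (nat_lit 156) (nat_lit 456) (nat_lit 0) (XT.nd (nat_lit 78) (nat_lit 380) (nat_lit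 0) (XT.lf (nat_lit 0) (nat_lit 13194043720) (nat_lit 228) (nat_lit 14989406019) (nat_lit 304) (nat_lit 10110701080) (nat_lit 211) (nat_lit 5) (nat_lit 214) (nat_lit 5) (nat_lit 215) (nat_lit 5) (nat_lit 402) (nat_lit 365) (nat_lit 253)) (XT.lf (nat_lit 0) (nat_lit 5426375172) (nat_lit 380) (nat_lit 24731422647) (nat_lit 76) (nat_lit 9310752631) (nat_lit 206) (nat_lit 5) (nat_lit 211) (nat_lit 5) (nat_lit 207) (nat_lit 5) (nat_lit 403) (nat_lit 365) (nat_lit 252))) (XT.nd (nat_lit 78) (nat_lit 228) (nat_lit 0) (XT.lf (nat_lit 0) (nat_lit 16445579108) (nat_lit 228) (nat_lit 5647863977) (nat_lit 304) (nat_lit 18588356521) (nat_lit 203) (nat_lit 5) (nat_lit 206) (nat_lit 5) (nat_lit 207) (nat_lit 5) (nat_lit 404) (nat_lit 365) (nat_lit 251)) (XT.lf (nat_lit 0) (nat_lit 18397534739) (nat_lit 228) (nat_lit 21813628013) (nat_lit 304) (nat_lit 1726029514) (nat_lit 200) (nat_lit 5) (nat_lit 203) (nat_lit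 5) (nat_lit 204) (nat_lit 5) (nat_lit 405) (nat_lit 365) (nat_lit 250)))))) (XT.nd (nat_lit 468) (nat_lit 1520) (nat_lit 0) (XT.nd (nat_lit 234) (nat_lit 684) (nat_lit 0) (XT.nd (nat_lit 78) (nat_lit 532) (nat_lit 0) (XT.lf (nat_lit 0) (nat_lit 16207580620) (nat_lit 304) (nat_lit 22683789676) (nat_lit 76) (nat_lit 4343176667) (nat_lit 196) (nat_lit 5) (nat_lit 200) (nat_lit 5) (nat_lit 197) (nat_lit 5) (nat_lit 406) (nat_lit 365) (nat_lit 249)) (XT.nd (nat_lit 78) (nat_lit 304) (nat_lit 0) (XT.lf (nat_lit 0) (nat_lit 22940237412) (nat_lit 228) (nat_lit 12738390664) (nat_lit 304) (nat_lit 8897335022) (nat_lit 193) (nat_lit 5) (nat_lit 196) (nat_lit 5) (nat_lit 197) (nat_lit 5) (nat_lit 407) (nat_lit 365) (nat_lit 248)) (XT.lf (nat_lit 0) (nat_lit 10562212399) (nat_lit 304) (nat_lit 20385428782) (nat_lit 76) (nat_lit 15015246698) (nat_lit 189) (nat_lit 5) (nat_lit 193) (nat_lit 5) (nat_lit 190) (nat_lit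 5) (nat_lit 408) (nat_lit 365) (nat_lit 247)))) (XT.nd (nat_lit 78) (nat_lit 456) (nat_lit 0) (XT.lf (nat_lit 0) (nat_lit 28511710117) (nat_lit 228) (nat_lit 2919453315) (nat_lit 304) (nat_lit 15966739591) (nat_lit 186) (nat_lit 5) (nat_lit 189) (nat_lit 5) (nat_lit 190) (nat_lit 5) (nat_lit 409) (nat_lit 365) (nat_lit 246)) (XT.nd (nat_lit 78) (nat_lit 228) (nat_lit 0) (XT.lf (nat_lit 0) (nat_lit 5122965423) (nat_lit 228) (nat_lit 17203232214) (nat_lit 76) (nat_lit 26554070473) (nat_lit 183) (nat_lit 5) (nat_lit 186) (nat_lit 5) (nat_lit 184) (nat_lit 5) (nat_lit 410) (nat_lit 365) (nat_lit 245)) (XT.lf (nat_lit 0) (nat_lit 27570041704) (nat_lit 304) (nat_lit 15277210050) (nat_lit 76) (nat_lit 7565764020) (nat_lit 180) (nat_lit 5) (nat_lit 184) (nat_lit 5) (nat_lit 181) (nat_lit 5) (nat_lit 411) (nat_lit 365) (nat_lit 244))))) (XT.nd (nat_lit 234) (nat_lit 912) (nat_lit 0) (XT.nd (nat_lit 78)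 (nat_lit 456) (nat_lit 0) (XT.lf (nat_lit 0) (nat_lit 38952910861) (nat_lit 152) (nat_lit 12956967109) (nat_lit 228) (nat_lit 89410667) (nat_lit 178) (nat_lit 5) (nat_lit 180) (nat_lit 5) (nat_lit 181) (nat_lit 5) (nat_lit 412) (nat_lit 365) (nat_lit 243)) (XT.nd (nat_lit 78) (nat_lit 152) (nat_lit 0) (XT.lf (nat_lit 0) (nat_lit 24087973508) (nat_lit 304) (nat_lit 10674817529) (nat_lit 76) (nat_lit 18872702111) (nat_lit 174) (nat_lit 5) (nat_lit 178) (nat_lit 5) (nat_lit 175) (nat_lit 5) (nat_lit 413) (nat_lit 365) (nat_lit 242)) (XT.lf (nat_lit 0) (nat_lit 47470716017) (nat_lit 152) (nat_lit 2716557169) (nat_lit 228) (nat_lit 5144761278) (nat_lit 172) (nat_lit 5) (nat_lit 174) (nat_lit 5) (nat_lit 175) (nat_lit 5) (nat_lit 414) (nat_lit 365) (nat_lit 241)))) (XT.nd (nat_lit 156) (nat_lit 532) (nat_lit 0) (XT.nd (nat_lit 78) (nat_lit 152) (nat_lit 0) (XT.lf (nat_lit 0) (nat_lit 20991316386) (nat_lit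 228) (nat_lit 4946168473) (nat_lit 76) (nat_lit 31142629029) (nat_lit 169) (nat_lit 5) (nat_lit 172) (nat_lit 5) (nat_lit 170) (nat_lit 5) (nat_lit 415) (nat_lit 365) (nat_lit 240)) (XT.lf (nat_lit 0) (nat_lit 49063246490) (nat_lit 228) (nat_lit 1568636724) (nat_lit 76) (nat_lit 8260122419) (nat_lit 167) (nat_lit 5) (nat_lit 170) (nat_lit 5) (nat_lit 168) (nat_lit 5) (nat_lit 416) (nat_lit 365) (nat_lit 239))) (XT.nd (nat_lit 78) (nat_lit 152) (nat_lit 0) (XT.lf (nat_lit 0) (nat_lit 2063630761) (nat_lit 152) (nat_lit 16274457318) (nat_lit 228) (nat_lit 42423084967) (nat_lit 162) (nat_lit 5) (nat_lit 164) (nat_lit 5) (nat_lit 165) (nat_lit 5) (nat_lit 417) (nat_lit 365) (nat_lit 238)) (XT.lf (nat_lit 0) (nat_lit 6116863895) (nat_lit 152) (nat_lit 42482168832) (nat_lit 228) (nat_lit 14095175802) (nat_lit 160) (nat_lit 5) (nat_lit 162) (nat_lit 5) (nat_lit 163) (nat_lit 5) (nat_lit 418) (nat_lit 365)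 (nat_lit 237))))))) (XT.nd (nat_lit 1014) (nat_lit 912) (nat_lit 0) (XT.nd (nat_lit 468) (nat_lit 1216) (nat_lit 0) (XT.nd (nat_lit 234) (nat_lit 456) (nat_lit 0) (XT.nd (nat_lit 78) (nat_lit 380) (nat_lit 0) (XT.lf (nat_lit 0) (nat_lit 10565227230) (nat_lit 152) (nat_lit 5647383366) (nat_lit 228) (nat_lit 48480706741) (nat_lit 157) (nat_lit 5) (nat_lit 159) (nat_lit 5) (nat_lit 160) (nat_lit 5) (nat_lit 419) (nat_lit 365) (nat_lit 236)) (XT.nd (nat_lit 78) (nat_lit 228) (nat_lit 0) (XT.lf (nat_lit 0) (nat_lit 15292327032) (nat_lit 152) (nat_lit 33500309215) (nat_lit 228) (nat_lit 17964107858) (nat_lit 155) (nat_lit 5) (nat_lit 157) (nat_lit 5) (nat_lit 158) (nat_lit 5) (nat_lit 420) (nat_lit 365) (nat_lit 235)) (XT.lf (nat_lit 0) (nat_lit 14671993081) (nat_lit 228) (nat_lit 48352744695) (nat_lit 76) (nat_lit 5868492828) (nat_lit 152) (nat_lit 5) (nat_lit 155) (nat_lit 5) (nat_lit 153) (nat_lit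 5) (nat_lit 421) (nat_lit 365) (nat_lit 234)))) (XT.nd (nat_lit 78) (nat_lit 304) (nat_lit 0) (XT.lf (nat_lit 0) (nat_lit 26072090198) (nat_lit 152) (nat_lit 23616787669) (nat_lit 228) (nat_lit 21408712562) (nat_lit 150) (nat_lit 5) (nat_lit 152) (nat_lit 5) (nat_lit 153) (nat_lit 5) (nat_lit 422) (nat_lit 365) (nat_lit 233)) (XT.nd (nat_lit 78) (nat_lit 152) (nat_lit 0) (XT.lf (nat_lit 0) (nat_lit 13776638499) (nat_lit 152) (nat_lit 41244664875) (nat_lit 76) (nat_lit 18357500824) (nat_lit 148) (nat_lit 5) (nat_lit 150) (nat_lit 5) (nat_lit 149) (nat_lit 5) (nat_lit 423) (nat_lit 365) (nat_lit 232)) (XT.lf (nat_lit 0) (nat_lit 38614975283) (nat_lit 152) (nat_lit 12738843730) (nat_lit 228) (nat_lit 24381640810) (nat_lit 146) (nat_lit 5) (nat_lit 148) (nat_lit 5) (nat_lit 149) (nat_lit 5) (nat_lit 424) (nat_lit 365) (nat_lit 231))))) (XT.nd (nat_lit 234) (nat_lit 760) (nat_lit 0) (XT.nd (nat_lit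 78) (nat_lit 304) (nat_lit 0) (XT.lf (nat_lit 0) (nat_lit 13531720544) (nat_lit 152) (nat_lit 32603799365) (nat_lit 76) (nat_lit 32035464384) (nat_lit 144) (nat_lit 5) (nat_lit 146) (nat_lit 5) (nat_lit 145) (nat_lit 5) (nat_lit 425) (nat_lit 365) (nat_lit 230)) (XT.nd (nat_lit 78) (nat_lit 152) (nat_lit 0) (XT.lf (nat_lit 0) (nat_lit 53094170550) (nat_lit 152) (nat_lit 765708398) (nat_lit 228) (nat_lit 26830462607) (nat_lit 142) (nat_lit 5) (nat_lit 144) (nat_lit 5) (nat_lit 145) (nat_lit 5) (nat_lit 426) (nat_lit 365) (nat_lit 229)) (XT.lf (nat_lit 0) (nat_lit 14002646326) (nat_lit 152) (nat_lit 22270822172) (nat_lit 76) (nat_lit 47016937584) (nat_lit 140) (nat_lit 5) (nat_lit 142) (nat_lit 5) (nat_lit 141) (nat_lit 5) (nat_lit 427) (nat_lit 365) (nat_lit 228)))) (XT.nd (nat_lit 156) (nat_lit 456) (nat_lit 0) (XT.nd (nat_lit 78) (nat_lit 152) (nat_lit 0) (XT.lf (nat_lit 0) (nat_lit 57405682822)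 (nat_lit 228) (nat_lit 16404480635) (nat_lit 76) (nat_lit 12169845917) (nat_lit 138) (nat_lit 5) (nat_lit 141) (nat_lit 5) (nat_lit 139) (nat_lit 4) (nat_lit 428) (nat_lit 365) (nat_lit 227)) (XT.lf (nat_lit 0) (nat_lit 15261280873) (nat_lit 152) (nat_lit 10071705491) (nat_lit 76) (nat_lit 63426125663) (nat_lit 136) (nat_lit 5) (nat_lit 138) (nat_lit 5) (nat_lit 137) (nat_lit 5) (nat_lit 429) (nat_lit 365) (nat_lit 226))) (XT.nd (nat_lit 78) (nat_lit 304) (nat_lit 0) (XT.lf (nat_lit 0) (nat_lit 61978785911) (nat_lit 228) (nat_lit 3263407389) (nat_lit 76) (nat_lit 26388056742) (nat_lit 134) (nat_lit 5) (nat_lit 137) (nat_lit 5) (nat_lit 135) (nat_lit 4) (nat_lit 430) (nat_lit 365) (nat_lit 225)) (XT.lf (nat_lit 0) (nat_lit 4266773989) (nat_lit 152) (nat_lit 13160740083) (nat_lit 228) (nat_lit 77171903171) (nat_lit 130) (nat_lit 5) (nat_lit 132) (nat_lit 5) (nat_lit 133) (nat_lit 5) (nat_lit 431)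 (nat_lit 365) (nat_lit 224)))))) (XT.nd (nat_lit 48126) (nat_lit 0) (nat_lit 19608) (XT.nd (nat_lit 234) (nat_lit 532) (nat_lit 0) (XT.nd (nat_lit 78) (nat_lit 304) (nat_lit 0) (XT.lf (nat_lit 0) (nat_lit 12272091990) (nat_lit 76) (nat_lit 55513825316) (nat_lit 152) (nat_lit 29876156714) (nat_lit 129) (nat_lit 5) (nat_lit 130) (nat_lit 5) (nat_lit 131) (nat_lit 4) (nat_lit 432) (nat_lit 365) (nat_lit 223)) (XT.nd (nat_lit 78) (nat_lit 76) (nat_lit 0) (XT.lf (nat_lit 0) (nat_lit 20672035256) (nat_lit 228) (nat_lit 79724286227) (nat_lit 76) (nat_lit 437625090) (nat_lit 126) (nat_lit 5) (nat_lit 129) (nat_lit 5) (nat_lit 127) (nat_lit 4) (nat_lit 433) (nat_lit 365) (nat_lit 222)) (XT.lf (nat_lit 0) (nat_lit 30290854489) (nat_lit 76) (nat_lit 44578497426) (nat_lit 152) (nat_lit 29233998736) (nat_lit 125) (nat_lit 5) (nat_lit 126) (nat_lit 5) (nat_lit 127) (nat_lit 4) (nat_lit 434) (nat_lit 365) (nat_lit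 221)))) (XT.nd (nat_lit 47736) (nat_lit 0) (nat_lit 19456) (XT.nd (nat_lit 156) (nat_lit 304) (nat_lit 0) (XT.lf (nat_lit 0) (nat_lit 25129368110) (nat_lit 228) (nat_lit 67141833494) (nat_lit 76) (nat_lit 15217170716) (nat_lit 122) (nat_lit 5) (nat_lit 125) (nat_lit 5) (nat_lit 123) (nat_lit 4) (nat_lit 435) (nat_lit 365) (nat_lit 220)) (XT.lf (nat_lit 0) (nat_lit 30780495127) (nat_lit 228) (nat_lit 52237687827) (nat_lit 76) (nat_lit 31576890425) (nat_lit 118) (nat_lit 5) (nat_lit 121) (nat_lit 5) (nat_lit 119) (nat_lit 4) (nat_lit 437) (nat_lit 365) (nat_lit 218))) (XT.nd (nat_lit 78) (nat_lit 0) (nat_lit 76) (XT.lf (nat_lit 0) (nat_lit 1011828033) (nat_lit 1292) (nat_lit 3154731083) (nat_lit 1292) (nat_lit 3154731083) (nat_lit 374) (nat_lit 3) (nat_lit 391) (nat_lit 3) (nat_lit 391) (nat_lit 5) (nat_lit 366) (nat_lit 366) (nat_lit 288)) (XT.lf (nat_lit 0) (nat_lit 2679966896) (nat_lit 1216) (nat_lit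 9017213809) (nat_lit 1292) (nat_lit 3293292621) (nat_lit 375) (nat_lit 5) (nat_lit 391) (nat_lit 5) (nat_lit 392) (nat_lit 5) (nat_lit 367) (nat_lit 366) (nat_lit 287))))) (XT.nd (nat_lit 234) (nat_lit 0) (nat_lit 152) (XT.nd (nat_lit 78) (nat_lit 0) (nat_lit 0) (XT.lf (nat_lit 0) (nat_lit 3521436326) (nat_lit 1216) (nat_lit 11736663524) (nat_lit 1292) (nat_lit 93090757) (nat_lit 376) (nat_lit 5) (nat_lit 392) (nat_lit 5) (nat_lit 393) (nat_lit 5) (nat_lit 368) (nat_lit 366) (nat_lit 286)) (XT.nd (nat_lit 78) (nat_lit 0) (nat_lit 76) (XT.lf (nat_lit 76) (nat_lit 1225015427) (nat_lit 0) (nat_lit 3372051329) (nat_lit 1292) (nat_lit 11127114372) (nat_lit 377) (nat_lit 5) (nat_lit 376) (nat_lit 5) (nat_lit 393) (nat_lit 5) (nat_lit 369) (nat_lit 366) (nat_lit 285)) (XT.lf (nat_lit 0) (nat_lit 5905988455) (nat_lit 1216) (nat_lit 1140415817) (nat_lit 1292) (nat_lit 9064031609) (nat_lit 377) (nat_lit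 5) (nat_lit 393) (nat_lit 5) (nat_lit 394) (nat_lit 5) (nat_lit 370) (nat_lit 366) (nat_lit 284)))) (XT.nd (nat_lit 156) (nat_lit 0) (nat_lit 76) (XT.nd (nat_lit 78) (nat_lit 0) (nat_lit 76) (XT.lf (nat_lit 0) (nat_lit 7466158627) (nat_lit 1216) (nat_lit 3477570021) (nat_lit 1292) (nat_lit 5566700653) (nat_lit 378) (nat_lit 5) (nat_lit 394) (nat_lit 5) (nat_lit 395) (nat_lit 5) (nat_lit 371) (nat_lit 366) (nat_lit 283)) (XT.lf (nat_lit 0) (nat_lit 9284971384) (nat_lit 1216) (nat_lit 5807846459) (nat_lit 1292) (nat_lit 1832185526) (nat_lit 379) (nat_lit 5) (nat_lit 395) (nat_lit 5) (nat_lit 396) (nat_lit 5) (nat_lit 372) (nat_lit 366) (nat_lit 282))) (XT.nd (nat_lit 78) (nat_lit 0) (nat_lit 76) (XT.lf (nat_lit 76) (nat_lit 9204582799) (nat_lit 0) (nat_lit 2199084855) (nat_lit 1292) (nat_lit 5950370201) (nat_lit 380) (nat_lit 5) (nat_lit 379) (nat_lit 5) (nat_lit 396) (nat_lit 5) (nat_lit 373) (nat_lit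 366) (nat_lit 281)) (XT.lf (nat_lit 76) (nat_lit 7299578894) (nat_lit 0) (nat_lit 6543245455) (nat_lit 1292) (nat_lit 3955263947) (nat_lit 381) (nat_lit 5) (nat_lit 380) (nat_lit 5) (nat_lit 397) (nat_lit 5) (nat_lit 374) (nat_lit 366) (nat_lit 280))))))))
noncomputable def xc89 : XT := (XT.nd (nat_lit 2106) (nat_lit 6004) (nat_lit 0) (XT.nd (nat_lit 1014) (nat_lit 5244) (nat_lit 0) (XT.nd (nat_lit 468) (nat_lit 3800) (nat_lit 0) (XT.nd (nat_lit 234) (nat_lit 1216) (nat_lit 0) (XT.nd (nat_lit 78) (nat_lit 2052) (nat_lit 0) (XT.lf (nat_lit 76) (nat_lit 5424855717) (nat_lit 0) (nat_lit 11181951645) (nat_lit 1292) (nat_lit 1651447842) (nat_lit 382) (nat_lit 5) (nat_lit 381) (nat_lit 5) (nat_lit 398) (nat_lit 5) (nat_lit 375) (nat_lit 366) (nat_lit 279)) (XT.nd (nat_lit 78) (nat_lit 836) (nat_lit 0) (XT.lf (nat_lit 0) (nat_lit 964747951) (nat_lit 1292) (nat_lit 15159470101) (nat_lit 76) (nat_lit 2610626058)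 (nat_lit 365) (nat_lit 5) (nat_lit 382) (nat_lit 5) (nat_lit 366) (nat_lit 5) (nat_lit 376) (nat_lit 366) (nat_lit 278)) (XT.lf (nat_lit 0) (nat_lit 1724497933) (nat_lit 836) (nat_lit 2193993078) (nat_lit 912) (nat_lit 15309054161) (nat_lit 354) (nat_lit 5) (nat_lit 365) (nat_lit 5) (nat_lit 366) (nat_lit 5) (nat_lit 377) (nat_lit 366) (nat_lit 277)))) (XT.nd (nat_lit 78) (nat_lit 1216) (nat_lit 0) (XT.lf (nat_lit 0) (nat_lit 7275647015) (nat_lit 912) (nat_lit 111681245) (nat_lit 76) (nat_lit 12349881255) (nat_lit 354) (nat_lit 5) (nat_lit 366) (nat_lit 5) (nat_lit 355) (nat_lit 5) (nat_lit 378) (nat_lit 366) (nat_lit 276)) (XT.nd (nat_lit 78) (nat_lit 608) (nat_lit 0) (XT.lf (nat_lit 0) (nat_lit 11051955901) (nat_lit 684) (nat_lit 1870397423) (nat_lit 76) (nat_lit 7342464899) (nat_lit 346) (nat_lit 5) (nat_lit 355) (nat_lit 5) (nat_lit 347) (nat_lit 5) (nat_lit 379) (nat_lit 366) (nat_lit 275))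 (XT.lf (nat_lit 0) (nat_lit 15258437757) (nat_lit 684) (nat_lit 3579015129) (nat_lit 76) (nat_lit 1974113753) (nat_lit 338) (nat_lit 5) (nat_lit 347) (nat_lit 5) (nat_lit 339) (nat_lit 5) (nat_lit 380) (nat_lit 366) (nat_lit 274))))) (XT.nd (nat_lit 234) (nat_lit 2052) (nat_lit 0) (XT.nd (nat_lit 78) (nat_lit 1216) (nat_lit 0) (XT.lf (nat_lit 0) (nat_lit 16109381012) (nat_lit 532) (nat_lit 3851785663) (nat_lit 608) (nat_lit 1415908112) (nat_lit 331) (nat_lit 5) (nat_lit 338) (nat_lit 5) (nat_lit 339) (nat_lit 5) (nat_lit 381) (nat_lit 366) (nat_lit 273)) (XT.nd (nat_lit 78) (nat_lit 532) (nat_lit 0) (XT.lf (nat_lit 0) (nat_lit 3151777005) (nat_lit 684) (nat_lit 6946155117) (nat_lit 76) (nat_lit 11863659522) (nat_lit 322) (nat_lit 5) (nat_lit 331) (nat_lit 5) (nat_lit 323) (nat_lit 5) (nat_lit 382) (nat_lit 366) (nat_lit 272)) (XT.lf (nat_lit 0) (nat_lit 8186876876) (nat_lit 608) (nat_lit 8574724915)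 (nat_lit 76) (nat_lit 5805262578) (nat_lit 315) (nat_lit 5) (nat_lit 323) (nat_lit 5) (nat_lit 316) (nat_lit 5) (nat_lit 383) (nat_lit 366) (nat_lit 271)))) (XT.nd (nat_lit 156) (nat_lit 1064) (nat_lit 0) (XT.nd (nat_lit 78) (nat_lit 456) (nat_lit 0) (XT.lf (nat_lit 0) (nat_lit 13055615500) (nat_lit 532) (nat_lit 700818987) (nat_lit 608) (nat_lit 9437485160) (nat_lit 308) (nat_lit 5) (nat_lit 315) (nat_lit 5) (nat_lit 316) (nat_lit 5) (nat_lit 384) (nat_lit 366) (nat_lit 270)) (XT.lf (nat_lit 0) (nat_lit 12159311573) (nat_lit 456) (nat_lit 7790236204) (nat_lit 532) (nat_lit 3892427579) (nat_lit 302) (nat_lit 5) (nat_lit 308) (nat_lit 5) (nat_lit 309) (nat_lit 5) (nat_lit 385) (nat_lit 366) (nat_lit 269))) (XT.nd (nat_lit 78) (nat_lit 456) (nat_lit 0) (XT.lf (nat_lit 0) (nat_lit 2188635471) (nat_lit 608) (nat_lit 13162981787) (nat_lit 76) (nat_lit 9161367709) (nat_lit 294) (nat_lit 5) (nat_lit 302)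 (nat_lit 5) (nat_lit 295) (nat_lit 5) (nat_lit 386) (nat_lit 366) (nat_lit 268)) (XT.lf (nat_lit 0) (nat_lit 8798811369) (nat_lit 532) (nat_lit 14591043837) (nat_lit 76) (nat_lit 1817366854) (nat_lit 288) (nat_lit 5) (nat_lit 295) (nat_lit 5) (nat_lit 289) (nat_lit 5) (nat_lit 387) (nat_lit 366) (nat_lit 267)))))) (XT.nd (nat_lit 546) (nat_lit 2280) (nat_lit 0) (XT.nd (nat_lit 234) (nat_lit 1596) (nat_lit 0) (XT.nd (nat_lit 78) (nat_lit 912) (nat_lit 0) (XT.lf (nat_lit 0) (nat_lit 9946799729) (nat_lit 456) (nat_lit 6165316908) (nat_lit 532) (nat_lit 9812875753) (nat_lit 282) (nat_lit 5) (nat_lit 288) (nat_lit 5) (nat_lit 289) (nat_lit 5) (nat_lit 388) (nat_lit 366) (nat_lit 266)) (XT.nd (nat_lit 78) (nat_lit 532) (nat_lit 0) (XT.lf (nat_lit 0) (nat_lit 9391348245) (nat_lit 380) (nat_lit 14742005301) (nat_lit 456) (nat_lit 2535029699) (nat_lit 277) (nat_lit 5) (nat_lit 282) (nat_lit 5) (nat_lit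 283) (nat_lit 5) (nat_lit 389) (nat_lit 366) (nat_lit 265)) (XT.lf (nat_lit 0) (nat_lit 5342787629) (nat_lit 532) (nat_lit 18510272491) (nat_lit 76) (nat_lit 3584338980) (nat_lit 270) (nat_lit 5) (nat_lit 277) (nat_lit 5) (nat_lit 271) (nat_lit 5) (nat_lit 390) (nat_lit 366) (nat_lit 264)))) (XT.nd (nat_lit 156) (nat_lit 836) (nat_lit 0) (XT.nd (nat_lit 78) (nat_lit 380) (nat_lit 0) (XT.lf (nat_lit 0) (nat_lit 8535679439) (nat_lit 380) (nat_lit 5423879960) (nat_lit 456) (nat_lit 14272628615) (nat_lit 265) (nat_lit 5) (nat_lit 270) (nat_lit 5) (nat_lit 271) (nat_lit 5) (nat_lit 391) (nat_lit 366) (nat_lit 263)) (XT.lf (nat_lit 0) (nat_lit 8267728017) (nat_lit 380) (nat_lit 15132203216) (nat_lit 456) (nat_lit 5655002296) (nat_lit 260) (nat_lit 5) (nat_lit 265) (nat_lit 5) (nat_lit 266) (nat_lit 5) (nat_lit 392) (nat_lit 366) (nat_lit 262))) (XT.nd (nat_lit 78) (nat_lit 380) (nat_lit 0) (XT.lf (nat_lit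 0) (nat_lit 3696296527) (nat_lit 456) (nat_lit 21769615322) (nat_lit 76) (nat_lit 4440855536) (nat_lit 254) (nat_lit 5) (nat_lit 260) (nat_lit 5) (nat_lit 255) (nat_lit 5) (nat_lit 393) (nat_lit 366) (nat_lit 261)) (XT.lf (nat_lit 0) (nat_lit 8075845430) (nat_lit 380) (nat_lit 5757626021) (nat_lit 456) (nat_lit 16952983820) (nat_lit 249) (nat_lit 5) (nat_lit 254) (nat_lit 5) (nat_lit 255) (nat_lit 5) (nat_lit 394) (nat_lit 366) (nat_lit 260))))) (XT.nd (nat_lit 234) (nat_lit 1216) (nat_lit 0) (XT.nd (nat_lit 78) (nat_lit 760) (nat_lit 0) (XT.lf (nat_lit 0) (nat_lit 8161586113) (nat_lit 304) (nat_lit 16752354970) (nat_lit 380) (nat_lit 6783093391) (nat_lit 245) (nat_lit 5) (nat_lit 249) (nat_lit 5) (nat_lit 250) (nat_lit 5) (nat_lit 395) (nat_lit 366) (nat_lit 259)) (XT.nd (nat_lit 78) (nat_lit 304) (nat_lit 0) (XT.lf (nat_lit 0) (nat_lit 4224240470) (nat_lit 456) (nat_lit 24225912669) (nat_lit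 76) (nat_lit 4189717376) (nat_lit 239) (nat_lit 5) (nat_lit 245) (nat_lit 5) (nat_lit 240) (nat_lit 5) (nat_lit 396) (nat_lit 366) (nat_lit 258)) (XT.lf (nat_lit 0) (nat_lit 8744228229) (nat_lit 304) (nat_lit 7385280797) (nat_lit 380) (nat_lit 17483688971) (nat_lit 235) (nat_lit 5) (nat_lit 239) (nat_lit 5) (nat_lit 240) (nat_lit 5) (nat_lit 397) (nat_lit 366) (nat_lit 257)))) (XT.nd (nat_lit 156) (nat_lit 532) (nat_lit 0) (XT.nd (nat_lit 78) (nat_lit 380) (nat_lit 0) (XT.lf (nat_lit 0) (nat_lit 9261721224) (nat_lit 304) (nat_lit 19839888955) (nat_lit 380) (nat_lit 5519434598) (nat_lit 231) (nat_lit 5) (nat_lit 235) (nat_lit 5) (nat_lit 236) (nat_lit 5) (nat_lit 398) (nat_lit 366) (nat_lit 256)) (XT.lf (nat_lit 0) (nat_lit 7349490117) (nat_lit 380) (nat_lit 25709304032) (nat_lit 76) (nat_lit 2605141912) (nat_lit 226) (nat_lit 5) (nat_lit 231) (nat_lit 5) (nat_lit 227) (nat_lit 5) (nat_lit 399)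 (nat_lit 366) (nat_lit 255))) (XT.nd (nat_lit 78) (nat_lit 228) (nat_lit 0) (XT.lf (nat_lit 0) (nat_lit 10748401890) (nat_lit 304) (nat_lit 10557211351) (nat_lit 380) (nat_lit 15434982155) (nat_lit 222) (nat_lit 5) (nat_lit 226) (nat_lit 5) (nat_lit 227) (nat_lit 5) (nat_lit 400) (nat_lit 366) (nat_lit 254)) (XT.lf (nat_lit 0) (nat_lit 11789222642) (nat_lit 228) (nat_lit 24666480835) (nat_lit 304) (nat_lit 1400499393) (nat_lit 219) (nat_lit 5) (nat_lit 222) (nat_lit 5) (nat_lit 223) (nat_lit 5) (nat_lit 401) (nat_lit 366) (nat_lit 253))))))) (XT.nd (nat_lit 1014) (nat_lit 2584) (nat_lit 0) (XT.nd (nat_lit 468) (nat_lit 1672) (nat_lit 0) (XT.nd (nat_lit 234) (nat_lit 760) (nat_lit 0) (XT.nd (nat_lit 78) (nat_lit 608) (nat_lit 0) (XT.lf (nat_lit 0) (nat_lit 12983855321) (nat_lit 304) (nat_lit 583371702) (nat_lit 380) (nat_lit 25441765549) (nat_lit 214) (nat_lit 5) (nat_lit 218) (nat_lit 5) (nat_lit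 219) (nat_lit 5) (nat_lit 402) (nat_lit 366) (nat_lit 252)) (XT.nd (nat_lit 78) (nat_lit 380) (nat_lit 0) (XT.lf (nat_lit 0) (nat_lit 14330760701) (nat_lit 228) (nat_lit 15560540053) (nat_lit 304) (nat_lit 10308597252) (nat_lit 211) (nat_lit 5) (nat_lit 214) (nat_lit 5) (nat_lit 215) (nat_lit 5) (nat_lit 403) (nat_lit 366) (nat_lit 251)) (XT.lf (nat_lit 0) (nat_lit 5991181219) (nat_lit 380) (nat_lit 25491773175) (nat_lit 76) (nat_lit 9950218961) (nat_lit 206) (nat_lit 5) (nat_lit 211) (nat_lit 5) (nat_lit 207) (nat_lit 5) (nat_lit 404) (nat_lit 366) (nat_lit 250)))) (XT.nd (nat_lit 78) (nat_lit 532) (nat_lit 0) (XT.lf (nat_lit 0) (nat_lit 17730427900) (nat_lit 228) (nat_lit 5751645546) (nat_lit 304) (nat_lit 19225297393) (nat_lit 203) (nat_lit 5) (nat_lit 206) (nat_lit 5) (nat_lit 207) (nat_lit 5) (nat_lit 405) (nat_lit 366) (nat_lit 249)) (XT.nd (nat_lit 78) (nat_lit 304) (nat_lit 0) (XT.lf (nat_lit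 0) (nat_lit 19773328691) (nat_lit 228) (nat_lit 22724846308) (nat_lit 304) (nat_lit 1527583258) (nat_lit 200) (nat_lit 5) (nat_lit 203) (nat_lit 5) (nat_lit 204) (nat_lit 5) (nat_lit 406) (nat_lit 366) (nat_lit 248)) (XT.lf (nat_lit 0) (nat_lit 17289876350) (nat_lit 304) (nat_lit 23363338816) (nat_lit 76) (nat_lit 4734901643) (nat_lit 196) (nat_lit 5) (nat_lit 200) (nat_lit 5) (nat_lit 197) (nat_lit 5) (nat_lit 407) (nat_lit 366) (nat_lit 247))))) (XT.nd (nat_lit 234) (nat_lit 912) (nat_lit 0) (XT.nd (nat_lit 78) (nat_lit 532) (nat_lit 0) (XT.lf (nat_lit 0) (nat_lit 24528857453) (nat_lit 228) (nat_lit 13196915321) (nat_lit 304) (nat_lit 9071092081) (nat_lit 193) (nat_lit 5) (nat_lit 196) (nat_lit 5) (nat_lit 197) (nat_lit 5) (nat_lit 408) (nat_lit 366) (nat_lit 246)) (XT.nd (nat_lit 78) (nat_lit 228) (nat_lit 0) (XT.lf (nat_lit 0) (nat_lit 11349356111) (nat_lit 304) (nat_lit 20964591030) (nat_lit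 76) (nat_lit 15939314140) (nat_lit 189) (nat_lit 5) (nat_lit 193) (nat_lit 5) (nat_lit 190) (nat_lit 5) (nat_lit 409) (nat_lit 366) (nat_lit 245)) (XT.lf (nat_lit 0) (nat_lit 30364789173) (nat_lit 228) (nat_lit 2888739943) (nat_lit 304) (nat_lit 16506744834) (nat_lit 186) (nat_lit 5) (nat_lit 189) (nat_lit 5) (nat_lit 190) (nat_lit 5) (nat_lit 410) (nat_lit 366) (nat_lit 244)))) (XT.nd (nat_lit 156) (nat_lit 456) (nat_lit 0) (XT.nd (nat_lit 78) (nat_lit 228) (nat_lit 0) (XT.lf (nat_lit 0) (nat_lit 5626062528) (nat_lit 228) (nat_lit 17637580711) (nat_lit 76) (nat_lit 28053229812) (nat_lit 183) (nat_lit 5) (nat_lit 186) (nat_lit 5) (nat_lit 184) (nat_lit 5) (nat_lit 411) (nat_lit 366) (nat_lit 243)) (XT.lf (nat_lit 0) (nat_lit 29189385845) (nat_lit 304) (nat_lit 15621965173) (nat_lit 76) (nat_lit 8115090283) (nat_lit 180) (nat_lit 5) (nat_lit 184) (nat_lit 5) (nat_lit 181) (nat_lit 5) (nat_lit 412)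 (nat_lit 366) (nat_lit 242))) (XT.nd (nat_lit 78) (nat_lit 228) (nat_lit 0) (XT.lf (nat_lit 0) (nat_lit 143547129) (nat_lit 228) (nat_lit 13286013584) (nat_lit 76) (nat_lit 41162651538) (nat_lit 177) (nat_lit 5) (nat_lit 180) (nat_lit 5) (nat_lit 178) (nat_lit 5) (nat_lit 413) (nat_lit 366) (nat_lit 241)) (XT.lf (nat_lit 0) (nat_lit 25522245514) (nat_lit 304) (nat_lit 10803385719) (nat_lit 76) (nat_lit 19984740373) (nat_lit 174) (nat_lit 5) (nat_lit 178) (nat_lit 5) (nat_lit 175) (nat_lit 5) (nat_lit 414) (nat_lit 366) (nat_lit 240)))))) (XT.nd (nat_lit 546) (nat_lit 1140) (nat_lit 0) (XT.nd (nat_lit 234) (nat_lit 912) (nat_lit 0) (XT.nd (nat_lit 78) (nat_lit 380) (nat_lit 0) (XT.lf (nat_lit 0) (nat_lit 50237810311) (nat_lit 152) (nat_lit 2681536641) (nat_lit 228) (nat_lit 5172607932) (nat_lit 172) (nat_lit 5) (nat_lit 174) (nat_lit 5) (nat_lit 175) (nat_lit 5) (nat_lit 415) (nat_lit 366) (nat_lit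 239)) (XT.nd (nat_lit 78) (nat_lit 152) (nat_lit 0) (XT.lf (nat_lit 0) (nat_lit 22260425278) (nat_lit 228) (nat_lit 4801935779) (nat_lit 76) (nat_lit 32865172233) (nat_lit 169) (nat_lit 5) (nat_lit 172) (nat_lit 5) (nat_lit 170) (nat_lit 5) (nat_lit 416) (nat_lit 366) (nat_lit 238)) (XT.lf (nat_lit 0) (nat_lit 51730764118) (nat_lit 228) (nat_lit 1261979372) (nat_lit 76) (nat_lit 8837431767) (nat_lit 167) (nat_lit 5) (nat_lit 170) (nat_lit 5) (nat_lit 168) (nat_lit 5) (nat_lit 417) (nat_lit 366) (nat_lit 237)))) (XT.nd (nat_lit 156) (nat_lit 380) (nat_lit 0) (XT.nd (nat_lit 78) (nat_lit 152) (nat_lit 0) (XT.lf (nat_lit 0) (nat_lit 2552565864) (nat_lit 152) (nat_lit 16915935096) (nat_lit 228) (nat_lit 44324325484) (nat_lit 162) (nat_lit 5) (nat_lit 164) (nat_lit 5) (nat_lit 165) (nat_lit 5) (nat_lit 418) (nat_lit 366) (nat_lit 236)) (XT.lf (nat_lit 0) (nat_lit 6802016490) (nat_lit 152) (nat_lit 44435532315)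 (nat_lit 228) (nat_lit 14585113217) (nat_lit 160) (nat_lit 5) (nat_lit 162) (nat_lit 5) (nat_lit 163) (nat_lit 5) (nat_lit 419) (nat_lit 366) (nat_lit 235))) (XT.nd (nat_lit 78) (nat_lit 152) (nat_lit 0) (XT.lf (nat_lit 0) (nat_lit 11465996942) (nat_lit 152) (nat_lit 5761424425) (nat_lit 228) (nat_lit 50694436429) (nat_lit 157) (nat_lit 5) (nat_lit 159) (nat_lit 5) (nat_lit 160) (nat_lit 5) (nat_lit 420) (nat_lit 366) (nat_lit 234)) (XT.lf (nat_lit 0) (nat_lit 16423151990) (nat_lit 152) (nat_lit 35008634685) (nat_lit 228) (nat_lit 18656809077) (nat_lit 155) (nat_lit 5) (nat_lit 157) (nat_lit 5) (nat_lit 158) (nat_lit 5) (nat_lit 421) (nat_lit 366) (nat_lit 233))))) (XT.nd (nat_lit 234) (nat_lit 608) (nat_lit 0) (XT.nd (nat_lit 78) (nat_lit 304) (nat_lit 0) (XT.lf (nat_lit 0) (nat_lit 15602527463) (nat_lit 228) (nat_lit 50406493644) (nat_lit 76) (nat_lit 6322962985) (nat_lit 152) (nat_lit 5) (nat_lit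 155) (nat_lit 5) (nat_lit 153) (nat_lit 5) (nat_lit 422) (nat_lit 366) (nat_lit 232)) (XT.nd (nat_lit 78) (nat_lit 152) (nat_lit 0) (XT.lf (nat_lit 0) (nat_lit 27729152208) (nat_lit 152) (nat_lit 24635124085) (nat_lit 228) (nat_lit 22282465021) (nat_lit 150) (nat_lit 5) (nat_lit 152) (nat_lit 5) (nat_lit 153) (nat_lit 5) (nat_lit 423) (nat_lit 366) (nat_lit 231)) (XT.lf (nat_lit 0) (nat_lit 14654007137) (nat_lit 152) (nat_lit 42955773031) (nat_lit 76) (nat_lit 19432308138) (nat_lit 148) (nat_lit 5) (nat_lit 150) (nat_lit 5) (nat_lit 149) (nat_lit 5) (nat_lit 424) (nat_lit 366) (nat_lit 230)))) (XT.nd (nat_lit 156) (nat_lit 304) (nat_lit 0) (XT.nd (nat_lit 78) (nat_lit 152) (nat_lit 0) (XT.lf (nat_lit 0) (nat_lit 40886784204) (nat_lit 152) (nat_lit 13217563013) (nat_lit 228) (nat_lit 25412400480) (nat_lit 146) (nat_lit 5) (nat_lit 148) (nat_lit 5) (nat_lit 149) (nat_lit 5) (nat_lit 425) (nat_lit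 366) (nat_lit 229)) (XT.lf (nat_lit 0) (nat_lit 14388877619) (nat_lit 152) (nat_lit 33895261330) (nat_lit 76) (nat_lit 33789977428) (nat_lit 144) (nat_lit 5) (nat_lit 146) (nat_lit 5) (nat_lit 145) (nat_lit 5) (nat_lit 426) (nat_lit 366) (nat_lit 228))) (XT.nd (nat_lit 78) (nat_lit 152) (nat_lit 0) (XT.lf (nat_lit 0) (nat_lit 56077897510) (nat_lit 152) (nat_lit 650110537) (nat_lit 228) (nat_lit 27991596530) (nat_lit 142) (nat_lit 5) (nat_lit 144) (nat_lit 5) (nat_lit 145) (nat_lit 5) (nat_lit 427) (nat_lit 366) (nat_lit 227)) (XT.lf (nat_lit 0) (nat_lit 14875786273) (nat_lit 152) (nat_lit 23057666274) (nat_lit 76) (nat_lit 49516283610) (nat_lit 140) (nat_lit 5) (nat_lit 142) (nat_lit 5) (nat_lit 141) (nat_lit 5) (nat_lit 428) (nat_lit 366) (nat_lit 226))))))))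
noncomputable def xc90 : XT := (XT.nd (nat_lit 49764) (nat_lit 0) (nat_lit 4712) (XT.nd (nat_lit 48672) (nat_lit 0) (nat_lit 14212) (XT.nd (nat_lit 468) (nat_lit 380) (nat_lit 0) (XT.nd (nat_lit 234) (nat_lit 608) (nat_lit 0) (XT.nd (nat_lit 78) (nat_lit 304) (nat_lit 0) (XT.lf (nat_lit 0) (nat_lit 60445223736) (nat_lit 228) (nat_lit 16903774985) (nat_lit 76) (nat_lit 12924933419) (nat_lit 138) (nat_lit 5) (nat_lit 141) (nat_lit 5) (nat_lit 139) (nat_lit 4) (nat_lit 429) (nat_lit 366) (nat_lit 225)) (XT.nd (nat_lit 78) (nat_lit 152) (nat_lit 0) (XT.lf (nat_lit 0) (nat_lit 16190164063) (nat_lit 152) (nat_lit 10260260342) (nat_lit 76) (nat_lit 66741668648) (nat_lit 136) (nat_lit 5) (nat_lit 138) (nat_lit 5) (nat_lit 137) (nat_lit 5) (nat_lit 430) (nat_lit 366) (nat_lit 224)) (XT.lf (nat_lit 0) (nat_lit 65239984797) (nat_lit 228) (nat_lit 3117146819) (nat_lit 76) (nat_lit 27849763141) (nat_lit 134)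 (nat_lit 5) (nat_lit 137) (nat_lit 5) (nat_lit 135) (nat_lit 4) (nat_lit 431) (nat_lit 366) (nat_lit 223)))) (XT.nd (nat_lit 78) (nat_lit 304) (nat_lit 0) (XT.lf (nat_lit 0) (nat_lit 4789882608) (nat_lit 152) (nat_lit 13670965621) (nat_lit 228) (nat_lit 80863681122) (nat_lit 130) (nat_lit 5) (nat_lit 132) (nat_lit 5) (nat_lit 133) (nat_lit 5) (nat_lit 432) (nat_lit 366) (nat_lit 222)) (XT.nd (nat_lit 78) (nat_lit 228) (nat_lit 0) (XT.lf (nat_lit 0) (nat_lit 13189926370) (nat_lit 76) (nat_lit 58143810586) (nat_lit 152) (nat_lit 31206685053) (nat_lit 129) (nat_lit 5) (nat_lit 130) (nat_lit 5) (nat_lit 131) (nat_lit 4) (nat_lit 433) (nat_lit 366) (nat_lit 221)) (XT.lf (nat_lit 0) (nat_lit 21862354355) (nat_lit 228) (nat_lit 83408613537) (nat_lit 76) (nat_lit 599974489) (nat_lit 126) (nat_lit 5) (nat_lit 129) (nat_lit 5) (nat_lit 127) (nat_lit 4) (nat_lit 434) (nat_lit 366) (nat_lit 220))))) (XT.nd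 (nat_lit 47892) (nat_lit 0) (nat_lit 19304) (XT.nd (nat_lit 156) (nat_lit 304) (nat_lit 0) (XT.lf (nat_lit 0) (nat_lit 32098630685) (nat_lit 76) (nat_lit 46666262172) (nat_lit 152) (nat_lit 30539063126) (nat_lit 125) (nat_lit 5) (nat_lit 126) (nat_lit 5) (nat_lit 127) (nat_lit 4) (nat_lit 435) (nat_lit 366) (nat_lit 219)) (XT.nd (nat_lit 47658) (nat_lit 0) (nat_lit 19228) (XT.lf (nat_lit 0) (nat_lit 53799257826) (nat_lit 76) (nat_lit 33826389073) (nat_lit 152) (nat_lit 28901841917) (nat_lit 121) (nat_lit 5) (nat_lit 122) (nat_lit 5) (nat_lit 123) (nat_lit 4) (nat_lit 437) (nat_lit 366) (nat_lit 217)) (XT.lf (nat_lit 0) (nat_lit 1570061952) (nat_lit 1292) (nat_lit 3051031741) (nat_lit 1292) (nat_lit 3051031741) (nat_lit 374) (nat_lit 3) (nat_lit 391) (nat_lit 3) (nat_lit 391) (nat_lit 5) (nat_lit 367) (nat_lit 367) (nat_lit 286)))) (XT.nd (nat_lit 156) (nat_lit 0) (nat_lit 76) (XT.nd (nat_lit 78)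 (nat_lit 0) (nat_lit 0) (XT.lf (nat_lit 0) (nat_lit 3781325817) (nat_lit 1216) (nat_lit 8926576474) (nat_lit 1292) (nat_lit 3003073883) (nat_lit 375) (nat_lit 5) (nat_lit 391) (nat_lit 5) (nat_lit 392) (nat_lit 5) (nat_lit 368) (nat_lit 367) (nat_lit 285)) (XT.lf (nat_lit 76) (nat_lit 4322216567) (nat_lit 0) (nat_lit 300685080) (nat_lit 1292) (nat_lit 11468086687) (nat_lit 376) (nat_lit 5) (nat_lit 375) (nat_lit 5) (nat_lit 392) (nat_lit 5) (nat_lit 369) (nat_lit 367) (nat_lit 284))) (XT.nd (nat_lit 78) (nat_lit 0) (nat_lit 76) (XT.lf (nat_lit 76) (nat_lit 1827897570) (nat_lit 0) (nat_lit 3882803430) (nat_lit 1292) (nat_lit 10773175757) (nat_lit 377) (nat_lit 5) (nat_lit 376) (nat_lit 5) (nat_lit 393) (nat_lit 5) (nat_lit 370) (nat_lit 367) (nat_lit 283)) (XT.lf (nat_lit 0) (nat_lit 7039851645) (nat_lit 1216) (nat_lit 653213989) (nat_lit 1292) (nat_lit 9197735128) (nat_lit 377) (nat_lit 5) (nat_lit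 393) (nat_lit 5) (nat_lit 394) (nat_lit 5) (nat_lit 371) (nat_lit 367) (nat_lit 282)))))) (XT.nd (nat_lit 546) (nat_lit 3496) (nat_lit 0) (XT.nd (nat_lit 234) (nat_lit 1824) (nat_lit 0) (XT.nd (nat_lit 78) (nat_lit 0) (nat_lit 76) (XT.lf (nat_lit 0) (nat_lit 8640535818) (nat_lit 1216) (nat_lit 3096070184) (nat_lit 1292) (nat_lit 5575312686) (nat_lit 378) (nat_lit 5) (nat_lit 394) (nat_lit 5) (nat_lit 395) (nat_lit 5) (nat_lit 372) (nat_lit 367) (nat_lit 281)) (XT.nd (nat_lit 78) (nat_lit 0) (nat_lit 0) (XT.lf (nat_lit 0) (nat_lit 10515130738) (nat_lit 1216) (nat_lit 5533539066) (nat_lit 1292) (nat_lit 1699606410) (nat_lit 379) (nat_lit 5) (nat_lit 395) (nat_lit 5) (nat_lit 396) (nat_lit 5) (nat_lit 373) (nat_lit 367) (nat_lit 280)) (XT.lf (nat_lit 76) (nat_lit 10213324651) (nat_lit 0) (nat_lit 2495237868) (nat_lit 1292) (nat_lit 5491135884) (nat_lit 380) (nat_lit 5) (nat_lit 379) (nat_lit 5) (nat_lit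 396) (nat_lit 5) (nat_lit 374) (nat_lit 367) (nat_lit 279)))) (XT.nd (nat_lit 156) (nat_lit 1976) (nat_lit 0) (XT.nd (nat_lit 78) (nat_lit 0) (nat_lit 76) (XT.lf (nat_lit 76) (nat_lit 8220495628) (nat_lit 0) (nat_lit 7017834548) (nat_lit 1292) (nat_lit 3428561596) (nat_lit 381) (nat_lit 5) (nat_lit 380) (nat_lit 5) (nat_lit 397) (nat_lit 5) (nat_lit 375) (nat_lit 367) (nat_lit 278)) (XT.lf (nat_lit 76) (nat_lit 6257973066) (nat_lit 0) (nat_lit 11853097131) (nat_lit 1292) (nat_lit 1039880094) (nat_lit 382) (nat_lit 5) (nat_lit 381) (nat_lit 5) (nat_lit 398) (nat_lit 5) (nat_lit 376) (nat_lit 367) (nat_lit 277))) (XT.nd (nat_lit 78) (nat_lit 836) (nat_lit 0) (XT.lf (nat_lit 0) (nat_lit 1665634094) (nat_lit 1292) (nat_lit 15338001737) (nat_lit 76) (nat_lit 2648371022) (nat_lit 365) (nat_lit 5) (nat_lit 382) (nat_lit 5) (nat_lit 366) (nat_lit 5) (nat_lit 377) (nat_lit 367) (nat_lit 276)) (XT.lf (nat_lit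 0) (nat_lit 2373555114) (nat_lit 836) (nat_lit 2367840970) (nat_lit 912) (nat_lit 15428716932) (nat_lit 354) (nat_lit 5) (nat_lit 365) (nat_lit 5) (nat_lit 366) (nat_lit 5) (nat_lit 378) (nat_lit 367) (nat_lit 275))))) (XT.nd (nat_lit 234) (nat_lit 2280) (nat_lit 0) (XT.nd (nat_lit 78) (nat_lit 608) (nat_lit 0) (XT.lf (nat_lit 0) (nat_lit 445968895) (nat_lit 608) (nat_lit 7794284433) (nat_lit 684) (nat_lit 12465791943) (nat_lit 346) (nat_lit 5) (nat_lit 354) (nat_lit 5) (nat_lit 355) (nat_lit 5) (nat_lit 379) (nat_lit 367) (nat_lit 274)) (XT.nd (nat_lit 78) (nat_lit 608) (nat_lit 0) (XT.lf (nat_lit 0) (nat_lit 12177528620) (nat_lit 684) (nat_lit 1407748556) (nat_lit 76) (nat_lit 7675592710) (nat_lit 346) (nat_lit 5) (nat_lit 355) (nat_lit 5) (nat_lit 347) (nat_lit 5) (nat_lit 380) (nat_lit 367) (nat_lit 273)) (XT.lf (nat_lit 0) (nat_lit 16572140592) (nat_lit 684) (nat_lit 3201110668) (nat_lit 76)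 (nat_lit 2062370282) (nat_lit 338) (nat_lit 5) (nat_lit 347) (nat_lit 5) (nat_lit 339) (nat_lit 5) (nat_lit 381) (nat_lit 367) (nat_lit 272)))) (XT.nd (nat_lit 156) (nat_lit 1064) (nat_lit 0) (XT.nd (nat_lit 78) (nat_lit 684) (nat_lit 0) (XT.lf (nat_lit 0) (nat_lit 17455743136) (nat_lit 532) (nat_lit 4033234550) (nat_lit 608) (nat_lit 941058260) (nat_lit 331) (nat_lit 5) (nat_lit 338) (nat_lit 5) (nat_lit 339) (nat_lit 5) (nat_lit 382) (nat_lit 367) (nat_lit 271)) (XT.lf (nat_lit 0) (nat_lit 3824239733) (nat_lit 684) (nat_lit 6742494386) (nat_lit 76) (nat_lit 12477490891) (nat_lit 322) (nat_lit 5) (nat_lit 331) (nat_lit 5) (nat_lit 323) (nat_lit 5) (nat_lit 383) (nat_lit 367) (nat_lit 270))) (XT.nd (nat_lit 78) (nat_lit 532) (nat_lit 0) (XT.lf (nat_lit 0) (nat_lit 9092102600) (nat_lit 608) (nat_lit 8453802436) (nat_lit 76) (nat_lit 6134426094) (nat_lit 315) (nat_lit 5) (nat_lit 323) (nat_lit 5)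 (nat_lit 316) (nat_lit 5) (nat_lit 384) (nat_lit 367) (nat_lit 269)) (XT.lf (nat_lit 0) (nat_lit 14242299143) (nat_lit 532) (nat_lit 679357728) (nat_lit 608) (nat_lit 9417636740) (nat_lit 308) (nat_lit 5) (nat_lit 315) (nat_lit 5) (nat_lit 316) (nat_lit 5) (nat_lit 385) (nat_lit 367) (nat_lit 268))))))) (XT.nd (nat_lit 1014) (nat_lit 3952) (nat_lit 0) (XT.nd (nat_lit 468) (nat_lit 2660) (nat_lit 0) (XT.nd (nat_lit 234) (nat_lit 1368) (nat_lit 0) (XT.nd (nat_lit 78) (nat_lit 1064) (nat_lit 0) (XT.lf (nat_lit 0) (nat_lit 13299259718) (nat_lit 456) (nat_lit 8108063754) (nat_lit 532) (nat_lit 3612941703) (nat_lit 302) (nat_lit 5) (nat_lit 308) (nat_lit 5) (nat_lit 309) (nat_lit 5) (nat_lit 386) (nat_lit 367) (nat_lit 267)) (XT.nd (nat_lit 78) (nat_lit 456) (nat_lit 0) (XT.lf (nat_lit 0) (nat_lit 2746589782) (nat_lit 608) (nat_lit 13282727209) (nat_lit 76) (nat_lit 9695861548) (nat_lit 294) (nat_lit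 5) (nat_lit 302) (nat_lit 5) (nat_lit 295) (nat_lit 5) (nat_lit 387) (nat_lit 367) (nat_lit 266)) (XT.lf (nat_lit 0) (nat_lit 9671815994) (nat_lit 532) (nat_lit 14785532474) (nat_lit 76) (nat_lit 1997242773) (nat_lit 288) (nat_lit 5) (nat_lit 295) (nat_lit 5) (nat_lit 289) (nat_lit 5) (nat_lit 388) (nat_lit 367) (nat_lit 265)))) (XT.nd (nat_lit 78) (nat_lit 912) (nat_lit 0) (XT.lf (nat_lit 0) (nat_lit 10963865780) (nat_lit 456) (nat_lit 6371294572) (nat_lit 532) (nat_lit 9873558520) (nat_lit 282) (nat_lit 5) (nat_lit 288) (nat_lit 5) (nat_lit 289) (nat_lit 5) (nat_lit 389) (nat_lit 367) (nat_lit 264)) (XT.nd (nat_lit 78) (nat_lit 532) (nat_lit 0) (XT.lf (nat_lit 0) (nat_lit 10376952971) (nat_lit 380) (nat_lit 15366525042) (nat_lit 456) (nat_lit 2246220690) (nat_lit 277) (nat_lit 5) (nat_lit 282) (nat_lit 5) (nat_lit 283) (nat_lit 5) (nat_lit 390) (nat_lit 367) (nat_lit 263)) (XT.lf (nat_lit 0)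 (nat_lit 6003986747) (nat_lit 532) (nat_lit 18915992766) (nat_lit 76) (nat_lit 3877467751) (nat_lit 270) (nat_lit 5) (nat_lit 277) (nat_lit 5) (nat_lit 271) (nat_lit 5) (nat_lit 391) (nat_lit 367) (nat_lit 262))))) (XT.nd (nat_lit 234) (nat_lit 1444) (nat_lit 0) (XT.nd (nat_lit 78) (nat_lit 836) (nat_lit 0) (XT.lf (nat_lit 0) (nat_lit 9467356989) (nat_lit 380) (nat_lit 5570328713) (nat_lit 456) (nat_lit 14594707263) (nat_lit 265) (nat_lit 5) (nat_lit 270) (nat_lit 5) (nat_lit 271) (nat_lit 5) (nat_lit 392) (nat_lit 367) (nat_lit 261)) (XT.nd (nat_lit 78) (nat_lit 456) (nat_lit 0) (XT.lf (nat_lit 0) (nat_lit 9181448112) (nat_lit 380) (nat_lit 15756477255) (nat_lit 456) (nat_lit 5558714912) (nat_lit 260) (nat_lit 5) (nat_lit 265) (nat_lit 5) (nat_lit 266) (nat_lit 5) (nat_lit 393) (nat_lit 367) (nat_lit 260)) (XT.lf (nat_lit 0) (nat_lit 4241088794) (nat_lit 456) (nat_lit 22355452264) (nat_lit 76)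 (nat_lit 4794765374) (nat_lit 254) (nat_lit 5) (nat_lit 260) (nat_lit 5) (nat_lit 255) (nat_lit 5) (nat_lit 394) (nat_lit 367) (nat_lit 259)))) (XT.nd (nat_lit 156) (nat_lit 760) (nat_lit 0) (XT.nd (nat_lit 78) (nat_lit 304) (nat_lit 0) (XT.lf (nat_lit 0) (nat_lit 8967873342) (nat_lit 380) (nat_lit 5904800559) (nat_lit 456) (nat_lit 17442678268) (nat_lit 249) (nat_lit 5) (nat_lit 254) (nat_lit 5) (nat_lit 255) (nat_lit 5) (nat_lit 395) (nat_lit 367) (nat_lit 258)) (XT.lf (nat_lit 0) (nat_lit 9052719105) (nat_lit 304) (nat_lit 17443830475) (nat_lit 380) (nat_lit 6775229275) (nat_lit 245) (nat_lit 5) (nat_lit 249) (nat_lit 5) (nat_lit 250) (nat_lit 5) (nat_lit 396) (nat_lit 367) (nat_lit 257))) (XT.nd (nat_lit 78) (nat_lit 304) (nat_lit 0) (XT.lf (nat_lit 0) (nat_lit 4765485628) (nat_lit 456) (nat_lit 24952979869) (nat_lit 76) (nat_lit 4543497551) (nat_lit 239) (nat_lit 5) (nat_lit 245) (nat_lit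 5) (nat_lit 240) (nat_lit 5) (nat_lit 397) (nat_lit 367) (nat_lit 256)) (XT.lf (nat_lit 0) (nat_lit 9651787763) (nat_lit 304) (nat_lit 7603035259) (nat_lit 380) (nat_lit 18029469719) (nat_lit 235) (nat_lit 5) (nat_lit 239) (nat_lit 5) (nat_lit 240) (nat_lit 5) (nat_lit 398) (nat_lit 367) (nat_lit 255)))))) (XT.nd (nat_lit 546) (nat_lit 1748) (nat_lit 0) (XT.nd (nat_lit 234) (nat_lit 1216) (nat_lit 0) (XT.nd (nat_lit 78) (nat_lit 684) (nat_lit 0) (XT.lf (nat_lit 0) (nat_lit 10189549291) (nat_lit 304) (nat_lit 20676651588) (nat_lit 380) (nat_lit 5476610831) (nat_lit 231) (nat_lit 5) (nat_lit 235) (nat_lit 5) (nat_lit 236) (nat_lit 5) (nat_lit 399) (nat_lit 367) (nat_lit 254)) (XT.nd (nat_lit 78) (nat_lit 304) (nat_lit 0) (XT.lf (nat_lit 0) (nat_lit 8020545739) (nat_lit 380) (nat_lit 26529737370) (nat_lit 76) (nat_lit 2887742321) (nat_lit 226) (nat_lit 5) (nat_lit 231) (nat_lit 5) (nat_lit 227) (nat_lit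 5) (nat_lit 400) (nat_lit 367) (nat_lit 253)) (XT.lf (nat_lit 0) (nat_lit 11737523803) (nat_lit 304) (nat_lit 10926837006) (nat_lit 380) (nat_lit 15904460349) (nat_lit 222) (nat_lit 5) (nat_lit 226) (nat_lit 5) (nat_lit 227) (nat_lit 5) (nat_lit 401) (nat_lit 367) (nat_lit 252)))) (XT.nd (nat_lit 156) (nat_lit 608) (nat_lit 0) (XT.nd (nat_lit 78) (nat_lit 380) (nat_lit 0) (XT.lf (nat_lit 0) (nat_lit 12824511843) (nat_lit 228) (nat_lit 25739203292) (nat_lit 304) (nat_lit 1176741085) (nat_lit 219) (nat_lit 5) (nat_lit 222) (nat_lit 5) (nat_lit 223) (nat_lit 5) (nat_lit 402) (nat_lit 367) (nat_lit 251)) (XT.lf (nat_lit 0) (nat_lit 14071665024) (nat_lit 304) (nat_lit 452473421) (nat_lit 380) (nat_lit 26426947253) (nat_lit 214) (nat_lit 5) (nat_lit 218) (nat_lit 5) (nat_lit 219) (nat_lit 5) (nat_lit 403) (nat_lit 367) (nat_lit 250))) (XT.nd (nat_lit 78) (nat_lit 380) (nat_lit 0) (XT.lf (nat_lit 0) (nat_lit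 15479965217) (nat_lit 228) (nat_lit 16176810803) (nat_lit 304) (nat_lit 10544989579) (nat_lit 211) (nat_lit 5) (nat_lit 214) (nat_lit 5) (nat_lit 215) (nat_lit 5) (nat_lit 404) (nat_lit 367) (nat_lit 249)) (XT.lf (nat_lit 0) (nat_lit 6556941902) (nat_lit 380) (nat_lit 26334415706) (nat_lit 76) (nat_lit 10605488366) (nat_lit 206) (nat_lit 5) (nat_lit 211) (nat_lit 5) (nat_lit 207) (nat_lit 5) (nat_lit 405) (nat_lit 367) (nat_lit 248))))) (XT.nd (nat_lit 234) (nat_lit 988) (nat_lit 0) (XT.nd (nat_lit 78) (nat_lit 532) (nat_lit 0) (XT.lf (nat_lit 0) (nat_lit 19036513773) (nat_lit 228) (nat_lit 5877221809) (nat_lit 304) (nat_lit 19921277045) (nat_lit 203) (nat_lit 5) (nat_lit 206) (nat_lit 5) (nat_lit 207) (nat_lit 5) (nat_lit 406) (nat_lit 367) (nat_lit 247)) (XT.nd (nat_lit 78) (nat_lit 304) (nat_lit 0) (XT.lf (nat_lit 0) (nat_lit 21175525479) (nat_lit 228) (nat_lit 23698310296) (nat_lit 304) (nat_lit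 1345687834) (nat_lit 200) (nat_lit 5) (nat_lit 203) (nat_lit 5) (nat_lit 204) (nat_lit 5) (nat_lit 407) (nat_lit 367) (nat_lit 246)) (XT.lf (nat_lit 0) (nat_lit 18401006630) (nat_lit 304) (nat_lit 24119133563) (nat_lit 76) (nat_lit 5129983363) (nat_lit 196) (nat_lit 5) (nat_lit 200) (nat_lit 5) (nat_lit 197) (nat_lit 5) (nat_lit 408) (nat_lit 367) (nat_lit 245)))) (XT.nd (nat_lit 156) (nat_lit 456) (nat_lit 0) (XT.nd (nat_lit 78) (nat_lit 304) (nat_lit 0) (XT.lf (nat_lit 0) (nat_lit 26155851953) (nat_lit 228) (nat_lit 13694951676) (nat_lit 304) (nat_lit 9278742203) (nat_lit 193) (nat_lit 5) (nat_lit 196) (nat_lit 5) (nat_lit 197) (nat_lit 5) (nat_lit 409) (nat_lit 367) (nat_lit 244)) (XT.lf (nat_lit 0) (nat_lit 12151774567) (nat_lit 304) (nat_lit 21613628571) (nat_lit 76) (nat_lit 16893472688) (nat_lit 189) (nat_lit 5) (nat_lit 193) (nat_lit 5) (nat_lit 190) (nat_lit 5) (nat_lit 410) (nat_lit 367)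 (nat_lit 243))) (XT.nd (nat_lit 78) (nat_lit 228) (nat_lit 0) (XT.lf (nat_lit 0) (nat_lit 32270777883) (nat_lit 228) (nat_lit 2872917496) (nat_lit 304) (nat_lit 17097767574) (nat_lit 186) (nat_lit 5) (nat_lit 189) (nat_lit 5) (nat_lit 190) (nat_lit 5) (nat_lit 411) (nat_lit 367) (nat_lit 242)) (XT.lf (nat_lit 0) (nat_lit 6131355526) (nat_lit 228) (nat_lit 18133234699) (nat_lit 76) (nat_lit 29611406781) (nat_lit 183) (nat_lit 5) (nat_lit 186) (nat_lit 5) (nat_lit 184) (nat_lit 5) (nat_lit 412) (nat_lit 367) (nat_lit 241))))))))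
noncomputable def xc91 : XT := (XT.nd (nat_lit 49842) (nat_lit 0) (nat_lit 9348) (XT.nd (nat_lit 1014) (nat_lit 1976) (nat_lit 0) (XT.nd (nat_lit 468) (nat_lit 1444) (nat_lit 0) (XT.nd (nat_lit 234) (nat_lit 532) (nat_lit 0) (XT.nd (nat_lit 78) (nat_lit 456) (nat_lit 0) (XT.lf (nat_lit 0) (nat_lit 30867305982) (nat_lit 304) (nat_lit 16022922498) (nat_lit 76) (nat_lit 8675981362) (nat_lit 180) (nat_lit 5) (nat_lit 184) (nat_lit 5) (nat_lit 181) (nat_lit 5) (nat_lit 413) (nat_lit 367) (nat_lit 240)) (XT.nd (nat_lit 78) (nat_lit 228) (nat_lit 0) (XT.lf (nat_lit 0) (nat_lit 364417339) (nat_lit 228) (nat_lit 13576817086) (nat_lit 76) (nat_lit 43374177654) (nat_lit 177) (nat_lit 5) (nat_lit 180) (nat_lit 5) (nat_lit 178) (nat_lit 5) (nat_lit 414) (nat_lit 367) (nat_lit 239)) (XT.lf (nat_lit 0) (nat_lit 27006859677) (nat_lit 304) (nat_lit 10976051434) (nat_lit 76) (nat_lit 21136724018) (nat_lit 174) (nat_lit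 5) (nat_lit 178) (nat_lit 5) (nat_lit 175) (nat_lit 5) (nat_lit 415) (nat_lit 367) (nat_lit 238)))) (XT.nd (nat_lit 78) (nat_lit 380) (nat_lit 0) (XT.lf (nat_lit 0) (nat_lit 53106669981) (nat_lit 152) (nat_lit 2660648951) (nat_lit 228) (nat_lit 5223173558) (nat_lit 172) (nat_lit 5) (nat_lit 174) (nat_lit 5) (nat_lit 175) (nat_lit 5) (nat_lit 416) (nat_lit 367) (nat_lit 237)) (XT.nd (nat_lit 78) (nat_lit 152) (nat_lit 0) (XT.lf (nat_lit 0) (nat_lit 23572578581) (nat_lit 228) (nat_lit 4686893233) (nat_lit 76) (nat_lit 34658464180) (nat_lit 169) (nat_lit 5) (nat_lit 172) (nat_lit 5) (nat_lit 170) (nat_lit 5) (nat_lit 417) (nat_lit 367) (nat_lit 236)) (XT.lf (nat_lit 0) (nat_lit 54511728902) (nat_lit 228) (nat_lit 975791094) (nat_lit 76) (nat_lit 9428331225) (nat_lit 167) (nat_lit 5) (nat_lit 170) (nat_lit 5) (nat_lit 168) (nat_lit 5) (nat_lit 418) (nat_lit 367) (nat_lit 235))))) (XT.nd (nat_lit 234)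 (nat_lit 684) (nat_lit 0) (XT.nd (nat_lit 78) (nat_lit 380) (nat_lit 0) (XT.lf (nat_lit 0) (nat_lit 3030084011) (nat_lit 152) (nat_lit 17605500479) (nat_lit 228) (nat_lit 46341073521) (nat_lit 162) (nat_lit 5) (nat_lit 164) (nat_lit 5) (nat_lit 165) (nat_lit 5) (nat_lit 419) (nat_lit 367) (nat_lit 234)) (XT.nd (nat_lit 78) (nat_lit 228) (nat_lit 0) (XT.lf (nat_lit 0) (nat_lit 7486162123) (nat_lit 152) (nat_lit 46502438220) (nat_lit 228) (nat_lit 15119519558) (nat_lit 160) (nat_lit 5) (nat_lit 162) (nat_lit 5) (nat_lit 163) (nat_lit 5) (nat_lit 420) (nat_lit 367) (nat_lit 233)) (XT.lf (nat_lit 0) (nat_lit 12377172844) (nat_lit 152) (nat_lit 5896817089) (nat_lit 228) (nat_lit 53038404828) (nat_lit 157) (nat_lit 5) (nat_lit 159) (nat_lit 5) (nat_lit 160) (nat_lit 5) (nat_lit 421) (nat_lit 367) (nat_lit 232)))) (XT.nd (nat_lit 156) (nat_lit 304) (nat_lit 0) (XT.nd (nat_lit 78) (nat_lit 228) (nat_lit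 0) (XT.lf (nat_lit 0) (nat_lit 17576471591) (nat_lit 152) (nat_lit 36607873684) (nat_lit 228) (nat_lit 19403251187) (nat_lit 155) (nat_lit 5) (nat_lit 157) (nat_lit 5) (nat_lit 158) (nat_lit 5) (nat_lit 422) (nat_lit 367) (nat_lit 231)) (XT.lf (nat_lit 0) (nat_lit 16561279439) (nat_lit 228) (nat_lit 52596760925) (nat_lit 76) (nat_lit 6785184164) (nat_lit 152) (nat_lit 5) (nat_lit 155) (nat_lit 5) (nat_lit 153) (nat_lit 5) (nat_lit 423) (nat_lit 367) (nat_lit 230))) (XT.nd (nat_lit 78) (nat_lit 152) (nat_lit 0) (XT.lf (nat_lit 0) (nat_lit 29436206191) (nat_lit 152) (nat_lit 25719485308) (nat_lit 228) (nat_lit 23218190840) (nat_lit 150) (nat_lit 5) (nat_lit 152) (nat_lit 5) (nat_lit 153) (nat_lit 5) (nat_lit 424) (nat_lit 367) (nat_lit 229)) (XT.lf (nat_lit 0) (nat_lit 15557715850) (nat_lit 152) (nat_lit 44785080878) (nat_lit 76) (nat_lit 20546265742) (nat_lit 148) (nat_lit 5) (nat_lit 150) (nat_lit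 5) (nat_lit 149) (nat_lit 5) (nat_lit 425) (nat_lit 367) (nat_lit 228)))))) (XT.nd (nat_lit 546) (nat_lit 912) (nat_lit 0) (XT.nd (nat_lit 234) (nat_lit 608) (nat_lit 0) (XT.nd (nat_lit 78) (nat_lit 304) (nat_lit 0) (XT.lf (nat_lit 0) (nat_lit 43240475031) (nat_lit 152) (nat_lit 13734928326) (nat_lit 228) (nat_lit 26512206562) (nat_lit 146) (nat_lit 5) (nat_lit 148) (nat_lit 5) (nat_lit 149) (nat_lit 5) (nat_lit 426) (nat_lit 367) (nat_lit 227)) (XT.nd (nat_lit 78) (nat_lit 152) (nat_lit 0) (XT.lf (nat_lit 0) (nat_lit 15272104763) (nat_lit 152) (nat_lit 35282788112) (nat_lit 76) (nat_lit 35618015824) (nat_lit 144) (nat_lit 5) (nat_lit 146) (nat_lit 5) (nat_lit 145) (nat_lit 5) (nat_lit 427) (nat_lit 367) (nat_lit 226)) (XT.lf (nat_lit 0) (nat_lit 59180221804) (nat_lit 152) (nat_lit 543039392) (nat_lit 228) (nat_lit 29227558028) (nat_lit 142) (nat_lit 5) (nat_lit 144) (nat_lit 5) (nat_lit 145) (nat_lit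 5) (nat_lit 428) (nat_lit 367) (nat_lit 225)))) (XT.nd (nat_lit 156) (nat_lit 304) (nat_lit 0) (XT.nd (nat_lit 78) (nat_lit 152) (nat_lit 0) (XT.lf (nat_lit 0) (nat_lit 15776498608) (nat_lit 152) (nat_lit 23914225772) (nat_lit 76) (nat_lit 52126790894) (nat_lit 140) (nat_lit 5) (nat_lit 142) (nat_lit 5) (nat_lit 141) (nat_lit 5) (nat_lit 429) (nat_lit 367) (nat_lit 224)) (XT.lf (nat_lit 0) (nat_lit 63621005805) (nat_lit 228) (nat_lit 17457871053) (nat_lit 76) (nat_lit 13704146263) (nat_lit 138) (nat_lit 5) (nat_lit 141) (nat_lit 5) (nat_lit 139) (nat_lit 4) (nat_lit 430) (nat_lit 367) (nat_lit 223))) (XT.nd (nat_lit 78) (nat_lit 152) (nat_lit 0) (XT.lf (nat_lit 0) (nat_lit 17150075120) (nat_lit 152) (nat_lit 10487531479) (nat_lit 76) (nat_lit 70209579021) (nat_lit 136) (nat_lit 5) (nat_lit 138) (nat_lit 5) (nat_lit 137) (nat_lit 5) (nat_lit 431) (nat_lit 367) (nat_lit 222)) (XT.lf (nat_lit 0) (nat_lit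 68649158268) (nat_lit 228) (nat_lit 2992341176) (nat_lit 76) (nat_lit 29371324823) (nat_lit 134) (nat_lit 5) (nat_lit 137) (nat_lit 5) (nat_lit 135) (nat_lit 4) (nat_lit 432) (nat_lit 367) (nat_lit 221))))) (XT.nd (nat_lit 312) (nat_lit 304) (nat_lit 0) (XT.nd (nat_lit 78) (nat_lit 304) (nat_lit 0) (XT.lf (nat_lit 0) (nat_lit 5310347187) (nat_lit 152) (nat_lit 14220444545) (nat_lit 228) (nat_lit 84755557054) (nat_lit 130) (nat_lit 5) (nat_lit 132) (nat_lit 5) (nat_lit 133) (nat_lit 5) (nat_lit 433) (nat_lit 367) (nat_lit 220)) (XT.nd (nat_lit 78) (nat_lit 228) (nat_lit 0) (XT.lf (nat_lit 0) (nat_lit 14125368066) (nat_lit 76) (nat_lit 60918841482) (nat_lit 152) (nat_lit 32618919989) (nat_lit 129) (nat_lit 5) (nat_lit 130) (nat_lit 5) (nat_lit 131) (nat_lit 4) (nat_lit 434) (nat_lit 367) (nat_lit 219)) (XT.lf (nat_lit 0) (nat_lit 23097619317) (nat_lit 228) (nat_lit 87305223804) (nat_lit 76) (nat_lit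 757381962) (nat_lit 126) (nat_lit 5) (nat_lit 129) (nat_lit 5) (nat_lit 127) (nat_lit 4) (nat_lit 435) (nat_lit 367) (nat_lit 218)))) (XT.nd (nat_lit 47814) (nat_lit 0) (nat_lit 19228) (XT.nd (nat_lit 47736) (nat_lit 0) (nat_lit 19152) (XT.lf (nat_lit 0) (nat_lit 27999399245) (nat_lit 228) (nat_lit 73454505057) (nat_lit 76) (nat_lit 17043198054) (nat_lit 122) (nat_lit 5) (nat_lit 125) (nat_lit 5) (nat_lit 123) (nat_lit 4) (nat_lit 437) (nat_lit 367) (nat_lit 216)) (XT.lf (nat_lit 0) (nat_lit 2109011777) (nat_lit 1292) (nat_lit 2966453263) (nat_lit 1292) (nat_lit 2966453263) (nat_lit 374) (nat_lit 3) (nat_lit 391) (nat_lit 3) (nat_lit 391) (nat_lit 5) (nat_lit 368) (nat_lit 368) (nat_lit 284))) (XT.nd (nat_lit 78) (nat_lit 0) (nat_lit 0) (XT.lf (nat_lit 0) (nat_lit 4847816667) (nat_lit 1216) (nat_lit 8881750627) (nat_lit 1292) (nat_lit 2740634953) (nat_lit 375) (nat_lit 5) (nat_lit 391) (nat_lit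 5) (nat_lit 392) (nat_lit 5) (nat_lit 369) (nat_lit 368) (nat_lit 283)) (XT.lf (nat_lit 76) (nat_lit 5015403216) (nat_lit 0) (nat_lit 678871894) (nat_lit 1292) (nat_lit 11176055788) (nat_lit 376) (nat_lit 5) (nat_lit 375) (nat_lit 5) (nat_lit 392) (nat_lit 5) (nat_lit 370) (nat_lit 368) (nat_lit 282))))))) (XT.nd (nat_lit 1014) (nat_lit 6536) (nat_lit 0) (XT.nd (nat_lit 468) (nat_lit 3420) (nat_lit 0) (XT.nd (nat_lit 234) (nat_lit 0) (nat_lit 228) (XT.nd (nat_lit 78) (nat_lit 0) (nat_lit 76) (XT.lf (nat_lit 76) (nat_lit 2410568069) (nat_lit 0) (nat_lit 4387283315) (nat_lit 1292) (nat_lit 10486170750) (nat_lit 377) (nat_lit 5) (nat_lit 376) (nat_lit 5) (nat_lit 393) (nat_lit 5) (nat_lit 371) (nat_lit 368) (nat_lit 281)) (XT.nd (nat_lit 78) (nat_lit 0) (nat_lit 76) (XT.lf (nat_lit 0) (nat_lit 8152446284) (nat_lit 1216) (nat_lit 192248731) (nat_lit 1292) (nat_lit 9367827724) (nat_lit 377) (nat_lit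 5) (nat_lit 393) (nat_lit 5) (nat_lit 394) (nat_lit 5) (nat_lit 372) (nat_lit 368) (nat_lit 280)) (XT.lf (nat_lit 0) (nat_lit 9799156042) (nat_lit 1216) (nat_lit 2747129169) (nat_lit 1292) (nat_lit 5609431609) (nat_lit 378) (nat_lit 5) (nat_lit 394) (nat_lit 5) (nat_lit 395) (nat_lit 5) (nat_lit 373) (nat_lit 368) (nat_lit 279)))) (XT.nd (nat_lit 78) (nat_lit 0) (nat_lit 0) (XT.lf (nat_lit 0) (nat_lit 11735590934) (nat_lit 1216) (nat_lit 5298016730) (nat_lit 1292) (nat_lit 1581241250) (nat_lit 379) (nat_lit 5) (nat_lit 395) (nat_lit 5) (nat_lit 396) (nat_lit 5) (nat_lit 374) (nat_lit 368) (nat_lit 278)) (XT.nd (nat_lit 78) (nat_lit 0) (nat_lit 76) (XT.lf (nat_lit 76) (nat_lit 11221508083) (nat_lit 0) (nat_lit 2788887534) (nat_lit 1292) (nat_lit 5079295557) (nat_lit 380) (nat_lit 5) (nat_lit 379) (nat_lit 5) (nat_lit 396) (nat_lit 5) (nat_lit 375) (nat_lit 368) (nat_lit 277)) (XT.lf (nat_lit 76)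 (nat_lit 9135772373) (nat_lit 0) (nat_lit 7502446748) (nat_lit 1292) (nat_lit 2942878067) (nat_lit 381) (nat_lit 5) (nat_lit 380) (nat_lit 5) (nat_lit 397) (nat_lit 5) (nat_lit 376) (nat_lit 368) (nat_lit 276))))) (XT.nd (nat_lit 234) (nat_lit 1748) (nat_lit 0) (XT.nd (nat_lit 78) (nat_lit 2052) (nat_lit 0) (XT.lf (nat_lit 76) (nat_lit 7080508511) (nat_lit 0) (nat_lit 12547382739) (nat_lit 1292) (nat_lit 462268529) (nat_lit 382) (nat_lit 5) (nat_lit 381) (nat_lit 5) (nat_lit 398) (nat_lit 5) (nat_lit 377) (nat_lit 368) (nat_lit 275)) (XT.nd (nat_lit 78) (nat_lit 836) (nat_lit 0) (XT.lf (nat_lit 0) (nat_lit 2340887449) (nat_lit 1292) (nat_lit 15579330969) (nat_lit 76) (nat_lit 2696629628) (nat_lit 365) (nat_lit 5) (nat_lit 382) (nat_lit 5) (nat_lit 366) (nat_lit 5) (nat_lit 378) (nat_lit 368) (nat_lit 274)) (XT.lf (nat_lit 0) (nat_lit 3002738342) (nat_lit 836) (nat_lit 2544417361) (nat_lit 912)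 (nat_lit 15614402269) (nat_lit 354) (nat_lit 5) (nat_lit 365) (nat_lit 5) (nat_lit 366) (nat_lit 5) (nat_lit 379) (nat_lit 368) (nat_lit 273)))) (XT.nd (nat_lit 156) (nat_lit 1140) (nat_lit 0) (XT.nd (nat_lit 78) (nat_lit 0) (nat_lit 0) (XT.lf (nat_lit 0) (nat_lit 981254200) (nat_lit 608) (nat_lit 8217019617) (nat_lit 684) (nat_lit 12526693484) (nat_lit 346) (nat_lit 5) (nat_lit 354) (nat_lit 5) (nat_lit 355) (nat_lit 5) (nat_lit 380) (nat_lit 368) (nat_lit 272)) (XT.lf (nat_lit 0) (nat_lit 13306110198) (nat_lit 684) (nat_lit 973674543) (nat_lit 76) (nat_lit 8028537485) (nat_lit 346) (nat_lit 5) (nat_lit 355) (nat_lit 5) (nat_lit 347) (nat_lit 5) (nat_lit 381) (nat_lit 368) (nat_lit 271))) (XT.nd (nat_lit 78) (nat_lit 532) (nat_lit 0) (XT.lf (nat_lit 0) (nat_lit 17900322176) (nat_lit 684) (nat_lit 2856082104) (nat_lit 76) (nat_lit 2156011102) (nat_lit 338) (nat_lit 5) (nat_lit 347) (nat_lit 5)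 (nat_lit 339) (nat_lit 5) (nat_lit 382) (nat_lit 368) (nat_lit 270)) (XT.lf (nat_lit 0) (nat_lit 18819136256) (nat_lit 532) (nat_lit 4224791609) (nat_lit 608) (nat_lit 493194839) (nat_lit 331) (nat_lit 5) (nat_lit 338) (nat_lit 5) (nat_lit 339) (nat_lit 5) (nat_lit 383) (nat_lit 368) (nat_lit 269)))))) (XT.nd (nat_lit 546) (nat_lit 2812) (nat_lit 0) (XT.nd (nat_lit 234) (nat_lit 1976) (nat_lit 0) (XT.nd (nat_lit 78) (nat_lit 1064) (nat_lit 0) (XT.lf (nat_lit 0) (nat_lit 4482457504) (nat_lit 684) (nat_lit 6579874447) (nat_lit 76) (nat_lit 13120094137) (nat_lit 322) (nat_lit 5) (nat_lit 331) (nat_lit 5) (nat_lit 323) (nat_lit 5) (nat_lit 384) (nat_lit 368) (nat_lit 268)) (XT.nd (nat_lit 78) (nat_lit 532) (nat_lit 0) (XT.lf (nat_lit 0) (nat_lit 9996487214) (nat_lit 608) (nat_lit 8377935892) (nat_lit 76) (nat_lit 6476431197) (nat_lit 315) (nat_lit 5) (nat_lit 323) (nat_lit 5) (nat_lit 316) (nat_lit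 5) (nat_lit 385) (nat_lit 368) (nat_lit 267)) (XT.lf (nat_lit 0) (nat_lit 15438679739) (nat_lit 532) (nat_lit 662076445) (nat_lit 608) (nat_lit 9442511612) (nat_lit 308) (nat_lit 5) (nat_lit 315) (nat_lit 5) (nat_lit 316) (nat_lit 5) (nat_lit 386) (nat_lit 368) (nat_lit 266)))) (XT.nd (nat_lit 156) (nat_lit 912) (nat_lit 0) (XT.nd (nat_lit 78) (nat_lit 608) (nat_lit 0) (XT.lf (nat_lit 0) (nat_lit 14446746573) (nat_lit 456) (nat_lit 8448447205) (nat_lit 532) (nat_lit 3363559532) (nat_lit 302) (nat_lit 5) (nat_lit 308) (nat_lit 5) (nat_lit 309) (nat_lit 5) (nat_lit 387) (nat_lit 368) (nat_lit 265)) (XT.lf (nat_lit 0) (nat_lit 3290742434) (nat_lit 608) (nat_lit 13458515571) (nat_lit 76) (nat_lit 10249974766) (nat_lit 294) (nat_lit 5) (nat_lit 302) (nat_lit 5) (nat_lit 295) (nat_lit 5) (nat_lit 388) (nat_lit 368) (nat_lit 264))) (XT.nd (nat_lit 78) (nat_lit 456) (nat_lit 0) (XT.lf (nat_lit 0) (nat_lit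 10548208658) (nat_lit 532) (nat_lit 15039490681) (nat_lit 76) (nat_lit 2177837407) (nat_lit 288) (nat_lit 5) (nat_lit 295) (nat_lit 5) (nat_lit 289) (nat_lit 5) (nat_lit 389) (nat_lit 368) (nat_lit 263)) (XT.lf (nat_lit 0) (nat_lit 11983465931) (nat_lit 456) (nat_lit 6597080904) (nat_lit 532) (nat_lit 9977249127) (nat_lit 282) (nat_lit 5) (nat_lit 288) (nat_lit 5) (nat_lit 289) (nat_lit 5) (nat_lit 390) (nat_lit 368) (nat_lit 262))))) (XT.nd (nat_lit 234) (nat_lit 1520) (nat_lit 0) (XT.nd (nat_lit 78) (nat_lit 912) (nat_lit 0) (XT.lf (nat_lit 0) (nat_lit 11363861674) (nat_lit 380) (nat_lit 16032737441) (nat_lit 456) (nat_lit 1981606107) (nat_lit 277) (nat_lit 5) (nat_lit 282) (nat_lit 5) (nat_lit 283) (nat_lit 5) (nat_lit 391) (nat_lit 368) (nat_lit 261)) (XT.nd (nat_lit 78) (nat_lit 380) (nat_lit 0) (XT.lf (nat_lit 0) (nat_lit 6661609882) (nat_lit 532) (nat_lit 19390324513) (nat_lit 76) (nat_lit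 4174662518) (nat_lit 270) (nat_lit 5) (nat_lit 277) (nat_lit 5) (nat_lit 271) (nat_lit 5) (nat_lit 392) (nat_lit 368) (nat_lit 260)) (XT.lf (nat_lit 0) (nat_lit 10398678197) (nat_lit 380) (nat_lit 5735697534) (nat_lit 456) (nat_lit 14969292709) (nat_lit 265) (nat_lit 5) (nat_lit 270) (nat_lit 5) (nat_lit 271) (nat_lit 5) (nat_lit 393) (nat_lit 368) (nat_lit 259)))) (XT.nd (nat_lit 156) (nat_lit 684) (nat_lit 0) (XT.nd (nat_lit 78) (nat_lit 456) (nat_lit 0) (XT.lf (nat_lit 0) (nat_lit 10094337927) (nat_lit 380) (nat_lit 16424268353) (nat_lit 456) (nat_lit 5492852473) (nat_lit 260) (nat_lit 5) (nat_lit 265) (nat_lit 5) (nat_lit 266) (nat_lit 5) (nat_lit 394) (nat_lit 368) (nat_lit 258)) (XT.lf (nat_lit 0) (nat_lit 4779653384) (nat_lit 456) (nat_lit 23017312111) (nat_lit 76) (nat_lit 5154110953) (nat_lit 254) (nat_lit 5) (nat_lit 260) (nat_lit 5) (nat_lit 255) (nat_lit 5) (nat_lit 395) (nat_lit 368)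 (nat_lit 257))) (XT.nd (nat_lit 78) (nat_lit 304) (nat_lit 0) (XT.lf (nat_lit 0) (nat_lit 9859111127) (nat_lit 380) (nat_lit 6072415406) (nat_lit 456) (nat_lit 17990136676) (nat_lit 249) (nat_lit 5) (nat_lit 254) (nat_lit 5) (nat_lit 255) (nat_lit 5) (nat_lit 396) (nat_lit 368) (nat_lit 256)) (XT.lf (nat_lit 0) (nat_lit 9943498993) (nat_lit 304) (nat_lit 18183466676) (nat_lit 380) (nat_lit 6799234470) (nat_lit 245) (nat_lit 5) (nat_lit 249) (nat_lit 5) (nat_lit 250) (nat_lit 5) (nat_lit 397) (nat_lit 368) (nat_lit 255))))))))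
noncomputable def xc92 : XT := (XT.nd (nat_lit 2106) (nat_lit 2052) (nat_lit 0) (XT.nd (nat_lit 1014) (nat_lit 3116) (nat_lit 0) (XT.nd (nat_lit 468) (nat_lit 1976) (nat_lit 0) (XT.nd (nat_lit 234) (nat_lit 912) (nat_lit 0) (XT.nd (nat_lit 78) (nat_lit 608) (nat_lit 0) (XT.lf (nat_lit 0) (nat_lit 5303109691) (nat_lit 456) (nat_lit 25761419399) (nat_lit 76) (nat_lit 4901551617) (nat_lit 239) (nat_lit 5) (nat_lit 245) (nat_lit 5) (nat_lit 240) (nat_lit 5) (nat_lit 398) (nat_lit 368) (nat_lit 254)) (XT.nd (nat_lit 78) (nat_lit 304) (nat_lit 0) (XT.lf (nat_lit 0) (nat_lit 10560996764) (nat_lit 304) (nat_lit 7845763368) (nat_lit 380) (nat_lit 18633071368) (nat_lit 235) (nat_lit 5) (nat_lit 239) (nat_lit 5) (nat_lit 240) (nat_lit 5) (nat_lit 399) (nat_lit 368) (nat_lit 253)) (XT.lf (nat_lit 0) (nat_lit 11120561455) (nat_lit 304) (nat_lit 21569684335) (nat_lit 380) (nat_lit 5461284459) (nat_lit 231) (nat_lit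 5) (nat_lit 235) (nat_lit 5) (nat_lit 236) (nat_lit 5) (nat_lit 400) (nat_lit 368) (nat_lit 252)))) (XT.nd (nat_lit 78) (nat_lit 532) (nat_lit 0) (XT.lf (nat_lit 0) (nat_lit 8696930047) (nat_lit 380) (nat_lit 27434426630) (nat_lit 76) (nat_lit 3170309315) (nat_lit 226) (nat_lit 5) (nat_lit 231) (nat_lit 5) (nat_lit 227) (nat_lit 5) (nat_lit 401) (nat_lit 368) (nat_lit 251)) (XT.nd (nat_lit 78) (nat_lit 228) (nat_lit 0) (XT.lf (nat_lit 0) (nat_lit 12734106858) (nat_lit 304) (nat_lit 11329655127) (nat_lit 380) (nat_lit 16425514738) (nat_lit 222) (nat_lit 5) (nat_lit 226) (nat_lit 5) (nat_lit 227) (nat_lit 5) (nat_lit 402) (nat_lit 368) (nat_lit 250)) (XT.lf (nat_lit 0) (nat_lit 13870116635) (nat_lit 228) (nat_lit 26880493084) (nat_lit 304) (nat_lit 969108046) (nat_lit 219) (nat_lit 5) (nat_lit 222) (nat_lit 5) (nat_lit 223) (nat_lit 5) (nat_lit 403) (nat_lit 368) (nat_lit 249))))) (XT.nd (nat_lit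 234) (nat_lit 988) (nat_lit 0) (XT.nd (nat_lit 78) (nat_lit 608) (nat_lit 0) (XT.lf (nat_lit 0) (nat_lit 15173086768) (nat_lit 304) (nat_lit 329911727) (nat_lit 380) (nat_lit 27488061896) (nat_lit 214) (nat_lit 5) (nat_lit 218) (nat_lit 5) (nat_lit 219) (nat_lit 5) (nat_lit 404) (nat_lit 368) (nat_lit 248)) (XT.nd (nat_lit 78) (nat_lit 380) (nat_lit 0) (XT.lf (nat_lit 0) (nat_lit 16646404730) (nat_lit 228) (nat_lit 16838933654) (nat_lit 304) (nat_lit 10819143788) (nat_lit 211) (nat_lit 5) (nat_lit 214) (nat_lit 5) (nat_lit 215) (nat_lit 5) (nat_lit 405) (nat_lit 368) (nat_lit 247)) (XT.lf (nat_lit 0) (nat_lit 7126241715) (nat_lit 380) (nat_lit 27259348621) (nat_lit 76) (nat_lit 11278854355) (nat_lit 206) (nat_lit 5) (nat_lit 211) (nat_lit 5) (nat_lit 207) (nat_lit 5) (nat_lit 406) (nat_lit 368) (nat_lit 246)))) (XT.nd (nat_lit 156) (nat_lit 532) (nat_lit 0) (XT.nd (nat_lit 78) (nat_lit 228) (nat_lit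 0) (XT.lf (nat_lit 0) (nat_lit 20368896812) (nat_lit 228) (nat_lit 6024138670) (nat_lit 304) (nat_lit 20676719383) (nat_lit 203) (nat_lit 5) (nat_lit 206) (nat_lit 5) (nat_lit 207) (nat_lit 5) (nat_lit 407) (nat_lit 368) (nat_lit 245)) (XT.lf (nat_lit 0) (nat_lit 22609385974) (nat_lit 228) (nat_lit 24735581070) (nat_lit 304) (nat_lit 1178709561) (nat_lit 200) (nat_lit 5) (nat_lit 203) (nat_lit 5) (nat_lit 204) (nat_lit 5) (nat_lit 408) (nat_lit 368) (nat_lit 244))) (XT.nd (nat_lit 78) (nat_lit 228) (nat_lit 0) (XT.lf (nat_lit 0) (nat_lit 19544763503) (nat_lit 304) (nat_lit 24951056506) (nat_lit 76) (nat_lit 5530098530) (nat_lit 196) (nat_lit 5) (nat_lit 200) (nat_lit 5) (nat_lit 197) (nat_lit 5) (nat_lit 409) (nat_lit 368) (nat_lit 243)) (XT.lf (nat_lit 0) (nat_lit 27826956685) (nat_lit 228) (nat_lit 14232933353) (nat_lit 304) (nat_lit 9519636699) (nat_lit 193) (nat_lit 5) (nat_lit 196) (nat_lit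 5) (nat_lit 197) (nat_lit 5) (nat_lit 410) (nat_lit 368) (nat_lit 242)))))) (XT.nd (nat_lit 546) (nat_lit 1520) (nat_lit 0) (XT.nd (nat_lit 234) (nat_lit 836) (nat_lit 0) (XT.nd (nat_lit 78) (nat_lit 456) (nat_lit 0) (XT.lf (nat_lit 0) (nat_lit 12972470460) (nat_lit 304) (nat_lit 22332231079) (nat_lit 76) (nat_lit 17880724863) (nat_lit 189) (nat_lit 5) (nat_lit 193) (nat_lit 5) (nat_lit 190) (nat_lit 5) (nat_lit 411) (nat_lit 368) (nat_lit 241)) (XT.nd (nat_lit 78) (nat_lit 228) (nat_lit 0) (XT.lf (nat_lit 0) (nat_lit 34236016778) (nat_lit 228) (nat_lit 2871203330) (nat_lit 304) (nat_lit 17740125793) (nat_lit 186) (nat_lit 5) (nat_lit 189) (nat_lit 5) (nat_lit 190) (nat_lit 5) (nat_lit 412) (nat_lit 368) (nat_lit 240)) (XT.lf (nat_lit 0) (nat_lit 6641088720) (nat_lit 228) (nat_lit 18689578931) (nat_lit 76) (nat_lit 31233034244) (nat_lit 183) (nat_lit 5) (nat_lit 186) (nat_lit 5) (nat_lit 184) (nat_lit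 5) (nat_lit 413) (nat_lit 368) (nat_lit 239)))) (XT.nd (nat_lit 156) (nat_lit 380) (nat_lit 0) (XT.nd (nat_lit 78) (nat_lit 228) (nat_lit 0) (XT.lf (nat_lit 0) (nat_lit 32608812636) (nat_lit 304) (nat_lit 16479269590) (nat_lit 76) (nat_lit 9250493867) (nat_lit 180) (nat_lit 5) (nat_lit 184) (nat_lit 5) (nat_lit 181) (nat_lit 5) (nat_lit 414) (nat_lit 368) (nat_lit 238)) (XT.lf (nat_lit 0) (nat_lit 576463922) (nat_lit 228) (nat_lit 13916884991) (nat_lit 76) (nat_lit 45682018998) (nat_lit 177) (nat_lit 5) (nat_lit 180) (nat_lit 5) (nat_lit 178) (nat_lit 5) (nat_lit 415) (nat_lit 368) (nat_lit 237))) (XT.nd (nat_lit 78) (nat_lit 152) (nat_lit 0) (XT.lf (nat_lit 0) (nat_lit 28546320019) (nat_lit 304) (nat_lit 11191517434) (nat_lit 76) (nat_lit 22332105913) (nat_lit 174) (nat_lit 5) (nat_lit 178) (nat_lit 5) (nat_lit 175) (nat_lit 5) (nat_lit 416) (nat_lit 368) (nat_lit 236)) (XT.lf (nat_lit 0) (nat_lit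 56085785026) (nat_lit 152) (nat_lit 2653124008) (nat_lit 228) (nat_lit 5295611355) (nat_lit 172) (nat_lit 5) (nat_lit 174) (nat_lit 5) (nat_lit 175) (nat_lit 5) (nat_lit 417) (nat_lit 368) (nat_lit 235))))) (XT.nd (nat_lit 234) (nat_lit 760) (nat_lit 0) (XT.nd (nat_lit 78) (nat_lit 532) (nat_lit 0) (XT.lf (nat_lit 0) (nat_lit 24931826139) (nat_lit 228) (nat_lit 4599116048) (nat_lit 76) (nat_lit 36527472047) (nat_lit 169) (nat_lit 5) (nat_lit 172) (nat_lit 5) (nat_lit 170) (nat_lit 5) (nat_lit 418) (nat_lit 368) (nat_lit 234)) (XT.nd (nat_lit 78) (nat_lit 380) (nat_lit 0) (XT.lf (nat_lit 0) (nat_lit 57413665985) (nat_lit 228) (nat_lit 707766821) (nat_lit 76) (nat_lit 10034920457) (nat_lit 167) (nat_lit 5) (nat_lit 170) (nat_lit 5) (nat_lit 168) (nat_lit 5) (nat_lit 419) (nat_lit 368) (nat_lit 233)) (XT.lf (nat_lit 0) (nat_lit 3498948624) (nat_lit 152) (nat_lit 18344069044) (nat_lit 228) (nat_lit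 48477203626) (nat_lit 162) (nat_lit 5) (nat_lit 164) (nat_lit 5) (nat_lit 165) (nat_lit 5) (nat_lit 420) (nat_lit 368) (nat_lit 232)))) (XT.nd (nat_lit 156) (nat_lit 380) (nat_lit 0) (XT.nd (nat_lit 78) (nat_lit 228) (nat_lit 0) (XT.lf (nat_lit 0) (nat_lit 8172529012) (nat_lit 152) (nat_lit 48687087830) (nat_lit 228) (nat_lit 15698761459) (nat_lit 160) (nat_lit 5) (nat_lit 162) (nat_lit 5) (nat_lit 163) (nat_lit 5) (nat_lit 421) (nat_lit 368) (nat_lit 231)) (XT.lf (nat_lit 0) (nat_lit 13302495028) (nat_lit 152) (nat_lit 6053173991) (nat_lit 228) (nat_lit 55517306092) (nat_lit 157) (nat_lit 5) (nat_lit 159) (nat_lit 5) (nat_lit 160) (nat_lit 5) (nat_lit 422) (nat_lit 368) (nat_lit 230))) (XT.nd (nat_lit 78) (nat_lit 228) (nat_lit 0) (XT.lf (nat_lit 0) (nat_lit 18756575897) (nat_lit 152) (nat_lit 38301131100) (nat_lit 228) (nat_lit 20204344954) (nat_lit 155) (nat_lit 5) (nat_lit 157) (nat_lit 5)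 (nat_lit 158) (nat_lit 5) (nat_lit 423) (nat_lit 368) (nat_lit 229)) (XT.lf (nat_lit 0) (nat_lit 17551362099) (nat_lit 228) (nat_lit 54927227178) (nat_lit 76) (nat_lit 7256935916) (nat_lit 152) (nat_lit 5) (nat_lit 155) (nat_lit 5) (nat_lit 153) (nat_lit 5) (nat_lit 424) (nat_lit 368) (nat_lit 228))))))) (XT.nd (nat_lit 48828) (nat_lit 0) (nat_lit 16188) (XT.nd (nat_lit 468) (nat_lit 1140) (nat_lit 0) (XT.nd (nat_lit 234) (nat_lit 456) (nat_lit 0) (XT.nd (nat_lit 78) (nat_lit 304) (nat_lit 0) (XT.lf (nat_lit 0) (nat_lit 31198806861) (nat_lit 152) (nat_lit 26871767980) (nat_lit 228) (nat_lit 24217288651) (nat_lit 150) (nat_lit 5) (nat_lit 152) (nat_lit 5) (nat_lit 153) (nat_lit 5) (nat_lit 425) (nat_lit 368) (nat_lit 227)) (XT.nd (nat_lit 78) (nat_lit 152) (nat_lit 0) (XT.lf (nat_lit 0) (nat_lit 16490711263) (nat_lit 152) (nat_lit 46735463444) (nat_lit 76) (nat_lit 21702687598) (nat_lit 148) (nat_lit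 5) (nat_lit 150) (nat_lit 5) (nat_lit 149) (nat_lit 5) (nat_lit 426) (nat_lit 368) (nat_lit 226)) (XT.lf (nat_lit 0) (nat_lit 45683089818) (nat_lit 152) (nat_lit 14291504368) (nat_lit 228) (nat_lit 27682883610) (nat_lit 146) (nat_lit 5) (nat_lit 148) (nat_lit 5) (nat_lit 149) (nat_lit 5) (nat_lit 427) (nat_lit 368) (nat_lit 225)))) (XT.nd (nat_lit 78) (nat_lit 304) (nat_lit 0) (XT.lf (nat_lit 0) (nat_lit 16184266248) (nat_lit 152) (nat_lit 36768255150) (nat_lit 76) (nat_lit 37524576047) (nat_lit 144) (nat_lit 5) (nat_lit 146) (nat_lit 5) (nat_lit 145) (nat_lit 5) (nat_lit 428) (nat_lit 368) (nat_lit 224)) (XT.nd (nat_lit 78) (nat_lit 152) (nat_lit 0) (XT.lf (nat_lit 0) (nat_lit 62409917174) (nat_lit 152) (nat_lit 443591206) (nat_lit 228) (nat_lit 30540529282) (nat_lit 142) (nat_lit 5) (nat_lit 144) (nat_lit 5) (nat_lit 145) (nat_lit 5) (nat_lit 429) (nat_lit 368) (nat_lit 223)) (XT.lf (nat_lit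 0) (nat_lit 16707657345) (nat_lit 152) (nat_lit 24841162625) (nat_lit 76) (nat_lit 54855301054) (nat_lit 140) (nat_lit 5) (nat_lit 142) (nat_lit 5) (nat_lit 141) (nat_lit 5) (nat_lit 430) (nat_lit 368) (nat_lit 222))))) (XT.nd (nat_lit 234) (nat_lit 684) (nat_lit 0) (XT.nd (nat_lit 78) (nat_lit 304) (nat_lit 0) (XT.lf (nat_lit 0) (nat_lit 66941304061) (nat_lit 228) (nat_lit 18066734962) (nat_lit 76) (nat_lit 14509957815) (nat_lit 138) (nat_lit 5) (nat_lit 141) (nat_lit 5) (nat_lit 139) (nat_lit 4) (nat_lit 431) (nat_lit 368) (nat_lit 221)) (XT.nd (nat_lit 78) (nat_lit 152) (nat_lit 0) (XT.lf (nat_lit 0) (nat_lit 18143998698) (nat_lit 152) (nat_lit 10752731745) (nat_lit 76) (nat_lit 73838721863) (nat_lit 136) (nat_lit 5) (nat_lit 138) (nat_lit 5) (nat_lit 137) (nat_lit 5) (nat_lit 432) (nat_lit 368) (nat_lit 220)) (XT.lf (nat_lit 0) (nat_lit 72215107548) (nat_lit 228) (nat_lit 2887388635) (nat_lit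 76) (nat_lit 30956964557) (nat_lit 134) (nat_lit 5) (nat_lit 137) (nat_lit 5) (nat_lit 135) (nat_lit 4) (nat_lit 433) (nat_lit 368) (nat_lit 219)))) (XT.nd (nat_lit 234) (nat_lit 304) (nat_lit 0) (XT.nd (nat_lit 78) (nat_lit 76) (nat_lit 0) (XT.lf (nat_lit 0) (nat_lit 5830713026) (nat_lit 152) (nat_lit 14809861914) (nat_lit 228) (nat_lit 88856093977) (nat_lit 130) (nat_lit 5) (nat_lit 132) (nat_lit 5) (nat_lit 133) (nat_lit 5) (nat_lit 434) (nat_lit 368) (nat_lit 218)) (XT.lf (nat_lit 0) (nat_lit 15081927063) (nat_lit 76) (nat_lit 63844910872) (nat_lit 152) (nat_lit 34115535542) (nat_lit 129) (nat_lit 5) (nat_lit 130) (nat_lit 5) (nat_lit 131) (nat_lit 4) (nat_lit 435) (nat_lit 368) (nat_lit 217))) (XT.nd (nat_lit 47814) (nat_lit 0) (nat_lit 18924) (XT.lf (nat_lit 0) (nat_lit 35909254205) (nat_lit 76) (nat_lit 51198983045) (nat_lit 152) (nat_lit 33391275935) (nat_lit 125) (nat_lit 5) (nat_lit 126)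 (nat_lit 5) (nat_lit 127) (nat_lit 4) (nat_lit 437) (nat_lit 368) (nat_lit 215)) (XT.lf (nat_lit 0) (nat_lit 2632101121) (nat_lit 1292) (nat_lit 2899691967) (nat_lit 1292) (nat_lit 2899691967) (nat_lit 374) (nat_lit 3) (nat_lit 391) (nat_lit 3) (nat_lit 391) (nat_lit 5) (nat_lit 369) (nat_lit 369) (nat_lit 282)))))) (XT.nd (nat_lit 546) (nat_lit 2812) (nat_lit 0) (XT.nd (nat_lit 234) (nat_lit 0) (nat_lit 152) (XT.nd (nat_lit 78) (nat_lit 0) (nat_lit 0) (XT.lf (nat_lit 0) (nat_lit 5886057441) (nat_lit 1216) (nat_lit 8880346393) (nat_lit 1292) (nat_lit 2503433027) (nat_lit 375) (nat_lit 5) (nat_lit 391) (nat_lit 5) (nat_lit 392) (nat_lit 5) (nat_lit 370) (nat_lit 369) (nat_lit 281)) (XT.nd (nat_lit 78) (nat_lit 0) (nat_lit 76) (XT.lf (nat_lit 76) (nat_lit 5698895210) (nat_lit 0) (nat_lit 1042205567) (nat_lit 1292) (nat_lit 10949883309) (nat_lit 376) (nat_lit 5) (nat_lit 375) (nat_lit 5) (nat_lit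 392) (nat_lit 5) (nat_lit 371) (nat_lit 369) (nat_lit 280)) (XT.lf (nat_lit 76) (nat_lit 2976697943) (nat_lit 0) (nat_lit 4888134749) (nat_lit 1292) (nat_lit 10261577887) (nat_lit 377) (nat_lit 5) (nat_lit 376) (nat_lit 5) (nat_lit 393) (nat_lit 5) (nat_lit 372) (nat_lit 369) (nat_lit 279)))) (XT.nd (nat_lit 156) (nat_lit 0) (nat_lit 152) (XT.nd (nat_lit 78) (nat_lit 0) (nat_lit 76) (XT.lf (nat_lit 76) (nat_lit 250765465) (nat_lit 0) (nat_lit 9001602131) (nat_lit 1292) (nat_lit 9325012310) (nat_lit 378) (nat_lit 5) (nat_lit 377) (nat_lit 5) (nat_lit 394) (nat_lit 5) (nat_lit 373) (nat_lit 369) (nat_lit 278)) (XT.lf (nat_lit 0) (nat_lit 10948155507) (nat_lit 1216) (nat_lit 2427574494) (nat_lit 1292) (nat_lit 5668001410) (nat_lit 378) (nat_lit 5) (nat_lit 394) (nat_lit 5) (nat_lit 395) (nat_lit 5) (nat_lit 374) (nat_lit 369) (nat_lit 277))) (XT.nd (nat_lit 78) (nat_lit 0) (nat_lit 0) (XT.lf (nat_lit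 0) (nat_lit 12952487179) (nat_lit 1216) (nat_lit 5098337713) (nat_lit 1292) (nat_lit 1475862968) (nat_lit 379) (nat_lit 5) (nat_lit 395) (nat_lit 5) (nat_lit 396) (nat_lit 5) (nat_lit 375) (nat_lit 369) (nat_lit 276)) (XT.lf (nat_lit 76) (nat_lit 12233846253) (nat_lit 0) (nat_lit 3081518100) (nat_lit 1292) (nat_lit 4710677911) (nat_lit 380) (nat_lit 5) (nat_lit 379) (nat_lit 5) (nat_lit 396) (nat_lit 5) (nat_lit 376) (nat_lit 369) (nat_lit 275))))) (XT.nd (nat_lit 234) (nat_lit 1976) (nat_lit 0) (XT.nd (nat_lit 78) (nat_lit 1216) (nat_lit 0) (XT.lf (nat_lit 76) (nat_lit 10049932387) (nat_lit 0) (nat_lit 7998857495) (nat_lit 1292) (nat_lit 2494002371) (nat_lit 381) (nat_lit 5) (nat_lit 380) (nat_lit 5) (nat_lit 397) (nat_lit 5) (nat_lit 377) (nat_lit 369) (nat_lit 274)) (XT.nd (nat_lit 78) (nat_lit 0) (nat_lit 76) (XT.lf (nat_lit 0) (nat_lit 84016756) (nat_lit 1292) (nat_lit 13182068802) (nat_lit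 1368) (nat_lit 7811924369) (nat_lit 364) (nat_lit 5) (nat_lit 381) (nat_lit 5) (nat_lit 382) (nat_lit 5) (nat_lit 378) (nat_lit 369) (nat_lit 273)) (XT.lf (nat_lit 0) (nat_lit 2994867559) (nat_lit 1292) (nat_lit 15881589258) (nat_lit 76) (nat_lit 2755125559) (nat_lit 365) (nat_lit 5) (nat_lit 382) (nat_lit 5) (nat_lit 366) (nat_lit 5) (nat_lit 379) (nat_lit 369) (nat_lit 272)))) (XT.nd (nat_lit 156) (nat_lit 608) (nat_lit 0) (XT.nd (nat_lit 78) (nat_lit 608) (nat_lit 0) (XT.lf (nat_lit 0) (nat_lit 3615918772) (nat_lit 836) (nat_lit 2724413143) (nat_lit 912) (nat_lit 15863829403) (nat_lit 354) (nat_lit 5) (nat_lit 365) (nat_lit 5) (nat_lit 366) (nat_lit 5) (nat_lit 380) (nat_lit 369) (nat_lit 271)) (XT.lf (nat_lit 0) (nat_lit 1495611114) (nat_lit 608) (nat_lit 8657821583) (nat_lit 684) (nat_lit 12642925613) (nat_lit 346) (nat_lit 5) (nat_lit 354) (nat_lit 5) (nat_lit 355) (nat_lit 5) (nat_lit 381)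 (nat_lit 369) (nat_lit 270))) (XT.nd (nat_lit 78) (nat_lit 608) (nat_lit 0) (XT.lf (nat_lit 0) (nat_lit 14442803596) (nat_lit 684) (nat_lit 564796873) (nat_lit 76) (nat_lit 8401996231) (nat_lit 346) (nat_lit 5) (nat_lit 355) (nat_lit 5) (nat_lit 347) (nat_lit 5) (nat_lit 382) (nat_lit 369) (nat_lit 269)) (XT.lf (nat_lit 0) (nat_lit 19248467133) (nat_lit 684) (nat_lit 2540760044) (nat_lit 76) (nat_lit 2255215110) (nat_lit 338) (nat_lit 5) (nat_lit 347) (nat_lit 5) (nat_lit 339) (nat_lit 5) (nat_lit 383) (nat_lit 369) (nat_lit 268))))))))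
noncomputable def xc93 : XT := (XT.nd (nat_lit 2106) (nat_lit 5320) (nat_lit 0) (XT.nd (nat_lit 1014) (nat_lit 4408) (nat_lit 0) (XT.nd (nat_lit 468) (nat_lit 3040) (nat_lit 0) (XT.nd (nat_lit 234) (nat_lit 1596) (nat_lit 0) (XT.nd (nat_lit 78) (nat_lit 1216) (nat_lit 0) (XT.lf (nat_lit 0) (nat_lit 20205087140) (nat_lit 532) (nat_lit 4426865958) (nat_lit 608) (nat_lit 68950877) (nat_lit 331) (nat_lit 5) (nat_lit 338) (nat_lit 5) (nat_lit 339) (nat_lit 5) (nat_lit 384) (nat_lit 369) (nat_lit 267)) (XT.nd (nat_lit 78) (nat_lit 532) (nat_lit 0) (XT.lf (nat_lit 0) (nat_lit 5130168393) (nat_lit 684) (nat_lit 6455585031) (nat_lit 76) (nat_lit 13793086328) (nat_lit 322) (nat_lit 5) (nat_lit 331) (nat_lit 5) (nat_lit 323) (nat_lit 5) (nat_lit 385) (nat_lit 369) (nat_lit 266)) (XT.lf (nat_lit 0) (nat_lit 10904274825) (nat_lit 608) (nat_lit 8344627094) (nat_lit 76) (nat_lit 6832256202) (nat_lit 315) (nat_lit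 5) (nat_lit 323) (nat_lit 5) (nat_lit 316) (nat_lit 5) (nat_lit 386) (nat_lit 369) (nat_lit 265)))) (XT.nd (nat_lit 78) (nat_lit 1064) (nat_lit 0) (XT.lf (nat_lit 0) (nat_lit 16649856936) (nat_lit 532) (nat_lit 648695760) (nat_lit 608) (nat_lit 9510095729) (nat_lit 308) (nat_lit 5) (nat_lit 315) (nat_lit 5) (nat_lit 316) (nat_lit 5) (nat_lit 387) (nat_lit 369) (nat_lit 264)) (XT.nd (nat_lit 78) (nat_lit 608) (nat_lit 0) (XT.lf (nat_lit 0) (nat_lit 15606747275) (nat_lit 456) (nat_lit 8811894747) (nat_lit 532) (nat_lit 3141688296) (nat_lit 302) (nat_lit 5) (nat_lit 308) (nat_lit 5) (nat_lit 309) (nat_lit 5) (nat_lit 388) (nat_lit 369) (nat_lit 263)) (XT.lf (nat_lit 0) (nat_lit 3824280157) (nat_lit 608) (nat_lit 13688495320) (nat_lit 76) (nat_lit 10825348915) (nat_lit 294) (nat_lit 5) (nat_lit 302) (nat_lit 5) (nat_lit 295) (nat_lit 5) (nat_lit 389) (nat_lit 369) (nat_lit 262))))) (XT.nd (nat_lit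 234) (nat_lit 1748) (nat_lit 0) (XT.nd (nat_lit 78) (nat_lit 836) (nat_lit 0) (XT.lf (nat_lit 0) (nat_lit 11431901962) (nat_lit 532) (nat_lit 15351267105) (nat_lit 76) (nat_lit 2359956031) (nat_lit 288) (nat_lit 5) (nat_lit 295) (nat_lit 5) (nat_lit 289) (nat_lit 5) (nat_lit 390) (nat_lit 369) (nat_lit 261)) (XT.nd (nat_lit 78) (nat_lit 380) (nat_lit 0) (XT.lf (nat_lit 0) (nat_lit 13010219148) (nat_lit 456) (nat_lit 6842782209) (nat_lit 532) (nat_lit 10122381588) (nat_lit 282) (nat_lit 5) (nat_lit 288) (nat_lit 5) (nat_lit 289) (nat_lit 5) (nat_lit 391) (nat_lit 369) (nat_lit 260)) (XT.lf (nat_lit 0) (nat_lit 12356599933) (nat_lit 380) (nat_lit 16741754038) (nat_lit 456) (nat_lit 1738803765) (nat_lit 277) (nat_lit 5) (nat_lit 282) (nat_lit 5) (nat_lit 283) (nat_lit 5) (nat_lit 392) (nat_lit 369) (nat_lit 259)))) (XT.nd (nat_lit 156) (nat_lit 836) (nat_lit 0) (XT.nd (nat_lit 78) (nat_lit 380) (nat_lit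 0) (XT.lf (nat_lit 0) (nat_lit 7318884296) (nat_lit 532) (nat_lit 19932205463) (nat_lit 76) (nat_lit 4477111182) (nat_lit 270) (nat_lit 5) (nat_lit 277) (nat_lit 5) (nat_lit 271) (nat_lit 5) (nat_lit 393) (nat_lit 369) (nat_lit 258)) (XT.lf (nat_lit 0) (nat_lit 11333989303) (nat_lit 380) (nat_lit 5919854189) (nat_lit 456) (nat_lit 15395625901) (nat_lit 265) (nat_lit 5) (nat_lit 270) (nat_lit 5) (nat_lit 271) (nat_lit 5) (nat_lit 394) (nat_lit 369) (nat_lit 257))) (XT.nd (nat_lit 78) (nat_lit 456) (nat_lit 0) (XT.lf (nat_lit 0) (nat_lit 11010680591) (nat_lit 380) (nat_lit 17136608515) (nat_lit 456) (nat_lit 5455660008) (nat_lit 260) (nat_lit 5) (nat_lit 265) (nat_lit 5) (nat_lit 266) (nat_lit 5) (nat_lit 395) (nat_lit 369) (nat_lit 256)) (XT.lf (nat_lit 0) (nat_lit 5314790384) (nat_lit 456) (nat_lit 23754651398) (nat_lit 76) (nat_lit 5520303858) (nat_lit 254) (nat_lit 5) (nat_lit 260) (nat_lit 5)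 (nat_lit 255) (nat_lit 5) (nat_lit 396) (nat_lit 369) (nat_lit 255)))))) (XT.nd (nat_lit 546) (nat_lit 1976) (nat_lit 0) (XT.nd (nat_lit 234) (nat_lit 1292) (nat_lit 0) (XT.nd (nat_lit 78) (nat_lit 760) (nat_lit 0) (XT.lf (nat_lit 0) (nat_lit 10753739353) (nat_lit 380) (nat_lit 6260276374) (nat_lit 456) (nat_lit 18595153257) (nat_lit 249) (nat_lit 5) (nat_lit 254) (nat_lit 5) (nat_lit 255) (nat_lit 5) (nat_lit 397) (nat_lit 369) (nat_lit 254)) (XT.nd (nat_lit 78) (nat_lit 456) (nat_lit 0) (XT.lf (nat_lit 0) (nat_lit 10838083405) (nat_lit 304) (nat_lit 18972408425) (nat_lit 380) (nat_lit 6853702980) (nat_lit 245) (nat_lit 5) (nat_lit 249) (nat_lit 5) (nat_lit 250) (nat_lit 5) (nat_lit 398) (nat_lit 369) (nat_lit 253)) (XT.lf (nat_lit 0) (nat_lit 5839784252) (nat_lit 456) (nat_lit 26651114438) (nat_lit 76) (nat_lit 5265340480) (nat_lit 239) (nat_lit 5) (nat_lit 245) (nat_lit 5) (nat_lit 240) (nat_lit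 5) (nat_lit 399) (nat_lit 369) (nat_lit 252)))) (XT.nd (nat_lit 156) (nat_lit 684) (nat_lit 0) (XT.nd (nat_lit 78) (nat_lit 304) (nat_lit 0) (XT.lf (nat_lit 0) (nat_lit 11476003166) (nat_lit 304) (nat_lit 8113404231) (nat_lit 380) (nat_lit 19294546399) (nat_lit 235) (nat_lit 5) (nat_lit 239) (nat_lit 5) (nat_lit 240) (nat_lit 5) (nat_lit 400) (nat_lit 369) (nat_lit 251)) (XT.lf (nat_lit 0) (nat_lit 12058933927) (nat_lit 304) (nat_lit 22520458954) (nat_lit 380) (nat_lit 5472074838) (nat_lit 231) (nat_lit 5) (nat_lit 235) (nat_lit 5) (nat_lit 236) (nat_lit 5) (nat_lit 401) (nat_lit 369) (nat_lit 250))) (XT.nd (nat_lit 78) (nat_lit 304) (nat_lit 0) (XT.lf (nat_lit 0) (nat_lit 9381533485) (nat_lit 380) (nat_lit 28423565096) (nat_lit 76) (nat_lit 3454158002) (nat_lit 226) (nat_lit 5) (nat_lit 231) (nat_lit 5) (nat_lit 227) (nat_lit 5) (nat_lit 402) (nat_lit 369) (nat_lit 249)) (XT.lf (nat_lit 0) (nat_lit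 13742428405) (nat_lit 304) (nat_lit 11765957629) (nat_lit 380) (nat_lit 16998111446) (nat_lit 222) (nat_lit 5) (nat_lit 226) (nat_lit 5) (nat_lit 227) (nat_lit 5) (nat_lit 403) (nat_lit 369) (nat_lit 248))))) (XT.nd (nat_lit 234) (nat_lit 1140) (nat_lit 0) (XT.nd (nat_lit 78) (nat_lit 608) (nat_lit 0) (XT.lf (nat_lit 0) (nat_lit 14930406322) (nat_lit 228) (nat_lit 28092390417) (nat_lit 304) (nat_lit 775867218) (nat_lit 219) (nat_lit 5) (nat_lit 222) (nat_lit 5) (nat_lit 223) (nat_lit 5) (nat_lit 404) (nat_lit 369) (nat_lit 247)) (XT.nd (nat_lit 78) (nat_lit 228) (nat_lit 0) (XT.lf (nat_lit 0) (nat_lit 16292592346) (nat_lit 304) (nat_lit 214719906) (nat_lit 380) (nat_lit 28626426242) (nat_lit 214) (nat_lit 5) (nat_lit 218) (nat_lit 5) (nat_lit 219) (nat_lit 5) (nat_lit 405) (nat_lit 369) (nat_lit 246)) (XT.lf (nat_lit 0) (nat_lit 17834680751) (nat_lit 228) (nat_lit 17547803068) (nat_lit 304) (nat_lit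 11130536106) (nat_lit 211) (nat_lit 5) (nat_lit 214) (nat_lit 5) (nat_lit 215) (nat_lit 5) (nat_lit 406) (nat_lit 369) (nat_lit 245)))) (XT.nd (nat_lit 156) (nat_lit 532) (nat_lit 0) (XT.nd (nat_lit 78) (nat_lit 228) (nat_lit 0) (XT.lf (nat_lit 0) (nat_lit 7701558534) (nat_lit 380) (nat_lit 28266952905) (nat_lit 76) (nat_lit 11972585345) (nat_lit 206) (nat_lit 5) (nat_lit 211) (nat_lit 5) (nat_lit 207) (nat_lit 5) (nat_lit 407) (nat_lit 369) (nat_lit 244)) (XT.lf (nat_lit 0) (nat_lit 21732518387) (nat_lit 228) (nat_lit 6192062855) (nat_lit 304) (nat_lit 21492304547) (nat_lit 203) (nat_lit 5) (nat_lit 206) (nat_lit 5) (nat_lit 207) (nat_lit 5) (nat_lit 408) (nat_lit 369) (nat_lit 243))) (XT.nd (nat_lit 78) (nat_lit 304) (nat_lit 0) (XT.lf (nat_lit 0) (nat_lit 24080067718) (nat_lit 228) (nat_lit 25838441990) (nat_lit 304) (nat_lit 1025161897) (nat_lit 200) (nat_lit 5) (nat_lit 203) (nat_lit 5) (nat_lit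 204) (nat_lit 5) (nat_lit 409) (nat_lit 369) (nat_lit 242)) (XT.lf (nat_lit 0) (nat_lit 20724910106) (nat_lit 304) (nat_lit 25859349707) (nat_lit 76) (nat_lit 5936867400) (nat_lit 196) (nat_lit 5) (nat_lit 200) (nat_lit 5) (nat_lit 197) (nat_lit 5) (nat_lit 410) (nat_lit 369) (nat_lit 241))))))) (XT.nd (nat_lit 1014) (nat_lit 2356) (nat_lit 0) (XT.nd (nat_lit 468) (nat_lit 1520) (nat_lit 0) (XT.nd (nat_lit 234) (nat_lit 684) (nat_lit 0) (XT.nd (nat_lit 78) (nat_lit 532) (nat_lit 0) (XT.lf (nat_lit 0) (nat_lit 29547839334) (nat_lit 228) (nat_lit 14811459017) (nat_lit 304) (nat_lit 9793312307) (nat_lit 193) (nat_lit 5) (nat_lit 196) (nat_lit 5) (nat_lit 197) (nat_lit 5) (nat_lit 411) (nat_lit 369) (nat_lit 240)) (XT.nd (nat_lit 78) (nat_lit 228) (nat_lit 0) (XT.lf (nat_lit 0) (nat_lit 13814388465) (nat_lit 304) (nat_lit 23120426378) (nat_lit 76) (nat_lit 18904084045) (nat_lit 189) (nat_lit 5) (nat_lit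 193) (nat_lit 5) (nat_lit 190) (nat_lit 5) (nat_lit 412) (nat_lit 369) (nat_lit 239)) (XT.lf (nat_lit 0) (nat_lit 36266819886) (nat_lit 228) (nat_lit 2882917655) (nat_lit 304) (nat_lit 18434360963) (nat_lit 186) (nat_lit 5) (nat_lit 189) (nat_lit 5) (nat_lit 190) (nat_lit 5) (nat_lit 413) (nat_lit 369) (nat_lit 238)))) (XT.nd (nat_lit 78) (nat_lit 456) (nat_lit 0) (XT.lf (nat_lit 0) (nat_lit 7157420178) (nat_lit 228) (nat_lit 19306309576) (nat_lit 76) (nat_lit 32922628926) (nat_lit 183) (nat_lit 5) (nat_lit 186) (nat_lit 5) (nat_lit 184) (nat_lit 5) (nat_lit 414) (nat_lit 369) (nat_lit 237)) (XT.nd (nat_lit 78) (nat_lit 228) (nat_lit 0) (XT.lf (nat_lit 0) (nat_lit 34418973318) (nat_lit 304) (nat_lit 16990490183) (nat_lit 76) (nat_lit 9840649796) (nat_lit 180) (nat_lit 5) (nat_lit 184) (nat_lit 5) (nat_lit 181) (nat_lit 5) (nat_lit 415) (nat_lit 369) (nat_lit 236)) (XT.lf (nat_lit 0) (nat_lit 781092757)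 (nat_lit 228) (nat_lit 14305452188) (nat_lit 76) (nat_lit 48092317192) (nat_lit 177) (nat_lit 5) (nat_lit 180) (nat_lit 5) (nat_lit 178) (nat_lit 5) (nat_lit 416) (nat_lit 369) (nat_lit 235))))) (XT.nd (nat_lit 234) (nat_lit 912) (nat_lit 0) (XT.nd (nat_lit 78) (nat_lit 380) (nat_lit 0) (XT.lf (nat_lit 0) (nat_lit 30145171038) (nat_lit 304) (nat_lit 11448747208) (nat_lit 76) (nat_lit 23574376236) (nat_lit 174) (nat_lit 5) (nat_lit 178) (nat_lit 5) (nat_lit 175) (nat_lit 5) (nat_lit 417) (nat_lit 369) (nat_lit 234)) (XT.nd (nat_lit 78) (nat_lit 228) (nat_lit 0) (XT.lf (nat_lit 0) (nat_lit 59183753684) (nat_lit 152) (nat_lit 2658290512) (nat_lit 228) (nat_lit 5389216521) (nat_lit 172) (nat_lit 5) (nat_lit 174) (nat_lit 5) (nat_lit 175) (nat_lit 5) (nat_lit 418) (nat_lit 369) (nat_lit 233)) (XT.lf (nat_lit 0) (nat_lit 26342243867) (nat_lit 228) (nat_lit 4536897841) (nat_lit 76) (nat_lit 38477278446)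 (nat_lit 169) (nat_lit 5) (nat_lit 172) (nat_lit 5) (nat_lit 170) (nat_lit 5) (nat_lit 419) (nat_lit 369) (nat_lit 232)))) (XT.nd (nat_lit 156) (nat_lit 380) (nat_lit 0) (XT.nd (nat_lit 78) (nat_lit 380) (nat_lit 0) (XT.lf (nat_lit 0) (nat_lit 60444304512) (nat_lit 228) (nat_lit 455795680) (nat_lit 76) (nat_lit 10659272078) (nat_lit 167) (nat_lit 5) (nat_lit 170) (nat_lit 5) (nat_lit 168) (nat_lit 5) (nat_lit 420) (nat_lit 369) (nat_lit 231)) (XT.lf (nat_lit 0) (nat_lit 3961751304) (nat_lit 152) (nat_lit 19132740560) (nat_lit 228) (nat_lit 50736960795) (nat_lit 162) (nat_lit 5) (nat_lit 164) (nat_lit 5) (nat_lit 165) (nat_lit 5) (nat_lit 421) (nat_lit 369) (nat_lit 230))) (XT.nd (nat_lit 78) (nat_lit 228) (nat_lit 0) (XT.lf (nat_lit 0) (nat_lit 8864201977) (nat_lit 152) (nat_lit 50994029705) (nat_lit 228) (nat_lit 16323396514) (nat_lit 160) (nat_lit 5) (nat_lit 162) (nat_lit 5) (nat_lit 163) (nat_lit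 5) (nat_lit 422) (nat_lit 369) (nat_lit 229)) (XT.lf (nat_lit 0) (nat_lit 14245591247) (nat_lit 152) (nat_lit 6230223664) (nat_lit 228) (nat_lit 58136238084) (nat_lit 157) (nat_lit 5) (nat_lit 159) (nat_lit 5) (nat_lit 160) (nat_lit 5) (nat_lit 423) (nat_lit 369) (nat_lit 228)))))) (XT.nd (nat_lit 546) (nat_lit 1216) (nat_lit 0) (XT.nd (nat_lit 234) (nat_lit 608) (nat_lit 0) (XT.nd (nat_lit 78) (nat_lit 380) (nat_lit 0) (XT.lf (nat_lit 0) (nat_lit 19967675192) (nat_lit 152) (nat_lit 40091801018) (nat_lit 228) (nat_lit 21061211823) (nat_lit 155) (nat_lit 5) (nat_lit 157) (nat_lit 5) (nat_lit 158) (nat_lit 5) (nat_lit 424) (nat_lit 369) (nat_lit 227)) (XT.nd (nat_lit 78) (nat_lit 152) (nat_lit 0) (XT.lf (nat_lit 0) (nat_lit 18575885931) (nat_lit 228) (nat_lit 57402049496) (nat_lit 76) (nat_lit 7739957355) (nat_lit 152) (nat_lit 5) (nat_lit 155) (nat_lit 5) (nat_lit 153) (nat_lit 5) (nat_lit 425)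 (nat_lit 369) (nat_lit 226)) (XT.lf (nat_lit 0) (nat_lit 33022502633) (nat_lit 152) (nat_lit 28094094163) (nat_lit 228) (nat_lit 25281385075) (nat_lit 150) (nat_lit 5) (nat_lit 152) (nat_lit 5) (nat_lit 153) (nat_lit 5) (nat_lit 426) (nat_lit 369) (nat_lit 225)))) (XT.nd (nat_lit 156) (nat_lit 304) (nat_lit 0) (XT.nd (nat_lit 78) (nat_lit 152) (nat_lit 0) (XT.lf (nat_lit 0) (nat_lit 17455935825) (nat_lit 152) (nat_lit 48810221670) (nat_lit 76) (nat_lit 22904927256) (nat_lit 148) (nat_lit 5) (nat_lit 150) (nat_lit 5) (nat_lit 149) (nat_lit 5) (nat_lit 427) (nat_lit 369) (nat_lit 224)) (XT.lf (nat_lit 0) (nat_lit 48221748649) (nat_lit 152) (nat_lit 14888011219) (nat_lit 228) (nat_lit 28926498737) (nat_lit 146) (nat_lit 5) (nat_lit 148) (nat_lit 5) (nat_lit 149) (nat_lit 5) (nat_lit 428) (nat_lit 369) (nat_lit 223))) (XT.nd (nat_lit 78) (nat_lit 152) (nat_lit 0) (XT.lf (nat_lit 0) (nat_lit 17128224457)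 (nat_lit 152) (nat_lit 38353903856) (nat_lit 76) (nat_lit 39514781658) (nat_lit 144) (nat_lit 5) (nat_lit 146) (nat_lit 5) (nat_lit 145) (nat_lit 5) (nat_lit 429) (nat_lit 369) (nat_lit 222)) (XT.lf (nat_lit 0) (nat_lit 65775931653) (nat_lit 152) (nat_lit 350940692) (nat_lit 228) (nat_lit 31932946543) (nat_lit 142) (nat_lit 5) (nat_lit 144) (nat_lit 5) (nat_lit 145) (nat_lit 5) (nat_lit 430) (nat_lit 369) (nat_lit 221))))) (XT.nd (nat_lit 234) (nat_lit 760) (nat_lit 0) (XT.nd (nat_lit 78) (nat_lit 304) (nat_lit 0) (XT.lf (nat_lit 0) (nat_lit 17672141171) (nat_lit 152) (nat_lit 25839434420) (nat_lit 76) (nat_lit 57708878456) (nat_lit 140) (nat_lit 5) (nat_lit 142) (nat_lit 5) (nat_lit 141) (nat_lit 5) (nat_lit 431) (nat_lit 369) (nat_lit 220)) (XT.nd (nat_lit 78) (nat_lit 152) (nat_lit 0) (XT.lf (nat_lit 0) (nat_lit 70414671274) (nat_lit 228) (nat_lit 18730589040) (nat_lit 76) (nat_lit 15344847305)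 (nat_lit 138) (nat_lit 5) (nat_lit 141) (nat_lit 5) (nat_lit 139) (nat_lit 4) (nat_lit 432) (nat_lit 369) (nat_lit 219)) (XT.lf (nat_lit 0) (nat_lit 19174935433) (nat_lit 152) (nat_lit 11055287780) (nat_lit 76) (nat_lit 77638289604) (nat_lit 136) (nat_lit 5) (nat_lit 138) (nat_lit 5) (nat_lit 137) (nat_lit 5) (nat_lit 433) (nat_lit 369) (nat_lit 218)))) (XT.nd (nat_lit 234) (nat_lit 304) (nat_lit 0) (XT.nd (nat_lit 78) (nat_lit 304) (nat_lit 0) (XT.lf (nat_lit 0) (nat_lit 75946943530) (nat_lit 228) (nat_lit 2800855935) (nat_lit 76) (nat_lit 32611001893) (nat_lit 134) (nat_lit 5) (nat_lit 137) (nat_lit 5) (nat_lit 135) (nat_lit 4) (nat_lit 434) (nat_lit 369) (nat_lit 217)) (XT.lf (nat_lit 0) (nat_lit 6353403760) (nat_lit 152) (nat_lit 15440055818) (nat_lit 228) (nat_lit 93174417107) (nat_lit 130) (nat_lit 5) (nat_lit 132) (nat_lit 5) (nat_lit 133) (nat_lit 5) (nat_lit 435) (nat_lit 369) (nat_lit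 216))) (XT.nd (nat_lit 47892) (nat_lit 0) (nat_lit 18848) (XT.lf (nat_lit 0) (nat_lit 25717448515) (nat_lit 228) (nat_lit 95767955173) (nat_lit 76) (nat_lit 1061174770) (nat_lit 126) (nat_lit 5) (nat_lit 129) (nat_lit 5) (nat_lit 127) (nat_lit 4) (nat_lit 437) (nat_lit 369) (nat_lit 214)) (XT.lf (nat_lit 0) (nat_lit 3142516839) (nat_lit 1292) (nat_lit 2849589074) (nat_lit 1292) (nat_lit 2849589074) (nat_lit 374) (nat_lit 3) (nat_lit 391) (nat_lit 3) (nat_lit 391) (nat_lit 5) (nat_lit 370) (nat_lit 370) (nat_lit 280))))))))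
noncomputable def xc94 : XT := (XT.nd (nat_lit 2106) (nat_lit 7372) (nat_lit 0) (XT.nd (nat_lit 1014) (nat_lit 6992) (nat_lit 0) (XT.nd (nat_lit 468) (nat_lit 2204) (nat_lit 0) (XT.nd (nat_lit 234) (nat_lit 0) (nat_lit 152) (XT.nd (nat_lit 78) (nat_lit 0) (nat_lit 0) (XT.lf (nat_lit 0) (nat_lit 6902219669) (nat_lit 1216) (nat_lit 8920289549) (nat_lit 1292) (nat_lit 2289163705) (nat_lit 375) (nat_lit 5) (nat_lit 391) (nat_lit 5) (nat_lit 392) (nat_lit 5) (nat_lit 371) (nat_lit 370) (nat_lit 279)) (XT.nd (nat_lit 78) (nat_lit 0) (nat_lit 76) (XT.lf (nat_lit 76) (nat_lit 6376331429) (nat_lit 0) (nat_lit 1393082356) (nat_lit 1292) (nat_lit 10785381766) (nat_lit 376) (nat_lit 5) (nat_lit 375) (nat_lit 5) (nat_lit 392) (nat_lit 5) (nat_lit 372) (nat_lit 370) (nat_lit 278)) (XT.lf (nat_lit 76) (nat_lit 3529706509) (nat_lit 0) (nat_lit 5387858737) (nat_lit 1292) (nat_lit 10095381134) (nat_lit 377) (nat_lit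 5) (nat_lit 376) (nat_lit 5) (nat_lit 393) (nat_lit 5) (nat_lit 373) (nat_lit 370) (nat_lit 277)))) (XT.nd (nat_lit 78) (nat_lit 0) (nat_lit 76) (XT.lf (nat_lit 76) (nat_lit 677493367) (nat_lit 0) (nat_lit 9667223247) (nat_lit 1292) (nat_lit 9142640368) (nat_lit 378) (nat_lit 5) (nat_lit 377) (nat_lit 5) (nat_lit 394) (nat_lit 5) (nat_lit 374) (nat_lit 370) (nat_lit 276)) (XT.nd (nat_lit 78) (nat_lit 0) (nat_lit 76) (XT.lf (nat_lit 0) (nat_lit 12093333498) (nat_lit 1216) (nat_lit 2134521352) (nat_lit 1292) (nat_lit 5750130025) (nat_lit 378) (nat_lit 5) (nat_lit 394) (nat_lit 5) (nat_lit 395) (nat_lit 5) (nat_lit 375) (nat_lit 370) (nat_lit 275)) (XT.lf (nat_lit 0) (nat_lit 14171645958) (nat_lit 1216) (nat_lit 4931866976) (nat_lit 1292) (nat_lit 1382363287) (nat_lit 379) (nat_lit 5) (nat_lit 395) (nat_lit 5) (nat_lit 396) (nat_lit 5) (nat_lit 376) (nat_lit 370) (nat_lit 274))))) (XT.nd (nat_lit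 234) (nat_lit 1368) (nat_lit 0) (XT.nd (nat_lit 78) (nat_lit 1140) (nat_lit 0) (XT.lf (nat_lit 76) (nat_lit 13254847196) (nat_lit 0) (nat_lit 3374538394) (nat_lit 1292) (nat_lit 4381511196) (nat_lit 380) (nat_lit 5) (nat_lit 379) (nat_lit 5) (nat_lit 396) (nat_lit 5) (nat_lit 377) (nat_lit 370) (nat_lit 273)) (XT.nd (nat_lit 78) (nat_lit 1216) (nat_lit 0) (XT.lf (nat_lit 76) (nat_lit 10967278345) (nat_lit 0) (nat_lit 8508812533) (nat_lit 1292) (nat_lit 2078095143) (nat_lit 381) (nat_lit 5) (nat_lit 380) (nat_lit 5) (nat_lit 397) (nat_lit 5) (nat_lit 378) (nat_lit 370) (nat_lit 272)) (XT.lf (nat_lit 0) (nat_lit 596088036) (nat_lit 1292) (nat_lit 13411785174) (nat_lit 1368) (nat_lit 8108801100) (nat_lit 364) (nat_lit 5) (nat_lit 381) (nat_lit 5) (nat_lit 382) (nat_lit 5) (nat_lit 379) (nat_lit 370) (nat_lit 271)))) (XT.nd (nat_lit 156) (nat_lit 608) (nat_lit 0) (XT.nd (nat_lit 78) (nat_lit 836) (nat_lit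 0) (XT.lf (nat_lit 0) (nat_lit 3631627480) (nat_lit 1292) (nat_lit 16243280277) (nat_lit 76) (nat_lit 2823643243) (nat_lit 365) (nat_lit 5) (nat_lit 382) (nat_lit 5) (nat_lit 366) (nat_lit 5) (nat_lit 380) (nat_lit 370) (nat_lit 270)) (XT.lf (nat_lit 0) (nat_lit 4216708826) (nat_lit 836) (nat_lit 2908502203) (nat_lit 912) (nat_lit 16175122479) (nat_lit 354) (nat_lit 5) (nat_lit 365) (nat_lit 5) (nat_lit 366) (nat_lit 5) (nat_lit 381) (nat_lit 370) (nat_lit 269))) (XT.nd (nat_lit 78) (nat_lit 0) (nat_lit 0) (XT.lf (nat_lit 0) (nat_lit 1992427229) (nat_lit 608) (nat_lit 9117879089) (nat_lit 684) (nat_lit 12812393848) (nat_lit 346) (nat_lit 5) (nat_lit 354) (nat_lit 5) (nat_lit 355) (nat_lit 5) (nat_lit 382) (nat_lit 370) (nat_lit 268)) (XT.lf (nat_lit 0) (nat_lit 15592506486) (nat_lit 684) (nat_lit 178015041) (nat_lit 76) (nat_lit 8796728127) (nat_lit 346) (nat_lit 5) (nat_lit 355) (nat_lit 5) (nat_lit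 347) (nat_lit 5) (nat_lit 383) (nat_lit 370) (nat_lit 267)))))) (XT.nd (nat_lit 546) (nat_lit 3040) (nat_lit 0) (XT.nd (nat_lit 234) (nat_lit 2128) (nat_lit 0) (XT.nd (nat_lit 78) (nat_lit 1216) (nat_lit 0) (XT.lf (nat_lit 0) (nat_lit 20621891712) (nat_lit 684) (nat_lit 2252264109) (nat_lit 76) (nat_lit 2360178543) (nat_lit 338) (nat_lit 5) (nat_lit 347) (nat_lit 5) (nat_lit 339) (nat_lit 5) (nat_lit 384) (nat_lit 370) (nat_lit 266)) (XT.nd (nat_lit 78) (nat_lit 608) (nat_lit 0) (XT.lf (nat_lit 0) (nat_lit 328237893) (nat_lit 608) (nat_lit 4308343667) (nat_lit 76) (nat_lit 21287411784) (nat_lit 330) (nat_lit 5) (nat_lit 338) (nat_lit 5) (nat_lit 331) (nat_lit 5) (nat_lit 385) (nat_lit 370) (nat_lit 265)) (XT.lf (nat_lit 0) (nat_lit 5770883627) (nat_lit 684) (nat_lit 6367223115) (nat_lit 76) (nat_lit 14498148793) (nat_lit 322) (nat_lit 5) (nat_lit 331) (nat_lit 5) (nat_lit 323) (nat_lit 5) (nat_lit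 386) (nat_lit 370) (nat_lit 264)))) (XT.nd (nat_lit 156) (nat_lit 1064) (nat_lit 0) (XT.nd (nat_lit 78) (nat_lit 532) (nat_lit 0) (XT.lf (nat_lit 0) (nat_lit 11819523260) (nat_lit 608) (nat_lit 8351694646) (nat_lit 76) (nat_lit 7202897081) (nat_lit 315) (nat_lit 5) (nat_lit 323) (nat_lit 5) (nat_lit 316) (nat_lit 5) (nat_lit 387) (nat_lit 370) (nat_lit 263)) (XT.lf (nat_lit 0) (nat_lit 17880756323) (nat_lit 532) (nat_lit 638967730) (nat_lit 608) (nat_lit 9618669482) (nat_lit 308) (nat_lit 5) (nat_lit 315) (nat_lit 5) (nat_lit 316) (nat_lit 5) (nat_lit 388) (nat_lit 370) (nat_lit 262))) (XT.nd (nat_lit 78) (nat_lit 608) (nat_lit 0) (XT.lf (nat_lit 0) (nat_lit 16784058220) (nat_lit 456) (nat_lit 9198997586) (nat_lit 532) (nat_lit 2944986578) (nat_lit 302) (nat_lit 5) (nat_lit 308) (nat_lit 5) (nat_lit 309) (nat_lit 5) (nat_lit 389) (nat_lit 370) (nat_lit 261)) (XT.lf (nat_lit 0) (nat_lit 4350188588)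 (nat_lit 608) (nat_lit 13971154979) (nat_lit 76) (nat_lit 11423646211) (nat_lit 294) (nat_lit 5) (nat_lit 302) (nat_lit 5) (nat_lit 295) (nat_lit 5) (nat_lit 390) (nat_lit 370) (nat_lit 260))))) (XT.nd (nat_lit 234) (nat_lit 1748) (nat_lit 0) (XT.nd (nat_lit 78) (nat_lit 836) (nat_lit 0) (XT.lf (nat_lit 0) (nat_lit 12326656127) (nat_lit 532) (nat_lit 15719557798) (nat_lit 76) (nat_lit 2544372657) (nat_lit 288) (nat_lit 5) (nat_lit 295) (nat_lit 5) (nat_lit 289) (nat_lit 5) (nat_lit 391) (nat_lit 370) (nat_lit 259)) (XT.nd (nat_lit 78) (nat_lit 380) (nat_lit 0) (XT.lf (nat_lit 0) (nat_lit 14048557697) (nat_lit 456) (nat_lit 7108592303) (nat_lit 532) (nat_lit 10307657135) (nat_lit 282) (nat_lit 5) (nat_lit 288) (nat_lit 5) (nat_lit 289) (nat_lit 5) (nat_lit 392) (nat_lit 370) (nat_lit 258)) (XT.lf (nat_lit 0) (nat_lit 13359504918) (nat_lit 380) (nat_lit 17494832420) (nat_lit 456) (nat_lit 1515646315)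 (nat_lit 277) (nat_lit 5) (nat_lit 282) (nat_lit 5) (nat_lit 283) (nat_lit 5) (nat_lit 393) (nat_lit 370) (nat_lit 257)))) (XT.nd (nat_lit 156) (nat_lit 836) (nat_lit 0) (XT.nd (nat_lit 78) (nat_lit 380) (nat_lit 0) (XT.lf (nat_lit 0) (nat_lit 7978881954) (nat_lit 532) (nat_lit 20540937935) (nat_lit 76) (nat_lit 4785969496) (nat_lit 270) (nat_lit 5) (nat_lit 277) (nat_lit 5) (nat_lit 271) (nat_lit 5) (nat_lit 394) (nat_lit 370) (nat_lit 256)) (XT.lf (nat_lit 0) (nat_lit 12277448130) (nat_lit 380) (nat_lit 6122760076) (nat_lit 456) (nat_lit 15873224481) (nat_lit 265) (nat_lit 5) (nat_lit 270) (nat_lit 5) (nat_lit 271) (nat_lit 5) (nat_lit 395) (nat_lit 370) (nat_lit 255))) (XT.nd (nat_lit 78) (nat_lit 456) (nat_lit 0) (XT.lf (nat_lit 0) (nat_lit 11934571327) (nat_lit 380) (nat_lit 17894687689) (nat_lit 456) (nat_lit 5445599391) (nat_lit 260) (nat_lit 5) (nat_lit 265) (nat_lit 5) (nat_lit 266) (nat_lit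 5) (nat_lit 396) (nat_lit 370) (nat_lit 254)) (XT.lf (nat_lit 0) (nat_lit 5849150612) (nat_lit 456) (nat_lit 24567303407) (nat_lit 76) (nat_lit 5894720282) (nat_lit 254) (nat_lit 5) (nat_lit 260) (nat_lit 5) (nat_lit 255) (nat_lit 5) (nat_lit 397) (nat_lit 370) (nat_lit 253))))))) (XT.nd (nat_lit 1014) (nat_lit 3268) (nat_lit 0) (XT.nd (nat_lit 468) (nat_lit 1976) (nat_lit 0) (XT.nd (nat_lit 234) (nat_lit 988) (nat_lit 0) (XT.nd (nat_lit 78) (nat_lit 760) (nat_lit 0) (XT.lf (nat_lit 0) (nat_lit 11655755273) (nat_lit 380) (nat_lit 6468292640) (nat_lit 456) (nat_lit 19257799578) (nat_lit 249) (nat_lit 5) (nat_lit 254) (nat_lit 5) (nat_lit 255) (nat_lit 5) (nat_lit 398) (nat_lit 370) (nat_lit 252)) (XT.nd (nat_lit 78) (nat_lit 456) (nat_lit 0) (XT.lf (nat_lit 0) (nat_lit 11740449673) (nat_lit 304) (nat_lit 19811975254) (nat_lit 380) (nat_lit 6937437367) (nat_lit 245) (nat_lit 5) (nat_lit 249) (nat_lit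 5) (nat_lit 250) (nat_lit 5) (nat_lit 399) (nat_lit 370) (nat_lit 251)) (XT.lf (nat_lit 0) (nat_lit 6378049270) (nat_lit 456) (nat_lit 27622331448) (nat_lit 76) (nat_lit 5636282137) (nat_lit 239) (nat_lit 5) (nat_lit 245) (nat_lit 5) (nat_lit 240) (nat_lit 5) (nat_lit 400) (nat_lit 370) (nat_lit 250)))) (XT.nd (nat_lit 78) (nat_lit 684) (nat_lit 0) (XT.lf (nat_lit 0) (nat_lit 12400784336) (nat_lit 304) (nat_lit 8406015662) (nat_lit 380) (nat_lit 20014213821) (nat_lit 235) (nat_lit 5) (nat_lit 239) (nat_lit 5) (nat_lit 240) (nat_lit 5) (nat_lit 401) (nat_lit 370) (nat_lit 249)) (XT.nd (nat_lit 78) (nat_lit 380) (nat_lit 0) (XT.lf (nat_lit 0) (nat_lit 13008678263) (nat_lit 304) (nat_lit 23530645531) (nat_lit 380) (nat_lit 5507788471) (nat_lit 231) (nat_lit 5) (nat_lit 235) (nat_lit 5) (nat_lit 236) (nat_lit 5) (nat_lit 402) (nat_lit 370) (nat_lit 248)) (XT.lf (nat_lit 0) (nat_lit 10077147061) (nat_lit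 380) (nat_lit 29497729415) (nat_lit 76) (nat_lit 3740546829) (nat_lit 226) (nat_lit 5) (nat_lit 231) (nat_lit 5) (nat_lit 227) (nat_lit 5) (nat_lit 403) (nat_lit 370) (nat_lit 247))))) (XT.nd (nat_lit 234) (nat_lit 1064) (nat_lit 0) (XT.nd (nat_lit 78) (nat_lit 608) (nat_lit 0) (XT.lf (nat_lit 0) (nat_lit 14766616677) (nat_lit 304) (nat_lit 12236178183) (nat_lit 380) (nat_lit 17622457809) (nat_lit 222) (nat_lit 5) (nat_lit 226) (nat_lit 5) (nat_lit 227) (nat_lit 5) (nat_lit 404) (nat_lit 370) (nat_lit 246)) (XT.nd (nat_lit 78) (nat_lit 380) (nat_lit 0) (XT.lf (nat_lit 0) (nat_lit 16009610407) (nat_lit 228) (nat_lit 29377166563) (nat_lit 304) (nat_lit 595434974) (nat_lit 219) (nat_lit 5) (nat_lit 222) (nat_lit 5) (nat_lit 223) (nat_lit 5) (nat_lit 405) (nat_lit 370) (nat_lit 245)) (XT.lf (nat_lit 0) (nat_lit 17434524676) (nat_lit 304) (nat_lit 106011542) (nat_lit 380) (nat_lit 29843653451) (nat_lit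 214) (nat_lit 5) (nat_lit 218) (nat_lit 5) (nat_lit 219) (nat_lit 5) (nat_lit 406) (nat_lit 370) (nat_lit 244)))) (XT.nd (nat_lit 156) (nat_lit 456) (nat_lit 0) (XT.nd (nat_lit 78) (nat_lit 380) (nat_lit 0) (XT.lf (nat_lit 0) (nat_lit 19049277178) (nat_lit 228) (nat_lit 18304488216) (nat_lit 304) (nat_lit 11478840806) (nat_lit 211) (nat_lit 5) (nat_lit 214) (nat_lit 5) (nat_lit 215) (nat_lit 5) (nat_lit 407) (nat_lit 370) (nat_lit 243)) (XT.lf (nat_lit 0) (nat_lit 8285280210) (nat_lit 380) (nat_lit 29357975699) (nat_lit 76) (nat_lit 12688936402) (nat_lit 206) (nat_lit 5) (nat_lit 211) (nat_lit 5) (nat_lit 207) (nat_lit 5) (nat_lit 408) (nat_lit 370) (nat_lit 242))) (XT.nd (nat_lit 78) (nat_lit 228) (nat_lit 0) (XT.lf (nat_lit 0) (nat_lit 23132229780) (nat_lit 228) (nat_lit 6380774617) (nat_lit 304) (nat_lit 22368959860) (nat_lit 203) (nat_lit 5) (nat_lit 206) (nat_lit 5) (nat_lit 207) (nat_lit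 5) (nat_lit 409) (nat_lit 370) (nat_lit 241)) (XT.lf (nat_lit 0) (nat_lit 25592653820) (nat_lit 228) (nat_lit 27008896396) (nat_lit 304) (nat_lit 883691519) (nat_lit 200) (nat_lit 5) (nat_lit 203) (nat_lit 5) (nat_lit 204) (nat_lit 5) (nat_lit 410) (nat_lit 370) (nat_lit 240)))))) (XT.nd (nat_lit 546) (nat_lit 1520) (nat_lit 0) (XT.nd (nat_lit 234) (nat_lit 912) (nat_lit 0) (XT.nd (nat_lit 78) (nat_lit 532) (nat_lit 0) (XT.lf (nat_lit 0) (nat_lit 21945199536) (nat_lit 304) (nat_lit 26844598712) (nat_lit 76) (nat_lit 6351864007) (nat_lit 196) (nat_lit 5) (nat_lit 200) (nat_lit 5) (nat_lit 197) (nat_lit 5) (nat_lit 411) (nat_lit 370) (nat_lit 239)) (XT.nd (nat_lit 78) (nat_lit 304) (nat_lit 0) (XT.lf (nat_lit 0) (nat_lit 31324129093) (nat_lit 228) (nat_lit 15431287294) (nat_lit 304) (nat_lit 10099480212) (nat_lit 193) (nat_lit 5) (nat_lit 196) (nat_lit 5) (nat_lit 197) (nat_lit 5) (nat_lit 412) (nat_lit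 370) (nat_lit 238)) (XT.lf (nat_lit 0) (nat_lit 14680431681) (nat_lit 304) (nat_lit 23978564473) (nat_lit 76) (nat_lit 19966587965) (nat_lit 189) (nat_lit 5) (nat_lit 193) (nat_lit 5) (nat_lit 190) (nat_lit 5) (nat_lit 413) (nat_lit 370) (nat_lit 237)))) (XT.nd (nat_lit 156) (nat_lit 456) (nat_lit 0) (XT.nd (nat_lit 78) (nat_lit 228) (nat_lit 0) (XT.lf (nat_lit 0) (nat_lit 38369505342) (nat_lit 228) (nat_lit 2907475472) (nat_lit 304) (nat_lit 19181229923) (nat_lit 186) (nat_lit 5) (nat_lit 189) (nat_lit 5) (nat_lit 190) (nat_lit 5) (nat_lit 414) (nat_lit 370) (nat_lit 236)) (XT.lf (nat_lit 0) (nat_lit 7682435878) (nat_lit 228) (nat_lit 19983417978) (nat_lit 76) (nat_lit 34684808417) (nat_lit 183) (nat_lit 5) (nat_lit 186) (nat_lit 5) (nat_lit 184) (nat_lit 5) (nat_lit 415) (nat_lit 370) (nat_lit 235))) (XT.nd (nat_lit 78) (nat_lit 228) (nat_lit 0) (XT.lf (nat_lit 0) (nat_lit 36302933367) (nat_lit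 304) (nat_lit 17556347674) (nat_lit 76) (nat_lit 10448447579) (nat_lit 180) (nat_lit 5) (nat_lit 184) (nat_lit 5) (nat_lit 181) (nat_lit 5) (nat_lit 416) (nat_lit 370) (nat_lit 234)) (XT.lf (nat_lit 0) (nat_lit 979608292) (nat_lit 228) (nat_lit 14742015454) (nat_lit 76) (nat_lit 50611397672) (nat_lit 177) (nat_lit 5) (nat_lit 180) (nat_lit 5) (nat_lit 178) (nat_lit 5) (nat_lit 417) (nat_lit 370) (nat_lit 233))))) (XT.nd (nat_lit 234) (nat_lit 912) (nat_lit 0) (XT.nd (nat_lit 78) (nat_lit 380) (nat_lit 0) (XT.lf (nat_lit 0) (nat_lit 31808016909) (nat_lit 304) (nat_lit 11746947746) (nat_lit 76) (nat_lit 24867076933) (nat_lit 174) (nat_lit 5) (nat_lit 178) (nat_lit 5) (nat_lit 175) (nat_lit 5) (nat_lit 418) (nat_lit 370) (nat_lit 232)) (XT.nd (nat_lit 78) (nat_lit 228) (nat_lit 0) (XT.lf (nat_lit 0) (nat_lit 62409317248) (nat_lit 152) (nat_lit 2675568125) (nat_lit 228) (nat_lit 5503416212) (nat_lit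 172) (nat_lit 5) (nat_lit 174) (nat_lit 5) (nat_lit 175) (nat_lit 5) (nat_lit 419) (nat_lit 370) (nat_lit 231)) (XT.lf (nat_lit 0) (nat_lit 27807951454) (nat_lit 228) (nat_lit 4498732293) (nat_lit 76) (nat_lit 40513099553) (nat_lit 169) (nat_lit 5) (nat_lit 172) (nat_lit 5) (nat_lit 170) (nat_lit 5) (nat_lit 420) (nat_lit 370) (nat_lit 230)))) (XT.nd (nat_lit 156) (nat_lit 380) (nat_lit 0) (XT.nd (nat_lit 78) (nat_lit 380) (nat_lit 0) (XT.lf (nat_lit 0) (nat_lit 63611603844) (nat_lit 228) (nat_lit 217941944) (nat_lit 76) (nat_lit 11303442572) (nat_lit 167) (nat_lit 5) (nat_lit 170) (nat_lit 5) (nat_lit 168) (nat_lit 5) (nat_lit 421) (nat_lit 370) (nat_lit 229)) (XT.lf (nat_lit 0) (nat_lit 4420932066) (nat_lit 152) (nat_lit 19972795333) (nat_lit 228) (nat_lit 53124962565) (nat_lit 162) (nat_lit 5) (nat_lit 164) (nat_lit 5) (nat_lit 165) (nat_lit 5) (nat_lit 422) (nat_lit 370) (nat_lit 228))) (XT.nd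 (nat_lit 78) (nat_lit 228) (nat_lit 0) (XT.lf (nat_lit 0) (nat_lit 9564143609) (nat_lit 152) (nat_lit 53428164281) (nat_lit 228) (nat_lit 16994166777) (nat_lit 160) (nat_lit 5) (nat_lit 162) (nat_lit 5) (nat_lit 163) (nat_lit 5) (nat_lit 423) (nat_lit 370) (nat_lit 227)) (XT.lf (nat_lit 0) (nat_lit 15209999123) (nat_lit 152) (nat_lit 6427803757) (nat_lit 228) (nat_lit 60900706847) (nat_lit 157) (nat_lit 5) (nat_lit 159) (nat_lit 5) (nat_lit 160) (nat_lit 5) (nat_lit 424) (nat_lit 370) (nat_lit 226))))))))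
noncomputable def xc95 : XT := (XT.nd (nat_lit 50076) (nat_lit 0) (nat_lit 5092) (XT.nd (nat_lit 48984) (nat_lit 0) (nat_lit 15884) (XT.nd (nat_lit 468) (nat_lit 1140) (nat_lit 0) (XT.nd (nat_lit 234) (nat_lit 456) (nat_lit 0) (XT.nd (nat_lit 78) (nat_lit 380) (nat_lit 0) (XT.lf (nat_lit 0) (nat_lit 21213923351) (nat_lit 152) (nat_lit 41983568722) (nat_lit 228) (nat_lit 21975179100) (nat_lit 155) (nat_lit 5) (nat_lit 157) (nat_lit 5) (nat_lit 158) (nat_lit 5) (nat_lit 425) (nat_lit 370) (nat_lit 225)) (XT.nd (nat_lit 78) (nat_lit 152) (nat_lit 0) (XT.lf (nat_lit 0) (nat_lit 19637973403) (nat_lit 228) (nat_lit 60025858056) (nat_lit 76) (nat_lit 8235957167) (nat_lit 152) (nat_lit 5) (nat_lit 155) (nat_lit 5) (nat_lit 153) (nat_lit 5) (nat_lit 426) (nat_lit 370) (nat_lit 224)) (XT.lf (nat_lit 0) (nat_lit 34912861714) (nat_lit 152) (nat_lit 29388810467) (nat_lit 228) (nat_lit 26412331418) (nat_lit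 150) (nat_lit 5) (nat_lit 152) (nat_lit 5) (nat_lit 153) (nat_lit 5) (nat_lit 427) (nat_lit 370) (nat_lit 223)))) (XT.nd (nat_lit 78) (nat_lit 304) (nat_lit 0) (XT.lf (nat_lit 0) (nat_lit 18456341684) (nat_lit 152) (nat_lit 51013077474) (nat_lit 76) (nat_lit 24156391558) (nat_lit 148) (nat_lit 5) (nat_lit 150) (nat_lit 5) (nat_lit 149) (nat_lit 5) (nat_lit 428) (nat_lit 370) (nat_lit 222)) (XT.nd (nat_lit 78) (nat_lit 152) (nat_lit 0) (XT.lf (nat_lit 0) (nat_lit 50863679020) (nat_lit 152) (nat_lit 15525320291) (nat_lit 228) (nat_lit 30245359681) (nat_lit 146) (nat_lit 5) (nat_lit 148) (nat_lit 5) (nat_lit 149) (nat_lit 5) (nat_lit 429) (nat_lit 370) (nat_lit 221)) (XT.lf (nat_lit 0) (nat_lit 18106853272) (nat_lit 152) (nat_lit 40042334603) (nat_lit 76) (nat_lit 41593901066) (nat_lit 144) (nat_lit 5) (nat_lit 146) (nat_lit 5) (nat_lit 145) (nat_lit 5) (nat_lit 430) (nat_lit 370) (nat_lit 220)))))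 (XT.nd (nat_lit 234) (nat_lit 684) (nat_lit 0) (XT.nd (nat_lit 78) (nat_lit 304) (nat_lit 0) (XT.lf (nat_lit 0) (nat_lit 69287420862) (nat_lit 152) (nat_lit 264333465) (nat_lit 228) (nat_lit 33407499354) (nat_lit 142) (nat_lit 5) (nat_lit 144) (nat_lit 5) (nat_lit 145) (nat_lit 5) (nat_lit 431) (nat_lit 370) (nat_lit 219)) (XT.nd (nat_lit 78) (nat_lit 152) (nat_lit 0) (XT.lf (nat_lit 0) (nat_lit 18672846604) (nat_lit 152) (nat_lit 26910284747) (nat_lit 76) (nat_lit 60694832447) (nat_lit 140) (nat_lit 5) (nat_lit 142) (nat_lit 5) (nat_lit 141) (nat_lit 5) (nat_lit 432) (nat_lit 370) (nat_lit 218)) (XT.lf (nat_lit 0) (nat_lit 74049964484) (nat_lit 228) (nat_lit 19449900652) (nat_lit 76) (nat_lit 16211311076) (nat_lit 138) (nat_lit 5) (nat_lit 141) (nat_lit 5) (nat_lit 139) (nat_lit 4) (nat_lit 433) (nat_lit 370) (nat_lit 217)))) (XT.nd (nat_lit 234) (nat_lit 380) (nat_lit 0) (XT.nd (nat_lit 78) (nat_lit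 152) (nat_lit 0) (XT.lf (nat_lit 0) (nat_lit 20245915130) (nat_lit 152) (nat_lit 11394827179) (nat_lit 76) (nat_lit 81617829162) (nat_lit 136) (nat_lit 5) (nat_lit 138) (nat_lit 5) (nat_lit 137) (nat_lit 5) (nat_lit 434) (nat_lit 370) (nat_lit 216)) (XT.lf (nat_lit 0) (nat_lit 79854114384) (nat_lit 228) (nat_lit 2731463692) (nat_lit 76) (nat_lit 34337868640) (nat_lit 134) (nat_lit 5) (nat_lit 137) (nat_lit 5) (nat_lit 135) (nat_lit 4) (nat_lit 435) (nat_lit 370) (nat_lit 215))) (XT.nd (nat_lit 47970) (nat_lit 0) (nat_lit 18620) (XT.lf (nat_lit 0) (nat_lit 17072111270) (nat_lit 76) (nat_lit 70176230222) (nat_lit 152) (nat_lit 37373930186) (nat_lit 129) (nat_lit 5) (nat_lit 130) (nat_lit 5) (nat_lit 131) (nat_lit 4) (nat_lit 437) (nat_lit 370) (nat_lit 213)) (XT.lf (nat_lit 0) (nat_lit 3643235119) (nat_lit 1292) (nat_lit 2815118423) (nat_lit 1292) (nat_lit 2815118423) (nat_lit 374) (nat_lit 3) (nat_lit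 391) (nat_lit 3) (nat_lit 391) (nat_lit 5) (nat_lit 371) (nat_lit 371) (nat_lit 278)))))) (XT.nd (nat_lit 546) (nat_lit 2812) (nat_lit 0) (XT.nd (nat_lit 234) (nat_lit 0) (nat_lit 152) (XT.nd (nat_lit 78) (nat_lit 0) (nat_lit 0) (XT.lf (nat_lit 0) (nat_lit 7902078368) (nat_lit 1216) (nat_lit 8999796849) (nat_lit 1292) (nat_lit 2095738921) (nat_lit 375) (nat_lit 5) (nat_lit 391) (nat_lit 5) (nat_lit 392) (nat_lit 5) (nat_lit 372) (nat_lit 371) (nat_lit 277)) (XT.nd (nat_lit 78) (nat_lit 0) (nat_lit 76) (XT.lf (nat_lit 76) (nat_lit 7051149324) (nat_lit 0) (nat_lit 1733726506) (nat_lit 1292) (nat_lit 10678849758) (nat_lit 376) (nat_lit 5) (nat_lit 375) (nat_lit 5) (nat_lit 392) (nat_lit 5) (nat_lit 373) (nat_lit 371) (nat_lit 276)) (XT.lf (nat_lit 76) (nat_lit 4072789267) (nat_lit 0) (nat_lit 5888831947) (nat_lit 1292) (nat_lit 9984027155) (nat_lit 377) (nat_lit 5) (nat_lit 376) (nat_lit 5) (nat_lit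 393) (nat_lit 5) (nat_lit 374) (nat_lit 371) (nat_lit 275)))) (XT.nd (nat_lit 156) (nat_lit 0) (nat_lit 152) (XT.nd (nat_lit 78) (nat_lit 0) (nat_lit 76) (XT.lf (nat_lit 76) (nat_lit 1087050238) (nat_lit 0) (nat_lit 10346086459) (nat_lit 1292) (nat_lit 9011452606) (nat_lit 378) (nat_lit 5) (nat_lit 377) (nat_lit 5) (nat_lit 394) (nat_lit 5) (nat_lit 375) (nat_lit 371) (nat_lit 274)) (XT.lf (nat_lit 0) (nat_lit 13240195380) (nat_lit 1216) (nat_lit 1865345499) (nat_lit 1292) (nat_lit 5855077383) (nat_lit 378) (nat_lit 5) (nat_lit 394) (nat_lit 5) (nat_lit 395) (nat_lit 5) (nat_lit 376) (nat_lit 371) (nat_lit 273))) (XT.nd (nat_lit 78) (nat_lit 0) (nat_lit 0) (XT.lf (nat_lit 0) (nat_lit 15398626823) (nat_lit 1216) (nat_lit 4796249329) (nat_lit 1292) (nat_lit 1299741923) (nat_lit 379) (nat_lit 5) (nat_lit 395) (nat_lit 5) (nat_lit 396) (nat_lit 5) (nat_lit 377) (nat_lit 371) (nat_lit 272)) (XT.lf (nat_lit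 76) (nat_lit 14288844550) (nat_lit 0) (nat_lit 3669291971) (nat_lit 1292) (nat_lit 4088386655) (nat_lit 380) (nat_lit 5) (nat_lit 379) (nat_lit 5) (nat_lit 396) (nat_lit 5) (nat_lit 378) (nat_lit 371) (nat_lit 271))))) (XT.nd (nat_lit 234) (nat_lit 1976) (nat_lit 0) (XT.nd (nat_lit 78) (nat_lit 1216) (nat_lit 0) (XT.lf (nat_lit 76) (nat_lit 11891922841) (nat_lit 0) (nat_lit 9034037435) (nat_lit 1292) (nat_lit 1691653100) (nat_lit 381) (nat_lit 5) (nat_lit 380) (nat_lit 5) (nat_lit 397) (nat_lit 5) (nat_lit 379) (nat_lit 371) (nat_lit 270)) (XT.nd (nat_lit 78) (nat_lit 0) (nat_lit 76) (XT.lf (nat_lit 0) (nat_lit 1086545901) (nat_lit 1292) (nat_lit 13692907705) (nat_lit 1368) (nat_lit 8429234816) (nat_lit 364) (nat_lit 5) (nat_lit 381) (nat_lit 5) (nat_lit 382) (nat_lit 5) (nat_lit 380) (nat_lit 371) (nat_lit 269)) (XT.lf (nat_lit 0) (nat_lit 4254947214) (nat_lit 1292) (nat_lit 16663255226) (nat_lit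 76) (nat_lit 2902023958) (nat_lit 365) (nat_lit 5) (nat_lit 382) (nat_lit 5) (nat_lit 366) (nat_lit 5) (nat_lit 381) (nat_lit 371) (nat_lit 268)))) (XT.nd (nat_lit 156) (nat_lit 608) (nat_lit 0) (XT.nd (nat_lit 78) (nat_lit 608) (nat_lit 0) (XT.lf (nat_lit 0) (nat_lit 4808491312) (nat_lit 836) (nat_lit 3097345366) (nat_lit 912) (nat_lit 16546782554) (nat_lit 354) (nat_lit 5) (nat_lit 365) (nat_lit 5) (nat_lit 366) (nat_lit 5) (nat_lit 382) (nat_lit 371) (nat_lit 267)) (XT.lf (nat_lit 0) (nat_lit 2474847284) (nat_lit 608) (nat_lit 9598413793) (nat_lit 684) (nat_lit 13033350914) (nat_lit 346) (nat_lit 5) (nat_lit 354) (nat_lit 5) (nat_lit 355) (nat_lit 5) (nat_lit 383) (nat_lit 371) (nat_lit 266))) (XT.nd (nat_lit 78) (nat_lit 0) (nat_lit 0) (XT.lf (nat_lit 0) (nat_lit 193292941) (nat_lit 608) (nat_lit 16568508901) (nat_lit 684) (nat_lit 9022120194) (nat_lit 338) (nat_lit 5) (nat_lit 346) (nat_lit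 5) (nat_lit 347) (nat_lit 5) (nat_lit 384) (nat_lit 371) (nat_lit 265)) (XT.lf (nat_lit 0) (nat_lit 22025776522) (nat_lit 684) (nat_lit 1987975785) (nat_lit 76) (nat_lit 2471115068) (nat_lit 338) (nat_lit 5) (nat_lit 347) (nat_lit 5) (nat_lit 339) (nat_lit 5) (nat_lit 385) (nat_lit 371) (nat_lit 264))))))) (XT.nd (nat_lit 1014) (nat_lit 4408) (nat_lit 0) (XT.nd (nat_lit 468) (nat_lit 3040) (nat_lit 0) (XT.nd (nat_lit 234) (nat_lit 1596) (nat_lit 0) (XT.nd (nat_lit 78) (nat_lit 1140) (nat_lit 0) (XT.lf (nat_lit 0) (nat_lit 706757326) (nat_lit 608) (nat_lit 4150456477) (nat_lit 76) (nat_lit 22352115982) (nat_lit 330) (nat_lit 5) (nat_lit 338) (nat_lit 5) (nat_lit 331) (nat_lit 5) (nat_lit 386) (nat_lit 371) (nat_lit 263)) (XT.nd (nat_lit 78) (nat_lit 532) (nat_lit 0) (XT.lf (nat_lit 0) (nat_lit 6407914715) (nat_lit 684) (nat_lit 6312667112) (nat_lit 76) (nat_lit 15237031877) (nat_lit 322) (nat_lit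 5) (nat_lit 331) (nat_lit 5) (nat_lit 323) (nat_lit 5) (nat_lit 387) (nat_lit 371) (nat_lit 262)) (XT.lf (nat_lit 0) (nat_lit 12746131798) (nat_lit 608) (nat_lit 8397248718) (nat_lit 76) (nat_lit 7589371248) (nat_lit 315) (nat_lit 5) (nat_lit 323) (nat_lit 5) (nat_lit 316) (nat_lit 5) (nat_lit 388) (nat_lit 371) (nat_lit 261)))) (XT.nd (nat_lit 78) (nat_lit 1064) (nat_lit 0) (XT.lf (nat_lit 0) (nat_lit 19136160615) (nat_lit 532) (nat_lit 632673198) (nat_lit 608) (nat_lit 9766785692) (nat_lit 308) (nat_lit 5) (nat_lit 315) (nat_lit 5) (nat_lit 316) (nat_lit 5) (nat_lit 389) (nat_lit 371) (nat_lit 260)) (XT.nd (nat_lit 78) (nat_lit 608) (nat_lit 0) (XT.lf (nat_lit 0) (nat_lit 17983327871) (nat_lit 456) (nat_lit 9610428737) (nat_lit 532) (nat_lit 2771341455) (nat_lit 302) (nat_lit 5) (nat_lit 308) (nat_lit 5) (nat_lit 309) (nat_lit 5) (nat_lit 390) (nat_lit 371) (nat_lit 259)) (XT.lf (nat_lit 0) (nat_lit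 4871275726) (nat_lit 608) (nat_lit 14305299933) (nat_lit 76) (nat_lit 12046556278) (nat_lit 294) (nat_lit 5) (nat_lit 302) (nat_lit 5) (nat_lit 295) (nat_lit 5) (nat_lit 391) (nat_lit 371) (nat_lit 258))))) (XT.nd (nat_lit 234) (nat_lit 1748) (nat_lit 0) (XT.nd (nat_lit 78) (nat_lit 836) (nat_lit 0) (XT.lf (nat_lit 0) (nat_lit 13236103733) (nat_lit 532) (nat_lit 16143383613) (nat_lit 76) (nat_lit 2731835121) (nat_lit 288) (nat_lit 5) (nat_lit 295) (nat_lit 5) (nat_lit 289) (nat_lit 5) (nat_lit 392) (nat_lit 371) (nat_lit 257)) (XT.nd (nat_lit 78) (nat_lit 380) (nat_lit 0) (XT.lf (nat_lit 0) (nat_lit 15102756640) (nat_lit 456) (nat_lit 7394789251) (nat_lit 532) (nat_lit 10532025449) (nat_lit 282) (nat_lit 5) (nat_lit 288) (nat_lit 5) (nat_lit 289) (nat_lit 5) (nat_lit 393) (nat_lit 371) (nat_lit 256)) (XT.lf (nat_lit 0) (nat_lit 14376754530) (nat_lit 380) (nat_lit 18293375111) (nat_lit 456) (nat_lit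 1310160931) (nat_lit 277) (nat_lit 5) (nat_lit 282) (nat_lit 5) (nat_lit 283) (nat_lit 5) (nat_lit 394) (nat_lit 371) (nat_lit 255)))) (XT.nd (nat_lit 156) (nat_lit 836) (nat_lit 0) (XT.nd (nat_lit 78) (nat_lit 380) (nat_lit 0) (XT.lf (nat_lit 0) (nat_lit 8644541192) (nat_lit 532) (nat_lit 21216168232) (nat_lit 76) (nat_lit 5102367975) (nat_lit 270) (nat_lit 5) (nat_lit 277) (nat_lit 5) (nat_lit 271) (nat_lit 5) (nat_lit 395) (nat_lit 371) (nat_lit 254)) (XT.lf (nat_lit 0) (nat_lit 13233052384) (nat_lit 380) (nat_lit 6344465588) (nat_lit 456) (nat_lit 16401867369) (nat_lit 265) (nat_lit 5) (nat_lit 270) (nat_lit 5) (nat_lit 271) (nat_lit 5) (nat_lit 396) (nat_lit 371) (nat_lit 253))) (XT.nd (nat_lit 78) (nat_lit 456) (nat_lit 0) (XT.lf (nat_lit 0) (nat_lit 12869945432) (nat_lit 380) (nat_lit 18699851777) (nat_lit 456) (nat_lit 5461331862) (nat_lit 260) (nat_lit 5) (nat_lit 265) (nat_lit 5) (nat_lit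 266) (nat_lit 5) (nat_lit 397) (nat_lit 371) (nat_lit 252)) (XT.lf (nat_lit 0) (nat_lit 6385255044) (nat_lit 456) (nat_lit 25455459452) (nat_lit 76) (nat_lit 6278709113) (nat_lit 254) (nat_lit 5) (nat_lit 260) (nat_lit 5) (nat_lit 255) (nat_lit 5) (nat_lit 398) (nat_lit 371) (nat_lit 251)))))) (XT.nd (nat_lit 546) (nat_lit 1976) (nat_lit 0) (XT.nd (nat_lit 234) (nat_lit 1292) (nat_lit 0) (XT.nd (nat_lit 78) (nat_lit 760) (nat_lit 0) (XT.lf (nat_lit 0) (nat_lit 12569000136) (nat_lit 380) (nat_lit 6696471397) (nat_lit 456) (nat_lit 19978411697) (nat_lit 249) (nat_lit 5) (nat_lit 254) (nat_lit 5) (nat_lit 255) (nat_lit 5) (nat_lit 399) (nat_lit 371) (nat_lit 250)) (XT.nd (nat_lit 78) (nat_lit 456) (nat_lit 0) (XT.lf (nat_lit 0) (nat_lit 12654421905) (nat_lit 304) (nat_lit 20703659195) (nat_lit 380) (nat_lit 7049433262) (nat_lit 245) (nat_lit 5) (nat_lit 249) (nat_lit 5) (nat_lit 250) (nat_lit 5) (nat_lit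 400) (nat_lit 371) (nat_lit 249)) (XT.lf (nat_lit 0) (nat_lit 6920331150) (nat_lit 456) (nat_lit 28675703156) (nat_lit 76) (nat_lit 6015760309) (nat_lit 239) (nat_lit 5) (nat_lit 245) (nat_lit 5) (nat_lit 240) (nat_lit 5) (nat_lit 401) (nat_lit 371) (nat_lit 248)))) (XT.nd (nat_lit 156) (nat_lit 684) (nat_lit 0) (XT.nd (nat_lit 78) (nat_lit 304) (nat_lit 0) (XT.lf (nat_lit 0) (nat_lit 13339173676) (nat_lit 304) (nat_lit 8723768799) (nat_lit 380) (nat_lit 20792647961) (nat_lit 235) (nat_lit 5) (nat_lit 239) (nat_lit 5) (nat_lit 240) (nat_lit 5) (nat_lit 402) (nat_lit 371) (nat_lit 247)) (XT.lf (nat_lit 0) (nat_lit 13973667859) (nat_lit 304) (nat_lit 24602110805) (nat_lit 380) (nat_lit 5567404554) (nat_lit 231) (nat_lit 5) (nat_lit 235) (nat_lit 5) (nat_lit 236) (nat_lit 5) (nat_lit 403) (nat_lit 371) (nat_lit 246))) (XT.nd (nat_lit 78) (nat_lit 304) (nat_lit 0) (XT.lf (nat_lit 0) (nat_lit 10786480063)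 (nat_lit 380) (nat_lit 30657864016) (nat_lit 76) (nat_lit 4030686122) (nat_lit 226) (nat_lit 5) (nat_lit 231) (nat_lit 5) (nat_lit 227) (nat_lit 5) (nat_lit 404) (nat_lit 371) (nat_lit 245)) (XT.lf (nat_lit 0) (nat_lit 15810677082) (nat_lit 304) (nat_lit 12740887475) (nat_lit 380) (nat_lit 18298991847) (nat_lit 222) (nat_lit 5) (nat_lit 226) (nat_lit 5) (nat_lit 227) (nat_lit 5) (nat_lit 405) (nat_lit 371) (nat_lit 244))))) (XT.nd (nat_lit 234) (nat_lit 1140) (nat_lit 0) (XT.nd (nat_lit 78) (nat_lit 608) (nat_lit 0) (XT.lf (nat_lit 0) (nat_lit 17111844913) (nat_lit 228) (nat_lit 30737323417) (nat_lit 304) (nat_lit 426362636) (nat_lit 219) (nat_lit 5) (nat_lit 222) (nat_lit 5) (nat_lit 223) (nat_lit 5) (nat_lit 406) (nat_lit 371) (nat_lit 243)) (XT.nd (nat_lit 78) (nat_lit 228) (nat_lit 0) (XT.lf (nat_lit 0) (nat_lit 18603124118) (nat_lit 304) (nat_lit 2972563) (nat_lit 380) (nat_lit 31141646462)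 (nat_lit 214) (nat_lit 5) (nat_lit 218) (nat_lit 5) (nat_lit 219) (nat_lit 5) (nat_lit 407) (nat_lit 371) (nat_lit 242)) (XT.lf (nat_lit 0) (nat_lit 20294586741) (nat_lit 228) (nat_lit 19110229628) (nat_lit 304) (nat_lit 11863919259) (nat_lit 211) (nat_lit 5) (nat_lit 214) (nat_lit 5) (nat_lit 215) (nat_lit 5) (nat_lit 408) (nat_lit 371) (nat_lit 241)))) (XT.nd (nat_lit 156) (nat_lit 532) (nat_lit 0) (XT.nd (nat_lit 78) (nat_lit 228) (nat_lit 0) (XT.lf (nat_lit 0) (nat_lit 8879719956) (nat_lit 380) (nat_lit 30533516343) (nat_lit 76) (nat_lit 13430160355) (nat_lit 206) (nat_lit 5) (nat_lit 211) (nat_lit 5) (nat_lit 207) (nat_lit 5) (nat_lit 409) (nat_lit 371) (nat_lit 240)) (XT.lf (nat_lit 0) (nat_lit 24572819022) (nat_lit 228) (nat_lit 6590161301) (nat_lit 304) (nat_lit 23307852374) (nat_lit 203) (nat_lit 5) (nat_lit 206) (nat_lit 5) (nat_lit 207) (nat_lit 5) (nat_lit 410) (nat_lit 371) (nat_lit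 239))) (XT.nd (nat_lit 78) (nat_lit 304) (nat_lit 0) (XT.lf (nat_lit 0) (nat_lit 27152180132) (nat_lit 228) (nat_lit 28249166437) (nat_lit 304) (nat_lit 753065688) (nat_lit 200) (nat_lit 5) (nat_lit 203) (nat_lit 5) (nat_lit 204) (nat_lit 5) (nat_lit 411) (nat_lit 371) (nat_lit 238)) (XT.lf (nat_lit 0) (nat_lit 23209392779) (nat_lit 304) (nat_lit 27907718915) (nat_lit 76) (nat_lit 6776625676) (nat_lit 196) (nat_lit 5) (nat_lit 200) (nat_lit 5) (nat_lit 197) (nat_lit 5) (nat_lit 412) (nat_lit 371) (nat_lit 237))))))))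
noncomputable def xc96 : XT := (XT.nd (nat_lit 50154) (nat_lit 0) (nat_lit 8740) (XT.nd (nat_lit 1014) (nat_lit 2052) (nat_lit 0) (XT.nd (nat_lit 468) (nat_lit 1520) (nat_lit 0) (XT.nd (nat_lit 234) (nat_lit 684) (nat_lit 0) (XT.nd (nat_lit 78) (nat_lit 532) (nat_lit 0) (XT.lf (nat_lit 0) (nat_lit 33161444655) (nat_lit 228) (nat_lit 16093332679) (nat_lit 304) (nat_lit 10438016389) (nat_lit 193) (nat_lit 5) (nat_lit 196) (nat_lit 5) (nat_lit 197) (nat_lit 5) (nat_lit 413) (nat_lit 371) (nat_lit 236)) (XT.nd (nat_lit 78) (nat_lit 228) (nat_lit 0) (XT.lf (nat_lit 0) (nat_lit 15573477113) (nat_lit 304) (nat_lit 24907303831) (nat_lit 76) (nat_lit 21071311666) (nat_lit 189) (nat_lit 5) (nat_lit 193) (nat_lit 5) (nat_lit 190) (nat_lit 5) (nat_lit 414) (nat_lit 371) (nat_lit 235)) (XT.lf (nat_lit 0) (nat_lit 40550424565) (nat_lit 228) (nat_lit 2944379346) (nat_lit 304) (nat_lit 19981698142) (nat_lit 186)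 (nat_lit 5) (nat_lit 189) (nat_lit 5) (nat_lit 190) (nat_lit 5) (nat_lit 415) (nat_lit 371) (nat_lit 234)))) (XT.nd (nat_lit 78) (nat_lit 456) (nat_lit 0) (XT.lf (nat_lit 0) (nat_lit 8218162834) (nat_lit 228) (nat_lit 20721176563) (nat_lit 76) (nat_lit 36524307835) (nat_lit 183) (nat_lit 5) (nat_lit 186) (nat_lit 5) (nat_lit 184) (nat_lit 5) (nat_lit 416) (nat_lit 371) (nat_lit 233)) (XT.nd (nat_lit 78) (nat_lit 228) (nat_lit 0) (XT.lf (nat_lit 0) (nat_lit 38265936165) (nat_lit 304) (nat_lit 18176870711) (nat_lit 76) (nat_lit 11075872491) (nat_lit 180) (nat_lit 5) (nat_lit 184) (nat_lit 5) (nat_lit 181) (nat_lit 5) (nat_lit 417) (nat_lit 371) (nat_lit 232)) (XT.lf (nat_lit 0) (nat_lit 1173224441) (nat_lit 228) (nat_lit 15226318635) (nat_lit 76) (nat_lit 53245790340) (nat_lit 177) (nat_lit 5) (nat_lit 180) (nat_lit 5) (nat_lit 178) (nat_lit 5) (nat_lit 418) (nat_lit 371) (nat_lit 231))))) (XT.nd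 (nat_lit 234) (nat_lit 912) (nat_lit 0) (XT.nd (nat_lit 78) (nat_lit 380) (nat_lit 0) (XT.lf (nat_lit 0) (nat_lit 33539540038) (nat_lit 304) (nat_lit 12085554251) (nat_lit 76) (nat_lit 26213815709) (nat_lit 174) (nat_lit 5) (nat_lit 178) (nat_lit 5) (nat_lit 175) (nat_lit 5) (nat_lit 419) (nat_lit 371) (nat_lit 230)) (XT.nd (nat_lit 78) (nat_lit 228) (nat_lit 0) (XT.lf (nat_lit 0) (nat_lit 65771393885) (nat_lit 152) (nat_lit 2704460442) (nat_lit 228) (nat_lit 5637760596) (nat_lit 172) (nat_lit 5) (nat_lit 174) (nat_lit 5) (nat_lit 175) (nat_lit 5) (nat_lit 420) (nat_lit 371) (nat_lit 229)) (XT.lf (nat_lit 0) (nat_lit 29333129429) (nat_lit 228) (nat_lit 4483296626) (nat_lit 76) (nat_lit 42640302998) (nat_lit 169) (nat_lit 5) (nat_lit 172) (nat_lit 5) (nat_lit 170) (nat_lit 5) (nat_lit 421) (nat_lit 371) (nat_lit 228)))) (XT.nd (nat_lit 156) (nat_lit 380) (nat_lit 0) (XT.nd (nat_lit 78) (nat_lit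 228) (nat_lit 0) (XT.lf (nat_lit 0) (nat_lit 7723018) (nat_lit 152) (nat_lit 66916130817) (nat_lit 228) (nat_lit 11961833849) (nat_lit 165) (nat_lit 5) (nat_lit 167) (nat_lit 5) (nat_lit 168) (nat_lit 5) (nat_lit 422) (nat_lit 371) (nat_lit 227)) (XT.lf (nat_lit 0) (nat_lit 4878797895) (nat_lit 152) (nat_lit 20865691558) (nat_lit 228) (nat_lit 55646202738) (nat_lit 162) (nat_lit 5) (nat_lit 164) (nat_lit 5) (nat_lit 165) (nat_lit 5) (nat_lit 423) (nat_lit 371) (nat_lit 226))) (XT.nd (nat_lit 78) (nat_lit 228) (nat_lit 0) (XT.lf (nat_lit 0) (nat_lit 10275213858) (nat_lit 152) (nat_lit 55994749902) (nat_lit 228) (nat_lit 17711993427) (nat_lit 160) (nat_lit 5) (nat_lit 162) (nat_lit 5) (nat_lit 163) (nat_lit 5) (nat_lit 424) (nat_lit 371) (nat_lit 225)) (XT.lf (nat_lit 0) (nat_lit 16199186893) (nat_lit 152) (nat_lit 6645855087) (nat_lit 228) (nat_lit 63816632764) (nat_lit 157) (nat_lit 5) (nat_lit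 159) (nat_lit 5) (nat_lit 160) (nat_lit 5) (nat_lit 425) (nat_lit 371) (nat_lit 224)))))) (XT.nd (nat_lit 468) (nat_lit 1064) (nat_lit 0) (XT.nd (nat_lit 234) (nat_lit 456) (nat_lit 0) (XT.nd (nat_lit 78) (nat_lit 380) (nat_lit 0) (XT.lf (nat_lit 0) (nat_lit 22499439836) (nat_lit 152) (nat_lit 43980413963) (nat_lit 228) (nat_lit 22947776319) (nat_lit 155) (nat_lit 5) (nat_lit 157) (nat_lit 5) (nat_lit 158) (nat_lit 5) (nat_lit 426) (nat_lit 371) (nat_lit 223)) (XT.nd (nat_lit 78) (nat_lit 152) (nat_lit 0) (XT.lf (nat_lit 0) (nat_lit 20740772912) (nat_lit 228) (nat_lit 62803755118) (nat_lit 76) (nat_lit 8746623001) (nat_lit 152) (nat_lit 5) (nat_lit 155) (nat_lit 5) (nat_lit 153) (nat_lit 5) (nat_lit 427) (nat_lit 371) (nat_lit 222)) (XT.lf (nat_lit 0) (nat_lit 36875497043) (nat_lit 152) (nat_lit 30758488265) (nat_lit 228) (nat_lit 27612201584) (nat_lit 150) (nat_lit 5) (nat_lit 152) (nat_lit 5)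 (nat_lit 153) (nat_lit 5) (nat_lit 428) (nat_lit 371) (nat_lit 221)))) (XT.nd (nat_lit 78) (nat_lit 304) (nat_lit 0) (XT.lf (nat_lit 0) (nat_lit 19494903956) (nat_lit 152) (nat_lit 53348171003) (nat_lit 76) (nat_lit 25460553938) (nat_lit 148) (nat_lit 5) (nat_lit 150) (nat_lit 5) (nat_lit 149) (nat_lit 5) (nat_lit 429) (nat_lit 371) (nat_lit 220)) (XT.nd (nat_lit 78) (nat_lit 152) (nat_lit 0) (XT.lf (nat_lit 0) (nat_lit 53616244322) (nat_lit 152) (nat_lit 16204451168) (nat_lit 228) (nat_lit 31642014066) (nat_lit 146) (nat_lit 5) (nat_lit 148) (nat_lit 5) (nat_lit 149) (nat_lit 5) (nat_lit 430) (nat_lit 371) (nat_lit 219)) (XT.lf (nat_lit 0) (nat_lit 19123050895) (nat_lit 152) (nat_lit 41836501723) (nat_lit 76) (nat_lit 43767365123) (nat_lit 144) (nat_lit 5) (nat_lit 146) (nat_lit 5) (nat_lit 145) (nat_lit 5) (nat_lit 431) (nat_lit 371) (nat_lit 218))))) (XT.nd (nat_lit 390) (nat_lit 608) (nat_lit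 0) (XT.nd (nat_lit 78) (nat_lit 304) (nat_lit 0) (XT.lf (nat_lit 0) (nat_lit 72953780683) (nat_lit 152) (nat_lit 183079153) (nat_lit 228) (nat_lit 34967130997) (nat_lit 142) (nat_lit 5) (nat_lit 144) (nat_lit 5) (nat_lit 145) (nat_lit 5) (nat_lit 432) (nat_lit 371) (nat_lit 217)) (XT.nd (nat_lit 78) (nat_lit 152) (nat_lit 0) (XT.lf (nat_lit 0) (nat_lit 19712700612) (nat_lit 152) (nat_lit 28055235362) (nat_lit 76) (nat_lit 63820739663) (nat_lit 140) (nat_lit 5) (nat_lit 142) (nat_lit 5) (nat_lit 141) (nat_lit 5) (nat_lit 433) (nat_lit 371) (nat_lit 216)) (XT.lf (nat_lit 0) (nat_lit 77856371684) (nat_lit 228) (nat_lit 20225372699) (nat_lit 76) (nat_lit 17111873369) (nat_lit 138) (nat_lit 5) (nat_lit 141) (nat_lit 5) (nat_lit 139) (nat_lit 4) (nat_lit 434) (nat_lit 371) (nat_lit 215)))) (XT.nd (nat_lit 48126) (nat_lit 0) (nat_lit 18620) (XT.nd (nat_lit 48048) (nat_lit 0) (nat_lit 18544) (XT.lf (nat_lit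 0) (nat_lit 7414947204) (nat_lit 152) (nat_lit 16826871272) (nat_lit 228) (nat_lit 102503829692) (nat_lit 130) (nat_lit 5) (nat_lit 132) (nat_lit 5) (nat_lit 133) (nat_lit 5) (nat_lit 437) (nat_lit 371) (nat_lit 212)) (XT.lf (nat_lit 0) (nat_lit 4137045344) (nat_lit 1292) (nat_lit 2795375382) (nat_lit 1292) (nat_lit 2795375382) (nat_lit 374) (nat_lit 3) (nat_lit 391) (nat_lit 3) (nat_lit 391) (nat_lit 5) (nat_lit 372) (nat_lit 372) (nat_lit 276))) (XT.nd (nat_lit 78) (nat_lit 0) (nat_lit 0) (XT.lf (nat_lit 0) (nat_lit 8891057765) (nat_lit 1216) (nat_lit 9117353877) (nat_lit 1292) (nat_lit 1921266939) (nat_lit 375) (nat_lit 5) (nat_lit 391) (nat_lit 5) (nat_lit 392) (nat_lit 5) (nat_lit 373) (nat_lit 372) (nat_lit 275)) (XT.lf (nat_lit 76) (nat_lit 7726610485) (nat_lit 0) (nat_lit 2066208779) (nat_lit 1292) (nat_lit 10627031615) (nat_lit 376) (nat_lit 5) (nat_lit 375) (nat_lit 5) (nat_lit 392) (nat_lit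 5) (nat_lit 374) (nat_lit 372) (nat_lit 274))))))) (XT.nd (nat_lit 1014) (nat_lit 6460) (nat_lit 0) (XT.nd (nat_lit 468) (nat_lit 3496) (nat_lit 0) (XT.nd (nat_lit 234) (nat_lit 0) (nat_lit 228) (XT.nd (nat_lit 78) (nat_lit 0) (nat_lit 76) (XT.lf (nat_lit 76) (nat_lit 4608943408) (nat_lit 0) (nat_lit 6393323678) (nat_lit 1292) (nat_lit 9924386757) (nat_lit 377) (nat_lit 5) (nat_lit 376) (nat_lit 5) (nat_lit 393) (nat_lit 5) (nat_lit 375) (nat_lit 372) (nat_lit 273)) (XT.nd (nat_lit 78) (nat_lit 0) (nat_lit 76) (XT.lf (nat_lit 76) (nat_lit 1482157583) (nat_lit 0) (nat_lit 11040716904) (nat_lit 1292) (nat_lit 8928401854) (nat_lit 378) (nat_lit 5) (nat_lit 377) (nat_lit 5) (nat_lit 394) (nat_lit 5) (nat_lit 376) (nat_lit 372) (nat_lit 272)) (XT.lf (nat_lit 0) (nat_lit 14393992185) (nat_lit 1216) (nat_lit 1617658652) (nat_lit 1292) (nat_lit 5982244728) (nat_lit 378) (nat_lit 5) (nat_lit 394) (nat_lit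 5) (nat_lit 395) (nat_lit 5) (nat_lit 377) (nat_lit 372) (nat_lit 271)))) (XT.nd (nat_lit 78) (nat_lit 0) (nat_lit 0) (XT.lf (nat_lit 0) (nat_lit 16638760946) (nat_lit 1216) (nat_lit 4689385155) (nat_lit 1292) (nat_lit 1227096794) (nat_lit 379) (nat_lit 5) (nat_lit 395) (nat_lit 5) (nat_lit 396) (nat_lit 5) (nat_lit 378) (nat_lit 372) (nat_lit 270)) (XT.nd (nat_lit 78) (nat_lit 0) (nat_lit 76) (XT.lf (nat_lit 76) (nat_lit 15340026002) (nat_lit 0) (nat_lit 3967066462) (nat_lit 1292) (nat_lit 3828225398) (nat_lit 380) (nat_lit 5) (nat_lit 379) (nat_lit 5) (nat_lit 396) (nat_lit 5) (nat_lit 379) (nat_lit 372) (nat_lit 269)) (XT.lf (nat_lit 76) (nat_lit 12827816561) (nat_lit 0) (nat_lit 9576246586) (nat_lit 1292) (nat_lit 1331476753) (nat_lit 381) (nat_lit 5) (nat_lit 380) (nat_lit 5) (nat_lit 397) (nat_lit 5) (nat_lit 380) (nat_lit 372) (nat_lit 268))))) (XT.nd (nat_lit 234) (nat_lit 1824) (nat_lit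 0) (XT.nd (nat_lit 78) (nat_lit 760) (nat_lit 0) (XT.lf (nat_lit 0) (nat_lit 1558699466) (nat_lit 1292) (nat_lit 14024295287) (nat_lit 1368) (nat_lit 8773593302) (nat_lit 364) (nat_lit 5) (nat_lit 381) (nat_lit 5) (nat_lit 382) (nat_lit 5) (nat_lit 381) (nat_lit 372) (nat_lit 267)) (XT.nd (nat_lit 78) (nat_lit 836) (nat_lit 0) (XT.lf (nat_lit 0) (nat_lit 4868364289) (nat_lit 1292) (nat_lit 17140690945) (nat_lit 76) (nat_lit 2990162393) (nat_lit 365) (nat_lit 5) (nat_lit 382) (nat_lit 5) (nat_lit 366) (nat_lit 5) (nat_lit 382) (nat_lit 372) (nat_lit 266)) (XT.lf (nat_lit 0) (nat_lit 5394446076) (nat_lit 836) (nat_lit 3291594088) (nat_lit 912) (nat_lit 16977662680) (nat_lit 354) (nat_lit 5) (nat_lit 365) (nat_lit 5) (nat_lit 366) (nat_lit 5) (nat_lit 383) (nat_lit 372) (nat_lit 265)))) (XT.nd (nat_lit 156) (nat_lit 608) (nat_lit 0) (XT.nd (nat_lit 78) (nat_lit 608) (nat_lit 0) (XT.lf (nat_lit 0)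 (nat_lit 2945799348) (nat_lit 608) (nat_lit 10100684370) (nat_lit 684) (nat_lit 13304372086) (nat_lit 346) (nat_lit 5) (nat_lit 354) (nat_lit 5) (nat_lit 355) (nat_lit 5) (nat_lit 384) (nat_lit 372) (nat_lit 264)) (XT.lf (nat_lit 0) (nat_lit 551192260) (nat_lit 608) (nat_lit 17403804018) (nat_lit 684) (nat_lit 9107468729) (nat_lit 338) (nat_lit 5) (nat_lit 346) (nat_lit 5) (nat_lit 347) (nat_lit 5) (nat_lit 385) (nat_lit 372) (nat_lit 263))) (XT.nd (nat_lit 78) (nat_lit 608) (nat_lit 0) (XT.lf (nat_lit 0) (nat_lit 23465197071) (nat_lit 684) (nat_lit 1745513776) (nat_lit 76) (nat_lit 2588255945) (nat_lit 338) (nat_lit 5) (nat_lit 347) (nat_lit 5) (nat_lit 339) (nat_lit 5) (nat_lit 386) (nat_lit 372) (nat_lit 262)) (XT.lf (nat_lit 0) (nat_lit 1070537404) (nat_lit 608) (nat_lit 4019381230) (nat_lit 76) (nat_lit 23470024374) (nat_lit 330) (nat_lit 5) (nat_lit 338) (nat_lit 5) (nat_lit 331) (nat_lit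 5) (nat_lit 387) (nat_lit 372) (nat_lit 261)))))) (XT.nd (nat_lit 546) (nat_lit 2812) (nat_lit 0) (XT.nd (nat_lit 234) (nat_lit 1976) (nat_lit 0) (XT.nd (nat_lit 78) (nat_lit 1064) (nat_lit 0) (XT.lf (nat_lit 0) (nat_lit 7044398348) (nat_lit 684) (nat_lit 6290053612) (nat_lit 76) (nat_lit 16011559793) (nat_lit 322) (nat_lit 5) (nat_lit 331) (nat_lit 5) (nat_lit 323) (nat_lit 5) (nat_lit 388) (nat_lit 372) (nat_lit 260)) (XT.nd (nat_lit 78) (nat_lit 532) (nat_lit 0) (XT.lf (nat_lit 0) (nat_lit 13687866847) (nat_lit 608) (nat_lit 8479668378) (nat_lit 76) (nat_lit 7992721274) (nat_lit 315) (nat_lit 5) (nat_lit 323) (nat_lit 5) (nat_lit 316) (nat_lit 5) (nat_lit 389) (nat_lit 372) (nat_lit 259)) (XT.lf (nat_lit 0) (nat_lit 20420738693) (nat_lit 532) (nat_lit 629619403) (nat_lit 608) (nat_lit 9953249908) (nat_lit 308) (nat_lit 5) (nat_lit 315) (nat_lit 5) (nat_lit 316) (nat_lit 5) (nat_lit 390) (nat_lit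 372) (nat_lit 258)))) (XT.nd (nat_lit 156) (nat_lit 912) (nat_lit 0) (XT.nd (nat_lit 78) (nat_lit 608) (nat_lit 0) (XT.lf (nat_lit 0) (nat_lit 19209085413) (nat_lit 456) (nat_lit 10046942256) (nat_lit 532) (nat_lit 2618847800) (nat_lit 302) (nat_lit 5) (nat_lit 308) (nat_lit 5) (nat_lit 309) (nat_lit 5) (nat_lit 391) (nat_lit 372) (nat_lit 257)) (XT.lf (nat_lit 0) (nat_lit 5390193442) (nat_lit 608) (nat_lit 14690031783) (nat_lit 76) (nat_lit 12695802691) (nat_lit 294) (nat_lit 5) (nat_lit 302) (nat_lit 5) (nat_lit 295) (nat_lit 5) (nat_lit 392) (nat_lit 372) (nat_lit 256))) (XT.nd (nat_lit 78) (nat_lit 456) (nat_lit 0) (XT.lf (nat_lit 0) (nat_lit 14163772683) (nat_lit 532) (nat_lit 16622070186) (nat_lit 76) (nat_lit 2923069808) (nat_lit 288) (nat_lit 5) (nat_lit 295) (nat_lit 5) (nat_lit 289) (nat_lit 5) (nat_lit 393) (nat_lit 372) (nat_lit 255)) (XT.lf (nat_lit 0) (nat_lit 16176961192) (nat_lit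 456) (nat_lit 7701732643) (nat_lit 532) (nat_lit 10794667953) (nat_lit 282) (nat_lit 5) (nat_lit 288) (nat_lit 5) (nat_lit 289) (nat_lit 5) (nat_lit 394) (nat_lit 372) (nat_lit 254))))) (XT.nd (nat_lit 234) (nat_lit 1520) (nat_lit 0) (XT.nd (nat_lit 78) (nat_lit 912) (nat_lit 0) (XT.lf (nat_lit 0) (nat_lit 15412394402) (nat_lit 380) (nat_lit 19138929192) (nat_lit 456) (nat_lit 1120550883) (nat_lit 277) (nat_lit 5) (nat_lit 282) (nat_lit 5) (nat_lit 283) (nat_lit 5) (nat_lit 395) (nat_lit 372) (nat_lit 253)) (XT.nd (nat_lit 78) (nat_lit 380) (nat_lit 0) (XT.lf (nat_lit 0) (nat_lit 9318686747) (nat_lit 532) (nat_lit 21957868617) (nat_lit 76) (nat_lit 5427418351) (nat_lit 270) (nat_lit 5) (nat_lit 277) (nat_lit 5) (nat_lit 271) (nat_lit 5) (nat_lit 396) (nat_lit 372) (nat_lit 252)) (XT.lf (nat_lit 0) (nat_lit 14204665863) (nat_lit 380) (nat_lit 6585106109) (nat_lit 456) (nat_lit 16981581294) (nat_lit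 265) (nat_lit 5) (nat_lit 270) (nat_lit 5) (nat_lit 271) (nat_lit 5) (nat_lit 397) (nat_lit 372) (nat_lit 251)))) (XT.nd (nat_lit 156) (nat_lit 684) (nat_lit 0) (XT.nd (nat_lit 78) (nat_lit 456) (nat_lit 0) (XT.lf (nat_lit 0) (nat_lit 13820604189) (nat_lit 380) (nat_lit 19553601466) (nat_lit 456) (nat_lit 5501702311) (nat_lit 260) (nat_lit 5) (nat_lit 265) (nat_lit 5) (nat_lit 266) (nat_lit 5) (nat_lit 398) (nat_lit 372) (nat_lit 250)) (XT.lf (nat_lit 0) (nat_lit 6925512718) (nat_lit 456) (nat_lit 26419652719) (nat_lit 76) (nat_lit 6673599505) (nat_lit 254) (nat_lit 5) (nat_lit 260) (nat_lit 5) (nat_lit 255) (nat_lit 5) (nat_lit 399) (nat_lit 372) (nat_lit 249))) (XT.nd (nat_lit 78) (nat_lit 304) (nat_lit 0) (XT.lf (nat_lit 0) (nat_lit 13497184473) (nat_lit 380) (nat_lit 6944913220) (nat_lit 456) (nat_lit 20757579120) (nat_lit 249) (nat_lit 5) (nat_lit 254) (nat_lit 5) (nat_lit 255) (nat_lit 5)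 (nat_lit 400) (nat_lit 372) (nat_lit 248)) (XT.lf (nat_lit 0) (nat_lit 13583696061) (nat_lit 304) (nat_lit 21649123494) (nat_lit 380) (nat_lit 7188865493) (nat_lit 245) (nat_lit 5) (nat_lit 249) (nat_lit 5) (nat_lit 250) (nat_lit 5) (nat_lit 401) (nat_lit 372) (nat_lit 247))))))))
noncomputable def xc97 : XT := (XT.nd (nat_lit 2106) (nat_lit 1368) (nat_lit 0) (XT.nd (nat_lit 1014) (nat_lit 3116) (nat_lit 0) (XT.nd (nat_lit 468) (nat_lit 1976) (nat_lit 0) (XT.nd (nat_lit 234) (nat_lit 912) (nat_lit 0) (XT.nd (nat_lit 78) (nat_lit 608) (nat_lit 0) (XT.lf (nat_lit 0) (nat_lit 7468959422) (nat_lit 456) (nat_lit 29812214061) (nat_lit 76) (nat_lit 6405132512) (nat_lit 239) (nat_lit 5) (nat_lit 245) (nat_lit 5) (nat_lit 240) (nat_lit 5) (nat_lit 402) (nat_lit 372) (nat_lit 246)) (XT.nd (nat_lit 78) (nat_lit 304) (nat_lit 0) (XT.lf (nat_lit 0) (nat_lit 14294885306) (nat_lit 304) (nat_lit 9066943501) (nat_lit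 380) (nat_lit 21630668975) (nat_lit 235) (nat_lit 5) (nat_lit 239) (nat_lit 5) (nat_lit 240) (nat_lit 5) (nat_lit 403) (nat_lit 372) (nat_lit 245)) (XT.lf (nat_lit 0) (nat_lit 14957662529) (nat_lit 304) (nat_lit 25736917477) (nat_lit 380) (nat_lit 5650062001) (nat_lit 231) (nat_lit 5) (nat_lit 235) (nat_lit 5) (nat_lit 236) (nat_lit 5) (nat_lit 404) (nat_lit 372) (nat_lit 244)))) (XT.nd (nat_lit 78) (nat_lit 532) (nat_lit 0) (XT.lf (nat_lit 0) (nat_lit 11512176537) (nat_lit 380) (nat_lit 31905267992) (nat_lit 76) (nat_lit 4325746008) (nat_lit 226) (nat_lit 5) (nat_lit 231) (nat_lit 5) (nat_lit 227) (nat_lit 5) (nat_lit 405) (nat_lit 372) (nat_lit 243)) (XT.nd (nat_lit 78) (nat_lit 228) (nat_lit 0) (XT.lf (nat_lit 0) (nat_lit 16878516669) (nat_lit 304) (nat_lit 13280789339) (nat_lit 380) (nat_lit 19028373319) (nat_lit 222) (nat_lit 5) (nat_lit 226) (nat_lit 5) (nat_lit 227) (nat_lit 5) (nat_lit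 406) (nat_lit 372) (nat_lit 242)) (XT.lf (nat_lit 0) (nat_lit 18241136919) (nat_lit 228) (nat_lit 32175594146) (nat_lit 304) (nat_lit 267323319) (nat_lit 219) (nat_lit 5) (nat_lit 222) (nat_lit 5) (nat_lit 223) (nat_lit 5) (nat_lit 407) (nat_lit 372) (nat_lit 241))))) (XT.nd (nat_lit 234) (nat_lit 988) (nat_lit 0) (XT.nd (nat_lit 78) (nat_lit 608) (nat_lit 0) (XT.lf (nat_lit 0) (nat_lit 19708321698) (nat_lit 380) (nat_lit 32428361660) (nat_lit 76) (nat_lit 93289337) (nat_lit 214) (nat_lit 5) (nat_lit 219) (nat_lit 5) (nat_lit 215) (nat_lit 5) (nat_lit 408) (nat_lit 372) (nat_lit 240)) (XT.nd (nat_lit 78) (nat_lit 380) (nat_lit 0) (XT.lf (nat_lit 0) (nat_lit 21574935765) (nat_lit 228) (nat_lit 19966436803) (nat_lit 304) (nat_lit 12285810381) (nat_lit 211) (nat_lit 5) (nat_lit 214) (nat_lit 5) (nat_lit 215) (nat_lit 5) (nat_lit 409) (nat_lit 372) (nat_lit 239)) (XT.lf (nat_lit 0) (nat_lit 9487130658)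 (nat_lit 380) (nat_lit 31795014708) (nat_lit 76) (nat_lit 14198518380) (nat_lit 206) (nat_lit 5) (nat_lit 211) (nat_lit 5) (nat_lit 207) (nat_lit 5) (nat_lit 410) (nat_lit 372) (nat_lit 238)))) (XT.nd (nat_lit 156) (nat_lit 532) (nat_lit 0) (XT.nd (nat_lit 78) (nat_lit 228) (nat_lit 0) (XT.lf (nat_lit 0) (nat_lit 26059036167) (nat_lit 228) (nat_lit 6820211727) (nat_lit 304) (nat_lit 24310382882) (nat_lit 203) (nat_lit 5) (nat_lit 206) (nat_lit 5) (nat_lit 207) (nat_lit 5) (nat_lit 411) (nat_lit 372) (nat_lit 237)) (XT.lf (nat_lit 0) (nat_lit 28763660903) (nat_lit 228) (nat_lit 29561692986) (nat_lit 304) (nat_lit 632160780) (nat_lit 200) (nat_lit 5) (nat_lit 203) (nat_lit 5) (nat_lit 204) (nat_lit 5) (nat_lit 412) (nat_lit 372) (nat_lit 236))) (XT.nd (nat_lit 78) (nat_lit 228) (nat_lit 0) (XT.lf (nat_lit 0) (nat_lit 24521275811) (nat_lit 304) (nat_lit 29049944105) (nat_lit 76) (nat_lit 7212661921)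 (nat_lit 196) (nat_lit 5) (nat_lit 200) (nat_lit 5) (nat_lit 197) (nat_lit 5) (nat_lit 413) (nat_lit 372) (nat_lit 235)) (XT.lf (nat_lit 0) (nat_lit 35065420841) (nat_lit 228) (nat_lit 16798662371) (nat_lit 304) (nat_lit 10808953188) (nat_lit 193) (nat_lit 5) (nat_lit 196) (nat_lit 5) (nat_lit 197) (nat_lit 5) (nat_lit 414) (nat_lit 372) (nat_lit 234)))))) (XT.nd (nat_lit 546) (nat_lit 1520) (nat_lit 0) (XT.nd (nat_lit 234) (nat_lit 836) (nat_lit 0) (XT.nd (nat_lit 78) (nat_lit 456) (nat_lit 0) (XT.lf (nat_lit 0) (nat_lit 16496390286) (nat_lit 304) (nat_lit 25907599757) (nat_lit 76) (nat_lit 22221380017) (nat_lit 189) (nat_lit 5) (nat_lit 193) (nat_lit 5) (nat_lit 190) (nat_lit 5) (nat_lit 415) (nat_lit 372) (nat_lit 233)) (XT.nd (nat_lit 78) (nat_lit 228) (nat_lit 0) (XT.lf (nat_lit 0) (nat_lit 42815990198) (nat_lit 228) (nat_lit 2993212916) (nat_lit 304) (nat_lit 20836934271) (nat_lit 186) (nat_lit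 5) (nat_lit 189) (nat_lit 5) (nat_lit 190) (nat_lit 5) (nat_lit 416) (nat_lit 372) (nat_lit 232)) (XT.lf (nat_lit 0) (nat_lit 8766581327) (nat_lit 228) (nat_lit 21520126715) (nat_lit 76) (nat_lit 38445996240) (nat_lit 183) (nat_lit 5) (nat_lit 186) (nat_lit 5) (nat_lit 184) (nat_lit 5) (nat_lit 417) (nat_lit 372) (nat_lit 231)))) (XT.nd (nat_lit 156) (nat_lit 380) (nat_lit 0) (XT.nd (nat_lit 78) (nat_lit 228) (nat_lit 0) (XT.lf (nat_lit 0) (nat_lit 40313342842) (nat_lit 304) (nat_lit 18852340689) (nat_lit 76) (nat_lit 11724906508) (nat_lit 180) (nat_lit 5) (nat_lit 184) (nat_lit 5) (nat_lit 181) (nat_lit 5) (nat_lit 418) (nat_lit 372) (nat_lit 230)) (XT.lf (nat_lit 0) (nat_lit 1363074537) (nat_lit 228) (nat_lit 15758339700) (nat_lit 76) (nat_lit 56002250184) (nat_lit 177) (nat_lit 5) (nat_lit 180) (nat_lit 5) (nat_lit 178) (nat_lit 5) (nat_lit 419) (nat_lit 372) (nat_lit 229))) (XT.nd (nat_lit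 78) (nat_lit 152) (nat_lit 0) (XT.lf (nat_lit 0) (nat_lit 35344519112) (nat_lit 304) (nat_lit 12464216651) (nat_lit 76) (nat_lit 27618279673) (nat_lit 174) (nat_lit 5) (nat_lit 178) (nat_lit 5) (nat_lit 175) (nat_lit 5) (nat_lit 420) (nat_lit 372) (nat_lit 228)) (XT.lf (nat_lit 0) (nat_lit 69279111675) (nat_lit 152) (nat_lit 2744548690) (nat_lit 228) (nat_lit 5791914906) (nat_lit 172) (nat_lit 5) (nat_lit 174) (nat_lit 5) (nat_lit 175) (nat_lit 5) (nat_lit 421) (nat_lit 372) (nat_lit 227))))) (XT.nd (nat_lit 234) (nat_lit 760) (nat_lit 0) (XT.nd (nat_lit 78) (nat_lit 532) (nat_lit 0) (XT.lf (nat_lit 0) (nat_lit 30922035698) (nat_lit 228) (nat_lit 4489436713) (nat_lit 76) (nat_lit 44864425601) (nat_lit 169) (nat_lit 5) (nat_lit 172) (nat_lit 5) (nat_lit 170) (nat_lit 5) (nat_lit 422) (nat_lit 372) (nat_lit 226)) (XT.nd (nat_lit 78) (nat_lit 228) (nat_lit 0) (XT.lf (nat_lit 0) (nat_lit 226808857)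 (nat_lit 152) (nat_lit 70164700998) (nat_lit 228) (nat_lit 12434818313) (nat_lit 165) (nat_lit 5) (nat_lit 167) (nat_lit 5) (nat_lit 168) (nat_lit 5) (nat_lit 423) (nat_lit 372) (nat_lit 225)) (XT.lf (nat_lit 0) (nat_lit 5337539809) (nat_lit 152) (nat_lit 21813063626) (nat_lit 228) (nat_lit 58306056681) (nat_lit 162) (nat_lit 5) (nat_lit 164) (nat_lit 5) (nat_lit 165) (nat_lit 5) (nat_lit 424) (nat_lit 372) (nat_lit 224)))) (XT.nd (nat_lit 156) (nat_lit 380) (nat_lit 0) (XT.nd (nat_lit 78) (nat_lit 228) (nat_lit 0) (XT.lf (nat_lit 0) (nat_lit 11000188218) (nat_lit 152) (nat_lit 58699410215) (nat_lit 228) (nat_lit 18477972518) (nat_lit 160) (nat_lit 5) (nat_lit 162) (nat_lit 5) (nat_lit 163) (nat_lit 5) (nat_lit 425) (nat_lit 372) (nat_lit 223)) (XT.lf (nat_lit 0) (nat_lit 17216572826) (nat_lit 152) (nat_lit 6884416452) (nat_lit 228) (nat_lit 66890358348) (nat_lit 157) (nat_lit 5) (nat_lit 159)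 (nat_lit 5) (nat_lit 160) (nat_lit 5) (nat_lit 426) (nat_lit 372) (nat_lit 222))) (XT.nd (nat_lit 78) (nat_lit 228) (nat_lit 0) (XT.lf (nat_lit 0) (nat_lit 23828330483) (nat_lit 152) (nat_lit 46086615437) (nat_lit 228) (nat_lit 23980732721) (nat_lit 155) (nat_lit 5) (nat_lit 157) (nat_lit 5) (nat_lit 158) (nat_lit 5) (nat_lit 427) (nat_lit 372) (nat_lit 221)) (XT.lf (nat_lit 0) (nat_lit 21887472183) (nat_lit 228) (nat_lit 65741316261) (nat_lit 76) (nat_lit 9273630320) (nat_lit 152) (nat_lit 5) (nat_lit 155) (nat_lit 5) (nat_lit 153) (nat_lit 5) (nat_lit 428) (nat_lit 372) (nat_lit 220))))))) (XT.nd (nat_lit 49140) (nat_lit 0) (nat_lit 13224) (XT.nd (nat_lit 546) (nat_lit 456) (nat_lit 0) (XT.nd (nat_lit 234) (nat_lit 456) (nat_lit 0) (XT.nd (nat_lit 78) (nat_lit 304) (nat_lit 0) (XT.lf (nat_lit 0) (nat_lit 38916090258) (nat_lit 152) (nat_lit 32205924946) (nat_lit 228) (nat_lit 28883291115) (nat_lit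 150) (nat_lit 5) (nat_lit 152) (nat_lit 5) (nat_lit 153) (nat_lit 5) (nat_lit 429) (nat_lit 372) (nat_lit 219)) (XT.nd (nat_lit 78) (nat_lit 152) (nat_lit 0) (XT.lf (nat_lit 0) (nat_lit 20574633450) (nat_lit 152) (nat_lit 55820059966) (nat_lit 76) (nat_lit 26820967397) (nat_lit 148) (nat_lit 5) (nat_lit 150) (nat_lit 5) (nat_lit 149) (nat_lit 5) (nat_lit 430) (nat_lit 372) (nat_lit 218)) (XT.lf (nat_lit 0) (nat_lit 56486971595) (nat_lit 152) (nat_lit 16926569293) (nat_lit 228) (nat_lit 33119249826) (nat_lit 146) (nat_lit 5) (nat_lit 148) (nat_lit 5) (nat_lit 149) (nat_lit 5) (nat_lit 431) (nat_lit 372) (nat_lit 217)))) (XT.nd (nat_lit 78) (nat_lit 304) (nat_lit 0) (XT.lf (nat_lit 0) (nat_lit 20179752155) (nat_lit 152) (nat_lit 43739710382) (nat_lit 76) (nat_lit 46040784629) (nat_lit 144) (nat_lit 5) (nat_lit 146) (nat_lit 5) (nat_lit 145) (nat_lit 5) (nat_lit 432) (nat_lit 372) (nat_lit 216)) (XT.nd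 (nat_lit 78) (nat_lit 152) (nat_lit 0) (XT.lf (nat_lit 0) (nat_lit 76784679492) (nat_lit 152) (nat_lit 106545142) (nat_lit 228) (nat_lit 36615040086) (nat_lit 142) (nat_lit 5) (nat_lit 144) (nat_lit 5) (nat_lit 145) (nat_lit 5) (nat_lit 433) (nat_lit 372) (nat_lit 215)) (XT.lf (nat_lit 0) (nat_lit 20794672765) (nat_lit 152) (nat_lit 29276080013) (nat_lit 76) (nat_lit 67094466528) (nat_lit 140) (nat_lit 5) (nat_lit 142) (nat_lit 5) (nat_lit 141) (nat_lit 5) (nat_lit 434) (nat_lit 372) (nat_lit 214))))) (XT.nd (nat_lit 48282) (nat_lit 0) (nat_lit 18316) (XT.nd (nat_lit 78) (nat_lit 152) (nat_lit 0) (XT.lf (nat_lit 0) (nat_lit 22520344237) (nat_lit 152) (nat_lit 12184304818) (nat_lit 76) (nat_lit 90156949307) (nat_lit 136) (nat_lit 5) (nat_lit 138) (nat_lit 5) (nat_lit 137) (nat_lit 5) (nat_lit 436) (nat_lit 372) (nat_lit 212)) (XT.nd (nat_lit 48126) (nat_lit 0) (nat_lit 18240) (XT.lf (nat_lit 0)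 (nat_lit 88234107298) (nat_lit 228) (nat_lit 2639674053) (nat_lit 76) (nat_lit 38028470268) (nat_lit 134) (nat_lit 5) (nat_lit 137) (nat_lit 5) (nat_lit 135) (nat_lit 4) (nat_lit 437) (nat_lit 372) (nat_lit 211)) (XT.lf (nat_lit 0) (nat_lit 4626571960) (nat_lit 1292) (nat_lit 2789566862) (nat_lit 1292) (nat_lit 2789566862) (nat_lit 374) (nat_lit 3) (nat_lit 391) (nat_lit 3) (nat_lit 391) (nat_lit 5) (nat_lit 373) (nat_lit 373) (nat_lit 274)))) (XT.nd (nat_lit 156) (nat_lit 0) (nat_lit 76) (XT.nd (nat_lit 78) (nat_lit 0) (nat_lit 0) (XT.lf (nat_lit 0) (nat_lit 9874273219) (nat_lit 1216) (nat_lit 9271695209) (nat_lit 1292) (nat_lit 1764034205) (nat_lit 375) (nat_lit 5) (nat_lit 391) (nat_lit 5) (nat_lit 392) (nat_lit 5) (nat_lit 374) (nat_lit 373) (nat_lit 273)) (XT.lf (nat_lit 76) (nat_lit 8405824179) (nat_lit 0) (nat_lit 2392463388) (nat_lit 1292) (nat_lit 10627081036) (nat_lit 376) (nat_lit 5)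 (nat_lit 375) (nat_lit 5) (nat_lit 392) (nat_lit 5) (nat_lit 375) (nat_lit 373) (nat_lit 272))) (XT.nd (nat_lit 78) (nat_lit 0) (nat_lit 76) (XT.lf (nat_lit 76) (nat_lit 5140991193) (nat_lit 0) (nat_lit 6903511525) (nat_lit 1292) (nat_lit 9913720148) (nat_lit 377) (nat_lit 5) (nat_lit 376) (nat_lit 5) (nat_lit 393) (nat_lit 5) (nat_lit 376) (nat_lit 373) (nat_lit 271)) (XT.lf (nat_lit 76) (nat_lit 1865340140) (nat_lit 0) (nat_lit 11753592769) (nat_lit 1292) (nat_lit 8890809807) (nat_lit 378) (nat_lit 5) (nat_lit 377) (nat_lit 5) (nat_lit 394) (nat_lit 5) (nat_lit 377) (nat_lit 373) (nat_lit 270)))))) (XT.nd (nat_lit 546) (nat_lit 3496) (nat_lit 0) (XT.nd (nat_lit 234) (nat_lit 1824) (nat_lit 0) (XT.nd (nat_lit 78) (nat_lit 0) (nat_lit 76) (XT.lf (nat_lit 0) (nat_lit 15559757132) (nat_lit 1216) (nat_lit 1389286145) (nat_lit 1292) (nat_lit 6131165106) (nat_lit 378) (nat_lit 5) (nat_lit 394) (nat_lit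 5) (nat_lit 395) (nat_lit 5) (nat_lit 378) (nat_lit 373) (nat_lit 269)) (XT.nd (nat_lit 78) (nat_lit 0) (nat_lit 0) (XT.lf (nat_lit 0) (nat_lit 17897186777) (nat_lit 1216) (nat_lit 4609408481) (nat_lit 1292) (nat_lit 1163615148) (nat_lit 379) (nat_lit 5) (nat_lit 395) (nat_lit 5) (nat_lit 396) (nat_lit 5) (nat_lit 379) (nat_lit 373) (nat_lit 268)) (XT.lf (nat_lit 76) (nat_lit 16412459704) (nat_lit 0) (nat_lit 4269102228) (nat_lit 1292) (nat_lit 3598248378) (nat_lit 380) (nat_lit 5) (nat_lit 379) (nat_lit 5) (nat_lit 396) (nat_lit 5) (nat_lit 380) (nat_lit 373) (nat_lit 267)))) (XT.nd (nat_lit 156) (nat_lit 760) (nat_lit 0) (XT.nd (nat_lit 78) (nat_lit 1216) (nat_lit 0) (XT.lf (nat_lit 76) (nat_lit 13778774352) (nat_lit 0) (nat_lit 10137151685) (nat_lit 1292) (nat_lit 994641066) (nat_lit 381) (nat_lit 5) (nat_lit 380) (nat_lit 5) (nat_lit 397) (nat_lit 5) (nat_lit 381) (nat_lit 373) (nat_lit 266))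 (XT.lf (nat_lit 0) (nat_lit 2015615183) (nat_lit 1292) (nat_lit 14405094811) (nat_lit 1368) (nat_lit 9142338042) (nat_lit 364) (nat_lit 5) (nat_lit 381) (nat_lit 5) (nat_lit 382) (nat_lit 5) (nat_lit 382) (nat_lit 373) (nat_lit 265))) (XT.nd (nat_lit 78) (nat_lit 836) (nat_lit 0) (XT.lf (nat_lit 0) (nat_lit 5475201746) (nat_lit 1292) (nat_lit 17675070578) (nat_lit 76) (nat_lit 3088003607) (nat_lit 365) (nat_lit 5) (nat_lit 382) (nat_lit 5) (nat_lit 366) (nat_lit 5) (nat_lit 383) (nat_lit 373) (nat_lit 264)) (XT.lf (nat_lit 0) (nat_lit 5977574455) (nat_lit 836) (nat_lit 3491893931) (nat_lit 912) (nat_lit 17466945812) (nat_lit 354) (nat_lit 5) (nat_lit 365) (nat_lit 5) (nat_lit 366) (nat_lit 5) (nat_lit 384) (nat_lit 373) (nat_lit 263))))) (XT.nd (nat_lit 234) (nat_lit 2280) (nat_lit 0) (XT.nd (nat_lit 78) (nat_lit 608) (nat_lit 0) (XT.lf (nat_lit 0) (nat_lit 3408018747) (nat_lit 608) (nat_lit 10625990594)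 (nat_lit 684) (nat_lit 13624333209) (nat_lit 346) (nat_lit 5) (nat_lit 354) (nat_lit 5) (nat_lit 355) (nat_lit 5) (nat_lit 385) (nat_lit 373) (nat_lit 262)) (XT.nd (nat_lit 78) (nat_lit 0) (nat_lit 0) (XT.lf (nat_lit 0) (nat_lit 894610986) (nat_lit 608) (nat_lit 18280225214) (nat_lit 684) (nat_lit 9231089353) (nat_lit 338) (nat_lit 5) (nat_lit 346) (nat_lit 5) (nat_lit 347) (nat_lit 5) (nat_lit 386) (nat_lit 373) (nat_lit 261)) (XT.lf (nat_lit 0) (nat_lit 24945152365) (nat_lit 684) (nat_lit 1522711643) (nat_lit 76) (nat_lit 2711850261) (nat_lit 338) (nat_lit 5) (nat_lit 347) (nat_lit 5) (nat_lit 339) (nat_lit 5) (nat_lit 387) (nat_lit 373) (nat_lit 260)))) (XT.nd (nat_lit 156) (nat_lit 1064) (nat_lit 0) (XT.nd (nat_lit 78) (nat_lit 608) (nat_lit 0) (XT.lf (nat_lit 0) (nat_lit 1421971042) (nat_lit 608) (nat_lit 3913231860) (nat_lit 76) (nat_lit 24643800054) (nat_lit 330) (nat_lit 5) (nat_lit 338)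 (nat_lit 5) (nat_lit 331) (nat_lit 5) (nat_lit 388) (nat_lit 373) (nat_lit 259)) (XT.lf (nat_lit 0) (nat_lit 7683319306) (nat_lit 684) (nat_lit 6297756423) (nat_lit 76) (nat_lit 16823635581) (nat_lit 322) (nat_lit 5) (nat_lit 331) (nat_lit 5) (nat_lit 323) (nat_lit 5) (nat_lit 389) (nat_lit 373) (nat_lit 258))) (XT.nd (nat_lit 78) (nat_lit 532) (nat_lit 0) (XT.lf (nat_lit 0) (nat_lit 14648385775) (nat_lit 608) (nat_lit 8597581252) (nat_lit 76) (nat_lit 8414018529) (nat_lit 315) (nat_lit 5) (nat_lit 323) (nat_lit 5) (nat_lit 316) (nat_lit 5) (nat_lit 390) (nat_lit 373) (nat_lit 257)) (XT.lf (nat_lit 0) (nat_lit 21739072721) (nat_lit 532) (nat_lit 629637829) (nat_lit 608) (nat_lit 10177102816) (nat_lit 308) (nat_lit 5) (nat_lit 315) (nat_lit 5) (nat_lit 316) (nat_lit 5) (nat_lit 391) (nat_lit 373) (nat_lit 256))))))))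
noncomputable def xc98 : XT := (XT.nd (nat_lit 2106) (nat_lit 3420) (nat_lit 0) (XT.nd (nat_lit 1014) (nat_lit 3952) (nat_lit 0) (XT.nd (nat_lit 468) (nat_lit 2660) (nat_lit 0) (XT.nd (nat_lit 234) (nat_lit 1368) (nat_lit 0) (XT.nd (nat_lit 78) (nat_lit 1064) (nat_lit 0) (XT.lf (nat_lit 0) (nat_lit 20465767482) (nat_lit 456) (nat_lit 10509372891) (nat_lit 532) (nat_lit 2485789530) (nat_lit 302) (nat_lit 5) (nat_lit 308) (nat_lit 5) (nat_lit 309) (nat_lit 5) (nat_lit 392) (nat_lit 373) (nat_lit 255)) (XT.nd (nat_lit 78) (nat_lit 456) (nat_lit 0) (XT.lf (nat_lit 0) (nat_lit 5909457246) (nat_lit 608) (nat_lit 15124730063) (nat_lit 76) (nat_lit 13373149378) (nat_lit 294) (nat_lit 5) (nat_lit 302) (nat_lit 5) (nat_lit 295) (nat_lit 5) (nat_lit 393) (nat_lit 373) (nat_lit 254)) (XT.lf (nat_lit 0) (nat_lit 15113107589) (nat_lit 532) (nat_lit 17155230287) (nat_lit 76) (nat_lit 3118786047) (nat_lit 288)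 (nat_lit 5) (nat_lit 295) (nat_lit 5) (nat_lit 289) (nat_lit 5) (nat_lit 394) (nat_lit 373) (nat_lit 253)))) (XT.nd (nat_lit 78) (nat_lit 912) (nat_lit 0) (XT.lf (nat_lit 0) (nat_lit 17275212172) (nat_lit 456) (nat_lit 8029861388) (nat_lit 532) (nat_lit 11094982967) (nat_lit 282) (nat_lit 5) (nat_lit 288) (nat_lit 5) (nat_lit 289) (nat_lit 5) (nat_lit 395) (nat_lit 373) (nat_lit 252)) (XT.nd (nat_lit 78) (nat_lit 532) (nat_lit 0) (XT.lf (nat_lit 0) (nat_lit 16470363008) (nat_lit 380) (nat_lit 20033186603) (nat_lit 456) (nat_lit 945178795) (nat_lit 277) (nat_lit 5) (nat_lit 282) (nat_lit 5) (nat_lit 283) (nat_lit 5) (nat_lit 396) (nat_lit 373) (nat_lit 251)) (XT.lf (nat_lit 0) (nat_lit 10004048291) (nat_lit 532) (nat_lit 22766321661) (nat_lit 76) (nat_lit 5762219633) (nat_lit 270) (nat_lit 5) (nat_lit 277) (nat_lit 5) (nat_lit 271) (nat_lit 5) (nat_lit 397) (nat_lit 373) (nat_lit 250))))) (XT.nd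 (nat_lit 234) (nat_lit 1444) (nat_lit 0) (XT.nd (nat_lit 78) (nat_lit 836) (nat_lit 0) (XT.lf (nat_lit 0) (nat_lit 15196042792) (nat_lit 380) (nat_lit 6844898594) (nat_lit 456) (nat_lit 17612629118) (nat_lit 265) (nat_lit 5) (nat_lit 270) (nat_lit 5) (nat_lit 271) (nat_lit 5) (nat_lit 398) (nat_lit 373) (nat_lit 249)) (XT.nd (nat_lit 78) (nat_lit 456) (nat_lit 0) (XT.lf (nat_lit 0) (nat_lit 14790238921) (nat_lit 380) (nat_lit 20457591835) (nat_lit 456) (nat_lit 5565725165) (nat_lit 260) (nat_lit 5) (nat_lit 265) (nat_lit 5) (nat_lit 266) (nat_lit 5) (nat_lit 399) (nat_lit 373) (nat_lit 248)) (XT.lf (nat_lit 0) (nat_lit 7472237263) (nat_lit 456) (nat_lit 27460744466) (nat_lit 76) (nat_lit 7080707994) (nat_lit 254) (nat_lit 5) (nat_lit 260) (nat_lit 5) (nat_lit 255) (nat_lit 5) (nat_lit 400) (nat_lit 373) (nat_lit 247)))) (XT.nd (nat_lit 156) (nat_lit 760) (nat_lit 0) (XT.nd (nat_lit 78) (nat_lit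 304) (nat_lit 0) (XT.lf (nat_lit 0) (nat_lit 14443911570) (nat_lit 380) (nat_lit 7213808091) (nat_lit 456) (nat_lit 21596135481) (nat_lit 249) (nat_lit 5) (nat_lit 254) (nat_lit 5) (nat_lit 255) (nat_lit 5) (nat_lit 401) (nat_lit 373) (nat_lit 246)) (XT.lf (nat_lit 0) (nat_lit 14531863231) (nat_lit 304) (nat_lit 22650202200) (nat_lit 380) (nat_lit 7355075723) (nat_lit 245) (nat_lit 5) (nat_lit 249) (nat_lit 5) (nat_lit 250) (nat_lit 5) (nat_lit 402) (nat_lit 373) (nat_lit 245))) (XT.nd (nat_lit 78) (nat_lit 304) (nat_lit 0) (XT.lf (nat_lit 0) (nat_lit 8026182192) (nat_lit 456) (nat_lit 31033188253) (nat_lit 76) (nat_lit 6805737606) (nat_lit 239) (nat_lit 5) (nat_lit 245) (nat_lit 5) (nat_lit 240) (nat_lit 5) (nat_lit 403) (nat_lit 373) (nat_lit 244)) (XT.lf (nat_lit 0) (nat_lit 15271537006) (nat_lit 304) (nat_lit 9435924473) (nat_lit 380) (nat_lit 22529334955) (nat_lit 235) (nat_lit 5) (nat_lit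 239) (nat_lit 5) (nat_lit 240) (nat_lit 5) (nat_lit 404) (nat_lit 373) (nat_lit 243)))))) (XT.nd (nat_lit 546) (nat_lit 1748) (nat_lit 0) (XT.nd (nat_lit 234) (nat_lit 1216) (nat_lit 0) (XT.nd (nat_lit 78) (nat_lit 684) (nat_lit 0) (XT.lf (nat_lit 0) (nat_lit 15964331395) (nat_lit 304) (nat_lit 26937324468) (nat_lit 380) (nat_lit 5755047840) (nat_lit 231) (nat_lit 5) (nat_lit 235) (nat_lit 5) (nat_lit 236) (nat_lit 5) (nat_lit 405) (nat_lit 373) (nat_lit 242)) (XT.nd (nat_lit 78) (nat_lit 304) (nat_lit 0) (XT.lf (nat_lit 0) (nat_lit 12256830688) (nat_lit 380) (nat_lit 33241584249) (nat_lit 76) (nat_lit 4626863766) (nat_lit 226) (nat_lit 5) (nat_lit 231) (nat_lit 5) (nat_lit 227) (nat_lit 5) (nat_lit 406) (nat_lit 373) (nat_lit 241)) (XT.lf (nat_lit 0) (nat_lit 17973966977) (nat_lit 304) (nat_lit 13856717686) (nat_lit 380) (nat_lit 19811476230) (nat_lit 222) (nat_lit 5) (nat_lit 226) (nat_lit 5)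 (nat_lit 227) (nat_lit 5) (nat_lit 407) (nat_lit 373) (nat_lit 240)))) (XT.nd (nat_lit 156) (nat_lit 608) (nat_lit 0) (XT.nd (nat_lit 78) (nat_lit 380) (nat_lit 0) (XT.lf (nat_lit 0) (nat_lit 19401447515) (nat_lit 228) (nat_lit 33694944882) (nat_lit 304) (nat_lit 117099963) (nat_lit 219) (nat_lit 5) (nat_lit 222) (nat_lit 5) (nat_lit 223) (nat_lit 5) (nat_lit 408) (nat_lit 373) (nat_lit 239)) (XT.lf (nat_lit 0) (nat_lit 20849701669) (nat_lit 380) (nat_lit 33801744990) (nat_lit 76) (nat_lit 185345753) (nat_lit 214) (nat_lit 5) (nat_lit 219) (nat_lit 5) (nat_lit 215) (nat_lit 5) (nat_lit 409) (nat_lit 373) (nat_lit 238))) (XT.nd (nat_lit 78) (nat_lit 380) (nat_lit 0) (XT.lf (nat_lit 0) (nat_lit 22894607440) (nat_lit 228) (nat_lit 20874686709) (nat_lit 304) (nat_lit 12744722359) (nat_lit 211) (nat_lit 5) (nat_lit 214) (nat_lit 5) (nat_lit 215) (nat_lit 5) (nat_lit 410) (nat_lit 373) (nat_lit 237))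 (XT.lf (nat_lit 0) (nat_lit 10109718215) (nat_lit 380) (nat_lit 33144241677) (nat_lit 76) (nat_lit 14996290111) (nat_lit 206) (nat_lit 5) (nat_lit 211) (nat_lit 5) (nat_lit 207) (nat_lit 5) (nat_lit 411) (nat_lit 373) (nat_lit 236))))) (XT.nd (nat_lit 234) (nat_lit 988) (nat_lit 0) (XT.nd (nat_lit 78) (nat_lit 532) (nat_lit 0) (XT.lf (nat_lit 0) (nat_lit 27595617176) (nat_lit 228) (nat_lit 7071011303) (nat_lit 304) (nat_lit 25378181290) (nat_lit 203) (nat_lit 5) (nat_lit 206) (nat_lit 5) (nat_lit 207) (nat_lit 5) (nat_lit 412) (nat_lit 373) (nat_lit 235)) (XT.nd (nat_lit 78) (nat_lit 304) (nat_lit 0) (XT.lf (nat_lit 0) (nat_lit 30432113123) (nat_lit 228) (nat_lit 30949136572) (nat_lit 304) (nat_lit 519951865) (nat_lit 200) (nat_lit 5) (nat_lit 203) (nat_lit 5) (nat_lit 204) (nat_lit 5) (nat_lit 413) (nat_lit 373) (nat_lit 234)) (XT.lf (nat_lit 0) (nat_lit 25884676012) (nat_lit 304) (nat_lit 30272817043)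 (nat_lit 76) (nat_lit 7661462781) (nat_lit 196) (nat_lit 5) (nat_lit 200) (nat_lit 5) (nat_lit 197) (nat_lit 5) (nat_lit 414) (nat_lit 373) (nat_lit 233)))) (XT.nd (nat_lit 156) (nat_lit 456) (nat_lit 0) (XT.nd (nat_lit 78) (nat_lit 304) (nat_lit 0) (XT.lf (nat_lit 0) (nat_lit 37041734018) (nat_lit 228) (nat_lit 17548493955) (nat_lit 304) (nat_lit 11212472030) (nat_lit 193) (nat_lit 5) (nat_lit 196) (nat_lit 5) (nat_lit 197) (nat_lit 5) (nat_lit 415) (nat_lit 373) (nat_lit 232)) (XT.lf (nat_lit 0) (nat_lit 17452039114) (nat_lit 304) (nat_lit 26980694696) (nat_lit 76) (nat_lit 23419979874) (nat_lit 189) (nat_lit 5) (nat_lit 193) (nat_lit 5) (nat_lit 190) (nat_lit 5) (nat_lit 416) (nat_lit 373) (nat_lit 231))) (XT.nd (nat_lit 78) (nat_lit 228) (nat_lit 0) (XT.lf (nat_lit 0) (nat_lit 45172703000) (nat_lit 228) (nat_lit 3053635107) (nat_lit 304) (nat_lit 21748305903) (nat_lit 186) (nat_lit 5) (nat_lit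 189) (nat_lit 5) (nat_lit 190) (nat_lit 5) (nat_lit 417) (nat_lit 373) (nat_lit 230)) (XT.lf (nat_lit 0) (nat_lit 9329636335) (nat_lit 228) (nat_lit 22381068493) (nat_lit 76) (nat_lit 40454892890) (nat_lit 183) (nat_lit 5) (nat_lit 186) (nat_lit 5) (nat_lit 184) (nat_lit 5) (nat_lit 418) (nat_lit 373) (nat_lit 229))))))) (XT.nd (nat_lit 1014) (nat_lit 760) (nat_lit 0) (XT.nd (nat_lit 468) (nat_lit 1292) (nat_lit 0) (XT.nd (nat_lit 234) (nat_lit 684) (nat_lit 0) (XT.nd (nat_lit 78) (nat_lit 456) (nat_lit 0) (XT.lf (nat_lit 0) (nat_lit 42450651588) (nat_lit 304) (nat_lit 19583281027) (nat_lit 76) (nat_lit 12397537678) (nat_lit 180) (nat_lit 5) (nat_lit 184) (nat_lit 5) (nat_lit 181) (nat_lit 5) (nat_lit 419) (nat_lit 373) (nat_lit 228)) (XT.nd (nat_lit 78) (nat_lit 228) (nat_lit 0) (XT.lf (nat_lit 0) (nat_lit 1550220440) (nat_lit 228) (nat_lit 16338279481) (nat_lit 76) (nat_lit 58887777955) (nat_lit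 177) (nat_lit 5) (nat_lit 180) (nat_lit 5) (nat_lit 178) (nat_lit 5) (nat_lit 420) (nat_lit 373) (nat_lit 227)) (XT.lf (nat_lit 0) (nat_lit 37227846720) (nat_lit 304) (nat_lit 12882787744) (nat_lit 76) (nat_lit 29084248694) (nat_lit 174) (nat_lit 5) (nat_lit 178) (nat_lit 5) (nat_lit 175) (nat_lit 5) (nat_lit 421) (nat_lit 373) (nat_lit 226)))) (XT.nd (nat_lit 78) (nat_lit 532) (nat_lit 0) (XT.lf (nat_lit 0) (nat_lit 72941841041) (nat_lit 152) (nat_lit 2795486079) (nat_lit 228) (nat_lit 5965652401) (nat_lit 172) (nat_lit 5) (nat_lit 174) (nat_lit 5) (nat_lit 175) (nat_lit 5) (nat_lit 422) (nat_lit 373) (nat_lit 225)) (XT.nd (nat_lit 78) (nat_lit 304) (nat_lit 0) (XT.lf (nat_lit 0) (nat_lit 32579021654) (nat_lit 228) (nat_lit 4516153678) (nat_lit 76) (nat_lit 47191191056) (nat_lit 169) (nat_lit 5) (nat_lit 172) (nat_lit 5) (nat_lit 170) (nat_lit 5) (nat_lit 423) (nat_lit 373) (nat_lit 224)) (XT.lf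 (nat_lit 0) (nat_lit 436516364) (nat_lit 152) (nat_lit 73584739804) (nat_lit 228) (nat_lit 12943083284) (nat_lit 165) (nat_lit 5) (nat_lit 167) (nat_lit 5) (nat_lit 168) (nat_lit 5) (nat_lit 424) (nat_lit 373) (nat_lit 223))))) (XT.nd (nat_lit 234) (nat_lit 684) (nat_lit 0) (XT.nd (nat_lit 78) (nat_lit 380) (nat_lit 0) (XT.lf (nat_lit 0) (nat_lit 5799248563) (nat_lit 152) (nat_lit 22816721333) (nat_lit 228) (nat_lit 61110288137) (nat_lit 162) (nat_lit 5) (nat_lit 164) (nat_lit 5) (nat_lit 165) (nat_lit 5) (nat_lit 425) (nat_lit 373) (nat_lit 222)) (XT.nd (nat_lit 78) (nat_lit 228) (nat_lit 0) (XT.lf (nat_lit 0) (nat_lit 11741774652) (nat_lit 152) (nat_lit 61548142918) (nat_lit 228) (nat_lit 19293371752) (nat_lit 160) (nat_lit 5) (nat_lit 162) (nat_lit 5) (nat_lit 163) (nat_lit 5) (nat_lit 426) (nat_lit 373) (nat_lit 221)) (XT.lf (nat_lit 0) (nat_lit 18265543498) (nat_lit 152) (nat_lit 7143620141)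 (nat_lit 228) (nat_lit 70128657622) (nat_lit 157) (nat_lit 5) (nat_lit 159) (nat_lit 5) (nat_lit 160) (nat_lit 5) (nat_lit 427) (nat_lit 373) (nat_lit 220)))) (XT.nd (nat_lit 156) (nat_lit 304) (nat_lit 0) (XT.nd (nat_lit 78) (nat_lit 228) (nat_lit 0) (XT.lf (nat_lit 0) (nat_lit 25204707238) (nat_lit 152) (nat_lit 48306756437) (nat_lit 228) (nat_lit 25075975784) (nat_lit 155) (nat_lit 5) (nat_lit 157) (nat_lit 5) (nat_lit 158) (nat_lit 5) (nat_lit 428) (nat_lit 373) (nat_lit 219)) (XT.lf (nat_lit 0) (nat_lit 23081311213) (nat_lit 228) (nat_lit 68844593763) (nat_lit 76) (nat_lit 9818650765) (nat_lit 152) (nat_lit 5) (nat_lit 155) (nat_lit 5) (nat_lit 153) (nat_lit 5) (nat_lit 429) (nat_lit 373) (nat_lit 218))) (XT.nd (nat_lit 78) (nat_lit 152) (nat_lit 0) (XT.lf (nat_lit 0) (nat_lit 41040414827) (nat_lit 152) (nat_lit 33734146152) (nat_lit 228) (nat_lit 30228117305) (nat_lit 150) (nat_lit 5) (nat_lit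 152) (nat_lit 5) (nat_lit 153) (nat_lit 5) (nat_lit 430) (nat_lit 373) (nat_lit 217)) (XT.lf (nat_lit 0) (nat_lit 21698588974) (nat_lit 152) (nat_lit 58433720936) (nat_lit 76) (nat_lit 28241277228) (nat_lit 148) (nat_lit 5) (nat_lit 150) (nat_lit 5) (nat_lit 149) (nat_lit 5) (nat_lit 431) (nat_lit 373) (nat_lit 216)))))) (XT.nd (nat_lit 48828) (nat_lit 0) (nat_lit 17176) (XT.nd (nat_lit 312) (nat_lit 304) (nat_lit 0) (XT.nd (nat_lit 78) (nat_lit 304) (nat_lit 0) (XT.lf (nat_lit 0) (nat_lit 59483578730) (nat_lit 152) (nat_lit 17692984440) (nat_lit 228) (nat_lit 34680096723) (nat_lit 146) (nat_lit 5) (nat_lit 148) (nat_lit 5) (nat_lit 149) (nat_lit 5) (nat_lit 432) (nat_lit 373) (nat_lit 215)) (XT.nd (nat_lit 78) (nat_lit 152) (nat_lit 0) (XT.lf (nat_lit 0) (nat_lit 21279940412) (nat_lit 152) (nat_lit 45755615242) (nat_lit 76) (nat_lit 48419967851) (nat_lit 144) (nat_lit 5) (nat_lit 146) (nat_lit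 5) (nat_lit 145) (nat_lit 5) (nat_lit 433) (nat_lit 373) (nat_lit 214)) (XT.lf (nat_lit 0) (nat_lit 80790090133) (nat_lit 152) (nat_lit 34150885) (nat_lit 228) (nat_lit 38354683283) (nat_lit 142) (nat_lit 5) (nat_lit 144) (nat_lit 5) (nat_lit 145) (nat_lit 5) (nat_lit 434) (nat_lit 373) (nat_lit 213)))) (XT.nd (nat_lit 48360) (nat_lit 0) (nat_lit 18012) (XT.nd (nat_lit 48282) (nat_lit 0) (nat_lit 17936) (XT.lf (nat_lit 0) (nat_lit 86021096883) (nat_lit 228) (nat_lit 21948741166) (nat_lit 76) (nat_lit 19025592111) (nat_lit 138) (nat_lit 5) (nat_lit 141) (nat_lit 5) (nat_lit 139) (nat_lit 4) (nat_lit 436) (nat_lit 373) (nat_lit 211)) (XT.lf (nat_lit 0) (nat_lit 5114294525) (nat_lit 1292) (nat_lit 2797002312) (nat_lit 1292) (nat_lit 2797002312) (nat_lit 374) (nat_lit 3) (nat_lit 391) (nat_lit 3) (nat_lit 391) (nat_lit 5) (nat_lit 374) (nat_lit 374) (nat_lit 272))) (XT.nd (nat_lit 78) (nat_lit 0) (nat_lit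 0) (XT.lf (nat_lit 0) (nat_lit 10856569707) (nat_lit 1216) (nat_lit 9461786670) (nat_lit 1292) (nat_lit 1622488903) (nat_lit 375) (nat_lit 5) (nat_lit 391) (nat_lit 5) (nat_lit 392) (nat_lit 5) (nat_lit 375) (nat_lit 374) (nat_lit 271)) (XT.lf (nat_lit 76) (nat_lit 9091769056) (nat_lit 0) (nat_lit 2714303492) (nat_lit 1292) (nat_lit 10676528366) (nat_lit 376) (nat_lit 5) (nat_lit 375) (nat_lit 5) (nat_lit 392) (nat_lit 5) (nat_lit 376) (nat_lit 374) (nat_lit 270))))) (XT.nd (nat_lit 234) (nat_lit 912) (nat_lit 0) (XT.nd (nat_lit 78) (nat_lit 0) (nat_lit 76) (XT.lf (nat_lit 76) (nat_lit 5671601401) (nat_lit 0) (nat_lit 7421495866) (nat_lit 1292) (nat_lit 9949645660) (nat_lit 377) (nat_lit 5) (nat_lit 376) (nat_lit 5) (nat_lit 393) (nat_lit 5) (nat_lit 377) (nat_lit 374) (nat_lit 269)) (XT.nd (nat_lit 78) (nat_lit 0) (nat_lit 76) (XT.lf (nat_lit 76) (nat_lit 2238946992) (nat_lit 0) (nat_lit 12487159046)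 (nat_lit 1292) (nat_lit 8896337020) (nat_lit 378) (nat_lit 5) (nat_lit 377) (nat_lit 5) (nat_lit 394) (nat_lit 5) (nat_lit 378) (nat_lit 374) (nat_lit 268)) (XT.lf (nat_lit 0) (nat_lit 16742339400) (nat_lit 1216) (nat_lit 1178246652) (nat_lit 1292) (nat_lit 6301494918) (nat_lit 378) (nat_lit 5) (nat_lit 394) (nat_lit 5) (nat_lit 395) (nat_lit 5) (nat_lit 379) (nat_lit 374) (nat_lit 267)))) (XT.nd (nat_lit 156) (nat_lit 1140) (nat_lit 0) (XT.nd (nat_lit 78) (nat_lit 0) (nat_lit 0) (XT.lf (nat_lit 0) (nat_lit 19178883108) (nat_lit 1216) (nat_lit 4554667176) (nat_lit 1292) (nat_lit 1108565533) (nat_lit 379) (nat_lit 5) (nat_lit 395) (nat_lit 5) (nat_lit 396) (nat_lit 5) (nat_lit 380) (nat_lit 374) (nat_lit 266)) (XT.lf (nat_lit 76) (nat_lit 17510118882) (nat_lit 0) (nat_lit 4576600371) (nat_lit 1292) (nat_lit 3395949196) (nat_lit 380) (nat_lit 5) (nat_lit 379) (nat_lit 5) (nat_lit 396) (nat_lit 5)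 (nat_lit 381) (nat_lit 374) (nat_lit 265))) (XT.nd (nat_lit 78) (nat_lit 1216) (nat_lit 0) (XT.lf (nat_lit 76) (nat_lit 14748499431) (nat_lit 0) (nat_lit 10718469832) (nat_lit 1292) (nat_lit 678468787) (nat_lit 381) (nat_lit 5) (nat_lit 380) (nat_lit 5) (nat_lit 397) (nat_lit 5) (nat_lit 382) (nat_lit 374) (nat_lit 264)) (XT.lf (nat_lit 0) (nat_lit 2460142648) (nat_lit 1292) (nat_lit 14834723482) (nat_lit 1368) (nat_lit 9536021906) (nat_lit 364) (nat_lit 5) (nat_lit 381) (nat_lit 5) (nat_lit 382) (nat_lit 5) (nat_lit 383) (nat_lit 374) (nat_lit 263))))))))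
noncomputable def xc99 : XT := (XT.nd (nat_lit 2106) (nat_lit 5624) (nat_lit 0) (XT.nd (nat_lit 1014) (nat_lit 5168) (nat_lit 0) (XT.nd (nat_lit 468) (nat_lit 3648) (nat_lit 0) (XT.nd (nat_lit 234) (nat_lit 1216) (nat_lit 0) (XT.nd (nat_lit 78) (nat_lit 1444) (nat_lit 0) (XT.lf (nat_lit 0) (nat_lit 6078593799) (nat_lit 1292) (nat_lit 18266166589) (nat_lit 76) (nat_lit 3195540381) (nat_lit 365) (nat_lit 5) (nat_lit 382) (nat_lit 5) (nat_lit 366) (nat_lit 5) (nat_lit 384) (nat_lit 374) (nat_lit 262)) (XT.nd (nat_lit 78) (nat_lit 608) (nat_lit 0) (XT.lf (nat_lit 0) (nat_lit 6560721727) (nat_lit 836) (nat_lit 3698887847) (nat_lit 912) (nat_lit 18014125301) (nat_lit 354) (nat_lit 5) (nat_lit 365) (nat_lit 5) (nat_lit 366) (nat_lit 5) (nat_lit 385) (nat_lit 374) (nat_lit 261)) (XT.lf (nat_lit 0) (nat_lit 3864069963) (nat_lit 608) (nat_lit 11175677431) (nat_lit 684) (nat_lit 13992391156) (nat_lit 346)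 (nat_lit 5) (nat_lit 354) (nat_lit 5) (nat_lit 355) (nat_lit 5) (nat_lit 386) (nat_lit 374) (nat_lit 260)))) (XT.nd (nat_lit 78) (nat_lit 608) (nat_lit 0) (XT.lf (nat_lit 0) (nat_lit 1225835062) (nat_lit 608) (nat_lit 19199888172) (nat_lit 684) (nat_lit 9391734241) (nat_lit 338) (nat_lit 5) (nat_lit 346) (nat_lit 5) (nat_lit 347) (nat_lit 5) (nat_lit 387) (nat_lit 374) (nat_lit 259)) (XT.nd (nat_lit 78) (nat_lit 608) (nat_lit 0) (XT.lf (nat_lit 0) (nat_lit 26470591789) (nat_lit 684) (nat_lit 1317597501) (nat_lit 76) (nat_lit 2842165239) (nat_lit 338) (nat_lit 5) (nat_lit 347) (nat_lit 5) (nat_lit 339) (nat_lit 5) (nat_lit 388) (nat_lit 374) (nat_lit 258)) (XT.lf (nat_lit 0) (nat_lit 1763279815) (nat_lit 608) (nat_lit 3830327982) (nat_lit 76) (nat_lit 25876239000) (nat_lit 330) (nat_lit 5) (nat_lit 338) (nat_lit 5) (nat_lit 331) (nat_lit 5) (nat_lit 389) (nat_lit 374) (nat_lit 257))))) (XT.nd (nat_lit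 234) (nat_lit 1976) (nat_lit 0) (XT.nd (nat_lit 78) (nat_lit 1064) (nat_lit 0) (XT.lf (nat_lit 0) (nat_lit 8327531566) (nat_lit 684) (nat_lit 6334367718) (nat_lit 76) (nat_lit 17675246202) (nat_lit 322) (nat_lit 5) (nat_lit 331) (nat_lit 5) (nat_lit 323) (nat_lit 5) (nat_lit 390) (nat_lit 374) (nat_lit 256)) (XT.nd (nat_lit 78) (nat_lit 532) (nat_lit 0) (XT.lf (nat_lit 0) (nat_lit 15631259110) (nat_lit 608) (nat_lit 8749845308) (nat_lit 76) (nat_lit 8854366795) (nat_lit 315) (nat_lit 5) (nat_lit 323) (nat_lit 5) (nat_lit 316) (nat_lit 5) (nat_lit 391) (nat_lit 374) (nat_lit 255)) (XT.lf (nat_lit 0) (nat_lit 23095683586) (nat_lit 532) (nat_lit 632582265) (nat_lit 608) (nat_lit 10437604591) (nat_lit 308) (nat_lit 5) (nat_lit 315) (nat_lit 5) (nat_lit 316) (nat_lit 5) (nat_lit 392) (nat_lit 374) (nat_lit 254)))) (XT.nd (nat_lit 156) (nat_lit 912) (nat_lit 0) (XT.nd (nat_lit 78) (nat_lit 608) (nat_lit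 0) (XT.lf (nat_lit 0) (nat_lit 21757743201) (nat_lit 456) (nat_lit 10998636113) (nat_lit 532) (nat_lit 2370622626) (nat_lit 302) (nat_lit 5) (nat_lit 308) (nat_lit 5) (nat_lit 309) (nat_lit 5) (nat_lit 393) (nat_lit 374) (nat_lit 253)) (XT.lf (nat_lit 0) (nat_lit 6431464468) (nat_lit 608) (nat_lit 15609036128) (nat_lit 76) (nat_lit 14080406895) (nat_lit 294) (nat_lit 5) (nat_lit 302) (nat_lit 5) (nat_lit 295) (nat_lit 5) (nat_lit 394) (nat_lit 374) (nat_lit 252))) (XT.nd (nat_lit 78) (nat_lit 456) (nat_lit 0) (XT.lf (nat_lit 0) (nat_lit 16087489744) (nat_lit 532) (nat_lit 17742748347) (nat_lit 76) (nat_lit 3319680224) (nat_lit 288) (nat_lit 5) (nat_lit 295) (nat_lit 5) (nat_lit 289) (nat_lit 5) (nat_lit 395) (nat_lit 374) (nat_lit 251)) (XT.lf (nat_lit 0) (nat_lit 18401469760) (nat_lit 456) (nat_lit 8379691975) (nat_lit 532) (nat_lit 11432572583) (nat_lit 282) (nat_lit 5) (nat_lit 288) (nat_lit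 5) (nat_lit 289) (nat_lit 5) (nat_lit 396) (nat_lit 374) (nat_lit 250)))))) (XT.nd (nat_lit 546) (nat_lit 2356) (nat_lit 0) (XT.nd (nat_lit 234) (nat_lit 1520) (nat_lit 0) (XT.nd (nat_lit 78) (nat_lit 912) (nat_lit 0) (XT.lf (nat_lit 0) (nat_lit 17554515068) (nat_lit 380) (nat_lit 20977985119) (nat_lit 456) (nat_lit 782551447) (nat_lit 277) (nat_lit 5) (nat_lit 282) (nat_lit 5) (nat_lit 283) (nat_lit 5) (nat_lit 397) (nat_lit 374) (nat_lit 249)) (XT.nd (nat_lit 78) (nat_lit 380) (nat_lit 0) (XT.lf (nat_lit 0) (nat_lit 10703277650) (nat_lit 532) (nat_lit 23642106780) (nat_lit 76) (nat_lit 6107863825) (nat_lit 270) (nat_lit 5) (nat_lit 277) (nat_lit 5) (nat_lit 271) (nat_lit 5) (nat_lit 398) (nat_lit 374) (nat_lit 248)) (XT.lf (nat_lit 0) (nat_lit 16210850498) (nat_lit 380) (nat_lit 7124138698) (nat_lit 456) (nat_lit 18295499811) (nat_lit 265) (nat_lit 5) (nat_lit 270) (nat_lit 5) (nat_lit 271) (nat_lit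 5) (nat_lit 399) (nat_lit 374) (nat_lit 247)))) (XT.nd (nat_lit 156) (nat_lit 684) (nat_lit 0) (XT.nd (nat_lit 78) (nat_lit 456) (nat_lit 0) (XT.lf (nat_lit 0) (nat_lit 15782453382) (nat_lit 380) (nat_lit 21413632692) (nat_lit 456) (nat_lit 5652571729) (nat_lit 260) (nat_lit 5) (nat_lit 265) (nat_lit 5) (nat_lit 266) (nat_lit 5) (nat_lit 400) (nat_lit 374) (nat_lit 246)) (XT.lf (nat_lit 0) (nat_lit 8027662195) (nat_lit 456) (nat_lit 28579912401) (nat_lit 76) (nat_lit 7501345220) (nat_lit 254) (nat_lit 5) (nat_lit 260) (nat_lit 5) (nat_lit 255) (nat_lit 5) (nat_lit 401) (nat_lit 374) (nat_lit 245))) (XT.nd (nat_lit 78) (nat_lit 304) (nat_lit 0) (XT.lf (nat_lit 0) (nat_lit 15412699324) (nat_lit 380) (nat_lit 7503432019) (nat_lit 456) (nat_lit 22495150785) (nat_lit 249) (nat_lit 5) (nat_lit 254) (nat_lit 5) (nat_lit 255) (nat_lit 5) (nat_lit 402) (nat_lit 374) (nat_lit 244)) (XT.lf (nat_lit 0) (nat_lit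 15502431329) (nat_lit 304) (nat_lit 23708900546) (nat_lit 380) (nat_lit 7547561441) (nat_lit 245) (nat_lit 5) (nat_lit 249) (nat_lit 5) (nat_lit 250) (nat_lit 5) (nat_lit 403) (nat_lit 374) (nat_lit 243))))) (XT.nd (nat_lit 234) (nat_lit 1292) (nat_lit 0) (XT.nd (nat_lit 78) (nat_lit 608) (nat_lit 0) (XT.lf (nat_lit 0) (nat_lit 8594180461) (nat_lit 456) (nat_lit 32340279402) (nat_lit 76) (nat_lit 7218902916) (nat_lit 239) (nat_lit 5) (nat_lit 245) (nat_lit 5) (nat_lit 240) (nat_lit 5) (nat_lit 404) (nat_lit 374) (nat_lit 242)) (XT.nd (nat_lit 78) (nat_lit 304) (nat_lit 0) (XT.lf (nat_lit 0) (nat_lit 16272671620) (nat_lit 304) (nat_lit 9831198064) (nat_lit 380) (nat_lit 23489935517) (nat_lit 235) (nat_lit 5) (nat_lit 239) (nat_lit 5) (nat_lit 240) (nat_lit 5) (nat_lit 405) (nat_lit 374) (nat_lit 241)) (XT.lf (nat_lit 0) (nat_lit 16997274258) (nat_lit 304) (nat_lit 28205788077) (nat_lit 380) (nat_lit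 5881786842) (nat_lit 231) (nat_lit 5) (nat_lit 235) (nat_lit 5) (nat_lit 236) (nat_lit 5) (nat_lit 406) (nat_lit 374) (nat_lit 240)))) (XT.nd (nat_lit 156) (nat_lit 608) (nat_lit 0) (XT.nd (nat_lit 78) (nat_lit 304) (nat_lit 0) (XT.lf (nat_lit 0) (nat_lit 13023001316) (nat_lit 380) (nat_lit 34668790771) (nat_lit 76) (nat_lit 4935150680) (nat_lit 226) (nat_lit 5) (nat_lit 231) (nat_lit 5) (nat_lit 227) (nat_lit 5) (nat_lit 407) (nat_lit 374) (nat_lit 239)) (XT.lf (nat_lit 0) (nat_lit 19100805438) (nat_lit 304) (nat_lit 14469634188) (nat_lit 380) (nat_lit 20649382690) (nat_lit 222) (nat_lit 5) (nat_lit 226) (nat_lit 5) (nat_lit 227) (nat_lit 5) (nat_lit 408) (nat_lit 374) (nat_lit 238))) (XT.nd (nat_lit 78) (nat_lit 304) (nat_lit 0) (XT.lf (nat_lit 0) (nat_lit 24929412) (nat_lit 304) (nat_lit 35273396261) (nat_lit 76) (nat_lit 20571512210) (nat_lit 218) (nat_lit 5) (nat_lit 222) (nat_lit 5) (nat_lit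 219) (nat_lit 5) (nat_lit 409) (nat_lit 374) (nat_lit 237)) (XT.lf (nat_lit 0) (nat_lit 22033650595) (nat_lit 380) (nat_lit 35266857408) (nat_lit 76) (nat_lit 273880115) (nat_lit 214) (nat_lit 5) (nat_lit 219) (nat_lit 5) (nat_lit 215) (nat_lit 5) (nat_lit 410) (nat_lit 374) (nat_lit 236))))))) (XT.nd (nat_lit 1014) (nat_lit 2432) (nat_lit 0) (XT.nd (nat_lit 468) (nat_lit 1596) (nat_lit 0) (XT.nd (nat_lit 234) (nat_lit 760) (nat_lit 0) (XT.nd (nat_lit 78) (nat_lit 608) (nat_lit 0) (XT.lf (nat_lit 0) (nat_lit 24257863785) (nat_lit 228) (nat_lit 21836723145) (nat_lit 304) (nat_lit 13241025560) (nat_lit 211) (nat_lit 5) (nat_lit 214) (nat_lit 5) (nat_lit 215) (nat_lit 5) (nat_lit 411) (nat_lit 374) (nat_lit 235)) (XT.nd (nat_lit 78) (nat_lit 228) (nat_lit 0) (XT.lf (nat_lit 0) (nat_lit 10749654034) (nat_lit 380) (nat_lit 34583291615) (nat_lit 76) (nat_lit 15825783357) (nat_lit 206) (nat_lit 5) (nat_lit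 211) (nat_lit 5) (nat_lit 207) (nat_lit 5) (nat_lit 412) (nat_lit 374) (nat_lit 234)) (XT.lf (nat_lit 0) (nat_lit 29187306607) (nat_lit 228) (nat_lit 7342737823) (nat_lit 304) (nat_lit 26513103292) (nat_lit 203) (nat_lit 5) (nat_lit 206) (nat_lit 5) (nat_lit 207) (nat_lit 5) (nat_lit 413) (nat_lit 374) (nat_lit 233)))) (XT.nd (nat_lit 78) (nat_lit 532) (nat_lit 0) (XT.lf (nat_lit 0) (nat_lit 32162579708) (nat_lit 228) (nat_lit 32414379284) (nat_lit 304) (nat_lit 415503242) (nat_lit 200) (nat_lit 5) (nat_lit 203) (nat_lit 5) (nat_lit 204) (nat_lit 5) (nat_lit 414) (nat_lit 374) (nat_lit 232)) (XT.nd (nat_lit 78) (nat_lit 228) (nat_lit 0) (XT.lf (nat_lit 0) (nat_lit 27303477986) (nat_lit 304) (nat_lit 31578181915) (nat_lit 76) (nat_lit 8124506682) (nat_lit 196) (nat_lit 5) (nat_lit 200) (nat_lit 5) (nat_lit 197) (nat_lit 5) (nat_lit 415) (nat_lit 374) (nat_lit 231)) (XT.lf (nat_lit 0) (nat_lit 39096126509)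 (nat_lit 228) (nat_lit 18344193904) (nat_lit 304) (nat_lit 11648897158) (nat_lit 193) (nat_lit 5) (nat_lit 196) (nat_lit 5) (nat_lit 197) (nat_lit 5) (nat_lit 416) (nat_lit 374) (nat_lit 230))))) (XT.nd (nat_lit 234) (nat_lit 836) (nat_lit 0) (XT.nd (nat_lit 78) (nat_lit 456) (nat_lit 0) (XT.lf (nat_lit 0) (nat_lit 18443307114) (nat_lit 304) (nat_lit 28128110339) (nat_lit 76) (nat_lit 24670371934) (nat_lit 189) (nat_lit 5) (nat_lit 193) (nat_lit 5) (nat_lit 190) (nat_lit 5) (nat_lit 417) (nat_lit 374) (nat_lit 229)) (XT.nd (nat_lit 78) (nat_lit 228) (nat_lit 0) (XT.lf (nat_lit 0) (nat_lit 47627177871) (nat_lit 228) (nat_lit 3125374952) (nat_lit 304) (nat_lit 22717376452) (nat_lit 186) (nat_lit 5) (nat_lit 189) (nat_lit 5) (nat_lit 190) (nat_lit 5) (nat_lit 418) (nat_lit 374) (nat_lit 228)) (XT.lf (nat_lit 0) (nat_lit 9909248258) (nat_lit 228) (nat_lit 23305052024) (nat_lit 76) (nat_lit 42556183419)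 (nat_lit 183) (nat_lit 5) (nat_lit 186) (nat_lit 5) (nat_lit 184) (nat_lit 5) (nat_lit 419) (nat_lit 374) (nat_lit 227)))) (XT.nd (nat_lit 156) (nat_lit 380) (nat_lit 0) (XT.nd (nat_lit 78) (nat_lit 228) (nat_lit 0) (XT.lf (nat_lit 0) (nat_lit 44683516688) (nat_lit 304) (nat_lit 20370448075) (nat_lit 76) (nat_lit 13095769069) (nat_lit 180) (nat_lit 5) (nat_lit 184) (nat_lit 5) (nat_lit 181) (nat_lit 5) (nat_lit 420) (nat_lit 374) (nat_lit 226)) (XT.lf (nat_lit 0) (nat_lit 1735660874) (nat_lit 228) (nat_lit 16966552000) (nat_lit 76) (nat_lit 61909641014) (nat_lit 177) (nat_lit 5) (nat_lit 180) (nat_lit 5) (nat_lit 178) (nat_lit 5) (nat_lit 421) (nat_lit 374) (nat_lit 225))) (XT.nd (nat_lit 78) (nat_lit 152) (nat_lit 0) (XT.lf (nat_lit 0) (nat_lit 39194546678) (nat_lit 304) (nat_lit 13341312855) (nat_lit 76) (nat_lit 30615608555) (nat_lit 174) (nat_lit 5) (nat_lit 178) (nat_lit 5) (nat_lit 175) (nat_lit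 5) (nat_lit 422) (nat_lit 374) (nat_lit 224)) (XT.lf (nat_lit 0) (nat_lit 76769226773) (nat_lit 152) (nat_lit 2856992769) (nat_lit 228) (nat_lit 6158848173) (nat_lit 172) (nat_lit 5) (nat_lit 174) (nat_lit 5) (nat_lit 175) (nat_lit 5) (nat_lit 423) (nat_lit 374) (nat_lit 223)))))) (XT.nd (nat_lit 546) (nat_lit 912) (nat_lit 0) (XT.nd (nat_lit 234) (nat_lit 760) (nat_lit 0) (XT.nd (nat_lit 78) (nat_lit 532) (nat_lit 0) (XT.lf (nat_lit 0) (nat_lit 34308547948) (nat_lit 228) (nat_lit 4562591865) (nat_lit 76) (nat_lit 49626527638) (nat_lit 169) (nat_lit 5) (nat_lit 172) (nat_lit 5) (nat_lit 170) (nat_lit 5) (nat_lit 424) (nat_lit 374) (nat_lit 222)) (XT.nd (nat_lit 78) (nat_lit 228) (nat_lit 0) (XT.lf (nat_lit 0) (nat_lit 638266957) (nat_lit 152) (nat_lit 77183980201) (nat_lit 228) (nat_lit 13487311422) (nat_lit 165) (nat_lit 5) (nat_lit 167) (nat_lit 5) (nat_lit 168) (nat_lit 5) (nat_lit 425) (nat_lit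 374) (nat_lit 221)) (XT.lf (nat_lit 0) (nat_lit 6265929143) (nat_lit 152) (nat_lit 23878649941) (nat_lit 228) (nat_lit 64065057529) (nat_lit 162) (nat_lit 5) (nat_lit 164) (nat_lit 5) (nat_lit 165) (nat_lit 5) (nat_lit 426) (nat_lit 374) (nat_lit 220)))) (XT.nd (nat_lit 156) (nat_lit 380) (nat_lit 0) (XT.nd (nat_lit 78) (nat_lit 228) (nat_lit 0) (XT.lf (nat_lit 0) (nat_lit 12502629392) (nat_lit 152) (nat_lit 64547329831) (nat_lit 228) (nat_lit 20159628192) (nat_lit 160) (nat_lit 5) (nat_lit 162) (nat_lit 5) (nat_lit 163) (nat_lit 5) (nat_lit 427) (nat_lit 374) (nat_lit 219)) (XT.lf (nat_lit 0) (nat_lit 19349471040) (nat_lit 152) (nat_lit 7423688102) (nat_lit 228) (nat_lit 73538747062) (nat_lit 157) (nat_lit 5) (nat_lit 159) (nat_lit 5) (nat_lit 160) (nat_lit 5) (nat_lit 428) (nat_lit 374) (nat_lit 218))) (XT.nd (nat_lit 78) (nat_lit 228) (nat_lit 0) (XT.lf (nat_lit 0) (nat_lit 26632706982) (nat_lit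 152) (nat_lit 50645731653) (nat_lit 228) (nat_lit 26235630744) (nat_lit 155) (nat_lit 5) (nat_lit 157) (nat_lit 5) (nat_lit 158) (nat_lit 5) (nat_lit 429) (nat_lit 374) (nat_lit 217)) (XT.lf (nat_lit 0) (nat_lit 24325594841) (nat_lit 228) (nat_lit 72120122035) (nat_lit 76) (nat_lit 10383360110) (nat_lit 152) (nat_lit 5) (nat_lit 155) (nat_lit 5) (nat_lit 153) (nat_lit 5) (nat_lit 430) (nat_lit 374) (nat_lit 216))))) (XT.nd (nat_lit 234) (nat_lit 456) (nat_lit 0) (XT.nd (nat_lit 78) (nat_lit 304) (nat_lit 0) (XT.lf (nat_lit 0) (nat_lit 43254358522) (nat_lit 152) (nat_lit 35346408978) (nat_lit 228) (nat_lit 31649420344) (nat_lit 150) (nat_lit 5) (nat_lit 152) (nat_lit 5) (nat_lit 153) (nat_lit 5) (nat_lit 431) (nat_lit 374) (nat_lit 215)) (XT.nd (nat_lit 78) (nat_lit 152) (nat_lit 0) (XT.lf (nat_lit 0) (nat_lit 22869889264) (nat_lit 152) (nat_lit 61194552535) (nat_lit 76) (nat_lit 29725233572) (nat_lit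 148) (nat_lit 5) (nat_lit 150) (nat_lit 5) (nat_lit 149) (nat_lit 5) (nat_lit 432) (nat_lit 374) (nat_lit 214)) (XT.lf (nat_lit 0) (nat_lit 62614001254) (nat_lit 152) (nat_lit 18505149927) (nat_lit 228) (nat_lit 36327828912) (nat_lit 146) (nat_lit 5) (nat_lit 148) (nat_lit 5) (nat_lit 149) (nat_lit 5) (nat_lit 433) (nat_lit 374) (nat_lit 213)))) (XT.nd (nat_lit 48516) (nat_lit 0) (nat_lit 17784) (XT.nd (nat_lit 156) (nat_lit 304) (nat_lit 0) (XT.lf (nat_lit 0) (nat_lit 22426659110) (nat_lit 152) (nat_lit 47888220803) (nat_lit 76) (nat_lit 50910938117) (nat_lit 144) (nat_lit 5) (nat_lit 146) (nat_lit 5) (nat_lit 145) (nat_lit 5) (nat_lit 434) (nat_lit 374) (nat_lit 212)) (XT.lf (nat_lit 0) (nat_lit 23097133153) (nat_lit 152) (nat_lit 31953960153) (nat_lit 76) (nat_lit 74118430785) (nat_lit 140) (nat_lit 5) (nat_lit 142) (nat_lit 5) (nat_lit 141) (nat_lit 5) (nat_lit 436) (nat_lit 374) (nat_lit 210)))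 (XT.nd (nat_lit 78) (nat_lit 0) (nat_lit 76) (XT.lf (nat_lit 0) (nat_lit 5602566137) (nat_lit 1292) (nat_lit 2817085631) (nat_lit 1292) (nat_lit 2817085631) (nat_lit 374) (nat_lit 3) (nat_lit 391) (nat_lit 3) (nat_lit 391) (nat_lit 5) (nat_lit 375) (nat_lit 375) (nat_lit 270)) (XT.lf (nat_lit 0) (nat_lit 11842557218) (nat_lit 1216) (nat_lit 9686809519) (nat_lit 1292) (nat_lit 1495226036) (nat_lit 375) (nat_lit 5) (nat_lit 391) (nat_lit 5) (nat_lit 392) (nat_lit 5) (nat_lit 376) (nat_lit 375) (nat_lit 269))))))))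
noncomputable def xc100 : XT := (XT.nd (nat_lit 2028) (nat_lit 7372) (nat_lit 0) (XT.nd (nat_lit 1014) (nat_lit 6384) (nat_lit 0) (XT.nd (nat_lit 468) (nat_lit 2812) (nat_lit 0) (XT.nd (nat_lit 234) (nat_lit 0) (nat_lit 228) (XT.nd (nat_lit 78) (nat_lit 0) (nat_lit 76) (XT.lf (nat_lit 76) (nat_lit 9787313217) (nat_lit 0) (nat_lit 3033435387) (nat_lit 1292) (nat_lit 10773251183) (nat_lit 376) (nat_lit 5) (nat_lit 375) (nat_lit 5) (nat_lit 392) (nat_lit 5) (nat_lit 377) (nat_lit 375) (nat_lit 268)) (XT.nd (nat_lit 78) (nat_lit 0) (nat_lit 76) (XT.lf (nat_lit 76) (nat_lit 6203309044) (nat_lit 0) (nat_lit 7949313304) (nat_lit 1292) (nat_lit 10030111620) (nat_lit 377) (nat_lit 5) (nat_lit 376) (nat_lit 5) (nat_lit 393) (nat_lit 5) (nat_lit 378) (nat_lit 375) (nat_lit 267)) (XT.lf (nat_lit 76) (nat_lit 2605170844) (nat_lit 0) (nat_lit 13243840481) (nat_lit 1292) (nat_lit 8942955886) (nat_lit 378) (nat_lit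 5) (nat_lit 377) (nat_lit 5) (nat_lit 394) (nat_lit 5) (nat_lit 379) (nat_lit 375) (nat_lit 266)))) (XT.nd (nat_lit 78) (nat_lit 0) (nat_lit 76) (XT.lf (nat_lit 0) (nat_lit 17946435428) (nat_lit 1216) (nat_lit 982733769) (nat_lit 1292) (nat_lit 6493006450) (nat_lit 378) (nat_lit 5) (nat_lit 394) (nat_lit 5) (nat_lit 395) (nat_lit 5) (nat_lit 380) (nat_lit 375) (nat_lit 265)) (XT.nd (nat_lit 78) (nat_lit 0) (nat_lit 0) (XT.lf (nat_lit 0) (nat_lit 20488699819) (nat_lit 1216) (nat_lit 4523705088) (nat_lit 1292) (nat_lit 1061290524) (nat_lit 379) (nat_lit 5) (nat_lit 395) (nat_lit 5) (nat_lit 396) (nat_lit 5) (nat_lit 381) (nat_lit 375) (nat_lit 264)) (XT.lf (nat_lit 76) (nat_lit 18636904820) (nat_lit 0) (nat_lit 4890730191) (nat_lit 1292) (nat_lit 3219069466) (nat_lit 380) (nat_lit 5) (nat_lit 379) (nat_lit 5) (nat_lit 396) (nat_lit 5) (nat_lit 382) (nat_lit 375) (nat_lit 263))))) (XT.nd (nat_lit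 234) (nat_lit 1976) (nat_lit 0) (XT.nd (nat_lit 78) (nat_lit 1216) (nat_lit 0) (XT.lf (nat_lit 76) (nat_lit 15740605910) (nat_lit 0) (nat_lit 11321931248) (nat_lit 1292) (nat_lit 380506212) (nat_lit 381) (nat_lit 5) (nat_lit 380) (nat_lit 5) (nat_lit 397) (nat_lit 5) (nat_lit 383) (nat_lit 375) (nat_lit 262)) (XT.nd (nat_lit 78) (nat_lit 0) (nat_lit 76) (XT.lf (nat_lit 0) (nat_lit 2894938176) (nat_lit 1292) (nat_lit 15312853245) (nat_lit 1368) (nat_lit 9955287365) (nat_lit 364) (nat_lit 5) (nat_lit 381) (nat_lit 5) (nat_lit 382) (nat_lit 5) (nat_lit 384) (nat_lit 375) (nat_lit 261)) (XT.lf (nat_lit 0) (nat_lit 6681509399) (nat_lit 1292) (nat_lit 18914025922) (nat_lit 76) (nat_lit 3312810910) (nat_lit 365) (nat_lit 5) (nat_lit 382) (nat_lit 5) (nat_lit 366) (nat_lit 5) (nat_lit 385) (nat_lit 375) (nat_lit 260)))) (XT.nd (nat_lit 156) (nat_lit 608) (nat_lit 0) (XT.nd (nat_lit 78) (nat_lit 608) (nat_lit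 0) (XT.lf (nat_lit 0) (nat_lit 7146597768) (nat_lit 836) (nat_lit 3913219287) (nat_lit 912) (nat_lit 18618987755) (nat_lit 354) (nat_lit 5) (nat_lit 365) (nat_lit 5) (nat_lit 366) (nat_lit 5) (nat_lit 386) (nat_lit 375) (nat_lit 259)) (XT.lf (nat_lit 0) (nat_lit 4316366685) (nat_lit 608) (nat_lit 11751139132) (nat_lit 684) (nat_lit 14407966530) (nat_lit 346) (nat_lit 5) (nat_lit 354) (nat_lit 5) (nat_lit 355) (nat_lit 5) (nat_lit 387) (nat_lit 375) (nat_lit 258))) (XT.nd (nat_lit 78) (nat_lit 0) (nat_lit 0) (XT.lf (nat_lit 0) (nat_lit 1546984890) (nat_lit 608) (nat_lit 20165008836) (nat_lit 684) (nat_lit 9588387094) (nat_lit 338) (nat_lit 5) (nat_lit 346) (nat_lit 5) (nat_lit 347) (nat_lit 5) (nat_lit 388) (nat_lit 375) (nat_lit 257)) (XT.lf (nat_lit 0) (nat_lit 28046440476) (nat_lit 684) (nat_lit 1128375585) (nat_lit 76) (nat_lit 2979486621) (nat_lit 338) (nat_lit 5) (nat_lit 347) (nat_lit 5)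 (nat_lit 339) (nat_lit 5) (nat_lit 389) (nat_lit 375) (nat_lit 256)))))) (XT.nd (nat_lit 468) (nat_lit 3040) (nat_lit 0) (XT.nd (nat_lit 234) (nat_lit 1596) (nat_lit 0) (XT.nd (nat_lit 78) (nat_lit 1140) (nat_lit 0) (XT.lf (nat_lit 0) (nat_lit 2096532441) (nat_lit 608) (nat_lit 3769177287) (nat_lit 76) (nat_lit 27170276750) (nat_lit 330) (nat_lit 5) (nat_lit 338) (nat_lit 5) (nat_lit 331) (nat_lit 5) (nat_lit 390) (nat_lit 375) (nat_lit 255)) (XT.nd (nat_lit 78) (nat_lit 532) (nat_lit 0) (XT.lf (nat_lit 0) (nat_lit 8979777800) (nat_lit 684) (nat_lit 6398681092) (nat_lit 76) (nat_lit 18568467778) (nat_lit 322) (nat_lit 5) (nat_lit 331) (nat_lit 5) (nat_lit 323) (nat_lit 5) (nat_lit 391) (nat_lit 375) (nat_lit 254)) (XT.lf (nat_lit 0) (nat_lit 16639991269) (nat_lit 608) (nat_lit 8935532579) (nat_lit 76) (nat_lit 9314905850) (nat_lit 315) (nat_lit 5) (nat_lit 323) (nat_lit 5) (nat_lit 316) (nat_lit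 5) (nat_lit 392) (nat_lit 375) (nat_lit 253)))) (XT.nd (nat_lit 78) (nat_lit 1064) (nat_lit 0) (XT.lf (nat_lit 0) (nat_lit 24495054820) (nat_lit 532) (nat_lit 638327066) (nat_lit 608) (nat_lit 10734220996) (nat_lit 308) (nat_lit 5) (nat_lit 315) (nat_lit 5) (nat_lit 316) (nat_lit 5) (nat_lit 393) (nat_lit 375) (nat_lit 252)) (XT.nd (nat_lit 78) (nat_lit 608) (nat_lit 0) (XT.lf (nat_lit 0) (nat_lit 23089337704) (nat_lit 456) (nat_lit 11515728534) (nat_lit 532) (nat_lit 2271959761) (nat_lit 302) (nat_lit 5) (nat_lit 308) (nat_lit 5) (nat_lit 309) (nat_lit 5) (nat_lit 394) (nat_lit 375) (nat_lit 251)) (XT.lf (nat_lit 0) (nat_lit 6958511034) (nat_lit 608) (nat_lit 16142839011) (nat_lit 76) (nat_lit 14819438621) (nat_lit 294) (nat_lit 5) (nat_lit 302) (nat_lit 5) (nat_lit 295) (nat_lit 5) (nat_lit 395) (nat_lit 375) (nat_lit 250))))) (XT.nd (nat_lit 234) (nat_lit 1748) (nat_lit 0) (XT.nd (nat_lit 78)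 (nat_lit 836) (nat_lit 0) (XT.lf (nat_lit 0) (nat_lit 17090255866) (nat_lit 532) (nat_lit 18384766985) (nat_lit 76) (nat_lit 3526439631) (nat_lit 288) (nat_lit 5) (nat_lit 295) (nat_lit 5) (nat_lit 289) (nat_lit 5) (nat_lit 396) (nat_lit 375) (nat_lit 249)) (XT.nd (nat_lit 78) (nat_lit 380) (nat_lit 0) (XT.lf (nat_lit 0) (nat_lit 19559635747) (nat_lit 456) (nat_lit 8751817179) (nat_lit 532) (nat_lit 11807231115) (nat_lit 282) (nat_lit 5) (nat_lit 288) (nat_lit 5) (nat_lit 289) (nat_lit 5) (nat_lit 397) (nat_lit 375) (nat_lit 248)) (XT.lf (nat_lit 0) (nat_lit 18668643460) (nat_lit 380) (nat_lit 21975309940) (nat_lit 456) (nat_lit 631305969) (nat_lit 277) (nat_lit 5) (nat_lit 282) (nat_lit 5) (nat_lit 283) (nat_lit 5) (nat_lit 398) (nat_lit 375) (nat_lit 247)))) (XT.nd (nat_lit 156) (nat_lit 836) (nat_lit 0) (XT.nd (nat_lit 78) (nat_lit 380) (nat_lit 0) (XT.lf (nat_lit 0) (nat_lit 11418964838) (nat_lit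 532) (nat_lit 24586088797) (nat_lit 76) (nat_lit 6465441334) (nat_lit 270) (nat_lit 5) (nat_lit 277) (nat_lit 5) (nat_lit 271) (nat_lit 5) (nat_lit 399) (nat_lit 375) (nat_lit 246)) (XT.lf (nat_lit 0) (nat_lit 17252690588) (nat_lit 380) (nat_lit 7423198399) (nat_lit 456) (nat_lit 19030899960) (nat_lit 265) (nat_lit 5) (nat_lit 270) (nat_lit 5) (nat_lit 271) (nat_lit 5) (nat_lit 400) (nat_lit 375) (nat_lit 245))) (XT.nd (nat_lit 78) (nat_lit 456) (nat_lit 0) (XT.lf (nat_lit 0) (nat_lit 16800784681) (nat_lit 380) (nat_lit 22423689624) (nat_lit 456) (nat_lit 5761558870) (nat_lit 260) (nat_lit 5) (nat_lit 265) (nat_lit 5) (nat_lit 266) (nat_lit 5) (nat_lit 401) (nat_lit 375) (nat_lit 244)) (XT.lf (nat_lit 0) (nat_lit 8593955118) (nat_lit 456) (nat_lit 29778641094) (nat_lit 76) (nat_lit 7936822301) (nat_lit 254) (nat_lit 5) (nat_lit 260) (nat_lit 5) (nat_lit 255) (nat_lit 5) (nat_lit 402) (nat_lit 375)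 (nat_lit 243))))))) (XT.nd (nat_lit 1014) (nat_lit 3268) (nat_lit 0) (XT.nd (nat_lit 468) (nat_lit 1976) (nat_lit 0) (XT.nd (nat_lit 234) (nat_lit 988) (nat_lit 0) (XT.nd (nat_lit 78) (nat_lit 760) (nat_lit 0) (XT.lf (nat_lit 0) (nat_lit 16407000662) (nat_lit 380) (nat_lit 7814144230) (nat_lit 456) (nat_lit 23455925132) (nat_lit 249) (nat_lit 5) (nat_lit 254) (nat_lit 5) (nat_lit 255) (nat_lit 5) (nat_lit 403) (nat_lit 375) (nat_lit 242)) (XT.nd (nat_lit 78) (nat_lit 456) (nat_lit 0) (XT.lf (nat_lit 0) (nat_lit 16498845354) (nat_lit 304) (nat_lit 24827396128) (nat_lit 380) (nat_lit 7765966209) (nat_lit 245) (nat_lit 5) (nat_lit 249) (nat_lit 5) (nat_lit 250) (nat_lit 5) (nat_lit 404) (nat_lit 375) (nat_lit 241)) (XT.lf (nat_lit 0) (nat_lit 9175081465) (nat_lit 456) (nat_lit 33735462747) (nat_lit 76) (nat_lit 7645950945) (nat_lit 239) (nat_lit 5) (nat_lit 245) (nat_lit 5) (nat_lit 240) (nat_lit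 5) (nat_lit 405) (nat_lit 375) (nat_lit 240)))) (XT.nd (nat_lit 78) (nat_lit 684) (nat_lit 0) (XT.lf (nat_lit 0) (nat_lit 17301777095) (nat_lit 304) (nat_lit 10253349684) (nat_lit 380) (nat_lit 24513986774) (nat_lit 235) (nat_lit 5) (nat_lit 239) (nat_lit 5) (nat_lit 240) (nat_lit 5) (nat_lit 406) (nat_lit 375) (nat_lit 239)) (XT.nd (nat_lit 78) (nat_lit 380) (nat_lit 0) (XT.lf (nat_lit 0) (nat_lit 18060041639) (nat_lit 304) (nat_lit 29544963998) (nat_lit 380) (nat_lit 6029832294) (nat_lit 231) (nat_lit 5) (nat_lit 235) (nat_lit 5) (nat_lit 236) (nat_lit 5) (nat_lit 407) (nat_lit 375) (nat_lit 238)) (XT.lf (nat_lit 0) (nat_lit 13813225388) (nat_lit 380) (nat_lit 36189193854) (nat_lit 76) (nat_lit 5251698442) (nat_lit 226) (nat_lit 5) (nat_lit 231) (nat_lit 5) (nat_lit 227) (nat_lit 5) (nat_lit 408) (nat_lit 375) (nat_lit 237))))) (XT.nd (nat_lit 234) (nat_lit 1064) (nat_lit 0) (XT.nd (nat_lit 78)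 (nat_lit 608) (nat_lit 0) (XT.lf (nat_lit 0) (nat_lit 20262775518) (nat_lit 304) (nat_lit 15120626661) (nat_lit 380) (nat_lit 21543378037) (nat_lit 222) (nat_lit 5) (nat_lit 226) (nat_lit 5) (nat_lit 227) (nat_lit 5) (nat_lit 409) (nat_lit 375) (nat_lit 236)) (XT.nd (nat_lit 78) (nat_lit 304) (nat_lit 0) (XT.lf (nat_lit 0) (nat_lit 158135140) (nat_lit 304) (nat_lit 36830200851) (nat_lit 76) (nat_lit 21671035009) (nat_lit 218) (nat_lit 5) (nat_lit 222) (nat_lit 5) (nat_lit 219) (nat_lit 5) (nat_lit 410) (nat_lit 375) (nat_lit 235)) (XT.lf (nat_lit 0) (nat_lit 23263645001) (nat_lit 380) (nat_lit 36826141473) (nat_lit 76) (nat_lit 359471694) (nat_lit 214) (nat_lit 5) (nat_lit 219) (nat_lit 5) (nat_lit 215) (nat_lit 5) (nat_lit 411) (nat_lit 375) (nat_lit 234)))) (XT.nd (nat_lit 156) (nat_lit 456) (nat_lit 0) (XT.nd (nat_lit 78) (nat_lit 380) (nat_lit 0) (XT.lf (nat_lit 0) (nat_lit 25668966474) (nat_lit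 228) (nat_lit 22854456900) (nat_lit 304) (nat_lit 13775246529) (nat_lit 211) (nat_lit 5) (nat_lit 214) (nat_lit 5) (nat_lit 215) (nat_lit 5) (nat_lit 412) (nat_lit 375) (nat_lit 233)) (XT.lf (nat_lit 0) (nat_lit 11409086765) (nat_lit 380) (nat_lit 36114576698) (nat_lit 76) (nat_lit 16689343492) (nat_lit 206) (nat_lit 5) (nat_lit 211) (nat_lit 5) (nat_lit 207) (nat_lit 5) (nat_lit 413) (nat_lit 375) (nat_lit 232))) (XT.nd (nat_lit 78) (nat_lit 228) (nat_lit 0) (XT.lf (nat_lit 0) (nat_lit 30838879259) (nat_lit 228) (nat_lit 7635657892) (nat_lit 304) (nat_lit 27717228241) (nat_lit 203) (nat_lit 5) (nat_lit 206) (nat_lit 5) (nat_lit 207) (nat_lit 5) (nat_lit 414) (nat_lit 375) (nat_lit 231)) (XT.lf (nat_lit 0) (nat_lit 33960151713) (nat_lit 228) (nat_lit 33960527621) (nat_lit 304) (nat_lit 317959839) (nat_lit 200) (nat_lit 5) (nat_lit 203) (nat_lit 5) (nat_lit 204) (nat_lit 5) (nat_lit 415) (nat_lit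 375) (nat_lit 230)))))) (XT.nd (nat_lit 546) (nat_lit 1520) (nat_lit 0) (XT.nd (nat_lit 234) (nat_lit 912) (nat_lit 0) (XT.nd (nat_lit 78) (nat_lit 532) (nat_lit 0) (XT.lf (nat_lit 0) (nat_lit 28781638890) (nat_lit 304) (nat_lit 32968178558) (nat_lit 76) (nat_lit 8603267854) (nat_lit 196) (nat_lit 5) (nat_lit 200) (nat_lit 5) (nat_lit 197) (nat_lit 5) (nat_lit 416) (nat_lit 375) (nat_lit 229)) (XT.nd (nat_lit 78) (nat_lit 304) (nat_lit 0) (XT.lf (nat_lit 0) (nat_lit 41234430150) (nat_lit 228) (nat_lit 19187276843) (nat_lit 304) (nat_lit 12118690340) (nat_lit 193) (nat_lit 5) (nat_lit 196) (nat_lit 5) (nat_lit 197) (nat_lit 5) (nat_lit 417) (nat_lit 375) (nat_lit 228)) (XT.lf (nat_lit 0) (nat_lit 19473106069) (nat_lit 304) (nat_lit 29351641397) (nat_lit 76) (nat_lit 25975902382) (nat_lit 189) (nat_lit 5) (nat_lit 193) (nat_lit 5) (nat_lit 190) (nat_lit 5) (nat_lit 418) (nat_lit 375) (nat_lit 227))))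 (XT.nd (nat_lit 156) (nat_lit 456) (nat_lit 0) (XT.nd (nat_lit 78) (nat_lit 228) (nat_lit 0) (XT.lf (nat_lit 0) (nat_lit 50186169164) (nat_lit 228) (nat_lit 3208227002) (nat_lit 304) (nat_lit 23745903102) (nat_lit 186) (nat_lit 5) (nat_lit 189) (nat_lit 5) (nat_lit 190) (nat_lit 5) (nat_lit 419) (nat_lit 375) (nat_lit 226)) (XT.lf (nat_lit 0) (nat_lit 10507323012) (nat_lit 228) (nat_lit 24293370481) (nat_lit 76) (nat_lit 44755236023) (nat_lit 183) (nat_lit 5) (nat_lit 186) (nat_lit 5) (nat_lit 184) (nat_lit 5) (nat_lit 420) (nat_lit 375) (nat_lit 225))) (XT.nd (nat_lit 78) (nat_lit 228) (nat_lit 0) (XT.lf (nat_lit 0) (nat_lit 47017767371) (nat_lit 304) (nat_lit 21214823537) (nat_lit 76) (nat_lit 13821627370) (nat_lit 180) (nat_lit 5) (nat_lit 184) (nat_lit 5) (nat_lit 181) (nat_lit 5) (nat_lit 421) (nat_lit 375) (nat_lit 224)) (XT.lf (nat_lit 0) (nat_lit 1920339076) (nat_lit 228) (nat_lit 17643776240)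 (nat_lit 76) (nat_lit 65075394412) (nat_lit 177) (nat_lit 5) (nat_lit 180) (nat_lit 5) (nat_lit 178) (nat_lit 5) (nat_lit 422) (nat_lit 375) (nat_lit 223))))) (XT.nd (nat_lit 234) (nat_lit 912) (nat_lit 0) (XT.nd (nat_lit 78) (nat_lit 380) (nat_lit 0) (XT.lf (nat_lit 0) (nat_lit 41249791128) (nat_lit 304) (nat_lit 13840020878) (nat_lit 76) (nat_lit 32216363973) (nat_lit 174) (nat_lit 5) (nat_lit 178) (nat_lit 5) (nat_lit 175) (nat_lit 5) (nat_lit 423) (nat_lit 375) (nat_lit 222)) (XT.nd (nat_lit 78) (nat_lit 228) (nat_lit 0) (XT.lf (nat_lit 0) (nat_lit 80771219794) (nat_lit 152) (nat_lit 2928851374) (nat_lit 228) (nat_lit 6371473713) (nat_lit 172) (nat_lit 5) (nat_lit 174) (nat_lit 5) (nat_lit 175) (nat_lit 5) (nat_lit 424) (nat_lit 375) (nat_lit 221)) (XT.lf (nat_lit 0) (nat_lit 36115200026) (nat_lit 228) (nat_lit 4628028036) (nat_lit 76) (nat_lit 52176586020) (nat_lit 169) (nat_lit 5) (nat_lit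 172) (nat_lit 5) (nat_lit 170) (nat_lit 5) (nat_lit 425) (nat_lit 375) (nat_lit 220)))) (XT.nd (nat_lit 156) (nat_lit 380) (nat_lit 0) (XT.nd (nat_lit 78) (nat_lit 228) (nat_lit 0) (XT.lf (nat_lit 0) (nat_lit 833377380) (nat_lit 152) (nat_lit 80970619942) (nat_lit 228) (nat_lit 14068320053) (nat_lit 165) (nat_lit 5) (nat_lit 167) (nat_lit 5) (nat_lit 168) (nat_lit 5) (nat_lit 426) (nat_lit 375) (nat_lit 219)) (XT.lf (nat_lit 0) (nat_lit 6739514174) (nat_lit 152) (nat_lit 25001011047) (nat_lit 228) (nat_lit 67176931708) (nat_lit 162) (nat_lit 5) (nat_lit 164) (nat_lit 5) (nat_lit 165) (nat_lit 5) (nat_lit 427) (nat_lit 375) (nat_lit 218))) (XT.nd (nat_lit 78) (nat_lit 228) (nat_lit 0) (XT.lf (nat_lit 0) (nat_lit 13285371752) (nat_lit 152) (nat_lit 67703748266) (nat_lit 228) (nat_lit 21078346883) (nat_lit 160) (nat_lit 5) (nat_lit 162) (nat_lit 5) (nat_lit 163) (nat_lit 5) (nat_lit 428) (nat_lit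 375) (nat_lit 217)) (XT.lf (nat_lit 0) (nat_lit 20471729506) (nat_lit 152) (nat_lit 7724928700) (nat_lit 228) (nat_lit 77128298075) (nat_lit 157) (nat_lit 5) (nat_lit 159) (nat_lit 5) (nat_lit 160) (nat_lit 5) (nat_lit 429) (nat_lit 375) (nat_lit 216))))))))
noncomputable def xc101 : XT := (XT.nd (nat_lit 50544) (nat_lit 0) (nat_lit 2660) (XT.nd (nat_lit 49452) (nat_lit 0) (nat_lit 11552) (XT.nd (nat_lit 48906) (nat_lit 0) (nat_lit 17632) (XT.nd (nat_lit 234) (nat_lit 608) (nat_lit 0) (XT.nd (nat_lit 78) (nat_lit 380) (nat_lit 0) (XT.lf (nat_lit 0) (nat_lit 28116509571) (nat_lit 152) (nat_lit 53108755102) (nat_lit 228) (nat_lit 27462021052) (nat_lit 155) (nat_lit 5) (nat_lit 157) (nat_lit 5) (nat_lit 158) (nat_lit 5) (nat_lit 430) (nat_lit 375) (nat_lit 215)) (XT.nd (nat_lit 78) (nat_lit 152) (nat_lit 0) (XT.lf (nat_lit 0) (nat_lit 25623705030) (nat_lit 228) (nat_lit 75574925038) (nat_lit 76) (nat_lit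 10969445853) (nat_lit 152) (nat_lit 5) (nat_lit 155) (nat_lit 5) (nat_lit 153) (nat_lit 5) (nat_lit 431) (nat_lit 375) (nat_lit 214)) (XT.lf (nat_lit 0) (nat_lit 45563945340) (nat_lit 152) (nat_lit 37046206088) (nat_lit 228) (nat_lit 33150165442) (nat_lit 150) (nat_lit 5) (nat_lit 152) (nat_lit 5) (nat_lit 153) (nat_lit 5) (nat_lit 432) (nat_lit 375) (nat_lit 213)))) (XT.nd (nat_lit 78) (nat_lit 456) (nat_lit 0) (XT.lf (nat_lit 0) (nat_lit 24091724625) (nat_lit 152) (nat_lit 64108380435) (nat_lit 76) (nat_lit 31276703851) (nat_lit 148) (nat_lit 5) (nat_lit 150) (nat_lit 5) (nat_lit 149) (nat_lit 5) (nat_lit 433) (nat_lit 375) (nat_lit 212)) (XT.nd (nat_lit 156) (nat_lit 304) (nat_lit 0) (XT.lf (nat_lit 0) (nat_lit 65886418857) (nat_lit 152) (nat_lit 19364662539) (nat_lit 228) (nat_lit 38065968522) (nat_lit 146) (nat_lit 5) (nat_lit 148) (nat_lit 5) (nat_lit 149) (nat_lit 5) (nat_lit 434) (nat_lit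 375) (nat_lit 211)) (XT.lf (nat_lit 0) (nat_lit 89266705248) (nat_lit 228) (nat_lit 42024966015) (nat_lit 76) (nat_lit 98353393) (nat_lit 142) (nat_lit 5) (nat_lit 145) (nat_lit 5) (nat_lit 143) (nat_lit 4) (nat_lit 436) (nat_lit 375) (nat_lit 209))))) (XT.nd (nat_lit 234) (nat_lit 0) (nat_lit 152) (XT.nd (nat_lit 78) (nat_lit 0) (nat_lit 76) (XT.lf (nat_lit 0) (nat_lit 6093630395) (nat_lit 1292) (nat_lit 2849307898) (nat_lit 1292) (nat_lit 2849307898) (nat_lit 374) (nat_lit 3) (nat_lit 391) (nat_lit 3) (nat_lit 391) (nat_lit 5) (nat_lit 376) (nat_lit 376) (nat_lit 268)) (XT.nd (nat_lit 78) (nat_lit 0) (nat_lit 0) (XT.lf (nat_lit 0) (nat_lit 12836643379) (nat_lit 1216) (nat_lit 9946146381) (nat_lit 1292) (nat_lit 1380973903) (nat_lit 375) (nat_lit 5) (nat_lit 391) (nat_lit 5) (nat_lit 392) (nat_lit 5) (nat_lit 377) (nat_lit 376) (nat_lit 267)) (XT.lf (nat_lit 76) (nat_lit 10495232809) (nat_lit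 0) (nat_lit 3351471528) (nat_lit 1292) (nat_lit 10915447890) (nat_lit 376) (nat_lit 5) (nat_lit 375) (nat_lit 5) (nat_lit 392) (nat_lit 5) (nat_lit 378) (nat_lit 376) (nat_lit 266)))) (XT.nd (nat_lit 156) (nat_lit 0) (nat_lit 152) (XT.nd (nat_lit 78) (nat_lit 0) (nat_lit 76) (XT.lf (nat_lit 76) (nat_lit 6738533518) (nat_lit 0) (nat_lit 8488949167) (nat_lit 1292) (nat_lit 10153371104) (nat_lit 377) (nat_lit 5) (nat_lit 376) (nat_lit 5) (nat_lit 393) (nat_lit 5) (nat_lit 379) (nat_lit 376) (nat_lit 265)) (XT.lf (nat_lit 76) (nat_lit 2966065670) (nat_lit 0) (nat_lit 14026053804) (nat_lit 1292) (nat_lit 9028926370) (nat_lit 378) (nat_lit 5) (nat_lit 377) (nat_lit 5) (nat_lit 394) (nat_lit 5) (nat_lit 380) (nat_lit 376) (nat_lit 264))) (XT.nd (nat_lit 78) (nat_lit 0) (nat_lit 76) (XT.lf (nat_lit 0) (nat_lit 19176618023) (nat_lit 1216) (nat_lit 801099286) (nat_lit 1292) (nat_lit 6705581295) (nat_lit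 378) (nat_lit 5) (nat_lit 394) (nat_lit 5) (nat_lit 395) (nat_lit 5) (nat_lit 381) (nat_lit 376) (nat_lit 263)) (XT.lf (nat_lit 0) (nat_lit 21831386561) (nat_lit 1216) (nat_lit 4515245947) (nat_lit 1292) (nat_lit 1021200143) (nat_lit 379) (nat_lit 5) (nat_lit 395) (nat_lit 5) (nat_lit 396) (nat_lit 5) (nat_lit 382) (nat_lit 376) (nat_lit 262)))))) (XT.nd (nat_lit 546) (nat_lit 3344) (nat_lit 0) (XT.nd (nat_lit 234) (nat_lit 1976) (nat_lit 0) (XT.nd (nat_lit 78) (nat_lit 1140) (nat_lit 0) (XT.lf (nat_lit 76) (nat_lit 19796668422) (nat_lit 0) (nat_lit 5212636136) (nat_lit 1292) (nat_lit 3065576509) (nat_lit 380) (nat_lit 5) (nat_lit 379) (nat_lit 5) (nat_lit 396) (nat_lit 5) (nat_lit 383) (nat_lit 376) (nat_lit 261)) (XT.nd (nat_lit 78) (nat_lit 1216) (nat_lit 0) (XT.lf (nat_lit 76) (nat_lit 16758639840) (nat_lit 0) (nat_lit 11949286700) (nat_lit 1292) (nat_lit 98501123) (nat_lit 381) (nat_lit 5)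 (nat_lit 380) (nat_lit 5) (nat_lit 397) (nat_lit 5) (nat_lit 384) (nat_lit 376) (nat_lit 260)) (XT.lf (nat_lit 0) (nat_lit 3322486351) (nat_lit 1292) (nat_lit 15839397121) (nat_lit 1368) (nat_lit 10400865216) (nat_lit 364) (nat_lit 5) (nat_lit 381) (nat_lit 5) (nat_lit 382) (nat_lit 5) (nat_lit 385) (nat_lit 376) (nat_lit 259)))) (XT.nd (nat_lit 156) (nat_lit 1216) (nat_lit 0) (XT.nd (nat_lit 78) (nat_lit 836) (nat_lit 0) (XT.lf (nat_lit 0) (nat_lit 7286773903) (nat_lit 1292) (nat_lit 19618957153) (nat_lit 76) (nat_lit 3439896815) (nat_lit 365) (nat_lit 5) (nat_lit 382) (nat_lit 5) (nat_lit 366) (nat_lit 5) (nat_lit 386) (nat_lit 376) (nat_lit 258)) (XT.lf (nat_lit 0) (nat_lit 7737796095) (nat_lit 836) (nat_lit 4135535169) (nat_lit 912) (nat_lit 19281598086) (nat_lit 354) (nat_lit 5) (nat_lit 365) (nat_lit 5) (nat_lit 366) (nat_lit 5) (nat_lit 387) (nat_lit 376) (nat_lit 257))) (XT.nd (nat_lit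 78) (nat_lit 608) (nat_lit 0) (XT.lf (nat_lit 0) (nat_lit 4767190210) (nat_lit 608) (nat_lit 12353823371) (nat_lit 684) (nat_lit 14870728408) (nat_lit 346) (nat_lit 5) (nat_lit 354) (nat_lit 5) (nat_lit 355) (nat_lit 5) (nat_lit 388) (nat_lit 376) (nat_lit 256)) (XT.lf (nat_lit 0) (nat_lit 1860033067) (nat_lit 608) (nat_lit 21177908942) (nat_lit 684) (nat_lit 9820247393) (nat_lit 338) (nat_lit 5) (nat_lit 346) (nat_lit 5) (nat_lit 347) (nat_lit 5) (nat_lit 389) (nat_lit 376) (nat_lit 255))))) (XT.nd (nat_lit 234) (nat_lit 2128) (nat_lit 0) (XT.nd (nat_lit 78) (nat_lit 1216) (nat_lit 0) (XT.lf (nat_lit 0) (nat_lit 29677623359) (nat_lit 684) (nat_lit 953409520) (nat_lit 76) (nat_lit 3124119111) (nat_lit 338) (nat_lit 5) (nat_lit 347) (nat_lit 5) (nat_lit 339) (nat_lit 5) (nat_lit 390) (nat_lit 376) (nat_lit 254)) (XT.nd (nat_lit 78) (nat_lit 608) (nat_lit 0) (XT.lf (nat_lit 0) (nat_lit 2423661680)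 (nat_lit 608) (nat_lit 3728459649) (nat_lit 76) (nat_lit 28528995394) (nat_lit 330) (nat_lit 5) (nat_lit 338) (nat_lit 5) (nat_lit 331) (nat_lit 5) (nat_lit 391) (nat_lit 376) (nat_lit 253)) (XT.lf (nat_lit 0) (nat_lit 9642707421) (nat_lit 684) (nat_lit 6489676360) (nat_lit 76) (nat_lit 19505471001) (nat_lit 322) (nat_lit 5) (nat_lit 331) (nat_lit 5) (nat_lit 323) (nat_lit 5) (nat_lit 392) (nat_lit 376) (nat_lit 252)))) (XT.nd (nat_lit 156) (nat_lit 1064) (nat_lit 0) (XT.nd (nat_lit 78) (nat_lit 532) (nat_lit 0) (XT.lf (nat_lit 0) (nat_lit 17678039996) (nat_lit 608) (nat_lit 9153914654) (nat_lit 76) (nat_lit 9796815058) (nat_lit 315) (nat_lit 5) (nat_lit 323) (nat_lit 5) (nat_lit 316) (nat_lit 5) (nat_lit 393) (nat_lit 376) (nat_lit 251)) (XT.lf (nat_lit 0) (nat_lit 25941655230) (nat_lit 532) (nat_lit 646765584) (nat_lit 608) (nat_lit 11066611116) (nat_lit 308) (nat_lit 5) (nat_lit 315) (nat_lit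 5) (nat_lit 316) (nat_lit 5) (nat_lit 394) (nat_lit 376) (nat_lit 250))) (XT.nd (nat_lit 78) (nat_lit 608) (nat_lit 0) (XT.lf (nat_lit 0) (nat_lit 24464854334) (nat_lit 456) (nat_lit 12061728670) (nat_lit 532) (nat_lit 2188556392) (nat_lit 302) (nat_lit 5) (nat_lit 308) (nat_lit 5) (nat_lit 309) (nat_lit 5) (nat_lit 395) (nat_lit 376) (nat_lit 249)) (XT.lf (nat_lit 0) (nat_lit 7492806964) (nat_lit 608) (nat_lit 16726263117) (nat_lit 76) (nat_lit 15592166907) (nat_lit 294) (nat_lit 5) (nat_lit 302) (nat_lit 5) (nat_lit 295) (nat_lit 5) (nat_lit 396) (nat_lit 376) (nat_lit 248))))))) (XT.nd (nat_lit 1014) (nat_lit 3724) (nat_lit 0) (XT.nd (nat_lit 468) (nat_lit 2584) (nat_lit 0) (XT.nd (nat_lit 234) (nat_lit 1292) (nat_lit 0) (XT.nd (nat_lit 78) (nat_lit 836) (nat_lit 0) (XT.lf (nat_lit 0) (nat_lit 18124715719) (nat_lit 532) (nat_lit 19081675376) (nat_lit 76) (nat_lit 3739746100) (nat_lit 288) (nat_lit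 5) (nat_lit 295) (nat_lit 5) (nat_lit 289) (nat_lit 5) (nat_lit 397) (nat_lit 376) (nat_lit 247)) (XT.nd (nat_lit 78) (nat_lit 380) (nat_lit 0) (XT.lf (nat_lit 0) (nat_lit 20753574449) (nat_lit 456) (nat_lit 9146905185) (nat_lit 532) (nat_lit 12218934986) (nat_lit 282) (nat_lit 5) (nat_lit 288) (nat_lit 5) (nat_lit 289) (nat_lit 5) (nat_lit 398) (nat_lit 376) (nat_lit 246)) (XT.lf (nat_lit 0) (nat_lit 19816499796) (nat_lit 380) (nat_lit 23027295904) (nat_lit 456) (nat_lit 490197299) (nat_lit 277) (nat_lit 5) (nat_lit 282) (nat_lit 5) (nat_lit 283) (nat_lit 5) (nat_lit 399) (nat_lit 376) (nat_lit 245)))) (XT.nd (nat_lit 78) (nat_lit 760) (nat_lit 0) (XT.lf (nat_lit 0) (nat_lit 12153653040) (nat_lit 532) (nat_lit 25599408363) (nat_lit 76) (nat_lit 6836046116) (nat_lit 270) (nat_lit 5) (nat_lit 277) (nat_lit 5) (nat_lit 271) (nat_lit 5) (nat_lit 400) (nat_lit 376) (nat_lit 244)) (XT.nd (nat_lit 78)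 (nat_lit 380) (nat_lit 0) (XT.lf (nat_lit 0) (nat_lit 18325118828) (nat_lit 380) (nat_lit 7742524093) (nat_lit 456) (nat_lit 19819746689) (nat_lit 265) (nat_lit 5) (nat_lit 270) (nat_lit 5) (nat_lit 271) (nat_lit 5) (nat_lit 401) (nat_lit 376) (nat_lit 243)) (XT.lf (nat_lit 0) (nat_lit 17848722899) (nat_lit 380) (nat_lit 23489885713) (nat_lit 456) (nat_lit 5892138904) (nat_lit 260) (nat_lit 5) (nat_lit 265) (nat_lit 5) (nat_lit 266) (nat_lit 5) (nat_lit 402) (nat_lit 376) (nat_lit 242))))) (XT.nd (nat_lit 234) (nat_lit 1444) (nat_lit 0) (XT.nd (nat_lit 78) (nat_lit 684) (nat_lit 0) (XT.lf (nat_lit 0) (nat_lit 9173230936) (nat_lit 456) (nat_lit 31058714258) (nat_lit 76) (nat_lit 8388456903) (nat_lit 254) (nat_lit 5) (nat_lit 260) (nat_lit 5) (nat_lit 255) (nat_lit 5) (nat_lit 403) (nat_lit 376) (nat_lit 241)) (XT.nd (nat_lit 78) (nat_lit 304) (nat_lit 0) (XT.lf (nat_lit 0) (nat_lit 17430222688)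 (nat_lit 380) (nat_lit 8146384876) (nat_lit 456) (nat_lit 24479983799) (nat_lit 249) (nat_lit 5) (nat_lit 254) (nat_lit 5) (nat_lit 255) (nat_lit 5) (nat_lit 404) (nat_lit 376) (nat_lit 240)) (XT.lf (nat_lit 0) (nat_lit 17524506406) (nat_lit 304) (nat_lit 26008040814) (nat_lit 380) (nat_lit 8010071047) (nat_lit 245) (nat_lit 5) (nat_lit 249) (nat_lit 5) (nat_lit 250) (nat_lit 5) (nat_lit 405) (nat_lit 376) (nat_lit 239)))) (XT.nd (nat_lit 156) (nat_lit 684) (nat_lit 0) (XT.nd (nat_lit 78) (nat_lit 304) (nat_lit 0) (XT.lf (nat_lit 0) (nat_lit 9770971122) (nat_lit 456) (nat_lit 35221028969) (nat_lit 76) (nat_lit 8088205757) (nat_lit 239) (nat_lit 5) (nat_lit 245) (nat_lit 5) (nat_lit 240) (nat_lit 5) (nat_lit 406) (nat_lit 376) (nat_lit 238)) (XT.lf (nat_lit 0) (nat_lit 18362305310) (nat_lit 304) (nat_lit 10703061809) (nat_lit 380) (nat_lit 25603227592) (nat_lit 235) (nat_lit 5) (nat_lit 239) (nat_lit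 5) (nat_lit 240) (nat_lit 5) (nat_lit 407) (nat_lit 376) (nat_lit 237))) (XT.nd (nat_lit 78) (nat_lit 380) (nat_lit 0) (XT.lf (nat_lit 0) (nat_lit 19156153623) (nat_lit 304) (nat_lit 30957710172) (nat_lit 380) (nat_lit 6198857795) (nat_lit 231) (nat_lit 5) (nat_lit 235) (nat_lit 5) (nat_lit 236) (nat_lit 5) (nat_lit 408) (nat_lit 376) (nat_lit 236)) (XT.lf (nat_lit 0) (nat_lit 14630030882) (nat_lit 380) (nat_lit 37805423203) (nat_lit 76) (nat_lit 5577585158) (nat_lit 226) (nat_lit 5) (nat_lit 231) (nat_lit 5) (nat_lit 227) (nat_lit 5) (nat_lit 409) (nat_lit 376) (nat_lit 235)))))) (XT.nd (nat_lit 546) (nat_lit 1748) (nat_lit 0) (XT.nd (nat_lit 234) (nat_lit 1064) (nat_lit 0) (XT.nd (nat_lit 78) (nat_lit 608) (nat_lit 0) (XT.lf (nat_lit 0) (nat_lit 21463605729) (nat_lit 304) (nat_lit 15810908119) (nat_lit 380) (nat_lit 22494947131) (nat_lit 222) (nat_lit 5) (nat_lit 226) (nat_lit 5) (nat_lit 227)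 (nat_lit 5) (nat_lit 410) (nat_lit 376) (nat_lit 234)) (XT.nd (nat_lit 78) (nat_lit 304) (nat_lit 0) (XT.lf (nat_lit 0) (nat_lit 285732832) (nat_lit 304) (nat_lit 38484078039) (nat_lit 76) (nat_lit 22818937951) (nat_lit 218) (nat_lit 5) (nat_lit 222) (nat_lit 5) (nat_lit 219) (nat_lit 5) (nat_lit 411) (nat_lit 376) (nat_lit 233)) (XT.lf (nat_lit 0) (nat_lit 24543209904) (nat_lit 380) (nat_lit 38482361196) (nat_lit 76) (nat_lit 442658496) (nat_lit 214) (nat_lit 5) (nat_lit 219) (nat_lit 5) (nat_lit 215) (nat_lit 5) (nat_lit 412) (nat_lit 376) (nat_lit 232)))) (XT.nd (nat_lit 156) (nat_lit 456) (nat_lit 0) (XT.nd (nat_lit 78) (nat_lit 380) (nat_lit 0) (XT.lf (nat_lit 0) (nat_lit 27132196658) (nat_lit 228) (nat_lit 23929966681) (nat_lit 304) (nat_lit 14348062996) (nat_lit 211) (nat_lit 5) (nat_lit 214) (nat_lit 5) (nat_lit 215) (nat_lit 5) (nat_lit 413) (nat_lit 376) (nat_lit 231)) (XT.lf (nat_lit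 0) (nat_lit 12090153376) (nat_lit 380) (nat_lit 37740822995) (nat_lit 76) (nat_lit 17589362563) (nat_lit 206) (nat_lit 5) (nat_lit 211) (nat_lit 5) (nat_lit 207) (nat_lit 5) (nat_lit 414) (nat_lit 376) (nat_lit 230))) (XT.nd (nat_lit 78) (nat_lit 228) (nat_lit 0) (XT.lf (nat_lit 0) (nat_lit 32555160929) (nat_lit 228) (nat_lit 7950123942) (nat_lit 304) (nat_lit 28992858165) (nat_lit 203) (nat_lit 5) (nat_lit 206) (nat_lit 5) (nat_lit 207) (nat_lit 5) (nat_lit 415) (nat_lit 376) (nat_lit 229)) (XT.lf (nat_lit 0) (nat_lit 35829989702) (nat_lit 228) (nat_lit 35590916245) (nat_lit 304) (nat_lit 226539406) (nat_lit 200) (nat_lit 5) (nat_lit 203) (nat_lit 5) (nat_lit 204) (nat_lit 5) (nat_lit 416) (nat_lit 376) (nat_lit 228))))) (XT.nd (nat_lit 234) (nat_lit 912) (nat_lit 0) (XT.nd (nat_lit 78) (nat_lit 532) (nat_lit 0) (XT.lf (nat_lit 0) (nat_lit 30323203379) (nat_lit 304) (nat_lit 34445238322) (nat_lit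 76) (nat_lit 9099223391) (nat_lit 196) (nat_lit 5) (nat_lit 200) (nat_lit 5) (nat_lit 197) (nat_lit 5) (nat_lit 417) (nat_lit 376) (nat_lit 227)) (XT.nd (nat_lit 78) (nat_lit 304) (nat_lit 0) (XT.lf (nat_lit 0) (nat_lit 43462589133) (nat_lit 228) (nat_lit 20079405533) (nat_lit 304) (nat_lit 12622446465) (nat_lit 193) (nat_lit 5) (nat_lit 196) (nat_lit 5) (nat_lit 197) (nat_lit 5) (nat_lit 418) (nat_lit 376) (nat_lit 226)) (XT.lf (nat_lit 0) (nat_lit 20544388221) (nat_lit 304) (nat_lit 30653350941) (nat_lit 76) (nat_lit 27340014373) (nat_lit 189) (nat_lit 5) (nat_lit 193) (nat_lit 5) (nat_lit 190) (nat_lit 5) (nat_lit 419) (nat_lit 376) (nat_lit 225)))) (XT.nd (nat_lit 156) (nat_lit 456) (nat_lit 0) (XT.nd (nat_lit 78) (nat_lit 228) (nat_lit 0) (XT.lf (nat_lit 0) (nat_lit 52856595445) (nat_lit 228) (nat_lit 3302047242) (nat_lit 304) (nat_lit 24835835743) (nat_lit 186) (nat_lit 5) (nat_lit 189) (nat_lit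 5) (nat_lit 190) (nat_lit 5) (nat_lit 420) (nat_lit 376) (nat_lit 224)) (XT.lf (nat_lit 0) (nat_lit 11125761581) (nat_lit 228) (nat_lit 25347554521) (nat_lit 76) (nat_lit 47057617717) (nat_lit 183) (nat_lit 5) (nat_lit 186) (nat_lit 5) (nat_lit 184) (nat_lit 5) (nat_lit 421) (nat_lit 376) (nat_lit 223))) (XT.nd (nat_lit 78) (nat_lit 228) (nat_lit 0) (XT.lf (nat_lit 0) (nat_lit 49459426577) (nat_lit 304) (nat_lit 22117608304) (nat_lit 76) (nat_lit 14577171185) (nat_lit 180) (nat_lit 5) (nat_lit 184) (nat_lit 5) (nat_lit 181) (nat_lit 5) (nat_lit 422) (nat_lit 376) (nat_lit 222)) (XT.lf (nat_lit 0) (nat_lit 2105149824) (nat_lit 228) (nat_lit 18370769261) (nat_lit 76) (nat_lit 68392902316) (nat_lit 177) (nat_lit 5) (nat_lit 180) (nat_lit 5) (nat_lit 178) (nat_lit 5) (nat_lit 423) (nat_lit 376) (nat_lit 221))))))))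
noncomputable def xc102 : XT := (XT.nd (nat_lit 50622) (nat_lit 0) (nat_lit 3952) (XT.nd (nat_lit 49530) (nat_lit 0) (nat_lit 14744) (XT.nd (nat_lit 468) (nat_lit 1216) (nat_lit 0) (XT.nd (nat_lit 234) (nat_lit 684) (nat_lit 0) (XT.nd (nat_lit 78) (nat_lit 380) (nat_lit 0) (XT.lf (nat_lit 0) (nat_lit 43398917526) (nat_lit 304) (nat_lit 14379316598) (nat_lit 76) (nat_lit 33890651550) (nat_lit 174) (nat_lit 5) (nat_lit 178) (nat_lit 5) (nat_lit 175) (nat_lit 5) (nat_lit 424) (nat_lit 376) (nat_lit 220)) (XT.nd (nat_lit 78) (nat_lit 228) (nat_lit 0) (XT.lf (nat_lit 0) (nat_lit 84958108841) (nat_lit 152) (nat_lit 3010902983) (nat_lit 228) (nat_lit 6603592189) (nat_lit 172) (nat_lit 5) (nat_lit 174) (nat_lit 5) (nat_lit 175) (nat_lit 5) (nat_lit 425) (nat_lit 376) (nat_lit 219)) (XT.lf (nat_lit 0) (nat_lit 38003703503) (nat_lit 228) (nat_lit 4711861709) (nat_lit 76) (nat_lit 54847757271) (nat_lit 169)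 (nat_lit 5) (nat_lit 172) (nat_lit 5) (nat_lit 170) (nat_lit 5) (nat_lit 426) (nat_lit 376) (nat_lit 218)))) (XT.nd (nat_lit 78) (nat_lit 380) (nat_lit 0) (XT.lf (nat_lit 0) (nat_lit 1023070806) (nat_lit 152) (nat_lit 84953337544) (nat_lit 228) (nat_lit 14687058559) (nat_lit 165) (nat_lit 5) (nat_lit 167) (nat_lit 5) (nat_lit 168) (nat_lit 5) (nat_lit 427) (nat_lit 376) (nat_lit 217)) (XT.nd (nat_lit 78) (nat_lit 152) (nat_lit 0) (XT.lf (nat_lit 0) (nat_lit 7221876344) (nat_lit 152) (nat_lit 26186144237) (nat_lit 228) (nat_lit 70452895121) (nat_lit 162) (nat_lit 5) (nat_lit 164) (nat_lit 5) (nat_lit 165) (nat_lit 5) (nat_lit 428) (nat_lit 376) (nat_lit 216)) (XT.lf (nat_lit 0) (nat_lit 14092598063) (nat_lit 152) (nat_lit 71024583700) (nat_lit 228) (nat_lit 22051300310) (nat_lit 160) (nat_lit 5) (nat_lit 162) (nat_lit 5) (nat_lit 163) (nat_lit 5) (nat_lit 429) (nat_lit 376) (nat_lit 215))))) (XT.nd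 (nat_lit 234) (nat_lit 608) (nat_lit 0) (XT.nd (nat_lit 78) (nat_lit 380) (nat_lit 0) (XT.lf (nat_lit 0) (nat_lit 21635710461) (nat_lit 152) (nat_lit 8047734041) (nat_lit 228) (nat_lit 80905450991) (nat_lit 157) (nat_lit 5) (nat_lit 159) (nat_lit 5) (nat_lit 160) (nat_lit 5) (nat_lit 430) (nat_lit 376) (nat_lit 214)) (XT.nd (nat_lit 78) (nat_lit 228) (nat_lit 0) (XT.lf (nat_lit 0) (nat_lit 29660355222) (nat_lit 152) (nat_lit 55701369153) (nat_lit 228) (nat_lit 28757669743) (nat_lit 155) (nat_lit 5) (nat_lit 157) (nat_lit 5) (nat_lit 158) (nat_lit 5) (nat_lit 431) (nat_lit 376) (nat_lit 213)) (XT.lf (nat_lit 0) (nat_lit 26979112910) (nat_lit 228) (nat_lit 79216525622) (nat_lit 76) (nat_lit 11578614507) (nat_lit 152) (nat_lit 5) (nat_lit 155) (nat_lit 5) (nat_lit 153) (nat_lit 5) (nat_lit 432) (nat_lit 376) (nat_lit 212)))) (XT.nd (nat_lit 234) (nat_lit 304) (nat_lit 0) (XT.nd (nat_lit 78) (nat_lit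 152) (nat_lit 0) (XT.lf (nat_lit 0) (nat_lit 47975357021) (nat_lit 152) (nat_lit 38837270733) (nat_lit 228) (nat_lit 34733545896) (nat_lit 150) (nat_lit 5) (nat_lit 152) (nat_lit 5) (nat_lit 153) (nat_lit 5) (nat_lit 433) (nat_lit 376) (nat_lit 211)) (XT.lf (nat_lit 0) (nat_lit 25367368361) (nat_lit 152) (nat_lit 67181464105) (nat_lit 76) (nat_lit 32899685167) (nat_lit 148) (nat_lit 5) (nat_lit 150) (nat_lit 5) (nat_lit 149) (nat_lit 5) (nat_lit 434) (nat_lit 376) (nat_lit 210))) (XT.nd (nat_lit 48516) (nat_lit 0) (nat_lit 17480) (XT.lf (nat_lit 0) (nat_lit 24872229548) (nat_lit 152) (nat_lit 52521314507) (nat_lit 76) (nat_lit 56253515187) (nat_lit 144) (nat_lit 5) (nat_lit 146) (nat_lit 5) (nat_lit 145) (nat_lit 5) (nat_lit 436) (nat_lit 376) (nat_lit 208)) (XT.lf (nat_lit 0) (nat_lit 6589637041) (nat_lit 1292) (nat_lit 2893240853) (nat_lit 1292) (nat_lit 2893240853) (nat_lit 374) (nat_lit 3)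 (nat_lit 391) (nat_lit 3) (nat_lit 391) (nat_lit 5) (nat_lit 377) (nat_lit 377) (nat_lit 266)))))) (XT.nd (nat_lit 546) (nat_lit 2812) (nat_lit 0) (XT.nd (nat_lit 234) (nat_lit 0) (nat_lit 152) (XT.nd (nat_lit 78) (nat_lit 0) (nat_lit 0) (XT.lf (nat_lit 0) (nat_lit 13843063576) (nat_lit 1216) (nat_lit 10239368790) (nat_lit 1292) (nat_lit 1278581840) (nat_lit 375) (nat_lit 5) (nat_lit 391) (nat_lit 5) (nat_lit 392) (nat_lit 5) (nat_lit 378) (nat_lit 377) (nat_lit 265)) (XT.nd (nat_lit 78) (nat_lit 0) (nat_lit 76) (XT.lf (nat_lit 76) (nat_lit 11218229307) (nat_lit 0) (nat_lit 3669942495) (nat_lit 1292) (nat_lit 11101614070) (nat_lit 376) (nat_lit 5) (nat_lit 375) (nat_lit 5) (nat_lit 392) (nat_lit 5) (nat_lit 379) (nat_lit 377) (nat_lit 264)) (XT.lf (nat_lit 76) (nat_lit 7279595362) (nat_lit 0) (nat_lit 9042349187) (nat_lit 1292) (nat_lit 10317959298) (nat_lit 377) (nat_lit 5) (nat_lit 376) (nat_lit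 5) (nat_lit 393) (nat_lit 5) (nat_lit 380) (nat_lit 377) (nat_lit 263)))) (XT.nd (nat_lit 156) (nat_lit 0) (nat_lit 152) (XT.nd (nat_lit 78) (nat_lit 0) (nat_lit 76) (XT.lf (nat_lit 76) (nat_lit 3323562861) (nat_lit 0) (nat_lit 14836219351) (nat_lit 1292) (nat_lit 9152774221) (nat_lit 378) (nat_lit 5) (nat_lit 377) (nat_lit 5) (nat_lit 394) (nat_lit 5) (nat_lit 381) (nat_lit 377) (nat_lit 262)) (XT.lf (nat_lit 0) (nat_lit 20437363503) (nat_lit 1216) (nat_lit 631837996) (nat_lit 1292) (nat_lit 6939204597) (nat_lit 378) (nat_lit 5) (nat_lit 394) (nat_lit 5) (nat_lit 395) (nat_lit 5) (nat_lit 382) (nat_lit 377) (nat_lit 261))) (XT.nd (nat_lit 78) (nat_lit 0) (nat_lit 0) (XT.lf (nat_lit 0) (nat_lit 23211619608) (nat_lit 1216) (nat_lit 4528178860) (nat_lit 1292) (nat_lit 987765903) (nat_lit 379) (nat_lit 5) (nat_lit 395) (nat_lit 5) (nat_lit 396) (nat_lit 5) (nat_lit 383) (nat_lit 377) (nat_lit 260))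 (XT.lf (nat_lit 76) (nat_lit 20993230515) (nat_lit 0) (nat_lit 5543444301) (nat_lit 1292) (nat_lit 2933643153) (nat_lit 380) (nat_lit 5) (nat_lit 379) (nat_lit 5) (nat_lit 396) (nat_lit 5) (nat_lit 384) (nat_lit 377) (nat_lit 259))))) (XT.nd (nat_lit 234) (nat_lit 1900) (nat_lit 0) (XT.nd (nat_lit 78) (nat_lit 0) (nat_lit 76) (XT.lf (nat_lit 0) (nat_lit 166307422) (nat_lit 1292) (nat_lit 12434327852) (nat_lit 1368) (nat_lit 17638112137) (nat_lit 363) (nat_lit 5) (nat_lit 380) (nat_lit 5) (nat_lit 381) (nat_lit 5) (nat_lit 385) (nat_lit 377) (nat_lit 258)) (XT.nd (nat_lit 78) (nat_lit 0) (nat_lit 76) (XT.lf (nat_lit 0) (nat_lit 3745119753) (nat_lit 1292) (nat_lit 16414497330) (nat_lit 1368) (nat_lit 10873573767) (nat_lit 364) (nat_lit 5) (nat_lit 381) (nat_lit 5) (nat_lit 382) (nat_lit 5) (nat_lit 386) (nat_lit 377) (nat_lit 257)) (XT.lf (nat_lit 0) (nat_lit 7897089046) (nat_lit 1292) (nat_lit 20381519465)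 (nat_lit 76) (nat_lit 3576921460) (nat_lit 365) (nat_lit 5) (nat_lit 382) (nat_lit 5) (nat_lit 366) (nat_lit 5) (nat_lit 387) (nat_lit 377) (nat_lit 256)))) (XT.nd (nat_lit 156) (nat_lit 608) (nat_lit 0) (XT.nd (nat_lit 78) (nat_lit 608) (nat_lit 0) (XT.lf (nat_lit 0) (nat_lit 8336811468) (nat_lit 836) (nat_lit 4366488723) (nat_lit 912) (nat_lit 20002286554) (nat_lit 354) (nat_lit 5) (nat_lit 365) (nat_lit 5) (nat_lit 366) (nat_lit 5) (nat_lit 388) (nat_lit 377) (nat_lit 255)) (XT.lf (nat_lit 0) (nat_lit 5218706357) (nat_lit 608) (nat_lit 12985235431) (nat_lit 684) (nat_lit 15380580975) (nat_lit 346) (nat_lit 5) (nat_lit 354) (nat_lit 5) (nat_lit 355) (nat_lit 5) (nat_lit 389) (nat_lit 377) (nat_lit 254))) (XT.nd (nat_lit 78) (nat_lit 0) (nat_lit 0) (XT.lf (nat_lit 0) (nat_lit 2166820601) (nat_lit 608) (nat_lit 22241021772) (nat_lit 684) (nat_lit 10086716401) (nat_lit 338) (nat_lit 5) (nat_lit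 346) (nat_lit 5) (nat_lit 347) (nat_lit 5) (nat_lit 390) (nat_lit 377) (nat_lit 253)) (XT.lf (nat_lit 0) (nat_lit 31369088073) (nat_lit 684) (nat_lit 791207121) (nat_lit 76) (nat_lit 3276386889) (nat_lit 338) (nat_lit 5) (nat_lit 347) (nat_lit 5) (nat_lit 339) (nat_lit 5) (nat_lit 391) (nat_lit 377) (nat_lit 252))))))) (XT.nd (nat_lit 1014) (nat_lit 4408) (nat_lit 0) (XT.nd (nat_lit 468) (nat_lit 3040) (nat_lit 0) (XT.nd (nat_lit 234) (nat_lit 1596) (nat_lit 0) (XT.nd (nat_lit 78) (nat_lit 1140) (nat_lit 0) (XT.lf (nat_lit 0) (nat_lit 2746479790) (nat_lit 608) (nat_lit 3707012788) (nat_lit 76) (nat_lit 29955630930) (nat_lit 330) (nat_lit 5) (nat_lit 338) (nat_lit 5) (nat_lit 331) (nat_lit 5) (nat_lit 392) (nat_lit 377) (nat_lit 251)) (XT.nd (nat_lit 78) (nat_lit 532) (nat_lit 0) (XT.lf (nat_lit 0) (nat_lit 10318893342) (nat_lit 684) (nat_lit 6606505950) (nat_lit 76) (nat_lit 20488526713) (nat_lit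 322) (nat_lit 5) (nat_lit 331) (nat_lit 5) (nat_lit 323) (nat_lit 5) (nat_lit 393) (nat_lit 377) (nat_lit 250)) (XT.lf (nat_lit 0) (nat_lit 18748834661) (nat_lit 608) (nat_lit 9404449795) (nat_lit 76) (nat_lit 10301316957) (nat_lit 315) (nat_lit 5) (nat_lit 323) (nat_lit 5) (nat_lit 316) (nat_lit 5) (nat_lit 394) (nat_lit 377) (nat_lit 249)))) (XT.nd (nat_lit 78) (nat_lit 1064) (nat_lit 0) (XT.lf (nat_lit 0) (nat_lit 27439960367) (nat_lit 532) (nat_lit 657808775) (nat_lit 608) (nat_lit 11434616566) (nat_lit 308) (nat_lit 5) (nat_lit 315) (nat_lit 5) (nat_lit 316) (nat_lit 5) (nat_lit 395) (nat_lit 377) (nat_lit 248)) (XT.nd (nat_lit 78) (nat_lit 608) (nat_lit 0) (XT.lf (nat_lit 0) (nat_lit 25888595685) (nat_lit 456) (nat_lit 12637798060) (nat_lit 532) (nat_lit 2119298173) (nat_lit 302) (nat_lit 5) (nat_lit 308) (nat_lit 5) (nat_lit 309) (nat_lit 5) (nat_lit 396) (nat_lit 377) (nat_lit 247)) (XT.lf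 (nat_lit 0) (nat_lit 8036490739) (nat_lit 608) (nat_lit 17359657593) (nat_lit 76) (nat_lit 16400579202) (nat_lit 294) (nat_lit 5) (nat_lit 302) (nat_lit 5) (nat_lit 295) (nat_lit 5) (nat_lit 397) (nat_lit 377) (nat_lit 246))))) (XT.nd (nat_lit 234) (nat_lit 1748) (nat_lit 0) (XT.nd (nat_lit 78) (nat_lit 836) (nat_lit 0) (XT.lf (nat_lit 0) (nat_lit 19194168793) (nat_lit 532) (nat_lit 19834099318) (nat_lit 76) (nat_lit 3960279424) (nat_lit 288) (nat_lit 5) (nat_lit 295) (nat_lit 5) (nat_lit 289) (nat_lit 5) (nat_lit 398) (nat_lit 377) (nat_lit 245)) (XT.nd (nat_lit 78) (nat_lit 380) (nat_lit 0) (XT.lf (nat_lit 0) (nat_lit 21987132459) (nat_lit 456) (nat_lit 9565699105) (nat_lit 532) (nat_lit 12667833949) (nat_lit 282) (nat_lit 5) (nat_lit 288) (nat_lit 5) (nat_lit 289) (nat_lit 5) (nat_lit 399) (nat_lit 377) (nat_lit 244)) (XT.lf (nat_lit 0) (nat_lit 21001813822) (nat_lit 380) (nat_lit 24136230284)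 (nat_lit 456) (nat_lit 358086785) (nat_lit 277) (nat_lit 5) (nat_lit 282) (nat_lit 5) (nat_lit 283) (nat_lit 5) (nat_lit 400) (nat_lit 377) (nat_lit 243)))) (XT.nd (nat_lit 156) (nat_lit 836) (nat_lit 0) (XT.nd (nat_lit 78) (nat_lit 380) (nat_lit 0) (XT.lf (nat_lit 0) (nat_lit 12909852662) (nat_lit 532) (nat_lit 26683474134) (nat_lit 76) (nat_lit 7220780589) (nat_lit 270) (nat_lit 5) (nat_lit 277) (nat_lit 5) (nat_lit 271) (nat_lit 5) (nat_lit 401) (nat_lit 377) (nat_lit 242)) (XT.lf (nat_lit 0) (nat_lit 19431663849) (nat_lit 380) (nat_lit 8082635127) (nat_lit 456) (nat_lit 20663161898) (nat_lit 265) (nat_lit 5) (nat_lit 270) (nat_lit 5) (nat_lit 271) (nat_lit 5) (nat_lit 402) (nat_lit 377) (nat_lit 241))) (XT.nd (nat_lit 78) (nat_lit 456) (nat_lit 0) (XT.lf (nat_lit 0) (nat_lit 18929729551) (nat_lit 380) (nat_lit 24614503906) (nat_lit 456) (nat_lit 6043890603) (nat_lit 260) (nat_lit 5) (nat_lit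 265) (nat_lit 5) (nat_lit 266) (nat_lit 5) (nat_lit 403) (nat_lit 377) (nat_lit 240)) (XT.lf (nat_lit 0) (nat_lit 9767564195) (nat_lit 456) (nat_lit 32422208799) (nat_lit 76) (nat_lit 8857579057) (nat_lit 254) (nat_lit 5) (nat_lit 260) (nat_lit 5) (nat_lit 255) (nat_lit 5) (nat_lit 404) (nat_lit 377) (nat_lit 239)))))) (XT.nd (nat_lit 546) (nat_lit 1976) (nat_lit 0) (XT.nd (nat_lit 234) (nat_lit 1292) (nat_lit 0) (XT.nd (nat_lit 78) (nat_lit 760) (nat_lit 0) (XT.lf (nat_lit 0) (nat_lit 18485744700) (nat_lit 380) (nat_lit 8500673221) (nat_lit 456) (nat_lit 25569073611) (nat_lit 249) (nat_lit 5) (nat_lit 254) (nat_lit 5) (nat_lit 255) (nat_lit 5) (nat_lit 405) (nat_lit 377) (nat_lit 238)) (XT.nd (nat_lit 78) (nat_lit 456) (nat_lit 0) (XT.lf (nat_lit 0) (nat_lit 18582789580) (nat_lit 304) (nat_lit 27253363380) (nat_lit 380) (nat_lit 8279786868) (nat_lit 245) (nat_lit 5) (nat_lit 249) (nat_lit 5) (nat_lit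 250) (nat_lit 5) (nat_lit 406) (nat_lit 377) (nat_lit 237)) (XT.lf (nat_lit 0) (nat_lit 10383905695) (nat_lit 456) (nat_lit 36799579813) (nat_lit 76) (nat_lit 8546999051) (nat_lit 239) (nat_lit 5) (nat_lit 245) (nat_lit 5) (nat_lit 240) (nat_lit 5) (nat_lit 407) (nat_lit 377) (nat_lit 236)))) (XT.nd (nat_lit 156) (nat_lit 684) (nat_lit 0) (XT.nd (nat_lit 78) (nat_lit 304) (nat_lit 0) (XT.lf (nat_lit 0) (nat_lit 19457689836) (nat_lit 304) (nat_lit 11181112533) (nat_lit 380) (nat_lit 26759617071) (nat_lit 235) (nat_lit 5) (nat_lit 239) (nat_lit 5) (nat_lit 240) (nat_lit 5) (nat_lit 408) (nat_lit 377) (nat_lit 235)) (XT.lf (nat_lit 0) (nat_lit 20289117679) (nat_lit 304) (nat_lit 32447090442) (nat_lit 380) (nat_lit 6388650015) (nat_lit 231) (nat_lit 5) (nat_lit 235) (nat_lit 5) (nat_lit 236) (nat_lit 5) (nat_lit 409) (nat_lit 377) (nat_lit 234))) (XT.nd (nat_lit 78) (nat_lit 304) (nat_lit 0) (XT.lf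 (nat_lit 0) (nat_lit 15475948956) (nat_lit 380) (nat_lit 39520428744) (nat_lit 76) (nat_lit 5913881009) (nat_lit 226) (nat_lit 5) (nat_lit 231) (nat_lit 5) (nat_lit 227) (nat_lit 5) (nat_lit 410) (nat_lit 377) (nat_lit 233)) (XT.lf (nat_lit 0) (nat_lit 22707027680) (nat_lit 304) (nat_lit 16541816451) (nat_lit 380) (nat_lit 23505771759) (nat_lit 222) (nat_lit 5) (nat_lit 226) (nat_lit 5) (nat_lit 227) (nat_lit 5) (nat_lit 411) (nat_lit 377) (nat_lit 232))))) (XT.nd (nat_lit 234) (nat_lit 1140) (nat_lit 0) (XT.nd (nat_lit 78) (nat_lit 532) (nat_lit 0) (XT.lf (nat_lit 0) (nat_lit 408582681) (nat_lit 304) (nat_lit 40238093410) (nat_lit 76) (nat_lit 24018253276) (nat_lit 218) (nat_lit 5) (nat_lit 222) (nat_lit 5) (nat_lit 219) (nat_lit 5) (nat_lit 412) (nat_lit 377) (nat_lit 231)) (XT.nd (nat_lit 78) (nat_lit 228) (nat_lit 0) (XT.lf (nat_lit 0) (nat_lit 25875932897) (nat_lit 380) (nat_lit 40238599572)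 (nat_lit 76) (nat_lit 523941732) (nat_lit 214) (nat_lit 5) (nat_lit 219) (nat_lit 5) (nat_lit 215) (nat_lit 5) (nat_lit 413) (nat_lit 377) (nat_lit 230)) (XT.lf (nat_lit 0) (nat_lit 28651873937) (nat_lit 228) (nat_lit 25065500785) (nat_lit 304) (nat_lit 14960299833) (nat_lit 211) (nat_lit 5) (nat_lit 214) (nat_lit 5) (nat_lit 215) (nat_lit 5) (nat_lit 414) (nat_lit 377) (nat_lit 229)))) (XT.nd (nat_lit 156) (nat_lit 532) (nat_lit 0) (XT.nd (nat_lit 78) (nat_lit 228) (nat_lit 0) (XT.lf (nat_lit 0) (nat_lit 12794989636) (nat_lit 380) (nat_lit 39465068193) (nat_lit 76) (nat_lit 18528288195) (nat_lit 206) (nat_lit 5) (nat_lit 211) (nat_lit 5) (nat_lit 207) (nat_lit 5) (nat_lit 415) (nat_lit 377) (nat_lit 228)) (XT.lf (nat_lit 0) (nat_lit 34341048415) (nat_lit 228) (nat_lit 8286571777) (nat_lit 304) (nat_lit 30342517865) (nat_lit 203) (nat_lit 5) (nat_lit 206) (nat_lit 5) (nat_lit 207) (nat_lit 5) (nat_lit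 416) (nat_lit 377) (nat_lit 227))) (XT.nd (nat_lit 78) (nat_lit 304) (nat_lit 0) (XT.lf (nat_lit 0) (nat_lit 37777344428) (nat_lit 228) (nat_lit 37309112618) (nat_lit 304) (nat_lit 140525401) (nat_lit 200) (nat_lit 5) (nat_lit 203) (nat_lit 5) (nat_lit 204) (nat_lit 5) (nat_lit 417) (nat_lit 377) (nat_lit 226)) (XT.lf (nat_lit 0) (nat_lit 31932318236) (nat_lit 304) (nat_lit 36012081495) (nat_lit 76) (nat_lit 9613859974) (nat_lit 196) (nat_lit 5) (nat_lit 200) (nat_lit 5) (nat_lit 197) (nat_lit 5) (nat_lit 418) (nat_lit 377) (nat_lit 225))))))))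
noncomputable def xc103 : XT := (XT.nd (nat_lit 50700) (nat_lit 0) (nat_lit 5168) (XT.nd (nat_lit 1014) (nat_lit 836) (nat_lit 0) (XT.nd (nat_lit 468) (nat_lit 1520) (nat_lit 0) (XT.nd (nat_lit 234) (nat_lit 684) (nat_lit 0) (XT.nd (nat_lit 78) (nat_lit 532) (nat_lit 0) (XT.lf (nat_lit 0) (nat_lit 45786682285) (nat_lit 228) (nat_lit 21022391544) (nat_lit 304) (nat_lit 13160889975) (nat_lit 193) (nat_lit 5) (nat_lit 196) (nat_lit 5) (nat_lit 197) (nat_lit 5) (nat_lit 419) (nat_lit 377) (nat_lit 224)) (XT.nd (nat_lit 78) (nat_lit 228) (nat_lit 0) (XT.lf (nat_lit 0) (nat_lit 21660158061) (nat_lit 304) (nat_lit 32035567218) (nat_lit 76) (nat_lit 28766259421) (nat_lit 189) (nat_lit 5) (nat_lit 193) (nat_lit 5) (nat_lit 190) (nat_lit 5) (nat_lit 420) (nat_lit 377) (nat_lit 223)) (XT.lf (nat_lit 0) (nat_lit 55645563833) (nat_lit 228) (nat_lit 3406749505) (nat_lit 304) (nat_lit 25989316859) (nat_lit 186)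 (nat_lit 5) (nat_lit 189) (nat_lit 5) (nat_lit 190) (nat_lit 5) (nat_lit 421) (nat_lit 377) (nat_lit 222)))) (XT.nd (nat_lit 78) (nat_lit 456) (nat_lit 0) (XT.lf (nat_lit 0) (nat_lit 11766469088) (nat_lit 228) (nat_lit 26469368088) (nat_lit 76) (nat_lit 49469110752) (nat_lit 183) (nat_lit 5) (nat_lit 186) (nat_lit 5) (nat_lit 184) (nat_lit 5) (nat_lit 422) (nat_lit 377) (nat_lit 221)) (XT.nd (nat_lit 78) (nat_lit 228) (nat_lit 0) (XT.lf (nat_lit 0) (nat_lit 52014729732) (nat_lit 304) (nat_lit 23080217600) (nat_lit 76) (nat_lit 15364499084) (nat_lit 180) (nat_lit 5) (nat_lit 184) (nat_lit 5) (nat_lit 181) (nat_lit 5) (nat_lit 423) (nat_lit 377) (nat_lit 220)) (XT.lf (nat_lit 0) (nat_lit 2290945904) (nat_lit 228) (nat_lit 19148540566) (nat_lit 76) (nat_lit 71870359843) (nat_lit 177) (nat_lit 5) (nat_lit 180) (nat_lit 5) (nat_lit 178) (nat_lit 5) (nat_lit 424) (nat_lit 377) (nat_lit 219))))) (XT.nd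 (nat_lit 234) (nat_lit 912) (nat_lit 0) (XT.nd (nat_lit 78) (nat_lit 380) (nat_lit 0) (XT.lf (nat_lit 0) (nat_lit 45647445570) (nat_lit 304) (nat_lit 14959774197) (nat_lit 76) (nat_lit 35642752725) (nat_lit 174) (nat_lit 5) (nat_lit 178) (nat_lit 5) (nat_lit 175) (nat_lit 5) (nat_lit 425) (nat_lit 377) (nat_lit 218)) (XT.nd (nat_lit 78) (nat_lit 228) (nat_lit 0) (XT.lf (nat_lit 0) (nat_lit 89340552203) (nat_lit 152) (nat_lit 3103043633) (nat_lit 228) (nat_lit 6855354375) (nat_lit 172) (nat_lit 5) (nat_lit 174) (nat_lit 5) (nat_lit 175) (nat_lit 5) (nat_lit 426) (nat_lit 377) (nat_lit 217)) (XT.lf (nat_lit 0) (nat_lit 39978939449) (nat_lit 228) (nat_lit 4813606514) (nat_lit 76) (nat_lit 57646691120) (nat_lit 169) (nat_lit 5) (nat_lit 172) (nat_lit 5) (nat_lit 170) (nat_lit 5) (nat_lit 427) (nat_lit 377) (nat_lit 216)))) (XT.nd (nat_lit 156) (nat_lit 380) (nat_lit 0) (XT.nd (nat_lit 78) (nat_lit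 228) (nat_lit 0) (XT.lf (nat_lit 0) (nat_lit 1208486983) (nat_lit 152) (nat_lit 89141309731) (nat_lit 228) (nat_lit 15344606502) (nat_lit 165) (nat_lit 5) (nat_lit 167) (nat_lit 5) (nat_lit 168) (nat_lit 5) (nat_lit 428) (nat_lit 377) (nat_lit 215)) (XT.lf (nat_lit 0) (nat_lit 7714839968) (nat_lit 152) (nat_lit 27436569488) (nat_lit 228) (nat_lit 73900362396) (nat_lit 162) (nat_lit 5) (nat_lit 164) (nat_lit 5) (nat_lit 165) (nat_lit 5) (nat_lit 429) (nat_lit 377) (nat_lit 214))) (XT.nd (nat_lit 78) (nat_lit 228) (nat_lit 0) (XT.lf (nat_lit 0) (nat_lit 14926894836) (nat_lit 152) (nat_lit 74517443743) (nat_lit 228) (nat_lit 23080428667) (nat_lit 160) (nat_lit 5) (nat_lit 162) (nat_lit 5) (nat_lit 163) (nat_lit 5) (nat_lit 430) (nat_lit 377) (nat_lit 213)) (XT.lf (nat_lit 0) (nat_lit 22844837916) (nat_lit 152) (nat_lit 8392577801) (nat_lit 228) (nat_lit 84878830582) (nat_lit 157) (nat_lit 5) (nat_lit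 159) (nat_lit 5) (nat_lit 160) (nat_lit 5) (nat_lit 431) (nat_lit 377) (nat_lit 212)))))) (XT.nd (nat_lit 49140) (nat_lit 0) (nat_lit 16492) (XT.nd (nat_lit 312) (nat_lit 304) (nat_lit 0) (XT.nd (nat_lit 78) (nat_lit 380) (nat_lit 0) (XT.lf (nat_lit 0) (nat_lit 31268561348) (nat_lit 152) (nat_lit 58429454659) (nat_lit 228) (nat_lit 30125301654) (nat_lit 155) (nat_lit 5) (nat_lit 157) (nat_lit 5) (nat_lit 158) (nat_lit 5) (nat_lit 432) (nat_lit 377) (nat_lit 211)) (XT.nd (nat_lit 78) (nat_lit 152) (nat_lit 0) (XT.lf (nat_lit 0) (nat_lit 28395390666) (nat_lit 228) (nat_lit 83052956740) (nat_lit 76) (nat_lit 12212598621) (nat_lit 152) (nat_lit 5) (nat_lit 155) (nat_lit 5) (nat_lit 153) (nat_lit 5) (nat_lit 433) (nat_lit 377) (nat_lit 210)) (XT.lf (nat_lit 0) (nat_lit 50494954274) (nat_lit 152) (nat_lit 40723582652) (nat_lit 228) (nat_lit 36402987075) (nat_lit 150) (nat_lit 5) (nat_lit 152) (nat_lit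 5) (nat_lit 153) (nat_lit 5) (nat_lit 434) (nat_lit 377) (nat_lit 209)))) (XT.nd (nat_lit 48672) (nat_lit 0) (nat_lit 17404) (XT.nd (nat_lit 48594) (nat_lit 0) (nat_lit 17328) (XT.lf (nat_lit 0) (nat_lit 72891337246) (nat_lit 152) (nat_lit 21232837794) (nat_lit 228) (nat_lit 41828826761) (nat_lit 146) (nat_lit 5) (nat_lit 148) (nat_lit 5) (nat_lit 149) (nat_lit 5) (nat_lit 436) (nat_lit 377) (nat_lit 207)) (XT.lf (nat_lit 0) (nat_lit 7092656422) (nat_lit 1292) (nat_lit 2948531069) (nat_lit 1292) (nat_lit 2948531069) (nat_lit 374) (nat_lit 3) (nat_lit 391) (nat_lit 3) (nat_lit 391) (nat_lit 5) (nat_lit 378) (nat_lit 378) (nat_lit 264))) (XT.nd (nat_lit 78) (nat_lit 0) (nat_lit 0) (XT.lf (nat_lit 0) (nat_lit 14865908843) (nat_lit 1216) (nat_lit 10566226199) (nat_lit 1292) (nat_lit 1187009111) (nat_lit 375) (nat_lit 5) (nat_lit 391) (nat_lit 5) (nat_lit 392) (nat_lit 5) (nat_lit 379) (nat_lit 378)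 (nat_lit 263)) (XT.lf (nat_lit 76) (nat_lit 11958945632) (nat_lit 0) (nat_lit 3990308000) (nat_lit 1292) (nat_lit 11330521336) (nat_lit 376) (nat_lit 5) (nat_lit 375) (nat_lit 5) (nat_lit 392) (nat_lit 5) (nat_lit 380) (nat_lit 378) (nat_lit 262))))) (XT.nd (nat_lit 234) (nat_lit 988) (nat_lit 0) (XT.nd (nat_lit 78) (nat_lit 0) (nat_lit 76) (XT.lf (nat_lit 76) (nat_lit 7828731745) (nat_lit 0) (nat_lit 9611430420) (nat_lit 1292) (nat_lit 10522673263) (nat_lit 377) (nat_lit 5) (nat_lit 376) (nat_lit 5) (nat_lit 393) (nat_lit 5) (nat_lit 381) (nat_lit 378) (nat_lit 261)) (XT.nd (nat_lit 78) (nat_lit 0) (nat_lit 76) (XT.lf (nat_lit 76) (nat_lit 3679486046) (nat_lit 0) (nat_lit 15676772138) (nat_lit 1292) (nat_lit 9313271465) (nat_lit 378) (nat_lit 5) (nat_lit 377) (nat_lit 5) (nat_lit 394) (nat_lit 5) (nat_lit 382) (nat_lit 378) (nat_lit 260)) (XT.lf (nat_lit 0) (nat_lit 21733077102) (nat_lit 1216)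 (nat_lit 473573883) (nat_lit 1292) (nat_lit 7193960055) (nat_lit 378) (nat_lit 5) (nat_lit 394) (nat_lit 5) (nat_lit 395) (nat_lit 5) (nat_lit 383) (nat_lit 378) (nat_lit 259)))) (XT.nd (nat_lit 156) (nat_lit 1216) (nat_lit 0) (XT.nd (nat_lit 78) (nat_lit 0) (nat_lit 0) (XT.lf (nat_lit 0) (nat_lit 24634027092) (nat_lit 1216) (nat_lit 4561545278) (nat_lit 1292) (nat_lit 960515425) (nat_lit 379) (nat_lit 5) (nat_lit 395) (nat_lit 5) (nat_lit 396) (nat_lit 5) (nat_lit 384) (nat_lit 378) (nat_lit 258)) (XT.lf (nat_lit 76) (nat_lit 22230401041) (nat_lit 0) (nat_lit 5884268542) (nat_lit 1292) (nat_lit 2821629455) (nat_lit 380) (nat_lit 5) (nat_lit 379) (nat_lit 5) (nat_lit 396) (nat_lit 5) (nat_lit 385) (nat_lit 378) (nat_lit 257))) (XT.nd (nat_lit 78) (nat_lit 0) (nat_lit 76) (XT.lf (nat_lit 0) (nat_lit 417448539) (nat_lit 1292) (nat_lit 12861164274) (nat_lit 1368) (nat_lit 18464787196) (nat_lit 363)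 (nat_lit 5) (nat_lit 380) (nat_lit 5) (nat_lit 381) (nat_lit 5) (nat_lit 386) (nat_lit 378) (nat_lit 256)) (XT.lf (nat_lit 0) (nat_lit 4165037042) (nat_lit 1292) (nat_lit 17038515033) (nat_lit 1368) (nat_lit 11374318478) (nat_lit 364) (nat_lit 5) (nat_lit 381) (nat_lit 5) (nat_lit 382) (nat_lit 5) (nat_lit 387) (nat_lit 378) (nat_lit 255))))))) (XT.nd (nat_lit 1014) (nat_lit 5168) (nat_lit 0) (XT.nd (nat_lit 468) (nat_lit 3648) (nat_lit 0) (XT.nd (nat_lit 234) (nat_lit 1216) (nat_lit 0) (XT.nd (nat_lit 78) (nat_lit 1444) (nat_lit 0) (XT.lf (nat_lit 0) (nat_lit 8515051388) (nat_lit 1292) (nat_lit 21202513310) (nat_lit 76) (nat_lit 3724048535) (nat_lit 365) (nat_lit 5) (nat_lit 382) (nat_lit 5) (nat_lit 366) (nat_lit 5) (nat_lit 388) (nat_lit 378) (nat_lit 254)) (XT.nd (nat_lit 78) (nat_lit 608) (nat_lit 0) (XT.lf (nat_lit 0) (nat_lit 8946056185) (nat_lit 836) (nat_lit 4606742226) (nat_lit 912) (nat_lit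 20781637675) (nat_lit 354) (nat_lit 5) (nat_lit 365) (nat_lit 5) (nat_lit 366) (nat_lit 5) (nat_lit 389) (nat_lit 378) (nat_lit 253)) (XT.lf (nat_lit 0) (nat_lit 5672981027) (nat_lit 608) (nat_lit 13646942456) (nat_lit 684) (nat_lit 15937651880) (nat_lit 346) (nat_lit 5) (nat_lit 354) (nat_lit 5) (nat_lit 355) (nat_lit 5) (nat_lit 390) (nat_lit 378) (nat_lit 252)))) (XT.nd (nat_lit 78) (nat_lit 608) (nat_lit 0) (XT.lf (nat_lit 0) (nat_lit 2469071727) (nat_lit 608) (nat_lit 23356898151) (nat_lit 684) (nat_lit 10387384773) (nat_lit 338) (nat_lit 5) (nat_lit 346) (nat_lit 5) (nat_lit 347) (nat_lit 5) (nat_lit 391) (nat_lit 378) (nat_lit 251)) (XT.nd (nat_lit 78) (nat_lit 608) (nat_lit 0) (XT.lf (nat_lit 0) (nat_lit 33125826873) (nat_lit 684) (nat_lit 640406593) (nat_lit 76) (nat_lit 3436634191) (nat_lit 338) (nat_lit 5) (nat_lit 347) (nat_lit 5) (nat_lit 339) (nat_lit 5) (nat_lit 392) (nat_lit 378)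 (nat_lit 250)) (XT.lf (nat_lit 0) (nat_lit 3066692693) (nat_lit 608) (nat_lit 3703819352) (nat_lit 76) (nat_lit 31453580972) (nat_lit 330) (nat_lit 5) (nat_lit 338) (nat_lit 5) (nat_lit 331) (nat_lit 5) (nat_lit 393) (nat_lit 378) (nat_lit 249))))) (XT.nd (nat_lit 234) (nat_lit 1976) (nat_lit 0) (XT.nd (nat_lit 78) (nat_lit 1064) (nat_lit 0) (XT.lf (nat_lit 0) (nat_lit 11010847577) (nat_lit 684) (nat_lit 6748482742) (nat_lit 76) (nat_lit 21520011699) (nat_lit 322) (nat_lit 5) (nat_lit 331) (nat_lit 5) (nat_lit 323) (nat_lit 5) (nat_lit 394) (nat_lit 378) (nat_lit 248)) (XT.nd (nat_lit 78) (nat_lit 532) (nat_lit 0) (XT.lf (nat_lit 0) (nat_lit 19855793551) (nat_lit 608) (nat_lit 9686771520) (nat_lit 76) (nat_lit 10829680898) (nat_lit 315) (nat_lit 5) (nat_lit 323) (nat_lit 5) (nat_lit 316) (nat_lit 5) (nat_lit 395) (nat_lit 378) (nat_lit 247)) (XT.lf (nat_lit 0) (nat_lit 28994473012) (nat_lit 532)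 (nat_lit 671383941) (nat_lit 608) (nat_lit 11838252061) (nat_lit 308) (nat_lit 5) (nat_lit 315) (nat_lit 5) (nat_lit 316) (nat_lit 5) (nat_lit 396) (nat_lit 378) (nat_lit 246)))) (XT.nd (nat_lit 156) (nat_lit 912) (nat_lit 0) (XT.nd (nat_lit 78) (nat_lit 608) (nat_lit 0) (XT.lf (nat_lit 0) (nat_lit 27364883640) (nat_lit 456) (nat_lit 13245182708) (nat_lit 532) (nat_lit 2063189578) (nat_lit 302) (nat_lit 5) (nat_lit 308) (nat_lit 5) (nat_lit 309) (nat_lit 5) (nat_lit 397) (nat_lit 378) (nat_lit 245)) (XT.lf (nat_lit 0) (nat_lit 8591642648) (nat_lit 608) (nat_lit 18043587248) (nat_lit 76) (nat_lit 17246734194) (nat_lit 294) (nat_lit 5) (nat_lit 302) (nat_lit 5) (nat_lit 295) (nat_lit 5) (nat_lit 398) (nat_lit 378) (nat_lit 244))) (XT.nd (nat_lit 78) (nat_lit 456) (nat_lit 0) (XT.lf (nat_lit 0) (nat_lit 20301920125) (nat_lit 532) (nat_lit 20642892877) (nat_lit 76) (nat_lit 4188720624) (nat_lit 288)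 (nat_lit 5) (nat_lit 295) (nat_lit 5) (nat_lit 289) (nat_lit 5) (nat_lit 399) (nat_lit 378) (nat_lit 243)) (XT.lf (nat_lit 0) (nat_lit 23264157371) (nat_lit 456) (nat_lit 10009016858) (nat_lit 532) (nat_lit 13154243527) (nat_lit 282) (nat_lit 5) (nat_lit 288) (nat_lit 5) (nat_lit 289) (nat_lit 5) (nat_lit 400) (nat_lit 378) (nat_lit 242)))))) (XT.nd (nat_lit 546) (nat_lit 2356) (nat_lit 0) (XT.nd (nat_lit 234) (nat_lit 1520) (nat_lit 0) (XT.nd (nat_lit 78) (nat_lit 912) (nat_lit 0) (XT.lf (nat_lit 0) (nat_lit 22228311802) (nat_lit 380) (nat_lit 25304556161) (nat_lit 456) (nat_lit 233931823) (nat_lit 277) (nat_lit 5) (nat_lit 282) (nat_lit 5) (nat_lit 283) (nat_lit 5) (nat_lit 401) (nat_lit 378) (nat_lit 241)) (XT.nd (nat_lit 78) (nat_lit 380) (nat_lit 0) (XT.lf (nat_lit 0) (nat_lit 13690054566) (nat_lit 532) (nat_lit 27839956551) (nat_lit 76) (nat_lit 7620760360) (nat_lit 270) (nat_lit 5) (nat_lit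 277) (nat_lit 5) (nat_lit 271) (nat_lit 5) (nat_lit 402) (nat_lit 378) (nat_lit 240)) (XT.lf (nat_lit 0) (nat_lit 20575844846) (nat_lit 380) (nat_lit 8444122738) (nat_lit 456) (nat_lit 21562467724) (nat_lit 265) (nat_lit 5) (nat_lit 270) (nat_lit 5) (nat_lit 271) (nat_lit 5) (nat_lit 403) (nat_lit 378) (nat_lit 239)))) (XT.nd (nat_lit 156) (nat_lit 684) (nat_lit 0) (XT.nd (nat_lit 78) (nat_lit 456) (nat_lit 0) (XT.lf (nat_lit 0) (nat_lit 20047255038) (nat_lit 380) (nat_lit 25799990015) (nat_lit 456) (nat_lit 6216511213) (nat_lit 260) (nat_lit 5) (nat_lit 265) (nat_lit 5) (nat_lit 266) (nat_lit 5) (nat_lit 404) (nat_lit 378) (nat_lit 238)) (XT.lf (nat_lit 0) (nat_lit 10379000646) (nat_lit 456) (nat_lit 33871490513) (nat_lit 76) (nat_lit 9345536747) (nat_lit 254) (nat_lit 5) (nat_lit 260) (nat_lit 5) (nat_lit 255) (nat_lit 5) (nat_lit 405) (nat_lit 378) (nat_lit 237))) (XT.nd (nat_lit 78) (nat_lit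 304) (nat_lit 0) (XT.lf (nat_lit 0) (nat_lit 19576935226) (nat_lit 380) (nat_lit 8877606293) (nat_lit 456) (nat_lit 26725160508) (nat_lit 249) (nat_lit 5) (nat_lit 254) (nat_lit 5) (nat_lit 255) (nat_lit 5) (nat_lit 406) (nat_lit 378) (nat_lit 236)) (XT.lf (nat_lit 0) (nat_lit 19677060900) (nat_lit 304) (nat_lit 28566072842) (nat_lit 380) (nat_lit 8575147884) (nat_lit 245) (nat_lit 5) (nat_lit 249) (nat_lit 5) (nat_lit 250) (nat_lit 5) (nat_lit 407) (nat_lit 378) (nat_lit 235))))) (XT.nd (nat_lit 234) (nat_lit 1292) (nat_lit 0) (XT.nd (nat_lit 78) (nat_lit 608) (nat_lit 0) (XT.lf (nat_lit 0) (nat_lit 11015922765) (nat_lit 456) (nat_lit 38474025376) (nat_lit 76) (nat_lit 9023675994) (nat_lit 239) (nat_lit 5) (nat_lit 245) (nat_lit 5) (nat_lit 240) (nat_lit 5) (nat_lit 408) (nat_lit 378) (nat_lit 234)) (XT.nd (nat_lit 78) (nat_lit 304) (nat_lit 0) (XT.lf (nat_lit 0) (nat_lit 20591362773) (nat_lit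 304) (nat_lit 11688374630) (nat_lit 380) (nat_lit 27985333162) (nat_lit 235) (nat_lit 5) (nat_lit 239) (nat_lit 5) (nat_lit 240) (nat_lit 5) (nat_lit 409) (nat_lit 378) (nat_lit 233)) (XT.lf (nat_lit 0) (nat_lit 21462445558) (nat_lit 304) (nat_lit 34016378989) (nat_lit 380) (nat_lit 6599102316) (nat_lit 231) (nat_lit 5) (nat_lit 235) (nat_lit 5) (nat_lit 236) (nat_lit 5) (nat_lit 410) (nat_lit 378) (nat_lit 232)))) (XT.nd (nat_lit 156) (nat_lit 608) (nat_lit 0) (XT.nd (nat_lit 78) (nat_lit 304) (nat_lit 0) (XT.lf (nat_lit 0) (nat_lit 16353525569) (nat_lit 380) (nat_lit 41337479099) (nat_lit 76) (nat_lit 6261653602) (nat_lit 226) (nat_lit 5) (nat_lit 231) (nat_lit 5) (nat_lit 227) (nat_lit 5) (nat_lit 411) (nat_lit 378) (nat_lit 231)) (XT.lf (nat_lit 0) (nat_lit 23996793273) (nat_lit 304) (nat_lit 17314814689) (nat_lit 380) (nat_lit 24577729074) (nat_lit 222) (nat_lit 5) (nat_lit 226) (nat_lit 5)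 (nat_lit 227) (nat_lit 5) (nat_lit 412) (nat_lit 378) (nat_lit 230))) (XT.nd (nat_lit 78) (nat_lit 304) (nat_lit 0) (XT.lf (nat_lit 0) (nat_lit 527481844) (nat_lit 304) (nat_lit 42095632066) (nat_lit 76) (nat_lit 25272107825) (nat_lit 218) (nat_lit 5) (nat_lit 222) (nat_lit 5) (nat_lit 219) (nat_lit 5) (nat_lit 413) (nat_lit 378) (nat_lit 229)) (XT.lf (nat_lit 0) (nat_lit 27265477839) (nat_lit 380) (nat_lit 42098257729) (nat_lit 76) (nat_lit 603789895) (nat_lit 214) (nat_lit 5) (nat_lit 219) (nat_lit 5) (nat_lit 215) (nat_lit 5) (nat_lit 414) (nat_lit 378) (nat_lit 228))))))))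
noncomputable def xc104 : XT := (XT.nd (nat_lit 50700) (nat_lit 0) (nat_lit 6612) (XT.nd (nat_lit 1014) (nat_lit 1824) (nat_lit 0) (XT.nd (nat_lit 468) (nat_lit 1596) (nat_lit 0) (XT.nd (nat_lit 234) (nat_lit 760) (nat_lit 0) (XT.nd (nat_lit 78) (nat_lit 608) (nat_lit 0) (XT.lf (nat_lit 0) (nat_lit 30232374614) (nat_lit 228) (nat_lit 26263479470) (nat_lit 304) (nat_lit 15612925879) (nat_lit 211) (nat_lit 5) (nat_lit 214) (nat_lit 5) (nat_lit 215) (nat_lit 5) (nat_lit 415) (nat_lit 378) (nat_lit 227)) (XT.nd (nat_lit 78) (nat_lit 228) (nat_lit 0) (XT.lf (nat_lit 0) (nat_lit 13525740108) (nat_lit 380) (nat_lit 41290660874) (nat_lit 76) (nat_lit 19508632312) (nat_lit 206) (nat_lit 5) (nat_lit 211) (nat_lit 5) (nat_lit 207) (nat_lit 5) (nat_lit 416) (nat_lit 378) (nat_lit 226)) (XT.lf (nat_lit 0) (nat_lit 36201528898) (nat_lit 228) (nat_lit 8645518631) (nat_lit 304) (nat_lit 31768956040) (nat_lit 203)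 (nat_lit 5) (nat_lit 206) (nat_lit 5) (nat_lit 207) (nat_lit 5) (nat_lit 417) (nat_lit 378) (nat_lit 225)))) (XT.nd (nat_lit 78) (nat_lit 532) (nat_lit 0) (XT.lf (nat_lit 0) (nat_lit 39807576948) (nat_lit 228) (nat_lit 39118922499) (nat_lit 304) (nat_lit 59260536) (nat_lit 200) (nat_lit 5) (nat_lit 203) (nat_lit 5) (nat_lit 204) (nat_lit 5) (nat_lit 418) (nat_lit 378) (nat_lit 224)) (XT.nd (nat_lit 78) (nat_lit 228) (nat_lit 0) (XT.lf (nat_lit 0) (nat_lit 33613246791) (nat_lit 304) (nat_lit 37671716188) (nat_lit 76) (nat_lit 10148680332) (nat_lit 196) (nat_lit 5) (nat_lit 200) (nat_lit 5) (nat_lit 197) (nat_lit 5) (nat_lit 419) (nat_lit 378) (nat_lit 223)) (XT.lf (nat_lit 0) (nat_lit 48212944922) (nat_lit 228) (nat_lit 22018196595) (nat_lit 304) (nat_lit 13734872058) (nat_lit 193) (nat_lit 5) (nat_lit 196) (nat_lit 5) (nat_lit 197) (nat_lit 5) (nat_lit 420) (nat_lit 378) (nat_lit 222))))) (XT.nd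 (nat_lit 234) (nat_lit 836) (nat_lit 0) (XT.nd (nat_lit 78) (nat_lit 456) (nat_lit 0) (XT.lf (nat_lit 0) (nat_lit 22823483813) (nat_lit 304) (nat_lit 33500881841) (nat_lit 76) (nat_lit 30258308744) (nat_lit 189) (nat_lit 5) (nat_lit 193) (nat_lit 5) (nat_lit 190) (nat_lit 5) (nat_lit 421) (nat_lit 378) (nat_lit 221)) (XT.nd (nat_lit 78) (nat_lit 228) (nat_lit 0) (XT.lf (nat_lit 0) (nat_lit 58560394056) (nat_lit 228) (nat_lit 3522302310) (nat_lit 304) (nat_lit 27208682320) (nat_lit 186) (nat_lit 5) (nat_lit 189) (nat_lit 5) (nat_lit 190) (nat_lit 5) (nat_lit 422) (nat_lit 378) (nat_lit 220)) (XT.lf (nat_lit 0) (nat_lit 12431363451) (nat_lit 228) (nat_lit 27660805510) (nat_lit 76) (nat_lit 51995729236) (nat_lit 183) (nat_lit 5) (nat_lit 186) (nat_lit 5) (nat_lit 184) (nat_lit 5) (nat_lit 423) (nat_lit 378) (nat_lit 219)))) (XT.nd (nat_lit 156) (nat_lit 380) (nat_lit 0) (XT.nd (nat_lit 78) (nat_lit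 228) (nat_lit 0) (XT.lf (nat_lit 0) (nat_lit 54690143611) (nat_lit 304) (nat_lit 24104277350) (nat_lit 76) (nat_lit 16185757453) (nat_lit 180) (nat_lit 5) (nat_lit 184) (nat_lit 5) (nat_lit 181) (nat_lit 5) (nat_lit 424) (nat_lit 378) (nat_lit 218)) (XT.lf (nat_lit 0) (nat_lit 2478544073) (nat_lit 228) (nat_lit 19978287632) (nat_lit 76) (nat_lit 75516315397) (nat_lit 177) (nat_lit 5) (nat_lit 180) (nat_lit 5) (nat_lit 178) (nat_lit 5) (nat_lit 425) (nat_lit 378) (nat_lit 217))) (XT.nd (nat_lit 78) (nat_lit 152) (nat_lit 0) (XT.lf (nat_lit 0) (nat_lit 48001094192) (nat_lit 304) (nat_lit 15582131858) (nat_lit 76) (nat_lit 37477106776) (nat_lit 174) (nat_lit 5) (nat_lit 178) (nat_lit 5) (nat_lit 175) (nat_lit 5) (nat_lit 426) (nat_lit 378) (nat_lit 216)) (XT.lf (nat_lit 0) (nat_lit 93929609673) (nat_lit 152) (nat_lit 3205221213) (nat_lit 228) (nat_lit 7126995179) (nat_lit 172) (nat_lit 5) (nat_lit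 174) (nat_lit 5) (nat_lit 175) (nat_lit 5) (nat_lit 427) (nat_lit 378) (nat_lit 215)))))) (XT.nd (nat_lit 468) (nat_lit 532) (nat_lit 0) (XT.nd (nat_lit 234) (nat_lit 532) (nat_lit 0) (XT.nd (nat_lit 78) (nat_lit 532) (nat_lit 0) (XT.lf (nat_lit 0) (nat_lit 42045959684) (nat_lit 228) (nat_lit 4932882504) (nat_lit 76) (nat_lit 60580314553) (nat_lit 169) (nat_lit 5) (nat_lit 172) (nat_lit 5) (nat_lit 170) (nat_lit 5) (nat_lit 428) (nat_lit 378) (nat_lit 214)) (XT.nd (nat_lit 78) (nat_lit 228) (nat_lit 0) (XT.lf (nat_lit 0) (nat_lit 1390691502) (nat_lit 152) (nat_lit 93544230374) (nat_lit 228) (nat_lit 16042172441) (nat_lit 165) (nat_lit 5) (nat_lit 167) (nat_lit 5) (nat_lit 168) (nat_lit 5) (nat_lit 429) (nat_lit 378) (nat_lit 213)) (XT.lf (nat_lit 0) (nat_lit 8220191768) (nat_lit 152) (nat_lit 28754990288) (nat_lit 228) (nat_lit 77527192325) (nat_lit 162) (nat_lit 5) (nat_lit 164) (nat_lit 5) (nat_lit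 165) (nat_lit 5) (nat_lit 430) (nat_lit 378) (nat_lit 212)))) (XT.nd (nat_lit 78) (nat_lit 380) (nat_lit 0) (XT.lf (nat_lit 0) (nat_lit 15790851252) (nat_lit 152) (nat_lit 78190373397) (nat_lit 228) (nat_lit 24167840885) (nat_lit 160) (nat_lit 5) (nat_lit 162) (nat_lit 5) (nat_lit 163) (nat_lit 5) (nat_lit 431) (nat_lit 378) (nat_lit 211)) (XT.nd (nat_lit 78) (nat_lit 152) (nat_lit 0) (XT.lf (nat_lit 0) (nat_lit 24102582697) (nat_lit 152) (nat_lit 8760013546) (nat_lit 228) (nat_lit 89057563078) (nat_lit 157) (nat_lit 5) (nat_lit 159) (nat_lit 5) (nat_lit 160) (nat_lit 5) (nat_lit 432) (nat_lit 378) (nat_lit 210)) (XT.lf (nat_lit 0) (nat_lit 32945538952) (nat_lit 152) (nat_lit 61299242174) (nat_lit 228) (nat_lit 31567846487) (nat_lit 155) (nat_lit 5) (nat_lit 157) (nat_lit 5) (nat_lit 158) (nat_lit 5) (nat_lit 433) (nat_lit 378) (nat_lit 209))))) (XT.nd (nat_lit 48906) (nat_lit 0) (nat_lit 17252)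 (XT.nd (nat_lit 156) (nat_lit 304) (nat_lit 0) (XT.lf (nat_lit 0) (nat_lit 29876223339) (nat_lit 228) (nat_lit 87092774497) (nat_lit 76) (nat_lit 12873163599) (nat_lit 152) (nat_lit 5) (nat_lit 155) (nat_lit 5) (nat_lit 153) (nat_lit 5) (nat_lit 434) (nat_lit 378) (nat_lit 208)) (XT.nd (nat_lit 48672) (nat_lit 0) (nat_lit 17176) (XT.lf (nat_lit 0) (nat_lit 28093656616) (nat_lit 152) (nat_lit 73832657884) (nat_lit 76) (nat_lit 36376892199) (nat_lit 148) (nat_lit 5) (nat_lit 150) (nat_lit 5) (nat_lit 149) (nat_lit 5) (nat_lit 436) (nat_lit 378) (nat_lit 206)) (XT.lf (nat_lit 0) (nat_lit 7604692898) (nat_lit 1292) (nat_lit 3014894740) (nat_lit 1292) (nat_lit 3014894740) (nat_lit 374) (nat_lit 3) (nat_lit 391) (nat_lit 3) (nat_lit 391) (nat_lit 5) (nat_lit 379) (nat_lit 379) (nat_lit 262)))) (XT.nd (nat_lit 156) (nat_lit 0) (nat_lit 76) (XT.nd (nat_lit 78) (nat_lit 0) (nat_lit 0) (XT.lf (nat_lit 0)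 (nat_lit 15909151757) (nat_lit 1216) (nat_lit 10926636348) (nat_lit 1292) (nat_lit 1105314831) (nat_lit 375) (nat_lit 5) (nat_lit 391) (nat_lit 5) (nat_lit 392) (nat_lit 5) (nat_lit 380) (nat_lit 379) (nat_lit 261)) (XT.lf (nat_lit 76) (nat_lit 12719981221) (nat_lit 0) (nat_lit 4313967057) (nat_lit 1292) (nat_lit 11601198479) (nat_lit 376) (nat_lit 5) (nat_lit 375) (nat_lit 5) (nat_lit 392) (nat_lit 5) (nat_lit 381) (nat_lit 379) (nat_lit 260))) (XT.nd (nat_lit 78) (nat_lit 0) (nat_lit 76) (XT.lf (nat_lit 76) (nat_lit 8388110840) (nat_lit 0) (nat_lit 10198091533) (nat_lit 1292) (nat_lit 10766553864) (nat_lit 377) (nat_lit 5) (nat_lit 376) (nat_lit 5) (nat_lit 393) (nat_lit 5) (nat_lit 382) (nat_lit 379) (nat_lit 259)) (XT.lf (nat_lit 76) (nat_lit 4035564694) (nat_lit 0) (nat_lit 16550172487) (nat_lit 1292) (nat_lit 9509418969) (nat_lit 378) (nat_lit 5) (nat_lit 377) (nat_lit 5) (nat_lit 394) (nat_lit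 5) (nat_lit 383) (nat_lit 379) (nat_lit 258))))))) (XT.nd (nat_lit 1014) (nat_lit 6080) (nat_lit 0) (XT.nd (nat_lit 468) (nat_lit 3648) (nat_lit 0) (XT.nd (nat_lit 234) (nat_lit 1140) (nat_lit 0) (XT.nd (nat_lit 78) (nat_lit 0) (nat_lit 76) (XT.lf (nat_lit 0) (nat_lit 23068116828) (nat_lit 1216) (nat_lit 325047576) (nat_lit 1292) (nat_lit 7470025610) (nat_lit 378) (nat_lit 5) (nat_lit 394) (nat_lit 5) (nat_lit 395) (nat_lit 5) (nat_lit 384) (nat_lit 379) (nat_lit 257)) (XT.nd (nat_lit 78) (nat_lit 0) (nat_lit 0) (XT.lf (nat_lit 0) (nat_lit 26103212803) (nat_lit 1216) (nat_lit 4614527281) (nat_lit 1292) (nat_lit 939027570) (nat_lit 379) (nat_lit 5) (nat_lit 395) (nat_lit 5) (nat_lit 396) (nat_lit 5) (nat_lit 385) (nat_lit 379) (nat_lit 256)) (XT.lf (nat_lit 76) (nat_lit 23511997284) (nat_lit 0) (nat_lit 6236216232) (nat_lit 1292) (nat_lit 2728066160) (nat_lit 380) (nat_lit 5) (nat_lit 379) (nat_lit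 5) (nat_lit 396) (nat_lit 5) (nat_lit 386) (nat_lit 379) (nat_lit 255)))) (XT.nd (nat_lit 78) (nat_lit 0) (nat_lit 76) (XT.lf (nat_lit 0) (nat_lit 658571075) (nat_lit 1292) (nat_lit 13327460610) (nat_lit 1368) (nat_lit 19337930820) (nat_lit 363) (nat_lit 5) (nat_lit 380) (nat_lit 5) (nat_lit 381) (nat_lit 5) (nat_lit 387) (nat_lit 379) (nat_lit 254)) (XT.nd (nat_lit 78) (nat_lit 0) (nat_lit 76) (XT.lf (nat_lit 0) (nat_lit 4584319553) (nat_lit 1292) (nat_lit 17712021590) (nat_lit 1368) (nat_lit 11904092019) (nat_lit 364) (nat_lit 5) (nat_lit 381) (nat_lit 5) (nat_lit 382) (nat_lit 5) (nat_lit 388) (nat_lit 379) (nat_lit 253)) (XT.lf (nat_lit 0) (nat_lit 9143169389) (nat_lit 1292) (nat_lit 22082972646) (nat_lit 76) (nat_lit 3881480896) (nat_lit 365) (nat_lit 5) (nat_lit 382) (nat_lit 5) (nat_lit 366) (nat_lit 5) (nat_lit 389) (nat_lit 379) (nat_lit 252))))) (XT.nd (nat_lit 234) (nat_lit 1748) (nat_lit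 0) (XT.nd (nat_lit 78) (nat_lit 1216) (nat_lit 0) (XT.lf (nat_lit 0) (nat_lit 9567875225) (nat_lit 836) (nat_lit 4856969648) (nat_lit 912) (nat_lit 21620480823) (nat_lit 354) (nat_lit 5) (nat_lit 365) (nat_lit 5) (nat_lit 366) (nat_lit 5) (nat_lit 390) (nat_lit 379) (nat_lit 251)) (XT.nd (nat_lit 78) (nat_lit 608) (nat_lit 0) (XT.lf (nat_lit 0) (nat_lit 6131994571) (nat_lit 608) (nat_lit 14340577790) (nat_lit 684) (nat_lit 16542282190) (nat_lit 346) (nat_lit 5) (nat_lit 354) (nat_lit 5) (nat_lit 355) (nat_lit 5) (nat_lit 391) (nat_lit 379) (nat_lit 250)) (XT.lf (nat_lit 0) (nat_lit 2768407487) (nat_lit 608) (nat_lit 24528212710) (nat_lit 684) (nat_lit 10722021633) (nat_lit 338) (nat_lit 5) (nat_lit 346) (nat_lit 5) (nat_lit 347) (nat_lit 5) (nat_lit 392) (nat_lit 379) (nat_lit 249)))) (XT.nd (nat_lit 156) (nat_lit 1140) (nat_lit 0) (XT.nd (nat_lit 78) (nat_lit 608) (nat_lit 0) (XT.lf (nat_lit 0)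 (nat_lit 34952897714) (nat_lit 684) (nat_lit 499763989) (nat_lit 76) (nat_lit 3605225952) (nat_lit 338) (nat_lit 5) (nat_lit 347) (nat_lit 5) (nat_lit 339) (nat_lit 5) (nat_lit 393) (nat_lit 379) (nat_lit 248)) (XT.lf (nat_lit 0) (nat_lit 3385912963) (nat_lit 608) (nat_lit 3717995285) (nat_lit 76) (nat_lit 33026412850) (nat_lit 330) (nat_lit 5) (nat_lit 338) (nat_lit 5) (nat_lit 331) (nat_lit 5) (nat_lit 394) (nat_lit 379) (nat_lit 247))) (XT.nd (nat_lit 78) (nat_lit 532) (nat_lit 0) (XT.lf (nat_lit 0) (nat_lit 11721035823) (nat_lit 684) (nat_lit 6915069232) (nat_lit 76) (nat_lit 22602414688) (nat_lit 322) (nat_lit 5) (nat_lit 331) (nat_lit 5) (nat_lit 323) (nat_lit 5) (nat_lit 395) (nat_lit 379) (nat_lit 246)) (XT.lf (nat_lit 0) (nat_lit 21002340287) (nat_lit 608) (nat_lit 10000678565) (nat_lit 76) (nat_lit 11383226705) (nat_lit 315) (nat_lit 5) (nat_lit 323) (nat_lit 5) (nat_lit 316) (nat_lit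 5) (nat_lit 396) (nat_lit 379) (nat_lit 245)))))) (XT.nd (nat_lit 546) (nat_lit 2660) (nat_lit 0) (XT.nd (nat_lit 234) (nat_lit 1824) (nat_lit 0) (XT.nd (nat_lit 78) (nat_lit 1064) (nat_lit 0) (XT.lf (nat_lit 0) (nat_lit 30609742809) (nat_lit 532) (nat_lit 687433616) (nat_lit 608) (nat_lit 12277697240) (nat_lit 308) (nat_lit 5) (nat_lit 315) (nat_lit 5) (nat_lit 316) (nat_lit 5) (nat_lit 397) (nat_lit 379) (nat_lit 244)) (XT.nd (nat_lit 78) (nat_lit 608) (nat_lit 0) (XT.lf (nat_lit 0) (nat_lit 28898078545) (nat_lit 456) (nat_lit 13885214854) (nat_lit 532) (nat_lit 2019343611) (nat_lit 302) (nat_lit 5) (nat_lit 308) (nat_lit 5) (nat_lit 309) (nat_lit 5) (nat_lit 398) (nat_lit 379) (nat_lit 243)) (XT.lf (nat_lit 0) (nat_lit 9160297226) (nat_lit 608) (nat_lit 18778824910) (nat_lit 76) (nat_lit 18132767985) (nat_lit 294) (nat_lit 5) (nat_lit 302) (nat_lit 5) (nat_lit 295) (nat_lit 5) (nat_lit 399)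 (nat_lit 379) (nat_lit 242)))) (XT.nd (nat_lit 156) (nat_lit 912) (nat_lit 0) (XT.nd (nat_lit 78) (nat_lit 456) (nat_lit 0) (XT.lf (nat_lit 0) (nat_lit 21451295398) (nat_lit 532) (nat_lit 21509131483) (nat_lit 76) (nat_lit 4425755048) (nat_lit 288) (nat_lit 5) (nat_lit 295) (nat_lit 5) (nat_lit 289) (nat_lit 5) (nat_lit 400) (nat_lit 379) (nat_lit 241)) (XT.lf (nat_lit 0) (nat_lit 24588515614) (nat_lit 456) (nat_lit 10477751418) (nat_lit 532) (nat_lit 13678638589) (nat_lit 282) (nat_lit 5) (nat_lit 288) (nat_lit 5) (nat_lit 289) (nat_lit 5) (nat_lit 401) (nat_lit 379) (nat_lit 240))) (XT.nd (nat_lit 78) (nat_lit 532) (nat_lit 0) (XT.lf (nat_lit 0) (nat_lit 23499734003) (nat_lit 380) (nat_lit 26534876362) (nat_lit 456) (nat_lit 116776440) (nat_lit 277) (nat_lit 5) (nat_lit 282) (nat_lit 5) (nat_lit 283) (nat_lit 5) (nat_lit 402) (nat_lit 379) (nat_lit 239)) (XT.lf (nat_lit 0) (nat_lit 14496742573)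 (nat_lit 532) (nat_lit 29070783141) (nat_lit 76) (nat_lit 8037118779) (nat_lit 270) (nat_lit 5) (nat_lit 277) (nat_lit 5) (nat_lit 271) (nat_lit 5) (nat_lit 403) (nat_lit 379) (nat_lit 238))))) (XT.nd (nat_lit 234) (nat_lit 1444) (nat_lit 0) (XT.nd (nat_lit 78) (nat_lit 836) (nat_lit 0) (XT.lf (nat_lit 0) (nat_lit 21761188385) (nat_lit 380) (nat_lit 8827649377) (nat_lit 456) (nat_lit 22519183157) (nat_lit 265) (nat_lit 5) (nat_lit 270) (nat_lit 5) (nat_lit 271) (nat_lit 5) (nat_lit 404) (nat_lit 379) (nat_lit 237)) (XT.nd (nat_lit 78) (nat_lit 456) (nat_lit 0) (XT.lf (nat_lit 0) (nat_lit 21204755213) (nat_lit 380) (nat_lit 27048956331) (nat_lit 456) (nat_lit 6409809408) (nat_lit 260) (nat_lit 5) (nat_lit 265) (nat_lit 5) (nat_lit 266) (nat_lit 5) (nat_lit 405) (nat_lit 379) (nat_lit 236)) (XT.lf (nat_lit 0) (nat_lit 11009568131) (nat_lit 456) (nat_lit 35409211318) (nat_lit 76) (nat_lit 9853701328)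 (nat_lit 254) (nat_lit 5) (nat_lit 260) (nat_lit 5) (nat_lit 255) (nat_lit 5) (nat_lit 406) (nat_lit 379) (nat_lit 235)))) (XT.nd (nat_lit 156) (nat_lit 760) (nat_lit 0) (XT.nd (nat_lit 78) (nat_lit 304) (nat_lit 0) (XT.lf (nat_lit 0) (nat_lit 20707168192) (nat_lit 380) (nat_lit 9277857956) (nat_lit 456) (nat_lit 27950428255) (nat_lit 249) (nat_lit 5) (nat_lit 254) (nat_lit 5) (nat_lit 255) (nat_lit 5) (nat_lit 407) (nat_lit 379) (nat_lit 234)) (XT.lf (nat_lit 0) (nat_lit 20810693391) (nat_lit 304) (nat_lit 29949062465) (nat_lit 380) (nat_lit 8896305889) (nat_lit 245) (nat_lit 5) (nat_lit 249) (nat_lit 5) (nat_lit 250) (nat_lit 5) (nat_lit 408) (nat_lit 379) (nat_lit 233))) (XT.nd (nat_lit 78) (nat_lit 304) (nat_lit 0) (XT.lf (nat_lit 0) (nat_lit 11669051587) (nat_lit 456) (nat_lit 40247582947) (nat_lit 76) (nat_lit 9519600827) (nat_lit 239) (nat_lit 5) (nat_lit 245) (nat_lit 5) (nat_lit 240) (nat_lit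 5) (nat_lit 409) (nat_lit 379) (nat_lit 232)) (XT.lf (nat_lit 0) (nat_lit 21766770771) (nat_lit 304) (nat_lit 12225815103) (nat_lit 380) (nat_lit 29282772371) (nat_lit 235) (nat_lit 5) (nat_lit 239) (nat_lit 5) (nat_lit 240) (nat_lit 5) (nat_lit 410) (nat_lit 379) (nat_lit 231))))))))
noncomputable def xc105 : XT := (XT.nd (nat_lit 50934) (nat_lit 0) (nat_lit 7220) (XT.nd (nat_lit 1014) (nat_lit 2736) (nat_lit 0) (XT.nd (nat_lit 468) (nat_lit 1900) (nat_lit 0) (XT.nd (nat_lit 234) (nat_lit 836) (nat_lit 0) (XT.nd (nat_lit 78) (nat_lit 684) (nat_lit 0) (XT.lf (nat_lit 0) (nat_lit 22679669418) (nat_lit 304) (nat_lit 35669065534) (nat_lit 380) (nat_lit 6830209179) (nat_lit 231) (nat_lit 5) (nat_lit 235) (nat_lit 5) (nat_lit 236) (nat_lit 5) (nat_lit 411) (nat_lit 379) (nat_lit 230)) (XT.nd (nat_lit 78) (nat_lit 304) (nat_lit 0) (XT.lf (nat_lit 0) (nat_lit 17265332609) (nat_lit 380) (nat_lit 43260161596)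 (nat_lit 76) (nat_lit 6621973055) (nat_lit 226) (nat_lit 5) (nat_lit 231) (nat_lit 5) (nat_lit 227) (nat_lit 5) (nat_lit 412) (nat_lit 379) (nat_lit 229)) (XT.lf (nat_lit 0) (nat_lit 25336691176) (nat_lit 304) (nat_lit 18131491855) (nat_lit 380) (nat_lit 25712891017) (nat_lit 222) (nat_lit 5) (nat_lit 226) (nat_lit 5) (nat_lit 227) (nat_lit 5) (nat_lit 413) (nat_lit 379) (nat_lit 228)))) (XT.nd (nat_lit 78) (nat_lit 532) (nat_lit 0) (XT.lf (nat_lit 0) (nat_lit 643171156) (nat_lit 304) (nat_lit 44060399144) (nat_lit 76) (nat_lit 26583733066) (nat_lit 218) (nat_lit 5) (nat_lit 222) (nat_lit 5) (nat_lit 219) (nat_lit 5) (nat_lit 414) (nat_lit 379) (nat_lit 227)) (XT.nd (nat_lit 78) (nat_lit 228) (nat_lit 0) (XT.lf (nat_lit 0) (nat_lit 28715598259) (nat_lit 380) (nat_lit 44065055585) (nat_lit 76) (nat_lit 682642497) (nat_lit 214) (nat_lit 5) (nat_lit 219) (nat_lit 5) (nat_lit 215) (nat_lit 5) (nat_lit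 415) (nat_lit 379) (nat_lit 226)) (XT.lf (nat_lit 0) (nat_lit 31878149336) (nat_lit 228) (nat_lit 27526498021) (nat_lit 304) (nat_lit 16307051588) (nat_lit 211) (nat_lit 5) (nat_lit 214) (nat_lit 5) (nat_lit 215) (nat_lit 5) (nat_lit 416) (nat_lit 379) (nat_lit 225))))) (XT.nd (nat_lit 234) (nat_lit 988) (nat_lit 0) (XT.nd (nat_lit 78) (nat_lit 532) (nat_lit 0) (XT.lf (nat_lit 0) (nat_lit 14284567694) (nat_lit 380) (nat_lit 43221261285) (nat_lit 76) (nat_lit 20532979763) (nat_lit 206) (nat_lit 5) (nat_lit 211) (nat_lit 5) (nat_lit 207) (nat_lit 5) (nat_lit 417) (nat_lit 379) (nat_lit 224)) (XT.nd (nat_lit 78) (nat_lit 304) (nat_lit 0) (XT.lf (nat_lit 0) (nat_lit 38141698824) (nat_lit 228) (nat_lit 9027561696) (nat_lit 304) (nat_lit 33275147409) (nat_lit 203) (nat_lit 5) (nat_lit 206) (nat_lit 5) (nat_lit 207) (nat_lit 5) (nat_lit 418) (nat_lit 379) (nat_lit 223)) (XT.lf (nat_lit 0) (nat_lit 17510602)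 (nat_lit 304) (nat_lit 41006708863) (nat_lit 76) (nat_lit 41908490863) (nat_lit 199) (nat_lit 5) (nat_lit 203) (nat_lit 5) (nat_lit 200) (nat_lit 5) (nat_lit 419) (nat_lit 379) (nat_lit 222)))) (XT.nd (nat_lit 156) (nat_lit 532) (nat_lit 0) (XT.nd (nat_lit 78) (nat_lit 228) (nat_lit 0) (XT.lf (nat_lit 0) (nat_lit 35370383183) (nat_lit 304) (nat_lit 39427438613) (nat_lit 76) (nat_lit 10705209459) (nat_lit 196) (nat_lit 5) (nat_lit 200) (nat_lit 5) (nat_lit 197) (nat_lit 5) (nat_lit 420) (nat_lit 379) (nat_lit 221)) (XT.lf (nat_lit 0) (nat_lit 50747790374) (nat_lit 228) (nat_lit 23068934518) (nat_lit 304) (nat_lit 14345368572) (nat_lit 193) (nat_lit 5) (nat_lit 196) (nat_lit 5) (nat_lit 197) (nat_lit 5) (nat_lit 421) (nat_lit 379) (nat_lit 220))) (XT.nd (nat_lit 78) (nat_lit 228) (nat_lit 0) (XT.lf (nat_lit 0) (nat_lit 24037508661) (nat_lit 304) (nat_lit 35052149301) (nat_lit 76) (nat_lit 31819964637)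 (nat_lit 189) (nat_lit 5) (nat_lit 193) (nat_lit 5) (nat_lit 190) (nat_lit 5) (nat_lit 422) (nat_lit 379) (nat_lit 219)) (XT.lf (nat_lit 0) (nat_lit 61608642359) (nat_lit 228) (nat_lit 3648726115) (nat_lit 304) (nat_lit 28496463028) (nat_lit 186) (nat_lit 5) (nat_lit 189) (nat_lit 5) (nat_lit 190) (nat_lit 5) (nat_lit 423) (nat_lit 379) (nat_lit 218)))))) (XT.nd (nat_lit 546) (nat_lit 1140) (nat_lit 0) (XT.nd (nat_lit 234) (nat_lit 912) (nat_lit 0) (XT.nd (nat_lit 78) (nat_lit 456) (nat_lit 0) (XT.lf (nat_lit 0) (nat_lit 13122383695) (nat_lit 228) (nat_lit 28924089793) (nat_lit 76) (nat_lit 54643736057) (nat_lit 183) (nat_lit 5) (nat_lit 186) (nat_lit 5) (nat_lit 184) (nat_lit 5) (nat_lit 424) (nat_lit 379) (nat_lit 217)) (XT.nd (nat_lit 78) (nat_lit 228) (nat_lit 0) (XT.lf (nat_lit 0) (nat_lit 57492385389) (nat_lit 304) (nat_lit 25191621713) (nat_lit 76) (nat_lit 17043148196) (nat_lit 180) (nat_lit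 5) (nat_lit 184) (nat_lit 5) (nat_lit 181) (nat_lit 5) (nat_lit 425) (nat_lit 379) (nat_lit 216)) (XT.lf (nat_lit 0) (nat_lit 2668730573) (nat_lit 228) (nat_lit 20861392525) (nat_lit 76) (nat_lit 79339693581) (nat_lit 177) (nat_lit 5) (nat_lit 180) (nat_lit 5) (nat_lit 178) (nat_lit 5) (nat_lit 426) (nat_lit 379) (nat_lit 215)))) (XT.nd (nat_lit 156) (nat_lit 532) (nat_lit 0) (XT.nd (nat_lit 78) (nat_lit 152) (nat_lit 0) (XT.lf (nat_lit 0) (nat_lit 50465798646) (nat_lit 304) (nat_lit 16247287387) (nat_lit 76) (nat_lit 39398323942) (nat_lit 174) (nat_lit 5) (nat_lit 178) (nat_lit 5) (nat_lit 175) (nat_lit 5) (nat_lit 427) (nat_lit 379) (nat_lit 214)) (XT.lf (nat_lit 0) (nat_lit 98736774836) (nat_lit 152) (nat_lit 3317432748) (nat_lit 228) (nat_lit 7418830729) (nat_lit 172) (nat_lit 5) (nat_lit 174) (nat_lit 5) (nat_lit 175) (nat_lit 5) (nat_lit 428) (nat_lit 379) (nat_lit 213))) (XT.nd (nat_lit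 78) (nat_lit 304) (nat_lit 0) (XT.lf (nat_lit 0) (nat_lit 44210002123) (nat_lit 228) (nat_lit 5069409317) (nat_lit 76) (nat_lit 63655850803) (nat_lit 169) (nat_lit 5) (nat_lit 172) (nat_lit 5) (nat_lit 170) (nat_lit 5) (nat_lit 429) (nat_lit 379) (nat_lit 212)) (XT.lf (nat_lit 0) (nat_lit 1570684281) (nat_lit 152) (nat_lit 98172330924) (nat_lit 228) (nat_lit 16781093411) (nat_lit 165) (nat_lit 5) (nat_lit 167) (nat_lit 5) (nat_lit 168) (nat_lit 5) (nat_lit 430) (nat_lit 379) (nat_lit 211))))) (XT.nd (nat_lit 390) (nat_lit 532) (nat_lit 0) (XT.nd (nat_lit 78) (nat_lit 380) (nat_lit 0) (XT.lf (nat_lit 0) (nat_lit 8739690972) (nat_lit 152) (nat_lit 30144297468) (nat_lit 228) (nat_lit 81341703242) (nat_lit 162) (nat_lit 5) (nat_lit 164) (nat_lit 5) (nat_lit 165) (nat_lit 5) (nat_lit 431) (nat_lit 379) (nat_lit 210)) (XT.nd (nat_lit 78) (nat_lit 228) (nat_lit 0) (XT.lf (nat_lit 0) (nat_lit 16687071069)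 (nat_lit 152) (nat_lit 82051871629) (nat_lit 228) (nat_lit 25315816408) (nat_lit 160) (nat_lit 5) (nat_lit 162) (nat_lit 5) (nat_lit 163) (nat_lit 5) (nat_lit 432) (nat_lit 379) (nat_lit 209)) (XT.lf (nat_lit 0) (nat_lit 25412476355) (nat_lit 152) (nat_lit 9150673502) (nat_lit 228) (nat_lit 93451294717) (nat_lit 157) (nat_lit 5) (nat_lit 159) (nat_lit 5) (nat_lit 160) (nat_lit 5) (nat_lit 433) (nat_lit 379) (nat_lit 208)))) (XT.nd (nat_lit 48828) (nat_lit 0) (nat_lit 17100) (XT.nd (nat_lit 48750) (nat_lit 0) (nat_lit 17024) (XT.lf (nat_lit 0) (nat_lit 55885169354) (nat_lit 152) (nat_lit 44799141116) (nat_lit 228) (nat_lit 40014943535) (nat_lit 150) (nat_lit 5) (nat_lit 152) (nat_lit 5) (nat_lit 153) (nat_lit 5) (nat_lit 436) (nat_lit 379) (nat_lit 205)) (XT.lf (nat_lit 0) (nat_lit 8127697297) (nat_lit 1292) (nat_lit 3092113054) (nat_lit 1292) (nat_lit 3092113054) (nat_lit 374) (nat_lit 3) (nat_lit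 391) (nat_lit 3) (nat_lit 391) (nat_lit 5) (nat_lit 380) (nat_lit 380) (nat_lit 260))) (XT.nd (nat_lit 78) (nat_lit 0) (nat_lit 0) (XT.lf (nat_lit 0) (nat_lit 16976670545) (nat_lit 1216) (nat_lit 11320676863) (nat_lit 1292) (nat_lit 1032648840) (nat_lit 375) (nat_lit 5) (nat_lit 391) (nat_lit 5) (nat_lit 392) (nat_lit 5) (nat_lit 381) (nat_lit 380) (nat_lit 259)) (XT.lf (nat_lit 76) (nat_lit 13503906185) (nat_lit 0) (nat_lit 4642267365) (nat_lit 1292) (nat_lit 11912914709) (nat_lit 376) (nat_lit 5) (nat_lit 375) (nat_lit 5) (nat_lit 392) (nat_lit 5) (nat_lit 382) (nat_lit 380) (nat_lit 258))))))) (XT.nd (nat_lit 1014) (nat_lit 6460) (nat_lit 0) (XT.nd (nat_lit 468) (nat_lit 2508) (nat_lit 0) (XT.nd (nat_lit 234) (nat_lit 988) (nat_lit 0) (XT.nd (nat_lit 78) (nat_lit 0) (nat_lit 76) (XT.lf (nat_lit 76) (nat_lit 8959845187) (nat_lit 0) (nat_lit 10804222496) (nat_lit 1292) (nat_lit 11048869710) (nat_lit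 377) (nat_lit 5) (nat_lit 376) (nat_lit 5) (nat_lit 393) (nat_lit 5) (nat_lit 383) (nat_lit 380) (nat_lit 257)) (XT.nd (nat_lit 78) (nat_lit 0) (nat_lit 76) (XT.lf (nat_lit 76) (nat_lit 4393446644) (nat_lit 0) (nat_lit 17458916251) (nat_lit 1292) (nat_lit 9740430897) (nat_lit 378) (nat_lit 5) (nat_lit 377) (nat_lit 5) (nat_lit 394) (nat_lit 5) (nat_lit 384) (nat_lit 380) (nat_lit 256)) (XT.lf (nat_lit 0) (nat_lit 24446815977) (nat_lit 1216) (nat_lit 185104943) (nat_lit 1292) (nat_lit 7767669796) (nat_lit 378) (nat_lit 5) (nat_lit 394) (nat_lit 5) (nat_lit 395) (nat_lit 5) (nat_lit 385) (nat_lit 380) (nat_lit 255)))) (XT.nd (nat_lit 78) (nat_lit 1216) (nat_lit 0) (XT.lf (nat_lit 0) (nat_lit 27623778755) (nat_lit 1216) (nat_lit 4686437082) (nat_lit 1292) (nat_lit 922928041) (nat_lit 379) (nat_lit 5) (nat_lit 395) (nat_lit 5) (nat_lit 396) (nat_lit 5) (nat_lit 386) (nat_lit 380) (nat_lit 254)) (XT.nd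 (nat_lit 78) (nat_lit 1216) (nat_lit 0) (XT.lf (nat_lit 76) (nat_lit 24841861266) (nat_lit 0) (nat_lit 6600393723) (nat_lit 1292) (nat_lit 2651639747) (nat_lit 380) (nat_lit 5) (nat_lit 379) (nat_lit 5) (nat_lit 396) (nat_lit 5) (nat_lit 387) (nat_lit 380) (nat_lit 253)) (XT.lf (nat_lit 0) (nat_lit 891272971) (nat_lit 1292) (nat_lit 13833505407) (nat_lit 1368) (nat_lit 20259389053) (nat_lit 363) (nat_lit 5) (nat_lit 380) (nat_lit 5) (nat_lit 381) (nat_lit 5) (nat_lit 388) (nat_lit 380) (nat_lit 252))))) (XT.nd (nat_lit 234) (nat_lit 1824) (nat_lit 0) (XT.nd (nat_lit 78) (nat_lit 760) (nat_lit 0) (XT.lf (nat_lit 0) (nat_lit 5004946559) (nat_lit 1292) (nat_lit 18435791199) (nat_lit 1368) (nat_lit 12463974730) (nat_lit 364) (nat_lit 5) (nat_lit 381) (nat_lit 5) (nat_lit 382) (nat_lit 5) (nat_lit 389) (nat_lit 380) (nat_lit 251)) (XT.nd (nat_lit 78) (nat_lit 836) (nat_lit 0) (XT.lf (nat_lit 0) (nat_lit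 9783879272) (nat_lit 1292) (nat_lit 23024158621) (nat_lit 76) (nat_lit 4049459643) (nat_lit 365) (nat_lit 5) (nat_lit 382) (nat_lit 5) (nat_lit 366) (nat_lit 5) (nat_lit 390) (nat_lit 380) (nat_lit 250)) (XT.lf (nat_lit 0) (nat_lit 10204560351) (nat_lit 836) (nat_lit 5117859228) (nat_lit 912) (nat_lit 22519882427) (nat_lit 354) (nat_lit 5) (nat_lit 365) (nat_lit 5) (nat_lit 366) (nat_lit 5) (nat_lit 391) (nat_lit 380) (nat_lit 249)))) (XT.nd (nat_lit 156) (nat_lit 608) (nat_lit 0) (XT.nd (nat_lit 78) (nat_lit 608) (nat_lit 0) (XT.lf (nat_lit 0) (nat_lit 6597655063) (nat_lit 608) (nat_lit 15067845421) (nat_lit 684) (nat_lit 17195017810) (nat_lit 346) (nat_lit 5) (nat_lit 354) (nat_lit 5) (nat_lit 355) (nat_lit 5) (nat_lit 392) (nat_lit 380) (nat_lit 248)) (XT.lf (nat_lit 0) (nat_lit 3066358177) (nat_lit 608) (nat_lit 25757770422) (nat_lit 684) (nat_lit 11090565001) (nat_lit 338) (nat_lit 5) (nat_lit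 346) (nat_lit 5) (nat_lit 347) (nat_lit 5) (nat_lit 393) (nat_lit 380) (nat_lit 247))) (XT.nd (nat_lit 78) (nat_lit 608) (nat_lit 0) (XT.lf (nat_lit 0) (nat_lit 36855444637) (nat_lit 684) (nat_lit 368141818) (nat_lit 76) (nat_lit 3782548520) (nat_lit 338) (nat_lit 5) (nat_lit 347) (nat_lit 5) (nat_lit 339) (nat_lit 5) (nat_lit 394) (nat_lit 380) (nat_lit 246)) (XT.lf (nat_lit 0) (nat_lit 3705671773) (nat_lit 608) (nat_lit 3748779372) (nat_lit 76) (nat_lit 34677872114) (nat_lit 330) (nat_lit 5) (nat_lit 338) (nat_lit 5) (nat_lit 331) (nat_lit 5) (nat_lit 395) (nat_lit 380) (nat_lit 245)))))) (XT.nd (nat_lit 546) (nat_lit 2812) (nat_lit 0) (XT.nd (nat_lit 234) (nat_lit 1976) (nat_lit 0) (XT.nd (nat_lit 78) (nat_lit 1064) (nat_lit 0) (XT.lf (nat_lit 0) (nat_lit 12451891122) (nat_lit 684) (nat_lit 7105867911) (nat_lit 76) (nat_lit 23738342592) (nat_lit 322) (nat_lit 5) (nat_lit 331) (nat_lit 5) (nat_lit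 323) (nat_lit 5) (nat_lit 396) (nat_lit 380) (nat_lit 244)) (XT.nd (nat_lit 78) (nat_lit 532) (nat_lit 0) (XT.lf (nat_lit 0) (nat_lit 22191919486) (nat_lit 608) (nat_lit 10346126069) (nat_lit 76) (nat_lit 11963328413) (nat_lit 315) (nat_lit 5) (nat_lit 323) (nat_lit 5) (nat_lit 316) (nat_lit 5) (nat_lit 397) (nat_lit 380) (nat_lit 243)) (XT.lf (nat_lit 0) (nat_lit 32290385184) (nat_lit 532) (nat_lit 705914574) (nat_lit 608) (nat_lit 12753289655) (nat_lit 308) (nat_lit 5) (nat_lit 315) (nat_lit 5) (nat_lit 316) (nat_lit 5) (nat_lit 398) (nat_lit 380) (nat_lit 242)))) (XT.nd (nat_lit 156) (nat_lit 912) (nat_lit 0) (XT.nd (nat_lit 78) (nat_lit 608) (nat_lit 0) (XT.lf (nat_lit 0) (nat_lit 30492597640) (nat_lit 456) (nat_lit 14559315063) (nat_lit 532) (nat_lit 1986972519) (nat_lit 302) (nat_lit 5) (nat_lit 308) (nat_lit 5) (nat_lit 309) (nat_lit 5) (nat_lit 399) (nat_lit 380) (nat_lit 241)) (XT.lf (nat_lit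 0) (nat_lit 9744454895) (nat_lit 608) (nat_lit 19566345113) (nat_lit 76) (nat_lit 19060900335) (nat_lit 294) (nat_lit 5) (nat_lit 302) (nat_lit 5) (nat_lit 295) (nat_lit 5) (nat_lit 400) (nat_lit 380) (nat_lit 240))) (XT.nd (nat_lit 78) (nat_lit 456) (nat_lit 0) (XT.lf (nat_lit 0) (nat_lit 22645655422) (nat_lit 532) (nat_lit 22434106390) (nat_lit 76) (nat_lit 4672075357) (nat_lit 288) (nat_lit 5) (nat_lit 295) (nat_lit 5) (nat_lit 289) (nat_lit 5) (nat_lit 401) (nat_lit 380) (nat_lit 239)) (XT.lf (nat_lit 0) (nat_lit 25964109535) (nat_lit 456) (nat_lit 10972871386) (nat_lit 532) (nat_lit 14241647965) (nat_lit 282) (nat_lit 5) (nat_lit 288) (nat_lit 5) (nat_lit 289) (nat_lit 5) (nat_lit 402) (nat_lit 380) (nat_lit 238))))) (XT.nd (nat_lit 234) (nat_lit 1520) (nat_lit 0) (XT.nd (nat_lit 78) (nat_lit 912) (nat_lit 0) (XT.lf (nat_lit 0) (nat_lit 24819851417) (nat_lit 380) (nat_lit 27829957951) (nat_lit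 456) (nat_lit 5742723) (nat_lit 277) (nat_lit 5) (nat_lit 282) (nat_lit 5) (nat_lit 283) (nat_lit 5) (nat_lit 403) (nat_lit 380) (nat_lit 237)) (XT.nd (nat_lit 78) (nat_lit 380) (nat_lit 0) (XT.lf (nat_lit 0) (nat_lit 15332405352) (nat_lit 532) (nat_lit 30378135234) (nat_lit 76) (nat_lit 8471011362) (nat_lit 270) (nat_lit 5) (nat_lit 277) (nat_lit 5) (nat_lit 271) (nat_lit 5) (nat_lit 404) (nat_lit 380) (nat_lit 236)) (XT.lf (nat_lit 0) (nat_lit 22991244445) (nat_lit 380) (nat_lit 9233948402) (nat_lit 456) (nat_lit 23535021722) (nat_lit 265) (nat_lit 5) (nat_lit 270) (nat_lit 5) (nat_lit 271) (nat_lit 5) (nat_lit 405) (nat_lit 380) (nat_lit 235)))) (XT.nd (nat_lit 156) (nat_lit 684) (nat_lit 0) (XT.nd (nat_lit 78) (nat_lit 456) (nat_lit 0) (XT.lf (nat_lit 0) (nat_lit 22405707189) (nat_lit 380) (nat_lit 28364185839) (nat_lit 456) (nat_lit 6623699094) (nat_lit 260) (nat_lit 5) (nat_lit 265) (nat_lit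 5) (nat_lit 266) (nat_lit 5) (nat_lit 406) (nat_lit 380) (nat_lit 234)) (XT.lf (nat_lit 0) (nat_lit 11661286858) (nat_lit 456) (nat_lit 37038307966) (nat_lit 76) (nat_lit 10383472784) (nat_lit 254) (nat_lit 5) (nat_lit 260) (nat_lit 5) (nat_lit 255) (nat_lit 5) (nat_lit 407) (nat_lit 380) (nat_lit 233))) (XT.nd (nat_lit 78) (nat_lit 304) (nat_lit 0) (XT.lf (nat_lit 0) (nat_lit 21879838352) (nat_lit 380) (nat_lit 9702178380) (nat_lit 456) (nat_lit 29247278212) (nat_lit 249) (nat_lit 5) (nat_lit 254) (nat_lit 5) (nat_lit 255) (nat_lit 5) (nat_lit 408) (nat_lit 380) (nat_lit 232)) (XT.lf (nat_lit 0) (nat_lit 21987082435) (nat_lit 304) (nat_lit 31405414436) (nat_lit 380) (nat_lit 9243525365) (nat_lit 245) (nat_lit 5) (nat_lit 249) (nat_lit 5) (nat_lit 250) (nat_lit 5) (nat_lit 409) (nat_lit 380) (nat_lit 231))))))))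
noncomputable def xc106 : XT := (XT.nd (nat_lit 51090) (nat_lit 0) (nat_lit 6460) (XT.nd (nat_lit 1014) (nat_lit 2508) (nat_lit 0) (XT.nd (nat_lit 468) (nat_lit 1900) (nat_lit 0) (XT.nd (nat_lit 234) (nat_lit 988) (nat_lit 0) (XT.nd (nat_lit 78) (nat_lit 608) (nat_lit 0) (XT.lf (nat_lit 0) (nat_lit 12345322928) (nat_lit 456) (nat_lit 42123777333) (nat_lit 76) (nat_lit 10036162305) (nat_lit 239) (nat_lit 5) (nat_lit 245) (nat_lit 5) (nat_lit 240) (nat_lit 5) (nat_lit 410) (nat_lit 380) (nat_lit 230)) (XT.nd (nat_lit 78) (nat_lit 304) (nat_lit 0) (XT.lf (nat_lit 0) (nat_lit 22987390362) (nat_lit 304) (nat_lit 12794495193) (nat_lit 380) (nat_lit 30654550491) (nat_lit 235) (nat_lit 5) (nat_lit 239) (nat_lit 5) (nat_lit 240) (nat_lit 5) (nat_lit 411) (nat_lit 380) (nat_lit 229)) (XT.lf (nat_lit 0) (nat_lit 23944357273) (nat_lit 304) (nat_lit 37408861301) (nat_lit 380) (nat_lit 7082061358) (nat_lit 231)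 (nat_lit 5) (nat_lit 235) (nat_lit 5) (nat_lit 236) (nat_lit 5) (nat_lit 412) (nat_lit 380) (nat_lit 228)))) (XT.nd (nat_lit 78) (nat_lit 608) (nat_lit 0) (XT.lf (nat_lit 0) (nat_lit 18213978616) (nat_lit 380) (nat_lit 45292383772) (nat_lit 76) (nat_lit 6995916853) (nat_lit 226) (nat_lit 5) (nat_lit 231) (nat_lit 5) (nat_lit 227) (nat_lit 5) (nat_lit 413) (nat_lit 380) (nat_lit 227)) (XT.nd (nat_lit 78) (nat_lit 304) (nat_lit 0) (XT.lf (nat_lit 0) (nat_lit 26730562686) (nat_lit 304) (nat_lit 18993564345) (nat_lit 380) (nat_lit 26913524674) (nat_lit 222) (nat_lit 5) (nat_lit 226) (nat_lit 5) (nat_lit 227) (nat_lit 5) (nat_lit 414) (nat_lit 380) (nat_lit 226)) (XT.lf (nat_lit 0) (nat_lit 756341250) (nat_lit 304) (nat_lit 46136421799) (nat_lit 76) (nat_lit 27956475138) (nat_lit 218) (nat_lit 5) (nat_lit 222) (nat_lit 5) (nat_lit 219) (nat_lit 5) (nat_lit 415) (nat_lit 380) (nat_lit 225))))) (XT.nd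 (nat_lit 234) (nat_lit 988) (nat_lit 0) (XT.nd (nat_lit 78) (nat_lit 608) (nat_lit 0) (XT.lf (nat_lit 0) (nat_lit 30230150533) (nat_lit 380) (nat_lit 46143033959) (nat_lit 76) (nat_lit 760913495) (nat_lit 214) (nat_lit 5) (nat_lit 219) (nat_lit 5) (nat_lit 215) (nat_lit 5) (nat_lit 416) (nat_lit 380) (nat_lit 224)) (XT.nd (nat_lit 78) (nat_lit 380) (nat_lit 0) (XT.lf (nat_lit 0) (nat_lit 33593740242) (nat_lit 228) (nat_lit 28857330475) (nat_lit 304) (nat_lit 17043927445) (nat_lit 211) (nat_lit 5) (nat_lit 214) (nat_lit 5) (nat_lit 215) (nat_lit 5) (nat_lit 417) (nat_lit 380) (nat_lit 223)) (XT.lf (nat_lit 0) (nat_lit 15073662819) (nat_lit 380) (nat_lit 45260843503) (nat_lit 76) (nat_lit 21603996855) (nat_lit 206) (nat_lit 5) (nat_lit 211) (nat_lit 5) (nat_lit 207) (nat_lit 5) (nat_lit 418) (nat_lit 380) (nat_lit 222)))) (XT.nd (nat_lit 156) (nat_lit 456) (nat_lit 0) (XT.nd (nat_lit 78) (nat_lit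 304) (nat_lit 0) (XT.lf (nat_lit 0) (nat_lit 40166782387) (nat_lit 228) (nat_lit 9433377091) (nat_lit 304) (nat_lit 34864295770) (nat_lit 203) (nat_lit 5) (nat_lit 206) (nat_lit 5) (nat_lit 207) (nat_lit 5) (nat_lit 419) (nat_lit 380) (nat_lit 221)) (XT.lf (nat_lit 0) (nat_lit 89606051) (nat_lit 304) (nat_lit 42939325309) (nat_lit 76) (nat_lit 44048277886) (nat_lit 199) (nat_lit 5) (nat_lit 203) (nat_lit 5) (nat_lit 200) (nat_lit 5) (nat_lit 420) (nat_lit 380) (nat_lit 220))) (XT.nd (nat_lit 78) (nat_lit 228) (nat_lit 0) (XT.lf (nat_lit 0) (nat_lit 37208266562) (nat_lit 304) (nat_lit 41282834685) (nat_lit 76) (nat_lit 11285000644) (nat_lit 196) (nat_lit 5) (nat_lit 200) (nat_lit 5) (nat_lit 197) (nat_lit 5) (nat_lit 421) (nat_lit 380) (nat_lit 219)) (XT.lf (nat_lit 0) (nat_lit 53397831327) (nat_lit 228) (nat_lit 24176873846) (nat_lit 304) (nat_lit 14993478643) (nat_lit 193) (nat_lit 5) (nat_lit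 196) (nat_lit 5) (nat_lit 197) (nat_lit 5) (nat_lit 422) (nat_lit 380) (nat_lit 218)))))) (XT.nd (nat_lit 546) (nat_lit 912) (nat_lit 0) (XT.nd (nat_lit 234) (nat_lit 836) (nat_lit 0) (XT.nd (nat_lit 78) (nat_lit 456) (nat_lit 0) (XT.lf (nat_lit 0) (nat_lit 25305461788) (nat_lit 304) (nat_lit 36692487712) (nat_lit 76) (nat_lit 33455171899) (nat_lit 189) (nat_lit 5) (nat_lit 193) (nat_lit 5) (nat_lit 190) (nat_lit 5) (nat_lit 423) (nat_lit 380) (nat_lit 217)) (XT.nd (nat_lit 78) (nat_lit 228) (nat_lit 0) (XT.lf (nat_lit 0) (nat_lit 64798125361) (nat_lit 228) (nat_lit 3786090936) (nat_lit 304) (nat_lit 29855387397) (nat_lit 186) (nat_lit 5) (nat_lit 189) (nat_lit 5) (nat_lit 190) (nat_lit 5) (nat_lit 424) (nat_lit 380) (nat_lit 216)) (XT.lf (nat_lit 0) (nat_lit 13841497956) (nat_lit 228) (nat_lit 30261672066) (nat_lit 76) (nat_lit 57419660147) (nat_lit 183) (nat_lit 5) (nat_lit 186) (nat_lit 5) (nat_lit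 184) (nat_lit 5) (nat_lit 425) (nat_lit 380) (nat_lit 215)))) (XT.nd (nat_lit 156) (nat_lit 380) (nat_lit 0) (XT.nd (nat_lit 78) (nat_lit 228) (nat_lit 0) (XT.lf (nat_lit 0) (nat_lit 60428441934) (nat_lit 304) (nat_lit 26344291683) (nat_lit 76) (nat_lit 17938936327) (nat_lit 180) (nat_lit 5) (nat_lit 184) (nat_lit 5) (nat_lit 181) (nat_lit 5) (nat_lit 426) (nat_lit 380) (nat_lit 214)) (XT.lf (nat_lit 0) (nat_lit 2862266236) (nat_lit 228) (nat_lit 21799419531) (nat_lit 76) (nat_lit 83349818772) (nat_lit 177) (nat_lit 5) (nat_lit 180) (nat_lit 5) (nat_lit 178) (nat_lit 5) (nat_lit 427) (nat_lit 380) (nat_lit 213))) (XT.nd (nat_lit 78) (nat_lit 152) (nat_lit 0) (XT.lf (nat_lit 0) (nat_lit 53047727802) (nat_lit 304) (nat_lit 16956294782) (nat_lit 76) (nat_lit 41411198713) (nat_lit 174) (nat_lit 5) (nat_lit 178) (nat_lit 5) (nat_lit 175) (nat_lit 5) (nat_lit 428) (nat_lit 380) (nat_lit 212)) (XT.lf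 (nat_lit 0) (nat_lit 103774007845) (nat_lit 152) (nat_lit 3439722049) (nat_lit 228) (nat_lit 7731255977) (nat_lit 172) (nat_lit 5) (nat_lit 174) (nat_lit 5) (nat_lit 175) (nat_lit 5) (nat_lit 429) (nat_lit 380) (nat_lit 211))))) (XT.nd (nat_lit 234) (nat_lit 152) (nat_lit 0) (XT.nd (nat_lit 78) (nat_lit 532) (nat_lit 0) (XT.lf (nat_lit 0) (nat_lit 46476506270) (nat_lit 228) (nat_lit 5223000136) (nat_lit 76) (nat_lit 66880838829) (nat_lit 169) (nat_lit 5) (nat_lit 172) (nat_lit 5) (nat_lit 170) (nat_lit 5) (nat_lit 430) (nat_lit 380) (nat_lit 210)) (XT.nd (nat_lit 78) (nat_lit 228) (nat_lit 0) (XT.lf (nat_lit 0) (nat_lit 1749407342) (nat_lit 152) (nat_lit 103036402373) (nat_lit 228) (nat_lit 17562835019) (nat_lit 165) (nat_lit 5) (nat_lit 167) (nat_lit 5) (nat_lit 168) (nat_lit 5) (nat_lit 431) (nat_lit 380) (nat_lit 209)) (XT.lf (nat_lit 0) (nat_lit 9275078801) (nat_lit 152) (nat_lit 31607573715)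 (nat_lit 228) (nat_lit 85352689810) (nat_lit 162) (nat_lit 5) (nat_lit 164) (nat_lit 5) (nat_lit 165) (nat_lit 5) (nat_lit 432) (nat_lit 380) (nat_lit 208)))) (XT.nd (nat_lit 49140) (nat_lit 0) (nat_lit 16340) (XT.nd (nat_lit 49062) (nat_lit 0) (nat_lit 16264) (XT.lf (nat_lit 0) (nat_lit 17618184037) (nat_lit 152) (nat_lit 86110909258) (nat_lit 228) (nat_lit 26526807662) (nat_lit 160) (nat_lit 5) (nat_lit 162) (nat_lit 5) (nat_lit 163) (nat_lit 5) (nat_lit 433) (nat_lit 380) (nat_lit 207)) (XT.lf (nat_lit 0) (nat_lit 8663578538) (nat_lit 1292) (nat_lit 3180028073) (nat_lit 1292) (nat_lit 3180028073) (nat_lit 374) (nat_lit 3) (nat_lit 391) (nat_lit 3) (nat_lit 391) (nat_lit 5) (nat_lit 381) (nat_lit 381) (nat_lit 258))) (XT.nd (nat_lit 78) (nat_lit 0) (nat_lit 0) (XT.lf (nat_lit 0) (nat_lit 18072271600) (nat_lit 1216) (nat_lit 11748578005) (nat_lit 1292) (nat_lit 968243429) (nat_lit 375) (nat_lit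 5) (nat_lit 391) (nat_lit 5) (nat_lit 392) (nat_lit 5) (nat_lit 382) (nat_lit 381) (nat_lit 257)) (XT.lf (nat_lit 76) (nat_lit 14313274649) (nat_lit 0) (nat_lit 4976514026) (nat_lit 1292) (nat_lit 12265164803) (nat_lit 376) (nat_lit 5) (nat_lit 375) (nat_lit 5) (nat_lit 392) (nat_lit 5) (nat_lit 383) (nat_lit 381) (nat_lit 256))))))) (XT.nd (nat_lit 1014) (nat_lit 6460) (nat_lit 0) (XT.nd (nat_lit 468) (nat_lit 2508) (nat_lit 0) (XT.nd (nat_lit 234) (nat_lit 988) (nat_lit 0) (XT.nd (nat_lit 78) (nat_lit 0) (nat_lit 76) (XT.lf (nat_lit 76) (nat_lit 9546004163) (nat_lit 0) (nat_lit 11431713790) (nat_lit 1292) (nat_lit 11369102903) (nat_lit 377) (nat_lit 5) (nat_lit 376) (nat_lit 5) (nat_lit 393) (nat_lit 5) (nat_lit 384) (nat_lit 381) (nat_lit 255)) (XT.nd (nat_lit 78) (nat_lit 0) (nat_lit 76) (XT.lf (nat_lit 76) (nat_lit 4754709647) (nat_lit 0) (nat_lit 18405544730) (nat_lit 1292) (nat_lit 10005720904)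 (nat_lit 378) (nat_lit 5) (nat_lit 377) (nat_lit 5) (nat_lit 394) (nat_lit 5) (nat_lit 385) (nat_lit 381) (nat_lit 254)) (XT.lf (nat_lit 0) (nat_lit 25873504447) (nat_lit 1216) (nat_lit 52686710) (nat_lit 1292) (nat_lit 8087248665) (nat_lit 378) (nat_lit 5) (nat_lit 394) (nat_lit 5) (nat_lit 395) (nat_lit 5) (nat_lit 386) (nat_lit 381) (nat_lit 253)))) (XT.nd (nat_lit 78) (nat_lit 1216) (nat_lit 0) (XT.lf (nat_lit 0) (nat_lit 29200346660) (nat_lit 1216) (nat_lit 4776707631) (nat_lit 1292) (nat_lit 911885410) (nat_lit 379) (nat_lit 5) (nat_lit 395) (nat_lit 5) (nat_lit 396) (nat_lit 5) (nat_lit 387) (nat_lit 381) (nat_lit 252)) (XT.nd (nat_lit 78) (nat_lit 1216) (nat_lit 0) (XT.lf (nat_lit 76) (nat_lit 26223876432) (nat_lit 0) (nat_lit 6977911531) (nat_lit 1292) (nat_lit 2591178903) (nat_lit 380) (nat_lit 5) (nat_lit 379) (nat_lit 5) (nat_lit 396) (nat_lit 5) (nat_lit 388) (nat_lit 381) (nat_lit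 251)) (XT.lf (nat_lit 0) (nat_lit 1117036930) (nat_lit 1292) (nat_lit 14379758243) (nat_lit 1368) (nat_lit 21231144620) (nat_lit 363) (nat_lit 5) (nat_lit 380) (nat_lit 5) (nat_lit 381) (nat_lit 5) (nat_lit 389) (nat_lit 381) (nat_lit 250))))) (XT.nd (nat_lit 234) (nat_lit 1824) (nat_lit 0) (XT.nd (nat_lit 78) (nat_lit 760) (nat_lit 0) (XT.lf (nat_lit 0) (nat_lit 5428809332) (nat_lit 1292) (nat_lit 19210794846) (nat_lit 1368) (nat_lit 13055135472) (nat_lit 364) (nat_lit 5) (nat_lit 381) (nat_lit 5) (nat_lit 382) (nat_lit 5) (nat_lit 390) (nat_lit 381) (nat_lit 249)) (XT.nd (nat_lit 78) (nat_lit 836) (nat_lit 0) (XT.lf (nat_lit 0) (nat_lit 10439559777) (nat_lit 1292) (nat_lit 24027554619) (nat_lit 76) (nat_lit 4228263420) (nat_lit 365) (nat_lit 5) (nat_lit 382) (nat_lit 5) (nat_lit 366) (nat_lit 5) (nat_lit 391) (nat_lit 381) (nat_lit 248)) (XT.lf (nat_lit 0) (nat_lit 10858363303) (nat_lit 836)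 (nat_lit 5390115997) (nat_lit 912) (nat_lit 23481139645) (nat_lit 354) (nat_lit 5) (nat_lit 365) (nat_lit 5) (nat_lit 366) (nat_lit 5) (nat_lit 392) (nat_lit 381) (nat_lit 247)))) (XT.nd (nat_lit 156) (nat_lit 608) (nat_lit 0) (XT.nd (nat_lit 78) (nat_lit 608) (nat_lit 0) (XT.lf (nat_lit 0) (nat_lit 7071810618) (nat_lit 608) (nat_lit 15830524531) (nat_lit 684) (nat_lit 17896602270) (nat_lit 346) (nat_lit 5) (nat_lit 354) (nat_lit 5) (nat_lit 355) (nat_lit 5) (nat_lit 393) (nat_lit 381) (nat_lit 246)) (XT.lf (nat_lit 0) (nat_lit 3364374785) (nat_lit 608) (nat_lit 27048513434) (nat_lit 684) (nat_lit 11493113465) (nat_lit 338) (nat_lit 5) (nat_lit 346) (nat_lit 5) (nat_lit 347) (nat_lit 5) (nat_lit 394) (nat_lit 381) (nat_lit 245))) (XT.nd (nat_lit 78) (nat_lit 608) (nat_lit 0) (XT.lf (nat_lit 0) (nat_lit 38838717584) (nat_lit 684) (nat_lit 244498686) (nat_lit 76) (nat_lit 3969010433) (nat_lit 338)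 (nat_lit 5) (nat_lit 347) (nat_lit 5) (nat_lit 339) (nat_lit 5) (nat_lit 395) (nat_lit 381) (nat_lit 244)) (XT.lf (nat_lit 0) (nat_lit 4027429884) (nat_lit 608) (nat_lit 3795523848) (nat_lit 76) (nat_lit 36411891454) (nat_lit 330) (nat_lit 5) (nat_lit 338) (nat_lit 5) (nat_lit 331) (nat_lit 5) (nat_lit 396) (nat_lit 381) (nat_lit 243)))))) (XT.nd (nat_lit 546) (nat_lit 2812) (nat_lit 0) (XT.nd (nat_lit 234) (nat_lit 1976) (nat_lit 0) (XT.nd (nat_lit 78) (nat_lit 1064) (nat_lit 0) (XT.lf (nat_lit 0) (nat_lit 13205826728) (nat_lit 684) (nat_lit 7320612752) (nat_lit 76) (nat_lit 24930526995) (nat_lit 322) (nat_lit 5) (nat_lit 331) (nat_lit 5) (nat_lit 323) (nat_lit 5) (nat_lit 397) (nat_lit 381) (nat_lit 242)) (XT.nd (nat_lit 78) (nat_lit 532) (nat_lit 0) (XT.lf (nat_lit 0) (nat_lit 23428011773) (nat_lit 608) (nat_lit 10723217929) (nat_lit 76) (nat_lit 12571418075) (nat_lit 315) (nat_lit 5) (nat_lit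 323) (nat_lit 5) (nat_lit 316) (nat_lit 5) (nat_lit 398) (nat_lit 381) (nat_lit 241)) (XT.lf (nat_lit 0) (nat_lit 34041099668) (nat_lit 532) (nat_lit 726796949) (nat_lit 608) (nat_lit 13265518811) (nat_lit 308) (nat_lit 5) (nat_lit 315) (nat_lit 5) (nat_lit 316) (nat_lit 5) (nat_lit 399) (nat_lit 381) (nat_lit 240)))) (XT.nd (nat_lit 156) (nat_lit 912) (nat_lit 0) (XT.nd (nat_lit 78) (nat_lit 608) (nat_lit 0) (XT.lf (nat_lit 0) (nat_lit 32152932889) (nat_lit 456) (nat_lit 15268994618) (nat_lit 532) (nat_lit 1965379401) (nat_lit 302) (nat_lit 5) (nat_lit 308) (nat_lit 5) (nat_lit 309) (nat_lit 5) (nat_lit 400) (nat_lit 381) (nat_lit 239)) (XT.lf (nat_lit 0) (nat_lit 10346092886) (nat_lit 608) (nat_lit 20407319018) (nat_lit 76) (nat_lit 20033440999) (nat_lit 294) (nat_lit 5) (nat_lit 302) (nat_lit 5) (nat_lit 295) (nat_lit 5) (nat_lit 401) (nat_lit 381) (nat_lit 238))) (XT.nd (nat_lit 78) (nat_lit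 456) (nat_lit 0) (XT.lf (nat_lit 0) (nat_lit 23888410078) (nat_lit 532) (nat_lit 23419320401) (nat_lit 76) (nat_lit 4928384391) (nat_lit 288) (nat_lit 5) (nat_lit 295) (nat_lit 5) (nat_lit 289) (nat_lit 5) (nat_lit 402) (nat_lit 381) (nat_lit 237)) (XT.lf (nat_lit 0) (nat_lit 27394893825) (nat_lit 456) (nat_lit 11495421891) (nat_lit 532) (nat_lit 14844050043) (nat_lit 282) (nat_lit 5) (nat_lit 288) (nat_lit 5) (nat_lit 289) (nat_lit 5) (nat_lit 403) (nat_lit 381) (nat_lit 236))))) (XT.nd (nat_lit 234) (nat_lit 1520) (nat_lit 0) (XT.nd (nat_lit 78) (nat_lit 836) (nat_lit 0) (XT.lf (nat_lit 0) (nat_lit 98026066) (nat_lit 456) (nat_lit 29093721335) (nat_lit 76) (nat_lit 26093465885) (nat_lit 276) (nat_lit 5) (nat_lit 282) (nat_lit 5) (nat_lit 277) (nat_lit 5) (nat_lit 404) (nat_lit 381) (nat_lit 235)) (XT.nd (nat_lit 78) (nat_lit 380) (nat_lit 0) (XT.lf (nat_lit 0) (nat_lit 16199547751) (nat_lit 532)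 (nat_lit 31764446020) (nat_lit 76) (nat_lit 8923620111) (nat_lit 270) (nat_lit 5) (nat_lit 277) (nat_lit 5) (nat_lit 271) (nat_lit 5) (nat_lit 405) (nat_lit 381) (nat_lit 234)) (XT.lf (nat_lit 0) (nat_lit 24269601807) (nat_lit 380) (nat_lit 9663824103) (nat_lit 456) (nat_lit 24611890185) (nat_lit 265) (nat_lit 5) (nat_lit 270) (nat_lit 5) (nat_lit 271) (nat_lit 5) (nat_lit 406) (nat_lit 381) (nat_lit 233)))) (XT.nd (nat_lit 156) (nat_lit 684) (nat_lit 0) (XT.nd (nat_lit 78) (nat_lit 456) (nat_lit 0) (XT.lf (nat_lit 0) (nat_lit 23653624490) (nat_lit 380) (nat_lit 29748637028) (nat_lit 456) (nat_lit 6858193994) (nat_lit 260) (nat_lit 5) (nat_lit 265) (nat_lit 5) (nat_lit 266) (nat_lit 5) (nat_lit 407) (nat_lit 381) (nat_lit 232)) (XT.lf (nat_lit 0) (nat_lit 12336179155) (nat_lit 456) (nat_lit 38762002122) (nat_lit 76) (nat_lit 10936284871) (nat_lit 254) (nat_lit 5) (nat_lit 260) (nat_lit 5) (nat_lit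 255) (nat_lit 5) (nat_lit 408) (nat_lit 381) (nat_lit 231))) (XT.nd (nat_lit 78) (nat_lit 304) (nat_lit 0) (XT.lf (nat_lit 0) (nat_lit 23098376075) (nat_lit 380) (nat_lit 10151393899) (nat_lit 456) (nat_lit 30618330145) (nat_lit 249) (nat_lit 5) (nat_lit 254) (nat_lit 5) (nat_lit 255) (nat_lit 5) (nat_lit 409) (nat_lit 381) (nat_lit 230)) (XT.lf (nat_lit 0) (nat_lit 23209660478) (nat_lit 304) (nat_lit 32938405201) (nat_lit 380) (nat_lit 9617179349) (nat_lit 245) (nat_lit 5) (nat_lit 249) (nat_lit 5) (nat_lit 250) (nat_lit 5) (nat_lit 410) (nat_lit 381) (nat_lit 229))))))))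
noncomputable def xc107 : XT := (XT.nd (nat_lit 51168) (nat_lit 0) (nat_lit 5852) (XT.nd (nat_lit 1014) (nat_lit 2356) (nat_lit 0) (XT.nd (nat_lit 468) (nat_lit 1900) (nat_lit 0) (XT.nd (nat_lit 234) (nat_lit 988) (nat_lit 0) (XT.nd (nat_lit 78) (nat_lit 608) (nat_lit 0) (XT.lf (nat_lit 0) (nat_lit 13046778427) (nat_lit 456) (nat_lit 44106442608) (nat_lit 76) (nat_lit 10574778980) (nat_lit 239) (nat_lit 5) (nat_lit 245) (nat_lit 5) (nat_lit 240) (nat_lit 5) (nat_lit 411) (nat_lit 381) (nat_lit 228)) (XT.nd (nat_lit 78) (nat_lit 304) (nat_lit 0) (XT.lf (nat_lit 0) (nat_lit 24256742693) (nat_lit 304) (nat_lit 13395570823) (nat_lit 380) (nat_lit 32103504321) (nat_lit 235) (nat_lit 5) (nat_lit 239) (nat_lit 5) (nat_lit 240) (nat_lit 5) (nat_lit 412) (nat_lit 381) (nat_lit 227)) (XT.lf (nat_lit 0) (nat_lit 25260127865) (nat_lit 304) (nat_lit 39239705717) (nat_lit 380) (nat_lit 7354841723) (nat_lit 231)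 (nat_lit 5) (nat_lit 235) (nat_lit 5) (nat_lit 236) (nat_lit 5) (nat_lit 413) (nat_lit 381) (nat_lit 226)))) (XT.nd (nat_lit 78) (nat_lit 608) (nat_lit 0) (XT.lf (nat_lit 0) (nat_lit 19202119158) (nat_lit 380) (nat_lit 47438376292) (nat_lit 76) (nat_lit 7384574506) (nat_lit 226) (nat_lit 5) (nat_lit 231) (nat_lit 5) (nat_lit 227) (nat_lit 5) (nat_lit 414) (nat_lit 381) (nat_lit 225)) (XT.nd (nat_lit 78) (nat_lit 304) (nat_lit 0) (XT.lf (nat_lit 0) (nat_lit 28182317080) (nat_lit 304) (nat_lit 19902877843) (nat_lit 380) (nat_lit 28182093521) (nat_lit 222) (nat_lit 5) (nat_lit 226) (nat_lit 5) (nat_lit 227) (nat_lit 5) (nat_lit 415) (nat_lit 381) (nat_lit 224)) (XT.lf (nat_lit 0) (nat_lit 867638164) (nat_lit 304) (nat_lit 48328052592) (nat_lit 76) (nat_lit 29393804945) (nat_lit 218) (nat_lit 5) (nat_lit 222) (nat_lit 5) (nat_lit 219) (nat_lit 5) (nat_lit 416) (nat_lit 381) (nat_lit 223))))) (XT.nd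 (nat_lit 234) (nat_lit 988) (nat_lit 0) (XT.nd (nat_lit 78) (nat_lit 608) (nat_lit 0) (XT.lf (nat_lit 0) (nat_lit 31813106913) (nat_lit 380) (nat_lit 48336558079) (nat_lit 76) (nat_lit 838994428) (nat_lit 214) (nat_lit 5) (nat_lit 219) (nat_lit 5) (nat_lit 215) (nat_lit 5) (nat_lit 417) (nat_lit 381) (nat_lit 222)) (XT.nd (nat_lit 78) (nat_lit 380) (nat_lit 0) (XT.lf (nat_lit 0) (nat_lit 35383797720) (nat_lit 228) (nat_lit 30258934008) (nat_lit 304) (nat_lit 17824943118) (nat_lit 211) (nat_lit 5) (nat_lit 214) (nat_lit 5) (nat_lit 215) (nat_lit 5) (nat_lit 418) (nat_lit 381) (nat_lit 221)) (XT.lf (nat_lit 0) (nat_lit 15895252300) (nat_lit 380) (nat_lit 47413698970) (nat_lit 76) (nat_lit 22724439877) (nat_lit 206) (nat_lit 5) (nat_lit 211) (nat_lit 5) (nat_lit 207) (nat_lit 5) (nat_lit 419) (nat_lit 381) (nat_lit 220)))) (XT.nd (nat_lit 156) (nat_lit 456) (nat_lit 0) (XT.nd (nat_lit 78) (nat_lit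 304) (nat_lit 0) (XT.lf (nat_lit 0) (nat_lit 42282149736) (nat_lit 228) (nat_lit 9863719242) (nat_lit 304) (nat_lit 36539837987) (nat_lit 203) (nat_lit 5) (nat_lit 206) (nat_lit 5) (nat_lit 207) (nat_lit 5) (nat_lit 420) (nat_lit 381) (nat_lit 219)) (XT.lf (nat_lit 0) (nat_lit 158684919) (nat_lit 304) (nat_lit 44979516975) (nat_lit 76) (nat_lit 46290929858) (nat_lit 199) (nat_lit 5) (nat_lit 203) (nat_lit 5) (nat_lit 200) (nat_lit 5) (nat_lit 421) (nat_lit 381) (nat_lit 218))) (XT.nd (nat_lit 78) (nat_lit 228) (nat_lit 0) (XT.lf (nat_lit 0) (nat_lit 39131595282) (nat_lit 304) (nat_lit 43241782897) (nat_lit 76) (nat_lit 11889641345) (nat_lit 196) (nat_lit 5) (nat_lit 200) (nat_lit 5) (nat_lit 197) (nat_lit 5) (nat_lit 422) (nat_lit 381) (nat_lit 217)) (XT.lf (nat_lit 0) (nat_lit 56169901065) (nat_lit 228) (nat_lit 25344440987) (nat_lit 304) (nat_lit 15680423907) (nat_lit 193) (nat_lit 5) (nat_lit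 196) (nat_lit 5) (nat_lit 197) (nat_lit 5) (nat_lit 423) (nat_lit 381) (nat_lit 216)))))) (XT.nd (nat_lit 546) (nat_lit 760) (nat_lit 0) (XT.nd (nat_lit 234) (nat_lit 836) (nat_lit 0) (XT.nd (nat_lit 78) (nat_lit 456) (nat_lit 0) (XT.lf (nat_lit 0) (nat_lit 26630669293) (nat_lit 304) (nat_lit 38425280756) (nat_lit 76) (nat_lit 35168029387) (nat_lit 189) (nat_lit 5) (nat_lit 193) (nat_lit 5) (nat_lit 190) (nat_lit 5) (nat_lit 424) (nat_lit 381) (nat_lit 215)) (XT.nd (nat_lit 78) (nat_lit 228) (nat_lit 0) (XT.lf (nat_lit 0) (nat_lit 68136943996) (nat_lit 228) (nat_lit 3934514319) (nat_lit 304) (nat_lit 31288384628) (nat_lit 186) (nat_lit 5) (nat_lit 189) (nat_lit 5) (nat_lit 190) (nat_lit 5) (nat_lit 425) (nat_lit 381) (nat_lit 214)) (XT.lf (nat_lit 0) (nat_lit 14590711245) (nat_lit 228) (nat_lit 31676232117) (nat_lit 76) (nat_lit 60330314164) (nat_lit 183) (nat_lit 5) (nat_lit 186) (nat_lit 5) (nat_lit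 184) (nat_lit 5) (nat_lit 426) (nat_lit 381) (nat_lit 213)))) (XT.nd (nat_lit 156) (nat_lit 380) (nat_lit 0) (XT.nd (nat_lit 78) (nat_lit 228) (nat_lit 0) (XT.lf (nat_lit 0) (nat_lit 63505589451) (nat_lit 304) (nat_lit 27564534734) (nat_lit 76) (nat_lit 18875457494) (nat_lit 180) (nat_lit 5) (nat_lit 184) (nat_lit 5) (nat_lit 181) (nat_lit 5) (nat_lit 427) (nat_lit 381) (nat_lit 212)) (XT.lf (nat_lit 0) (nat_lit 3059891235) (nat_lit 228) (nat_lit 22794113754) (nat_lit 76) (nat_lit 87556439426) (nat_lit 177) (nat_lit 5) (nat_lit 180) (nat_lit 5) (nat_lit 178) (nat_lit 5) (nat_lit 428) (nat_lit 381) (nat_lit 211))) (XT.nd (nat_lit 78) (nat_lit 152) (nat_lit 0) (XT.lf (nat_lit 0) (nat_lit 55753301697) (nat_lit 304) (nat_lit 17710361699) (nat_lit 76) (nat_lit 43520723341) (nat_lit 174) (nat_lit 5) (nat_lit 178) (nat_lit 5) (nat_lit 175) (nat_lit 5) (nat_lit 429) (nat_lit 381) (nat_lit 210)) (XT.lf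 (nat_lit 0) (nat_lit 109053768798) (nat_lit 152) (nat_lit 3572177687) (nat_lit 228) (nat_lit 8064742776) (nat_lit 172) (nat_lit 5) (nat_lit 174) (nat_lit 5) (nat_lit 175) (nat_lit 5) (nat_lit 430) (nat_lit 381) (nat_lit 209))))) (XT.nd (nat_lit 49296) (nat_lit 0) (nat_lit 16112) (XT.nd (nat_lit 78) (nat_lit 532) (nat_lit 0) (XT.lf (nat_lit 0) (nat_lit 48851128900) (nat_lit 228) (nat_lit 5393556358) (nat_lit 76) (nat_lit 70263153320) (nat_lit 169) (nat_lit 5) (nat_lit 172) (nat_lit 5) (nat_lit 170) (nat_lit 5) (nat_lit 431) (nat_lit 381) (nat_lit 208)) (XT.nd (nat_lit 78) (nat_lit 228) (nat_lit 0) (XT.lf (nat_lit 0) (nat_lit 1927751947) (nat_lit 152) (nat_lit 108147818776) (nat_lit 228) (nat_lit 18388992132) (nat_lit 165) (nat_lit 5) (nat_lit 167) (nat_lit 5) (nat_lit 168) (nat_lit 5) (nat_lit 432) (nat_lit 381) (nat_lit 207)) (XT.lf (nat_lit 0) (nat_lit 9828087416) (nat_lit 152) (nat_lit 33148098772)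 (nat_lit 228) (nat_lit 89569441223) (nat_lit 162) (nat_lit 5) (nat_lit 164) (nat_lit 5) (nat_lit 165) (nat_lit 5) (nat_lit 433) (nat_lit 381) (nat_lit 206)))) (XT.nd (nat_lit 156) (nat_lit 0) (nat_lit 76) (XT.nd (nat_lit 78) (nat_lit 0) (nat_lit 76) (XT.lf (nat_lit 0) (nat_lit 9214214496) (nat_lit 1292) (nat_lit 3278539106) (nat_lit 1292) (nat_lit 3278539106) (nat_lit 374) (nat_lit 3) (nat_lit 391) (nat_lit 3) (nat_lit 391) (nat_lit 5) (nat_lit 382) (nat_lit 382) (nat_lit 256)) (XT.lf (nat_lit 0) (nat_lit 19199710602) (nat_lit 1216) (nat_lit 12210716474) (nat_lit 1292) (nat_lit 911405847) (nat_lit 375) (nat_lit 5) (nat_lit 391) (nat_lit 5) (nat_lit 392) (nat_lit 5) (nat_lit 383) (nat_lit 382) (nat_lit 255))) (XT.nd (nat_lit 78) (nat_lit 0) (nat_lit 76) (XT.lf (nat_lit 76) (nat_lit 15150637388) (nat_lit 0) (nat_lit 5317977635) (nat_lit 1292) (nat_lit 12657656022) (nat_lit 376) (nat_lit 5) (nat_lit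 375) (nat_lit 5) (nat_lit 392) (nat_lit 5) (nat_lit 384) (nat_lit 382) (nat_lit 254)) (XT.lf (nat_lit 76) (nat_lit 10148625656) (nat_lit 0) (nat_lit 12082465166) (nat_lit 1292) (nat_lit 11726936468) (nat_lit 377) (nat_lit 5) (nat_lit 376) (nat_lit 5) (nat_lit 393) (nat_lit 5) (nat_lit 385) (nat_lit 382) (nat_lit 253))))))) (XT.nd (nat_lit 1014) (nat_lit 6308) (nat_lit 0) (XT.nd (nat_lit 468) (nat_lit 3116) (nat_lit 0) (XT.nd (nat_lit 234) (nat_lit 1064) (nat_lit 0) (XT.nd (nat_lit 78) (nat_lit 0) (nat_lit 76) (XT.lf (nat_lit 76) (nat_lit 5120872042) (nat_lit 0) (nat_lit 19392654317) (nat_lit 1292) (nat_lit 10304889908) (nat_lit 378) (nat_lit 5) (nat_lit 377) (nat_lit 5) (nat_lit 394) (nat_lit 5) (nat_lit 386) (nat_lit 382) (nat_lit 252)) (XT.nd (nat_lit 78) (nat_lit 0) (nat_lit 76) (XT.lf (nat_lit 76) (nat_lit 74637421) (nat_lit 0) (nat_lit 27278609070) (nat_lit 1292) (nat_lit 8355283318) (nat_lit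 379) (nat_lit 5) (nat_lit 378) (nat_lit 5) (nat_lit 395) (nat_lit 5) (nat_lit 387) (nat_lit 382) (nat_lit 251)) (XT.lf (nat_lit 0) (nat_lit 30837578477) (nat_lit 1216) (nat_lit 4884884233) (nat_lit 1292) (nat_lit 905607543) (nat_lit 379) (nat_lit 5) (nat_lit 395) (nat_lit 5) (nat_lit 396) (nat_lit 5) (nat_lit 388) (nat_lit 382) (nat_lit 250)))) (XT.nd (nat_lit 78) (nat_lit 1216) (nat_lit 0) (XT.lf (nat_lit 76) (nat_lit 27661983726) (nat_lit 0) (nat_lit 7369889304) (nat_lit 1292) (nat_lit 2545642310) (nat_lit 380) (nat_lit 5) (nat_lit 379) (nat_lit 5) (nat_lit 396) (nat_lit 5) (nat_lit 389) (nat_lit 382) (nat_lit 249)) (XT.nd (nat_lit 78) (nat_lit 0) (nat_lit 76) (XT.lf (nat_lit 0) (nat_lit 1337242800) (nat_lit 1292) (nat_lit 14966843720) (nat_lit 1368) (nat_lit 22255319642) (nat_lit 363) (nat_lit 5) (nat_lit 380) (nat_lit 5) (nat_lit 381) (nat_lit 5) (nat_lit 390) (nat_lit 382) (nat_lit 248)) (XT.lf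 (nat_lit 0) (nat_lit 5857724126) (nat_lit 1292) (nat_lit 20038195437) (nat_lit 1368) (nat_lit 13678832839) (nat_lit 364) (nat_lit 5) (nat_lit 381) (nat_lit 5) (nat_lit 382) (nat_lit 5) (nat_lit 391) (nat_lit 382) (nat_lit 247))))) (XT.nd (nat_lit 234) (nat_lit 1824) (nat_lit 0) (XT.nd (nat_lit 78) (nat_lit 1444) (nat_lit 0) (XT.lf (nat_lit 0) (nat_lit 11112545968) (nat_lit 1292) (nat_lit 25094862569) (nat_lit 76) (nat_lit 4418207925) (nat_lit 365) (nat_lit 5) (nat_lit 382) (nat_lit 5) (nat_lit 366) (nat_lit 5) (nat_lit 392) (nat_lit 382) (nat_lit 246)) (XT.nd (nat_lit 78) (nat_lit 608) (nat_lit 0) (XT.lf (nat_lit 0) (nat_lit 11531508166) (nat_lit 836) (nat_lit 5674464252) (nat_lit 912) (nat_lit 24505775399) (nat_lit 354) (nat_lit 5) (nat_lit 365) (nat_lit 5) (nat_lit 366) (nat_lit 5) (nat_lit 393) (nat_lit 382) (nat_lit 245)) (XT.lf (nat_lit 0) (nat_lit 7556260833) (nat_lit 608) (nat_lit 16630474195)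 (nat_lit 684) (nat_lit 18647970769) (nat_lit 346) (nat_lit 5) (nat_lit 354) (nat_lit 5) (nat_lit 355) (nat_lit 5) (nat_lit 394) (nat_lit 382) (nat_lit 244)))) (XT.nd (nat_lit 156) (nat_lit 1216) (nat_lit 0) (XT.nd (nat_lit 78) (nat_lit 0) (nat_lit 0) (XT.lf (nat_lit 0) (nat_lit 3663839510) (nat_lit 608) (nat_lit 28403528213) (nat_lit 684) (nat_lit 11929918993) (nat_lit 338) (nat_lit 5) (nat_lit 346) (nat_lit 5) (nat_lit 347) (nat_lit 5) (nat_lit 395) (nat_lit 382) (nat_lit 243)) (XT.lf (nat_lit 0) (nat_lit 40908091754) (nat_lit 684) (nat_lit 127879881) (nat_lit 76) (nat_lit 4165043255) (nat_lit 338) (nat_lit 5) (nat_lit 347) (nat_lit 5) (nat_lit 339) (nat_lit 5) (nat_lit 396) (nat_lit 382) (nat_lit 242))) (XT.nd (nat_lit 78) (nat_lit 608) (nat_lit 0) (XT.lf (nat_lit 0) (nat_lit 4352587794) (nat_lit 608) (nat_lit 3857685989) (nat_lit 76) (nat_lit 38232600071) (nat_lit 330) (nat_lit 5) (nat_lit 338)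 (nat_lit 5) (nat_lit 331) (nat_lit 5) (nat_lit 397) (nat_lit 382) (nat_lit 241)) (XT.lf (nat_lit 0) (nat_lit 13985248269) (nat_lit 684) (nat_lit 7559161706) (nat_lit 76) (nat_lit 26181830918) (nat_lit 322) (nat_lit 5) (nat_lit 331) (nat_lit 5) (nat_lit 323) (nat_lit 5) (nat_lit 398) (nat_lit 382) (nat_lit 240)))))) (XT.nd (nat_lit 546) (nat_lit 2812) (nat_lit 0) (XT.nd (nat_lit 234) (nat_lit 1976) (nat_lit 0) (XT.nd (nat_lit 78) (nat_lit 988) (nat_lit 0) (XT.lf (nat_lit 0) (nat_lit 24714148246) (nat_lit 608) (nat_lit 11132200193) (nat_lit 76) (nat_lit 13208989652) (nat_lit 315) (nat_lit 5) (nat_lit 323) (nat_lit 5) (nat_lit 316) (nat_lit 5) (nat_lit 399) (nat_lit 382) (nat_lit 239)) (XT.nd (nat_lit 78) (nat_lit 456) (nat_lit 0) (XT.lf (nat_lit 0) (nat_lit 35866687735) (nat_lit 532) (nat_lit 750063460) (nat_lit 608) (nat_lit 13815021213) (nat_lit 308) (nat_lit 5) (nat_lit 315) (nat_lit 5) (nat_lit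 316) (nat_lit 5) (nat_lit 400) (nat_lit 382) (nat_lit 238)) (XT.lf (nat_lit 0) (nat_lit 33883668303) (nat_lit 456) (nat_lit 16015858228) (nat_lit 532) (nat_lit 1953950644) (nat_lit 302) (nat_lit 5) (nat_lit 308) (nat_lit 5) (nat_lit 309) (nat_lit 5) (nat_lit 401) (nat_lit 382) (nat_lit 237)))) (XT.nd (nat_lit 156) (nat_lit 912) (nat_lit 0) (XT.nd (nat_lit 78) (nat_lit 456) (nat_lit 0) (XT.lf (nat_lit 0) (nat_lit 10967175530) (nat_lit 608) (nat_lit 21303110502) (nat_lit 76) (nat_lit 21052796175) (nat_lit 294) (nat_lit 5) (nat_lit 302) (nat_lit 5) (nat_lit 295) (nat_lit 5) (nat_lit 402) (nat_lit 382) (nat_lit 236)) (XT.lf (nat_lit 0) (nat_lit 25183031838) (nat_lit 532) (nat_lit 24466484781) (nat_lit 76) (nat_lit 5195397957) (nat_lit 288) (nat_lit 5) (nat_lit 295) (nat_lit 5) (nat_lit 289) (nat_lit 5) (nat_lit 403) (nat_lit 382) (nat_lit 235))) (XT.nd (nat_lit 78) (nat_lit 456) (nat_lit 0) (XT.lf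 (nat_lit 0) (nat_lit 28884891407) (nat_lit 456) (nat_lit 12046525807) (nat_lit 532) (nat_lit 15486769262) (nat_lit 282) (nat_lit 5) (nat_lit 288) (nat_lit 5) (nat_lit 289) (nat_lit 5) (nat_lit 404) (nat_lit 382) (nat_lit 234)) (XT.lf (nat_lit 0) (nat_lit 197202438) (nat_lit 456) (nat_lit 30427131746) (nat_lit 76) (nat_lit 27422311515) (nat_lit 276) (nat_lit 5) (nat_lit 282) (nat_lit 5) (nat_lit 277) (nat_lit 5) (nat_lit 405) (nat_lit 382) (nat_lit 233))))) (XT.nd (nat_lit 234) (nat_lit 1596) (nat_lit 0) (XT.nd (nat_lit 78) (nat_lit 760) (nat_lit 0) (XT.lf (nat_lit 0) (nat_lit 17100701675) (nat_lit 532) (nat_lit 33232399862) (nat_lit 76) (nat_lit 9396157743) (nat_lit 270) (nat_lit 5) (nat_lit 277) (nat_lit 5) (nat_lit 271) (nat_lit 5) (nat_lit 406) (nat_lit 382) (nat_lit 232)) (XT.nd (nat_lit 78) (nat_lit 380) (nat_lit 0) (XT.lf (nat_lit 0) (nat_lit 25599902885) (nat_lit 380) (nat_lit 10118152072)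 (nat_lit 456) (nat_lit 25751888210) (nat_lit 265) (nat_lit 5) (nat_lit 270) (nat_lit 5) (nat_lit 271) (nat_lit 5) (nat_lit 407) (nat_lit 382) (nat_lit 231)) (XT.lf (nat_lit 0) (nat_lit 24952071649) (nat_lit 380) (nat_lit 31205449285) (nat_lit 456) (nat_lit 7113402965) (nat_lit 260) (nat_lit 5) (nat_lit 265) (nat_lit 5) (nat_lit 266) (nat_lit 5) (nat_lit 408) (nat_lit 382) (nat_lit 230)))) (XT.nd (nat_lit 156) (nat_lit 760) (nat_lit 0) (XT.nd (nat_lit 78) (nat_lit 380) (nat_lit 0) (XT.lf (nat_lit 0) (nat_lit 13036278775) (nat_lit 456) (nat_lit 40583801783) (nat_lit 76) (nat_lit 11513610179) (nat_lit 254) (nat_lit 5) (nat_lit 260) (nat_lit 5) (nat_lit 255) (nat_lit 5) (nat_lit 409) (nat_lit 382) (nat_lit 229)) (XT.lf (nat_lit 0) (nat_lit 24366261595) (nat_lit 380) (nat_lit 10626407223) (nat_lit 456) (nat_lit 32066423997) (nat_lit 249) (nat_lit 5) (nat_lit 254) (nat_lit 5) (nat_lit 255) (nat_lit 5)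 (nat_lit 410) (nat_lit 382) (nat_lit 228))) (XT.nd (nat_lit 78) (nat_lit 456) (nat_lit 0) (XT.lf (nat_lit 0) (nat_lit 24481911231) (nat_lit 304) (nat_lit 34551511442) (nat_lit 380) (nat_lit 10017745995) (nat_lit 245) (nat_lit 5) (nat_lit 249) (nat_lit 5) (nat_lit 250) (nat_lit 5) (nat_lit 411) (nat_lit 382) (nat_lit 227)) (XT.lf (nat_lit 0) (nat_lit 13775479572) (nat_lit 456) (nat_lit 46199725199) (nat_lit 76) (nat_lit 11136904377) (nat_lit 239) (nat_lit 5) (nat_lit 245) (nat_lit 5) (nat_lit 240) (nat_lit 5) (nat_lit 412) (nat_lit 382) (nat_lit 226))))))))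
noncomputable def xc108 : XT := (XT.nd (nat_lit 51246) (nat_lit 0) (nat_lit 5016) (XT.nd (nat_lit 1014) (nat_lit 1824) (nat_lit 0) (XT.nd (nat_lit 468) (nat_lit 1900) (nat_lit 0) (XT.nd (nat_lit 234) (nat_lit 912) (nat_lit 0) (XT.nd (nat_lit 78) (nat_lit 684) (nat_lit 0) (XT.lf (nat_lit 0) (nat_lit 25578407777) (nat_lit 304) (nat_lit 14030293464) (nat_lit 380) (nat_lit 33632694327) (nat_lit 235) (nat_lit 5) (nat_lit 239) (nat_lit 5) (nat_lit 240) (nat_lit 5) (nat_lit 413) (nat_lit 382) (nat_lit 225)) (XT.nd (nat_lit 78) (nat_lit 380) (nat_lit 0) (XT.lf (nat_lit 0) (nat_lit 26630665078) (nat_lit 304) (nat_lit 41165773862) (nat_lit 380) (nat_lit 7648821720) (nat_lit 231) (nat_lit 5) (nat_lit 235) (nat_lit 5) (nat_lit 236) (nat_lit 5) (nat_lit 414) (nat_lit 382) (nat_lit 224)) (XT.lf (nat_lit 0) (nat_lit 20232466940) (nat_lit 380) (nat_lit 49702697220) (nat_lit 76) (nat_lit 7789052039) (nat_lit 226)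 (nat_lit 5) (nat_lit 231) (nat_lit 5) (nat_lit 227) (nat_lit 5) (nat_lit 415) (nat_lit 382) (nat_lit 223)))) (XT.nd (nat_lit 78) (nat_lit 608) (nat_lit 0) (XT.lf (nat_lit 0) (nat_lit 29695946548) (nat_lit 304) (nat_lit 20861409745) (nat_lit 380) (nat_lit 29521259525) (nat_lit 222) (nat_lit 5) (nat_lit 226) (nat_lit 5) (nat_lit 227) (nat_lit 5) (nat_lit 416) (nat_lit 382) (nat_lit 222)) (XT.nd (nat_lit 78) (nat_lit 304) (nat_lit 0) (XT.lf (nat_lit 0) (nat_lit 977668464) (nat_lit 304) (nat_lit 50639974227) (nat_lit 76) (nat_lit 30899328343) (nat_lit 218) (nat_lit 5) (nat_lit 222) (nat_lit 5) (nat_lit 219) (nat_lit 5) (nat_lit 417) (nat_lit 382) (nat_lit 221)) (XT.lf (nat_lit 0) (nat_lit 33468568475) (nat_lit 380) (nat_lit 50650322420) (nat_lit 76) (nat_lit 917257310) (nat_lit 214) (nat_lit 5) (nat_lit 219) (nat_lit 5) (nat_lit 215) (nat_lit 5) (nat_lit 418) (nat_lit 382) (nat_lit 220))))) (XT.nd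 (nat_lit 234) (nat_lit 1064) (nat_lit 0) (XT.nd (nat_lit 78) (nat_lit 608) (nat_lit 0) (XT.lf (nat_lit 0) (nat_lit 37253096873) (nat_lit 228) (nat_lit 31734453959) (nat_lit 304) (nat_lit 18651627281) (nat_lit 211) (nat_lit 5) (nat_lit 214) (nat_lit 5) (nat_lit 215) (nat_lit 5) (nat_lit 419) (nat_lit 382) (nat_lit 219)) (XT.nd (nat_lit 78) (nat_lit 228) (nat_lit 0) (XT.lf (nat_lit 0) (nat_lit 16751607967) (nat_lit 380) (nat_lit 49684441326) (nat_lit 76) (nat_lit 23897163620) (nat_lit 206) (nat_lit 5) (nat_lit 211) (nat_lit 5) (nat_lit 207) (nat_lit 5) (nat_lit 420) (nat_lit 382) (nat_lit 218)) (XT.lf (nat_lit 0) (nat_lit 44493334981) (nat_lit 228) (nat_lit 10319420666) (nat_lit 304) (nat_lit 38305448869) (nat_lit 203) (nat_lit 5) (nat_lit 206) (nat_lit 5) (nat_lit 207) (nat_lit 5) (nat_lit 421) (nat_lit 382) (nat_lit 217)))) (XT.nd (nat_lit 156) (nat_lit 532) (nat_lit 0) (XT.nd (nat_lit 78) (nat_lit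 228) (nat_lit 0) (XT.lf (nat_lit 0) (nat_lit 225211968) (nat_lit 304) (nat_lit 47131645114) (nat_lit 76) (nat_lit 48641973473) (nat_lit 199) (nat_lit 5) (nat_lit 203) (nat_lit 5) (nat_lit 200) (nat_lit 5) (nat_lit 422) (nat_lit 382) (nat_lit 216)) (XT.lf (nat_lit 0) (nat_lit 41145241162) (nat_lit 304) (nat_lit 45308458415) (nat_lit 76) (nat_lit 12520758940) (nat_lit 196) (nat_lit 5) (nat_lit 200) (nat_lit 5) (nat_lit 197) (nat_lit 5) (nat_lit 423) (nat_lit 382) (nat_lit 215))) (XT.nd (nat_lit 78) (nat_lit 304) (nat_lit 0) (XT.lf (nat_lit 0) (nat_lit 59071074732) (nat_lit 228) (nat_lit 26574223988) (nat_lit 304) (nat_lit 16407548350) (nat_lit 193) (nat_lit 5) (nat_lit 196) (nat_lit 5) (nat_lit 197) (nat_lit 5) (nat_lit 424) (nat_lit 382) (nat_lit 214)) (XT.lf (nat_lit 0) (nat_lit 28016565039) (nat_lit 304) (nat_lit 40254180765) (nat_lit 76) (nat_lit 36962801735) (nat_lit 189) (nat_lit 5) (nat_lit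 193) (nat_lit 5) (nat_lit 190) (nat_lit 5) (nat_lit 425) (nat_lit 382) (nat_lit 213)))))) (XT.nd (nat_lit 546) (nat_lit 304) (nat_lit 0) (XT.nd (nat_lit 234) (nat_lit 836) (nat_lit 0) (XT.nd (nat_lit 78) (nat_lit 456) (nat_lit 0) (XT.lf (nat_lit 0) (nat_lit 71633507629) (nat_lit 228) (nat_lit 4094159613) (nat_lit 304) (nat_lit 32798588768) (nat_lit 186) (nat_lit 5) (nat_lit 189) (nat_lit 5) (nat_lit 190) (nat_lit 5) (nat_lit 426) (nat_lit 382) (nat_lit 212)) (XT.nd (nat_lit 78) (nat_lit 228) (nat_lit 0) (XT.lf (nat_lit 0) (nat_lit 15372073013) (nat_lit 228) (nat_lit 33170679957) (nat_lit 76) (nat_lit 63382812647) (nat_lit 183) (nat_lit 5) (nat_lit 186) (nat_lit 5) (nat_lit 184) (nat_lit 5) (nat_lit 427) (nat_lit 382) (nat_lit 211)) (XT.lf (nat_lit 0) (nat_lit 66731413523) (nat_lit 304) (nat_lit 28854805431) (nat_lit 76) (nat_lit 19855125471) (nat_lit 180) (nat_lit 5) (nat_lit 184) (nat_lit 5) (nat_lit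 181) (nat_lit 5) (nat_lit 428) (nat_lit 382) (nat_lit 210)))) (XT.nd (nat_lit 156) (nat_lit 380) (nat_lit 0) (XT.nd (nat_lit 78) (nat_lit 228) (nat_lit 0) (XT.lf (nat_lit 0) (nat_lit 3262329504) (nat_lit 228) (nat_lit 23847400618) (nat_lit 76) (nat_lit 91969753203) (nat_lit 177) (nat_lit 5) (nat_lit 180) (nat_lit 5) (nat_lit 178) (nat_lit 5) (nat_lit 429) (nat_lit 382) (nat_lit 209)) (XT.lf (nat_lit 0) (nat_lit 58589209417) (nat_lit 304) (nat_lit 18510847745) (nat_lit 76) (nat_lit 45732101633) (nat_lit 174) (nat_lit 5) (nat_lit 178) (nat_lit 5) (nat_lit 175) (nat_lit 5) (nat_lit 430) (nat_lit 382) (nat_lit 208))) (XT.nd (nat_lit 78) (nat_lit 228) (nat_lit 0) (XT.lf (nat_lit 0) (nat_lit 114589051850) (nat_lit 152) (nat_lit 3714931276) (nat_lit 228) (nat_lit 8419838419) (nat_lit 172) (nat_lit 5) (nat_lit 174) (nat_lit 5) (nat_lit 175) (nat_lit 5) (nat_lit 431) (nat_lit 382) (nat_lit 207)) (XT.lf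 (nat_lit 0) (nat_lit 51339760008) (nat_lit 228) (nat_lit 5581062942) (nat_lit 76) (nat_lit 73811025316) (nat_lit 169) (nat_lit 5) (nat_lit 172) (nat_lit 5) (nat_lit 170) (nat_lit 5) (nat_lit 432) (nat_lit 382) (nat_lit 206))))) (XT.nd (nat_lit 49374) (nat_lit 0) (nat_lit 15960) (XT.nd (nat_lit 49218) (nat_lit 0) (nat_lit 15884) (XT.lf (nat_lit 0) (nat_lit 2106565157) (nat_lit 152) (nat_lit 113518562354) (nat_lit 228) (nat_lit 19261290140) (nat_lit 165) (nat_lit 5) (nat_lit 167) (nat_lit 5) (nat_lit 168) (nat_lit 5) (nat_lit 433) (nat_lit 382) (nat_lit 205)) (XT.nd (nat_lit 78) (nat_lit 0) (nat_lit 76) (XT.lf (nat_lit 0) (nat_lit 9781462209) (nat_lit 1292) (nat_lit 3387599511) (nat_lit 1292) (nat_lit 3387599511) (nat_lit 374) (nat_lit 3) (nat_lit 391) (nat_lit 3) (nat_lit 391) (nat_lit 5) (nat_lit 383) (nat_lit 383) (nat_lit 254)) (XT.lf (nat_lit 0) (nat_lit 20362712388) (nat_lit 1216) (nat_lit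 12707610183) (nat_lit 1292) (nat_lit 861511511) (nat_lit 375) (nat_lit 5) (nat_lit 391) (nat_lit 5) (nat_lit 392) (nat_lit 5) (nat_lit 384) (nat_lit 383) (nat_lit 253)))) (XT.nd (nat_lit 156) (nat_lit 0) (nat_lit 152) (XT.nd (nat_lit 78) (nat_lit 0) (nat_lit 76) (XT.lf (nat_lit 76) (nat_lit 16018553844) (nat_lit 0) (nat_lit 5667901830) (nat_lit 1292) (nat_lit 13090296627) (nat_lit 376) (nat_lit 5) (nat_lit 375) (nat_lit 5) (nat_lit 392) (nat_lit 5) (nat_lit 385) (nat_lit 383) (nat_lit 252)) (XT.lf (nat_lit 76) (nat_lit 10769727039) (nat_lit 0) (nat_lit 12758394035) (nat_lit 1292) (nat_lit 12122243309) (nat_lit 377) (nat_lit 5) (nat_lit 376) (nat_lit 5) (nat_lit 393) (nat_lit 5) (nat_lit 386) (nat_lit 383) (nat_lit 251))) (XT.nd (nat_lit 78) (nat_lit 0) (nat_lit 76) (XT.lf (nat_lit 76) (nat_lit 5493402640) (nat_lit 0) (nat_lit 20422905944) (nat_lit 1292) (nat_lit 10637715319) (nat_lit 378) (nat_lit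 5) (nat_lit 377) (nat_lit 5) (nat_lit 394) (nat_lit 5) (nat_lit 387) (nat_lit 383) (nat_lit 250)) (XT.lf (nat_lit 76) (nat_lit 197244091) (nat_lit 0) (nat_lit 28692924757) (nat_lit 1292) (nat_lit 8598709651) (nat_lit 379) (nat_lit 5) (nat_lit 378) (nat_lit 5) (nat_lit 395) (nat_lit 5) (nat_lit 388) (nat_lit 383) (nat_lit 249))))))) (XT.nd (nat_lit 1014) (nat_lit 5852) (nat_lit 0) (XT.nd (nat_lit 468) (nat_lit 3496) (nat_lit 0) (XT.nd (nat_lit 234) (nat_lit 684) (nat_lit 0) (XT.nd (nat_lit 78) (nat_lit 1216) (nat_lit 0) (XT.lf (nat_lit 0) (nat_lit 32540196161) (nat_lit 1216) (nat_lit 5010617080) (nat_lit 1292) (nat_lit 903838361) (nat_lit 379) (nat_lit 5) (nat_lit 395) (nat_lit 5) (nat_lit 396) (nat_lit 5) (nat_lit 389) (nat_lit 383) (nat_lit 248)) (XT.nd (nat_lit 78) (nat_lit 1216) (nat_lit 0) (XT.lf (nat_lit 76) (nat_lit 29160197172) (nat_lit 0) (nat_lit 7777460591) (nat_lit 1292) (nat_lit 2514107611)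 (nat_lit 380) (nat_lit 5) (nat_lit 379) (nat_lit 5) (nat_lit 396) (nat_lit 5) (nat_lit 390) (nat_lit 383) (nat_lit 247)) (XT.lf (nat_lit 0) (nat_lit 1553178883) (nat_lit 1292) (nat_lit 15595546510) (nat_lit 1368) (nat_lit 23334178859) (nat_lit 363) (nat_lit 5) (nat_lit 380) (nat_lit 5) (nat_lit 381) (nat_lit 5) (nat_lit 391) (nat_lit 383) (nat_lit 246)))) (XT.nd (nat_lit 78) (nat_lit 760) (nat_lit 0) (XT.lf (nat_lit 0) (nat_lit 6293444188) (nat_lit 1292) (nat_lit 20919344075) (nat_lit 1368) (nat_lit 14336416744) (nat_lit 364) (nat_lit 5) (nat_lit 381) (nat_lit 5) (nat_lit 382) (nat_lit 5) (nat_lit 392) (nat_lit 383) (nat_lit 245)) (XT.nd (nat_lit 78) (nat_lit 836) (nat_lit 0) (XT.lf (nat_lit 0) (nat_lit 11805142157) (nat_lit 1292) (nat_lit 26228000453) (nat_lit 76) (nat_lit 4619645608) (nat_lit 365) (nat_lit 5) (nat_lit 382) (nat_lit 5) (nat_lit 366) (nat_lit 5) (nat_lit 393) (nat_lit 383) (nat_lit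 244)) (XT.lf (nat_lit 0) (nat_lit 12226203028) (nat_lit 836) (nat_lit 5971650010) (nat_lit 912) (nat_lit 25595534710) (nat_lit 354) (nat_lit 5) (nat_lit 365) (nat_lit 5) (nat_lit 366) (nat_lit 5) (nat_lit 394) (nat_lit 383) (nat_lit 243))))) (XT.nd (nat_lit 234) (nat_lit 2280) (nat_lit 0) (XT.nd (nat_lit 78) (nat_lit 608) (nat_lit 0) (XT.lf (nat_lit 0) (nat_lit 8052767465) (nat_lit 608) (nat_lit 17469638211) (nat_lit 684) (nat_lit 19450245394) (nat_lit 346) (nat_lit 5) (nat_lit 354) (nat_lit 5) (nat_lit 355) (nat_lit 5) (nat_lit 395) (nat_lit 383) (nat_lit 242)) (XT.nd (nat_lit 78) (nat_lit 0) (nat_lit 0) (XT.lf (nat_lit 0) (nat_lit 3966075463) (nat_lit 608) (nat_lit 29826053020) (nat_lit 684) (nat_lit 12401380797) (nat_lit 338) (nat_lit 5) (nat_lit 346) (nat_lit 5) (nat_lit 347) (nat_lit 5) (nat_lit 396) (nat_lit 383) (nat_lit 241)) (XT.lf (nat_lit 0) (nat_lit 43069086627) (nat_lit 684) (nat_lit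 17408805) (nat_lit 76) (nat_lit 4371102493) (nat_lit 338) (nat_lit 5) (nat_lit 347) (nat_lit 5) (nat_lit 339) (nat_lit 5) (nat_lit 397) (nat_lit 383) (nat_lit 240)))) (XT.nd (nat_lit 156) (nat_lit 1064) (nat_lit 0) (XT.nd (nat_lit 78) (nat_lit 608) (nat_lit 0) (XT.lf (nat_lit 0) (nat_lit 4682495111) (nat_lit 608) (nat_lit 3934820581) (nat_lit 76) (nat_lit 40144333516) (nat_lit 330) (nat_lit 5) (nat_lit 338) (nat_lit 5) (nat_lit 331) (nat_lit 5) (nat_lit 398) (nat_lit 383) (nat_lit 239)) (XT.lf (nat_lit 0) (nat_lit 14792565289) (nat_lit 684) (nat_lit 7821490148) (nat_lit 76) (nat_lit 27495255863) (nat_lit 322) (nat_lit 5) (nat_lit 331) (nat_lit 5) (nat_lit 323) (nat_lit 5) (nat_lit 399) (nat_lit 383) (nat_lit 238))) (XT.nd (nat_lit 78) (nat_lit 532) (nat_lit 0) (XT.lf (nat_lit 0) (nat_lit 26053924487) (nat_lit 608) (nat_lit 11573455433) (nat_lit 76) (nat_lit 13877603009) (nat_lit 315) (nat_lit 5)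 (nat_lit 323) (nat_lit 5) (nat_lit 316) (nat_lit 5) (nat_lit 400) (nat_lit 383) (nat_lit 237)) (XT.lf (nat_lit 0) (nat_lit 37772070270) (nat_lit 532) (nat_lit 775708731) (nat_lit 608) (nat_lit 14402576320) (nat_lit 308) (nat_lit 5) (nat_lit 315) (nat_lit 5) (nat_lit 316) (nat_lit 5) (nat_lit 401) (nat_lit 383) (nat_lit 236)))))) (XT.nd (nat_lit 546) (nat_lit 2584) (nat_lit 0) (XT.nd (nat_lit 234) (nat_lit 1748) (nat_lit 0) (XT.nd (nat_lit 78) (nat_lit 1064) (nat_lit 0) (XT.lf (nat_lit 0) (nat_lit 35689496860) (nat_lit 456) (nat_lit 16801607038) (nat_lit 532) (nat_lit 1952149104) (nat_lit 302) (nat_lit 5) (nat_lit 308) (nat_lit 5) (nat_lit 309) (nat_lit 5) (nat_lit 402) (nat_lit 383) (nat_lit 235)) (XT.nd (nat_lit 78) (nat_lit 456) (nat_lit 0) (XT.lf (nat_lit 0) (nat_lit 11609664012) (nat_lit 608) (nat_lit 22255273314) (nat_lit 76) (nat_lit 22121475101) (nat_lit 294) (nat_lit 5) (nat_lit 302) (nat_lit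 5) (nat_lit 295) (nat_lit 5) (nat_lit 403) (nat_lit 383) (nat_lit 234)) (XT.lf (nat_lit 0) (nat_lit 26533068924) (nat_lit 532) (nat_lit 25577517283) (nat_lit 76) (nat_lit 5473847533) (nat_lit 288) (nat_lit 5) (nat_lit 295) (nat_lit 5) (nat_lit 289) (nat_lit 5) (nat_lit 404) (nat_lit 383) (nat_lit 233)))) (XT.nd (nat_lit 156) (nat_lit 836) (nat_lit 0) (XT.nd (nat_lit 78) (nat_lit 456) (nat_lit 0) (XT.lf (nat_lit 0) (nat_lit 30438208894) (nat_lit 456) (nat_lit 12627385269) (nat_lit 532) (nat_lit 16170873454) (nat_lit 282) (nat_lit 5) (nat_lit 288) (nat_lit 5) (nat_lit 289) (nat_lit 5) (nat_lit 405) (nat_lit 383) (nat_lit 232)) (XT.lf (nat_lit 0) (nat_lit 292572826) (nat_lit 456) (nat_lit 31838487739) (nat_lit 76) (nat_lit 28815352111) (nat_lit 276) (nat_lit 5) (nat_lit 282) (nat_lit 5) (nat_lit 277) (nat_lit 5) (nat_lit 406) (nat_lit 383) (nat_lit 231))) (XT.nd (nat_lit 78) (nat_lit 380) (nat_lit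 0) (XT.lf (nat_lit 0) (nat_lit 18038436565) (nat_lit 532) (nat_lit 34784932817) (nat_lit 76) (nat_lit 9889871868) (nat_lit 270) (nat_lit 5) (nat_lit 277) (nat_lit 5) (nat_lit 271) (nat_lit 5) (nat_lit 407) (nat_lit 383) (nat_lit 230)) (XT.lf (nat_lit 0) (nat_lit 26985858109) (nat_lit 380) (nat_lit 10597879869) (nat_lit 456) (nat_lit 26957308939) (nat_lit 265) (nat_lit 5) (nat_lit 270) (nat_lit 5) (nat_lit 271) (nat_lit 5) (nat_lit 408) (nat_lit 383) (nat_lit 229))))) (XT.nd (nat_lit 234) (nat_lit 1368) (nat_lit 0) (XT.nd (nat_lit 78) (nat_lit 836) (nat_lit 0) (XT.lf (nat_lit 0) (nat_lit 26304678345) (nat_lit 380) (nat_lit 32737948875) (nat_lit 456) (nat_lit 7389525966) (nat_lit 260) (nat_lit 5) (nat_lit 265) (nat_lit 5) (nat_lit 266) (nat_lit 5) (nat_lit 409) (nat_lit 383) (nat_lit 228)) (XT.nd (nat_lit 78) (nat_lit 380) (nat_lit 0) (XT.lf (nat_lit 0) (nat_lit 13763639799) (nat_lit 456) (nat_lit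 42507503939) (nat_lit 76) (nat_lit 12116965122) (nat_lit 254) (nat_lit 5) (nat_lit 260) (nat_lit 5) (nat_lit 255) (nat_lit 5) (nat_lit 410) (nat_lit 383) (nat_lit 227)) (XT.lf (nat_lit 0) (nat_lit 25687038817) (nat_lit 380) (nat_lit 11128197995) (nat_lit 456) (nat_lit 33594622607) (nat_lit 249) (nat_lit 5) (nat_lit 254) (nat_lit 5) (nat_lit 255) (nat_lit 5) (nat_lit 411) (nat_lit 383) (nat_lit 226)))) (XT.nd (nat_lit 156) (nat_lit 608) (nat_lit 0) (XT.nd (nat_lit 78) (nat_lit 456) (nat_lit 0) (XT.lf (nat_lit 0) (nat_lit 25807383418) (nat_lit 304) (nat_lit 36248416702) (nat_lit 380) (nat_lit 10445805792) (nat_lit 245) (nat_lit 5) (nat_lit 249) (nat_lit 5) (nat_lit 250) (nat_lit 5) (nat_lit 412) (nat_lit 383) (nat_lit 225)) (XT.lf (nat_lit 0) (nat_lit 14533516340) (nat_lit 456) (nat_lit 48408088293) (nat_lit 76) (nat_lit 11724032089) (nat_lit 239) (nat_lit 5) (nat_lit 245) (nat_lit 5) (nat_lit 240)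 (nat_lit 5) (nat_lit 413) (nat_lit 383) (nat_lit 224))) (XT.nd (nat_lit 78) (nat_lit 304) (nat_lit 0) (XT.lf (nat_lit 0) (nat_lit 26956038323) (nat_lit 304) (nat_lit 14700011403) (nat_lit 380) (nat_lit 35245408217) (nat_lit 235) (nat_lit 5) (nat_lit 239) (nat_lit 5) (nat_lit 240) (nat_lit 5) (nat_lit 414) (nat_lit 383) (nat_lit 223)) (XT.lf (nat_lit 0) (nat_lit 28059731955) (nat_lit 304) (nat_lit 43191484649) (nat_lit 380) (nat_lit 7964358417) (nat_lit 231) (nat_lit 5) (nat_lit 235) (nat_lit 5) (nat_lit 236) (nat_lit 5) (nat_lit 415) (nat_lit 383) (nat_lit 222))))))))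
noncomputable def xc109 : XT := (XT.nd (nat_lit 51324) (nat_lit 0) (nat_lit 3724) (XT.nd (nat_lit 1014) (nat_lit 1064) (nat_lit 0) (XT.nd (nat_lit 468) (nat_lit 1748) (nat_lit 0) (XT.nd (nat_lit 234) (nat_lit 912) (nat_lit 0) (XT.nd (nat_lit 78) (nat_lit 608) (nat_lit 0) (XT.lf (nat_lit 0) (nat_lit 21307801692) (nat_lit 380) (nat_lit 52090237627) (nat_lit 76) (nat_lit 8210476348) (nat_lit 226) (nat_lit 5) (nat_lit 231) (nat_lit 5) (nat_lit 227) (nat_lit 5) (nat_lit 416) (nat_lit 383) (nat_lit 221)) (XT.nd (nat_lit 78) (nat_lit 304) (nat_lit 0) (XT.lf (nat_lit 0) (nat_lit 31275540805) (nat_lit 304) (nat_lit 21871272078) (nat_lit 380) (nat_lit 30933886063) (nat_lit 222) (nat_lit 5) (nat_lit 226) (nat_lit 5) (nat_lit 227) (nat_lit 5) (nat_lit 417) (nat_lit 383) (nat_lit 220)) (XT.lf (nat_lit 0) (nat_lit 1087003944) (nat_lit 304) (nat_lit 53077205596) (nat_lit 76) (nat_lit 32476796485) (nat_lit 218)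 (nat_lit 5) (nat_lit 222) (nat_lit 5) (nat_lit 219) (nat_lit 5) (nat_lit 418) (nat_lit 383) (nat_lit 219)))) (XT.nd (nat_lit 78) (nat_lit 608) (nat_lit 0) (XT.lf (nat_lit 0) (nat_lit 35200778047) (nat_lit 380) (nat_lit 53089356852) (nat_lit 76) (nat_lit 996057282) (nat_lit 214) (nat_lit 5) (nat_lit 219) (nat_lit 5) (nat_lit 215) (nat_lit 5) (nat_lit 419) (nat_lit 383) (nat_lit 218)) (XT.nd (nat_lit 78) (nat_lit 380) (nat_lit 0) (XT.lf (nat_lit 0) (nat_lit 39206553772) (nat_lit 228) (nat_lit 33287229493) (nat_lit 304) (nat_lit 19525648107) (nat_lit 211) (nat_lit 5) (nat_lit 214) (nat_lit 5) (nat_lit 215) (nat_lit 5) (nat_lit 420) (nat_lit 383) (nat_lit 217)) (XT.lf (nat_lit 0) (nat_lit 17645055079) (nat_lit 380) (nat_lit 52078012514) (nat_lit 76) (nat_lit 25125129963) (nat_lit 206) (nat_lit 5) (nat_lit 211) (nat_lit 5) (nat_lit 207) (nat_lit 5) (nat_lit 421) (nat_lit 383) (nat_lit 216))))) (XT.nd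 (nat_lit 234) (nat_lit 988) (nat_lit 0) (XT.nd (nat_lit 78) (nat_lit 532) (nat_lit 0) (XT.lf (nat_lit 0) (nat_lit 46806054119) (nat_lit 228) (nat_lit 10801392118) (nat_lit 304) (nat_lit 40165046921) (nat_lit 203) (nat_lit 5) (nat_lit 206) (nat_lit 5) (nat_lit 207) (nat_lit 5) (nat_lit 422) (nat_lit 383) (nat_lit 215)) (XT.nd (nat_lit 78) (nat_lit 228) (nat_lit 0) (XT.lf (nat_lit 0) (nat_lit 289617966) (nat_lit 304) (nat_lit 49400383642) (nat_lit 76) (nat_lit 51107176113) (nat_lit 199) (nat_lit 5) (nat_lit 203) (nat_lit 5) (nat_lit 200) (nat_lit 5) (nat_lit 423) (nat_lit 383) (nat_lit 214)) (XT.lf (nat_lit 0) (nat_lit 43254263869) (nat_lit 304) (nat_lit 47487338365) (nat_lit 76) (nat_lit 13180026390) (nat_lit 196) (nat_lit 5) (nat_lit 200) (nat_lit 5) (nat_lit 197) (nat_lit 5) (nat_lit 424) (nat_lit 383) (nat_lit 213)))) (XT.nd (nat_lit 156) (nat_lit 456) (nat_lit 0) (XT.nd (nat_lit 78) (nat_lit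 304) (nat_lit 0) (XT.lf (nat_lit 0) (nat_lit 62108690703) (nat_lit 228) (nat_lit 27868976866) (nat_lit 304) (nat_lit 17176318737) (nat_lit 193) (nat_lit 5) (nat_lit 196) (nat_lit 5) (nat_lit 197) (nat_lit 5) (nat_lit 425) (nat_lit 383) (nat_lit 212)) (XT.lf (nat_lit 0) (nat_lit 29466701484) (nat_lit 304) (nat_lit 42183112906) (nat_lit 76) (nat_lit 38843931281) (nat_lit 189) (nat_lit 5) (nat_lit 193) (nat_lit 5) (nat_lit 190) (nat_lit 5) (nat_lit 426) (nat_lit 383) (nat_lit 211))) (XT.nd (nat_lit 78) (nat_lit 228) (nat_lit 0) (XT.lf (nat_lit 0) (nat_lit 75296558459) (nat_lit 228) (nat_lit 4265234558) (nat_lit 304) (nat_lit 34389343521) (nat_lit 186) (nat_lit 5) (nat_lit 189) (nat_lit 5) (nat_lit 190) (nat_lit 5) (nat_lit 427) (nat_lit 383) (nat_lit 210)) (XT.lf (nat_lit 0) (nat_lit 16187684559) (nat_lit 228) (nat_lit 34748158385) (nat_lit 76) (nat_lit 66584590716) (nat_lit 183) (nat_lit 5) (nat_lit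 186) (nat_lit 5) (nat_lit 184) (nat_lit 5) (nat_lit 428) (nat_lit 383) (nat_lit 209)))))) (XT.nd (nat_lit 49764) (nat_lit 0) (nat_lit 14744) (XT.nd (nat_lit 234) (nat_lit 380) (nat_lit 0) (XT.nd (nat_lit 78) (nat_lit 456) (nat_lit 0) (XT.lf (nat_lit 0) (nat_lit 70113829640) (nat_lit 304) (nat_lit 30217766982) (nat_lit 76) (nat_lit 20880439661) (nat_lit 180) (nat_lit 5) (nat_lit 184) (nat_lit 5) (nat_lit 181) (nat_lit 5) (nat_lit 429) (nat_lit 383) (nat_lit 208)) (XT.nd (nat_lit 78) (nat_lit 228) (nat_lit 0) (XT.lf (nat_lit 0) (nat_lit 3470292879) (nat_lit 228) (nat_lit 24961386228) (nat_lit 76) (nat_lit 96600432977) (nat_lit 177) (nat_lit 5) (nat_lit 180) (nat_lit 5) (nat_lit 178) (nat_lit 5) (nat_lit 430) (nat_lit 383) (nat_lit 207)) (XT.lf (nat_lit 0) (nat_lit 61562427380) (nat_lit 304) (nat_lit 19359263567) (nat_lit 76) (nat_lit 48050763063) (nat_lit 174) (nat_lit 5) (nat_lit 178) (nat_lit 5)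 (nat_lit 175) (nat_lit 5) (nat_lit 431) (nat_lit 383) (nat_lit 206)))) (XT.nd (nat_lit 49374) (nat_lit 0) (nat_lit 15580) (XT.nd (nat_lit 78) (nat_lit 228) (nat_lit 0) (XT.lf (nat_lit 0) (nat_lit 120393420190) (nat_lit 152) (nat_lit 3868156029) (nat_lit 228) (nat_lit 8797164585) (nat_lit 172) (nat_lit 5) (nat_lit 174) (nat_lit 5) (nat_lit 175) (nat_lit 5) (nat_lit 432) (nat_lit 383) (nat_lit 205)) (XT.lf (nat_lit 0) (nat_lit 53948539086) (nat_lit 228) (nat_lit 5785584358) (nat_lit 76) (nat_lit 77533063503) (nat_lit 169) (nat_lit 5) (nat_lit 172) (nat_lit 5) (nat_lit 170) (nat_lit 5) (nat_lit 433) (nat_lit 383) (nat_lit 204))) (XT.nd (nat_lit 78) (nat_lit 0) (nat_lit 76) (XT.lf (nat_lit 0) (nat_lit 10367167510) (nat_lit 1292) (nat_lit 3507213909) (nat_lit 1292) (nat_lit 3507213909) (nat_lit 374) (nat_lit 3) (nat_lit 391) (nat_lit 3) (nat_lit 391) (nat_lit 5) (nat_lit 384) (nat_lit 384) (nat_lit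 252)) (XT.lf (nat_lit 0) (nat_lit 21564989736) (nat_lit 1216) (nat_lit 13239913944) (nat_lit 1292) (nat_lit 817997854) (nat_lit 375) (nat_lit 5) (nat_lit 391) (nat_lit 5) (nat_lit 392) (nat_lit 5) (nat_lit 385) (nat_lit 384) (nat_lit 251))))) (XT.nd (nat_lit 234) (nat_lit 912) (nat_lit 0) (XT.nd (nat_lit 78) (nat_lit 0) (nat_lit 76) (XT.lf (nat_lit 76) (nat_lit 16919603610) (nat_lit 0) (nat_lit 6027510357) (nat_lit 1292) (nat_lit 13563185884) (nat_lit 376) (nat_lit 5) (nat_lit 375) (nat_lit 5) (nat_lit 392) (nat_lit 5) (nat_lit 386) (nat_lit 384) (nat_lit 250)) (XT.nd (nat_lit 78) (nat_lit 0) (nat_lit 76) (XT.lf (nat_lit 76) (nat_lit 11411315522) (nat_lit 0) (nat_lit 13461443543) (nat_lit 1292) (nat_lit 12555076579) (nat_lit 377) (nat_lit 5) (nat_lit 376) (nat_lit 5) (nat_lit 393) (nat_lit 5) (nat_lit 387) (nat_lit 384) (nat_lit 249)) (XT.lf (nat_lit 76) (nat_lit 5873729911) (nat_lit 0) (nat_lit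 21499034382) (nat_lit 1292) (nat_lit 11004141598) (nat_lit 378) (nat_lit 5) (nat_lit 377) (nat_lit 5) (nat_lit 394) (nat_lit 5) (nat_lit 388) (nat_lit 384) (nat_lit 248)))) (XT.nd (nat_lit 156) (nat_lit 1140) (nat_lit 0) (XT.nd (nat_lit 78) (nat_lit 0) (nat_lit 76) (XT.lf (nat_lit 76) (nat_lit 314929242) (nat_lit 0) (nat_lit 30173271887) (nat_lit 1292) (nat_lit 8870515579) (nat_lit 379) (nat_lit 5) (nat_lit 378) (nat_lit 5) (nat_lit 395) (nat_lit 5) (nat_lit 389) (nat_lit 384) (nat_lit 247)) (XT.lf (nat_lit 0) (nat_lit 34313000763) (nat_lit 1216) (nat_lit 5153654633) (nat_lit 1292) (nat_lit 906354943) (nat_lit 379) (nat_lit 5) (nat_lit 395) (nat_lit 5) (nat_lit 396) (nat_lit 5) (nat_lit 390) (nat_lit 384) (nat_lit 246))) (XT.nd (nat_lit 78) (nat_lit 1216) (nat_lit 0) (XT.lf (nat_lit 76) (nat_lit 30722619058) (nat_lit 0) (nat_lit 8201777450) (nat_lit 1292) (nat_lit 2495761458) (nat_lit 380) (nat_lit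 5) (nat_lit 379) (nat_lit 5) (nat_lit 396) (nat_lit 5) (nat_lit 391) (nat_lit 384) (nat_lit 245)) (XT.lf (nat_lit 0) (nat_lit 1766052289) (nat_lit 1292) (nat_lit 16266807376) (nat_lit 1368) (nat_lit 24470133366) (nat_lit 363) (nat_lit 5) (nat_lit 380) (nat_lit 5) (nat_lit 381) (nat_lit 5) (nat_lit 392) (nat_lit 384) (nat_lit 244))))))) (XT.nd (nat_lit 1014) (nat_lit 5320) (nat_lit 0) (XT.nd (nat_lit 468) (nat_lit 3268) (nat_lit 0) (XT.nd (nat_lit 234) (nat_lit 1748) (nat_lit 0) (XT.nd (nat_lit 78) (nat_lit 760) (nat_lit 0) (XT.lf (nat_lit 0) (nat_lit 6737670916) (nat_lit 1292) (nat_lit 21855777370) (nat_lit 1368) (nat_lit 15029330336) (nat_lit 364) (nat_lit 5) (nat_lit 381) (nat_lit 5) (nat_lit 382) (nat_lit 5) (nat_lit 393) (nat_lit 384) (nat_lit 243)) (XT.nd (nat_lit 78) (nat_lit 836) (nat_lit 0) (XT.lf (nat_lit 0) (nat_lit 12519634085) (nat_lit 1292) (nat_lit 27429100935) (nat_lit 76) (nat_lit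 4832965563) (nat_lit 365) (nat_lit 5) (nat_lit 382) (nat_lit 5) (nat_lit 366) (nat_lit 5) (nat_lit 394) (nat_lit 384) (nat_lit 242)) (XT.lf (nat_lit 0) (nat_lit 12944651006) (nat_lit 836) (nat_lit 6282443435) (nat_lit 912) (nat_lit 26752382232) (nat_lit 354) (nat_lit 5) (nat_lit 365) (nat_lit 5) (nat_lit 366) (nat_lit 5) (nat_lit 395) (nat_lit 384) (nat_lit 241)))) (XT.nd (nat_lit 78) (nat_lit 1140) (nat_lit 0) (XT.lf (nat_lit 0) (nat_lit 8563064424) (nat_lit 608) (nat_lit 18350050104) (nat_lit 684) (nat_lit 20304731438) (nat_lit 346) (nat_lit 5) (nat_lit 354) (nat_lit 5) (nat_lit 355) (nat_lit 5) (nat_lit 396) (nat_lit 384) (nat_lit 240)) (XT.nd (nat_lit 78) (nat_lit 532) (nat_lit 0) (XT.lf (nat_lit 0) (nat_lit 4272355633) (nat_lit 608) (nat_lit 31319485736) (nat_lit 684) (nat_lit 12908040181) (nat_lit 338) (nat_lit 5) (nat_lit 346) (nat_lit 5) (nat_lit 347) (nat_lit 5) (nat_lit 397) (nat_lit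 384) (nat_lit 239)) (XT.lf (nat_lit 0) (nat_lit 89466633) (nat_lit 532) (nat_lit 45238778130) (nat_lit 608) (nat_lit 4499061945) (nat_lit 331) (nat_lit 5) (nat_lit 338) (nat_lit 5) (nat_lit 339) (nat_lit 5) (nat_lit 398) (nat_lit 384) (nat_lit 238))))) (XT.nd (nat_lit 234) (nat_lit 2052) (nat_lit 0) (XT.nd (nat_lit 78) (nat_lit 1140) (nat_lit 0) (XT.lf (nat_lit 0) (nat_lit 5018459257) (nat_lit 608) (nat_lit 4026573214) (nat_lit 76) (nat_lit 42151644016) (nat_lit 330) (nat_lit 5) (nat_lit 338) (nat_lit 5) (nat_lit 331) (nat_lit 5) (nat_lit 399) (nat_lit 384) (nat_lit 237)) (XT.nd (nat_lit 78) (nat_lit 532) (nat_lit 0) (XT.lf (nat_lit 0) (nat_lit 15630202268) (nat_lit 684) (nat_lit 8107685159) (nat_lit 76) (nat_lit 28873949176) (nat_lit 322) (nat_lit 5) (nat_lit 331) (nat_lit 5) (nat_lit 323) (nat_lit 5) (nat_lit 400) (nat_lit 384) (nat_lit 236)) (XT.lf (nat_lit 0) (nat_lit 27451014208) (nat_lit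 608) (nat_lit 12047498028) (nat_lit 76) (nat_lit 14578888035) (nat_lit 315) (nat_lit 5) (nat_lit 323) (nat_lit 5) (nat_lit 316) (nat_lit 5) (nat_lit 401) (nat_lit 384) (nat_lit 235)))) (XT.nd (nat_lit 156) (nat_lit 1064) (nat_lit 0) (XT.nd (nat_lit 78) (nat_lit 456) (nat_lit 0) (XT.lf (nat_lit 0) (nat_lit 39762304756) (nat_lit 532) (nat_lit 803738701) (nat_lit 608) (nat_lit 15029103365) (nat_lit 308) (nat_lit 5) (nat_lit 315) (nat_lit 5) (nat_lit 316) (nat_lit 5) (nat_lit 402) (nat_lit 384) (nat_lit 234)) (XT.lf (nat_lit 0) (nat_lit 37575237137) (nat_lit 456) (nat_lit 17628041947) (nat_lit 532) (nat_lit 1959507968) (nat_lit 302) (nat_lit 5) (nat_lit 308) (nat_lit 5) (nat_lit 309) (nat_lit 5) (nat_lit 403) (nat_lit 384) (nat_lit 233))) (XT.nd (nat_lit 78) (nat_lit 456) (nat_lit 0) (XT.lf (nat_lit 0) (nat_lit 12275525631) (nat_lit 608) (nat_lit 23265549257) (nat_lit 76) (nat_lit 23242096808) (nat_lit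 294) (nat_lit 5) (nat_lit 302) (nat_lit 5) (nat_lit 295) (nat_lit 5) (nat_lit 404) (nat_lit 384) (nat_lit 232)) (XT.lf (nat_lit 0) (nat_lit 27942158191) (nat_lit 532) (nat_lit 26754541231) (nat_lit 76) (nat_lit 5764482930) (nat_lit 288) (nat_lit 5) (nat_lit 295) (nat_lit 5) (nat_lit 289) (nat_lit 5) (nat_lit 405) (nat_lit 384) (nat_lit 231)))))) (XT.nd (nat_lit 546) (nat_lit 2356) (nat_lit 0) (XT.nd (nat_lit 234) (nat_lit 1596) (nat_lit 0) (XT.nd (nat_lit 78) (nat_lit 912) (nat_lit 0) (XT.lf (nat_lit 0) (nat_lit 32059051690) (nat_lit 456) (nat_lit 13239283486) (nat_lit 532) (nat_lit 16897571983) (nat_lit 282) (nat_lit 5) (nat_lit 288) (nat_lit 5) (nat_lit 289) (nat_lit 5) (nat_lit 406) (nat_lit 384) (nat_lit 230)) (XT.nd (nat_lit 78) (nat_lit 456) (nat_lit 0) (XT.lf (nat_lit 0) (nat_lit 384761799) (nat_lit 456) (nat_lit 33330638343) (nat_lit 76) (nat_lit 30276006357) (nat_lit 276) (nat_lit 5) (nat_lit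 282) (nat_lit 5) (nat_lit 277) (nat_lit 5) (nat_lit 407) (nat_lit 384) (nat_lit 229)) (XT.lf (nat_lit 0) (nat_lit 19015369556) (nat_lit 532) (nat_lit 36425234299) (nat_lit 76) (nat_lit 10406049123) (nat_lit 270) (nat_lit 5) (nat_lit 277) (nat_lit 5) (nat_lit 271) (nat_lit 5) (nat_lit 408) (nat_lit 384) (nat_lit 228)))) (XT.nd (nat_lit 156) (nat_lit 836) (nat_lit 0) (XT.nd (nat_lit 78) (nat_lit 380) (nat_lit 0) (XT.lf (nat_lit 0) (nat_lit 28431259931) (nat_lit 380) (nat_lit 11104028007) (nat_lit 456) (nat_lit 28230640434) (nat_lit 265) (nat_lit 5) (nat_lit 270) (nat_lit 5) (nat_lit 271) (nat_lit 5) (nat_lit 409) (nat_lit 384) (nat_lit 227)) (XT.lf (nat_lit 0) (nat_lit 27715153183) (nat_lit 380) (nat_lit 34349655503) (nat_lit 456) (nat_lit 7686850658) (nat_lit 260) (nat_lit 5) (nat_lit 265) (nat_lit 5) (nat_lit 266) (nat_lit 5) (nat_lit 410) (nat_lit 384) (nat_lit 226))) (XT.nd (nat_lit 78) (nat_lit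 380) (nat_lit 0) (XT.lf (nat_lit 0) (nat_lit 14520345223) (nat_lit 456) (nat_lit 44537198472) (nat_lit 76) (nat_lit 12747914906) (nat_lit 254) (nat_lit 5) (nat_lit 260) (nat_lit 5) (nat_lit 255) (nat_lit 5) (nat_lit 411) (nat_lit 384) (nat_lit 225)) (XT.lf (nat_lit 0) (nat_lit 27064328756) (nat_lit 380) (nat_lit 11657823687) (nat_lit 456) (nat_lit 35206215334) (nat_lit 249) (nat_lit 5) (nat_lit 254) (nat_lit 5) (nat_lit 255) (nat_lit 5) (nat_lit 412) (nat_lit 384) (nat_lit 224))))) (XT.nd (nat_lit 234) (nat_lit 1292) (nat_lit 0) (XT.nd (nat_lit 78) (nat_lit 760) (nat_lit 0) (XT.lf (nat_lit 0) (nat_lit 27189704177) (nat_lit 304) (nat_lit 38033018660) (nat_lit 380) (nat_lit 10902039390) (nat_lit 245) (nat_lit 5) (nat_lit 249) (nat_lit 5) (nat_lit 250) (nat_lit 5) (nat_lit 413) (nat_lit 384) (nat_lit 223)) (XT.nd (nat_lit 78) (nat_lit 304) (nat_lit 0) (XT.lf (nat_lit 0) (nat_lit 15323015548) (nat_lit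 456) (nat_lit 50736317502) (nat_lit 76) (nat_lit 12337700807) (nat_lit 239) (nat_lit 5) (nat_lit 245) (nat_lit 5) (nat_lit 240) (nat_lit 5) (nat_lit 414) (nat_lit 384) (nat_lit 222)) (XT.lf (nat_lit 0) (nat_lit 28393373262) (nat_lit 304) (nat_lit 15406171398) (nat_lit 380) (nat_lit 36945165408) (nat_lit 235) (nat_lit 5) (nat_lit 239) (nat_lit 5) (nat_lit 240) (nat_lit 5) (nat_lit 415) (nat_lit 384) (nat_lit 221)))) (XT.nd (nat_lit 156) (nat_lit 608) (nat_lit 0) (XT.nd (nat_lit 78) (nat_lit 380) (nat_lit 0) (XT.lf (nat_lit 0) (nat_lit 29551184424) (nat_lit 304) (nat_lit 45321509761) (nat_lit 380) (nat_lit 8301892085) (nat_lit 231) (nat_lit 5) (nat_lit 235) (nat_lit 5) (nat_lit 236) (nat_lit 5) (nat_lit 416) (nat_lit 384) (nat_lit 220)) (XT.lf (nat_lit 0) (nat_lit 22430979899) (nat_lit 380) (nat_lit 54606228461) (nat_lit 76) (nat_lit 8649999447) (nat_lit 226) (nat_lit 5) (nat_lit 231) (nat_lit 5)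 (nat_lit 227) (nat_lit 5) (nat_lit 417) (nat_lit 384) (nat_lit 219))) (XT.nd (nat_lit 78) (nat_lit 304) (nat_lit 0) (XT.lf (nat_lit 0) (nat_lit 32925301454) (nat_lit 304) (nat_lit 22934714907) (nat_lit 380) (nat_lit 32423041647) (nat_lit 222) (nat_lit 5) (nat_lit 226) (nat_lit 5) (nat_lit 227) (nat_lit 5) (nat_lit 418) (nat_lit 384) (nat_lit 218)) (XT.lf (nat_lit 0) (nat_lit 1196185938) (nat_lit 304) (nat_lit 55645109103) (nat_lit 76) (nat_lit 34130116331) (nat_lit 218) (nat_lit 5) (nat_lit 222) (nat_lit 5) (nat_lit 219) (nat_lit 5) (nat_lit 419) (nat_lit 384) (nat_lit 217))))))))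
noncomputable def xc110 : XT := (XT.nd (nat_lit 51402) (nat_lit 0) (nat_lit 2356) (XT.nd (nat_lit 1014) (nat_lit 152) (nat_lit 0) (XT.nd (nat_lit 468) (nat_lit 1672) (nat_lit 0) (XT.nd (nat_lit 234) (nat_lit 760) (nat_lit 0) (XT.nd (nat_lit 78) (nat_lit 608) (nat_lit 0) (XT.lf (nat_lit 0) (nat_lit 37014133184) (nat_lit 380) (nat_lit 55659034046) (nat_lit 76) (nat_lit 1075735073) (nat_lit 214) (nat_lit 5) (nat_lit 219) (nat_lit 5) (nat_lit 215) (nat_lit 5) (nat_lit 420) (nat_lit 384) (nat_lit 216)) (XT.nd (nat_lit 78) (nat_lit 380) (nat_lit 0) (XT.lf (nat_lit 0) (nat_lit 41249241602) (nat_lit 228) (nat_lit 34920799888) (nat_lit 304) (nat_lit 20448814378) (nat_lit 211) (nat_lit 5) (nat_lit 214) (nat_lit 5) (nat_lit 215) (nat_lit 5) (nat_lit 421) (nat_lit 384) (nat_lit 215)) (XT.lf (nat_lit 0) (nat_lit 18577980590) (nat_lit 380) (nat_lit 54599690121) (nat_lit 76) (nat_lit 26411416541) (nat_lit 206)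 (nat_lit 5) (nat_lit 211) (nat_lit 5) (nat_lit 207) (nat_lit 5) (nat_lit 422) (nat_lit 384) (nat_lit 214)))) (XT.nd (nat_lit 78) (nat_lit 532) (nat_lit 0) (XT.lf (nat_lit 0) (nat_lit 49226222937) (nat_lit 228) (nat_lit 11310623102) (nat_lit 304) (nat_lit 42122800952) (nat_lit 203) (nat_lit 5) (nat_lit 206) (nat_lit 5) (nat_lit 207) (nat_lit 5) (nat_lit 423) (nat_lit 384) (nat_lit 213)) (XT.nd (nat_lit 78) (nat_lit 228) (nat_lit 0) (XT.lf (nat_lit 0) (nat_lit 352303309) (nat_lit 304) (nat_lit 51790725974) (nat_lit 76) (nat_lit 53692561191) (nat_lit 199) (nat_lit 5) (nat_lit 203) (nat_lit 5) (nat_lit 200) (nat_lit 5) (nat_lit 424) (nat_lit 384) (nat_lit 212)) (XT.lf (nat_lit 0) (nat_lit 45463925497) (nat_lit 304) (nat_lit 49783208257) (nat_lit 76) (nat_lit 13869167848) (nat_lit 196) (nat_lit 5) (nat_lit 200) (nat_lit 5) (nat_lit 197) (nat_lit 5) (nat_lit 425) (nat_lit 384) (nat_lit 211))))) (XT.nd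 (nat_lit 234) (nat_lit 912) (nat_lit 0) (XT.nd (nat_lit 78) (nat_lit 532) (nat_lit 0) (XT.lf (nat_lit 0) (nat_lit 65290372163) (nat_lit 228) (nat_lit 29231624511) (nat_lit 304) (nat_lit 17988325575) (nat_lit 193) (nat_lit 5) (nat_lit 196) (nat_lit 5) (nat_lit 197) (nat_lit 5) (nat_lit 426) (nat_lit 384) (nat_lit 210)) (XT.nd (nat_lit 78) (nat_lit 228) (nat_lit 0) (XT.lf (nat_lit 0) (nat_lit 30984760542) (nat_lit 304) (nat_lit 44216280436) (nat_lit 76) (nat_lit 40816050257) (nat_lit 189) (nat_lit 5) (nat_lit 193) (nat_lit 5) (nat_lit 190) (nat_lit 5) (nat_lit 427) (nat_lit 384) (nat_lit 209)) (XT.lf (nat_lit 0) (nat_lit 79135196313) (nat_lit 228) (nat_lit 4447990132) (nat_lit 304) (nat_lit 36064207807) (nat_lit 186) (nat_lit 5) (nat_lit 189) (nat_lit 5) (nat_lit 190) (nat_lit 5) (nat_lit 428) (nat_lit 384) (nat_lit 208)))) (XT.nd (nat_lit 156) (nat_lit 456) (nat_lit 0) (XT.nd (nat_lit 78) (nat_lit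 228) (nat_lit 0) (XT.lf (nat_lit 0) (nat_lit 17039706334) (nat_lit 228) (nat_lit 36412046513) (nat_lit 76) (nat_lit 69943423370) (nat_lit 183) (nat_lit 5) (nat_lit 186) (nat_lit 5) (nat_lit 184) (nat_lit 5) (nat_lit 429) (nat_lit 384) (nat_lit 207)) (XT.lf (nat_lit 0) (nat_lit 73661104289) (nat_lit 304) (nat_lit 31656293680) (nat_lit 76) (nat_lit 21953992634) (nat_lit 180) (nat_lit 5) (nat_lit 184) (nat_lit 5) (nat_lit 181) (nat_lit 5) (nat_lit 430) (nat_lit 384) (nat_lit 206))) (XT.nd (nat_lit 78) (nat_lit 228) (nat_lit 0) (XT.lf (nat_lit 0) (nat_lit 3684484983) (nat_lit 228) (nat_lit 26138358559) (nat_lit 76) (nat_lit 101459653822) (nat_lit 177) (nat_lit 5) (nat_lit 180) (nat_lit 5) (nat_lit 178) (nat_lit 5) (nat_lit 431) (nat_lit 384) (nat_lit 205)) (XT.lf (nat_lit 0) (nat_lit 64680238083) (nat_lit 304) (nat_lit 20257270677) (nat_lit 76) (nat_lit 50482377270) (nat_lit 174) (nat_lit 5) (nat_lit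 178) (nat_lit 5) (nat_lit 175) (nat_lit 5) (nat_lit 432) (nat_lit 384) (nat_lit 204)))))) (XT.nd (nat_lit 49842) (nat_lit 0) (nat_lit 13224) (XT.nd (nat_lit 49530) (nat_lit 0) (nat_lit 15428) (XT.nd (nat_lit 49374) (nat_lit 0) (nat_lit 15352) (XT.lf (nat_lit 0) (nat_lit 126481041992) (nat_lit 152) (nat_lit 4032065590) (nat_lit 228) (nat_lit 9197416686) (nat_lit 172) (nat_lit 5) (nat_lit 174) (nat_lit 5) (nat_lit 175) (nat_lit 5) (nat_lit 433) (nat_lit 384) (nat_lit 203)) (XT.nd (nat_lit 78) (nat_lit 0) (nat_lit 76) (XT.lf (nat_lit 0) (nat_lit 10973174130) (nat_lit 1292) (nat_lit 3637435759) (nat_lit 1292) (nat_lit 3637435759) (nat_lit 374) (nat_lit 3) (nat_lit 391) (nat_lit 3) (nat_lit 391) (nat_lit 5) (nat_lit 385) (nat_lit 385) (nat_lit 250)) (XT.lf (nat_lit 0) (nat_lit 22810261199) (nat_lit 1216) (nat_lit 13808415993) (nat_lit 1292) (nat_lit 780358760) (nat_lit 375) (nat_lit 5) (nat_lit 391)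 (nat_lit 5) (nat_lit 392) (nat_lit 5) (nat_lit 386) (nat_lit 385) (nat_lit 249)))) (XT.nd (nat_lit 156) (nat_lit 0) (nat_lit 152) (XT.nd (nat_lit 78) (nat_lit 0) (nat_lit 76) (XT.lf (nat_lit 76) (nat_lit 17856397463) (nat_lit 0) (nat_lit 6398013708) (nat_lit 1292) (nat_lit 14076605427) (nat_lit 376) (nat_lit 5) (nat_lit 375) (nat_lit 5) (nat_lit 392) (nat_lit 5) (nat_lit 387) (nat_lit 385) (nat_lit 248)) (XT.lf (nat_lit 76) (nat_lit 12075397970) (nat_lit 0) (nat_lit 14193590374) (nat_lit 1292) (nat_lit 13025661342) (nat_lit 377) (nat_lit 5) (nat_lit 376) (nat_lit 5) (nat_lit 393) (nat_lit 5) (nat_lit 388) (nat_lit 385) (nat_lit 247))) (XT.nd (nat_lit 78) (nat_lit 0) (nat_lit 76) (XT.lf (nat_lit 76) (nat_lit 6263250546) (nat_lit 0) (nat_lit 22623857430) (nat_lit 1292) (nat_lit 11404272045) (nat_lit 378) (nat_lit 5) (nat_lit 377) (nat_lit 5) (nat_lit 394) (nat_lit 5) (nat_lit 389) (nat_lit 385) (nat_lit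 246)) (XT.lf (nat_lit 76) (nat_lit 428474294) (nat_lit 0) (nat_lit 31723387538) (nat_lit 1292) (nat_lit 9170613192) (nat_lit 379) (nat_lit 5) (nat_lit 378) (nat_lit 5) (nat_lit 395) (nat_lit 5) (nat_lit 390) (nat_lit 385) (nat_lit 245))))) (XT.nd (nat_lit 234) (nat_lit 1292) (nat_lit 0) (XT.nd (nat_lit 78) (nat_lit 1216) (nat_lit 0) (XT.lf (nat_lit 0) (nat_lit 36160890977) (nat_lit 1216) (nat_lit 5313837772) (nat_lit 1292) (nat_lit 912964902) (nat_lit 379) (nat_lit 5) (nat_lit 395) (nat_lit 5) (nat_lit 396) (nat_lit 5) (nat_lit 391) (nat_lit 385) (nat_lit 244)) (XT.nd (nat_lit 78) (nat_lit 1216) (nat_lit 0) (XT.lf (nat_lit 76) (nat_lit 32353454798) (nat_lit 0) (nat_lit 8644014921) (nat_lit 1292) (nat_lit 2489890545) (nat_lit 380) (nat_lit 5) (nat_lit 379) (nat_lit 5) (nat_lit 396) (nat_lit 5) (nat_lit 392) (nat_lit 385) (nat_lit 243)) (XT.lf (nat_lit 0) (nat_lit 1976998406) (nat_lit 1292) (nat_lit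 16981720117) (nat_lit 1368) (nat_lit 25665744855) (nat_lit 363) (nat_lit 5) (nat_lit 380) (nat_lit 5) (nat_lit 381) (nat_lit 5) (nat_lit 393) (nat_lit 385) (nat_lit 242)))) (XT.nd (nat_lit 156) (nat_lit 1368) (nat_lit 0) (XT.nd (nat_lit 78) (nat_lit 0) (nat_lit 76) (XT.lf (nat_lit 0) (nat_lit 7192064229) (nat_lit 1292) (nat_lit 22849215754) (nat_lit 1368) (nat_lit 15759112277) (nat_lit 364) (nat_lit 5) (nat_lit 381) (nat_lit 5) (nat_lit 382) (nat_lit 5) (nat_lit 394) (nat_lit 385) (nat_lit 241)) (XT.lf (nat_lit 0) (nat_lit 13258300435) (nat_lit 1292) (nat_lit 28700511047) (nat_lit 76) (nat_lit 5058593592) (nat_lit 365) (nat_lit 5) (nat_lit 382) (nat_lit 5) (nat_lit 366) (nat_lit 5) (nat_lit 395) (nat_lit 385) (nat_lit 240))) (XT.nd (nat_lit 78) (nat_lit 608) (nat_lit 0) (XT.lf (nat_lit 0) (nat_lit 13689060724) (nat_lit 836) (nat_lit 6607641276) (nat_lit 912) (nat_lit 27978500923) (nat_lit 354)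 (nat_lit 5) (nat_lit 365) (nat_lit 5) (nat_lit 366) (nat_lit 5) (nat_lit 396) (nat_lit 385) (nat_lit 239)) (XT.lf (nat_lit 0) (nat_lit 9088867156) (nat_lit 608) (nat_lit 19273838307) (nat_lit 684) (nat_lit 21212914744) (nat_lit 346) (nat_lit 5) (nat_lit 354) (nat_lit 5) (nat_lit 355) (nat_lit 5) (nat_lit 397) (nat_lit 385) (nat_lit 238))))))) (XT.nd (nat_lit 1014) (nat_lit 4712) (nat_lit 0) (XT.nd (nat_lit 468) (nat_lit 3268) (nat_lit 0) (XT.nd (nat_lit 234) (nat_lit 1672) (nat_lit 0) (XT.nd (nat_lit 78) (nat_lit 608) (nat_lit 0) (XT.lf (nat_lit 0) (nat_lit 4583911190) (nat_lit 608) (nat_lit 32887392054) (nat_lit 684) (nat_lit 13450576289) (nat_lit 338) (nat_lit 5) (nat_lit 346) (nat_lit 5) (nat_lit 347) (nat_lit 5) (nat_lit 398) (nat_lit 385) (nat_lit 237)) (XT.nd (nat_lit 78) (nat_lit 76) (nat_lit 0) (XT.lf (nat_lit 0) (nat_lit 191998625) (nat_lit 532) (nat_lit 47498697391) (nat_lit 608) (nat_lit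 4625094857) (nat_lit 331) (nat_lit 5) (nat_lit 338) (nat_lit 5) (nat_lit 339) (nat_lit 5) (nat_lit 399) (nat_lit 385) (nat_lit 236)) (XT.lf (nat_lit 0) (nat_lit 5361753549) (nat_lit 608) (nat_lit 4132674305) (nat_lit 76) (nat_lit 44259311318) (nat_lit 330) (nat_lit 5) (nat_lit 338) (nat_lit 5) (nat_lit 331) (nat_lit 5) (nat_lit 400) (nat_lit 385) (nat_lit 235)))) (XT.nd (nat_lit 78) (nat_lit 1064) (nat_lit 0) (XT.lf (nat_lit 0) (nat_lit 16500609174) (nat_lit 684) (nat_lit 8417940623) (nat_lit 76) (nat_lit 30321211733) (nat_lit 322) (nat_lit 5) (nat_lit 331) (nat_lit 5) (nat_lit 323) (nat_lit 5) (nat_lit 401) (nat_lit 385) (nat_lit 234)) (XT.nd (nat_lit 78) (nat_lit 532) (nat_lit 0) (XT.lf (nat_lit 0) (nat_lit 28909182601) (nat_lit 608) (nat_lit 12554970276) (nat_lit 76) (nat_lit 15314548878) (nat_lit 315) (nat_lit 5) (nat_lit 323) (nat_lit 5) (nat_lit 316) (nat_lit 5) (nat_lit 402) (nat_lit 385)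 (nat_lit 233)) (XT.lf (nat_lit 0) (nat_lit 41842602283) (nat_lit 532) (nat_lit 834170110) (nat_lit 608) (nat_lit 15695658967) (nat_lit 308) (nat_lit 5) (nat_lit 315) (nat_lit 5) (nat_lit 316) (nat_lit 5) (nat_lit 403) (nat_lit 385) (nat_lit 232))))) (XT.nd (nat_lit 234) (nat_lit 1748) (nat_lit 0) (XT.nd (nat_lit 78) (nat_lit 1064) (nat_lit 0) (XT.lf (nat_lit 0) (nat_lit 39545849729) (nat_lit 456) (nat_lit 18497067226) (nat_lit 532) (nat_lit 1975625233) (nat_lit 302) (nat_lit 5) (nat_lit 308) (nat_lit 5) (nat_lit 309) (nat_lit 5) (nat_lit 404) (nat_lit 385) (nat_lit 231)) (XT.nd (nat_lit 78) (nat_lit 456) (nat_lit 0) (XT.lf (nat_lit 0) (nat_lit 12966742654) (nat_lit 608) (nat_lit 24335867334) (nat_lit 76) (nat_lit 24417397070) (nat_lit 294) (nat_lit 5) (nat_lit 302) (nat_lit 5) (nat_lit 295) (nat_lit 5) (nat_lit 405) (nat_lit 385) (nat_lit 230)) (XT.lf (nat_lit 0) (nat_lit 29414037821) (nat_lit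 532) (nat_lit 27999885603) (nat_lit 76) (nat_lit 6068074894) (nat_lit 288) (nat_lit 5) (nat_lit 295) (nat_lit 5) (nat_lit 289) (nat_lit 5) (nat_lit 406) (nat_lit 385) (nat_lit 229)))) (XT.nd (nat_lit 156) (nat_lit 836) (nat_lit 0) (XT.nd (nat_lit 78) (nat_lit 456) (nat_lit 0) (XT.lf (nat_lit 0) (nat_lit 33751738833) (nat_lit 456) (nat_lit 13883586847) (nat_lit 532) (nat_lit 17668214624) (nat_lit 282) (nat_lit 5) (nat_lit 288) (nat_lit 5) (nat_lit 289) (nat_lit 5) (nat_lit 407) (nat_lit 385) (nat_lit 228)) (XT.lf (nat_lit 0) (nat_lit 474349396) (nat_lit 456) (nat_lit 34906672499) (nat_lit 76) (nat_lit 31807844444) (nat_lit 276) (nat_lit 5) (nat_lit 282) (nat_lit 5) (nat_lit 277) (nat_lit 5) (nat_lit 408) (nat_lit 385) (nat_lit 227))) (XT.nd (nat_lit 78) (nat_lit 380) (nat_lit 0) (XT.lf (nat_lit 0) (nat_lit 20034175369) (nat_lit 532) (nat_lit 38156749838) (nat_lit 76) (nat_lit 10946019300) (nat_lit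 270) (nat_lit 5) (nat_lit 277) (nat_lit 5) (nat_lit 271) (nat_lit 5) (nat_lit 409) (nat_lit 385) (nat_lit 226)) (XT.lf (nat_lit 0) (nat_lit 29939996547) (nat_lit 380) (nat_lit 11637691216) (nat_lit 456) (nat_lit 29574567965) (nat_lit 265) (nat_lit 5) (nat_lit 270) (nat_lit 5) (nat_lit 271) (nat_lit 5) (nat_lit 410) (nat_lit 385) (nat_lit 225)))))) (XT.nd (nat_lit 546) (nat_lit 2128) (nat_lit 0) (XT.nd (nat_lit 234) (nat_lit 1368) (nat_lit 0) (XT.nd (nat_lit 78) (nat_lit 836) (nat_lit 0) (XT.lf (nat_lit 0) (nat_lit 29187297164) (nat_lit 380) (nat_lit 36044289465) (nat_lit 456) (nat_lit 8005749556) (nat_lit 260) (nat_lit 5) (nat_lit 265) (nat_lit 5) (nat_lit 266) (nat_lit 5) (nat_lit 411) (nat_lit 385) (nat_lit 224)) (XT.nd (nat_lit 78) (nat_lit 380) (nat_lit 0) (XT.lf (nat_lit 0) (nat_lit 15308515258) (nat_lit 456) (nat_lit 46677273212) (nat_lit 76) (nat_lit 13408078477) (nat_lit 254) (nat_lit 5)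 (nat_lit 260) (nat_lit 5) (nat_lit 255) (nat_lit 5) (nat_lit 412) (nat_lit 385) (nat_lit 223)) (XT.lf (nat_lit 0) (nat_lit 28501842697) (nat_lit 380) (nat_lit 12216420806) (nat_lit 456) (nat_lit 36904722560) (nat_lit 249) (nat_lit 5) (nat_lit 254) (nat_lit 5) (nat_lit 255) (nat_lit 5) (nat_lit 413) (nat_lit 385) (nat_lit 222)))) (XT.nd (nat_lit 156) (nat_lit 608) (nat_lit 0) (XT.nd (nat_lit 78) (nat_lit 456) (nat_lit 0) (XT.lf (nat_lit 0) (nat_lit 28632592186) (nat_lit 304) (nat_lit 39909437051) (nat_lit 380) (nat_lit 11387225993) (nat_lit 245) (nat_lit 5) (nat_lit 249) (nat_lit 5) (nat_lit 250) (nat_lit 5) (nat_lit 414) (nat_lit 385) (nat_lit 221)) (XT.lf (nat_lit 0) (nat_lit 16146148993) (nat_lit 456) (nat_lit 53189527747) (nat_lit 76) (nat_lit 12979499329) (nat_lit 239) (nat_lit 5) (nat_lit 245) (nat_lit 5) (nat_lit 240) (nat_lit 5) (nat_lit 415) (nat_lit 385) (nat_lit 220))) (XT.nd (nat_lit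 78) (nat_lit 304) (nat_lit 0) (XT.lf (nat_lit 0) (nat_lit 29894251016) (nat_lit 304) (nat_lit 16150320716) (nat_lit 380) (nat_lit 38735722344) (nat_lit 235) (nat_lit 5) (nat_lit 239) (nat_lit 5) (nat_lit 240) (nat_lit 5) (nat_lit 416) (nat_lit 385) (nat_lit 219)) (XT.lf (nat_lit 0) (nat_lit 31108984799) (nat_lit 304) (nat_lit 47560783325) (nat_lit 380) (nat_lit 8661944283) (nat_lit 231) (nat_lit 5) (nat_lit 235) (nat_lit 5) (nat_lit 236) (nat_lit 5) (nat_lit 417) (nat_lit 385) (nat_lit 218))))) (XT.nd (nat_lit 234) (nat_lit 1140) (nat_lit 0) (XT.nd (nat_lit 78) (nat_lit 608) (nat_lit 0) (XT.lf (nat_lit 0) (nat_lit 23604944424) (nat_lit 380) (nat_lit 57256248685) (nat_lit 76) (nat_lit 9108802622) (nat_lit 226) (nat_lit 5) (nat_lit 231) (nat_lit 5) (nat_lit 227) (nat_lit 5) (nat_lit 418) (nat_lit 385) (nat_lit 217)) (XT.nd (nat_lit 78) (nat_lit 304) (nat_lit 0) (XT.lf (nat_lit 0) (nat_lit 34649556195)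 (nat_lit 304) (nat_lit 24054130221) (nat_lit 380) (nat_lit 33992004415) (nat_lit 222) (nat_lit 5) (nat_lit 226) (nat_lit 5) (nat_lit 227) (nat_lit 5) (nat_lit 419) (nat_lit 385) (nat_lit 216)) (XT.lf (nat_lit 0) (nat_lit 1305729291) (nat_lit 304) (nat_lit 58349399232) (nat_lit 76) (nat_lit 35863361397) (nat_lit 218) (nat_lit 5) (nat_lit 222) (nat_lit 5) (nat_lit 219) (nat_lit 5) (nat_lit 420) (nat_lit 385) (nat_lit 215)))) (XT.nd (nat_lit 156) (nat_lit 608) (nat_lit 0) (XT.nd (nat_lit 78) (nat_lit 228) (nat_lit 0) (XT.lf (nat_lit 0) (nat_lit 38913199239) (nat_lit 380) (nat_lit 58365078131) (nat_lit 76) (nat_lit 1156619265) (nat_lit 214) (nat_lit 5) (nat_lit 219) (nat_lit 5) (nat_lit 215) (nat_lit 5) (nat_lit 421) (nat_lit 385) (nat_lit 214)) (XT.lf (nat_lit 0) (nat_lit 43386406758) (nat_lit 228) (nat_lit 36638911467) (nat_lit 304) (nat_lit 21423077198) (nat_lit 211) (nat_lit 5) (nat_lit 214) (nat_lit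 5) (nat_lit 215) (nat_lit 5) (nat_lit 422) (nat_lit 385) (nat_lit 213))) (XT.nd (nat_lit 78) (nat_lit 228) (nat_lit 0) (XT.lf (nat_lit 0) (nat_lit 19552841303) (nat_lit 380) (nat_lit 57255095926) (nat_lit 76) (nat_lit 27759225535) (nat_lit 206) (nat_lit 5) (nat_lit 211) (nat_lit 5) (nat_lit 207) (nat_lit 5) (nat_lit 423) (nat_lit 385) (nat_lit 212)) (XT.lf (nat_lit 0) (nat_lit 51759975002) (nat_lit 228) (nat_lit 11848182718) (nat_lit 304) (nat_lit 44183137540) (nat_lit 203) (nat_lit 5) (nat_lit 206) (nat_lit 5) (nat_lit 207) (nat_lit 5) (nat_lit 424) (nat_lit 385) (nat_lit 211))))))))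
noncomputable def xc111 : XT := (XT.nd (nat_lit 51558) (nat_lit 0) (nat_lit 456) (XT.nd (nat_lit 50466) (nat_lit 0) (nat_lit 9956) (XT.nd (nat_lit 468) (nat_lit 456) (nat_lit 0) (XT.nd (nat_lit 234) (nat_lit 760) (nat_lit 0) (XT.nd (nat_lit 78) (nat_lit 456) (nat_lit 0) (XT.lf (nat_lit 0) (nat_lit 413641327) (nat_lit 304) (nat_lit 54307993020) (nat_lit 76) (nat_lit 56404423965) (nat_lit 199) (nat_lit 5) (nat_lit 203) (nat_lit 5) (nat_lit 200) (nat_lit 5) (nat_lit 425) (nat_lit 385) (nat_lit 210)) (XT.nd (nat_lit 78) (nat_lit 228) (nat_lit 0) (XT.lf (nat_lit 0) (nat_lit 47779705385) (nat_lit 304) (nat_lit 52201169553) (nat_lit 76) (nat_lit 14589964235) (nat_lit 196) (nat_lit 5) (nat_lit 200) (nat_lit 5) (nat_lit 197) (nat_lit 5) (nat_lit 426) (nat_lit 385) (nat_lit 209)) (XT.lf (nat_lit 0) (nat_lit 68624048979) (nat_lit 228) (nat_lit 30665268142) (nat_lit 304) (nat_lit 18845284622) (nat_lit 193)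 (nat_lit 5) (nat_lit 196) (nat_lit 5) (nat_lit 197) (nat_lit 5) (nat_lit 427) (nat_lit 385) (nat_lit 208)))) (XT.nd (nat_lit 78) (nat_lit 456) (nat_lit 0) (XT.lf (nat_lit 0) (nat_lit 32574564541) (nat_lit 304) (nat_lit 46358170997) (nat_lit 76) (nat_lit 42883993279) (nat_lit 189) (nat_lit 5) (nat_lit 193) (nat_lit 5) (nat_lit 190) (nat_lit 5) (nat_lit 428) (nat_lit 385) (nat_lit 207)) (XT.nd (nat_lit 78) (nat_lit 228) (nat_lit 0) (XT.lf (nat_lit 0) (nat_lit 83158903912) (nat_lit 228) (nat_lit 4642719657) (nat_lit 304) (nat_lit 37826962061) (nat_lit 186) (nat_lit 5) (nat_lit 189) (nat_lit 5) (nat_lit 190) (nat_lit 5) (nat_lit 429) (nat_lit 385) (nat_lit 206)) (XT.lf (nat_lit 0) (nat_lit 17930365163) (nat_lit 228) (nat_lit 38165964221) (nat_lit 76) (nat_lit 73467445439) (nat_lit 183) (nat_lit 5) (nat_lit 186) (nat_lit 5) (nat_lit 184) (nat_lit 5) (nat_lit 430) (nat_lit 385) (nat_lit 205))))) (XT.nd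 (nat_lit 49686) (nat_lit 0) (nat_lit 15048) (XT.nd (nat_lit 78) (nat_lit 228) (nat_lit 0) (XT.lf (nat_lit 0) (nat_lit 77381876661) (nat_lit 304) (nat_lit 33173474213) (nat_lit 76) (nat_lit 23078477744) (nat_lit 180) (nat_lit 5) (nat_lit 184) (nat_lit 5) (nat_lit 181) (nat_lit 5) (nat_lit 431) (nat_lit 385) (nat_lit 204)) (XT.nd (nat_lit 49530) (nat_lit 0) (nat_lit 14972) (XT.lf (nat_lit 0) (nat_lit 3905604888) (nat_lit 228) (nat_lit 27380789430) (nat_lit 76) (nat_lit 106559121045) (nat_lit 177) (nat_lit 5) (nat_lit 180) (nat_lit 5) (nat_lit 178) (nat_lit 5) (nat_lit 432) (nat_lit 385) (nat_lit 203)) (XT.lf (nat_lit 0) (nat_lit 11601332378) (nat_lit 1292) (nat_lit 3778365283) (nat_lit 1292) (nat_lit 3778365283) (nat_lit 374) (nat_lit 3) (nat_lit 391) (nat_lit 3) (nat_lit 391) (nat_lit 5) (nat_lit 386) (nat_lit 386) (nat_lit 248)))) (XT.nd (nat_lit 156) (nat_lit 0) (nat_lit 76) (XT.nd (nat_lit 78)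 (nat_lit 0) (nat_lit 0) (XT.lf (nat_lit 0) (nat_lit 24102268115) (nat_lit 1216) (nat_lit 14414035297) (nat_lit 1292) (nat_lit 748139522) (nat_lit 375) (nat_lit 5) (nat_lit 391) (nat_lit 5) (nat_lit 392) (nat_lit 5) (nat_lit 387) (nat_lit 386) (nat_lit 247)) (XT.lf (nat_lit 76) (nat_lit 18831588014) (nat_lit 0) (nat_lit 6780615376) (nat_lit 1292) (nat_lit 14631011889) (nat_lit 376) (nat_lit 5) (nat_lit 375) (nat_lit 5) (nat_lit 392) (nat_lit 5) (nat_lit 388) (nat_lit 386) (nat_lit 246))) (XT.nd (nat_lit 78) (nat_lit 0) (nat_lit 76) (XT.lf (nat_lit 76) (nat_lit 12763990248) (nat_lit 0) (nat_lit 14956852345) (nat_lit 1292) (nat_lit 13534387433) (nat_lit 377) (nat_lit 5) (nat_lit 376) (nat_lit 5) (nat_lit 393) (nat_lit 5) (nat_lit 389) (nat_lit 386) (nat_lit 245)) (XT.lf (nat_lit 76) (nat_lit 6663337463) (nat_lit 0) (nat_lit 23800285066) (nat_lit 1292) (nat_lit 11838361718) (nat_lit 378) (nat_lit 5)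 (nat_lit 377) (nat_lit 5) (nat_lit 394) (nat_lit 5) (nat_lit 390) (nat_lit 386) (nat_lit 244)))))) (XT.nd (nat_lit 546) (nat_lit 3496) (nat_lit 0) (XT.nd (nat_lit 234) (nat_lit 1824) (nat_lit 0) (XT.nd (nat_lit 78) (nat_lit 0) (nat_lit 76) (XT.lf (nat_lit 76) (nat_lit 538604214) (nat_lit 0) (nat_lit 33347155152) (nat_lit 1292) (nat_lit 9499050276) (nat_lit 379) (nat_lit 5) (nat_lit 378) (nat_lit 5) (nat_lit 395) (nat_lit 5) (nat_lit 391) (nat_lit 386) (nat_lit 243)) (XT.nd (nat_lit 78) (nat_lit 0) (nat_lit 0) (XT.lf (nat_lit 0) (nat_lit 38088881264) (nat_lit 1216) (nat_lit 5491094655) (nat_lit 1292) (nat_lit 923504042) (nat_lit 379) (nat_lit 5) (nat_lit 395) (nat_lit 5) (nat_lit 396) (nat_lit 5) (nat_lit 392) (nat_lit 386) (nat_lit 242)) (XT.lf (nat_lit 76) (nat_lit 34057027571) (nat_lit 0) (nat_lit 9105375393) (nat_lit 1292) (nat_lit 2495873520) (nat_lit 380) (nat_lit 5) (nat_lit 379) (nat_lit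 5) (nat_lit 396) (nat_lit 5) (nat_lit 393) (nat_lit 386) (nat_lit 241)))) (XT.nd (nat_lit 156) (nat_lit 684) (nat_lit 0) (XT.nd (nat_lit 78) (nat_lit 0) (nat_lit 76) (XT.lf (nat_lit 0) (nat_lit 2187089598) (nat_lit 1292) (nat_lit 17741529363) (nat_lit 1368) (nat_lit 26923730347) (nat_lit 363) (nat_lit 5) (nat_lit 380) (nat_lit 5) (nat_lit 381) (nat_lit 5) (nat_lit 394) (nat_lit 386) (nat_lit 240)) (XT.lf (nat_lit 0) (nat_lit 7658252264) (nat_lit 1292) (nat_lit 23901562724) (nat_lit 1368) (nat_lit 16527399341) (nat_lit 364) (nat_lit 5) (nat_lit 381) (nat_lit 5) (nat_lit 382) (nat_lit 5) (nat_lit 395) (nat_lit 386) (nat_lit 239))) (XT.nd (nat_lit 78) (nat_lit 836) (nat_lit 0) (XT.lf (nat_lit 0) (nat_lit 14023423751) (nat_lit 1292) (nat_lit 30044792894) (nat_lit 76) (nat_lit 5296992433) (nat_lit 365) (nat_lit 5) (nat_lit 382) (nat_lit 5) (nat_lit 366) (nat_lit 5) (nat_lit 396) (nat_lit 386) (nat_lit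 238)) (XT.lf (nat_lit 0) (nat_lit 14461656315) (nat_lit 836) (nat_lit 6948069298) (nat_lit 912) (nat_lit 29276291800) (nat_lit 354) (nat_lit 5) (nat_lit 365) (nat_lit 5) (nat_lit 366) (nat_lit 5) (nat_lit 397) (nat_lit 386) (nat_lit 237))))) (XT.nd (nat_lit 234) (nat_lit 1748) (nat_lit 0) (XT.nd (nat_lit 78) (nat_lit 1140) (nat_lit 0) (XT.lf (nat_lit 0) (nat_lit 9631881499) (nat_lit 608) (nat_lit 20243231537) (nat_lit 684) (nat_lit 22176460013) (nat_lit 346) (nat_lit 5) (nat_lit 354) (nat_lit 5) (nat_lit 355) (nat_lit 5) (nat_lit 398) (nat_lit 386) (nat_lit 236)) (XT.nd (nat_lit 78) (nat_lit 532) (nat_lit 0) (XT.lf (nat_lit 0) (nat_lit 4901939199) (nat_lit 608) (nat_lit 34533514067) (nat_lit 684) (nat_lit 14029802699) (nat_lit 338) (nat_lit 5) (nat_lit 346) (nat_lit 5) (nat_lit 347) (nat_lit 5) (nat_lit 399) (nat_lit 386) (nat_lit 235)) (XT.lf (nat_lit 0) (nat_lit 290540651) (nat_lit 532) (nat_lit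 49871800382) (nat_lit 608) (nat_lit 4766626077) (nat_lit 331) (nat_lit 5) (nat_lit 338) (nat_lit 5) (nat_lit 339) (nat_lit 5) (nat_lit 400) (nat_lit 386) (nat_lit 234)))) (XT.nd (nat_lit 156) (nat_lit 1064) (nat_lit 0) (XT.nd (nat_lit 78) (nat_lit 608) (nat_lit 0) (XT.lf (nat_lit 0) (nat_lit 5713624745) (nat_lit 608) (nat_lit 4252933806) (nat_lit 76) (nat_lit 46472354074) (nat_lit 330) (nat_lit 5) (nat_lit 338) (nat_lit 5) (nat_lit 331) (nat_lit 5) (nat_lit 401) (nat_lit 386) (nat_lit 233)) (XT.lf (nat_lit 0) (nat_lit 17406271644) (nat_lit 684) (nat_lit 8752553033) (nat_lit 76) (nat_lit 31840505969) (nat_lit 322) (nat_lit 5) (nat_lit 331) (nat_lit 5) (nat_lit 323) (nat_lit 5) (nat_lit 402) (nat_lit 386) (nat_lit 232))) (XT.nd (nat_lit 78) (nat_lit 532) (nat_lit 0) (XT.lf (nat_lit 0) (nat_lit 30432299494) (nat_lit 608) (nat_lit 13096639284) (nat_lit 76) (nat_lit 16086368331) (nat_lit 315) (nat_lit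 5) (nat_lit 323) (nat_lit 5) (nat_lit 316) (nat_lit 5) (nat_lit 403) (nat_lit 386) (nat_lit 231)) (XT.lf (nat_lit 0) (nat_lit 44018344450) (nat_lit 532) (nat_lit 867030067) (nat_lit 608) (nat_lit 16403435505) (nat_lit 308) (nat_lit 5) (nat_lit 315) (nat_lit 5) (nat_lit 316) (nat_lit 5) (nat_lit 404) (nat_lit 386) (nat_lit 230))))))) (XT.nd (nat_lit 1014) (nat_lit 3952) (nat_lit 0) (XT.nd (nat_lit 468) (nat_lit 2660) (nat_lit 0) (XT.nd (nat_lit 234) (nat_lit 1368) (nat_lit 0) (XT.nd (nat_lit 78) (nat_lit 1064) (nat_lit 0) (XT.lf (nat_lit 0) (nat_lit 41606453539) (nat_lit 456) (nat_lit 19410694447) (nat_lit 532) (nat_lit 2000158755) (nat_lit 302) (nat_lit 5) (nat_lit 308) (nat_lit 5) (nat_lit 309) (nat_lit 5) (nat_lit 405) (nat_lit 386) (nat_lit 229)) (XT.nd (nat_lit 78) (nat_lit 456) (nat_lit 0) (XT.lf (nat_lit 0) (nat_lit 13685320822) (nat_lit 608) (nat_lit 25468343798) (nat_lit 76) (nat_lit 25650235560)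 (nat_lit 294) (nat_lit 5) (nat_lit 302) (nat_lit 5) (nat_lit 295) (nat_lit 5) (nat_lit 406) (nat_lit 386) (nat_lit 228)) (XT.lf (nat_lit 0) (nat_lit 30952559867) (nat_lit 532) (nat_lit 29316086060) (nat_lit 76) (nat_lit 6385417703) (nat_lit 288) (nat_lit 5) (nat_lit 295) (nat_lit 5) (nat_lit 289) (nat_lit 5) (nat_lit 407) (nat_lit 386) (nat_lit 227)))) (XT.nd (nat_lit 78) (nat_lit 912) (nat_lit 0) (XT.lf (nat_lit 0) (nat_lit 35520717665) (nat_lit 456) (nat_lit 14561747311) (nat_lit 532) (nat_lit 18484291153) (nat_lit 282) (nat_lit 5) (nat_lit 288) (nat_lit 5) (nat_lit 289) (nat_lit 5) (nat_lit 408) (nat_lit 386) (nat_lit 226)) (XT.nd (nat_lit 78) (nat_lit 456) (nat_lit 0) (XT.lf (nat_lit 0) (nat_lit 561875943) (nat_lit 456) (nat_lit 36569921987) (nat_lit 76) (nat_lit 33414597454) (nat_lit 276) (nat_lit 5) (nat_lit 282) (nat_lit 5) (nat_lit 277) (nat_lit 5) (nat_lit 409) (nat_lit 386) (nat_lit 225))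 (XT.lf (nat_lit 0) (nat_lit 21097596006) (nat_lit 532) (nat_lit 39983184903) (nat_lit 76) (nat_lit 11511159467) (nat_lit 270) (nat_lit 5) (nat_lit 277) (nat_lit 5) (nat_lit 271) (nat_lit 5) (nat_lit 410) (nat_lit 386) (nat_lit 224))))) (XT.nd (nat_lit 234) (nat_lit 1444) (nat_lit 0) (XT.nd (nat_lit 78) (nat_lit 836) (nat_lit 0) (XT.lf (nat_lit 0) (nat_lit 31516065418) (nat_lit 380) (nat_lit 12200040002) (nat_lit 456) (nat_lit 30991977097) (nat_lit 265) (nat_lit 5) (nat_lit 270) (nat_lit 5) (nat_lit 271) (nat_lit 5) (nat_lit 411) (nat_lit 386) (nat_lit 223)) (XT.nd (nat_lit 78) (nat_lit 456) (nat_lit 0) (XT.lf (nat_lit 0) (nat_lit 30725016963) (nat_lit 380) (nat_lit 37825779391) (nat_lit 456) (nat_lit 8346677728) (nat_lit 260) (nat_lit 5) (nat_lit 265) (nat_lit 5) (nat_lit 266) (nat_lit 5) (nat_lit 412) (nat_lit 386) (nat_lit 222)) (XT.lf (nat_lit 0) (nat_lit 16130315420) (nat_lit 456) (nat_lit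 48932420154) (nat_lit 76) (nat_lit 14099133490) (nat_lit 254) (nat_lit 5) (nat_lit 260) (nat_lit 5) (nat_lit 255) (nat_lit 5) (nat_lit 413) (nat_lit 386) (nat_lit 221)))) (XT.nd (nat_lit 156) (nat_lit 760) (nat_lit 0) (XT.nd (nat_lit 78) (nat_lit 304) (nat_lit 0) (XT.lf (nat_lit 0) (nat_lit 30003395152) (nat_lit 380) (nat_lit 12805206412) (nat_lit 456) (nat_lit 38693901055) (nat_lit 249) (nat_lit 5) (nat_lit 254) (nat_lit 5) (nat_lit 255) (nat_lit 5) (nat_lit 414) (nat_lit 386) (nat_lit 220)) (XT.lf (nat_lit 0) (nat_lit 30139870594) (nat_lit 304) (nat_lit 41882022244) (nat_lit 380) (nat_lit 11902242290) (nat_lit 245) (nat_lit 5) (nat_lit 249) (nat_lit 5) (nat_lit 250) (nat_lit 5) (nat_lit 415) (nat_lit 386) (nat_lit 219))) (XT.nd (nat_lit 78) (nat_lit 304) (nat_lit 0) (XT.lf (nat_lit 0) (nat_lit 17005141402) (nat_lit 456) (nat_lit 55773171364) (nat_lit 76) (nat_lit 13651071558) (nat_lit 239) (nat_lit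 5) (nat_lit 245) (nat_lit 5) (nat_lit 240) (nat_lit 5) (nat_lit 416) (nat_lit 386) (nat_lit 218)) (XT.lf (nat_lit 0) (nat_lit 31462622606) (nat_lit 304) (nat_lit 16934109539) (nat_lit 380) (nat_lit 40621078680) (nat_lit 235) (nat_lit 5) (nat_lit 239) (nat_lit 5) (nat_lit 240) (nat_lit 5) (nat_lit 417) (nat_lit 386) (nat_lit 217)))))) (XT.nd (nat_lit 546) (nat_lit 1748) (nat_lit 0) (XT.nd (nat_lit 234) (nat_lit 1216) (nat_lit 0) (XT.nd (nat_lit 78) (nat_lit 684) (nat_lit 0) (XT.lf (nat_lit 0) (nat_lit 32737215130) (nat_lit 304) (nat_lit 49914512356) (nat_lit 380) (nat_lit 9045116412) (nat_lit 231) (nat_lit 5) (nat_lit 235) (nat_lit 5) (nat_lit 236) (nat_lit 5) (nat_lit 418) (nat_lit 386) (nat_lit 216)) (XT.nd (nat_lit 78) (nat_lit 304) (nat_lit 0) (XT.lf (nat_lit 0) (nat_lit 24832734077) (nat_lit 380) (nat_lit 60046234634) (nat_lit 76) (nat_lit 9588100533) (nat_lit 226) (nat_lit 5) (nat_lit 231)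 (nat_lit 5) (nat_lit 227) (nat_lit 5) (nat_lit 419) (nat_lit 386) (nat_lit 215)) (XT.lf (nat_lit 0) (nat_lit 36452772933) (nat_lit 304) (nat_lit 25232056296) (nat_lit 380) (nat_lit 35644267389) (nat_lit 222) (nat_lit 5) (nat_lit 226) (nat_lit 5) (nat_lit 227) (nat_lit 5) (nat_lit 420) (nat_lit 386) (nat_lit 214)))) (XT.nd (nat_lit 156) (nat_lit 608) (nat_lit 0) (XT.nd (nat_lit 78) (nat_lit 304) (nat_lit 0) (XT.lf (nat_lit 0) (nat_lit 1416126010) (nat_lit 304) (nat_lit 61196152344) (nat_lit 76) (nat_lit 37680782754) (nat_lit 218) (nat_lit 5) (nat_lit 222) (nat_lit 5) (nat_lit 219) (nat_lit 5) (nat_lit 421) (nat_lit 386) (nat_lit 213)) (XT.lf (nat_lit 0) (nat_lit 40902722599) (nat_lit 380) (nat_lit 61213574562) (nat_lit 76) (nat_lit 1239028405) (nat_lit 214) (nat_lit 5) (nat_lit 219) (nat_lit 5) (nat_lit 215) (nat_lit 5) (nat_lit 422) (nat_lit 386) (nat_lit 212))) (XT.nd (nat_lit 78) (nat_lit 380)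 (nat_lit 0) (XT.lf (nat_lit 0) (nat_lit 45623484988) (nat_lit 228) (nat_lit 38445525143) (nat_lit 304) (nat_lit 22450532283) (nat_lit 211) (nat_lit 5) (nat_lit 214) (nat_lit 5) (nat_lit 215) (nat_lit 5) (nat_lit 423) (nat_lit 386) (nat_lit 211)) (XT.lf (nat_lit 0) (nat_lit 20572171970) (nat_lit 380) (nat_lit 60050205641) (nat_lit 76) (nat_lit 29171892633) (nat_lit 206) (nat_lit 5) (nat_lit 211) (nat_lit 5) (nat_lit 207) (nat_lit 5) (nat_lit 424) (nat_lit 386) (nat_lit 210))))) (XT.nd (nat_lit 234) (nat_lit 988) (nat_lit 0) (XT.nd (nat_lit 78) (nat_lit 532) (nat_lit 0) (XT.lf (nat_lit 0) (nat_lit 54413679800) (nat_lit 228) (nat_lit 12415220843) (nat_lit 304) (nat_lit 46350749329) (nat_lit 203) (nat_lit 5) (nat_lit 206) (nat_lit 5) (nat_lit 207) (nat_lit 5) (nat_lit 425) (nat_lit 386) (nat_lit 209)) (XT.nd (nat_lit 78) (nat_lit 228) (nat_lit 0) (XT.lf (nat_lit 0) (nat_lit 473981309) (nat_lit 304)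 (nat_lit 56957842329) (nat_lit 76) (nat_lit 59249347853) (nat_lit 199) (nat_lit 5) (nat_lit 203) (nat_lit 5) (nat_lit 200) (nat_lit 5) (nat_lit 426) (nat_lit 386) (nat_lit 208)) (XT.lf (nat_lit 0) (nat_lit 50207315248) (nat_lit 304) (nat_lit 54746648332) (nat_lit 76) (nat_lit 15344258814) (nat_lit 196) (nat_lit 5) (nat_lit 200) (nat_lit 5) (nat_lit 197) (nat_lit 5) (nat_lit 427) (nat_lit 386) (nat_lit 207)))) (XT.nd (nat_lit 156) (nat_lit 456) (nat_lit 0) (XT.nd (nat_lit 78) (nat_lit 304) (nat_lit 0) (XT.lf (nat_lit 0) (nat_lit 72117979962) (nat_lit 228) (nat_lit 32173191327) (nat_lit 304) (nat_lit 19749038892) (nat_lit 193) (nat_lit 5) (nat_lit 196) (nat_lit 5) (nat_lit 197) (nat_lit 5) (nat_lit 428) (nat_lit 386) (nat_lit 206)) (XT.lf (nat_lit 0) (nat_lit 34240087300) (nat_lit 304) (nat_lit 48613563937) (nat_lit 76) (nat_lit 45052810185) (nat_lit 189) (nat_lit 5) (nat_lit 193) (nat_lit 5) (nat_lit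 190) (nat_lit 5) (nat_lit 429) (nat_lit 386) (nat_lit 205))) (XT.nd (nat_lit 78) (nat_lit 228) (nat_lit 0) (XT.lf (nat_lit 0) (nat_lit 87377572721) (nat_lit 228) (nat_lit 4849758151) (nat_lit 304) (nat_lit 39681615256) (nat_lit 186) (nat_lit 5) (nat_lit 189) (nat_lit 5) (nat_lit 190) (nat_lit 5) (nat_lit 430) (nat_lit 386) (nat_lit 204)) (XT.lf (nat_lit 0) (nat_lit 18861961437) (nat_lit 228) (nat_lit 40013777517) (nat_lit 76) (nat_lit 77165172269) (nat_lit 183) (nat_lit 5) (nat_lit 186) (nat_lit 5) (nat_lit 184) (nat_lit 5) (nat_lit 431) (nat_lit 386) (nat_lit 203))))))))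
noncomputable def xc112 : XT := (XT.nd (nat_lit 51558) (nat_lit 0) (nat_lit 228) (XT.nd (nat_lit 50544) (nat_lit 0) (nat_lit 6840) (XT.nd (nat_lit 49998) (nat_lit 0) (nat_lit 13224) (XT.nd (nat_lit 49764) (nat_lit 0) (nat_lit 14820) (XT.nd (nat_lit 49608) (nat_lit 0) (nat_lit 14744) (XT.lf (nat_lit 0) (nat_lit 81285181068) (nat_lit 304) (nat_lit 34772615814) (nat_lit 76) (nat_lit 24256696849) (nat_lit 180) (nat_lit 5) (nat_lit 184) (nat_lit 5) (nat_lit 181) (nat_lit 5) (nat_lit 432) (nat_lit 386) (nat_lit 202)) (XT.nd (nat_lit 78) (nat_lit 0) (nat_lit 76) (XT.lf (nat_lit 0) (nat_lit 12253507424) (nat_lit 1292) (nat_lit 3930147707) (nat_lit 1292) (nat_lit 3930147707) (nat_lit 374) (nat_lit 3) (nat_lit 391) (nat_lit 3) (nat_lit 391) (nat_lit 5) (nat_lit 387) (nat_lit 387) (nat_lit 246)) (XT.lf (nat_lit 0) (nat_lit 25444790914) (nat_lit 1216) (nat_lit 15057819605) (nat_lit 1292) (nat_lit 720932280)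 (nat_lit 375) (nat_lit 5) (nat_lit 391) (nat_lit 5) (nat_lit 392) (nat_lit 5) (nat_lit 388) (nat_lit 387) (nat_lit 245)))) (XT.nd (nat_lit 78) (nat_lit 0) (nat_lit 76) (XT.lf (nat_lit 76) (nat_lit 19847880048) (nat_lit 0) (nat_lit 7176517784) (nat_lit 1292) (nat_lit 15227030683) (nat_lit 376) (nat_lit 5) (nat_lit 375) (nat_lit 5) (nat_lit 392) (nat_lit 5) (nat_lit 389) (nat_lit 387) (nat_lit 244)) (XT.nd (nat_lit 78) (nat_lit 0) (nat_lit 76) (XT.lf (nat_lit 76) (nat_lit 13479126158) (nat_lit 0) (nat_lit 15753295827) (nat_lit 1292) (nat_lit 14081803425) (nat_lit 377) (nat_lit 5) (nat_lit 376) (nat_lit 5) (nat_lit 393) (nat_lit 5) (nat_lit 390) (nat_lit 387) (nat_lit 243)) (XT.lf (nat_lit 76) (nat_lit 7075347320) (nat_lit 0) (nat_lit 25031328585) (nat_lit 1292) (nat_lit 12306811386) (nat_lit 378) (nat_lit 5) (nat_lit 377) (nat_lit 5) (nat_lit 394) (nat_lit 5) (nat_lit 391) (nat_lit 387) (nat_lit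 242))))) (XT.nd (nat_lit 234) (nat_lit 1824) (nat_lit 0) (XT.nd (nat_lit 78) (nat_lit 0) (nat_lit 76) (XT.lf (nat_lit 76) (nat_lit 645993567) (nat_lit 0) (nat_lit 35048615620) (nat_lit 1292) (nat_lit 9856004082) (nat_lit 379) (nat_lit 5) (nat_lit 378) (nat_lit 5) (nat_lit 395) (nat_lit 5) (nat_lit 392) (nat_lit 387) (nat_lit 241)) (XT.nd (nat_lit 78) (nat_lit 0) (nat_lit 0) (XT.lf (nat_lit 0) (nat_lit 40102119647) (nat_lit 1216) (nat_lit 5685436232) (nat_lit 1292) (nat_lit 937834251) (nat_lit 379) (nat_lit 5) (nat_lit 395) (nat_lit 5) (nat_lit 396) (nat_lit 5) (nat_lit 393) (nat_lit 387) (nat_lit 240)) (XT.lf (nat_lit 76) (nat_lit 35837792812) (nat_lit 0) (nat_lit 9587092894) (nat_lit 1292) (nat_lit 2513173724) (nat_lit 380) (nat_lit 5) (nat_lit 379) (nat_lit 5) (nat_lit 396) (nat_lit 5) (nat_lit 394) (nat_lit 387) (nat_lit 239)))) (XT.nd (nat_lit 156) (nat_lit 684) (nat_lit 0) (XT.nd (nat_lit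 78) (nat_lit 0) (nat_lit 76) (XT.lf (nat_lit 0) (nat_lit 2397343191) (nat_lit 1292) (nat_lit 18547629178) (nat_lit 1368) (nat_lit 28246967431) (nat_lit 363) (nat_lit 5) (nat_lit 380) (nat_lit 5) (nat_lit 381) (nat_lit 5) (nat_lit 395) (nat_lit 387) (nat_lit 238)) (XT.lf (nat_lit 0) (nat_lit 8137840453) (nat_lit 1292) (nat_lit 25014904971) (nat_lit 1368) (nat_lit 17335929353) (nat_lit 364) (nat_lit 5) (nat_lit 381) (nat_lit 5) (nat_lit 382) (nat_lit 5) (nat_lit 396) (nat_lit 387) (nat_lit 237))) (XT.nd (nat_lit 78) (nat_lit 836) (nat_lit 0) (XT.lf (nat_lit 0) (nat_lit 14817300875) (nat_lit 1292) (nat_lit 31464725323) (nat_lit 76) (nat_lit 5548662156) (nat_lit 365) (nat_lit 5) (nat_lit 382) (nat_lit 5) (nat_lit 366) (nat_lit 5) (nat_lit 397) (nat_lit 387) (nat_lit 236)) (XT.lf (nat_lit 0) (nat_lit 15264687026) (nat_lit 836) (nat_lit 7304584743) (nat_lit 912) (nat_lit 30648374718) (nat_lit 354) (nat_lit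 5) (nat_lit 365) (nat_lit 5) (nat_lit 366) (nat_lit 5) (nat_lit 398) (nat_lit 387) (nat_lit 235)))))) (XT.nd (nat_lit 468) (nat_lit 3420) (nat_lit 0) (XT.nd (nat_lit 234) (nat_lit 1216) (nat_lit 0) (XT.nd (nat_lit 78) (nat_lit 1140) (nat_lit 0) (XT.lf (nat_lit 0) (nat_lit 10193812069) (nat_lit 608) (nat_lit 21260564373) (nat_lit 684) (nat_lit 23197210027) (nat_lit 346) (nat_lit 5) (nat_lit 354) (nat_lit 5) (nat_lit 355) (nat_lit 5) (nat_lit 399) (nat_lit 387) (nat_lit 234)) (XT.nd (nat_lit 78) (nat_lit 532) (nat_lit 0) (XT.lf (nat_lit 0) (nat_lit 5227609809) (nat_lit 608) (nat_lit 36261779258) (nat_lit 684) (nat_lit 14646664803) (nat_lit 338) (nat_lit 5) (nat_lit 346) (nat_lit 5) (nat_lit 347) (nat_lit 5) (nat_lit 400) (nat_lit 387) (nat_lit 233)) (XT.lf (nat_lit 0) (nat_lit 385740786) (nat_lit 532) (nat_lit 52363728834) (nat_lit 608) (nat_lit 4923575500) (nat_lit 331) (nat_lit 5) (nat_lit 338)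 (nat_lit 5) (nat_lit 339) (nat_lit 5) (nat_lit 401) (nat_lit 387) (nat_lit 232)))) (XT.nd (nat_lit 78) (nat_lit 1140) (nat_lit 0) (XT.lf (nat_lit 0) (nat_lit 6075300103) (nat_lit 608) (nat_lit 4387236539) (nat_lit 76) (nat_lit 48796041791) (nat_lit 330) (nat_lit 5) (nat_lit 338) (nat_lit 5) (nat_lit 331) (nat_lit 5) (nat_lit 402) (nat_lit 387) (nat_lit 231)) (XT.nd (nat_lit 78) (nat_lit 532) (nat_lit 0) (XT.lf (nat_lit 0) (nat_lit 18349720837) (nat_lit 684) (nat_lit 9111917990) (nat_lit 76) (nat_lit 33435464283) (nat_lit 322) (nat_lit 5) (nat_lit 331) (nat_lit 5) (nat_lit 323) (nat_lit 5) (nat_lit 403) (nat_lit 387) (nat_lit 230)) (XT.lf (nat_lit 0) (nat_lit 32024352349) (nat_lit 608) (nat_lit 13673394600) (nat_lit 76) (nat_lit 16896212380) (nat_lit 315) (nat_lit 5) (nat_lit 323) (nat_lit 5) (nat_lit 316) (nat_lit 5) (nat_lit 404) (nat_lit 387) (nat_lit 229))))) (XT.nd (nat_lit 234) (nat_lit 1824)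 (nat_lit 0) (XT.nd (nat_lit 78) (nat_lit 1064) (nat_lit 0) (XT.lf (nat_lit 0) (nat_lit 46295100270) (nat_lit 532) (nat_lit 902355675) (nat_lit 608) (nat_lit 17153760197) (nat_lit 308) (nat_lit 5) (nat_lit 315) (nat_lit 5) (nat_lit 316) (nat_lit 5) (nat_lit 405) (nat_lit 387) (nat_lit 228)) (XT.nd (nat_lit 78) (nat_lit 608) (nat_lit 0) (XT.lf (nat_lit 0) (nat_lit 43762342042) (nat_lit 456) (nat_lit 20371046730) (nat_lit 532) (nat_lit 2032821804) (nat_lit 302) (nat_lit 5) (nat_lit 308) (nat_lit 5) (nat_lit 309) (nat_lit 5) (nat_lit 406) (nat_lit 387) (nat_lit 227)) (XT.lf (nat_lit 0) (nat_lit 14433297553) (nat_lit 608) (nat_lit 26665283072) (nat_lit 76) (nat_lit 26943603244) (nat_lit 294) (nat_lit 5) (nat_lit 302) (nat_lit 5) (nat_lit 295) (nat_lit 5) (nat_lit 407) (nat_lit 387) (nat_lit 226)))) (XT.nd (nat_lit 156) (nat_lit 912) (nat_lit 0) (XT.nd (nat_lit 78) (nat_lit 456) (nat_lit 0) (XT.lf (nat_lit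 0) (nat_lit 32561702740) (nat_lit 532) (nat_lit 30705886895) (nat_lit 76) (nat_lit 6717331730) (nat_lit 288) (nat_lit 5) (nat_lit 295) (nat_lit 5) (nat_lit 289) (nat_lit 5) (nat_lit 408) (nat_lit 387) (nat_lit 225)) (XT.lf (nat_lit 0) (nat_lit 37370578391) (nat_lit 456) (nat_lit 15275305082) (nat_lit 532) (nat_lit 19347431604) (nat_lit 282) (nat_lit 5) (nat_lit 288) (nat_lit 5) (nat_lit 289) (nat_lit 5) (nat_lit 409) (nat_lit 387) (nat_lit 224))) (XT.nd (nat_lit 78) (nat_lit 456) (nat_lit 0) (XT.lf (nat_lit 0) (nat_lit 647846454) (nat_lit 456) (nat_lit 38323965354) (nat_lit 76) (nat_lit 35100167044) (nat_lit 276) (nat_lit 5) (nat_lit 282) (nat_lit 5) (nat_lit 277) (nat_lit 5) (nat_lit 410) (nat_lit 387) (nat_lit 223)) (XT.lf (nat_lit 0) (nat_lit 22208450290) (nat_lit 532) (nat_lit 41908509747) (nat_lit 76) (nat_lit 12102898123) (nat_lit 270) (nat_lit 5) (nat_lit 277) (nat_lit 5) (nat_lit 271) (nat_lit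 5) (nat_lit 411) (nat_lit 387) (nat_lit 222))))))) (XT.nd (nat_lit 1014) (nat_lit 2128) (nat_lit 0) (XT.nd (nat_lit 468) (nat_lit 2128) (nat_lit 0) (XT.nd (nat_lit 234) (nat_lit 1140) (nat_lit 0) (XT.nd (nat_lit 78) (nat_lit 836) (nat_lit 0) (XT.lf (nat_lit 0) (nat_lit 33163586641) (nat_lit 380) (nat_lit 12792322479) (nat_lit 456) (nat_lit 32485957569) (nat_lit 265) (nat_lit 5) (nat_lit 270) (nat_lit 5) (nat_lit 271) (nat_lit 5) (nat_lit 412) (nat_lit 387) (nat_lit 221)) (XT.nd (nat_lit 78) (nat_lit 456) (nat_lit 0) (XT.lf (nat_lit 0) (nat_lit 32332338052) (nat_lit 380) (nat_lit 39698270586) (nat_lit 456) (nat_lit 8710170974) (nat_lit 260) (nat_lit 5) (nat_lit 265) (nat_lit 5) (nat_lit 266) (nat_lit 5) (nat_lit 413) (nat_lit 387) (nat_lit 220)) (XT.lf (nat_lit 0) (nat_lit 16987964432) (nat_lit 456) (nat_lit 51307642776) (nat_lit 76) (nat_lit 14822821311) (nat_lit 254) (nat_lit 5) (nat_lit 260)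 (nat_lit 5) (nat_lit 255) (nat_lit 5) (nat_lit 414) (nat_lit 387) (nat_lit 219)))) (XT.nd (nat_lit 78) (nat_lit 760) (nat_lit 0) (XT.lf (nat_lit 0) (nat_lit 31572916675) (nat_lit 380) (nat_lit 13425479945) (nat_lit 456) (nat_lit 40577750182) (nat_lit 249) (nat_lit 5) (nat_lit 254) (nat_lit 5) (nat_lit 255) (nat_lit 5) (nat_lit 415) (nat_lit 387) (nat_lit 218)) (XT.nd (nat_lit 78) (nat_lit 456) (nat_lit 0) (XT.lf (nat_lit 0) (nat_lit 31715479814) (nat_lit 304) (nat_lit 43955364482) (nat_lit 380) (nat_lit 12448061884) (nat_lit 245) (nat_lit 5) (nat_lit 249) (nat_lit 5) (nat_lit 250) (nat_lit 5) (nat_lit 416) (nat_lit 387) (nat_lit 217)) (XT.lf (nat_lit 0) (nat_lit 17902278254) (nat_lit 456) (nat_lit 58493047374) (nat_lit 76) (nat_lit 14354121519) (nat_lit 239) (nat_lit 5) (nat_lit 245) (nat_lit 5) (nat_lit 240) (nat_lit 5) (nat_lit 417) (nat_lit 387) (nat_lit 216))))) (XT.nd (nat_lit 234) (nat_lit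 1140) (nat_lit 0) (XT.nd (nat_lit 78) (nat_lit 684) (nat_lit 0) (XT.lf (nat_lit 0) (nat_lit 33102564656) (nat_lit 304) (nat_lit 17759293734) (nat_lit 380) (nat_lit 42605484286) (nat_lit 235) (nat_lit 5) (nat_lit 239) (nat_lit 5) (nat_lit 240) (nat_lit 5) (nat_lit 418) (nat_lit 387) (nat_lit 215)) (XT.nd (nat_lit 78) (nat_lit 380) (nat_lit 0) (XT.lf (nat_lit 0) (nat_lit 34440090482) (nat_lit 304) (nat_lit 52388187965) (nat_lit 380) (nat_lit 9452088709) (nat_lit 231) (nat_lit 5) (nat_lit 235) (nat_lit 5) (nat_lit 236) (nat_lit 5) (nat_lit 419) (nat_lit 387) (nat_lit 214)) (XT.lf (nat_lit 0) (nat_lit 26117493167) (nat_lit 380) (nat_lit 62982490598) (nat_lit 76) (nat_lit 10089145270) (nat_lit 226) (nat_lit 5) (nat_lit 231) (nat_lit 5) (nat_lit 227) (nat_lit 5) (nat_lit 420) (nat_lit 387) (nat_lit 213)))) (XT.nd (nat_lit 156) (nat_lit 532) (nat_lit 0) (XT.nd (nat_lit 78) (nat_lit 304) (nat_lit 0) (XT.lf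 (nat_lit 0) (nat_lit 38339573872) (nat_lit 304) (nat_lit 26471182525) (nat_lit 380) (nat_lit 37383544480) (nat_lit 222) (nat_lit 5) (nat_lit 226) (nat_lit 5) (nat_lit 227) (nat_lit 5) (nat_lit 421) (nat_lit 387) (nat_lit 212)) (XT.lf (nat_lit 0) (nat_lit 1527848641) (nat_lit 304) (nat_lit 64191817693) (nat_lit 76) (nat_lit 39586820338) (nat_lit 218) (nat_lit 5) (nat_lit 222) (nat_lit 5) (nat_lit 219) (nat_lit 5) (nat_lit 422) (nat_lit 387) (nat_lit 211))) (XT.nd (nat_lit 78) (nat_lit 228) (nat_lit 0) (XT.lf (nat_lit 0) (nat_lit 42987644125) (nat_lit 380) (nat_lit 64210981203) (nat_lit 76) (nat_lit 1323272955) (nat_lit 214) (nat_lit 5) (nat_lit 219) (nat_lit 5) (nat_lit 215) (nat_lit 5) (nat_lit 423) (nat_lit 387) (nat_lit 210)) (XT.lf (nat_lit 0) (nat_lit 47966117643) (nat_lit 228) (nat_lit 40344824623) (nat_lit 304) (nat_lit 23533422820) (nat_lit 211) (nat_lit 5) (nat_lit 214) (nat_lit 5) (nat_lit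 215) (nat_lit 5) (nat_lit 424) (nat_lit 387) (nat_lit 209)))))) (XT.nd (nat_lit 546) (nat_lit 228) (nat_lit 0) (XT.nd (nat_lit 234) (nat_lit 988) (nat_lit 0) (XT.nd (nat_lit 78) (nat_lit 532) (nat_lit 0) (XT.lf (nat_lit 0) (nat_lit 21638593360) (nat_lit 380) (nat_lit 62991359841) (nat_lit 76) (nat_lit 30652896172) (nat_lit 206) (nat_lit 5) (nat_lit 211) (nat_lit 5) (nat_lit 207) (nat_lit 5) (nat_lit 425) (nat_lit 387) (nat_lit 208)) (XT.nd (nat_lit 78) (nat_lit 304) (nat_lit 0) (XT.lf (nat_lit 0) (nat_lit 57193961112) (nat_lit 228) (nat_lit 13012969630) (nat_lit 304) (nat_lit 48630604175) (nat_lit 203) (nat_lit 5) (nat_lit 206) (nat_lit 5) (nat_lit 207) (nat_lit 5) (nat_lit 426) (nat_lit 387) (nat_lit 207)) (XT.lf (nat_lit 0) (nat_lit 533651273) (nat_lit 304) (nat_lit 59746278353) (nat_lit 76) (nat_lit 62234221312) (nat_lit 199) (nat_lit 5) (nat_lit 203) (nat_lit 5) (nat_lit 200) (nat_lit 5) (nat_lit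 427) (nat_lit 387) (nat_lit 206)))) (XT.nd (nat_lit 156) (nat_lit 532) (nat_lit 0) (XT.nd (nat_lit 78) (nat_lit 228) (nat_lit 0) (XT.lf (nat_lit 0) (nat_lit 52752714655) (nat_lit 304) (nat_lit 57425405059) (nat_lit 76) (nat_lit 16133962791) (nat_lit 196) (nat_lit 5) (nat_lit 200) (nat_lit 5) (nat_lit 197) (nat_lit 5) (nat_lit 428) (nat_lit 387) (nat_lit 205)) (XT.lf (nat_lit 0) (nat_lit 75780775590) (nat_lit 228) (nat_lit 33758866566) (nat_lit 304) (nat_lit 20701561167) (nat_lit 193) (nat_lit 5) (nat_lit 196) (nat_lit 5) (nat_lit 197) (nat_lit 5) (nat_lit 429) (nat_lit 387) (nat_lit 204))) (XT.nd (nat_lit 78) (nat_lit 228) (nat_lit 0) (XT.lf (nat_lit 0) (nat_lit 35985465390) (nat_lit 304) (nat_lit 50987538632) (nat_lit 76) (nat_lit 47327779259) (nat_lit 189) (nat_lit 5) (nat_lit 193) (nat_lit 5) (nat_lit 190) (nat_lit 5) (nat_lit 430) (nat_lit 387) (nat_lit 203)) (XT.lf (nat_lit 0) (nat_lit 91801529464)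 (nat_lit 228) (nat_lit 5069481897) (nat_lit 304) (nat_lit 41632412656) (nat_lit 186) (nat_lit 5) (nat_lit 189) (nat_lit 5) (nat_lit 190) (nat_lit 5) (nat_lit 431) (nat_lit 387) (nat_lit 202))))) (XT.nd (nat_lit 49842) (nat_lit 0) (nat_lit 14592) (XT.nd (nat_lit 49686) (nat_lit 0) (nat_lit 14516) (XT.lf (nat_lit 0) (nat_lit 19836876303) (nat_lit 228) (nat_lit 41959604793) (nat_lit 76) (nat_lit 81045521185) (nat_lit 183) (nat_lit 5) (nat_lit 186) (nat_lit 5) (nat_lit 184) (nat_lit 5) (nat_lit 432) (nat_lit 387) (nat_lit 201)) (XT.nd (nat_lit 78) (nat_lit 0) (nat_lit 76) (XT.lf (nat_lit 0) (nat_lit 12931587265) (nat_lit 1292) (nat_lit 4092971790) (nat_lit 1292) (nat_lit 4092971790) (nat_lit 374) (nat_lit 3) (nat_lit 391) (nat_lit 3) (nat_lit 391) (nat_lit 5) (nat_lit 388) (nat_lit 388) (nat_lit 244)) (XT.lf (nat_lit 0) (nat_lit 26841664830) (nat_lit 1216) (nat_lit 15740944185) (nat_lit 1292) (nat_lit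 698371893) (nat_lit 375) (nat_lit 5) (nat_lit 391) (nat_lit 5) (nat_lit 392) (nat_lit 5) (nat_lit 389) (nat_lit 388) (nat_lit 243)))) (XT.nd (nat_lit 156) (nat_lit 0) (nat_lit 152) (XT.nd (nat_lit 78) (nat_lit 0) (nat_lit 76) (XT.lf (nat_lit 76) (nat_lit 20908040611) (nat_lit 0) (nat_lit 7586927927) (nat_lit 1292) (nat_lit 15865450879) (nat_lit 376) (nat_lit 5) (nat_lit 375) (nat_lit 5) (nat_lit 392) (nat_lit 5) (nat_lit 390) (nat_lit 388) (nat_lit 242)) (XT.lf (nat_lit 76) (nat_lit 14222866046) (nat_lit 0) (nat_lit 16585043035) (nat_lit 1292) (nat_lit 14668611619) (nat_lit 377) (nat_lit 5) (nat_lit 376) (nat_lit 5) (nat_lit 393) (nat_lit 5) (nat_lit 391) (nat_lit 388) (nat_lit 241))) (XT.nd (nat_lit 78) (nat_lit 0) (nat_lit 76) (XT.lf (nat_lit 76) (nat_lit 7500627597) (nat_lit 0) (nat_lit 26320109768) (nat_lit 1292) (nat_lit 12810162462) (nat_lit 378) (nat_lit 5) (nat_lit 377) (nat_lit 5) (nat_lit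 394) (nat_lit 5) (nat_lit 392) (nat_lit 388) (nat_lit 240)) (XT.lf (nat_lit 76) (nat_lit 751272060) (nat_lit 0) (nat_lit 36831978563) (nat_lit 1292) (nat_lit 10241775980) (nat_lit 379) (nat_lit 5) (nat_lit 378) (nat_lit 5) (nat_lit 395) (nat_lit 5) (nat_lit 393) (nat_lit 388) (nat_lit 239))))))))
noncomputable def xc113 : XT := (XT.nd (nat_lit 2106) (nat_lit 3420) (nat_lit 0) (XT.nd (nat_lit 1014) (nat_lit 5852) (nat_lit 0) (XT.nd (nat_lit 468) (nat_lit 3496) (nat_lit 0) (XT.nd (nat_lit 234) (nat_lit 684) (nat_lit 0) (XT.nd (nat_lit 78) (nat_lit 1216) (nat_lit 0) (XT.lf (nat_lit 0) (nat_lit 42205905284) (nat_lit 1216) (nat_lit 5896952346) (nat_lit 1292) (nat_lit 955841616) (nat_lit 379) (nat_lit 5) (nat_lit 395) (nat_lit 5) (nat_lit 396) (nat_lit 5) (nat_lit 394) (nat_lit 388) (nat_lit 238)) (XT.nd (nat_lit 78) (nat_lit 1216) (nat_lit 0) (XT.lf (nat_lit 76) (nat_lit 37700352623) (nat_lit 0) (nat_lit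 10090437318) (nat_lit 1292) (nat_lit 2541332663) (nat_lit 380) (nat_lit 5) (nat_lit 379) (nat_lit 5) (nat_lit 396) (nat_lit 5) (nat_lit 395) (nat_lit 388) (nat_lit 237)) (XT.lf (nat_lit 0) (nat_lit 2608728820) (nat_lit 1292) (nat_lit 19401562426) (nat_lit 1368) (nat_lit 29638499990) (nat_lit 363) (nat_lit 5) (nat_lit 380) (nat_lit 5) (nat_lit 381) (nat_lit 5) (nat_lit 396) (nat_lit 388) (nat_lit 236)))) (XT.nd (nat_lit 78) (nat_lit 760) (nat_lit 0) (XT.lf (nat_lit 0) (nat_lit 8632420073) (nat_lit 1292) (nat_lit 26191513359) (nat_lit 1368) (nat_lit 18186544457) (nat_lit 364) (nat_lit 5) (nat_lit 381) (nat_lit 5) (nat_lit 382) (nat_lit 5) (nat_lit 397) (nat_lit 388) (nat_lit 235)) (XT.nd (nat_lit 78) (nat_lit 836) (nat_lit 0) (XT.lf (nat_lit 0) (nat_lit 15642252936) (nat_lit 1292) (nat_lit 32963306519) (nat_lit 76) (nat_lit 5814140707) (nat_lit 365) (nat_lit 5) (nat_lit 382) (nat_lit 5) (nat_lit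 366) (nat_lit 5) (nat_lit 398) (nat_lit 388) (nat_lit 234)) (XT.lf (nat_lit 0) (nat_lit 16100436476) (nat_lit 836) (nat_lit 7678078815) (nat_lit 912) (nat_lit 32097590123) (nat_lit 354) (nat_lit 5) (nat_lit 365) (nat_lit 5) (nat_lit 366) (nat_lit 5) (nat_lit 399) (nat_lit 388) (nat_lit 233))))) (XT.nd (nat_lit 234) (nat_lit 1748) (nat_lit 0) (XT.nd (nat_lit 78) (nat_lit 1140) (nat_lit 0) (XT.lf (nat_lit 0) (nat_lit 10776370241) (nat_lit 608) (nat_lit 22328283077) (nat_lit 684) (nat_lit 24277185734) (nat_lit 346) (nat_lit 5) (nat_lit 354) (nat_lit 5) (nat_lit 355) (nat_lit 5) (nat_lit 400) (nat_lit 388) (nat_lit 232)) (XT.nd (nat_lit 78) (nat_lit 532) (nat_lit 0) (XT.lf (nat_lit 0) (nat_lit 5562072975) (nat_lit 608) (nat_lit 38076309932) (nat_lit 684) (nat_lit 15302237924) (nat_lit 338) (nat_lit 5) (nat_lit 346) (nat_lit 5) (nat_lit 347) (nat_lit 5) (nat_lit 401) (nat_lit 388) (nat_lit 231)) (XT.lf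 (nat_lit 0) (nat_lit 478200707) (nat_lit 532) (nat_lit 54980408185) (nat_lit 608) (nat_lit 5095938510) (nat_lit 331) (nat_lit 5) (nat_lit 338) (nat_lit 5) (nat_lit 339) (nat_lit 5) (nat_lit 402) (nat_lit 388) (nat_lit 230)))) (XT.nd (nat_lit 156) (nat_lit 1064) (nat_lit 0) (XT.nd (nat_lit 78) (nat_lit 608) (nat_lit 0) (XT.lf (nat_lit 0) (nat_lit 6447994016) (nat_lit 608) (nat_lit 4535538087) (nat_lit 76) (nat_lit 51235907384) (nat_lit 330) (nat_lit 5) (nat_lit 338) (nat_lit 5) (nat_lit 331) (nat_lit 5) (nat_lit 403) (nat_lit 388) (nat_lit 229)) (XT.lf (nat_lit 0) (nat_lit 19333543034) (nat_lit 684) (nat_lit 9496527319) (nat_lit 76) (nat_lit 35109897828) (nat_lit 322) (nat_lit 5) (nat_lit 331) (nat_lit 5) (nat_lit 323) (nat_lit 5) (nat_lit 404) (nat_lit 388) (nat_lit 228))) (XT.nd (nat_lit 78) (nat_lit 532) (nat_lit 0) (XT.lf (nat_lit 0) (nat_lit 33689459200) (nat_lit 608) (nat_lit 14286246508)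 (nat_lit 76) (nat_lit 17746034910) (nat_lit 315) (nat_lit 5) (nat_lit 323) (nat_lit 5) (nat_lit 316) (nat_lit 5) (nat_lit 405) (nat_lit 388) (nat_lit 227)) (XT.lf (nat_lit 0) (nat_lit 48678643127) (nat_lit 532) (nat_lit 940193736) (nat_lit 608) (nat_lit 17948094844) (nat_lit 308) (nat_lit 5) (nat_lit 315) (nat_lit 5) (nat_lit 316) (nat_lit 5) (nat_lit 406) (nat_lit 388) (nat_lit 226)))))) (XT.nd (nat_lit 546) (nat_lit 2584) (nat_lit 0) (XT.nd (nat_lit 234) (nat_lit 1748) (nat_lit 0) (XT.nd (nat_lit 78) (nat_lit 1064) (nat_lit 0) (XT.lf (nat_lit 0) (nat_lit 46018999577) (nat_lit 456) (nat_lit 21380363294) (nat_lit 532) (nat_lit 2073379095) (nat_lit 302) (nat_lit 5) (nat_lit 308) (nat_lit 5) (nat_lit 309) (nat_lit 5) (nat_lit 407) (nat_lit 388) (nat_lit 225)) (XT.nd (nat_lit 78) (nat_lit 456) (nat_lit 0) (XT.lf (nat_lit 0) (nat_lit 15212749905) (nat_lit 608) (nat_lit 27929179501) (nat_lit 76) (nat_lit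 28300630032) (nat_lit 294) (nat_lit 5) (nat_lit 302) (nat_lit 5) (nat_lit 295) (nat_lit 5) (nat_lit 408) (nat_lit 388) (nat_lit 224)) (XT.lf (nat_lit 0) (nat_lit 34245583686) (nat_lit 532) (nat_lit 32172243855) (nat_lit 76) (nat_lit 7064666019) (nat_lit 288) (nat_lit 5) (nat_lit 295) (nat_lit 5) (nat_lit 289) (nat_lit 5) (nat_lit 409) (nat_lit 388) (nat_lit 223)))) (XT.nd (nat_lit 156) (nat_lit 836) (nat_lit 0) (XT.nd (nat_lit 78) (nat_lit 456) (nat_lit 0) (XT.lf (nat_lit 0) (nat_lit 39306068620) (nat_lit 456) (nat_lit 16025891566) (nat_lit 532) (nat_lit 20259407169) (nat_lit 282) (nat_lit 5) (nat_lit 288) (nat_lit 5) (nat_lit 289) (nat_lit 5) (nat_lit 410) (nat_lit 388) (nat_lit 222)) (XT.lf (nat_lit 0) (nat_lit 732734662) (nat_lit 456) (nat_lit 40172632798) (nat_lit 76) (nat_lit 36868635457) (nat_lit 276) (nat_lit 5) (nat_lit 282) (nat_lit 5) (nat_lit 277) (nat_lit 5) (nat_lit 411) (nat_lit 388)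 (nat_lit 221))) (XT.nd (nat_lit 78) (nat_lit 380) (nat_lit 0) (XT.lf (nat_lit 0) (nat_lit 23369643312) (nat_lit 532) (nat_lit 43936965256) (nat_lit 76) (nat_lit 12722719385) (nat_lit 270) (nat_lit 5) (nat_lit 277) (nat_lit 5) (nat_lit 271) (nat_lit 5) (nat_lit 412) (nat_lit 388) (nat_lit 220)) (XT.lf (nat_lit 0) (nat_lit 34886816271) (nat_lit 380) (nat_lit 13415866472) (nat_lit 456) (nat_lit 34059807935) (nat_lit 265) (nat_lit 5) (nat_lit 270) (nat_lit 5) (nat_lit 271) (nat_lit 5) (nat_lit 413) (nat_lit 388) (nat_lit 219))))) (XT.nd (nat_lit 234) (nat_lit 1368) (nat_lit 0) (XT.nd (nat_lit 78) (nat_lit 836) (nat_lit 0) (XT.lf (nat_lit 0) (nat_lit 34013417758) (nat_lit 380) (nat_lit 41666133980) (nat_lit 456) (nat_lit 9096844475) (nat_lit 260) (nat_lit 5) (nat_lit 265) (nat_lit 5) (nat_lit 266) (nat_lit 5) (nat_lit 414) (nat_lit 388) (nat_lit 218)) (XT.nd (nat_lit 78) (nat_lit 380) (nat_lit 0) (XT.lf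 (nat_lit 0) (nat_lit 17883742010) (nat_lit 456) (nat_lit 53808264475) (nat_lit 76) (nat_lit 15580952079) (nat_lit 254) (nat_lit 5) (nat_lit 260) (nat_lit 5) (nat_lit 255) (nat_lit 5) (nat_lit 415) (nat_lit 388) (nat_lit 217)) (XT.lf (nat_lit 0) (nat_lit 33214466603) (nat_lit 380) (nat_lit 14078625336) (nat_lit 456) (nat_lit 42560518937) (nat_lit 249) (nat_lit 5) (nat_lit 254) (nat_lit 5) (nat_lit 255) (nat_lit 5) (nat_lit 416) (nat_lit 388) (nat_lit 216)))) (XT.nd (nat_lit 156) (nat_lit 608) (nat_lit 0) (XT.nd (nat_lit 78) (nat_lit 456) (nat_lit 0) (XT.lf (nat_lit 0) (nat_lit 33363490259) (nat_lit 304) (nat_lit 46134303795) (nat_lit 380) (nat_lit 13025755209) (nat_lit 245) (nat_lit 5) (nat_lit 249) (nat_lit 5) (nat_lit 250) (nat_lit 5) (nat_lit 417) (nat_lit 388) (nat_lit 215)) (XT.lf (nat_lit 0) (nat_lit 18839913510) (nat_lit 456) (nat_lit 61355311935) (nat_lit 76) (nat_lit 15090418418) (nat_lit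 239) (nat_lit 5) (nat_lit 245) (nat_lit 5) (nat_lit 240) (nat_lit 5) (nat_lit 418) (nat_lit 388) (nat_lit 214))) (XT.nd (nat_lit 78) (nat_lit 304) (nat_lit 0) (XT.lf (nat_lit 0) (nat_lit 34818292363) (nat_lit 304) (nat_lit 18627737984) (nat_lit 380) (nat_lit 44693447092) (nat_lit 235) (nat_lit 5) (nat_lit 239) (nat_lit 5) (nat_lit 240) (nat_lit 5) (nat_lit 419) (nat_lit 388) (nat_lit 213)) (XT.lf (nat_lit 0) (nat_lit 36221972190) (nat_lit 304) (nat_lit 54987597355) (nat_lit 380) (nat_lit 9883619654) (nat_lit 231) (nat_lit 5) (nat_lit 235) (nat_lit 5) (nat_lit 236) (nat_lit 5) (nat_lit 420) (nat_lit 388) (nat_lit 212))))))) (XT.nd (nat_lit 50700) (nat_lit 0) (nat_lit 11020) (XT.nd (nat_lit 468) (nat_lit 1520) (nat_lit 0) (XT.nd (nat_lit 234) (nat_lit 912) (nat_lit 0) (XT.nd (nat_lit 78) (nat_lit 608) (nat_lit 0) (XT.lf (nat_lit 0) (nat_lit 27462481102) (nat_lit 380) (nat_lit 66071700598) (nat_lit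 76) (nat_lit 10613230388) (nat_lit 226) (nat_lit 5) (nat_lit 231) (nat_lit 5) (nat_lit 227) (nat_lit 5) (nat_lit 421) (nat_lit 388) (nat_lit 211)) (XT.nd (nat_lit 78) (nat_lit 304) (nat_lit 0) (XT.lf (nat_lit 0) (nat_lit 40314749657) (nat_lit 304) (nat_lit 27774354725) (nat_lit 380) (nat_lit 39213777235) (nat_lit 222) (nat_lit 5) (nat_lit 226) (nat_lit 5) (nat_lit 227) (nat_lit 5) (nat_lit 422) (nat_lit 388) (nat_lit 210)) (XT.lf (nat_lit 0) (nat_lit 1641353392) (nat_lit 304) (nat_lit 67343229651) (nat_lit 76) (nat_lit 41586114595) (nat_lit 218) (nat_lit 5) (nat_lit 222) (nat_lit 5) (nat_lit 219) (nat_lit 5) (nat_lit 423) (nat_lit 388) (nat_lit 209)))) (XT.nd (nat_lit 78) (nat_lit 608) (nat_lit 0) (XT.lf (nat_lit 0) (nat_lit 45173112857) (nat_lit 380) (nat_lit 67364140615) (nat_lit 76) (nat_lit 1409657129) (nat_lit 214) (nat_lit 5) (nat_lit 219) (nat_lit 5) (nat_lit 215) (nat_lit 5) (nat_lit 424)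 (nat_lit 388) (nat_lit 208)) (XT.nd (nat_lit 78) (nat_lit 380) (nat_lit 0) (XT.lf (nat_lit 0) (nat_lit 50420168111) (nat_lit 228) (nat_lit 42341225240) (nat_lit 304) (nat_lit 24674142870) (nat_lit 211) (nat_lit 5) (nat_lit 214) (nat_lit 5) (nat_lit 215) (nat_lit 5) (nat_lit 425) (nat_lit 388) (nat_lit 207)) (XT.lf (nat_lit 0) (nat_lit 22754820344) (nat_lit 380) (nat_lit 66085276058) (nat_lit 76) (nat_lit 32205866520) (nat_lit 206) (nat_lit 5) (nat_lit 211) (nat_lit 5) (nat_lit 207) (nat_lit 5) (nat_lit 426) (nat_lit 388) (nat_lit 206))))) (XT.nd (nat_lit 234) (nat_lit 760) (nat_lit 0) (XT.nd (nat_lit 78) (nat_lit 532) (nat_lit 0) (XT.lf (nat_lit 0) (nat_lit 60107715696) (nat_lit 228) (nat_lit 13642745318) (nat_lit 304) (nat_lit 51027955137) (nat_lit 203) (nat_lit 5) (nat_lit 206) (nat_lit 5) (nat_lit 207) (nat_lit 5) (nat_lit 427) (nat_lit 388) (nat_lit 205)) (XT.nd (nat_lit 78) (nat_lit 228) (nat_lit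 0) (XT.lf (nat_lit 0) (nat_lit 592960502) (nat_lit 304) (nat_lit 62679663842) (nat_lit 76) (nat_lit 65366255341) (nat_lit 199) (nat_lit 5) (nat_lit 203) (nat_lit 5) (nat_lit 200) (nat_lit 5) (nat_lit 428) (nat_lit 388) (nat_lit 204)) (XT.lf (nat_lit 0) (nat_lit 55422126936) (nat_lit 304) (nat_lit 60243545435) (nat_lit 76) (nat_lit 16961060963) (nat_lit 196) (nat_lit 5) (nat_lit 200) (nat_lit 5) (nat_lit 197) (nat_lit 5) (nat_lit 429) (nat_lit 388) (nat_lit 203)))) (XT.nd (nat_lit 156) (nat_lit 228) (nat_lit 0) (XT.nd (nat_lit 78) (nat_lit 304) (nat_lit 0) (XT.lf (nat_lit 0) (nat_lit 79621421289) (nat_lit 228) (nat_lit 35425962431) (nat_lit 304) (nat_lit 21704956985) (nat_lit 193) (nat_lit 5) (nat_lit 196) (nat_lit 5) (nat_lit 197) (nat_lit 5) (nat_lit 430) (nat_lit 388) (nat_lit 202)) (XT.lf (nat_lit 0) (nat_lit 37815009613) (nat_lit 304) (nat_lit 53485483817) (nat_lit 76) (nat_lit 49714420888)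 (nat_lit 189) (nat_lit 5) (nat_lit 193) (nat_lit 5) (nat_lit 190) (nat_lit 5) (nat_lit 431) (nat_lit 388) (nat_lit 201))) (XT.nd (nat_lit 49764) (nat_lit 0) (nat_lit 14288) (XT.lf (nat_lit 0) (nat_lit 96441563403) (nat_lit 228) (nat_lit 5302308225) (nat_lit 304) (nat_lit 43683844297) (nat_lit 186) (nat_lit 5) (nat_lit 189) (nat_lit 5) (nat_lit 190) (nat_lit 5) (nat_lit 432) (nat_lit 388) (nat_lit 200)) (XT.lf (nat_lit 0) (nat_lit 13637490410) (nat_lit 1292) (nat_lit 4267068632) (nat_lit 1292) (nat_lit 4267068632) (nat_lit 374) (nat_lit 3) (nat_lit 391) (nat_lit 3) (nat_lit 391) (nat_lit 5) (nat_lit 389) (nat_lit 389) (nat_lit 242)))))) (XT.nd (nat_lit 546) (nat_lit 3344) (nat_lit 0) (XT.nd (nat_lit 234) (nat_lit 0) (nat_lit 152) (XT.nd (nat_lit 78) (nat_lit 0) (nat_lit 0) (XT.lf (nat_lit 0) (nat_lit 28296795119) (nat_lit 1216) (nat_lit 16464711212) (nat_lit 1292) (nat_lit 680132210) (nat_lit 375)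 (nat_lit 5) (nat_lit 391) (nat_lit 5) (nat_lit 392) (nat_lit 5) (nat_lit 390) (nat_lit 389) (nat_lit 241)) (XT.nd (nat_lit 78) (nat_lit 0) (nat_lit 76) (XT.lf (nat_lit 76) (nat_lit 22014908909) (nat_lit 0) (nat_lit 8013062761) (nat_lit 1292) (nat_lit 16547221075) (nat_lit 376) (nat_lit 5) (nat_lit 375) (nat_lit 5) (nat_lit 392) (nat_lit 5) (nat_lit 391) (nat_lit 389) (nat_lit 240)) (XT.lf (nat_lit 76) (nat_lit 14997305114) (nat_lit 0) (nat_lit 17454279237) (nat_lit 1292) (nat_lit 15295663990) (nat_lit 377) (nat_lit 5) (nat_lit 376) (nat_lit 5) (nat_lit 393) (nat_lit 5) (nat_lit 392) (nat_lit 389) (nat_lit 239)))) (XT.nd (nat_lit 156) (nat_lit 0) (nat_lit 152) (XT.nd (nat_lit 78) (nat_lit 0) (nat_lit 76) (XT.lf (nat_lit 76) (nat_lit 7940523295) (nat_lit 0) (nat_lit 27669870135) (nat_lit 1292) (nat_lit 13349092813) (nat_lit 378) (nat_lit 5) (nat_lit 377) (nat_lit 5) (nat_lit 394) (nat_lit 5) (nat_lit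 393) (nat_lit 389) (nat_lit 238)) (XT.lf (nat_lit 76) (nat_lit 855029599) (nat_lit 0) (nat_lit 38701633875) (nat_lit 1292) (nat_lit 10656786950) (nat_lit 379) (nat_lit 5) (nat_lit 378) (nat_lit 5) (nat_lit 395) (nat_lit 5) (nat_lit 394) (nat_lit 389) (nat_lit 237))) (XT.nd (nat_lit 78) (nat_lit 0) (nat_lit 0) (XT.lf (nat_lit 0) (nat_lit 44405705905) (nat_lit 1216) (nat_lit 6125808401) (nat_lit 1292) (nat_lit 977434742) (nat_lit 379) (nat_lit 5) (nat_lit 395) (nat_lit 5) (nat_lit 396) (nat_lit 5) (nat_lit 395) (nat_lit 389) (nat_lit 236)) (XT.lf (nat_lit 76) (nat_lit 39649470182) (nat_lit 0) (nat_lit 10616718621) (nat_lit 1292) (nat_lit 2579964151) (nat_lit 380) (nat_lit 5) (nat_lit 379) (nat_lit 5) (nat_lit 396) (nat_lit 5) (nat_lit 396) (nat_lit 389) (nat_lit 235))))) (XT.nd (nat_lit 234) (nat_lit 2432) (nat_lit 0) (XT.nd (nat_lit 78) (nat_lit 0) (nat_lit 76) (XT.lf (nat_lit 0) (nat_lit 2822175211)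 (nat_lit 1292) (nat_lit 20305020855) (nat_lit 1368) (nat_lit 31101544433) (nat_lit 363) (nat_lit 5) (nat_lit 380) (nat_lit 5) (nat_lit 381) (nat_lit 5) (nat_lit 397) (nat_lit 389) (nat_lit 234)) (XT.nd (nat_lit 78) (nat_lit 0) (nat_lit 76) (XT.lf (nat_lit 0) (nat_lit 9143576313) (nat_lit 1292) (nat_lit 27433844708) (nat_lit 1368) (nat_lit 19081194705) (nat_lit 364) (nat_lit 5) (nat_lit 381) (nat_lit 5) (nat_lit 382) (nat_lit 5) (nat_lit 398) (nat_lit 389) (nat_lit 233)) (XT.lf (nat_lit 0) (nat_lit 16500634986) (nat_lit 1292) (nat_lit 34543757495) (nat_lit 76) (nat_lit 6094004607) (nat_lit 365) (nat_lit 5) (nat_lit 382) (nat_lit 5) (nat_lit 366) (nat_lit 5) (nat_lit 399) (nat_lit 389) (nat_lit 232)))) (XT.nd (nat_lit 156) (nat_lit 1140) (nat_lit 0) (XT.nd (nat_lit 78) (nat_lit 608) (nat_lit 0) (XT.lf (nat_lit 0) (nat_lit 16971231631) (nat_lit 836) (nat_lit 8069479204) (nat_lit 912) (nat_lit 33627001755)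 (nat_lit 354) (nat_lit 5) (nat_lit 365) (nat_lit 5) (nat_lit 366) (nat_lit 5) (nat_lit 400) (nat_lit 389) (nat_lit 231)) (XT.lf (nat_lit 0) (nat_lit 11381281785) (nat_lit 608) (nat_lit 23448951639) (nat_lit 684) (nat_lit 25418587156) (nat_lit 346) (nat_lit 5) (nat_lit 354) (nat_lit 5) (nat_lit 355) (nat_lit 5) (nat_lit 401) (nat_lit 389) (nat_lit 230))) (XT.nd (nat_lit 78) (nat_lit 532) (nat_lit 0) (XT.lf (nat_lit 0) (nat_lit 5906464765) (nat_lit 608) (nat_lit 39981433104) (nat_lit 684) (nat_lit 15997726129) (nat_lit 338) (nat_lit 5) (nat_lit 346) (nat_lit 5) (nat_lit 347) (nat_lit 5) (nat_lit 402) (nat_lit 389) (nat_lit 229)) (XT.lf (nat_lit 0) (nat_lit 568480703) (nat_lit 532) (nat_lit 57728061618) (nat_lit 608) (nat_lit 5283782361) (nat_lit 331) (nat_lit 5) (nat_lit 338) (nat_lit 5) (nat_lit 339) (nat_lit 5) (nat_lit 403) (nat_lit 389) (nat_lit 228))))))))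
noncomputable def xc114 : XT := (XT.nd (nat_lit 2106) (nat_lit 532) (nat_lit 0) (XT.nd (nat_lit 1014) (nat_lit 4408) (nat_lit 0) (XT.nd (nat_lit 468) (nat_lit 3040) (nat_lit 0) (XT.nd (nat_lit 234) (nat_lit 1596) (nat_lit 0) (XT.nd (nat_lit 78) (nat_lit 1140) (nat_lit 0) (XT.lf (nat_lit 0) (nat_lit 6832914268) (nat_lit 608) (nat_lit 4697861223) (nat_lit 76) (nat_lit 53797760353) (nat_lit 330) (nat_lit 5) (nat_lit 338) (nat_lit 5) (nat_lit 331) (nat_lit 5) (nat_lit 404) (nat_lit 389) (nat_lit 227)) (XT.nd (nat_lit 78) (nat_lit 532) (nat_lit 0) (XT.lf (nat_lit 0) (nat_lit 20360389034) (nat_lit 684) (nat_lit 9906966772) (nat_lit 76) (nat_lit 36867805718) (nat_lit 322) (nat_lit 5) (nat_lit 331) (nat_lit 5) (nat_lit 323) (nat_lit 5) (nat_lit 405) (nat_lit 389) (nat_lit 226)) (XT.lf (nat_lit 0) (nat_lit 35431881578) (nat_lit 608) (nat_lit 14936324982) (nat_lit 76) (nat_lit 18637882606) (nat_lit 315)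 (nat_lit 5) (nat_lit 323) (nat_lit 5) (nat_lit 316) (nat_lit 5) (nat_lit 406) (nat_lit 389) (nat_lit 225)))) (XT.nd (nat_lit 78) (nat_lit 1064) (nat_lit 0) (XT.lf (nat_lit 0) (nat_lit 51174967885) (nat_lit 532) (nat_lit 980600499) (nat_lit 608) (nat_lit 18788036218) (nat_lit 308) (nat_lit 5) (nat_lit 315) (nat_lit 5) (nat_lit 316) (nat_lit 5) (nat_lit 407) (nat_lit 389) (nat_lit 224)) (XT.nd (nat_lit 78) (nat_lit 608) (nat_lit 0) (XT.lf (nat_lit 0) (nat_lit 48382117748) (nat_lit 456) (nat_lit 22441004340) (nat_lit 532) (nat_lit 2121643244) (nat_lit 302) (nat_lit 5) (nat_lit 308) (nat_lit 5) (nat_lit 309) (nat_lit 5) (nat_lit 408) (nat_lit 389) (nat_lit 223)) (XT.lf (nat_lit 0) (nat_lit 16025802342) (nat_lit 608) (nat_lit 29262719905) (nat_lit 76) (nat_lit 29724592715) (nat_lit 294) (nat_lit 5) (nat_lit 302) (nat_lit 5) (nat_lit 295) (nat_lit 5) (nat_lit 409) (nat_lit 389) (nat_lit 222))))) (XT.nd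 (nat_lit 234) (nat_lit 1672) (nat_lit 0) (XT.nd (nat_lit 78) (nat_lit 912) (nat_lit 0) (XT.lf (nat_lit 0) (nat_lit 36008471313) (nat_lit 532) (nat_lit 33718327806) (nat_lit 76) (nat_lit 7428300864) (nat_lit 288) (nat_lit 5) (nat_lit 295) (nat_lit 5) (nat_lit 289) (nat_lit 5) (nat_lit 410) (nat_lit 389) (nat_lit 221)) (XT.nd (nat_lit 78) (nat_lit 456) (nat_lit 0) (XT.lf (nat_lit 0) (nat_lit 41332107933) (nat_lit 456) (nat_lit 16815232611) (nat_lit 532) (nat_lit 21222131709) (nat_lit 282) (nat_lit 5) (nat_lit 288) (nat_lit 5) (nat_lit 289) (nat_lit 5) (nat_lit 411) (nat_lit 389) (nat_lit 220)) (XT.lf (nat_lit 0) (nat_lit 816986711) (nat_lit 456) (nat_lit 42120011991) (nat_lit 76) (nat_lit 38724275902) (nat_lit 276) (nat_lit 5) (nat_lit 282) (nat_lit 5) (nat_lit 277) (nat_lit 5) (nat_lit 412) (nat_lit 389) (nat_lit 219)))) (XT.nd (nat_lit 156) (nat_lit 836) (nat_lit 0) (XT.nd (nat_lit 78) (nat_lit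 380) (nat_lit 0) (XT.lf (nat_lit 0) (nat_lit 24584175824) (nat_lit 532) (nat_lit 46073069774) (nat_lit 76) (nat_lit 13372167242) (nat_lit 270) (nat_lit 5) (nat_lit 277) (nat_lit 5) (nat_lit 271) (nat_lit 5) (nat_lit 413) (nat_lit 389) (nat_lit 218)) (XT.lf (nat_lit 0) (nat_lit 36690159622) (nat_lit 380) (nat_lit 14072081900) (nat_lit 456) (nat_lit 35717040951) (nat_lit 265) (nat_lit 5) (nat_lit 270) (nat_lit 5) (nat_lit 271) (nat_lit 5) (nat_lit 414) (nat_lit 389) (nat_lit 217))) (XT.nd (nat_lit 78) (nat_lit 456) (nat_lit 0) (XT.lf (nat_lit 0) (nat_lit 35772558309) (nat_lit 380) (nat_lit 43733975703) (nat_lit 456) (nat_lit 9507391871) (nat_lit 260) (nat_lit 5) (nat_lit 265) (nat_lit 5) (nat_lit 266) (nat_lit 5) (nat_lit 415) (nat_lit 389) (nat_lit 216)) (XT.lf (nat_lit 0) (nat_lit 18819996555) (nat_lit 456) (nat_lit 56439938071) (nat_lit 76) (nat_lit 16375409844) (nat_lit 254) (nat_lit 5) (nat_lit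 260) (nat_lit 5) (nat_lit 255) (nat_lit 5) (nat_lit 416) (nat_lit 389) (nat_lit 215)))))) (XT.nd (nat_lit 546) (nat_lit 1976) (nat_lit 0) (XT.nd (nat_lit 234) (nat_lit 1292) (nat_lit 0) (XT.nd (nat_lit 78) (nat_lit 760) (nat_lit 0) (XT.lf (nat_lit 0) (nat_lit 34932245802) (nat_lit 380) (nat_lit 14766113423) (nat_lit 456) (nat_lit 44646713815) (nat_lit 249) (nat_lit 5) (nat_lit 254) (nat_lit 5) (nat_lit 255) (nat_lit 5) (nat_lit 417) (nat_lit 389) (nat_lit 214)) (XT.nd (nat_lit 78) (nat_lit 456) (nat_lit 0) (XT.lf (nat_lit 0) (nat_lit 35088115070) (nat_lit 304) (nat_lit 48423940607) (nat_lit 380) (nat_lit 13636489891) (nat_lit 245) (nat_lit 5) (nat_lit 249) (nat_lit 5) (nat_lit 250) (nat_lit 5) (nat_lit 418) (nat_lit 389) (nat_lit 213)) (XT.lf (nat_lit 0) (nat_lit 19820477298) (nat_lit 456) (nat_lit 64366489951) (nat_lit 76) (nat_lit 15861801764) (nat_lit 239) (nat_lit 5) (nat_lit 245) (nat_lit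 5) (nat_lit 240) (nat_lit 5) (nat_lit 419) (nat_lit 389) (nat_lit 212)))) (XT.nd (nat_lit 156) (nat_lit 684) (nat_lit 0) (XT.nd (nat_lit 78) (nat_lit 304) (nat_lit 0) (XT.lf (nat_lit 0) (nat_lit 36614172490) (nat_lit 304) (nat_lit 19541419272) (nat_lit 380) (nat_lit 46889741752) (nat_lit 235) (nat_lit 5) (nat_lit 239) (nat_lit 5) (nat_lit 240) (nat_lit 5) (nat_lit 420) (nat_lit 389) (nat_lit 211)) (XT.lf (nat_lit 0) (nat_lit 38087381171) (nat_lit 304) (nat_lit 57718836626) (nat_lit 380) (nat_lit 10340545769) (nat_lit 231) (nat_lit 5) (nat_lit 235) (nat_lit 5) (nat_lit 236) (nat_lit 5) (nat_lit 421) (nat_lit 389) (nat_lit 210))) (XT.nd (nat_lit 78) (nat_lit 304) (nat_lit 0) (XT.lf (nat_lit 0) (nat_lit 28871082051) (nat_lit 380) (nat_lit 69320941384) (nat_lit 76) (nat_lit 11161694951) (nat_lit 226) (nat_lit 5) (nat_lit 231) (nat_lit 5) (nat_lit 227) (nat_lit 5) (nat_lit 422) (nat_lit 389) (nat_lit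 209)) (XT.lf (nat_lit 0) (nat_lit 42383273617) (nat_lit 304) (nat_lit 29144580918) (nat_lit 380) (nat_lit 41139142314) (nat_lit 222) (nat_lit 5) (nat_lit 226) (nat_lit 5) (nat_lit 227) (nat_lit 5) (nat_lit 423) (nat_lit 389) (nat_lit 208))))) (XT.nd (nat_lit 234) (nat_lit 1140) (nat_lit 0) (XT.nd (nat_lit 78) (nat_lit 532) (nat_lit 0) (XT.lf (nat_lit 0) (nat_lit 1757083028) (nat_lit 304) (nat_lit 70657621131) (nat_lit 76) (nat_lit 43683518501) (nat_lit 218) (nat_lit 5) (nat_lit 222) (nat_lit 5) (nat_lit 219) (nat_lit 5) (nat_lit 424) (nat_lit 389) (nat_lit 207)) (XT.nd (nat_lit 78) (nat_lit 228) (nat_lit 0) (XT.lf (nat_lit 0) (nat_lit 47464500043) (nat_lit 380) (nat_lit 70680293543) (nat_lit 76) (nat_lit 1498480599) (nat_lit 214) (nat_lit 5) (nat_lit 219) (nat_lit 5) (nat_lit 215) (nat_lit 5) (nat_lit 425) (nat_lit 389) (nat_lit 206)) (XT.lf (nat_lit 0) (nat_lit 52991738498) (nat_lit 228) (nat_lit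 44439383451) (nat_lit 304) (nat_lit 25875241315) (nat_lit 211) (nat_lit 5) (nat_lit 214) (nat_lit 5) (nat_lit 215) (nat_lit 5) (nat_lit 426) (nat_lit 389) (nat_lit 205)))) (XT.nd (nat_lit 156) (nat_lit 532) (nat_lit 0) (XT.nd (nat_lit 78) (nat_lit 228) (nat_lit 0) (XT.lf (nat_lit 0) (nat_lit 23923670038) (nat_lit 380) (nat_lit 69339062060) (nat_lit 76) (nat_lit 33834595710) (nat_lit 206) (nat_lit 5) (nat_lit 211) (nat_lit 5) (nat_lit 207) (nat_lit 5) (nat_lit 427) (nat_lit 389) (nat_lit 204)) (XT.lf (nat_lit 0) (nat_lit 63162132346) (nat_lit 228) (nat_lit 14305950345) (nat_lit 304) (nat_lit 53548351309) (nat_lit 203) (nat_lit 5) (nat_lit 206) (nat_lit 5) (nat_lit 207) (nat_lit 5) (nat_lit 428) (nat_lit 389) (nat_lit 203))) (XT.nd (nat_lit 78) (nat_lit 228) (nat_lit 0) (XT.lf (nat_lit 0) (nat_lit 652201874) (nat_lit 304) (nat_lit 65764732359) (nat_lit 76) (nat_lit 68653001635) (nat_lit 199) (nat_lit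 5) (nat_lit 203) (nat_lit 5) (nat_lit 200) (nat_lit 5) (nat_lit 429) (nat_lit 389) (nat_lit 202)) (XT.lf (nat_lit 0) (nat_lit 58222055549) (nat_lit 304) (nat_lit 63207532342) (nat_lit 76) (nat_lit 17827617441) (nat_lit 196) (nat_lit 5) (nat_lit 200) (nat_lit 5) (nat_lit 197) (nat_lit 5) (nat_lit 430) (nat_lit 389) (nat_lit 201))))))) (XT.nd (nat_lit 50778) (nat_lit 0) (nat_lit 6156) (XT.nd (nat_lit 50232) (nat_lit 0) (nat_lit 13224) (XT.nd (nat_lit 49998) (nat_lit 0) (nat_lit 14136) (XT.nd (nat_lit 78) (nat_lit 304) (nat_lit 0) (XT.lf (nat_lit 0) (nat_lit 83649301351) (nat_lit 228) (nat_lit 37178351288) (nat_lit 304) (nat_lit 22761468108) (nat_lit 193) (nat_lit 5) (nat_lit 196) (nat_lit 5) (nat_lit 197) (nat_lit 5) (nat_lit 431) (nat_lit 389) (nat_lit 200)) (XT.nd (nat_lit 49842) (nat_lit 0) (nat_lit 14060) (XT.lf (nat_lit 0) (nat_lit 39733216740) (nat_lit 304) (nat_lit 56113107896) (nat_lit 76)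 (nat_lit 52218511697) (nat_lit 189) (nat_lit 5) (nat_lit 193) (nat_lit 5) (nat_lit 190) (nat_lit 5) (nat_lit 432) (nat_lit 389) (nat_lit 199)) (XT.lf (nat_lit 0) (nat_lit 14373173350) (nat_lit 1292) (nat_lit 4452710728) (nat_lit 1292) (nat_lit 4452710728) (nat_lit 374) (nat_lit 3) (nat_lit 391) (nat_lit 3) (nat_lit 391) (nat_lit 5) (nat_lit 390) (nat_lit 390) (nat_lit 240)))) (XT.nd (nat_lit 78) (nat_lit 0) (nat_lit 0) (XT.lf (nat_lit 0) (nat_lit 29814171880) (nat_lit 1216) (nat_lit 17230549783) (nat_lit 1292) (nat_lit 665922696) (nat_lit 375) (nat_lit 5) (nat_lit 391) (nat_lit 5) (nat_lit 392) (nat_lit 5) (nat_lit 391) (nat_lit 390) (nat_lit 239)) (XT.nd (nat_lit 78) (nat_lit 0) (nat_lit 76) (XT.lf (nat_lit 76) (nat_lit 23171406072) (nat_lit 0) (nat_lit 8456154392) (nat_lit 1292) (nat_lit 17273446213) (nat_lit 376) (nat_lit 5) (nat_lit 375) (nat_lit 5) (nat_lit 392) (nat_lit 5) (nat_lit 392) (nat_lit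 390) (nat_lit 238)) (XT.lf (nat_lit 76) (nat_lit 15804581494) (nat_lit 0) (nat_lit 18363259912) (nat_lit 1292) (nat_lit 15963959016) (nat_lit 377) (nat_lit 5) (nat_lit 376) (nat_lit 5) (nat_lit 393) (nat_lit 5) (nat_lit 393) (nat_lit 390) (nat_lit 237))))) (XT.nd (nat_lit 234) (nat_lit 1064) (nat_lit 0) (XT.nd (nat_lit 78) (nat_lit 0) (nat_lit 76) (XT.lf (nat_lit 76) (nat_lit 8396383308) (nat_lit 0) (nat_lit 29083980311) (nat_lit 1292) (nat_lit 13924413420) (nat_lit 378) (nat_lit 5) (nat_lit 377) (nat_lit 5) (nat_lit 394) (nat_lit 5) (nat_lit 394) (nat_lit 390) (nat_lit 236)) (XT.nd (nat_lit 78) (nat_lit 0) (nat_lit 76) (XT.lf (nat_lit 76) (nat_lit 957820930) (nat_lit 0) (nat_lit 40662163536) (nat_lit 1292) (nat_lit 11101573845) (nat_lit 379) (nat_lit 5) (nat_lit 378) (nat_lit 5) (nat_lit 395) (nat_lit 5) (nat_lit 395) (nat_lit 390) (nat_lit 235)) (XT.lf (nat_lit 0) (nat_lit 46707175197) (nat_lit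 1216) (nat_lit 6372242528) (nat_lit 1292) (nat_lit 1002543255) (nat_lit 379) (nat_lit 5) (nat_lit 395) (nat_lit 5) (nat_lit 396) (nat_lit 5) (nat_lit 396) (nat_lit 390) (nat_lit 234)))) (XT.nd (nat_lit 156) (nat_lit 0) (nat_lit 76) (XT.nd (nat_lit 78) (nat_lit 1216) (nat_lit 0) (XT.lf (nat_lit 76) (nat_lit 41690084215) (nat_lit 0) (nat_lit 11167291002) (nat_lit 1292) (nat_lit 2628749075) (nat_lit 380) (nat_lit 5) (nat_lit 379) (nat_lit 5) (nat_lit 396) (nat_lit 5) (nat_lit 397) (nat_lit 390) (nat_lit 233)) (XT.lf (nat_lit 0) (nat_lit 3038576444) (nat_lit 1292) (nat_lit 21259845872) (nat_lit 1368) (nat_lit 32639496435) (nat_lit 363) (nat_lit 5) (nat_lit 380) (nat_lit 5) (nat_lit 381) (nat_lit 5) (nat_lit 398) (nat_lit 390) (nat_lit 232))) (XT.nd (nat_lit 78) (nat_lit 0) (nat_lit 76) (XT.lf (nat_lit 0) (nat_lit 9672895932) (nat_lit 1292) (nat_lit 28744544365) (nat_lit 1368) (nat_lit 20021941991)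 (nat_lit 364) (nat_lit 5) (nat_lit 381) (nat_lit 5) (nat_lit 382) (nat_lit 5) (nat_lit 399) (nat_lit 390) (nat_lit 231)) (XT.lf (nat_lit 0) (nat_lit 17394845332) (nat_lit 1292) (nat_lit 36209526458) (nat_lit 76) (nat_lit 6388869794) (nat_lit 365) (nat_lit 5) (nat_lit 382) (nat_lit 5) (nat_lit 366) (nat_lit 5) (nat_lit 400) (nat_lit 390) (nat_lit 230)))))) (XT.nd (nat_lit 546) (nat_lit 3420) (nat_lit 0) (XT.nd (nat_lit 234) (nat_lit 1748) (nat_lit 0) (XT.nd (nat_lit 78) (nat_lit 1216) (nat_lit 0) (XT.lf (nat_lit 0) (nat_lit 17879451564) (nat_lit 836) (nat_lit 8479752664) (nat_lit 912) (nat_lit 35239900257) (nat_lit 354) (nat_lit 5) (nat_lit 365) (nat_lit 5) (nat_lit 366) (nat_lit 5) (nat_lit 401) (nat_lit 390) (nat_lit 229)) (XT.nd (nat_lit 78) (nat_lit 608) (nat_lit 0) (XT.lf (nat_lit 0) (nat_lit 12010294204) (nat_lit 608) (nat_lit 24625258095) (nat_lit 684) (nat_lit 26623795095) (nat_lit 346)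 (nat_lit 5) (nat_lit 354) (nat_lit 5) (nat_lit 355) (nat_lit 5) (nat_lit 402) (nat_lit 390) (nat_lit 228)) (XT.lf (nat_lit 0) (nat_lit 6261913301) (nat_lit 608) (nat_lit 41981690859) (nat_lit 684) (nat_lit 16734461696) (nat_lit 338) (nat_lit 5) (nat_lit 346) (nat_lit 5) (nat_lit 347) (nat_lit 5) (nat_lit 403) (nat_lit 390) (nat_lit 227)))) (XT.nd (nat_lit 156) (nat_lit 1140) (nat_lit 0) (XT.nd (nat_lit 78) (nat_lit 76) (nat_lit 0) (XT.lf (nat_lit 0) (nat_lit 657104249) (nat_lit 532) (nat_lit 60613224812) (nat_lit 608) (nat_lit 5487243067) (nat_lit 331) (nat_lit 5) (nat_lit 338) (nat_lit 5) (nat_lit 339) (nat_lit 5) (nat_lit 404) (nat_lit 390) (nat_lit 226)) (XT.lf (nat_lit 0) (nat_lit 7231267965) (nat_lit 608) (nat_lit 4874292817) (nat_lit 76) (nat_lit 56487700616) (nat_lit 330) (nat_lit 5) (nat_lit 338) (nat_lit 5) (nat_lit 331) (nat_lit 5) (nat_lit 405) (nat_lit 390) (nat_lit 225))) (XT.nd (nat_lit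 78) (nat_lit 532) (nat_lit 0) (XT.lf (nat_lit 0) (nat_lit 21432983405) (nat_lit 684) (nat_lit 10343914283) (nat_lit 76) (nat_lit 38713384665) (nat_lit 322) (nat_lit 5) (nat_lit 331) (nat_lit 5) (nat_lit 323) (nat_lit 5) (nat_lit 406) (nat_lit 390) (nat_lit 224)) (XT.lf (nat_lit 0) (nat_lit 37256037488) (nat_lit 608) (nat_lit 15624879234) (nat_lit 76) (nat_lit 19573900049) (nat_lit 315) (nat_lit 5) (nat_lit 323) (nat_lit 5) (nat_lit 316) (nat_lit 5) (nat_lit 407) (nat_lit 390) (nat_lit 223))))) (XT.nd (nat_lit 234) (nat_lit 1824) (nat_lit 0) (XT.nd (nat_lit 78) (nat_lit 1064) (nat_lit 0) (XT.lf (nat_lit 0) (nat_lit 53790308208) (nat_lit 532) (nat_lit 1023641478) (nat_lit 608) (nat_lit 19675317060) (nat_lit 308) (nat_lit 5) (nat_lit 315) (nat_lit 5) (nat_lit 316) (nat_lit 5) (nat_lit 408) (nat_lit 390) (nat_lit 222)) (XT.nd (nat_lit 78) (nat_lit 608) (nat_lit 0) (XT.lf (nat_lit 0) (nat_lit 50857612019)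 (nat_lit 456) (nat_lit 23555456264) (nat_lit 532) (nat_lit 2177471613) (nat_lit 302) (nat_lit 5) (nat_lit 308) (nat_lit 5) (nat_lit 309) (nat_lit 5) (nat_lit 409) (nat_lit 390) (nat_lit 221)) (XT.lf (nat_lit 0) (nat_lit 16874634357) (nat_lit 608) (nat_lit 30668786902) (nat_lit 76) (nat_lit 31218923195) (nat_lit 294) (nat_lit 5) (nat_lit 302) (nat_lit 5) (nat_lit 295) (nat_lit 5) (nat_lit 410) (nat_lit 390) (nat_lit 220)))) (XT.nd (nat_lit 156) (nat_lit 912) (nat_lit 0) (XT.nd (nat_lit 78) (nat_lit 456) (nat_lit 0) (XT.lf (nat_lit 0) (nat_lit 37854798229) (nat_lit 532) (nat_lit 35347529239) (nat_lit 76) (nat_lit 7809150414) (nat_lit 288) (nat_lit 5) (nat_lit 295) (nat_lit 5) (nat_lit 289) (nat_lit 5) (nat_lit 411) (nat_lit 390) (nat_lit 219)) (XT.lf (nat_lit 0) (nat_lit 43453802564) (nat_lit 456) (nat_lit 17645152034) (nat_lit 532) (nat_lit 22237663856) (nat_lit 282) (nat_lit 5) (nat_lit 288) (nat_lit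 5) (nat_lit 289) (nat_lit 5) (nat_lit 412) (nat_lit 390) (nat_lit 218))) (XT.nd (nat_lit 78) (nat_lit 456) (nat_lit 0) (XT.lf (nat_lit 0) (nat_lit 901024541) (nat_lit 456) (nat_lit 44170454816) (nat_lit 76) (nat_lit 40671563323) (nat_lit 276) (nat_lit 5) (nat_lit 282) (nat_lit 5) (nat_lit 277) (nat_lit 5) (nat_lit 413) (nat_lit 390) (nat_lit 217)) (XT.lf (nat_lit 0) (nat_lit 25855153638) (nat_lit 532) (nat_lit 48321626896) (nat_lit 76) (nat_lit 14052849878) (nat_lit 270) (nat_lit 5) (nat_lit 277) (nat_lit 5) (nat_lit 271) (nat_lit 5) (nat_lit 414) (nat_lit 390) (nat_lit 216))))))))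
noncomputable def xc115 : XT := (XT.nd (nat_lit 51948) (nat_lit 0) (nat_lit 1900) (XT.nd (nat_lit 1014) (nat_lit 1368) (nat_lit 0) (XT.nd (nat_lit 468) (nat_lit 2128) (nat_lit 0) (XT.nd (nat_lit 234) (nat_lit 1140) (nat_lit 0) (XT.nd (nat_lit 78) (nat_lit 836) (nat_lit 0) (XT.lf (nat_lit 0) (nat_lit 38578184643) (nat_lit 380) (nat_lit 14762463414) (nat_lit 456) (nat_lit 37461389706) (nat_lit 265) (nat_lit 5) (nat_lit 270) (nat_lit 5) (nat_lit 271) (nat_lit 5) (nat_lit 415) (nat_lit 390) (nat_lit 215)) (XT.nd (nat_lit 78) (nat_lit 456) (nat_lit 0) (XT.lf (nat_lit 0) (nat_lit 37614219933) (nat_lit 380) (nat_lit 45906647299) (nat_lit 456) (nat_lit 9942584750) (nat_lit 260) (nat_lit 5) (nat_lit 265) (nat_lit 5) (nat_lit 266) (nat_lit 5) (nat_lit 416) (nat_lit 390) (nat_lit 214)) (XT.lf (nat_lit 0) (nat_lit 19799152795) (nat_lit 456) (nat_lit 59208656400) (nat_lit 76) (nat_lit 17208157806) (nat_lit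 254) (nat_lit 5) (nat_lit 260) (nat_lit 5) (nat_lit 255) (nat_lit 5) (nat_lit 417) (nat_lit 390) (nat_lit 213)))) (XT.nd (nat_lit 78) (nat_lit 760) (nat_lit 0) (XT.lf (nat_lit 0) (nat_lit 36730609446) (nat_lit 380) (nat_lit 15489504645) (nat_lit 456) (nat_lit 46841107493) (nat_lit 249) (nat_lit 5) (nat_lit 254) (nat_lit 5) (nat_lit 255) (nat_lit 5) (nat_lit 418) (nat_lit 390) (nat_lit 212)) (XT.nd (nat_lit 78) (nat_lit 456) (nat_lit 0) (XT.lf (nat_lit 0) (nat_lit 36893722908) (nat_lit 304) (nat_lit 50829647045) (nat_lit 380) (nat_lit 14281531548) (nat_lit 245) (nat_lit 5) (nat_lit 249) (nat_lit 5) (nat_lit 250) (nat_lit 5) (nat_lit 419) (nat_lit 390) (nat_lit 211)) (XT.lf (nat_lit 0) (nat_lit 20846483578) (nat_lit 456) (nat_lit 67533487844) (nat_lit 76) (nat_lit 16670186569) (nat_lit 239) (nat_lit 5) (nat_lit 245) (nat_lit 5) (nat_lit 240) (nat_lit 5) (nat_lit 420) (nat_lit 390) (nat_lit 210)))))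 (XT.nd (nat_lit 234) (nat_lit 1140) (nat_lit 0) (XT.nd (nat_lit 78) (nat_lit 684) (nat_lit 0) (XT.lf (nat_lit 0) (nat_lit 38494736452) (nat_lit 304) (nat_lit 20502430724) (nat_lit 380) (nat_lit 49199419139) (nat_lit 235) (nat_lit 5) (nat_lit 239) (nat_lit 5) (nat_lit 240) (nat_lit 5) (nat_lit 421) (nat_lit 390) (nat_lit 209)) (XT.nd (nat_lit 78) (nat_lit 380) (nat_lit 0) (XT.lf (nat_lit 0) (nat_lit 40041011337) (nat_lit 304) (nat_lit 60588324401) (nat_lit 380) (nat_lit 10823781795) (nat_lit 231) (nat_lit 5) (nat_lit 235) (nat_lit 5) (nat_lit 236) (nat_lit 5) (nat_lit 422) (nat_lit 390) (nat_lit 208)) (XT.lf (nat_lit 0) (nat_lit 30346814742) (nat_lit 380) (nat_lit 72737696622) (nat_lit 76) (nat_lit 11735927583) (nat_lit 226) (nat_lit 5) (nat_lit 231) (nat_lit 5) (nat_lit 227) (nat_lit 5) (nat_lit 423) (nat_lit 390) (nat_lit 207)))) (XT.nd (nat_lit 156) (nat_lit 532) (nat_lit 0) (XT.nd (nat_lit 78)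 (nat_lit 304) (nat_lit 0) (XT.lf (nat_lit 0) (nat_lit 44550316189) (nat_lit 304) (nat_lit 30585037590) (nat_lit 380) (nat_lit 43164059718) (nat_lit 222) (nat_lit 5) (nat_lit 226) (nat_lit 5) (nat_lit 227) (nat_lit 5) (nat_lit 424) (nat_lit 390) (nat_lit 206)) (XT.lf (nat_lit 0) (nat_lit 1875469576) (nat_lit 304) (nat_lit 74142638240) (nat_lit 76) (nat_lit 45884110005) (nat_lit 218) (nat_lit 5) (nat_lit 222) (nat_lit 5) (nat_lit 219) (nat_lit 5) (nat_lit 425) (nat_lit 390) (nat_lit 205))) (XT.nd (nat_lit 78) (nat_lit 228) (nat_lit 0) (XT.lf (nat_lit 0) (nat_lit 49867413519) (nat_lit 380) (nat_lit 74167093615) (nat_lit 76) (nat_lit 1590040106) (nat_lit 214) (nat_lit 5) (nat_lit 219) (nat_lit 5) (nat_lit 215) (nat_lit 5) (nat_lit 426) (nat_lit 390) (nat_lit 204)) (XT.lf (nat_lit 0) (nat_lit 55687186632) (nat_lit 228) (nat_lit 46644206998) (nat_lit 304) (nat_lit 27139426330) (nat_lit 211) (nat_lit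 5) (nat_lit 214) (nat_lit 5) (nat_lit 215) (nat_lit 5) (nat_lit 427) (nat_lit 390) (nat_lit 203)))))) (XT.nd (nat_lit 50388) (nat_lit 0) (nat_lit 12920) (XT.nd (nat_lit 234) (nat_lit 456) (nat_lit 0) (XT.nd (nat_lit 78) (nat_lit 532) (nat_lit 0) (XT.lf (nat_lit 0) (nat_lit 25148070027) (nat_lit 380) (nat_lit 72760230310) (nat_lit 76) (nat_lit 35543047367) (nat_lit 206) (nat_lit 5) (nat_lit 211) (nat_lit 5) (nat_lit 207) (nat_lit 5) (nat_lit 428) (nat_lit 390) (nat_lit 202)) (XT.nd (nat_lit 78) (nat_lit 304) (nat_lit 0) (XT.lf (nat_lit 0) (nat_lit 66364711403) (nat_lit 228) (nat_lit 15004075764) (nat_lit 304) (nat_lit 56197649524) (nat_lit 203) (nat_lit 5) (nat_lit 206) (nat_lit 5) (nat_lit 207) (nat_lit 5) (nat_lit 429) (nat_lit 390) (nat_lit 201)) (XT.lf (nat_lit 0) (nat_lit 711654006) (nat_lit 304) (nat_lit 69008601926) (nat_lit 76) (nat_lit 72102371470) (nat_lit 199) (nat_lit 5) (nat_lit 203)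 (nat_lit 5) (nat_lit 200) (nat_lit 5) (nat_lit 430) (nat_lit 390) (nat_lit 200)))) (XT.nd (nat_lit 49998) (nat_lit 0) (nat_lit 13756) (XT.nd (nat_lit 78) (nat_lit 228) (nat_lit 0) (XT.lf (nat_lit 0) (nat_lit 61159300971) (nat_lit 304) (nat_lit 66324198878) (nat_lit 76) (nat_lit 18735781471) (nat_lit 196) (nat_lit 5) (nat_lit 200) (nat_lit 5) (nat_lit 197) (nat_lit 5) (nat_lit 431) (nat_lit 390) (nat_lit 199)) (XT.lf (nat_lit 0) (nat_lit 87874223560) (nat_lit 228) (nat_lit 39020117593) (nat_lit 304) (nat_lit 23873476456) (nat_lit 193) (nat_lit 5) (nat_lit 196) (nat_lit 5) (nat_lit 197) (nat_lit 5) (nat_lit 432) (nat_lit 390) (nat_lit 198))) (XT.nd (nat_lit 78) (nat_lit 0) (nat_lit 76) (XT.lf (nat_lit 0) (nat_lit 15140637839) (nat_lit 1292) (nat_lit 4650211266) (nat_lit 1292) (nat_lit 4650211266) (nat_lit 374) (nat_lit 3) (nat_lit 391) (nat_lit 3) (nat_lit 391) (nat_lit 5) (nat_lit 391) (nat_lit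 391) (nat_lit 238)) (XT.lf (nat_lit 0) (nat_lit 31397884560) (nat_lit 1216) (nat_lit 18040016510) (nat_lit 1292) (nat_lit 655485384) (nat_lit 375) (nat_lit 5) (nat_lit 391) (nat_lit 5) (nat_lit 392) (nat_lit 5) (nat_lit 392) (nat_lit 391) (nat_lit 237))))) (XT.nd (nat_lit 234) (nat_lit 912) (nat_lit 0) (XT.nd (nat_lit 78) (nat_lit 0) (nat_lit 76) (XT.lf (nat_lit 76) (nat_lit 24380544826) (nat_lit 0) (nat_lit 8917455076) (nat_lit 1292) (nat_lit 18045385266) (nat_lit 376) (nat_lit 5) (nat_lit 375) (nat_lit 5) (nat_lit 392) (nat_lit 5) (nat_lit 393) (nat_lit 391) (nat_lit 236)) (XT.nd (nat_lit 78) (nat_lit 0) (nat_lit 76) (XT.lf (nat_lit 76) (nat_lit 16646884151) (nat_lit 0) (nat_lit 19314317886) (nat_lit 1292) (nat_lit 16674639350) (nat_lit 377) (nat_lit 5) (nat_lit 376) (nat_lit 5) (nat_lit 393) (nat_lit 5) (nat_lit 394) (nat_lit 391) (nat_lit 235)) (XT.lf (nat_lit 76) (nat_lit 8869566508) (nat_lit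 0) (nat_lit 30565949549) (nat_lit 1292) (nat_lit 14537065806) (nat_lit 378) (nat_lit 5) (nat_lit 377) (nat_lit 5) (nat_lit 394) (nat_lit 5) (nat_lit 395) (nat_lit 391) (nat_lit 234)))) (XT.nd (nat_lit 156) (nat_lit 1140) (nat_lit 0) (XT.nd (nat_lit 78) (nat_lit 0) (nat_lit 76) (XT.lf (nat_lit 76) (nat_lit 1060169891) (nat_lit 0) (nat_lit 42718353769) (nat_lit 1292) (nat_lit 11576786368) (nat_lit 379) (nat_lit 5) (nat_lit 378) (nat_lit 5) (nat_lit 395) (nat_lit 5) (nat_lit 396) (nat_lit 391) (nat_lit 233)) (XT.lf (nat_lit 0) (nat_lit 49116170235) (nat_lit 1216) (nat_lit 6636563233) (nat_lit 1292) (nat_lit 1031116473) (nat_lit 379) (nat_lit 5) (nat_lit 395) (nat_lit 5) (nat_lit 396) (nat_lit 5) (nat_lit 397) (nat_lit 391) (nat_lit 232))) (XT.nd (nat_lit 78) (nat_lit 1216) (nat_lit 0) (XT.lf (nat_lit 76) (nat_lit 43827323594) (nat_lit 0) (nat_lit 11743557095) (nat_lit 1292) (nat_lit 2687430716) (nat_lit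 380) (nat_lit 5) (nat_lit 379) (nat_lit 5) (nat_lit 396) (nat_lit 5) (nat_lit 398) (nat_lit 391) (nat_lit 231)) (XT.lf (nat_lit 0) (nat_lit 3258797757) (nat_lit 1292) (nat_lit 22268029980) (nat_lit 1368) (nat_lit 34255938176) (nat_lit 363) (nat_lit 5) (nat_lit 380) (nat_lit 5) (nat_lit 381) (nat_lit 5) (nat_lit 399) (nat_lit 391) (nat_lit 230))))))) (XT.nd (nat_lit 1014) (nat_lit 5320) (nat_lit 0) (XT.nd (nat_lit 468) (nat_lit 3268) (nat_lit 0) (XT.nd (nat_lit 234) (nat_lit 1748) (nat_lit 0) (XT.nd (nat_lit 78) (nat_lit 760) (nat_lit 0) (XT.lf (nat_lit 0) (nat_lit 10221974564) (nat_lit 1292) (nat_lit 30126449516) (nat_lit 1368) (nat_lit 21010964308) (nat_lit 364) (nat_lit 5) (nat_lit 381) (nat_lit 5) (nat_lit 382) (nat_lit 5) (nat_lit 400) (nat_lit 391) (nat_lit 229)) (XT.nd (nat_lit 78) (nat_lit 836) (nat_lit 0) (XT.lf (nat_lit 0) (nat_lit 18327334626) (nat_lit 1292) (nat_lit 37964294018) (nat_lit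 76) (nat_lit 6699392609) (nat_lit 365) (nat_lit 5) (nat_lit 382) (nat_lit 5) (nat_lit 366) (nat_lit 5) (nat_lit 401) (nat_lit 391) (nat_lit 228)) (XT.lf (nat_lit 0) (nat_lit 18827536025) (nat_lit 836) (nat_lit 8909907645) (nat_lit 912) (nat_lit 36939807663) (nat_lit 354) (nat_lit 5) (nat_lit 365) (nat_lit 5) (nat_lit 366) (nat_lit 5) (nat_lit 402) (nat_lit 391) (nat_lit 227)))) (XT.nd (nat_lit 78) (nat_lit 1140) (nat_lit 0) (XT.lf (nat_lit 0) (nat_lit 12665183815) (nat_lit 608) (nat_lit 25860021112) (nat_lit 684) (nat_lit 27895373586) (nat_lit 346) (nat_lit 5) (nat_lit 354) (nat_lit 5) (nat_lit 355) (nat_lit 5) (nat_lit 403) (nat_lit 391) (nat_lit 226)) (XT.nd (nat_lit 78) (nat_lit 532) (nat_lit 0) (XT.lf (nat_lit 0) (nat_lit 6629544384) (nat_lit 608) (nat_lit 44081851230) (nat_lit 684) (nat_lit 17513905198) (nat_lit 338) (nat_lit 5) (nat_lit 346) (nat_lit 5) (nat_lit 347) (nat_lit 5) (nat_lit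 404) (nat_lit 391) (nat_lit 225)) (XT.lf (nat_lit 0) (nat_lit 744562192) (nat_lit 532) (nat_lit 63642761438) (nat_lit 608) (nat_lit 5706522760) (nat_lit 331) (nat_lit 5) (nat_lit 338) (nat_lit 5) (nat_lit 339) (nat_lit 5) (nat_lit 405) (nat_lit 391) (nat_lit 224))))) (XT.nd (nat_lit 234) (nat_lit 2052) (nat_lit 0) (XT.nd (nat_lit 78) (nat_lit 1140) (nat_lit 0) (XT.lf (nat_lit 0) (nat_lit 7644267175) (nat_lit 608) (nat_lit 5064981183) (nat_lit 76) (nat_lit 59312133035) (nat_lit 330) (nat_lit 5) (nat_lit 338) (nat_lit 5) (nat_lit 331) (nat_lit 5) (nat_lit 406) (nat_lit 391) (nat_lit 223)) (XT.nd (nat_lit 78) (nat_lit 532) (nat_lit 0) (XT.lf (nat_lit 0) (nat_lit 22554133636) (nat_lit 684) (nat_lit 10808138725) (nat_lit 76) (nat_lit 40651039078) (nat_lit 322) (nat_lit 5) (nat_lit 331) (nat_lit 5) (nat_lit 323) (nat_lit 5) (nat_lit 407) (nat_lit 391) (nat_lit 222)) (XT.lf (nat_lit 0) (nat_lit 39166514492)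 (nat_lit 608) (nat_lit 16353277846) (nat_lit 76) (nat_lit 20556335016) (nat_lit 315) (nat_lit 5) (nat_lit 323) (nat_lit 5) (nat_lit 316) (nat_lit 5) (nat_lit 408) (nat_lit 391) (nat_lit 221)))) (XT.nd (nat_lit 156) (nat_lit 1064) (nat_lit 0) (XT.nd (nat_lit 78) (nat_lit 456) (nat_lit 0) (XT.lf (nat_lit 0) (nat_lit 56531154166) (nat_lit 532) (nat_lit 1069391311) (nat_lit 608) (nat_lit 20611807657) (nat_lit 308) (nat_lit 5) (nat_lit 315) (nat_lit 5) (nat_lit 316) (nat_lit 5) (nat_lit 409) (nat_lit 391) (nat_lit 220)) (XT.lf (nat_lit 0) (nat_lit 53451638546) (nat_lit 456) (nat_lit 24726337201) (nat_lit 532) (nat_lit 2240763523) (nat_lit 302) (nat_lit 5) (nat_lit 308) (nat_lit 5) (nat_lit 309) (nat_lit 5) (nat_lit 410) (nat_lit 391) (nat_lit 219))) (XT.nd (nat_lit 78) (nat_lit 456) (nat_lit 0) (XT.lf (nat_lit 0) (nat_lit 17761487977) (nat_lit 608) (nat_lit 32150462983) (nat_lit 76) (nat_lit 32787217059)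 (nat_lit 294) (nat_lit 5) (nat_lit 302) (nat_lit 5) (nat_lit 295) (nat_lit 5) (nat_lit 411) (nat_lit 391) (nat_lit 218)) (XT.lf (nat_lit 0) (nat_lit 39789173832) (nat_lit 532) (nat_lit 37063463562) (nat_lit 76) (nat_lit 8208165311) (nat_lit 288) (nat_lit 5) (nat_lit 295) (nat_lit 5) (nat_lit 289) (nat_lit 5) (nat_lit 412) (nat_lit 391) (nat_lit 217)))))) (XT.nd (nat_lit 546) (nat_lit 2356) (nat_lit 0) (XT.nd (nat_lit 234) (nat_lit 1596) (nat_lit 0) (XT.nd (nat_lit 78) (nat_lit 912) (nat_lit 0) (XT.lf (nat_lit 0) (nat_lit 45676460253) (nat_lit 456) (nat_lit 18517575434) (nat_lit 532) (nat_lit 23308209690) (nat_lit 282) (nat_lit 5) (nat_lit 288) (nat_lit 5) (nat_lit 289) (nat_lit 5) (nat_lit 413) (nat_lit 391) (nat_lit 216)) (XT.nd (nat_lit 78) (nat_lit 456) (nat_lit 0) (XT.lf (nat_lit 0) (nat_lit 985249006) (nat_lit 456) (nat_lit 46328585017) (nat_lit 76) (nat_lit 42715185594) (nat_lit 276) (nat_lit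 5) (nat_lit 282) (nat_lit 5) (nat_lit 277) (nat_lit 5) (nat_lit 414) (nat_lit 391) (nat_lit 215)) (XT.lf (nat_lit 0) (nat_lit 27185797054) (nat_lit 532) (nat_lit 50687734212) (nat_lit 76) (nat_lit 14766444095) (nat_lit 270) (nat_lit 5) (nat_lit 277) (nat_lit 5) (nat_lit 271) (nat_lit 5) (nat_lit 415) (nat_lit 391) (nat_lit 214)))) (XT.nd (nat_lit 156) (nat_lit 836) (nat_lit 0) (XT.nd (nat_lit 78) (nat_lit 380) (nat_lit 0) (XT.lf (nat_lit 0) (nat_lit 40555635409) (nat_lit 380) (nat_lit 15488593314) (nat_lit 456) (nat_lit 39296814481) (nat_lit 265) (nat_lit 5) (nat_lit 270) (nat_lit 5) (nat_lit 271) (nat_lit 5) (nat_lit 416) (nat_lit 391) (nat_lit 213)) (XT.lf (nat_lit 0) (nat_lit 39543034066) (nat_lit 380) (nat_lit 48189256590) (nat_lit 456) (nat_lit 10403272523) (nat_lit 260) (nat_lit 5) (nat_lit 265) (nat_lit 5) (nat_lit 266) (nat_lit 5) (nat_lit 417) (nat_lit 391) (nat_lit 212))) (XT.nd (nat_lit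 78) (nat_lit 380) (nat_lit 0) (XT.lf (nat_lit 0) (nat_lit 20823719425) (nat_lit 456) (nat_lit 62120763983) (nat_lit 76) (nat_lit 18081243673) (nat_lit 254) (nat_lit 5) (nat_lit 260) (nat_lit 5) (nat_lit 255) (nat_lit 5) (nat_lit 418) (nat_lit 391) (nat_lit 211)) (XT.lf (nat_lit 0) (nat_lit 38614079923) (nat_lit 380) (nat_lit 16250452032) (nat_lit 456) (nat_lit 49148748344) (nat_lit 249) (nat_lit 5) (nat_lit 254) (nat_lit 5) (nat_lit 255) (nat_lit 5) (nat_lit 419) (nat_lit 391) (nat_lit 210))))) (XT.nd (nat_lit 234) (nat_lit 1292) (nat_lit 0) (XT.nd (nat_lit 78) (nat_lit 760) (nat_lit 0) (XT.lf (nat_lit 0) (nat_lit 38784850854) (nat_lit 304) (nat_lit 53357078974) (nat_lit 380) (nat_lit 14962245008) (nat_lit 245) (nat_lit 5) (nat_lit 249) (nat_lit 5) (nat_lit 250) (nat_lit 5) (nat_lit 420) (nat_lit 391) (nat_lit 209)) (XT.nd (nat_lit 78) (nat_lit 304) (nat_lit 0) (XT.lf (nat_lit 0) (nat_lit 21920537839)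 (nat_lit 456) (nat_lit 70863607494) (nat_lit 76) (nat_lit 17517568656) (nat_lit 239) (nat_lit 5) (nat_lit 245) (nat_lit 5) (nat_lit 240) (nat_lit 5) (nat_lit 421) (nat_lit 391) (nat_lit 208)) (XT.lf (nat_lit 0) (nat_lit 40464693535) (nat_lit 304) (nat_lit 21512985810) (nat_lit 380) (nat_lit 51627816672) (nat_lit 235) (nat_lit 5) (nat_lit 239) (nat_lit 5) (nat_lit 240) (nat_lit 5) (nat_lit 422) (nat_lit 391) (nat_lit 207)))) (XT.nd (nat_lit 156) (nat_lit 608) (nat_lit 0) (XT.nd (nat_lit 78) (nat_lit 380) (nat_lit 0) (XT.lf (nat_lit 0) (nat_lit 42087743180) (nat_lit 304) (nat_lit 63602816307) (nat_lit 380) (nat_lit 11334321213) (nat_lit 231) (nat_lit 5) (nat_lit 235) (nat_lit 5) (nat_lit 236) (nat_lit 5) (nat_lit 423) (nat_lit 391) (nat_lit 206)) (XT.lf (nat_lit 0) (nat_lit 31893342408) (nat_lit 380) (nat_lit 76329872309) (nat_lit 76) (nat_lit 12337370570) (nat_lit 226) (nat_lit 5) (nat_lit 231)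 (nat_lit 5) (nat_lit 227) (nat_lit 5) (nat_lit 424) (nat_lit 391) (nat_lit 205))) (XT.nd (nat_lit 78) (nat_lit 304) (nat_lit 0) (XT.lf (nat_lit 0) (nat_lit 46821259564) (nat_lit 304) (nat_lit 32099076431) (nat_lit 380) (nat_lit 45293201741) (nat_lit 222) (nat_lit 5) (nat_lit 226) (nat_lit 5) (nat_lit 227) (nat_lit 5) (nat_lit 425) (nat_lit 391) (nat_lit 204)) (XT.lf (nat_lit 0) (nat_lit 1996936838) (nat_lit 304) (nat_lit 77806356141) (nat_lit 76) (nat_lit 48193204920) (nat_lit 218) (nat_lit 5) (nat_lit 222) (nat_lit 5) (nat_lit 219) (nat_lit 5) (nat_lit 426) (nat_lit 391) (nat_lit 203))))))))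
noncomputable def xc116 : XT := (XT.nd (nat_lit 52104) (nat_lit 0) (nat_lit 304) (XT.nd (nat_lit 51012) (nat_lit 0) (nat_lit 6764) (XT.nd (nat_lit 50466) (nat_lit 0) (nat_lit 13376) (XT.nd (nat_lit 234) (nat_lit 532) (nat_lit 0) (XT.nd (nat_lit 78) (nat_lit 608) (nat_lit 0) (XT.lf (nat_lit 0) (nat_lit 52387712517) (nat_lit 380) (nat_lit 77832623256) (nat_lit 76) (nat_lit 1684630979) (nat_lit 214) (nat_lit 5) (nat_lit 219) (nat_lit 5) (nat_lit 215) (nat_lit 5) (nat_lit 427) (nat_lit 391) (nat_lit 202)) (XT.nd (nat_lit 78) (nat_lit 380) (nat_lit 0) (XT.lf (nat_lit 0) (nat_lit 58513143431) (nat_lit 228) (nat_lit 48960865761) (nat_lit 304) (nat_lit 28469570389) (nat_lit 211) (nat_lit 5) (nat_lit 214) (nat_lit 5) (nat_lit 215) (nat_lit 5) (nat_lit 428) (nat_lit 391) (nat_lit 201)) (XT.lf (nat_lit 0) (nat_lit 26431066713) (nat_lit 380) (nat_lit 76356713613) (nat_lit 76) (nat_lit 37335366967) (nat_lit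 206) (nat_lit 5) (nat_lit 211) (nat_lit 5) (nat_lit 207) (nat_lit 5) (nat_lit 429) (nat_lit 391) (nat_lit 200)))) (XT.nd (nat_lit 78) (nat_lit 304) (nat_lit 0) (XT.lf (nat_lit 0) (nat_lit 69723284787) (nat_lit 228) (nat_lit 15738703952) (nat_lit 304) (nat_lit 58982026919) (nat_lit 203) (nat_lit 5) (nat_lit 206) (nat_lit 5) (nat_lit 207) (nat_lit 5) (nat_lit 430) (nat_lit 391) (nat_lit 199)) (XT.nd (nat_lit 50076) (nat_lit 0) (nat_lit 13300) (XT.lf (nat_lit 0) (nat_lit 771583226) (nat_lit 304) (nat_lit 72418789798) (nat_lit 76) (nat_lit 75722655351) (nat_lit 199) (nat_lit 5) (nat_lit 203) (nat_lit 5) (nat_lit 200) (nat_lit 5) (nat_lit 431) (nat_lit 391) (nat_lit 198)) (XT.lf (nat_lit 0) (nat_lit 15941938051) (nat_lit 1292) (nat_lit 4859923645) (nat_lit 1292) (nat_lit 4859923645) (nat_lit 374) (nat_lit 3) (nat_lit 391) (nat_lit 3) (nat_lit 391) (nat_lit 5) (nat_lit 392) (nat_lit 392) (nat_lit 236)))))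 (XT.nd (nat_lit 234) (nat_lit 0) (nat_lit 152) (XT.nd (nat_lit 78) (nat_lit 0) (nat_lit 0) (XT.lf (nat_lit 0) (nat_lit 33052136236) (nat_lit 1216) (nat_lit 18894796689) (nat_lit 1292) (nat_lit 648592128) (nat_lit 375) (nat_lit 5) (nat_lit 391) (nat_lit 5) (nat_lit 392) (nat_lit 5) (nat_lit 393) (nat_lit 392) (nat_lit 235)) (XT.nd (nat_lit 78) (nat_lit 0) (nat_lit 76) (XT.lf (nat_lit 76) (nat_lit 25645439143) (nat_lit 0) (nat_lit 9398242083) (nat_lit 1292) (nat_lit 18864449761) (nat_lit 376) (nat_lit 5) (nat_lit 375) (nat_lit 5) (nat_lit 392) (nat_lit 5) (nat_lit 394) (nat_lit 392) (nat_lit 234)) (XT.lf (nat_lit 76) (nat_lit 17526460633) (nat_lit 0) (nat_lit 20309870495) (nat_lit 1292) (nat_lit 17428990259) (nat_lit 377) (nat_lit 5) (nat_lit 376) (nat_lit 5) (nat_lit 393) (nat_lit 5) (nat_lit 395) (nat_lit 392) (nat_lit 233)))) (XT.nd (nat_lit 156) (nat_lit 0) (nat_lit 152) (XT.nd (nat_lit 78) (nat_lit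 0) (nat_lit 76) (XT.lf (nat_lit 76) (nat_lit 9361447586) (nat_lit 0) (nat_lit 32119435437) (nat_lit 1292) (nat_lit 15188120199) (nat_lit 378) (nat_lit 5) (nat_lit 377) (nat_lit 5) (nat_lit 394) (nat_lit 5) (nat_lit 396) (nat_lit 392) (nat_lit 232)) (XT.lf (nat_lit 76) (nat_lit 1162573319) (nat_lit 0) (nat_lit 44875207562) (nat_lit 1292) (nat_lit 12083184716) (nat_lit 379) (nat_lit 5) (nat_lit 378) (nat_lit 5) (nat_lit 395) (nat_lit 5) (nat_lit 397) (nat_lit 392) (nat_lit 231))) (XT.nd (nat_lit 78) (nat_lit 0) (nat_lit 0) (XT.lf (nat_lit 0) (nat_lit 51638769022) (nat_lit 1216) (nat_lit 6919147475) (nat_lit 1292) (nat_lit 1063122234) (nat_lit 379) (nat_lit 5) (nat_lit 395) (nat_lit 5) (nat_lit 396) (nat_lit 5) (nat_lit 398) (nat_lit 392) (nat_lit 230)) (XT.lf (nat_lit 76) (nat_lit 46066522127) (nat_lit 0) (nat_lit 12346972176) (nat_lit 1292) (nat_lit 2755810585) (nat_lit 380) (nat_lit 5) (nat_lit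 379) (nat_lit 5) (nat_lit 396) (nat_lit 5) (nat_lit 399) (nat_lit 392) (nat_lit 229)))))) (XT.nd (nat_lit 546) (nat_lit 3268) (nat_lit 0) (XT.nd (nat_lit 234) (nat_lit 2432) (nat_lit 0) (XT.nd (nat_lit 78) (nat_lit 0) (nat_lit 76) (XT.lf (nat_lit 0) (nat_lit 3483680948) (nat_lit 1292) (nat_lit 23331718839) (nat_lit 1368) (nat_lit 35954646124) (nat_lit 363) (nat_lit 5) (nat_lit 380) (nat_lit 5) (nat_lit 381) (nat_lit 5) (nat_lit 400) (nat_lit 392) (nat_lit 228)) (XT.nd (nat_lit 78) (nat_lit 0) (nat_lit 76) (XT.lf (nat_lit 0) (nat_lit 10792423710) (nat_lit 1292) (nat_lit 31582593246) (nat_lit 1368) (nat_lit 22050560339) (nat_lit 364) (nat_lit 5) (nat_lit 381) (nat_lit 5) (nat_lit 382) (nat_lit 5) (nat_lit 401) (nat_lit 392) (nat_lit 227)) (XT.lf (nat_lit 0) (nat_lit 19300614760) (nat_lit 1292) (nat_lit 39811979228) (nat_lit 76) (nat_lit 7026270925) (nat_lit 365) (nat_lit 5) (nat_lit 382) (nat_lit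 5) (nat_lit 366) (nat_lit 5) (nat_lit 402) (nat_lit 392) (nat_lit 226)))) (XT.nd (nat_lit 156) (nat_lit 1140) (nat_lit 0) (XT.nd (nat_lit 78) (nat_lit 608) (nat_lit 0) (XT.lf (nat_lit 0) (nat_lit 19817993899) (nat_lit 836) (nat_lit 9360996992) (nat_lit 912) (nat_lit 38730482757) (nat_lit 354) (nat_lit 5) (nat_lit 365) (nat_lit 5) (nat_lit 366) (nat_lit 5) (nat_lit 403) (nat_lit 392) (nat_lit 225)) (XT.lf (nat_lit 0) (nat_lit 13347762645) (nat_lit 608) (nat_lit 27156196872) (nat_lit 684) (nat_lit 29236073091) (nat_lit 346) (nat_lit 5) (nat_lit 354) (nat_lit 5) (nat_lit 355) (nat_lit 5) (nat_lit 404) (nat_lit 392) (nat_lit 224))) (XT.nd (nat_lit 78) (nat_lit 532) (nat_lit 0) (XT.lf (nat_lit 0) (nat_lit 7010486835) (nat_lit 608) (nat_lit 46286919598) (nat_lit 684) (nat_lit 18337646187) (nat_lit 338) (nat_lit 5) (nat_lit 346) (nat_lit 5) (nat_lit 347) (nat_lit 5) (nat_lit 405) (nat_lit 392) (nat_lit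 223)) (XT.lf (nat_lit 0) (nat_lit 831316588) (nat_lit 532) (nat_lit 66823879452) (nat_lit 608) (nat_lit 5941887483) (nat_lit 331) (nat_lit 5) (nat_lit 338) (nat_lit 5) (nat_lit 339) (nat_lit 5) (nat_lit 406) (nat_lit 392) (nat_lit 222))))) (XT.nd (nat_lit 234) (nat_lit 2052) (nat_lit 0) (XT.nd (nat_lit 78) (nat_lit 1140) (nat_lit 0) (XT.lf (nat_lit 0) (nat_lit 8073134332) (nat_lit 608) (nat_lit 5270133848) (nat_lit 76) (nat_lit 62277782668) (nat_lit 330) (nat_lit 5) (nat_lit 338) (nat_lit 5) (nat_lit 331) (nat_lit 5) (nat_lit 407) (nat_lit 392) (nat_lit 221)) (XT.nd (nat_lit 78) (nat_lit 532) (nat_lit 0) (XT.lf (nat_lit 0) (nat_lit 23726739239) (nat_lit 684) (nat_lit 11300499156) (nat_lit 76) (nat_lit 42685391649) (nat_lit 322) (nat_lit 5) (nat_lit 331) (nat_lit 5) (nat_lit 323) (nat_lit 5) (nat_lit 408) (nat_lit 392) (nat_lit 220)) (XT.lf (nat_lit 0) (nat_lit 41168082965) (nat_lit 608) (nat_lit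 17123009449) (nat_lit 76) (nat_lit 21587544026) (nat_lit 315) (nat_lit 5) (nat_lit 323) (nat_lit 5) (nat_lit 316) (nat_lit 5) (nat_lit 409) (nat_lit 392) (nat_lit 219)))) (XT.nd (nat_lit 156) (nat_lit 1064) (nat_lit 0) (XT.nd (nat_lit 78) (nat_lit 456) (nat_lit 0) (XT.lf (nat_lit 0) (nat_lit 59404270194) (nat_lit 532) (nat_lit 1117933673) (nat_lit 608) (nat_lit 21599517990) (nat_lit 308) (nat_lit 5) (nat_lit 315) (nat_lit 5) (nat_lit 316) (nat_lit 5) (nat_lit 410) (nat_lit 392) (nat_lit 218)) (XT.lf (nat_lit 0) (nat_lit 56170611335) (nat_lit 456) (nat_lit 25956402927) (nat_lit 532) (nat_lit 2311457779) (nat_lit 302) (nat_lit 5) (nat_lit 308) (nat_lit 5) (nat_lit 309) (nat_lit 5) (nat_lit 411) (nat_lit 392) (nat_lit 217))) (XT.nd (nat_lit 78) (nat_lit 456) (nat_lit 0) (XT.lf (nat_lit 0) (nat_lit 18688675213) (nat_lit 608) (nat_lit 33711035325) (nat_lit 76) (nat_lit 34433242496) (nat_lit 294) (nat_lit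 5) (nat_lit 302) (nat_lit 5) (nat_lit 295) (nat_lit 5) (nat_lit 412) (nat_lit 392) (nat_lit 216)) (XT.lf (nat_lit 0) (nat_lit 41816397324) (nat_lit 532) (nat_lit 38869977204) (nat_lit 76) (nat_lit 8626335369) (nat_lit 288) (nat_lit 5) (nat_lit 295) (nat_lit 5) (nat_lit 289) (nat_lit 5) (nat_lit 413) (nat_lit 392) (nat_lit 215))))))) (XT.nd (nat_lit 1014) (nat_lit 1444) (nat_lit 0) (XT.nd (nat_lit 468) (nat_lit 2432) (nat_lit 0) (XT.nd (nat_lit 234) (nat_lit 1216) (nat_lit 0) (XT.nd (nat_lit 78) (nat_lit 912) (nat_lit 0) (XT.lf (nat_lit 0) (nat_lit 48005605315) (nat_lit 456) (nat_lit 19434534295) (nat_lit 532) (nat_lit 24436125971) (nat_lit 282) (nat_lit 5) (nat_lit 288) (nat_lit 5) (nat_lit 289) (nat_lit 5) (nat_lit 414) (nat_lit 392) (nat_lit 214)) (XT.nd (nat_lit 78) (nat_lit 456) (nat_lit 0) (XT.lf (nat_lit 0) (nat_lit 1070042738) (nat_lit 456) (nat_lit 48599306748) (nat_lit 76) (nat_lit 44860055173)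 (nat_lit 276) (nat_lit 5) (nat_lit 282) (nat_lit 5) (nat_lit 277) (nat_lit 5) (nat_lit 415) (nat_lit 392) (nat_lit 213)) (XT.lf (nat_lit 0) (nat_lit 28579450384) (nat_lit 532) (nat_lit 53176793005) (nat_lit 76) (nat_lit 15514699835) (nat_lit 270) (nat_lit 5) (nat_lit 277) (nat_lit 5) (nat_lit 271) (nat_lit 5) (nat_lit 416) (nat_lit 392) (nat_lit 212)))) (XT.nd (nat_lit 78) (nat_lit 836) (nat_lit 0) (XT.lf (nat_lit 0) (nat_lit 42627445781) (nat_lit 380) (nat_lit 16252144729) (nat_lit 456) (nat_lit 41227510343) (nat_lit 265) (nat_lit 5) (nat_lit 270) (nat_lit 5) (nat_lit 271) (nat_lit 5) (nat_lit 417) (nat_lit 392) (nat_lit 211)) (XT.nd (nat_lit 78) (nat_lit 456) (nat_lit 0) (XT.lf (nat_lit 0) (nat_lit 41563816732) (nat_lit 380) (nat_lit 50587179216) (nat_lit 456) (nat_lit 10890382667) (nat_lit 260) (nat_lit 5) (nat_lit 265) (nat_lit 5) (nat_lit 266) (nat_lit 5) (nat_lit 418) (nat_lit 392) (nat_lit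 210)) (XT.lf (nat_lit 0) (nat_lit 21896296771) (nat_lit 456) (nat_lit 65182969767) (nat_lit 76) (nat_lit 18996805156) (nat_lit 254) (nat_lit 5) (nat_lit 260) (nat_lit 5) (nat_lit 255) (nat_lit 5) (nat_lit 419) (nat_lit 392) (nat_lit 209))))) (XT.nd (nat_lit 234) (nat_lit 1292) (nat_lit 0) (XT.nd (nat_lit 78) (nat_lit 760) (nat_lit 0) (XT.lf (nat_lit 0) (nat_lit 40587359887) (nat_lit 380) (nat_lit 17050704480) (nat_lit 456) (nat_lit 51574970773) (nat_lit 249) (nat_lit 5) (nat_lit 254) (nat_lit 5) (nat_lit 255) (nat_lit 5) (nat_lit 420) (nat_lit 392) (nat_lit 208)) (XT.nd (nat_lit 78) (nat_lit 456) (nat_lit 0) (XT.lf (nat_lit 0) (nat_lit 40766217478) (nat_lit 304) (nat_lit 56012188775) (nat_lit 380) (nat_lit 15680095927) (nat_lit 245) (nat_lit 5) (nat_lit 249) (nat_lit 5) (nat_lit 250) (nat_lit 5) (nat_lit 421) (nat_lit 392) (nat_lit 207)) (XT.lf (nat_lit 0) (nat_lit 23045344850) (nat_lit 456) (nat_lit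 74364561344) (nat_lit 76) (nat_lit 18406030090) (nat_lit 239) (nat_lit 5) (nat_lit 245) (nat_lit 5) (nat_lit 240) (nat_lit 5) (nat_lit 422) (nat_lit 392) (nat_lit 206)))) (XT.nd (nat_lit 156) (nat_lit 684) (nat_lit 0) (XT.nd (nat_lit 78) (nat_lit 304) (nat_lit 0) (XT.lf (nat_lit 0) (nat_lit 42528944321) (nat_lit 304) (nat_lit 22575422901) (nat_lit 380) (nat_lit 54180569479) (nat_lit 235) (nat_lit 5) (nat_lit 239) (nat_lit 5) (nat_lit 240) (nat_lit 5) (nat_lit 423) (nat_lit 392) (nat_lit 205)) (XT.lf (nat_lit 0) (nat_lit 44232657574) (nat_lit 304) (nat_lit 66769420330) (nat_lit 380) (nat_lit 11873237118) (nat_lit 231) (nat_lit 5) (nat_lit 235) (nat_lit 5) (nat_lit 236) (nat_lit 5) (nat_lit 424) (nat_lit 392) (nat_lit 204))) (XT.nd (nat_lit 78) (nat_lit 304) (nat_lit 0) (XT.lf (nat_lit 0) (nat_lit 33514482933) (nat_lit 380) (nat_lit 80105813413) (nat_lit 76) (nat_lit 12967524003) (nat_lit 226) (nat_lit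 5) (nat_lit 231) (nat_lit 5) (nat_lit 227) (nat_lit 5) (nat_lit 425) (nat_lit 392) (nat_lit 203)) (XT.lf (nat_lit 0) (nat_lit 49201712624) (nat_lit 304) (nat_lit 33690231578) (nat_lit 380) (nat_lit 47531502678) (nat_lit 222) (nat_lit 5) (nat_lit 226) (nat_lit 5) (nat_lit 227) (nat_lit 5) (nat_lit 426) (nat_lit 392) (nat_lit 202)))))) (XT.nd (nat_lit 50622) (nat_lit 0) (nat_lit 12160) (XT.nd (nat_lit 234) (nat_lit 608) (nat_lit 0) (XT.nd (nat_lit 78) (nat_lit 532) (nat_lit 0) (XT.lf (nat_lit 0) (nat_lit 2121902758) (nat_lit 304) (nat_lit 81657296160) (nat_lit 76) (nat_lit 50616370304) (nat_lit 218) (nat_lit 5) (nat_lit 222) (nat_lit 5) (nat_lit 219) (nat_lit 5) (nat_lit 427) (nat_lit 392) (nat_lit 201)) (XT.nd (nat_lit 78) (nat_lit 228) (nat_lit 0) (XT.lf (nat_lit 0) (nat_lit 55031522924) (nat_lit 380) (nat_lit 81685410846) (nat_lit 76) (nat_lit 1782548576) (nat_lit 214) (nat_lit 5) (nat_lit 219)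 (nat_lit 5) (nat_lit 215) (nat_lit 5) (nat_lit 428) (nat_lit 392) (nat_lit 200)) (XT.lf (nat_lit 0) (nat_lit 61476530733) (nat_lit 228) (nat_lit 51394803301) (nat_lit 304) (nat_lit 29868715796) (nat_lit 211) (nat_lit 5) (nat_lit 214) (nat_lit 5) (nat_lit 215) (nat_lit 5) (nat_lit 429) (nat_lit 392) (nat_lit 199)))) (XT.nd (nat_lit 50232) (nat_lit 0) (nat_lit 12996) (XT.nd (nat_lit 78) (nat_lit 228) (nat_lit 0) (XT.lf (nat_lit 0) (nat_lit 27775833823) (nat_lit 380) (nat_lit 80136881982) (nat_lit 76) (nat_lit 39215892440) (nat_lit 206) (nat_lit 5) (nat_lit 211) (nat_lit 5) (nat_lit 207) (nat_lit 5) (nat_lit 430) (nat_lit 392) (nat_lit 198)) (XT.lf (nat_lit 0) (nat_lit 73246036613) (nat_lit 228) (nat_lit 16511511622) (nat_lit 304) (nat_lit 61907994406) (nat_lit 203) (nat_lit 5) (nat_lit 206) (nat_lit 5) (nat_lit 207) (nat_lit 5) (nat_lit 431) (nat_lit 392) (nat_lit 197))) (XT.nd (nat_lit 78) (nat_lit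 0) (nat_lit 76) (XT.lf (nat_lit 0) (nat_lit 16779187624) (nat_lit 1292) (nat_lit 5082241202) (nat_lit 1292) (nat_lit 5082241202) (nat_lit 374) (nat_lit 3) (nat_lit 391) (nat_lit 3) (nat_lit 391) (nat_lit 5) (nat_lit 393) (nat_lit 393) (nat_lit 234)) (XT.lf (nat_lit 0) (nat_lit 34781257739) (nat_lit 1216) (nat_lit 19796706006) (nat_lit 1292) (nat_lit 645042120) (nat_lit 375) (nat_lit 5) (nat_lit 391) (nat_lit 5) (nat_lit 392) (nat_lit 5) (nat_lit 394) (nat_lit 393) (nat_lit 233))))) (XT.nd (nat_lit 234) (nat_lit 912) (nat_lit 0) (XT.nd (nat_lit 78) (nat_lit 0) (nat_lit 76) (XT.lf (nat_lit 76) (nat_lit 26969313890) (nat_lit 0) (nat_lit 9899822444) (nat_lit 1292) (nat_lit 19732203071) (nat_lit 376) (nat_lit 5) (nat_lit 375) (nat_lit 5) (nat_lit 392) (nat_lit 5) (nat_lit 395) (nat_lit 393) (nat_lit 232)) (XT.nd (nat_lit 78) (nat_lit 0) (nat_lit 76) (XT.lf (nat_lit 76) (nat_lit 18445624730) (nat_lit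 0) (nat_lit 21352426799) (nat_lit 1292) (nat_lit 18228438812) (nat_lit 377) (nat_lit 5) (nat_lit 376) (nat_lit 5) (nat_lit 393) (nat_lit 5) (nat_lit 396) (nat_lit 393) (nat_lit 231)) (XT.lf (nat_lit 76) (nat_lit 9873422689) (nat_lit 0) (nat_lit 33748253839) (nat_lit 1292) (nat_lit 15878774375) (nat_lit 378) (nat_lit 5) (nat_lit 377) (nat_lit 5) (nat_lit 394) (nat_lit 5) (nat_lit 397) (nat_lit 393) (nat_lit 230)))) (XT.nd (nat_lit 156) (nat_lit 1140) (nat_lit 0) (XT.nd (nat_lit 78) (nat_lit 0) (nat_lit 76) (XT.lf (nat_lit 76) (nat_lit 1265504647) (nat_lit 0) (nat_lit 47137957605) (nat_lit 1292) (nat_lit 12621637856) (nat_lit 379) (nat_lit 5) (nat_lit 378) (nat_lit 5) (nat_lit 395) (nat_lit 5) (nat_lit 398) (nat_lit 393) (nat_lit 229)) (XT.lf (nat_lit 0) (nat_lit 54281288221) (nat_lit 1216) (nat_lit 7220439162) (nat_lit 1292) (nat_lit 1098545862) (nat_lit 379) (nat_lit 5) (nat_lit 395) (nat_lit 5)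 (nat_lit 396) (nat_lit 5) (nat_lit 399) (nat_lit 393) (nat_lit 228))) (XT.nd (nat_lit 78) (nat_lit 1216) (nat_lit 0) (XT.lf (nat_lit 76) (nat_lit 48413233587) (nat_lit 0) (nat_lit 12979048428) (nat_lit 1292) (nat_lit 2833744727) (nat_lit 380) (nat_lit 5) (nat_lit 379) (nat_lit 5) (nat_lit 396) (nat_lit 5) (nat_lit 400) (nat_lit 393) (nat_lit 227)) (XT.lf (nat_lit 0) (nat_lit 3714049397) (nat_lit 1292) (nat_lit 24453213950) (nat_lit 1368) (nat_lit 37739599327) (nat_lit 363) (nat_lit 5) (nat_lit 380) (nat_lit 5) (nat_lit 381) (nat_lit 5) (nat_lit 401) (nat_lit 393) (nat_lit 226))))))))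
noncomputable def xc117 : XT := (XT.nd (nat_lit 2106) (nat_lit 912) (nat_lit 0) (XT.nd (nat_lit 1014) (nat_lit 5320) (nat_lit 0) (XT.nd (nat_lit 468) (nat_lit 3268) (nat_lit 0) (XT.nd (nat_lit 234) (nat_lit 1748) (nat_lit 0) (XT.nd (nat_lit 78) (nat_lit 760) (nat_lit 0) (XT.lf (nat_lit 0) (nat_lit 11385877474) (nat_lit 1292) (nat_lit 33116209307) (nat_lit 1368) (nat_lit 23143154401) (nat_lit 364) (nat_lit 5) (nat_lit 381) (nat_lit 5) (nat_lit 382) (nat_lit 5) (nat_lit 402) (nat_lit 393) (nat_lit 225)) (XT.nd (nat_lit 78) (nat_lit 836) (nat_lit 0) (XT.lf (nat_lit 0) (nat_lit 20317267632) (nat_lit 1292) (nat_lit 41756746452) (nat_lit 76) (nat_lit 7370245411) (nat_lit 365) (nat_lit 5) (nat_lit 382) (nat_lit 5) (nat_lit 366) (nat_lit 5) (nat_lit 403) (nat_lit 393) (nat_lit 224)) (XT.lf (nat_lit 0) (nat_lit 20853411574) (nat_lit 836) (nat_lit 9834120733) (nat_lit 912) (nat_lit 40615927267) (nat_lit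 354) (nat_lit 5) (nat_lit 365) (nat_lit 5) (nat_lit 366) (nat_lit 5) (nat_lit 404) (nat_lit 393) (nat_lit 223)))) (XT.nd (nat_lit 78) (nat_lit 1140) (nat_lit 0) (XT.lf (nat_lit 0) (nat_lit 14059885143) (nat_lit 608) (nat_lit 28516886267) (nat_lit 684) (nat_lit 30648834412) (nat_lit 346) (nat_lit 5) (nat_lit 354) (nat_lit 5) (nat_lit 355) (nat_lit 5) (nat_lit 405) (nat_lit 393) (nat_lit 222)) (XT.nd (nat_lit 78) (nat_lit 532) (nat_lit 0) (XT.lf (nat_lit 0) (nat_lit 7405877600) (nat_lit 608) (nat_lit 48602150664) (nat_lit 684) (nat_lit 19207404442) (nat_lit 338) (nat_lit 5) (nat_lit 346) (nat_lit 5) (nat_lit 347) (nat_lit 5) (nat_lit 406) (nat_lit 393) (nat_lit 221)) (XT.lf (nat_lit 0) (nat_lit 917804220) (nat_lit 532) (nat_lit 70164148202) (nat_lit 608) (nat_lit 6193665381) (nat_lit 331) (nat_lit 5) (nat_lit 338) (nat_lit 5) (nat_lit 339) (nat_lit 5) (nat_lit 407) (nat_lit 393) (nat_lit 220)))))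 (XT.nd (nat_lit 234) (nat_lit 2052) (nat_lit 0) (XT.nd (nat_lit 78) (nat_lit 1140) (nat_lit 0) (XT.lf (nat_lit 0) (nat_lit 8519107419) (nat_lit 608) (nat_lit 5490015694) (nat_lit 76) (nat_lit 65391710788) (nat_lit 330) (nat_lit 5) (nat_lit 338) (nat_lit 5) (nat_lit 331) (nat_lit 5) (nat_lit 408) (nat_lit 393) (nat_lit 219)) (XT.nd (nat_lit 78) (nat_lit 532) (nat_lit 0) (XT.lf (nat_lit 0) (nat_lit 24953800845) (nat_lit 684) (nat_lit 11821944517) (nat_lit 76) (nat_lit 44821294444) (nat_lit 322) (nat_lit 5) (nat_lit 331) (nat_lit 5) (nat_lit 323) (nat_lit 5) (nat_lit 409) (nat_lit 393) (nat_lit 218)) (XT.lf (nat_lit 0) (nat_lit 43265709560) (nat_lit 608) (nat_lit 17935683922) (nat_lit 76) (nat_lit 22669998106) (nat_lit 315) (nat_lit 5) (nat_lit 323) (nat_lit 5) (nat_lit 316) (nat_lit 5) (nat_lit 410) (nat_lit 393) (nat_lit 217)))) (XT.nd (nat_lit 156) (nat_lit 1064) (nat_lit 0) (XT.nd (nat_lit 78)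 (nat_lit 456) (nat_lit 0) (XT.lf (nat_lit 0) (nat_lit 62416713472) (nat_lit 532) (nat_lit 1169361238) (nat_lit 608) (nat_lit 22640600420) (nat_lit 308) (nat_lit 5) (nat_lit 315) (nat_lit 5) (nat_lit 316) (nat_lit 5) (nat_lit 411) (nat_lit 393) (nat_lit 216)) (XT.lf (nat_lit 0) (nat_lit 59021219782) (nat_lit 456) (nat_lit 27248553110) (nat_lit 532) (nat_lit 2389530514) (nat_lit 302) (nat_lit 5) (nat_lit 308) (nat_lit 5) (nat_lit 309) (nat_lit 5) (nat_lit 412) (nat_lit 393) (nat_lit 215))) (XT.nd (nat_lit 78) (nat_lit 456) (nat_lit 0) (XT.lf (nat_lit 0) (nat_lit 19658585470) (nat_lit 608) (nat_lit 35354001326) (nat_lit 76) (nat_lit 36160949595) (nat_lit 294) (nat_lit 5) (nat_lit 302) (nat_lit 5) (nat_lit 295) (nat_lit 5) (nat_lit 413) (nat_lit 393) (nat_lit 214)) (XT.lf (nat_lit 0) (nat_lit 43941470977) (nat_lit 532) (nat_lit 40771154490) (nat_lit 76) (nat_lit 9064692312) (nat_lit 288) (nat_lit 5)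 (nat_lit 295) (nat_lit 5) (nat_lit 289) (nat_lit 5) (nat_lit 414) (nat_lit 393) (nat_lit 213)))))) (XT.nd (nat_lit 546) (nat_lit 2356) (nat_lit 0) (XT.nd (nat_lit 234) (nat_lit 1596) (nat_lit 0) (XT.nd (nat_lit 78) (nat_lit 912) (nat_lit 0) (XT.lf (nat_lit 0) (nat_lit 50446994016) (nat_lit 456) (nat_lit 20398170388) (nat_lit 532) (nat_lit 25623923922) (nat_lit 282) (nat_lit 5) (nat_lit 288) (nat_lit 5) (nat_lit 289) (nat_lit 5) (nat_lit 415) (nat_lit 393) (nat_lit 212)) (XT.nd (nat_lit 78) (nat_lit 456) (nat_lit 0) (XT.lf (nat_lit 0) (nat_lit 1155772795) (nat_lit 456) (nat_lit 50987814018) (nat_lit 76) (nat_lit 47111321241) (nat_lit 276) (nat_lit 5) (nat_lit 282) (nat_lit 5) (nat_lit 277) (nat_lit 5) (nat_lit 416) (nat_lit 393) (nat_lit 211)) (XT.lf (nat_lit 0) (nat_lit 30039591591) (nat_lit 532) (nat_lit 55794518898) (nat_lit 76) (nat_lit 16299444836) (nat_lit 270) (nat_lit 5) (nat_lit 277) (nat_lit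 5) (nat_lit 271) (nat_lit 5) (nat_lit 417) (nat_lit 393) (nat_lit 210)))) (XT.nd (nat_lit 156) (nat_lit 836) (nat_lit 0) (XT.nd (nat_lit 78) (nat_lit 380) (nat_lit 0) (XT.lf (nat_lit 0) (nat_lit 44798753310) (nat_lit 380) (nat_lit 17054885072) (nat_lit 456) (nat_lit 43257915464) (nat_lit 265) (nat_lit 5) (nat_lit 270) (nat_lit 5) (nat_lit 271) (nat_lit 5) (nat_lit 418) (nat_lit 393) (nat_lit 209)) (XT.lf (nat_lit 0) (nat_lit 43681582138) (nat_lit 380) (nat_lit 53106070873) (nat_lit 456) (nat_lit 11404921317) (nat_lit 260) (nat_lit 5) (nat_lit 265) (nat_lit 5) (nat_lit 266) (nat_lit 5) (nat_lit 419) (nat_lit 393) (nat_lit 208))) (XT.nd (nat_lit 78) (nat_lit 380) (nat_lit 0) (XT.lf (nat_lit 0) (nat_lit 23019584511) (nat_lit 456) (nat_lit 68402360963) (nat_lit 76) (nat_lit 19957075617) (nat_lit 254) (nat_lit 5) (nat_lit 260) (nat_lit 5) (nat_lit 255) (nat_lit 5) (nat_lit 420) (nat_lit 393) (nat_lit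 207)) (XT.lf (nat_lit 0) (nat_lit 42655345538) (nat_lit 380) (nat_lit 17892110312) (nat_lit 456) (nat_lit 54125406398) (nat_lit 249) (nat_lit 5) (nat_lit 254) (nat_lit 5) (nat_lit 255) (nat_lit 5) (nat_lit 421) (nat_lit 393) (nat_lit 206))))) (XT.nd (nat_lit 234) (nat_lit 1292) (nat_lit 0) (XT.nd (nat_lit 78) (nat_lit 760) (nat_lit 0) (XT.lf (nat_lit 0) (nat_lit 42842736136) (nat_lit 304) (nat_lit 58801238895) (nat_lit 380) (nat_lit 16436652803) (nat_lit 245) (nat_lit 5) (nat_lit 249) (nat_lit 5) (nat_lit 250) (nat_lit 5) (nat_lit 422) (nat_lit 393) (nat_lit 205)) (XT.nd (nat_lit 78) (nat_lit 304) (nat_lit 0) (XT.lf (nat_lit 0) (nat_lit 24223716509) (nat_lit 456) (nat_lit 78044488710) (nat_lit 76) (nat_lit 19337744748) (nat_lit 239) (nat_lit 5) (nat_lit 245) (nat_lit 5) (nat_lit 240) (nat_lit 5) (nat_lit 423) (nat_lit 393) (nat_lit 204)) (XT.lf (nat_lit 0) (nat_lit 44692594358) (nat_lit 304) (nat_lit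 23692210191) (nat_lit 380) (nat_lit 56863622419) (nat_lit 235) (nat_lit 5) (nat_lit 239) (nat_lit 5) (nat_lit 240) (nat_lit 5) (nat_lit 424) (nat_lit 393) (nat_lit 203)))) (XT.nd (nat_lit 156) (nat_lit 608) (nat_lit 0) (XT.nd (nat_lit 78) (nat_lit 380) (nat_lit 0) (XT.lf (nat_lit 0) (nat_lit 46481049850) (nat_lit 304) (nat_lit 70095613076) (nat_lit 380) (nat_lit 12441683414) (nat_lit 231) (nat_lit 5) (nat_lit 235) (nat_lit 5) (nat_lit 236) (nat_lit 5) (nat_lit 425) (nat_lit 393) (nat_lit 202)) (XT.lf (nat_lit 0) (nat_lit 35214219239) (nat_lit 380) (nat_lit 84074321760) (nat_lit 76) (nat_lit 13627950004) (nat_lit 226) (nat_lit 5) (nat_lit 231) (nat_lit 5) (nat_lit 227) (nat_lit 5) (nat_lit 426) (nat_lit 393) (nat_lit 201))) (XT.nd (nat_lit 78) (nat_lit 304) (nat_lit 0) (XT.lf (nat_lit 0) (nat_lit 51697526221) (nat_lit 304) (nat_lit 35362227353) (nat_lit 380) (nat_lit 49884169285) (nat_lit 222) (nat_lit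 5) (nat_lit 226) (nat_lit 5) (nat_lit 227) (nat_lit 5) (nat_lit 427) (nat_lit 393) (nat_lit 200)) (XT.lf (nat_lit 0) (nat_lit 2250781640) (nat_lit 304) (nat_lit 85704444153) (nat_lit 76) (nat_lit 53159438377) (nat_lit 218) (nat_lit 5) (nat_lit 222) (nat_lit 5) (nat_lit 219) (nat_lit 5) (nat_lit 428) (nat_lit 393) (nat_lit 199))))))) (XT.nd (nat_lit 51168) (nat_lit 0) (nat_lit 5320) (XT.nd (nat_lit 50622) (nat_lit 0) (nat_lit 11932) (XT.nd (nat_lit 50388) (nat_lit 0) (nat_lit 12768) (XT.nd (nat_lit 78) (nat_lit 608) (nat_lit 0) (XT.lf (nat_lit 0) (nat_lit 57805253067) (nat_lit 380) (nat_lit 85734449123) (nat_lit 76) (nat_lit 1884089654) (nat_lit 214) (nat_lit 5) (nat_lit 219) (nat_lit 5) (nat_lit 215) (nat_lit 5) (nat_lit 429) (nat_lit 393) (nat_lit 198)) (XT.nd (nat_lit 78) (nat_lit 380) (nat_lit 0) (XT.lf (nat_lit 0) (nat_lit 64584579609) (nat_lit 228) (nat_lit 53951749137) (nat_lit 304) (nat_lit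 31340080735) (nat_lit 211) (nat_lit 5) (nat_lit 214) (nat_lit 5) (nat_lit 215) (nat_lit 5) (nat_lit 430) (nat_lit 393) (nat_lit 197)) (XT.lf (nat_lit 0) (nat_lit 29185681091) (nat_lit 380) (nat_lit 84109560719) (nat_lit 76) (nat_lit 41189165181) (nat_lit 206) (nat_lit 5) (nat_lit 211) (nat_lit 5) (nat_lit 207) (nat_lit 5) (nat_lit 431) (nat_lit 393) (nat_lit 196)))) (XT.nd (nat_lit 78) (nat_lit 0) (nat_lit 76) (XT.lf (nat_lit 0) (nat_lit 17654566661) (nat_lit 1292) (nat_lit 5317597139) (nat_lit 1292) (nat_lit 5317597139) (nat_lit 374) (nat_lit 3) (nat_lit 391) (nat_lit 3) (nat_lit 391) (nat_lit 5) (nat_lit 394) (nat_lit 394) (nat_lit 232)) (XT.nd (nat_lit 78) (nat_lit 0) (nat_lit 0) (XT.lf (nat_lit 0) (nat_lit 36589721707) (nat_lit 1216) (nat_lit 20747692764) (nat_lit 1292) (nat_lit 644659655) (nat_lit 375) (nat_lit 5) (nat_lit 391) (nat_lit 5) (nat_lit 392) (nat_lit 5) (nat_lit 395) (nat_lit 394)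 (nat_lit 231)) (XT.lf (nat_lit 76) (nat_lit 28355514541) (nat_lit 0) (nat_lit 10423537608) (nat_lit 1292) (nat_lit 20650360456) (nat_lit 376) (nat_lit 5) (nat_lit 375) (nat_lit 5) (nat_lit 392) (nat_lit 5) (nat_lit 396) (nat_lit 394) (nat_lit 230))))) (XT.nd (nat_lit 234) (nat_lit 988) (nat_lit 0) (XT.nd (nat_lit 78) (nat_lit 0) (nat_lit 76) (XT.lf (nat_lit 76) (nat_lit 19406764075) (nat_lit 0) (nat_lit 22444594878) (nat_lit 1292) (nat_lit 19074553759) (nat_lit 377) (nat_lit 5) (nat_lit 376) (nat_lit 5) (nat_lit 393) (nat_lit 5) (nat_lit 397) (nat_lit 394) (nat_lit 229)) (XT.nd (nat_lit 78) (nat_lit 0) (nat_lit 76) (XT.lf (nat_lit 76) (nat_lit 10406914888) (nat_lit 0) (nat_lit 35456389098) (nat_lit 1292) (nat_lit 16610353153) (nat_lit 378) (nat_lit 5) (nat_lit 377) (nat_lit 5) (nat_lit 394) (nat_lit 5) (nat_lit 398) (nat_lit 394) (nat_lit 228)) (XT.lf (nat_lit 76) (nat_lit 1369417214) (nat_lit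 0) (nat_lit 49512079671) (nat_lit 1292) (nat_lit 13193122383) (nat_lit 379) (nat_lit 5) (nat_lit 378) (nat_lit 5) (nat_lit 395) (nat_lit 5) (nat_lit 399) (nat_lit 394) (nat_lit 227)))) (XT.nd (nat_lit 156) (nat_lit 1216) (nat_lit 0) (XT.nd (nat_lit 78) (nat_lit 0) (nat_lit 0) (XT.lf (nat_lit 0) (nat_lit 57050301157) (nat_lit 1216) (nat_lit 7540948025) (nat_lit 1292) (nat_lit 1137389269) (nat_lit 379) (nat_lit 5) (nat_lit 395) (nat_lit 5) (nat_lit 396) (nat_lit 5) (nat_lit 400) (nat_lit 394) (nat_lit 226)) (XT.lf (nat_lit 76) (nat_lit 50873247062) (nat_lit 0) (nat_lit 13641359256) (nat_lit 1292) (nat_lit 2921140455) (nat_lit 380) (nat_lit 5) (nat_lit 379) (nat_lit 5) (nat_lit 396) (nat_lit 5) (nat_lit 401) (nat_lit 394) (nat_lit 225))) (XT.nd (nat_lit 78) (nat_lit 0) (nat_lit 76) (XT.lf (nat_lit 0) (nat_lit 3950712775) (nat_lit 1292) (nat_lit 25634975936) (nat_lit 1368) (nat_lit 39614988270) (nat_lit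 363) (nat_lit 5) (nat_lit 380) (nat_lit 5) (nat_lit 381) (nat_lit 5) (nat_lit 402) (nat_lit 394) (nat_lit 224)) (XT.lf (nat_lit 0) (nat_lit 12003999083) (nat_lit 1292) (nat_lit 34730737594) (nat_lit 1368) (nat_lit 24291301732) (nat_lit 364) (nat_lit 5) (nat_lit 381) (nat_lit 5) (nat_lit 382) (nat_lit 5) (nat_lit 403) (nat_lit 394) (nat_lit 223)))))) (XT.nd (nat_lit 546) (nat_lit 3496) (nat_lit 0) (XT.nd (nat_lit 234) (nat_lit 1824) (nat_lit 0) (XT.nd (nat_lit 78) (nat_lit 1444) (nat_lit 0) (XT.lf (nat_lit 0) (nat_lit 21379953811) (nat_lit 1292) (nat_lit 43803013038) (nat_lit 76) (nat_lit 7732100937) (nat_lit 365) (nat_lit 5) (nat_lit 382) (nat_lit 5) (nat_lit 366) (nat_lit 5) (nat_lit 404) (nat_lit 394) (nat_lit 222)) (XT.nd (nat_lit 78) (nat_lit 608) (nat_lit 0) (XT.lf (nat_lit 0) (nat_lit 21936461272) (nat_lit 836) (nat_lit 10330428939) (nat_lit 912) (nat_lit 42600392903) (nat_lit 354) (nat_lit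 5) (nat_lit 365) (nat_lit 5) (nat_lit 366) (nat_lit 5) (nat_lit 405) (nat_lit 394) (nat_lit 221)) (XT.lf (nat_lit 0) (nat_lit 14803454789) (nat_lit 608) (nat_lit 29945342417) (nat_lit 684) (nat_lit 32136793289) (nat_lit 346) (nat_lit 5) (nat_lit 354) (nat_lit 5) (nat_lit 355) (nat_lit 5) (nat_lit 406) (nat_lit 394) (nat_lit 220)))) (XT.nd (nat_lit 156) (nat_lit 684) (nat_lit 0) (XT.nd (nat_lit 78) (nat_lit 532) (nat_lit 0) (XT.lf (nat_lit 0) (nat_lit 7816866649) (nat_lit 608) (nat_lit 51033060997) (nat_lit 684) (nat_lit 20125031758) (nat_lit 338) (nat_lit 5) (nat_lit 346) (nat_lit 5) (nat_lit 347) (nat_lit 5) (nat_lit 407) (nat_lit 394) (nat_lit 219)) (XT.lf (nat_lit 0) (nat_lit 1004439829) (nat_lit 532) (nat_lit 73671516407) (nat_lit 608) (nat_lit 6462245271) (nat_lit 331) (nat_lit 5) (nat_lit 338) (nat_lit 5) (nat_lit 339) (nat_lit 5) (nat_lit 408) (nat_lit 394) (nat_lit 218))) (XT.nd (nat_lit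 78) (nat_lit 608) (nat_lit 0) (XT.lf (nat_lit 0) (nat_lit 8983444985) (nat_lit 608) (nat_lit 5724947456) (nat_lit 76) (nat_lit 68661331689) (nat_lit 330) (nat_lit 5) (nat_lit 338) (nat_lit 5) (nat_lit 331) (nat_lit 5) (nat_lit 409) (nat_lit 394) (nat_lit 217)) (XT.lf (nat_lit 0) (nat_lit 26238429341) (nat_lit 684) (nat_lit 12373513763) (nat_lit 76) (nat_lit 47063840538) (nat_lit 322) (nat_lit 5) (nat_lit 331) (nat_lit 5) (nat_lit 323) (nat_lit 5) (nat_lit 410) (nat_lit 394) (nat_lit 216))))) (XT.nd (nat_lit 234) (nat_lit 1976) (nat_lit 0) (XT.nd (nat_lit 78) (nat_lit 988) (nat_lit 0) (XT.lf (nat_lit 0) (nat_lit 45464570954) (nat_lit 608) (nat_lit 18793034106) (nat_lit 76) (nat_lit 23806288831) (nat_lit 315) (nat_lit 5) (nat_lit 323) (nat_lit 5) (nat_lit 316) (nat_lit 5) (nat_lit 411) (nat_lit 394) (nat_lit 215)) (XT.nd (nat_lit 78) (nat_lit 456) (nat_lit 0) (XT.lf (nat_lit 0) (nat_lit 65575852791)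 (nat_lit 532) (nat_lit 1223775678) (nat_lit 608) (nat_lit 23737352918) (nat_lit 308) (nat_lit 5) (nat_lit 315) (nat_lit 5) (nat_lit 316) (nat_lit 5) (nat_lit 412) (nat_lit 394) (nat_lit 214)) (XT.lf (nat_lit 0) (nat_lit 62010446648) (nat_lit 456) (nat_lit 28605837941) (nat_lit 532) (nat_lit 2474993295) (nat_lit 302) (nat_lit 5) (nat_lit 308) (nat_lit 5) (nat_lit 309) (nat_lit 5) (nat_lit 413) (nat_lit 394) (nat_lit 213)))) (XT.nd (nat_lit 156) (nat_lit 912) (nat_lit 0) (XT.nd (nat_lit 78) (nat_lit 456) (nat_lit 0) (XT.lf (nat_lit 0) (nat_lit 20673692971) (nat_lit 608) (nat_lit 37083074848) (nat_lit 76) (nat_lit 37974480045) (nat_lit 294) (nat_lit 5) (nat_lit 302) (nat_lit 5) (nat_lit 295) (nat_lit 5) (nat_lit 414) (nat_lit 394) (nat_lit 212)) (XT.lf (nat_lit 0) (nat_lit 46169613720) (nat_lit 532) (nat_lit 42771325299) (nat_lit 76) (nat_lit 9524312574) (nat_lit 288) (nat_lit 5) (nat_lit 295) (nat_lit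 5) (nat_lit 289) (nat_lit 5) (nat_lit 415) (nat_lit 394) (nat_lit 211))) (XT.nd (nat_lit 78) (nat_lit 456) (nat_lit 0) (XT.lf (nat_lit 0) (nat_lit 53006630280) (nat_lit 456) (nat_lit 21410740475) (nat_lit 532) (nat_lit 26874273544) (nat_lit 282) (nat_lit 5) (nat_lit 288) (nat_lit 5) (nat_lit 289) (nat_lit 5) (nat_lit 416) (nat_lit 394) (nat_lit 210)) (XT.lf (nat_lit 0) (nat_lit 1242793108) (nat_lit 456) (nat_lit 53499601030) (nat_lit 76) (nat_lit 49474382369) (nat_lit 276) (nat_lit 5) (nat_lit 282) (nat_lit 5) (nat_lit 277) (nat_lit 5) (nat_lit 417) (nat_lit 394) (nat_lit 209))))))))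
noncomputable def xc118 : XT := (XT.nd (nat_lit 52338) (nat_lit 0) (nat_lit 228) (XT.nd (nat_lit 1014) (nat_lit 228) (nat_lit 0) (XT.nd (nat_lit 468) (nat_lit 2356) (nat_lit 0) (XT.nd (nat_lit 234) (nat_lit 1140) (nat_lit 0) (XT.nd (nat_lit 78) (nat_lit 760) (nat_lit 0) (XT.lf (nat_lit 0) (nat_lit 31569842088) (nat_lit 532) (nat_lit 58546953453) (nat_lit 76) (nat_lit 17122589422) (nat_lit 270) (nat_lit 5) (nat_lit 277) (nat_lit 5) (nat_lit 271) (nat_lit 5) (nat_lit 418) (nat_lit 394) (nat_lit 208)) (XT.nd (nat_lit 78) (nat_lit 380) (nat_lit 0) (XT.lf (nat_lit 0) (nat_lit 47074913415) (nat_lit 380) (nat_lit 17898679762) (nat_lit 456) (nat_lit 45392720174) (nat_lit 265) (nat_lit 5) (nat_lit 270) (nat_lit 5) (nat_lit 271) (nat_lit 5) (nat_lit 419) (nat_lit 394) (nat_lit 207)) (XT.lf (nat_lit 0) (nat_lit 45901556546) (nat_lit 380) (nat_lit 55751880263) (nat_lit 456) (nat_lit 11947974201) (nat_lit 260)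 (nat_lit 5) (nat_lit 265) (nat_lit 5) (nat_lit 266) (nat_lit 5) (nat_lit 420) (nat_lit 394) (nat_lit 206)))) (XT.nd (nat_lit 78) (nat_lit 684) (nat_lit 0) (XT.lf (nat_lit 0) (nat_lit 24196389498) (nat_lit 456) (nat_lit 71786417975) (nat_lit 76) (nat_lit 20964389900) (nat_lit 254) (nat_lit 5) (nat_lit 260) (nat_lit 5) (nat_lit 255) (nat_lit 5) (nat_lit 421) (nat_lit 394) (nat_lit 205)) (XT.nd (nat_lit 78) (nat_lit 304) (nat_lit 0) (XT.lf (nat_lit 0) (nat_lit 44823140169) (nat_lit 380) (nat_lit 18776621142) (nat_lit 456) (nat_lit 56805996070) (nat_lit 249) (nat_lit 5) (nat_lit 254) (nat_lit 5) (nat_lit 255) (nat_lit 5) (nat_lit 422) (nat_lit 394) (nat_lit 204)) (XT.lf (nat_lit 0) (nat_lit 45019528529) (nat_lit 304) (nat_lit 61730816198) (nat_lit 380) (nat_lit 17233589371) (nat_lit 245) (nat_lit 5) (nat_lit 249) (nat_lit 5) (nat_lit 250) (nat_lit 5) (nat_lit 423) (nat_lit 394) (nat_lit 203))))) (XT.nd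 (nat_lit 234) (nat_lit 1292) (nat_lit 0) (XT.nd (nat_lit 78) (nat_lit 608) (nat_lit 0) (XT.lf (nat_lit 0) (nat_lit 25458579810) (nat_lit 456) (nat_lit 81911973279) (nat_lit 76) (nat_lit 20314984052) (nat_lit 239) (nat_lit 5) (nat_lit 245) (nat_lit 5) (nat_lit 240) (nat_lit 5) (nat_lit 424) (nat_lit 394) (nat_lit 202)) (XT.nd (nat_lit 78) (nat_lit 304) (nat_lit 0) (XT.lf (nat_lit 0) (nat_lit 46960968130) (nat_lit 304) (nat_lit 24865950991) (nat_lit 380) (nat_lit 59683242964) (nat_lit 235) (nat_lit 5) (nat_lit 239) (nat_lit 5) (nat_lit 240) (nat_lit 5) (nat_lit 425) (nat_lit 394) (nat_lit 201)) (XT.lf (nat_lit 0) (nat_lit 48838444199) (nat_lit 304) (nat_lit 73589256977) (nat_lit 380) (nat_lit 13040896328) (nat_lit 231) (nat_lit 5) (nat_lit 235) (nat_lit 5) (nat_lit 236) (nat_lit 5) (nat_lit 426) (nat_lit 394) (nat_lit 200)))) (XT.nd (nat_lit 156) (nat_lit 608) (nat_lit 0) (XT.nd (nat_lit 78) (nat_lit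 304) (nat_lit 0) (XT.lf (nat_lit 0) (nat_lit 36996709936) (nat_lit 380) (nat_lit 88244675196) (nat_lit 76) (nat_lit 14320277028) (nat_lit 226) (nat_lit 5) (nat_lit 231) (nat_lit 5) (nat_lit 227) (nat_lit 5) (nat_lit 427) (nat_lit 394) (nat_lit 199)) (XT.lf (nat_lit 0) (nat_lit 54314808850) (nat_lit 304) (nat_lit 37118986518) (nat_lit 380) (nat_lit 52356692011) (nat_lit 222) (nat_lit 5) (nat_lit 226) (nat_lit 5) (nat_lit 227) (nat_lit 5) (nat_lit 428) (nat_lit 394) (nat_lit 198))) (XT.nd (nat_lit 78) (nat_lit 304) (nat_lit 0) (XT.lf (nat_lit 0) (nat_lit 2383986249) (nat_lit 304) (nat_lit 89957270157) (nat_lit 76) (nat_lit 55828521007) (nat_lit 218) (nat_lit 5) (nat_lit 222) (nat_lit 5) (nat_lit 219) (nat_lit 5) (nat_lit 429) (nat_lit 394) (nat_lit 197)) (XT.lf (nat_lit 0) (nat_lit 60715610048) (nat_lit 380) (nat_lit 89989214876) (nat_lit 76) (nat_lit 1989553682) (nat_lit 214) (nat_lit 5) (nat_lit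 219) (nat_lit 5) (nat_lit 215) (nat_lit 5) (nat_lit 430) (nat_lit 394) (nat_lit 196)))))) (XT.nd (nat_lit 50778) (nat_lit 0) (nat_lit 10260) (XT.nd (nat_lit 50466) (nat_lit 0) (nat_lit 12464) (XT.nd (nat_lit 50310) (nat_lit 0) (nat_lit 12388) (XT.lf (nat_lit 0) (nat_lit 67844849261) (nat_lit 228) (nat_lit 56637731760) (nat_lit 304) (nat_lit 32887065859) (nat_lit 211) (nat_lit 5) (nat_lit 214) (nat_lit 5) (nat_lit 215) (nat_lit 5) (nat_lit 431) (nat_lit 394) (nat_lit 195)) (XT.nd (nat_lit 78) (nat_lit 0) (nat_lit 76) (XT.lf (nat_lit 0) (nat_lit 18570328696) (nat_lit 1292) (nat_lit 5566464640) (nat_lit 1292) (nat_lit 5566464640) (nat_lit 374) (nat_lit 3) (nat_lit 391) (nat_lit 3) (nat_lit 391) (nat_lit 5) (nat_lit 395) (nat_lit 395) (nat_lit 230)) (XT.lf (nat_lit 0) (nat_lit 38482156619) (nat_lit 1216) (nat_lit 21749840629) (nat_lit 1292) (nat_lit 647292120) (nat_lit 375) (nat_lit 5) (nat_lit 391)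 (nat_lit 5) (nat_lit 392) (nat_lit 5) (nat_lit 396) (nat_lit 395) (nat_lit 229)))) (XT.nd (nat_lit 156) (nat_lit 0) (nat_lit 152) (XT.nd (nat_lit 78) (nat_lit 0) (nat_lit 76) (XT.lf (nat_lit 76) (nat_lit 29807516986) (nat_lit 0) (nat_lit 10970768042) (nat_lit 1292) (nat_lit 21620789799) (nat_lit 376) (nat_lit 5) (nat_lit 375) (nat_lit 5) (nat_lit 392) (nat_lit 5) (nat_lit 397) (nat_lit 395) (nat_lit 228)) (XT.lf (nat_lit 76) (nat_lit 20412347729) (nat_lit 0) (nat_lit 23589089238) (nat_lit 1292) (nat_lit 19969046079) (nat_lit 377) (nat_lit 5) (nat_lit 376) (nat_lit 5) (nat_lit 393) (nat_lit 5) (nat_lit 398) (nat_lit 395) (nat_lit 227))) (XT.nd (nat_lit 78) (nat_lit 0) (nat_lit 76) (XT.lf (nat_lit 76) (nat_lit 10963379512) (nat_lit 0) (nat_lit 37248004532) (nat_lit 1292) (nat_lit 17384308506) (nat_lit 378) (nat_lit 5) (nat_lit 377) (nat_lit 5) (nat_lit 394) (nat_lit 5) (nat_lit 399) (nat_lit 395)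 (nat_lit 226)) (XT.lf (nat_lit 76) (nat_lit 1474747335) (nat_lit 0) (nat_lit 52003306499) (nat_lit 1292) (nat_lit 13798721934) (nat_lit 379) (nat_lit 5) (nat_lit 378) (nat_lit 5) (nat_lit 395) (nat_lit 5) (nat_lit 400) (nat_lit 395) (nat_lit 225))))) (XT.nd (nat_lit 234) (nat_lit 1292) (nat_lit 0) (XT.nd (nat_lit 78) (nat_lit 1216) (nat_lit 0) (XT.lf (nat_lit 0) (nat_lit 59952656146) (nat_lit 1216) (nat_lit 7881248855) (nat_lit 1292) (nat_lit 1179670175) (nat_lit 379) (nat_lit 5) (nat_lit 395) (nat_lit 5) (nat_lit 396) (nat_lit 5) (nat_lit 401) (nat_lit 395) (nat_lit 224)) (XT.nd (nat_lit 78) (nat_lit 1216) (nat_lit 0) (XT.lf (nat_lit 76) (nat_lit 53452602653) (nat_lit 0) (nat_lit 14335543688) (nat_lit 1292) (nat_lit 3017953480) (nat_lit 380) (nat_lit 5) (nat_lit 379) (nat_lit 5) (nat_lit 396) (nat_lit 5) (nat_lit 402) (nat_lit 395) (nat_lit 223)) (XT.lf (nat_lit 0) (nat_lit 4194471460) (nat_lit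 1292) (nat_lit 26879628395) (nat_lit 1368) (nat_lit 41585224283) (nat_lit 363) (nat_lit 5) (nat_lit 380) (nat_lit 5) (nat_lit 381) (nat_lit 5) (nat_lit 403) (nat_lit 395) (nat_lit 222)))) (XT.nd (nat_lit 156) (nat_lit 1368) (nat_lit 0) (XT.nd (nat_lit 78) (nat_lit 0) (nat_lit 76) (XT.lf (nat_lit 0) (nat_lit 12648487232) (nat_lit 1292) (nat_lit 36429830321) (nat_lit 1368) (nat_lit 25497694130) (nat_lit 364) (nat_lit 5) (nat_lit 381) (nat_lit 5) (nat_lit 382) (nat_lit 5) (nat_lit 404) (nat_lit 395) (nat_lit 221)) (XT.lf (nat_lit 0) (nat_lit 22491421160) (nat_lit 1292) (nat_lit 45955457806) (nat_lit 76) (nat_lit 8112668120) (nat_lit 365) (nat_lit 5) (nat_lit 382) (nat_lit 5) (nat_lit 366) (nat_lit 5) (nat_lit 405) (nat_lit 395) (nat_lit 220))) (XT.nd (nat_lit 78) (nat_lit 608) (nat_lit 0) (XT.lf (nat_lit 0) (nat_lit 23069909388) (nat_lit 836) (nat_lit 10851124689) (nat_lit 912) (nat_lit 44688389212)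 (nat_lit 354) (nat_lit 5) (nat_lit 365) (nat_lit 5) (nat_lit 366) (nat_lit 5) (nat_lit 406) (nat_lit 395) (nat_lit 219)) (XT.lf (nat_lit 0) (nat_lit 15580430602) (nat_lit 608) (nat_lit 31444978552) (nat_lit 684) (nat_lit 33703285704) (nat_lit 346) (nat_lit 5) (nat_lit 354) (nat_lit 5) (nat_lit 355) (nat_lit 5) (nat_lit 407) (nat_lit 395) (nat_lit 218))))))) (XT.nd (nat_lit 1014) (nat_lit 3876) (nat_lit 0) (XT.nd (nat_lit 468) (nat_lit 3268) (nat_lit 0) (XT.nd (nat_lit 234) (nat_lit 1672) (nat_lit 0) (XT.nd (nat_lit 78) (nat_lit 608) (nat_lit 0) (XT.lf (nat_lit 0) (nat_lit 8244621698) (nat_lit 608) (nat_lit 53585442209) (nat_lit 684) (nat_lit 21092514269) (nat_lit 338) (nat_lit 5) (nat_lit 346) (nat_lit 5) (nat_lit 347) (nat_lit 5) (nat_lit 408) (nat_lit 395) (nat_lit 217)) (XT.nd (nat_lit 78) (nat_lit 76) (nat_lit 0) (XT.lf (nat_lit 0) (nat_lit 1091619098) (nat_lit 532) (nat_lit 77354331044) (nat_lit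 608) (nat_lit 6748075557) (nat_lit 331) (nat_lit 5) (nat_lit 338) (nat_lit 5) (nat_lit 339) (nat_lit 5) (nat_lit 409) (nat_lit 395) (nat_lit 216)) (XT.lf (nat_lit 0) (nat_lit 9467431017) (nat_lit 608) (nat_lit 5975304559) (nat_lit 76) (nat_lit 72094430347) (nat_lit 330) (nat_lit 5) (nat_lit 338) (nat_lit 5) (nat_lit 331) (nat_lit 5) (nat_lit 410) (nat_lit 395) (nat_lit 215)))) (XT.nd (nat_lit 78) (nat_lit 1064) (nat_lit 0) (XT.lf (nat_lit 0) (nat_lit 27583855074) (nat_lit 684) (nat_lit 12956336409) (nat_lit 76) (nat_lit 49418376213) (nat_lit 322) (nat_lit 5) (nat_lit 331) (nat_lit 5) (nat_lit 323) (nat_lit 5) (nat_lit 411) (nat_lit 395) (nat_lit 214)) (XT.nd (nat_lit 78) (nat_lit 532) (nat_lit 0) (XT.lf (nat_lit 0) (nat_lit 47770067906) (nat_lit 608) (nat_lit 19696917999) (nat_lit 76) (nat_lit 24999134628) (nat_lit 315) (nat_lit 5) (nat_lit 323) (nat_lit 5) (nat_lit 316) (nat_lit 5) (nat_lit 412)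 (nat_lit 395) (nat_lit 213)) (XT.lf (nat_lit 0) (nat_lit 68889387966) (nat_lit 532) (nat_lit 1281287707) (nat_lit 608) (nat_lit 24892222810) (nat_lit 308) (nat_lit 5) (nat_lit 315) (nat_lit 5) (nat_lit 316) (nat_lit 5) (nat_lit 413) (nat_lit 395) (nat_lit 212))))) (XT.nd (nat_lit 234) (nat_lit 1748) (nat_lit 0) (XT.nd (nat_lit 78) (nat_lit 1064) (nat_lit 0) (XT.lf (nat_lit 0) (nat_lit 65145586557) (nat_lit 456) (nat_lit 30031465145) (nat_lit 532) (nat_lit 2567891490) (nat_lit 302) (nat_lit 5) (nat_lit 308) (nat_lit 5) (nat_lit 309) (nat_lit 5) (nat_lit 414) (nat_lit 395) (nat_lit 211)) (XT.nd (nat_lit 78) (nat_lit 456) (nat_lit 0) (XT.lf (nat_lit 0) (nat_lit 21736564221) (nat_lit 608) (nat_lit 38902193176) (nat_lit 76) (nat_lit 39878177263) (nat_lit 294) (nat_lit 5) (nat_lit 302) (nat_lit 5) (nat_lit 295) (nat_lit 5) (nat_lit 415) (nat_lit 395) (nat_lit 210)) (XT.lf (nat_lit 0) (nat_lit 48506275081)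 (nat_lit 532) (nat_lit 44875073499) (nat_lit 76) (nat_lit 10006320171) (nat_lit 288) (nat_lit 5) (nat_lit 295) (nat_lit 5) (nat_lit 289) (nat_lit 5) (nat_lit 416) (nat_lit 395) (nat_lit 209)))) (XT.nd (nat_lit 156) (nat_lit 836) (nat_lit 0) (XT.nd (nat_lit 78) (nat_lit 456) (nat_lit 0) (XT.lf (nat_lit 0) (nat_lit 55690781805) (nat_lit 456) (nat_lit 22474621324) (nat_lit 532) (nat_lit 28190008469) (nat_lit 282) (nat_lit 5) (nat_lit 288) (nat_lit 5) (nat_lit 289) (nat_lit 5) (nat_lit 417) (nat_lit 395) (nat_lit 208)) (XT.lf (nat_lit 0) (nat_lit 1331446753) (nat_lit 456) (nat_lit 56140473427) (nat_lit 76) (nat_lit 51954899733) (nat_lit 276) (nat_lit 5) (nat_lit 282) (nat_lit 5) (nat_lit 277) (nat_lit 5) (nat_lit 418) (nat_lit 395) (nat_lit 207))) (XT.nd (nat_lit 78) (nat_lit 380) (nat_lit 0) (XT.lf (nat_lit 0) (nat_lit 33173976749) (nat_lit 532) (nat_lit 61440476736) (nat_lit 76) (nat_lit 17986131450)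 (nat_lit 270) (nat_lit 5) (nat_lit 277) (nat_lit 5) (nat_lit 271) (nat_lit 5) (nat_lit 419) (nat_lit 395) (nat_lit 206)) (XT.lf (nat_lit 0) (nat_lit 49461513906) (nat_lit 380) (nat_lit 18785496233) (nat_lit 456) (nat_lit 47636876761) (nat_lit 265) (nat_lit 5) (nat_lit 270) (nat_lit 5) (nat_lit 271) (nat_lit 5) (nat_lit 420) (nat_lit 395) (nat_lit 205)))))) (XT.nd (nat_lit 546) (nat_lit 1292) (nat_lit 0) (XT.nd (nat_lit 234) (nat_lit 1368) (nat_lit 0) (XT.nd (nat_lit 78) (nat_lit 836) (nat_lit 0) (XT.lf (nat_lit 0) (nat_lit 48229192470) (nat_lit 380) (nat_lit 58530862799) (nat_lit 456) (nat_lit 12520707894) (nat_lit 260) (nat_lit 5) (nat_lit 265) (nat_lit 5) (nat_lit 266) (nat_lit 5) (nat_lit 421) (nat_lit 395) (nat_lit 204)) (XT.nd (nat_lit 78) (nat_lit 380) (nat_lit 0) (XT.lf (nat_lit 0) (nat_lit 25429633700) (nat_lit 456) (nat_lit 75343030451) (nat_lit 76) (nat_lit 22021190349) (nat_lit 254)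 (nat_lit 5) (nat_lit 260) (nat_lit 5) (nat_lit 255) (nat_lit 5) (nat_lit 422) (nat_lit 395) (nat_lit 203)) (XT.lf (nat_lit 0) (nat_lit 47096068020) (nat_lit 380) (nat_lit 19706296021) (nat_lit 456) (nat_lit 59623002769) (nat_lit 249) (nat_lit 5) (nat_lit 254) (nat_lit 5) (nat_lit 255) (nat_lit 5) (nat_lit 423) (nat_lit 395) (nat_lit 202)))) (XT.nd (nat_lit 156) (nat_lit 608) (nat_lit 0) (XT.nd (nat_lit 78) (nat_lit 456) (nat_lit 0) (XT.lf (nat_lit 0) (nat_lit 47301938594) (nat_lit 304) (nat_lit 64807847128) (nat_lit 380) (nat_lit 18072687368) (nat_lit 245) (nat_lit 5) (nat_lit 249) (nat_lit 5) (nat_lit 250) (nat_lit 5) (nat_lit 424) (nat_lit 395) (nat_lit 201)) (XT.lf (nat_lit 0) (nat_lit 26752984969) (nat_lit 456) (nat_lit 85976061861) (nat_lit 76) (nat_lit 21340122884) (nat_lit 239) (nat_lit 5) (nat_lit 245) (nat_lit 5) (nat_lit 240) (nat_lit 5) (nat_lit 425) (nat_lit 395) (nat_lit 200))) (XT.nd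 (nat_lit 78) (nat_lit 304) (nat_lit 0) (XT.lf (nat_lit 0) (nat_lit 49339623389) (nat_lit 304) (nat_lit 26099389393) (nat_lit 380) (nat_lit 62646034976) (nat_lit 235) (nat_lit 5) (nat_lit 239) (nat_lit 5) (nat_lit 240) (nat_lit 5) (nat_lit 426) (nat_lit 395) (nat_lit 199)) (XT.lf (nat_lit 0) (nat_lit 51310608455) (nat_lit 304) (nat_lit 77258618463) (nat_lit 380) (nat_lit 13672196240) (nat_lit 231) (nat_lit 5) (nat_lit 235) (nat_lit 5) (nat_lit 236) (nat_lit 5) (nat_lit 427) (nat_lit 395) (nat_lit 198))))) (XT.nd (nat_lit 234) (nat_lit 304) (nat_lit 0) (XT.nd (nat_lit 78) (nat_lit 608) (nat_lit 0) (XT.lf (nat_lit 0) (nat_lit 38866300295) (nat_lit 380) (nat_lit 92626648048) (nat_lit 76) (nat_lit 15046204280) (nat_lit 226) (nat_lit 5) (nat_lit 231) (nat_lit 5) (nat_lit 227) (nat_lit 5) (nat_lit 428) (nat_lit 395) (nat_lit 197)) (XT.nd (nat_lit 78) (nat_lit 304) (nat_lit 0) (XT.lf (nat_lit 0) (nat_lit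 57059942779) (nat_lit 304) (nat_lit 38964639060) (nat_lit 380) (nat_lit 54954857008) (nat_lit 222) (nat_lit 5) (nat_lit 226) (nat_lit 5) (nat_lit 227) (nat_lit 5) (nat_lit 429) (nat_lit 395) (nat_lit 196)) (XT.lf (nat_lit 0) (nat_lit 2521929805) (nat_lit 304) (nat_lit 94425749354) (nat_lit 76) (nat_lit 58630024799) (nat_lit 218) (nat_lit 5) (nat_lit 222) (nat_lit 5) (nat_lit 219) (nat_lit 5) (nat_lit 430) (nat_lit 395) (nat_lit 195)))) (XT.nd (nat_lit 50466) (nat_lit 0) (nat_lit 12236) (XT.nd (nat_lit 50388) (nat_lit 0) (nat_lit 12160) (XT.lf (nat_lit 0) (nat_lit 63769616699) (nat_lit 380) (nat_lit 94459689947) (nat_lit 76) (nat_lit 2099244106) (nat_lit 214) (nat_lit 5) (nat_lit 219) (nat_lit 5) (nat_lit 215) (nat_lit 5) (nat_lit 431) (nat_lit 395) (nat_lit 194)) (XT.lf (nat_lit 0) (nat_lit 19528807672) (nat_lit 1292) (nat_lit 5829357163) (nat_lit 1292) (nat_lit 5829357163) (nat_lit 374) (nat_lit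 3) (nat_lit 391) (nat_lit 3) (nat_lit 391) (nat_lit 5) (nat_lit 396) (nat_lit 396) (nat_lit 228))) (XT.nd (nat_lit 78) (nat_lit 0) (nat_lit 0) (XT.lf (nat_lit 0) (nat_lit 40463360891) (nat_lit 1216) (nat_lit 22805371869) (nat_lit 1292) (nat_lit 652808184) (nat_lit 375) (nat_lit 5) (nat_lit 391) (nat_lit 5) (nat_lit 392) (nat_lit 5) (nat_lit 397) (nat_lit 396) (nat_lit 227)) (XT.lf (nat_lit 76) (nat_lit 31328937478) (nat_lit 0) (nat_lit 11542937785) (nat_lit 1292) (nat_lit 22645513027) (nat_lit 376) (nat_lit 5) (nat_lit 375) (nat_lit 5) (nat_lit 392) (nat_lit 5) (nat_lit 398) (nat_lit 396) (nat_lit 226))))))))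
noncomputable def xc119 : XT := (XT.nd (nat_lit 2106) (nat_lit 1748) (nat_lit 0) (XT.nd (nat_lit 1014) (nat_lit 6460) (nat_lit 0) (XT.nd (nat_lit 468) (nat_lit 2508) (nat_lit 0) (XT.nd (nat_lit 234) (nat_lit 988) (nat_lit 0) (XT.nd (nat_lit 78) (nat_lit 0) (nat_lit 76) (XT.lf (nat_lit 76) (nat_lit 21464933778) (nat_lit 0) (nat_lit 24788738363) (nat_lit 1292) (nat_lit 20913770158) (nat_lit 377) (nat_lit 5) (nat_lit 376) (nat_lit 5) (nat_lit 393) (nat_lit 5) (nat_lit 399) (nat_lit 396) (nat_lit 225)) (XT.nd (nat_lit 78) (nat_lit 0) (nat_lit 76) (XT.lf (nat_lit 76) (nat_lit 11544309376) (nat_lit 0) (nat_lit 39127453266) (nat_lit 1292) (nat_lit 18202220254) (nat_lit 378) (nat_lit 5) (nat_lit 377) (nat_lit 5) (nat_lit 394) (nat_lit 5) (nat_lit 400) (nat_lit 396) (nat_lit 224)) (XT.lf (nat_lit 76) (nat_lit 1581917137) (nat_lit 0) (nat_lit 54617642204) (nat_lit 1292) (nat_lit 14439627131) (nat_lit 379)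 (nat_lit 5) (nat_lit 378) (nat_lit 5) (nat_lit 395) (nat_lit 5) (nat_lit 401) (nat_lit 396) (nat_lit 223)))) (XT.nd (nat_lit 78) (nat_lit 1216) (nat_lit 0) (XT.lf (nat_lit 0) (nat_lit 62995495240) (nat_lit 1216) (nat_lit 8241981075) (nat_lit 1292) (nat_lit 1225421431) (nat_lit 379) (nat_lit 5) (nat_lit 395) (nat_lit 5) (nat_lit 396) (nat_lit 5) (nat_lit 402) (nat_lit 396) (nat_lit 222)) (XT.nd (nat_lit 78) (nat_lit 1216) (nat_lit 0) (XT.lf (nat_lit 76) (nat_lit 56157607605) (nat_lit 0) (nat_lit 15063310866) (nat_lit 1292) (nat_lit 3124185397) (nat_lit 380) (nat_lit 5) (nat_lit 379) (nat_lit 5) (nat_lit 396) (nat_lit 5) (nat_lit 403) (nat_lit 396) (nat_lit 221)) (XT.lf (nat_lit 0) (nat_lit 4446120698) (nat_lit 1292) (nat_lit 28189962343) (nat_lit 1368) (nat_lit 43654949534) (nat_lit 363) (nat_lit 5) (nat_lit 380) (nat_lit 5) (nat_lit 381) (nat_lit 5) (nat_lit 404) (nat_lit 396) (nat_lit 220)))))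 (XT.nd (nat_lit 234) (nat_lit 1824) (nat_lit 0) (XT.nd (nat_lit 78) (nat_lit 760) (nat_lit 0) (XT.lf (nat_lit 0) (nat_lit 13321082293) (nat_lit 1292) (nat_lit 38217358887) (nat_lit 1368) (nat_lit 26765165967) (nat_lit 364) (nat_lit 5) (nat_lit 381) (nat_lit 5) (nat_lit 382) (nat_lit 5) (nat_lit 405) (nat_lit 396) (nat_lit 219)) (XT.nd (nat_lit 78) (nat_lit 836) (nat_lit 0) (XT.lf (nat_lit 0) (nat_lit 23654513449) (nat_lit 1292) (nat_lit 48219030348) (nat_lit 76) (nat_lit 8512825006) (nat_lit 365) (nat_lit 5) (nat_lit 382) (nat_lit 5) (nat_lit 366) (nat_lit 5) (nat_lit 406) (nat_lit 396) (nat_lit 218)) (XT.lf (nat_lit 0) (nat_lit 24256624860) (nat_lit 836) (nat_lit 11397467140) (nat_lit 912) (nat_lit 46884692268) (nat_lit 354) (nat_lit 5) (nat_lit 365) (nat_lit 5) (nat_lit 366) (nat_lit 5) (nat_lit 407) (nat_lit 396) (nat_lit 217)))) (XT.nd (nat_lit 156) (nat_lit 608) (nat_lit 0) (XT.nd (nat_lit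 78) (nat_lit 608) (nat_lit 0) (XT.lf (nat_lit 0) (nat_lit 16392833605) (nat_lit 608) (nat_lit 33019376245) (nat_lit 684) (nat_lit 35351853844) (nat_lit 346) (nat_lit 5) (nat_lit 354) (nat_lit 5) (nat_lit 355) (nat_lit 5) (nat_lit 408) (nat_lit 396) (nat_lit 216)) (XT.lf (nat_lit 0) (nat_lit 8690332799) (nat_lit 608) (nat_lit 56265374784) (nat_lit 684) (nat_lit 22111975288) (nat_lit 338) (nat_lit 5) (nat_lit 346) (nat_lit 5) (nat_lit 347) (nat_lit 5) (nat_lit 409) (nat_lit 396) (nat_lit 215))) (XT.nd (nat_lit 78) (nat_lit 76) (nat_lit 0) (XT.lf (nat_lit 0) (nat_lit 1179721393) (nat_lit 532) (nat_lit 81221357181) (nat_lit 608) (nat_lit 7051663482) (nat_lit 331) (nat_lit 5) (nat_lit 338) (nat_lit 5) (nat_lit 339) (nat_lit 5) (nat_lit 410) (nat_lit 396) (nat_lit 214)) (XT.lf (nat_lit 0) (nat_lit 9972379694) (nat_lit 608) (nat_lit 6241516254) (nat_lit 76) (nat_lit 75699180956) (nat_lit 330) (nat_lit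 5) (nat_lit 338) (nat_lit 5) (nat_lit 331) (nat_lit 5) (nat_lit 411) (nat_lit 396) (nat_lit 213)))))) (XT.nd (nat_lit 546) (nat_lit 2812) (nat_lit 0) (XT.nd (nat_lit 234) (nat_lit 1976) (nat_lit 0) (XT.nd (nat_lit 78) (nat_lit 1064) (nat_lit 0) (XT.lf (nat_lit 0) (nat_lit 28993437185) (nat_lit 684) (nat_lit 13571633464) (nat_lit 76) (nat_lit 51890513752) (nat_lit 322) (nat_lit 5) (nat_lit 331) (nat_lit 5) (nat_lit 323) (nat_lit 5) (nat_lit 412) (nat_lit 396) (nat_lit 212)) (XT.nd (nat_lit 78) (nat_lit 532) (nat_lit 0) (XT.lf (nat_lit 0) (nat_lit 50187839696) (nat_lit 608) (nat_lit 20649321438) (nat_lit 76) (nat_lit 26251387374) (nat_lit 315) (nat_lit 5) (nat_lit 323) (nat_lit 5) (nat_lit 316) (nat_lit 5) (nat_lit 413) (nat_lit 396) (nat_lit 211)) (XT.lf (nat_lit 0) (nat_lit 72365369867) (nat_lit 532) (nat_lit 1342017167) (nat_lit 608) (nat_lit 26107811045) (nat_lit 308) (nat_lit 5) (nat_lit 315)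 (nat_lit 5) (nat_lit 316) (nat_lit 5) (nat_lit 414) (nat_lit 396) (nat_lit 210)))) (XT.nd (nat_lit 156) (nat_lit 912) (nat_lit 0) (XT.nd (nat_lit 78) (nat_lit 608) (nat_lit 0) (XT.lf (nat_lit 0) (nat_lit 68434265046) (nat_lit 456) (nat_lit 31528807389) (nat_lit 532) (nat_lit 2668302873) (nat_lit 302) (nat_lit 5) (nat_lit 308) (nat_lit 5) (nat_lit 309) (nat_lit 5) (nat_lit 415) (nat_lit 396) (nat_lit 209)) (XT.lf (nat_lit 0) (nat_lit 22849865539) (nat_lit 608) (nat_lit 40815524681) (nat_lit 76) (nat_lit 41876596979) (nat_lit 294) (nat_lit 5) (nat_lit 302) (nat_lit 5) (nat_lit 295) (nat_lit 5) (nat_lit 416) (nat_lit 396) (nat_lit 208))) (XT.nd (nat_lit 78) (nat_lit 456) (nat_lit 0) (XT.lf (nat_lit 0) (nat_lit 50957149538) (nat_lit 532) (nat_lit 47087246164) (nat_lit 76) (nat_lit 10511889666) (nat_lit 288) (nat_lit 5) (nat_lit 295) (nat_lit 5) (nat_lit 289) (nat_lit 5) (nat_lit 417) (nat_lit 396)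 (nat_lit 207)) (XT.lf (nat_lit 0) (nat_lit 58505996643) (nat_lit 456) (nat_lit 23592315044) (nat_lit 532) (nat_lit 29574131340) (nat_lit 282) (nat_lit 5) (nat_lit 288) (nat_lit 5) (nat_lit 289) (nat_lit 5) (nat_lit 418) (nat_lit 396) (nat_lit 206))))) (XT.nd (nat_lit 234) (nat_lit 1520) (nat_lit 0) (XT.nd (nat_lit 78) (nat_lit 836) (nat_lit 0) (XT.lf (nat_lit 0) (nat_lit 1422068061) (nat_lit 456) (nat_lit 58916560451) (nat_lit 76) (nat_lit 54558810928) (nat_lit 276) (nat_lit 5) (nat_lit 282) (nat_lit 5) (nat_lit 277) (nat_lit 5) (nat_lit 419) (nat_lit 396) (nat_lit 205)) (XT.nd (nat_lit 78) (nat_lit 380) (nat_lit 0) (XT.lf (nat_lit 0) (nat_lit 34855934141) (nat_lit 532) (nat_lit 64481820854) (nat_lit 76) (nat_lit 18892161430) (nat_lit 270) (nat_lit 5) (nat_lit 277) (nat_lit 5) (nat_lit 271) (nat_lit 5) (nat_lit 420) (nat_lit 396) (nat_lit 204)) (XT.lf (nat_lit 0) (nat_lit 51964389892) (nat_lit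 380) (nat_lit 19717408216) (nat_lit 456) (nat_lit 49995610013) (nat_lit 265) (nat_lit 5) (nat_lit 270) (nat_lit 5) (nat_lit 271) (nat_lit 5) (nat_lit 421) (nat_lit 396) (nat_lit 203)))) (XT.nd (nat_lit 156) (nat_lit 684) (nat_lit 0) (XT.nd (nat_lit 78) (nat_lit 456) (nat_lit 0) (XT.lf (nat_lit 0) (nat_lit 50670183246) (nat_lit 380) (nat_lit 61449595075) (nat_lit 456) (nat_lit 13124371390) (nat_lit 260) (nat_lit 5) (nat_lit 265) (nat_lit 5) (nat_lit 266) (nat_lit 5) (nat_lit 422) (nat_lit 396) (nat_lit 202)) (XT.lf (nat_lit 0) (nat_lit 26722362303) (nat_lit 456) (nat_lit 79080514470) (nat_lit 76) (nat_lit 23130033045) (nat_lit 254) (nat_lit 5) (nat_lit 260) (nat_lit 5) (nat_lit 255) (nat_lit 5) (nat_lit 423) (nat_lit 396) (nat_lit 201))) (XT.nd (nat_lit 78) (nat_lit 304) (nat_lit 0) (XT.lf (nat_lit 0) (nat_lit 49479688512) (nat_lit 380) (nat_lit 20683305898) (nat_lit 456) (nat_lit 62583025376) (nat_lit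 249) (nat_lit 5) (nat_lit 254) (nat_lit 5) (nat_lit 255) (nat_lit 5) (nat_lit 424) (nat_lit 396) (nat_lit 200)) (XT.lf (nat_lit 0) (nat_lit 49695546761) (nat_lit 304) (nat_lit 68039613743) (nat_lit 380) (nat_lit 18955839677) (nat_lit 245) (nat_lit 5) (nat_lit 249) (nat_lit 5) (nat_lit 250) (nat_lit 5) (nat_lit 425) (nat_lit 396) (nat_lit 199))))))) (XT.nd (nat_lit 51480) (nat_lit 0) (nat_lit 5016) (XT.nd (nat_lit 50934) (nat_lit 0) (nat_lit 11628) (XT.nd (nat_lit 234) (nat_lit 684) (nat_lit 0) (XT.nd (nat_lit 78) (nat_lit 608) (nat_lit 0) (XT.lf (nat_lit 0) (nat_lit 28110113735) (nat_lit 456) (nat_lit 90246284380) (nat_lit 76) (nat_lit 22415645698) (nat_lit 239) (nat_lit 5) (nat_lit 245) (nat_lit 5) (nat_lit 240) (nat_lit 5) (nat_lit 426) (nat_lit 396) (nat_lit 198)) (XT.nd (nat_lit 78) (nat_lit 304) (nat_lit 0) (XT.lf (nat_lit 0) (nat_lit 51834365876) (nat_lit 304) (nat_lit 27395416326) (nat_lit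 380) (nat_lit 65758953381) (nat_lit 235) (nat_lit 5) (nat_lit 239) (nat_lit 5) (nat_lit 240) (nat_lit 5) (nat_lit 427) (nat_lit 396) (nat_lit 197)) (XT.lf (nat_lit 0) (nat_lit 53903569306) (nat_lit 304) (nat_lit 81112387152) (nat_lit 380) (nat_lit 14336989813) (nat_lit 231) (nat_lit 5) (nat_lit 235) (nat_lit 5) (nat_lit 236) (nat_lit 5) (nat_lit 428) (nat_lit 396) (nat_lit 196)))) (XT.nd (nat_lit 78) (nat_lit 304) (nat_lit 0) (XT.lf (nat_lit 0) (nat_lit 40827533552) (nat_lit 380) (nat_lit 97230532914) (nat_lit 76) (nat_lit 15807506240) (nat_lit 226) (nat_lit 5) (nat_lit 231) (nat_lit 5) (nat_lit 227) (nat_lit 5) (nat_lit 429) (nat_lit 396) (nat_lit 195)) (XT.nd (nat_lit 50544) (nat_lit 0) (nat_lit 11552) (XT.lf (nat_lit 0) (nat_lit 59939600676) (nat_lit 304) (nat_lit 40903531528) (nat_lit 380) (nat_lit 57684758948) (nat_lit 222) (nat_lit 5) (nat_lit 226) (nat_lit 5) (nat_lit 227) (nat_lit 5) (nat_lit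 430) (nat_lit 396) (nat_lit 194)) (XT.lf (nat_lit 0) (nat_lit 20532424964) (nat_lit 1292) (nat_lit 6106828914) (nat_lit 1292) (nat_lit 6106828914) (nat_lit 374) (nat_lit 3) (nat_lit 391) (nat_lit 3) (nat_lit 391) (nat_lit 5) (nat_lit 397) (nat_lit 397) (nat_lit 226))))) (XT.nd (nat_lit 234) (nat_lit 0) (nat_lit 152) (XT.nd (nat_lit 78) (nat_lit 0) (nat_lit 0) (XT.lf (nat_lit 0) (nat_lit 42538317091) (nat_lit 1216) (nat_lit 23916651082) (nat_lit 1292) (nat_lit 661096173) (nat_lit 375) (nat_lit 5) (nat_lit 391) (nat_lit 5) (nat_lit 392) (nat_lit 5) (nat_lit 398) (nat_lit 397) (nat_lit 225)) (XT.nd (nat_lit 78) (nat_lit 0) (nat_lit 76) (XT.lf (nat_lit 76) (nat_lit 32923542757) (nat_lit 0) (nat_lit 12141518997) (nat_lit 1292) (nat_lit 23726708168) (nat_lit 376) (nat_lit 5) (nat_lit 375) (nat_lit 5) (nat_lit 392) (nat_lit 5) (nat_lit 399) (nat_lit 397) (nat_lit 224)) (XT.lf (nat_lit 76) (nat_lit 22567176986)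 (nat_lit 0) (nat_lit 26046492435) (nat_lit 1292) (nat_lit 21910725582) (nat_lit 377) (nat_lit 5) (nat_lit 376) (nat_lit 5) (nat_lit 393) (nat_lit 5) (nat_lit 400) (nat_lit 397) (nat_lit 223)))) (XT.nd (nat_lit 156) (nat_lit 0) (nat_lit 152) (XT.nd (nat_lit 78) (nat_lit 0) (nat_lit 76) (XT.lf (nat_lit 76) (nat_lit 12151239936) (nat_lit 0) (nat_lit 41099289428) (nat_lit 1292) (nat_lit 19065797319) (nat_lit 378) (nat_lit 5) (nat_lit 377) (nat_lit 5) (nat_lit 394) (nat_lit 5) (nat_lit 401) (nat_lit 397) (nat_lit 222)) (XT.lf (nat_lit 76) (nat_lit 1691337198) (nat_lit 0) (nat_lit 57361377267) (nat_lit 1292) (nat_lit 15117136016) (nat_lit 379) (nat_lit 5) (nat_lit 378) (nat_lit 5) (nat_lit 395) (nat_lit 5) (nat_lit 402) (nat_lit 397) (nat_lit 221))) (XT.nd (nat_lit 78) (nat_lit 0) (nat_lit 0) (XT.lf (nat_lit 0) (nat_lit 66186273437) (nat_lit 1216) (nat_lit 8623848633) (nat_lit 1292) (nat_lit 1274690460)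 (nat_lit 379) (nat_lit 5) (nat_lit 395) (nat_lit 5) (nat_lit 396) (nat_lit 5) (nat_lit 403) (nat_lit 397) (nat_lit 220)) (XT.lf (nat_lit 76) (nat_lit 58994852900) (nat_lit 0) (nat_lit 15826444658) (nat_lit 1292) (nat_lit 3239881508) (nat_lit 380) (nat_lit 5) (nat_lit 379) (nat_lit 5) (nat_lit 396) (nat_lit 5) (nat_lit 404) (nat_lit 397) (nat_lit 219)))))) (XT.nd (nat_lit 546) (nat_lit 3268) (nat_lit 0) (XT.nd (nat_lit 234) (nat_lit 2432) (nat_lit 0) (XT.nd (nat_lit 78) (nat_lit 0) (nat_lit 76) (XT.lf (nat_lit 0) (nat_lit 4706454548) (nat_lit 1292) (nat_lit 29568941211) (nat_lit 1368) (nat_lit 45829047611) (nat_lit 363) (nat_lit 5) (nat_lit 380) (nat_lit 5) (nat_lit 381) (nat_lit 5) (nat_lit 405) (nat_lit 397) (nat_lit 218)) (XT.nd (nat_lit 78) (nat_lit 0) (nat_lit 76) (XT.lf (nat_lit 0) (nat_lit 14023572415) (nat_lit 1292) (nat_lit 40097421434) (nat_lit 1368) (nat_lit 28096700575) (nat_lit 364)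 (nat_lit 5) (nat_lit 381) (nat_lit 5) (nat_lit 382) (nat_lit 5) (nat_lit 406) (nat_lit 397) (nat_lit 217)) (XT.lf (nat_lit 0) (nat_lit 24872179014) (nat_lit 1292) (nat_lit 50598961142) (nat_lit 76) (nat_lit 8933498891) (nat_lit 365) (nat_lit 5) (nat_lit 382) (nat_lit 5) (nat_lit 366) (nat_lit 5) (nat_lit 407) (nat_lit 397) (nat_lit 216)))) (XT.nd (nat_lit 156) (nat_lit 1140) (nat_lit 0) (XT.nd (nat_lit 78) (nat_lit 608) (nat_lit 0) (XT.lf (nat_lit 0) (nat_lit 25499587624) (nat_lit 836) (nat_lit 11970774706) (nat_lit 912) (nat_lit 49194354179) (nat_lit 354) (nat_lit 5) (nat_lit 365) (nat_lit 5) (nat_lit 366) (nat_lit 5) (nat_lit 408) (nat_lit 397) (nat_lit 215)) (XT.lf (nat_lit 0) (nat_lit 17242753265) (nat_lit 608) (nat_lit 34672294051) (nat_lit 684) (nat_lit 37086252753) (nat_lit 346) (nat_lit 5) (nat_lit 354) (nat_lit 5) (nat_lit 355) (nat_lit 5) (nat_lit 409) (nat_lit 397) (nat_lit 214))) (XT.nd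 (nat_lit 78) (nat_lit 532) (nat_lit 0) (XT.lf (nat_lit 0) (nat_lit 9155216800) (nat_lit 608) (nat_lit 59079242584) (nat_lit 684) (nat_lit 23185678637) (nat_lit 338) (nat_lit 5) (nat_lit 346) (nat_lit 5) (nat_lit 347) (nat_lit 5) (nat_lit 410) (nat_lit 397) (nat_lit 213)) (XT.lf (nat_lit 0) (nat_lit 1269112307) (nat_lit 532) (nat_lit 85281798813) (nat_lit 608) (nat_lit 7373574682) (nat_lit 331) (nat_lit 5) (nat_lit 338) (nat_lit 5) (nat_lit 339) (nat_lit 5) (nat_lit 411) (nat_lit 397) (nat_lit 212))))) (XT.nd (nat_lit 234) (nat_lit 2052) (nat_lit 0) (XT.nd (nat_lit 78) (nat_lit 1140) (nat_lit 0) (XT.lf (nat_lit 0) (nat_lit 10499640064) (nat_lit 608) (nat_lit 6524065053) (nat_lit 76) (nat_lit 79484166391) (nat_lit 330) (nat_lit 5) (nat_lit 338) (nat_lit 5) (nat_lit 331) (nat_lit 5) (nat_lit 412) (nat_lit 397) (nat_lit 211)) (XT.nd (nat_lit 78) (nat_lit 532) (nat_lit 0) (XT.lf (nat_lit 0) (nat_lit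 30470673087) (nat_lit 684) (nat_lit 14220718751) (nat_lit 76) (nat_lit 54486144862) (nat_lit 322) (nat_lit 5) (nat_lit 331) (nat_lit 5) (nat_lit 323) (nat_lit 5) (nat_lit 413) (nat_lit 397) (nat_lit 210)) (XT.lf (nat_lit 0) (nat_lit 52723778977) (nat_lit 608) (nat_lit 21652361243) (nat_lit 76) (nat_lit 27566039295) (nat_lit 315) (nat_lit 5) (nat_lit 323) (nat_lit 5) (nat_lit 316) (nat_lit 5) (nat_lit 414) (nat_lit 397) (nat_lit 209)))) (XT.nd (nat_lit 156) (nat_lit 1064) (nat_lit 0) (XT.nd (nat_lit 78) (nat_lit 456) (nat_lit 0) (XT.lf (nat_lit 0) (nat_lit 76012221130) (nat_lit 532) (nat_lit 1406093150) (nat_lit 608) (nat_lit 27386876966) (nat_lit 308) (nat_lit 5) (nat_lit 315) (nat_lit 5) (nat_lit 316) (nat_lit 5) (nat_lit 415) (nat_lit 397) (nat_lit 208)) (XT.lf (nat_lit 0) (nat_lit 71884458264) (nat_lit 456) (nat_lit 33101410104) (nat_lit 532) (nat_lit 2776336436) (nat_lit 302) (nat_lit 5) (nat_lit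 308) (nat_lit 5) (nat_lit 309) (nat_lit 5) (nat_lit 416) (nat_lit 397) (nat_lit 207))) (XT.nd (nat_lit 78) (nat_lit 456) (nat_lit 0) (XT.lf (nat_lit 0) (nat_lit 24016370705) (nat_lit 608) (nat_lit 42827477192) (nat_lit 76) (nat_lit 43974518305) (nat_lit 294) (nat_lit 5) (nat_lit 302) (nat_lit 5) (nat_lit 295) (nat_lit 5) (nat_lit 417) (nat_lit 397) (nat_lit 206)) (XT.lf (nat_lit 0) (nat_lit 53528191326) (nat_lit 532) (nat_lit 49412963564) (nat_lit 76) (nat_lit 11042249217) (nat_lit 288) (nat_lit 5) (nat_lit 295) (nat_lit 5) (nat_lit 289) (nat_lit 5) (nat_lit 418) (nat_lit 397) (nat_lit 205))))))))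
noncomputable def xc120 : XT := (XT.nd (nat_lit 52572) (nat_lit 0) (nat_lit 380) (XT.nd (nat_lit 51558) (nat_lit 0) (nat_lit 8512) (XT.nd (nat_lit 468) (nat_lit 2128) (nat_lit 0) (XT.nd (nat_lit 234) (nat_lit 1216) (nat_lit 0) (XT.nd (nat_lit 78) (nat_lit 912) (nat_lit 0) (XT.lf (nat_lit 0) (nat_lit 61459120282) (nat_lit 456) (nat_lit 24766454745) (nat_lit 532) (nat_lit 31029819719) (nat_lit 282) (nat_lit 5) (nat_lit 288) (nat_lit 5) (nat_lit 289) (nat_lit 5) (nat_lit 419) (nat_lit 397) (nat_lit 204)) (XT.nd (nat_lit 78) (nat_lit 456) (nat_lit 0) (XT.lf (nat_lit 0) (nat_lit 1514984589) (nat_lit 456) (nat_lit 61834328021) (nat_lit 76) (nat_lit 57292344408) (nat_lit 276) (nat_lit 5) (nat_lit 282) (nat_lit 5) (nat_lit 277) (nat_lit 5) (nat_lit 420) (nat_lit 397) (nat_lit 203)) (XT.lf (nat_lit 0) (nat_lit 36619827042) (nat_lit 532) (nat_lit 67678084487) (nat_lit 76) (nat_lit 19842867831) (nat_lit 270)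 (nat_lit 5) (nat_lit 277) (nat_lit 5) (nat_lit 271) (nat_lit 5) (nat_lit 421) (nat_lit 397) (nat_lit 202)))) (XT.nd (nat_lit 78) (nat_lit 836) (nat_lit 0) (XT.lf (nat_lit 0) (nat_lit 54589639129) (nat_lit 380) (nat_lit 20696600325) (nat_lit 456) (nat_lit 52474428530) (nat_lit 265) (nat_lit 5) (nat_lit 270) (nat_lit 5) (nat_lit 271) (nat_lit 5) (nat_lit 422) (nat_lit 397) (nat_lit 201)) (XT.nd (nat_lit 78) (nat_lit 456) (nat_lit 0) (XT.lf (nat_lit 0) (nat_lit 53230478035) (nat_lit 380) (nat_lit 64514990145) (nat_lit 456) (nat_lit 13760297989) (nat_lit 260) (nat_lit 5) (nat_lit 265) (nat_lit 5) (nat_lit 266) (nat_lit 5) (nat_lit 423) (nat_lit 397) (nat_lit 200)) (XT.lf (nat_lit 0) (nat_lit 28077751999) (nat_lit 456) (nat_lit 83007630893) (nat_lit 76) (nat_lit 24293594269) (nat_lit 254) (nat_lit 5) (nat_lit 260) (nat_lit 5) (nat_lit 255) (nat_lit 5) (nat_lit 424) (nat_lit 397) (nat_lit 199))))) (XT.nd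 (nat_lit 234) (nat_lit 988) (nat_lit 0) (XT.nd (nat_lit 78) (nat_lit 760) (nat_lit 0) (XT.lf (nat_lit 0) (nat_lit 51979810888) (nat_lit 380) (nat_lit 21709938383) (nat_lit 456) (nat_lit 65693013350) (nat_lit 249) (nat_lit 5) (nat_lit 254) (nat_lit 5) (nat_lit 255) (nat_lit 5) (nat_lit 425) (nat_lit 397) (nat_lit 198)) (XT.nd (nat_lit 78) (nat_lit 456) (nat_lit 0) (XT.lf (nat_lit 0) (nat_lit 52206184631) (nat_lit 304) (nat_lit 71433770629) (nat_lit 380) (nat_lit 19885053828) (nat_lit 245) (nat_lit 5) (nat_lit 249) (nat_lit 5) (nat_lit 250) (nat_lit 5) (nat_lit 426) (nat_lit 397) (nat_lit 197)) (XT.lf (nat_lit 0) (nat_lit 29533287918) (nat_lit 456) (nat_lit 94732675176) (nat_lit 76) (nat_lit 23544152855) (nat_lit 239) (nat_lit 5) (nat_lit 245) (nat_lit 5) (nat_lit 240) (nat_lit 5) (nat_lit 427) (nat_lit 397) (nat_lit 196)))) (XT.nd (nat_lit 156) (nat_lit 380) (nat_lit 0) (XT.nd (nat_lit 78) (nat_lit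 304) (nat_lit 0) (XT.lf (nat_lit 0) (nat_lit 54451264502) (nat_lit 304) (nat_lit 28757075998) (nat_lit 380) (nat_lit 69029319786) (nat_lit 235) (nat_lit 5) (nat_lit 239) (nat_lit 5) (nat_lit 240) (nat_lit 5) (nat_lit 428) (nat_lit 397) (nat_lit 195)) (XT.lf (nat_lit 0) (nat_lit 56623627978) (nat_lit 304) (nat_lit 85159696093) (nat_lit 380) (nat_lit 15036772419) (nat_lit 231) (nat_lit 5) (nat_lit 235) (nat_lit 5) (nat_lit 236) (nat_lit 5) (nat_lit 429) (nat_lit 397) (nat_lit 194))) (XT.nd (nat_lit 50622) (nat_lit 0) (nat_lit 11248) (XT.lf (nat_lit 0) (nat_lit 42885162604) (nat_lit 380) (nat_lit 102067163835) (nat_lit 76) (nat_lit 16606037332) (nat_lit 226) (nat_lit 5) (nat_lit 231) (nat_lit 5) (nat_lit 227) (nat_lit 5) (nat_lit 430) (nat_lit 397) (nat_lit 193)) (XT.lf (nat_lit 0) (nat_lit 21583696469) (nat_lit 1292) (nat_lit 6399475477) (nat_lit 1292) (nat_lit 6399475477) (nat_lit 374) (nat_lit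 3) (nat_lit 391) (nat_lit 3) (nat_lit 391) (nat_lit 5) (nat_lit 398) (nat_lit 398) (nat_lit 224)))))) (XT.nd (nat_lit 468) (nat_lit 2812) (nat_lit 0) (XT.nd (nat_lit 234) (nat_lit 0) (nat_lit 152) (XT.nd (nat_lit 78) (nat_lit 0) (nat_lit 0) (XT.lf (nat_lit 0) (nat_lit 44712206328) (nat_lit 1216) (nat_lit 25086189414) (nat_lit 1292) (nat_lit 672062620) (nat_lit 375) (nat_lit 5) (nat_lit 391) (nat_lit 5) (nat_lit 392) (nat_lit 5) (nat_lit 399) (nat_lit 398) (nat_lit 223)) (XT.nd (nat_lit 78) (nat_lit 0) (nat_lit 76) (XT.lf (nat_lit 76) (nat_lit 34595260399) (nat_lit 0) (nat_lit 12768036509) (nat_lit 1292) (nat_lit 24866712048) (nat_lit 376) (nat_lit 5) (nat_lit 375) (nat_lit 5) (nat_lit 392) (nat_lit 5) (nat_lit 400) (nat_lit 398) (nat_lit 222)) (XT.lf (nat_lit 76) (nat_lit 23721836533) (nat_lit 0) (nat_lit 27365431256) (nat_lit 1292) (nat_lit 22962059518) (nat_lit 377) (nat_lit 5) (nat_lit 376)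 (nat_lit 5) (nat_lit 393) (nat_lit 5) (nat_lit 401) (nat_lit 398) (nat_lit 221)))) (XT.nd (nat_lit 78) (nat_lit 0) (nat_lit 76) (XT.lf (nat_lit 76) (nat_lit 12785754396) (nat_lit 0) (nat_lit 43168279749) (nat_lit 1292) (nat_lit 19976879522) (nat_lit 378) (nat_lit 5) (nat_lit 377) (nat_lit 5) (nat_lit 394) (nat_lit 5) (nat_lit 402) (nat_lit 398) (nat_lit 220)) (XT.nd (nat_lit 78) (nat_lit 0) (nat_lit 76) (XT.lf (nat_lit 76) (nat_lit 1803409006) (nat_lit 0) (nat_lit 60241104137) (nat_lit 1292) (nat_lit 15832654973) (nat_lit 379) (nat_lit 5) (nat_lit 378) (nat_lit 5) (nat_lit 395) (nat_lit 5) (nat_lit 403) (nat_lit 398) (nat_lit 219)) (XT.lf (nat_lit 0) (nat_lit 69532778434) (nat_lit 1216) (nat_lit 9027620208) (nat_lit 1292) (nat_lit 1327538776) (nat_lit 379) (nat_lit 5) (nat_lit 395) (nat_lit 5) (nat_lit 396) (nat_lit 5) (nat_lit 404) (nat_lit 398) (nat_lit 218))))) (XT.nd (nat_lit 234) (nat_lit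 1900) (nat_lit 0) (XT.nd (nat_lit 78) (nat_lit 1216) (nat_lit 0) (XT.lf (nat_lit 76) (nat_lit 61971230389) (nat_lit 0) (nat_lit 16626808387) (nat_lit 1292) (nat_lit 3365128954) (nat_lit 380) (nat_lit 5) (nat_lit 379) (nat_lit 5) (nat_lit 396) (nat_lit 5) (nat_lit 405) (nat_lit 398) (nat_lit 217)) (XT.nd (nat_lit 78) (nat_lit 0) (nat_lit 76) (XT.lf (nat_lit 0) (nat_lit 4976269624) (nat_lit 1292) (nat_lit 31019706413) (nat_lit 1368) (nat_lit 48112654730) (nat_lit 363) (nat_lit 5) (nat_lit 380) (nat_lit 5) (nat_lit 381) (nat_lit 5) (nat_lit 406) (nat_lit 398) (nat_lit 216)) (XT.lf (nat_lit 0) (nat_lit 14757799570) (nat_lit 1292) (nat_lit 42074351103) (nat_lit 1368) (nat_lit 29495437017) (nat_lit 364) (nat_lit 5) (nat_lit 381) (nat_lit 5) (nat_lit 382) (nat_lit 5) (nat_lit 407) (nat_lit 398) (nat_lit 215)))) (XT.nd (nat_lit 156) (nat_lit 1216) (nat_lit 0) (XT.nd (nat_lit 78) (nat_lit 836) (nat_lit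 0) (XT.lf (nat_lit 0) (nat_lit 26147479477) (nat_lit 1292) (nat_lit 53100772488) (nat_lit 76) (nat_lit 9375668289) (nat_lit 365) (nat_lit 5) (nat_lit 382) (nat_lit 5) (nat_lit 366) (nat_lit 5) (nat_lit 408) (nat_lit 398) (nat_lit 214)) (XT.lf (nat_lit 0) (nat_lit 26801897183) (nat_lit 836) (nat_lit 12572428371) (nat_lit 912) (nat_lit 51622713428) (nat_lit 354) (nat_lit 5) (nat_lit 365) (nat_lit 5) (nat_lit 366) (nat_lit 5) (nat_lit 409) (nat_lit 398) (nat_lit 213))) (XT.nd (nat_lit 78) (nat_lit 608) (nat_lit 0) (XT.lf (nat_lit 0) (nat_lit 18132353949) (nat_lit 608) (nat_lit 36407676548) (nat_lit 684) (nat_lit 38910457652) (nat_lit 346) (nat_lit 5) (nat_lit 354) (nat_lit 5) (nat_lit 355) (nat_lit 5) (nat_lit 410) (nat_lit 398) (nat_lit 212)) (XT.lf (nat_lit 0) (nat_lit 9640521732) (nat_lit 608) (nat_lit 62033748080) (nat_lit 684) (nat_lit 24316032488) (nat_lit 338) (nat_lit 5) (nat_lit 346) (nat_lit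 5) (nat_lit 347) (nat_lit 5) (nat_lit 411) (nat_lit 398) (nat_lit 211))))))) (XT.nd (nat_lit 1014) (nat_lit 2204) (nat_lit 0) (XT.nd (nat_lit 468) (nat_lit 3192) (nat_lit 0) (XT.nd (nat_lit 234) (nat_lit 1520) (nat_lit 0) (XT.nd (nat_lit 78) (nat_lit 684) (nat_lit 0) (XT.lf (nat_lit 0) (nat_lit 1360146012) (nat_lit 532) (nat_lit 89545320747) (nat_lit 608) (nat_lit 7714433030) (nat_lit 331) (nat_lit 5) (nat_lit 338) (nat_lit 5) (nat_lit 339) (nat_lit 5) (nat_lit 412) (nat_lit 398) (nat_lit 210)) (XT.nd (nat_lit 78) (nat_lit 608) (nat_lit 0) (XT.lf (nat_lit 0) (nat_lit 11050600648) (nat_lit 608) (nat_lit 6823486434) (nat_lit 76) (nat_lit 83458398645) (nat_lit 330) (nat_lit 5) (nat_lit 338) (nat_lit 5) (nat_lit 331) (nat_lit 5) (nat_lit 413) (nat_lit 398) (nat_lit 209)) (XT.lf (nat_lit 0) (nat_lit 32019208141) (nat_lit 684) (nat_lit 14905000596) (nat_lit 76) (nat_lit 57211454756) (nat_lit 322) (nat_lit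 5) (nat_lit 331) (nat_lit 5) (nat_lit 323) (nat_lit 5) (nat_lit 414) (nat_lit 398) (nat_lit 208)))) (XT.nd (nat_lit 78) (nat_lit 988) (nat_lit 0) (XT.lf (nat_lit 0) (nat_lit 55384047106) (nat_lit 608) (nat_lit 22708288813) (nat_lit 76) (nat_lit 28946230197) (nat_lit 315) (nat_lit 5) (nat_lit 323) (nat_lit 5) (nat_lit 316) (nat_lit 5) (nat_lit 415) (nat_lit 398) (nat_lit 207)) (XT.nd (nat_lit 78) (nat_lit 456) (nat_lit 0) (XT.lf (nat_lit 0) (nat_lit 79838757602) (nat_lit 532) (nat_lit 1473654156) (nat_lit 608) (nat_lit 28732343598) (nat_lit 308) (nat_lit 5) (nat_lit 315) (nat_lit 5) (nat_lit 316) (nat_lit 5) (nat_lit 416) (nat_lit 398) (nat_lit 206)) (XT.lf (nat_lit 0) (nat_lit 75504513345) (nat_lit 456) (nat_lit 34752999743) (nat_lit 532) (nat_lit 2892131417) (nat_lit 302) (nat_lit 5) (nat_lit 308) (nat_lit 5) (nat_lit 309) (nat_lit 5) (nat_lit 417) (nat_lit 398) (nat_lit 205))))) (XT.nd (nat_lit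 234) (nat_lit 1672) (nat_lit 0) (XT.nd (nat_lit 78) (nat_lit 912) (nat_lit 0) (XT.lf (nat_lit 0) (nat_lit 25238968732) (nat_lit 608) (nat_lit 44942707086) (nat_lit 76) (nat_lit 46176955310) (nat_lit 294) (nat_lit 5) (nat_lit 302) (nat_lit 5) (nat_lit 295) (nat_lit 5) (nat_lit 418) (nat_lit 398) (nat_lit 204)) (XT.nd (nat_lit 78) (nat_lit 456) (nat_lit 0) (XT.lf (nat_lit 0) (nat_lit 56225629746) (nat_lit 532) (nat_lit 51857629967) (nat_lit 76) (nat_lit 11598683734) (nat_lit 288) (nat_lit 5) (nat_lit 295) (nat_lit 5) (nat_lit 289) (nat_lit 5) (nat_lit 419) (nat_lit 398) (nat_lit 203)) (XT.lf (nat_lit 0) (nat_lit 64557313309) (nat_lit 456) (nat_lit 25999810542) (nat_lit 532) (nat_lit 32560432529) (nat_lit 282) (nat_lit 5) (nat_lit 288) (nat_lit 5) (nat_lit 289) (nat_lit 5) (nat_lit 420) (nat_lit 398) (nat_lit 202)))) (XT.nd (nat_lit 156) (nat_lit 760) (nat_lit 0) (XT.nd (nat_lit 78) (nat_lit 456)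 (nat_lit 0) (XT.lf (nat_lit 0) (nat_lit 1610518965) (nat_lit 456) (nat_lit 64900592765) (nat_lit 76) (nat_lit 60162034584) (nat_lit 276) (nat_lit 5) (nat_lit 282) (nat_lit 5) (nat_lit 277) (nat_lit 5) (nat_lit 421) (nat_lit 398) (nat_lit 201)) (XT.lf (nat_lit 0) (nat_lit 38469953264) (nat_lit 532) (nat_lit 71036748431) (nat_lit 76) (nat_lit 20840542587) (nat_lit 270) (nat_lit 5) (nat_lit 277) (nat_lit 5) (nat_lit 271) (nat_lit 5) (nat_lit 422) (nat_lit 398) (nat_lit 200))) (XT.nd (nat_lit 78) (nat_lit 380) (nat_lit 0) (XT.lf (nat_lit 0) (nat_lit 57343637859) (nat_lit 380) (nat_lit 21725372925) (nat_lit 456) (nat_lit 55079136820) (nat_lit 265) (nat_lit 5) (nat_lit 270) (nat_lit 5) (nat_lit 271) (nat_lit 5) (nat_lit 423) (nat_lit 398) (nat_lit 199)) (XT.lf (nat_lit 0) (nat_lit 55916297290) (nat_lit 380) (nat_lit 67734313636) (nat_lit 456) (nat_lit 14429907472) (nat_lit 260) (nat_lit 5) (nat_lit 265)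 (nat_lit 5) (nat_lit 266) (nat_lit 5) (nat_lit 424) (nat_lit 398) (nat_lit 198)))))) (XT.nd (nat_lit 51168) (nat_lit 0) (nat_lit 10944) (XT.nd (nat_lit 234) (nat_lit 1064) (nat_lit 0) (XT.nd (nat_lit 78) (nat_lit 684) (nat_lit 0) (XT.lf (nat_lit 0) (nat_lit 29499119491) (nat_lit 456) (nat_lit 87133604909) (nat_lit 76) (nat_lit 25514677223) (nat_lit 254) (nat_lit 5) (nat_lit 260) (nat_lit 5) (nat_lit 255) (nat_lit 5) (nat_lit 425) (nat_lit 398) (nat_lit 197)) (XT.nd (nat_lit 78) (nat_lit 304) (nat_lit 0) (XT.lf (nat_lit 0) (nat_lit 54602509324) (nat_lit 380) (nat_lit 22788602821) (nat_lit 456) (nat_lit 68960282344) (nat_lit 249) (nat_lit 5) (nat_lit 254) (nat_lit 5) (nat_lit 255) (nat_lit 5) (nat_lit 426) (nat_lit 398) (nat_lit 196)) (XT.lf (nat_lit 0) (nat_lit 54839950127) (nat_lit 304) (nat_lit 74998362742) (nat_lit 380) (nat_lit 20862455878) (nat_lit 245) (nat_lit 5) (nat_lit 249) (nat_lit 5)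 (nat_lit 250) (nat_lit 5) (nat_lit 427) (nat_lit 398) (nat_lit 195)))) (XT.nd (nat_lit 156) (nat_lit 304) (nat_lit 0) (XT.nd (nat_lit 78) (nat_lit 304) (nat_lit 0) (XT.lf (nat_lit 0) (nat_lit 31025978161) (nat_lit 456) (nat_lit 99445795626) (nat_lit 76) (nat_lit 24728367183) (nat_lit 239) (nat_lit 5) (nat_lit 245) (nat_lit 5) (nat_lit 240) (nat_lit 5) (nat_lit 428) (nat_lit 398) (nat_lit 194)) (XT.lf (nat_lit 0) (nat_lit 57196667032) (nat_lit 304) (nat_lit 30187572750) (nat_lit 380) (nat_lit 72464839051) (nat_lit 235) (nat_lit 5) (nat_lit 239) (nat_lit 5) (nat_lit 240) (nat_lit 5) (nat_lit 429) (nat_lit 398) (nat_lit 193))) (XT.nd (nat_lit 50700) (nat_lit 0) (nat_lit 10868) (XT.lf (nat_lit 0) (nat_lit 59477376458) (nat_lit 304) (nat_lit 89410143105) (nat_lit 380) (nat_lit 15773130874) (nat_lit 231) (nat_lit 5) (nat_lit 235) (nat_lit 5) (nat_lit 236) (nat_lit 5) (nat_lit 430) (nat_lit 398) (nat_lit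 192)) (XT.lf (nat_lit 0) (nat_lit 22685239802) (nat_lit 1292) (nat_lit 6707934619) (nat_lit 1292) (nat_lit 6707934619) (nat_lit 374) (nat_lit 3) (nat_lit 391) (nat_lit 3) (nat_lit 391) (nat_lit 5) (nat_lit 399) (nat_lit 399) (nat_lit 222))))) (XT.nd (nat_lit 234) (nat_lit 0) (nat_lit 152) (XT.nd (nat_lit 78) (nat_lit 0) (nat_lit 0) (XT.lf (nat_lit 0) (nat_lit 46990422888) (nat_lit 1216) (nat_lit 26316649249) (nat_lit 1292) (nat_lit 685630955) (nat_lit 375) (nat_lit 5) (nat_lit 391) (nat_lit 5) (nat_lit 392) (nat_lit 5) (nat_lit 400) (nat_lit 399) (nat_lit 221)) (XT.nd (nat_lit 78) (nat_lit 0) (nat_lit 76) (XT.lf (nat_lit 76) (nat_lit 36348189409) (nat_lit 0) (nat_lit 13424072405) (nat_lit 1292) (nat_lit 26068023588) (nat_lit 376) (nat_lit 5) (nat_lit 375) (nat_lit 5) (nat_lit 392) (nat_lit 5) (nat_lit 401) (nat_lit 399) (nat_lit 220)) (XT.lf (nat_lit 76) (nat_lit 24931783868) (nat_lit 0) (nat_lit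 28748772387) (nat_lit 1292) (nat_lit 24070069665) (nat_lit 377) (nat_lit 5) (nat_lit 376) (nat_lit 5) (nat_lit 393) (nat_lit 5) (nat_lit 402) (nat_lit 399) (nat_lit 219)))) (XT.nd (nat_lit 156) (nat_lit 0) (nat_lit 152) (XT.nd (nat_lit 78) (nat_lit 0) (nat_lit 76) (XT.lf (nat_lit 76) (nat_lit 13449488796) (nat_lit 0) (nat_lit 45339415595) (nat_lit 1292) (nat_lit 20937439904) (nat_lit 378) (nat_lit 5) (nat_lit 377) (nat_lit 5) (nat_lit 394) (nat_lit 5) (nat_lit 403) (nat_lit 399) (nat_lit 218)) (XT.lf (nat_lit 76) (nat_lit 1918527254) (nat_lit 0) (nat_lit 63263733500) (nat_lit 1292) (nat_lit 16587700109) (nat_lit 379) (nat_lit 5) (nat_lit 378) (nat_lit 5) (nat_lit 395) (nat_lit 5) (nat_lit 404) (nat_lit 399) (nat_lit 217))) (XT.nd (nat_lit 78) (nat_lit 0) (nat_lit 0) (XT.lf (nat_lit 0) (nat_lit 73043150983) (nat_lit 1216) (nat_lit 9454129693) (nat_lit 1292) (nat_lit 1384041604) (nat_lit 379) (nat_lit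 5) (nat_lit 395) (nat_lit 5) (nat_lit 396) (nat_lit 5) (nat_lit 405) (nat_lit 399) (nat_lit 216)) (XT.lf (nat_lit 76) (nat_lit 65093950497) (nat_lit 0) (nat_lit 17466349709) (nat_lit 1292) (nat_lit 3500055125) (nat_lit 380) (nat_lit 5) (nat_lit 379) (nat_lit 5) (nat_lit 396) (nat_lit 5) (nat_lit 406) (nat_lit 399) (nat_lit 215))))))))
noncomputable def xc121 : XT := (XT.nd (nat_lit 52806) (nat_lit 0) (nat_lit 760) (XT.nd (nat_lit 1014) (nat_lit 4484) (nat_lit 0) (XT.nd (nat_lit 468) (nat_lit 3344) (nat_lit 0) (XT.nd (nat_lit 234) (nat_lit 1900) (nat_lit 0) (XT.nd (nat_lit 78) (nat_lit 0) (nat_lit 76) (XT.lf (nat_lit 0) (nat_lit 5256368682) (nat_lit 1292) (nat_lit 32545583472) (nat_lit 1368) (nat_lit 50511171584) (nat_lit 363) (nat_lit 5) (nat_lit 380) (nat_lit 5) (nat_lit 381) (nat_lit 5) (nat_lit 407) (nat_lit 399) (nat_lit 214)) (XT.nd (nat_lit 78) (nat_lit 0) (nat_lit 76) (XT.lf (nat_lit 0)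 (nat_lit 15525665542) (nat_lit 1292) (nat_lit 44152724982) (nat_lit 1368) (nat_lit 30964677271) (nat_lit 364) (nat_lit 5) (nat_lit 381) (nat_lit 5) (nat_lit 382) (nat_lit 5) (nat_lit 408) (nat_lit 399) (nat_lit 213)) (XT.lf (nat_lit 0) (nat_lit 27483598587) (nat_lit 1292) (nat_lit 55730290286) (nat_lit 76) (nat_lit 9840365040) (nat_lit 365) (nat_lit 5) (nat_lit 382) (nat_lit 5) (nat_lit 366) (nat_lit 5) (nat_lit 409) (nat_lit 399) (nat_lit 212)))) (XT.nd (nat_lit 78) (nat_lit 1216) (nat_lit 0) (XT.lf (nat_lit 0) (nat_lit 28166781319) (nat_lit 836) (nat_lit 13203875122) (nat_lit 912) (nat_lit 54175406051) (nat_lit 354) (nat_lit 5) (nat_lit 365) (nat_lit 5) (nat_lit 366) (nat_lit 5) (nat_lit 410) (nat_lit 399) (nat_lit 211)) (XT.nd (nat_lit 78) (nat_lit 608) (nat_lit 0) (XT.lf (nat_lit 0) (nat_lit 19063881415) (nat_lit 608) (nat_lit 38229663817) (nat_lit 684) (nat_lit 40828671928) (nat_lit 346) (nat_lit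 5) (nat_lit 354) (nat_lit 5) (nat_lit 355) (nat_lit 5) (nat_lit 411) (nat_lit 399) (nat_lit 210)) (XT.lf (nat_lit 0) (nat_lit 10147531122) (nat_lit 608) (nat_lit 65135928333) (nat_lit 684) (nat_lit 25505593675) (nat_lit 338) (nat_lit 5) (nat_lit 346) (nat_lit 5) (nat_lit 347) (nat_lit 5) (nat_lit 412) (nat_lit 399) (nat_lit 209))))) (XT.nd (nat_lit 234) (nat_lit 2128) (nat_lit 0) (XT.nd (nat_lit 78) (nat_lit 684) (nat_lit 0) (XT.lf (nat_lit 0) (nat_lit 1453167452) (nat_lit 532) (nat_lit 94022071586) (nat_lit 608) (nat_lit 8074920772) (nat_lit 331) (nat_lit 5) (nat_lit 338) (nat_lit 5) (nat_lit 339) (nat_lit 5) (nat_lit 413) (nat_lit 399) (nat_lit 208)) (XT.nd (nat_lit 78) (nat_lit 608) (nat_lit 0) (XT.lf (nat_lit 0) (nat_lit 11626694019) (nat_lit 608) (nat_lit 7140368809) (nat_lit 76) (nat_lit 87631340286) (nat_lit 330) (nat_lit 5) (nat_lit 338) (nat_lit 5) (nat_lit 331) (nat_lit 5) (nat_lit 414)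 (nat_lit 399) (nat_lit 207)) (XT.lf (nat_lit 0) (nat_lit 33642845554) (nat_lit 684) (nat_lit 15625983876) (nat_lit 76) (nat_lit 60072936928) (nat_lit 322) (nat_lit 5) (nat_lit 331) (nat_lit 5) (nat_lit 323) (nat_lit 5) (nat_lit 415) (nat_lit 399) (nat_lit 206)))) (XT.nd (nat_lit 156) (nat_lit 1064) (nat_lit 0) (XT.nd (nat_lit 78) (nat_lit 532) (nat_lit 0) (XT.lf (nat_lit 0) (nat_lit 58175089987) (nat_lit 608) (nat_lit 23819494190) (nat_lit 76) (nat_lit 30395255028) (nat_lit 315) (nat_lit 5) (nat_lit 323) (nat_lit 5) (nat_lit 316) (nat_lit 5) (nat_lit 416) (nat_lit 399) (nat_lit 205)) (XT.lf (nat_lit 0) (nat_lit 83854210597) (nat_lit 532) (nat_lit 1544848292) (nat_lit 608) (nat_lit 30147303438) (nat_lit 308) (nat_lit 5) (nat_lit 315) (nat_lit 5) (nat_lit 316) (nat_lit 5) (nat_lit 417) (nat_lit 399) (nat_lit 204))) (XT.nd (nat_lit 78) (nat_lit 608) (nat_lit 0) (XT.lf (nat_lit 0) (nat_lit 79303169550)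 (nat_lit 456) (nat_lit 36487492483) (nat_lit 532) (nat_lit 3015856499) (nat_lit 302) (nat_lit 5) (nat_lit 308) (nat_lit 5) (nat_lit 309) (nat_lit 5) (nat_lit 418) (nat_lit 399) (nat_lit 203)) (XT.lf (nat_lit 0) (nat_lit 26520671809) (nat_lit 608) (nat_lit 47166129093) (nat_lit 76) (nat_lit 48489169144) (nat_lit 294) (nat_lit 5) (nat_lit 302) (nat_lit 5) (nat_lit 295) (nat_lit 5) (nat_lit 419) (nat_lit 399) (nat_lit 202)))))) (XT.nd (nat_lit 546) (nat_lit 1444) (nat_lit 0) (XT.nd (nat_lit 234) (nat_lit 1672) (nat_lit 0) (XT.nd (nat_lit 78) (nat_lit 912) (nat_lit 0) (XT.lf (nat_lit 0) (nat_lit 59055985023) (nat_lit 532) (nat_lit 54426945229) (nat_lit 76) (nat_lit 12182538154) (nat_lit 288) (nat_lit 5) (nat_lit 295) (nat_lit 5) (nat_lit 289) (nat_lit 5) (nat_lit 420) (nat_lit 399) (nat_lit 201)) (XT.nd (nat_lit 78) (nat_lit 456) (nat_lit 0) (XT.lf (nat_lit 0) (nat_lit 67808069690) (nat_lit 456) (nat_lit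 27295295908) (nat_lit 532) (nat_lit 34169517035) (nat_lit 282) (nat_lit 5) (nat_lit 288) (nat_lit 5) (nat_lit 289) (nat_lit 5) (nat_lit 421) (nat_lit 399) (nat_lit 200)) (XT.lf (nat_lit 0) (nat_lit 1708990625) (nat_lit 456) (nat_lit 68122537001) (nat_lit 76) (nat_lit 63174737633) (nat_lit 276) (nat_lit 5) (nat_lit 282) (nat_lit 5) (nat_lit 277) (nat_lit 5) (nat_lit 422) (nat_lit 399) (nat_lit 199)))) (XT.nd (nat_lit 156) (nat_lit 836) (nat_lit 0) (XT.nd (nat_lit 78) (nat_lit 380) (nat_lit 0) (XT.lf (nat_lit 0) (nat_lit 40410806819) (nat_lit 532) (nat_lit 74565692174) (nat_lit 76) (nat_lit 21887586826) (nat_lit 270) (nat_lit 5) (nat_lit 277) (nat_lit 5) (nat_lit 271) (nat_lit 5) (nat_lit 423) (nat_lit 399) (nat_lit 198)) (XT.lf (nat_lit 0) (nat_lit 60233057187) (nat_lit 380) (nat_lit 22806147315) (nat_lit 456) (nat_lit 57815848185) (nat_lit 265) (nat_lit 5) (nat_lit 270) (nat_lit 5) (nat_lit 271)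 (nat_lit 5) (nat_lit 424) (nat_lit 399) (nat_lit 197))) (XT.nd (nat_lit 78) (nat_lit 456) (nat_lit 0) (XT.lf (nat_lit 0) (nat_lit 58734148755) (nat_lit 380) (nat_lit 71115200731) (nat_lit 456) (nat_lit 15134708591) (nat_lit 260) (nat_lit 5) (nat_lit 265) (nat_lit 5) (nat_lit 266) (nat_lit 5) (nat_lit 425) (nat_lit 399) (nat_lit 196)) (XT.lf (nat_lit 0) (nat_lit 30989930243) (nat_lit 456) (nat_lit 91468146807) (nat_lit 76) (nat_lit 26796219012) (nat_lit 254) (nat_lit 5) (nat_lit 260) (nat_lit 5) (nat_lit 255) (nat_lit 5) (nat_lit 426) (nat_lit 399) (nat_lit 195))))) (XT.nd (nat_lit 234) (nat_lit 304) (nat_lit 0) (XT.nd (nat_lit 78) (nat_lit 760) (nat_lit 0) (XT.lf (nat_lit 0) (nat_lit 57354138547) (nat_lit 380) (nat_lit 23921835701) (nat_lit 456) (nat_lit 72392530771) (nat_lit 249) (nat_lit 5) (nat_lit 254) (nat_lit 5) (nat_lit 255) (nat_lit 5) (nat_lit 427) (nat_lit 399) (nat_lit 194)) (XT.nd (nat_lit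 78) (nat_lit 456) (nat_lit 0) (XT.lf (nat_lit 0) (nat_lit 57603223157) (nat_lit 304) (nat_lit 78741844218) (nat_lit 380) (nat_lit 21890294643) (nat_lit 245) (nat_lit 5) (nat_lit 249) (nat_lit 5) (nat_lit 250) (nat_lit 5) (nat_lit 428) (nat_lit 399) (nat_lit 193)) (XT.lf (nat_lit 0) (nat_lit 32591812985) (nat_lit 456) (nat_lit 104396758144) (nat_lit 76) (nat_lit 25971140813) (nat_lit 239) (nat_lit 5) (nat_lit 245) (nat_lit 5) (nat_lit 240) (nat_lit 5) (nat_lit 429) (nat_lit 399) (nat_lit 192)))) (XT.nd (nat_lit 50856) (nat_lit 0) (nat_lit 10640) (XT.nd (nat_lit 50778) (nat_lit 0) (nat_lit 10564) (XT.lf (nat_lit 0) (nat_lit 60077216306) (nat_lit 304) (nat_lit 31690278329) (nat_lit 380) (nat_lit 76073616854) (nat_lit 235) (nat_lit 5) (nat_lit 239) (nat_lit 5) (nat_lit 240) (nat_lit 5) (nat_lit 430) (nat_lit 399) (nat_lit 191)) (XT.lf (nat_lit 0) (nat_lit 23839781619) (nat_lit 1292) (nat_lit 7032887239)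 (nat_lit 1292) (nat_lit 7032887239) (nat_lit 374) (nat_lit 3) (nat_lit 391) (nat_lit 3) (nat_lit 391) (nat_lit 5) (nat_lit 400) (nat_lit 400) (nat_lit 220))) (XT.nd (nat_lit 78) (nat_lit 0) (nat_lit 0) (XT.lf (nat_lit 0) (nat_lit 49378589151) (nat_lit 1216) (nat_lit 27610849390) (nat_lit 1292) (nat_lit 701740353) (nat_lit 375) (nat_lit 5) (nat_lit 391) (nat_lit 5) (nat_lit 392) (nat_lit 5) (nat_lit 401) (nat_lit 400) (nat_lit 219)) (XT.lf (nat_lit 76) (nat_lit 38186611115) (nat_lit 0) (nat_lit 14111270647) (nat_lit 1292) (nat_lit 27333307705) (nat_lit 376) (nat_lit 5) (nat_lit 375) (nat_lit 5) (nat_lit 392) (nat_lit 5) (nat_lit 402) (nat_lit 400) (nat_lit 218))))))) (XT.nd (nat_lit 1014) (nat_lit 6460) (nat_lit 0) (XT.nd (nat_lit 468) (nat_lit 2508) (nat_lit 0) (XT.nd (nat_lit 234) (nat_lit 988) (nat_lit 0) (XT.nd (nat_lit 78) (nat_lit 0) (nat_lit 76) (XT.lf (nat_lit 76) (nat_lit 26200010710) (nat_lit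 0) (nat_lit 30199879549) (nat_lit 1292) (nat_lit 25237207770) (nat_lit 377) (nat_lit 5) (nat_lit 376) (nat_lit 5) (nat_lit 393) (nat_lit 5) (nat_lit 403) (nat_lit 400) (nat_lit 217)) (XT.nd (nat_lit 78) (nat_lit 0) (nat_lit 76) (XT.lf (nat_lit 76) (nat_lit 14144137094) (nat_lit 0) (nat_lit 47617925476) (nat_lit 1292) (nat_lit 21949587551) (nat_lit 378) (nat_lit 5) (nat_lit 377) (nat_lit 5) (nat_lit 394) (nat_lit 5) (nat_lit 404) (nat_lit 400) (nat_lit 216)) (XT.lf (nat_lit 76) (nat_lit 2037082006) (nat_lit 0) (nat_lit 66436511246) (nat_lit 1292) (nat_lit 17383899072) (nat_lit 379) (nat_lit 5) (nat_lit 378) (nat_lit 5) (nat_lit 395) (nat_lit 5) (nat_lit 405) (nat_lit 400) (nat_lit 215)))) (XT.nd (nat_lit 78) (nat_lit 1216) (nat_lit 0) (XT.lf (nat_lit 0) (nat_lit 76725905926) (nat_lit 1216) (nat_lit 9904276970) (nat_lit 1292) (nat_lit 1444287575) (nat_lit 379) (nat_lit 5) (nat_lit 395) (nat_lit 5)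 (nat_lit 396) (nat_lit 5) (nat_lit 406) (nat_lit 400) (nat_lit 214)) (XT.nd (nat_lit 78) (nat_lit 1216) (nat_lit 0) (XT.lf (nat_lit 76) (nat_lit 68370560574) (nat_lit 0) (nat_lit 18347105655) (nat_lit 1292) (nat_lit 3644826339) (nat_lit 380) (nat_lit 5) (nat_lit 379) (nat_lit 5) (nat_lit 396) (nat_lit 5) (nat_lit 407) (nat_lit 400) (nat_lit 213)) (XT.lf (nat_lit 0) (nat_lit 5547564057) (nat_lit 1292) (nat_lit 34150088713) (nat_lit 1368) (nat_lit 53030275848) (nat_lit 363) (nat_lit 5) (nat_lit 380) (nat_lit 5) (nat_lit 381) (nat_lit 5) (nat_lit 408) (nat_lit 400) (nat_lit 212))))) (XT.nd (nat_lit 234) (nat_lit 1824) (nat_lit 0) (XT.nd (nat_lit 78) (nat_lit 760) (nat_lit 0) (XT.lf (nat_lit 0) (nat_lit 16329137929) (nat_lit 1292) (nat_lit 46337373769) (nat_lit 1368) (nat_lit 32507893812) (nat_lit 364) (nat_lit 5) (nat_lit 381) (nat_lit 5) (nat_lit 382) (nat_lit 5) (nat_lit 409) (nat_lit 400) (nat_lit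 211)) (XT.nd (nat_lit 78) (nat_lit 836) (nat_lit 0) (XT.lf (nat_lit 0) (nat_lit 28883851202) (nat_lit 1292) (nat_lit 58493656659) (nat_lit 76) (nat_lit 10328676567) (nat_lit 365) (nat_lit 5) (nat_lit 382) (nat_lit 5) (nat_lit 366) (nat_lit 5) (nat_lit 410) (nat_lit 400) (nat_lit 210)) (XT.lf (nat_lit 0) (nat_lit 29597604990) (nat_lit 836) (nat_lit 13866631538) (nat_lit 912) (nat_lit 56858377671) (nat_lit 354) (nat_lit 5) (nat_lit 365) (nat_lit 5) (nat_lit 366) (nat_lit 5) (nat_lit 411) (nat_lit 400) (nat_lit 209)))) (XT.nd (nat_lit 156) (nat_lit 608) (nat_lit 0) (XT.nd (nat_lit 78) (nat_lit 608) (nat_lit 0) (XT.lf (nat_lit 0) (nat_lit 20039669381) (nat_lit 608) (nat_lit 40142601376) (nat_lit 684) (nat_lit 42845335813) (nat_lit 346) (nat_lit 5) (nat_lit 354) (nat_lit 5) (nat_lit 355) (nat_lit 5) (nat_lit 412) (nat_lit 400) (nat_lit 208)) (XT.lf (nat_lit 0) (nat_lit 10677568271) (nat_lit 608) (nat_lit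 68393171778) (nat_lit 684) (nat_lit 26757072509) (nat_lit 338) (nat_lit 5) (nat_lit 346) (nat_lit 5) (nat_lit 347) (nat_lit 5) (nat_lit 413) (nat_lit 400) (nat_lit 207))) (XT.nd (nat_lit 78) (nat_lit 76) (nat_lit 0) (XT.lf (nat_lit 0) (nat_lit 1548514388) (nat_lit 532) (nat_lit 98722707864) (nat_lit 608) (nat_lit 8455778911) (nat_lit 331) (nat_lit 5) (nat_lit 338) (nat_lit 5) (nat_lit 339) (nat_lit 5) (nat_lit 414) (nat_lit 400) (nat_lit 206)) (XT.lf (nat_lit 0) (nat_lit 12229401362) (nat_lit 608) (nat_lit 7475353737) (nat_lit 76) (nat_lit 92012926991) (nat_lit 330) (nat_lit 5) (nat_lit 338) (nat_lit 5) (nat_lit 331) (nat_lit 5) (nat_lit 415) (nat_lit 400) (nat_lit 205)))))) (XT.nd (nat_lit 546) (nat_lit 2812) (nat_lit 0) (XT.nd (nat_lit 234) (nat_lit 1976) (nat_lit 0) (XT.nd (nat_lit 78) (nat_lit 1064) (nat_lit 0) (XT.lf (nat_lit 0) (nat_lit 35345556545) (nat_lit 684) (nat_lit 16385272412) (nat_lit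 76) (nat_lit 63077408658) (nat_lit 322) (nat_lit 5) (nat_lit 331) (nat_lit 5) (nat_lit 323) (nat_lit 5) (nat_lit 416) (nat_lit 400) (nat_lit 204)) (XT.nd (nat_lit 78) (nat_lit 532) (nat_lit 0) (XT.lf (nat_lit 0) (nat_lit 61103654488) (nat_lit 608) (nat_lit 24988510566) (nat_lit 76) (nat_lit 31916571812) (nat_lit 315) (nat_lit 5) (nat_lit 323) (nat_lit 5) (nat_lit 316) (nat_lit 5) (nat_lit 417) (nat_lit 400) (nat_lit 203)) (XT.lf (nat_lit 0) (nat_lit 88068250030) (nat_lit 532) (nat_lit 1619833498) (nat_lit 608) (nat_lit 31635024765) (nat_lit 308) (nat_lit 5) (nat_lit 315) (nat_lit 5) (nat_lit 316) (nat_lit 5) (nat_lit 418) (nat_lit 400) (nat_lit 202)))) (XT.nd (nat_lit 156) (nat_lit 912) (nat_lit 0) (XT.nd (nat_lit 78) (nat_lit 608) (nat_lit 0) (XT.lf (nat_lit 0) (nat_lit 83289580216) (nat_lit 456) (nat_lit 38309003390) (nat_lit 532) (nat_lit 3147709198) (nat_lit 302) (nat_lit 5) (nat_lit 308) (nat_lit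 5) (nat_lit 309) (nat_lit 5) (nat_lit 419) (nat_lit 400) (nat_lit 201)) (XT.lf (nat_lit 0) (nat_lit 27864623441) (nat_lit 608) (nat_lit 49502926842) (nat_lit 76) (nat_lit 50916680724) (nat_lit 294) (nat_lit 5) (nat_lit 302) (nat_lit 5) (nat_lit 295) (nat_lit 5) (nat_lit 420) (nat_lit 400) (nat_lit 200))) (XT.nd (nat_lit 78) (nat_lit 456) (nat_lit 0) (XT.lf (nat_lit 0) (nat_lit 62026084764) (nat_lit 532) (nat_lit 57126917219) (nat_lit 76) (nat_lit 12795220828) (nat_lit 288) (nat_lit 5) (nat_lit 295) (nat_lit 5) (nat_lit 289) (nat_lit 5) (nat_lit 421) (nat_lit 400) (nat_lit 199)) (XT.lf (nat_lit 0) (nat_lit 71219235728) (nat_lit 456) (nat_lit 28655974389) (nat_lit 532) (nat_lit 35860816360) (nat_lit 282) (nat_lit 5) (nat_lit 288) (nat_lit 5) (nat_lit 289) (nat_lit 5) (nat_lit 422) (nat_lit 400) (nat_lit 198))))) (XT.nd (nat_lit 234) (nat_lit 1520) (nat_lit 0) (XT.nd (nat_lit 78) (nat_lit 836) (nat_lit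 0) (XT.lf (nat_lit 0) (nat_lit 1810717446) (nat_lit 456) (nat_lit 71507724709) (nat_lit 76) (nat_lit 66337648048) (nat_lit 276) (nat_lit 5) (nat_lit 282) (nat_lit 5) (nat_lit 277) (nat_lit 5) (nat_lit 423) (nat_lit 400) (nat_lit 197)) (XT.nd (nat_lit 78) (nat_lit 380) (nat_lit 0) (XT.lf (nat_lit 0) (nat_lit 42447089465) (nat_lit 532) (nat_lit 78273211542) (nat_lit 76) (nat_lit 22986516835) (nat_lit 270) (nat_lit 5) (nat_lit 277) (nat_lit 5) (nat_lit 271) (nat_lit 5) (nat_lit 424) (nat_lit 400) (nat_lit 196)) (XT.lf (nat_lit 0) (nat_lit 63264880056) (nat_lit 380) (nat_lit 23941471229) (nat_lit 456) (nat_lit 60690998440) (nat_lit 265) (nat_lit 5) (nat_lit 270) (nat_lit 5) (nat_lit 271) (nat_lit 5) (nat_lit 425) (nat_lit 400) (nat_lit 195)))) (XT.nd (nat_lit 156) (nat_lit 684) (nat_lit 0) (XT.nd (nat_lit 78) (nat_lit 456) (nat_lit 0) (XT.lf (nat_lit 0) (nat_lit 61690844040) (nat_lit 380) (nat_lit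 74665674067) (nat_lit 456) (nat_lit 15876301840) (nat_lit 260) (nat_lit 5) (nat_lit 265) (nat_lit 5) (nat_lit 266) (nat_lit 5) (nat_lit 426) (nat_lit 400) (nat_lit 194)) (XT.lf (nat_lit 0) (nat_lit 32553807505) (nat_lit 456) (nat_lit 96021474013) (nat_lit 76) (nat_lit 28141297924) (nat_lit 254) (nat_lit 5) (nat_lit 260) (nat_lit 5) (nat_lit 255) (nat_lit 5) (nat_lit 427) (nat_lit 400) (nat_lit 193))) (XT.nd (nat_lit 78) (nat_lit 304) (nat_lit 0) (XT.lf (nat_lit 0) (nat_lit 60241350016) (nat_lit 380) (nat_lit 25112306387) (nat_lit 456) (nat_lit 75997857364) (nat_lit 249) (nat_lit 5) (nat_lit 254) (nat_lit 5) (nat_lit 255) (nat_lit 5) (nat_lit 428) (nat_lit 400) (nat_lit 192)) (XT.lf (nat_lit 0) (nat_lit 60502681842) (nat_lit 304) (nat_lit 82673098188) (nat_lit 380) (nat_lit 22970946310) (nat_lit 245) (nat_lit 5) (nat_lit 249) (nat_lit 5) (nat_lit 250) (nat_lit 5) (nat_lit 429) (nat_lit 400) (nat_lit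 191))))))))
noncomputable def xc122 : XT := (XT.nd (nat_lit 2106) (nat_lit 836) (nat_lit 0) (XT.nd (nat_lit 1014) (nat_lit 6536) (nat_lit 0) (XT.nd (nat_lit 468) (nat_lit 2128) (nat_lit 0) (XT.nd (nat_lit 234) (nat_lit 0) (nat_lit 152) (XT.nd (nat_lit 78) (nat_lit 0) (nat_lit 76) (XT.lf (nat_lit 0) (nat_lit 25050165101) (nat_lit 1292) (nat_lit 7375058484) (nat_lit 1292) (nat_lit 7375058484) (nat_lit 374) (nat_lit 3) (nat_lit 391) (nat_lit 3) (nat_lit 391) (nat_lit 5) (nat_lit 401) (nat_lit 401) (nat_lit 218)) (XT.nd (nat_lit 78) (nat_lit 0) (nat_lit 0) (XT.lf (nat_lit 0) (nat_lit 51882570871) (nat_lit 1216) (nat_lit 28971770706) (nat_lit 1292) (nat_lit 720344694) (nat_lit 375) (nat_lit 5) (nat_lit 391) (nat_lit 5) (nat_lit 392) (nat_lit 5) (nat_lit 402) (nat_lit 401) (nat_lit 217)) (XT.lf (nat_lit 76) (nat_lit 40115000388) (nat_lit 0) (nat_lit 14831341773) (nat_lit 1292) (nat_lit 28665399790) (nat_lit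 376) (nat_lit 5) (nat_lit 375) (nat_lit 5) (nat_lit 392) (nat_lit 5) (nat_lit 403) (nat_lit 401) (nat_lit 216)))) (XT.nd (nat_lit 78) (nat_lit 0) (nat_lit 76) (XT.lf (nat_lit 76) (nat_lit 27529637232) (nat_lit 0) (nat_lit 31722271298) (nat_lit 1292) (nat_lit 26466083690) (nat_lit 377) (nat_lit 5) (nat_lit 376) (nat_lit 5) (nat_lit 393) (nat_lit 5) (nat_lit 404) (nat_lit 401) (nat_lit 215)) (XT.nd (nat_lit 78) (nat_lit 0) (nat_lit 76) (XT.lf (nat_lit 76) (nat_lit 14871456292) (nat_lit 0) (nat_lit 50009288054) (nat_lit 1292) (nat_lit 23015570921) (nat_lit 378) (nat_lit 5) (nat_lit 377) (nat_lit 5) (nat_lit 394) (nat_lit 5) (nat_lit 405) (nat_lit 401) (nat_lit 214)) (XT.lf (nat_lit 76) (nat_lit 2159460721) (nat_lit 0) (nat_lit 69767036192) (nat_lit 1292) (nat_lit 18222993306) (nat_lit 379) (nat_lit 5) (nat_lit 378) (nat_lit 5) (nat_lit 395) (nat_lit 5) (nat_lit 406) (nat_lit 401) (nat_lit 213)))))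 (XT.nd (nat_lit 234) (nat_lit 1292) (nat_lit 0) (XT.nd (nat_lit 78) (nat_lit 1216) (nat_lit 0) (XT.lf (nat_lit 0) (nat_lit 80589953962) (nat_lit 1216) (nat_lit 10379028953) (nat_lit 1292) (nat_lit 1508378499) (nat_lit 379) (nat_lit 5) (nat_lit 395) (nat_lit 5) (nat_lit 396) (nat_lit 5) (nat_lit 407) (nat_lit 401) (nat_lit 212)) (XT.nd (nat_lit 78) (nat_lit 1216) (nat_lit 0) (XT.lf (nat_lit 76) (nat_lit 71808963933) (nat_lit 0) (nat_lit 19271207841) (nat_lit 1292) (nat_lit 3799646755) (nat_lit 380) (nat_lit 5) (nat_lit 379) (nat_lit 5) (nat_lit 396) (nat_lit 5) (nat_lit 408) (nat_lit 401) (nat_lit 211)) (XT.lf (nat_lit 0) (nat_lit 5850680982) (nat_lit 1292) (nat_lit 35836936519) (nat_lit 1368) (nat_lit 55675935386) (nat_lit 363) (nat_lit 5) (nat_lit 380) (nat_lit 5) (nat_lit 381) (nat_lit 5) (nat_lit 409) (nat_lit 401) (nat_lit 210)))) (XT.nd (nat_lit 156) (nat_lit 1368) (nat_lit 0) (XT.nd (nat_lit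 78) (nat_lit 0) (nat_lit 76) (XT.lf (nat_lit 0) (nat_lit 17170256150) (nat_lit 1292) (nat_lit 48633392152) (nat_lit 1368) (nat_lit 34128737644) (nat_lit 364) (nat_lit 5) (nat_lit 381) (nat_lit 5) (nat_lit 382) (nat_lit 5) (nat_lit 410) (nat_lit 401) (nat_lit 209)) (XT.lf (nat_lit 0) (nat_lit 30351692456) (nat_lit 1292) (nat_lit 61397343445) (nat_lit 76) (nat_lit 10841748287) (nat_lit 365) (nat_lit 5) (nat_lit 382) (nat_lit 5) (nat_lit 366) (nat_lit 5) (nat_lit 411) (nat_lit 401) (nat_lit 208))) (XT.nd (nat_lit 78) (nat_lit 608) (nat_lit 0) (XT.lf (nat_lit 0) (nat_lit 31097879439) (nat_lit 836) (nat_lit 14562287524) (nat_lit 912) (nat_lit 59677896388) (nat_lit 354) (nat_lit 5) (nat_lit 365) (nat_lit 5) (nat_lit 366) (nat_lit 5) (nat_lit 412) (nat_lit 401) (nat_lit 207)) (XT.lf (nat_lit 0) (nat_lit 21062146178) (nat_lit 608) (nat_lit 42151050601) (nat_lit 684) (nat_lit 44965135745) (nat_lit 346)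 (nat_lit 5) (nat_lit 354) (nat_lit 5) (nat_lit 355) (nat_lit 5) (nat_lit 413) (nat_lit 401) (nat_lit 206)))))) (XT.nd (nat_lit 546) (nat_lit 3192) (nat_lit 0) (XT.nd (nat_lit 234) (nat_lit 2128) (nat_lit 0) (XT.nd (nat_lit 78) (nat_lit 608) (nat_lit 0) (XT.lf (nat_lit 0) (nat_lit 11232000510) (nat_lit 608) (nat_lit 71813235835) (nat_lit 684) (nat_lit 28073338062) (nat_lit 338) (nat_lit 5) (nat_lit 346) (nat_lit 5) (nat_lit 347) (nat_lit 5) (nat_lit 414) (nat_lit 401) (nat_lit 205)) (XT.nd (nat_lit 78) (nat_lit 76) (nat_lit 0) (XT.lf (nat_lit 0) (nat_lit 1646519302) (nat_lit 532) (nat_lit 103658419402) (nat_lit 608) (nat_lit 8857807857) (nat_lit 331) (nat_lit 5) (nat_lit 338) (nat_lit 5) (nat_lit 339) (nat_lit 5) (nat_lit 415) (nat_lit 401) (nat_lit 204)) (XT.lf (nat_lit 0) (nat_lit 12860257047) (nat_lit 608) (nat_lit 7829136379) (nat_lit 76) (nat_lit 96613591201) (nat_lit 330) (nat_lit 5) (nat_lit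 338) (nat_lit 5) (nat_lit 331) (nat_lit 5) (nat_lit 416) (nat_lit 401) (nat_lit 203)))) (XT.nd (nat_lit 156) (nat_lit 988) (nat_lit 0) (XT.nd (nat_lit 78) (nat_lit 532) (nat_lit 0) (XT.lf (nat_lit 0) (nat_lit 37131490801) (nat_lit 684) (nat_lit 17184571717) (nat_lit 76) (nat_lit 66232027284) (nat_lit 322) (nat_lit 5) (nat_lit 331) (nat_lit 5) (nat_lit 323) (nat_lit 5) (nat_lit 417) (nat_lit 401) (nat_lit 202)) (XT.lf (nat_lit 0) (nat_lit 64176805467) (nat_lit 608) (nat_lit 26218019238) (nat_lit 76) (nat_lit 33513809956) (nat_lit 315) (nat_lit 5) (nat_lit 323) (nat_lit 5) (nat_lit 316) (nat_lit 5) (nat_lit 418) (nat_lit 401) (nat_lit 201))) (XT.nd (nat_lit 78) (nat_lit 456) (nat_lit 0) (XT.lf (nat_lit 0) (nat_lit 92491008475) (nat_lit 532) (nat_lit 1698777818) (nat_lit 608) (nat_lit 33198958457) (nat_lit 308) (nat_lit 5) (nat_lit 315) (nat_lit 5) (nat_lit 316) (nat_lit 5) (nat_lit 419) (nat_lit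 401) (nat_lit 200)) (XT.lf (nat_lit 0) (nat_lit 87473335589) (nat_lit 456) (nat_lit 40221856084) (nat_lit 532) (nat_lit 3287915405) (nat_lit 302) (nat_lit 5) (nat_lit 308) (nat_lit 5) (nat_lit 309) (nat_lit 5) (nat_lit 420) (nat_lit 401) (nat_lit 199))))) (XT.nd (nat_lit 234) (nat_lit 1672) (nat_lit 0) (XT.nd (nat_lit 78) (nat_lit 912) (nat_lit 0) (XT.lf (nat_lit 0) (nat_lit 29274106804) (nat_lit 608) (nat_lit 51958564154) (nat_lit 76) (nat_lit 53465284033) (nat_lit 294) (nat_lit 5) (nat_lit 302) (nat_lit 5) (nat_lit 295) (nat_lit 5) (nat_lit 421) (nat_lit 401) (nat_lit 198)) (XT.nd (nat_lit 78) (nat_lit 456) (nat_lit 0) (XT.lf (nat_lit 0) (nat_lit 65143081057) (nat_lit 532) (nat_lit 59963875079) (nat_lit 76) (nat_lit 13438207054) (nat_lit 288) (nat_lit 5) (nat_lit 295) (nat_lit 5) (nat_lit 289) (nat_lit 5) (nat_lit 422) (nat_lit 401) (nat_lit 197)) (XT.lf (nat_lit 0) (nat_lit 74799029762) (nat_lit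 456) (nat_lit 30085066702) (nat_lit 532) (nat_lit 37638277562) (nat_lit 282) (nat_lit 5) (nat_lit 288) (nat_lit 5) (nat_lit 289) (nat_lit 5) (nat_lit 423) (nat_lit 401) (nat_lit 196)))) (XT.nd (nat_lit 156) (nat_lit 760) (nat_lit 0) (XT.nd (nat_lit 78) (nat_lit 456) (nat_lit 0) (XT.lf (nat_lit 0) (nat_lit 1916017300) (nat_lit 456) (nat_lit 75064118527) (nat_lit 76) (nat_lit 69658315968) (nat_lit 276) (nat_lit 5) (nat_lit 282) (nat_lit 5) (nat_lit 277) (nat_lit 5) (nat_lit 424) (nat_lit 401) (nat_lit 195)) (XT.lf (nat_lit 0) (nat_lit 44583722673) (nat_lit 532) (nat_lit 82168037433) (nat_lit 76) (nat_lit 24139970266) (nat_lit 270) (nat_lit 5) (nat_lit 277) (nat_lit 5) (nat_lit 271) (nat_lit 5) (nat_lit 425) (nat_lit 401) (nat_lit 194))) (XT.nd (nat_lit 78) (nat_lit 380) (nat_lit 0) (XT.lf (nat_lit 0) (nat_lit 66446418853) (nat_lit 380) (nat_lit 25134024653) (nat_lit 456) (nat_lit 63711360467) (nat_lit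 265) (nat_lit 5) (nat_lit 270) (nat_lit 5) (nat_lit 271) (nat_lit 5) (nat_lit 426) (nat_lit 401) (nat_lit 193)) (XT.lf (nat_lit 0) (nat_lit 64793515808) (nat_lit 380) (nat_lit 78394162578) (nat_lit 456) (nat_lit 16656382527) (nat_lit 260) (nat_lit 5) (nat_lit 265) (nat_lit 5) (nat_lit 266) (nat_lit 5) (nat_lit 427) (nat_lit 401) (nat_lit 192))))))) (XT.nd (nat_lit 51948) (nat_lit 0) (nat_lit 1596) (XT.nd (nat_lit 51402) (nat_lit 0) (nat_lit 8664) (XT.nd (nat_lit 51168) (nat_lit 0) (nat_lit 9576) (XT.nd (nat_lit 78) (nat_lit 380) (nat_lit 0) (XT.lf (nat_lit 0) (nat_lit 34194541645) (nat_lit 456) (nat_lit 100804334440) (nat_lit 76) (nat_lit 29553141016) (nat_lit 254) (nat_lit 5) (nat_lit 260) (nat_lit 5) (nat_lit 255) (nat_lit 5) (nat_lit 428) (nat_lit 401) (nat_lit 191)) (XT.nd (nat_lit 51012) (nat_lit 0) (nat_lit 9500) (XT.lf (nat_lit 0) (nat_lit 63271108711) (nat_lit 380) (nat_lit 26362823204)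 (nat_lit 456) (nat_lit 79784779760) (nat_lit 249) (nat_lit 5) (nat_lit 254) (nat_lit 5) (nat_lit 255) (nat_lit 5) (nat_lit 429) (nat_lit 401) (nat_lit 190)) (XT.lf (nat_lit 0) (nat_lit 26319357620) (nat_lit 1292) (nat_lit 7735219012) (nat_lit 1292) (nat_lit 7735219012) (nat_lit 374) (nat_lit 3) (nat_lit 391) (nat_lit 3) (nat_lit 391) (nat_lit 5) (nat_lit 402) (nat_lit 402) (nat_lit 216)))) (XT.nd (nat_lit 78) (nat_lit 0) (nat_lit 0) (XT.lf (nat_lit 0) (nat_lit 54508492849) (nat_lit 1216) (nat_lit 30402562276) (nat_lit 1292) (nat_lit 741411656) (nat_lit 375) (nat_lit 5) (nat_lit 391) (nat_lit 5) (nat_lit 392) (nat_lit 5) (nat_lit 403) (nat_lit 402) (nat_lit 215)) (XT.nd (nat_lit 78) (nat_lit 0) (nat_lit 76) (XT.lf (nat_lit 76) (nat_lit 42138037226) (nat_lit 0) (nat_lit 15586067676) (nat_lit 1292) (nat_lit 30067310777) (nat_lit 376) (nat_lit 5) (nat_lit 375) (nat_lit 5) (nat_lit 392) (nat_lit 5)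 (nat_lit 404) (nat_lit 402) (nat_lit 214)) (XT.lf (nat_lit 76) (nat_lit 28923920441) (nat_lit 0) (nat_lit 33319630007) (nat_lit 1292) (nat_lit 27759469988) (nat_lit 377) (nat_lit 5) (nat_lit 376) (nat_lit 5) (nat_lit 393) (nat_lit 5) (nat_lit 405) (nat_lit 402) (nat_lit 213))))) (XT.nd (nat_lit 234) (nat_lit 1064) (nat_lit 0) (XT.nd (nat_lit 78) (nat_lit 0) (nat_lit 76) (XT.lf (nat_lit 76) (nat_lit 15633271595) (nat_lit 0) (nat_lit 52519245704) (nat_lit 1292) (nat_lit 24137781660) (nat_lit 378) (nat_lit 5) (nat_lit 377) (nat_lit 5) (nat_lit 394) (nat_lit 5) (nat_lit 406) (nat_lit 402) (nat_lit 212)) (XT.nd (nat_lit 78) (nat_lit 0) (nat_lit 76) (XT.lf (nat_lit 76) (nat_lit 2286050188) (nat_lit 0) (nat_lit 73263278600) (nat_lit 1292) (nat_lit 19106840731) (nat_lit 379) (nat_lit 5) (nat_lit 378) (nat_lit 5) (nat_lit 395) (nat_lit 5) (nat_lit 407) (nat_lit 402) (nat_lit 211)) (XT.lf (nat_lit 0) (nat_lit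 84644624212) (nat_lit 1216) (nat_lit 10879420885) (nat_lit 1292) (nat_lit 1576429210) (nat_lit 379) (nat_lit 5) (nat_lit 395) (nat_lit 5) (nat_lit 396) (nat_lit 5) (nat_lit 408) (nat_lit 402) (nat_lit 210)))) (XT.nd (nat_lit 156) (nat_lit 0) (nat_lit 76) (XT.nd (nat_lit 78) (nat_lit 1216) (nat_lit 0) (XT.lf (nat_lit 76) (nat_lit 75417439641) (nat_lit 0) (nat_lit 20240887873) (nat_lit 1292) (nat_lit 3964757527) (nat_lit 380) (nat_lit 5) (nat_lit 379) (nat_lit 5) (nat_lit 396) (nat_lit 5) (nat_lit 409) (nat_lit 402) (nat_lit 209)) (XT.lf (nat_lit 0) (nat_lit 6166560810) (nat_lit 1292) (nat_lit 37610047174) (nat_lit 1368) (nat_lit 58454422173) (nat_lit 363) (nat_lit 5) (nat_lit 380) (nat_lit 5) (nat_lit 381) (nat_lit 5) (nat_lit 410) (nat_lit 402) (nat_lit 208))) (XT.nd (nat_lit 78) (nat_lit 0) (nat_lit 76) (XT.lf (nat_lit 0) (nat_lit 18051137506) (nat_lit 1292) (nat_lit 51046149918) (nat_lit 1368)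 (nat_lit 35831046763) (nat_lit 364) (nat_lit 5) (nat_lit 381) (nat_lit 5) (nat_lit 382) (nat_lit 5) (nat_lit 411) (nat_lit 402) (nat_lit 207)) (XT.lf (nat_lit 0) (nat_lit 31890727142) (nat_lit 1292) (nat_lit 64448166583) (nat_lit 76) (nat_lit 11380786171) (nat_lit 365) (nat_lit 5) (nat_lit 382) (nat_lit 5) (nat_lit 366) (nat_lit 5) (nat_lit 412) (nat_lit 402) (nat_lit 206)))))) (XT.nd (nat_lit 546) (nat_lit 3420) (nat_lit 0) (XT.nd (nat_lit 234) (nat_lit 1748) (nat_lit 0) (XT.nd (nat_lit 78) (nat_lit 1216) (nat_lit 0) (XT.lf (nat_lit 0) (nat_lit 32671271551) (nat_lit 836) (nat_lit 15292510207) (nat_lit 912) (nat_lit 62640566567) (nat_lit 354) (nat_lit 5) (nat_lit 365) (nat_lit 5) (nat_lit 366) (nat_lit 5) (nat_lit 413) (nat_lit 402) (nat_lit 205)) (XT.nd (nat_lit 78) (nat_lit 608) (nat_lit 0) (XT.lf (nat_lit 0) (nat_lit 22133841540) (nat_lit 608) (nat_lit 44259799644) (nat_lit 684) (nat_lit 47193014429)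 (nat_lit 346) (nat_lit 5) (nat_lit 354) (nat_lit 5) (nat_lit 355) (nat_lit 5) (nat_lit 414) (nat_lit 402) (nat_lit 204)) (XT.lf (nat_lit 0) (nat_lit 11812243461) (nat_lit 608) (nat_lit 75404265398) (nat_lit 684) (nat_lit 29457423948) (nat_lit 338) (nat_lit 5) (nat_lit 346) (nat_lit 5) (nat_lit 347) (nat_lit 5) (nat_lit 415) (nat_lit 402) (nat_lit 203)))) (XT.nd (nat_lit 156) (nat_lit 1140) (nat_lit 0) (XT.nd (nat_lit 78) (nat_lit 76) (nat_lit 0) (XT.lf (nat_lit 0) (nat_lit 1747511204) (nat_lit 532) (nat_lit 108840955923) (nat_lit 608) (nat_lit 9281868318) (nat_lit 331) (nat_lit 5) (nat_lit 338) (nat_lit 5) (nat_lit 339) (nat_lit 5) (nat_lit 416) (nat_lit 402) (nat_lit 202)) (XT.lf (nat_lit 0) (nat_lit 13520853225) (nat_lit 608) (nat_lit 8202466173) (nat_lit 76) (nat_lit 101444286960) (nat_lit 330) (nat_lit 5) (nat_lit 338) (nat_lit 5) (nat_lit 331) (nat_lit 5) (nat_lit 417) (nat_lit 402) (nat_lit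 201))) (XT.nd (nat_lit 78) (nat_lit 532) (nat_lit 0) (XT.lf (nat_lit 0) (nat_lit 39004987272) (nat_lit 684) (nat_lit 18025692080) (nat_lit 76) (nat_lit 69544307282) (nat_lit 322) (nat_lit 5) (nat_lit 331) (nat_lit 5) (nat_lit 323) (nat_lit 5) (nat_lit 418) (nat_lit 402) (nat_lit 200)) (XT.lf (nat_lit 0) (nat_lit 67401943478) (nat_lit 608) (nat_lit 27510855024) (nat_lit 76) (nat_lit 35190778961) (nat_lit 315) (nat_lit 5) (nat_lit 323) (nat_lit 5) (nat_lit 316) (nat_lit 5) (nat_lit 419) (nat_lit 402) (nat_lit 199))))) (XT.nd (nat_lit 234) (nat_lit 1824) (nat_lit 0) (XT.nd (nat_lit 78) (nat_lit 1064) (nat_lit 0) (XT.lf (nat_lit 0) (nat_lit 97133106239) (nat_lit 532) (nat_lit 1781859698) (nat_lit 608) (nat_lit 34842745340) (nat_lit 308) (nat_lit 5) (nat_lit 315) (nat_lit 5) (nat_lit 316) (nat_lit 5) (nat_lit 420) (nat_lit 402) (nat_lit 198)) (XT.nd (nat_lit 78) (nat_lit 608) (nat_lit 0) (XT.lf (nat_lit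 0) (nat_lit 91864486596) (nat_lit 456) (nat_lit 42230592901) (nat_lit 532) (nat_lit 3436729087) (nat_lit 302) (nat_lit 5) (nat_lit 308) (nat_lit 5) (nat_lit 309) (nat_lit 5) (nat_lit 421) (nat_lit 402) (nat_lit 197)) (XT.lf (nat_lit 0) (nat_lit 30752553361) (nat_lit 608) (nat_lit 54538797097) (nat_lit 76) (nat_lit 56141060046) (nat_lit 294) (nat_lit 5) (nat_lit 302) (nat_lit 5) (nat_lit 295) (nat_lit 5) (nat_lit 422) (nat_lit 402) (nat_lit 196)))) (XT.nd (nat_lit 156) (nat_lit 912) (nat_lit 0) (XT.nd (nat_lit 78) (nat_lit 456) (nat_lit 0) (XT.lf (nat_lit 0) (nat_lit 68414468265) (nat_lit 532) (nat_lit 62944483345) (nat_lit 76) (nat_lit 14113042745) (nat_lit 288) (nat_lit 5) (nat_lit 295) (nat_lit 5) (nat_lit 289) (nat_lit 5) (nat_lit 423) (nat_lit 402) (nat_lit 195)) (XT.lf (nat_lit 0) (nat_lit 78556062654) (nat_lit 456) (nat_lit 31585958216) (nat_lit 532) (nat_lit 39506060270) (nat_lit 282) (nat_lit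 5) (nat_lit 288) (nat_lit 5) (nat_lit 289) (nat_lit 5) (nat_lit 424) (nat_lit 402) (nat_lit 194))) (XT.nd (nat_lit 78) (nat_lit 456) (nat_lit 0) (XT.lf (nat_lit 0) (nat_lit 2025209531) (nat_lit 456) (nat_lit 78800097770) (nat_lit 76) (nat_lit 73144665342) (nat_lit 276) (nat_lit 5) (nat_lit 282) (nat_lit 5) (nat_lit 277) (nat_lit 5) (nat_lit 425) (nat_lit 402) (nat_lit 193)) (XT.lf (nat_lit 0) (nat_lit 46825860040) (nat_lit 532) (nat_lit 86259355689) (nat_lit 76) (nat_lit 25350712624) (nat_lit 270) (nat_lit 5) (nat_lit 277) (nat_lit 5) (nat_lit 271) (nat_lit 5) (nat_lit 426) (nat_lit 402) (nat_lit 192))))))))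
noncomputable def xc123 : XT := (XT.nd (nat_lit 53118) (nat_lit 0) (nat_lit 456) (XT.nd (nat_lit 52026) (nat_lit 0) (nat_lit 1672) (XT.nd (nat_lit 51480) (nat_lit 0) (nat_lit 8284) (XT.nd (nat_lit 51246) (nat_lit 0) (nat_lit 9120) (XT.nd (nat_lit 78) (nat_lit 836) (nat_lit 0) (XT.lf (nat_lit 0) (nat_lit 69785333712) (nat_lit 380) (nat_lit 26386625988) (nat_lit 456) (nat_lit 66884059651) (nat_lit 265) (nat_lit 5) (nat_lit 270) (nat_lit 5) (nat_lit 271) (nat_lit 5) (nat_lit 427) (nat_lit 402) (nat_lit 191)) (XT.nd (nat_lit 78) (nat_lit 456) (nat_lit 0) (XT.lf (nat_lit 0) (nat_lit 68049635649) (nat_lit 380) (nat_lit 82309521326) (nat_lit 456) (nat_lit 17476744143) (nat_lit 260) (nat_lit 5) (nat_lit 265) (nat_lit 5) (nat_lit 266) (nat_lit 5) (nat_lit 428) (nat_lit 402) (nat_lit 190)) (XT.lf (nat_lit 0) (nat_lit 35916099806) (nat_lit 456) (nat_lit 105828031186) (nat_lit 76) (nat_lit 31035132032) (nat_lit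 254) (nat_lit 5) (nat_lit 260) (nat_lit 5) (nat_lit 255) (nat_lit 5) (nat_lit 429) (nat_lit 402) (nat_lit 189)))) (XT.nd (nat_lit 78) (nat_lit 0) (nat_lit 76) (XT.lf (nat_lit 0) (nat_lit 27650458620) (nat_lit 1292) (nat_lit 8114186406) (nat_lit 1292) (nat_lit 8114186406) (nat_lit 374) (nat_lit 3) (nat_lit 391) (nat_lit 3) (nat_lit 391) (nat_lit 5) (nat_lit 403) (nat_lit 403) (nat_lit 214)) (XT.nd (nat_lit 78) (nat_lit 0) (nat_lit 0) (XT.lf (nat_lit 0) (nat_lit 57262755074) (nat_lit 1216) (nat_lit 31906548018) (nat_lit 1292) (nat_lit 764921901) (nat_lit 375) (nat_lit 5) (nat_lit 391) (nat_lit 5) (nat_lit 392) (nat_lit 5) (nat_lit 404) (nat_lit 403) (nat_lit 213)) (XT.lf (nat_lit 76) (nat_lit 44260618741) (nat_lit 0) (nat_lit 16377306493) (nat_lit 1292) (nat_lit 31542232777) (nat_lit 376) (nat_lit 5) (nat_lit 375) (nat_lit 5) (nat_lit 392) (nat_lit 5) (nat_lit 405) (nat_lit 403) (nat_lit 212)))))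 (XT.nd (nat_lit 234) (nat_lit 988) (nat_lit 0) (XT.nd (nat_lit 78) (nat_lit 0) (nat_lit 76) (XT.lf (nat_lit 76) (nat_lit 30386262810) (nat_lit 0) (nat_lit 34995811184) (nat_lit 1292) (nat_lit 29120307083) (nat_lit 377) (nat_lit 5) (nat_lit 376) (nat_lit 5) (nat_lit 393) (nat_lit 5) (nat_lit 406) (nat_lit 403) (nat_lit 211)) (XT.nd (nat_lit 78) (nat_lit 0) (nat_lit 76) (XT.lf (nat_lit 76) (nat_lit 16431481650) (nat_lit 0) (nat_lit 55153818643) (nat_lit 1292) (nat_lit 25318758900) (nat_lit 378) (nat_lit 5) (nat_lit 377) (nat_lit 5) (nat_lit 394) (nat_lit 5) (nat_lit 407) (nat_lit 403) (nat_lit 210)) (XT.lf (nat_lit 76) (nat_lit 2417238350) (nat_lit 0) (nat_lit 76933599535) (nat_lit 1292) (nat_lit 20037418831) (nat_lit 379) (nat_lit 5) (nat_lit 378) (nat_lit 5) (nat_lit 395) (nat_lit 5) (nat_lit 408) (nat_lit 403) (nat_lit 209)))) (XT.nd (nat_lit 156) (nat_lit 1216) (nat_lit 0) (XT.nd (nat_lit 78)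 (nat_lit 0) (nat_lit 0) (XT.lf (nat_lit 0) (nat_lit 88899687669) (nat_lit 1216) (nat_lit 11406557902) (nat_lit 1292) (nat_lit 1648567484) (nat_lit 379) (nat_lit 5) (nat_lit 395) (nat_lit 5) (nat_lit 396) (nat_lit 5) (nat_lit 409) (nat_lit 403) (nat_lit 208)) (XT.lf (nat_lit 76) (nat_lit 79204663106) (nat_lit 0) (nat_lit 21258482961) (nat_lit 1292) (nat_lit 4140436161) (nat_lit 380) (nat_lit 5) (nat_lit 379) (nat_lit 5) (nat_lit 396) (nat_lit 5) (nat_lit 410) (nat_lit 403) (nat_lit 207))) (XT.nd (nat_lit 78) (nat_lit 0) (nat_lit 76) (XT.lf (nat_lit 0) (nat_lit 6496064161) (nat_lit 1292) (nat_lit 39473555273) (nat_lit 1368) (nat_lit 61372326973) (nat_lit 363) (nat_lit 5) (nat_lit 380) (nat_lit 5) (nat_lit 381) (nat_lit 5) (nat_lit 411) (nat_lit 403) (nat_lit 206)) (XT.lf (nat_lit 0) (nat_lit 18973983314) (nat_lit 1292) (nat_lit 53581303817) (nat_lit 1368) (nat_lit 37618855099) (nat_lit 364) (nat_lit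 5) (nat_lit 381) (nat_lit 5) (nat_lit 382) (nat_lit 5) (nat_lit 412) (nat_lit 403) (nat_lit 205)))))) (XT.nd (nat_lit 546) (nat_lit 3496) (nat_lit 0) (XT.nd (nat_lit 234) (nat_lit 1824) (nat_lit 0) (XT.nd (nat_lit 78) (nat_lit 1444) (nat_lit 0) (XT.lf (nat_lit 0) (nat_lit 33504719339) (nat_lit 1292) (nat_lit 67653301413) (nat_lit 76) (nat_lit 11947059464) (nat_lit 365) (nat_lit 5) (nat_lit 382) (nat_lit 5) (nat_lit 366) (nat_lit 5) (nat_lit 413) (nat_lit 403) (nat_lit 204)) (XT.nd (nat_lit 78) (nat_lit 608) (nat_lit 0) (XT.lf (nat_lit 0) (nat_lit 34321613487) (nat_lit 836) (nat_lit 16059048013) (nat_lit 912) (nat_lit 65753343521) (nat_lit 354) (nat_lit 5) (nat_lit 365) (nat_lit 5) (nat_lit 366) (nat_lit 5) (nat_lit 414) (nat_lit 403) (nat_lit 203)) (XT.lf (nat_lit 0) (nat_lit 23257393529) (nat_lit 608) (nat_lit 46473874898) (nat_lit 684) (nat_lit 49534181610) (nat_lit 346) (nat_lit 5) (nat_lit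 354) (nat_lit 5) (nat_lit 355) (nat_lit 5) (nat_lit 415) (nat_lit 403) (nat_lit 202)))) (XT.nd (nat_lit 156) (nat_lit 684) (nat_lit 0) (XT.nd (nat_lit 78) (nat_lit 532) (nat_lit 0) (XT.lf (nat_lit 0) (nat_lit 12419765317) (nat_lit 608) (nat_lit 79174812248) (nat_lit 684) (nat_lit 30912534584) (nat_lit 338) (nat_lit 5) (nat_lit 346) (nat_lit 5) (nat_lit 347) (nat_lit 5) (nat_lit 416) (nat_lit 403) (nat_lit 201)) (XT.lf (nat_lit 0) (nat_lit 1851817318) (nat_lit 532) (nat_lit 114282655013) (nat_lit 608) (nat_lit 9728882430) (nat_lit 331) (nat_lit 5) (nat_lit 338) (nat_lit 5) (nat_lit 339) (nat_lit 5) (nat_lit 417) (nat_lit 403) (nat_lit 200))) (XT.nd (nat_lit 78) (nat_lit 608) (nat_lit 0) (XT.lf (nat_lit 0) (nat_lit 14212844481) (nat_lit 608) (nat_lit 8596147735) (nat_lit 76) (nat_lit 106516516002) (nat_lit 330) (nat_lit 5) (nat_lit 338) (nat_lit 5) (nat_lit 331) (nat_lit 5) (nat_lit 418) (nat_lit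 403) (nat_lit 199)) (XT.lf (nat_lit 0) (nat_lit 40970585326) (nat_lit 684) (nat_lit 18910551993) (nat_lit 76) (nat_lit 73022138187) (nat_lit 322) (nat_lit 5) (nat_lit 331) (nat_lit 5) (nat_lit 323) (nat_lit 5) (nat_lit 419) (nat_lit 403) (nat_lit 198))))) (XT.nd (nat_lit 234) (nat_lit 1976) (nat_lit 0) (XT.nd (nat_lit 78) (nat_lit 988) (nat_lit 0) (XT.lf (nat_lit 0) (nat_lit 70786823179) (nat_lit 608) (nat_lit 28870012128) (nat_lit 76) (nat_lit 36951477552) (nat_lit 315) (nat_lit 5) (nat_lit 323) (nat_lit 5) (nat_lit 316) (nat_lit 5) (nat_lit 420) (nat_lit 403) (nat_lit 197)) (XT.nd (nat_lit 78) (nat_lit 456) (nat_lit 0) (XT.lf (nat_lit 0) (nat_lit 102005677507) (nat_lit 532) (nat_lit 1869268319) (nat_lit 608) (nat_lit 36570224067) (nat_lit 308) (nat_lit 5) (nat_lit 315) (nat_lit 5) (nat_lit 316) (nat_lit 5) (nat_lit 421) (nat_lit 403) (nat_lit 196)) (XT.lf (nat_lit 0) (nat_lit 96473569636) (nat_lit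 456) (nat_lit 44339985597) (nat_lit 532) (nat_lit 3594432127) (nat_lit 302) (nat_lit 5) (nat_lit 308) (nat_lit 5) (nat_lit 309) (nat_lit 5) (nat_lit 422) (nat_lit 403) (nat_lit 195)))) (XT.nd (nat_lit 156) (nat_lit 912) (nat_lit 0) (XT.nd (nat_lit 78) (nat_lit 456) (nat_lit 0) (XT.lf (nat_lit 0) (nat_lit 32303551748) (nat_lit 608) (nat_lit 57249686825) (nat_lit 76) (nat_lit 58950391336) (nat_lit 294) (nat_lit 5) (nat_lit 302) (nat_lit 5) (nat_lit 295) (nat_lit 5) (nat_lit 423) (nat_lit 403) (nat_lit 194)) (XT.lf (nat_lit 0) (nat_lit 71848101571) (nat_lit 532) (nat_lit 66075756956) (nat_lit 76) (nat_lit 14821348250) (nat_lit 288) (nat_lit 5) (nat_lit 295) (nat_lit 5) (nat_lit 289) (nat_lit 5) (nat_lit 424) (nat_lit 403) (nat_lit 193))) (XT.nd (nat_lit 78) (nat_lit 456) (nat_lit 0) (XT.lf (nat_lit 0) (nat_lit 82499359124) (nat_lit 456) (nat_lit 33162206857) (nat_lit 532) (nat_lit 41468545894) (nat_lit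 282) (nat_lit 5) (nat_lit 288) (nat_lit 5) (nat_lit 289) (nat_lit 5) (nat_lit 425) (nat_lit 403) (nat_lit 192)) (XT.lf (nat_lit 0) (nat_lit 2138616372) (nat_lit 456) (nat_lit 82724477549) (nat_lit 76) (nat_lit 76805012964) (nat_lit 276) (nat_lit 5) (nat_lit 282) (nat_lit 5) (nat_lit 277) (nat_lit 5) (nat_lit 426) (nat_lit 403) (nat_lit 191))))))) (XT.nd (nat_lit 52104) (nat_lit 0) (nat_lit 1216) (XT.nd (nat_lit 51558) (nat_lit 0) (nat_lit 7828) (XT.nd (nat_lit 51324) (nat_lit 0) (nat_lit 8664) (XT.nd (nat_lit 78) (nat_lit 760) (nat_lit 0) (XT.lf (nat_lit 0) (nat_lit 49178900192) (nat_lit 532) (nat_lit 90556828131) (nat_lit 76) (nat_lit 26621644033) (nat_lit 270) (nat_lit 5) (nat_lit 277) (nat_lit 5) (nat_lit 271) (nat_lit 5) (nat_lit 427) (nat_lit 403) (nat_lit 190)) (XT.nd (nat_lit 78) (nat_lit 380) (nat_lit 0) (XT.lf (nat_lit 0) (nat_lit 73289651570) (nat_lit 380) (nat_lit 27702238559) (nat_lit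 456) (nat_lit 70216590217) (nat_lit 265) (nat_lit 5) (nat_lit 270) (nat_lit 5) (nat_lit 271) (nat_lit 5) (nat_lit 428) (nat_lit 403) (nat_lit 189)) (XT.lf (nat_lit 0) (nat_lit 71467032671) (nat_lit 380) (nat_lit 86421052375) (nat_lit 456) (nat_lit 18339282022) (nat_lit 260) (nat_lit 5) (nat_lit 265) (nat_lit 5) (nat_lit 266) (nat_lit 5) (nat_lit 429) (nat_lit 403) (nat_lit 188)))) (XT.nd (nat_lit 78) (nat_lit 0) (nat_lit 76) (XT.lf (nat_lit 0) (nat_lit 29046707737) (nat_lit 1292) (nat_lit 8512826741) (nat_lit 1292) (nat_lit 8512826741) (nat_lit 374) (nat_lit 3) (nat_lit 391) (nat_lit 3) (nat_lit 391) (nat_lit 5) (nat_lit 404) (nat_lit 404) (nat_lit 212)) (XT.nd (nat_lit 78) (nat_lit 0) (nat_lit 0) (XT.lf (nat_lit 0) (nat_lit 60152049365) (nat_lit 1216) (nat_lit 33487233812) (nat_lit 1292) (nat_lit 790868369) (nat_lit 375) (nat_lit 5) (nat_lit 391) (nat_lit 5) (nat_lit 392) (nat_lit 5) (nat_lit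 405) (nat_lit 404) (nat_lit 211)) (XT.lf (nat_lit 76) (nat_lit 46487871587) (nat_lit 0) (nat_lit 17206997607) (nat_lit 1292) (nat_lit 33093545287) (nat_lit 376) (nat_lit 5) (nat_lit 375) (nat_lit 5) (nat_lit 392) (nat_lit 5) (nat_lit 406) (nat_lit 404) (nat_lit 210))))) (XT.nd (nat_lit 234) (nat_lit 988) (nat_lit 0) (XT.nd (nat_lit 78) (nat_lit 0) (nat_lit 76) (XT.lf (nat_lit 76) (nat_lit 31920221163) (nat_lit 0) (nat_lit 36754853151) (nat_lit 1292) (nat_lit 30551708918) (nat_lit 377) (nat_lit 5) (nat_lit 376) (nat_lit 5) (nat_lit 393) (nat_lit 5) (nat_lit 407) (nat_lit 404) (nat_lit 209)) (XT.nd (nat_lit 78) (nat_lit 0) (nat_lit 76) (XT.lf (nat_lit 76) (nat_lit 17268063873) (nat_lit 0) (nat_lit 57919319693) (nat_lit 1292) (nat_lit 26561194039) (nat_lit 378) (nat_lit 5) (nat_lit 377) (nat_lit 5) (nat_lit 394) (nat_lit 5) (nat_lit 408) (nat_lit 404) (nat_lit 208)) (XT.lf (nat_lit 76) (nat_lit 2553416051)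 (nat_lit 0) (nat_lit 80786771126) (nat_lit 1292) (nat_lit 21016828152) (nat_lit 379) (nat_lit 5) (nat_lit 378) (nat_lit 5) (nat_lit 395) (nat_lit 5) (nat_lit 409) (nat_lit 404) (nat_lit 207)))) (XT.nd (nat_lit 156) (nat_lit 1216) (nat_lit 0) (XT.nd (nat_lit 78) (nat_lit 0) (nat_lit 0) (XT.lf (nat_lit 0) (nat_lit 93365381574) (nat_lit 1216) (nat_lit 11961616837) (nat_lit 1292) (nat_lit 1724934011) (nat_lit 379) (nat_lit 5) (nat_lit 395) (nat_lit 5) (nat_lit 396) (nat_lit 5) (nat_lit 410) (nat_lit 404) (nat_lit 206)) (XT.lf (nat_lit 76) (nat_lit 83179727539) (nat_lit 0) (nat_lit 22326441752) (nat_lit 1292) (nat_lit 4326996071) (nat_lit 380) (nat_lit 5) (nat_lit 379) (nat_lit 5) (nat_lit 396) (nat_lit 5) (nat_lit 411) (nat_lit 404) (nat_lit 205))) (XT.nd (nat_lit 78) (nat_lit 0) (nat_lit 76) (XT.lf (nat_lit 0) (nat_lit 6840073999) (nat_lit 1292) (nat_lit 41431818742) (nat_lit 1368) (nat_lit 64436574786)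 (nat_lit 363) (nat_lit 5) (nat_lit 380) (nat_lit 5) (nat_lit 381) (nat_lit 5) (nat_lit 412) (nat_lit 404) (nat_lit 204)) (XT.lf (nat_lit 0) (nat_lit 19941085139) (nat_lit 1292) (nat_lit 56244810189) (nat_lit 1368) (nat_lit 39496401933) (nat_lit 364) (nat_lit 5) (nat_lit 381) (nat_lit 5) (nat_lit 382) (nat_lit 5) (nat_lit 413) (nat_lit 404) (nat_lit 203)))))) (XT.nd (nat_lit 546) (nat_lit 3496) (nat_lit 0) (XT.nd (nat_lit 234) (nat_lit 1824) (nat_lit 0) (XT.nd (nat_lit 78) (nat_lit 1444) (nat_lit 0) (XT.lf (nat_lit 0) (nat_lit 35197602326) (nat_lit 1292) (nat_lit 71020298910) (nat_lit 76) (nat_lit 12541903580) (nat_lit 365) (nat_lit 5) (nat_lit 382) (nat_lit 5) (nat_lit 366) (nat_lit 5) (nat_lit 414) (nat_lit 404) (nat_lit 202)) (XT.nd (nat_lit 78) (nat_lit 608) (nat_lit 0) (XT.lf (nat_lit 0) (nat_lit 36052912627) (nat_lit 836) (nat_lit 16863734923) (nat_lit 912) (nat_lit 69023549133) (nat_lit 354)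 (nat_lit 5) (nat_lit 365) (nat_lit 5) (nat_lit 366) (nat_lit 5) (nat_lit 415) (nat_lit 404) (nat_lit 201)) (XT.lf (nat_lit 0) (nat_lit 24435555643) (nat_lit 608) (nat_lit 48798553017) (nat_lit 684) (nat_lit 51994125575) (nat_lit 346) (nat_lit 5) (nat_lit 354) (nat_lit 5) (nat_lit 355) (nat_lit 5) (nat_lit 416) (nat_lit 404) (nat_lit 200)))) (XT.nd (nat_lit 156) (nat_lit 684) (nat_lit 0) (XT.nd (nat_lit 78) (nat_lit 532) (nat_lit 0) (XT.lf (nat_lit 0) (nat_lit 13056091164) (nat_lit 608) (nat_lit 83133855427) (nat_lit 684) (nat_lit 32442051962) (nat_lit 338) (nat_lit 5) (nat_lit 346) (nat_lit 5) (nat_lit 347) (nat_lit 5) (nat_lit 417) (nat_lit 404) (nat_lit 199)) (XT.lf (nat_lit 0) (nat_lit 1959764697) (nat_lit 532) (nat_lit 119996471476) (nat_lit 608) (nat_lit 10199835120) (nat_lit 331) (nat_lit 5) (nat_lit 338) (nat_lit 5) (nat_lit 339) (nat_lit 5) (nat_lit 418) (nat_lit 404) (nat_lit 198))) (XT.nd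 (nat_lit 78) (nat_lit 608) (nat_lit 0) (XT.lf (nat_lit 0) (nat_lit 14937952551) (nat_lit 608) (nat_lit 9011041974) (nat_lit 76) (nat_lit 111842355129) (nat_lit 330) (nat_lit 5) (nat_lit 338) (nat_lit 5) (nat_lit 331) (nat_lit 5) (nat_lit 419) (nat_lit 404) (nat_lit 197)) (XT.lf (nat_lit 0) (nat_lit 43033036307) (nat_lit 684) (nat_lit 19841181913) (nat_lit 76) (nat_lit 76673803410) (nat_lit 322) (nat_lit 5) (nat_lit 331) (nat_lit 5) (nat_lit 323) (nat_lit 5) (nat_lit 420) (nat_lit 404) (nat_lit 196))))) (XT.nd (nat_lit 234) (nat_lit 1976) (nat_lit 0) (XT.nd (nat_lit 78) (nat_lit 988) (nat_lit 0) (XT.lf (nat_lit 0) (nat_lit 74339572527) (nat_lit 608) (nat_lit 30298650470) (nat_lit 76) (nat_lit 38800103260) (nat_lit 315) (nat_lit 5) (nat_lit 323) (nat_lit 5) (nat_lit 316) (nat_lit 5) (nat_lit 421) (nat_lit 404) (nat_lit 195)) (XT.nd (nat_lit 78) (nat_lit 456) (nat_lit 0) (XT.lf (nat_lit 0) (nat_lit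 107120397623) (nat_lit 532) (nat_lit 1961203968) (nat_lit 608) (nat_lit 38385439543) (nat_lit 308) (nat_lit 5) (nat_lit 315) (nat_lit 5) (nat_lit 316) (nat_lit 5) (nat_lit 422) (nat_lit 404) (nat_lit 194)) (XT.lf (nat_lit 0) (nat_lit 101311632436) (nat_lit 456) (nat_lit 46555046600) (nat_lit 532) (nat_lit 3761334311) (nat_lit 302) (nat_lit 5) (nat_lit 308) (nat_lit 5) (nat_lit 309) (nat_lit 5) (nat_lit 423) (nat_lit 404) (nat_lit 193)))) (XT.nd (nat_lit 156) (nat_lit 912) (nat_lit 0) (XT.nd (nat_lit 78) (nat_lit 456) (nat_lit 0) (XT.lf (nat_lit 0) (nat_lit 33930856971) (nat_lit 608) (nat_lit 60097613227) (nat_lit 76) (nat_lit 61899977377) (nat_lit 294) (nat_lit 5) (nat_lit 302) (nat_lit 5) (nat_lit 295) (nat_lit 5) (nat_lit 424) (nat_lit 404) (nat_lit 192)) (XT.lf (nat_lit 0) (nat_lit 75452216302) (nat_lit 532) (nat_lit 69365077179) (nat_lit 76) (nat_lit 15564822345) (nat_lit 288) (nat_lit 5) (nat_lit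 295) (nat_lit 5) (nat_lit 289) (nat_lit 5) (nat_lit 425) (nat_lit 404) (nat_lit 191))) (XT.nd (nat_lit 78) (nat_lit 456) (nat_lit 0) (XT.lf (nat_lit 0) (nat_lit 86638379993) (nat_lit 456) (nat_lit 34817551422) (nat_lit 532) (nat_lit 43530347440) (nat_lit 282) (nat_lit 5) (nat_lit 288) (nat_lit 5) (nat_lit 289) (nat_lit 5) (nat_lit 426) (nat_lit 404) (nat_lit 190)) (XT.lf (nat_lit 0) (nat_lit 2256564301) (nat_lit 456) (nat_lit 86846528991) (nat_lit 76) (nat_lit 80648088423) (nat_lit 276) (nat_lit 5) (nat_lit 282) (nat_lit 5) (nat_lit 277) (nat_lit 5) (nat_lit 427) (nat_lit 404) (nat_lit 189))))))))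
noncomputable def xc124 : XT := (XT.nd (nat_lit 104676) (nat_lit 0) (nat_lit 912) (XT.nd (nat_lit 52260) (nat_lit 0) (nat_lit 456) (XT.nd (nat_lit 51714) (nat_lit 0) (nat_lit 6384) (XT.nd (nat_lit 51480) (nat_lit 0) (nat_lit 7980) (XT.nd (nat_lit 51324) (nat_lit 0) (nat_lit 7904) (XT.lf (nat_lit 0) (nat_lit 51648500214) (nat_lit 532) (nat_lit 95070614805) (nat_lit 76) (nat_lit 27955806305) (nat_lit 270) (nat_lit 5) (nat_lit 277) (nat_lit 5) (nat_lit 271) (nat_lit 5) (nat_lit 428) (nat_lit 404) (nat_lit 188)) (XT.nd (nat_lit 78) (nat_lit 0) (nat_lit 76) (XT.lf (nat_lit 0) (nat_lit 30511493178) (nat_lit 1292) (nat_lit 8932056300) (nat_lit 1292) (nat_lit 8932056300) (nat_lit 374) (nat_lit 3) (nat_lit 391) (nat_lit 3) (nat_lit 391) (nat_lit 5) (nat_lit 405) (nat_lit 405) (nat_lit 210)) (XT.lf (nat_lit 0) (nat_lit 63183376584) (nat_lit 1216) (nat_lit 35148315133) (nat_lit 1292) (nat_lit 819255664) (nat_lit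 375) (nat_lit 5) (nat_lit 391) (nat_lit 5) (nat_lit 392) (nat_lit 5) (nat_lit 406) (nat_lit 405) (nat_lit 209)))) (XT.nd (nat_lit 78) (nat_lit 0) (nat_lit 76) (XT.lf (nat_lit 76) (nat_lit 48825164856) (nat_lit 0) (nat_lit 18077166797) (nat_lit 1292) (nat_lit 34724821981) (nat_lit 376) (nat_lit 5) (nat_lit 375) (nat_lit 5) (nat_lit 392) (nat_lit 5) (nat_lit 407) (nat_lit 405) (nat_lit 208)) (XT.nd (nat_lit 78) (nat_lit 0) (nat_lit 76) (XT.lf (nat_lit 76) (nat_lit 33529515860) (nat_lit 0) (nat_lit 38600987108) (nat_lit 1292) (nat_lit 32056969177) (nat_lit 377) (nat_lit 5) (nat_lit 376) (nat_lit 5) (nat_lit 393) (nat_lit 5) (nat_lit 408) (nat_lit 405) (nat_lit 207)) (XT.lf (nat_lit 76) (nat_lit 18145079892) (nat_lit 0) (nat_lit 60822369685) (nat_lit 1292) (nat_lit 27867936003) (nat_lit 378) (nat_lit 5) (nat_lit 377) (nat_lit 5) (nat_lit 394) (nat_lit 5) (nat_lit 409) (nat_lit 405) (nat_lit 206)))))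 (XT.nd (nat_lit 234) (nat_lit 1824) (nat_lit 0) (XT.nd (nat_lit 78) (nat_lit 0) (nat_lit 76) (XT.lf (nat_lit 76) (nat_lit 2694978721) (nat_lit 0) (nat_lit 84831997768) (nat_lit 1292) (nat_lit 22047296208) (nat_lit 379) (nat_lit 5) (nat_lit 378) (nat_lit 5) (nat_lit 395) (nat_lit 5) (nat_lit 410) (nat_lit 405) (nat_lit 205)) (XT.nd (nat_lit 78) (nat_lit 0) (nat_lit 0) (XT.lf (nat_lit 0) (nat_lit 98052434799) (nat_lit 1216) (nat_lit 12545848283) (nat_lit 1292) (nat_lit 1805682438) (nat_lit 379) (nat_lit 5) (nat_lit 395) (nat_lit 5) (nat_lit 396) (nat_lit 5) (nat_lit 411) (nat_lit 405) (nat_lit 204)) (XT.lf (nat_lit 76) (nat_lit 87352166322) (nat_lit 0) (nat_lit 23447330409) (nat_lit 1292) (nat_lit 4524786330) (nat_lit 380) (nat_lit 5) (nat_lit 379) (nat_lit 5) (nat_lit 396) (nat_lit 5) (nat_lit 412) (nat_lit 405) (nat_lit 203)))) (XT.nd (nat_lit 156) (nat_lit 684) (nat_lit 0) (XT.nd (nat_lit 78)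 (nat_lit 0) (nat_lit 76) (XT.lf (nat_lit 0) (nat_lit 7199498679) (nat_lit 1292) (nat_lit 43489428460) (nat_lit 1368) (nat_lit 67654441136) (nat_lit 363) (nat_lit 5) (nat_lit 380) (nat_lit 5) (nat_lit 381) (nat_lit 5) (nat_lit 413) (nat_lit 405) (nat_lit 202)) (XT.lf (nat_lit 0) (nat_lit 20954831151) (nat_lit 1292) (nat_lit 59042938391) (nat_lit 1368) (nat_lit 41468141829) (nat_lit 364) (nat_lit 5) (nat_lit 381) (nat_lit 5) (nat_lit 382) (nat_lit 5) (nat_lit 414) (nat_lit 405) (nat_lit 201))) (XT.nd (nat_lit 78) (nat_lit 836) (nat_lit 0) (XT.lf (nat_lit 0) (nat_lit 36973488809) (nat_lit 1292) (nat_lit 74557102904) (nat_lit 76) (nat_lit 13166723152) (nat_lit 365) (nat_lit 5) (nat_lit 382) (nat_lit 5) (nat_lit 366) (nat_lit 5) (nat_lit 415) (nat_lit 405) (nat_lit 200)) (XT.lf (nat_lit 0) (nat_lit 37869361855) (nat_lit 836) (nat_lit 17708494920) (nat_lit 912) (nat_lit 72458888437) (nat_lit 354) (nat_lit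 5) (nat_lit 365) (nat_lit 5) (nat_lit 366) (nat_lit 5) (nat_lit 416) (nat_lit 405) (nat_lit 199)))))) (XT.nd (nat_lit 546) (nat_lit 2432) (nat_lit 0) (XT.nd (nat_lit 234) (nat_lit 1748) (nat_lit 0) (XT.nd (nat_lit 78) (nat_lit 1140) (nat_lit 0) (XT.lf (nat_lit 0) (nat_lit 25671204117) (nat_lit 608) (nat_lit 51239373525) (nat_lit 684) (nat_lit 54578625400) (nat_lit 346) (nat_lit 5) (nat_lit 354) (nat_lit 5) (nat_lit 355) (nat_lit 5) (nat_lit 417) (nat_lit 405) (nat_lit 198)) (XT.nd (nat_lit 78) (nat_lit 532) (nat_lit 0) (XT.lf (nat_lit 0) (nat_lit 13722807360) (nat_lit 608) (nat_lit 87290822635) (nat_lit 684) (nat_lit 34049542903) (nat_lit 338) (nat_lit 5) (nat_lit 346) (nat_lit 5) (nat_lit 347) (nat_lit 5) (nat_lit 418) (nat_lit 405) (nat_lit 197)) (XT.lf (nat_lit 0) (nat_lit 2071681741) (nat_lit 532) (nat_lit 125996008168) (nat_lit 608) (nat_lit 10695775691) (nat_lit 331) (nat_lit 5) (nat_lit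 338) (nat_lit 5) (nat_lit 339) (nat_lit 5) (nat_lit 419) (nat_lit 405) (nat_lit 196)))) (XT.nd (nat_lit 156) (nat_lit 1064) (nat_lit 0) (XT.nd (nat_lit 78) (nat_lit 608) (nat_lit 0) (XT.lf (nat_lit 0) (nat_lit 15697971127) (nat_lit 608) (nat_lit 9448067407) (nat_lit 76) (nat_lit 117434484974) (nat_lit 330) (nat_lit 5) (nat_lit 338) (nat_lit 5) (nat_lit 331) (nat_lit 5) (nat_lit 420) (nat_lit 405) (nat_lit 195)) (XT.lf (nat_lit 0) (nat_lit 45197315528) (nat_lit 684) (nat_lit 20819728374) (nat_lit 76) (nat_lit 80507999987) (nat_lit 322) (nat_lit 5) (nat_lit 331) (nat_lit 5) (nat_lit 323) (nat_lit 5) (nat_lit 421) (nat_lit 405) (nat_lit 194))) (XT.nd (nat_lit 78) (nat_lit 532) (nat_lit 0) (XT.lf (nat_lit 0) (nat_lit 78068712776) (nat_lit 608) (nat_lit 31800102481) (nat_lit 76) (nat_lit 40741062465) (nat_lit 315) (nat_lit 5) (nat_lit 323) (nat_lit 5) (nat_lit 316) (nat_lit 5) (nat_lit 422) (nat_lit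 405) (nat_lit 193)) (XT.lf (nat_lit 0) (nat_lit 112489511601) (nat_lit 532) (nat_lit 2057878436) (nat_lit 608) (nat_lit 40292651904) (nat_lit 308) (nat_lit 5) (nat_lit 315) (nat_lit 5) (nat_lit 316) (nat_lit 5) (nat_lit 423) (nat_lit 405) (nat_lit 192))))) (XT.nd (nat_lit 234) (nat_lit 912) (nat_lit 0) (XT.nd (nat_lit 78) (nat_lit 1064) (nat_lit 0) (XT.lf (nat_lit 0) (nat_lit 106390261058) (nat_lit 456) (nat_lit 48881040857) (nat_lit 532) (nat_lit 3937773432) (nat_lit 302) (nat_lit 5) (nat_lit 308) (nat_lit 5) (nat_lit 309) (nat_lit 5) (nat_lit 424) (nat_lit 405) (nat_lit 191)) (XT.nd (nat_lit 78) (nat_lit 456) (nat_lit 0) (XT.lf (nat_lit 0) (nat_lit 35638399942) (nat_lit 608) (nat_lit 63089289409) (nat_lit 76) (nat_lit 64996850598) (nat_lit 294) (nat_lit 5) (nat_lit 302) (nat_lit 5) (nat_lit 295) (nat_lit 5) (nat_lit 425) (nat_lit 405) (nat_lit 190)) (XT.lf (nat_lit 0) (nat_lit 79235448117) (nat_lit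 532) (nat_lit 72820208475) (nat_lit 76) (nat_lit 16345246395) (nat_lit 288) (nat_lit 5) (nat_lit 295) (nat_lit 5) (nat_lit 289) (nat_lit 5) (nat_lit 426) (nat_lit 405) (nat_lit 189)))) (XT.nd (nat_lit 51480) (nat_lit 0) (nat_lit 7448) (XT.nd (nat_lit 78) (nat_lit 456) (nat_lit 0) (XT.lf (nat_lit 0) (nat_lit 90983045399) (nat_lit 456) (nat_lit 36555920351) (nat_lit 532) (nat_lit 45696319915) (nat_lit 282) (nat_lit 5) (nat_lit 288) (nat_lit 5) (nat_lit 289) (nat_lit 5) (nat_lit 427) (nat_lit 405) (nat_lit 188)) (XT.lf (nat_lit 0) (nat_lit 2379385360) (nat_lit 456) (nat_lit 91176000625) (nat_lit 76) (nat_lit 84683055031) (nat_lit 276) (nat_lit 5) (nat_lit 282) (nat_lit 5) (nat_lit 277) (nat_lit 5) (nat_lit 428) (nat_lit 405) (nat_lit 187))) (XT.nd (nat_lit 78) (nat_lit 0) (nat_lit 76) (XT.lf (nat_lit 0) (nat_lit 32048360404) (nat_lit 1292) (nat_lit 9372843444) (nat_lit 1292) (nat_lit 9372843444) (nat_lit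 374) (nat_lit 3) (nat_lit 391) (nat_lit 3) (nat_lit 391) (nat_lit 5) (nat_lit 406) (nat_lit 406) (nat_lit 208)) (XT.lf (nat_lit 0) (nat_lit 66364064462) (nat_lit 1216) (nat_lit 36893685204) (nat_lit 1292) (nat_lit 850099514) (nat_lit 375) (nat_lit 5) (nat_lit 391) (nat_lit 5) (nat_lit 392) (nat_lit 5) (nat_lit 407) (nat_lit 406) (nat_lit 207))))))) (XT.nd (nat_lit 1014) (nat_lit 3724) (nat_lit 0) (XT.nd (nat_lit 468) (nat_lit 3344) (nat_lit 0) (XT.nd (nat_lit 234) (nat_lit 0) (nat_lit 228) (XT.nd (nat_lit 78) (nat_lit 0) (nat_lit 76) (XT.lf (nat_lit 76) (nat_lit 51278123498) (nat_lit 0) (nat_lit 18989931541) (nat_lit 1292) (nat_lit 36439838073) (nat_lit 376) (nat_lit 5) (nat_lit 375) (nat_lit 5) (nat_lit 392) (nat_lit 5) (nat_lit 408) (nat_lit 406) (nat_lit 206)) (XT.nd (nat_lit 78) (nat_lit 0) (nat_lit 76) (XT.lf (nat_lit 76) (nat_lit 35218040306) (nat_lit 0) (nat_lit 40538647620) (nat_lit 1292)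 (nat_lit 33639568033) (nat_lit 377) (nat_lit 5) (nat_lit 376) (nat_lit 5) (nat_lit 393) (nat_lit 5) (nat_lit 409) (nat_lit 406) (nat_lit 205)) (XT.lf (nat_lit 76) (nat_lit 19064681121) (nat_lit 0) (nat_lit 63869913572) (nat_lit 1292) (nat_lit 29241996987) (nat_lit 378) (nat_lit 5) (nat_lit 377) (nat_lit 5) (nat_lit 394) (nat_lit 5) (nat_lit 410) (nat_lit 406) (nat_lit 204)))) (XT.nd (nat_lit 78) (nat_lit 0) (nat_lit 76) (XT.lf (nat_lit 76) (nat_lit 2842327991) (nat_lit 0) (nat_lit 89078938324) (nat_lit 1292) (nat_lit 23131181788) (nat_lit 379) (nat_lit 5) (nat_lit 378) (nat_lit 5) (nat_lit 395) (nat_lit 5) (nat_lit 411) (nat_lit 406) (nat_lit 203)) (XT.nd (nat_lit 78) (nat_lit 0) (nat_lit 0) (XT.lf (nat_lit 0) (nat_lit 102972094313) (nat_lit 1216) (nat_lit 13160578887) (nat_lit 1292) (nat_lit 1890979463) (nat_lit 379) (nat_lit 5) (nat_lit 395) (nat_lit 5) (nat_lit 396) (nat_lit 5) (nat_lit 412)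 (nat_lit 406) (nat_lit 202)) (XT.lf (nat_lit 76) (nat_lit 91731976367) (nat_lit 0) (nat_lit 24623838942) (nat_lit 1292) (nat_lit 4734191592) (nat_lit 380) (nat_lit 5) (nat_lit 379) (nat_lit 5) (nat_lit 396) (nat_lit 5) (nat_lit 413) (nat_lit 406) (nat_lit 201))))) (XT.nd (nat_lit 234) (nat_lit 2432) (nat_lit 0) (XT.nd (nat_lit 78) (nat_lit 0) (nat_lit 76) (XT.lf (nat_lit 0) (nat_lit 7575274955) (nat_lit 1292) (nat_lit 45651218505) (nat_lit 1368) (nat_lit 71033569188) (nat_lit 363) (nat_lit 5) (nat_lit 380) (nat_lit 5) (nat_lit 381) (nat_lit 5) (nat_lit 414) (nat_lit 406) (nat_lit 200)) (XT.nd (nat_lit 78) (nat_lit 0) (nat_lit 76) (XT.lf (nat_lit 0) (nat_lit 22017712623) (nat_lit 1292) (nat_lit 61982285032) (nat_lit 1368) (nat_lit 43538755088) (nat_lit 364) (nat_lit 5) (nat_lit 381) (nat_lit 5) (nat_lit 382) (nat_lit 5) (nat_lit 415) (nat_lit 406) (nat_lit 199)) (XT.lf (nat_lit 0) (nat_lit 38836681497)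 (nat_lit 1292) (nat_lit 78272068298) (nat_lit 76) (nat_lit 13822995267) (nat_lit 365) (nat_lit 5) (nat_lit 382) (nat_lit 5) (nat_lit 366) (nat_lit 5) (nat_lit 416) (nat_lit 406) (nat_lit 198)))) (XT.nd (nat_lit 156) (nat_lit 1140) (nat_lit 0) (XT.nd (nat_lit 78) (nat_lit 608) (nat_lit 0) (XT.lf (nat_lit 0) (nat_lit 39775350217) (nat_lit 836) (nat_lit 18595346651) (nat_lit 912) (nat_lit 76067467187) (nat_lit 354) (nat_lit 5) (nat_lit 365) (nat_lit 5) (nat_lit 366) (nat_lit 5) (nat_lit 417) (nat_lit 406) (nat_lit 197)) (XT.lf (nat_lit 0) (nat_lit 26967345448) (nat_lit 608) (nat_lit 53802152048) (nat_lit 684) (nat_lit 57293763968) (nat_lit 346) (nat_lit 5) (nat_lit 354) (nat_lit 5) (nat_lit 355) (nat_lit 5) (nat_lit 418) (nat_lit 406) (nat_lit 196))) (XT.nd (nat_lit 78) (nat_lit 532) (nat_lit 0) (XT.lf (nat_lit 0) (nat_lit 14421565994) (nat_lit 608) (nat_lit 91655612689) (nat_lit 684) (nat_lit 35738766844)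 (nat_lit 338) (nat_lit 5) (nat_lit 346) (nat_lit 5) (nat_lit 347) (nat_lit 5) (nat_lit 419) (nat_lit 406) (nat_lit 195)) (XT.lf (nat_lit 0) (nat_lit 2187899668) (nat_lit 532) (nat_lit 132295548366) (nat_lit 608) (nat_lit 11217819637) (nat_lit 331) (nat_lit 5) (nat_lit 338) (nat_lit 5) (nat_lit 339) (nat_lit 5) (nat_lit 420) (nat_lit 406) (nat_lit 194)))))) (XT.nd (nat_lit 546) (nat_lit 456) (nat_lit 0) (XT.nd (nat_lit 234) (nat_lit 2052) (nat_lit 0) (XT.nd (nat_lit 78) (nat_lit 1140) (nat_lit 0) (XT.lf (nat_lit 0) (nat_lit 16494770770) (nat_lit 608) (nat_lit 9908201693) (nat_lit 76) (nat_lit 123306220187) (nat_lit 330) (nat_lit 5) (nat_lit 338) (nat_lit 5) (nat_lit 331) (nat_lit 5) (nat_lit 421) (nat_lit 406) (nat_lit 193)) (XT.nd (nat_lit 78) (nat_lit 532) (nat_lit 0) (XT.lf (nat_lit 0) (nat_lit 47468634734) (nat_lit 684) (nat_lit 21848458435) (nat_lit 76) (nat_lit 84533859312) (nat_lit 322) (nat_lit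 5) (nat_lit 331) (nat_lit 5) (nat_lit 323) (nat_lit 5) (nat_lit 422) (nat_lit 406) (nat_lit 192)) (XT.lf (nat_lit 0) (nat_lit 81983179364) (nat_lit 608) (nat_lit 33377880383) (nat_lit 76) (nat_lit 42778980931) (nat_lit 315) (nat_lit 5) (nat_lit 323) (nat_lit 5) (nat_lit 316) (nat_lit 5) (nat_lit 423) (nat_lit 406) (nat_lit 191)))) (XT.nd (nat_lit 156) (nat_lit 1064) (nat_lit 0) (XT.nd (nat_lit 78) (nat_lit 456) (nat_lit 0) (XT.lf (nat_lit 0) (nat_lit 118125863912) (nat_lit 532) (nat_lit 2159515459) (nat_lit 608) (nat_lit 42296346071) (nat_lit 308) (nat_lit 5) (nat_lit 315) (nat_lit 5) (nat_lit 316) (nat_lit 5) (nat_lit 424) (nat_lit 406) (nat_lit 190)) (XT.lf (nat_lit 0) (nat_lit 111721608125) (nat_lit 456) (nat_lit 51323498275) (nat_lit 532) (nat_lit 4124115533) (nat_lit 302) (nat_lit 5) (nat_lit 308) (nat_lit 5) (nat_lit 309) (nat_lit 5) (nat_lit 425) (nat_lit 406) (nat_lit 189))) (XT.nd (nat_lit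 78) (nat_lit 456) (nat_lit 0) (XT.lf (nat_lit 0) (nat_lit 37430297375) (nat_lit 608) (nat_lit 66231777028) (nat_lit 76) (nat_lit 68248393221) (nat_lit 294) (nat_lit 5) (nat_lit 302) (nat_lit 5) (nat_lit 295) (nat_lit 5) (nat_lit 426) (nat_lit 406) (nat_lit 188)) (XT.lf (nat_lit 0) (nat_lit 83206854083) (nat_lit 532) (nat_lit 76449316348) (nat_lit 76) (nat_lit 17164488699) (nat_lit 288) (nat_lit 5) (nat_lit 295) (nat_lit 5) (nat_lit 289) (nat_lit 5) (nat_lit 427) (nat_lit 406) (nat_lit 187))))) (XT.nd (nat_lit 51636) (nat_lit 0) (nat_lit 7068) (XT.nd (nat_lit 51480) (nat_lit 0) (nat_lit 6992) (XT.lf (nat_lit 0) (nat_lit 95543759036) (nat_lit 456) (nat_lit 38381440956) (nat_lit 532) (nat_lit 47971571378) (nat_lit 282) (nat_lit 5) (nat_lit 288) (nat_lit 5) (nat_lit 289) (nat_lit 5) (nat_lit 428) (nat_lit 406) (nat_lit 186)) (XT.nd (nat_lit 78) (nat_lit 0) (nat_lit 76) (XT.lf (nat_lit 0) (nat_lit 33661021115)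 (nat_lit 1292) (nat_lit 9836210630) (nat_lit 1292) (nat_lit 9836210630) (nat_lit 374) (nat_lit 3) (nat_lit 391) (nat_lit 3) (nat_lit 391) (nat_lit 5) (nat_lit 407) (nat_lit 407) (nat_lit 206)) (XT.lf (nat_lit 0) (nat_lit 69701786096) (nat_lit 1216) (nat_lit 38727443672) (nat_lit 1292) (nat_lit 883426318) (nat_lit 375) (nat_lit 5) (nat_lit 391) (nat_lit 5) (nat_lit 392) (nat_lit 5) (nat_lit 408) (nat_lit 407) (nat_lit 205)))) (XT.nd (nat_lit 156) (nat_lit 0) (nat_lit 152) (XT.nd (nat_lit 78) (nat_lit 0) (nat_lit 76) (XT.lf (nat_lit 76) (nat_lit 53852642280) (nat_lit 0) (nat_lit 19947506489) (nat_lit 1292) (nat_lit 38242578270) (nat_lit 376) (nat_lit 5) (nat_lit 375) (nat_lit 5) (nat_lit 392) (nat_lit 5) (nat_lit 409) (nat_lit 407) (nat_lit 204)) (XT.lf (nat_lit 76) (nat_lit 36989870804) (nat_lit 0) (nat_lit 42572483544) (nat_lit 1292) (nat_lit 35303179448) (nat_lit 377) (nat_lit 5) (nat_lit 376)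 (nat_lit 5) (nat_lit 393) (nat_lit 5) (nat_lit 410) (nat_lit 407) (nat_lit 203))) (XT.nd (nat_lit 78) (nat_lit 0) (nat_lit 76) (XT.lf (nat_lit 76) (nat_lit 20029114483) (nat_lit 0) (nat_lit 67069237281) (nat_lit 1292) (nat_lit 30686558681) (nat_lit 378) (nat_lit 5) (nat_lit 377) (nat_lit 5) (nat_lit 394) (nat_lit 5) (nat_lit 411) (nat_lit 407) (nat_lit 202)) (XT.lf (nat_lit 76) (nat_lit 2995873264) (nat_lit 0) (nat_lit 93537729383) (nat_lit 1292) (nat_lit 24270979670) (nat_lit 379) (nat_lit 5) (nat_lit 378) (nat_lit 5) (nat_lit 395) (nat_lit 5) (nat_lit 412) (nat_lit 407) (nat_lit 201))))))))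
noncomputable def xc125 : XT := (XT.nd (nat_lit 53664) (nat_lit 0) (nat_lit 608) (XT.nd (nat_lit 1014) (nat_lit 1064) (nat_lit 0) (XT.nd (nat_lit 468) (nat_lit 3496) (nat_lit 0) (XT.nd (nat_lit 234) (nat_lit 684) (nat_lit 0) (XT.nd (nat_lit 78) (nat_lit 1216) (nat_lit 0) (XT.lf (nat_lit 0) (nat_lit 108136152792) (nat_lit 1216) (nat_lit 13807213898) (nat_lit 1292) (nat_lit 1981004992) (nat_lit 379) (nat_lit 5) (nat_lit 395) (nat_lit 5) (nat_lit 396) (nat_lit 5) (nat_lit 413) (nat_lit 407) (nat_lit 200)) (XT.nd (nat_lit 78) (nat_lit 1216) (nat_lit 0) (XT.lf (nat_lit 76) (nat_lit 96329642514) (nat_lit 0) (nat_lit 25858787818) (nat_lit 1292) (nat_lit 4955632188) (nat_lit 380) (nat_lit 5) (nat_lit 379) (nat_lit 5) (nat_lit 396) (nat_lit 5) (nat_lit 414) (nat_lit 407) (nat_lit 199)) (XT.lf (nat_lit 0) (nat_lit 7968370986) (nat_lit 1292) (nat_lit 47922277046) (nat_lit 1368) (nat_lit 74581987780) (nat_lit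 363) (nat_lit 5) (nat_lit 380) (nat_lit 5) (nat_lit 381) (nat_lit 5) (nat_lit 415) (nat_lit 407) (nat_lit 198)))) (XT.nd (nat_lit 78) (nat_lit 760) (nat_lit 0) (XT.lf (nat_lit 0) (nat_lit 23132330602) (nat_lit 1292) (nat_lit 65069789053) (nat_lit 1368) (nat_lit 45713158754) (nat_lit 364) (nat_lit 5) (nat_lit 381) (nat_lit 5) (nat_lit 382) (nat_lit 5) (nat_lit 416) (nat_lit 407) (nat_lit 197)) (XT.nd (nat_lit 78) (nat_lit 836) (nat_lit 0) (XT.lf (nat_lit 0) (nat_lit 40791684050) (nat_lit 1292) (nat_lit 82173980328) (nat_lit 76) (nat_lit 14512272883) (nat_lit 365) (nat_lit 5) (nat_lit 382) (nat_lit 5) (nat_lit 366) (nat_lit 5) (nat_lit 417) (nat_lit 407) (nat_lit 196)) (XT.lf (nat_lit 0) (nat_lit 41775473982) (nat_lit 836) (nat_lit 19526408301) (nat_lit 912) (nat_lit 79857810458) (nat_lit 354) (nat_lit 5) (nat_lit 365) (nat_lit 5) (nat_lit 366) (nat_lit 5) (nat_lit 418) (nat_lit 407) (nat_lit 195)))))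 (XT.nd (nat_lit 234) (nat_lit 1748) (nat_lit 0) (XT.nd (nat_lit 78) (nat_lit 1140) (nat_lit 0) (XT.lf (nat_lit 0) (nat_lit 28327124173) (nat_lit 608) (nat_lit 56492994205) (nat_lit 684) (nat_lit 60145941779) (nat_lit 346) (nat_lit 5) (nat_lit 354) (nat_lit 5) (nat_lit 355) (nat_lit 5) (nat_lit 419) (nat_lit 407) (nat_lit 194)) (XT.nd (nat_lit 78) (nat_lit 532) (nat_lit 0) (XT.lf (nat_lit 0) (nat_lit 15154089433) (nat_lit 608) (nat_lit 96238619103) (nat_lit 684) (nat_lit 37513684140) (nat_lit 338) (nat_lit 5) (nat_lit 346) (nat_lit 5) (nat_lit 347) (nat_lit 5) (nat_lit 420) (nat_lit 407) (nat_lit 193)) (XT.lf (nat_lit 0) (nat_lit 2308753918) (nat_lit 532) (nat_lit 138910089766) (nat_lit 608) (nat_lit 11767150674) (nat_lit 331) (nat_lit 5) (nat_lit 338) (nat_lit 5) (nat_lit 339) (nat_lit 5) (nat_lit 421) (nat_lit 407) (nat_lit 192)))) (XT.nd (nat_lit 156) (nat_lit 1064) (nat_lit 0) (XT.nd (nat_lit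 78) (nat_lit 608) (nat_lit 0) (XT.lf (nat_lit 0) (nat_lit 17330303946) (nat_lit 608) (nat_lit 10392483357) (nat_lit 76) (nat_lit 129471541141) (nat_lit 330) (nat_lit 5) (nat_lit 338) (nat_lit 5) (nat_lit 331) (nat_lit 5) (nat_lit 422) (nat_lit 407) (nat_lit 191)) (XT.lf (nat_lit 0) (nat_lit 49852455068) (nat_lit 684) (nat_lit 22929764479) (nat_lit 76) (nat_lit 88760968900) (nat_lit 322) (nat_lit 5) (nat_lit 331) (nat_lit 5) (nat_lit 323) (nat_lit 5) (nat_lit 423) (nat_lit 407) (nat_lit 190))) (XT.nd (nat_lit 78) (nat_lit 532) (nat_lit 0) (XT.lf (nat_lit 0) (nat_lit 86092343729) (nat_lit 608) (nat_lit 35035683951) (nat_lit 76) (nat_lit 44918714870) (nat_lit 315) (nat_lit 5) (nat_lit 323) (nat_lit 5) (nat_lit 316) (nat_lit 5) (nat_lit 424) (nat_lit 407) (nat_lit 189)) (XT.lf (nat_lit 0) (nat_lit 124042929653) (nat_lit 532) (nat_lit 2266351189) (nat_lit 608) (nat_lit 44401241898) (nat_lit 308) (nat_lit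 5) (nat_lit 315) (nat_lit 5) (nat_lit 316) (nat_lit 5) (nat_lit 425) (nat_lit 407) (nat_lit 188)))))) (XT.nd (nat_lit 52104) (nat_lit 0) (nat_lit 4560) (XT.nd (nat_lit 51792) (nat_lit 0) (nat_lit 6156) (XT.nd (nat_lit 78) (nat_lit 608) (nat_lit 0) (XT.lf (nat_lit 0) (nat_lit 117318422331) (nat_lit 456) (nat_lit 53888226817) (nat_lit 532) (nat_lit 4320755259) (nat_lit 302) (nat_lit 5) (nat_lit 308) (nat_lit 5) (nat_lit 309) (nat_lit 5) (nat_lit 426) (nat_lit 407) (nat_lit 187)) (XT.nd (nat_lit 51636) (nat_lit 0) (nat_lit 6080) (XT.lf (nat_lit 0) (nat_lit 39310862072) (nat_lit 608) (nat_lit 69532502522) (nat_lit 76) (nat_lit 71662354917) (nat_lit 294) (nat_lit 5) (nat_lit 302) (nat_lit 5) (nat_lit 295) (nat_lit 5) (nat_lit 427) (nat_lit 407) (nat_lit 186)) (XT.lf (nat_lit 0) (nat_lit 35353362593) (nat_lit 1292) (nat_lit 10323236594) (nat_lit 1292) (nat_lit 10323236594) (nat_lit 374) (nat_lit 3) (nat_lit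 391) (nat_lit 3) (nat_lit 391) (nat_lit 5) (nat_lit 408) (nat_lit 408) (nat_lit 204)))) (XT.nd (nat_lit 156) (nat_lit 0) (nat_lit 76) (XT.nd (nat_lit 78) (nat_lit 0) (nat_lit 0) (XT.lf (nat_lit 0) (nat_lit 73204579175) (nat_lit 1216) (nat_lit 40653905839) (nat_lit 1292) (nat_lit 919272763) (nat_lit 375) (nat_lit 5) (nat_lit 391) (nat_lit 5) (nat_lit 392) (nat_lit 5) (nat_lit 409) (nat_lit 408) (nat_lit 203)) (XT.lf (nat_lit 76) (nat_lit 56554900341) (nat_lit 0) (nat_lit 20952209134) (nat_lit 1292) (nat_lit 40137245317) (nat_lit 376) (nat_lit 5) (nat_lit 375) (nat_lit 5) (nat_lit 392) (nat_lit 5) (nat_lit 410) (nat_lit 408) (nat_lit 202))) (XT.nd (nat_lit 78) (nat_lit 0) (nat_lit 76) (XT.lf (nat_lit 76) (nat_lit 38849276801) (nat_lit 0) (nat_lit 44707369438) (nat_lit 1292) (nat_lit 37051679021) (nat_lit 377) (nat_lit 5) (nat_lit 376) (nat_lit 5) (nat_lit 393) (nat_lit 5) (nat_lit 411) (nat_lit 408)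 (nat_lit 201)) (XT.lf (nat_lit 76) (nat_lit 21040728307) (nat_lit 0) (nat_lit 70427985340) (nat_lit 1292) (nat_lit 32204978991) (nat_lit 378) (nat_lit 5) (nat_lit 377) (nat_lit 5) (nat_lit 394) (nat_lit 5) (nat_lit 412) (nat_lit 408) (nat_lit 200))))) (XT.nd (nat_lit 234) (nat_lit 1824) (nat_lit 0) (XT.nd (nat_lit 78) (nat_lit 0) (nat_lit 76) (XT.lf (nat_lit 76) (nat_lit 3156033253) (nat_lit 0) (nat_lit 98219009632) (nat_lit 1292) (nat_lit 25469325745) (nat_lit 379) (nat_lit 5) (nat_lit 378) (nat_lit 5) (nat_lit 395) (nat_lit 5) (nat_lit 413) (nat_lit 408) (nat_lit 199)) (XT.nd (nat_lit 78) (nat_lit 0) (nat_lit 0) (XT.lf (nat_lit 0) (nat_lit 113556977450) (nat_lit 1216) (nat_lit 14487239961) (nat_lit 1292) (nat_lit 2075952345) (nat_lit 379) (nat_lit 5) (nat_lit 395) (nat_lit 5) (nat_lit 396) (nat_lit 5) (nat_lit 414) (nat_lit 408) (nat_lit 198)) (XT.lf (nat_lit 76) (nat_lit 101156163032) (nat_lit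 0) (nat_lit 27155134853) (nat_lit 1292) (nat_lit 5189564379) (nat_lit 380) (nat_lit 5) (nat_lit 379) (nat_lit 5) (nat_lit 396) (nat_lit 5) (nat_lit 415) (nat_lit 408) (nat_lit 197)))) (XT.nd (nat_lit 156) (nat_lit 684) (nat_lit 0) (XT.nd (nat_lit 78) (nat_lit 0) (nat_lit 76) (XT.lf (nat_lit 0) (nat_lit 8379789339) (nat_lit 1292) (nat_lit 50307957897) (nat_lit 1368) (nat_lit 78308130372) (nat_lit 363) (nat_lit 5) (nat_lit 380) (nat_lit 5) (nat_lit 381) (nat_lit 5) (nat_lit 416) (nat_lit 408) (nat_lit 196)) (XT.lf (nat_lit 0) (nat_lit 24301402777) (nat_lit 1292) (nat_lit 68312747685) (nat_lit 1368) (nat_lit 47996518198) (nat_lit 364) (nat_lit 5) (nat_lit 381) (nat_lit 5) (nat_lit 382) (nat_lit 5) (nat_lit 417) (nat_lit 408) (nat_lit 195))) (XT.nd (nat_lit 78) (nat_lit 836) (nat_lit 0) (XT.lf (nat_lit 0) (nat_lit 42843212450) (nat_lit 1292) (nat_lit 86272074914) (nat_lit 76) (nat_lit 15236188434)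 (nat_lit 365) (nat_lit 5) (nat_lit 382) (nat_lit 5) (nat_lit 366) (nat_lit 5) (nat_lit 418) (nat_lit 408) (nat_lit 194)) (XT.lf (nat_lit 0) (nat_lit 43874548137) (nat_lit 836) (nat_lit 20503902700) (nat_lit 912) (nat_lit 83838882307) (nat_lit 354) (nat_lit 5) (nat_lit 365) (nat_lit 5) (nat_lit 366) (nat_lit 5) (nat_lit 419) (nat_lit 408) (nat_lit 193))))))) (XT.nd (nat_lit 52650) (nat_lit 0) (nat_lit 456) (XT.nd (nat_lit 468) (nat_lit 988) (nat_lit 0) (XT.nd (nat_lit 234) (nat_lit 1216) (nat_lit 0) (XT.nd (nat_lit 78) (nat_lit 1140) (nat_lit 0) (XT.lf (nat_lit 0) (nat_lit 29753830905) (nat_lit 608) (nat_lit 59318310179) (nat_lit 684) (nat_lit 63141891577) (nat_lit 346) (nat_lit 5) (nat_lit 354) (nat_lit 5) (nat_lit 355) (nat_lit 5) (nat_lit 420) (nat_lit 408) (nat_lit 192)) (XT.nd (nat_lit 78) (nat_lit 532) (nat_lit 0) (XT.lf (nat_lit 0) (nat_lit 15922174983) (nat_lit 608) (nat_lit 101050754847)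 (nat_lit 684) (nat_lit 39378464904) (nat_lit 338) (nat_lit 5) (nat_lit 346) (nat_lit 5) (nat_lit 347) (nat_lit 5) (nat_lit 421) (nat_lit 408) (nat_lit 191)) (XT.lf (nat_lit 0) (nat_lit 2434585505) (nat_lit 532) (nat_lit 145855380178) (nat_lit 608) (nat_lit 12345022997) (nat_lit 331) (nat_lit 5) (nat_lit 338) (nat_lit 5) (nat_lit 339) (nat_lit 5) (nat_lit 422) (nat_lit 408) (nat_lit 190)))) (XT.nd (nat_lit 78) (nat_lit 1140) (nat_lit 0) (XT.lf (nat_lit 0) (nat_lit 18206610197) (nat_lit 608) (nat_lit 10902013719) (nat_lit 76) (nat_lit 135945127219) (nat_lit 330) (nat_lit 5) (nat_lit 338) (nat_lit 5) (nat_lit 331) (nat_lit 5) (nat_lit 423) (nat_lit 408) (nat_lit 189)) (XT.nd (nat_lit 78) (nat_lit 532) (nat_lit 0) (XT.lf (nat_lit 0) (nat_lit 52354500586) (nat_lit 684) (nat_lit 24066169367) (nat_lit 76) (nat_lit 93199395233) (nat_lit 322) (nat_lit 5) (nat_lit 331) (nat_lit 5) (nat_lit 323) (nat_lit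 5) (nat_lit 424) (nat_lit 408) (nat_lit 188)) (XT.lf (nat_lit 0) (nat_lit 90406036106) (nat_lit 608) (nat_lit 36777408783) (nat_lit 76) (nat_lit 47165362534) (nat_lit 315) (nat_lit 5) (nat_lit 323) (nat_lit 5) (nat_lit 316) (nat_lit 5) (nat_lit 425) (nat_lit 408) (nat_lit 187))))) (XT.nd (nat_lit 51870) (nat_lit 0) (nat_lit 5548) (XT.nd (nat_lit 78) (nat_lit 456) (nat_lit 0) (XT.lf (nat_lit 0) (nat_lit 130254847152) (nat_lit 532) (nat_lit 2378634695) (nat_lit 608) (nat_lit 46612304921) (nat_lit 308) (nat_lit 5) (nat_lit 315) (nat_lit 5) (nat_lit 316) (nat_lit 5) (nat_lit 426) (nat_lit 408) (nat_lit 186)) (XT.nd (nat_lit 51714) (nat_lit 0) (nat_lit 5472) (XT.lf (nat_lit 0) (nat_lit 123194079320) (nat_lit 456) (nat_lit 56581326256) (nat_lit 532) (nat_lit 4528116332) (nat_lit 302) (nat_lit 5) (nat_lit 308) (nat_lit 5) (nat_lit 309) (nat_lit 5) (nat_lit 427) (nat_lit 408) (nat_lit 185)) (XT.lf (nat_lit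 0) (nat_lit 37129457410) (nat_lit 1292) (nat_lit 10835058680) (nat_lit 1292) (nat_lit 10835058680) (nat_lit 374) (nat_lit 3) (nat_lit 391) (nat_lit 3) (nat_lit 391) (nat_lit 5) (nat_lit 409) (nat_lit 409) (nat_lit 202)))) (XT.nd (nat_lit 156) (nat_lit 0) (nat_lit 76) (XT.nd (nat_lit 78) (nat_lit 0) (nat_lit 0) (XT.lf (nat_lit 0) (nat_lit 76880865979) (nat_lit 1216) (nat_lit 42677612455) (nat_lit 1292) (nat_lit 957685497) (nat_lit 375) (nat_lit 5) (nat_lit 391) (nat_lit 5) (nat_lit 392) (nat_lit 5) (nat_lit 410) (nat_lit 409) (nat_lit 201)) (XT.lf (nat_lit 76) (nat_lit 59391376376) (nat_lit 0) (nat_lit 22006465686) (nat_lit 1292) (nat_lit 42128269156) (nat_lit 376) (nat_lit 5) (nat_lit 375) (nat_lit 5) (nat_lit 392) (nat_lit 5) (nat_lit 411) (nat_lit 409) (nat_lit 200))) (XT.nd (nat_lit 78) (nat_lit 0) (nat_lit 76) (XT.lf (nat_lit 76) (nat_lit 40800731531) (nat_lit 0) (nat_lit 46948417472) (nat_lit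 1292) (nat_lit 38889152407) (nat_lit 377) (nat_lit 5) (nat_lit 376) (nat_lit 5) (nat_lit 393) (nat_lit 5) (nat_lit 412) (nat_lit 409) (nat_lit 199)) (XT.lf (nat_lit 76) (nat_lit 22101978419) (nat_lit 0) (nat_lit 73954179342) (nat_lit 1292) (nat_lit 33800799256) (nat_lit 378) (nat_lit 5) (nat_lit 377) (nat_lit 5) (nat_lit 394) (nat_lit 5) (nat_lit 413) (nat_lit 409) (nat_lit 198)))))) (XT.nd (nat_lit 546) (nat_lit 3496) (nat_lit 0) (XT.nd (nat_lit 234) (nat_lit 1824) (nat_lit 0) (XT.nd (nat_lit 78) (nat_lit 0) (nat_lit 76) (XT.lf (nat_lit 76) (nat_lit 3323237478) (nat_lit 0) (nat_lit 103133945402) (nat_lit 1292) (nat_lit 26729002546) (nat_lit 379) (nat_lit 5) (nat_lit 378) (nat_lit 5) (nat_lit 395) (nat_lit 5) (nat_lit 414) (nat_lit 409) (nat_lit 197)) (XT.nd (nat_lit 78) (nat_lit 0) (nat_lit 0) (XT.lf (nat_lit 0) (nat_lit 119247540172) (nat_lit 1216) (nat_lit 15202228142) (nat_lit 1292) (nat_lit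 2176028514) (nat_lit 379) (nat_lit 5) (nat_lit 395) (nat_lit 5) (nat_lit 396) (nat_lit 5) (nat_lit 415) (nat_lit 409) (nat_lit 196)) (XT.lf (nat_lit 76) (nat_lit 106223076301) (nat_lit 0) (nat_lit 28515982430) (nat_lit 1292) (nat_lit 5436480768) (nat_lit 380) (nat_lit 5) (nat_lit 379) (nat_lit 5) (nat_lit 396) (nat_lit 5) (nat_lit 416) (nat_lit 409) (nat_lit 195)))) (XT.nd (nat_lit 156) (nat_lit 684) (nat_lit 0) (XT.nd (nat_lit 78) (nat_lit 0) (nat_lit 76) (XT.lf (nat_lit 0) (nat_lit 8810570011) (nat_lit 1292) (nat_lit 52813892752) (nat_lit 1368) (nat_lit 82220854990) (nat_lit 363) (nat_lit 5) (nat_lit 380) (nat_lit 5) (nat_lit 381) (nat_lit 5) (nat_lit 417) (nat_lit 409) (nat_lit 194)) (XT.lf (nat_lit 0) (nat_lit 25527770553) (nat_lit 1292) (nat_lit 71718833304) (nat_lit 1368) (nat_lit 50394259308) (nat_lit 364) (nat_lit 5) (nat_lit 381) (nat_lit 5) (nat_lit 382) (nat_lit 5) (nat_lit 418) (nat_lit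 409) (nat_lit 193))) (XT.nd (nat_lit 78) (nat_lit 836) (nat_lit 0) (XT.lf (nat_lit 0) (nat_lit 44996206812) (nat_lit 1292) (nat_lit 90576060129) (nat_lit 76) (nat_lit 15996457635) (nat_lit 365) (nat_lit 5) (nat_lit 382) (nat_lit 5) (nat_lit 366) (nat_lit 5) (nat_lit 419) (nat_lit 409) (nat_lit 192)) (XT.lf (nat_lit 0) (nat_lit 46077618362) (nat_lit 836) (nat_lit 21530162674) (nat_lit 912) (nat_lit 88020106537) (nat_lit 354) (nat_lit 5) (nat_lit 365) (nat_lit 5) (nat_lit 366) (nat_lit 5) (nat_lit 420) (nat_lit 409) (nat_lit 191))))) (XT.nd (nat_lit 234) (nat_lit 1748) (nat_lit 0) (XT.nd (nat_lit 78) (nat_lit 1140) (nat_lit 0) (XT.lf (nat_lit 0) (nat_lit 31250910680) (nat_lit 608) (nat_lit 62284830008) (nat_lit 684) (nat_lit 66288693830) (nat_lit 346) (nat_lit 5) (nat_lit 354) (nat_lit 5) (nat_lit 355) (nat_lit 5) (nat_lit 421) (nat_lit 409) (nat_lit 190)) (XT.nd (nat_lit 78) (nat_lit 532) (nat_lit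 0) (XT.lf (nat_lit 0) (nat_lit 16727699677) (nat_lit 608) (nat_lit 106103478339) (nat_lit 684) (nat_lit 41337498404) (nat_lit 338) (nat_lit 5) (nat_lit 346) (nat_lit 5) (nat_lit 347) (nat_lit 5) (nat_lit 422) (nat_lit 409) (nat_lit 189)) (XT.lf (nat_lit 0) (nat_lit 2565742347) (nat_lit 532) (nat_lit 153147955014) (nat_lit 608) (nat_lit 12952763751) (nat_lit 331) (nat_lit 5) (nat_lit 338) (nat_lit 5) (nat_lit 339) (nat_lit 5) (nat_lit 423) (nat_lit 409) (nat_lit 188)))) (XT.nd (nat_lit 156) (nat_lit 1064) (nat_lit 0) (XT.nd (nat_lit 78) (nat_lit 608) (nat_lit 0) (XT.lf (nat_lit 0) (nat_lit 19125821481) (nat_lit 608) (nat_lit 11437959026) (nat_lit 76) (nat_lit 142742391762) (nat_lit 330) (nat_lit 5) (nat_lit 338) (nat_lit 5) (nat_lit 331) (nat_lit 5) (nat_lit 424) (nat_lit 409) (nat_lit 187)) (XT.lf (nat_lit 0) (nat_lit 54980772341) (nat_lit 684) (nat_lit 25260331952) (nat_lit 76) (nat_lit 97859707751)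 (nat_lit 322) (nat_lit 5) (nat_lit 331) (nat_lit 5) (nat_lit 323) (nat_lit 5) (nat_lit 425) (nat_lit 409) (nat_lit 186))) (XT.nd (nat_lit 78) (nat_lit 532) (nat_lit 0) (XT.lf (nat_lit 0) (nat_lit 94934569376) (nat_lit 608) (nat_lit 38607155081) (nat_lit 76) (nat_lit 49524276394) (nat_lit 315) (nat_lit 5) (nat_lit 323) (nat_lit 5) (nat_lit 316) (nat_lit 5) (nat_lit 426) (nat_lit 409) (nat_lit 185)) (XT.lf (nat_lit 0) (nat_lit 136776452109) (nat_lit 532) (nat_lit 2496628513) (nat_lit 608) (nat_lit 48934757744) (nat_lit 308) (nat_lit 5) (nat_lit 315) (nat_lit 5) (nat_lit 316) (nat_lit 5) (nat_lit 427) (nat_lit 409) (nat_lit 184))))))))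
noncomputable def xc126 : XT := (XT.nd (nat_lit 53976) (nat_lit 0) (nat_lit 608) (XT.nd (nat_lit 1014) (nat_lit 1824) (nat_lit 0) (XT.nd (nat_lit 468) (nat_lit 2128) (nat_lit 0) (XT.nd (nat_lit 234) (nat_lit 0) (nat_lit 152) (XT.nd (nat_lit 78) (nat_lit 0) (nat_lit 76) (XT.lf (nat_lit 0) (nat_lit 38993573534) (nat_lit 1292) (nat_lit 11372875338) (nat_lit 1292) (nat_lit 11372875338) (nat_lit 374) (nat_lit 3) (nat_lit 391) (nat_lit 3) (nat_lit 391) (nat_lit 5) (nat_lit 410) (nat_lit 410) (nat_lit 200)) (XT.nd (nat_lit 78) (nat_lit 0) (nat_lit 0) (XT.lf (nat_lit 0) (nat_lit 80739474216) (nat_lit 1216) (nat_lit 44803340083) (nat_lit 1292) (nat_lit 998720880) (nat_lit 375) (nat_lit 5) (nat_lit 391) (nat_lit 5) (nat_lit 392) (nat_lit 5) (nat_lit 411) (nat_lit 410) (nat_lit 199)) (XT.lf (nat_lit 76) (nat_lit 62368864486) (nat_lit 0) (nat_lit 23112817175) (nat_lit 1292) (nat_lit 44220316694) (nat_lit 376)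 (nat_lit 5) (nat_lit 375) (nat_lit 5) (nat_lit 392) (nat_lit 5) (nat_lit 412) (nat_lit 410) (nat_lit 198)))) (XT.nd (nat_lit 78) (nat_lit 0) (nat_lit 76) (XT.lf (nat_lit 76) (nat_lit 42848923110) (nat_lit 0) (nat_lit 49300989875) (nat_lit 1292) (nat_lit 40819904299) (nat_lit 377) (nat_lit 5) (nat_lit 376) (nat_lit 5) (nat_lit 393) (nat_lit 5) (nat_lit 413) (nat_lit 410) (nat_lit 197)) (XT.nd (nat_lit 78) (nat_lit 0) (nat_lit 76) (XT.lf (nat_lit 76) (nat_lit 23215434434) (nat_lit 0) (nat_lit 77656237275) (nat_lit 1292) (nat_lit 35477751978) (nat_lit 378) (nat_lit 5) (nat_lit 377) (nat_lit 5) (nat_lit 394) (nat_lit 5) (nat_lit 414) (nat_lit 410) (nat_lit 196)) (XT.lf (nat_lit 76) (nat_lit 3497927754) (nat_lit 0) (nat_lit 108294257446) (nat_lit 1292) (nat_lit 28052945203) (nat_lit 379) (nat_lit 5) (nat_lit 378) (nat_lit 5) (nat_lit 395) (nat_lit 5) (nat_lit 415) (nat_lit 410) (nat_lit 195))))) (XT.nd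 (nat_lit 234) (nat_lit 1292) (nat_lit 0) (XT.nd (nat_lit 78) (nat_lit 1216) (nat_lit 0) (XT.lf (nat_lit 0) (nat_lit 125221449017) (nat_lit 1216) (nat_lit 15953837221) (nat_lit 1292) (nat_lit 2281454476) (nat_lit 379) (nat_lit 5) (nat_lit 395) (nat_lit 5) (nat_lit 396) (nat_lit 5) (nat_lit 416) (nat_lit 410) (nat_lit 194)) (XT.nd (nat_lit 78) (nat_lit 1216) (nat_lit 0) (XT.lf (nat_lit 76) (nat_lit 111542488727) (nat_lit 0) (nat_lit 29944585029) (nat_lit 1292) (nat_lit 5696910855) (nat_lit 380) (nat_lit 5) (nat_lit 379) (nat_lit 5) (nat_lit 396) (nat_lit 5) (nat_lit 417) (nat_lit 410) (nat_lit 193)) (XT.lf (nat_lit 0) (nat_lit 9261793482) (nat_lit 1292) (nat_lit 55446004134) (nat_lit 1368) (nat_lit 86329465176) (nat_lit 363) (nat_lit 5) (nat_lit 380) (nat_lit 5) (nat_lit 381) (nat_lit 5) (nat_lit 418) (nat_lit 410) (nat_lit 192)))) (XT.nd (nat_lit 156) (nat_lit 1368) (nat_lit 0) (XT.nd (nat_lit 78)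 (nat_lit 0) (nat_lit 76) (XT.lf (nat_lit 0) (nat_lit 26814406370) (nat_lit 1292) (nat_lit 75296111237) (nat_lit 1368) (nat_lit 52912081297) (nat_lit 364) (nat_lit 5) (nat_lit 381) (nat_lit 5) (nat_lit 382) (nat_lit 5) (nat_lit 419) (nat_lit 410) (nat_lit 191)) (XT.lf (nat_lit 0) (nat_lit 47255843673) (nat_lit 1292) (nat_lit 95096138844) (nat_lit 76) (nat_lit 16794883491) (nat_lit 365) (nat_lit 5) (nat_lit 382) (nat_lit 5) (nat_lit 366) (nat_lit 5) (nat_lit 420) (nat_lit 410) (nat_lit 190))) (XT.nd (nat_lit 78) (nat_lit 608) (nat_lit 0) (XT.lf (nat_lit 0) (nat_lit 48389973491) (nat_lit 836) (nat_lit 22607636647) (nat_lit 912) (nat_lit 92411388611) (nat_lit 354) (nat_lit 5) (nat_lit 365) (nat_lit 5) (nat_lit 366) (nat_lit 5) (nat_lit 421) (nat_lit 410) (nat_lit 189)) (XT.lf (nat_lit 0) (nat_lit 32821971616) (nat_lit 608) (nat_lit 65399619645) (nat_lit 684) (nat_lit 69593793077) (nat_lit 346) (nat_lit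 5) (nat_lit 354) (nat_lit 5) (nat_lit 355) (nat_lit 5) (nat_lit 422) (nat_lit 410) (nat_lit 188)))))) (XT.nd (nat_lit 52416) (nat_lit 0) (nat_lit 3116) (XT.nd (nat_lit 234) (nat_lit 608) (nat_lit 0) (XT.nd (nat_lit 78) (nat_lit 608) (nat_lit 0) (XT.lf (nat_lit 0) (nat_lit 17572625200) (nat_lit 608) (nat_lit 111408820736) (nat_lit 684) (nat_lit 43395403034) (nat_lit 338) (nat_lit 5) (nat_lit 346) (nat_lit 5) (nat_lit 347) (nat_lit 5) (nat_lit 423) (nat_lit 410) (nat_lit 187)) (XT.nd (nat_lit 78) (nat_lit 76) (nat_lit 0) (XT.lf (nat_lit 0) (nat_lit 2702580545) (nat_lit 532) (nat_lit 160805176644) (nat_lit 608) (nat_lit 13591775730) (nat_lit 331) (nat_lit 5) (nat_lit 338) (nat_lit 5) (nat_lit 339) (nat_lit 5) (nat_lit 424) (nat_lit 410) (nat_lit 186)) (XT.lf (nat_lit 0) (nat_lit 20090167679) (nat_lit 608) (nat_lit 12001552778) (nat_lit 76) (nat_lit 149879518771) (nat_lit 330) (nat_lit 5) (nat_lit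 338) (nat_lit 5) (nat_lit 331) (nat_lit 5) (nat_lit 425) (nat_lit 410) (nat_lit 185)))) (XT.nd (nat_lit 52026) (nat_lit 0) (nat_lit 4028) (XT.nd (nat_lit 51948) (nat_lit 0) (nat_lit 3952) (XT.lf (nat_lit 0) (nat_lit 57737563089) (nat_lit 684) (nat_lit 26515052964) (nat_lit 76) (nat_lit 102753004029) (nat_lit 322) (nat_lit 5) (nat_lit 331) (nat_lit 5) (nat_lit 323) (nat_lit 5) (nat_lit 426) (nat_lit 410) (nat_lit 184)) (XT.lf (nat_lit 0) (nat_lit 40950184867) (nat_lit 1292) (nat_lit 11937948787) (nat_lit 1292) (nat_lit 11937948787) (nat_lit 374) (nat_lit 3) (nat_lit 391) (nat_lit 3) (nat_lit 391) (nat_lit 5) (nat_lit 411) (nat_lit 411) (nat_lit 198))) (XT.nd (nat_lit 78) (nat_lit 0) (nat_lit 0) (XT.lf (nat_lit 0) (nat_lit 84789658756) (nat_lit 1216) (nat_lit 47036112080) (nat_lit 1292) (nat_lit 1042444777) (nat_lit 375) (nat_lit 5) (nat_lit 391) (nat_lit 5) (nat_lit 392) (nat_lit 5) (nat_lit 412)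 (nat_lit 411) (nat_lit 197)) (XT.lf (nat_lit 76) (nat_lit 65494490740) (nat_lit 0) (nat_lit 24273925794) (nat_lit 1292) (nat_lit 46418302215) (nat_lit 376) (nat_lit 5) (nat_lit 375) (nat_lit 5) (nat_lit 392) (nat_lit 5) (nat_lit 413) (nat_lit 411) (nat_lit 196))))) (XT.nd (nat_lit 234) (nat_lit 988) (nat_lit 0) (XT.nd (nat_lit 78) (nat_lit 0) (nat_lit 76) (XT.lf (nat_lit 76) (nat_lit 44998766093) (nat_lit 0) (nat_lit 51770711959) (nat_lit 1292) (nat_lit 42848468014) (nat_lit 377) (nat_lit 5) (nat_lit 376) (nat_lit 5) (nat_lit 393) (nat_lit 5) (nat_lit 414) (nat_lit 411) (nat_lit 195)) (XT.nd (nat_lit 78) (nat_lit 0) (nat_lit 76) (XT.lf (nat_lit 76) (nat_lit 24383786286) (nat_lit 0) (nat_lit 81542993779) (nat_lit 1292) (nat_lit 37239769062) (nat_lit 378) (nat_lit 5) (nat_lit 377) (nat_lit 5) (nat_lit 394) (nat_lit 5) (nat_lit 415) (nat_lit 411) (nat_lit 194)) (XT.lf (nat_lit 76) (nat_lit 3680559653)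 (nat_lit 0) (nat_lit 113712249024) (nat_lit 1292) (nat_lit 29444247818) (nat_lit 379) (nat_lit 5) (nat_lit 378) (nat_lit 5) (nat_lit 395) (nat_lit 5) (nat_lit 416) (nat_lit 411) (nat_lit 193)))) (XT.nd (nat_lit 156) (nat_lit 1216) (nat_lit 0) (XT.nd (nat_lit 78) (nat_lit 0) (nat_lit 0) (XT.lf (nat_lit 0) (nat_lit 131492981183) (nat_lit 1216) (nat_lit 16743817220) (nat_lit 1292) (nat_lit 2392465555) (nat_lit 379) (nat_lit 5) (nat_lit 395) (nat_lit 5) (nat_lit 396) (nat_lit 5) (nat_lit 417) (nat_lit 411) (nat_lit 192)) (XT.lf (nat_lit 76) (nat_lit 117127103966) (nat_lit 0) (nat_lit 31444357117) (nat_lit 1292) (nat_lit 5971421749) (nat_lit 380) (nat_lit 5) (nat_lit 379) (nat_lit 5) (nat_lit 396) (nat_lit 5) (nat_lit 418) (nat_lit 411) (nat_lit 191))) (XT.nd (nat_lit 78) (nat_lit 0) (nat_lit 76) (XT.lf (nat_lit 0) (nat_lit 9734583810) (nat_lit 1292) (nat_lit 58210519074) (nat_lit 1368) (nat_lit 90643732027)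 (nat_lit 363) (nat_lit 5) (nat_lit 380) (nat_lit 5) (nat_lit 381) (nat_lit 5) (nat_lit 419) (nat_lit 411) (nat_lit 190)) (XT.lf (nat_lit 0) (nat_lit 28164421282) (nat_lit 1292) (nat_lit 79053058538) (nat_lit 1368) (nat_lit 55555970191) (nat_lit 364) (nat_lit 5) (nat_lit 381) (nat_lit 5) (nat_lit 382) (nat_lit 5) (nat_lit 420) (nat_lit 411) (nat_lit 189))))))) (XT.nd (nat_lit 52962) (nat_lit 0) (nat_lit 608) (XT.nd (nat_lit 52416) (nat_lit 0) (nat_lit 3344) (XT.nd (nat_lit 234) (nat_lit 1216) (nat_lit 0) (XT.nd (nat_lit 78) (nat_lit 1444) (nat_lit 0) (XT.lf (nat_lit 0) (nat_lit 49627548801) (nat_lit 1292) (nat_lit 99843032597) (nat_lit 76) (nat_lit 17633360522) (nat_lit 365) (nat_lit 5) (nat_lit 382) (nat_lit 5) (nat_lit 366) (nat_lit 5) (nat_lit 421) (nat_lit 411) (nat_lit 188)) (XT.nd (nat_lit 78) (nat_lit 608) (nat_lit 0) (XT.lf (nat_lit 0) (nat_lit 50817158525) (nat_lit 836) (nat_lit 23738894524)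 (nat_lit 912) (nat_lit 97023138766) (nat_lit 354) (nat_lit 5) (nat_lit 365) (nat_lit 5) (nat_lit 366) (nat_lit 5) (nat_lit 422) (nat_lit 411) (nat_lit 187)) (XT.lf (nat_lit 0) (nat_lit 34470793917) (nat_lit 608) (nat_lit 68670097803) (nat_lit 684) (nat_lit 73065015208) (nat_lit 346) (nat_lit 5) (nat_lit 354) (nat_lit 5) (nat_lit 355) (nat_lit 5) (nat_lit 423) (nat_lit 411) (nat_lit 186)))) (XT.nd (nat_lit 78) (nat_lit 608) (nat_lit 0) (XT.lf (nat_lit 0) (nat_lit 18459002980) (nat_lit 608) (nat_lit 116979414590) (nat_lit 684) (nat_lit 45557036869) (nat_lit 338) (nat_lit 5) (nat_lit 346) (nat_lit 5) (nat_lit 347) (nat_lit 5) (nat_lit 424) (nat_lit 411) (nat_lit 185)) (XT.nd (nat_lit 78) (nat_lit 76) (nat_lit 0) (XT.lf (nat_lit 0) (nat_lit 2845465654) (nat_lit 532) (nat_lit 168845275730) (nat_lit 608) (nat_lit 14263540291) (nat_lit 331) (nat_lit 5) (nat_lit 338) (nat_lit 5) (nat_lit 339) (nat_lit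 5) (nat_lit 425) (nat_lit 411) (nat_lit 184)) (XT.lf (nat_lit 0) (nat_lit 21101982298) (nat_lit 608) (nat_lit 12594098263) (nat_lit 76) (nat_lit 157373501441) (nat_lit 330) (nat_lit 5) (nat_lit 338) (nat_lit 5) (nat_lit 331) (nat_lit 5) (nat_lit 426) (nat_lit 411) (nat_lit 183))))) (XT.nd (nat_lit 234) (nat_lit 0) (nat_lit 152) (XT.nd (nat_lit 78) (nat_lit 0) (nat_lit 76) (XT.lf (nat_lit 0) (nat_lit 43003982234) (nat_lit 1292) (nat_lit 12531607843) (nat_lit 1292) (nat_lit 12531607843) (nat_lit 374) (nat_lit 3) (nat_lit 391) (nat_lit 3) (nat_lit 391) (nat_lit 5) (nat_lit 412) (nat_lit 412) (nat_lit 196)) (XT.nd (nat_lit 78) (nat_lit 0) (nat_lit 0) (XT.lf (nat_lit 0) (nat_lit 89041124305) (nat_lit 1216) (nat_lit 49381210196) (nat_lit 1292) (nat_lit 1088932415) (nat_lit 375) (nat_lit 5) (nat_lit 391) (nat_lit 5) (nat_lit 392) (nat_lit 5) (nat_lit 413) (nat_lit 412) (nat_lit 195)) (XT.lf (nat_lit 76)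 (nat_lit 68775730497) (nat_lit 0) (nat_lit 25492581502) (nat_lit 1292) (nat_lit 48727398448) (nat_lit 376) (nat_lit 5) (nat_lit 375) (nat_lit 5) (nat_lit 392) (nat_lit 5) (nat_lit 414) (nat_lit 412) (nat_lit 194)))) (XT.nd (nat_lit 156) (nat_lit 0) (nat_lit 152) (XT.nd (nat_lit 78) (nat_lit 0) (nat_lit 76) (XT.lf (nat_lit 76) (nat_lit 47255413539) (nat_lit 0) (nat_lit 54363485733) (nat_lit 1292) (nat_lit 44979615679) (nat_lit 377) (nat_lit 5) (nat_lit 376) (nat_lit 5) (nat_lit 393) (nat_lit 5) (nat_lit 415) (nat_lit 412) (nat_lit 193)) (XT.lf (nat_lit 76) (nat_lit 25609851003) (nat_lit 0) (nat_lit 85623721372) (nat_lit 1292) (nat_lit 39090990609) (nat_lit 378) (nat_lit 5) (nat_lit 377) (nat_lit 5) (nat_lit 394) (nat_lit 5) (nat_lit 416) (nat_lit 412) (nat_lit 192))) (XT.nd (nat_lit 78) (nat_lit 0) (nat_lit 76) (XT.lf (nat_lit 76) (nat_lit 3871603973) (nat_lit 0) (nat_lit 119400835359) (nat_lit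 1292) (nat_lit 30906170282) (nat_lit 379) (nat_lit 5) (nat_lit 378) (nat_lit 5) (nat_lit 395) (nat_lit 5) (nat_lit 417) (nat_lit 412) (nat_lit 191)) (XT.lf (nat_lit 0) (nat_lit 138077117513) (nat_lit 1216) (nat_lit 17574013195) (nat_lit 1292) (nat_lit 2509311831) (nat_lit 379) (nat_lit 5) (nat_lit 395) (nat_lit 5) (nat_lit 396) (nat_lit 5) (nat_lit 418) (nat_lit 412) (nat_lit 190)))))) (XT.nd (nat_lit 52650) (nat_lit 0) (nat_lit 2736) (XT.nd (nat_lit 234) (nat_lit 1900) (nat_lit 0) (XT.nd (nat_lit 78) (nat_lit 1216) (nat_lit 0) (XT.lf (nat_lit 76) (nat_lit 122990253544) (nat_lit 0) (nat_lit 33018881401) (nat_lit 1292) (nat_lit 6260619005) (nat_lit 380) (nat_lit 5) (nat_lit 379) (nat_lit 5) (nat_lit 396) (nat_lit 5) (nat_lit 419) (nat_lit 412) (nat_lit 189)) (XT.nd (nat_lit 78) (nat_lit 0) (nat_lit 76) (XT.lf (nat_lit 0) (nat_lit 10230111779) (nat_lit 1292) (nat_lit 61113983562) (nat_lit 1368) (nat_lit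 95173917353) (nat_lit 363) (nat_lit 5) (nat_lit 380) (nat_lit 5) (nat_lit 381) (nat_lit 5) (nat_lit 420) (nat_lit 412) (nat_lit 188)) (XT.lf (nat_lit 0) (nat_lit 29581072817) (nat_lit 1292) (nat_lit 82998583791) (nat_lit 1368) (nat_lit 58332212990) (nat_lit 364) (nat_lit 5) (nat_lit 381) (nat_lit 5) (nat_lit 382) (nat_lit 5) (nat_lit 421) (nat_lit 412) (nat_lit 187)))) (XT.nd (nat_lit 156) (nat_lit 1216) (nat_lit 0) (XT.nd (nat_lit 78) (nat_lit 836) (nat_lit 0) (XT.lf (nat_lit 0) (nat_lit 52117010545) (nat_lit 1292) (nat_lit 104828006731) (nat_lit 76) (nat_lit 18513879212) (nat_lit 365) (nat_lit 5) (nat_lit 382) (nat_lit 5) (nat_lit 366) (nat_lit 5) (nat_lit 422) (nat_lit 412) (nat_lit 186)) (XT.lf (nat_lit 0) (nat_lit 53364988206) (nat_lit 836) (nat_lit 24926633849) (nat_lit 912) (nat_lit 101866296360) (nat_lit 354) (nat_lit 5) (nat_lit 365) (nat_lit 5) (nat_lit 366) (nat_lit 5) (nat_lit 423)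 (nat_lit 412) (nat_lit 185))) (XT.nd (nat_lit 78) (nat_lit 608) (nat_lit 0) (XT.lf (nat_lit 0) (nat_lit 36201339254) (nat_lit 608) (nat_lit 72104053646) (nat_lit 684) (nat_lit 76710585676) (nat_lit 346) (nat_lit 5) (nat_lit 354) (nat_lit 5) (nat_lit 355) (nat_lit 5) (nat_lit 424) (nat_lit 412) (nat_lit 184)) (XT.lf (nat_lit 0) (nat_lit 19388979452) (nat_lit 608) (nat_lit 122828523929) (nat_lit 684) (nat_lit 47827508832) (nat_lit 338) (nat_lit 5) (nat_lit 346) (nat_lit 5) (nat_lit 347) (nat_lit 5) (nat_lit 425) (nat_lit 412) (nat_lit 183))))) (XT.nd (nat_lit 234) (nat_lit 0) (nat_lit 152) (XT.nd (nat_lit 78) (nat_lit 0) (nat_lit 76) (XT.lf (nat_lit 0) (nat_lit 45159884859) (nat_lit 1292) (nat_lit 13155250926) (nat_lit 1292) (nat_lit 13155250926) (nat_lit 374) (nat_lit 3) (nat_lit 391) (nat_lit 3) (nat_lit 391) (nat_lit 5) (nat_lit 413) (nat_lit 413) (nat_lit 194)) (XT.nd (nat_lit 78) (nat_lit 0)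 (nat_lit 0) (XT.lf (nat_lit 0) (nat_lit 93504049102) (nat_lit 1216) (nat_lit 51844186815) (nat_lit 1292) (nat_lit 1138268287) (nat_lit 375) (nat_lit 5) (nat_lit 391) (nat_lit 5) (nat_lit 392) (nat_lit 5) (nat_lit 414) (nat_lit 413) (nat_lit 193)) (XT.lf (nat_lit 76) (nat_lit 72220426519) (nat_lit 0) (nat_lit 26771708916) (nat_lit 1292) (nat_lit 51153048300) (nat_lit 376) (nat_lit 5) (nat_lit 375) (nat_lit 5) (nat_lit 392) (nat_lit 5) (nat_lit 415) (nat_lit 413) (nat_lit 192)))) (XT.nd (nat_lit 156) (nat_lit 0) (nat_lit 152) (XT.nd (nat_lit 78) (nat_lit 0) (nat_lit 76) (XT.lf (nat_lit 76) (nat_lit 49624269604) (nat_lit 0) (nat_lit 57085504171) (nat_lit 1292) (nat_lit 47218369037) (nat_lit 377) (nat_lit 5) (nat_lit 376) (nat_lit 5) (nat_lit 393) (nat_lit 5) (nat_lit 416) (nat_lit 413) (nat_lit 191)) (XT.lf (nat_lit 76) (nat_lit 26896579745) (nat_lit 0) (nat_lit 89908152706) (nat_lit 1292) (nat_lit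 41035774239) (nat_lit 378) (nat_lit 5) (nat_lit 377) (nat_lit 5) (nat_lit 394) (nat_lit 5) (nat_lit 417) (nat_lit 413) (nat_lit 190))) (XT.nd (nat_lit 78) (nat_lit 0) (nat_lit 76) (XT.lf (nat_lit 76) (nat_lit 4071548196) (nat_lit 0) (nat_lit 125373574527) (nat_lit 1292) (nat_lit 32442145529) (nat_lit 379) (nat_lit 5) (nat_lit 378) (nat_lit 5) (nat_lit 395) (nat_lit 5) (nat_lit 418) (nat_lit 413) (nat_lit 189)) (XT.lf (nat_lit 0) (nat_lit 144989578622) (nat_lit 1216) (nat_lit 18446369287) (nat_lit 1292) (nat_lit 2632258600) (nat_lit 379) (nat_lit 5) (nat_lit 395) (nat_lit 5) (nat_lit 396) (nat_lit 5) (nat_lit 419) (nat_lit 413) (nat_lit 188))))))))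
noncomputable def xc127 : XT := (XT.nd (nat_lit 106548) (nat_lit 0) (nat_lit 1292) (XT.nd (nat_lit 53196) (nat_lit 0) (nat_lit 608) (XT.nd (nat_lit 52650) (nat_lit 0) (nat_lit 2128) (XT.nd (nat_lit 234) (nat_lit 1292) (nat_lit 0) (XT.nd (nat_lit 78) (nat_lit 1216) (nat_lit 0) (XT.lf (nat_lit 76) (nat_lit 129145928923) (nat_lit 0) (nat_lit 34671917469) (nat_lit 1292) (nat_lit 6565147614) (nat_lit 380) (nat_lit 5) (nat_lit 379) (nat_lit 5) (nat_lit 396) (nat_lit 5) (nat_lit 420) (nat_lit 413) (nat_lit 187)) (XT.nd (nat_lit 78) (nat_lit 0) (nat_lit 76) (XT.lf (nat_lit 0) (nat_lit 10749598120) (nat_lit 1292) (nat_lit 64163277782) (nat_lit 1368) (nat_lit 99930798004) (nat_lit 363) (nat_lit 5) (nat_lit 380) (nat_lit 5) (nat_lit 381) (nat_lit 5) (nat_lit 421) (nat_lit 413) (nat_lit 186)) (XT.lf (nat_lit 0) (nat_lit 31067773143) (nat_lit 1292) (nat_lit 87142047970) (nat_lit 1368) (nat_lit 61247412564)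 (nat_lit 364) (nat_lit 5) (nat_lit 381) (nat_lit 5) (nat_lit 382) (nat_lit 5) (nat_lit 422) (nat_lit 413) (nat_lit 185)))) (XT.nd (nat_lit 78) (nat_lit 1444) (nat_lit 0) (XT.lf (nat_lit 0) (nat_lit 54730193773) (nat_lit 1292) (nat_lit 110062896867) (nat_lit 76) (nat_lit 19438530691) (nat_lit 365) (nat_lit 5) (nat_lit 382) (nat_lit 5) (nat_lit 366) (nat_lit 5) (nat_lit 423) (nat_lit 413) (nat_lit 184)) (XT.nd (nat_lit 78) (nat_lit 608) (nat_lit 0) (XT.lf (nat_lit 0) (nat_lit 56039561203) (nat_lit 836) (nat_lit 26173686266) (nat_lit 912) (nat_lit 106952355538) (nat_lit 354) (nat_lit 5) (nat_lit 365) (nat_lit 5) (nat_lit 366) (nat_lit 5) (nat_lit 424) (nat_lit 413) (nat_lit 183)) (XT.lf (nat_lit 0) (nat_lit 38017760540) (nat_lit 608) (nat_lit 75709665356) (nat_lit 684) (nat_lit 80539148708) (nat_lit 346) (nat_lit 5) (nat_lit 354) (nat_lit 5) (nat_lit 355) (nat_lit 5) (nat_lit 425) (nat_lit 413) (nat_lit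 182))))) (XT.nd (nat_lit 234) (nat_lit 0) (nat_lit 152) (XT.nd (nat_lit 78) (nat_lit 0) (nat_lit 76) (XT.lf (nat_lit 0) (nat_lit 47423052357) (nat_lit 1292) (nat_lit 13810349246) (nat_lit 1292) (nat_lit 13810349246) (nat_lit 374) (nat_lit 3) (nat_lit 391) (nat_lit 3) (nat_lit 391) (nat_lit 5) (nat_lit 414) (nat_lit 414) (nat_lit 192)) (XT.nd (nat_lit 78) (nat_lit 0) (nat_lit 0) (XT.lf (nat_lit 0) (nat_lit 98189109681) (nat_lit 1216) (nat_lit 54430877888) (nat_lit 1292) (nat_lit 1190546101) (nat_lit 375) (nat_lit 5) (nat_lit 391) (nat_lit 5) (nat_lit 392) (nat_lit 5) (nat_lit 415) (nat_lit 414) (nat_lit 191)) (XT.lf (nat_lit 76) (nat_lit 75836807933) (nat_lit 0) (nat_lit 28114374488) (nat_lit 1292) (nat_lit 53700977294) (nat_lit 376) (nat_lit 5) (nat_lit 375) (nat_lit 5) (nat_lit 392) (nat_lit 5) (nat_lit 416) (nat_lit 414) (nat_lit 190)))) (XT.nd (nat_lit 156) (nat_lit 0) (nat_lit 152) (XT.nd (nat_lit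 78) (nat_lit 0) (nat_lit 76) (XT.lf (nat_lit 76) (nat_lit 52111002711) (nat_lit 0) (nat_lit 59943266138) (nat_lit 1292) (nat_lit 49570010913) (nat_lit 377) (nat_lit 5) (nat_lit 376) (nat_lit 5) (nat_lit 393) (nat_lit 5) (nat_lit 417) (nat_lit 414) (nat_lit 189)) (XT.lf (nat_lit 76) (nat_lit 28247065143) (nat_lit 0) (nat_lit 94406503893) (nat_lit 1292) (nat_lit 43078704990) (nat_lit 378) (nat_lit 5) (nat_lit 377) (nat_lit 5) (nat_lit 394) (nat_lit 5) (nat_lit 418) (nat_lit 414) (nat_lit 188))) (XT.nd (nat_lit 78) (nat_lit 0) (nat_lit 76) (XT.lf (nat_lit 76) (nat_lit 4280897964) (nat_lit 0) (nat_lit 131644699874) (nat_lit 1292) (nat_lit 34055787257) (nat_lit 379) (nat_lit 5) (nat_lit 378) (nat_lit 5) (nat_lit 395) (nat_lit 5) (nat_lit 419) (nat_lit 414) (nat_lit 187)) (XT.lf (nat_lit 0) (nat_lit 152246862754) (nat_lit 1216) (nat_lit 19362933041) (nat_lit 1292) (nat_lit 2761586883) (nat_lit 379) (nat_lit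 5) (nat_lit 395) (nat_lit 5) (nat_lit 396) (nat_lit 5) (nat_lit 420) (nat_lit 414) (nat_lit 186)))))) (XT.nd (nat_lit 52806) (nat_lit 0) (nat_lit 684) (XT.nd (nat_lit 234) (nat_lit 684) (nat_lit 0) (XT.nd (nat_lit 78) (nat_lit 1216) (nat_lit 0) (XT.lf (nat_lit 76) (nat_lit 135608815122) (nat_lit 0) (nat_lit 36407410847) (nat_lit 1292) (nat_lit 6885693121) (nat_lit 380) (nat_lit 5) (nat_lit 379) (nat_lit 5) (nat_lit 396) (nat_lit 5) (nat_lit 421) (nat_lit 414) (nat_lit 185)) (XT.nd (nat_lit 78) (nat_lit 0) (nat_lit 76) (XT.lf (nat_lit 0) (nat_lit 11294316803) (nat_lit 1292) (nat_lit 67365632186) (nat_lit 1368) (nat_lit 104925691449) (nat_lit 363) (nat_lit 5) (nat_lit 380) (nat_lit 5) (nat_lit 381) (nat_lit 5) (nat_lit 422) (nat_lit 414) (nat_lit 184)) (XT.lf (nat_lit 0) (nat_lit 32628097570) (nat_lit 1292) (nat_lit 91493286413) (nat_lit 1368) (nat_lit 64308503306) (nat_lit 364) (nat_lit 5) (nat_lit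 381) (nat_lit 5) (nat_lit 382) (nat_lit 5) (nat_lit 423) (nat_lit 414) (nat_lit 183)))) (XT.nd (nat_lit 52416) (nat_lit 0) (nat_lit 1520) (XT.nd (nat_lit 78) (nat_lit 836) (nat_lit 0) (XT.lf (nat_lit 0) (nat_lit 57473354438) (nat_lit 1292) (nat_lit 115560136767) (nat_lit 76) (nat_lit 20409511664) (nat_lit 365) (nat_lit 5) (nat_lit 382) (nat_lit 5) (nat_lit 366) (nat_lit 5) (nat_lit 424) (nat_lit 414) (nat_lit 182)) (XT.lf (nat_lit 0) (nat_lit 58847274943) (nat_lit 836) (nat_lit 27483024298) (nat_lit 912) (nat_lit 112293392235) (nat_lit 354) (nat_lit 5) (nat_lit 365) (nat_lit 5) (nat_lit 366) (nat_lit 5) (nat_lit 425) (nat_lit 414) (nat_lit 181))) (XT.nd (nat_lit 78) (nat_lit 0) (nat_lit 76) (XT.lf (nat_lit 0) (nat_lit 49798897270) (nat_lit 1292) (nat_lit 14498450176) (nat_lit 1292) (nat_lit 14498450176) (nat_lit 374) (nat_lit 3) (nat_lit 391) (nat_lit 3) (nat_lit 391) (nat_lit 5) (nat_lit 415)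 (nat_lit 415) (nat_lit 190)) (XT.lf (nat_lit 0) (nat_lit 103107506774) (nat_lit 1216) (nat_lit 57147416551) (nat_lit 1292) (nat_lit 1245868781) (nat_lit 375) (nat_lit 5) (nat_lit 391) (nat_lit 5) (nat_lit 392) (nat_lit 5) (nat_lit 416) (nat_lit 415) (nat_lit 189))))) (XT.nd (nat_lit 234) (nat_lit 912) (nat_lit 0) (XT.nd (nat_lit 78) (nat_lit 0) (nat_lit 76) (XT.lf (nat_lit 76) (nat_lit 79633510087) (nat_lit 0) (nat_lit 29523794008) (nat_lit 1292) (nat_lit 56377206730) (nat_lit 376) (nat_lit 5) (nat_lit 375) (nat_lit 5) (nat_lit 392) (nat_lit 5) (nat_lit 417) (nat_lit 415) (nat_lit 188)) (XT.nd (nat_lit 78) (nat_lit 0) (nat_lit 76) (XT.lf (nat_lit 76) (nat_lit 54721559310) (nat_lit 0) (nat_lit 62943592037) (nat_lit 1292) (nat_lit 52040097330) (nat_lit 377) (nat_lit 5) (nat_lit 376) (nat_lit 5) (nat_lit 393) (nat_lit 5) (nat_lit 418) (nat_lit 415) (nat_lit 187)) (XT.lf (nat_lit 76) (nat_lit 29664548931)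 (nat_lit 0) (nat_lit 99129498975) (nat_lit 1292) (nat_lit 45224605809) (nat_lit 378) (nat_lit 5) (nat_lit 377) (nat_lit 5) (nat_lit 394) (nat_lit 5) (nat_lit 419) (nat_lit 415) (nat_lit 186)))) (XT.nd (nat_lit 156) (nat_lit 1140) (nat_lit 0) (XT.nd (nat_lit 78) (nat_lit 0) (nat_lit 76) (XT.lf (nat_lit 76) (nat_lit 4500178561) (nat_lit 0) (nat_lit 138229154026) (nat_lit 1292) (nat_lit 35750898118) (nat_lit 379) (nat_lit 5) (nat_lit 378) (nat_lit 5) (nat_lit 395) (nat_lit 5) (nat_lit 420) (nat_lit 415) (nat_lit 185)) (XT.lf (nat_lit 0) (nat_lit 159866285439) (nat_lit 1216) (nat_lit 20325860002) (nat_lit 1292) (nat_lit 2897593986) (nat_lit 379) (nat_lit 5) (nat_lit 395) (nat_lit 5) (nat_lit 396) (nat_lit 5) (nat_lit 421) (nat_lit 415) (nat_lit 184))) (XT.nd (nat_lit 78) (nat_lit 1216) (nat_lit 0) (XT.lf (nat_lit 76) (nat_lit 142394325948) (nat_lit 0) (nat_lit 38229502481) (nat_lit 1292) (nat_lit 7222982879)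 (nat_lit 380) (nat_lit 5) (nat_lit 379) (nat_lit 5) (nat_lit 396) (nat_lit 5) (nat_lit 422) (nat_lit 415) (nat_lit 183)) (XT.lf (nat_lit 0) (nat_lit 11865598427) (nat_lit 1292) (nat_lit 70728644421) (nat_lit 1368) (nat_lit 110170482639) (nat_lit 363) (nat_lit 5) (nat_lit 380) (nat_lit 5) (nat_lit 381) (nat_lit 5) (nat_lit 423) (nat_lit 415) (nat_lit 182))))))) (XT.nd (nat_lit 105924) (nat_lit 0) (nat_lit 836) (XT.nd (nat_lit 52884) (nat_lit 76) (nat_lit 0) (XT.nd (nat_lit 52650) (nat_lit 0) (nat_lit 836) (XT.nd (nat_lit 52494) (nat_lit 0) (nat_lit 760) (XT.lf (nat_lit 0) (nat_lit 34265793395) (nat_lit 1292) (nat_lit 96062631953) (nat_lit 1368) (nat_lit 67522767576) (nat_lit 364) (nat_lit 5) (nat_lit 381) (nat_lit 5) (nat_lit 382) (nat_lit 5) (nat_lit 424) (nat_lit 415) (nat_lit 181)) (XT.nd (nat_lit 78) (nat_lit 0) (nat_lit 76) (XT.lf (nat_lit 0) (nat_lit 52293098183) (nat_lit 1292) (nat_lit 15221180819)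 (nat_lit 1292) (nat_lit 15221180819) (nat_lit 374) (nat_lit 3) (nat_lit 391) (nat_lit 3) (nat_lit 391) (nat_lit 5) (nat_lit 416) (nat_lit 416) (nat_lit 188)) (XT.lf (nat_lit 0) (nat_lit 108270992416) (nat_lit 1216) (nat_lit 60000247486) (nat_lit 1292) (nat_lit 1304348500) (nat_lit 375) (nat_lit 5) (nat_lit 391) (nat_lit 5) (nat_lit 392) (nat_lit 5) (nat_lit 417) (nat_lit 416) (nat_lit 187)))) (XT.nd (nat_lit 78) (nat_lit 0) (nat_lit 76) (XT.lf (nat_lit 76) (nat_lit 83619595348) (nat_lit 0) (nat_lit 31003340438) (nat_lit 1292) (nat_lit 59188067585) (nat_lit 376) (nat_lit 5) (nat_lit 375) (nat_lit 5) (nat_lit 392) (nat_lit 5) (nat_lit 418) (nat_lit 416) (nat_lit 186)) (XT.nd (nat_lit 78) (nat_lit 0) (nat_lit 76) (XT.lf (nat_lit 76) (nat_lit 57462178286) (nat_lit 0) (nat_lit 66093640204) (nat_lit 1292) (nat_lit 54634470334) (nat_lit 377) (nat_lit 5) (nat_lit 376) (nat_lit 5) (nat_lit 393) (nat_lit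 5) (nat_lit 419) (nat_lit 416) (nat_lit 185)) (XT.lf (nat_lit 76) (nat_lit 31152429920) (nat_lit 0) (nat_lit 104088395591) (nat_lit 1292) (nat_lit 47478548633) (nat_lit 378) (nat_lit 5) (nat_lit 377) (nat_lit 5) (nat_lit 394) (nat_lit 5) (nat_lit 420) (nat_lit 416) (nat_lit 184))))) (XT.nd (nat_lit 234) (nat_lit 1140) (nat_lit 0) (XT.nd (nat_lit 78) (nat_lit 0) (nat_lit 76) (XT.lf (nat_lit 76) (nat_lit 4729936422) (nat_lit 0) (nat_lit 145142624568) (nat_lit 1292) (nat_lit 37531478396) (nat_lit 379) (nat_lit 5) (nat_lit 378) (nat_lit 5) (nat_lit 395) (nat_lit 5) (nat_lit 421) (nat_lit 416) (nat_lit 183)) (XT.nd (nat_lit 78) (nat_lit 0) (nat_lit 0) (XT.lf (nat_lit 0) (nat_lit 167866021069) (nat_lit 1216) (nat_lit 21337418587) (nat_lit 1292) (nat_lit 3040594101) (nat_lit 379) (nat_lit 5) (nat_lit 395) (nat_lit 5) (nat_lit 396) (nat_lit 5) (nat_lit 422) (nat_lit 416) (nat_lit 182)) (XT.lf (nat_lit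 76) (nat_lit 149518640949) (nat_lit 0) (nat_lit 40142538686) (nat_lit 1292) (nat_lit 7577787445) (nat_lit 380) (nat_lit 5) (nat_lit 379) (nat_lit 5) (nat_lit 396) (nat_lit 5) (nat_lit 423) (nat_lit 416) (nat_lit 181)))) (XT.nd (nat_lit 52650) (nat_lit 0) (nat_lit 912) (XT.nd (nat_lit 52572) (nat_lit 0) (nat_lit 836) (XT.lf (nat_lit 0) (nat_lit 12464833708) (nat_lit 1292) (nat_lit 74260297164) (nat_lit 1368) (nat_lit 115677652228) (nat_lit 363) (nat_lit 5) (nat_lit 380) (nat_lit 5) (nat_lit 381) (nat_lit 5) (nat_lit 424) (nat_lit 416) (nat_lit 180)) (XT.lf (nat_lit 0) (nat_lit 54911613454) (nat_lit 1292) (nat_lit 15980251774) (nat_lit 1292) (nat_lit 15980251774) (nat_lit 374) (nat_lit 3) (nat_lit 391) (nat_lit 3) (nat_lit 391) (nat_lit 5) (nat_lit 417) (nat_lit 417) (nat_lit 186))) (XT.nd (nat_lit 78) (nat_lit 0) (nat_lit 0) (XT.lf (nat_lit 0) (nat_lit 113691898320) (nat_lit 1216) (nat_lit 62996142044)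 (nat_lit 1292) (nat_lit 1366106769) (nat_lit 375) (nat_lit 5) (nat_lit 391) (nat_lit 5) (nat_lit 392) (nat_lit 5) (nat_lit 418) (nat_lit 417) (nat_lit 185)) (XT.lf (nat_lit 76) (nat_lit 87804574896) (nat_lit 0) (nat_lit 32556552113) (nat_lit 1292) (nat_lit 62140215198) (nat_lit 376) (nat_lit 5) (nat_lit 375) (nat_lit 5) (nat_lit 392) (nat_lit 5) (nat_lit 419) (nat_lit 417) (nat_lit 184)))))) (XT.nd (nat_lit 53196) (nat_lit 0) (nat_lit 0) (XT.nd (nat_lit 234) (nat_lit 152) (nat_lit 0) (XT.nd (nat_lit 78) (nat_lit 0) (nat_lit 76) (XT.lf (nat_lit 76) (nat_lit 60339406031) (nat_lit 0) (nat_lit 69400924087) (nat_lit 1292) (nat_lit 57359271527) (nat_lit 377) (nat_lit 5) (nat_lit 376) (nat_lit 5) (nat_lit 393) (nat_lit 5) (nat_lit 420) (nat_lit 417) (nat_lit 183)) (XT.nd (nat_lit 78) (nat_lit 0) (nat_lit 76) (XT.lf (nat_lit 76) (nat_lit 32714272316) (nat_lit 0) (nat_lit 109295011894) (nat_lit 1292) (nat_lit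 49845866119) (nat_lit 378) (nat_lit 5) (nat_lit 377) (nat_lit 5) (nat_lit 394) (nat_lit 5) (nat_lit 421) (nat_lit 417) (nat_lit 182)) (XT.lf (nat_lit 76) (nat_lit 4970740666) (nat_lit 0) (nat_lit 152401581503) (nat_lit 1292) (nat_lit 39401735193) (nat_lit 379) (nat_lit 5) (nat_lit 378) (nat_lit 5) (nat_lit 395) (nat_lit 5) (nat_lit 422) (nat_lit 417) (nat_lit 181)))) (XT.nd (nat_lit 52806) (nat_lit 0) (nat_lit 76) (XT.nd (nat_lit 52728) (nat_lit 380) (nat_lit 0) (XT.lf (nat_lit 0) (nat_lit 176265146483) (nat_lit 1216) (nat_lit 22399995264) (nat_lit 1292) (nat_lit 3190918967) (nat_lit 379) (nat_lit 5) (nat_lit 395) (nat_lit 5) (nat_lit 396) (nat_lit 5) (nat_lit 423) (nat_lit 417) (nat_lit 180)) (XT.lf (nat_lit 0) (nat_lit 57660695590) (nat_lit 1292) (nat_lit 16777461109) (nat_lit 1292) (nat_lit 16777461109) (nat_lit 374) (nat_lit 3) (nat_lit 391) (nat_lit 3) (nat_lit 391) (nat_lit 5) (nat_lit 418)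 (nat_lit 418) (nat_lit 184))) (XT.nd (nat_lit 78) (nat_lit 0) (nat_lit 0) (XT.lf (nat_lit 0) (nat_lit 119383165603) (nat_lit 1216) (nat_lit 66142214166) (nat_lit 1292) (nat_lit 1431274551) (nat_lit 375) (nat_lit 5) (nat_lit 391) (nat_lit 5) (nat_lit 392) (nat_lit 5) (nat_lit 419) (nat_lit 418) (nat_lit 183)) (XT.lf (nat_lit 76) (nat_lit 92198431559) (nat_lit 0) (nat_lit 34187141309) (nat_lit 1292) (nat_lit 65240644765) (nat_lit 376) (nat_lit 5) (nat_lit 375) (nat_lit 5) (nat_lit 392) (nat_lit 5) (nat_lit 420) (nat_lit 418) (nat_lit 182))))) (XT.nd (nat_lit 53040) (nat_lit 0) (nat_lit 76) (XT.nd (nat_lit 78) (nat_lit 152) (nat_lit 0) (XT.lf (nat_lit 76) (nat_lit 63360112233) (nat_lit 0) (nat_lit 72873330266) (nat_lit 1292) (nat_lit 60220956351) (nat_lit 377) (nat_lit 5) (nat_lit 376) (nat_lit 5) (nat_lit 393) (nat_lit 5) (nat_lit 421) (nat_lit 418) (nat_lit 181)) (XT.nd (nat_lit 52884) (nat_lit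 228) (nat_lit 0) (XT.lf (nat_lit 76) (nat_lit 34353814413) (nat_lit 0) (nat_lit 114761754800) (nat_lit 1292) (nat_lit 52332164008) (nat_lit 378) (nat_lit 5) (nat_lit 377) (nat_lit 5) (nat_lit 394) (nat_lit 5) (nat_lit 422) (nat_lit 418) (nat_lit 180)) (XT.lf (nat_lit 0) (nat_lit 60546906299) (nat_lit 1292) (nat_lit 17614698561) (nat_lit 1292) (nat_lit 17614698561) (nat_lit 374) (nat_lit 3) (nat_lit 391) (nat_lit 3) (nat_lit 391) (nat_lit 5) (nat_lit 419) (nat_lit 419) (nat_lit 182)))) (XT.nd (nat_lit 156) (nat_lit 0) (nat_lit 0) (XT.nd (nat_lit 78) (nat_lit 0) (nat_lit 0) (XT.lf (nat_lit 0) (nat_lit 125358375916) (nat_lit 1216) (nat_lit 69445937136) (nat_lit 1292) (nat_lit 1499992422) (nat_lit 375) (nat_lit 5) (nat_lit 391) (nat_lit 5) (nat_lit 392) (nat_lit 5) (nat_lit 420) (nat_lit 419) (nat_lit 181)) (XT.lf (nat_lit 76) (nat_lit 96811643766) (nat_lit 0) (nat_lit 35899003218) (nat_lit 1292) (nat_lit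 68496707666) (nat_lit 376) (nat_lit 5) (nat_lit 375) (nat_lit 5) (nat_lit 392) (nat_lit 5) (nat_lit 421) (nat_lit 419) (nat_lit 180))) (XT.nd (nat_lit 53040) (nat_lit 76) (nat_lit 0) (XT.lf (nat_lit 76) (nat_lit 66531506417) (nat_lit 0) (nat_lit 76519137347) (nat_lit 1292) (nat_lit 63226309155) (nat_lit 377) (nat_lit 5) (nat_lit 376) (nat_lit 5) (nat_lit 393) (nat_lit 5) (nat_lit 422) (nat_lit 419) (nat_lit 179)) (XT.lf (nat_lit 0) (nat_lit 131631784084) (nat_lit 1216) (nat_lit 72915161215) (nat_lit 1292) (nat_lit 1572410768) (nat_lit 375) (nat_lit 5) (nat_lit 391) (nat_lit 5) (nat_lit 392) (nat_lit 5) (nat_lit 421) (nat_lit 420) (nat_lit 179))))))))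
noncomputable def ec0 : XT := (XT.nd (nat_lit 212394) (nat_lit 2736) (nat_lit 0) (XT.nd (nat_lit 158964) (nat_lit 0) (nat_lit 0) (XT.nd (nat_lit 105924) (nat_lit 0) (nat_lit 0) (XT.nd (nat_lit 53040) (nat_lit 0) (nat_lit 0) (XT.nd (nat_lit 52884) (nat_lit 76) (nat_lit 0) (XT.lf (nat_lit 1292) (nat_lit 8008938) (nat_lit 0) (nat_lit 677690430) (nat_lit 1216) (nat_lit 375195321) (nat_lit 392) (nat_lit 1) (nat_lit 375) (nat_lit 1) (nat_lit 391) (nat_lit 1) (nat_lit 395) (nat_lit 313) (nat_lit 312)) (XT.nd (nat_lit 78) (nat_lit 0) (nat_lit 76) (XT.lf (nat_lit 1292) (nat_lit 104892129) (nat_lit 0) (nat_lit 360877706) (nat_lit 1292) (nat_lit 104892129) (nat_lit 391) (nat_lit 1) (nat_lit 374) (nat_lit 0) (nat_lit 391) (nat_lit 0) (nat_lit 392) (nat_lit 314) (nat_lit 314)) (XT.lf (nat_lit 1292) (nat_lit 8409385) (nat_lit 0) (nat_lit 711574952) (nat_lit 1216) (nat_lit 393955087) (nat_lit 392) (nat_lit 1)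 (nat_lit 375) (nat_lit 1) (nat_lit 391) (nat_lit 1) (nat_lit 393) (nat_lit 314) (nat_lit 313)))) (XT.nd (nat_lit 78) (nat_lit 76) (nat_lit 0) (XT.lf (nat_lit 1292) (nat_lit 369976821) (nat_lit 76) (nat_lit 523318676) (nat_lit 0) (nat_lit 194097344) (nat_lit 392) (nat_lit 1) (nat_lit 376) (nat_lit 1) (nat_lit 375) (nat_lit 1) (nat_lit 394) (nat_lit 314) (nat_lit 312)) (XT.nd (nat_lit 52728) (nat_lit 152) (nat_lit 0) (XT.lf (nat_lit 1292) (nat_lit 325240998) (nat_lit 76) (nat_lit 342549520) (nat_lit 0) (nat_lit 393915286) (nat_lit 393) (nat_lit 1) (nat_lit 377) (nat_lit 1) (nat_lit 376) (nat_lit 1) (nat_lit 395) (nat_lit 314) (nat_lit 311)) (XT.lf (nat_lit 1292) (nat_lit 110136735) (nat_lit 0) (nat_lit 378921592) (nat_lit 1292) (nat_lit 110136735) (nat_lit 391) (nat_lit 1) (nat_lit 374) (nat_lit 0) (nat_lit 391) (nat_lit 0) (nat_lit 390) (nat_lit 315) (nat_lit 315))))) (XT.nd (nat_lit 234) (nat_lit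 76) (nat_lit 0) (XT.nd (nat_lit 78) (nat_lit 0) (nat_lit 0) (XT.lf (nat_lit 1292) (nat_lit 8829855) (nat_lit 0) (nat_lit 747153699) (nat_lit 1216) (nat_lit 413652842) (nat_lit 392) (nat_lit 1) (nat_lit 375) (nat_lit 1) (nat_lit 391) (nat_lit 1) (nat_lit 391) (nat_lit 315) (nat_lit 314)) (XT.nd (nat_lit 78) (nat_lit 0) (nat_lit 76) (XT.lf (nat_lit 1292) (nat_lit 388475663) (nat_lit 76) (nat_lit 549484609) (nat_lit 0) (nat_lit 203802211) (nat_lit 392) (nat_lit 1) (nat_lit 376) (nat_lit 1) (nat_lit 375) (nat_lit 1) (nat_lit 392) (nat_lit 315) (nat_lit 313)) (XT.lf (nat_lit 1292) (nat_lit 341503048) (nat_lit 76) (nat_lit 359676996) (nat_lit 0) (nat_lit 413611050) (nat_lit 393) (nat_lit 1) (nat_lit 377) (nat_lit 1) (nat_lit 376) (nat_lit 1) (nat_lit 393) (nat_lit 315) (nat_lit 312)))) (XT.nd (nat_lit 52650) (nat_lit 228) (nat_lit 0) (XT.nd (nat_lit 78) (nat_lit 0) (nat_lit 76) (XT.lf (nat_lit 1292)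 (nat_lit 282616768) (nat_lit 76) (nat_lit 185791956) (nat_lit 0) (nat_lit 620283186) (nat_lit 394) (nat_lit 1) (nat_lit 378) (nat_lit 1) (nat_lit 377) (nat_lit 1) (nat_lit 394) (nat_lit 315) (nat_lit 311)) (XT.lf (nat_lit 1292) (nat_lit 212724928) (nat_lit 76) (nat_lit 27011402) (nat_lit 0) (nat_lit 823696989) (nat_lit 395) (nat_lit 1) (nat_lit 379) (nat_lit 1) (nat_lit 378) (nat_lit 1) (nat_lit 395) (nat_lit 315) (nat_lit 310))) (XT.nd (nat_lit 78) (nat_lit 0) (nat_lit 76) (XT.lf (nat_lit 1292) (nat_lit 115643572) (nat_lit 0) (nat_lit 397867671) (nat_lit 1292) (nat_lit 115643572) (nat_lit 391) (nat_lit 1) (nat_lit 374) (nat_lit 0) (nat_lit 391) (nat_lit 0) (nat_lit 388) (nat_lit 316) (nat_lit 316)) (XT.lf (nat_lit 1292) (nat_lit 9271347) (nat_lit 0) (nat_lit 784511384) (nat_lit 1216) (nat_lit 434335484) (nat_lit 392) (nat_lit 1) (nat_lit 375) (nat_lit 1) (nat_lit 391) (nat_lit 1) (nat_lit 389)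 (nat_lit 316) (nat_lit 315)))))) (XT.nd (nat_lit 52884) (nat_lit 0) (nat_lit 76) (XT.nd (nat_lit 234) (nat_lit 76) (nat_lit 0) (XT.nd (nat_lit 78) (nat_lit 0) (nat_lit 76) (XT.lf (nat_lit 1292) (nat_lit 407899446) (nat_lit 76) (nat_lit 576958840) (nat_lit 0) (nat_lit 213992321) (nat_lit 392) (nat_lit 1) (nat_lit 376) (nat_lit 1) (nat_lit 375) (nat_lit 1) (nat_lit 390) (nat_lit 316) (nat_lit 314)) (XT.nd (nat_lit 78) (nat_lit 0) (nat_lit 76) (XT.lf (nat_lit 1292) (nat_lit 358578201) (nat_lit 76) (nat_lit 377660846) (nat_lit 0) (nat_lit 434291603) (nat_lit 393) (nat_lit 1) (nat_lit 377) (nat_lit 1) (nat_lit 376) (nat_lit 1) (nat_lit 391) (nat_lit 316) (nat_lit 313)) (XT.lf (nat_lit 1292) (nat_lit 296747606) (nat_lit 76) (nat_lit 195081553) (nat_lit 0) (nat_lit 651297345) (nat_lit 394) (nat_lit 1) (nat_lit 378) (nat_lit 1) (nat_lit 377) (nat_lit 1) (nat_lit 392) (nat_lit 316) (nat_lit 312)))) (XT.nd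 (nat_lit 156) (nat_lit 304) (nat_lit 0) (XT.nd (nat_lit 78) (nat_lit 0) (nat_lit 76) (XT.lf (nat_lit 1292) (nat_lit 223361174) (nat_lit 76) (nat_lit 28361972) (nat_lit 0) (nat_lit 864881838) (nat_lit 395) (nat_lit 1) (nat_lit 379) (nat_lit 1) (nat_lit 378) (nat_lit 1) (nat_lit 393) (nat_lit 316) (nat_lit 311)) (XT.lf (nat_lit 1292) (nat_lit 17186451) (nat_lit 0) (nat_lit 952801600) (nat_lit 1216) (nat_lit 120910607) (nat_lit 396) (nat_lit 1) (nat_lit 379) (nat_lit 1) (nat_lit 395) (nat_lit 1) (nat_lit 394) (nat_lit 316) (nat_lit 310))) (XT.nd (nat_lit 52416) (nat_lit 380) (nat_lit 0) (XT.lf (nat_lit 1292) (nat_lit 40735628) (nat_lit 76) (nat_lit 808211590) (nat_lit 0) (nat_lit 216998617) (nat_lit 396) (nat_lit 1) (nat_lit 380) (nat_lit 1) (nat_lit 379) (nat_lit 1) (nat_lit 395) (nat_lit 316) (nat_lit 309)) (XT.lf (nat_lit 1292) (nat_lit 121425751) (nat_lit 0) (nat_lit 417761055) (nat_lit 1292)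 (nat_lit 121425751) (nat_lit 391) (nat_lit 1) (nat_lit 374) (nat_lit 0) (nat_lit 391) (nat_lit 0) (nat_lit 386) (nat_lit 317) (nat_lit 317))))) (XT.nd (nat_lit 234) (nat_lit 0) (nat_lit 152) (XT.nd (nat_lit 78) (nat_lit 0) (nat_lit 0) (XT.lf (nat_lit 1292) (nat_lit 9734915) (nat_lit 0) (nat_lit 823736953) (nat_lit 1216) (nat_lit 456052258) (nat_lit 392) (nat_lit 1) (nat_lit 375) (nat_lit 1) (nat_lit 391) (nat_lit 1) (nat_lit 387) (nat_lit 317) (nat_lit 316)) (XT.nd (nat_lit 78) (nat_lit 0) (nat_lit 76) (XT.lf (nat_lit 1292) (nat_lit 428294418) (nat_lit 76) (nat_lit 605806782) (nat_lit 0) (nat_lit 224691938) (nat_lit 392) (nat_lit 1) (nat_lit 376) (nat_lit 1) (nat_lit 375) (nat_lit 1) (nat_lit 388) (nat_lit 317) (nat_lit 315)) (XT.lf (nat_lit 1292) (nat_lit 376507111) (nat_lit 76) (nat_lit 396543888) (nat_lit 0) (nat_lit 456006183) (nat_lit 393) (nat_lit 1) (nat_lit 377) (nat_lit 1) (nat_lit 376)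 (nat_lit 1) (nat_lit 389) (nat_lit 317) (nat_lit 314)))) (XT.nd (nat_lit 156) (nat_lit 0) (nat_lit 152) (XT.nd (nat_lit 78) (nat_lit 0) (nat_lit 76) (XT.lf (nat_lit 1292) (nat_lit 311584986) (nat_lit 76) (nat_lit 204835631) (nat_lit 0) (nat_lit 683862213) (nat_lit 394) (nat_lit 1) (nat_lit 378) (nat_lit 1) (nat_lit 377) (nat_lit 1) (nat_lit 390) (nat_lit 317) (nat_lit 313)) (XT.lf (nat_lit 1292) (nat_lit 234529233) (nat_lit 76) (nat_lit 29780071) (nat_lit 0) (nat_lit 908125930) (nat_lit 395) (nat_lit 1) (nat_lit 379) (nat_lit 1) (nat_lit 378) (nat_lit 1) (nat_lit 391) (nat_lit 317) (nat_lit 312))) (XT.nd (nat_lit 78) (nat_lit 0) (nat_lit 0) (XT.lf (nat_lit 1292) (nat_lit 18045773) (nat_lit 0) (nat_lit 1000441680) (nat_lit 1216) (nat_lit 126956138) (nat_lit 396) (nat_lit 1) (nat_lit 379) (nat_lit 1) (nat_lit 395) (nat_lit 1) (nat_lit 392) (nat_lit 317) (nat_lit 311)) (XT.lf (nat_lit 1292) (nat_lit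 42772409) (nat_lit 76) (nat_lit 848622169) (nat_lit 0) (nat_lit 227848548) (nat_lit 396) (nat_lit 1) (nat_lit 380) (nat_lit 1) (nat_lit 379) (nat_lit 1) (nat_lit 393) (nat_lit 317) (nat_lit 310))))))) (XT.nd (nat_lit 105300) (nat_lit 1216) (nat_lit 0) (XT.nd (nat_lit 52728) (nat_lit 684) (nat_lit 0) (XT.nd (nat_lit 52416) (nat_lit 0) (nat_lit 912) (XT.nd (nat_lit 78) (nat_lit 0) (nat_lit 76) (XT.lf (nat_lit 1368) (nat_lit 625118283) (nat_lit 0) (nat_lit 67568748) (nat_lit 1292) (nat_lit 401166182) (nat_lit 381) (nat_lit 1) (nat_lit 363) (nat_lit 1) (nat_lit 380) (nat_lit 1) (nat_lit 394) (nat_lit 317) (nat_lit 309)) (XT.nd (nat_lit 52260) (nat_lit 0) (nat_lit 760) (XT.lf (nat_lit 1368) (nat_lit 364878153) (nat_lit 0) (nat_lit 185400686) (nat_lit 1292) (nat_lit 518975555) (nat_lit 382) (nat_lit 1) (nat_lit 364) (nat_lit 1) (nat_lit 381) (nat_lit 1) (nat_lit 395) (nat_lit 317) (nat_lit 308)) (XT.lf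 (nat_lit 1292) (nat_lit 127497038) (nat_lit 0) (nat_lit 438649108) (nat_lit 1292) (nat_lit 127497038) (nat_lit 391) (nat_lit 1) (nat_lit 374) (nat_lit 0) (nat_lit 391) (nat_lit 0) (nat_lit 384) (nat_lit 318) (nat_lit 318)))) (XT.nd (nat_lit 156) (nat_lit 0) (nat_lit 76) (XT.nd (nat_lit 78) (nat_lit 0) (nat_lit 0) (XT.lf (nat_lit 1292) (nat_lit 10221661) (nat_lit 0) (nat_lit 864923801) (nat_lit 1216) (nat_lit 478854871) (nat_lit 392) (nat_lit 1) (nat_lit 375) (nat_lit 1) (nat_lit 391) (nat_lit 1) (nat_lit 385) (nat_lit 318) (nat_lit 317)) (XT.lf (nat_lit 1292) (nat_lit 449709139) (nat_lit 76) (nat_lit 636097121) (nat_lit 0) (nat_lit 235926534) (nat_lit 392) (nat_lit 1) (nat_lit 376) (nat_lit 1) (nat_lit 375) (nat_lit 1) (nat_lit 386) (nat_lit 318) (nat_lit 316))) (XT.nd (nat_lit 78) (nat_lit 0) (nat_lit 76) (XT.lf (nat_lit 1292) (nat_lit 395332466) (nat_lit 76) (nat_lit 416371083) (nat_lit 0) (nat_lit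 478806492) (nat_lit 393) (nat_lit 1) (nat_lit 377) (nat_lit 1) (nat_lit 376) (nat_lit 1) (nat_lit 387) (nat_lit 318) (nat_lit 315)) (XT.lf (nat_lit 1292) (nat_lit 327164236) (nat_lit 76) (nat_lit 215077413) (nat_lit 0) (nat_lit 718055323) (nat_lit 394) (nat_lit 1) (nat_lit 378) (nat_lit 1) (nat_lit 377) (nat_lit 1) (nat_lit 388) (nat_lit 318) (nat_lit 314))))) (XT.nd (nat_lit 234) (nat_lit 1824) (nat_lit 0) (XT.nd (nat_lit 78) (nat_lit 0) (nat_lit 76) (XT.lf (nat_lit 1292) (nat_lit 246255695) (nat_lit 76) (nat_lit 31269074) (nat_lit 0) (nat_lit 953532227) (nat_lit 395) (nat_lit 1) (nat_lit 379) (nat_lit 1) (nat_lit 378) (nat_lit 1) (nat_lit 389) (nat_lit 318) (nat_lit 313)) (XT.nd (nat_lit 78) (nat_lit 0) (nat_lit 0) (XT.lf (nat_lit 1292) (nat_lit 18948062) (nat_lit 0) (nat_lit 1050463764) (nat_lit 1216) (nat_lit 133303944) (nat_lit 396) (nat_lit 1) (nat_lit 379) (nat_lit 1) (nat_lit 395) (nat_lit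 1) (nat_lit 390) (nat_lit 318) (nat_lit 312)) (XT.lf (nat_lit 1292) (nat_lit 44911030) (nat_lit 76) (nat_lit 891053278) (nat_lit 0) (nat_lit 239240976) (nat_lit 396) (nat_lit 1) (nat_lit 380) (nat_lit 1) (nat_lit 379) (nat_lit 1) (nat_lit 391) (nat_lit 318) (nat_lit 311)))) (XT.nd (nat_lit 156) (nat_lit 684) (nat_lit 0) (XT.nd (nat_lit 78) (nat_lit 0) (nat_lit 76) (XT.lf (nat_lit 1368) (nat_lit 656374197) (nat_lit 0) (nat_lit 70947186) (nat_lit 1292) (nat_lit 421224491) (nat_lit 381) (nat_lit 1) (nat_lit 363) (nat_lit 1) (nat_lit 380) (nat_lit 1) (nat_lit 392) (nat_lit 318) (nat_lit 310)) (XT.lf (nat_lit 1368) (nat_lit 383122061) (nat_lit 0) (nat_lit 194670721) (nat_lit 1292) (nat_lit 544924333) (nat_lit 382) (nat_lit 1) (nat_lit 364) (nat_lit 1) (nat_lit 381) (nat_lit 1) (nat_lit 393) (nat_lit 318) (nat_lit 309))) (XT.nd (nat_lit 78) (nat_lit 836) (nat_lit 0) (XT.lf (nat_lit 76) (nat_lit 115781519)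 (nat_lit 0) (nat_lit 326377018) (nat_lit 1292) (nat_lit 655543528) (nat_lit 366) (nat_lit 1) (nat_lit 365) (nat_lit 1) (nat_lit 382) (nat_lit 1) (nat_lit 394) (nat_lit 318) (nat_lit 308)) (XT.lf (nat_lit 912) (nat_lit 606649294) (nat_lit 0) (nat_lit 318229047) (nat_lit 836) (nat_lit 148550819) (nat_lit 366) (nat_lit 1) (nat_lit 354) (nat_lit 1) (nat_lit 365) (nat_lit 1) (nat_lit 395) (nat_lit 318) (nat_lit 307)))))) (XT.nd (nat_lit 546) (nat_lit 2736) (nat_lit 0) (XT.nd (nat_lit 234) (nat_lit 0) (nat_lit 152) (XT.nd (nat_lit 78) (nat_lit 0) (nat_lit 76) (XT.lf (nat_lit 1292) (nat_lit 133871890) (nat_lit 0) (nat_lit 460581563) (nat_lit 1292) (nat_lit 133871890) (nat_lit 391) (nat_lit 1) (nat_lit 374) (nat_lit 0) (nat_lit 391) (nat_lit 0) (nat_lit 382) (nat_lit 319) (nat_lit 319)) (XT.nd (nat_lit 78) (nat_lit 0) (nat_lit 0) (XT.lf (nat_lit 1292) (nat_lit 10732744) (nat_lit 0) (nat_lit 908169991)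 (nat_lit 1216) (nat_lit 502797614) (nat_lit 392) (nat_lit 1) (nat_lit 375) (nat_lit 1) (nat_lit 391) (nat_lit 1) (nat_lit 383) (nat_lit 319) (nat_lit 318)) (XT.lf (nat_lit 1292) (nat_lit 472194596) (nat_lit 76) (nat_lit 667901977) (nat_lit 0) (nat_lit 247722861) (nat_lit 392) (nat_lit 1) (nat_lit 376) (nat_lit 1) (nat_lit 375) (nat_lit 1) (nat_lit 384) (nat_lit 319) (nat_lit 317)))) (XT.nd (nat_lit 156) (nat_lit 0) (nat_lit 152) (XT.nd (nat_lit 78) (nat_lit 0) (nat_lit 76) (XT.lf (nat_lit 1292) (nat_lit 415099090) (nat_lit 76) (nat_lit 437189637) (nat_lit 0) (nat_lit 502746817) (nat_lit 393) (nat_lit 1) (nat_lit 377) (nat_lit 1) (nat_lit 376) (nat_lit 1) (nat_lit 385) (nat_lit 319) (nat_lit 316)) (XT.lf (nat_lit 1292) (nat_lit 343522447) (nat_lit 76) (nat_lit 225831283) (nat_lit 0) (nat_lit 753958090) (nat_lit 394) (nat_lit 1) (nat_lit 378) (nat_lit 1) (nat_lit 377) (nat_lit 1) (nat_lit 386) (nat_lit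 319) (nat_lit 315))) (XT.nd (nat_lit 78) (nat_lit 0) (nat_lit 76) (XT.lf (nat_lit 1292) (nat_lit 258568480) (nat_lit 76) (nat_lit 32832528) (nat_lit 0) (nat_lit 1001208838) (nat_lit 395) (nat_lit 1) (nat_lit 379) (nat_lit 1) (nat_lit 378) (nat_lit 1) (nat_lit 387) (nat_lit 319) (nat_lit 314)) (XT.lf (nat_lit 1292) (nat_lit 19895465) (nat_lit 0) (nat_lit 1102986952) (nat_lit 1216) (nat_lit 139969142) (nat_lit 396) (nat_lit 1) (nat_lit 379) (nat_lit 1) (nat_lit 395) (nat_lit 1) (nat_lit 388) (nat_lit 319) (nat_lit 313))))) (XT.nd (nat_lit 234) (nat_lit 1900) (nat_lit 0) (XT.nd (nat_lit 78) (nat_lit 1216) (nat_lit 0) (XT.lf (nat_lit 1292) (nat_lit 47156581) (nat_lit 76) (nat_lit 935605942) (nat_lit 0) (nat_lit 251203025) (nat_lit 396) (nat_lit 1) (nat_lit 380) (nat_lit 1) (nat_lit 379) (nat_lit 1) (nat_lit 389) (nat_lit 319) (nat_lit 312)) (XT.nd (nat_lit 78) (nat_lit 0) (nat_lit 76) (XT.lf (nat_lit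 1368) (nat_lit 689192907) (nat_lit 0) (nat_lit 74494545) (nat_lit 1292) (nat_lit 442285716) (nat_lit 381) (nat_lit 1) (nat_lit 363) (nat_lit 1) (nat_lit 380) (nat_lit 1) (nat_lit 390) (nat_lit 319) (nat_lit 311)) (XT.lf (nat_lit 1368) (nat_lit 402278164) (nat_lit 0) (nat_lit 204404257) (nat_lit 1292) (nat_lit 572170550) (nat_lit 382) (nat_lit 1) (nat_lit 364) (nat_lit 1) (nat_lit 381) (nat_lit 1) (nat_lit 391) (nat_lit 319) (nat_lit 310)))) (XT.nd (nat_lit 156) (nat_lit 1216) (nat_lit 0) (XT.nd (nat_lit 78) (nat_lit 836) (nat_lit 0) (XT.lf (nat_lit 76) (nat_lit 121570595) (nat_lit 0) (nat_lit 342695869) (nat_lit 1292) (nat_lit 688320705) (nat_lit 366) (nat_lit 1) (nat_lit 365) (nat_lit 1) (nat_lit 382) (nat_lit 1) (nat_lit 392) (nat_lit 319) (nat_lit 309)) (XT.lf (nat_lit 912) (nat_lit 636981759) (nat_lit 0) (nat_lit 334140499) (nat_lit 836) (nat_lit 155978360) (nat_lit 366) (nat_lit 1) (nat_lit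 354) (nat_lit 1) (nat_lit 365) (nat_lit 1) (nat_lit 393) (nat_lit 319) (nat_lit 308))) (XT.nd (nat_lit 78) (nat_lit 608) (nat_lit 0) (XT.lf (nat_lit 684) (nat_lit 456775659) (nat_lit 0) (nat_lit 215963868) (nat_lit 608) (nat_lit 429635847) (nat_lit 355) (nat_lit 1) (nat_lit 346) (nat_lit 1) (nat_lit 354) (nat_lit 1) (nat_lit 394) (nat_lit 319) (nat_lit 307)) (XT.lf (nat_lit 684) (nat_lit 271135704) (nat_lit 0) (nat_lit 110277412) (nat_lit 608) (nat_lit 697006198) (nat_lit 347) (nat_lit 1) (nat_lit 338) (nat_lit 1) (nat_lit 346) (nat_lit 1) (nat_lit 395) (nat_lit 319) (nat_lit 306))))))))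
noncomputable def ec1 : XT := (XT.nd (nat_lit 53898) (nat_lit 2736) (nat_lit 0) (XT.nd (nat_lit 1092) (nat_lit 608) (nat_lit 0) (XT.nd (nat_lit 546) (nat_lit 2736) (nat_lit 0) (XT.nd (nat_lit 234) (nat_lit 0) (nat_lit 152) (XT.nd (nat_lit 78) (nat_lit 0) (nat_lit 76) (XT.lf (nat_lit 1292) (nat_lit 140565485) (nat_lit 0) (nat_lit 483610641) (nat_lit 1292) (nat_lit 140565485) (nat_lit 391) (nat_lit 1) (nat_lit 374) (nat_lit 0) (nat_lit 391) (nat_lit 0) (nat_lit 380) (nat_lit 320) (nat_lit 320)) (XT.nd (nat_lit 78) (nat_lit 0) (nat_lit 0) (XT.lf (nat_lit 1292) (nat_lit 11269381) (nat_lit 0) (nat_lit 953578491) (nat_lit 1216) (nat_lit 527937495) (nat_lit 392) (nat_lit 1) (nat_lit 375) (nat_lit 1) (nat_lit 391) (nat_lit 1) (nat_lit 381) (nat_lit 320) (nat_lit 319)) (XT.lf (nat_lit 1292) (nat_lit 495804326) (nat_lit 76) (nat_lit 701297076) (nat_lit 0) (nat_lit 260109004) (nat_lit 392) (nat_lit 1) (nat_lit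 376) (nat_lit 1) (nat_lit 375) (nat_lit 1) (nat_lit 382) (nat_lit 320) (nat_lit 318)))) (XT.nd (nat_lit 156) (nat_lit 0) (nat_lit 152) (XT.nd (nat_lit 78) (nat_lit 0) (nat_lit 76) (XT.lf (nat_lit 1292) (nat_lit 435854044) (nat_lit 76) (nat_lit 459049119) (nat_lit 0) (nat_lit 527884158) (nat_lit 393) (nat_lit 1) (nat_lit 377) (nat_lit 1) (nat_lit 376) (nat_lit 1) (nat_lit 383) (nat_lit 320) (nat_lit 317)) (XT.lf (nat_lit 1292) (nat_lit 360698570) (nat_lit 76) (nat_lit 237122848) (nat_lit 0) (nat_lit 791655994) (nat_lit 394) (nat_lit 1) (nat_lit 378) (nat_lit 1) (nat_lit 377) (nat_lit 1) (nat_lit 384) (nat_lit 320) (nat_lit 316))) (XT.nd (nat_lit 78) (nat_lit 0) (nat_lit 76) (XT.lf (nat_lit 1292) (nat_lit 271496904) (nat_lit 76) (nat_lit 34474154) (nat_lit 0) (nat_lit 1051269280) (nat_lit 395) (nat_lit 1) (nat_lit 379) (nat_lit 1) (nat_lit 378) (nat_lit 1) (nat_lit 385) (nat_lit 320) (nat_lit 315))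 (XT.lf (nat_lit 1292) (nat_lit 20890238) (nat_lit 0) (nat_lit 1158136300) (nat_lit 1216) (nat_lit 146967599) (nat_lit 396) (nat_lit 1) (nat_lit 379) (nat_lit 1) (nat_lit 395) (nat_lit 1) (nat_lit 386) (nat_lit 320) (nat_lit 314))))) (XT.nd (nat_lit 234) (nat_lit 1900) (nat_lit 0) (XT.nd (nat_lit 78) (nat_lit 1216) (nat_lit 0) (XT.lf (nat_lit 1292) (nat_lit 49514410) (nat_lit 76) (nat_lit 982386239) (nat_lit 0) (nat_lit 263763176) (nat_lit 396) (nat_lit 1) (nat_lit 380) (nat_lit 1) (nat_lit 379) (nat_lit 1) (nat_lit 387) (nat_lit 320) (nat_lit 313)) (XT.nd (nat_lit 78) (nat_lit 0) (nat_lit 76) (XT.lf (nat_lit 1368) (nat_lit 723652552) (nat_lit 0) (nat_lit 78219272) (nat_lit 1292) (nat_lit 464400002) (nat_lit 381) (nat_lit 1) (nat_lit 363) (nat_lit 1) (nat_lit 380) (nat_lit 1) (nat_lit 388) (nat_lit 320) (nat_lit 312)) (XT.lf (nat_lit 1368) (nat_lit 422392072) (nat_lit 0) (nat_lit 214624470) (nat_lit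 1292) (nat_lit 600779077) (nat_lit 382) (nat_lit 1) (nat_lit 364) (nat_lit 1) (nat_lit 381) (nat_lit 1) (nat_lit 389) (nat_lit 320) (nat_lit 311)))) (XT.nd (nat_lit 156) (nat_lit 1216) (nat_lit 0) (XT.nd (nat_lit 78) (nat_lit 836) (nat_lit 0) (XT.lf (nat_lit 76) (nat_lit 127649125) (nat_lit 0) (nat_lit 359830663) (nat_lit 1292) (nat_lit 722736740) (nat_lit 366) (nat_lit 1) (nat_lit 365) (nat_lit 1) (nat_lit 382) (nat_lit 1) (nat_lit 390) (nat_lit 320) (nat_lit 310)) (XT.lf (nat_lit 912) (nat_lit 668830847) (nat_lit 0) (nat_lit 350847524) (nat_lit 836) (nat_lit 163777278) (nat_lit 366) (nat_lit 1) (nat_lit 354) (nat_lit 1) (nat_lit 365) (nat_lit 1) (nat_lit 391) (nat_lit 320) (nat_lit 309))) (XT.nd (nat_lit 78) (nat_lit 608) (nat_lit 0) (XT.lf (nat_lit 684) (nat_lit 479614442) (nat_lit 0) (nat_lit 226762062) (nat_lit 608) (nat_lit 451117639) (nat_lit 355) (nat_lit 1) (nat_lit 346) (nat_lit 1) (nat_lit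 354) (nat_lit 1) (nat_lit 392) (nat_lit 320) (nat_lit 308)) (XT.lf (nat_lit 684) (nat_lit 284692490) (nat_lit 0) (nat_lit 115791282) (nat_lit 608) (nat_lit 731856508) (nat_lit 347) (nat_lit 1) (nat_lit 338) (nat_lit 1) (nat_lit 346) (nat_lit 1) (nat_lit 393) (nat_lit 320) (nat_lit 307)))))) (XT.nd (nat_lit 52260) (nat_lit 0) (nat_lit 1824) (XT.nd (nat_lit 51948) (nat_lit 0) (nat_lit 3420) (XT.nd (nat_lit 78) (nat_lit 76) (nat_lit 0) (XT.lf (nat_lit 608) (nat_lit 84690932) (nat_lit 0) (nat_lit 17247370) (nat_lit 532) (nat_lit 1006027620) (nat_lit 339) (nat_lit 1) (nat_lit 331) (nat_lit 1) (nat_lit 338) (nat_lit 1) (nat_lit 394) (nat_lit 320) (nat_lit 306)) (XT.nd (nat_lit 51792) (nat_lit 0) (nat_lit 3344) (XT.lf (nat_lit 76) (nat_lit 893029949) (nat_lit 0) (nat_lit 120008073) (nat_lit 608) (nat_lit 71195151) (nat_lit 331) (nat_lit 1) (nat_lit 330) (nat_lit 1) (nat_lit 338) (nat_lit 1) (nat_lit 395)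 (nat_lit 320) (nat_lit 305)) (XT.lf (nat_lit 1292) (nat_lit 147593759) (nat_lit 0) (nat_lit 507791173) (nat_lit 1292) (nat_lit 147593759) (nat_lit 391) (nat_lit 1) (nat_lit 374) (nat_lit 0) (nat_lit 391) (nat_lit 0) (nat_lit 378) (nat_lit 321) (nat_lit 321)))) (XT.nd (nat_lit 156) (nat_lit 0) (nat_lit 76) (XT.nd (nat_lit 78) (nat_lit 0) (nat_lit 0) (XT.lf (nat_lit 1292) (nat_lit 11832850) (nat_lit 0) (nat_lit 1001257415) (nat_lit 1216) (nat_lit 554334370) (nat_lit 392) (nat_lit 1) (nat_lit 375) (nat_lit 1) (nat_lit 391) (nat_lit 1) (nat_lit 379) (nat_lit 321) (nat_lit 320)) (XT.lf (nat_lit 1292) (nat_lit 520594542) (nat_lit 76) (nat_lit 736361930) (nat_lit 0) (nat_lit 273114455) (nat_lit 392) (nat_lit 1) (nat_lit 376) (nat_lit 1) (nat_lit 375) (nat_lit 1) (nat_lit 380) (nat_lit 321) (nat_lit 319))) (XT.nd (nat_lit 78) (nat_lit 0) (nat_lit 76) (XT.lf (nat_lit 1292) (nat_lit 457646746) (nat_lit 76)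 (nat_lit 482001575) (nat_lit 0) (nat_lit 554278366) (nat_lit 393) (nat_lit 1) (nat_lit 377) (nat_lit 1) (nat_lit 376) (nat_lit 1) (nat_lit 381) (nat_lit 321) (nat_lit 318)) (XT.lf (nat_lit 1292) (nat_lit 378733498) (nat_lit 76) (nat_lit 248978990) (nat_lit 0) (nat_lit 831238794) (nat_lit 394) (nat_lit 1) (nat_lit 378) (nat_lit 1) (nat_lit 377) (nat_lit 1) (nat_lit 382) (nat_lit 321) (nat_lit 317))))) (XT.nd (nat_lit 234) (nat_lit 1824) (nat_lit 0) (XT.nd (nat_lit 78) (nat_lit 0) (nat_lit 76) (XT.lf (nat_lit 1292) (nat_lit 285071749) (nat_lit 76) (nat_lit 36197862) (nat_lit 0) (nat_lit 1103832744) (nat_lit 395) (nat_lit 1) (nat_lit 379) (nat_lit 1) (nat_lit 378) (nat_lit 1) (nat_lit 383) (nat_lit 321) (nat_lit 316)) (XT.nd (nat_lit 78) (nat_lit 0) (nat_lit 0) (XT.lf (nat_lit 1292) (nat_lit 21934750) (nat_lit 0) (nat_lit 1216043115) (nat_lit 1216) (nat_lit 154315979) (nat_lit 396) (nat_lit 1) (nat_lit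 379) (nat_lit 1) (nat_lit 395) (nat_lit 1) (nat_lit 384) (nat_lit 321) (nat_lit 315)) (XT.lf (nat_lit 1292) (nat_lit 51990131) (nat_lit 76) (nat_lit 1031505551) (nat_lit 0) (nat_lit 276951335) (nat_lit 396) (nat_lit 1) (nat_lit 380) (nat_lit 1) (nat_lit 379) (nat_lit 1) (nat_lit 385) (nat_lit 321) (nat_lit 314)))) (XT.nd (nat_lit 156) (nat_lit 684) (nat_lit 0) (XT.nd (nat_lit 78) (nat_lit 0) (nat_lit 76) (XT.lf (nat_lit 1368) (nat_lit 759835180) (nat_lit 0) (nat_lit 82130236) (nat_lit 1292) (nat_lit 487620002) (nat_lit 381) (nat_lit 1) (nat_lit 363) (nat_lit 1) (nat_lit 380) (nat_lit 1) (nat_lit 386) (nat_lit 321) (nat_lit 313)) (XT.lf (nat_lit 1368) (nat_lit 443511676) (nat_lit 0) (nat_lit 225355693) (nat_lit 1292) (nat_lit 630818031) (nat_lit 382) (nat_lit 1) (nat_lit 364) (nat_lit 1) (nat_lit 381) (nat_lit 1) (nat_lit 387) (nat_lit 321) (nat_lit 312))) (XT.nd (nat_lit 78) (nat_lit 836) (nat_lit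 0) (XT.lf (nat_lit 76) (nat_lit 134031581) (nat_lit 0) (nat_lit 377822196) (nat_lit 1292) (nat_lit 758873577) (nat_lit 366) (nat_lit 1) (nat_lit 365) (nat_lit 1) (nat_lit 382) (nat_lit 1) (nat_lit 388) (nat_lit 321) (nat_lit 311)) (XT.lf (nat_lit 912) (nat_lit 702272389) (nat_lit 0) (nat_lit 368389900) (nat_lit 836) (nat_lit 171966142) (nat_lit 366) (nat_lit 1) (nat_lit 354) (nat_lit 1) (nat_lit 365) (nat_lit 1) (nat_lit 389) (nat_lit 321) (nat_lit 310))))))) (XT.nd (nat_lit 52572) (nat_lit 1064) (nat_lit 0) (XT.nd (nat_lit 52026) (nat_lit 0) (nat_lit 5016) (XT.nd (nat_lit 234) (nat_lit 1748) (nat_lit 0) (XT.nd (nat_lit 78) (nat_lit 1140) (nat_lit 0) (XT.lf (nat_lit 684) (nat_lit 503595164) (nat_lit 0) (nat_lit 238100165) (nat_lit 608) (nat_lit 473673521) (nat_lit 355) (nat_lit 1) (nat_lit 346) (nat_lit 1) (nat_lit 354) (nat_lit 1) (nat_lit 390) (nat_lit 321) (nat_lit 309)) (XT.nd (nat_lit 78)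 (nat_lit 532) (nat_lit 0) (XT.lf (nat_lit 684) (nat_lit 298927114) (nat_lit 0) (nat_lit 121580847) (nat_lit 608) (nat_lit 768449334) (nat_lit 347) (nat_lit 1) (nat_lit 338) (nat_lit 1) (nat_lit 346) (nat_lit 1) (nat_lit 391) (nat_lit 321) (nat_lit 308)) (XT.lf (nat_lit 608) (nat_lit 88925479) (nat_lit 0) (nat_lit 18109739) (nat_lit 532) (nat_lit 1056329001) (nat_lit 339) (nat_lit 1) (nat_lit 331) (nat_lit 1) (nat_lit 338) (nat_lit 1) (nat_lit 392) (nat_lit 321) (nat_lit 307)))) (XT.nd (nat_lit 156) (nat_lit 1064) (nat_lit 0) (XT.nd (nat_lit 78) (nat_lit 608) (nat_lit 0) (XT.lf (nat_lit 76) (nat_lit 937681447) (nat_lit 0) (nat_lit 126008477) (nat_lit 608) (nat_lit 74754908) (nat_lit 331) (nat_lit 1) (nat_lit 330) (nat_lit 1) (nat_lit 338) (nat_lit 1) (nat_lit 393) (nat_lit 321) (nat_lit 306)) (XT.lf (nat_lit 76) (nat_lit 612246711) (nat_lit 0) (nat_lit 344311732) (nat_lit 684) (nat_lit 157671510)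 (nat_lit 323) (nat_lit 1) (nat_lit 322) (nat_lit 1) (nat_lit 331) (nat_lit 1) (nat_lit 394) (nat_lit 321) (nat_lit 305))) (XT.nd (nat_lit 78) (nat_lit 532) (nat_lit 0) (XT.lf (nat_lit 76) (nat_lit 295105741) (nat_lit 0) (nat_lit 565961402) (nat_lit 608) (nat_lit 229688766) (nat_lit 316) (nat_lit 1) (nat_lit 315) (nat_lit 1) (nat_lit 323) (nat_lit 1) (nat_lit 395) (nat_lit 321) (nat_lit 304)) (XT.lf (nat_lit 608) (nat_lit 277390713) (nat_lit 0) (nat_lit 776469006) (nat_lit 532) (nat_lit 14133571) (nat_lit 316) (nat_lit 1) (nat_lit 308) (nat_lit 1) (nat_lit 315) (nat_lit 1) (nat_lit 396) (nat_lit 321) (nat_lit 303))))) (XT.nd (nat_lit 234) (nat_lit 0) (nat_lit 152) (XT.nd (nat_lit 78) (nat_lit 0) (nat_lit 76) (XT.lf (nat_lit 1292) (nat_lit 154973447) (nat_lit 0) (nat_lit 533180732) (nat_lit 1292) (nat_lit 154973447) (nat_lit 391) (nat_lit 1) (nat_lit 374) (nat_lit 0) (nat_lit 391) (nat_lit 0) (nat_lit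 376) (nat_lit 322) (nat_lit 322)) (XT.nd (nat_lit 78) (nat_lit 0) (nat_lit 0) (XT.lf (nat_lit 1292) (nat_lit 12424492) (nat_lit 0) (nat_lit 1051320286) (nat_lit 1216) (nat_lit 582051089) (nat_lit 392) (nat_lit 1) (nat_lit 375) (nat_lit 1) (nat_lit 391) (nat_lit 1) (nat_lit 377) (nat_lit 322) (nat_lit 321)) (XT.lf (nat_lit 1292) (nat_lit 546624269) (nat_lit 76) (nat_lit 773180026) (nat_lit 0) (nat_lit 286770177) (nat_lit 392) (nat_lit 1) (nat_lit 376) (nat_lit 1) (nat_lit 375) (nat_lit 1) (nat_lit 378) (nat_lit 322) (nat_lit 320)))) (XT.nd (nat_lit 156) (nat_lit 0) (nat_lit 152) (XT.nd (nat_lit 78) (nat_lit 0) (nat_lit 76) (XT.lf (nat_lit 1292) (nat_lit 480529084) (nat_lit 76) (nat_lit 506101653) (nat_lit 0) (nat_lit 581992284) (nat_lit 393) (nat_lit 1) (nat_lit 377) (nat_lit 1) (nat_lit 376) (nat_lit 1) (nat_lit 379) (nat_lit 322) (nat_lit 319)) (XT.lf (nat_lit 1292) (nat_lit 397670173) (nat_lit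 76) (nat_lit 261427940) (nat_lit 0) (nat_lit 872800733) (nat_lit 394) (nat_lit 1) (nat_lit 378) (nat_lit 1) (nat_lit 377) (nat_lit 1) (nat_lit 380) (nat_lit 322) (nat_lit 318))) (XT.nd (nat_lit 78) (nat_lit 0) (nat_lit 76) (XT.lf (nat_lit 1292) (nat_lit 299325336) (nat_lit 76) (nat_lit 38007755) (nat_lit 0) (nat_lit 1159024381) (nat_lit 395) (nat_lit 1) (nat_lit 379) (nat_lit 1) (nat_lit 378) (nat_lit 1) (nat_lit 381) (nat_lit 322) (nat_lit 317)) (XT.lf (nat_lit 1292) (nat_lit 23031488) (nat_lit 0) (nat_lit 1276845271) (nat_lit 1216) (nat_lit 162031778) (nat_lit 396) (nat_lit 1) (nat_lit 379) (nat_lit 1) (nat_lit 395) (nat_lit 1) (nat_lit 382) (nat_lit 322) (nat_lit 316)))))) (XT.nd (nat_lit 546) (nat_lit 3344) (nat_lit 0) (XT.nd (nat_lit 234) (nat_lit 1900) (nat_lit 0) (XT.nd (nat_lit 78) (nat_lit 1216) (nat_lit 0) (XT.lf (nat_lit 1292) (nat_lit 54589637) (nat_lit 76) (nat_lit 1083080828) (nat_lit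 0) (nat_lit 290798901) (nat_lit 396) (nat_lit 1) (nat_lit 380) (nat_lit 1) (nat_lit 379) (nat_lit 1) (nat_lit 383) (nat_lit 322) (nat_lit 315)) (XT.nd (nat_lit 78) (nat_lit 0) (nat_lit 76) (XT.lf (nat_lit 1368) (nat_lit 797826939) (nat_lit 0) (nat_lit 86236748) (nat_lit 1292) (nat_lit 512001002) (nat_lit 381) (nat_lit 1) (nat_lit 363) (nat_lit 1) (nat_lit 380) (nat_lit 1) (nat_lit 384) (nat_lit 322) (nat_lit 314)) (XT.lf (nat_lit 1368) (nat_lit 465687260) (nat_lit 0) (nat_lit 236623478) (nat_lit 1292) (nat_lit 662358933) (nat_lit 382) (nat_lit 1) (nat_lit 364) (nat_lit 1) (nat_lit 381) (nat_lit 1) (nat_lit 385) (nat_lit 322) (nat_lit 313)))) (XT.nd (nat_lit 156) (nat_lit 1216) (nat_lit 0) (XT.nd (nat_lit 78) (nat_lit 836) (nat_lit 0) (XT.lf (nat_lit 76) (nat_lit 140733160) (nat_lit 0) (nat_lit 396713306) (nat_lit 1292) (nat_lit 796817256) (nat_lit 366) (nat_lit 1) (nat_lit 365) (nat_lit 1) (nat_lit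 382) (nat_lit 1) (nat_lit 386) (nat_lit 322) (nat_lit 312)) (XT.lf (nat_lit 912) (nat_lit 737386009) (nat_lit 0) (nat_lit 386809395) (nat_lit 836) (nat_lit 180564450) (nat_lit 366) (nat_lit 1) (nat_lit 354) (nat_lit 1) (nat_lit 365) (nat_lit 1) (nat_lit 387) (nat_lit 322) (nat_lit 311))) (XT.nd (nat_lit 78) (nat_lit 608) (nat_lit 0) (XT.lf (nat_lit 684) (nat_lit 528774922) (nat_lit 0) (nat_lit 250005173) (nat_lit 608) (nat_lit 497357197) (nat_lit 355) (nat_lit 1) (nat_lit 346) (nat_lit 1) (nat_lit 354) (nat_lit 1) (nat_lit 388) (nat_lit 322) (nat_lit 310)) (XT.lf (nat_lit 684) (nat_lit 313873470) (nat_lit 0) (nat_lit 127659889) (nat_lit 608) (nat_lit 806871801) (nat_lit 347) (nat_lit 1) (nat_lit 338) (nat_lit 1) (nat_lit 346) (nat_lit 1) (nat_lit 389) (nat_lit 322) (nat_lit 309))))) (XT.nd (nat_lit 234) (nat_lit 2128) (nat_lit 0) (XT.nd (nat_lit 78) (nat_lit 684) (nat_lit 0) (XT.lf (nat_lit 608)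 (nat_lit 93371753) (nat_lit 0) (nat_lit 19015225) (nat_lit 532) (nat_lit 1109145451) (nat_lit 339) (nat_lit 1) (nat_lit 331) (nat_lit 1) (nat_lit 338) (nat_lit 1) (nat_lit 390) (nat_lit 322) (nat_lit 308)) (XT.nd (nat_lit 78) (nat_lit 608) (nat_lit 0) (XT.lf (nat_lit 76) (nat_lit 984565519) (nat_lit 0) (nat_lit 132308901) (nat_lit 608) (nat_lit 78492654) (nat_lit 331) (nat_lit 1) (nat_lit 330) (nat_lit 1) (nat_lit 338) (nat_lit 1) (nat_lit 391) (nat_lit 322) (nat_lit 307)) (XT.lf (nat_lit 76) (nat_lit 642859047) (nat_lit 0) (nat_lit 361527319) (nat_lit 684) (nat_lit 165555085) (nat_lit 323) (nat_lit 1) (nat_lit 322) (nat_lit 1) (nat_lit 331) (nat_lit 1) (nat_lit 392) (nat_lit 322) (nat_lit 306)))) (XT.nd (nat_lit 156) (nat_lit 1064) (nat_lit 0) (XT.nd (nat_lit 78) (nat_lit 532) (nat_lit 0) (XT.lf (nat_lit 76) (nat_lit 309861028) (nat_lit 0) (nat_lit 594259473) (nat_lit 608) (nat_lit 241173204)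 (nat_lit 316) (nat_lit 1) (nat_lit 315) (nat_lit 1) (nat_lit 323) (nat_lit 1) (nat_lit 393) (nat_lit 322) (nat_lit 305)) (XT.lf (nat_lit 608) (nat_lit 291260249) (nat_lit 0) (nat_lit 815292457) (nat_lit 532) (nat_lit 14840250) (nat_lit 316) (nat_lit 1) (nat_lit 308) (nat_lit 1) (nat_lit 315) (nat_lit 1) (nat_lit 394) (nat_lit 322) (nat_lit 304))) (XT.nd (nat_lit 78) (nat_lit 608) (nat_lit 0) (XT.lf (nat_lit 532) (nat_lit 26651968) (nat_lit 0) (nat_lit 734397385) (nat_lit 456) (nat_lit 337079881) (nat_lit 309) (nat_lit 1) (nat_lit 302) (nat_lit 1) (nat_lit 308) (nat_lit 1) (nat_lit 395) (nat_lit 322) (nat_lit 303)) (XT.lf (nat_lit 76) (nat_lit 427045309) (nat_lit 0) (nat_lit 234568662) (nat_lit 608) (nat_lit 413886043) (nat_lit 295) (nat_lit 1) (nat_lit 294) (nat_lit 1) (nat_lit 302) (nat_lit 1) (nat_lit 396) (nat_lit 322) (nat_lit 302))))))))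
noncomputable def ec2 : XT := (XT.nd (nat_lit 53352) (nat_lit 912) (nat_lit 0) (XT.nd (nat_lit 1092) (nat_lit 4256) (nat_lit 0) (XT.nd (nat_lit 546) (nat_lit 2736) (nat_lit 0) (XT.nd (nat_lit 234) (nat_lit 0) (nat_lit 152) (XT.nd (nat_lit 78) (nat_lit 0) (nat_lit 76) (XT.lf (nat_lit 1292) (nat_lit 162722119) (nat_lit 0) (nat_lit 559839769) (nat_lit 1292) (nat_lit 162722119) (nat_lit 391) (nat_lit 1) (nat_lit 374) (nat_lit 0) (nat_lit 391) (nat_lit 0) (nat_lit 374) (nat_lit 323) (nat_lit 323)) (XT.nd (nat_lit 78) (nat_lit 0) (nat_lit 0) (XT.lf (nat_lit 1292) (nat_lit 13045717) (nat_lit 0) (nat_lit 1103886300) (nat_lit 1216) (nat_lit 611153643) (nat_lit 392) (nat_lit 1) (nat_lit 375) (nat_lit 1) (nat_lit 391) (nat_lit 1) (nat_lit 375) (nat_lit 323) (nat_lit 322)) (XT.lf (nat_lit 1292) (nat_lit 573955483) (nat_lit 76) (nat_lit 811839028) (nat_lit 0) (nat_lit 301108686) (nat_lit 392) (nat_lit 1) (nat_lit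 376) (nat_lit 1) (nat_lit 375) (nat_lit 1) (nat_lit 376) (nat_lit 323) (nat_lit 321)))) (XT.nd (nat_lit 156) (nat_lit 0) (nat_lit 152) (XT.nd (nat_lit 78) (nat_lit 0) (nat_lit 76) (XT.lf (nat_lit 1292) (nat_lit 504555538) (nat_lit 76) (nat_lit 531406736) (nat_lit 0) (nat_lit 611091898) (nat_lit 393) (nat_lit 1) (nat_lit 377) (nat_lit 1) (nat_lit 376) (nat_lit 1) (nat_lit 377) (nat_lit 323) (nat_lit 320)) (XT.lf (nat_lit 1292) (nat_lit 417553682) (nat_lit 76) (nat_lit 274499337) (nat_lit 0) (nat_lit 916440770) (nat_lit 394) (nat_lit 1) (nat_lit 378) (nat_lit 1) (nat_lit 377) (nat_lit 1) (nat_lit 378) (nat_lit 323) (nat_lit 319))) (XT.nd (nat_lit 78) (nat_lit 0) (nat_lit 76) (XT.lf (nat_lit 1292) (nat_lit 314291603) (nat_lit 76) (nat_lit 39908143) (nat_lit 0) (nat_lit 1216975601) (nat_lit 395) (nat_lit 1) (nat_lit 379) (nat_lit 1) (nat_lit 378) (nat_lit 1) (nat_lit 379) (nat_lit 323) (nat_lit 318))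 (XT.lf (nat_lit 1292) (nat_lit 24183062) (nat_lit 0) (nat_lit 1340687534) (nat_lit 1216) (nat_lit 170133367) (nat_lit 396) (nat_lit 1) (nat_lit 379) (nat_lit 1) (nat_lit 395) (nat_lit 1) (nat_lit 380) (nat_lit 323) (nat_lit 317))))) (XT.nd (nat_lit 234) (nat_lit 1900) (nat_lit 0) (XT.nd (nat_lit 78) (nat_lit 1216) (nat_lit 0) (XT.lf (nat_lit 1292) (nat_lit 57319119) (nat_lit 76) (nat_lit 1137234870) (nat_lit 0) (nat_lit 305338847) (nat_lit 396) (nat_lit 1) (nat_lit 380) (nat_lit 1) (nat_lit 379) (nat_lit 1) (nat_lit 381) (nat_lit 323) (nat_lit 316)) (XT.nd (nat_lit 78) (nat_lit 0) (nat_lit 76) (XT.lf (nat_lit 1368) (nat_lit 837718286) (nat_lit 0) (nat_lit 90548585) (nat_lit 1292) (nat_lit 537601052) (nat_lit 381) (nat_lit 1) (nat_lit 363) (nat_lit 1) (nat_lit 380) (nat_lit 1) (nat_lit 382) (nat_lit 323) (nat_lit 315)) (XT.lf (nat_lit 1368) (nat_lit 488971623) (nat_lit 0) (nat_lit 248454652) (nat_lit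 1292) (nat_lit 695476879) (nat_lit 382) (nat_lit 1) (nat_lit 364) (nat_lit 1) (nat_lit 381) (nat_lit 1) (nat_lit 383) (nat_lit 323) (nat_lit 314)))) (XT.nd (nat_lit 156) (nat_lit 1216) (nat_lit 0) (XT.nd (nat_lit 78) (nat_lit 836) (nat_lit 0) (XT.lf (nat_lit 76) (nat_lit 147769818) (nat_lit 0) (nat_lit 416548971) (nat_lit 1292) (nat_lit 836658119) (nat_lit 366) (nat_lit 1) (nat_lit 365) (nat_lit 1) (nat_lit 382) (nat_lit 1) (nat_lit 384) (nat_lit 323) (nat_lit 313)) (XT.lf (nat_lit 912) (nat_lit 774255309) (nat_lit 0) (nat_lit 406149865) (nat_lit 836) (nat_lit 189592672) (nat_lit 366) (nat_lit 1) (nat_lit 354) (nat_lit 1) (nat_lit 365) (nat_lit 1) (nat_lit 385) (nat_lit 323) (nat_lit 312))) (XT.nd (nat_lit 78) (nat_lit 608) (nat_lit 0) (XT.lf (nat_lit 684) (nat_lit 555213668) (nat_lit 0) (nat_lit 262505432) (nat_lit 608) (nat_lit 522225057) (nat_lit 355) (nat_lit 1) (nat_lit 346) (nat_lit 1) (nat_lit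 354) (nat_lit 1) (nat_lit 386) (nat_lit 323) (nat_lit 311)) (XT.lf (nat_lit 684) (nat_lit 329567143) (nat_lit 0) (nat_lit 134042883) (nat_lit 608) (nat_lit 847215391) (nat_lit 347) (nat_lit 1) (nat_lit 338) (nat_lit 1) (nat_lit 346) (nat_lit 1) (nat_lit 387) (nat_lit 323) (nat_lit 310)))))) (XT.nd (nat_lit 546) (nat_lit 912) (nat_lit 0) (XT.nd (nat_lit 234) (nat_lit 2128) (nat_lit 0) (XT.nd (nat_lit 78) (nat_lit 684) (nat_lit 0) (XT.lf (nat_lit 608) (nat_lit 98040341) (nat_lit 0) (nat_lit 19965987) (nat_lit 532) (nat_lit 1164602724) (nat_lit 339) (nat_lit 1) (nat_lit 331) (nat_lit 1) (nat_lit 338) (nat_lit 1) (nat_lit 388) (nat_lit 323) (nat_lit 309)) (XT.nd (nat_lit 78) (nat_lit 608) (nat_lit 0) (XT.lf (nat_lit 76) (nat_lit 1033793795) (nat_lit 0) (nat_lit 138924346) (nat_lit 608) (nat_lit 82417286) (nat_lit 331) (nat_lit 1) (nat_lit 330) (nat_lit 1) (nat_lit 338) (nat_lit 1) (nat_lit 389) (nat_lit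 323) (nat_lit 308)) (XT.lf (nat_lit 76) (nat_lit 675001999) (nat_lit 0) (nat_lit 379603685) (nat_lit 684) (nat_lit 173832839) (nat_lit 323) (nat_lit 1) (nat_lit 322) (nat_lit 1) (nat_lit 331) (nat_lit 1) (nat_lit 390) (nat_lit 323) (nat_lit 307)))) (XT.nd (nat_lit 156) (nat_lit 1064) (nat_lit 0) (XT.nd (nat_lit 78) (nat_lit 532) (nat_lit 0) (XT.lf (nat_lit 76) (nat_lit 325354080) (nat_lit 0) (nat_lit 623972446) (nat_lit 608) (nat_lit 253231865) (nat_lit 316) (nat_lit 1) (nat_lit 315) (nat_lit 1) (nat_lit 323) (nat_lit 1) (nat_lit 391) (nat_lit 323) (nat_lit 306)) (XT.lf (nat_lit 608) (nat_lit 305823261) (nat_lit 0) (nat_lit 856057079) (nat_lit 532) (nat_lit 15582262) (nat_lit 316) (nat_lit 1) (nat_lit 308) (nat_lit 1) (nat_lit 315) (nat_lit 1) (nat_lit 392) (nat_lit 323) (nat_lit 305))) (XT.nd (nat_lit 78) (nat_lit 608) (nat_lit 0) (XT.lf (nat_lit 532) (nat_lit 27984566) (nat_lit 0) (nat_lit 771117255)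 (nat_lit 456) (nat_lit 353933875) (nat_lit 309) (nat_lit 1) (nat_lit 302) (nat_lit 1) (nat_lit 308) (nat_lit 1) (nat_lit 393) (nat_lit 323) (nat_lit 304)) (XT.lf (nat_lit 76) (nat_lit 448397575) (nat_lit 0) (nat_lit 246297095) (nat_lit 608) (nat_lit 434580345) (nat_lit 295) (nat_lit 1) (nat_lit 294) (nat_lit 1) (nat_lit 302) (nat_lit 1) (nat_lit 394) (nat_lit 323) (nat_lit 303))))) (XT.nd (nat_lit 51402) (nat_lit 0) (nat_lit 7068) (XT.nd (nat_lit 78) (nat_lit 456) (nat_lit 0) (XT.lf (nat_lit 76) (nat_lit 107463622) (nat_lit 0) (nat_lit 520943806) (nat_lit 532) (nat_lit 477812296) (nat_lit 289) (nat_lit 1) (nat_lit 288) (nat_lit 1) (nat_lit 295) (nat_lit 1) (nat_lit 395) (nat_lit 323) (nat_lit 302)) (XT.nd (nat_lit 51246) (nat_lit 0) (nat_lit 6992) (XT.lf (nat_lit 532) (nat_lit 285468279) (nat_lit 0) (nat_lit 569717020) (nat_lit 456) (nat_lit 228602776) (nat_lit 289) (nat_lit 1) (nat_lit 282) (nat_lit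 1) (nat_lit 288) (nat_lit 1) (nat_lit 396) (nat_lit 323) (nat_lit 301)) (XT.lf (nat_lit 1292) (nat_lit 170858225) (nat_lit 0) (nat_lit 587831757) (nat_lit 1292) (nat_lit 170858225) (nat_lit 391) (nat_lit 1) (nat_lit 374) (nat_lit 0) (nat_lit 391) (nat_lit 0) (nat_lit 372) (nat_lit 324) (nat_lit 324)))) (XT.nd (nat_lit 156) (nat_lit 0) (nat_lit 76) (XT.nd (nat_lit 78) (nat_lit 0) (nat_lit 0) (XT.lf (nat_lit 1292) (nat_lit 13698003) (nat_lit 0) (nat_lit 1159080615) (nat_lit 1216) (nat_lit 641711325) (nat_lit 392) (nat_lit 1) (nat_lit 375) (nat_lit 1) (nat_lit 391) (nat_lit 1) (nat_lit 373) (nat_lit 324) (nat_lit 323)) (XT.lf (nat_lit 1292) (nat_lit 602653257) (nat_lit 76) (nat_lit 852430979) (nat_lit 0) (nat_lit 316164121) (nat_lit 392) (nat_lit 1) (nat_lit 376) (nat_lit 1) (nat_lit 375) (nat_lit 1) (nat_lit 374) (nat_lit 324) (nat_lit 322))) (XT.nd (nat_lit 78) (nat_lit 0) (nat_lit 76) (XT.lf (nat_lit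 1292) (nat_lit 529783315) (nat_lit 76) (nat_lit 557977073) (nat_lit 0) (nat_lit 641646493) (nat_lit 393) (nat_lit 1) (nat_lit 377) (nat_lit 1) (nat_lit 376) (nat_lit 1) (nat_lit 375) (nat_lit 324) (nat_lit 321)) (XT.lf (nat_lit 1292) (nat_lit 438431366) (nat_lit 76) (nat_lit 288224303) (nat_lit 0) (nat_lit 962262809) (nat_lit 394) (nat_lit 1) (nat_lit 378) (nat_lit 1) (nat_lit 377) (nat_lit 1) (nat_lit 376) (nat_lit 324) (nat_lit 320))))))) (XT.nd (nat_lit 1092) (nat_lit 2888) (nat_lit 0) (XT.nd (nat_lit 546) (nat_lit 3496) (nat_lit 0) (XT.nd (nat_lit 234) (nat_lit 1824) (nat_lit 0) (XT.nd (nat_lit 78) (nat_lit 0) (nat_lit 76) (XT.lf (nat_lit 1292) (nat_lit 330006183) (nat_lit 76) (nat_lit 41903550) (nat_lit 0) (nat_lit 1277824381) (nat_lit 395) (nat_lit 1) (nat_lit 379) (nat_lit 1) (nat_lit 378) (nat_lit 1) (nat_lit 377) (nat_lit 324) (nat_lit 319)) (XT.nd (nat_lit 78) (nat_lit 0) (nat_lit 0)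 (XT.lf (nat_lit 1292) (nat_lit 25392215) (nat_lit 0) (nat_lit 1407721911) (nat_lit 1216) (nat_lit 178640035) (nat_lit 396) (nat_lit 1) (nat_lit 379) (nat_lit 1) (nat_lit 395) (nat_lit 1) (nat_lit 378) (nat_lit 324) (nat_lit 318)) (XT.lf (nat_lit 1292) (nat_lit 60185075) (nat_lit 76) (nat_lit 1194096613) (nat_lit 0) (nat_lit 320605789) (nat_lit 396) (nat_lit 1) (nat_lit 380) (nat_lit 1) (nat_lit 379) (nat_lit 1) (nat_lit 379) (nat_lit 324) (nat_lit 317)))) (XT.nd (nat_lit 156) (nat_lit 684) (nat_lit 0) (XT.nd (nat_lit 78) (nat_lit 0) (nat_lit 76) (XT.lf (nat_lit 1368) (nat_lit 879604200) (nat_lit 0) (nat_lit 95076014) (nat_lit 1292) (nat_lit 564481104) (nat_lit 381) (nat_lit 1) (nat_lit 363) (nat_lit 1) (nat_lit 380) (nat_lit 1) (nat_lit 380) (nat_lit 324) (nat_lit 316)) (XT.lf (nat_lit 1368) (nat_lit 513420204) (nat_lit 0) (nat_lit 260877384) (nat_lit 1292) (nat_lit 730250723) (nat_lit 382) (nat_lit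 1) (nat_lit 364) (nat_lit 1) (nat_lit 381) (nat_lit 1) (nat_lit 381) (nat_lit 324) (nat_lit 315))) (XT.nd (nat_lit 78) (nat_lit 836) (nat_lit 0) (XT.lf (nat_lit 76) (nat_lit 155158309) (nat_lit 0) (nat_lit 437376419) (nat_lit 1292) (nat_lit 878491024) (nat_lit 366) (nat_lit 1) (nat_lit 365) (nat_lit 1) (nat_lit 382) (nat_lit 1) (nat_lit 382) (nat_lit 324) (nat_lit 314)) (XT.lf (nat_lit 912) (nat_lit 812968075) (nat_lit 0) (nat_lit 426457358) (nat_lit 836) (nat_lit 199072306) (nat_lit 366) (nat_lit 1) (nat_lit 354) (nat_lit 1) (nat_lit 365) (nat_lit 1) (nat_lit 383) (nat_lit 324) (nat_lit 313))))) (XT.nd (nat_lit 234) (nat_lit 1748) (nat_lit 0) (XT.nd (nat_lit 78) (nat_lit 1140) (nat_lit 0) (XT.lf (nat_lit 684) (nat_lit 582974352) (nat_lit 0) (nat_lit 275630703) (nat_lit 608) (nat_lit 548336310) (nat_lit 355) (nat_lit 1) (nat_lit 346) (nat_lit 1) (nat_lit 354) (nat_lit 1) (nat_lit 384) (nat_lit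 324) (nat_lit 312)) (XT.nd (nat_lit 78) (nat_lit 532) (nat_lit 0) (XT.lf (nat_lit 684) (nat_lit 346045501) (nat_lit 0) (nat_lit 140745028) (nat_lit 608) (nat_lit 889576160) (nat_lit 347) (nat_lit 1) (nat_lit 338) (nat_lit 1) (nat_lit 346) (nat_lit 1) (nat_lit 385) (nat_lit 324) (nat_lit 311)) (XT.lf (nat_lit 608) (nat_lit 102942358) (nat_lit 0) (nat_lit 20964286) (nat_lit 532) (nat_lit 1222832860) (nat_lit 339) (nat_lit 1) (nat_lit 331) (nat_lit 1) (nat_lit 338) (nat_lit 1) (nat_lit 386) (nat_lit 324) (nat_lit 310)))) (XT.nd (nat_lit 156) (nat_lit 1064) (nat_lit 0) (XT.nd (nat_lit 78) (nat_lit 608) (nat_lit 0) (XT.lf (nat_lit 76) (nat_lit 1085483485) (nat_lit 0) (nat_lit 145870563) (nat_lit 608) (nat_lit 86538151) (nat_lit 331) (nat_lit 1) (nat_lit 330) (nat_lit 1) (nat_lit 338) (nat_lit 1) (nat_lit 387) (nat_lit 324) (nat_lit 309)) (XT.lf (nat_lit 76) (nat_lit 708752099) (nat_lit 0) (nat_lit 398583869)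 (nat_lit 684) (nat_lit 182524481) (nat_lit 323) (nat_lit 1) (nat_lit 322) (nat_lit 1) (nat_lit 331) (nat_lit 1) (nat_lit 388) (nat_lit 324) (nat_lit 308))) (XT.nd (nat_lit 78) (nat_lit 532) (nat_lit 0) (XT.lf (nat_lit 76) (nat_lit 341621784) (nat_lit 0) (nat_lit 655171069) (nat_lit 608) (nat_lit 265893458) (nat_lit 316) (nat_lit 1) (nat_lit 315) (nat_lit 1) (nat_lit 323) (nat_lit 1) (nat_lit 389) (nat_lit 324) (nat_lit 307)) (XT.lf (nat_lit 608) (nat_lit 321114425) (nat_lit 0) (nat_lit 898859933) (nat_lit 532) (nat_lit 16361375) (nat_lit 316) (nat_lit 1) (nat_lit 308) (nat_lit 1) (nat_lit 315) (nat_lit 1) (nat_lit 390) (nat_lit 324) (nat_lit 306)))))) (XT.nd (nat_lit 51558) (nat_lit 0) (nat_lit 7980) (XT.nd (nat_lit 234) (nat_lit 1368) (nat_lit 0) (XT.nd (nat_lit 78) (nat_lit 1064) (nat_lit 0) (XT.lf (nat_lit 532) (nat_lit 29383794) (nat_lit 0) (nat_lit 809673118) (nat_lit 456) (nat_lit 371630569)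 (nat_lit 309) (nat_lit 1) (nat_lit 302) (nat_lit 1) (nat_lit 308) (nat_lit 1) (nat_lit 391) (nat_lit 324) (nat_lit 305)) (XT.nd (nat_lit 78) (nat_lit 456) (nat_lit 0) (XT.lf (nat_lit 76) (nat_lit 470817454) (nat_lit 0) (nat_lit 258611950) (nat_lit 608) (nat_lit 456309362) (nat_lit 295) (nat_lit 1) (nat_lit 294) (nat_lit 1) (nat_lit 302) (nat_lit 1) (nat_lit 392) (nat_lit 324) (nat_lit 304)) (XT.lf (nat_lit 76) (nat_lit 112836804) (nat_lit 0) (nat_lit 546990997) (nat_lit 532) (nat_lit 501702911) (nat_lit 289) (nat_lit 1) (nat_lit 288) (nat_lit 1) (nat_lit 295) (nat_lit 1) (nat_lit 393) (nat_lit 324) (nat_lit 303)))) (XT.nd (nat_lit 156) (nat_lit 456) (nat_lit 0) (XT.nd (nat_lit 78) (nat_lit 456) (nat_lit 0) (XT.lf (nat_lit 532) (nat_lit 299741693) (nat_lit 0) (nat_lit 598202871) (nat_lit 456) (nat_lit 240032915) (nat_lit 289) (nat_lit 1) (nat_lit 282) (nat_lit 1) (nat_lit 288) (nat_lit 1) (nat_lit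 394) (nat_lit 324) (nat_lit 302)) (XT.lf (nat_lit 76) (nat_lit 529898596) (nat_lit 0) (nat_lit 15282610) (nat_lit 456) (nat_lit 569908064) (nat_lit 277) (nat_lit 1) (nat_lit 276) (nat_lit 1) (nat_lit 282) (nat_lit 1) (nat_lit 395) (nat_lit 324) (nat_lit 301))) (XT.nd (nat_lit 51090) (nat_lit 0) (nat_lit 7904) (XT.lf (nat_lit 76) (nat_lit 175020280) (nat_lit 0) (nat_lit 323547941) (nat_lit 532) (nat_lit 594226052) (nat_lit 271) (nat_lit 1) (nat_lit 270) (nat_lit 1) (nat_lit 277) (nat_lit 1) (nat_lit 396) (nat_lit 324) (nat_lit 300)) (XT.lf (nat_lit 1292) (nat_lit 179401137) (nat_lit 0) (nat_lit 617223345) (nat_lit 1292) (nat_lit 179401137) (nat_lit 391) (nat_lit 1) (nat_lit 374) (nat_lit 0) (nat_lit 391) (nat_lit 0) (nat_lit 370) (nat_lit 325) (nat_lit 325))))) (XT.nd (nat_lit 234) (nat_lit 0) (nat_lit 152) (XT.nd (nat_lit 78) (nat_lit 0) (nat_lit 0) (XT.lf (nat_lit 1292) (nat_lit 14382903) (nat_lit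 0) (nat_lit 1217034646) (nat_lit 1216) (nat_lit 673796891) (nat_lit 392) (nat_lit 1) (nat_lit 375) (nat_lit 1) (nat_lit 391) (nat_lit 1) (nat_lit 371) (nat_lit 325) (nat_lit 324)) (XT.nd (nat_lit 78) (nat_lit 0) (nat_lit 76) (XT.lf (nat_lit 1292) (nat_lit 632785920) (nat_lit 76) (nat_lit 895052528) (nat_lit 0) (nat_lit 331972327) (nat_lit 392) (nat_lit 1) (nat_lit 376) (nat_lit 1) (nat_lit 375) (nat_lit 1) (nat_lit 372) (nat_lit 325) (nat_lit 323)) (XT.lf (nat_lit 1292) (nat_lit 556272481) (nat_lit 76) (nat_lit 585875927) (nat_lit 0) (nat_lit 673728818) (nat_lit 393) (nat_lit 1) (nat_lit 377) (nat_lit 1) (nat_lit 376) (nat_lit 1) (nat_lit 373) (nat_lit 325) (nat_lit 322)))) (XT.nd (nat_lit 156) (nat_lit 0) (nat_lit 152) (XT.nd (nat_lit 78) (nat_lit 0) (nat_lit 76) (XT.lf (nat_lit 1292) (nat_lit 460352934) (nat_lit 76) (nat_lit 302635519) (nat_lit 0) (nat_lit 1010375949) (nat_lit 394) (nat_lit 1)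 (nat_lit 378) (nat_lit 1) (nat_lit 377) (nat_lit 1) (nat_lit 374) (nat_lit 325) (nat_lit 321)) (XT.lf (nat_lit 1292) (nat_lit 346506492) (nat_lit 76) (nat_lit 43998728) (nat_lit 0) (nat_lit 1341715600) (nat_lit 395) (nat_lit 1) (nat_lit 379) (nat_lit 1) (nat_lit 378) (nat_lit 1) (nat_lit 375) (nat_lit 325) (nat_lit 320))) (XT.nd (nat_lit 78) (nat_lit 0) (nat_lit 0) (XT.lf (nat_lit 1292) (nat_lit 26661826) (nat_lit 0) (nat_lit 1478108007) (nat_lit 1216) (nat_lit 187572037) (nat_lit 396) (nat_lit 1) (nat_lit 379) (nat_lit 1) (nat_lit 395) (nat_lit 1) (nat_lit 376) (nat_lit 325) (nat_lit 319)) (XT.lf (nat_lit 1292) (nat_lit 63194329) (nat_lit 76) (nat_lit 1253801444) (nat_lit 0) (nat_lit 336636078) (nat_lit 396) (nat_lit 1) (nat_lit 380) (nat_lit 1) (nat_lit 379) (nat_lit 1) (nat_lit 377) (nat_lit 325) (nat_lit 318))))))))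
noncomputable def ec3 : XT := (XT.nd (nat_lit 53040) (nat_lit 836) (nat_lit 0) (XT.nd (nat_lit 1092) (nat_lit 2128) (nat_lit 0) (XT.nd (nat_lit 546) (nat_lit 3268) (nat_lit 0) (XT.nd (nat_lit 234) (nat_lit 2432) (nat_lit 0) (XT.nd (nat_lit 78) (nat_lit 0) (nat_lit 76) (XT.lf (nat_lit 1368) (nat_lit 923584410) (nat_lit 0) (nat_lit 99829815) (nat_lit 1292) (nat_lit 592705160) (nat_lit 381) (nat_lit 1) (nat_lit 363) (nat_lit 1) (nat_lit 380) (nat_lit 1) (nat_lit 378) (nat_lit 325) (nat_lit 317)) (XT.nd (nat_lit 78) (nat_lit 0) (nat_lit 76) (XT.lf (nat_lit 1368) (nat_lit 539091214) (nat_lit 0) (nat_lit 273921254) (nat_lit 1292) (nat_lit 766763259) (nat_lit 382) (nat_lit 1) (nat_lit 364) (nat_lit 1) (nat_lit 381) (nat_lit 1) (nat_lit 379) (nat_lit 325) (nat_lit 316)) (XT.lf (nat_lit 76) (nat_lit 162916224) (nat_lit 0) (nat_lit 459245240) (nat_lit 1292) (nat_lit 922415576) (nat_lit 366) (nat_lit 1) (nat_lit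 365) (nat_lit 1) (nat_lit 382) (nat_lit 1) (nat_lit 380) (nat_lit 325) (nat_lit 315)))) (XT.nd (nat_lit 156) (nat_lit 1140) (nat_lit 0) (XT.nd (nat_lit 78) (nat_lit 608) (nat_lit 0) (XT.lf (nat_lit 912) (nat_lit 853616479) (nat_lit 0) (nat_lit 447780226) (nat_lit 836) (nat_lit 209025921) (nat_lit 366) (nat_lit 1) (nat_lit 354) (nat_lit 1) (nat_lit 365) (nat_lit 1) (nat_lit 381) (nat_lit 325) (nat_lit 314)) (XT.lf (nat_lit 684) (nat_lit 612123069) (nat_lit 0) (nat_lit 289412238) (nat_lit 608) (nat_lit 575753126) (nat_lit 355) (nat_lit 1) (nat_lit 346) (nat_lit 1) (nat_lit 354) (nat_lit 1) (nat_lit 382) (nat_lit 325) (nat_lit 313))) (XT.nd (nat_lit 78) (nat_lit 532) (nat_lit 0) (XT.lf (nat_lit 684) (nat_lit 363347776) (nat_lit 0) (nat_lit 147782279) (nat_lit 608) (nat_lit 934054968) (nat_lit 347) (nat_lit 1) (nat_lit 338) (nat_lit 1) (nat_lit 346) (nat_lit 1) (nat_lit 383) (nat_lit 325) (nat_lit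 312)) (XT.lf (nat_lit 608) (nat_lit 108089476) (nat_lit 0) (nat_lit 22012500) (nat_lit 532) (nat_lit 1283974503) (nat_lit 339) (nat_lit 1) (nat_lit 331) (nat_lit 1) (nat_lit 338) (nat_lit 1) (nat_lit 384) (nat_lit 325) (nat_lit 311))))) (XT.nd (nat_lit 234) (nat_lit 2052) (nat_lit 0) (XT.nd (nat_lit 78) (nat_lit 1140) (nat_lit 0) (XT.lf (nat_lit 76) (nat_lit 1139757659) (nat_lit 0) (nat_lit 153164092) (nat_lit 608) (nat_lit 90865058) (nat_lit 331) (nat_lit 1) (nat_lit 330) (nat_lit 1) (nat_lit 338) (nat_lit 1) (nat_lit 385) (nat_lit 325) (nat_lit 310)) (XT.nd (nat_lit 78) (nat_lit 532) (nat_lit 0) (XT.lf (nat_lit 76) (nat_lit 744189704) (nat_lit 0) (nat_lit 418513063) (nat_lit 684) (nat_lit 191650705) (nat_lit 323) (nat_lit 1) (nat_lit 322) (nat_lit 1) (nat_lit 331) (nat_lit 1) (nat_lit 386) (nat_lit 325) (nat_lit 309)) (XT.lf (nat_lit 76) (nat_lit 358702873) (nat_lit 0) (nat_lit 687929622) (nat_lit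 608) (nat_lit 279188131) (nat_lit 316) (nat_lit 1) (nat_lit 315) (nat_lit 1) (nat_lit 323) (nat_lit 1) (nat_lit 387) (nat_lit 325) (nat_lit 308)))) (XT.nd (nat_lit 156) (nat_lit 1064) (nat_lit 0) (XT.nd (nat_lit 78) (nat_lit 456) (nat_lit 0) (XT.lf (nat_lit 608) (nat_lit 337170146) (nat_lit 0) (nat_lit 943802930) (nat_lit 532) (nat_lit 17179444) (nat_lit 316) (nat_lit 1) (nat_lit 308) (nat_lit 1) (nat_lit 315) (nat_lit 1) (nat_lit 388) (nat_lit 325) (nat_lit 307)) (XT.lf (nat_lit 532) (nat_lit 30852984) (nat_lit 0) (nat_lit 850156773) (nat_lit 456) (nat_lit 390212097) (nat_lit 309) (nat_lit 1) (nat_lit 302) (nat_lit 1) (nat_lit 308) (nat_lit 1) (nat_lit 389) (nat_lit 325) (nat_lit 306))) (XT.nd (nat_lit 78) (nat_lit 456) (nat_lit 0) (XT.lf (nat_lit 76) (nat_lit 494358326) (nat_lit 0) (nat_lit 271542547) (nat_lit 608) (nat_lit 479124830) (nat_lit 295) (nat_lit 1) (nat_lit 294) (nat_lit 1) (nat_lit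 302) (nat_lit 1) (nat_lit 390) (nat_lit 325) (nat_lit 305)) (XT.lf (nat_lit 76) (nat_lit 118478644) (nat_lit 0) (nat_lit 574340546) (nat_lit 532) (nat_lit 526788056) (nat_lit 289) (nat_lit 1) (nat_lit 288) (nat_lit 1) (nat_lit 295) (nat_lit 1) (nat_lit 391) (nat_lit 325) (nat_lit 304)))))) (XT.nd (nat_lit 51402) (nat_lit 0) (nat_lit 7828) (XT.nd (nat_lit 234) (nat_lit 760) (nat_lit 0) (XT.nd (nat_lit 78) (nat_lit 912) (nat_lit 0) (XT.lf (nat_lit 532) (nat_lit 314728777) (nat_lit 0) (nat_lit 628113014) (nat_lit 456) (nat_lit 252034560) (nat_lit 289) (nat_lit 1) (nat_lit 282) (nat_lit 1) (nat_lit 288) (nat_lit 1) (nat_lit 392) (nat_lit 325) (nat_lit 303)) (XT.nd (nat_lit 78) (nat_lit 456) (nat_lit 0) (XT.lf (nat_lit 76) (nat_lit 556393526) (nat_lit 0) (nat_lit 16046741) (nat_lit 456) (nat_lit 598403467) (nat_lit 277) (nat_lit 1) (nat_lit 276) (nat_lit 1) (nat_lit 282) (nat_lit 1) (nat_lit 393) (nat_lit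 325) (nat_lit 302)) (XT.lf (nat_lit 76) (nat_lit 183771294) (nat_lit 0) (nat_lit 339725339) (nat_lit 532) (nat_lit 623937354) (nat_lit 271) (nat_lit 1) (nat_lit 270) (nat_lit 1) (nat_lit 277) (nat_lit 1) (nat_lit 394) (nat_lit 325) (nat_lit 301)))) (XT.nd (nat_lit 51012) (nat_lit 0) (nat_lit 8664) (XT.nd (nat_lit 78) (nat_lit 380) (nat_lit 0) (XT.lf (nat_lit 456) (nat_lit 460769447) (nat_lit 0) (nat_lit 482070233) (nat_lit 380) (nat_lit 181822255) (nat_lit 271) (nat_lit 1) (nat_lit 265) (nat_lit 1) (nat_lit 270) (nat_lit 1) (nat_lit 395) (nat_lit 325) (nat_lit 300)) (XT.lf (nat_lit 456) (nat_lit 114286339) (nat_lit 0) (nat_lit 447706384) (nat_lit 380) (nat_lit 540513637) (nat_lit 266) (nat_lit 1) (nat_lit 260) (nat_lit 1) (nat_lit 265) (nat_lit 1) (nat_lit 396) (nat_lit 325) (nat_lit 299))) (XT.nd (nat_lit 78) (nat_lit 0) (nat_lit 76) (XT.lf (nat_lit 1292) (nat_lit 188371193) (nat_lit 0) (nat_lit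 648084512) (nat_lit 1292) (nat_lit 188371193) (nat_lit 391) (nat_lit 1) (nat_lit 374) (nat_lit 0) (nat_lit 391) (nat_lit 0) (nat_lit 368) (nat_lit 326) (nat_lit 326)) (XT.lf (nat_lit 1292) (nat_lit 15102048) (nat_lit 0) (nat_lit 1277886379) (nat_lit 1216) (nat_lit 707486736) (nat_lit 392) (nat_lit 1) (nat_lit 375) (nat_lit 1) (nat_lit 391) (nat_lit 1) (nat_lit 369) (nat_lit 326) (nat_lit 325))))) (XT.nd (nat_lit 234) (nat_lit 912) (nat_lit 0) (XT.nd (nat_lit 78) (nat_lit 0) (nat_lit 76) (XT.lf (nat_lit 1292) (nat_lit 664425216) (nat_lit 76) (nat_lit 939805155) (nat_lit 0) (nat_lit 348570943) (nat_lit 392) (nat_lit 1) (nat_lit 376) (nat_lit 1) (nat_lit 375) (nat_lit 1) (nat_lit 370) (nat_lit 326) (nat_lit 324)) (XT.nd (nat_lit 78) (nat_lit 0) (nat_lit 76) (XT.lf (nat_lit 1292) (nat_lit 584086105) (nat_lit 76) (nat_lit 615169723) (nat_lit 0) (nat_lit 707415259) (nat_lit 393) (nat_lit 1) (nat_lit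 377) (nat_lit 1) (nat_lit 376) (nat_lit 1) (nat_lit 371) (nat_lit 326) (nat_lit 323)) (XT.lf (nat_lit 1292) (nat_lit 483370581) (nat_lit 76) (nat_lit 317767295) (nat_lit 0) (nat_lit 1060894747) (nat_lit 394) (nat_lit 1) (nat_lit 378) (nat_lit 1) (nat_lit 377) (nat_lit 1) (nat_lit 372) (nat_lit 326) (nat_lit 322)))) (XT.nd (nat_lit 156) (nat_lit 1140) (nat_lit 0) (XT.nd (nat_lit 78) (nat_lit 0) (nat_lit 76) (XT.lf (nat_lit 1292) (nat_lit 363831817) (nat_lit 76) (nat_lit 46198664) (nat_lit 0) (nat_lit 1408801380) (nat_lit 395) (nat_lit 1) (nat_lit 379) (nat_lit 1) (nat_lit 378) (nat_lit 1) (nat_lit 373) (nat_lit 326) (nat_lit 321)) (XT.lf (nat_lit 1292) (nat_lit 27994918) (nat_lit 0) (nat_lit 1552013407) (nat_lit 1216) (nat_lit 196950639) (nat_lit 396) (nat_lit 1) (nat_lit 379) (nat_lit 1) (nat_lit 395) (nat_lit 1) (nat_lit 374) (nat_lit 326) (nat_lit 320))) (XT.nd (nat_lit 78) (nat_lit 1216) (nat_lit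 0) (XT.lf (nat_lit 1292) (nat_lit 66354046) (nat_lit 76) (nat_lit 1316491516) (nat_lit 0) (nat_lit 353467882) (nat_lit 396) (nat_lit 1) (nat_lit 380) (nat_lit 1) (nat_lit 379) (nat_lit 1) (nat_lit 375) (nat_lit 326) (nat_lit 319)) (XT.lf (nat_lit 1368) (nat_lit 969763631) (nat_lit 0) (nat_lit 104821306) (nat_lit 1292) (nat_lit 622340418) (nat_lit 381) (nat_lit 1) (nat_lit 363) (nat_lit 1) (nat_lit 380) (nat_lit 1) (nat_lit 376) (nat_lit 326) (nat_lit 318))))))) (XT.nd (nat_lit 1092) (nat_lit 2508) (nat_lit 0) (XT.nd (nat_lit 546) (nat_lit 3648) (nat_lit 0) (XT.nd (nat_lit 234) (nat_lit 1824) (nat_lit 0) (XT.nd (nat_lit 78) (nat_lit 760) (nat_lit 0) (XT.lf (nat_lit 1368) (nat_lit 566045775) (nat_lit 0) (nat_lit 287617316) (nat_lit 1292) (nat_lit 805101422) (nat_lit 382) (nat_lit 1) (nat_lit 364) (nat_lit 1) (nat_lit 381) (nat_lit 1) (nat_lit 377) (nat_lit 326) (nat_lit 317)) (XT.nd (nat_lit 78)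 (nat_lit 836) (nat_lit 0) (XT.lf (nat_lit 76) (nat_lit 171062036) (nat_lit 0) (nat_lit 482207502) (nat_lit 1292) (nat_lit 968536355) (nat_lit 366) (nat_lit 1) (nat_lit 365) (nat_lit 1) (nat_lit 382) (nat_lit 1) (nat_lit 378) (nat_lit 326) (nat_lit 316)) (XT.lf (nat_lit 912) (nat_lit 896297303) (nat_lit 0) (nat_lit 470169238) (nat_lit 836) (nat_lit 219477217) (nat_lit 366) (nat_lit 1) (nat_lit 354) (nat_lit 1) (nat_lit 365) (nat_lit 1) (nat_lit 379) (nat_lit 326) (nat_lit 315)))) (XT.nd (nat_lit 156) (nat_lit 608) (nat_lit 0) (XT.nd (nat_lit 78) (nat_lit 608) (nat_lit 0) (XT.lf (nat_lit 684) (nat_lit 642729223) (nat_lit 0) (nat_lit 303882850) (nat_lit 608) (nat_lit 604540782) (nat_lit 355) (nat_lit 1) (nat_lit 346) (nat_lit 1) (nat_lit 354) (nat_lit 1) (nat_lit 380) (nat_lit 326) (nat_lit 314)) (XT.lf (nat_lit 684) (nat_lit 381515165) (nat_lit 0) (nat_lit 155171393) (nat_lit 608) (nat_lit 980757717)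 (nat_lit 347) (nat_lit 1) (nat_lit 338) (nat_lit 1) (nat_lit 346) (nat_lit 1) (nat_lit 381) (nat_lit 326) (nat_lit 313))) (XT.nd (nat_lit 78) (nat_lit 76) (nat_lit 0) (XT.lf (nat_lit 608) (nat_lit 113493949) (nat_lit 0) (nat_lit 23113126) (nat_lit 532) (nat_lit 1348173228) (nat_lit 339) (nat_lit 1) (nat_lit 331) (nat_lit 1) (nat_lit 338) (nat_lit 1) (nat_lit 382) (nat_lit 326) (nat_lit 312)) (XT.lf (nat_lit 76) (nat_lit 1196745542) (nat_lit 0) (nat_lit 160822296) (nat_lit 608) (nat_lit 95408311) (nat_lit 331) (nat_lit 1) (nat_lit 330) (nat_lit 1) (nat_lit 338) (nat_lit 1) (nat_lit 383) (nat_lit 326) (nat_lit 311))))) (XT.nd (nat_lit 234) (nat_lit 1976) (nat_lit 0) (XT.nd (nat_lit 78) (nat_lit 1064) (nat_lit 0) (XT.lf (nat_lit 76) (nat_lit 781399190) (nat_lit 0) (nat_lit 439438716) (nat_lit 684) (nat_lit 201233241) (nat_lit 323) (nat_lit 1) (nat_lit 322) (nat_lit 1) (nat_lit 331) (nat_lit 1) (nat_lit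 384) (nat_lit 326) (nat_lit 310)) (XT.nd (nat_lit 78) (nat_lit 532) (nat_lit 0) (XT.lf (nat_lit 76) (nat_lit 376638017) (nat_lit 0) (nat_lit 722326103) (nat_lit 608) (nat_lit 293147537) (nat_lit 316) (nat_lit 1) (nat_lit 315) (nat_lit 1) (nat_lit 323) (nat_lit 1) (nat_lit 385) (nat_lit 326) (nat_lit 309)) (XT.lf (nat_lit 608) (nat_lit 354028653) (nat_lit 0) (nat_lit 990993077) (nat_lit 532) (nat_lit 18038416) (nat_lit 316) (nat_lit 1) (nat_lit 308) (nat_lit 1) (nat_lit 315) (nat_lit 1) (nat_lit 386) (nat_lit 326) (nat_lit 308)))) (XT.nd (nat_lit 156) (nat_lit 912) (nat_lit 0) (XT.nd (nat_lit 78) (nat_lit 608) (nat_lit 0) (XT.lf (nat_lit 532) (nat_lit 32395633) (nat_lit 0) (nat_lit 892664612) (nat_lit 456) (nat_lit 409722702) (nat_lit 309) (nat_lit 1) (nat_lit 302) (nat_lit 1) (nat_lit 308) (nat_lit 1) (nat_lit 387) (nat_lit 326) (nat_lit 307)) (XT.lf (nat_lit 76) (nat_lit 519076243) (nat_lit 0)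 (nat_lit 285119675) (nat_lit 608) (nat_lit 503081072) (nat_lit 295) (nat_lit 1) (nat_lit 294) (nat_lit 1) (nat_lit 302) (nat_lit 1) (nat_lit 388) (nat_lit 326) (nat_lit 306))) (XT.nd (nat_lit 78) (nat_lit 456) (nat_lit 0) (XT.lf (nat_lit 76) (nat_lit 124402576) (nat_lit 0) (nat_lit 603057574) (nat_lit 532) (nat_lit 553127459) (nat_lit 289) (nat_lit 1) (nat_lit 288) (nat_lit 1) (nat_lit 295) (nat_lit 1) (nat_lit 389) (nat_lit 326) (nat_lit 305)) (XT.lf (nat_lit 532) (nat_lit 330465216) (nat_lit 0) (nat_lit 659518665) (nat_lit 456) (nat_lit 264636288) (nat_lit 289) (nat_lit 1) (nat_lit 282) (nat_lit 1) (nat_lit 288) (nat_lit 1) (nat_lit 390) (nat_lit 326) (nat_lit 304)))))) (XT.nd (nat_lit 51246) (nat_lit 0) (nat_lit 9576) (XT.nd (nat_lit 234) (nat_lit 1216) (nat_lit 0) (XT.nd (nat_lit 78) (nat_lit 836) (nat_lit 0) (XT.lf (nat_lit 76) (nat_lit 584213202) (nat_lit 0) (nat_lit 16849078) (nat_lit 456)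 (nat_lit 628323641) (nat_lit 277) (nat_lit 1) (nat_lit 276) (nat_lit 1) (nat_lit 282) (nat_lit 1) (nat_lit 391) (nat_lit 326) (nat_lit 303)) (XT.nd (nat_lit 78) (nat_lit 380) (nat_lit 0) (XT.lf (nat_lit 76) (nat_lit 192959859) (nat_lit 0) (nat_lit 356711606) (nat_lit 532) (nat_lit 655134222) (nat_lit 271) (nat_lit 1) (nat_lit 270) (nat_lit 1) (nat_lit 277) (nat_lit 1) (nat_lit 392) (nat_lit 326) (nat_lit 302)) (XT.lf (nat_lit 456) (nat_lit 483807919) (nat_lit 0) (nat_lit 506173745) (nat_lit 380) (nat_lit 190913368) (nat_lit 271) (nat_lit 1) (nat_lit 265) (nat_lit 1) (nat_lit 270) (nat_lit 1) (nat_lit 393) (nat_lit 326) (nat_lit 301)))) (XT.nd (nat_lit 156) (nat_lit 380) (nat_lit 0) (XT.nd (nat_lit 78) (nat_lit 456) (nat_lit 0) (XT.lf (nat_lit 456) (nat_lit 120000656) (nat_lit 0) (nat_lit 470091703) (nat_lit 380) (nat_lit 567539319) (nat_lit 266) (nat_lit 1) (nat_lit 260) (nat_lit 1) (nat_lit 265)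 (nat_lit 1) (nat_lit 394) (nat_lit 326) (nat_lit 300)) (XT.lf (nat_lit 76) (nat_lit 204051778) (nat_lit 0) (nat_lit 236427515) (nat_lit 456) (nat_lit 694500560) (nat_lit 255) (nat_lit 1) (nat_lit 254) (nat_lit 1) (nat_lit 260) (nat_lit 1) (nat_lit 395) (nat_lit 326) (nat_lit 299))) (XT.nd (nat_lit 50778) (nat_lit 0) (nat_lit 9500) (XT.lf (nat_lit 456) (nat_lit 523569212) (nat_lit 0) (nat_lit 416368003) (nat_lit 380) (nat_lit 172966074) (nat_lit 255) (nat_lit 1) (nat_lit 249) (nat_lit 1) (nat_lit 254) (nat_lit 1) (nat_lit 396) (nat_lit 326) (nat_lit 298)) (XT.lf (nat_lit 1292) (nat_lit 197789753) (nat_lit 0) (nat_lit 680488738) (nat_lit 1292) (nat_lit 197789753) (nat_lit 391) (nat_lit 1) (nat_lit 374) (nat_lit 0) (nat_lit 391) (nat_lit 0) (nat_lit 366) (nat_lit 327) (nat_lit 327))))) (XT.nd (nat_lit 234) (nat_lit 0) (nat_lit 152) (XT.nd (nat_lit 78) (nat_lit 0) (nat_lit 0) (XT.lf (nat_lit 1292)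 (nat_lit 15857151) (nat_lit 0) (nat_lit 1341780698) (nat_lit 1216) (nat_lit 742861073) (nat_lit 392) (nat_lit 1) (nat_lit 375) (nat_lit 1) (nat_lit 391) (nat_lit 1) (nat_lit 367) (nat_lit 327) (nat_lit 326)) (XT.nd (nat_lit 78) (nat_lit 0) (nat_lit 76) (XT.lf (nat_lit 1292) (nat_lit 697646477) (nat_lit 76) (nat_lit 986795412) (nat_lit 0) (nat_lit 365999490) (nat_lit 392) (nat_lit 1) (nat_lit 376) (nat_lit 1) (nat_lit 375) (nat_lit 1) (nat_lit 368) (nat_lit 327) (nat_lit 325)) (XT.lf (nat_lit 1292) (nat_lit 613290410) (nat_lit 76) (nat_lit 645928209) (nat_lit 0) (nat_lit 742786022) (nat_lit 393) (nat_lit 1) (nat_lit 377) (nat_lit 1) (nat_lit 376) (nat_lit 1) (nat_lit 369) (nat_lit 327) (nat_lit 324)))) (XT.nd (nat_lit 156) (nat_lit 0) (nat_lit 152) (XT.nd (nat_lit 78) (nat_lit 0) (nat_lit 76) (XT.lf (nat_lit 1292) (nat_lit 507539110) (nat_lit 76) (nat_lit 333655659) (nat_lit 0) (nat_lit 1113939484)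 (nat_lit 394) (nat_lit 1) (nat_lit 378) (nat_lit 1) (nat_lit 377) (nat_lit 1) (nat_lit 370) (nat_lit 327) (nat_lit 323)) (XT.lf (nat_lit 1292) (nat_lit 382023408) (nat_lit 76) (nat_lit 48508597) (nat_lit 0) (nat_lit 1479241449) (nat_lit 395) (nat_lit 1) (nat_lit 379) (nat_lit 1) (nat_lit 378) (nat_lit 1) (nat_lit 371) (nat_lit 327) (nat_lit 322))) (XT.nd (nat_lit 78) (nat_lit 0) (nat_lit 0) (XT.lf (nat_lit 1292) (nat_lit 29394664) (nat_lit 0) (nat_lit 1629614078) (nat_lit 1216) (nat_lit 206798171) (nat_lit 396) (nat_lit 1) (nat_lit 379) (nat_lit 1) (nat_lit 395) (nat_lit 1) (nat_lit 372) (nat_lit 327) (nat_lit 321)) (XT.lf (nat_lit 1292) (nat_lit 69671748) (nat_lit 76) (nat_lit 1382316092) (nat_lit 0) (nat_lit 371141276) (nat_lit 396) (nat_lit 1) (nat_lit 380) (nat_lit 1) (nat_lit 379) (nat_lit 1) (nat_lit 373) (nat_lit 327) (nat_lit 320))))))))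
noncomputable def ec4 : XT := (XT.nd (nat_lit 52728) (nat_lit 608) (nat_lit 0) (XT.nd (nat_lit 1092) (nat_lit 3724) (nat_lit 0) (XT.nd (nat_lit 546) (nat_lit 3268) (nat_lit 0) (XT.nd (nat_lit 234) (nat_lit 2432) (nat_lit 0) (XT.nd (nat_lit 78) (nat_lit 0) (nat_lit 76) (XT.lf (nat_lit 1368) (nat_lit 1018251812) (nat_lit 0) (nat_lit 110062371) (nat_lit 1292) (nat_lit 653457439) (nat_lit 381) (nat_lit 1) (nat_lit 363) (nat_lit 1) (nat_lit 380) (nat_lit 1) (nat_lit 374) (nat_lit 327) (nat_lit 319)) (XT.nd (nat_lit 78) (nat_lit 0) (nat_lit 76) (XT.lf (nat_lit 1368) (nat_lit 594348063) (nat_lit 0) (nat_lit 301998182) (nat_lit 1292) (nat_lit 845356493) (nat_lit 382) (nat_lit 1) (nat_lit 364) (nat_lit 1) (nat_lit 381) (nat_lit 1) (nat_lit 375) (nat_lit 327) (nat_lit 318)) (XT.lf (nat_lit 76) (nat_lit 179615137) (nat_lit 0) (nat_lit 506317878) (nat_lit 1292) (nat_lit 1016963172) (nat_lit 366) (nat_lit 1)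 (nat_lit 365) (nat_lit 1) (nat_lit 382) (nat_lit 1) (nat_lit 376) (nat_lit 327) (nat_lit 317)))) (XT.nd (nat_lit 156) (nat_lit 1140) (nat_lit 0) (XT.nd (nat_lit 78) (nat_lit 608) (nat_lit 0) (XT.lf (nat_lit 912) (nat_lit 941112168) (nat_lit 0) (nat_lit 493677700) (nat_lit 836) (nat_lit 230451078) (nat_lit 366) (nat_lit 1) (nat_lit 354) (nat_lit 1) (nat_lit 365) (nat_lit 1) (nat_lit 377) (nat_lit 327) (nat_lit 316)) (XT.lf (nat_lit 684) (nat_lit 674865684) (nat_lit 0) (nat_lit 319076993) (nat_lit 608) (nat_lit 634767821) (nat_lit 355) (nat_lit 1) (nat_lit 346) (nat_lit 1) (nat_lit 354) (nat_lit 1) (nat_lit 378) (nat_lit 327) (nat_lit 315))) (XT.nd (nat_lit 78) (nat_lit 532) (nat_lit 0) (XT.lf (nat_lit 684) (nat_lit 400590923) (nat_lit 0) (nat_lit 162929963) (nat_lit 608) (nat_lit 1029795603) (nat_lit 347) (nat_lit 1) (nat_lit 338) (nat_lit 1) (nat_lit 346) (nat_lit 1) (nat_lit 379) (nat_lit 327)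 (nat_lit 314)) (XT.lf (nat_lit 608) (nat_lit 119168647) (nat_lit 0) (nat_lit 24268782) (nat_lit 532) (nat_lit 1415581890) (nat_lit 339) (nat_lit 1) (nat_lit 331) (nat_lit 1) (nat_lit 338) (nat_lit 1) (nat_lit 380) (nat_lit 327) (nat_lit 313))))) (XT.nd (nat_lit 234) (nat_lit 2052) (nat_lit 0) (XT.nd (nat_lit 78) (nat_lit 1140) (nat_lit 0) (XT.lf (nat_lit 76) (nat_lit 1256582819) (nat_lit 0) (nat_lit 168863411) (nat_lit 608) (nat_lit 100178727) (nat_lit 331) (nat_lit 1) (nat_lit 330) (nat_lit 1) (nat_lit 338) (nat_lit 1) (nat_lit 381) (nat_lit 327) (nat_lit 312)) (XT.nd (nat_lit 78) (nat_lit 532) (nat_lit 0) (XT.lf (nat_lit 76) (nat_lit 820469149) (nat_lit 0) (nat_lit 461410652) (nat_lit 684) (nat_lit 211294903) (nat_lit 323) (nat_lit 1) (nat_lit 322) (nat_lit 1) (nat_lit 331) (nat_lit 1) (nat_lit 382) (nat_lit 327) (nat_lit 311)) (XT.lf (nat_lit 76) (nat_lit 395469918) (nat_lit 0) (nat_lit 758442408)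 (nat_lit 608) (nat_lit 307804914) (nat_lit 316) (nat_lit 1) (nat_lit 315) (nat_lit 1) (nat_lit 323) (nat_lit 1) (nat_lit 383) (nat_lit 327) (nat_lit 310)))) (XT.nd (nat_lit 156) (nat_lit 1064) (nat_lit 0) (XT.nd (nat_lit 78) (nat_lit 456) (nat_lit 0) (XT.lf (nat_lit 608) (nat_lit 371730086) (nat_lit 0) (nat_lit 1040542730) (nat_lit 532) (nat_lit 18940337) (nat_lit 316) (nat_lit 1) (nat_lit 308) (nat_lit 1) (nat_lit 315) (nat_lit 1) (nat_lit 384) (nat_lit 327) (nat_lit 309)) (XT.lf (nat_lit 532) (nat_lit 34015415) (nat_lit 0) (nat_lit 937297843) (nat_lit 456) (nat_lit 430208837) (nat_lit 309) (nat_lit 1) (nat_lit 302) (nat_lit 1) (nat_lit 308) (nat_lit 1) (nat_lit 385) (nat_lit 327) (nat_lit 308))) (XT.nd (nat_lit 78) (nat_lit 456) (nat_lit 0) (XT.lf (nat_lit 76) (nat_lit 545030055) (nat_lit 0) (nat_lit 299375659) (nat_lit 608) (nat_lit 528235126) (nat_lit 295) (nat_lit 1) (nat_lit 294) (nat_lit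 1) (nat_lit 302) (nat_lit 1) (nat_lit 386) (nat_lit 327) (nat_lit 307)) (XT.lf (nat_lit 76) (nat_lit 130622705) (nat_lit 0) (nat_lit 633210452) (nat_lit 532) (nat_lit 580783832) (nat_lit 289) (nat_lit 1) (nat_lit 288) (nat_lit 1) (nat_lit 295) (nat_lit 1) (nat_lit 387) (nat_lit 327) (nat_lit 306)))))) (XT.nd (nat_lit 546) (nat_lit 760) (nat_lit 0) (XT.nd (nat_lit 234) (nat_lit 1596) (nat_lit 0) (XT.nd (nat_lit 78) (nat_lit 912) (nat_lit 0) (XT.lf (nat_lit 532) (nat_lit 346988477) (nat_lit 0) (nat_lit 692494598) (nat_lit 456) (nat_lit 277868103) (nat_lit 289) (nat_lit 1) (nat_lit 282) (nat_lit 1) (nat_lit 288) (nat_lit 1) (nat_lit 388) (nat_lit 327) (nat_lit 305)) (XT.nd (nat_lit 78) (nat_lit 456) (nat_lit 0) (XT.lf (nat_lit 76) (nat_lit 613423862) (nat_lit 0) (nat_lit 17691532) (nat_lit 456) (nat_lit 659739823) (nat_lit 277) (nat_lit 1) (nat_lit 276) (nat_lit 1) (nat_lit 282) (nat_lit 1) (nat_lit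 389) (nat_lit 327) (nat_lit 304)) (XT.lf (nat_lit 76) (nat_lit 202607852) (nat_lit 0) (nat_lit 374547186) (nat_lit 532) (nat_lit 687890933) (nat_lit 271) (nat_lit 1) (nat_lit 270) (nat_lit 1) (nat_lit 277) (nat_lit 1) (nat_lit 390) (nat_lit 327) (nat_lit 303)))) (XT.nd (nat_lit 156) (nat_lit 836) (nat_lit 0) (XT.nd (nat_lit 78) (nat_lit 380) (nat_lit 0) (XT.lf (nat_lit 456) (nat_lit 507998315) (nat_lit 0) (nat_lit 531482432) (nat_lit 380) (nat_lit 200459037) (nat_lit 271) (nat_lit 1) (nat_lit 265) (nat_lit 1) (nat_lit 270) (nat_lit 1) (nat_lit 391) (nat_lit 327) (nat_lit 302)) (XT.lf (nat_lit 456) (nat_lit 126000689) (nat_lit 0) (nat_lit 493596289) (nat_lit 380) (nat_lit 595916285) (nat_lit 266) (nat_lit 1) (nat_lit 260) (nat_lit 1) (nat_lit 265) (nat_lit 1) (nat_lit 392) (nat_lit 327) (nat_lit 301))) (XT.nd (nat_lit 78) (nat_lit 380) (nat_lit 0) (XT.lf (nat_lit 76) (nat_lit 214254367) (nat_lit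 0) (nat_lit 248248891) (nat_lit 456) (nat_lit 729225588) (nat_lit 255) (nat_lit 1) (nat_lit 254) (nat_lit 1) (nat_lit 260) (nat_lit 1) (nat_lit 393) (nat_lit 327) (nat_lit 300)) (XT.lf (nat_lit 456) (nat_lit 549747673) (nat_lit 0) (nat_lit 437186404) (nat_lit 380) (nat_lit 181614378) (nat_lit 255) (nat_lit 1) (nat_lit 249) (nat_lit 1) (nat_lit 254) (nat_lit 1) (nat_lit 394) (nat_lit 327) (nat_lit 299))))) (XT.nd (nat_lit 50778) (nat_lit 0) (nat_lit 10336) (XT.nd (nat_lit 78) (nat_lit 456) (nat_lit 0) (XT.lf (nat_lit 380) (nat_lit 157835391) (nat_lit 0) (nat_lit 418161480) (nat_lit 304) (nat_lit 569981938) (nat_lit 250) (nat_lit 1) (nat_lit 245) (nat_lit 1) (nat_lit 249) (nat_lit 1) (nat_lit 395) (nat_lit 327) (nat_lit 298)) (XT.nd (nat_lit 50622) (nat_lit 0) (nat_lit 10260) (XT.lf (nat_lit 76) (nat_lit 179413955) (nat_lit 0) (nat_lit 225437994) (nat_lit 456) (nat_lit 719143026) (nat_lit 240) (nat_lit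 1) (nat_lit 239) (nat_lit 1) (nat_lit 245) (nat_lit 1) (nat_lit 396) (nat_lit 327) (nat_lit 297)) (XT.lf (nat_lit 1292) (nat_lit 207679241) (nat_lit 0) (nat_lit 714513175) (nat_lit 1292) (nat_lit 207679241) (nat_lit 391) (nat_lit 1) (nat_lit 374) (nat_lit 0) (nat_lit 391) (nat_lit 0) (nat_lit 364) (nat_lit 328) (nat_lit 328)))) (XT.nd (nat_lit 156) (nat_lit 0) (nat_lit 76) (XT.nd (nat_lit 78) (nat_lit 0) (nat_lit 0) (XT.lf (nat_lit 1292) (nat_lit 16650008) (nat_lit 0) (nat_lit 1408869732) (nat_lit 1216) (nat_lit 780004127) (nat_lit 392) (nat_lit 1) (nat_lit 375) (nat_lit 1) (nat_lit 391) (nat_lit 1) (nat_lit 365) (nat_lit 328) (nat_lit 327)) (XT.lf (nat_lit 1292) (nat_lit 732528800) (nat_lit 76) (nat_lit 1036135183) (nat_lit 0) (nat_lit 384299465) (nat_lit 392) (nat_lit 1) (nat_lit 376) (nat_lit 1) (nat_lit 375) (nat_lit 1) (nat_lit 366) (nat_lit 328) (nat_lit 326))) (XT.nd (nat_lit 78) (nat_lit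 0) (nat_lit 76) (XT.lf (nat_lit 1292) (nat_lit 643954931) (nat_lit 76) (nat_lit 678224620) (nat_lit 0) (nat_lit 779925323) (nat_lit 393) (nat_lit 1) (nat_lit 377) (nat_lit 1) (nat_lit 376) (nat_lit 1) (nat_lit 367) (nat_lit 328) (nat_lit 325)) (XT.lf (nat_lit 1292) (nat_lit 532916066) (nat_lit 76) (nat_lit 350338442) (nat_lit 0) (nat_lit 1169636458) (nat_lit 394) (nat_lit 1) (nat_lit 378) (nat_lit 1) (nat_lit 377) (nat_lit 1) (nat_lit 368) (nat_lit 328) (nat_lit 324))))))) (XT.nd (nat_lit 1092) (nat_lit 5852) (nat_lit 0) (XT.nd (nat_lit 546) (nat_lit 3496) (nat_lit 0) (XT.nd (nat_lit 234) (nat_lit 1824) (nat_lit 0) (XT.nd (nat_lit 78) (nat_lit 0) (nat_lit 76) (XT.lf (nat_lit 1292) (nat_lit 401124578) (nat_lit 76) (nat_lit 50934027) (nat_lit 0) (nat_lit 1553203521) (nat_lit 395) (nat_lit 1) (nat_lit 379) (nat_lit 1) (nat_lit 378) (nat_lit 1) (nat_lit 369) (nat_lit 328) (nat_lit 323)) (XT.nd (nat_lit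 78) (nat_lit 0) (nat_lit 0) (XT.lf (nat_lit 1292) (nat_lit 30864397) (nat_lit 0) (nat_lit 1711094781) (nat_lit 1216) (nat_lit 217138079) (nat_lit 396) (nat_lit 1) (nat_lit 379) (nat_lit 1) (nat_lit 395) (nat_lit 1) (nat_lit 370) (nat_lit 328) (nat_lit 322)) (XT.lf (nat_lit 1292) (nat_lit 73155335) (nat_lit 76) (nat_lit 1451431897) (nat_lit 0) (nat_lit 389698340) (nat_lit 396) (nat_lit 1) (nat_lit 380) (nat_lit 1) (nat_lit 379) (nat_lit 1) (nat_lit 371) (nat_lit 328) (nat_lit 321)))) (XT.nd (nat_lit 156) (nat_lit 684) (nat_lit 0) (XT.nd (nat_lit 78) (nat_lit 0) (nat_lit 76) (XT.lf (nat_lit 1368) (nat_lit 1069164403) (nat_lit 0) (nat_lit 115565490) (nat_lit 1292) (nat_lit 686130311) (nat_lit 381) (nat_lit 1) (nat_lit 363) (nat_lit 1) (nat_lit 380) (nat_lit 1) (nat_lit 372) (nat_lit 328) (nat_lit 320)) (XT.lf (nat_lit 1368) (nat_lit 624065467) (nat_lit 0) (nat_lit 317098091) (nat_lit 1292) (nat_lit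 887624318) (nat_lit 382) (nat_lit 1) (nat_lit 364) (nat_lit 1) (nat_lit 381) (nat_lit 1) (nat_lit 373) (nat_lit 328) (nat_lit 319))) (XT.nd (nat_lit 78) (nat_lit 836) (nat_lit 0) (XT.lf (nat_lit 76) (nat_lit 188595894) (nat_lit 0) (nat_lit 531633772) (nat_lit 1292) (nat_lit 1067811331) (nat_lit 366) (nat_lit 1) (nat_lit 365) (nat_lit 1) (nat_lit 382) (nat_lit 1) (nat_lit 374) (nat_lit 328) (nat_lit 318)) (XT.lf (nat_lit 912) (nat_lit 988167776) (nat_lit 0) (nat_lit 518361585) (nat_lit 836) (nat_lit 241973632) (nat_lit 366) (nat_lit 1) (nat_lit 354) (nat_lit 1) (nat_lit 365) (nat_lit 1) (nat_lit 375) (nat_lit 328) (nat_lit 317))))) (XT.nd (nat_lit 234) (nat_lit 1748) (nat_lit 0) (XT.nd (nat_lit 78) (nat_lit 1140) (nat_lit 0) (XT.lf (nat_lit 684) (nat_lit 708608968) (nat_lit 0) (nat_lit 335030843) (nat_lit 608) (nat_lit 666506212) (nat_lit 355) (nat_lit 1) (nat_lit 346) (nat_lit 1) (nat_lit 354)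 (nat_lit 1) (nat_lit 376) (nat_lit 328) (nat_lit 316)) (XT.nd (nat_lit 78) (nat_lit 532) (nat_lit 0) (XT.lf (nat_lit 684) (nat_lit 420620469) (nat_lit 0) (nat_lit 171076461) (nat_lit 608) (nat_lit 1081285383) (nat_lit 347) (nat_lit 1) (nat_lit 338) (nat_lit 1) (nat_lit 346) (nat_lit 1) (nat_lit 377) (nat_lit 328) (nat_lit 315)) (XT.lf (nat_lit 608) (nat_lit 125127079) (nat_lit 0) (nat_lit 25482221) (nat_lit 532) (nat_lit 1486360984) (nat_lit 339) (nat_lit 1) (nat_lit 331) (nat_lit 1) (nat_lit 338) (nat_lit 1) (nat_lit 378) (nat_lit 328) (nat_lit 314)))) (XT.nd (nat_lit 156) (nat_lit 1064) (nat_lit 0) (XT.nd (nat_lit 78) (nat_lit 608) (nat_lit 0) (XT.lf (nat_lit 76) (nat_lit 1319411960) (nat_lit 0) (nat_lit 177306582) (nat_lit 608) (nat_lit 105187663) (nat_lit 331) (nat_lit 1) (nat_lit 330) (nat_lit 1) (nat_lit 338) (nat_lit 1) (nat_lit 379) (nat_lit 328) (nat_lit 313)) (XT.lf (nat_lit 76) (nat_lit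 861492606) (nat_lit 0) (nat_lit 484481184) (nat_lit 684) (nat_lit 221859648) (nat_lit 323) (nat_lit 1) (nat_lit 322) (nat_lit 1) (nat_lit 331) (nat_lit 1) (nat_lit 380) (nat_lit 328) (nat_lit 312))) (XT.nd (nat_lit 78) (nat_lit 532) (nat_lit 0) (XT.lf (nat_lit 76) (nat_lit 415243414) (nat_lit 0) (nat_lit 796364529) (nat_lit 608) (nat_lit 323195160) (nat_lit 316) (nat_lit 1) (nat_lit 315) (nat_lit 1) (nat_lit 323) (nat_lit 1) (nat_lit 381) (nat_lit 328) (nat_lit 311)) (XT.lf (nat_lit 608) (nat_lit 390316590) (nat_lit 0) (nat_lit 1092569867) (nat_lit 532) (nat_lit 19887354) (nat_lit 316) (nat_lit 1) (nat_lit 308) (nat_lit 1) (nat_lit 315) (nat_lit 1) (nat_lit 382) (nat_lit 328) (nat_lit 310)))))) (XT.nd (nat_lit 546) (nat_lit 2584) (nat_lit 0) (XT.nd (nat_lit 234) (nat_lit 1748) (nat_lit 0) (XT.nd (nat_lit 78) (nat_lit 1064) (nat_lit 0) (XT.lf (nat_lit 532) (nat_lit 35716186) (nat_lit 0) (nat_lit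 984162735) (nat_lit 456) (nat_lit 451719279) (nat_lit 309) (nat_lit 1) (nat_lit 302) (nat_lit 1) (nat_lit 308) (nat_lit 1) (nat_lit 383) (nat_lit 328) (nat_lit 309)) (XT.nd (nat_lit 78) (nat_lit 456) (nat_lit 0) (XT.lf (nat_lit 76) (nat_lit 572281558) (nat_lit 0) (nat_lit 314344442) (nat_lit 608) (nat_lit 554646882) (nat_lit 295) (nat_lit 1) (nat_lit 294) (nat_lit 1) (nat_lit 302) (nat_lit 1) (nat_lit 384) (nat_lit 328) (nat_lit 308)) (XT.lf (nat_lit 76) (nat_lit 137153840) (nat_lit 0) (nat_lit 664870975) (nat_lit 532) (nat_lit 609823024) (nat_lit 289) (nat_lit 1) (nat_lit 288) (nat_lit 1) (nat_lit 295) (nat_lit 1) (nat_lit 385) (nat_lit 328) (nat_lit 307)))) (XT.nd (nat_lit 156) (nat_lit 836) (nat_lit 0) (XT.nd (nat_lit 78) (nat_lit 456) (nat_lit 0) (XT.lf (nat_lit 532) (nat_lit 364337901) (nat_lit 0) (nat_lit 727119328) (nat_lit 456) (nat_lit 291761508) (nat_lit 289) (nat_lit 1) (nat_lit 282)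 (nat_lit 1) (nat_lit 288) (nat_lit 1) (nat_lit 386) (nat_lit 328) (nat_lit 306)) (XT.lf (nat_lit 76) (nat_lit 644095055) (nat_lit 0) (nat_lit 18576108) (nat_lit 456) (nat_lit 692726814) (nat_lit 277) (nat_lit 1) (nat_lit 276) (nat_lit 1) (nat_lit 282) (nat_lit 1) (nat_lit 387) (nat_lit 328) (nat_lit 305))) (XT.nd (nat_lit 78) (nat_lit 380) (nat_lit 0) (XT.lf (nat_lit 76) (nat_lit 212738244) (nat_lit 0) (nat_lit 393274545) (nat_lit 532) (nat_lit 722285480) (nat_lit 271) (nat_lit 1) (nat_lit 270) (nat_lit 1) (nat_lit 277) (nat_lit 1) (nat_lit 388) (nat_lit 328) (nat_lit 304)) (XT.lf (nat_lit 456) (nat_lit 533398231) (nat_lit 0) (nat_lit 558056553) (nat_lit 380) (nat_lit 210481989) (nat_lit 271) (nat_lit 1) (nat_lit 265) (nat_lit 1) (nat_lit 270) (nat_lit 1) (nat_lit 389) (nat_lit 328) (nat_lit 303))))) (XT.nd (nat_lit 234) (nat_lit 1368) (nat_lit 0) (XT.nd (nat_lit 78) (nat_lit 836) (nat_lit 0) (XT.lf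 (nat_lit 456) (nat_lit 132300723) (nat_lit 0) (nat_lit 518276103) (nat_lit 380) (nat_lit 625712099) (nat_lit 266) (nat_lit 1) (nat_lit 260) (nat_lit 1) (nat_lit 265) (nat_lit 1) (nat_lit 390) (nat_lit 328) (nat_lit 302)) (XT.nd (nat_lit 78) (nat_lit 380) (nat_lit 0) (XT.lf (nat_lit 76) (nat_lit 224967085) (nat_lit 0) (nat_lit 260661335) (nat_lit 456) (nat_lit 765686868) (nat_lit 255) (nat_lit 1) (nat_lit 254) (nat_lit 1) (nat_lit 260) (nat_lit 1) (nat_lit 391) (nat_lit 328) (nat_lit 301)) (XT.lf (nat_lit 456) (nat_lit 577235056) (nat_lit 0) (nat_lit 459045724) (nat_lit 380) (nat_lit 190695097) (nat_lit 255) (nat_lit 1) (nat_lit 249) (nat_lit 1) (nat_lit 254) (nat_lit 1) (nat_lit 392) (nat_lit 328) (nat_lit 300)))) (XT.nd (nat_lit 156) (nat_lit 608) (nat_lit 0) (XT.nd (nat_lit 78) (nat_lit 456) (nat_lit 0) (XT.lf (nat_lit 380) (nat_lit 165727161) (nat_lit 0) (nat_lit 439069554) (nat_lit 304) (nat_lit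 598481035) (nat_lit 250) (nat_lit 1) (nat_lit 245) (nat_lit 1) (nat_lit 249) (nat_lit 1) (nat_lit 393) (nat_lit 328) (nat_lit 299)) (XT.lf (nat_lit 76) (nat_lit 188384652) (nat_lit 0) (nat_lit 236709894) (nat_lit 456) (nat_lit 755100177) (nat_lit 240) (nat_lit 1) (nat_lit 239) (nat_lit 1) (nat_lit 245) (nat_lit 1) (nat_lit 394) (nat_lit 328) (nat_lit 298))) (XT.nd (nat_lit 78) (nat_lit 304) (nat_lit 0) (XT.lf (nat_lit 380) (nat_lit 524084578) (nat_lit 0) (nat_lit 415288900) (nat_lit 304) (nat_lit 218291581) (nat_lit 240) (nat_lit 1) (nat_lit 235) (nat_lit 1) (nat_lit 239) (nat_lit 1) (nat_lit 395) (nat_lit 328) (nat_lit 297)) (XT.lf (nat_lit 380) (nat_lit 108117721) (nat_lit 0) (nat_lit 411232512) (nat_lit 304) (nat_lit 616376312) (nat_lit 236) (nat_lit 1) (nat_lit 231) (nat_lit 1) (nat_lit 235) (nat_lit 1) (nat_lit 396) (nat_lit 328) (nat_lit 296))))))))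
noncomputable def ec5 : XT := (XT.nd (nat_lit 2184) (nat_lit 2432) (nat_lit 0) (XT.nd (nat_lit 1092) (nat_lit 6384) (nat_lit 0) (XT.nd (nat_lit 546) (nat_lit 2736) (nat_lit 0) (XT.nd (nat_lit 234) (nat_lit 0) (nat_lit 152) (XT.nd (nat_lit 78) (nat_lit 0) (nat_lit 76) (XT.lf (nat_lit 1292) (nat_lit 218063203) (nat_lit 0) (nat_lit 750238833) (nat_lit 1292) (nat_lit 218063203) (nat_lit 391) (nat_lit 1) (nat_lit 374) (nat_lit 0) (nat_lit 391) (nat_lit 0) (nat_lit 362) (nat_lit 329) (nat_lit 329)) (XT.nd (nat_lit 78) (nat_lit 0) (nat_lit 0) (XT.lf (nat_lit 1292) (nat_lit 17482509) (nat_lit 0) (nat_lit 1479313219) (nat_lit 1216) (nat_lit 819004333) (nat_lit 392) (nat_lit 1) (nat_lit 375) (nat_lit 1) (nat_lit 391) (nat_lit 1) (nat_lit 363) (nat_lit 329) (nat_lit 328)) (XT.lf (nat_lit 1292) (nat_lit 769155240) (nat_lit 76) (nat_lit 1087941942) (nat_lit 0) (nat_lit 403514438) (nat_lit 392) (nat_lit 1) (nat_lit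 376) (nat_lit 1) (nat_lit 375) (nat_lit 1) (nat_lit 364) (nat_lit 329) (nat_lit 327)))) (XT.nd (nat_lit 156) (nat_lit 0) (nat_lit 152) (XT.nd (nat_lit 78) (nat_lit 0) (nat_lit 76) (XT.lf (nat_lit 1292) (nat_lit 676152677) (nat_lit 76) (nat_lit 712135851) (nat_lit 0) (nat_lit 818921589) (nat_lit 393) (nat_lit 1) (nat_lit 377) (nat_lit 1) (nat_lit 376) (nat_lit 1) (nat_lit 365) (nat_lit 329) (nat_lit 326)) (XT.lf (nat_lit 1292) (nat_lit 559561869) (nat_lit 76) (nat_lit 367855364) (nat_lit 0) (nat_lit 1228118281) (nat_lit 394) (nat_lit 1) (nat_lit 378) (nat_lit 1) (nat_lit 377) (nat_lit 1) (nat_lit 366) (nat_lit 329) (nat_lit 325))) (XT.nd (nat_lit 78) (nat_lit 0) (nat_lit 76) (XT.lf (nat_lit 1292) (nat_lit 421180807) (nat_lit 76) (nat_lit 53480729) (nat_lit 0) (nat_lit 1630863697) (nat_lit 395) (nat_lit 1) (nat_lit 379) (nat_lit 1) (nat_lit 378) (nat_lit 1) (nat_lit 367) (nat_lit 329) (nat_lit 324))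 (XT.lf (nat_lit 1292) (nat_lit 32407617) (nat_lit 0) (nat_lit 1796649521) (nat_lit 1216) (nat_lit 227994983) (nat_lit 396) (nat_lit 1) (nat_lit 379) (nat_lit 1) (nat_lit 395) (nat_lit 1) (nat_lit 368) (nat_lit 329) (nat_lit 323))))) (XT.nd (nat_lit 234) (nat_lit 1900) (nat_lit 0) (XT.nd (nat_lit 78) (nat_lit 1216) (nat_lit 0) (XT.lf (nat_lit 1292) (nat_lit 76813102) (nat_lit 76) (nat_lit 1524003492) (nat_lit 0) (nat_lit 409183257) (nat_lit 396) (nat_lit 1) (nat_lit 380) (nat_lit 1) (nat_lit 379) (nat_lit 1) (nat_lit 369) (nat_lit 329) (nat_lit 322)) (XT.nd (nat_lit 78) (nat_lit 0) (nat_lit 76) (XT.lf (nat_lit 1368) (nat_lit 1122622623) (nat_lit 0) (nat_lit 121343764) (nat_lit 1292) (nat_lit 720436826) (nat_lit 381) (nat_lit 1) (nat_lit 363) (nat_lit 1) (nat_lit 380) (nat_lit 1) (nat_lit 370) (nat_lit 329) (nat_lit 321)) (XT.lf (nat_lit 1368) (nat_lit 655268740) (nat_lit 0) (nat_lit 332952996) (nat_lit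 1292) (nat_lit 932005534) (nat_lit 382) (nat_lit 1) (nat_lit 364) (nat_lit 1) (nat_lit 381) (nat_lit 1) (nat_lit 371) (nat_lit 329) (nat_lit 320)))) (XT.nd (nat_lit 156) (nat_lit 1216) (nat_lit 0) (XT.nd (nat_lit 78) (nat_lit 836) (nat_lit 0) (XT.lf (nat_lit 76) (nat_lit 198025689) (nat_lit 0) (nat_lit 558215460) (nat_lit 1292) (nat_lit 1121201898) (nat_lit 366) (nat_lit 1) (nat_lit 365) (nat_lit 1) (nat_lit 382) (nat_lit 1) (nat_lit 372) (nat_lit 329) (nat_lit 319)) (XT.lf (nat_lit 912) (nat_lit 1037576165) (nat_lit 0) (nat_lit 544279664) (nat_lit 836) (nat_lit 254072313) (nat_lit 366) (nat_lit 1) (nat_lit 354) (nat_lit 1) (nat_lit 365) (nat_lit 1) (nat_lit 373) (nat_lit 329) (nat_lit 318))) (XT.nd (nat_lit 78) (nat_lit 608) (nat_lit 0) (XT.lf (nat_lit 684) (nat_lit 744039416) (nat_lit 0) (nat_lit 351782385) (nat_lit 608) (nat_lit 699831523) (nat_lit 355) (nat_lit 1) (nat_lit 346) (nat_lit 1)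 (nat_lit 354) (nat_lit 1) (nat_lit 374) (nat_lit 329) (nat_lit 317)) (XT.lf (nat_lit 684) (nat_lit 441651492) (nat_lit 0) (nat_lit 179630284) (nat_lit 608) (nat_lit 1135349652) (nat_lit 347) (nat_lit 1) (nat_lit 338) (nat_lit 1) (nat_lit 346) (nat_lit 1) (nat_lit 375) (nat_lit 329) (nat_lit 316)))))) (XT.nd (nat_lit 546) (nat_lit 3040) (nat_lit 0) (XT.nd (nat_lit 234) (nat_lit 2128) (nat_lit 0) (XT.nd (nat_lit 78) (nat_lit 684) (nat_lit 0) (XT.lf (nat_lit 608) (nat_lit 131383433) (nat_lit 0) (nat_lit 26756332) (nat_lit 532) (nat_lit 1560679034) (nat_lit 339) (nat_lit 1) (nat_lit 331) (nat_lit 1) (nat_lit 338) (nat_lit 1) (nat_lit 376) (nat_lit 329) (nat_lit 315)) (XT.nd (nat_lit 78) (nat_lit 608) (nat_lit 0) (XT.lf (nat_lit 76) (nat_lit 1385382558) (nat_lit 0) (nat_lit 186171911) (nat_lit 608) (nat_lit 110447046) (nat_lit 331) (nat_lit 1) (nat_lit 330) (nat_lit 1) (nat_lit 338) (nat_lit 1) (nat_lit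 377) (nat_lit 329) (nat_lit 314)) (XT.lf (nat_lit 76) (nat_lit 904567237) (nat_lit 0) (nat_lit 508705243) (nat_lit 684) (nat_lit 232952630) (nat_lit 323) (nat_lit 1) (nat_lit 322) (nat_lit 1) (nat_lit 331) (nat_lit 1) (nat_lit 378) (nat_lit 329) (nat_lit 313)))) (XT.nd (nat_lit 156) (nat_lit 1064) (nat_lit 0) (XT.nd (nat_lit 78) (nat_lit 532) (nat_lit 0) (XT.lf (nat_lit 76) (nat_lit 436005584) (nat_lit 0) (nat_lit 836182755) (nat_lit 608) (nat_lit 339354918) (nat_lit 316) (nat_lit 1) (nat_lit 315) (nat_lit 1) (nat_lit 323) (nat_lit 1) (nat_lit 379) (nat_lit 329) (nat_lit 312)) (XT.lf (nat_lit 608) (nat_lit 409832420) (nat_lit 0) (nat_lit 1147198360) (nat_lit 532) (nat_lit 20881722) (nat_lit 316) (nat_lit 1) (nat_lit 308) (nat_lit 1) (nat_lit 315) (nat_lit 1) (nat_lit 380) (nat_lit 329) (nat_lit 311))) (XT.nd (nat_lit 78) (nat_lit 608) (nat_lit 0) (XT.lf (nat_lit 532) (nat_lit 37501995) (nat_lit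 0) (nat_lit 1033370872) (nat_lit 456) (nat_lit 474305243) (nat_lit 309) (nat_lit 1) (nat_lit 302) (nat_lit 1) (nat_lit 308) (nat_lit 1) (nat_lit 381) (nat_lit 329) (nat_lit 310)) (XT.lf (nat_lit 76) (nat_lit 600895636) (nat_lit 0) (nat_lit 330061664) (nat_lit 608) (nat_lit 582379226) (nat_lit 295) (nat_lit 1) (nat_lit 294) (nat_lit 1) (nat_lit 302) (nat_lit 1) (nat_lit 382) (nat_lit 329) (nat_lit 309))))) (XT.nd (nat_lit 234) (nat_lit 1672) (nat_lit 0) (XT.nd (nat_lit 78) (nat_lit 912) (nat_lit 0) (XT.lf (nat_lit 76) (nat_lit 144011532) (nat_lit 0) (nat_lit 698114524) (nat_lit 532) (nat_lit 640314175) (nat_lit 289) (nat_lit 1) (nat_lit 288) (nat_lit 1) (nat_lit 295) (nat_lit 1) (nat_lit 383) (nat_lit 329) (nat_lit 308)) (XT.nd (nat_lit 78) (nat_lit 456) (nat_lit 0) (XT.lf (nat_lit 532) (nat_lit 382554796) (nat_lit 0) (nat_lit 763475295) (nat_lit 456) (nat_lit 306349583) (nat_lit 289) (nat_lit 1)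 (nat_lit 282) (nat_lit 1) (nat_lit 288) (nat_lit 1) (nat_lit 384) (nat_lit 329) (nat_lit 307)) (XT.lf (nat_lit 76) (nat_lit 676299808) (nat_lit 0) (nat_lit 19504914) (nat_lit 456) (nat_lit 727363155) (nat_lit 277) (nat_lit 1) (nat_lit 276) (nat_lit 1) (nat_lit 282) (nat_lit 1) (nat_lit 385) (nat_lit 329) (nat_lit 306)))) (XT.nd (nat_lit 156) (nat_lit 836) (nat_lit 0) (XT.nd (nat_lit 78) (nat_lit 380) (nat_lit 0) (XT.lf (nat_lit 76) (nat_lit 223375157) (nat_lit 0) (nat_lit 412938272) (nat_lit 532) (nat_lit 758399754) (nat_lit 271) (nat_lit 1) (nat_lit 270) (nat_lit 1) (nat_lit 277) (nat_lit 1) (nat_lit 386) (nat_lit 329) (nat_lit 305)) (XT.lf (nat_lit 456) (nat_lit 560068143) (nat_lit 0) (nat_lit 585959381) (nat_lit 380) (nat_lit 221006088) (nat_lit 271) (nat_lit 1) (nat_lit 265) (nat_lit 1) (nat_lit 270) (nat_lit 1) (nat_lit 387) (nat_lit 329) (nat_lit 304))) (XT.nd (nat_lit 78) (nat_lit 456) (nat_lit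 0) (XT.lf (nat_lit 456) (nat_lit 138915759) (nat_lit 0) (nat_lit 544189908) (nat_lit 380) (nat_lit 656997704) (nat_lit 266) (nat_lit 1) (nat_lit 260) (nat_lit 1) (nat_lit 265) (nat_lit 1) (nat_lit 388) (nat_lit 329) (nat_lit 303)) (XT.lf (nat_lit 76) (nat_lit 236215439) (nat_lit 0) (nat_lit 273694402) (nat_lit 456) (nat_lit 803971211) (nat_lit 255) (nat_lit 1) (nat_lit 254) (nat_lit 1) (nat_lit 260) (nat_lit 1) (nat_lit 389) (nat_lit 329) (nat_lit 302))))))) (XT.nd (nat_lit 51324) (nat_lit 0) (nat_lit 5472) (XT.nd (nat_lit 50778) (nat_lit 0) (nat_lit 11552) (XT.nd (nat_lit 234) (nat_lit 1292) (nat_lit 0) (XT.nd (nat_lit 78) (nat_lit 760) (nat_lit 0) (XT.lf (nat_lit 456) (nat_lit 606096809) (nat_lit 0) (nat_lit 481998010) (nat_lit 380) (nat_lit 200229852) (nat_lit 255) (nat_lit 1) (nat_lit 249) (nat_lit 1) (nat_lit 254) (nat_lit 1) (nat_lit 390) (nat_lit 329) (nat_lit 301)) (XT.nd (nat_lit 78) (nat_lit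 456) (nat_lit 0) (XT.lf (nat_lit 380) (nat_lit 174013519) (nat_lit 0) (nat_lit 461023032) (nat_lit 304) (nat_lit 628405087) (nat_lit 250) (nat_lit 1) (nat_lit 245) (nat_lit 1) (nat_lit 249) (nat_lit 1) (nat_lit 391) (nat_lit 329) (nat_lit 300)) (XT.lf (nat_lit 76) (nat_lit 197803885) (nat_lit 0) (nat_lit 248545389) (nat_lit 456) (nat_lit 792855186) (nat_lit 240) (nat_lit 1) (nat_lit 239) (nat_lit 1) (nat_lit 245) (nat_lit 1) (nat_lit 392) (nat_lit 329) (nat_lit 299)))) (XT.nd (nat_lit 156) (nat_lit 684) (nat_lit 0) (XT.nd (nat_lit 78) (nat_lit 304) (nat_lit 0) (XT.lf (nat_lit 380) (nat_lit 550288806) (nat_lit 0) (nat_lit 436053346) (nat_lit 304) (nat_lit 229206160) (nat_lit 240) (nat_lit 1) (nat_lit 235) (nat_lit 1) (nat_lit 239) (nat_lit 1) (nat_lit 393) (nat_lit 329) (nat_lit 298)) (XT.lf (nat_lit 380) (nat_lit 113523607) (nat_lit 0) (nat_lit 431794137) (nat_lit 304) (nat_lit 647195127) (nat_lit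 236) (nat_lit 1) (nat_lit 231) (nat_lit 1) (nat_lit 235) (nat_lit 1) (nat_lit 394) (nat_lit 329) (nat_lit 297))) (XT.nd (nat_lit 78) (nat_lit 304) (nat_lit 0) (XT.lf (nat_lit 76) (nat_lit 120641822) (nat_lit 0) (nat_lit 311337021) (nat_lit 380) (nat_lit 738064430) (nat_lit 227) (nat_lit 1) (nat_lit 226) (nat_lit 1) (nat_lit 231) (nat_lit 1) (nat_lit 395) (nat_lit 329) (nat_lit 296)) (XT.lf (nat_lit 380) (nat_lit 416954716) (nat_lit 0) (nat_lit 435329828) (nat_lit 304) (nat_lit 295809448) (nat_lit 227) (nat_lit 1) (nat_lit 222) (nat_lit 1) (nat_lit 226) (nat_lit 1) (nat_lit 396) (nat_lit 329) (nat_lit 295))))) (XT.nd (nat_lit 234) (nat_lit 0) (nat_lit 152) (XT.nd (nat_lit 78) (nat_lit 0) (nat_lit 76) (XT.lf (nat_lit 1292) (nat_lit 228966363) (nat_lit 0) (nat_lit 787750775) (nat_lit 1292) (nat_lit 228966363) (nat_lit 391) (nat_lit 1) (nat_lit 374) (nat_lit 0) (nat_lit 391) (nat_lit 0) (nat_lit 360)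 (nat_lit 330) (nat_lit 330)) (XT.nd (nat_lit 78) (nat_lit 0) (nat_lit 0) (XT.lf (nat_lit 1292) (nat_lit 18356634) (nat_lit 0) (nat_lit 1553278880) (nat_lit 1216) (nat_lit 859954550) (nat_lit 392) (nat_lit 1) (nat_lit 375) (nat_lit 1) (nat_lit 391) (nat_lit 1) (nat_lit 361) (nat_lit 330) (nat_lit 329)) (XT.lf (nat_lit 1292) (nat_lit 807613002) (nat_lit 76) (nat_lit 1142339039) (nat_lit 0) (nat_lit 423690160) (nat_lit 392) (nat_lit 1) (nat_lit 376) (nat_lit 1) (nat_lit 375) (nat_lit 1) (nat_lit 362) (nat_lit 330) (nat_lit 328)))) (XT.nd (nat_lit 156) (nat_lit 0) (nat_lit 152) (XT.nd (nat_lit 78) (nat_lit 0) (nat_lit 76) (XT.lf (nat_lit 1292) (nat_lit 709960311) (nat_lit 76) (nat_lit 747742643) (nat_lit 0) (nat_lit 859867669) (nat_lit 393) (nat_lit 1) (nat_lit 377) (nat_lit 1) (nat_lit 376) (nat_lit 1) (nat_lit 363) (nat_lit 330) (nat_lit 327)) (XT.lf (nat_lit 1292) (nat_lit 587539963) (nat_lit 76)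 (nat_lit 386248133) (nat_lit 0) (nat_lit 1289524195) (nat_lit 394) (nat_lit 1) (nat_lit 378) (nat_lit 1) (nat_lit 377) (nat_lit 1) (nat_lit 364) (nat_lit 330) (nat_lit 326))) (XT.nd (nat_lit 78) (nat_lit 0) (nat_lit 76) (XT.lf (nat_lit 1292) (nat_lit 442239848) (nat_lit 76) (nat_lit 56154765) (nat_lit 0) (nat_lit 1712406882) (nat_lit 395) (nat_lit 1) (nat_lit 379) (nat_lit 1) (nat_lit 378) (nat_lit 1) (nat_lit 365) (nat_lit 330) (nat_lit 325)) (XT.lf (nat_lit 1292) (nat_lit 34027997) (nat_lit 0) (nat_lit 1886481997) (nat_lit 1216) (nat_lit 239394732) (nat_lit 396) (nat_lit 1) (nat_lit 379) (nat_lit 1) (nat_lit 395) (nat_lit 1) (nat_lit 366) (nat_lit 330) (nat_lit 324)))))) (XT.nd (nat_lit 546) (nat_lit 3344) (nat_lit 0) (XT.nd (nat_lit 234) (nat_lit 1900) (nat_lit 0) (XT.nd (nat_lit 78) (nat_lit 1216) (nat_lit 0) (XT.lf (nat_lit 1292) (nat_lit 80653757) (nat_lit 76) (nat_lit 1600203666) (nat_lit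 0) (nat_lit 429642420) (nat_lit 396) (nat_lit 1) (nat_lit 380) (nat_lit 1) (nat_lit 379) (nat_lit 1) (nat_lit 367) (nat_lit 330) (nat_lit 323)) (XT.nd (nat_lit 78) (nat_lit 0) (nat_lit 76) (XT.lf (nat_lit 1368) (nat_lit 1178753754) (nat_lit 0) (nat_lit 127410952) (nat_lit 1292) (nat_lit 756458668) (nat_lit 381) (nat_lit 1) (nat_lit 363) (nat_lit 1) (nat_lit 380) (nat_lit 1) (nat_lit 368) (nat_lit 330) (nat_lit 322)) (XT.lf (nat_lit 1368) (nat_lit 688032177) (nat_lit 0) (nat_lit 349600646) (nat_lit 1292) (nat_lit 978605811) (nat_lit 382) (nat_lit 1) (nat_lit 364) (nat_lit 1) (nat_lit 381) (nat_lit 1) (nat_lit 369) (nat_lit 330) (nat_lit 321)))) (XT.nd (nat_lit 156) (nat_lit 1216) (nat_lit 0) (XT.nd (nat_lit 78) (nat_lit 836) (nat_lit 0) (XT.lf (nat_lit 76) (nat_lit 207926974) (nat_lit 0) (nat_lit 586126233) (nat_lit 1292) (nat_lit 1177261992) (nat_lit 366) (nat_lit 1) (nat_lit 365) (nat_lit 1) (nat_lit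 382) (nat_lit 1) (nat_lit 370) (nat_lit 330) (nat_lit 320)) (XT.lf (nat_lit 912) (nat_lit 1089454973) (nat_lit 0) (nat_lit 571493647) (nat_lit 836) (nat_lit 266775929) (nat_lit 366) (nat_lit 1) (nat_lit 354) (nat_lit 1) (nat_lit 365) (nat_lit 1) (nat_lit 371) (nat_lit 330) (nat_lit 319))) (XT.nd (nat_lit 78) (nat_lit 608) (nat_lit 0) (XT.lf (nat_lit 684) (nat_lit 781241387) (nat_lit 0) (nat_lit 369371504) (nat_lit 608) (nat_lit 734823099) (nat_lit 355) (nat_lit 1) (nat_lit 346) (nat_lit 1) (nat_lit 354) (nat_lit 1) (nat_lit 372) (nat_lit 330) (nat_lit 318)) (XT.lf (nat_lit 684) (nat_lit 463734067) (nat_lit 0) (nat_lit 188611798) (nat_lit 608) (nat_lit 1192117134) (nat_lit 347) (nat_lit 1) (nat_lit 338) (nat_lit 1) (nat_lit 346) (nat_lit 1) (nat_lit 373) (nat_lit 330) (nat_lit 317))))) (XT.nd (nat_lit 234) (nat_lit 2128) (nat_lit 0) (XT.nd (nat_lit 78) (nat_lit 684) (nat_lit 0) (XT.lf (nat_lit 608)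 (nat_lit 137952605) (nat_lit 0) (nat_lit 28094149) (nat_lit 532) (nat_lit 1638712985) (nat_lit 339) (nat_lit 1) (nat_lit 331) (nat_lit 1) (nat_lit 338) (nat_lit 1) (nat_lit 374) (nat_lit 330) (nat_lit 316)) (XT.nd (nat_lit 78) (nat_lit 608) (nat_lit 0) (XT.lf (nat_lit 76) (nat_lit 1454651686) (nat_lit 0) (nat_lit 195480506) (nat_lit 608) (nat_lit 115969399) (nat_lit 331) (nat_lit 1) (nat_lit 330) (nat_lit 1) (nat_lit 338) (nat_lit 1) (nat_lit 375) (nat_lit 330) (nat_lit 315)) (XT.lf (nat_lit 76) (nat_lit 949795599) (nat_lit 0) (nat_lit 534140506) (nat_lit 684) (nat_lit 244600262) (nat_lit 323) (nat_lit 1) (nat_lit 322) (nat_lit 1) (nat_lit 331) (nat_lit 1) (nat_lit 376) (nat_lit 330) (nat_lit 314)))) (XT.nd (nat_lit 156) (nat_lit 1064) (nat_lit 0) (XT.nd (nat_lit 78) (nat_lit 532) (nat_lit 0) (XT.lf (nat_lit 76) (nat_lit 457805864) (nat_lit 0) (nat_lit 877991893) (nat_lit 608) (nat_lit 356322664)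 (nat_lit 316) (nat_lit 1) (nat_lit 315) (nat_lit 1) (nat_lit 323) (nat_lit 1) (nat_lit 377) (nat_lit 330) (nat_lit 313)) (XT.lf (nat_lit 608) (nat_lit 430324041) (nat_lit 0) (nat_lit 1204558278) (nat_lit 532) (nat_lit 21925808) (nat_lit 316) (nat_lit 1) (nat_lit 308) (nat_lit 1) (nat_lit 315) (nat_lit 1) (nat_lit 378) (nat_lit 330) (nat_lit 312))) (XT.nd (nat_lit 78) (nat_lit 608) (nat_lit 0) (XT.lf (nat_lit 532) (nat_lit 39377095) (nat_lit 0) (nat_lit 1085039415) (nat_lit 456) (nat_lit 498020506) (nat_lit 309) (nat_lit 1) (nat_lit 302) (nat_lit 1) (nat_lit 308) (nat_lit 1) (nat_lit 379) (nat_lit 330) (nat_lit 311)) (XT.lf (nat_lit 76) (nat_lit 630940417) (nat_lit 0) (nat_lit 346564747) (nat_lit 608) (nat_lit 611498187) (nat_lit 295) (nat_lit 1) (nat_lit 294) (nat_lit 1) (nat_lit 302) (nat_lit 1) (nat_lit 380) (nat_lit 330) (nat_lit 310))))))))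
noncomputable def ec6 : XT := (XT.nd (nat_lit 52260) (nat_lit 608) (nat_lit 0) (XT.nd (nat_lit 1092) (nat_lit 608) (nat_lit 0) (XT.nd (nat_lit 546) (nat_lit 2432) (nat_lit 0) (XT.nd (nat_lit 234) (nat_lit 1672) (nat_lit 0) (XT.nd (nat_lit 78) (nat_lit 912) (nat_lit 0) (XT.lf (nat_lit 76) (nat_lit 151212109) (nat_lit 0) (nat_lit 733020250) (nat_lit 532) (nat_lit 672329884) (nat_lit 289) (nat_lit 1) (nat_lit 288) (nat_lit 1) (nat_lit 295) (nat_lit 1) (nat_lit 381) (nat_lit 330) (nat_lit 309)) (XT.nd (nat_lit 78) (nat_lit 456) (nat_lit 0) (XT.lf (nat_lit 532) (nat_lit 401682536) (nat_lit 0) (nat_lit 801649059) (nat_lit 456) (nat_lit 321667063) (nat_lit 289) (nat_lit 1) (nat_lit 282) (nat_lit 1) (nat_lit 288) (nat_lit 1) (nat_lit 382) (nat_lit 330) (nat_lit 308)) (XT.lf (nat_lit 76) (nat_lit 710114798) (nat_lit 0) (nat_lit 20480159) (nat_lit 456) (nat_lit 763731313) (nat_lit 277) (nat_lit 1) (nat_lit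 276) (nat_lit 1) (nat_lit 282) (nat_lit 1) (nat_lit 383) (nat_lit 330) (nat_lit 307)))) (XT.nd (nat_lit 156) (nat_lit 836) (nat_lit 0) (XT.nd (nat_lit 78) (nat_lit 380) (nat_lit 0) (XT.lf (nat_lit 76) (nat_lit 234543915) (nat_lit 0) (nat_lit 433585186) (nat_lit 532) (nat_lit 796319741) (nat_lit 271) (nat_lit 1) (nat_lit 270) (nat_lit 1) (nat_lit 277) (nat_lit 1) (nat_lit 384) (nat_lit 330) (nat_lit 306)) (XT.lf (nat_lit 456) (nat_lit 588071550) (nat_lit 0) (nat_lit 615257350) (nat_lit 380) (nat_lit 232056392) (nat_lit 271) (nat_lit 1) (nat_lit 265) (nat_lit 1) (nat_lit 270) (nat_lit 1) (nat_lit 385) (nat_lit 330) (nat_lit 305))) (XT.nd (nat_lit 78) (nat_lit 456) (nat_lit 0) (XT.lf (nat_lit 456) (nat_lit 145861547) (nat_lit 0) (nat_lit 571399404) (nat_lit 380) (nat_lit 689847589) (nat_lit 266) (nat_lit 1) (nat_lit 260) (nat_lit 1) (nat_lit 265) (nat_lit 1) (nat_lit 386) (nat_lit 330) (nat_lit 304))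 (XT.lf (nat_lit 76) (nat_lit 248026211) (nat_lit 0) (nat_lit 287379122) (nat_lit 456) (nat_lit 844169772) (nat_lit 255) (nat_lit 1) (nat_lit 254) (nat_lit 1) (nat_lit 260) (nat_lit 1) (nat_lit 387) (nat_lit 330) (nat_lit 303))))) (XT.nd (nat_lit 234) (nat_lit 1292) (nat_lit 0) (XT.nd (nat_lit 78) (nat_lit 760) (nat_lit 0) (XT.lf (nat_lit 456) (nat_lit 636401650) (nat_lit 0) (nat_lit 506097911) (nat_lit 380) (nat_lit 210241344) (nat_lit 255) (nat_lit 1) (nat_lit 249) (nat_lit 1) (nat_lit 254) (nat_lit 1) (nat_lit 388) (nat_lit 330) (nat_lit 302)) (XT.nd (nat_lit 78) (nat_lit 456) (nat_lit 0) (XT.lf (nat_lit 380) (nat_lit 182714195) (nat_lit 0) (nat_lit 484074184) (nat_lit 304) (nat_lit 659825341) (nat_lit 250) (nat_lit 1) (nat_lit 245) (nat_lit 1) (nat_lit 249) (nat_lit 1) (nat_lit 389) (nat_lit 330) (nat_lit 301)) (XT.lf (nat_lit 76) (nat_lit 207694079) (nat_lit 0) (nat_lit 260972658) (nat_lit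 456) (nat_lit 832497945) (nat_lit 240) (nat_lit 1) (nat_lit 239) (nat_lit 1) (nat_lit 245) (nat_lit 1) (nat_lit 390) (nat_lit 330) (nat_lit 300)))) (XT.nd (nat_lit 156) (nat_lit 684) (nat_lit 0) (XT.nd (nat_lit 78) (nat_lit 304) (nat_lit 0) (XT.lf (nat_lit 380) (nat_lit 577803247) (nat_lit 0) (nat_lit 457856013) (nat_lit 304) (nat_lit 240666468) (nat_lit 240) (nat_lit 1) (nat_lit 235) (nat_lit 1) (nat_lit 239) (nat_lit 1) (nat_lit 391) (nat_lit 330) (nat_lit 299)) (XT.lf (nat_lit 380) (nat_lit 119199787) (nat_lit 0) (nat_lit 453383844) (nat_lit 304) (nat_lit 679554884) (nat_lit 236) (nat_lit 1) (nat_lit 231) (nat_lit 1) (nat_lit 235) (nat_lit 1) (nat_lit 392) (nat_lit 330) (nat_lit 298))) (XT.nd (nat_lit 78) (nat_lit 304) (nat_lit 0) (XT.lf (nat_lit 76) (nat_lit 126673913) (nat_lit 0) (nat_lit 326903872) (nat_lit 380) (nat_lit 774967652) (nat_lit 227) (nat_lit 1) (nat_lit 226) (nat_lit 1) (nat_lit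 231) (nat_lit 1) (nat_lit 393) (nat_lit 330) (nat_lit 297)) (XT.lf (nat_lit 380) (nat_lit 437802452) (nat_lit 0) (nat_lit 457096320) (nat_lit 304) (nat_lit 310599920) (nat_lit 227) (nat_lit 1) (nat_lit 222) (nat_lit 1) (nat_lit 226) (nat_lit 1) (nat_lit 394) (nat_lit 330) (nat_lit 296)))))) (XT.nd (nat_lit 50622) (nat_lit 0) (nat_lit 10640) (XT.nd (nat_lit 50310) (nat_lit 0) (nat_lit 12236) (XT.nd (nat_lit 78) (nat_lit 304) (nat_lit 0) (XT.lf (nat_lit 76) (nat_lit 446337629) (nat_lit 0) (nat_lit 20082290) (nat_lit 304) (nat_lit 716642044) (nat_lit 219) (nat_lit 1) (nat_lit 218) (nat_lit 1) (nat_lit 222) (nat_lit 1) (nat_lit 395) (nat_lit 330) (nat_lit 295)) (XT.nd (nat_lit 50154) (nat_lit 0) (nat_lit 12160) (XT.lf (nat_lit 76) (nat_lit 15672748) (nat_lit 0) (nat_lit 462680683) (nat_lit 380) (nat_lit 682780359) (nat_lit 215) (nat_lit 1) (nat_lit 214) (nat_lit 1) (nat_lit 219) (nat_lit 1) (nat_lit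 396) (nat_lit 330) (nat_lit 294)) (XT.lf (nat_lit 1292) (nat_lit 240414681) (nat_lit 0) (nat_lit 827138314) (nat_lit 1292) (nat_lit 240414681) (nat_lit 391) (nat_lit 1) (nat_lit 374) (nat_lit 0) (nat_lit 391) (nat_lit 0) (nat_lit 358) (nat_lit 331) (nat_lit 331)))) (XT.nd (nat_lit 156) (nat_lit 0) (nat_lit 76) (XT.nd (nat_lit 78) (nat_lit 0) (nat_lit 0) (XT.lf (nat_lit 1292) (nat_lit 19274466) (nat_lit 0) (nat_lit 1630942824) (nat_lit 1216) (nat_lit 902952277) (nat_lit 392) (nat_lit 1) (nat_lit 375) (nat_lit 1) (nat_lit 391) (nat_lit 1) (nat_lit 359) (nat_lit 331) (nat_lit 330)) (XT.lf (nat_lit 1292) (nat_lit 847993653) (nat_lit 76) (nat_lit 1199455991) (nat_lit 0) (nat_lit 444874668) (nat_lit 392) (nat_lit 1) (nat_lit 376) (nat_lit 1) (nat_lit 375) (nat_lit 1) (nat_lit 360) (nat_lit 331) (nat_lit 329))) (XT.nd (nat_lit 78) (nat_lit 0) (nat_lit 76) (XT.lf (nat_lit 1292) (nat_lit 745458327) (nat_lit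 76) (nat_lit 785129775) (nat_lit 0) (nat_lit 902861052) (nat_lit 393) (nat_lit 1) (nat_lit 377) (nat_lit 1) (nat_lit 376) (nat_lit 1) (nat_lit 361) (nat_lit 331) (nat_lit 328)) (XT.lf (nat_lit 1292) (nat_lit 616916961) (nat_lit 76) (nat_lit 405560539) (nat_lit 0) (nat_lit 1354000405) (nat_lit 394) (nat_lit 1) (nat_lit 378) (nat_lit 1) (nat_lit 377) (nat_lit 1) (nat_lit 362) (nat_lit 331) (nat_lit 327))))) (XT.nd (nat_lit 234) (nat_lit 1824) (nat_lit 0) (XT.nd (nat_lit 78) (nat_lit 0) (nat_lit 76) (XT.lf (nat_lit 1292) (nat_lit 464351840) (nat_lit 76) (nat_lit 58962503) (nat_lit 0) (nat_lit 1798027226) (nat_lit 395) (nat_lit 1) (nat_lit 379) (nat_lit 1) (nat_lit 378) (nat_lit 1) (nat_lit 363) (nat_lit 331) (nat_lit 326)) (XT.nd (nat_lit 78) (nat_lit 0) (nat_lit 0) (XT.lf (nat_lit 1292) (nat_lit 35729397) (nat_lit 0) (nat_lit 1980806096) (nat_lit 1216) (nat_lit 251364469) (nat_lit 396) (nat_lit 1)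 (nat_lit 379) (nat_lit 1) (nat_lit 395) (nat_lit 1) (nat_lit 364) (nat_lit 331) (nat_lit 325)) (XT.lf (nat_lit 1292) (nat_lit 84686445) (nat_lit 76) (nat_lit 1680213849) (nat_lit 0) (nat_lit 451124541) (nat_lit 396) (nat_lit 1) (nat_lit 380) (nat_lit 1) (nat_lit 379) (nat_lit 1) (nat_lit 365) (nat_lit 331) (nat_lit 324)))) (XT.nd (nat_lit 156) (nat_lit 684) (nat_lit 0) (XT.nd (nat_lit 78) (nat_lit 0) (nat_lit 76) (XT.lf (nat_lit 1368) (nat_lit 1237691442) (nat_lit 0) (nat_lit 133781500) (nat_lit 1292) (nat_lit 794281601) (nat_lit 381) (nat_lit 1) (nat_lit 363) (nat_lit 1) (nat_lit 380) (nat_lit 1) (nat_lit 366) (nat_lit 331) (nat_lit 323)) (XT.lf (nat_lit 1368) (nat_lit 722433786) (nat_lit 0) (nat_lit 367080678) (nat_lit 1292) (nat_lit 1027536101) (nat_lit 382) (nat_lit 1) (nat_lit 364) (nat_lit 1) (nat_lit 381) (nat_lit 1) (nat_lit 367) (nat_lit 331) (nat_lit 322))) (XT.nd (nat_lit 78) (nat_lit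 836) (nat_lit 0) (XT.lf (nat_lit 76) (nat_lit 218323322) (nat_lit 0) (nat_lit 615432545) (nat_lit 1292) (nat_lit 1236125092) (nat_lit 366) (nat_lit 1) (nat_lit 365) (nat_lit 1) (nat_lit 382) (nat_lit 1) (nat_lit 368) (nat_lit 331) (nat_lit 321)) (XT.lf (nat_lit 912) (nat_lit 1143927722) (nat_lit 0) (nat_lit 600068330) (nat_lit 836) (nat_lit 280114726) (nat_lit 366) (nat_lit 1) (nat_lit 354) (nat_lit 1) (nat_lit 365) (nat_lit 1) (nat_lit 369) (nat_lit 331) (nat_lit 320))))))) (XT.nd (nat_lit 1092) (nat_lit 4484) (nat_lit 0) (XT.nd (nat_lit 546) (nat_lit 3268) (nat_lit 0) (XT.nd (nat_lit 234) (nat_lit 1748) (nat_lit 0) (XT.nd (nat_lit 78) (nat_lit 1140) (nat_lit 0) (XT.lf (nat_lit 684) (nat_lit 820303457) (nat_lit 0) (nat_lit 387840079) (nat_lit 608) (nat_lit 771564254) (nat_lit 355) (nat_lit 1) (nat_lit 346) (nat_lit 1) (nat_lit 354) (nat_lit 1) (nat_lit 370) (nat_lit 331) (nat_lit 319)) (XT.nd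 (nat_lit 78) (nat_lit 532) (nat_lit 0) (XT.lf (nat_lit 684) (nat_lit 486920770) (nat_lit 0) (nat_lit 198042388) (nat_lit 608) (nat_lit 1251722991) (nat_lit 347) (nat_lit 1) (nat_lit 338) (nat_lit 1) (nat_lit 346) (nat_lit 1) (nat_lit 371) (nat_lit 331) (nat_lit 318)) (XT.lf (nat_lit 608) (nat_lit 144850235) (nat_lit 0) (nat_lit 29498856) (nat_lit 532) (nat_lit 1720648634) (nat_lit 339) (nat_lit 1) (nat_lit 331) (nat_lit 1) (nat_lit 338) (nat_lit 1) (nat_lit 372) (nat_lit 331) (nat_lit 317)))) (XT.nd (nat_lit 156) (nat_lit 1064) (nat_lit 0) (XT.nd (nat_lit 78) (nat_lit 608) (nat_lit 0) (XT.lf (nat_lit 76) (nat_lit 1527384270) (nat_lit 0) (nat_lit 205254532) (nat_lit 608) (nat_lit 121767869) (nat_lit 331) (nat_lit 1) (nat_lit 330) (nat_lit 1) (nat_lit 338) (nat_lit 1) (nat_lit 373) (nat_lit 331) (nat_lit 316)) (XT.lf (nat_lit 76) (nat_lit 997285379) (nat_lit 0) (nat_lit 560847531) (nat_lit 684) (nat_lit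 256830275) (nat_lit 323) (nat_lit 1) (nat_lit 322) (nat_lit 1) (nat_lit 331) (nat_lit 1) (nat_lit 374) (nat_lit 331) (nat_lit 315))) (XT.nd (nat_lit 78) (nat_lit 532) (nat_lit 0) (XT.lf (nat_lit 76) (nat_lit 480696157) (nat_lit 0) (nat_lit 921891488) (nat_lit 608) (nat_lit 374138797) (nat_lit 316) (nat_lit 1) (nat_lit 315) (nat_lit 1) (nat_lit 323) (nat_lit 1) (nat_lit 375) (nat_lit 331) (nat_lit 314)) (XT.lf (nat_lit 608) (nat_lit 451840243) (nat_lit 0) (nat_lit 1264786192) (nat_lit 532) (nat_lit 23022098) (nat_lit 316) (nat_lit 1) (nat_lit 308) (nat_lit 1) (nat_lit 315) (nat_lit 1) (nat_lit 376) (nat_lit 331) (nat_lit 313))))) (XT.nd (nat_lit 234) (nat_lit 1748) (nat_lit 0) (XT.nd (nat_lit 78) (nat_lit 1064) (nat_lit 0) (XT.lf (nat_lit 532) (nat_lit 41345950) (nat_lit 0) (nat_lit 1139291386) (nat_lit 456) (nat_lit 522921531) (nat_lit 309) (nat_lit 1) (nat_lit 302) (nat_lit 1) (nat_lit 308) (nat_lit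 1) (nat_lit 377) (nat_lit 331) (nat_lit 312)) (XT.nd (nat_lit 78) (nat_lit 456) (nat_lit 0) (XT.lf (nat_lit 76) (nat_lit 662487438) (nat_lit 0) (nat_lit 363892984) (nat_lit 608) (nat_lit 642073097) (nat_lit 295) (nat_lit 1) (nat_lit 294) (nat_lit 1) (nat_lit 302) (nat_lit 1) (nat_lit 378) (nat_lit 331) (nat_lit 311)) (XT.lf (nat_lit 76) (nat_lit 158772714) (nat_lit 0) (nat_lit 769671263) (nat_lit 532) (nat_lit 705946378) (nat_lit 289) (nat_lit 1) (nat_lit 288) (nat_lit 1) (nat_lit 295) (nat_lit 1) (nat_lit 379) (nat_lit 331) (nat_lit 310)))) (XT.nd (nat_lit 156) (nat_lit 836) (nat_lit 0) (XT.nd (nat_lit 78) (nat_lit 456) (nat_lit 0) (XT.lf (nat_lit 532) (nat_lit 421766663) (nat_lit 0) (nat_lit 841731512) (nat_lit 456) (nat_lit 337750416) (nat_lit 289) (nat_lit 1) (nat_lit 282) (nat_lit 1) (nat_lit 288) (nat_lit 1) (nat_lit 380) (nat_lit 331) (nat_lit 309)) (XT.lf (nat_lit 76) (nat_lit 745620538)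 (nat_lit 0) (nat_lit 21504167) (nat_lit 456) (nat_lit 801917878) (nat_lit 277) (nat_lit 1) (nat_lit 276) (nat_lit 1) (nat_lit 282) (nat_lit 1) (nat_lit 381) (nat_lit 331) (nat_lit 308))) (XT.nd (nat_lit 78) (nat_lit 380) (nat_lit 0) (XT.lf (nat_lit 76) (nat_lit 246271110) (nat_lit 0) (nat_lit 455264445) (nat_lit 532) (nat_lit 836135729) (nat_lit 271) (nat_lit 1) (nat_lit 270) (nat_lit 1) (nat_lit 277) (nat_lit 1) (nat_lit 382) (nat_lit 331) (nat_lit 307)) (XT.lf (nat_lit 456) (nat_lit 617475128) (nat_lit 0) (nat_lit 646020218) (nat_lit 380) (nat_lit 243659212) (nat_lit 271) (nat_lit 1) (nat_lit 265) (nat_lit 1) (nat_lit 270) (nat_lit 1) (nat_lit 383) (nat_lit 331) (nat_lit 306)))))) (XT.nd (nat_lit 546) (nat_lit 1900) (nat_lit 0) (XT.nd (nat_lit 234) (nat_lit 1368) (nat_lit 0) (XT.nd (nat_lit 78) (nat_lit 836) (nat_lit 0) (XT.lf (nat_lit 456) (nat_lit 153154625) (nat_lit 0) (nat_lit 599969374)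 (nat_lit 380) (nat_lit 724339968) (nat_lit 266) (nat_lit 1) (nat_lit 260) (nat_lit 1) (nat_lit 265) (nat_lit 1) (nat_lit 384) (nat_lit 331) (nat_lit 305)) (XT.nd (nat_lit 78) (nat_lit 380) (nat_lit 0) (XT.lf (nat_lit 76) (nat_lit 260427522) (nat_lit 0) (nat_lit 301748078) (nat_lit 456) (nat_lit 886378261) (nat_lit 255) (nat_lit 1) (nat_lit 254) (nat_lit 1) (nat_lit 260) (nat_lit 1) (nat_lit 385) (nat_lit 331) (nat_lit 304)) (XT.lf (nat_lit 456) (nat_lit 668221732) (nat_lit 0) (nat_lit 531402806) (nat_lit 380) (nat_lit 220753412) (nat_lit 255) (nat_lit 1) (nat_lit 249) (nat_lit 1) (nat_lit 254) (nat_lit 1) (nat_lit 386) (nat_lit 331) (nat_lit 303)))) (XT.nd (nat_lit 156) (nat_lit 608) (nat_lit 0) (XT.nd (nat_lit 78) (nat_lit 456) (nat_lit 0) (XT.lf (nat_lit 380) (nat_lit 191849904) (nat_lit 0) (nat_lit 508277893) (nat_lit 304) (nat_lit 692816608) (nat_lit 250) (nat_lit 1) (nat_lit 245) (nat_lit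 1) (nat_lit 249) (nat_lit 1) (nat_lit 387) (nat_lit 331) (nat_lit 302)) (XT.lf (nat_lit 76) (nat_lit 218078783) (nat_lit 0) (nat_lit 274021291) (nat_lit 456) (nat_lit 874122843) (nat_lit 240) (nat_lit 1) (nat_lit 239) (nat_lit 1) (nat_lit 245) (nat_lit 1) (nat_lit 388) (nat_lit 331) (nat_lit 301))) (XT.nd (nat_lit 78) (nat_lit 304) (nat_lit 0) (XT.lf (nat_lit 380) (nat_lit 606693409) (nat_lit 0) (nat_lit 480748814) (nat_lit 304) (nat_lit 252699791) (nat_lit 240) (nat_lit 1) (nat_lit 235) (nat_lit 1) (nat_lit 239) (nat_lit 1) (nat_lit 389) (nat_lit 331) (nat_lit 300)) (XT.lf (nat_lit 380) (nat_lit 125159777) (nat_lit 0) (nat_lit 476053037) (nat_lit 304) (nat_lit 713532628) (nat_lit 236) (nat_lit 1) (nat_lit 231) (nat_lit 1) (nat_lit 235) (nat_lit 1) (nat_lit 390) (nat_lit 331) (nat_lit 299))))) (XT.nd (nat_lit 234) (nat_lit 912) (nat_lit 0) (XT.nd (nat_lit 78) (nat_lit 608) (nat_lit 0) (XT.lf (nat_lit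 76) (nat_lit 133007609) (nat_lit 0) (nat_lit 343249066) (nat_lit 380) (nat_lit 813716035) (nat_lit 227) (nat_lit 1) (nat_lit 226) (nat_lit 1) (nat_lit 231) (nat_lit 1) (nat_lit 391) (nat_lit 331) (nat_lit 298)) (XT.nd (nat_lit 78) (nat_lit 304) (nat_lit 0) (XT.lf (nat_lit 380) (nat_lit 459692574) (nat_lit 0) (nat_lit 479951136) (nat_lit 304) (nat_lit 326129916) (nat_lit 227) (nat_lit 1) (nat_lit 222) (nat_lit 1) (nat_lit 226) (nat_lit 1) (nat_lit 392) (nat_lit 331) (nat_lit 297)) (XT.lf (nat_lit 76) (nat_lit 468654511) (nat_lit 0) (nat_lit 21086405) (nat_lit 304) (nat_lit 752474146) (nat_lit 219) (nat_lit 1) (nat_lit 218) (nat_lit 1) (nat_lit 222) (nat_lit 1) (nat_lit 393) (nat_lit 331) (nat_lit 296)))) (XT.nd (nat_lit 156) (nat_lit 380) (nat_lit 0) (XT.nd (nat_lit 78) (nat_lit 228) (nat_lit 0) (XT.lf (nat_lit 76) (nat_lit 16456386) (nat_lit 0) (nat_lit 485814718) (nat_lit 380) (nat_lit 716919377)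 (nat_lit 215) (nat_lit 1) (nat_lit 214) (nat_lit 1) (nat_lit 219) (nat_lit 1) (nat_lit 394) (nat_lit 331) (nat_lit 295)) (XT.lf (nat_lit 304) (nat_lit 249123567) (nat_lit 0) (nat_lit 517423009) (nat_lit 228) (nat_lit 430141198) (nat_lit 215) (nat_lit 1) (nat_lit 211) (nat_lit 1) (nat_lit 214) (nat_lit 1) (nat_lit 395) (nat_lit 331) (nat_lit 294))) (XT.nd (nat_lit 49998) (nat_lit 0) (nat_lit 12768) (XT.lf (nat_lit 76) (nat_lit 313824591) (nat_lit 0) (nat_lit 222958029) (nat_lit 380) (nat_lit 637962033) (nat_lit 207) (nat_lit 1) (nat_lit 206) (nat_lit 1) (nat_lit 211) (nat_lit 1) (nat_lit 396) (nat_lit 331) (nat_lit 293)) (XT.lf (nat_lit 1292) (nat_lit 252435415) (nat_lit 0) (nat_lit 868495230) (nat_lit 1292) (nat_lit 252435415) (nat_lit 391) (nat_lit 1) (nat_lit 374) (nat_lit 0) (nat_lit 391) (nat_lit 0) (nat_lit 356) (nat_lit 332) (nat_lit 332))))))))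
noncomputable def ec7 : XT := (XT.nd (nat_lit 2184) (nat_lit 3800) (nat_lit 0) (XT.nd (nat_lit 1092) (nat_lit 6232) (nat_lit 0) (XT.nd (nat_lit 546) (nat_lit 3344) (nat_lit 0) (XT.nd (nat_lit 234) (nat_lit 0) (nat_lit 152) (XT.nd (nat_lit 78) (nat_lit 0) (nat_lit 0) (XT.lf (nat_lit 1292) (nat_lit 20238189) (nat_lit 0) (nat_lit 1712489965) (nat_lit 1216) (nat_lit 948099891) (nat_lit 392) (nat_lit 1) (nat_lit 375) (nat_lit 1) (nat_lit 391) (nat_lit 1) (nat_lit 357) (nat_lit 332) (nat_lit 331)) (XT.nd (nat_lit 78) (nat_lit 0) (nat_lit 76) (XT.lf (nat_lit 1292) (nat_lit 890393335) (nat_lit 76) (nat_lit 1259428791) (nat_lit 0) (nat_lit 467118401) (nat_lit 392) (nat_lit 1) (nat_lit 376) (nat_lit 1) (nat_lit 375) (nat_lit 1) (nat_lit 358) (nat_lit 332) (nat_lit 330)) (XT.lf (nat_lit 1292) (nat_lit 782731243) (nat_lit 76) (nat_lit 824386264) (nat_lit 0) (nat_lit 948004105) (nat_lit 393) (nat_lit 1) (nat_lit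 377) (nat_lit 1) (nat_lit 376) (nat_lit 1) (nat_lit 359) (nat_lit 332) (nat_lit 329)))) (XT.nd (nat_lit 156) (nat_lit 0) (nat_lit 152) (XT.nd (nat_lit 78) (nat_lit 0) (nat_lit 76) (XT.lf (nat_lit 1292) (nat_lit 647762809) (nat_lit 76) (nat_lit 425838566) (nat_lit 0) (nat_lit 1421700425) (nat_lit 394) (nat_lit 1) (nat_lit 378) (nat_lit 1) (nat_lit 377) (nat_lit 1) (nat_lit 360) (nat_lit 332) (nat_lit 328)) (XT.lf (nat_lit 1292) (nat_lit 487569432) (nat_lit 76) (nat_lit 61910629) (nat_lit 0) (nat_lit 1887928588) (nat_lit 395) (nat_lit 1) (nat_lit 379) (nat_lit 1) (nat_lit 378) (nat_lit 1) (nat_lit 361) (nat_lit 332) (nat_lit 327))) (XT.nd (nat_lit 78) (nat_lit 0) (nat_lit 0) (XT.lf (nat_lit 1292) (nat_lit 37515867) (nat_lit 0) (nat_lit 2079846401) (nat_lit 1216) (nat_lit 263932692) (nat_lit 396) (nat_lit 1) (nat_lit 379) (nat_lit 1) (nat_lit 395) (nat_lit 1) (nat_lit 362) (nat_lit 332) (nat_lit 326))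 (XT.lf (nat_lit 1292) (nat_lit 88920767) (nat_lit 76) (nat_lit 1764224542) (nat_lit 0) (nat_lit 473680768) (nat_lit 396) (nat_lit 1) (nat_lit 380) (nat_lit 1) (nat_lit 379) (nat_lit 1) (nat_lit 363) (nat_lit 332) (nat_lit 325))))) (XT.nd (nat_lit 234) (nat_lit 2432) (nat_lit 0) (XT.nd (nat_lit 78) (nat_lit 0) (nat_lit 76) (XT.lf (nat_lit 1368) (nat_lit 1299576014) (nat_lit 0) (nat_lit 140470575) (nat_lit 1292) (nat_lit 833995681) (nat_lit 381) (nat_lit 1) (nat_lit 363) (nat_lit 1) (nat_lit 380) (nat_lit 1) (nat_lit 364) (nat_lit 332) (nat_lit 324)) (XT.nd (nat_lit 78) (nat_lit 0) (nat_lit 76) (XT.lf (nat_lit 1368) (nat_lit 758555475) (nat_lit 0) (nat_lit 385434712) (nat_lit 1292) (nat_lit 1078912906) (nat_lit 382) (nat_lit 1) (nat_lit 364) (nat_lit 1) (nat_lit 381) (nat_lit 1) (nat_lit 365) (nat_lit 332) (nat_lit 323)) (XT.lf (nat_lit 76) (nat_lit 229239488) (nat_lit 0) (nat_lit 646204172) (nat_lit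 1292) (nat_lit 1297931347) (nat_lit 366) (nat_lit 1) (nat_lit 365) (nat_lit 1) (nat_lit 382) (nat_lit 1) (nat_lit 366) (nat_lit 332) (nat_lit 322)))) (XT.nd (nat_lit 156) (nat_lit 1140) (nat_lit 0) (XT.nd (nat_lit 78) (nat_lit 608) (nat_lit 0) (XT.lf (nat_lit 912) (nat_lit 1201124108) (nat_lit 0) (nat_lit 630071746) (nat_lit 836) (nat_lit 294120462) (nat_lit 366) (nat_lit 1) (nat_lit 354) (nat_lit 1) (nat_lit 365) (nat_lit 1) (nat_lit 367) (nat_lit 332) (nat_lit 321)) (XT.lf (nat_lit 684) (nat_lit 861318629) (nat_lit 0) (nat_lit 407232083) (nat_lit 608) (nat_lit 810142467) (nat_lit 355) (nat_lit 1) (nat_lit 346) (nat_lit 1) (nat_lit 354) (nat_lit 1) (nat_lit 368) (nat_lit 332) (nat_lit 320))) (XT.nd (nat_lit 78) (nat_lit 532) (nat_lit 0) (XT.lf (nat_lit 684) (nat_lit 511266809) (nat_lit 0) (nat_lit 207944507) (nat_lit 608) (nat_lit 1314309141) (nat_lit 347) (nat_lit 1) (nat_lit 338) (nat_lit 1)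 (nat_lit 346) (nat_lit 1) (nat_lit 369) (nat_lit 332) (nat_lit 319)) (XT.lf (nat_lit 608) (nat_lit 152092747) (nat_lit 0) (nat_lit 30973799) (nat_lit 532) (nat_lit 1806681066) (nat_lit 339) (nat_lit 1) (nat_lit 331) (nat_lit 1) (nat_lit 338) (nat_lit 1) (nat_lit 370) (nat_lit 332) (nat_lit 318)))))) (XT.nd (nat_lit 546) (nat_lit 2964) (nat_lit 0) (XT.nd (nat_lit 234) (nat_lit 2052) (nat_lit 0) (XT.nd (nat_lit 78) (nat_lit 1140) (nat_lit 0) (XT.lf (nat_lit 76) (nat_lit 1603753484) (nat_lit 0) (nat_lit 215517258) (nat_lit 608) (nat_lit 127856262) (nat_lit 331) (nat_lit 1) (nat_lit 330) (nat_lit 1) (nat_lit 338) (nat_lit 1) (nat_lit 371) (nat_lit 332) (nat_lit 317)) (XT.nd (nat_lit 78) (nat_lit 532) (nat_lit 0) (XT.lf (nat_lit 76) (nat_lit 1047149648) (nat_lit 0) (nat_lit 588889908) (nat_lit 684) (nat_lit 269671789) (nat_lit 323) (nat_lit 1) (nat_lit 322) (nat_lit 1) (nat_lit 331) (nat_lit 1) (nat_lit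 372) (nat_lit 332) (nat_lit 316)) (XT.lf (nat_lit 76) (nat_lit 504730965) (nat_lit 0) (nat_lit 967986062) (nat_lit 608) (nat_lit 392845737) (nat_lit 316) (nat_lit 1) (nat_lit 315) (nat_lit 1) (nat_lit 323) (nat_lit 1) (nat_lit 373) (nat_lit 332) (nat_lit 315)))) (XT.nd (nat_lit 156) (nat_lit 1064) (nat_lit 0) (XT.nd (nat_lit 78) (nat_lit 456) (nat_lit 0) (XT.lf (nat_lit 608) (nat_lit 474432255) (nat_lit 0) (nat_lit 1328025502) (nat_lit 532) (nat_lit 24173203) (nat_lit 316) (nat_lit 1) (nat_lit 308) (nat_lit 1) (nat_lit 315) (nat_lit 1) (nat_lit 374) (nat_lit 332) (nat_lit 314)) (XT.lf (nat_lit 532) (nat_lit 43413247) (nat_lit 0) (nat_lit 1196255955) (nat_lit 456) (nat_lit 549067607) (nat_lit 309) (nat_lit 1) (nat_lit 302) (nat_lit 1) (nat_lit 308) (nat_lit 1) (nat_lit 375) (nat_lit 332) (nat_lit 313))) (XT.nd (nat_lit 78) (nat_lit 456) (nat_lit 0) (XT.lf (nat_lit 76) (nat_lit 695611810) (nat_lit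 0) (nat_lit 382087633) (nat_lit 608) (nat_lit 674176752) (nat_lit 295) (nat_lit 1) (nat_lit 294) (nat_lit 1) (nat_lit 302) (nat_lit 1) (nat_lit 376) (nat_lit 332) (nat_lit 312)) (XT.lf (nat_lit 76) (nat_lit 166711350) (nat_lit 0) (nat_lit 808154826) (nat_lit 532) (nat_lit 741243697) (nat_lit 289) (nat_lit 1) (nat_lit 288) (nat_lit 1) (nat_lit 295) (nat_lit 1) (nat_lit 377) (nat_lit 332) (nat_lit 311))))) (XT.nd (nat_lit 234) (nat_lit 1596) (nat_lit 0) (XT.nd (nat_lit 78) (nat_lit 912) (nat_lit 0) (XT.lf (nat_lit 532) (nat_lit 442854996) (nat_lit 0) (nat_lit 883818088) (nat_lit 456) (nat_lit 354637937) (nat_lit 289) (nat_lit 1) (nat_lit 282) (nat_lit 1) (nat_lit 288) (nat_lit 1) (nat_lit 378) (nat_lit 332) (nat_lit 310)) (XT.nd (nat_lit 78) (nat_lit 456) (nat_lit 0) (XT.lf (nat_lit 76) (nat_lit 782901565) (nat_lit 0) (nat_lit 22579376) (nat_lit 456) (nat_lit 842013772) (nat_lit 277) (nat_lit 1)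 (nat_lit 276) (nat_lit 1) (nat_lit 282) (nat_lit 1) (nat_lit 379) (nat_lit 332) (nat_lit 309)) (XT.lf (nat_lit 76) (nat_lit 258584666) (nat_lit 0) (nat_lit 478027668) (nat_lit 532) (nat_lit 877942515) (nat_lit 271) (nat_lit 1) (nat_lit 270) (nat_lit 1) (nat_lit 277) (nat_lit 1) (nat_lit 380) (nat_lit 332) (nat_lit 308)))) (XT.nd (nat_lit 156) (nat_lit 836) (nat_lit 0) (XT.nd (nat_lit 78) (nat_lit 380) (nat_lit 0) (XT.lf (nat_lit 456) (nat_lit 648348884) (nat_lit 0) (nat_lit 678321229) (nat_lit 380) (nat_lit 255842173) (nat_lit 271) (nat_lit 1) (nat_lit 265) (nat_lit 1) (nat_lit 270) (nat_lit 1) (nat_lit 381) (nat_lit 332) (nat_lit 307)) (XT.lf (nat_lit 456) (nat_lit 160812356) (nat_lit 0) (nat_lit 629967843) (nat_lit 380) (nat_lit 760556967) (nat_lit 266) (nat_lit 1) (nat_lit 260) (nat_lit 1) (nat_lit 265) (nat_lit 1) (nat_lit 382) (nat_lit 332) (nat_lit 306))) (XT.nd (nat_lit 78) (nat_lit 380)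 (nat_lit 0) (XT.lf (nat_lit 76) (nat_lit 273448898) (nat_lit 0) (nat_lit 316835482) (nat_lit 456) (nat_lit 930697174) (nat_lit 255) (nat_lit 1) (nat_lit 254) (nat_lit 1) (nat_lit 260) (nat_lit 1) (nat_lit 383) (nat_lit 332) (nat_lit 305)) (XT.lf (nat_lit 456) (nat_lit 701632819) (nat_lit 0) (nat_lit 557972947) (nat_lit 380) (nat_lit 231791082) (nat_lit 255) (nat_lit 1) (nat_lit 249) (nat_lit 1) (nat_lit 254) (nat_lit 1) (nat_lit 384) (nat_lit 332) (nat_lit 304))))))) (XT.nd (nat_lit 50856) (nat_lit 0) (nat_lit 9956) (XT.nd (nat_lit 546) (nat_lit 1444) (nat_lit 0) (XT.nd (nat_lit 234) (nat_lit 1292) (nat_lit 0) (XT.nd (nat_lit 78) (nat_lit 760) (nat_lit 0) (XT.lf (nat_lit 380) (nat_lit 201442400) (nat_lit 0) (nat_lit 533691787) (nat_lit 304) (nat_lit 727457438) (nat_lit 250) (nat_lit 1) (nat_lit 245) (nat_lit 1) (nat_lit 249) (nat_lit 1) (nat_lit 385) (nat_lit 332) (nat_lit 303)) (XT.nd (nat_lit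 78) (nat_lit 304) (nat_lit 0) (XT.lf (nat_lit 76) (nat_lit 228982722) (nat_lit 0) (nat_lit 287722356) (nat_lit 456) (nat_lit 917828985) (nat_lit 240) (nat_lit 1) (nat_lit 239) (nat_lit 1) (nat_lit 245) (nat_lit 1) (nat_lit 386) (nat_lit 332) (nat_lit 302)) (XT.lf (nat_lit 380) (nat_lit 637028080) (nat_lit 0) (nat_lit 504786254) (nat_lit 304) (nat_lit 265334781) (nat_lit 240) (nat_lit 1) (nat_lit 235) (nat_lit 1) (nat_lit 239) (nat_lit 1) (nat_lit 387) (nat_lit 332) (nat_lit 301)))) (XT.nd (nat_lit 156) (nat_lit 608) (nat_lit 0) (XT.nd (nat_lit 78) (nat_lit 380) (nat_lit 0) (XT.lf (nat_lit 380) (nat_lit 131417766) (nat_lit 0) (nat_lit 499855688) (nat_lit 304) (nat_lit 749209259) (nat_lit 236) (nat_lit 1) (nat_lit 231) (nat_lit 1) (nat_lit 235) (nat_lit 1) (nat_lit 388) (nat_lit 332) (nat_lit 300)) (XT.lf (nat_lit 76) (nat_lit 139657989) (nat_lit 0) (nat_lit 360411519) (nat_lit 380) (nat_lit 854401836)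 (nat_lit 227) (nat_lit 1) (nat_lit 226) (nat_lit 1) (nat_lit 231) (nat_lit 1) (nat_lit 389) (nat_lit 332) (nat_lit 299))) (XT.nd (nat_lit 78) (nat_lit 304) (nat_lit 0) (XT.lf (nat_lit 380) (nat_lit 482677203) (nat_lit 0) (nat_lit 503948693) (nat_lit 304) (nat_lit 342436412) (nat_lit 227) (nat_lit 1) (nat_lit 222) (nat_lit 1) (nat_lit 226) (nat_lit 1) (nat_lit 390) (nat_lit 332) (nat_lit 298)) (XT.lf (nat_lit 76) (nat_lit 492087236) (nat_lit 0) (nat_lit 22140725) (nat_lit 304) (nat_lit 790097853) (nat_lit 219) (nat_lit 1) (nat_lit 218) (nat_lit 1) (nat_lit 222) (nat_lit 1) (nat_lit 391) (nat_lit 332) (nat_lit 297))))) (XT.nd (nat_lit 234) (nat_lit 532) (nat_lit 0) (XT.nd (nat_lit 78) (nat_lit 608) (nat_lit 0) (XT.lf (nat_lit 76) (nat_lit 17279205) (nat_lit 0) (nat_lit 510105453) (nat_lit 380) (nat_lit 752765346) (nat_lit 215) (nat_lit 1) (nat_lit 214) (nat_lit 1) (nat_lit 219) (nat_lit 1) (nat_lit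 392) (nat_lit 332) (nat_lit 296)) (XT.nd (nat_lit 78) (nat_lit 380) (nat_lit 0) (XT.lf (nat_lit 304) (nat_lit 261579745) (nat_lit 0) (nat_lit 543294160) (nat_lit 228) (nat_lit 451648258) (nat_lit 215) (nat_lit 1) (nat_lit 211) (nat_lit 1) (nat_lit 214) (nat_lit 1) (nat_lit 393) (nat_lit 332) (nat_lit 295)) (XT.lf (nat_lit 76) (nat_lit 329515820) (nat_lit 0) (nat_lit 234105930) (nat_lit 380) (nat_lit 669860134) (nat_lit 207) (nat_lit 1) (nat_lit 206) (nat_lit 1) (nat_lit 211) (nat_lit 1) (nat_lit 394) (nat_lit 332) (nat_lit 294)))) (XT.nd (nat_lit 49920) (nat_lit 0) (nat_lit 13300) (XT.nd (nat_lit 78) (nat_lit 304) (nat_lit 0) (XT.lf (nat_lit 304) (nat_lit 493145782) (nat_lit 0) (nat_lit 586702085) (nat_lit 228) (nat_lit 131124056) (nat_lit 207) (nat_lit 1) (nat_lit 203) (nat_lit 1) (nat_lit 206) (nat_lit 1) (nat_lit 395) (nat_lit 332) (nat_lit 293)) (XT.lf (nat_lit 76) (nat_lit 605392003) (nat_lit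 0) (nat_lit 7394178) (nat_lit 304) (nat_lit 576204834) (nat_lit 200) (nat_lit 1) (nat_lit 199) (nat_lit 1) (nat_lit 203) (nat_lit 1) (nat_lit 396) (nat_lit 332) (nat_lit 292))) (XT.nd (nat_lit 78) (nat_lit 0) (nat_lit 76) (XT.lf (nat_lit 1292) (nat_lit 265057186) (nat_lit 0) (nat_lit 911919991) (nat_lit 1292) (nat_lit 265057186) (nat_lit 391) (nat_lit 1) (nat_lit 374) (nat_lit 0) (nat_lit 391) (nat_lit 0) (nat_lit 354) (nat_lit 333) (nat_lit 333)) (XT.lf (nat_lit 1292) (nat_lit 21250099) (nat_lit 0) (nat_lit 1798114464) (nat_lit 1216) (nat_lit 995504885) (nat_lit 392) (nat_lit 1) (nat_lit 375) (nat_lit 1) (nat_lit 391) (nat_lit 1) (nat_lit 355) (nat_lit 333) (nat_lit 332)))))) (XT.nd (nat_lit 546) (nat_lit 2508) (nat_lit 0) (XT.nd (nat_lit 234) (nat_lit 912) (nat_lit 0) (XT.nd (nat_lit 78) (nat_lit 0) (nat_lit 76) (XT.lf (nat_lit 1292) (nat_lit 934913002) (nat_lit 76) (nat_lit 1322400230) (nat_lit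 0) (nat_lit 490474321) (nat_lit 392) (nat_lit 1) (nat_lit 376) (nat_lit 1) (nat_lit 375) (nat_lit 1) (nat_lit 356) (nat_lit 333) (nat_lit 331)) (XT.nd (nat_lit 78) (nat_lit 0) (nat_lit 76) (XT.lf (nat_lit 1292) (nat_lit 821867805) (nat_lit 76) (nat_lit 865605578) (nat_lit 0) (nat_lit 995404310) (nat_lit 393) (nat_lit 1) (nat_lit 377) (nat_lit 1) (nat_lit 376) (nat_lit 1) (nat_lit 357) (nat_lit 333) (nat_lit 330)) (XT.lf (nat_lit 1292) (nat_lit 680150949) (nat_lit 76) (nat_lit 447130495) (nat_lit 0) (nat_lit 1492785447) (nat_lit 394) (nat_lit 1) (nat_lit 378) (nat_lit 1) (nat_lit 377) (nat_lit 1) (nat_lit 358) (nat_lit 333) (nat_lit 329)))) (XT.nd (nat_lit 156) (nat_lit 1140) (nat_lit 0) (XT.nd (nat_lit 78) (nat_lit 0) (nat_lit 76) (XT.lf (nat_lit 1292) (nat_lit 511947904) (nat_lit 76) (nat_lit 65006160) (nat_lit 0) (nat_lit 1982325017) (nat_lit 395) (nat_lit 1) (nat_lit 379) (nat_lit 1) (nat_lit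 378) (nat_lit 1) (nat_lit 359) (nat_lit 333) (nat_lit 328)) (XT.lf (nat_lit 1292) (nat_lit 39391661) (nat_lit 0) (nat_lit 2183838721) (nat_lit 1216) (nat_lit 277129327) (nat_lit 396) (nat_lit 1) (nat_lit 379) (nat_lit 1) (nat_lit 395) (nat_lit 1) (nat_lit 360) (nat_lit 333) (nat_lit 327))) (XT.nd (nat_lit 78) (nat_lit 1216) (nat_lit 0) (XT.lf (nat_lit 1292) (nat_lit 93366806) (nat_lit 76) (nat_lit 1852435769) (nat_lit 0) (nat_lit 497364807) (nat_lit 396) (nat_lit 1) (nat_lit 380) (nat_lit 1) (nat_lit 379) (nat_lit 1) (nat_lit 361) (nat_lit 333) (nat_lit 326)) (XT.lf (nat_lit 1368) (nat_lit 1364554815) (nat_lit 0) (nat_lit 147494104) (nat_lit 1292) (nat_lit 875695465) (nat_lit 381) (nat_lit 1) (nat_lit 363) (nat_lit 1) (nat_lit 380) (nat_lit 1) (nat_lit 362) (nat_lit 333) (nat_lit 325))))) (XT.nd (nat_lit 234) (nat_lit 1824) (nat_lit 0) (XT.nd (nat_lit 78) (nat_lit 760) (nat_lit 0) (XT.lf (nat_lit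 1368) (nat_lit 796483249) (nat_lit 0) (nat_lit 404706447) (nat_lit 1292) (nat_lit 1132858552) (nat_lit 382) (nat_lit 1) (nat_lit 364) (nat_lit 1) (nat_lit 381) (nat_lit 1) (nat_lit 363) (nat_lit 333) (nat_lit 324)) (XT.nd (nat_lit 78) (nat_lit 836) (nat_lit 0) (XT.lf (nat_lit 76) (nat_lit 240701463) (nat_lit 0) (nat_lit 678514381) (nat_lit 1292) (nat_lit 1362827914) (nat_lit 366) (nat_lit 1) (nat_lit 365) (nat_lit 1) (nat_lit 382) (nat_lit 1) (nat_lit 364) (nat_lit 333) (nat_lit 323)) (XT.lf (nat_lit 912) (nat_lit 1261180314) (nat_lit 0) (nat_lit 661575333) (nat_lit 836) (nat_lit 308826485) (nat_lit 366) (nat_lit 1) (nat_lit 354) (nat_lit 1) (nat_lit 365) (nat_lit 1) (nat_lit 365) (nat_lit 333) (nat_lit 322)))) (XT.nd (nat_lit 156) (nat_lit 608) (nat_lit 0) (XT.nd (nat_lit 78) (nat_lit 608) (nat_lit 0) (XT.lf (nat_lit 684) (nat_lit 904384561) (nat_lit 0) (nat_lit 427593687) (nat_lit 608) (nat_lit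 850649590) (nat_lit 355) (nat_lit 1) (nat_lit 346) (nat_lit 1) (nat_lit 354) (nat_lit 1) (nat_lit 366) (nat_lit 333) (nat_lit 321)) (XT.lf (nat_lit 684) (nat_lit 536830149) (nat_lit 0) (nat_lit 218341733) (nat_lit 608) (nat_lit 1380024598) (nat_lit 347) (nat_lit 1) (nat_lit 338) (nat_lit 1) (nat_lit 346) (nat_lit 1) (nat_lit 367) (nat_lit 333) (nat_lit 320))) (XT.nd (nat_lit 78) (nat_lit 76) (nat_lit 0) (XT.lf (nat_lit 608) (nat_lit 159697384) (nat_lit 0) (nat_lit 32522489) (nat_lit 532) (nat_lit 1897015120) (nat_lit 339) (nat_lit 1) (nat_lit 331) (nat_lit 1) (nat_lit 338) (nat_lit 1) (nat_lit 368) (nat_lit 333) (nat_lit 319)) (XT.lf (nat_lit 76) (nat_lit 1683941158) (nat_lit 0) (nat_lit 226293121) (nat_lit 608) (nat_lit 134249075) (nat_lit 331) (nat_lit 1) (nat_lit 330) (nat_lit 1) (nat_lit 338) (nat_lit 1) (nat_lit 369) (nat_lit 333) (nat_lit 318))))))))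
noncomputable def ec8 : XT := (XT.nd (nat_lit 51792) (nat_lit 0) (nat_lit 4028) (XT.nd (nat_lit 1014) (nat_lit 4028) (nat_lit 0) (XT.nd (nat_lit 468) (nat_lit 2964) (nat_lit 0) (XT.nd (nat_lit 234) (nat_lit 1520) (nat_lit 0) (XT.nd (nat_lit 78) (nat_lit 1064) (nat_lit 0) (XT.lf (nat_lit 76) (nat_lit 1099507130) (nat_lit 0) (nat_lit 618334403) (nat_lit 684) (nat_lit 283155378) (nat_lit 323) (nat_lit 1) (nat_lit 322) (nat_lit 1) (nat_lit 331) (nat_lit 1) (nat_lit 370) (nat_lit 333) (nat_lit 317)) (XT.nd (nat_lit 78) (nat_lit 532) (nat_lit 0) (XT.lf (nat_lit 76) (nat_lit 529967513) (nat_lit 0) (nat_lit 1016385365) (nat_lit 608) (nat_lit 412488024) (nat_lit 316) (nat_lit 1) (nat_lit 315) (nat_lit 1) (nat_lit 323) (nat_lit 1) (nat_lit 371) (nat_lit 333) (nat_lit 316)) (XT.lf (nat_lit 608) (nat_lit 498153868) (nat_lit 0) (nat_lit 1394426777) (nat_lit 532) (nat_lit 25381863) (nat_lit 316) (nat_lit 1)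 (nat_lit 308) (nat_lit 1) (nat_lit 315) (nat_lit 1) (nat_lit 372) (nat_lit 333) (nat_lit 315)))) (XT.nd (nat_lit 78) (nat_lit 1064) (nat_lit 0) (XT.lf (nat_lit 532) (nat_lit 45583910) (nat_lit 0) (nat_lit 1256068753) (nat_lit 456) (nat_lit 576520988) (nat_lit 309) (nat_lit 1) (nat_lit 302) (nat_lit 1) (nat_lit 308) (nat_lit 1) (nat_lit 373) (nat_lit 333) (nat_lit 314)) (XT.nd (nat_lit 78) (nat_lit 456) (nat_lit 0) (XT.lf (nat_lit 76) (nat_lit 730392401) (nat_lit 0) (nat_lit 401192015) (nat_lit 608) (nat_lit 707885589) (nat_lit 295) (nat_lit 1) (nat_lit 294) (nat_lit 1) (nat_lit 302) (nat_lit 1) (nat_lit 374) (nat_lit 333) (nat_lit 313)) (XT.lf (nat_lit 76) (nat_lit 175046917) (nat_lit 0) (nat_lit 848562567) (nat_lit 532) (nat_lit 778305882) (nat_lit 289) (nat_lit 1) (nat_lit 288) (nat_lit 1) (nat_lit 295) (nat_lit 1) (nat_lit 375) (nat_lit 333) (nat_lit 312))))) (XT.nd (nat_lit 234) (nat_lit 1596)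 (nat_lit 0) (XT.nd (nat_lit 78) (nat_lit 912) (nat_lit 0) (XT.lf (nat_lit 532) (nat_lit 464997746) (nat_lit 0) (nat_lit 928008992) (nat_lit 456) (nat_lit 372369833) (nat_lit 289) (nat_lit 1) (nat_lit 282) (nat_lit 1) (nat_lit 288) (nat_lit 1) (nat_lit 376) (nat_lit 333) (nat_lit 311)) (XT.nd (nat_lit 78) (nat_lit 456) (nat_lit 0) (XT.lf (nat_lit 76) (nat_lit 822046643) (nat_lit 0) (nat_lit 23708345) (nat_lit 456) (nat_lit 884114461) (nat_lit 277) (nat_lit 1) (nat_lit 276) (nat_lit 1) (nat_lit 282) (nat_lit 1) (nat_lit 377) (nat_lit 333) (nat_lit 310)) (XT.lf (nat_lit 76) (nat_lit 271513899) (nat_lit 0) (nat_lit 501929051) (nat_lit 532) (nat_lit 921839641) (nat_lit 271) (nat_lit 1) (nat_lit 270) (nat_lit 1) (nat_lit 277) (nat_lit 1) (nat_lit 378) (nat_lit 333) (nat_lit 309)))) (XT.nd (nat_lit 156) (nat_lit 836) (nat_lit 0) (XT.nd (nat_lit 78) (nat_lit 380) (nat_lit 0) (XT.lf (nat_lit 456) (nat_lit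 680766328) (nat_lit 0) (nat_lit 712237290) (nat_lit 380) (nat_lit 268634281) (nat_lit 271) (nat_lit 1) (nat_lit 265) (nat_lit 1) (nat_lit 270) (nat_lit 1) (nat_lit 379) (nat_lit 333) (nat_lit 308)) (XT.lf (nat_lit 456) (nat_lit 168852974) (nat_lit 0) (nat_lit 661466235) (nat_lit 380) (nat_lit 798584815) (nat_lit 266) (nat_lit 1) (nat_lit 260) (nat_lit 1) (nat_lit 265) (nat_lit 1) (nat_lit 380) (nat_lit 333) (nat_lit 307))) (XT.nd (nat_lit 78) (nat_lit 380) (nat_lit 0) (XT.lf (nat_lit 76) (nat_lit 287121343) (nat_lit 0) (nat_lit 332677256) (nat_lit 456) (nat_lit 977232032) (nat_lit 255) (nat_lit 1) (nat_lit 254) (nat_lit 1) (nat_lit 260) (nat_lit 1) (nat_lit 381) (nat_lit 333) (nat_lit 306)) (XT.lf (nat_lit 456) (nat_lit 736714460) (nat_lit 0) (nat_lit 585871594) (nat_lit 380) (nat_lit 243380636) (nat_lit 255) (nat_lit 1) (nat_lit 249) (nat_lit 1) (nat_lit 254) (nat_lit 1) (nat_lit 382) (nat_lit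 333) (nat_lit 305)))))) (XT.nd (nat_lit 546) (nat_lit 1672) (nat_lit 0) (XT.nd (nat_lit 234) (nat_lit 1292) (nat_lit 0) (XT.nd (nat_lit 78) (nat_lit 760) (nat_lit 0) (XT.lf (nat_lit 380) (nat_lit 211514520) (nat_lit 0) (nat_lit 560376377) (nat_lit 304) (nat_lit 763830310) (nat_lit 250) (nat_lit 1) (nat_lit 245) (nat_lit 1) (nat_lit 249) (nat_lit 1) (nat_lit 383) (nat_lit 333) (nat_lit 304)) (XT.nd (nat_lit 78) (nat_lit 304) (nat_lit 0) (XT.lf (nat_lit 76) (nat_lit 240431858) (nat_lit 0) (nat_lit 302108474) (nat_lit 456) (nat_lit 963720434) (nat_lit 240) (nat_lit 1) (nat_lit 239) (nat_lit 1) (nat_lit 245) (nat_lit 1) (nat_lit 384) (nat_lit 333) (nat_lit 303)) (XT.lf (nat_lit 380) (nat_lit 668879484) (nat_lit 0) (nat_lit 530025567) (nat_lit 304) (nat_lit 278601520) (nat_lit 240) (nat_lit 1) (nat_lit 235) (nat_lit 1) (nat_lit 239) (nat_lit 1) (nat_lit 385) (nat_lit 333) (nat_lit 302)))) (XT.nd (nat_lit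 156) (nat_lit 608) (nat_lit 0) (XT.nd (nat_lit 78) (nat_lit 380) (nat_lit 0) (XT.lf (nat_lit 380) (nat_lit 137988654) (nat_lit 0) (nat_lit 524848473) (nat_lit 304) (nat_lit 786669722) (nat_lit 236) (nat_lit 1) (nat_lit 231) (nat_lit 1) (nat_lit 235) (nat_lit 1) (nat_lit 386) (nat_lit 333) (nat_lit 301)) (XT.lf (nat_lit 76) (nat_lit 146640889) (nat_lit 0) (nat_lit 378432095) (nat_lit 380) (nat_lit 897121928) (nat_lit 227) (nat_lit 1) (nat_lit 226) (nat_lit 1) (nat_lit 231) (nat_lit 1) (nat_lit 387) (nat_lit 333) (nat_lit 300))) (XT.nd (nat_lit 78) (nat_lit 304) (nat_lit 0) (XT.lf (nat_lit 380) (nat_lit 506811063) (nat_lit 0) (nat_lit 529146127) (nat_lit 304) (nat_lit 359558232) (nat_lit 227) (nat_lit 1) (nat_lit 222) (nat_lit 1) (nat_lit 226) (nat_lit 1) (nat_lit 388) (nat_lit 333) (nat_lit 299)) (XT.lf (nat_lit 76) (nat_lit 516691598) (nat_lit 0) (nat_lit 23247761) (nat_lit 304) (nat_lit 829602746)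 (nat_lit 219) (nat_lit 1) (nat_lit 218) (nat_lit 1) (nat_lit 222) (nat_lit 1) (nat_lit 389) (nat_lit 333) (nat_lit 298))))) (XT.nd (nat_lit 234) (nat_lit 760) (nat_lit 0) (XT.nd (nat_lit 78) (nat_lit 608) (nat_lit 0) (XT.lf (nat_lit 76) (nat_lit 18143165) (nat_lit 0) (nat_lit 535610726) (nat_lit 380) (nat_lit 790403613) (nat_lit 215) (nat_lit 1) (nat_lit 214) (nat_lit 1) (nat_lit 219) (nat_lit 1) (nat_lit 390) (nat_lit 333) (nat_lit 297)) (XT.nd (nat_lit 78) (nat_lit 380) (nat_lit 0) (XT.lf (nat_lit 304) (nat_lit 274658732) (nat_lit 0) (nat_lit 570458868) (nat_lit 228) (nat_lit 474230671) (nat_lit 215) (nat_lit 1) (nat_lit 211) (nat_lit 1) (nat_lit 214) (nat_lit 1) (nat_lit 391) (nat_lit 333) (nat_lit 296)) (XT.lf (nat_lit 76) (nat_lit 345991611) (nat_lit 0) (nat_lit 245811227) (nat_lit 380) (nat_lit 703353141) (nat_lit 207) (nat_lit 1) (nat_lit 206) (nat_lit 1) (nat_lit 211) (nat_lit 1) (nat_lit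 392) (nat_lit 333) (nat_lit 295)))) (XT.nd (nat_lit 156) (nat_lit 228) (nat_lit 0) (XT.nd (nat_lit 78) (nat_lit 304) (nat_lit 0) (XT.lf (nat_lit 304) (nat_lit 517803071) (nat_lit 0) (nat_lit 616037190) (nat_lit 228) (nat_lit 137680259) (nat_lit 207) (nat_lit 1) (nat_lit 203) (nat_lit 1) (nat_lit 206) (nat_lit 1) (nat_lit 393) (nat_lit 333) (nat_lit 294)) (XT.lf (nat_lit 76) (nat_lit 635661604) (nat_lit 0) (nat_lit 7763887) (nat_lit 304) (nat_lit 605015076) (nat_lit 200) (nat_lit 1) (nat_lit 199) (nat_lit 1) (nat_lit 203) (nat_lit 1) (nat_lit 394) (nat_lit 333) (nat_lit 293))) (XT.nd (nat_lit 49764) (nat_lit 0) (nat_lit 13528) (XT.lf (nat_lit 76) (nat_lit 157972542) (nat_lit 0) (nat_lit 514147041) (nat_lit 304) (nat_lit 553733876) (nat_lit 197) (nat_lit 1) (nat_lit 196) (nat_lit 1) (nat_lit 200) (nat_lit 1) (nat_lit 395) (nat_lit 333) (nat_lit 292)) (XT.lf (nat_lit 1292) (nat_lit 278310045) (nat_lit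 0) (nat_lit 957515991) (nat_lit 1292) (nat_lit 278310045) (nat_lit 391) (nat_lit 1) (nat_lit 374) (nat_lit 0) (nat_lit 391) (nat_lit 0) (nat_lit 352) (nat_lit 334) (nat_lit 334))))))) (XT.nd (nat_lit 1092) (nat_lit 6232) (nat_lit 0) (XT.nd (nat_lit 546) (nat_lit 3344) (nat_lit 0) (XT.nd (nat_lit 234) (nat_lit 0) (nat_lit 152) (XT.nd (nat_lit 78) (nat_lit 0) (nat_lit 0) (XT.lf (nat_lit 1292) (nat_lit 22312604) (nat_lit 0) (nat_lit 1888020187) (nat_lit 1216) (nat_lit 1045280130) (nat_lit 392) (nat_lit 1) (nat_lit 375) (nat_lit 1) (nat_lit 391) (nat_lit 1) (nat_lit 353) (nat_lit 334) (nat_lit 333)) (XT.nd (nat_lit 78) (nat_lit 0) (nat_lit 76) (XT.lf (nat_lit 1292) (nat_lit 981658652) (nat_lit 76) (nat_lit 1388520242) (nat_lit 0) (nat_lit 514998037) (nat_lit 392) (nat_lit 1) (nat_lit 376) (nat_lit 1) (nat_lit 375) (nat_lit 1) (nat_lit 354) (nat_lit 334) (nat_lit 332)) (XT.lf (nat_lit 1292) (nat_lit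 862961195) (nat_lit 76) (nat_lit 908885856) (nat_lit 0) (nat_lit 1045174525) (nat_lit 393) (nat_lit 1) (nat_lit 377) (nat_lit 1) (nat_lit 376) (nat_lit 1) (nat_lit 355) (nat_lit 334) (nat_lit 331)))) (XT.nd (nat_lit 156) (nat_lit 0) (nat_lit 152) (XT.nd (nat_lit 78) (nat_lit 0) (nat_lit 76) (XT.lf (nat_lit 1292) (nat_lit 714158497) (nat_lit 76) (nat_lit 469487019) (nat_lit 0) (nat_lit 1567424719) (nat_lit 394) (nat_lit 1) (nat_lit 378) (nat_lit 1) (nat_lit 377) (nat_lit 1) (nat_lit 356) (nat_lit 334) (nat_lit 330)) (XT.lf (nat_lit 1292) (nat_lit 537545299) (nat_lit 76) (nat_lit 68256468) (nat_lit 0) (nat_lit 2081441268) (nat_lit 395) (nat_lit 1) (nat_lit 379) (nat_lit 1) (nat_lit 378) (nat_lit 1) (nat_lit 357) (nat_lit 334) (nat_lit 329))) (XT.nd (nat_lit 78) (nat_lit 0) (nat_lit 0) (XT.lf (nat_lit 1292) (nat_lit 41361244) (nat_lit 0) (nat_lit 2293030657) (nat_lit 1216) (nat_lit 290985794) (nat_lit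 396) (nat_lit 1) (nat_lit 379) (nat_lit 1) (nat_lit 395) (nat_lit 1) (nat_lit 358) (nat_lit 334) (nat_lit 328)) (XT.lf (nat_lit 1292) (nat_lit 98035146) (nat_lit 76) (nat_lit 1945057558) (nat_lit 0) (nat_lit 522233047) (nat_lit 396) (nat_lit 1) (nat_lit 380) (nat_lit 1) (nat_lit 379) (nat_lit 1) (nat_lit 359) (nat_lit 334) (nat_lit 327))))) (XT.nd (nat_lit 234) (nat_lit 2432) (nat_lit 0) (XT.nd (nat_lit 78) (nat_lit 0) (nat_lit 76) (XT.lf (nat_lit 1368) (nat_lit 1432782555) (nat_lit 0) (nat_lit 154868809) (nat_lit 1292) (nat_lit 919480238) (nat_lit 381) (nat_lit 1) (nat_lit 363) (nat_lit 1) (nat_lit 380) (nat_lit 1) (nat_lit 360) (nat_lit 334) (nat_lit 326)) (XT.nd (nat_lit 78) (nat_lit 0) (nat_lit 76) (XT.lf (nat_lit 1368) (nat_lit 836307411) (nat_lit 0) (nat_lit 424941770) (nat_lit 1292) (nat_lit 1189501479) (nat_lit 382) (nat_lit 1) (nat_lit 364) (nat_lit 1) (nat_lit 381) (nat_lit 1) (nat_lit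 361) (nat_lit 334) (nat_lit 325)) (XT.lf (nat_lit 76) (nat_lit 252736536) (nat_lit 0) (nat_lit 712440100) (nat_lit 1292) (nat_lit 1430969310) (nat_lit 366) (nat_lit 1) (nat_lit 365) (nat_lit 1) (nat_lit 382) (nat_lit 1) (nat_lit 362) (nat_lit 334) (nat_lit 324)))) (XT.nd (nat_lit 156) (nat_lit 1140) (nat_lit 0) (XT.nd (nat_lit 78) (nat_lit 608) (nat_lit 0) (XT.lf (nat_lit 912) (nat_lit 1324239329) (nat_lit 0) (nat_lit 694654100) (nat_lit 836) (nat_lit 324267809) (nat_lit 366) (nat_lit 1) (nat_lit 354) (nat_lit 1) (nat_lit 365) (nat_lit 1) (nat_lit 363) (nat_lit 334) (nat_lit 323)) (XT.lf (nat_lit 684) (nat_lit 949603789) (nat_lit 0) (nat_lit 448973372) (nat_lit 608) (nat_lit 893182070) (nat_lit 355) (nat_lit 1) (nat_lit 346) (nat_lit 1) (nat_lit 354) (nat_lit 1) (nat_lit 364) (nat_lit 334) (nat_lit 322))) (XT.nd (nat_lit 78) (nat_lit 532) (nat_lit 0) (XT.lf (nat_lit 684) (nat_lit 563671657) (nat_lit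 0) (nat_lit 229258820) (nat_lit 608) (nat_lit 1449025828) (nat_lit 347) (nat_lit 1) (nat_lit 338) (nat_lit 1) (nat_lit 346) (nat_lit 1) (nat_lit 365) (nat_lit 334) (nat_lit 321)) (XT.lf (nat_lit 608) (nat_lit 167682254) (nat_lit 0) (nat_lit 34148613) (nat_lit 532) (nat_lit 1991865876) (nat_lit 339) (nat_lit 1) (nat_lit 331) (nat_lit 1) (nat_lit 338) (nat_lit 1) (nat_lit 366) (nat_lit 334) (nat_lit 320)))))) (XT.nd (nat_lit 546) (nat_lit 2964) (nat_lit 0) (XT.nd (nat_lit 234) (nat_lit 2052) (nat_lit 0) (XT.nd (nat_lit 78) (nat_lit 1140) (nat_lit 0) (XT.lf (nat_lit 76) (nat_lit 1768138216) (nat_lit 0) (nat_lit 237607777) (nat_lit 608) (nat_lit 140961529) (nat_lit 331) (nat_lit 1) (nat_lit 330) (nat_lit 1) (nat_lit 338) (nat_lit 1) (nat_lit 367) (nat_lit 334) (nat_lit 319)) (XT.nd (nat_lit 78) (nat_lit 532) (nat_lit 0) (XT.lf (nat_lit 76) (nat_lit 1154482487) (nat_lit 0) (nat_lit 649251123) (nat_lit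 684) (nat_lit 297313147) (nat_lit 323) (nat_lit 1) (nat_lit 322) (nat_lit 1) (nat_lit 331) (nat_lit 1) (nat_lit 368) (nat_lit 334) (nat_lit 318)) (XT.lf (nat_lit 76) (nat_lit 556465889) (nat_lit 0) (nat_lit 1067204633) (nat_lit 608) (nat_lit 433112425) (nat_lit 316) (nat_lit 1) (nat_lit 315) (nat_lit 1) (nat_lit 323) (nat_lit 1) (nat_lit 369) (nat_lit 334) (nat_lit 317)))) (XT.nd (nat_lit 156) (nat_lit 1064) (nat_lit 0) (XT.nd (nat_lit 78) (nat_lit 456) (nat_lit 0) (XT.lf (nat_lit 608) (nat_lit 523061561) (nat_lit 0) (nat_lit 1464148116) (nat_lit 532) (nat_lit 26650956) (nat_lit 316) (nat_lit 1) (nat_lit 308) (nat_lit 1) (nat_lit 315) (nat_lit 1) (nat_lit 370) (nat_lit 334) (nat_lit 316)) (XT.lf (nat_lit 532) (nat_lit 47863105) (nat_lit 0) (nat_lit 1318872191) (nat_lit 456) (nat_lit 605347037) (nat_lit 309) (nat_lit 1) (nat_lit 302) (nat_lit 1) (nat_lit 308) (nat_lit 1) (nat_lit 371) (nat_lit 334)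 (nat_lit 315))) (XT.nd (nat_lit 78) (nat_lit 456) (nat_lit 0) (XT.lf (nat_lit 76) (nat_lit 766912021) (nat_lit 0) (nat_lit 421251616) (nat_lit 608) (nat_lit 743279869) (nat_lit 295) (nat_lit 1) (nat_lit 294) (nat_lit 1) (nat_lit 302) (nat_lit 1) (nat_lit 372) (nat_lit 334) (nat_lit 314)) (XT.lf (nat_lit 76) (nat_lit 183799263) (nat_lit 0) (nat_lit 890990695) (nat_lit 532) (nat_lit 817221176) (nat_lit 289) (nat_lit 1) (nat_lit 288) (nat_lit 1) (nat_lit 295) (nat_lit 1) (nat_lit 373) (nat_lit 334) (nat_lit 313))))) (XT.nd (nat_lit 234) (nat_lit 1596) (nat_lit 0) (XT.nd (nat_lit 78) (nat_lit 912) (nat_lit 0) (XT.lf (nat_lit 532) (nat_lit 488247633) (nat_lit 0) (nat_lit 974409442) (nat_lit 456) (nat_lit 390988325) (nat_lit 289) (nat_lit 1) (nat_lit 282) (nat_lit 1) (nat_lit 288) (nat_lit 1) (nat_lit 374) (nat_lit 334) (nat_lit 312)) (XT.nd (nat_lit 78) (nat_lit 456) (nat_lit 0) (XT.lf (nat_lit 76)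 (nat_lit 863148976) (nat_lit 0) (nat_lit 24893762) (nat_lit 456) (nat_lit 928320184) (nat_lit 277) (nat_lit 1) (nat_lit 276) (nat_lit 1) (nat_lit 282) (nat_lit 1) (nat_lit 375) (nat_lit 334) (nat_lit 311)) (XT.lf (nat_lit 76) (nat_lit 285089594) (nat_lit 0) (nat_lit 527025504) (nat_lit 532) (nat_lit 967931623) (nat_lit 271) (nat_lit 1) (nat_lit 270) (nat_lit 1) (nat_lit 277) (nat_lit 1) (nat_lit 376) (nat_lit 334) (nat_lit 310)))) (XT.nd (nat_lit 156) (nat_lit 836) (nat_lit 0) (XT.nd (nat_lit 78) (nat_lit 380) (nat_lit 0) (XT.lf (nat_lit 456) (nat_lit 714804645) (nat_lit 0) (nat_lit 747849155) (nat_lit 380) (nat_lit 282065995) (nat_lit 271) (nat_lit 1) (nat_lit 265) (nat_lit 1) (nat_lit 270) (nat_lit 1) (nat_lit 377) (nat_lit 334) (nat_lit 309)) (XT.lf (nat_lit 456) (nat_lit 177295622) (nat_lit 0) (nat_lit 694539546) (nat_lit 380) (nat_lit 838514056) (nat_lit 266) (nat_lit 1) (nat_lit 260) (nat_lit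 1) (nat_lit 265) (nat_lit 1) (nat_lit 378) (nat_lit 334) (nat_lit 308))) (XT.nd (nat_lit 78) (nat_lit 380) (nat_lit 0) (XT.lf (nat_lit 76) (nat_lit 301477410) (nat_lit 0) (nat_lit 349311119) (nat_lit 456) (nat_lit 1026093634) (nat_lit 255) (nat_lit 1) (nat_lit 254) (nat_lit 1) (nat_lit 260) (nat_lit 1) (nat_lit 379) (nat_lit 334) (nat_lit 307)) (XT.lf (nat_lit 456) (nat_lit 773550183) (nat_lit 0) (nat_lit 615165174) (nat_lit 380) (nat_lit 255549668) (nat_lit 255) (nat_lit 1) (nat_lit 249) (nat_lit 1) (nat_lit 254) (nat_lit 1) (nat_lit 380) (nat_lit 334) (nat_lit 306))))))))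
noncomputable def ec9 : XT := (XT.nd (nat_lit 51714) (nat_lit 0) (nat_lit 760) (XT.nd (nat_lit 1092) (nat_lit 304) (nat_lit 0) (XT.nd (nat_lit 546) (nat_lit 1900) (nat_lit 0) (XT.nd (nat_lit 234) (nat_lit 1292) (nat_lit 0) (XT.nd (nat_lit 78) (nat_lit 760) (nat_lit 0) (XT.lf (nat_lit 380) (nat_lit 222090246) (nat_lit 0) (nat_lit 588395196) (nat_lit 304) (nat_lit 802021826) (nat_lit 250) (nat_lit 1) (nat_lit 245) (nat_lit 1) (nat_lit 249) (nat_lit 1) (nat_lit 381) (nat_lit 334) (nat_lit 305)) (XT.nd (nat_lit 78) (nat_lit 304) (nat_lit 0) (XT.lf (nat_lit 76) (nat_lit 252453451) (nat_lit 0) (nat_lit 317213897) (nat_lit 456) (nat_lit 1011906456) (nat_lit 240) (nat_lit 1) (nat_lit 239) (nat_lit 1) (nat_lit 245) (nat_lit 1) (nat_lit 382) (nat_lit 334) (nat_lit 304)) (XT.lf (nat_lit 380) (nat_lit 702323458) (nat_lit 0) (nat_lit 556526845) (nat_lit 304) (nat_lit 292531596) (nat_lit 240) (nat_lit 1) (nat_lit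 235) (nat_lit 1) (nat_lit 239) (nat_lit 1) (nat_lit 383) (nat_lit 334) (nat_lit 303)))) (XT.nd (nat_lit 156) (nat_lit 608) (nat_lit 0) (XT.nd (nat_lit 78) (nat_lit 380) (nat_lit 0) (XT.lf (nat_lit 380) (nat_lit 144888087) (nat_lit 0) (nat_lit 551090897) (nat_lit 304) (nat_lit 826003209) (nat_lit 236) (nat_lit 1) (nat_lit 231) (nat_lit 1) (nat_lit 235) (nat_lit 1) (nat_lit 384) (nat_lit 334) (nat_lit 302)) (XT.lf (nat_lit 76) (nat_lit 153972933) (nat_lit 0) (nat_lit 397353700) (nat_lit 380) (nat_lit 941978025) (nat_lit 227) (nat_lit 1) (nat_lit 226) (nat_lit 1) (nat_lit 231) (nat_lit 1) (nat_lit 385) (nat_lit 334) (nat_lit 301))) (XT.nd (nat_lit 78) (nat_lit 304) (nat_lit 0) (XT.lf (nat_lit 380) (nat_lit 532151616) (nat_lit 0) (nat_lit 555603434) (nat_lit 304) (nat_lit 377536144) (nat_lit 227) (nat_lit 1) (nat_lit 222) (nat_lit 1) (nat_lit 226) (nat_lit 1) (nat_lit 386) (nat_lit 334) (nat_lit 300))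 (XT.lf (nat_lit 76) (nat_lit 542526178) (nat_lit 0) (nat_lit 24410149) (nat_lit 304) (nat_lit 871082883) (nat_lit 219) (nat_lit 1) (nat_lit 218) (nat_lit 1) (nat_lit 222) (nat_lit 1) (nat_lit 387) (nat_lit 334) (nat_lit 299))))) (XT.nd (nat_lit 234) (nat_lit 988) (nat_lit 0) (XT.nd (nat_lit 78) (nat_lit 608) (nat_lit 0) (XT.lf (nat_lit 76) (nat_lit 19050324) (nat_lit 0) (nat_lit 562391262) (nat_lit 380) (nat_lit 829923794) (nat_lit 215) (nat_lit 1) (nat_lit 214) (nat_lit 1) (nat_lit 219) (nat_lit 1) (nat_lit 388) (nat_lit 334) (nat_lit 298)) (XT.nd (nat_lit 78) (nat_lit 380) (nat_lit 0) (XT.lf (nat_lit 304) (nat_lit 288391669) (nat_lit 0) (nat_lit 598981811) (nat_lit 228) (nat_lit 497942205) (nat_lit 215) (nat_lit 1) (nat_lit 211) (nat_lit 1) (nat_lit 214) (nat_lit 1) (nat_lit 389) (nat_lit 334) (nat_lit 297)) (XT.lf (nat_lit 76) (nat_lit 363291192) (nat_lit 0) (nat_lit 258101788) (nat_lit 380)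 (nat_lit 738520798) (nat_lit 207) (nat_lit 1) (nat_lit 206) (nat_lit 1) (nat_lit 211) (nat_lit 1) (nat_lit 390) (nat_lit 334) (nat_lit 296)))) (XT.nd (nat_lit 156) (nat_lit 456) (nat_lit 0) (XT.nd (nat_lit 78) (nat_lit 304) (nat_lit 0) (XT.lf (nat_lit 304) (nat_lit 543693225) (nat_lit 0) (nat_lit 646839049) (nat_lit 228) (nat_lit 144564272) (nat_lit 207) (nat_lit 1) (nat_lit 203) (nat_lit 1) (nat_lit 206) (nat_lit 1) (nat_lit 391) (nat_lit 334) (nat_lit 295)) (XT.lf (nat_lit 76) (nat_lit 667444684) (nat_lit 0) (nat_lit 8152082) (nat_lit 304) (nat_lit 635265830) (nat_lit 200) (nat_lit 1) (nat_lit 199) (nat_lit 1) (nat_lit 203) (nat_lit 1) (nat_lit 392) (nat_lit 334) (nat_lit 294))) (XT.nd (nat_lit 78) (nat_lit 228) (nat_lit 0) (XT.lf (nat_lit 76) (nat_lit 165871169) (nat_lit 0) (nat_lit 539854393) (nat_lit 304) (nat_lit 581420570) (nat_lit 197) (nat_lit 1) (nat_lit 196) (nat_lit 1) (nat_lit 200)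 (nat_lit 1) (nat_lit 393) (nat_lit 334) (nat_lit 293)) (XT.lf (nat_lit 304) (nat_lit 198767658) (nat_lit 0) (nat_lit 738991378) (nat_lit 228) (nat_lit 326230461) (nat_lit 197) (nat_lit 1) (nat_lit 193) (nat_lit 1) (nat_lit 196) (nat_lit 1) (nat_lit 394) (nat_lit 334) (nat_lit 292)))))) (XT.nd (nat_lit 50076) (nat_lit 0) (nat_lit 11932) (XT.nd (nat_lit 49764) (nat_lit 0) (nat_lit 14136) (XT.nd (nat_lit 49608) (nat_lit 0) (nat_lit 14060) (XT.lf (nat_lit 76) (nat_lit 438774476) (nat_lit 0) (nat_lit 334581708) (nat_lit 304) (nat_lit 467968220) (nat_lit 190) (nat_lit 1) (nat_lit 189) (nat_lit 1) (nat_lit 193) (nat_lit 1) (nat_lit 395) (nat_lit 334) (nat_lit 291)) (XT.nd (nat_lit 78) (nat_lit 0) (nat_lit 76) (XT.lf (nat_lit 1292) (nat_lit 292225548) (nat_lit 0) (nat_lit 1005391790) (nat_lit 1292) (nat_lit 292225548) (nat_lit 391) (nat_lit 1) (nat_lit 374) (nat_lit 0) (nat_lit 391) (nat_lit 0) (nat_lit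 350) (nat_lit 335) (nat_lit 335)) (XT.lf (nat_lit 1292) (nat_lit 23428234) (nat_lit 0) (nat_lit 1982421196) (nat_lit 1216) (nat_lit 1097544136) (nat_lit 392) (nat_lit 1) (nat_lit 375) (nat_lit 1) (nat_lit 391) (nat_lit 1) (nat_lit 351) (nat_lit 335) (nat_lit 334)))) (XT.nd (nat_lit 156) (nat_lit 0) (nat_lit 152) (XT.nd (nat_lit 78) (nat_lit 0) (nat_lit 76) (XT.lf (nat_lit 1292) (nat_lit 1030741585) (nat_lit 76) (nat_lit 1457946254) (nat_lit 0) (nat_lit 540747939) (nat_lit 392) (nat_lit 1) (nat_lit 376) (nat_lit 1) (nat_lit 375) (nat_lit 1) (nat_lit 352) (nat_lit 335) (nat_lit 333)) (XT.lf (nat_lit 1292) (nat_lit 906109255) (nat_lit 76) (nat_lit 954330149) (nat_lit 0) (nat_lit 1097433252) (nat_lit 393) (nat_lit 1) (nat_lit 377) (nat_lit 1) (nat_lit 376) (nat_lit 1) (nat_lit 353) (nat_lit 335) (nat_lit 332))) (XT.nd (nat_lit 78) (nat_lit 0) (nat_lit 76) (XT.lf (nat_lit 1292) (nat_lit 749866422) (nat_lit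 76) (nat_lit 492961370) (nat_lit 0) (nat_lit 1645795955) (nat_lit 394) (nat_lit 1) (nat_lit 378) (nat_lit 1) (nat_lit 377) (nat_lit 1) (nat_lit 354) (nat_lit 335) (nat_lit 331)) (XT.lf (nat_lit 1292) (nat_lit 564422564) (nat_lit 76) (nat_lit 71669292) (nat_lit 0) (nat_lit 2185513331) (nat_lit 395) (nat_lit 1) (nat_lit 379) (nat_lit 1) (nat_lit 378) (nat_lit 1) (nat_lit 355) (nat_lit 335) (nat_lit 330))))) (XT.nd (nat_lit 234) (nat_lit 1292) (nat_lit 0) (XT.nd (nat_lit 78) (nat_lit 1216) (nat_lit 0) (XT.lf (nat_lit 1292) (nat_lit 43429306) (nat_lit 0) (nat_lit 2407682190) (nat_lit 1216) (nat_lit 305535083) (nat_lit 396) (nat_lit 1) (nat_lit 379) (nat_lit 1) (nat_lit 395) (nat_lit 1) (nat_lit 356) (nat_lit 335) (nat_lit 329)) (XT.nd (nat_lit 78) (nat_lit 1216) (nat_lit 0) (XT.lf (nat_lit 1292) (nat_lit 102936903) (nat_lit 76) (nat_lit 2042310435) (nat_lit 0) (nat_lit 548344700) (nat_lit 396) (nat_lit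 1) (nat_lit 380) (nat_lit 1) (nat_lit 379) (nat_lit 1) (nat_lit 357) (nat_lit 335) (nat_lit 328)) (XT.lf (nat_lit 1368) (nat_lit 1504421683) (nat_lit 0) (nat_lit 162612250) (nat_lit 1292) (nat_lit 965454250) (nat_lit 381) (nat_lit 1) (nat_lit 363) (nat_lit 1) (nat_lit 380) (nat_lit 1) (nat_lit 358) (nat_lit 335) (nat_lit 327)))) (XT.nd (nat_lit 156) (nat_lit 1368) (nat_lit 0) (XT.nd (nat_lit 78) (nat_lit 0) (nat_lit 76) (XT.lf (nat_lit 1368) (nat_lit 878122782) (nat_lit 0) (nat_lit 446188858) (nat_lit 1292) (nat_lit 1248976553) (nat_lit 382) (nat_lit 1) (nat_lit 364) (nat_lit 1) (nat_lit 381) (nat_lit 1) (nat_lit 359) (nat_lit 335) (nat_lit 326)) (XT.lf (nat_lit 76) (nat_lit 265373363) (nat_lit 0) (nat_lit 748062105) (nat_lit 1292) (nat_lit 1502517775) (nat_lit 366) (nat_lit 1) (nat_lit 365) (nat_lit 1) (nat_lit 382) (nat_lit 1) (nat_lit 360) (nat_lit 335) (nat_lit 325))) (XT.nd (nat_lit 78) (nat_lit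 608) (nat_lit 0) (XT.lf (nat_lit 912) (nat_lit 1390451296) (nat_lit 0) (nat_lit 729386805) (nat_lit 836) (nat_lit 340481200) (nat_lit 366) (nat_lit 1) (nat_lit 354) (nat_lit 1) (nat_lit 365) (nat_lit 1) (nat_lit 361) (nat_lit 335) (nat_lit 324)) (XT.lf (nat_lit 684) (nat_lit 997083979) (nat_lit 0) (nat_lit 471422040) (nat_lit 608) (nat_lit 937841173) (nat_lit 355) (nat_lit 1) (nat_lit 346) (nat_lit 1) (nat_lit 354) (nat_lit 1) (nat_lit 362) (nat_lit 335) (nat_lit 323))))))) (XT.nd (nat_lit 1092) (nat_lit 4636) (nat_lit 0) (XT.nd (nat_lit 546) (nat_lit 3192) (nat_lit 0) (XT.nd (nat_lit 234) (nat_lit 2128) (nat_lit 0) (XT.nd (nat_lit 78) (nat_lit 608) (nat_lit 0) (XT.lf (nat_lit 684) (nat_lit 591855240) (nat_lit 0) (nat_lit 240721761) (nat_lit 608) (nat_lit 1521477119) (nat_lit 347) (nat_lit 1) (nat_lit 338) (nat_lit 1) (nat_lit 346) (nat_lit 1) (nat_lit 363) (nat_lit 335) (nat_lit 322)) (XT.nd (nat_lit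 78) (nat_lit 76) (nat_lit 0) (XT.lf (nat_lit 608) (nat_lit 176066366) (nat_lit 0) (nat_lit 35856044) (nat_lit 532) (nat_lit 2091459169) (nat_lit 339) (nat_lit 1) (nat_lit 331) (nat_lit 1) (nat_lit 338) (nat_lit 1) (nat_lit 364) (nat_lit 335) (nat_lit 321)) (XT.lf (nat_lit 76) (nat_lit 1856545127) (nat_lit 0) (nat_lit 249488166) (nat_lit 608) (nat_lit 148009605) (nat_lit 331) (nat_lit 1) (nat_lit 330) (nat_lit 1) (nat_lit 338) (nat_lit 1) (nat_lit 365) (nat_lit 335) (nat_lit 320)))) (XT.nd (nat_lit 156) (nat_lit 988) (nat_lit 0) (XT.nd (nat_lit 78) (nat_lit 532) (nat_lit 0) (XT.lf (nat_lit 76) (nat_lit 1212206611) (nat_lit 0) (nat_lit 681713679) (nat_lit 684) (nat_lit 312178805) (nat_lit 323) (nat_lit 1) (nat_lit 322) (nat_lit 1) (nat_lit 331) (nat_lit 1) (nat_lit 366) (nat_lit 335) (nat_lit 319)) (XT.lf (nat_lit 76) (nat_lit 584289183) (nat_lit 0) (nat_lit 1120564865) (nat_lit 608) (nat_lit 454768046)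 (nat_lit 316) (nat_lit 1) (nat_lit 315) (nat_lit 1) (nat_lit 323) (nat_lit 1) (nat_lit 367) (nat_lit 335) (nat_lit 318))) (XT.nd (nat_lit 78) (nat_lit 456) (nat_lit 0) (XT.lf (nat_lit 608) (nat_lit 549214639) (nat_lit 0) (nat_lit 1537355522) (nat_lit 532) (nat_lit 27983504) (nat_lit 316) (nat_lit 1) (nat_lit 308) (nat_lit 1) (nat_lit 315) (nat_lit 1) (nat_lit 368) (nat_lit 335) (nat_lit 317)) (XT.lf (nat_lit 532) (nat_lit 50256260) (nat_lit 0) (nat_lit 1384815800) (nat_lit 456) (nat_lit 635614389) (nat_lit 309) (nat_lit 1) (nat_lit 302) (nat_lit 1) (nat_lit 308) (nat_lit 1) (nat_lit 369) (nat_lit 335) (nat_lit 316))))) (XT.nd (nat_lit 234) (nat_lit 1672) (nat_lit 0) (XT.nd (nat_lit 78) (nat_lit 912) (nat_lit 0) (XT.lf (nat_lit 76) (nat_lit 805257622) (nat_lit 0) (nat_lit 442314197) (nat_lit 608) (nat_lit 780443862) (nat_lit 295) (nat_lit 1) (nat_lit 294) (nat_lit 1) (nat_lit 302) (nat_lit 1) (nat_lit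 370) (nat_lit 335) (nat_lit 315)) (XT.nd (nat_lit 78) (nat_lit 456) (nat_lit 0) (XT.lf (nat_lit 76) (nat_lit 192989227) (nat_lit 0) (nat_lit 935540230) (nat_lit 532) (nat_lit 858082235) (nat_lit 289) (nat_lit 1) (nat_lit 288) (nat_lit 1) (nat_lit 295) (nat_lit 1) (nat_lit 371) (nat_lit 335) (nat_lit 314)) (XT.lf (nat_lit 532) (nat_lit 512660015) (nat_lit 0) (nat_lit 1023129914) (nat_lit 456) (nat_lit 410537741) (nat_lit 289) (nat_lit 1) (nat_lit 282) (nat_lit 1) (nat_lit 288) (nat_lit 1) (nat_lit 372) (nat_lit 335) (nat_lit 313)))) (XT.nd (nat_lit 156) (nat_lit 760) (nat_lit 0) (XT.nd (nat_lit 78) (nat_lit 456) (nat_lit 0) (XT.lf (nat_lit 76) (nat_lit 906306424) (nat_lit 0) (nat_lit 26138450) (nat_lit 456) (nat_lit 974736193) (nat_lit 277) (nat_lit 1) (nat_lit 276) (nat_lit 1) (nat_lit 282) (nat_lit 1) (nat_lit 373) (nat_lit 335) (nat_lit 312)) (XT.lf (nat_lit 76) (nat_lit 299344074) (nat_lit 0)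 (nat_lit 553376779) (nat_lit 532) (nat_lit 1016328204) (nat_lit 271) (nat_lit 1) (nat_lit 270) (nat_lit 1) (nat_lit 277) (nat_lit 1) (nat_lit 374) (nat_lit 335) (nat_lit 311))) (XT.nd (nat_lit 78) (nat_lit 380) (nat_lit 0) (XT.lf (nat_lit 456) (nat_lit 750544877) (nat_lit 0) (nat_lit 785241612) (nat_lit 380) (nat_lit 296169295) (nat_lit 271) (nat_lit 1) (nat_lit 265) (nat_lit 1) (nat_lit 270) (nat_lit 1) (nat_lit 375) (nat_lit 335) (nat_lit 310)) (XT.lf (nat_lit 456) (nat_lit 186160404) (nat_lit 0) (nat_lit 729266524) (nat_lit 380) (nat_lit 880439759) (nat_lit 266) (nat_lit 1) (nat_lit 260) (nat_lit 1) (nat_lit 265) (nat_lit 1) (nat_lit 376) (nat_lit 335) (nat_lit 309)))))) (XT.nd (nat_lit 546) (nat_lit 2052) (nat_lit 0) (XT.nd (nat_lit 234) (nat_lit 1444) (nat_lit 0) (XT.nd (nat_lit 78) (nat_lit 684) (nat_lit 0) (XT.lf (nat_lit 76) (nat_lit 316551281) (nat_lit 0) (nat_lit 366776675) (nat_lit 456)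 (nat_lit 1077398316) (nat_lit 255) (nat_lit 1) (nat_lit 254) (nat_lit 1) (nat_lit 260) (nat_lit 1) (nat_lit 377) (nat_lit 335) (nat_lit 308)) (XT.nd (nat_lit 78) (nat_lit 304) (nat_lit 0) (XT.lf (nat_lit 456) (nat_lit 812227692) (nat_lit 0) (nat_lit 645923432) (nat_lit 380) (nat_lit 268327152) (nat_lit 255) (nat_lit 1) (nat_lit 249) (nat_lit 1) (nat_lit 254) (nat_lit 1) (nat_lit 378) (nat_lit 335) (nat_lit 307)) (XT.lf (nat_lit 380) (nat_lit 233194758) (nat_lit 0) (nat_lit 617814955) (nat_lit 304) (nat_lit 842122917) (nat_lit 250) (nat_lit 1) (nat_lit 245) (nat_lit 1) (nat_lit 249) (nat_lit 1) (nat_lit 379) (nat_lit 335) (nat_lit 306)))) (XT.nd (nat_lit 156) (nat_lit 684) (nat_lit 0) (XT.nd (nat_lit 78) (nat_lit 304) (nat_lit 0) (XT.lf (nat_lit 76) (nat_lit 265076124) (nat_lit 0) (nat_lit 333074592) (nat_lit 456) (nat_lit 1062501779) (nat_lit 240) (nat_lit 1) (nat_lit 239) (nat_lit 1) (nat_lit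 245) (nat_lit 1) (nat_lit 380) (nat_lit 335) (nat_lit 305)) (XT.lf (nat_lit 380) (nat_lit 737439631) (nat_lit 0) (nat_lit 584353188) (nat_lit 304) (nat_lit 307158176) (nat_lit 240) (nat_lit 1) (nat_lit 235) (nat_lit 1) (nat_lit 239) (nat_lit 1) (nat_lit 381) (nat_lit 335) (nat_lit 304))) (XT.nd (nat_lit 78) (nat_lit 380) (nat_lit 0) (XT.lf (nat_lit 380) (nat_lit 152132491) (nat_lit 0) (nat_lit 578645441) (nat_lit 304) (nat_lit 867303369) (nat_lit 236) (nat_lit 1) (nat_lit 231) (nat_lit 1) (nat_lit 235) (nat_lit 1) (nat_lit 382) (nat_lit 335) (nat_lit 303)) (XT.lf (nat_lit 76) (nat_lit 161671580) (nat_lit 0) (nat_lit 417221385) (nat_lit 380) (nat_lit 989076926) (nat_lit 227) (nat_lit 1) (nat_lit 226) (nat_lit 1) (nat_lit 231) (nat_lit 1) (nat_lit 383) (nat_lit 335) (nat_lit 302))))) (XT.nd (nat_lit 234) (nat_lit 1140) (nat_lit 0) (XT.nd (nat_lit 78) (nat_lit 608) (nat_lit 0) (XT.lf (nat_lit 380)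 (nat_lit 558759197) (nat_lit 0) (nat_lit 583383606) (nat_lit 304) (nat_lit 396412951) (nat_lit 227) (nat_lit 1) (nat_lit 222) (nat_lit 1) (nat_lit 226) (nat_lit 1) (nat_lit 384) (nat_lit 335) (nat_lit 301)) (XT.nd (nat_lit 78) (nat_lit 304) (nat_lit 0) (XT.lf (nat_lit 76) (nat_lit 569652487) (nat_lit 0) (nat_lit 25630657) (nat_lit 304) (nat_lit 914637028) (nat_lit 219) (nat_lit 1) (nat_lit 218) (nat_lit 1) (nat_lit 222) (nat_lit 1) (nat_lit 385) (nat_lit 335) (nat_lit 300)) (XT.lf (nat_lit 76) (nat_lit 20002840) (nat_lit 0) (nat_lit 590510826) (nat_lit 380) (nat_lit 871419983) (nat_lit 215) (nat_lit 1) (nat_lit 214) (nat_lit 1) (nat_lit 219) (nat_lit 1) (nat_lit 386) (nat_lit 335) (nat_lit 299)))) (XT.nd (nat_lit 156) (nat_lit 532) (nat_lit 0) (XT.nd (nat_lit 78) (nat_lit 380) (nat_lit 0) (XT.lf (nat_lit 304) (nat_lit 302811252) (nat_lit 0) (nat_lit 628930902) (nat_lit 228) (nat_lit 522839315)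 (nat_lit 215) (nat_lit 1) (nat_lit 211) (nat_lit 1) (nat_lit 214) (nat_lit 1) (nat_lit 387) (nat_lit 335) (nat_lit 298)) (XT.lf (nat_lit 76) (nat_lit 381455752) (nat_lit 0) (nat_lit 271006877) (nat_lit 380) (nat_lit 775446838) (nat_lit 207) (nat_lit 1) (nat_lit 206) (nat_lit 1) (nat_lit 211) (nat_lit 1) (nat_lit 388) (nat_lit 335) (nat_lit 297))) (XT.nd (nat_lit 78) (nat_lit 304) (nat_lit 0) (XT.lf (nat_lit 304) (nat_lit 570877886) (nat_lit 0) (nat_lit 679181001) (nat_lit 228) (nat_lit 151792485) (nat_lit 207) (nat_lit 1) (nat_lit 203) (nat_lit 1) (nat_lit 206) (nat_lit 1) (nat_lit 389) (nat_lit 335) (nat_lit 296)) (XT.lf (nat_lit 76) (nat_lit 700816918) (nat_lit 0) (nat_lit 8559686) (nat_lit 304) (nat_lit 667029121) (nat_lit 200) (nat_lit 1) (nat_lit 199) (nat_lit 1) (nat_lit 203) (nat_lit 1) (nat_lit 390) (nat_lit 335) (nat_lit 295))))))))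
noncomputable def ec10 : XT := (XT.nd (nat_lit 51402) (nat_lit 228) (nat_lit 0) (XT.nd (nat_lit 50310) (nat_lit 0) (nat_lit 8892) (XT.nd (nat_lit 49764) (nat_lit 0) (nat_lit 14972) (XT.nd (nat_lit 234) (nat_lit 912) (nat_lit 0) (XT.nd (nat_lit 78) (nat_lit 532) (nat_lit 0) (XT.lf (nat_lit 76) (nat_lit 174164727) (nat_lit 0) (nat_lit 566847113) (nat_lit 304) (nat_lit 610491599) (nat_lit 197) (nat_lit 1) (nat_lit 196) (nat_lit 1) (nat_lit 200) (nat_lit 1) (nat_lit 391) (nat_lit 335) (nat_lit 294)) (XT.nd (nat_lit 78) (nat_lit 304) (nat_lit 0) (XT.lf (nat_lit 304) (nat_lit 208706041) (nat_lit 0) (nat_lit 775940947) (nat_lit 228) (nat_lit 342541984) (nat_lit 197) (nat_lit 1) (nat_lit 193) (nat_lit 1) (nat_lit 196) (nat_lit 1) (nat_lit 392) (nat_lit 335) (nat_lit 293)) (XT.lf (nat_lit 76) (nat_lit 460713199) (nat_lit 0) (nat_lit 351310794) (nat_lit 304) (nat_lit 491366631) (nat_lit 190) (nat_lit 1)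 (nat_lit 189) (nat_lit 1) (nat_lit 193) (nat_lit 1) (nat_lit 393) (nat_lit 335) (nat_lit 292)))) (XT.nd (nat_lit 156) (nat_lit 456) (nat_lit 0) (XT.nd (nat_lit 78) (nat_lit 228) (nat_lit 0) (XT.lf (nat_lit 304) (nat_lit 382869319) (nat_lit 0) (nat_lit 851779388) (nat_lit 228) (nat_lit 45523852) (nat_lit 190) (nat_lit 1) (nat_lit 186) (nat_lit 1) (nat_lit 189) (nat_lit 1) (nat_lit 394) (nat_lit 335) (nat_lit 291)) (XT.lf (nat_lit 76) (nat_lit 714689410) (nat_lit 0) (nat_lit 176403878) (nat_lit 228) (nat_lit 366312652) (nat_lit 184) (nat_lit 1) (nat_lit 183) (nat_lit 1) (nat_lit 186) (nat_lit 1) (nat_lit 395) (nat_lit 335) (nat_lit 290))) (XT.nd (nat_lit 78) (nat_lit 228) (nat_lit 0) (XT.lf (nat_lit 76) (nat_lit 214892141) (nat_lit 0) (nat_lit 717476072) (nat_lit 304) (nat_lit 302783684) (nat_lit 181) (nat_lit 1) (nat_lit 180) (nat_lit 1) (nat_lit 184) (nat_lit 1) (nat_lit 396) (nat_lit 335) (nat_lit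 289)) (XT.lf (nat_lit 76) (nat_lit 939534811) (nat_lit 0) (nat_lit 36442190) (nat_lit 228) (nat_lit 237435617) (nat_lit 178) (nat_lit 1) (nat_lit 177) (nat_lit 1) (nat_lit 180) (nat_lit 1) (nat_lit 397) (nat_lit 335) (nat_lit 288))))) (XT.nd (nat_lit 234) (nat_lit 0) (nat_lit 152) (XT.nd (nat_lit 78) (nat_lit 0) (nat_lit 76) (XT.lf (nat_lit 1292) (nat_lit 306836825) (nat_lit 0) (nat_lit 1055661380) (nat_lit 1292) (nat_lit 306836825) (nat_lit 391) (nat_lit 1) (nat_lit 374) (nat_lit 0) (nat_lit 391) (nat_lit 0) (nat_lit 348) (nat_lit 336) (nat_lit 336)) (XT.nd (nat_lit 78) (nat_lit 0) (nat_lit 0) (XT.lf (nat_lit 1292) (nat_lit 24599646) (nat_lit 0) (nat_lit 2081542256) (nat_lit 1216) (nat_lit 1152421343) (nat_lit 392) (nat_lit 1) (nat_lit 375) (nat_lit 1) (nat_lit 391) (nat_lit 1) (nat_lit 349) (nat_lit 336) (nat_lit 335)) (XT.lf (nat_lit 1292) (nat_lit 1082278664) (nat_lit 76) (nat_lit 1530843567)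 (nat_lit 0) (nat_lit 567785336) (nat_lit 392) (nat_lit 1) (nat_lit 376) (nat_lit 1) (nat_lit 375) (nat_lit 1) (nat_lit 350) (nat_lit 336) (nat_lit 334)))) (XT.nd (nat_lit 156) (nat_lit 0) (nat_lit 152) (XT.nd (nat_lit 78) (nat_lit 0) (nat_lit 76) (XT.lf (nat_lit 1292) (nat_lit 951414718) (nat_lit 76) (nat_lit 1002046657) (nat_lit 0) (nat_lit 1152304914) (nat_lit 393) (nat_lit 1) (nat_lit 377) (nat_lit 1) (nat_lit 376) (nat_lit 1) (nat_lit 351) (nat_lit 336) (nat_lit 333)) (XT.lf (nat_lit 1292) (nat_lit 787359743) (nat_lit 76) (nat_lit 517609439) (nat_lit 0) (nat_lit 1728085753) (nat_lit 394) (nat_lit 1) (nat_lit 378) (nat_lit 1) (nat_lit 377) (nat_lit 1) (nat_lit 352) (nat_lit 336) (nat_lit 332))) (XT.nd (nat_lit 78) (nat_lit 0) (nat_lit 76) (XT.lf (nat_lit 1292) (nat_lit 592643692) (nat_lit 76) (nat_lit 75252756) (nat_lit 0) (nat_lit 2294788998) (nat_lit 395) (nat_lit 1) (nat_lit 379) (nat_lit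 1) (nat_lit 378) (nat_lit 1) (nat_lit 353) (nat_lit 336) (nat_lit 331)) (XT.lf (nat_lit 1292) (nat_lit 45600771) (nat_lit 0) (nat_lit 2528066300) (nat_lit 1216) (nat_lit 320811837) (nat_lit 396) (nat_lit 1) (nat_lit 379) (nat_lit 1) (nat_lit 395) (nat_lit 1) (nat_lit 354) (nat_lit 336) (nat_lit 330)))))) (XT.nd (nat_lit 546) (nat_lit 3344) (nat_lit 0) (XT.nd (nat_lit 234) (nat_lit 1900) (nat_lit 0) (XT.nd (nat_lit 78) (nat_lit 1216) (nat_lit 0) (XT.lf (nat_lit 1292) (nat_lit 108083749) (nat_lit 76) (nat_lit 2144425957) (nat_lit 0) (nat_lit 575761935) (nat_lit 396) (nat_lit 1) (nat_lit 380) (nat_lit 1) (nat_lit 379) (nat_lit 1) (nat_lit 355) (nat_lit 336) (nat_lit 329)) (XT.nd (nat_lit 78) (nat_lit 0) (nat_lit 76) (XT.lf (nat_lit 1368) (nat_lit 1579642767) (nat_lit 0) (nat_lit 170742862) (nat_lit 1292) (nat_lit 1013726963) (nat_lit 381) (nat_lit 1) (nat_lit 363) (nat_lit 1) (nat_lit 380) (nat_lit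 1) (nat_lit 356) (nat_lit 336) (nat_lit 328)) (XT.lf (nat_lit 1368) (nat_lit 922028921) (nat_lit 0) (nat_lit 468498301) (nat_lit 1292) (nat_lit 1311425381) (nat_lit 382) (nat_lit 1) (nat_lit 364) (nat_lit 1) (nat_lit 381) (nat_lit 1) (nat_lit 357) (nat_lit 336) (nat_lit 327)))) (XT.nd (nat_lit 156) (nat_lit 1216) (nat_lit 0) (XT.nd (nat_lit 78) (nat_lit 836) (nat_lit 0) (XT.lf (nat_lit 76) (nat_lit 278642031) (nat_lit 0) (nat_lit 785465210) (nat_lit 1292) (nat_lit 1577643664) (nat_lit 366) (nat_lit 1) (nat_lit 365) (nat_lit 1) (nat_lit 382) (nat_lit 1) (nat_lit 358) (nat_lit 336) (nat_lit 326)) (XT.lf (nat_lit 912) (nat_lit 1459973861) (nat_lit 0) (nat_lit 765856145) (nat_lit 836) (nat_lit 357505260) (nat_lit 366) (nat_lit 1) (nat_lit 354) (nat_lit 1) (nat_lit 365) (nat_lit 1) (nat_lit 359) (nat_lit 336) (nat_lit 325))) (XT.nd (nat_lit 78) (nat_lit 608) (nat_lit 0) (XT.lf (nat_lit 684) (nat_lit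 1046938178) (nat_lit 0) (nat_lit 494993142) (nat_lit 608) (nat_lit 984733232) (nat_lit 355) (nat_lit 1) (nat_lit 346) (nat_lit 1) (nat_lit 354) (nat_lit 1) (nat_lit 360) (nat_lit 336) (nat_lit 324)) (XT.lf (nat_lit 684) (nat_lit 621448002) (nat_lit 0) (nat_lit 252757849) (nat_lit 608) (nat_lit 1597550975) (nat_lit 347) (nat_lit 1) (nat_lit 338) (nat_lit 1) (nat_lit 346) (nat_lit 1) (nat_lit 361) (nat_lit 336) (nat_lit 323))))) (XT.nd (nat_lit 234) (nat_lit 2128) (nat_lit 0) (XT.nd (nat_lit 78) (nat_lit 684) (nat_lit 0) (XT.lf (nat_lit 608) (nat_lit 184869685) (nat_lit 0) (nat_lit 37648846) (nat_lit 532) (nat_lit 2196032128) (nat_lit 339) (nat_lit 1) (nat_lit 331) (nat_lit 1) (nat_lit 338) (nat_lit 1) (nat_lit 362) (nat_lit 336) (nat_lit 322)) (XT.nd (nat_lit 78) (nat_lit 608) (nat_lit 0) (XT.lf (nat_lit 76) (nat_lit 1949372383) (nat_lit 0) (nat_lit 261962574) (nat_lit 608) (nat_lit 155410086) (nat_lit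 331) (nat_lit 1) (nat_lit 330) (nat_lit 1) (nat_lit 338) (nat_lit 1) (nat_lit 363) (nat_lit 336) (nat_lit 321)) (XT.lf (nat_lit 76) (nat_lit 1272816941) (nat_lit 0) (nat_lit 715799363) (nat_lit 684) (nat_lit 327787745) (nat_lit 323) (nat_lit 1) (nat_lit 322) (nat_lit 1) (nat_lit 331) (nat_lit 1) (nat_lit 364) (nat_lit 336) (nat_lit 320)))) (XT.nd (nat_lit 156) (nat_lit 1064) (nat_lit 0) (XT.nd (nat_lit 78) (nat_lit 532) (nat_lit 0) (XT.lf (nat_lit 76) (nat_lit 613503642) (nat_lit 0) (nat_lit 1176593108) (nat_lit 608) (nat_lit 477506449) (nat_lit 316) (nat_lit 1) (nat_lit 315) (nat_lit 1) (nat_lit 323) (nat_lit 1) (nat_lit 365) (nat_lit 336) (nat_lit 319)) (XT.lf (nat_lit 608) (nat_lit 576675371) (nat_lit 0) (nat_lit 1614223298) (nat_lit 532) (nat_lit 29382680) (nat_lit 316) (nat_lit 1) (nat_lit 308) (nat_lit 1) (nat_lit 315) (nat_lit 1) (nat_lit 366) (nat_lit 336) (nat_lit 318))) (XT.nd (nat_lit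 78) (nat_lit 608) (nat_lit 0) (XT.lf (nat_lit 532) (nat_lit 52769073) (nat_lit 0) (nat_lit 1454056590) (nat_lit 456) (nat_lit 667395109) (nat_lit 309) (nat_lit 1) (nat_lit 302) (nat_lit 1) (nat_lit 308) (nat_lit 1) (nat_lit 367) (nat_lit 336) (nat_lit 317)) (XT.lf (nat_lit 76) (nat_lit 845520503) (nat_lit 0) (nat_lit 464429907) (nat_lit 608) (nat_lit 819466055) (nat_lit 295) (nat_lit 1) (nat_lit 294) (nat_lit 1) (nat_lit 302) (nat_lit 1) (nat_lit 368) (nat_lit 336) (nat_lit 316))))))) (XT.nd (nat_lit 1092) (nat_lit 3648) (nat_lit 0) (XT.nd (nat_lit 546) (nat_lit 2432) (nat_lit 0) (XT.nd (nat_lit 234) (nat_lit 1672) (nat_lit 0) (XT.nd (nat_lit 78) (nat_lit 912) (nat_lit 0) (XT.lf (nat_lit 76) (nat_lit 202638688) (nat_lit 0) (nat_lit 982317242) (nat_lit 532) (nat_lit 900986346) (nat_lit 289) (nat_lit 1) (nat_lit 288) (nat_lit 1) (nat_lit 295) (nat_lit 1) (nat_lit 369) (nat_lit 336) (nat_lit 315))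 (XT.nd (nat_lit 78) (nat_lit 456) (nat_lit 0) (XT.lf (nat_lit 532) (nat_lit 538293016) (nat_lit 0) (nat_lit 1074286410) (nat_lit 456) (nat_lit 431064628) (nat_lit 289) (nat_lit 1) (nat_lit 282) (nat_lit 1) (nat_lit 288) (nat_lit 1) (nat_lit 370) (nat_lit 336) (nat_lit 314)) (XT.lf (nat_lit 76) (nat_lit 951621746) (nat_lit 0) (nat_lit 27445373) (nat_lit 456) (nat_lit 1023473003) (nat_lit 277) (nat_lit 1) (nat_lit 276) (nat_lit 1) (nat_lit 282) (nat_lit 1) (nat_lit 371) (nat_lit 336) (nat_lit 313)))) (XT.nd (nat_lit 156) (nat_lit 836) (nat_lit 0) (XT.nd (nat_lit 78) (nat_lit 380) (nat_lit 0) (XT.lf (nat_lit 76) (nat_lit 314311278) (nat_lit 0) (nat_lit 581045618) (nat_lit 532) (nat_lit 1067144614) (nat_lit 271) (nat_lit 1) (nat_lit 270) (nat_lit 1) (nat_lit 277) (nat_lit 1) (nat_lit 372) (nat_lit 336) (nat_lit 312)) (XT.lf (nat_lit 456) (nat_lit 788072121) (nat_lit 0) (nat_lit 824503693) (nat_lit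 380) (nat_lit 310977760) (nat_lit 271) (nat_lit 1) (nat_lit 265) (nat_lit 1) (nat_lit 270) (nat_lit 1) (nat_lit 373) (nat_lit 336) (nat_lit 311))) (XT.nd (nat_lit 78) (nat_lit 456) (nat_lit 0) (XT.lf (nat_lit 456) (nat_lit 195468424) (nat_lit 0) (nat_lit 765729850) (nat_lit 380) (nat_lit 924461747) (nat_lit 266) (nat_lit 1) (nat_lit 260) (nat_lit 1) (nat_lit 265) (nat_lit 1) (nat_lit 374) (nat_lit 336) (nat_lit 310)) (XT.lf (nat_lit 76) (nat_lit 332378845) (nat_lit 0) (nat_lit 385115509) (nat_lit 456) (nat_lit 1131268231) (nat_lit 255) (nat_lit 1) (nat_lit 254) (nat_lit 1) (nat_lit 260) (nat_lit 1) (nat_lit 375) (nat_lit 336) (nat_lit 309))))) (XT.nd (nat_lit 234) (nat_lit 1292) (nat_lit 0) (XT.nd (nat_lit 78) (nat_lit 760) (nat_lit 0) (XT.lf (nat_lit 456) (nat_lit 852839077) (nat_lit 0) (nat_lit 678219604) (nat_lit 380) (nat_lit 281743509) (nat_lit 255) (nat_lit 1) (nat_lit 249) (nat_lit 1) (nat_lit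 254) (nat_lit 1) (nat_lit 376) (nat_lit 336) (nat_lit 308)) (XT.nd (nat_lit 78) (nat_lit 456) (nat_lit 0) (XT.lf (nat_lit 380) (nat_lit 244854496) (nat_lit 0) (nat_lit 648705703) (nat_lit 304) (nat_lit 884229063) (nat_lit 250) (nat_lit 1) (nat_lit 245) (nat_lit 1) (nat_lit 249) (nat_lit 1) (nat_lit 377) (nat_lit 336) (nat_lit 307)) (XT.lf (nat_lit 76) (nat_lit 278329930) (nat_lit 0) (nat_lit 349728322) (nat_lit 456) (nat_lit 1115626868) (nat_lit 240) (nat_lit 1) (nat_lit 239) (nat_lit 1) (nat_lit 245) (nat_lit 1) (nat_lit 378) (nat_lit 336) (nat_lit 306)))) (XT.nd (nat_lit 156) (nat_lit 684) (nat_lit 0) (XT.nd (nat_lit 78) (nat_lit 304) (nat_lit 0) (XT.lf (nat_lit 380) (nat_lit 774311612) (nat_lit 0) (nat_lit 613570847) (nat_lit 304) (nat_lit 322516085) (nat_lit 240) (nat_lit 1) (nat_lit 235) (nat_lit 1) (nat_lit 239) (nat_lit 1) (nat_lit 379) (nat_lit 336) (nat_lit 305)) (XT.lf (nat_lit 380) (nat_lit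 159739116) (nat_lit 0) (nat_lit 607577714) (nat_lit 304) (nat_lit 910668537) (nat_lit 236) (nat_lit 1) (nat_lit 231) (nat_lit 1) (nat_lit 235) (nat_lit 1) (nat_lit 380) (nat_lit 336) (nat_lit 304))) (XT.nd (nat_lit 78) (nat_lit 304) (nat_lit 0) (XT.lf (nat_lit 76) (nat_lit 169755159) (nat_lit 0) (nat_lit 438082454) (nat_lit 380) (nat_lit 1038530772) (nat_lit 227) (nat_lit 1) (nat_lit 226) (nat_lit 1) (nat_lit 231) (nat_lit 1) (nat_lit 381) (nat_lit 336) (nat_lit 303)) (XT.lf (nat_lit 380) (nat_lit 586697157) (nat_lit 0) (nat_lit 612552786) (nat_lit 304) (nat_lit 416233599) (nat_lit 227) (nat_lit 1) (nat_lit 222) (nat_lit 1) (nat_lit 226) (nat_lit 1) (nat_lit 382) (nat_lit 336) (nat_lit 302)))))) (XT.nd (nat_lit 546) (nat_lit 1672) (nat_lit 0) (XT.nd (nat_lit 234) (nat_lit 1140) (nat_lit 0) (XT.nd (nat_lit 78) (nat_lit 532) (nat_lit 0) (XT.lf (nat_lit 76) (nat_lit 598135111) (nat_lit 0) (nat_lit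 26912190) (nat_lit 304) (nat_lit 960368879) (nat_lit 219) (nat_lit 1) (nat_lit 218) (nat_lit 1) (nat_lit 222) (nat_lit 1) (nat_lit 383) (nat_lit 336) (nat_lit 301)) (XT.nd (nat_lit 78) (nat_lit 228) (nat_lit 0) (XT.lf (nat_lit 76) (nat_lit 21002982) (nat_lit 0) (nat_lit 620036367) (nat_lit 380) (nat_lit 914990982) (nat_lit 215) (nat_lit 1) (nat_lit 214) (nat_lit 1) (nat_lit 219) (nat_lit 1) (nat_lit 384) (nat_lit 336) (nat_lit 300)) (XT.lf (nat_lit 304) (nat_lit 317951815) (nat_lit 0) (nat_lit 660377447) (nat_lit 228) (nat_lit 548981281) (nat_lit 215) (nat_lit 1) (nat_lit 211) (nat_lit 1) (nat_lit 214) (nat_lit 1) (nat_lit 385) (nat_lit 336) (nat_lit 299)))) (XT.nd (nat_lit 156) (nat_lit 532) (nat_lit 0) (XT.nd (nat_lit 78) (nat_lit 228) (nat_lit 0) (XT.lf (nat_lit 76) (nat_lit 400528539) (nat_lit 0) (nat_lit 284557221) (nat_lit 380) (nat_lit 814219180) (nat_lit 207) (nat_lit 1) (nat_lit 206) (nat_lit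 1) (nat_lit 211) (nat_lit 1) (nat_lit 386) (nat_lit 336) (nat_lit 298)) (XT.lf (nat_lit 304) (nat_lit 599421780) (nat_lit 0) (nat_lit 713140052) (nat_lit 228) (nat_lit 159382110) (nat_lit 207) (nat_lit 1) (nat_lit 203) (nat_lit 1) (nat_lit 206) (nat_lit 1) (nat_lit 387) (nat_lit 336) (nat_lit 297))) (XT.nd (nat_lit 78) (nat_lit 228) (nat_lit 0) (XT.lf (nat_lit 76) (nat_lit 735857764) (nat_lit 0) (nat_lit 8987670) (nat_lit 304) (nat_lit 700380577) (nat_lit 200) (nat_lit 1) (nat_lit 199) (nat_lit 1) (nat_lit 203) (nat_lit 1) (nat_lit 388) (nat_lit 336) (nat_lit 296)) (XT.lf (nat_lit 76) (nat_lit 182872964) (nat_lit 0) (nat_lit 595189469) (nat_lit 304) (nat_lit 641016179) (nat_lit 197) (nat_lit 1) (nat_lit 196) (nat_lit 1) (nat_lit 200) (nat_lit 1) (nat_lit 389) (nat_lit 336) (nat_lit 295))))) (XT.nd (nat_lit 234) (nat_lit 912) (nat_lit 0) (XT.nd (nat_lit 78) (nat_lit 532) (nat_lit 0) (XT.lf (nat_lit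 304) (nat_lit 219141343) (nat_lit 0) (nat_lit 814737994) (nat_lit 228) (nat_lit 359669083) (nat_lit 197) (nat_lit 1) (nat_lit 193) (nat_lit 1) (nat_lit 196) (nat_lit 1) (nat_lit 390) (nat_lit 336) (nat_lit 294)) (XT.nd (nat_lit 78) (nat_lit 228) (nat_lit 0) (XT.lf (nat_lit 76) (nat_lit 483748859) (nat_lit 0) (nat_lit 368876334) (nat_lit 304) (nat_lit 515934963) (nat_lit 190) (nat_lit 1) (nat_lit 189) (nat_lit 1) (nat_lit 193) (nat_lit 1) (nat_lit 391) (nat_lit 336) (nat_lit 293)) (XT.lf (nat_lit 304) (nat_lit 402012785) (nat_lit 0) (nat_lit 894368358) (nat_lit 228) (nat_lit 47800044) (nat_lit 190) (nat_lit 1) (nat_lit 186) (nat_lit 1) (nat_lit 189) (nat_lit 1) (nat_lit 392) (nat_lit 336) (nat_lit 292)))) (XT.nd (nat_lit 156) (nat_lit 456) (nat_lit 0) (XT.nd (nat_lit 78) (nat_lit 228) (nat_lit 0) (XT.lf (nat_lit 76) (nat_lit 750423880) (nat_lit 0) (nat_lit 185224072) (nat_lit 228) (nat_lit 384628284)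 (nat_lit 184) (nat_lit 1) (nat_lit 183) (nat_lit 1) (nat_lit 186) (nat_lit 1) (nat_lit 393) (nat_lit 336) (nat_lit 291)) (XT.lf (nat_lit 76) (nat_lit 225636748) (nat_lit 0) (nat_lit 753349876) (nat_lit 304) (nat_lit 317922868) (nat_lit 181) (nat_lit 1) (nat_lit 180) (nat_lit 1) (nat_lit 184) (nat_lit 1) (nat_lit 394) (nat_lit 336) (nat_lit 290))) (XT.nd (nat_lit 78) (nat_lit 228) (nat_lit 0) (XT.lf (nat_lit 76) (nat_lit 986511551) (nat_lit 0) (nat_lit 38264299) (nat_lit 228) (nat_lit 249307398) (nat_lit 178) (nat_lit 1) (nat_lit 177) (nat_lit 1) (nat_lit 180) (nat_lit 1) (nat_lit 395) (nat_lit 336) (nat_lit 289)) (XT.lf (nat_lit 76) (nat_lit 468329068) (nat_lit 0) (nat_lit 600186602) (nat_lit 304) (nat_lit 183141832) (nat_lit 175) (nat_lit 1) (nat_lit 174) (nat_lit 1) (nat_lit 178) (nat_lit 1) (nat_lit 396) (nat_lit 336) (nat_lit 288))))))))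
noncomputable def ec11 : XT := (XT.nd (nat_lit 51246) (nat_lit 532) (nat_lit 0) (XT.nd (nat_lit 50154) (nat_lit 0) (nat_lit 6688) (XT.nd (nat_lit 49608) (nat_lit 0) (nat_lit 13224) (XT.nd (nat_lit 49296) (nat_lit 0) (nat_lit 15428) (XT.nd (nat_lit 49140) (nat_lit 0) (nat_lit 15352) (XT.lf (nat_lit 228) (nat_lit 78754268) (nat_lit 0) (nat_lit 1117226260) (nat_lit 152) (nat_lit 33847431) (nat_lit 175) (nat_lit 1) (nat_lit 172) (nat_lit 1) (nat_lit 174) (nat_lit 1) (nat_lit 397) (nat_lit 336) (nat_lit 287)) (XT.nd (nat_lit 78) (nat_lit 0) (nat_lit 76) (XT.lf (nat_lit 1292) (nat_lit 322178666) (nat_lit 0) (nat_lit 1108444449) (nat_lit 1292) (nat_lit 322178666) (nat_lit 391) (nat_lit 1) (nat_lit 374) (nat_lit 0) (nat_lit 391) (nat_lit 0) (nat_lit 346) (nat_lit 337) (nat_lit 337)) (XT.lf (nat_lit 1292) (nat_lit 25829628) (nat_lit 0) (nat_lit 2185619369) (nat_lit 1216) (nat_lit 1210042410) (nat_lit 392)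 (nat_lit 1) (nat_lit 375) (nat_lit 1) (nat_lit 391) (nat_lit 1) (nat_lit 347) (nat_lit 337) (nat_lit 336)))) (XT.nd (nat_lit 156) (nat_lit 0) (nat_lit 152) (XT.nd (nat_lit 78) (nat_lit 0) (nat_lit 76) (XT.lf (nat_lit 1292) (nat_lit 1136392597) (nat_lit 76) (nat_lit 1607385745) (nat_lit 0) (nat_lit 596174603) (nat_lit 392) (nat_lit 1) (nat_lit 376) (nat_lit 1) (nat_lit 375) (nat_lit 1) (nat_lit 348) (nat_lit 337) (nat_lit 335)) (XT.lf (nat_lit 1292) (nat_lit 998985454) (nat_lit 76) (nat_lit 1052148990) (nat_lit 0) (nat_lit 1209920160) (nat_lit 393) (nat_lit 1) (nat_lit 377) (nat_lit 1) (nat_lit 376) (nat_lit 1) (nat_lit 349) (nat_lit 337) (nat_lit 334))) (XT.nd (nat_lit 78) (nat_lit 0) (nat_lit 76) (XT.lf (nat_lit 1292) (nat_lit 826727730) (nat_lit 76) (nat_lit 543489911) (nat_lit 0) (nat_lit 1814490040) (nat_lit 394) (nat_lit 1) (nat_lit 378) (nat_lit 1) (nat_lit 377) (nat_lit 1) (nat_lit 350)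 (nat_lit 337) (nat_lit 333)) (XT.lf (nat_lit 1292) (nat_lit 622275877) (nat_lit 76) (nat_lit 79015394) (nat_lit 0) (nat_lit 2409528448) (nat_lit 395) (nat_lit 1) (nat_lit 379) (nat_lit 1) (nat_lit 378) (nat_lit 1) (nat_lit 351) (nat_lit 337) (nat_lit 332))))) (XT.nd (nat_lit 234) (nat_lit 1292) (nat_lit 0) (XT.nd (nat_lit 78) (nat_lit 1216) (nat_lit 0) (XT.lf (nat_lit 1292) (nat_lit 47880810) (nat_lit 0) (nat_lit 2654469615) (nat_lit 1216) (nat_lit 336852429) (nat_lit 396) (nat_lit 1) (nat_lit 379) (nat_lit 1) (nat_lit 395) (nat_lit 1) (nat_lit 352) (nat_lit 337) (nat_lit 331)) (XT.nd (nat_lit 78) (nat_lit 1216) (nat_lit 0) (XT.lf (nat_lit 1292) (nat_lit 113487936) (nat_lit 76) (nat_lit 2251647255) (nat_lit 0) (nat_lit 604550031) (nat_lit 396) (nat_lit 1) (nat_lit 380) (nat_lit 1) (nat_lit 379) (nat_lit 1) (nat_lit 353) (nat_lit 337) (nat_lit 330)) (XT.lf (nat_lit 1368) (nat_lit 1658624906) (nat_lit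 0) (nat_lit 179280005) (nat_lit 1292) (nat_lit 1064413311) (nat_lit 381) (nat_lit 1) (nat_lit 363) (nat_lit 1) (nat_lit 380) (nat_lit 1) (nat_lit 354) (nat_lit 337) (nat_lit 329)))) (XT.nd (nat_lit 156) (nat_lit 1368) (nat_lit 0) (XT.nd (nat_lit 78) (nat_lit 0) (nat_lit 76) (XT.lf (nat_lit 1368) (nat_lit 968130367) (nat_lit 0) (nat_lit 491923216) (nat_lit 1292) (nat_lit 1376996650) (nat_lit 382) (nat_lit 1) (nat_lit 364) (nat_lit 1) (nat_lit 381) (nat_lit 1) (nat_lit 355) (nat_lit 337) (nat_lit 328)) (XT.lf (nat_lit 76) (nat_lit 292574133) (nat_lit 0) (nat_lit 824738471) (nat_lit 1292) (nat_lit 1656525847) (nat_lit 366) (nat_lit 1) (nat_lit 365) (nat_lit 1) (nat_lit 382) (nat_lit 1) (nat_lit 356) (nat_lit 337) (nat_lit 327))) (XT.nd (nat_lit 78) (nat_lit 608) (nat_lit 0) (XT.lf (nat_lit 912) (nat_lit 1532972554) (nat_lit 0) (nat_lit 804148953) (nat_lit 836) (nat_lit 375380523) (nat_lit 366) (nat_lit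 1) (nat_lit 354) (nat_lit 1) (nat_lit 365) (nat_lit 1) (nat_lit 357) (nat_lit 337) (nat_lit 326)) (XT.lf (nat_lit 684) (nat_lit 1099285086) (nat_lit 0) (nat_lit 519742800) (nat_lit 608) (nat_lit 1033969893) (nat_lit 355) (nat_lit 1) (nat_lit 346) (nat_lit 1) (nat_lit 354) (nat_lit 1) (nat_lit 358) (nat_lit 337) (nat_lit 325)))))) (XT.nd (nat_lit 546) (nat_lit 3192) (nat_lit 0) (XT.nd (nat_lit 234) (nat_lit 2128) (nat_lit 0) (XT.nd (nat_lit 78) (nat_lit 608) (nat_lit 0) (XT.lf (nat_lit 684) (nat_lit 652520402) (nat_lit 0) (nat_lit 265395741) (nat_lit 608) (nat_lit 1677428524) (nat_lit 347) (nat_lit 1) (nat_lit 338) (nat_lit 1) (nat_lit 346) (nat_lit 1) (nat_lit 359) (nat_lit 337) (nat_lit 324)) (XT.nd (nat_lit 78) (nat_lit 76) (nat_lit 0) (XT.lf (nat_lit 608) (nat_lit 194113169) (nat_lit 0) (nat_lit 39531289) (nat_lit 532) (nat_lit 2305833734) (nat_lit 339) (nat_lit 1) (nat_lit 331) (nat_lit 1)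 (nat_lit 338) (nat_lit 1) (nat_lit 360) (nat_lit 337) (nat_lit 323)) (XT.lf (nat_lit 76) (nat_lit 2046841002) (nat_lit 0) (nat_lit 275060703) (nat_lit 608) (nat_lit 163180590) (nat_lit 331) (nat_lit 1) (nat_lit 330) (nat_lit 1) (nat_lit 338) (nat_lit 1) (nat_lit 361) (nat_lit 337) (nat_lit 322)))) (XT.nd (nat_lit 156) (nat_lit 988) (nat_lit 0) (XT.nd (nat_lit 78) (nat_lit 532) (nat_lit 0) (XT.lf (nat_lit 76) (nat_lit 1336457789) (nat_lit 0) (nat_lit 751589331) (nat_lit 684) (nat_lit 344177132) (nat_lit 323) (nat_lit 1) (nat_lit 322) (nat_lit 1) (nat_lit 331) (nat_lit 1) (nat_lit 362) (nat_lit 337) (nat_lit 321)) (XT.lf (nat_lit 76) (nat_lit 644178824) (nat_lit 0) (nat_lit 1235422764) (nat_lit 608) (nat_lit 501381771) (nat_lit 316) (nat_lit 1) (nat_lit 315) (nat_lit 1) (nat_lit 323) (nat_lit 1) (nat_lit 363) (nat_lit 337) (nat_lit 320))) (XT.nd (nat_lit 78) (nat_lit 456) (nat_lit 0) (XT.lf (nat_lit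 608) (nat_lit 605509140) (nat_lit 0) (nat_lit 1694934463) (nat_lit 532) (nat_lit 30851814) (nat_lit 316) (nat_lit 1) (nat_lit 308) (nat_lit 1) (nat_lit 315) (nat_lit 1) (nat_lit 364) (nat_lit 337) (nat_lit 319)) (XT.lf (nat_lit 532) (nat_lit 55407527) (nat_lit 0) (nat_lit 1526759420) (nat_lit 456) (nat_lit 700764864) (nat_lit 309) (nat_lit 1) (nat_lit 302) (nat_lit 1) (nat_lit 308) (nat_lit 1) (nat_lit 365) (nat_lit 337) (nat_lit 318))))) (XT.nd (nat_lit 234) (nat_lit 1672) (nat_lit 0) (XT.nd (nat_lit 78) (nat_lit 912) (nat_lit 0) (XT.lf (nat_lit 76) (nat_lit 887796528) (nat_lit 0) (nat_lit 487651402) (nat_lit 608) (nat_lit 860439358) (nat_lit 295) (nat_lit 1) (nat_lit 294) (nat_lit 1) (nat_lit 302) (nat_lit 1) (nat_lit 366) (nat_lit 337) (nat_lit 317)) (XT.nd (nat_lit 78) (nat_lit 456) (nat_lit 0) (XT.lf (nat_lit 76) (nat_lit 212770622) (nat_lit 0) (nat_lit 1031433104) (nat_lit 532) (nat_lit 946035664)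 (nat_lit 289) (nat_lit 1) (nat_lit 288) (nat_lit 1) (nat_lit 295) (nat_lit 1) (nat_lit 367) (nat_lit 337) (nat_lit 316)) (XT.lf (nat_lit 532) (nat_lit 565207666) (nat_lit 0) (nat_lit 1128000730) (nat_lit 456) (nat_lit 452617860) (nat_lit 289) (nat_lit 1) (nat_lit 282) (nat_lit 1) (nat_lit 288) (nat_lit 1) (nat_lit 368) (nat_lit 337) (nat_lit 315)))) (XT.nd (nat_lit 156) (nat_lit 760) (nat_lit 0) (XT.nd (nat_lit 78) (nat_lit 456) (nat_lit 0) (XT.lf (nat_lit 76) (nat_lit 999202833) (nat_lit 0) (nat_lit 28817641) (nat_lit 456) (nat_lit 1074646653) (nat_lit 277) (nat_lit 1) (nat_lit 276) (nat_lit 1) (nat_lit 282) (nat_lit 1) (nat_lit 369) (nat_lit 337) (nat_lit 314)) (XT.lf (nat_lit 76) (nat_lit 330026841) (nat_lit 0) (nat_lit 610097899) (nat_lit 532) (nat_lit 1120501845) (nat_lit 271) (nat_lit 1) (nat_lit 270) (nat_lit 1) (nat_lit 277) (nat_lit 1) (nat_lit 370) (nat_lit 337) (nat_lit 313))) (XT.nd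 (nat_lit 78) (nat_lit 380) (nat_lit 0) (XT.lf (nat_lit 456) (nat_lit 827475727) (nat_lit 0) (nat_lit 865728878) (nat_lit 380) (nat_lit 326526648) (nat_lit 271) (nat_lit 1) (nat_lit 265) (nat_lit 1) (nat_lit 270) (nat_lit 1) (nat_lit 371) (nat_lit 337) (nat_lit 312)) (XT.lf (nat_lit 456) (nat_lit 205241845) (nat_lit 0) (nat_lit 804016343) (nat_lit 380) (nat_lit 970684834) (nat_lit 266) (nat_lit 1) (nat_lit 260) (nat_lit 1) (nat_lit 265) (nat_lit 1) (nat_lit 372) (nat_lit 337) (nat_lit 311))))))) (XT.nd (nat_lit 1092) (nat_lit 2584) (nat_lit 0) (XT.nd (nat_lit 546) (nat_lit 2052) (nat_lit 0) (XT.nd (nat_lit 234) (nat_lit 1444) (nat_lit 0) (XT.nd (nat_lit 78) (nat_lit 684) (nat_lit 0) (XT.lf (nat_lit 76) (nat_lit 348997787) (nat_lit 0) (nat_lit 404371284) (nat_lit 456) (nat_lit 1187831643) (nat_lit 255) (nat_lit 1) (nat_lit 254) (nat_lit 1) (nat_lit 260) (nat_lit 1) (nat_lit 373) (nat_lit 337) (nat_lit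 310)) (XT.nd (nat_lit 78) (nat_lit 304) (nat_lit 0) (XT.lf (nat_lit 456) (nat_lit 895481031) (nat_lit 0) (nat_lit 712130584) (nat_lit 380) (nat_lit 295830685) (nat_lit 255) (nat_lit 1) (nat_lit 249) (nat_lit 1) (nat_lit 254) (nat_lit 1) (nat_lit 374) (nat_lit 337) (nat_lit 309)) (XT.lf (nat_lit 380) (nat_lit 257097221) (nat_lit 0) (nat_lit 681140988) (nat_lit 304) (nat_lit 928440516) (nat_lit 250) (nat_lit 1) (nat_lit 245) (nat_lit 1) (nat_lit 249) (nat_lit 1) (nat_lit 375) (nat_lit 337) (nat_lit 308)))) (XT.nd (nat_lit 156) (nat_lit 684) (nat_lit 0) (XT.nd (nat_lit 78) (nat_lit 304) (nat_lit 0) (XT.lf (nat_lit 76) (nat_lit 292246427) (nat_lit 0) (nat_lit 367214738) (nat_lit 456) (nat_lit 1171408211) (nat_lit 240) (nat_lit 1) (nat_lit 239) (nat_lit 1) (nat_lit 245) (nat_lit 1) (nat_lit 376) (nat_lit 337) (nat_lit 307)) (XT.lf (nat_lit 380) (nat_lit 813027193) (nat_lit 0) (nat_lit 644249389) (nat_lit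 304) (nat_lit 338641889) (nat_lit 240) (nat_lit 1) (nat_lit 235) (nat_lit 1) (nat_lit 239) (nat_lit 1) (nat_lit 377) (nat_lit 337) (nat_lit 306))) (XT.nd (nat_lit 78) (nat_lit 380) (nat_lit 0) (XT.lf (nat_lit 380) (nat_lit 167726071) (nat_lit 0) (nat_lit 637956599) (nat_lit 304) (nat_lit 956201964) (nat_lit 236) (nat_lit 1) (nat_lit 231) (nat_lit 1) (nat_lit 235) (nat_lit 1) (nat_lit 378) (nat_lit 337) (nat_lit 305)) (XT.lf (nat_lit 76) (nat_lit 178242917) (nat_lit 0) (nat_lit 459986577) (nat_lit 380) (nat_lit 1090457311) (nat_lit 227) (nat_lit 1) (nat_lit 226) (nat_lit 1) (nat_lit 231) (nat_lit 1) (nat_lit 379) (nat_lit 337) (nat_lit 304))))) (XT.nd (nat_lit 234) (nat_lit 1140) (nat_lit 0) (XT.nd (nat_lit 78) (nat_lit 608) (nat_lit 0) (XT.lf (nat_lit 380) (nat_lit 616032015) (nat_lit 0) (nat_lit 643180425) (nat_lit 304) (nat_lit 437045279) (nat_lit 227) (nat_lit 1) (nat_lit 222) (nat_lit 1) (nat_lit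 226) (nat_lit 1) (nat_lit 380) (nat_lit 337) (nat_lit 303)) (XT.nd (nat_lit 78) (nat_lit 304) (nat_lit 0) (XT.lf (nat_lit 76) (nat_lit 628041867) (nat_lit 0) (nat_lit 28257799) (nat_lit 304) (nat_lit 1008387323) (nat_lit 219) (nat_lit 1) (nat_lit 218) (nat_lit 1) (nat_lit 222) (nat_lit 1) (nat_lit 381) (nat_lit 337) (nat_lit 302)) (XT.lf (nat_lit 76) (nat_lit 22053131) (nat_lit 0) (nat_lit 651038185) (nat_lit 380) (nat_lit 960740532) (nat_lit 215) (nat_lit 1) (nat_lit 214) (nat_lit 1) (nat_lit 219) (nat_lit 1) (nat_lit 382) (nat_lit 337) (nat_lit 301)))) (XT.nd (nat_lit 156) (nat_lit 532) (nat_lit 0) (XT.nd (nat_lit 78) (nat_lit 380) (nat_lit 0) (XT.lf (nat_lit 304) (nat_lit 333849406) (nat_lit 0) (nat_lit 693396319) (nat_lit 228) (nat_lit 576430345) (nat_lit 215) (nat_lit 1) (nat_lit 211) (nat_lit 1) (nat_lit 214) (nat_lit 1) (nat_lit 383) (nat_lit 337) (nat_lit 300)) (XT.lf (nat_lit 76) (nat_lit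 420554966) (nat_lit 0) (nat_lit 298785082) (nat_lit 380) (nat_lit 854930139) (nat_lit 207) (nat_lit 1) (nat_lit 206) (nat_lit 1) (nat_lit 211) (nat_lit 1) (nat_lit 384) (nat_lit 337) (nat_lit 299))) (XT.nd (nat_lit 78) (nat_lit 304) (nat_lit 0) (XT.lf (nat_lit 304) (nat_lit 629392869) (nat_lit 0) (nat_lit 748797054) (nat_lit 228) (nat_lit 167351215) (nat_lit 207) (nat_lit 1) (nat_lit 203) (nat_lit 1) (nat_lit 206) (nat_lit 1) (nat_lit 385) (nat_lit 337) (nat_lit 298)) (XT.lf (nat_lit 76) (nat_lit 772650652) (nat_lit 0) (nat_lit 9437054) (nat_lit 304) (nat_lit 735399606) (nat_lit 200) (nat_lit 1) (nat_lit 199) (nat_lit 1) (nat_lit 203) (nat_lit 1) (nat_lit 386) (nat_lit 337) (nat_lit 297)))))) (XT.nd (nat_lit 546) (nat_lit 912) (nat_lit 0) (XT.nd (nat_lit 234) (nat_lit 912) (nat_lit 0) (XT.nd (nat_lit 78) (nat_lit 532) (nat_lit 0) (XT.lf (nat_lit 76) (nat_lit 192016612) (nat_lit 0) (nat_lit 624948942)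 (nat_lit 304) (nat_lit 673066988) (nat_lit 197) (nat_lit 1) (nat_lit 196) (nat_lit 1) (nat_lit 200) (nat_lit 1) (nat_lit 387) (nat_lit 337) (nat_lit 296)) (XT.nd (nat_lit 78) (nat_lit 304) (nat_lit 0) (XT.lf (nat_lit 304) (nat_lit 230098410) (nat_lit 0) (nat_lit 855474894) (nat_lit 228) (nat_lit 377652538) (nat_lit 197) (nat_lit 1) (nat_lit 193) (nat_lit 1) (nat_lit 196) (nat_lit 1) (nat_lit 388) (nat_lit 337) (nat_lit 295)) (XT.lf (nat_lit 76) (nat_lit 507936302) (nat_lit 0) (nat_lit 387320150) (nat_lit 304) (nat_lit 541731711) (nat_lit 190) (nat_lit 1) (nat_lit 189) (nat_lit 1) (nat_lit 193) (nat_lit 1) (nat_lit 389) (nat_lit 337) (nat_lit 294)))) (XT.nd (nat_lit 156) (nat_lit 456) (nat_lit 0) (XT.nd (nat_lit 78) (nat_lit 228) (nat_lit 0) (XT.lf (nat_lit 304) (nat_lit 422113424) (nat_lit 0) (nat_lit 939086776) (nat_lit 228) (nat_lit 50190047) (nat_lit 190) (nat_lit 1) (nat_lit 186) (nat_lit 1)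 (nat_lit 189) (nat_lit 1) (nat_lit 390) (nat_lit 337) (nat_lit 293)) (XT.lf (nat_lit 76) (nat_lit 787945074) (nat_lit 0) (nat_lit 194485276) (nat_lit 228) (nat_lit 403859698) (nat_lit 184) (nat_lit 1) (nat_lit 183) (nat_lit 1) (nat_lit 186) (nat_lit 1) (nat_lit 391) (nat_lit 337) (nat_lit 292))) (XT.nd (nat_lit 78) (nat_lit 228) (nat_lit 0) (XT.lf (nat_lit 76) (nat_lit 236918586) (nat_lit 0) (nat_lit 791017370) (nat_lit 304) (nat_lit 333819012) (nat_lit 181) (nat_lit 1) (nat_lit 180) (nat_lit 1) (nat_lit 184) (nat_lit 1) (nat_lit 392) (nat_lit 337) (nat_lit 291)) (XT.lf (nat_lit 76) (nat_lit 1035837129) (nat_lit 0) (nat_lit 40177514) (nat_lit 228) (nat_lit 261772768) (nat_lit 178) (nat_lit 1) (nat_lit 177) (nat_lit 1) (nat_lit 180) (nat_lit 1) (nat_lit 393) (nat_lit 337) (nat_lit 290))))) (XT.nd (nat_lit 234) (nat_lit 304) (nat_lit 0) (XT.nd (nat_lit 78) (nat_lit 380) (nat_lit 0) (XT.lf (nat_lit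 76) (nat_lit 491745521) (nat_lit 0) (nat_lit 630195932) (nat_lit 304) (nat_lit 192298923) (nat_lit 175) (nat_lit 1) (nat_lit 174) (nat_lit 1) (nat_lit 178) (nat_lit 1) (nat_lit 394) (nat_lit 337) (nat_lit 289)) (XT.nd (nat_lit 78) (nat_lit 228) (nat_lit 0) (XT.lf (nat_lit 228) (nat_lit 82691981) (nat_lit 0) (nat_lit 1173087573) (nat_lit 152) (nat_lit 35539802) (nat_lit 175) (nat_lit 1) (nat_lit 172) (nat_lit 1) (nat_lit 174) (nat_lit 1) (nat_lit 395) (nat_lit 337) (nat_lit 288)) (XT.lf (nat_lit 76) (nat_lit 718508190) (nat_lit 0) (nat_lit 501113482) (nat_lit 228) (nat_lit 49107298) (nat_lit 170) (nat_lit 1) (nat_lit 169) (nat_lit 1) (nat_lit 172) (nat_lit 1) (nat_lit 396) (nat_lit 337) (nat_lit 287)))) (XT.nd (nat_lit 49062) (nat_lit 0) (nat_lit 15960) (XT.nd (nat_lit 48984) (nat_lit 0) (nat_lit 15884) (XT.lf (nat_lit 228) (nat_lit 175272959) (nat_lit 0) (nat_lit 24305153) (nat_lit 152) (nat_lit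 1047137666) (nat_lit 168) (nat_lit 1) (nat_lit 165) (nat_lit 1) (nat_lit 167) (nat_lit 1) (nat_lit 397) (nat_lit 337) (nat_lit 286)) (XT.lf (nat_lit 1292) (nat_lit 338287600) (nat_lit 0) (nat_lit 1163866671) (nat_lit 1292) (nat_lit 338287600) (nat_lit 391) (nat_lit 1) (nat_lit 374) (nat_lit 0) (nat_lit 391) (nat_lit 0) (nat_lit 344) (nat_lit 338) (nat_lit 338))) (XT.nd (nat_lit 78) (nat_lit 0) (nat_lit 0) (XT.lf (nat_lit 1292) (nat_lit 27121109) (nat_lit 0) (nat_lit 2294900337) (nat_lit 1216) (nat_lit 1270544531) (nat_lit 392) (nat_lit 1) (nat_lit 375) (nat_lit 1) (nat_lit 391) (nat_lit 1) (nat_lit 345) (nat_lit 338) (nat_lit 337)) (XT.lf (nat_lit 1292) (nat_lit 1193212227) (nat_lit 76) (nat_lit 1687755033) (nat_lit 0) (nat_lit 625983333) (nat_lit 392) (nat_lit 1) (nat_lit 376) (nat_lit 1) (nat_lit 375) (nat_lit 1) (nat_lit 346) (nat_lit 338) (nat_lit 336))))))))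
noncomputable def ec12 : XT := (XT.nd (nat_lit 2184) (nat_lit 6004) (nat_lit 0) (XT.nd (nat_lit 1092) (nat_lit 6308) (nat_lit 0) (XT.nd (nat_lit 546) (nat_lit 3116) (nat_lit 0) (XT.nd (nat_lit 234) (nat_lit 988) (nat_lit 0) (XT.nd (nat_lit 78) (nat_lit 0) (nat_lit 76) (XT.lf (nat_lit 1292) (nat_lit 1048934727) (nat_lit 76) (nat_lit 1104756439) (nat_lit 0) (nat_lit 1270416168) (nat_lit 393) (nat_lit 1) (nat_lit 377) (nat_lit 1) (nat_lit 376) (nat_lit 1) (nat_lit 347) (nat_lit 338) (nat_lit 335)) (XT.nd (nat_lit 78) (nat_lit 0) (nat_lit 76) (XT.lf (nat_lit 1292) (nat_lit 868064116) (nat_lit 76) (nat_lit 570664407) (nat_lit 0) (nat_lit 1905214542) (nat_lit 394) (nat_lit 1) (nat_lit 378) (nat_lit 1) (nat_lit 377) (nat_lit 1) (nat_lit 348) (nat_lit 338) (nat_lit 334)) (XT.lf (nat_lit 1292) (nat_lit 653389671) (nat_lit 76) (nat_lit 82966164) (nat_lit 0) (nat_lit 2530004870) (nat_lit 395) (nat_lit 1)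 (nat_lit 379) (nat_lit 1) (nat_lit 378) (nat_lit 1) (nat_lit 349) (nat_lit 338) (nat_lit 333)))) (XT.nd (nat_lit 156) (nat_lit 1216) (nat_lit 0) (XT.nd (nat_lit 78) (nat_lit 0) (nat_lit 0) (XT.lf (nat_lit 1292) (nat_lit 50274850) (nat_lit 0) (nat_lit 2787193096) (nat_lit 1216) (nat_lit 353695051) (nat_lit 396) (nat_lit 1) (nat_lit 379) (nat_lit 1) (nat_lit 395) (nat_lit 1) (nat_lit 350) (nat_lit 338) (nat_lit 332)) (XT.lf (nat_lit 1292) (nat_lit 119162333) (nat_lit 76) (nat_lit 2364229618) (nat_lit 0) (nat_lit 634777533) (nat_lit 396) (nat_lit 1) (nat_lit 380) (nat_lit 1) (nat_lit 379) (nat_lit 1) (nat_lit 351) (nat_lit 338) (nat_lit 331))) (XT.nd (nat_lit 78) (nat_lit 0) (nat_lit 76) (XT.lf (nat_lit 1368) (nat_lit 1741556151) (nat_lit 0) (nat_lit 188244005) (nat_lit 1292) (nat_lit 1117633977) (nat_lit 381) (nat_lit 1) (nat_lit 363) (nat_lit 1) (nat_lit 380) (nat_lit 1) (nat_lit 352) (nat_lit 338)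 (nat_lit 330)) (XT.lf (nat_lit 1368) (nat_lit 1016536886) (nat_lit 0) (nat_lit 516519377) (nat_lit 1292) (nat_lit 1445846483) (nat_lit 382) (nat_lit 1) (nat_lit 364) (nat_lit 1) (nat_lit 381) (nat_lit 1) (nat_lit 353) (nat_lit 338) (nat_lit 329))))) (XT.nd (nat_lit 234) (nat_lit 1824) (nat_lit 0) (XT.nd (nat_lit 78) (nat_lit 1444) (nat_lit 0) (XT.lf (nat_lit 76) (nat_lit 307202839) (nat_lit 0) (nat_lit 865975394) (nat_lit 1292) (nat_lit 1739352140) (nat_lit 366) (nat_lit 1) (nat_lit 365) (nat_lit 1) (nat_lit 382) (nat_lit 1) (nat_lit 354) (nat_lit 338) (nat_lit 328)) (XT.nd (nat_lit 78) (nat_lit 608) (nat_lit 0) (XT.lf (nat_lit 912) (nat_lit 1609621181) (nat_lit 0) (nat_lit 844356400) (nat_lit 836) (nat_lit 394149549) (nat_lit 366) (nat_lit 1) (nat_lit 354) (nat_lit 1) (nat_lit 365) (nat_lit 1) (nat_lit 355) (nat_lit 338) (nat_lit 327)) (XT.lf (nat_lit 684) (nat_lit 1154249341) (nat_lit 0) (nat_lit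 545729940) (nat_lit 608) (nat_lit 1085668388) (nat_lit 355) (nat_lit 1) (nat_lit 346) (nat_lit 1) (nat_lit 354) (nat_lit 1) (nat_lit 356) (nat_lit 338) (nat_lit 326)))) (XT.nd (nat_lit 156) (nat_lit 684) (nat_lit 0) (XT.nd (nat_lit 78) (nat_lit 532) (nat_lit 0) (XT.lf (nat_lit 684) (nat_lit 685146422) (nat_lit 0) (nat_lit 278665528) (nat_lit 608) (nat_lit 1761299950) (nat_lit 347) (nat_lit 1) (nat_lit 338) (nat_lit 1) (nat_lit 346) (nat_lit 1) (nat_lit 357) (nat_lit 338) (nat_lit 325)) (XT.lf (nat_lit 608) (nat_lit 203818827) (nat_lit 0) (nat_lit 41507853) (nat_lit 532) (nat_lit 2421125421) (nat_lit 339) (nat_lit 1) (nat_lit 331) (nat_lit 1) (nat_lit 338) (nat_lit 1) (nat_lit 358) (nat_lit 338) (nat_lit 324))) (XT.nd (nat_lit 78) (nat_lit 608) (nat_lit 0) (XT.lf (nat_lit 76) (nat_lit 2149183052) (nat_lit 0) (nat_lit 288813738) (nat_lit 608) (nat_lit 171339620) (nat_lit 331) (nat_lit 1) (nat_lit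 330) (nat_lit 1) (nat_lit 338) (nat_lit 1) (nat_lit 359) (nat_lit 338) (nat_lit 323)) (XT.lf (nat_lit 76) (nat_lit 1403280678) (nat_lit 0) (nat_lit 789168798) (nat_lit 684) (nat_lit 361385989) (nat_lit 323) (nat_lit 1) (nat_lit 322) (nat_lit 1) (nat_lit 331) (nat_lit 1) (nat_lit 360) (nat_lit 338) (nat_lit 322)))))) (XT.nd (nat_lit 546) (nat_lit 2812) (nat_lit 0) (XT.nd (nat_lit 234) (nat_lit 1976) (nat_lit 0) (XT.nd (nat_lit 78) (nat_lit 988) (nat_lit 0) (XT.lf (nat_lit 76) (nat_lit 676387766) (nat_lit 0) (nat_lit 1297193902) (nat_lit 608) (nat_lit 526450860) (nat_lit 316) (nat_lit 1) (nat_lit 315) (nat_lit 1) (nat_lit 323) (nat_lit 1) (nat_lit 361) (nat_lit 338) (nat_lit 321)) (XT.nd (nat_lit 78) (nat_lit 456) (nat_lit 0) (XT.lf (nat_lit 608) (nat_lit 635784597) (nat_lit 0) (nat_lit 1779681186) (nat_lit 532) (nat_lit 32394404) (nat_lit 316) (nat_lit 1) (nat_lit 308) (nat_lit 1) (nat_lit 315)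 (nat_lit 1) (nat_lit 362) (nat_lit 338) (nat_lit 320)) (XT.lf (nat_lit 532) (nat_lit 58177903) (nat_lit 0) (nat_lit 1603097391) (nat_lit 456) (nat_lit 735803107) (nat_lit 309) (nat_lit 1) (nat_lit 302) (nat_lit 1) (nat_lit 308) (nat_lit 1) (nat_lit 363) (nat_lit 338) (nat_lit 319)))) (XT.nd (nat_lit 156) (nat_lit 912) (nat_lit 0) (XT.nd (nat_lit 78) (nat_lit 456) (nat_lit 0) (XT.lf (nat_lit 76) (nat_lit 932186355) (nat_lit 0) (nat_lit 512033972) (nat_lit 608) (nat_lit 903461326) (nat_lit 295) (nat_lit 1) (nat_lit 294) (nat_lit 1) (nat_lit 302) (nat_lit 1) (nat_lit 364) (nat_lit 338) (nat_lit 318)) (XT.lf (nat_lit 76) (nat_lit 223409154) (nat_lit 0) (nat_lit 1083004759) (nat_lit 532) (nat_lit 993337447) (nat_lit 289) (nat_lit 1) (nat_lit 288) (nat_lit 1) (nat_lit 295) (nat_lit 1) (nat_lit 365) (nat_lit 338) (nat_lit 317))) (XT.nd (nat_lit 78) (nat_lit 456) (nat_lit 0) (XT.lf (nat_lit 532) (nat_lit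 593468050) (nat_lit 0) (nat_lit 1184400767) (nat_lit 456) (nat_lit 475248753) (nat_lit 289) (nat_lit 1) (nat_lit 282) (nat_lit 1) (nat_lit 288) (nat_lit 1) (nat_lit 366) (nat_lit 338) (nat_lit 316)) (XT.lf (nat_lit 76) (nat_lit 1049162975) (nat_lit 0) (nat_lit 30258523) (nat_lit 456) (nat_lit 1128378986) (nat_lit 277) (nat_lit 1) (nat_lit 276) (nat_lit 1) (nat_lit 282) (nat_lit 1) (nat_lit 367) (nat_lit 338) (nat_lit 315))))) (XT.nd (nat_lit 234) (nat_lit 1596) (nat_lit 0) (XT.nd (nat_lit 78) (nat_lit 760) (nat_lit 0) (XT.lf (nat_lit 76) (nat_lit 346528184) (nat_lit 0) (nat_lit 640602794) (nat_lit 532) (nat_lit 1176526937) (nat_lit 271) (nat_lit 1) (nat_lit 270) (nat_lit 1) (nat_lit 277) (nat_lit 1) (nat_lit 368) (nat_lit 338) (nat_lit 314)) (XT.nd (nat_lit 78) (nat_lit 380) (nat_lit 0) (XT.lf (nat_lit 456) (nat_lit 868849513) (nat_lit 0) (nat_lit 909015322) (nat_lit 380) (nat_lit 342852980) (nat_lit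 271) (nat_lit 1) (nat_lit 265) (nat_lit 1) (nat_lit 270) (nat_lit 1) (nat_lit 369) (nat_lit 338) (nat_lit 313)) (XT.lf (nat_lit 456) (nat_lit 215503937) (nat_lit 0) (nat_lit 844217160) (nat_lit 380) (nat_lit 1019219076) (nat_lit 266) (nat_lit 1) (nat_lit 260) (nat_lit 1) (nat_lit 265) (nat_lit 1) (nat_lit 370) (nat_lit 338) (nat_lit 312)))) (XT.nd (nat_lit 156) (nat_lit 760) (nat_lit 0) (XT.nd (nat_lit 78) (nat_lit 380) (nat_lit 0) (XT.lf (nat_lit 76) (nat_lit 366447676) (nat_lit 0) (nat_lit 424589849) (nat_lit 456) (nat_lit 1247223225) (nat_lit 255) (nat_lit 1) (nat_lit 254) (nat_lit 1) (nat_lit 260) (nat_lit 1) (nat_lit 371) (nat_lit 338) (nat_lit 311)) (XT.lf (nat_lit 456) (nat_lit 940255082) (nat_lit 0) (nat_lit 747737113) (nat_lit 380) (nat_lit 310622219) (nat_lit 255) (nat_lit 1) (nat_lit 249) (nat_lit 1) (nat_lit 254) (nat_lit 1) (nat_lit 372) (nat_lit 338) (nat_lit 310))) (XT.nd (nat_lit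 78) (nat_lit 456) (nat_lit 0) (XT.lf (nat_lit 380) (nat_lit 269952082) (nat_lit 0) (nat_lit 715198038) (nat_lit 304) (nat_lit 974862542) (nat_lit 250) (nat_lit 1) (nat_lit 245) (nat_lit 1) (nat_lit 249) (nat_lit 1) (nat_lit 373) (nat_lit 338) (nat_lit 309)) (XT.lf (nat_lit 76) (nat_lit 306858748) (nat_lit 0) (nat_lit 385575475) (nat_lit 456) (nat_lit 1229978622) (nat_lit 240) (nat_lit 1) (nat_lit 239) (nat_lit 1) (nat_lit 245) (nat_lit 1) (nat_lit 374) (nat_lit 338) (nat_lit 308))))))) (XT.nd (nat_lit 1092) (nat_lit 1976) (nat_lit 0) (XT.nd (nat_lit 546) (nat_lit 1900) (nat_lit 0) (XT.nd (nat_lit 234) (nat_lit 1140) (nat_lit 0) (XT.nd (nat_lit 78) (nat_lit 684) (nat_lit 0) (XT.lf (nat_lit 380) (nat_lit 853678553) (nat_lit 0) (nat_lit 676461859) (nat_lit 304) (nat_lit 355573983) (nat_lit 240) (nat_lit 1) (nat_lit 235) (nat_lit 1) (nat_lit 239) (nat_lit 1) (nat_lit 375) (nat_lit 338) (nat_lit 307))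 (XT.nd (nat_lit 78) (nat_lit 380) (nat_lit 0) (XT.lf (nat_lit 380) (nat_lit 176112375) (nat_lit 0) (nat_lit 669854429) (nat_lit 304) (nat_lit 1004012063) (nat_lit 236) (nat_lit 1) (nat_lit 231) (nat_lit 1) (nat_lit 235) (nat_lit 1) (nat_lit 376) (nat_lit 338) (nat_lit 306)) (XT.lf (nat_lit 76) (nat_lit 187155063) (nat_lit 0) (nat_lit 482985906) (nat_lit 380) (nat_lit 1144980176) (nat_lit 227) (nat_lit 1) (nat_lit 226) (nat_lit 1) (nat_lit 231) (nat_lit 1) (nat_lit 377) (nat_lit 338) (nat_lit 305)))) (XT.nd (nat_lit 156) (nat_lit 532) (nat_lit 0) (XT.nd (nat_lit 78) (nat_lit 304) (nat_lit 0) (XT.lf (nat_lit 380) (nat_lit 646833616) (nat_lit 0) (nat_lit 675339446) (nat_lit 304) (nat_lit 458897543) (nat_lit 227) (nat_lit 1) (nat_lit 222) (nat_lit 1) (nat_lit 226) (nat_lit 1) (nat_lit 378) (nat_lit 338) (nat_lit 304)) (XT.lf (nat_lit 76) (nat_lit 659443960) (nat_lit 0) (nat_lit 29670689) (nat_lit 304)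 (nat_lit 1058806689) (nat_lit 219) (nat_lit 1) (nat_lit 218) (nat_lit 1) (nat_lit 222) (nat_lit 1) (nat_lit 379) (nat_lit 338) (nat_lit 303))) (XT.nd (nat_lit 78) (nat_lit 228) (nat_lit 0) (XT.lf (nat_lit 76) (nat_lit 23155787) (nat_lit 0) (nat_lit 683590095) (nat_lit 380) (nat_lit 1008777558) (nat_lit 215) (nat_lit 1) (nat_lit 214) (nat_lit 1) (nat_lit 219) (nat_lit 1) (nat_lit 380) (nat_lit 338) (nat_lit 302)) (XT.lf (nat_lit 304) (nat_lit 350541876) (nat_lit 0) (nat_lit 728066135) (nat_lit 228) (nat_lit 605251862) (nat_lit 215) (nat_lit 1) (nat_lit 211) (nat_lit 1) (nat_lit 214) (nat_lit 1) (nat_lit 381) (nat_lit 338) (nat_lit 301))))) (XT.nd (nat_lit 234) (nat_lit 988) (nat_lit 0) (XT.nd (nat_lit 78) (nat_lit 532) (nat_lit 0) (XT.lf (nat_lit 76) (nat_lit 441582715) (nat_lit 0) (nat_lit 313724337) (nat_lit 380) (nat_lit 897676646) (nat_lit 207) (nat_lit 1) (nat_lit 206) (nat_lit 1) (nat_lit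 211) (nat_lit 1) (nat_lit 382) (nat_lit 338) (nat_lit 300)) (XT.nd (nat_lit 78) (nat_lit 304) (nat_lit 0) (XT.lf (nat_lit 304) (nat_lit 660862513) (nat_lit 0) (nat_lit 786236907) (nat_lit 228) (nat_lit 175718776) (nat_lit 207) (nat_lit 1) (nat_lit 203) (nat_lit 1) (nat_lit 206) (nat_lit 1) (nat_lit 383) (nat_lit 338) (nat_lit 299)) (XT.lf (nat_lit 76) (nat_lit 811283185) (nat_lit 0) (nat_lit 9908906) (nat_lit 304) (nat_lit 772169587) (nat_lit 200) (nat_lit 1) (nat_lit 199) (nat_lit 1) (nat_lit 203) (nat_lit 1) (nat_lit 384) (nat_lit 338) (nat_lit 298)))) (XT.nd (nat_lit 156) (nat_lit 532) (nat_lit 0) (XT.nd (nat_lit 78) (nat_lit 228) (nat_lit 0) (XT.lf (nat_lit 76) (nat_lit 201617443) (nat_lit 0) (nat_lit 656196389) (nat_lit 304) (nat_lit 706720337) (nat_lit 197) (nat_lit 1) (nat_lit 196) (nat_lit 1) (nat_lit 200) (nat_lit 1) (nat_lit 385) (nat_lit 338) (nat_lit 297)) (XT.lf (nat_lit 304) (nat_lit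 241603330) (nat_lit 0) (nat_lit 898248638) (nat_lit 228) (nat_lit 396535164) (nat_lit 197) (nat_lit 1) (nat_lit 193) (nat_lit 1) (nat_lit 196) (nat_lit 1) (nat_lit 386) (nat_lit 338) (nat_lit 296))) (XT.nd (nat_lit 78) (nat_lit 228) (nat_lit 0) (XT.lf (nat_lit 76) (nat_lit 533333118) (nat_lit 0) (nat_lit 406686158) (nat_lit 304) (nat_lit 568818296) (nat_lit 190) (nat_lit 1) (nat_lit 189) (nat_lit 1) (nat_lit 193) (nat_lit 1) (nat_lit 387) (nat_lit 338) (nat_lit 295)) (XT.lf (nat_lit 304) (nat_lit 443219096) (nat_lit 0) (nat_lit 986041114) (nat_lit 228) (nat_lit 52699549) (nat_lit 190) (nat_lit 1) (nat_lit 186) (nat_lit 1) (nat_lit 189) (nat_lit 1) (nat_lit 388) (nat_lit 338) (nat_lit 294)))))) (XT.nd (nat_lit 546) (nat_lit 380) (nat_lit 0) (XT.nd (nat_lit 234) (nat_lit 912) (nat_lit 0) (XT.nd (nat_lit 78) (nat_lit 456) (nat_lit 0) (XT.lf (nat_lit 76) (nat_lit 827342328) (nat_lit 0) (nat_lit 204209539)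 (nat_lit 228) (nat_lit 424052683) (nat_lit 184) (nat_lit 1) (nat_lit 183) (nat_lit 1) (nat_lit 186) (nat_lit 1) (nat_lit 389) (nat_lit 338) (nat_lit 293)) (XT.nd (nat_lit 78) (nat_lit 228) (nat_lit 0) (XT.lf (nat_lit 76) (nat_lit 248764515) (nat_lit 0) (nat_lit 830568238) (nat_lit 304) (nat_lit 350509962) (nat_lit 181) (nat_lit 1) (nat_lit 180) (nat_lit 1) (nat_lit 184) (nat_lit 1) (nat_lit 390) (nat_lit 338) (nat_lit 292)) (XT.lf (nat_lit 76) (nat_lit 1087628985) (nat_lit 0) (nat_lit 42186390) (nat_lit 228) (nat_lit 274861406) (nat_lit 178) (nat_lit 1) (nat_lit 177) (nat_lit 1) (nat_lit 180) (nat_lit 1) (nat_lit 391) (nat_lit 338) (nat_lit 291)))) (XT.nd (nat_lit 156) (nat_lit 532) (nat_lit 0) (XT.nd (nat_lit 78) (nat_lit 152) (nat_lit 0) (XT.lf (nat_lit 76) (nat_lit 516332797) (nat_lit 0) (nat_lit 661705729) (nat_lit 304) (nat_lit 201913870) (nat_lit 175) (nat_lit 1) (nat_lit 174) (nat_lit 1)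 (nat_lit 178) (nat_lit 1) (nat_lit 392) (nat_lit 338) (nat_lit 290)) (XT.lf (nat_lit 228) (nat_lit 86826580) (nat_lit 0) (nat_lit 1231741951) (nat_lit 152) (nat_lit 37316793) (nat_lit 175) (nat_lit 1) (nat_lit 172) (nat_lit 1) (nat_lit 174) (nat_lit 1) (nat_lit 393) (nat_lit 338) (nat_lit 289))) (XT.nd (nat_lit 78) (nat_lit 304) (nat_lit 0) (XT.lf (nat_lit 76) (nat_lit 754433600) (nat_lit 0) (nat_lit 526169156) (nat_lit 228) (nat_lit 51562662) (nat_lit 170) (nat_lit 1) (nat_lit 169) (nat_lit 1) (nat_lit 172) (nat_lit 1) (nat_lit 394) (nat_lit 338) (nat_lit 288)) (XT.lf (nat_lit 228) (nat_lit 184036607) (nat_lit 0) (nat_lit 25520411) (nat_lit 152) (nat_lit 1099494550) (nat_lit 168) (nat_lit 1) (nat_lit 165) (nat_lit 1) (nat_lit 167) (nat_lit 1) (nat_lit 395) (nat_lit 338) (nat_lit 287))))) (XT.nd (nat_lit 48984) (nat_lit 0) (nat_lit 16340) (XT.nd (nat_lit 78) (nat_lit 152) (nat_lit 0) (XT.lf (nat_lit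 228) (nat_lit 866180526) (nat_lit 0) (nat_lit 100881904) (nat_lit 152) (nat_lit 319263976) (nat_lit 165) (nat_lit 1) (nat_lit 162) (nat_lit 1) (nat_lit 164) (nat_lit 1) (nat_lit 396) (nat_lit 338) (nat_lit 286)) (XT.nd (nat_lit 48828) (nat_lit 0) (nat_lit 16264) (XT.lf (nat_lit 228) (nat_lit 254080963) (nat_lit 0) (nat_lit 176950546) (nat_lit 152) (nat_lit 833065000) (nat_lit 163) (nat_lit 1) (nat_lit 160) (nat_lit 1) (nat_lit 162) (nat_lit 1) (nat_lit 397) (nat_lit 338) (nat_lit 285)) (XT.lf (nat_lit 1292) (nat_lit 355201980) (nat_lit 0) (nat_lit 1222060005) (nat_lit 1292) (nat_lit 355201980) (nat_lit 391) (nat_lit 1) (nat_lit 374) (nat_lit 0) (nat_lit 391) (nat_lit 0) (nat_lit 342) (nat_lit 339) (nat_lit 339)))) (XT.nd (nat_lit 156) (nat_lit 0) (nat_lit 76) (XT.nd (nat_lit 78) (nat_lit 0) (nat_lit 0) (XT.lf (nat_lit 1292) (nat_lit 28477165) (nat_lit 0) (nat_lit 2409645354) (nat_lit 1216) (nat_lit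 1334071757) (nat_lit 392) (nat_lit 1) (nat_lit 375) (nat_lit 1) (nat_lit 391) (nat_lit 1) (nat_lit 343) (nat_lit 339) (nat_lit 338)) (XT.lf (nat_lit 1292) (nat_lit 1252872839) (nat_lit 76) (nat_lit 1772142784) (nat_lit 0) (nat_lit 657282500) (nat_lit 392) (nat_lit 1) (nat_lit 376) (nat_lit 1) (nat_lit 375) (nat_lit 1) (nat_lit 344) (nat_lit 339) (nat_lit 337))) (XT.nd (nat_lit 78) (nat_lit 0) (nat_lit 76) (XT.lf (nat_lit 1292) (nat_lit 1101381463) (nat_lit 76) (nat_lit 1159994261) (nat_lit 0) (nat_lit 1333936976) (nat_lit 393) (nat_lit 1) (nat_lit 377) (nat_lit 1) (nat_lit 376) (nat_lit 1) (nat_lit 345) (nat_lit 339) (nat_lit 336)) (XT.lf (nat_lit 1292) (nat_lit 911467322) (nat_lit 76) (nat_lit 599197627) (nat_lit 0) (nat_lit 2000475270) (nat_lit 394) (nat_lit 1) (nat_lit 378) (nat_lit 1) (nat_lit 377) (nat_lit 1) (nat_lit 346) (nat_lit 339) (nat_lit 335))))))))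
noncomputable def ec13 : XT := (XT.nd (nat_lit 2184) (nat_lit 5776) (nat_lit 0) (XT.nd (nat_lit 1092) (nat_lit 5852) (nat_lit 0) (XT.nd (nat_lit 546) (nat_lit 3496) (nat_lit 0) (XT.nd (nat_lit 234) (nat_lit 1824) (nat_lit 0) (XT.nd (nat_lit 78) (nat_lit 0) (nat_lit 76) (XT.lf (nat_lit 1292) (nat_lit 686059154) (nat_lit 76) (nat_lit 87114472) (nat_lit 0) (nat_lit 2656505114) (nat_lit 395) (nat_lit 1) (nat_lit 379) (nat_lit 1) (nat_lit 378) (nat_lit 1) (nat_lit 347) (nat_lit 339) (nat_lit 334)) (XT.nd (nat_lit 78) (nat_lit 0) (nat_lit 0) (XT.lf (nat_lit 1292) (nat_lit 52788593) (nat_lit 0) (nat_lit 2926552751) (nat_lit 1216) (nat_lit 371379803) (nat_lit 396) (nat_lit 1) (nat_lit 379) (nat_lit 1) (nat_lit 395) (nat_lit 1) (nat_lit 348) (nat_lit 339) (nat_lit 333)) (XT.lf (nat_lit 1292) (nat_lit 125120450) (nat_lit 76) (nat_lit 2482441099) (nat_lit 0) (nat_lit 666516410) (nat_lit 396) (nat_lit 1) (nat_lit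 380) (nat_lit 1) (nat_lit 379) (nat_lit 1) (nat_lit 349) (nat_lit 339) (nat_lit 332)))) (XT.nd (nat_lit 156) (nat_lit 684) (nat_lit 0) (XT.nd (nat_lit 78) (nat_lit 0) (nat_lit 76) (XT.lf (nat_lit 1368) (nat_lit 1828633959) (nat_lit 0) (nat_lit 197656206) (nat_lit 1292) (nat_lit 1173515675) (nat_lit 381) (nat_lit 1) (nat_lit 363) (nat_lit 1) (nat_lit 380) (nat_lit 1) (nat_lit 350) (nat_lit 339) (nat_lit 331)) (XT.lf (nat_lit 1368) (nat_lit 1067363730) (nat_lit 0) (nat_lit 542345346) (nat_lit 1292) (nat_lit 1518138807) (nat_lit 382) (nat_lit 1) (nat_lit 364) (nat_lit 1) (nat_lit 381) (nat_lit 1) (nat_lit 351) (nat_lit 339) (nat_lit 330))) (XT.nd (nat_lit 78) (nat_lit 836) (nat_lit 0) (XT.lf (nat_lit 76) (nat_lit 322562981) (nat_lit 0) (nat_lit 909274164) (nat_lit 1292) (nat_lit 1826319747) (nat_lit 366) (nat_lit 1) (nat_lit 365) (nat_lit 1) (nat_lit 382) (nat_lit 1) (nat_lit 352) (nat_lit 339) (nat_lit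 329)) (XT.lf (nat_lit 912) (nat_lit 1690102241) (nat_lit 0) (nat_lit 886574220) (nat_lit 836) (nat_lit 413857027) (nat_lit 366) (nat_lit 1) (nat_lit 354) (nat_lit 1) (nat_lit 365) (nat_lit 1) (nat_lit 353) (nat_lit 339) (nat_lit 328))))) (XT.nd (nat_lit 234) (nat_lit 1748) (nat_lit 0) (XT.nd (nat_lit 78) (nat_lit 1140) (nat_lit 0) (XT.lf (nat_lit 684) (nat_lit 1211961808) (nat_lit 0) (nat_lit 573016437) (nat_lit 608) (nat_lit 1139951807) (nat_lit 355) (nat_lit 1) (nat_lit 346) (nat_lit 1) (nat_lit 354) (nat_lit 1) (nat_lit 354) (nat_lit 339) (nat_lit 327)) (XT.nd (nat_lit 78) (nat_lit 532) (nat_lit 0) (XT.lf (nat_lit 684) (nat_lit 719403743) (nat_lit 0) (nat_lit 292598805) (nat_lit 608) (nat_lit 1849364948) (nat_lit 347) (nat_lit 1) (nat_lit 338) (nat_lit 1) (nat_lit 346) (nat_lit 1) (nat_lit 355) (nat_lit 339) (nat_lit 326)) (XT.lf (nat_lit 608) (nat_lit 214009769) (nat_lit 0) (nat_lit 43583246)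 (nat_lit 532) (nat_lit 2542181692) (nat_lit 339) (nat_lit 1) (nat_lit 331) (nat_lit 1) (nat_lit 338) (nat_lit 1) (nat_lit 356) (nat_lit 339) (nat_lit 325)))) (XT.nd (nat_lit 156) (nat_lit 1064) (nat_lit 0) (XT.nd (nat_lit 78) (nat_lit 608) (nat_lit 0) (XT.lf (nat_lit 76) (nat_lit 2256642205) (nat_lit 0) (nat_lit 303254425) (nat_lit 608) (nat_lit 179906601) (nat_lit 331) (nat_lit 1) (nat_lit 330) (nat_lit 1) (nat_lit 338) (nat_lit 1) (nat_lit 357) (nat_lit 339) (nat_lit 324)) (XT.lf (nat_lit 76) (nat_lit 1473444712) (nat_lit 0) (nat_lit 828627238) (nat_lit 684) (nat_lit 379455288) (nat_lit 323) (nat_lit 1) (nat_lit 322) (nat_lit 1) (nat_lit 331) (nat_lit 1) (nat_lit 358) (nat_lit 339) (nat_lit 323))) (XT.nd (nat_lit 78) (nat_lit 532) (nat_lit 0) (XT.lf (nat_lit 76) (nat_lit 710207154) (nat_lit 0) (nat_lit 1362053597) (nat_lit 608) (nat_lit 552773403) (nat_lit 316) (nat_lit 1) (nat_lit 315) (nat_lit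 1) (nat_lit 323) (nat_lit 1) (nat_lit 359) (nat_lit 339) (nat_lit 322)) (XT.lf (nat_lit 608) (nat_lit 667573827) (nat_lit 0) (nat_lit 1868665245) (nat_lit 532) (nat_lit 34014124) (nat_lit 316) (nat_lit 1) (nat_lit 308) (nat_lit 1) (nat_lit 315) (nat_lit 1) (nat_lit 360) (nat_lit 339) (nat_lit 321)))))) (XT.nd (nat_lit 546) (nat_lit 2584) (nat_lit 0) (XT.nd (nat_lit 234) (nat_lit 1748) (nat_lit 0) (XT.nd (nat_lit 78) (nat_lit 1064) (nat_lit 0) (XT.lf (nat_lit 532) (nat_lit 61086799) (nat_lit 0) (nat_lit 1683252261) (nat_lit 456) (nat_lit 772593263) (nat_lit 309) (nat_lit 1) (nat_lit 302) (nat_lit 1) (nat_lit 308) (nat_lit 1) (nat_lit 361) (nat_lit 339) (nat_lit 320)) (XT.nd (nat_lit 78) (nat_lit 456) (nat_lit 0) (XT.lf (nat_lit 76) (nat_lit 978795672) (nat_lit 0) (nat_lit 537635671) (nat_lit 608) (nat_lit 948634392) (nat_lit 295) (nat_lit 1) (nat_lit 294) (nat_lit 1) (nat_lit 302) (nat_lit 1) (nat_lit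 362) (nat_lit 339) (nat_lit 319)) (XT.lf (nat_lit 76) (nat_lit 234579611) (nat_lit 0) (nat_lit 1137154997) (nat_lit 532) (nat_lit 1043004319) (nat_lit 289) (nat_lit 1) (nat_lit 288) (nat_lit 1) (nat_lit 295) (nat_lit 1) (nat_lit 363) (nat_lit 339) (nat_lit 318)))) (XT.nd (nat_lit 156) (nat_lit 836) (nat_lit 0) (XT.nd (nat_lit 78) (nat_lit 456) (nat_lit 0) (XT.lf (nat_lit 532) (nat_lit 623141452) (nat_lit 0) (nat_lit 1243620805) (nat_lit 456) (nat_lit 499011191) (nat_lit 289) (nat_lit 1) (nat_lit 282) (nat_lit 1) (nat_lit 288) (nat_lit 1) (nat_lit 364) (nat_lit 339) (nat_lit 317)) (XT.lf (nat_lit 76) (nat_lit 1101621123) (nat_lit 0) (nat_lit 31771449) (nat_lit 456) (nat_lit 1184797935) (nat_lit 277) (nat_lit 1) (nat_lit 276) (nat_lit 1) (nat_lit 282) (nat_lit 1) (nat_lit 365) (nat_lit 339) (nat_lit 316))) (XT.nd (nat_lit 78) (nat_lit 380) (nat_lit 0) (XT.lf (nat_lit 76) (nat_lit 363854593) (nat_lit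 0) (nat_lit 672632933) (nat_lit 532) (nat_lit 1235353284) (nat_lit 271) (nat_lit 1) (nat_lit 270) (nat_lit 1) (nat_lit 277) (nat_lit 1) (nat_lit 366) (nat_lit 339) (nat_lit 315)) (XT.lf (nat_lit 456) (nat_lit 912291989) (nat_lit 0) (nat_lit 954466088) (nat_lit 380) (nat_lit 359995629) (nat_lit 271) (nat_lit 1) (nat_lit 265) (nat_lit 1) (nat_lit 270) (nat_lit 1) (nat_lit 367) (nat_lit 339) (nat_lit 314))))) (XT.nd (nat_lit 234) (nat_lit 1368) (nat_lit 0) (XT.nd (nat_lit 78) (nat_lit 836) (nat_lit 0) (XT.lf (nat_lit 456) (nat_lit 226279134) (nat_lit 0) (nat_lit 886428018) (nat_lit 380) (nat_lit 1070180030) (nat_lit 266) (nat_lit 1) (nat_lit 260) (nat_lit 1) (nat_lit 265) (nat_lit 1) (nat_lit 368) (nat_lit 339) (nat_lit 313)) (XT.nd (nat_lit 78) (nat_lit 380) (nat_lit 0) (XT.lf (nat_lit 76) (nat_lit 384770060) (nat_lit 0) (nat_lit 445819341) (nat_lit 456) (nat_lit 1309584387) (nat_lit 255) (nat_lit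 1) (nat_lit 254) (nat_lit 1) (nat_lit 260) (nat_lit 1) (nat_lit 369) (nat_lit 339) (nat_lit 312)) (XT.lf (nat_lit 456) (nat_lit 987267836) (nat_lit 0) (nat_lit 785123969) (nat_lit 380) (nat_lit 326153330) (nat_lit 255) (nat_lit 1) (nat_lit 249) (nat_lit 1) (nat_lit 254) (nat_lit 1) (nat_lit 370) (nat_lit 339) (nat_lit 311)))) (XT.nd (nat_lit 156) (nat_lit 608) (nat_lit 0) (XT.nd (nat_lit 78) (nat_lit 456) (nat_lit 0) (XT.lf (nat_lit 380) (nat_lit 283449686) (nat_lit 0) (nat_lit 750957940) (nat_lit 304) (nat_lit 1023605669) (nat_lit 250) (nat_lit 1) (nat_lit 245) (nat_lit 1) (nat_lit 249) (nat_lit 1) (nat_lit 371) (nat_lit 339) (nat_lit 310)) (XT.lf (nat_lit 76) (nat_lit 322201686) (nat_lit 0) (nat_lit 404854249) (nat_lit 456) (nat_lit 1291477553) (nat_lit 240) (nat_lit 1) (nat_lit 239) (nat_lit 1) (nat_lit 245) (nat_lit 1) (nat_lit 372) (nat_lit 339) (nat_lit 309))) (XT.nd (nat_lit 78) (nat_lit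 304) (nat_lit 0) (XT.lf (nat_lit 380) (nat_lit 896362480) (nat_lit 0) (nat_lit 710284952) (nat_lit 304) (nat_lit 373352682) (nat_lit 240) (nat_lit 1) (nat_lit 235) (nat_lit 1) (nat_lit 239) (nat_lit 1) (nat_lit 373) (nat_lit 339) (nat_lit 308)) (XT.lf (nat_lit 380) (nat_lit 184917994) (nat_lit 0) (nat_lit 703347151) (nat_lit 304) (nat_lit 1054212666) (nat_lit 236) (nat_lit 1) (nat_lit 231) (nat_lit 1) (nat_lit 235) (nat_lit 1) (nat_lit 374) (nat_lit 339) (nat_lit 307))))))) (XT.nd (nat_lit 1092) (nat_lit 1900) (nat_lit 0) (XT.nd (nat_lit 546) (nat_lit 1748) (nat_lit 0) (XT.nd (nat_lit 234) (nat_lit 1140) (nat_lit 0) (XT.nd (nat_lit 78) (nat_lit 608) (nat_lit 0) (XT.lf (nat_lit 76) (nat_lit 196512816) (nat_lit 0) (nat_lit 507135201) (nat_lit 380) (nat_lit 1202229185) (nat_lit 227) (nat_lit 1) (nat_lit 226) (nat_lit 1) (nat_lit 231) (nat_lit 1) (nat_lit 375) (nat_lit 339) (nat_lit 306)) (XT.nd (nat_lit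 78) (nat_lit 304) (nat_lit 0) (XT.lf (nat_lit 380) (nat_lit 679175297) (nat_lit 0) (nat_lit 709106419) (nat_lit 304) (nat_lit 481842420) (nat_lit 227) (nat_lit 1) (nat_lit 222) (nat_lit 1) (nat_lit 226) (nat_lit 1) (nat_lit 376) (nat_lit 339) (nat_lit 305)) (XT.lf (nat_lit 76) (nat_lit 692416158) (nat_lit 0) (nat_lit 31154224) (nat_lit 304) (nat_lit 1111747024) (nat_lit 219) (nat_lit 1) (nat_lit 218) (nat_lit 1) (nat_lit 222) (nat_lit 1) (nat_lit 377) (nat_lit 339) (nat_lit 304)))) (XT.nd (nat_lit 156) (nat_lit 608) (nat_lit 0) (XT.nd (nat_lit 78) (nat_lit 228) (nat_lit 0) (XT.lf (nat_lit 76) (nat_lit 24313577) (nat_lit 0) (nat_lit 717769599) (nat_lit 380) (nat_lit 1059216436) (nat_lit 215) (nat_lit 1) (nat_lit 214) (nat_lit 1) (nat_lit 219) (nat_lit 1) (nat_lit 378) (nat_lit 339) (nat_lit 303)) (XT.lf (nat_lit 304) (nat_lit 368068970) (nat_lit 0) (nat_lit 764469442) (nat_lit 228) (nat_lit 635514455)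 (nat_lit 215) (nat_lit 1) (nat_lit 211) (nat_lit 1) (nat_lit 214) (nat_lit 1) (nat_lit 379) (nat_lit 339) (nat_lit 302))) (XT.nd (nat_lit 78) (nat_lit 228) (nat_lit 0) (XT.lf (nat_lit 76) (nat_lit 463661850) (nat_lit 0) (nat_lit 329410553) (nat_lit 380) (nat_lit 942560478) (nat_lit 207) (nat_lit 1) (nat_lit 206) (nat_lit 1) (nat_lit 211) (nat_lit 1) (nat_lit 380) (nat_lit 339) (nat_lit 301)) (XT.lf (nat_lit 304) (nat_lit 693905638) (nat_lit 0) (nat_lit 825548752) (nat_lit 228) (nat_lit 184504715) (nat_lit 207) (nat_lit 1) (nat_lit 203) (nat_lit 1) (nat_lit 206) (nat_lit 1) (nat_lit 381) (nat_lit 339) (nat_lit 300))))) (XT.nd (nat_lit 234) (nat_lit 988) (nat_lit 0) (XT.nd (nat_lit 78) (nat_lit 456) (nat_lit 0) (XT.lf (nat_lit 76) (nat_lit 851847344) (nat_lit 0) (nat_lit 10404352) (nat_lit 304) (nat_lit 810778066) (nat_lit 200) (nat_lit 1) (nat_lit 199) (nat_lit 1) (nat_lit 203) (nat_lit 1) (nat_lit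 382) (nat_lit 339) (nat_lit 299)) (XT.nd (nat_lit 78) (nat_lit 228) (nat_lit 0) (XT.lf (nat_lit 76) (nat_lit 211698315) (nat_lit 0) (nat_lit 689006209) (nat_lit 304) (nat_lit 742056354) (nat_lit 197) (nat_lit 1) (nat_lit 196) (nat_lit 1) (nat_lit 200) (nat_lit 1) (nat_lit 383) (nat_lit 339) (nat_lit 298)) (XT.lf (nat_lit 304) (nat_lit 253683497) (nat_lit 0) (nat_lit 943161070) (nat_lit 228) (nat_lit 416361923) (nat_lit 197) (nat_lit 1) (nat_lit 193) (nat_lit 1) (nat_lit 196) (nat_lit 1) (nat_lit 384) (nat_lit 339) (nat_lit 297)))) (XT.nd (nat_lit 156) (nat_lit 456) (nat_lit 0) (XT.nd (nat_lit 78) (nat_lit 228) (nat_lit 0) (XT.lf (nat_lit 76) (nat_lit 559999774) (nat_lit 0) (nat_lit 427020466) (nat_lit 304) (nat_lit 597259211) (nat_lit 190) (nat_lit 1) (nat_lit 189) (nat_lit 1) (nat_lit 193) (nat_lit 1) (nat_lit 385) (nat_lit 339) (nat_lit 296)) (XT.lf (nat_lit 304) (nat_lit 465380051) (nat_lit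 0) (nat_lit 1035343170) (nat_lit 228) (nat_lit 55334526) (nat_lit 190) (nat_lit 1) (nat_lit 186) (nat_lit 1) (nat_lit 189) (nat_lit 1) (nat_lit 386) (nat_lit 339) (nat_lit 295))) (XT.nd (nat_lit 78) (nat_lit 228) (nat_lit 0) (XT.lf (nat_lit 76) (nat_lit 868709445) (nat_lit 0) (nat_lit 214420016) (nat_lit 228) (nat_lit 445255318) (nat_lit 184) (nat_lit 1) (nat_lit 183) (nat_lit 1) (nat_lit 186) (nat_lit 1) (nat_lit 387) (nat_lit 339) (nat_lit 294)) (XT.lf (nat_lit 76) (nat_lit 261202741) (nat_lit 0) (nat_lit 872096650) (nat_lit 304) (nat_lit 368035460) (nat_lit 181) (nat_lit 1) (nat_lit 180) (nat_lit 1) (nat_lit 184) (nat_lit 1) (nat_lit 388) (nat_lit 339) (nat_lit 293)))))) (XT.nd (nat_lit 546) (nat_lit 380) (nat_lit 0) (XT.nd (nat_lit 234) (nat_lit 912) (nat_lit 0) (XT.nd (nat_lit 78) (nat_lit 380) (nat_lit 0) (XT.lf (nat_lit 76) (nat_lit 1142010434) (nat_lit 0) (nat_lit 44295710) (nat_lit 228)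 (nat_lit 288604477) (nat_lit 178) (nat_lit 1) (nat_lit 177) (nat_lit 1) (nat_lit 180) (nat_lit 1) (nat_lit 389) (nat_lit 339) (nat_lit 292)) (XT.nd (nat_lit 78) (nat_lit 152) (nat_lit 0) (XT.lf (nat_lit 76) (nat_lit 542149437) (nat_lit 0) (nat_lit 694791015) (nat_lit 304) (nat_lit 212009563) (nat_lit 175) (nat_lit 1) (nat_lit 174) (nat_lit 1) (nat_lit 178) (nat_lit 1) (nat_lit 390) (nat_lit 339) (nat_lit 291)) (XT.lf (nat_lit 228) (nat_lit 91167909) (nat_lit 0) (nat_lit 1293329049) (nat_lit 152) (nat_lit 39182632) (nat_lit 175) (nat_lit 1) (nat_lit 172) (nat_lit 1) (nat_lit 174) (nat_lit 1) (nat_lit 391) (nat_lit 339) (nat_lit 290)))) (XT.nd (nat_lit 156) (nat_lit 380) (nat_lit 0) (XT.nd (nat_lit 78) (nat_lit 304) (nat_lit 0) (XT.lf (nat_lit 76) (nat_lit 792155280) (nat_lit 0) (nat_lit 552477614) (nat_lit 228) (nat_lit 54140796) (nat_lit 170) (nat_lit 1) (nat_lit 169) (nat_lit 1) (nat_lit 172)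 (nat_lit 1) (nat_lit 392) (nat_lit 339) (nat_lit 289)) (XT.lf (nat_lit 228) (nat_lit 193238438) (nat_lit 0) (nat_lit 26796432) (nat_lit 152) (nat_lit 1154469277) (nat_lit 168) (nat_lit 1) (nat_lit 165) (nat_lit 1) (nat_lit 167) (nat_lit 1) (nat_lit 393) (nat_lit 339) (nat_lit 288))) (XT.nd (nat_lit 78) (nat_lit 152) (nat_lit 0) (XT.lf (nat_lit 228) (nat_lit 909489552) (nat_lit 0) (nat_lit 105925999) (nat_lit 152) (nat_lit 335227175) (nat_lit 165) (nat_lit 1) (nat_lit 162) (nat_lit 1) (nat_lit 164) (nat_lit 1) (nat_lit 394) (nat_lit 339) (nat_lit 287)) (XT.lf (nat_lit 228) (nat_lit 266785011) (nat_lit 0) (nat_lit 185798074) (nat_lit 152) (nat_lit 874718251) (nat_lit 163) (nat_lit 1) (nat_lit 160) (nat_lit 1) (nat_lit 162) (nat_lit 1) (nat_lit 395) (nat_lit 339) (nat_lit 286))))) (XT.nd (nat_lit 48828) (nat_lit 0) (nat_lit 16720) (XT.nd (nat_lit 78) (nat_lit 152) (nat_lit 0) (XT.lf (nat_lit 228)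 (nat_lit 948514281) (nat_lit 0) (nat_lit 265745255) (nat_lit 152) (nat_lit 90191506) (nat_lit 160) (nat_lit 1) (nat_lit 157) (nat_lit 1) (nat_lit 159) (nat_lit 1) (nat_lit 396) (nat_lit 339) (nat_lit 285)) (XT.nd (nat_lit 48672) (nat_lit 0) (nat_lit 16644) (XT.lf (nat_lit 228) (nat_lit 317580208) (nat_lit 0) (nat_lit 343080734) (nat_lit 152) (nat_lit 621343334) (nat_lit 158) (nat_lit 1) (nat_lit 155) (nat_lit 1) (nat_lit 157) (nat_lit 1) (nat_lit 397) (nat_lit 339) (nat_lit 284)) (XT.lf (nat_lit 1292) (nat_lit 372962079) (nat_lit 0) (nat_lit 1283163005) (nat_lit 1292) (nat_lit 372962079) (nat_lit 391) (nat_lit 1) (nat_lit 374) (nat_lit 0) (nat_lit 391) (nat_lit 0) (nat_lit 340) (nat_lit 340) (nat_lit 340)))) (XT.nd (nat_lit 156) (nat_lit 0) (nat_lit 76) (XT.nd (nat_lit 78) (nat_lit 0) (nat_lit 0) (XT.lf (nat_lit 1292) (nat_lit 29901023) (nat_lit 0) (nat_lit 2530127622) (nat_lit 1216) (nat_lit 1400775345)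 (nat_lit 392) (nat_lit 1) (nat_lit 375) (nat_lit 1) (nat_lit 391) (nat_lit 1) (nat_lit 341) (nat_lit 340) (nat_lit 339)) (XT.lf (nat_lit 1292) (nat_lit 1315516481) (nat_lit 76) (nat_lit 1860749923) (nat_lit 0) (nat_lit 690146625) (nat_lit 392) (nat_lit 1) (nat_lit 376) (nat_lit 1) (nat_lit 375) (nat_lit 1) (nat_lit 342) (nat_lit 340) (nat_lit 338))) (XT.nd (nat_lit 78) (nat_lit 0) (nat_lit 76) (XT.lf (nat_lit 1292) (nat_lit 1156450536) (nat_lit 76) (nat_lit 1217993974) (nat_lit 0) (nat_lit 1400633825) (nat_lit 393) (nat_lit 1) (nat_lit 377) (nat_lit 1) (nat_lit 376) (nat_lit 1) (nat_lit 343) (nat_lit 340) (nat_lit 337)) (XT.lf (nat_lit 1292) (nat_lit 957040688) (nat_lit 76) (nat_lit 629157508) (nat_lit 0) (nat_lit 2100499033) (nat_lit 394) (nat_lit 1) (nat_lit 378) (nat_lit 1) (nat_lit 377) (nat_lit 1) (nat_lit 344) (nat_lit 340) (nat_lit 336))))))))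
noncomputable def ec14 : XT := (XT.nd (nat_lit 2184) (nat_lit 6004) (nat_lit 0) (XT.nd (nat_lit 1092) (nat_lit 5852) (nat_lit 0) (XT.nd (nat_lit 546) (nat_lit 3496) (nat_lit 0) (XT.nd (nat_lit 234) (nat_lit 1824) (nat_lit 0) (XT.nd (nat_lit 78) (nat_lit 0) (nat_lit 76) (XT.lf (nat_lit 1292) (nat_lit 720362112) (nat_lit 76) (nat_lit 91470196) (nat_lit 0) (nat_lit 2789330369) (nat_lit 395) (nat_lit 1) (nat_lit 379) (nat_lit 1) (nat_lit 378) (nat_lit 1) (nat_lit 345) (nat_lit 340) (nat_lit 335)) (XT.nd (nat_lit 78) (nat_lit 0) (nat_lit 0) (XT.lf (nat_lit 1292) (nat_lit 55428022) (nat_lit 0) (nat_lit 3072880388) (nat_lit 1216) (nat_lit 389948794) (nat_lit 396) (nat_lit 1) (nat_lit 379) (nat_lit 1) (nat_lit 395) (nat_lit 1) (nat_lit 346) (nat_lit 340) (nat_lit 334)) (XT.lf (nat_lit 1292) (nat_lit 131376472) (nat_lit 76) (nat_lit 2606563154) (nat_lit 0) (nat_lit 699842230) (nat_lit 396) (nat_lit 1) (nat_lit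 380) (nat_lit 1) (nat_lit 379) (nat_lit 1) (nat_lit 347) (nat_lit 340) (nat_lit 333)))) (XT.nd (nat_lit 156) (nat_lit 684) (nat_lit 0) (XT.nd (nat_lit 78) (nat_lit 0) (nat_lit 76) (XT.lf (nat_lit 1368) (nat_lit 1920065657) (nat_lit 0) (nat_lit 207539016) (nat_lit 1292) (nat_lit 1232191459) (nat_lit 381) (nat_lit 1) (nat_lit 363) (nat_lit 1) (nat_lit 380) (nat_lit 1) (nat_lit 348) (nat_lit 340) (nat_lit 332)) (XT.lf (nat_lit 1368) (nat_lit 1120731916) (nat_lit 0) (nat_lit 569462613) (nat_lit 1292) (nat_lit 1594045747) (nat_lit 382) (nat_lit 1) (nat_lit 364) (nat_lit 1) (nat_lit 381) (nat_lit 1) (nat_lit 349) (nat_lit 340) (nat_lit 331))) (XT.nd (nat_lit 78) (nat_lit 836) (nat_lit 0) (XT.lf (nat_lit 76) (nat_lit 338691130) (nat_lit 0) (nat_lit 954737872) (nat_lit 1292) (nat_lit 1917635734) (nat_lit 366) (nat_lit 1) (nat_lit 365) (nat_lit 1) (nat_lit 382) (nat_lit 1) (nat_lit 350) (nat_lit 340) (nat_lit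 330)) (XT.lf (nat_lit 912) (nat_lit 1774607353) (nat_lit 0) (nat_lit 930902931) (nat_lit 836) (nat_lit 434549878) (nat_lit 366) (nat_lit 1) (nat_lit 354) (nat_lit 1) (nat_lit 365) (nat_lit 1) (nat_lit 351) (nat_lit 340) (nat_lit 329))))) (XT.nd (nat_lit 234) (nat_lit 1748) (nat_lit 0) (XT.nd (nat_lit 78) (nat_lit 1140) (nat_lit 0) (XT.lf (nat_lit 684) (nat_lit 1272559898) (nat_lit 0) (nat_lit 601667259) (nat_lit 608) (nat_lit 1196949398) (nat_lit 355) (nat_lit 1) (nat_lit 346) (nat_lit 1) (nat_lit 354) (nat_lit 1) (nat_lit 352) (nat_lit 340) (nat_lit 328)) (XT.nd (nat_lit 78) (nat_lit 532) (nat_lit 0) (XT.lf (nat_lit 684) (nat_lit 755373930) (nat_lit 0) (nat_lit 307228745) (nat_lit 608) (nat_lit 1941833195) (nat_lit 347) (nat_lit 1) (nat_lit 338) (nat_lit 1) (nat_lit 346) (nat_lit 1) (nat_lit 353) (nat_lit 340) (nat_lit 327)) (XT.lf (nat_lit 608) (nat_lit 224710257) (nat_lit 0) (nat_lit 45762408)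 (nat_lit 532) (nat_lit 2669290777) (nat_lit 339) (nat_lit 1) (nat_lit 331) (nat_lit 1) (nat_lit 338) (nat_lit 1) (nat_lit 354) (nat_lit 340) (nat_lit 326)))) (XT.nd (nat_lit 156) (nat_lit 1064) (nat_lit 0) (XT.nd (nat_lit 78) (nat_lit 608) (nat_lit 0) (XT.lf (nat_lit 76) (nat_lit 2369474315) (nat_lit 0) (nat_lit 318417147) (nat_lit 608) (nat_lit 188901931) (nat_lit 331) (nat_lit 1) (nat_lit 330) (nat_lit 1) (nat_lit 338) (nat_lit 1) (nat_lit 355) (nat_lit 340) (nat_lit 325)) (XT.lf (nat_lit 76) (nat_lit 1547116948) (nat_lit 0) (nat_lit 870058600) (nat_lit 684) (nat_lit 398428053) (nat_lit 323) (nat_lit 1) (nat_lit 322) (nat_lit 1) (nat_lit 331) (nat_lit 1) (nat_lit 356) (nat_lit 340) (nat_lit 324))) (XT.nd (nat_lit 78) (nat_lit 532) (nat_lit 0) (XT.lf (nat_lit 76) (nat_lit 745717512) (nat_lit 0) (nat_lit 1430156277) (nat_lit 608) (nat_lit 580412073) (nat_lit 316) (nat_lit 1) (nat_lit 315) (nat_lit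 1) (nat_lit 323) (nat_lit 1) (nat_lit 357) (nat_lit 340) (nat_lit 323)) (XT.lf (nat_lit 608) (nat_lit 700952518) (nat_lit 0) (nat_lit 1962098508) (nat_lit 532) (nat_lit 35714831) (nat_lit 316) (nat_lit 1) (nat_lit 308) (nat_lit 1) (nat_lit 315) (nat_lit 1) (nat_lit 358) (nat_lit 340) (nat_lit 322)))))) (XT.nd (nat_lit 546) (nat_lit 2584) (nat_lit 0) (XT.nd (nat_lit 234) (nat_lit 1748) (nat_lit 0) (XT.nd (nat_lit 78) (nat_lit 1064) (nat_lit 0) (XT.lf (nat_lit 532) (nat_lit 64141139) (nat_lit 0) (nat_lit 1767414874) (nat_lit 456) (nat_lit 811222926) (nat_lit 309) (nat_lit 1) (nat_lit 302) (nat_lit 1) (nat_lit 308) (nat_lit 1) (nat_lit 359) (nat_lit 340) (nat_lit 321)) (XT.nd (nat_lit 78) (nat_lit 456) (nat_lit 0) (XT.lf (nat_lit 76) (nat_lit 1027735456) (nat_lit 0) (nat_lit 564517454) (nat_lit 608) (nat_lit 996066112) (nat_lit 295) (nat_lit 1) (nat_lit 294) (nat_lit 1) (nat_lit 302) (nat_lit 1) (nat_lit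 360) (nat_lit 340) (nat_lit 320)) (XT.lf (nat_lit 76) (nat_lit 246308592) (nat_lit 0) (nat_lit 1194012747) (nat_lit 532) (nat_lit 1095154535) (nat_lit 289) (nat_lit 1) (nat_lit 288) (nat_lit 1) (nat_lit 295) (nat_lit 1) (nat_lit 361) (nat_lit 340) (nat_lit 319)))) (XT.nd (nat_lit 156) (nat_lit 836) (nat_lit 0) (XT.nd (nat_lit 78) (nat_lit 456) (nat_lit 0) (XT.lf (nat_lit 532) (nat_lit 654298525) (nat_lit 0) (nat_lit 1305801846) (nat_lit 456) (nat_lit 523961750) (nat_lit 289) (nat_lit 1) (nat_lit 282) (nat_lit 1) (nat_lit 288) (nat_lit 1) (nat_lit 362) (nat_lit 340) (nat_lit 318)) (XT.lf (nat_lit 76) (nat_lit 1156702180) (nat_lit 0) (nat_lit 33360022) (nat_lit 456) (nat_lit 1244037832) (nat_lit 277) (nat_lit 1) (nat_lit 276) (nat_lit 1) (nat_lit 282) (nat_lit 1) (nat_lit 363) (nat_lit 340) (nat_lit 317))) (XT.nd (nat_lit 78) (nat_lit 380) (nat_lit 0) (XT.lf (nat_lit 76) (nat_lit 382047322) (nat_lit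 0) (nat_lit 706264580) (nat_lit 532) (nat_lit 1297120948) (nat_lit 271) (nat_lit 1) (nat_lit 270) (nat_lit 1) (nat_lit 277) (nat_lit 1) (nat_lit 364) (nat_lit 340) (nat_lit 316)) (XT.lf (nat_lit 456) (nat_lit 957906588) (nat_lit 0) (nat_lit 1002189392) (nat_lit 380) (nat_lit 377995411) (nat_lit 271) (nat_lit 1) (nat_lit 265) (nat_lit 1) (nat_lit 270) (nat_lit 1) (nat_lit 365) (nat_lit 340) (nat_lit 315))))) (XT.nd (nat_lit 234) (nat_lit 1368) (nat_lit 0) (XT.nd (nat_lit 78) (nat_lit 836) (nat_lit 0) (XT.lf (nat_lit 456) (nat_lit 237593091) (nat_lit 0) (nat_lit 930749419) (nat_lit 380) (nat_lit 1123689031) (nat_lit 266) (nat_lit 1) (nat_lit 260) (nat_lit 1) (nat_lit 265) (nat_lit 1) (nat_lit 366) (nat_lit 340) (nat_lit 314)) (XT.nd (nat_lit 78) (nat_lit 380) (nat_lit 0) (XT.lf (nat_lit 76) (nat_lit 404008563) (nat_lit 0) (nat_lit 468110308) (nat_lit 456) (nat_lit 1375063606) (nat_lit 255) (nat_lit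 1) (nat_lit 254) (nat_lit 1) (nat_lit 260) (nat_lit 1) (nat_lit 367) (nat_lit 340) (nat_lit 313)) (XT.lf (nat_lit 456) (nat_lit 1036631228) (nat_lit 0) (nat_lit 824380168) (nat_lit 380) (nat_lit 342460997) (nat_lit 255) (nat_lit 1) (nat_lit 249) (nat_lit 1) (nat_lit 254) (nat_lit 1) (nat_lit 368) (nat_lit 340) (nat_lit 312)))) (XT.nd (nat_lit 156) (nat_lit 608) (nat_lit 0) (XT.nd (nat_lit 78) (nat_lit 456) (nat_lit 0) (XT.lf (nat_lit 380) (nat_lit 297622170) (nat_lit 0) (nat_lit 788505837) (nat_lit 304) (nat_lit 1074785953) (nat_lit 250) (nat_lit 1) (nat_lit 245) (nat_lit 1) (nat_lit 249) (nat_lit 1) (nat_lit 369) (nat_lit 340) (nat_lit 311)) (XT.lf (nat_lit 76) (nat_lit 338311770) (nat_lit 0) (nat_lit 425096961) (nat_lit 456) (nat_lit 1356051430) (nat_lit 240) (nat_lit 1) (nat_lit 239) (nat_lit 1) (nat_lit 245) (nat_lit 1) (nat_lit 370) (nat_lit 340) (nat_lit 310))) (XT.nd (nat_lit 78) (nat_lit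 304) (nat_lit 0) (XT.lf (nat_lit 380) (nat_lit 941180604) (nat_lit 0) (nat_lit 745799199) (nat_lit 304) (nat_lit 392020317) (nat_lit 240) (nat_lit 1) (nat_lit 235) (nat_lit 1) (nat_lit 239) (nat_lit 1) (nat_lit 371) (nat_lit 340) (nat_lit 309)) (XT.lf (nat_lit 380) (nat_lit 194163894) (nat_lit 0) (nat_lit 738514508) (nat_lit 304) (nat_lit 1106923299) (nat_lit 236) (nat_lit 1) (nat_lit 231) (nat_lit 1) (nat_lit 235) (nat_lit 1) (nat_lit 372) (nat_lit 340) (nat_lit 308))))))) (XT.nd (nat_lit 1092) (nat_lit 2128) (nat_lit 0) (XT.nd (nat_lit 546) (nat_lit 1748) (nat_lit 0) (XT.nd (nat_lit 234) (nat_lit 1140) (nat_lit 0) (XT.nd (nat_lit 78) (nat_lit 608) (nat_lit 0) (XT.lf (nat_lit 76) (nat_lit 206338457) (nat_lit 0) (nat_lit 532491961) (nat_lit 380) (nat_lit 1262340645) (nat_lit 227) (nat_lit 1) (nat_lit 226) (nat_lit 1) (nat_lit 231) (nat_lit 1) (nat_lit 373) (nat_lit 340) (nat_lit 307)) (XT.nd (nat_lit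 78) (nat_lit 304) (nat_lit 0) (XT.lf (nat_lit 380) (nat_lit 713134062) (nat_lit 0) (nat_lit 744561740) (nat_lit 304) (nat_lit 505934541) (nat_lit 227) (nat_lit 1) (nat_lit 222) (nat_lit 1) (nat_lit 226) (nat_lit 1) (nat_lit 374) (nat_lit 340) (nat_lit 306)) (XT.lf (nat_lit 76) (nat_lit 727036966) (nat_lit 0) (nat_lit 32711935) (nat_lit 304) (nat_lit 1167334375) (nat_lit 219) (nat_lit 1) (nat_lit 218) (nat_lit 1) (nat_lit 222) (nat_lit 1) (nat_lit 375) (nat_lit 340) (nat_lit 305)))) (XT.nd (nat_lit 156) (nat_lit 608) (nat_lit 0) (XT.nd (nat_lit 78) (nat_lit 228) (nat_lit 0) (XT.lf (nat_lit 76) (nat_lit 25529256) (nat_lit 0) (nat_lit 753658079) (nat_lit 380) (nat_lit 1112177258) (nat_lit 215) (nat_lit 1) (nat_lit 214) (nat_lit 1) (nat_lit 219) (nat_lit 1) (nat_lit 376) (nat_lit 340) (nat_lit 304)) (XT.lf (nat_lit 304) (nat_lit 386472419) (nat_lit 0) (nat_lit 802692914) (nat_lit 228) (nat_lit 667290178)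 (nat_lit 215) (nat_lit 1) (nat_lit 211) (nat_lit 1) (nat_lit 214) (nat_lit 1) (nat_lit 377) (nat_lit 340) (nat_lit 303))) (XT.nd (nat_lit 78) (nat_lit 228) (nat_lit 0) (XT.lf (nat_lit 76) (nat_lit 486844943) (nat_lit 0) (nat_lit 345881081) (nat_lit 380) (nat_lit 989688502) (nat_lit 207) (nat_lit 1) (nat_lit 206) (nat_lit 1) (nat_lit 211) (nat_lit 1) (nat_lit 378) (nat_lit 340) (nat_lit 302)) (XT.lf (nat_lit 304) (nat_lit 728600920) (nat_lit 0) (nat_lit 866826190) (nat_lit 228) (nat_lit 193729951) (nat_lit 207) (nat_lit 1) (nat_lit 203) (nat_lit 1) (nat_lit 206) (nat_lit 1) (nat_lit 379) (nat_lit 340) (nat_lit 301))))) (XT.nd (nat_lit 234) (nat_lit 988) (nat_lit 0) (XT.nd (nat_lit 78) (nat_lit 456) (nat_lit 0) (XT.lf (nat_lit 76) (nat_lit 894439711) (nat_lit 0) (nat_lit 10924569) (nat_lit 304) (nat_lit 851316969) (nat_lit 200) (nat_lit 1) (nat_lit 199) (nat_lit 1) (nat_lit 203) (nat_lit 1) (nat_lit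 380) (nat_lit 340) (nat_lit 300)) (XT.nd (nat_lit 78) (nat_lit 228) (nat_lit 0) (XT.lf (nat_lit 76) (nat_lit 222283230) (nat_lit 0) (nat_lit 723456519) (nat_lit 304) (nat_lit 779159172) (nat_lit 197) (nat_lit 1) (nat_lit 196) (nat_lit 1) (nat_lit 200) (nat_lit 1) (nat_lit 381) (nat_lit 340) (nat_lit 299)) (XT.lf (nat_lit 304) (nat_lit 266367672) (nat_lit 0) (nat_lit 990319124) (nat_lit 228) (nat_lit 437180019) (nat_lit 197) (nat_lit 1) (nat_lit 193) (nat_lit 1) (nat_lit 196) (nat_lit 1) (nat_lit 382) (nat_lit 340) (nat_lit 298)))) (XT.nd (nat_lit 156) (nat_lit 456) (nat_lit 0) (XT.nd (nat_lit 78) (nat_lit 228) (nat_lit 0) (XT.lf (nat_lit 76) (nat_lit 587999762) (nat_lit 0) (nat_lit 448371489) (nat_lit 304) (nat_lit 627122172) (nat_lit 190) (nat_lit 1) (nat_lit 189) (nat_lit 1) (nat_lit 193) (nat_lit 1) (nat_lit 383) (nat_lit 340) (nat_lit 297)) (XT.lf (nat_lit 304) (nat_lit 488649053) (nat_lit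 0) (nat_lit 1087110329) (nat_lit 228) (nat_lit 58101253) (nat_lit 190) (nat_lit 1) (nat_lit 186) (nat_lit 1) (nat_lit 189) (nat_lit 1) (nat_lit 384) (nat_lit 340) (nat_lit 296))) (XT.nd (nat_lit 78) (nat_lit 228) (nat_lit 0) (XT.lf (nat_lit 76) (nat_lit 912144917) (nat_lit 0) (nat_lit 225141017) (nat_lit 228) (nat_lit 467518083) (nat_lit 184) (nat_lit 1) (nat_lit 183) (nat_lit 1) (nat_lit 186) (nat_lit 1) (nat_lit 385) (nat_lit 340) (nat_lit 295)) (XT.lf (nat_lit 76) (nat_lit 274262878) (nat_lit 0) (nat_lit 915701483) (nat_lit 304) (nat_lit 386437234) (nat_lit 181) (nat_lit 1) (nat_lit 180) (nat_lit 1) (nat_lit 184) (nat_lit 1) (nat_lit 386) (nat_lit 340) (nat_lit 294)))))) (XT.nd (nat_lit 546) (nat_lit 608) (nat_lit 0) (XT.nd (nat_lit 234) (nat_lit 912) (nat_lit 0) (XT.nd (nat_lit 78) (nat_lit 380) (nat_lit 0) (XT.lf (nat_lit 76) (nat_lit 1199110956) (nat_lit 0) (nat_lit 46510495) (nat_lit 228)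 (nat_lit 303034701) (nat_lit 178) (nat_lit 1) (nat_lit 177) (nat_lit 1) (nat_lit 180) (nat_lit 1) (nat_lit 387) (nat_lit 340) (nat_lit 293)) (XT.nd (nat_lit 78) (nat_lit 152) (nat_lit 0) (XT.lf (nat_lit 76) (nat_lit 569256909) (nat_lit 0) (nat_lit 729530566) (nat_lit 304) (nat_lit 222610041) (nat_lit 175) (nat_lit 1) (nat_lit 174) (nat_lit 1) (nat_lit 178) (nat_lit 1) (nat_lit 388) (nat_lit 340) (nat_lit 292)) (XT.lf (nat_lit 228) (nat_lit 95726304) (nat_lit 0) (nat_lit 1357995501) (nat_lit 152) (nat_lit 41141764) (nat_lit 175) (nat_lit 1) (nat_lit 172) (nat_lit 1) (nat_lit 174) (nat_lit 1) (nat_lit 389) (nat_lit 340) (nat_lit 291)))) (XT.nd (nat_lit 156) (nat_lit 380) (nat_lit 0) (XT.nd (nat_lit 78) (nat_lit 304) (nat_lit 0) (XT.lf (nat_lit 76) (nat_lit 831763044) (nat_lit 0) (nat_lit 580101495) (nat_lit 228) (nat_lit 56847835) (nat_lit 170) (nat_lit 1) (nat_lit 169) (nat_lit 1) (nat_lit 172)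 (nat_lit 1) (nat_lit 390) (nat_lit 340) (nat_lit 290)) (XT.lf (nat_lit 228) (nat_lit 202900359) (nat_lit 0) (nat_lit 28136253) (nat_lit 152) (nat_lit 1212192741) (nat_lit 168) (nat_lit 1) (nat_lit 165) (nat_lit 1) (nat_lit 167) (nat_lit 1) (nat_lit 391) (nat_lit 340) (nat_lit 289))) (XT.nd (nat_lit 78) (nat_lit 152) (nat_lit 0) (XT.lf (nat_lit 228) (nat_lit 954964030) (nat_lit 0) (nat_lit 111222299) (nat_lit 152) (nat_lit 351988534) (nat_lit 165) (nat_lit 1) (nat_lit 162) (nat_lit 1) (nat_lit 164) (nat_lit 1) (nat_lit 392) (nat_lit 340) (nat_lit 288)) (XT.lf (nat_lit 228) (nat_lit 280124261) (nat_lit 0) (nat_lit 195087977) (nat_lit 152) (nat_lit 918454163) (nat_lit 163) (nat_lit 1) (nat_lit 160) (nat_lit 1) (nat_lit 162) (nat_lit 1) (nat_lit 393) (nat_lit 340) (nat_lit 287))))) (XT.nd (nat_lit 48750) (nat_lit 0) (nat_lit 16872) (XT.nd (nat_lit 78) (nat_lit 380) (nat_lit 0) (XT.lf (nat_lit 228)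 (nat_lit 995939995) (nat_lit 0) (nat_lit 279032518) (nat_lit 152) (nat_lit 94701081) (nat_lit 160) (nat_lit 1) (nat_lit 157) (nat_lit 1) (nat_lit 159) (nat_lit 1) (nat_lit 394) (nat_lit 340) (nat_lit 286)) (XT.nd (nat_lit 78) (nat_lit 228) (nat_lit 0) (XT.lf (nat_lit 228) (nat_lit 333459218) (nat_lit 0) (nat_lit 360234771) (nat_lit 152) (nat_lit 652410501) (nat_lit 158) (nat_lit 1) (nat_lit 155) (nat_lit 1) (nat_lit 157) (nat_lit 1) (nat_lit 395) (nat_lit 340) (nat_lit 285)) (XT.lf (nat_lit 76) (nat_lit 134415505) (nat_lit 0) (nat_lit 308408784) (nat_lit 228) (nat_lit 880245489) (nat_lit 153) (nat_lit 1) (nat_lit 152) (nat_lit 1) (nat_lit 155) (nat_lit 1) (nat_lit 396) (nat_lit 340) (nat_lit 284)))) (XT.nd (nat_lit 156) (nat_lit 0) (nat_lit 76) (XT.nd (nat_lit 78) (nat_lit 0) (nat_lit 76) (XT.lf (nat_lit 1292) (nat_lit 391610183) (nat_lit 0) (nat_lit 1347321156) (nat_lit 1292) (nat_lit 391610183)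 (nat_lit 391) (nat_lit 1) (nat_lit 374) (nat_lit 0) (nat_lit 391) (nat_lit 0) (nat_lit 338) (nat_lit 341) (nat_lit 341)) (XT.lf (nat_lit 1292) (nat_lit 31396074) (nat_lit 0) (nat_lit 2656634003) (nat_lit 1216) (nat_lit 1470814113) (nat_lit 392) (nat_lit 1) (nat_lit 375) (nat_lit 1) (nat_lit 391) (nat_lit 1) (nat_lit 339) (nat_lit 341) (nat_lit 340))) (XT.nd (nat_lit 78) (nat_lit 0) (nat_lit 76) (XT.lf (nat_lit 1292) (nat_lit 1381292305) (nat_lit 76) (nat_lit 1953787420) (nat_lit 0) (nat_lit 724653956) (nat_lit 392) (nat_lit 1) (nat_lit 376) (nat_lit 1) (nat_lit 375) (nat_lit 1) (nat_lit 340) (nat_lit 341) (nat_lit 339)) (XT.lf (nat_lit 1292) (nat_lit 1214273063) (nat_lit 76) (nat_lit 1278893673) (nat_lit 0) (nat_lit 1470665517) (nat_lit 393) (nat_lit 1) (nat_lit 377) (nat_lit 1) (nat_lit 376) (nat_lit 1) (nat_lit 341) (nat_lit 341) (nat_lit 338))))))))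
noncomputable def ec15 : XT := (XT.nd (nat_lit 2184) (nat_lit 6612) (nat_lit 0) (XT.nd (nat_lit 1092) (nat_lit 6080) (nat_lit 0) (XT.nd (nat_lit 546) (nat_lit 3648) (nat_lit 0) (XT.nd (nat_lit 234) (nat_lit 1064) (nat_lit 0) (XT.nd (nat_lit 78) (nat_lit 0) (nat_lit 76) (XT.lf (nat_lit 1292) (nat_lit 1004892723) (nat_lit 76) (nat_lit 660615384) (nat_lit 0) (nat_lit 2205523985) (nat_lit 394) (nat_lit 1) (nat_lit 378) (nat_lit 1) (nat_lit 377) (nat_lit 1) (nat_lit 342) (nat_lit 341) (nat_lit 337)) (XT.nd (nat_lit 78) (nat_lit 0) (nat_lit 76) (XT.lf (nat_lit 1292) (nat_lit 756380218) (nat_lit 76) (nat_lit 96043705) (nat_lit 0) (nat_lit 2928796888) (nat_lit 395) (nat_lit 1) (nat_lit 379) (nat_lit 1) (nat_lit 378) (nat_lit 1) (nat_lit 343) (nat_lit 341) (nat_lit 336)) (XT.lf (nat_lit 1292) (nat_lit 58199424) (nat_lit 0) (nat_lit 3226524408) (nat_lit 1216) (nat_lit 409446233) (nat_lit 396) (nat_lit 1)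 (nat_lit 379) (nat_lit 1) (nat_lit 395) (nat_lit 1) (nat_lit 344) (nat_lit 341) (nat_lit 335)))) (XT.nd (nat_lit 156) (nat_lit 0) (nat_lit 76) (XT.nd (nat_lit 78) (nat_lit 1216) (nat_lit 0) (XT.lf (nat_lit 1292) (nat_lit 137945296) (nat_lit 76) (nat_lit 2736891312) (nat_lit 0) (nat_lit 734834342) (nat_lit 396) (nat_lit 1) (nat_lit 380) (nat_lit 1) (nat_lit 379) (nat_lit 1) (nat_lit 345) (nat_lit 341) (nat_lit 334)) (XT.lf (nat_lit 1368) (nat_lit 2016068940) (nat_lit 0) (nat_lit 217915967) (nat_lit 1292) (nat_lit 1293801032) (nat_lit 381) (nat_lit 1) (nat_lit 363) (nat_lit 1) (nat_lit 380) (nat_lit 1) (nat_lit 346) (nat_lit 341) (nat_lit 333))) (XT.nd (nat_lit 78) (nat_lit 0) (nat_lit 76) (XT.lf (nat_lit 1368) (nat_lit 1176768512) (nat_lit 0) (nat_lit 597935744) (nat_lit 1292) (nat_lit 1673748035) (nat_lit 382) (nat_lit 1) (nat_lit 364) (nat_lit 1) (nat_lit 381) (nat_lit 1) (nat_lit 347) (nat_lit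 341) (nat_lit 332)) (XT.lf (nat_lit 76) (nat_lit 355625687) (nat_lit 0) (nat_lit 1002474766) (nat_lit 1292) (nat_lit 2013517521) (nat_lit 366) (nat_lit 1) (nat_lit 365) (nat_lit 1) (nat_lit 382) (nat_lit 1) (nat_lit 348) (nat_lit 341) (nat_lit 331))))) (XT.nd (nat_lit 234) (nat_lit 1748) (nat_lit 0) (XT.nd (nat_lit 78) (nat_lit 1216) (nat_lit 0) (XT.lf (nat_lit 912) (nat_lit 1863337720) (nat_lit 0) (nat_lit 977448078) (nat_lit 836) (nat_lit 456277372) (nat_lit 366) (nat_lit 1) (nat_lit 354) (nat_lit 1) (nat_lit 365) (nat_lit 1) (nat_lit 349) (nat_lit 341) (nat_lit 330)) (XT.nd (nat_lit 78) (nat_lit 608) (nat_lit 0) (XT.lf (nat_lit 684) (nat_lit 1336187893) (nat_lit 0) (nat_lit 631750621) (nat_lit 608) (nat_lit 1256796868) (nat_lit 355) (nat_lit 1) (nat_lit 346) (nat_lit 1) (nat_lit 354) (nat_lit 1) (nat_lit 350) (nat_lit 341) (nat_lit 329)) (XT.lf (nat_lit 684) (nat_lit 793142627) (nat_lit 0) (nat_lit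 322590182) (nat_lit 608) (nat_lit 2038924855) (nat_lit 347) (nat_lit 1) (nat_lit 338) (nat_lit 1) (nat_lit 346) (nat_lit 1) (nat_lit 351) (nat_lit 341) (nat_lit 328)))) (XT.nd (nat_lit 156) (nat_lit 1140) (nat_lit 0) (XT.nd (nat_lit 78) (nat_lit 76) (nat_lit 0) (XT.lf (nat_lit 608) (nat_lit 235945770) (nat_lit 0) (nat_lit 48050529) (nat_lit 532) (nat_lit 2802755316) (nat_lit 339) (nat_lit 1) (nat_lit 331) (nat_lit 1) (nat_lit 338) (nat_lit 1) (nat_lit 352) (nat_lit 341) (nat_lit 327)) (XT.lf (nat_lit 76) (nat_lit 2487948031) (nat_lit 0) (nat_lit 334338004) (nat_lit 608) (nat_lit 198347027) (nat_lit 331) (nat_lit 1) (nat_lit 330) (nat_lit 1) (nat_lit 338) (nat_lit 1) (nat_lit 353) (nat_lit 341) (nat_lit 326))) (XT.nd (nat_lit 78) (nat_lit 532) (nat_lit 0) (XT.lf (nat_lit 76) (nat_lit 1624472795) (nat_lit 0) (nat_lit 913561530) (nat_lit 684) (nat_lit 418349455) (nat_lit 323) (nat_lit 1) (nat_lit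 322) (nat_lit 1) (nat_lit 331) (nat_lit 1) (nat_lit 354) (nat_lit 341) (nat_lit 325)) (XT.lf (nat_lit 76) (nat_lit 783003387) (nat_lit 0) (nat_lit 1501664091) (nat_lit 608) (nat_lit 609432677) (nat_lit 316) (nat_lit 1) (nat_lit 315) (nat_lit 1) (nat_lit 323) (nat_lit 1) (nat_lit 355) (nat_lit 341) (nat_lit 324)))))) (XT.nd (nat_lit 546) (nat_lit 2660) (nat_lit 0) (XT.nd (nat_lit 234) (nat_lit 1824) (nat_lit 0) (XT.nd (nat_lit 78) (nat_lit 1064) (nat_lit 0) (XT.lf (nat_lit 608) (nat_lit 736000144) (nat_lit 0) (nat_lit 2060203433) (nat_lit 532) (nat_lit 37500572) (nat_lit 316) (nat_lit 1) (nat_lit 308) (nat_lit 1) (nat_lit 315) (nat_lit 1) (nat_lit 356) (nat_lit 341) (nat_lit 323)) (XT.nd (nat_lit 78) (nat_lit 608) (nat_lit 0) (XT.lf (nat_lit 532) (nat_lit 67348196) (nat_lit 0) (nat_lit 1855785617) (nat_lit 456) (nat_lit 851784072) (nat_lit 309) (nat_lit 1) (nat_lit 302) (nat_lit 1) (nat_lit 308)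 (nat_lit 1) (nat_lit 357) (nat_lit 341) (nat_lit 322)) (XT.lf (nat_lit 76) (nat_lit 1079122229) (nat_lit 0) (nat_lit 592743327) (nat_lit 608) (nat_lit 1045869418) (nat_lit 295) (nat_lit 1) (nat_lit 294) (nat_lit 1) (nat_lit 302) (nat_lit 1) (nat_lit 358) (nat_lit 341) (nat_lit 321)))) (XT.nd (nat_lit 156) (nat_lit 912) (nat_lit 0) (XT.nd (nat_lit 78) (nat_lit 456) (nat_lit 0) (XT.lf (nat_lit 76) (nat_lit 258624021) (nat_lit 0) (nat_lit 1253713384) (nat_lit 532) (nat_lit 1149912262) (nat_lit 289) (nat_lit 1) (nat_lit 288) (nat_lit 1) (nat_lit 295) (nat_lit 1) (nat_lit 359) (nat_lit 341) (nat_lit 320)) (XT.lf (nat_lit 532) (nat_lit 687013451) (nat_lit 0) (nat_lit 1371091938) (nat_lit 456) (nat_lit 550159838) (nat_lit 289) (nat_lit 1) (nat_lit 282) (nat_lit 1) (nat_lit 288) (nat_lit 1) (nat_lit 360) (nat_lit 341) (nat_lit 319))) (XT.nd (nat_lit 78) (nat_lit 456) (nat_lit 0) (XT.lf (nat_lit 76) (nat_lit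 1214537289) (nat_lit 0) (nat_lit 35028023) (nat_lit 456) (nat_lit 1306239723) (nat_lit 277) (nat_lit 1) (nat_lit 276) (nat_lit 1) (nat_lit 282) (nat_lit 1) (nat_lit 361) (nat_lit 341) (nat_lit 318)) (XT.lf (nat_lit 76) (nat_lit 401149689) (nat_lit 0) (nat_lit 741577809) (nat_lit 532) (nat_lit 1361976996) (nat_lit 271) (nat_lit 1) (nat_lit 270) (nat_lit 1) (nat_lit 277) (nat_lit 1) (nat_lit 362) (nat_lit 341) (nat_lit 317))))) (XT.nd (nat_lit 234) (nat_lit 1444) (nat_lit 0) (XT.nd (nat_lit 78) (nat_lit 836) (nat_lit 0) (XT.lf (nat_lit 456) (nat_lit 1005801918) (nat_lit 0) (nat_lit 1052298862) (nat_lit 380) (nat_lit 396895182) (nat_lit 271) (nat_lit 1) (nat_lit 265) (nat_lit 1) (nat_lit 270) (nat_lit 1) (nat_lit 363) (nat_lit 341) (nat_lit 316)) (XT.nd (nat_lit 78) (nat_lit 456) (nat_lit 0) (XT.lf (nat_lit 456) (nat_lit 249472745) (nat_lit 0) (nat_lit 977286890) (nat_lit 380) (nat_lit 1179873483)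 (nat_lit 266) (nat_lit 1) (nat_lit 260) (nat_lit 1) (nat_lit 265) (nat_lit 1) (nat_lit 364) (nat_lit 341) (nat_lit 315)) (XT.lf (nat_lit 76) (nat_lit 424208991) (nat_lit 0) (nat_lit 491515824) (nat_lit 456) (nat_lit 1443816786) (nat_lit 255) (nat_lit 1) (nat_lit 254) (nat_lit 1) (nat_lit 260) (nat_lit 1) (nat_lit 365) (nat_lit 341) (nat_lit 314)))) (XT.nd (nat_lit 156) (nat_lit 760) (nat_lit 0) (XT.nd (nat_lit 78) (nat_lit 304) (nat_lit 0) (XT.lf (nat_lit 456) (nat_lit 1088462790) (nat_lit 0) (nat_lit 865599176) (nat_lit 380) (nat_lit 359584046) (nat_lit 255) (nat_lit 1) (nat_lit 249) (nat_lit 1) (nat_lit 254) (nat_lit 1) (nat_lit 366) (nat_lit 341) (nat_lit 313)) (XT.lf (nat_lit 380) (nat_lit 312503279) (nat_lit 0) (nat_lit 827931129) (nat_lit 304) (nat_lit 1128525250) (nat_lit 250) (nat_lit 1) (nat_lit 245) (nat_lit 1) (nat_lit 249) (nat_lit 1) (nat_lit 367) (nat_lit 341) (nat_lit 312))) (XT.nd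 (nat_lit 78) (nat_lit 304) (nat_lit 0) (XT.lf (nat_lit 76) (nat_lit 355227358) (nat_lit 0) (nat_lit 446351809) (nat_lit 456) (nat_lit 1423854002) (nat_lit 240) (nat_lit 1) (nat_lit 239) (nat_lit 1) (nat_lit 245) (nat_lit 1) (nat_lit 368) (nat_lit 341) (nat_lit 311)) (XT.lf (nat_lit 380) (nat_lit 988239635) (nat_lit 0) (nat_lit 783089159) (nat_lit 304) (nat_lit 411621332) (nat_lit 240) (nat_lit 1) (nat_lit 235) (nat_lit 1) (nat_lit 239) (nat_lit 1) (nat_lit 369) (nat_lit 341) (nat_lit 310))))))) (XT.nd (nat_lit 1092) (nat_lit 2660) (nat_lit 0) (XT.nd (nat_lit 546) (nat_lit 1748) (nat_lit 0) (XT.nd (nat_lit 234) (nat_lit 1216) (nat_lit 0) (XT.nd (nat_lit 78) (nat_lit 684) (nat_lit 0) (XT.lf (nat_lit 380) (nat_lit 203872088) (nat_lit 0) (nat_lit 775440234) (nat_lit 304) (nat_lit 1162269464) (nat_lit 236) (nat_lit 1) (nat_lit 231) (nat_lit 1) (nat_lit 235) (nat_lit 1) (nat_lit 370) (nat_lit 341) (nat_lit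 309)) (XT.nd (nat_lit 78) (nat_lit 304) (nat_lit 0) (XT.lf (nat_lit 76) (nat_lit 216655380) (nat_lit 0) (nat_lit 559116559) (nat_lit 380) (nat_lit 1325457677) (nat_lit 227) (nat_lit 1) (nat_lit 226) (nat_lit 1) (nat_lit 231) (nat_lit 1) (nat_lit 371) (nat_lit 341) (nat_lit 308)) (XT.lf (nat_lit 380) (nat_lit 748790765) (nat_lit 0) (nat_lit 781789827) (nat_lit 304) (nat_lit 531231268) (nat_lit 227) (nat_lit 1) (nat_lit 222) (nat_lit 1) (nat_lit 226) (nat_lit 1) (nat_lit 372) (nat_lit 341) (nat_lit 307)))) (XT.nd (nat_lit 156) (nat_lit 608) (nat_lit 0) (XT.nd (nat_lit 78) (nat_lit 304) (nat_lit 0) (XT.lf (nat_lit 76) (nat_lit 763388814) (nat_lit 0) (nat_lit 34347532) (nat_lit 304) (nat_lit 1225701093) (nat_lit 219) (nat_lit 1) (nat_lit 218) (nat_lit 1) (nat_lit 222) (nat_lit 1) (nat_lit 373) (nat_lit 341) (nat_lit 306)) (XT.lf (nat_lit 76) (nat_lit 26805718) (nat_lit 0) (nat_lit 791340983) (nat_lit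 380) (nat_lit 1167786121) (nat_lit 215) (nat_lit 1) (nat_lit 214) (nat_lit 1) (nat_lit 219) (nat_lit 1) (nat_lit 374) (nat_lit 341) (nat_lit 305))) (XT.nd (nat_lit 78) (nat_lit 380) (nat_lit 0) (XT.lf (nat_lit 304) (nat_lit 405796040) (nat_lit 0) (nat_lit 842827560) (nat_lit 228) (nat_lit 700654687) (nat_lit 215) (nat_lit 1) (nat_lit 211) (nat_lit 1) (nat_lit 214) (nat_lit 1) (nat_lit 375) (nat_lit 341) (nat_lit 304)) (XT.lf (nat_lit 76) (nat_lit 511187190) (nat_lit 0) (nat_lit 363175135) (nat_lit 380) (nat_lit 1039172927) (nat_lit 207) (nat_lit 1) (nat_lit 206) (nat_lit 1) (nat_lit 211) (nat_lit 1) (nat_lit 376) (nat_lit 341) (nat_lit 303))))) (XT.nd (nat_lit 234) (nat_lit 988) (nat_lit 0) (XT.nd (nat_lit 78) (nat_lit 532) (nat_lit 0) (XT.lf (nat_lit 304) (nat_lit 765030966) (nat_lit 0) (nat_lit 910167499) (nat_lit 228) (nat_lit 203416448) (nat_lit 207) (nat_lit 1) (nat_lit 203) (nat_lit 1) (nat_lit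 206) (nat_lit 1) (nat_lit 377) (nat_lit 341) (nat_lit 302)) (XT.nd (nat_lit 78) (nat_lit 228) (nat_lit 0) (XT.lf (nat_lit 76) (nat_lit 939161697) (nat_lit 0) (nat_lit 11470798) (nat_lit 304) (nat_lit 893882818) (nat_lit 200) (nat_lit 1) (nat_lit 199) (nat_lit 1) (nat_lit 203) (nat_lit 1) (nat_lit 378) (nat_lit 341) (nat_lit 301)) (XT.lf (nat_lit 76) (nat_lit 233397392) (nat_lit 0) (nat_lit 759629345) (nat_lit 304) (nat_lit 818117130) (nat_lit 197) (nat_lit 1) (nat_lit 196) (nat_lit 1) (nat_lit 200) (nat_lit 1) (nat_lit 379) (nat_lit 341) (nat_lit 300)))) (XT.nd (nat_lit 156) (nat_lit 456) (nat_lit 0) (XT.nd (nat_lit 78) (nat_lit 304) (nat_lit 0) (XT.lf (nat_lit 304) (nat_lit 279686055) (nat_lit 0) (nat_lit 1039835080) (nat_lit 228) (nat_lit 459039020) (nat_lit 197) (nat_lit 1) (nat_lit 193) (nat_lit 1) (nat_lit 196) (nat_lit 1) (nat_lit 380) (nat_lit 341) (nat_lit 299)) (XT.lf (nat_lit 76) (nat_lit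 617399750) (nat_lit 0) (nat_lit 470790063) (nat_lit 304) (nat_lit 658478280) (nat_lit 190) (nat_lit 1) (nat_lit 189) (nat_lit 1) (nat_lit 193) (nat_lit 1) (nat_lit 381) (nat_lit 341) (nat_lit 298))) (XT.nd (nat_lit 78) (nat_lit 228) (nat_lit 0) (XT.lf (nat_lit 304) (nat_lit 513081506) (nat_lit 0) (nat_lit 1141465845) (nat_lit 228) (nat_lit 61006315) (nat_lit 190) (nat_lit 1) (nat_lit 186) (nat_lit 1) (nat_lit 189) (nat_lit 1) (nat_lit 382) (nat_lit 341) (nat_lit 297)) (XT.lf (nat_lit 76) (nat_lit 957752163) (nat_lit 0) (nat_lit 236398068) (nat_lit 228) (nat_lit 490893988) (nat_lit 184) (nat_lit 1) (nat_lit 183) (nat_lit 1) (nat_lit 186) (nat_lit 1) (nat_lit 383) (nat_lit 341) (nat_lit 296)))))) (XT.nd (nat_lit 546) (nat_lit 1064) (nat_lit 0) (XT.nd (nat_lit 234) (nat_lit 912) (nat_lit 0) (XT.nd (nat_lit 78) (nat_lit 456) (nat_lit 0) (XT.lf (nat_lit 76) (nat_lit 287976022) (nat_lit 0) (nat_lit 961486557)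 (nat_lit 304) (nat_lit 405759095) (nat_lit 181) (nat_lit 1) (nat_lit 180) (nat_lit 1) (nat_lit 184) (nat_lit 1) (nat_lit 384) (nat_lit 341) (nat_lit 295)) (XT.nd (nat_lit 78) (nat_lit 228) (nat_lit 0) (XT.lf (nat_lit 76) (nat_lit 1259066504) (nat_lit 0) (nat_lit 48836020) (nat_lit 228) (nat_lit 318186436) (nat_lit 178) (nat_lit 1) (nat_lit 177) (nat_lit 1) (nat_lit 180) (nat_lit 1) (nat_lit 385) (nat_lit 341) (nat_lit 294)) (XT.lf (nat_lit 76) (nat_lit 597719755) (nat_lit 0) (nat_lit 766007094) (nat_lit 304) (nat_lit 233740543) (nat_lit 175) (nat_lit 1) (nat_lit 174) (nat_lit 1) (nat_lit 178) (nat_lit 1) (nat_lit 386) (nat_lit 341) (nat_lit 293)))) (XT.nd (nat_lit 156) (nat_lit 532) (nat_lit 0) (XT.nd (nat_lit 78) (nat_lit 228) (nat_lit 0) (XT.lf (nat_lit 228) (nat_lit 100512620) (nat_lit 0) (nat_lit 1425895276) (nat_lit 152) (nat_lit 43198852) (nat_lit 175) (nat_lit 1) (nat_lit 172) (nat_lit 1)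 (nat_lit 174) (nat_lit 1) (nat_lit 387) (nat_lit 341) (nat_lit 292)) (XT.lf (nat_lit 76) (nat_lit 873351196) (nat_lit 0) (nat_lit 609106570) (nat_lit 228) (nat_lit 59690227) (nat_lit 170) (nat_lit 1) (nat_lit 169) (nat_lit 1) (nat_lit 172) (nat_lit 1) (nat_lit 388) (nat_lit 341) (nat_lit 291))) (XT.nd (nat_lit 78) (nat_lit 228) (nat_lit 0) (XT.lf (nat_lit 228) (nat_lit 213045377) (nat_lit 0) (nat_lit 29543066) (nat_lit 152) (nat_lit 1272802378) (nat_lit 168) (nat_lit 1) (nat_lit 165) (nat_lit 1) (nat_lit 167) (nat_lit 1) (nat_lit 389) (nat_lit 341) (nat_lit 290)) (XT.lf (nat_lit 228) (nat_lit 1002712231) (nat_lit 0) (nat_lit 116783414) (nat_lit 152) (nat_lit 369587960) (nat_lit 165) (nat_lit 1) (nat_lit 162) (nat_lit 1) (nat_lit 164) (nat_lit 1) (nat_lit 390) (nat_lit 341) (nat_lit 289))))) (XT.nd (nat_lit 234) (nat_lit 532) (nat_lit 0) (XT.nd (nat_lit 78) (nat_lit 380) (nat_lit 0) (XT.lf (nat_lit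 228) (nat_lit 294130474) (nat_lit 0) (nat_lit 204842376) (nat_lit 152) (nat_lit 964376871) (nat_lit 163) (nat_lit 1) (nat_lit 160) (nat_lit 1) (nat_lit 162) (nat_lit 1) (nat_lit 391) (nat_lit 341) (nat_lit 288)) (XT.nd (nat_lit 78) (nat_lit 152) (nat_lit 0) (XT.lf (nat_lit 228) (nat_lit 1045736994) (nat_lit 0) (nat_lit 292984144) (nat_lit 152) (nat_lit 99436135) (nat_lit 160) (nat_lit 1) (nat_lit 157) (nat_lit 1) (nat_lit 159) (nat_lit 1) (nat_lit 392) (nat_lit 341) (nat_lit 287)) (XT.lf (nat_lit 228) (nat_lit 350132179) (nat_lit 0) (nat_lit 378246510) (nat_lit 152) (nat_lit 685031026) (nat_lit 158) (nat_lit 1) (nat_lit 155) (nat_lit 1) (nat_lit 157) (nat_lit 1) (nat_lit 393) (nat_lit 341) (nat_lit 286)))) (XT.nd (nat_lit 156) (nat_lit 152) (nat_lit 0) (XT.nd (nat_lit 78) (nat_lit 152) (nat_lit 0) (XT.lf (nat_lit 76) (nat_lit 141136280) (nat_lit 0) (nat_lit 323829223) (nat_lit 228) (nat_lit 924257763)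 (nat_lit 153) (nat_lit 1) (nat_lit 152) (nat_lit 1) (nat_lit 155) (nat_lit 1) (nat_lit 394) (nat_lit 341) (nat_lit 285)) (XT.lf (nat_lit 228) (nat_lit 384957909) (nat_lit 0) (nat_lit 548512637) (nat_lit 152) (nat_lit 431982692) (nat_lit 153) (nat_lit 1) (nat_lit 150) (nat_lit 1) (nat_lit 152) (nat_lit 1) (nat_lit 395) (nat_lit 341) (nat_lit 284))) (XT.nd (nat_lit 48438) (nat_lit 0) (nat_lit 17176) (XT.lf (nat_lit 76) (nat_lit 356050979) (nat_lit 0) (nat_lit 276261669) (nat_lit 152) (nat_lit 709877041) (nat_lit 149) (nat_lit 1) (nat_lit 148) (nat_lit 1) (nat_lit 150) (nat_lit 1) (nat_lit 396) (nat_lit 341) (nat_lit 283)) (XT.lf (nat_lit 1292) (nat_lit 411190692) (nat_lit 0) (nat_lit 1414687213) (nat_lit 1292) (nat_lit 411190692) (nat_lit 391) (nat_lit 1) (nat_lit 374) (nat_lit 0) (nat_lit 391) (nat_lit 0) (nat_lit 336) (nat_lit 342) (nat_lit 342))))))))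
noncomputable def ec16 : XT := (XT.nd (nat_lit 2106) (nat_lit 7524) (nat_lit 0) (XT.nd (nat_lit 1014) (nat_lit 6384) (nat_lit 0) (XT.nd (nat_lit 468) (nat_lit 2812) (nat_lit 0) (XT.nd (nat_lit 234) (nat_lit 0) (nat_lit 152) (XT.nd (nat_lit 78) (nat_lit 0) (nat_lit 0) (XT.lf (nat_lit 1292) (nat_lit 32965878) (nat_lit 0) (nat_lit 2789465703) (nat_lit 1216) (nat_lit 1544354818) (nat_lit 392) (nat_lit 1) (nat_lit 375) (nat_lit 1) (nat_lit 391) (nat_lit 1) (nat_lit 337) (nat_lit 342) (nat_lit 341)) (XT.nd (nat_lit 78) (nat_lit 0) (nat_lit 76) (XT.lf (nat_lit 1292) (nat_lit 1450356920) (nat_lit 76) (nat_lit 2051476791) (nat_lit 0) (nat_lit 760886654) (nat_lit 392) (nat_lit 1) (nat_lit 376) (nat_lit 1) (nat_lit 375) (nat_lit 1) (nat_lit 338) (nat_lit 342) (nat_lit 340)) (XT.lf (nat_lit 1292) (nat_lit 1274986716) (nat_lit 76) (nat_lit 1342838357) (nat_lit 0) (nat_lit 1544198792) (nat_lit 393) (nat_lit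 1) (nat_lit 377) (nat_lit 1) (nat_lit 376) (nat_lit 1) (nat_lit 339) (nat_lit 342) (nat_lit 339)))) (XT.nd (nat_lit 78) (nat_lit 0) (nat_lit 76) (XT.lf (nat_lit 1292) (nat_lit 1055137359) (nat_lit 76) (nat_lit 693646153) (nat_lit 0) (nat_lit 2315800184) (nat_lit 394) (nat_lit 1) (nat_lit 378) (nat_lit 1) (nat_lit 377) (nat_lit 1) (nat_lit 340) (nat_lit 342) (nat_lit 338)) (XT.nd (nat_lit 78) (nat_lit 0) (nat_lit 76) (XT.lf (nat_lit 1292) (nat_lit 794199229) (nat_lit 76) (nat_lit 100845891) (nat_lit 0) (nat_lit 3075236732) (nat_lit 395) (nat_lit 1) (nat_lit 379) (nat_lit 1) (nat_lit 378) (nat_lit 1) (nat_lit 341) (nat_lit 342) (nat_lit 337)) (XT.lf (nat_lit 1292) (nat_lit 61109395) (nat_lit 0) (nat_lit 3387850628) (nat_lit 1216) (nat_lit 429918545) (nat_lit 396) (nat_lit 1) (nat_lit 379) (nat_lit 1) (nat_lit 395) (nat_lit 1) (nat_lit 342) (nat_lit 342) (nat_lit 336))))) (XT.nd (nat_lit 234) (nat_lit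 1900) (nat_lit 0) (XT.nd (nat_lit 78) (nat_lit 1216) (nat_lit 0) (XT.lf (nat_lit 1292) (nat_lit 144842561) (nat_lit 76) (nat_lit 2873735877) (nat_lit 0) (nat_lit 771576059) (nat_lit 396) (nat_lit 1) (nat_lit 380) (nat_lit 1) (nat_lit 379) (nat_lit 1) (nat_lit 343) (nat_lit 342) (nat_lit 335)) (XT.nd (nat_lit 78) (nat_lit 0) (nat_lit 76) (XT.lf (nat_lit 1368) (nat_lit 2116872387) (nat_lit 0) (nat_lit 228811765) (nat_lit 1292) (nat_lit 1358491084) (nat_lit 381) (nat_lit 1) (nat_lit 363) (nat_lit 1) (nat_lit 380) (nat_lit 1) (nat_lit 344) (nat_lit 342) (nat_lit 334)) (XT.lf (nat_lit 1368) (nat_lit 1235606938) (nat_lit 0) (nat_lit 627832531) (nat_lit 1292) (nat_lit 1757435436) (nat_lit 382) (nat_lit 1) (nat_lit 364) (nat_lit 1) (nat_lit 381) (nat_lit 1) (nat_lit 345) (nat_lit 342) (nat_lit 333)))) (XT.nd (nat_lit 156) (nat_lit 1216) (nat_lit 0) (XT.nd (nat_lit 78) (nat_lit 836) (nat_lit 0) (XT.lf (nat_lit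 76) (nat_lit 373406971) (nat_lit 0) (nat_lit 1052598504) (nat_lit 1292) (nat_lit 2114193397) (nat_lit 366) (nat_lit 1) (nat_lit 365) (nat_lit 1) (nat_lit 382) (nat_lit 1) (nat_lit 346) (nat_lit 342) (nat_lit 332)) (XT.lf (nat_lit 912) (nat_lit 1956504606) (nat_lit 0) (nat_lit 1026320482) (nat_lit 836) (nat_lit 479091240) (nat_lit 366) (nat_lit 1) (nat_lit 354) (nat_lit 1) (nat_lit 365) (nat_lit 1) (nat_lit 347) (nat_lit 342) (nat_lit 331))) (XT.nd (nat_lit 78) (nat_lit 608) (nat_lit 0) (XT.lf (nat_lit 684) (nat_lit 1402997288) (nat_lit 0) (nat_lit 663338153) (nat_lit 608) (nat_lit 1319636711) (nat_lit 355) (nat_lit 1) (nat_lit 346) (nat_lit 1) (nat_lit 354) (nat_lit 1) (nat_lit 348) (nat_lit 342) (nat_lit 330)) (XT.lf (nat_lit 684) (nat_lit 832799758) (nat_lit 0) (nat_lit 338719691) (nat_lit 608) (nat_lit 2140871098) (nat_lit 347) (nat_lit 1) (nat_lit 338) (nat_lit 1) (nat_lit 346) (nat_lit 1)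 (nat_lit 349) (nat_lit 342) (nat_lit 329)))))) (XT.nd (nat_lit 546) (nat_lit 3040) (nat_lit 0) (XT.nd (nat_lit 234) (nat_lit 2128) (nat_lit 0) (XT.nd (nat_lit 78) (nat_lit 684) (nat_lit 0) (XT.lf (nat_lit 608) (nat_lit 247743059) (nat_lit 0) (nat_lit 50453055) (nat_lit 532) (nat_lit 2942893081) (nat_lit 339) (nat_lit 1) (nat_lit 331) (nat_lit 1) (nat_lit 338) (nat_lit 1) (nat_lit 350) (nat_lit 342) (nat_lit 328)) (XT.nd (nat_lit 78) (nat_lit 608) (nat_lit 0) (XT.lf (nat_lit 76) (nat_lit 2612345433) (nat_lit 0) (nat_lit 351054904) (nat_lit 608) (nat_lit 208264379) (nat_lit 331) (nat_lit 1) (nat_lit 330) (nat_lit 1) (nat_lit 338) (nat_lit 1) (nat_lit 351) (nat_lit 342) (nat_lit 327)) (XT.lf (nat_lit 76) (nat_lit 1705696435) (nat_lit 0) (nat_lit 959239606) (nat_lit 684) (nat_lit 439266928) (nat_lit 323) (nat_lit 1) (nat_lit 322) (nat_lit 1) (nat_lit 331) (nat_lit 1) (nat_lit 352) (nat_lit 342) (nat_lit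 326)))) (XT.nd (nat_lit 156) (nat_lit 1064) (nat_lit 0) (XT.nd (nat_lit 78) (nat_lit 532) (nat_lit 0) (XT.lf (nat_lit 76) (nat_lit 822153557) (nat_lit 0) (nat_lit 1576747296) (nat_lit 608) (nat_lit 639904311) (nat_lit 316) (nat_lit 1) (nat_lit 315) (nat_lit 1) (nat_lit 323) (nat_lit 1) (nat_lit 353) (nat_lit 342) (nat_lit 325)) (XT.lf (nat_lit 608) (nat_lit 772800151) (nat_lit 0) (nat_lit 2163213605) (nat_lit 532) (nat_lit 39375601) (nat_lit 316) (nat_lit 1) (nat_lit 308) (nat_lit 1) (nat_lit 315) (nat_lit 1) (nat_lit 354) (nat_lit 342) (nat_lit 324))) (XT.nd (nat_lit 78) (nat_lit 608) (nat_lit 0) (XT.lf (nat_lit 532) (nat_lit 70715605) (nat_lit 0) (nat_lit 1948574898) (nat_lit 456) (nat_lit 894373276) (nat_lit 309) (nat_lit 1) (nat_lit 302) (nat_lit 1) (nat_lit 308) (nat_lit 1) (nat_lit 355) (nat_lit 342) (nat_lit 323)) (XT.lf (nat_lit 76) (nat_lit 1133078340) (nat_lit 0) (nat_lit 622380493) (nat_lit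 608) (nat_lit 1098162888) (nat_lit 295) (nat_lit 1) (nat_lit 294) (nat_lit 1) (nat_lit 302) (nat_lit 1) (nat_lit 356) (nat_lit 342) (nat_lit 322))))) (XT.nd (nat_lit 234) (nat_lit 1672) (nat_lit 0) (XT.nd (nat_lit 78) (nat_lit 912) (nat_lit 0) (XT.lf (nat_lit 76) (nat_lit 271555223) (nat_lit 0) (nat_lit 1316399054) (nat_lit 532) (nat_lit 1207407875) (nat_lit 289) (nat_lit 1) (nat_lit 288) (nat_lit 1) (nat_lit 295) (nat_lit 1) (nat_lit 357) (nat_lit 342) (nat_lit 321)) (XT.nd (nat_lit 78) (nat_lit 456) (nat_lit 0) (XT.lf (nat_lit 532) (nat_lit 721364124) (nat_lit 0) (nat_lit 1439646535) (nat_lit 456) (nat_lit 577667830) (nat_lit 289) (nat_lit 1) (nat_lit 282) (nat_lit 1) (nat_lit 288) (nat_lit 1) (nat_lit 358) (nat_lit 342) (nat_lit 320)) (XT.lf (nat_lit 76) (nat_lit 1275264153) (nat_lit 0) (nat_lit 36779424) (nat_lit 456) (nat_lit 1371551710) (nat_lit 277) (nat_lit 1) (nat_lit 276) (nat_lit 1)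 (nat_lit 282) (nat_lit 1) (nat_lit 359) (nat_lit 342) (nat_lit 319)))) (XT.nd (nat_lit 156) (nat_lit 836) (nat_lit 0) (XT.nd (nat_lit 78) (nat_lit 380) (nat_lit 0) (XT.lf (nat_lit 76) (nat_lit 421207173) (nat_lit 0) (nat_lit 778656700) (nat_lit 532) (nat_lit 1430075846) (nat_lit 271) (nat_lit 1) (nat_lit 270) (nat_lit 1) (nat_lit 277) (nat_lit 1) (nat_lit 360) (nat_lit 342) (nat_lit 318)) (XT.lf (nat_lit 456) (nat_lit 1056092014) (nat_lit 0) (nat_lit 1104913805) (nat_lit 380) (nat_lit 416739941) (nat_lit 271) (nat_lit 1) (nat_lit 265) (nat_lit 1) (nat_lit 270) (nat_lit 1) (nat_lit 361) (nat_lit 342) (nat_lit 317))) (XT.nd (nat_lit 78) (nat_lit 456) (nat_lit 0) (XT.lf (nat_lit 456) (nat_lit 261946383) (nat_lit 0) (nat_lit 1026151234) (nat_lit 380) (nat_lit 1238867157) (nat_lit 266) (nat_lit 1) (nat_lit 260) (nat_lit 1) (nat_lit 265) (nat_lit 1) (nat_lit 362) (nat_lit 342) (nat_lit 316)) (XT.lf (nat_lit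 76) (nat_lit 445419441) (nat_lit 0) (nat_lit 516091615) (nat_lit 456) (nat_lit 1516007626) (nat_lit 255) (nat_lit 1) (nat_lit 254) (nat_lit 1) (nat_lit 260) (nat_lit 1) (nat_lit 363) (nat_lit 342) (nat_lit 315))))))) (XT.nd (nat_lit 1092) (nat_lit 3116) (nat_lit 0) (XT.nd (nat_lit 546) (nat_lit 1976) (nat_lit 0) (XT.nd (nat_lit 234) (nat_lit 1292) (nat_lit 0) (XT.nd (nat_lit 78) (nat_lit 760) (nat_lit 0) (XT.lf (nat_lit 456) (nat_lit 1142885929) (nat_lit 0) (nat_lit 908879135) (nat_lit 380) (nat_lit 377563249) (nat_lit 255) (nat_lit 1) (nat_lit 249) (nat_lit 1) (nat_lit 254) (nat_lit 1) (nat_lit 364) (nat_lit 342) (nat_lit 314)) (XT.nd (nat_lit 78) (nat_lit 456) (nat_lit 0) (XT.lf (nat_lit 380) (nat_lit 328128443) (nat_lit 0) (nat_lit 869327685) (nat_lit 304) (nat_lit 1184951513) (nat_lit 250) (nat_lit 1) (nat_lit 245) (nat_lit 1) (nat_lit 249) (nat_lit 1) (nat_lit 365) (nat_lit 342) (nat_lit 313))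 (XT.lf (nat_lit 76) (nat_lit 372988726) (nat_lit 0) (nat_lit 468669400) (nat_lit 456) (nat_lit 1495046702) (nat_lit 240) (nat_lit 1) (nat_lit 239) (nat_lit 1) (nat_lit 245) (nat_lit 1) (nat_lit 366) (nat_lit 342) (nat_lit 312)))) (XT.nd (nat_lit 156) (nat_lit 684) (nat_lit 0) (XT.nd (nat_lit 78) (nat_lit 304) (nat_lit 0) (XT.lf (nat_lit 380) (nat_lit 1037651616) (nat_lit 0) (nat_lit 822243617) (nat_lit 304) (nat_lit 432202399) (nat_lit 240) (nat_lit 1) (nat_lit 235) (nat_lit 1) (nat_lit 239) (nat_lit 1) (nat_lit 367) (nat_lit 342) (nat_lit 311)) (XT.lf (nat_lit 380) (nat_lit 214065693) (nat_lit 0) (nat_lit 814212245) (nat_lit 304) (nat_lit 1220382937) (nat_lit 236) (nat_lit 1) (nat_lit 231) (nat_lit 1) (nat_lit 235) (nat_lit 1) (nat_lit 368) (nat_lit 342) (nat_lit 310))) (XT.nd (nat_lit 78) (nat_lit 304) (nat_lit 0) (XT.lf (nat_lit 76) (nat_lit 227488149) (nat_lit 0) (nat_lit 587072387) (nat_lit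 380) (nat_lit 1391730561) (nat_lit 227) (nat_lit 1) (nat_lit 226) (nat_lit 1) (nat_lit 231) (nat_lit 1) (nat_lit 369) (nat_lit 342) (nat_lit 309)) (XT.lf (nat_lit 380) (nat_lit 786230303) (nat_lit 0) (nat_lit 820879318) (nat_lit 304) (nat_lit 557792832) (nat_lit 227) (nat_lit 1) (nat_lit 222) (nat_lit 1) (nat_lit 226) (nat_lit 1) (nat_lit 370) (nat_lit 342) (nat_lit 308))))) (XT.nd (nat_lit 234) (nat_lit 1140) (nat_lit 0) (XT.nd (nat_lit 78) (nat_lit 532) (nat_lit 0) (XT.lf (nat_lit 76) (nat_lit 801558255) (nat_lit 0) (nat_lit 36064908) (nat_lit 304) (nat_lit 1286986148) (nat_lit 219) (nat_lit 1) (nat_lit 218) (nat_lit 1) (nat_lit 222) (nat_lit 1) (nat_lit 371) (nat_lit 342) (nat_lit 307)) (XT.nd (nat_lit 78) (nat_lit 228) (nat_lit 0) (XT.lf (nat_lit 76) (nat_lit 28146004) (nat_lit 0) (nat_lit 830908033) (nat_lit 380) (nat_lit 1226175427) (nat_lit 215) (nat_lit 1) (nat_lit 214) (nat_lit 1) (nat_lit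 219) (nat_lit 1) (nat_lit 372) (nat_lit 342) (nat_lit 306)) (XT.lf (nat_lit 304) (nat_lit 426085842) (nat_lit 0) (nat_lit 884968938) (nat_lit 228) (nat_lit 735687422) (nat_lit 215) (nat_lit 1) (nat_lit 211) (nat_lit 1) (nat_lit 214) (nat_lit 1) (nat_lit 373) (nat_lit 342) (nat_lit 305)))) (XT.nd (nat_lit 156) (nat_lit 532) (nat_lit 0) (XT.nd (nat_lit 78) (nat_lit 228) (nat_lit 0) (XT.lf (nat_lit 76) (nat_lit 536746550) (nat_lit 0) (nat_lit 381333892) (nat_lit 380) (nat_lit 1091131574) (nat_lit 207) (nat_lit 1) (nat_lit 206) (nat_lit 1) (nat_lit 211) (nat_lit 1) (nat_lit 374) (nat_lit 342) (nat_lit 304)) (XT.lf (nat_lit 304) (nat_lit 803282515) (nat_lit 0) (nat_lit 955675874) (nat_lit 228) (nat_lit 213587271) (nat_lit 207) (nat_lit 1) (nat_lit 203) (nat_lit 1) (nat_lit 206) (nat_lit 1) (nat_lit 375) (nat_lit 342) (nat_lit 303))) (XT.nd (nat_lit 78) (nat_lit 228) (nat_lit 0) (XT.lf (nat_lit 76) (nat_lit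 986119782) (nat_lit 0) (nat_lit 12044338) (nat_lit 304) (nat_lit 938576959) (nat_lit 200) (nat_lit 1) (nat_lit 199) (nat_lit 1) (nat_lit 203) (nat_lit 1) (nat_lit 376) (nat_lit 342) (nat_lit 302)) (XT.lf (nat_lit 76) (nat_lit 245067262) (nat_lit 0) (nat_lit 797610813) (nat_lit 304) (nat_lit 859022987) (nat_lit 197) (nat_lit 1) (nat_lit 196) (nat_lit 1) (nat_lit 200) (nat_lit 1) (nat_lit 377) (nat_lit 342) (nat_lit 301)))))) (XT.nd (nat_lit 546) (nat_lit 1444) (nat_lit 0) (XT.nd (nat_lit 234) (nat_lit 912) (nat_lit 0) (XT.nd (nat_lit 78) (nat_lit 532) (nat_lit 0) (XT.lf (nat_lit 304) (nat_lit 293670358) (nat_lit 0) (nat_lit 1091826834) (nat_lit 228) (nat_lit 481990971) (nat_lit 197) (nat_lit 1) (nat_lit 193) (nat_lit 1) (nat_lit 196) (nat_lit 1) (nat_lit 378) (nat_lit 342) (nat_lit 300)) (XT.nd (nat_lit 78) (nat_lit 228) (nat_lit 0) (XT.lf (nat_lit 76) (nat_lit 648269738) (nat_lit 0) (nat_lit 494329567)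 (nat_lit 304) (nat_lit 691402195) (nat_lit 190) (nat_lit 1) (nat_lit 189) (nat_lit 1) (nat_lit 193) (nat_lit 1) (nat_lit 379) (nat_lit 342) (nat_lit 299)) (XT.lf (nat_lit 304) (nat_lit 538735581) (nat_lit 0) (nat_lit 1198539137) (nat_lit 228) (nat_lit 64056631) (nat_lit 190) (nat_lit 1) (nat_lit 186) (nat_lit 1) (nat_lit 189) (nat_lit 1) (nat_lit 380) (nat_lit 342) (nat_lit 298)))) (XT.nd (nat_lit 156) (nat_lit 456) (nat_lit 0) (XT.nd (nat_lit 78) (nat_lit 228) (nat_lit 0) (XT.lf (nat_lit 76) (nat_lit 1005639771) (nat_lit 0) (nat_lit 248217972) (nat_lit 228) (nat_lit 515438687) (nat_lit 184) (nat_lit 1) (nat_lit 183) (nat_lit 1) (nat_lit 186) (nat_lit 1) (nat_lit 381) (nat_lit 342) (nat_lit 297)) (XT.lf (nat_lit 76) (nat_lit 302374823) (nat_lit 0) (nat_lit 1009560885) (nat_lit 304) (nat_lit 426047050) (nat_lit 181) (nat_lit 1) (nat_lit 180) (nat_lit 1) (nat_lit 184) (nat_lit 1) (nat_lit 382) (nat_lit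 342) (nat_lit 296))) (XT.nd (nat_lit 78) (nat_lit 228) (nat_lit 0) (XT.lf (nat_lit 76) (nat_lit 1322019829) (nat_lit 0) (nat_lit 51277821) (nat_lit 228) (nat_lit 334095757) (nat_lit 178) (nat_lit 1) (nat_lit 177) (nat_lit 1) (nat_lit 180) (nat_lit 1) (nat_lit 383) (nat_lit 342) (nat_lit 295)) (XT.lf (nat_lit 76) (nat_lit 627605742) (nat_lit 0) (nat_lit 804307449) (nat_lit 304) (nat_lit 245427570) (nat_lit 175) (nat_lit 1) (nat_lit 174) (nat_lit 1) (nat_lit 178) (nat_lit 1) (nat_lit 384) (nat_lit 342) (nat_lit 294))))) (XT.nd (nat_lit 234) (nat_lit 760) (nat_lit 0) (XT.nd (nat_lit 78) (nat_lit 532) (nat_lit 0) (XT.lf (nat_lit 228) (nat_lit 105538251) (nat_lit 0) (nat_lit 1497190040) (nat_lit 152) (nat_lit 45358795) (nat_lit 175) (nat_lit 1) (nat_lit 172) (nat_lit 1) (nat_lit 174) (nat_lit 1) (nat_lit 385) (nat_lit 342) (nat_lit 293)) (XT.nd (nat_lit 78) (nat_lit 304) (nat_lit 0) (XT.lf (nat_lit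 76) (nat_lit 917018756) (nat_lit 0) (nat_lit 639561898) (nat_lit 228) (nat_lit 62674739) (nat_lit 170) (nat_lit 1) (nat_lit 169) (nat_lit 1) (nat_lit 172) (nat_lit 1) (nat_lit 386) (nat_lit 342) (nat_lit 292)) (XT.lf (nat_lit 228) (nat_lit 223697646) (nat_lit 0) (nat_lit 31020219) (nat_lit 152) (nat_lit 1336442497) (nat_lit 168) (nat_lit 1) (nat_lit 165) (nat_lit 1) (nat_lit 167) (nat_lit 1) (nat_lit 387) (nat_lit 342) (nat_lit 291)))) (XT.nd (nat_lit 156) (nat_lit 380) (nat_lit 0) (XT.nd (nat_lit 78) (nat_lit 152) (nat_lit 0) (XT.lf (nat_lit 228) (nat_lit 1052847843) (nat_lit 0) (nat_lit 122622585) (nat_lit 152) (nat_lit 388067358) (nat_lit 165) (nat_lit 1) (nat_lit 162) (nat_lit 1) (nat_lit 164) (nat_lit 1) (nat_lit 388) (nat_lit 342) (nat_lit 290)) (XT.lf (nat_lit 228) (nat_lit 308836998) (nat_lit 0) (nat_lit 215084495) (nat_lit 152) (nat_lit 1012595715) (nat_lit 163) (nat_lit 1) (nat_lit 160)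 (nat_lit 1) (nat_lit 162) (nat_lit 1) (nat_lit 389) (nat_lit 342) (nat_lit 289))) (XT.nd (nat_lit 78) (nat_lit 152) (nat_lit 0) (XT.lf (nat_lit 228) (nat_lit 1098023844) (nat_lit 0) (nat_lit 307633351) (nat_lit 152) (nat_lit 104407942) (nat_lit 160) (nat_lit 1) (nat_lit 157) (nat_lit 1) (nat_lit 159) (nat_lit 1) (nat_lit 390) (nat_lit 342) (nat_lit 288)) (XT.lf (nat_lit 228) (nat_lit 367638788) (nat_lit 0) (nat_lit 397158835) (nat_lit 152) (nat_lit 719282577) (nat_lit 158) (nat_lit 1) (nat_lit 155) (nat_lit 1) (nat_lit 157) (nat_lit 1) (nat_lit 391) (nat_lit 342) (nat_lit 287))))))))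
noncomputable def ec17 : XT := (XT.nd (nat_lit 50388) (nat_lit 0) (nat_lit 1900) (XT.nd (nat_lit 49296) (nat_lit 0) (nat_lit 10488) (XT.nd (nat_lit 48750) (nat_lit 0) (nat_lit 16644) (XT.nd (nat_lit 234) (nat_lit 304) (nat_lit 0) (XT.nd (nat_lit 78) (nat_lit 304) (nat_lit 0) (XT.lf (nat_lit 76) (nat_lit 148193094) (nat_lit 0) (nat_lit 340020684) (nat_lit 228) (nat_lit 970470652) (nat_lit 153) (nat_lit 1) (nat_lit 152) (nat_lit 1) (nat_lit 155) (nat_lit 1) (nat_lit 392) (nat_lit 342) (nat_lit 286)) (XT.nd (nat_lit 78) (nat_lit 152) (nat_lit 0) (XT.lf (nat_lit 228) (nat_lit 404205805) (nat_lit 0) (nat_lit 575938269) (nat_lit 152) (nat_lit 453581826) (nat_lit 153) (nat_lit 1) (nat_lit 150) (nat_lit 1) (nat_lit 152) (nat_lit 1) (nat_lit 393) (nat_lit 342) (nat_lit 285)) (XT.lf (nat_lit 76) (nat_lit 373853528) (nat_lit 0) (nat_lit 290074752) (nat_lit 152) (nat_lit 745370893) (nat_lit 149) (nat_lit 1)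 (nat_lit 148) (nat_lit 1) (nat_lit 150) (nat_lit 1) (nat_lit 394) (nat_lit 342) (nat_lit 284)))) (XT.nd (nat_lit 48360) (nat_lit 0) (nat_lit 17480) (XT.nd (nat_lit 78) (nat_lit 152) (nat_lit 0) (XT.lf (nat_lit 228) (nat_lit 422104707) (nat_lit 0) (nat_lit 750354794) (nat_lit 152) (nat_lit 212881493) (nat_lit 149) (nat_lit 1) (nat_lit 146) (nat_lit 1) (nat_lit 148) (nat_lit 1) (nat_lit 395) (nat_lit 342) (nat_lit 283)) (XT.lf (nat_lit 76) (nat_lit 576986915) (nat_lit 0) (nat_lit 257866422) (nat_lit 152) (nat_lit 526977617) (nat_lit 145) (nat_lit 1) (nat_lit 144) (nat_lit 1) (nat_lit 146) (nat_lit 1) (nat_lit 396) (nat_lit 342) (nat_lit 282))) (XT.nd (nat_lit 78) (nat_lit 0) (nat_lit 76) (XT.lf (nat_lit 1292) (nat_lit 431750227) (nat_lit 0) (nat_lit 1485421574) (nat_lit 1292) (nat_lit 431750227) (nat_lit 391) (nat_lit 1) (nat_lit 374) (nat_lit 0) (nat_lit 391) (nat_lit 0) (nat_lit 334) (nat_lit 343)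 (nat_lit 343)) (XT.lf (nat_lit 1292) (nat_lit 34614172) (nat_lit 0) (nat_lit 2928938988) (nat_lit 1216) (nat_lit 1621572559) (nat_lit 392) (nat_lit 1) (nat_lit 375) (nat_lit 1) (nat_lit 391) (nat_lit 1) (nat_lit 335) (nat_lit 343) (nat_lit 342))))) (XT.nd (nat_lit 234) (nat_lit 912) (nat_lit 0) (XT.nd (nat_lit 78) (nat_lit 0) (nat_lit 76) (XT.lf (nat_lit 1292) (nat_lit 1522874766) (nat_lit 76) (nat_lit 2154050630) (nat_lit 0) (nat_lit 798930987) (nat_lit 392) (nat_lit 1) (nat_lit 376) (nat_lit 1) (nat_lit 375) (nat_lit 1) (nat_lit 336) (nat_lit 343) (nat_lit 341)) (XT.nd (nat_lit 78) (nat_lit 0) (nat_lit 76) (XT.lf (nat_lit 1292) (nat_lit 1338736052) (nat_lit 76) (nat_lit 1409980274) (nat_lit 0) (nat_lit 1621408732) (nat_lit 393) (nat_lit 1) (nat_lit 377) (nat_lit 1) (nat_lit 376) (nat_lit 1) (nat_lit 337) (nat_lit 343) (nat_lit 340)) (XT.lf (nat_lit 1292) (nat_lit 1107894227) (nat_lit 76) (nat_lit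 728328461) (nat_lit 0) (nat_lit 2431590193) (nat_lit 394) (nat_lit 1) (nat_lit 378) (nat_lit 1) (nat_lit 377) (nat_lit 1) (nat_lit 338) (nat_lit 343) (nat_lit 339)))) (XT.nd (nat_lit 156) (nat_lit 1140) (nat_lit 0) (XT.nd (nat_lit 78) (nat_lit 0) (nat_lit 76) (XT.lf (nat_lit 1292) (nat_lit 833909190) (nat_lit 76) (nat_lit 105888185) (nat_lit 0) (nat_lit 3228998569) (nat_lit 395) (nat_lit 1) (nat_lit 379) (nat_lit 1) (nat_lit 378) (nat_lit 1) (nat_lit 339) (nat_lit 343) (nat_lit 338)) (XT.lf (nat_lit 1292) (nat_lit 64164865) (nat_lit 0) (nat_lit 3557243159) (nat_lit 1216) (nat_lit 451414472) (nat_lit 396) (nat_lit 1) (nat_lit 379) (nat_lit 1) (nat_lit 395) (nat_lit 1) (nat_lit 340) (nat_lit 343) (nat_lit 337))) (XT.nd (nat_lit 78) (nat_lit 1216) (nat_lit 0) (XT.lf (nat_lit 1292) (nat_lit 152084689) (nat_lit 76) (nat_lit 3017422671) (nat_lit 0) (nat_lit 810154862) (nat_lit 396) (nat_lit 1) (nat_lit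 380) (nat_lit 1) (nat_lit 379) (nat_lit 1) (nat_lit 341) (nat_lit 343) (nat_lit 336)) (XT.lf (nat_lit 1368) (nat_lit 2222716006) (nat_lit 0) (nat_lit 240252354) (nat_lit 1292) (nat_lit 1426415638) (nat_lit 381) (nat_lit 1) (nat_lit 363) (nat_lit 1) (nat_lit 380) (nat_lit 1) (nat_lit 342) (nat_lit 343) (nat_lit 335)))))) (XT.nd (nat_lit 546) (nat_lit 3648) (nat_lit 0) (XT.nd (nat_lit 234) (nat_lit 1824) (nat_lit 0) (XT.nd (nat_lit 78) (nat_lit 760) (nat_lit 0) (XT.lf (nat_lit 1368) (nat_lit 1297387285) (nat_lit 0) (nat_lit 659224158) (nat_lit 1292) (nat_lit 1845307208) (nat_lit 382) (nat_lit 1) (nat_lit 364) (nat_lit 1) (nat_lit 381) (nat_lit 1) (nat_lit 343) (nat_lit 343) (nat_lit 334)) (XT.nd (nat_lit 78) (nat_lit 836) (nat_lit 0) (XT.lf (nat_lit 76) (nat_lit 392077320) (nat_lit 0) (nat_lit 1105228429) (nat_lit 1292) (nat_lit 2219903067) (nat_lit 366) (nat_lit 1) (nat_lit 365) (nat_lit 1) (nat_lit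 382) (nat_lit 1) (nat_lit 344) (nat_lit 343) (nat_lit 333)) (XT.lf (nat_lit 912) (nat_lit 2054329837) (nat_lit 0) (nat_lit 1077636506) (nat_lit 836) (nat_lit 503045803) (nat_lit 366) (nat_lit 1) (nat_lit 354) (nat_lit 1) (nat_lit 365) (nat_lit 1) (nat_lit 345) (nat_lit 343) (nat_lit 332)))) (XT.nd (nat_lit 156) (nat_lit 608) (nat_lit 0) (XT.nd (nat_lit 78) (nat_lit 608) (nat_lit 0) (XT.lf (nat_lit 684) (nat_lit 1473147152) (nat_lit 0) (nat_lit 696505060) (nat_lit 608) (nat_lit 1385618547) (nat_lit 355) (nat_lit 1) (nat_lit 346) (nat_lit 1) (nat_lit 354) (nat_lit 1) (nat_lit 346) (nat_lit 343) (nat_lit 331)) (XT.lf (nat_lit 684) (nat_lit 874439746) (nat_lit 0) (nat_lit 355655676) (nat_lit 608) (nat_lit 2247914653) (nat_lit 347) (nat_lit 1) (nat_lit 338) (nat_lit 1) (nat_lit 346) (nat_lit 1) (nat_lit 347) (nat_lit 343) (nat_lit 330))) (XT.nd (nat_lit 78) (nat_lit 76) (nat_lit 0) (XT.lf (nat_lit 608)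 (nat_lit 260130212) (nat_lit 0) (nat_lit 52975708) (nat_lit 532) (nat_lit 3090037736) (nat_lit 339) (nat_lit 1) (nat_lit 331) (nat_lit 1) (nat_lit 338) (nat_lit 1) (nat_lit 348) (nat_lit 343) (nat_lit 329)) (XT.lf (nat_lit 76) (nat_lit 2742962704) (nat_lit 0) (nat_lit 368607649) (nat_lit 608) (nat_lit 218677598) (nat_lit 331) (nat_lit 1) (nat_lit 330) (nat_lit 1) (nat_lit 338) (nat_lit 1) (nat_lit 349) (nat_lit 343) (nat_lit 328))))) (XT.nd (nat_lit 234) (nat_lit 1976) (nat_lit 0) (XT.nd (nat_lit 78) (nat_lit 1064) (nat_lit 0) (XT.lf (nat_lit 76) (nat_lit 1790981257) (nat_lit 0) (nat_lit 1007201587) (nat_lit 684) (nat_lit 461230275) (nat_lit 323) (nat_lit 1) (nat_lit 322) (nat_lit 1) (nat_lit 331) (nat_lit 1) (nat_lit 350) (nat_lit 343) (nat_lit 327)) (XT.nd (nat_lit 78) (nat_lit 532) (nat_lit 0) (XT.lf (nat_lit 76) (nat_lit 863261234) (nat_lit 0) (nat_lit 1655584660) (nat_lit 608) (nat_lit 671899526)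 (nat_lit 316) (nat_lit 1) (nat_lit 315) (nat_lit 1) (nat_lit 323) (nat_lit 1) (nat_lit 351) (nat_lit 343) (nat_lit 326)) (XT.lf (nat_lit 608) (nat_lit 811440159) (nat_lit 0) (nat_lit 2271374285) (nat_lit 532) (nat_lit 41344381) (nat_lit 316) (nat_lit 1) (nat_lit 308) (nat_lit 1) (nat_lit 315) (nat_lit 1) (nat_lit 352) (nat_lit 343) (nat_lit 325)))) (XT.nd (nat_lit 156) (nat_lit 912) (nat_lit 0) (XT.nd (nat_lit 78) (nat_lit 608) (nat_lit 0) (XT.lf (nat_lit 532) (nat_lit 74251386) (nat_lit 0) (nat_lit 2046003643) (nat_lit 456) (nat_lit 939091940) (nat_lit 309) (nat_lit 1) (nat_lit 302) (nat_lit 1) (nat_lit 308) (nat_lit 1) (nat_lit 353) (nat_lit 343) (nat_lit 324)) (XT.lf (nat_lit 76) (nat_lit 1189732257) (nat_lit 0) (nat_lit 653499518) (nat_lit 608) (nat_lit 1153071033) (nat_lit 295) (nat_lit 1) (nat_lit 294) (nat_lit 1) (nat_lit 302) (nat_lit 1) (nat_lit 354) (nat_lit 343) (nat_lit 323))) (XT.nd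 (nat_lit 78) (nat_lit 456) (nat_lit 0) (XT.lf (nat_lit 76) (nat_lit 285132984) (nat_lit 0) (nat_lit 1382219006) (nat_lit 532) (nat_lit 1267778269) (nat_lit 289) (nat_lit 1) (nat_lit 288) (nat_lit 1) (nat_lit 295) (nat_lit 1) (nat_lit 355) (nat_lit 343) (nat_lit 322)) (XT.lf (nat_lit 532) (nat_lit 757432330) (nat_lit 0) (nat_lit 1511628862) (nat_lit 456) (nat_lit 606551221) (nat_lit 289) (nat_lit 1) (nat_lit 282) (nat_lit 1) (nat_lit 288) (nat_lit 1) (nat_lit 356) (nat_lit 343) (nat_lit 321))))))) (XT.nd (nat_lit 1092) (nat_lit 3420) (nat_lit 0) (XT.nd (nat_lit 546) (nat_lit 2356) (nat_lit 0) (XT.nd (nat_lit 234) (nat_lit 1520) (nat_lit 0) (XT.nd (nat_lit 78) (nat_lit 836) (nat_lit 0) (XT.lf (nat_lit 76) (nat_lit 1339027361) (nat_lit 0) (nat_lit 38618396) (nat_lit 456) (nat_lit 1440129295) (nat_lit 277) (nat_lit 1) (nat_lit 276) (nat_lit 1) (nat_lit 282) (nat_lit 1) (nat_lit 357) (nat_lit 343) (nat_lit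 320)) (XT.nd (nat_lit 78) (nat_lit 380) (nat_lit 0) (XT.lf (nat_lit 76) (nat_lit 442267532) (nat_lit 0) (nat_lit 817589535) (nat_lit 532) (nat_lit 1501579638) (nat_lit 271) (nat_lit 1) (nat_lit 270) (nat_lit 1) (nat_lit 277) (nat_lit 1) (nat_lit 358) (nat_lit 343) (nat_lit 319)) (XT.lf (nat_lit 456) (nat_lit 1108896614) (nat_lit 0) (nat_lit 1160159495) (nat_lit 380) (nat_lit 437576938) (nat_lit 271) (nat_lit 1) (nat_lit 265) (nat_lit 1) (nat_lit 270) (nat_lit 1) (nat_lit 359) (nat_lit 343) (nat_lit 318)))) (XT.nd (nat_lit 156) (nat_lit 684) (nat_lit 0) (XT.nd (nat_lit 78) (nat_lit 456) (nat_lit 0) (XT.lf (nat_lit 456) (nat_lit 275043702) (nat_lit 0) (nat_lit 1077458796) (nat_lit 380) (nat_lit 1300810515) (nat_lit 266) (nat_lit 1) (nat_lit 260) (nat_lit 1) (nat_lit 265) (nat_lit 1) (nat_lit 360) (nat_lit 343) (nat_lit 317)) (XT.lf (nat_lit 76) (nat_lit 467690413) (nat_lit 0) (nat_lit 541896196)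 (nat_lit 456) (nat_lit 1591808007) (nat_lit 255) (nat_lit 1) (nat_lit 254) (nat_lit 1) (nat_lit 260) (nat_lit 1) (nat_lit 361) (nat_lit 343) (nat_lit 316))) (XT.nd (nat_lit 78) (nat_lit 304) (nat_lit 0) (XT.lf (nat_lit 456) (nat_lit 1200030226) (nat_lit 0) (nat_lit 954323092) (nat_lit 380) (nat_lit 396441411) (nat_lit 255) (nat_lit 1) (nat_lit 249) (nat_lit 1) (nat_lit 254) (nat_lit 1) (nat_lit 362) (nat_lit 343) (nat_lit 315)) (XT.lf (nat_lit 380) (nat_lit 344534865) (nat_lit 0) (nat_lit 912794069) (nat_lit 304) (nat_lit 1244199089) (nat_lit 250) (nat_lit 1) (nat_lit 245) (nat_lit 1) (nat_lit 249) (nat_lit 1) (nat_lit 363) (nat_lit 343) (nat_lit 314))))) (XT.nd (nat_lit 234) (nat_lit 1292) (nat_lit 0) (XT.nd (nat_lit 78) (nat_lit 608) (nat_lit 0) (XT.lf (nat_lit 76) (nat_lit 391638163) (nat_lit 0) (nat_lit 492102870) (nat_lit 456) (nat_lit 1569799037) (nat_lit 240) (nat_lit 1) (nat_lit 239) (nat_lit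 1) (nat_lit 245) (nat_lit 1) (nat_lit 364) (nat_lit 343) (nat_lit 313)) (XT.nd (nat_lit 78) (nat_lit 304) (nat_lit 0) (XT.lf (nat_lit 380) (nat_lit 1089534197) (nat_lit 0) (nat_lit 863355798) (nat_lit 304) (nat_lit 453812519) (nat_lit 240) (nat_lit 1) (nat_lit 235) (nat_lit 1) (nat_lit 239) (nat_lit 1) (nat_lit 365) (nat_lit 343) (nat_lit 312)) (XT.lf (nat_lit 380) (nat_lit 224768977) (nat_lit 0) (nat_lit 854922858) (nat_lit 304) (nat_lit 1281402084) (nat_lit 236) (nat_lit 1) (nat_lit 231) (nat_lit 1) (nat_lit 235) (nat_lit 1) (nat_lit 366) (nat_lit 343) (nat_lit 311)))) (XT.nd (nat_lit 156) (nat_lit 608) (nat_lit 0) (XT.nd (nat_lit 78) (nat_lit 304) (nat_lit 0) (XT.lf (nat_lit 76) (nat_lit 238862556) (nat_lit 0) (nat_lit 616426007) (nat_lit 380) (nat_lit 1461317089) (nat_lit 227) (nat_lit 1) (nat_lit 226) (nat_lit 1) (nat_lit 231) (nat_lit 1) (nat_lit 367) (nat_lit 343) (nat_lit 310)) (XT.lf (nat_lit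 380) (nat_lit 825541818) (nat_lit 0) (nat_lit 861923284) (nat_lit 304) (nat_lit 585682473) (nat_lit 227) (nat_lit 1) (nat_lit 222) (nat_lit 1) (nat_lit 226) (nat_lit 1) (nat_lit 368) (nat_lit 343) (nat_lit 309))) (XT.nd (nat_lit 78) (nat_lit 304) (nat_lit 0) (XT.lf (nat_lit 76) (nat_lit 841636168) (nat_lit 0) (nat_lit 37868154) (nat_lit 304) (nat_lit 1351335456) (nat_lit 219) (nat_lit 1) (nat_lit 218) (nat_lit 1) (nat_lit 222) (nat_lit 1) (nat_lit 369) (nat_lit 343) (nat_lit 308)) (XT.lf (nat_lit 76) (nat_lit 29553305) (nat_lit 0) (nat_lit 872453434) (nat_lit 380) (nat_lit 1287484198) (nat_lit 215) (nat_lit 1) (nat_lit 214) (nat_lit 1) (nat_lit 219) (nat_lit 1) (nat_lit 370) (nat_lit 343) (nat_lit 307)))))) (XT.nd (nat_lit 546) (nat_lit 1520) (nat_lit 0) (XT.nd (nat_lit 234) (nat_lit 1064) (nat_lit 0) (XT.nd (nat_lit 78) (nat_lit 608) (nat_lit 0) (XT.lf (nat_lit 304) (nat_lit 447390134) (nat_lit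 0) (nat_lit 929217384) (nat_lit 228) (nat_lit 772471793) (nat_lit 215) (nat_lit 1) (nat_lit 211) (nat_lit 1) (nat_lit 214) (nat_lit 1) (nat_lit 371) (nat_lit 343) (nat_lit 306)) (XT.nd (nat_lit 78) (nat_lit 228) (nat_lit 0) (XT.lf (nat_lit 76) (nat_lit 563583877) (nat_lit 0) (nat_lit 400400587) (nat_lit 380) (nat_lit 1145688152) (nat_lit 207) (nat_lit 1) (nat_lit 206) (nat_lit 1) (nat_lit 211) (nat_lit 1) (nat_lit 372) (nat_lit 343) (nat_lit 305)) (XT.lf (nat_lit 304) (nat_lit 843446641) (nat_lit 0) (nat_lit 1003459668) (nat_lit 228) (nat_lit 224266634) (nat_lit 207) (nat_lit 1) (nat_lit 203) (nat_lit 1) (nat_lit 206) (nat_lit 1) (nat_lit 373) (nat_lit 343) (nat_lit 304)))) (XT.nd (nat_lit 156) (nat_lit 532) (nat_lit 0) (XT.nd (nat_lit 78) (nat_lit 228) (nat_lit 0) (XT.lf (nat_lit 76) (nat_lit 1035425771) (nat_lit 0) (nat_lit 12646554) (nat_lit 304) (nat_lit 985505807) (nat_lit 200) (nat_lit 1)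 (nat_lit 199) (nat_lit 1) (nat_lit 203) (nat_lit 1) (nat_lit 374) (nat_lit 343) (nat_lit 303)) (XT.lf (nat_lit 76) (nat_lit 257320625) (nat_lit 0) (nat_lit 837491353) (nat_lit 304) (nat_lit 901974136) (nat_lit 197) (nat_lit 1) (nat_lit 196) (nat_lit 1) (nat_lit 200) (nat_lit 1) (nat_lit 375) (nat_lit 343) (nat_lit 302))) (XT.nd (nat_lit 78) (nat_lit 304) (nat_lit 0) (XT.lf (nat_lit 304) (nat_lit 308353876) (nat_lit 0) (nat_lit 1146418176) (nat_lit 228) (nat_lit 506090519) (nat_lit 197) (nat_lit 1) (nat_lit 193) (nat_lit 1) (nat_lit 196) (nat_lit 1) (nat_lit 376) (nat_lit 343) (nat_lit 301)) (XT.lf (nat_lit 76) (nat_lit 680683225) (nat_lit 0) (nat_lit 519046045) (nat_lit 304) (nat_lit 725972304) (nat_lit 190) (nat_lit 1) (nat_lit 189) (nat_lit 1) (nat_lit 193) (nat_lit 1) (nat_lit 377) (nat_lit 343) (nat_lit 300))))) (XT.nd (nat_lit 234) (nat_lit 836) (nat_lit 0) (XT.nd (nat_lit 78) (nat_lit 456)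 (nat_lit 0) (XT.lf (nat_lit 304) (nat_lit 565672360) (nat_lit 0) (nat_lit 1258466094) (nat_lit 228) (nat_lit 67259463) (nat_lit 190) (nat_lit 1) (nat_lit 186) (nat_lit 1) (nat_lit 189) (nat_lit 1) (nat_lit 378) (nat_lit 343) (nat_lit 299)) (XT.nd (nat_lit 78) (nat_lit 228) (nat_lit 0) (XT.lf (nat_lit 76) (nat_lit 1055921759) (nat_lit 0) (nat_lit 260628870) (nat_lit 228) (nat_lit 541210621) (nat_lit 184) (nat_lit 1) (nat_lit 183) (nat_lit 1) (nat_lit 186) (nat_lit 1) (nat_lit 379) (nat_lit 343) (nat_lit 298)) (XT.lf (nat_lit 76) (nat_lit 317493564) (nat_lit 0) (nat_lit 1060038929) (nat_lit 304) (nat_lit 447349403) (nat_lit 181) (nat_lit 1) (nat_lit 180) (nat_lit 1) (nat_lit 184) (nat_lit 1) (nat_lit 380) (nat_lit 343) (nat_lit 297)))) (XT.nd (nat_lit 156) (nat_lit 380) (nat_lit 0) (XT.nd (nat_lit 78) (nat_lit 228) (nat_lit 0) (XT.lf (nat_lit 76) (nat_lit 1388120821) (nat_lit 0) (nat_lit 53841712)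 (nat_lit 228) (nat_lit 350800545) (nat_lit 178) (nat_lit 1) (nat_lit 177) (nat_lit 1) (nat_lit 180) (nat_lit 1) (nat_lit 381) (nat_lit 343) (nat_lit 296)) (XT.lf (nat_lit 76) (nat_lit 658986030) (nat_lit 0) (nat_lit 844522822) (nat_lit 304) (nat_lit 257698949) (nat_lit 175) (nat_lit 1) (nat_lit 174) (nat_lit 1) (nat_lit 178) (nat_lit 1) (nat_lit 382) (nat_lit 343) (nat_lit 295))) (XT.nd (nat_lit 78) (nat_lit 228) (nat_lit 0) (XT.lf (nat_lit 228) (nat_lit 110815163) (nat_lit 0) (nat_lit 1572049542) (nat_lit 152) (nat_lit 47626734) (nat_lit 175) (nat_lit 1) (nat_lit 172) (nat_lit 1) (nat_lit 174) (nat_lit 1) (nat_lit 383) (nat_lit 343) (nat_lit 294)) (XT.lf (nat_lit 76) (nat_lit 962869694) (nat_lit 0) (nat_lit 671539993) (nat_lit 228) (nat_lit 65808476) (nat_lit 170) (nat_lit 1) (nat_lit 169) (nat_lit 1) (nat_lit 172) (nat_lit 1) (nat_lit 384) (nat_lit 343) (nat_lit 293))))))))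
noncomputable def ec18 : XT := (XT.nd (nat_lit 50232) (nat_lit 0) (nat_lit 3724) (XT.nd (nat_lit 49140) (nat_lit 0) (nat_lit 14440) (XT.nd (nat_lit 546) (nat_lit 760) (nat_lit 0) (XT.nd (nat_lit 234) (nat_lit 760) (nat_lit 0) (XT.nd (nat_lit 78) (nat_lit 380) (nat_lit 0) (XT.lf (nat_lit 228) (nat_lit 234882529) (nat_lit 0) (nat_lit 32571230) (nat_lit 152) (nat_lit 1403264622) (nat_lit 168) (nat_lit 1) (nat_lit 165) (nat_lit 1) (nat_lit 167) (nat_lit 1) (nat_lit 385) (nat_lit 343) (nat_lit 292)) (XT.nd (nat_lit 78) (nat_lit 152) (nat_lit 0) (XT.lf (nat_lit 228) (nat_lit 1105490235) (nat_lit 0) (nat_lit 128753714) (nat_lit 152) (nat_lit 407470726) (nat_lit 165) (nat_lit 1) (nat_lit 162) (nat_lit 1) (nat_lit 164) (nat_lit 1) (nat_lit 386) (nat_lit 343) (nat_lit 291)) (XT.lf (nat_lit 228) (nat_lit 324278848) (nat_lit 0) (nat_lit 225838720) (nat_lit 152) (nat_lit 1063225501) (nat_lit 163) (nat_lit 1)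 (nat_lit 160) (nat_lit 1) (nat_lit 162) (nat_lit 1) (nat_lit 387) (nat_lit 343) (nat_lit 290)))) (XT.nd (nat_lit 156) (nat_lit 380) (nat_lit 0) (XT.nd (nat_lit 78) (nat_lit 152) (nat_lit 0) (XT.lf (nat_lit 228) (nat_lit 1152925036) (nat_lit 0) (nat_lit 323015019) (nat_lit 152) (nat_lit 109628339) (nat_lit 160) (nat_lit 1) (nat_lit 157) (nat_lit 1) (nat_lit 159) (nat_lit 1) (nat_lit 388) (nat_lit 343) (nat_lit 289)) (XT.lf (nat_lit 228) (nat_lit 386020728) (nat_lit 0) (nat_lit 417016777) (nat_lit 152) (nat_lit 755246706) (nat_lit 158) (nat_lit 1) (nat_lit 155) (nat_lit 1) (nat_lit 157) (nat_lit 1) (nat_lit 389) (nat_lit 343) (nat_lit 288))) (XT.nd (nat_lit 78) (nat_lit 152) (nat_lit 0) (XT.lf (nat_lit 76) (nat_lit 155602749) (nat_lit 0) (nat_lit 357021718) (nat_lit 228) (nat_lit 1018994184) (nat_lit 153) (nat_lit 1) (nat_lit 152) (nat_lit 1) (nat_lit 155) (nat_lit 1) (nat_lit 390) (nat_lit 343)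 (nat_lit 287)) (XT.lf (nat_lit 228) (nat_lit 424416095) (nat_lit 0) (nat_lit 604735183) (nat_lit 152) (nat_lit 476260918) (nat_lit 153) (nat_lit 1) (nat_lit 150) (nat_lit 1) (nat_lit 152) (nat_lit 1) (nat_lit 391) (nat_lit 343) (nat_lit 286))))) (XT.nd (nat_lit 234) (nat_lit 304) (nat_lit 0) (XT.nd (nat_lit 78) (nat_lit 304) (nat_lit 0) (XT.lf (nat_lit 76) (nat_lit 392546204) (nat_lit 0) (nat_lit 304578490) (nat_lit 152) (nat_lit 782639438) (nat_lit 149) (nat_lit 1) (nat_lit 148) (nat_lit 1) (nat_lit 150) (nat_lit 1) (nat_lit 392) (nat_lit 343) (nat_lit 285)) (XT.nd (nat_lit 78) (nat_lit 152) (nat_lit 0) (XT.lf (nat_lit 228) (nat_lit 443209942) (nat_lit 0) (nat_lit 787872534) (nat_lit 152) (nat_lit 223525567) (nat_lit 149) (nat_lit 1) (nat_lit 146) (nat_lit 1) (nat_lit 148) (nat_lit 1) (nat_lit 393) (nat_lit 343) (nat_lit 284)) (XT.lf (nat_lit 76) (nat_lit 605836261) (nat_lit 0) (nat_lit 270759743)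 (nat_lit 152) (nat_lit 553326498) (nat_lit 145) (nat_lit 1) (nat_lit 144) (nat_lit 1) (nat_lit 146) (nat_lit 1) (nat_lit 394) (nat_lit 343) (nat_lit 283)))) (XT.nd (nat_lit 48204) (nat_lit 0) (nat_lit 17784) (XT.nd (nat_lit 78) (nat_lit 152) (nat_lit 0) (XT.lf (nat_lit 76) (nat_lit 5308351) (nat_lit 0) (nat_lit 960160666) (nat_lit 228) (nat_lit 440291723) (nat_lit 143) (nat_lit 1) (nat_lit 142) (nat_lit 1) (nat_lit 145) (nat_lit 1) (nat_lit 395) (nat_lit 343) (nat_lit 282)) (XT.lf (nat_lit 76) (nat_lit 797706163) (nat_lit 0) (nat_lit 252526117) (nat_lit 152) (nat_lit 331756525) (nat_lit 141) (nat_lit 1) (nat_lit 140) (nat_lit 1) (nat_lit 142) (nat_lit 1) (nat_lit 396) (nat_lit 343) (nat_lit 281))) (XT.nd (nat_lit 78) (nat_lit 0) (nat_lit 76) (XT.lf (nat_lit 1292) (nat_lit 453337738) (nat_lit 0) (nat_lit 1559692653) (nat_lit 1292) (nat_lit 453337738) (nat_lit 391) (nat_lit 1) (nat_lit 374) (nat_lit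 0) (nat_lit 391) (nat_lit 0) (nat_lit 332) (nat_lit 344) (nat_lit 344)) (XT.lf (nat_lit 1292) (nat_lit 36344881) (nat_lit 0) (nat_lit 3075385938) (nat_lit 1216) (nat_lit 1702651187) (nat_lit 392) (nat_lit 1) (nat_lit 375) (nat_lit 1) (nat_lit 391) (nat_lit 1) (nat_lit 333) (nat_lit 344) (nat_lit 343)))))) (XT.nd (nat_lit 546) (nat_lit 2508) (nat_lit 0) (XT.nd (nat_lit 234) (nat_lit 912) (nat_lit 0) (XT.nd (nat_lit 78) (nat_lit 0) (nat_lit 76) (XT.lf (nat_lit 1292) (nat_lit 1599018504) (nat_lit 76) (nat_lit 2261753162) (nat_lit 0) (nat_lit 838877536) (nat_lit 392) (nat_lit 1) (nat_lit 376) (nat_lit 1) (nat_lit 375) (nat_lit 1) (nat_lit 334) (nat_lit 344) (nat_lit 342)) (XT.nd (nat_lit 78) (nat_lit 0) (nat_lit 76) (XT.lf (nat_lit 1292) (nat_lit 1405672855) (nat_lit 76) (nat_lit 1480479288) (nat_lit 0) (nat_lit 1702479169) (nat_lit 393) (nat_lit 1) (nat_lit 377) (nat_lit 1) (nat_lit 376) (nat_lit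 1) (nat_lit 335) (nat_lit 344) (nat_lit 341)) (XT.lf (nat_lit 1292) (nat_lit 1163288938) (nat_lit 76) (nat_lit 764744884) (nat_lit 0) (nat_lit 2553169703) (nat_lit 394) (nat_lit 1) (nat_lit 378) (nat_lit 1) (nat_lit 377) (nat_lit 1) (nat_lit 336) (nat_lit 344) (nat_lit 340)))) (XT.nd (nat_lit 156) (nat_lit 1140) (nat_lit 0) (XT.nd (nat_lit 78) (nat_lit 0) (nat_lit 76) (XT.lf (nat_lit 1292) (nat_lit 875604650) (nat_lit 76) (nat_lit 111182595) (nat_lit 0) (nat_lit 3390448497) (nat_lit 395) (nat_lit 1) (nat_lit 379) (nat_lit 1) (nat_lit 378) (nat_lit 1) (nat_lit 337) (nat_lit 344) (nat_lit 339)) (XT.lf (nat_lit 1292) (nat_lit 67373108) (nat_lit 0) (nat_lit 3735105317) (nat_lit 1216) (nat_lit 473985196) (nat_lit 396) (nat_lit 1) (nat_lit 379) (nat_lit 1) (nat_lit 395) (nat_lit 1) (nat_lit 338) (nat_lit 344) (nat_lit 338))) (XT.nd (nat_lit 78) (nat_lit 1216) (nat_lit 0) (XT.lf (nat_lit 1292) (nat_lit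 159688923) (nat_lit 76) (nat_lit 3168293805) (nat_lit 0) (nat_lit 850662605) (nat_lit 396) (nat_lit 1) (nat_lit 380) (nat_lit 1) (nat_lit 379) (nat_lit 1) (nat_lit 339) (nat_lit 344) (nat_lit 337)) (XT.lf (nat_lit 1368) (nat_lit 2333851806) (nat_lit 0) (nat_lit 252264971) (nat_lit 1292) (nat_lit 1497736420) (nat_lit 381) (nat_lit 1) (nat_lit 363) (nat_lit 1) (nat_lit 380) (nat_lit 1) (nat_lit 340) (nat_lit 344) (nat_lit 336))))) (XT.nd (nat_lit 234) (nat_lit 1824) (nat_lit 0) (XT.nd (nat_lit 78) (nat_lit 760) (nat_lit 0) (XT.lf (nat_lit 1368) (nat_lit 1362256649) (nat_lit 0) (nat_lit 692185366) (nat_lit 1292) (nat_lit 1937572569) (nat_lit 382) (nat_lit 1) (nat_lit 364) (nat_lit 1) (nat_lit 381) (nat_lit 1) (nat_lit 341) (nat_lit 344) (nat_lit 335)) (XT.nd (nat_lit 78) (nat_lit 836) (nat_lit 0) (XT.lf (nat_lit 76) (nat_lit 411681186) (nat_lit 0) (nat_lit 1160489851) (nat_lit 1292) (nat_lit 2330898220)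 (nat_lit 366) (nat_lit 1) (nat_lit 365) (nat_lit 1) (nat_lit 382) (nat_lit 1) (nat_lit 342) (nat_lit 344) (nat_lit 334)) (XT.lf (nat_lit 912) (nat_lit 2157046328) (nat_lit 0) (nat_lit 1131518331) (nat_lit 836) (nat_lit 528198093) (nat_lit 366) (nat_lit 1) (nat_lit 354) (nat_lit 1) (nat_lit 365) (nat_lit 1) (nat_lit 343) (nat_lit 344) (nat_lit 333)))) (XT.nd (nat_lit 156) (nat_lit 608) (nat_lit 0) (XT.nd (nat_lit 78) (nat_lit 608) (nat_lit 0) (XT.lf (nat_lit 684) (nat_lit 1546804510) (nat_lit 0) (nat_lit 731330313) (nat_lit 608) (nat_lit 1454899474) (nat_lit 355) (nat_lit 1) (nat_lit 346) (nat_lit 1) (nat_lit 354) (nat_lit 1) (nat_lit 344) (nat_lit 344) (nat_lit 332)) (XT.lf (nat_lit 684) (nat_lit 918161734) (nat_lit 0) (nat_lit 373438460) (nat_lit 608) (nat_lit 2360310385) (nat_lit 347) (nat_lit 1) (nat_lit 338) (nat_lit 1) (nat_lit 346) (nat_lit 1) (nat_lit 345) (nat_lit 344) (nat_lit 331))) (XT.nd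 (nat_lit 78) (nat_lit 76) (nat_lit 0) (XT.lf (nat_lit 608) (nat_lit 273136722) (nat_lit 0) (nat_lit 55624493) (nat_lit 532) (nat_lit 3244539622) (nat_lit 339) (nat_lit 1) (nat_lit 331) (nat_lit 1) (nat_lit 338) (nat_lit 1) (nat_lit 346) (nat_lit 344) (nat_lit 330)) (XT.lf (nat_lit 76) (nat_lit 2880110840) (nat_lit 0) (nat_lit 387038032) (nat_lit 608) (nat_lit 229611477) (nat_lit 331) (nat_lit 1) (nat_lit 330) (nat_lit 1) (nat_lit 338) (nat_lit 1) (nat_lit 347) (nat_lit 344) (nat_lit 329))))))) (XT.nd (nat_lit 1092) (nat_lit 4256) (nat_lit 0) (XT.nd (nat_lit 546) (nat_lit 2812) (nat_lit 0) (XT.nd (nat_lit 234) (nat_lit 1976) (nat_lit 0) (XT.nd (nat_lit 78) (nat_lit 1064) (nat_lit 0) (XT.lf (nat_lit 76) (nat_lit 1880530319) (nat_lit 0) (nat_lit 1057561666) (nat_lit 684) (nat_lit 484291788) (nat_lit 323) (nat_lit 1) (nat_lit 322) (nat_lit 1) (nat_lit 331) (nat_lit 1) (nat_lit 348) (nat_lit 344) (nat_lit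 328)) (XT.nd (nat_lit 78) (nat_lit 532) (nat_lit 0) (XT.lf (nat_lit 76) (nat_lit 906424296) (nat_lit 0) (nat_lit 1738363893) (nat_lit 608) (nat_lit 705494502) (nat_lit 316) (nat_lit 1) (nat_lit 315) (nat_lit 1) (nat_lit 323) (nat_lit 1) (nat_lit 349) (nat_lit 344) (nat_lit 327)) (XT.lf (nat_lit 608) (nat_lit 852012167) (nat_lit 0) (nat_lit 2384942999) (nat_lit 532) (nat_lit 43411600) (nat_lit 316) (nat_lit 1) (nat_lit 308) (nat_lit 1) (nat_lit 315) (nat_lit 1) (nat_lit 350) (nat_lit 344) (nat_lit 326)))) (XT.nd (nat_lit 156) (nat_lit 912) (nat_lit 0) (XT.nd (nat_lit 78) (nat_lit 608) (nat_lit 0) (XT.lf (nat_lit 532) (nat_lit 77963955) (nat_lit 0) (nat_lit 2148303825) (nat_lit 456) (nat_lit 986046537) (nat_lit 309) (nat_lit 1) (nat_lit 302) (nat_lit 1) (nat_lit 308) (nat_lit 1) (nat_lit 351) (nat_lit 344) (nat_lit 325)) (XT.lf (nat_lit 76) (nat_lit 1249218870) (nat_lit 0) (nat_lit 686174494) (nat_lit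 608) (nat_lit 1210724585) (nat_lit 295) (nat_lit 1) (nat_lit 294) (nat_lit 1) (nat_lit 302) (nat_lit 1) (nat_lit 352) (nat_lit 344) (nat_lit 324))) (XT.nd (nat_lit 78) (nat_lit 456) (nat_lit 0) (XT.lf (nat_lit 76) (nat_lit 299389633) (nat_lit 0) (nat_lit 1451329957) (nat_lit 532) (nat_lit 1331167183) (nat_lit 289) (nat_lit 1) (nat_lit 288) (nat_lit 1) (nat_lit 295) (nat_lit 1) (nat_lit 353) (nat_lit 344) (nat_lit 323)) (XT.lf (nat_lit 532) (nat_lit 795303947) (nat_lit 0) (nat_lit 1587210305) (nat_lit 456) (nat_lit 636878782) (nat_lit 289) (nat_lit 1) (nat_lit 282) (nat_lit 1) (nat_lit 288) (nat_lit 1) (nat_lit 354) (nat_lit 344) (nat_lit 322))))) (XT.nd (nat_lit 234) (nat_lit 1520) (nat_lit 0) (XT.nd (nat_lit 78) (nat_lit 836) (nat_lit 0) (XT.lf (nat_lit 76) (nat_lit 1405978729) (nat_lit 0) (nat_lit 40549315) (nat_lit 456) (nat_lit 1512135760) (nat_lit 277) (nat_lit 1) (nat_lit 276) (nat_lit 1)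 (nat_lit 282) (nat_lit 1) (nat_lit 355) (nat_lit 344) (nat_lit 321)) (XT.nd (nat_lit 78) (nat_lit 380) (nat_lit 0) (XT.lf (nat_lit 76) (nat_lit 464380908) (nat_lit 0) (nat_lit 858469011) (nat_lit 532) (nat_lit 1576658620) (nat_lit 271) (nat_lit 1) (nat_lit 270) (nat_lit 1) (nat_lit 277) (nat_lit 1) (nat_lit 356) (nat_lit 344) (nat_lit 320)) (XT.lf (nat_lit 456) (nat_lit 1164341445) (nat_lit 0) (nat_lit 1218167470) (nat_lit 380) (nat_lit 459455785) (nat_lit 271) (nat_lit 1) (nat_lit 265) (nat_lit 1) (nat_lit 270) (nat_lit 1) (nat_lit 357) (nat_lit 344) (nat_lit 319)))) (XT.nd (nat_lit 156) (nat_lit 684) (nat_lit 0) (XT.nd (nat_lit 78) (nat_lit 456) (nat_lit 0) (XT.lf (nat_lit 456) (nat_lit 288795887) (nat_lit 0) (nat_lit 1131331736) (nat_lit 380) (nat_lit 1365851041) (nat_lit 266) (nat_lit 1) (nat_lit 260) (nat_lit 1) (nat_lit 265) (nat_lit 1) (nat_lit 358) (nat_lit 344) (nat_lit 318)) (XT.lf (nat_lit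 76) (nat_lit 491074934) (nat_lit 0) (nat_lit 568991005) (nat_lit 456) (nat_lit 1671398407) (nat_lit 255) (nat_lit 1) (nat_lit 254) (nat_lit 1) (nat_lit 260) (nat_lit 1) (nat_lit 359) (nat_lit 344) (nat_lit 317))) (XT.nd (nat_lit 78) (nat_lit 304) (nat_lit 0) (XT.lf (nat_lit 456) (nat_lit 1260031737) (nat_lit 0) (nat_lit 1002039246) (nat_lit 380) (nat_lit 416263482) (nat_lit 255) (nat_lit 1) (nat_lit 249) (nat_lit 1) (nat_lit 254) (nat_lit 1) (nat_lit 360) (nat_lit 344) (nat_lit 316)) (XT.lf (nat_lit 380) (nat_lit 361761608) (nat_lit 0) (nat_lit 958433773) (nat_lit 304) (nat_lit 1306409043) (nat_lit 250) (nat_lit 1) (nat_lit 245) (nat_lit 1) (nat_lit 249) (nat_lit 1) (nat_lit 361) (nat_lit 344) (nat_lit 315)))))) (XT.nd (nat_lit 546) (nat_lit 1900) (nat_lit 0) (XT.nd (nat_lit 234) (nat_lit 1292) (nat_lit 0) (XT.nd (nat_lit 78) (nat_lit 608) (nat_lit 0) (XT.lf (nat_lit 76) (nat_lit 411220071) (nat_lit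 0) (nat_lit 516708013) (nat_lit 456) (nat_lit 1648288989) (nat_lit 240) (nat_lit 1) (nat_lit 239) (nat_lit 1) (nat_lit 245) (nat_lit 1) (nat_lit 362) (nat_lit 344) (nat_lit 314)) (XT.nd (nat_lit 78) (nat_lit 304) (nat_lit 0) (XT.lf (nat_lit 380) (nat_lit 1144010907) (nat_lit 0) (nat_lit 906523588) (nat_lit 304) (nat_lit 476503145) (nat_lit 240) (nat_lit 1) (nat_lit 235) (nat_lit 1) (nat_lit 239) (nat_lit 1) (nat_lit 363) (nat_lit 344) (nat_lit 313)) (XT.lf (nat_lit 380) (nat_lit 236007426) (nat_lit 0) (nat_lit 897669001) (nat_lit 304) (nat_lit 1345472188) (nat_lit 236) (nat_lit 1) (nat_lit 231) (nat_lit 1) (nat_lit 235) (nat_lit 1) (nat_lit 364) (nat_lit 344) (nat_lit 312)))) (XT.nd (nat_lit 156) (nat_lit 608) (nat_lit 0) (XT.nd (nat_lit 78) (nat_lit 304) (nat_lit 0) (XT.lf (nat_lit 76) (nat_lit 250805684) (nat_lit 0) (nat_lit 647247307) (nat_lit 380) (nat_lit 1534382943) (nat_lit 227) (nat_lit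 1) (nat_lit 226) (nat_lit 1) (nat_lit 231) (nat_lit 1) (nat_lit 365) (nat_lit 344) (nat_lit 311)) (XT.lf (nat_lit 380) (nat_lit 866818909) (nat_lit 0) (nat_lit 905019448) (nat_lit 304) (nat_lit 614966597) (nat_lit 227) (nat_lit 1) (nat_lit 222) (nat_lit 1) (nat_lit 226) (nat_lit 1) (nat_lit 366) (nat_lit 344) (nat_lit 310))) (XT.nd (nat_lit 78) (nat_lit 304) (nat_lit 0) (XT.lf (nat_lit 76) (nat_lit 883717976) (nat_lit 0) (nat_lit 39761562) (nat_lit 304) (nat_lit 1418902228) (nat_lit 219) (nat_lit 1) (nat_lit 218) (nat_lit 1) (nat_lit 222) (nat_lit 1) (nat_lit 367) (nat_lit 344) (nat_lit 309)) (XT.lf (nat_lit 76) (nat_lit 31030970) (nat_lit 0) (nat_lit 916076106) (nat_lit 380) (nat_lit 1351858408) (nat_lit 215) (nat_lit 1) (nat_lit 214) (nat_lit 1) (nat_lit 219) (nat_lit 1) (nat_lit 368) (nat_lit 344) (nat_lit 308))))) (XT.nd (nat_lit 234) (nat_lit 1064) (nat_lit 0) (XT.nd (nat_lit 78) (nat_lit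 608) (nat_lit 0) (XT.lf (nat_lit 304) (nat_lit 469759640) (nat_lit 0) (nat_lit 975678254) (nat_lit 228) (nat_lit 811095382) (nat_lit 215) (nat_lit 1) (nat_lit 211) (nat_lit 1) (nat_lit 214) (nat_lit 1) (nat_lit 369) (nat_lit 344) (nat_lit 307)) (XT.nd (nat_lit 78) (nat_lit 228) (nat_lit 0) (XT.lf (nat_lit 76) (nat_lit 591763071) (nat_lit 0) (nat_lit 420420616) (nat_lit 380) (nat_lit 1202972560) (nat_lit 207) (nat_lit 1) (nat_lit 206) (nat_lit 1) (nat_lit 211) (nat_lit 1) (nat_lit 370) (nat_lit 344) (nat_lit 306)) (XT.lf (nat_lit 304) (nat_lit 885618973) (nat_lit 0) (nat_lit 1053632652) (nat_lit 228) (nat_lit 235479966) (nat_lit 207) (nat_lit 1) (nat_lit 203) (nat_lit 1) (nat_lit 206) (nat_lit 1) (nat_lit 371) (nat_lit 344) (nat_lit 305)))) (XT.nd (nat_lit 156) (nat_lit 532) (nat_lit 0) (XT.nd (nat_lit 78) (nat_lit 228) (nat_lit 0) (XT.lf (nat_lit 76) (nat_lit 1087197059) (nat_lit 0) (nat_lit 13278882)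 (nat_lit 304) (nat_lit 1034781097) (nat_lit 200) (nat_lit 1) (nat_lit 199) (nat_lit 1) (nat_lit 203) (nat_lit 1) (nat_lit 372) (nat_lit 344) (nat_lit 304)) (XT.lf (nat_lit 76) (nat_lit 270186656) (nat_lit 0) (nat_lit 879365921) (nat_lit 304) (nat_lit 947072843) (nat_lit 197) (nat_lit 1) (nat_lit 196) (nat_lit 1) (nat_lit 200) (nat_lit 1) (nat_lit 373) (nat_lit 344) (nat_lit 303))) (XT.nd (nat_lit 78) (nat_lit 304) (nat_lit 0) (XT.lf (nat_lit 304) (nat_lit 323771570) (nat_lit 0) (nat_lit 1203739085) (nat_lit 228) (nat_lit 531395045) (nat_lit 197) (nat_lit 1) (nat_lit 193) (nat_lit 1) (nat_lit 196) (nat_lit 1) (nat_lit 374) (nat_lit 344) (nat_lit 302)) (XT.lf (nat_lit 76) (nat_lit 714717386) (nat_lit 0) (nat_lit 544998347) (nat_lit 304) (nat_lit 762270920) (nat_lit 190) (nat_lit 1) (nat_lit 189) (nat_lit 1) (nat_lit 193) (nat_lit 1) (nat_lit 375) (nat_lit 344) (nat_lit 301))))))))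
noncomputable def ec19 : XT := (XT.nd (nat_lit 50076) (nat_lit 0) (nat_lit 6536) (XT.nd (nat_lit 1092) (nat_lit 1064) (nat_lit 0) (XT.nd (nat_lit 546) (nat_lit 1444) (nat_lit 0) (XT.nd (nat_lit 234) (nat_lit 836) (nat_lit 0) (XT.nd (nat_lit 78) (nat_lit 456) (nat_lit 0) (XT.lf (nat_lit 304) (nat_lit 593955978) (nat_lit 0) (nat_lit 1321389399) (nat_lit 228) (nat_lit 70622436) (nat_lit 190) (nat_lit 1) (nat_lit 186) (nat_lit 1) (nat_lit 189) (nat_lit 1) (nat_lit 376) (nat_lit 344) (nat_lit 300)) (XT.nd (nat_lit 78) (nat_lit 228) (nat_lit 0) (XT.lf (nat_lit 76) (nat_lit 1108717847) (nat_lit 0) (nat_lit 273660314) (nat_lit 228) (nat_lit 568271152) (nat_lit 184) (nat_lit 1) (nat_lit 183) (nat_lit 1) (nat_lit 186) (nat_lit 1) (nat_lit 377) (nat_lit 344) (nat_lit 299)) (XT.lf (nat_lit 76) (nat_lit 333368242) (nat_lit 0) (nat_lit 1113040876) (nat_lit 304) (nat_lit 469716873) (nat_lit 181) (nat_lit 1) (nat_lit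 180) (nat_lit 1) (nat_lit 184) (nat_lit 1) (nat_lit 378) (nat_lit 344) (nat_lit 298)))) (XT.nd (nat_lit 156) (nat_lit 380) (nat_lit 0) (XT.nd (nat_lit 78) (nat_lit 228) (nat_lit 0) (XT.lf (nat_lit 76) (nat_lit 1457526862) (nat_lit 0) (nat_lit 56533798) (nat_lit 228) (nat_lit 368340573) (nat_lit 178) (nat_lit 1) (nat_lit 177) (nat_lit 1) (nat_lit 180) (nat_lit 1) (nat_lit 379) (nat_lit 344) (nat_lit 297)) (XT.lf (nat_lit 76) (nat_lit 691935331) (nat_lit 0) (nat_lit 886748963) (nat_lit 304) (nat_lit 270583896) (nat_lit 175) (nat_lit 1) (nat_lit 174) (nat_lit 1) (nat_lit 178) (nat_lit 1) (nat_lit 380) (nat_lit 344) (nat_lit 296))) (XT.nd (nat_lit 78) (nat_lit 228) (nat_lit 0) (XT.lf (nat_lit 228) (nat_lit 116355922) (nat_lit 0) (nat_lit 1650652019) (nat_lit 152) (nat_lit 50008071) (nat_lit 175) (nat_lit 1) (nat_lit 172) (nat_lit 1) (nat_lit 174) (nat_lit 1) (nat_lit 381) (nat_lit 344) (nat_lit 295))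 (XT.lf (nat_lit 76) (nat_lit 1011013179) (nat_lit 0) (nat_lit 705116993) (nat_lit 228) (nat_lit 69098899) (nat_lit 170) (nat_lit 1) (nat_lit 169) (nat_lit 1) (nat_lit 172) (nat_lit 1) (nat_lit 382) (nat_lit 344) (nat_lit 294))))) (XT.nd (nat_lit 234) (nat_lit 760) (nat_lit 0) (XT.nd (nat_lit 78) (nat_lit 380) (nat_lit 0) (XT.lf (nat_lit 228) (nat_lit 246626655) (nat_lit 0) (nat_lit 34199792) (nat_lit 152) (nat_lit 1473427853) (nat_lit 168) (nat_lit 1) (nat_lit 165) (nat_lit 1) (nat_lit 167) (nat_lit 1) (nat_lit 383) (nat_lit 344) (nat_lit 293)) (XT.nd (nat_lit 78) (nat_lit 152) (nat_lit 0) (XT.lf (nat_lit 228) (nat_lit 1160764747) (nat_lit 0) (nat_lit 135191400) (nat_lit 152) (nat_lit 427844263) (nat_lit 165) (nat_lit 1) (nat_lit 162) (nat_lit 1) (nat_lit 164) (nat_lit 1) (nat_lit 384) (nat_lit 344) (nat_lit 292)) (XT.lf (nat_lit 228) (nat_lit 340492791) (nat_lit 0) (nat_lit 237130656) (nat_lit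 152) (nat_lit 1116386776) (nat_lit 163) (nat_lit 1) (nat_lit 160) (nat_lit 1) (nat_lit 162) (nat_lit 1) (nat_lit 385) (nat_lit 344) (nat_lit 291)))) (XT.nd (nat_lit 156) (nat_lit 380) (nat_lit 0) (XT.nd (nat_lit 78) (nat_lit 152) (nat_lit 0) (XT.lf (nat_lit 228) (nat_lit 1210571288) (nat_lit 0) (nat_lit 339165770) (nat_lit 152) (nat_lit 115109756) (nat_lit 160) (nat_lit 1) (nat_lit 157) (nat_lit 1) (nat_lit 159) (nat_lit 1) (nat_lit 386) (nat_lit 344) (nat_lit 290)) (XT.lf (nat_lit 228) (nat_lit 405321764) (nat_lit 0) (nat_lit 437867616) (nat_lit 152) (nat_lit 793009041) (nat_lit 158) (nat_lit 1) (nat_lit 155) (nat_lit 1) (nat_lit 157) (nat_lit 1) (nat_lit 387) (nat_lit 344) (nat_lit 289))) (XT.nd (nat_lit 78) (nat_lit 152) (nat_lit 0) (XT.lf (nat_lit 76) (nat_lit 163382886) (nat_lit 0) (nat_lit 374872804) (nat_lit 228) (nat_lit 1069943893) (nat_lit 153) (nat_lit 1) (nat_lit 152) (nat_lit 1) (nat_lit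 155) (nat_lit 1) (nat_lit 388) (nat_lit 344) (nat_lit 288)) (XT.lf (nat_lit 228) (nat_lit 445636900) (nat_lit 0) (nat_lit 634971942) (nat_lit 152) (nat_lit 500073964) (nat_lit 153) (nat_lit 1) (nat_lit 150) (nat_lit 1) (nat_lit 152) (nat_lit 1) (nat_lit 389) (nat_lit 344) (nat_lit 287)))))) (XT.nd (nat_lit 48438) (nat_lit 0) (nat_lit 18088) (XT.nd (nat_lit 234) (nat_lit 608) (nat_lit 0) (XT.nd (nat_lit 78) (nat_lit 304) (nat_lit 0) (XT.lf (nat_lit 76) (nat_lit 412173514) (nat_lit 0) (nat_lit 319807414) (nat_lit 152) (nat_lit 821771410) (nat_lit 149) (nat_lit 1) (nat_lit 148) (nat_lit 1) (nat_lit 150) (nat_lit 1) (nat_lit 390) (nat_lit 344) (nat_lit 286)) (XT.nd (nat_lit 78) (nat_lit 152) (nat_lit 0) (XT.lf (nat_lit 228) (nat_lit 465370439) (nat_lit 0) (nat_lit 827266161) (nat_lit 152) (nat_lit 234701846) (nat_lit 149) (nat_lit 1) (nat_lit 146) (nat_lit 1) (nat_lit 148) (nat_lit 1) (nat_lit 391)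 (nat_lit 344) (nat_lit 285)) (XT.lf (nat_lit 76) (nat_lit 636128074) (nat_lit 0) (nat_lit 284297730) (nat_lit 152) (nat_lit 580992823) (nat_lit 145) (nat_lit 1) (nat_lit 144) (nat_lit 1) (nat_lit 146) (nat_lit 1) (nat_lit 392) (nat_lit 344) (nat_lit 284)))) (XT.nd (nat_lit 156) (nat_lit 304) (nat_lit 0) (XT.nd (nat_lit 78) (nat_lit 152) (nat_lit 0) (XT.lf (nat_lit 76) (nat_lit 5573768) (nat_lit 0) (nat_lit 1008168699) (nat_lit 228) (nat_lit 462306310) (nat_lit 143) (nat_lit 1) (nat_lit 142) (nat_lit 1) (nat_lit 145) (nat_lit 1) (nat_lit 393) (nat_lit 344) (nat_lit 283)) (XT.lf (nat_lit 76) (nat_lit 837591472) (nat_lit 0) (nat_lit 265152423) (nat_lit 152) (nat_lit 348344351) (nat_lit 141) (nat_lit 1) (nat_lit 140) (nat_lit 1) (nat_lit 142) (nat_lit 1) (nat_lit 394) (nat_lit 344) (nat_lit 282))) (XT.nd (nat_lit 78) (nat_lit 152) (nat_lit 0) (XT.lf (nat_lit 76) (nat_lit 219035651) (nat_lit 0) (nat_lit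 972565749) (nat_lit 228) (nat_lit 235046938) (nat_lit 139) (nat_lit 1) (nat_lit 138) (nat_lit 1) (nat_lit 141) (nat_lit 1) (nat_lit 395) (nat_lit 344) (nat_lit 281)) (XT.lf (nat_lit 76) (nat_lit 1018664777) (nat_lit 0) (nat_lit 259604177) (nat_lit 152) (nat_lit 124390510) (nat_lit 137) (nat_lit 1) (nat_lit 136) (nat_lit 1) (nat_lit 138) (nat_lit 1) (nat_lit 396) (nat_lit 344) (nat_lit 280))))) (XT.nd (nat_lit 234) (nat_lit 0) (nat_lit 152) (XT.nd (nat_lit 78) (nat_lit 0) (nat_lit 76) (XT.lf (nat_lit 1292) (nat_lit 476004625) (nat_lit 0) (nat_lit 1637677285) (nat_lit 1292) (nat_lit 476004625) (nat_lit 391) (nat_lit 1) (nat_lit 374) (nat_lit 0) (nat_lit 391) (nat_lit 0) (nat_lit 330) (nat_lit 345) (nat_lit 345)) (XT.nd (nat_lit 78) (nat_lit 0) (nat_lit 0) (XT.lf (nat_lit 1292) (nat_lit 38162125) (nat_lit 0) (nat_lit 3229155235) (nat_lit 1216) (nat_lit 1787783747) (nat_lit 392) (nat_lit 1) (nat_lit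 375) (nat_lit 1) (nat_lit 391) (nat_lit 1) (nat_lit 331) (nat_lit 345) (nat_lit 344)) (XT.lf (nat_lit 1292) (nat_lit 1678969429) (nat_lit 76) (nat_lit 2374840820) (nat_lit 0) (nat_lit 880821413) (nat_lit 392) (nat_lit 1) (nat_lit 376) (nat_lit 1) (nat_lit 375) (nat_lit 1) (nat_lit 332) (nat_lit 345) (nat_lit 343)))) (XT.nd (nat_lit 156) (nat_lit 0) (nat_lit 152) (XT.nd (nat_lit 78) (nat_lit 0) (nat_lit 76) (XT.lf (nat_lit 1292) (nat_lit 1475956497) (nat_lit 76) (nat_lit 1554503253) (nat_lit 0) (nat_lit 1787603127) (nat_lit 393) (nat_lit 1) (nat_lit 377) (nat_lit 1) (nat_lit 376) (nat_lit 1) (nat_lit 333) (nat_lit 345) (nat_lit 342)) (XT.lf (nat_lit 1292) (nat_lit 1221453385) (nat_lit 76) (nat_lit 802982128) (nat_lit 0) (nat_lit 2680828188) (nat_lit 394) (nat_lit 1) (nat_lit 378) (nat_lit 1) (nat_lit 377) (nat_lit 1) (nat_lit 334) (nat_lit 345) (nat_lit 341))) (XT.nd (nat_lit 78) (nat_lit 0) (nat_lit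 76) (XT.lf (nat_lit 1292) (nat_lit 919384882) (nat_lit 76) (nat_lit 116741724) (nat_lit 0) (nat_lit 3559970922) (nat_lit 395) (nat_lit 1) (nat_lit 379) (nat_lit 1) (nat_lit 378) (nat_lit 1) (nat_lit 335) (nat_lit 345) (nat_lit 340)) (XT.lf (nat_lit 1292) (nat_lit 70741763) (nat_lit 0) (nat_lit 3921860583) (nat_lit 1216) (nat_lit 497684456) (nat_lit 396) (nat_lit 1) (nat_lit 379) (nat_lit 1) (nat_lit 395) (nat_lit 1) (nat_lit 336) (nat_lit 345) (nat_lit 339))))))) (XT.nd (nat_lit 1092) (nat_lit 5472) (nat_lit 0) (XT.nd (nat_lit 546) (nat_lit 3344) (nat_lit 0) (XT.nd (nat_lit 234) (nat_lit 1900) (nat_lit 0) (XT.nd (nat_lit 78) (nat_lit 1216) (nat_lit 0) (XT.lf (nat_lit 1292) (nat_lit 167673369) (nat_lit 76) (nat_lit 3326708495) (nat_lit 0) (nat_lit 893195735) (nat_lit 396) (nat_lit 1) (nat_lit 380) (nat_lit 1) (nat_lit 379) (nat_lit 1) (nat_lit 337) (nat_lit 345) (nat_lit 338)) (XT.nd (nat_lit 78)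 (nat_lit 0) (nat_lit 76) (XT.lf (nat_lit 1368) (nat_lit 2450544397) (nat_lit 0) (nat_lit 264878220) (nat_lit 1292) (nat_lit 1572623241) (nat_lit 381) (nat_lit 1) (nat_lit 363) (nat_lit 1) (nat_lit 380) (nat_lit 1) (nat_lit 338) (nat_lit 345) (nat_lit 337)) (XT.lf (nat_lit 1368) (nat_lit 1430369482) (nat_lit 0) (nat_lit 726794634) (nat_lit 1292) (nat_lit 2034451197) (nat_lit 382) (nat_lit 1) (nat_lit 364) (nat_lit 1) (nat_lit 381) (nat_lit 1) (nat_lit 339) (nat_lit 345) (nat_lit 336)))) (XT.nd (nat_lit 156) (nat_lit 1216) (nat_lit 0) (XT.nd (nat_lit 78) (nat_lit 836) (nat_lit 0) (XT.lf (nat_lit 76) (nat_lit 432265245) (nat_lit 0) (nat_lit 1218514343) (nat_lit 1292) (nat_lit 2447443131) (nat_lit 366) (nat_lit 1) (nat_lit 365) (nat_lit 1) (nat_lit 382) (nat_lit 1) (nat_lit 340) (nat_lit 345) (nat_lit 335)) (XT.lf (nat_lit 912) (nat_lit 2264898645) (nat_lit 0) (nat_lit 1188094248) (nat_lit 836) (nat_lit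 554607997) (nat_lit 366) (nat_lit 1) (nat_lit 354) (nat_lit 1) (nat_lit 365) (nat_lit 1) (nat_lit 341) (nat_lit 345) (nat_lit 334))) (XT.nd (nat_lit 78) (nat_lit 608) (nat_lit 0) (XT.lf (nat_lit 684) (nat_lit 1624144735) (nat_lit 0) (nat_lit 767896829) (nat_lit 608) (nat_lit 1527644448) (nat_lit 355) (nat_lit 1) (nat_lit 346) (nat_lit 1) (nat_lit 354) (nat_lit 1) (nat_lit 342) (nat_lit 345) (nat_lit 333)) (XT.lf (nat_lit 684) (nat_lit 964069820) (nat_lit 0) (nat_lit 392110383) (nat_lit 608) (nat_lit 2478325905) (nat_lit 347) (nat_lit 1) (nat_lit 338) (nat_lit 1) (nat_lit 346) (nat_lit 1) (nat_lit 343) (nat_lit 345) (nat_lit 332))))) (XT.nd (nat_lit 234) (nat_lit 2128) (nat_lit 0) (XT.nd (nat_lit 78) (nat_lit 684) (nat_lit 0) (XT.lf (nat_lit 608) (nat_lit 286793558) (nat_lit 0) (nat_lit 58405718) (nat_lit 532) (nat_lit 3406766603) (nat_lit 339) (nat_lit 1) (nat_lit 331) (nat_lit 1) (nat_lit 338)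 (nat_lit 1) (nat_lit 344) (nat_lit 345) (nat_lit 331)) (XT.nd (nat_lit 78) (nat_lit 608) (nat_lit 0) (XT.lf (nat_lit 76) (nat_lit 3024116382) (nat_lit 0) (nat_lit 406389934) (nat_lit 608) (nat_lit 241092051) (nat_lit 331) (nat_lit 1) (nat_lit 330) (nat_lit 1) (nat_lit 338) (nat_lit 1) (nat_lit 345) (nat_lit 345) (nat_lit 330)) (XT.lf (nat_lit 76) (nat_lit 1974556835) (nat_lit 0) (nat_lit 1110439750) (nat_lit 684) (nat_lit 508506378) (nat_lit 323) (nat_lit 1) (nat_lit 322) (nat_lit 1) (nat_lit 331) (nat_lit 1) (nat_lit 346) (nat_lit 345) (nat_lit 329)))) (XT.nd (nat_lit 156) (nat_lit 1064) (nat_lit 0) (XT.nd (nat_lit 78) (nat_lit 532) (nat_lit 0) (XT.lf (nat_lit 76) (nat_lit 951745511) (nat_lit 0) (nat_lit 1825282088) (nat_lit 608) (nat_lit 740769228) (nat_lit 316) (nat_lit 1) (nat_lit 315) (nat_lit 1) (nat_lit 323) (nat_lit 1) (nat_lit 347) (nat_lit 345) (nat_lit 328)) (XT.lf (nat_lit 608) (nat_lit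 894612775) (nat_lit 0) (nat_lit 2504190149) (nat_lit 532) (nat_lit 45582180) (nat_lit 316) (nat_lit 1) (nat_lit 308) (nat_lit 1) (nat_lit 315) (nat_lit 1) (nat_lit 348) (nat_lit 345) (nat_lit 327))) (XT.nd (nat_lit 78) (nat_lit 608) (nat_lit 0) (XT.lf (nat_lit 532) (nat_lit 81862153) (nat_lit 0) (nat_lit 2255719017) (nat_lit 456) (nat_lit 1035348863) (nat_lit 309) (nat_lit 1) (nat_lit 302) (nat_lit 1) (nat_lit 308) (nat_lit 1) (nat_lit 349) (nat_lit 345) (nat_lit 326)) (XT.lf (nat_lit 76) (nat_lit 1311679814) (nat_lit 0) (nat_lit 720483219) (nat_lit 608) (nat_lit 1271260814) (nat_lit 295) (nat_lit 1) (nat_lit 294) (nat_lit 1) (nat_lit 302) (nat_lit 1) (nat_lit 350) (nat_lit 345) (nat_lit 325)))))) (XT.nd (nat_lit 546) (nat_lit 2432) (nat_lit 0) (XT.nd (nat_lit 234) (nat_lit 1672) (nat_lit 0) (XT.nd (nat_lit 78) (nat_lit 912) (nat_lit 0) (XT.lf (nat_lit 76) (nat_lit 314359115) (nat_lit 0) (nat_lit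 1523896454) (nat_lit 532) (nat_lit 1397725542) (nat_lit 289) (nat_lit 1) (nat_lit 288) (nat_lit 1) (nat_lit 295) (nat_lit 1) (nat_lit 351) (nat_lit 345) (nat_lit 324)) (XT.nd (nat_lit 78) (nat_lit 456) (nat_lit 0) (XT.lf (nat_lit 532) (nat_lit 835069144) (nat_lit 0) (nat_lit 1666570820) (nat_lit 456) (nat_lit 668722721) (nat_lit 289) (nat_lit 1) (nat_lit 282) (nat_lit 1) (nat_lit 288) (nat_lit 1) (nat_lit 352) (nat_lit 345) (nat_lit 323)) (XT.lf (nat_lit 76) (nat_lit 1476277665) (nat_lit 0) (nat_lit 42576781) (nat_lit 456) (nat_lit 1587742548) (nat_lit 277) (nat_lit 1) (nat_lit 276) (nat_lit 1) (nat_lit 282) (nat_lit 1) (nat_lit 353) (nat_lit 345) (nat_lit 322)))) (XT.nd (nat_lit 156) (nat_lit 836) (nat_lit 0) (XT.nd (nat_lit 78) (nat_lit 380) (nat_lit 0) (XT.lf (nat_lit 76) (nat_lit 487599954) (nat_lit 0) (nat_lit 901392462) (nat_lit 532) (nat_lit 1655491551) (nat_lit 271) (nat_lit 1) (nat_lit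 270) (nat_lit 1) (nat_lit 277) (nat_lit 1) (nat_lit 354) (nat_lit 345) (nat_lit 321)) (XT.lf (nat_lit 456) (nat_lit 1222558517) (nat_lit 0) (nat_lit 1279075843) (nat_lit 380) (nat_lit 482428574) (nat_lit 271) (nat_lit 1) (nat_lit 265) (nat_lit 1) (nat_lit 270) (nat_lit 1) (nat_lit 355) (nat_lit 345) (nat_lit 320))) (XT.nd (nat_lit 78) (nat_lit 456) (nat_lit 0) (XT.lf (nat_lit 456) (nat_lit 303235681) (nat_lit 0) (nat_lit 1187898322) (nat_lit 380) (nat_lit 1434143593) (nat_lit 266) (nat_lit 1) (nat_lit 260) (nat_lit 1) (nat_lit 265) (nat_lit 1) (nat_lit 356) (nat_lit 345) (nat_lit 319)) (XT.lf (nat_lit 76) (nat_lit 515628680) (nat_lit 0) (nat_lit 597440556) (nat_lit 456) (nat_lit 1754968328) (nat_lit 255) (nat_lit 1) (nat_lit 254) (nat_lit 1) (nat_lit 260) (nat_lit 1) (nat_lit 357) (nat_lit 345) (nat_lit 318))))) (XT.nd (nat_lit 234) (nat_lit 1292) (nat_lit 0) (XT.nd (nat_lit 78) (nat_lit 760) (nat_lit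 0) (XT.lf (nat_lit 456) (nat_lit 1323033324) (nat_lit 0) (nat_lit 1052141209) (nat_lit 380) (nat_lit 437076656) (nat_lit 255) (nat_lit 1) (nat_lit 249) (nat_lit 1) (nat_lit 254) (nat_lit 1) (nat_lit 358) (nat_lit 345) (nat_lit 317)) (XT.nd (nat_lit 78) (nat_lit 456) (nat_lit 0) (XT.lf (nat_lit 380) (nat_lit 379849689) (nat_lit 0) (nat_lit 1006355462) (nat_lit 304) (nat_lit 1371729495) (nat_lit 250) (nat_lit 1) (nat_lit 245) (nat_lit 1) (nat_lit 249) (nat_lit 1) (nat_lit 359) (nat_lit 345) (nat_lit 316)) (XT.lf (nat_lit 76) (nat_lit 431781074) (nat_lit 0) (nat_lit 542543414) (nat_lit 456) (nat_lit 1730703439) (nat_lit 240) (nat_lit 1) (nat_lit 239) (nat_lit 1) (nat_lit 245) (nat_lit 1) (nat_lit 360) (nat_lit 345) (nat_lit 315)))) (XT.nd (nat_lit 156) (nat_lit 684) (nat_lit 0) (XT.nd (nat_lit 78) (nat_lit 304) (nat_lit 0) (XT.lf (nat_lit 380) (nat_lit 1201211453) (nat_lit 0) (nat_lit 951849768) (nat_lit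 304) (nat_lit 500328302) (nat_lit 240) (nat_lit 1) (nat_lit 235) (nat_lit 1) (nat_lit 239) (nat_lit 1) (nat_lit 361) (nat_lit 345) (nat_lit 314)) (XT.lf (nat_lit 380) (nat_lit 247807798) (nat_lit 0) (nat_lit 942552451) (nat_lit 304) (nat_lit 1412745798) (nat_lit 236) (nat_lit 1) (nat_lit 231) (nat_lit 1) (nat_lit 235) (nat_lit 1) (nat_lit 362) (nat_lit 345) (nat_lit 313))) (XT.nd (nat_lit 78) (nat_lit 304) (nat_lit 0) (XT.lf (nat_lit 76) (nat_lit 263345968) (nat_lit 0) (nat_lit 679609672) (nat_lit 380) (nat_lit 1611102090) (nat_lit 227) (nat_lit 1) (nat_lit 226) (nat_lit 1) (nat_lit 231) (nat_lit 1) (nat_lit 363) (nat_lit 345) (nat_lit 312)) (XT.lf (nat_lit 380) (nat_lit 910159854) (nat_lit 0) (nat_lit 950270421) (nat_lit 304) (nat_lit 645714927) (nat_lit 227) (nat_lit 1) (nat_lit 222) (nat_lit 1) (nat_lit 226) (nat_lit 1) (nat_lit 364) (nat_lit 345) (nat_lit 311))))))))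
noncomputable def ec20 : XT := (XT.nd (nat_lit 2184) (nat_lit 760) (nat_lit 0) (XT.nd (nat_lit 1092) (nat_lit 2584) (nat_lit 0) (XT.nd (nat_lit 546) (nat_lit 1672) (nat_lit 0) (XT.nd (nat_lit 234) (nat_lit 1140) (nat_lit 0) (XT.nd (nat_lit 78) (nat_lit 532) (nat_lit 0) (XT.lf (nat_lit 76) (nat_lit 927903875) (nat_lit 0) (nat_lit 41749640) (nat_lit 304) (nat_lit 1489847340) (nat_lit 219) (nat_lit 1) (nat_lit 218) (nat_lit 1) (nat_lit 222) (nat_lit 1) (nat_lit 365) (nat_lit 345) (nat_lit 310)) (XT.nd (nat_lit 78) (nat_lit 228) (nat_lit 0) (XT.lf (nat_lit 76) (nat_lit 32582518) (nat_lit 0) (nat_lit 961879911) (nat_lit 380) (nat_lit 1419451329) (nat_lit 215) (nat_lit 1) (nat_lit 214) (nat_lit 1) (nat_lit 219) (nat_lit 1) (nat_lit 366) (nat_lit 345) (nat_lit 309)) (XT.lf (nat_lit 304) (nat_lit 493247622) (nat_lit 0) (nat_lit 1024462166) (nat_lit 228) (nat_lit 851650151) (nat_lit 215) (nat_lit 1) (nat_lit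 211) (nat_lit 1) (nat_lit 214) (nat_lit 1) (nat_lit 367) (nat_lit 345) (nat_lit 308)))) (XT.nd (nat_lit 156) (nat_lit 532) (nat_lit 0) (XT.nd (nat_lit 78) (nat_lit 228) (nat_lit 0) (XT.lf (nat_lit 76) (nat_lit 621351225) (nat_lit 0) (nat_lit 441441647) (nat_lit 380) (nat_lit 1263121188) (nat_lit 207) (nat_lit 1) (nat_lit 206) (nat_lit 1) (nat_lit 211) (nat_lit 1) (nat_lit 368) (nat_lit 345) (nat_lit 307)) (XT.lf (nat_lit 304) (nat_lit 929899921) (nat_lit 0) (nat_lit 1106314284) (nat_lit 228) (nat_lit 247253964) (nat_lit 207) (nat_lit 1) (nat_lit 203) (nat_lit 1) (nat_lit 206) (nat_lit 1) (nat_lit 369) (nat_lit 345) (nat_lit 306))) (XT.nd (nat_lit 78) (nat_lit 228) (nat_lit 0) (XT.lf (nat_lit 76) (nat_lit 1141556912) (nat_lit 0) (nat_lit 13942826) (nat_lit 304) (nat_lit 1086520152) (nat_lit 200) (nat_lit 1) (nat_lit 199) (nat_lit 1) (nat_lit 203) (nat_lit 1) (nat_lit 370) (nat_lit 345) (nat_lit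 305)) (XT.lf (nat_lit 76) (nat_lit 283695989) (nat_lit 0) (nat_lit 923334217) (nat_lit 304) (nat_lit 994426485) (nat_lit 197) (nat_lit 1) (nat_lit 196) (nat_lit 1) (nat_lit 200) (nat_lit 1) (nat_lit 371) (nat_lit 345) (nat_lit 304))))) (XT.nd (nat_lit 234) (nat_lit 912) (nat_lit 0) (XT.nd (nat_lit 78) (nat_lit 532) (nat_lit 0) (XT.lf (nat_lit 304) (nat_lit 339960149) (nat_lit 0) (nat_lit 1263926039) (nat_lit 228) (nat_lit 557964798) (nat_lit 197) (nat_lit 1) (nat_lit 193) (nat_lit 1) (nat_lit 196) (nat_lit 1) (nat_lit 372) (nat_lit 345) (nat_lit 303)) (XT.nd (nat_lit 78) (nat_lit 228) (nat_lit 0) (XT.lf (nat_lit 76) (nat_lit 750453255) (nat_lit 0) (nat_lit 572248265) (nat_lit 304) (nat_lit 800384466) (nat_lit 190) (nat_lit 1) (nat_lit 189) (nat_lit 1) (nat_lit 193) (nat_lit 1) (nat_lit 373) (nat_lit 345) (nat_lit 302)) (XT.lf (nat_lit 304) (nat_lit 623653777) (nat_lit 0) (nat_lit 1387458869) (nat_lit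 228) (nat_lit 74153558) (nat_lit 190) (nat_lit 1) (nat_lit 186) (nat_lit 1) (nat_lit 189) (nat_lit 1) (nat_lit 374) (nat_lit 345) (nat_lit 301)))) (XT.nd (nat_lit 156) (nat_lit 456) (nat_lit 0) (XT.nd (nat_lit 78) (nat_lit 228) (nat_lit 0) (XT.lf (nat_lit 76) (nat_lit 1164153740) (nat_lit 0) (nat_lit 287343329) (nat_lit 228) (nat_lit 596684710) (nat_lit 184) (nat_lit 1) (nat_lit 183) (nat_lit 1) (nat_lit 186) (nat_lit 1) (nat_lit 375) (nat_lit 345) (nat_lit 300)) (XT.lf (nat_lit 76) (nat_lit 350036654) (nat_lit 0) (nat_lit 1168692919) (nat_lit 304) (nat_lit 493202716) (nat_lit 181) (nat_lit 1) (nat_lit 180) (nat_lit 1) (nat_lit 184) (nat_lit 1) (nat_lit 376) (nat_lit 345) (nat_lit 299))) (XT.nd (nat_lit 78) (nat_lit 228) (nat_lit 0) (XT.lf (nat_lit 76) (nat_lit 1530403205) (nat_lit 0) (nat_lit 59360488) (nat_lit 228) (nat_lit 386757601) (nat_lit 178) (nat_lit 1) (nat_lit 177) (nat_lit 1) (nat_lit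 180) (nat_lit 1) (nat_lit 377) (nat_lit 345) (nat_lit 298)) (XT.lf (nat_lit 76) (nat_lit 726532098) (nat_lit 0) (nat_lit 931086411) (nat_lit 304) (nat_lit 284113091) (nat_lit 175) (nat_lit 1) (nat_lit 174) (nat_lit 1) (nat_lit 178) (nat_lit 1) (nat_lit 378) (nat_lit 345) (nat_lit 297)))))) (XT.nd (nat_lit 546) (nat_lit 1140) (nat_lit 0) (XT.nd (nat_lit 234) (nat_lit 760) (nat_lit 0) (XT.nd (nat_lit 78) (nat_lit 532) (nat_lit 0) (XT.lf (nat_lit 228) (nat_lit 122173718) (nat_lit 0) (nat_lit 1733184620) (nat_lit 152) (nat_lit 52508475) (nat_lit 175) (nat_lit 1) (nat_lit 172) (nat_lit 1) (nat_lit 174) (nat_lit 1) (nat_lit 379) (nat_lit 345) (nat_lit 296)) (XT.nd (nat_lit 78) (nat_lit 304) (nat_lit 0) (XT.lf (nat_lit 76) (nat_lit 1061563838) (nat_lit 0) (nat_lit 740372843) (nat_lit 228) (nat_lit 72553844) (nat_lit 170) (nat_lit 1) (nat_lit 169) (nat_lit 1) (nat_lit 172) (nat_lit 1) (nat_lit 380) (nat_lit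 345) (nat_lit 295)) (XT.lf (nat_lit 228) (nat_lit 258957988) (nat_lit 0) (nat_lit 35909782) (nat_lit 152) (nat_lit 1547099246) (nat_lit 168) (nat_lit 1) (nat_lit 165) (nat_lit 1) (nat_lit 167) (nat_lit 1) (nat_lit 381) (nat_lit 345) (nat_lit 294)))) (XT.nd (nat_lit 156) (nat_lit 380) (nat_lit 0) (XT.nd (nat_lit 78) (nat_lit 152) (nat_lit 0) (XT.lf (nat_lit 228) (nat_lit 1218802984) (nat_lit 0) (nat_lit 141950970) (nat_lit 152) (nat_lit 449236476) (nat_lit 165) (nat_lit 1) (nat_lit 162) (nat_lit 1) (nat_lit 164) (nat_lit 1) (nat_lit 382) (nat_lit 345) (nat_lit 293)) (XT.lf (nat_lit 228) (nat_lit 357517430) (nat_lit 0) (nat_lit 248987189) (nat_lit 152) (nat_lit 1172206114) (nat_lit 163) (nat_lit 1) (nat_lit 160) (nat_lit 1) (nat_lit 162) (nat_lit 1) (nat_lit 383) (nat_lit 345) (nat_lit 292))) (XT.nd (nat_lit 78) (nat_lit 152) (nat_lit 0) (XT.lf (nat_lit 228) (nat_lit 1271099853) (nat_lit 0) (nat_lit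 356124058) (nat_lit 152) (nat_lit 120865244) (nat_lit 160) (nat_lit 1) (nat_lit 157) (nat_lit 1) (nat_lit 159) (nat_lit 1) (nat_lit 384) (nat_lit 345) (nat_lit 291)) (XT.lf (nat_lit 228) (nat_lit 425587852) (nat_lit 0) (nat_lit 459760997) (nat_lit 152) (nat_lit 832659493) (nat_lit 158) (nat_lit 1) (nat_lit 155) (nat_lit 1) (nat_lit 157) (nat_lit 1) (nat_lit 385) (nat_lit 345) (nat_lit 290))))) (XT.nd (nat_lit 234) (nat_lit 608) (nat_lit 0) (XT.nd (nat_lit 78) (nat_lit 304) (nat_lit 0) (XT.lf (nat_lit 76) (nat_lit 171552031) (nat_lit 0) (nat_lit 393616444) (nat_lit 228) (nat_lit 1123441088) (nat_lit 153) (nat_lit 1) (nat_lit 152) (nat_lit 1) (nat_lit 155) (nat_lit 1) (nat_lit 386) (nat_lit 345) (nat_lit 289)) (XT.nd (nat_lit 78) (nat_lit 152) (nat_lit 0) (XT.lf (nat_lit 228) (nat_lit 467918745) (nat_lit 0) (nat_lit 666720539) (nat_lit 152) (nat_lit 525077662) (nat_lit 153) (nat_lit 1) (nat_lit 150)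 (nat_lit 1) (nat_lit 152) (nat_lit 1) (nat_lit 387) (nat_lit 345) (nat_lit 288)) (XT.lf (nat_lit 76) (nat_lit 432782190) (nat_lit 0) (nat_lit 335797785) (nat_lit 152) (nat_lit 862859981) (nat_lit 149) (nat_lit 1) (nat_lit 148) (nat_lit 1) (nat_lit 150) (nat_lit 1) (nat_lit 388) (nat_lit 345) (nat_lit 287)))) (XT.nd (nat_lit 156) (nat_lit 304) (nat_lit 0) (XT.nd (nat_lit 78) (nat_lit 152) (nat_lit 0) (XT.lf (nat_lit 228) (nat_lit 488638961) (nat_lit 0) (nat_lit 868629469) (nat_lit 152) (nat_lit 246436938) (nat_lit 149) (nat_lit 1) (nat_lit 146) (nat_lit 1) (nat_lit 148) (nat_lit 1) (nat_lit 389) (nat_lit 345) (nat_lit 286)) (XT.lf (nat_lit 76) (nat_lit 667934478) (nat_lit 0) (nat_lit 298512617) (nat_lit 152) (nat_lit 610042464) (nat_lit 145) (nat_lit 1) (nat_lit 144) (nat_lit 1) (nat_lit 146) (nat_lit 1) (nat_lit 390) (nat_lit 345) (nat_lit 285))) (XT.nd (nat_lit 78) (nat_lit 152) (nat_lit 0) (XT.lf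 (nat_lit 76) (nat_lit 5852457) (nat_lit 0) (nat_lit 1058577134) (nat_lit 228) (nat_lit 485421625) (nat_lit 143) (nat_lit 1) (nat_lit 142) (nat_lit 1) (nat_lit 145) (nat_lit 1) (nat_lit 391) (nat_lit 345) (nat_lit 284)) (XT.lf (nat_lit 76) (nat_lit 879471045) (nat_lit 0) (nat_lit 278410045) (nat_lit 152) (nat_lit 365761569) (nat_lit 141) (nat_lit 1) (nat_lit 140) (nat_lit 1) (nat_lit 142) (nat_lit 1) (nat_lit 392) (nat_lit 345) (nat_lit 283))))))) (XT.nd (nat_lit 48828) (nat_lit 0) (nat_lit 11096) (XT.nd (nat_lit 48282) (nat_lit 0) (nat_lit 17708) (XT.nd (nat_lit 234) (nat_lit 304) (nat_lit 0) (XT.nd (nat_lit 78) (nat_lit 304) (nat_lit 0) (XT.lf (nat_lit 76) (nat_lit 229987434) (nat_lit 0) (nat_lit 1021194037) (nat_lit 228) (nat_lit 246799285) (nat_lit 139) (nat_lit 1) (nat_lit 138) (nat_lit 1) (nat_lit 141) (nat_lit 1) (nat_lit 393) (nat_lit 345) (nat_lit 282)) (XT.nd (nat_lit 78) (nat_lit 152)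 (nat_lit 0) (XT.lf (nat_lit 76) (nat_lit 1069598016) (nat_lit 0) (nat_lit 272584386) (nat_lit 152) (nat_lit 130610035) (nat_lit 137) (nat_lit 1) (nat_lit 136) (nat_lit 1) (nat_lit 138) (nat_lit 1) (nat_lit 394) (nat_lit 345) (nat_lit 281)) (XT.lf (nat_lit 76) (nat_lit 432909202) (nat_lit 0) (nat_lit 997776419) (nat_lit 228) (nat_lit 17376013) (nat_lit 135) (nat_lit 1) (nat_lit 134) (nat_lit 1) (nat_lit 137) (nat_lit 1) (nat_lit 395) (nat_lit 345) (nat_lit 280)))) (XT.nd (nat_lit 47892) (nat_lit 0) (nat_lit 18620) (XT.nd (nat_lit 47814) (nat_lit 0) (nat_lit 18544) (XT.lf (nat_lit 228) (nat_lit 1144361042) (nat_lit 0) (nat_lit 96864311) (nat_lit 152) (nat_lit 182586797) (nat_lit 133) (nat_lit 1) (nat_lit 130) (nat_lit 1) (nat_lit 132) (nat_lit 1) (nat_lit 396) (nat_lit 345) (nat_lit 279)) (XT.lf (nat_lit 1292) (nat_lit 499804856) (nat_lit 0) (nat_lit 1719561150) (nat_lit 1292) (nat_lit 499804856)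 (nat_lit 391) (nat_lit 1) (nat_lit 374) (nat_lit 0) (nat_lit 391) (nat_lit 0) (nat_lit 328) (nat_lit 346) (nat_lit 346))) (XT.nd (nat_lit 78) (nat_lit 0) (nat_lit 0) (XT.lf (nat_lit 1292) (nat_lit 40070231) (nat_lit 0) (nat_lit 3390612997) (nat_lit 1216) (nat_lit 1877172934) (nat_lit 392) (nat_lit 1) (nat_lit 375) (nat_lit 1) (nat_lit 391) (nat_lit 1) (nat_lit 329) (nat_lit 346) (nat_lit 345)) (XT.lf (nat_lit 1292) (nat_lit 1762917901) (nat_lit 76) (nat_lit 2493582861) (nat_lit 0) (nat_lit 924862484) (nat_lit 392) (nat_lit 1) (nat_lit 376) (nat_lit 1) (nat_lit 375) (nat_lit 1) (nat_lit 330) (nat_lit 346) (nat_lit 344))))) (XT.nd (nat_lit 234) (nat_lit 988) (nat_lit 0) (XT.nd (nat_lit 78) (nat_lit 0) (nat_lit 76) (XT.lf (nat_lit 1292) (nat_lit 1549754322) (nat_lit 76) (nat_lit 1632228415) (nat_lit 0) (nat_lit 1876983284) (nat_lit 393) (nat_lit 1) (nat_lit 377) (nat_lit 1) (nat_lit 376) (nat_lit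 1) (nat_lit 331) (nat_lit 346) (nat_lit 343)) (XT.nd (nat_lit 78) (nat_lit 0) (nat_lit 76) (XT.lf (nat_lit 1292) (nat_lit 1282526055) (nat_lit 76) (nat_lit 843131234) (nat_lit 0) (nat_lit 2814869597) (nat_lit 394) (nat_lit 1) (nat_lit 378) (nat_lit 1) (nat_lit 377) (nat_lit 1) (nat_lit 332) (nat_lit 346) (nat_lit 342)) (XT.lf (nat_lit 1292) (nat_lit 965354126) (nat_lit 76) (nat_lit 122578810) (nat_lit 0) (nat_lit 3737969468) (nat_lit 395) (nat_lit 1) (nat_lit 379) (nat_lit 1) (nat_lit 378) (nat_lit 1) (nat_lit 333) (nat_lit 346) (nat_lit 341)))) (XT.nd (nat_lit 156) (nat_lit 1216) (nat_lit 0) (XT.nd (nat_lit 78) (nat_lit 0) (nat_lit 0) (XT.lf (nat_lit 1292) (nat_lit 74278851) (nat_lit 0) (nat_lit 4117953612) (nat_lit 1216) (nat_lit 522568678) (nat_lit 396) (nat_lit 1) (nat_lit 379) (nat_lit 1) (nat_lit 395) (nat_lit 1) (nat_lit 334) (nat_lit 346) (nat_lit 340)) (XT.lf (nat_lit 1292) (nat_lit 176057038)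 (nat_lit 76) (nat_lit 3493043920) (nat_lit 0) (nat_lit 937855522) (nat_lit 396) (nat_lit 1) (nat_lit 380) (nat_lit 1) (nat_lit 379) (nat_lit 1) (nat_lit 335) (nat_lit 346) (nat_lit 339))) (XT.nd (nat_lit 78) (nat_lit 0) (nat_lit 76) (XT.lf (nat_lit 1368) (nat_lit 2573071616) (nat_lit 0) (nat_lit 278122131) (nat_lit 1292) (nat_lit 1651254403) (nat_lit 381) (nat_lit 1) (nat_lit 363) (nat_lit 1) (nat_lit 380) (nat_lit 1) (nat_lit 336) (nat_lit 346) (nat_lit 338)) (XT.lf (nat_lit 1368) (nat_lit 1501887956) (nat_lit 0) (nat_lit 763134366) (nat_lit 1292) (nat_lit 2136173757) (nat_lit 382) (nat_lit 1) (nat_lit 364) (nat_lit 1) (nat_lit 381) (nat_lit 1) (nat_lit 337) (nat_lit 346) (nat_lit 337)))))) (XT.nd (nat_lit 546) (nat_lit 3496) (nat_lit 0) (XT.nd (nat_lit 234) (nat_lit 1824) (nat_lit 0) (XT.nd (nat_lit 78) (nat_lit 1444) (nat_lit 0) (XT.lf (nat_lit 76) (nat_lit 453878508) (nat_lit 0) (nat_lit 1279440060)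 (nat_lit 1292) (nat_lit 2569815288) (nat_lit 366) (nat_lit 1) (nat_lit 365) (nat_lit 1) (nat_lit 382) (nat_lit 1) (nat_lit 338) (nat_lit 346) (nat_lit 336)) (XT.nd (nat_lit 78) (nat_lit 608) (nat_lit 0) (XT.lf (nat_lit 912) (nat_lit 2378143577) (nat_lit 0) (nat_lit 1247498960) (nat_lit 836) (nat_lit 582338397) (nat_lit 366) (nat_lit 1) (nat_lit 354) (nat_lit 1) (nat_lit 365) (nat_lit 1) (nat_lit 339) (nat_lit 346) (nat_lit 335)) (XT.lf (nat_lit 684) (nat_lit 1705351972) (nat_lit 0) (nat_lit 806291670) (nat_lit 608) (nat_lit 1604026670) (nat_lit 355) (nat_lit 1) (nat_lit 346) (nat_lit 1) (nat_lit 354) (nat_lit 1) (nat_lit 340) (nat_lit 346) (nat_lit 334)))) (XT.nd (nat_lit 156) (nat_lit 684) (nat_lit 0) (XT.nd (nat_lit 78) (nat_lit 532) (nat_lit 0) (XT.lf (nat_lit 684) (nat_lit 1012273311) (nat_lit 0) (nat_lit 411715902) (nat_lit 608) (nat_lit 2602242200) (nat_lit 347) (nat_lit 1) (nat_lit 338)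 (nat_lit 1) (nat_lit 346) (nat_lit 1) (nat_lit 341) (nat_lit 346) (nat_lit 333)) (XT.lf (nat_lit 608) (nat_lit 301133236) (nat_lit 0) (nat_lit 61326004) (nat_lit 532) (nat_lit 3577104934) (nat_lit 339) (nat_lit 1) (nat_lit 331) (nat_lit 1) (nat_lit 338) (nat_lit 1) (nat_lit 342) (nat_lit 346) (nat_lit 332))) (XT.nd (nat_lit 78) (nat_lit 608) (nat_lit 0) (XT.lf (nat_lit 76) (nat_lit 3175322201) (nat_lit 0) (nat_lit 426709430) (nat_lit 608) (nat_lit 253146654) (nat_lit 331) (nat_lit 1) (nat_lit 330) (nat_lit 1) (nat_lit 338) (nat_lit 1) (nat_lit 343) (nat_lit 346) (nat_lit 331)) (XT.lf (nat_lit 76) (nat_lit 2073284677) (nat_lit 0) (nat_lit 1165961737) (nat_lit 684) (nat_lit 533931697) (nat_lit 323) (nat_lit 1) (nat_lit 322) (nat_lit 1) (nat_lit 331) (nat_lit 1) (nat_lit 344) (nat_lit 346) (nat_lit 330))))) (XT.nd (nat_lit 234) (nat_lit 1976) (nat_lit 0) (XT.nd (nat_lit 78) (nat_lit 988) (nat_lit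 0) (XT.lf (nat_lit 76) (nat_lit 999332787) (nat_lit 0) (nat_lit 1916546193) (nat_lit 608) (nat_lit 777807689) (nat_lit 316) (nat_lit 1) (nat_lit 315) (nat_lit 1) (nat_lit 323) (nat_lit 1) (nat_lit 345) (nat_lit 346) (nat_lit 329)) (XT.nd (nat_lit 78) (nat_lit 456) (nat_lit 0) (XT.lf (nat_lit 608) (nat_lit 939343414) (nat_lit 0) (nat_lit 2629399657) (nat_lit 532) (nat_lit 47861289) (nat_lit 316) (nat_lit 1) (nat_lit 308) (nat_lit 1) (nat_lit 315) (nat_lit 1) (nat_lit 346) (nat_lit 346) (nat_lit 328)) (XT.lf (nat_lit 532) (nat_lit 85955260) (nat_lit 0) (nat_lit 2368504968) (nat_lit 456) (nat_lit 1087116307) (nat_lit 309) (nat_lit 1) (nat_lit 302) (nat_lit 1) (nat_lit 308) (nat_lit 1) (nat_lit 347) (nat_lit 346) (nat_lit 327)))) (XT.nd (nat_lit 156) (nat_lit 912) (nat_lit 0) (XT.nd (nat_lit 78) (nat_lit 456) (nat_lit 0) (XT.lf (nat_lit 76) (nat_lit 1377263804) (nat_lit 0) (nat_lit 756507380) (nat_lit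 608) (nat_lit 1334823855) (nat_lit 295) (nat_lit 1) (nat_lit 294) (nat_lit 1) (nat_lit 302) (nat_lit 1) (nat_lit 348) (nat_lit 346) (nat_lit 326)) (XT.lf (nat_lit 76) (nat_lit 330077070) (nat_lit 0) (nat_lit 1600091277) (nat_lit 532) (nat_lit 1467611819) (nat_lit 289) (nat_lit 1) (nat_lit 288) (nat_lit 1) (nat_lit 295) (nat_lit 1) (nat_lit 349) (nat_lit 346) (nat_lit 325))) (XT.nd (nat_lit 78) (nat_lit 456) (nat_lit 0) (XT.lf (nat_lit 532) (nat_lit 876822601) (nat_lit 0) (nat_lit 1749899361) (nat_lit 456) (nat_lit 702158857) (nat_lit 289) (nat_lit 1) (nat_lit 282) (nat_lit 1) (nat_lit 288) (nat_lit 1) (nat_lit 350) (nat_lit 346) (nat_lit 324)) (XT.lf (nat_lit 76) (nat_lit 1550091549) (nat_lit 0) (nat_lit 44705620) (nat_lit 456) (nat_lit 1667129675) (nat_lit 277) (nat_lit 1) (nat_lit 276) (nat_lit 1) (nat_lit 282) (nat_lit 1) (nat_lit 351) (nat_lit 346) (nat_lit 323))))))))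
noncomputable def ec21 : XT := (XT.nd (nat_lit 2184) (nat_lit 2964) (nat_lit 0) (XT.nd (nat_lit 1092) (nat_lit 3496) (nat_lit 0) (XT.nd (nat_lit 546) (nat_lit 2128) (nat_lit 0) (XT.nd (nat_lit 234) (nat_lit 1596) (nat_lit 0) (XT.nd (nat_lit 78) (nat_lit 760) (nat_lit 0) (XT.lf (nat_lit 76) (nat_lit 511979952) (nat_lit 0) (nat_lit 946462085) (nat_lit 532) (nat_lit 1738266128) (nat_lit 271) (nat_lit 1) (nat_lit 270) (nat_lit 1) (nat_lit 277) (nat_lit 1) (nat_lit 352) (nat_lit 346) (nat_lit 322)) (XT.nd (nat_lit 78) (nat_lit 380) (nat_lit 0) (XT.lf (nat_lit 456) (nat_lit 1283686443) (nat_lit 0) (nat_lit 1343029636) (nat_lit 380) (nat_lit 506550003) (nat_lit 271) (nat_lit 1) (nat_lit 265) (nat_lit 1) (nat_lit 270) (nat_lit 1) (nat_lit 353) (nat_lit 346) (nat_lit 321)) (XT.lf (nat_lit 456) (nat_lit 318397466) (nat_lit 0) (nat_lit 1247293239) (nat_lit 380) (nat_lit 1505850772) (nat_lit 266) (nat_lit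 1) (nat_lit 260) (nat_lit 1) (nat_lit 265) (nat_lit 1) (nat_lit 354) (nat_lit 346) (nat_lit 320)))) (XT.nd (nat_lit 156) (nat_lit 760) (nat_lit 0) (XT.nd (nat_lit 78) (nat_lit 380) (nat_lit 0) (XT.lf (nat_lit 76) (nat_lit 541410114) (nat_lit 0) (nat_lit 627312584) (nat_lit 456) (nat_lit 1842716744) (nat_lit 255) (nat_lit 1) (nat_lit 254) (nat_lit 1) (nat_lit 260) (nat_lit 1) (nat_lit 355) (nat_lit 346) (nat_lit 319)) (XT.lf (nat_lit 456) (nat_lit 1389184990) (nat_lit 0) (nat_lit 1104748269) (nat_lit 380) (nat_lit 458930489) (nat_lit 255) (nat_lit 1) (nat_lit 249) (nat_lit 1) (nat_lit 254) (nat_lit 1) (nat_lit 356) (nat_lit 346) (nat_lit 318))) (XT.nd (nat_lit 78) (nat_lit 456) (nat_lit 0) (XT.lf (nat_lit 380) (nat_lit 398842173) (nat_lit 0) (nat_lit 1056673235) (nat_lit 304) (nat_lit 1440315970) (nat_lit 250) (nat_lit 1) (nat_lit 245) (nat_lit 1) (nat_lit 249) (nat_lit 1) (nat_lit 357) (nat_lit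 346) (nat_lit 317)) (XT.lf (nat_lit 76) (nat_lit 453370128) (nat_lit 0) (nat_lit 569670585) (nat_lit 456) (nat_lit 1817238611) (nat_lit 240) (nat_lit 1) (nat_lit 239) (nat_lit 1) (nat_lit 245) (nat_lit 1) (nat_lit 358) (nat_lit 346) (nat_lit 316))))) (XT.nd (nat_lit 234) (nat_lit 1140) (nat_lit 0) (XT.nd (nat_lit 78) (nat_lit 684) (nat_lit 0) (XT.lf (nat_lit 380) (nat_lit 1261272025) (nat_lit 0) (nat_lit 999442256) (nat_lit 304) (nat_lit 525344717) (nat_lit 240) (nat_lit 1) (nat_lit 235) (nat_lit 1) (nat_lit 239) (nat_lit 1) (nat_lit 359) (nat_lit 346) (nat_lit 315)) (XT.nd (nat_lit 78) (nat_lit 380) (nat_lit 0) (XT.lf (nat_lit 380) (nat_lit 260198187) (nat_lit 0) (nat_lit 989680073) (nat_lit 304) (nat_lit 1483383088) (nat_lit 236) (nat_lit 1) (nat_lit 231) (nat_lit 1) (nat_lit 235) (nat_lit 1) (nat_lit 360) (nat_lit 346) (nat_lit 314)) (XT.lf (nat_lit 76) (nat_lit 276513267) (nat_lit 0) (nat_lit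 713590156) (nat_lit 380) (nat_lit 1691657195) (nat_lit 227) (nat_lit 1) (nat_lit 226) (nat_lit 1) (nat_lit 231) (nat_lit 1) (nat_lit 361) (nat_lit 346) (nat_lit 313)))) (XT.nd (nat_lit 156) (nat_lit 532) (nat_lit 0) (XT.nd (nat_lit 78) (nat_lit 304) (nat_lit 0) (XT.lf (nat_lit 380) (nat_lit 955667847) (nat_lit 0) (nat_lit 997783942) (nat_lit 304) (nat_lit 678000673) (nat_lit 227) (nat_lit 1) (nat_lit 222) (nat_lit 1) (nat_lit 226) (nat_lit 1) (nat_lit 362) (nat_lit 346) (nat_lit 312)) (XT.lf (nat_lit 76) (nat_lit 974299069) (nat_lit 0) (nat_lit 43837122) (nat_lit 304) (nat_lit 1564339707) (nat_lit 219) (nat_lit 1) (nat_lit 218) (nat_lit 1) (nat_lit 222) (nat_lit 1) (nat_lit 363) (nat_lit 346) (nat_lit 311))) (XT.nd (nat_lit 78) (nat_lit 228) (nat_lit 0) (XT.lf (nat_lit 76) (nat_lit 34211644) (nat_lit 0) (nat_lit 1009973907) (nat_lit 380) (nat_lit 1490423895) (nat_lit 215) (nat_lit 1) (nat_lit 214)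 (nat_lit 1) (nat_lit 219) (nat_lit 1) (nat_lit 364) (nat_lit 346) (nat_lit 310)) (XT.lf (nat_lit 304) (nat_lit 517910004) (nat_lit 0) (nat_lit 1075685275) (nat_lit 228) (nat_lit 894232659) (nat_lit 215) (nat_lit 1) (nat_lit 211) (nat_lit 1) (nat_lit 214) (nat_lit 1) (nat_lit 365) (nat_lit 346) (nat_lit 309)))))) (XT.nd (nat_lit 546) (nat_lit 1596) (nat_lit 0) (XT.nd (nat_lit 234) (nat_lit 988) (nat_lit 0) (XT.nd (nat_lit 78) (nat_lit 532) (nat_lit 0) (XT.lf (nat_lit 76) (nat_lit 652418786) (nat_lit 0) (nat_lit 463513729) (nat_lit 380) (nat_lit 1326277247) (nat_lit 207) (nat_lit 1) (nat_lit 206) (nat_lit 1) (nat_lit 211) (nat_lit 1) (nat_lit 366) (nat_lit 346) (nat_lit 308)) (XT.nd (nat_lit 78) (nat_lit 304) (nat_lit 0) (XT.lf (nat_lit 304) (nat_lit 976394917) (nat_lit 0) (nat_lit 1161629998) (nat_lit 228) (nat_lit 259616663) (nat_lit 207) (nat_lit 1) (nat_lit 203) (nat_lit 1) (nat_lit 206) (nat_lit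 1) (nat_lit 367) (nat_lit 346) (nat_lit 307)) (XT.lf (nat_lit 76) (nat_lit 1198634758) (nat_lit 0) (nat_lit 14639968) (nat_lit 304) (nat_lit 1140846160) (nat_lit 200) (nat_lit 1) (nat_lit 199) (nat_lit 1) (nat_lit 203) (nat_lit 1) (nat_lit 368) (nat_lit 346) (nat_lit 306)))) (XT.nd (nat_lit 156) (nat_lit 532) (nat_lit 0) (XT.nd (nat_lit 78) (nat_lit 228) (nat_lit 0) (XT.lf (nat_lit 76) (nat_lit 297880788) (nat_lit 0) (nat_lit 969500928) (nat_lit 304) (nat_lit 1044147810) (nat_lit 197) (nat_lit 1) (nat_lit 196) (nat_lit 1) (nat_lit 200) (nat_lit 1) (nat_lit 369) (nat_lit 346) (nat_lit 305)) (XT.lf (nat_lit 304) (nat_lit 356958156) (nat_lit 0) (nat_lit 1327122341) (nat_lit 228) (nat_lit 585863038) (nat_lit 197) (nat_lit 1) (nat_lit 193) (nat_lit 1) (nat_lit 196) (nat_lit 1) (nat_lit 370) (nat_lit 346) (nat_lit 304))) (XT.nd (nat_lit 78) (nat_lit 228) (nat_lit 0) (XT.lf (nat_lit 76) (nat_lit 787975918)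 (nat_lit 0) (nat_lit 600860678) (nat_lit 304) (nat_lit 840403689) (nat_lit 190) (nat_lit 1) (nat_lit 189) (nat_lit 1) (nat_lit 193) (nat_lit 1) (nat_lit 371) (nat_lit 346) (nat_lit 303)) (XT.lf (nat_lit 304) (nat_lit 654836466) (nat_lit 0) (nat_lit 1456831813) (nat_lit 228) (nat_lit 77861236) (nat_lit 190) (nat_lit 1) (nat_lit 186) (nat_lit 1) (nat_lit 189) (nat_lit 1) (nat_lit 372) (nat_lit 346) (nat_lit 302))))) (XT.nd (nat_lit 234) (nat_lit 912) (nat_lit 0) (XT.nd (nat_lit 78) (nat_lit 456) (nat_lit 0) (XT.lf (nat_lit 76) (nat_lit 1222361427) (nat_lit 0) (nat_lit 301710496) (nat_lit 228) (nat_lit 626518946) (nat_lit 184) (nat_lit 1) (nat_lit 183) (nat_lit 1) (nat_lit 186) (nat_lit 1) (nat_lit 373) (nat_lit 346) (nat_lit 301)) (XT.nd (nat_lit 78) (nat_lit 228) (nat_lit 0) (XT.lf (nat_lit 76) (nat_lit 367538487) (nat_lit 0) (nat_lit 1227127565) (nat_lit 304) (nat_lit 517862852) (nat_lit 181) (nat_lit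 1) (nat_lit 180) (nat_lit 1) (nat_lit 184) (nat_lit 1) (nat_lit 374) (nat_lit 346) (nat_lit 300)) (XT.lf (nat_lit 76) (nat_lit 1606923365) (nat_lit 0) (nat_lit 62328512) (nat_lit 228) (nat_lit 406095481) (nat_lit 178) (nat_lit 1) (nat_lit 177) (nat_lit 1) (nat_lit 180) (nat_lit 1) (nat_lit 375) (nat_lit 346) (nat_lit 299)))) (XT.nd (nat_lit 156) (nat_lit 532) (nat_lit 0) (XT.nd (nat_lit 78) (nat_lit 152) (nat_lit 0) (XT.lf (nat_lit 76) (nat_lit 762858703) (nat_lit 0) (nat_lit 977640731) (nat_lit 304) (nat_lit 298318746) (nat_lit 175) (nat_lit 1) (nat_lit 174) (nat_lit 1) (nat_lit 178) (nat_lit 1) (nat_lit 376) (nat_lit 346) (nat_lit 298)) (XT.lf (nat_lit 228) (nat_lit 128282404) (nat_lit 0) (nat_lit 1819843851) (nat_lit 152) (nat_lit 55133899) (nat_lit 175) (nat_lit 1) (nat_lit 172) (nat_lit 1) (nat_lit 174) (nat_lit 1) (nat_lit 377) (nat_lit 346) (nat_lit 297))) (XT.nd (nat_lit 78) (nat_lit 304)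 (nat_lit 0) (XT.lf (nat_lit 76) (nat_lit 1114642029) (nat_lit 0) (nat_lit 777391485) (nat_lit 228) (nat_lit 76181537) (nat_lit 170) (nat_lit 1) (nat_lit 169) (nat_lit 1) (nat_lit 172) (nat_lit 1) (nat_lit 378) (nat_lit 346) (nat_lit 296)) (XT.lf (nat_lit 228) (nat_lit 271905887) (nat_lit 0) (nat_lit 37705271) (nat_lit 152) (nat_lit 1624454208) (nat_lit 168) (nat_lit 1) (nat_lit 165) (nat_lit 1) (nat_lit 167) (nat_lit 1) (nat_lit 379) (nat_lit 346) (nat_lit 295))))))) (XT.nd (nat_lit 1092) (nat_lit 608) (nat_lit 0) (XT.nd (nat_lit 546) (nat_lit 1064) (nat_lit 0) (XT.nd (nat_lit 234) (nat_lit 684) (nat_lit 0) (XT.nd (nat_lit 78) (nat_lit 380) (nat_lit 0) (XT.lf (nat_lit 228) (nat_lit 1279743133) (nat_lit 0) (nat_lit 149048518) (nat_lit 152) (nat_lit 471698300) (nat_lit 165) (nat_lit 1) (nat_lit 162) (nat_lit 1) (nat_lit 164) (nat_lit 1) (nat_lit 380) (nat_lit 346) (nat_lit 294)) (XT.nd (nat_lit 78)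 (nat_lit 228) (nat_lit 0) (XT.lf (nat_lit 228) (nat_lit 375393302) (nat_lit 0) (nat_lit 261436548) (nat_lit 152) (nat_lit 1230816420) (nat_lit 163) (nat_lit 1) (nat_lit 160) (nat_lit 1) (nat_lit 162) (nat_lit 1) (nat_lit 381) (nat_lit 346) (nat_lit 293)) (XT.lf (nat_lit 228) (nat_lit 1334654845) (nat_lit 0) (nat_lit 373930261) (nat_lit 152) (nat_lit 126908506) (nat_lit 160) (nat_lit 1) (nat_lit 157) (nat_lit 1) (nat_lit 159) (nat_lit 1) (nat_lit 382) (nat_lit 346) (nat_lit 292)))) (XT.nd (nat_lit 156) (nat_lit 304) (nat_lit 0) (XT.nd (nat_lit 78) (nat_lit 228) (nat_lit 0) (XT.lf (nat_lit 228) (nat_lit 446867245) (nat_lit 0) (nat_lit 482749046) (nat_lit 152) (nat_lit 874292468) (nat_lit 158) (nat_lit 1) (nat_lit 155) (nat_lit 1) (nat_lit 157) (nat_lit 1) (nat_lit 383) (nat_lit 346) (nat_lit 291)) (XT.lf (nat_lit 76) (nat_lit 180129632) (nat_lit 0) (nat_lit 413297266) (nat_lit 228) (nat_lit 1179613143)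 (nat_lit 153) (nat_lit 1) (nat_lit 152) (nat_lit 1) (nat_lit 155) (nat_lit 1) (nat_lit 384) (nat_lit 346) (nat_lit 290))) (XT.nd (nat_lit 78) (nat_lit 152) (nat_lit 0) (XT.lf (nat_lit 228) (nat_lit 491314682) (nat_lit 0) (nat_lit 700056566) (nat_lit 152) (nat_lit 551331545) (nat_lit 153) (nat_lit 1) (nat_lit 150) (nat_lit 1) (nat_lit 152) (nat_lit 1) (nat_lit 385) (nat_lit 346) (nat_lit 289)) (XT.lf (nat_lit 76) (nat_lit 454421299) (nat_lit 0) (nat_lit 352587674) (nat_lit 152) (nat_lit 906002980) (nat_lit 149) (nat_lit 1) (nat_lit 148) (nat_lit 1) (nat_lit 150) (nat_lit 1) (nat_lit 386) (nat_lit 346) (nat_lit 288))))) (XT.nd (nat_lit 234) (nat_lit 608) (nat_lit 0) (XT.nd (nat_lit 78) (nat_lit 304) (nat_lit 0) (XT.lf (nat_lit 228) (nat_lit 513070909) (nat_lit 0) (nat_lit 912060942) (nat_lit 152) (nat_lit 258758785) (nat_lit 149) (nat_lit 1) (nat_lit 146) (nat_lit 1) (nat_lit 148) (nat_lit 1) (nat_lit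 387) (nat_lit 346) (nat_lit 287)) (XT.nd (nat_lit 78) (nat_lit 152) (nat_lit 0) (XT.lf (nat_lit 76) (nat_lit 701331202) (nat_lit 0) (nat_lit 313438248) (nat_lit 152) (nat_lit 640544588) (nat_lit 145) (nat_lit 1) (nat_lit 144) (nat_lit 1) (nat_lit 146) (nat_lit 1) (nat_lit 388) (nat_lit 346) (nat_lit 286)) (XT.lf (nat_lit 76) (nat_lit 6145079) (nat_lit 0) (nat_lit 1111505991) (nat_lit 228) (nat_lit 509692706) (nat_lit 143) (nat_lit 1) (nat_lit 142) (nat_lit 1) (nat_lit 145) (nat_lit 1) (nat_lit 389) (nat_lit 346) (nat_lit 285)))) (XT.nd (nat_lit 156) (nat_lit 304) (nat_lit 0) (XT.nd (nat_lit 78) (nat_lit 152) (nat_lit 0) (XT.lf (nat_lit 76) (nat_lit 923444597) (nat_lit 0) (nat_lit 292330547) (nat_lit 152) (nat_lit 384049647) (nat_lit 141) (nat_lit 1) (nat_lit 140) (nat_lit 1) (nat_lit 142) (nat_lit 1) (nat_lit 390) (nat_lit 346) (nat_lit 284)) (XT.lf (nat_lit 76) (nat_lit 241486805) (nat_lit 0)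 (nat_lit 1072253739) (nat_lit 228) (nat_lit 259139249) (nat_lit 139) (nat_lit 1) (nat_lit 138) (nat_lit 1) (nat_lit 141) (nat_lit 1) (nat_lit 391) (nat_lit 346) (nat_lit 283))) (XT.nd (nat_lit 78) (nat_lit 152) (nat_lit 0) (XT.lf (nat_lit 76) (nat_lit 1123077917) (nat_lit 0) (nat_lit 286213605) (nat_lit 152) (nat_lit 137140537) (nat_lit 137) (nat_lit 1) (nat_lit 136) (nat_lit 1) (nat_lit 138) (nat_lit 1) (nat_lit 392) (nat_lit 346) (nat_lit 282)) (XT.lf (nat_lit 76) (nat_lit 454554662) (nat_lit 0) (nat_lit 1047665240) (nat_lit 228) (nat_lit 18244814) (nat_lit 135) (nat_lit 1) (nat_lit 134) (nat_lit 1) (nat_lit 137) (nat_lit 1) (nat_lit 393) (nat_lit 346) (nat_lit 281)))))) (XT.nd (nat_lit 48126) (nat_lit 0) (nat_lit 18012) (XT.nd (nat_lit 47814) (nat_lit 0) (nat_lit 18848) (XT.nd (nat_lit 78) (nat_lit 304) (nat_lit 0) (XT.lf (nat_lit 228) (nat_lit 1201579094) (nat_lit 0) (nat_lit 101707526) (nat_lit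 152) (nat_lit 191716137) (nat_lit 133) (nat_lit 1) (nat_lit 130) (nat_lit 1) (nat_lit 132) (nat_lit 1) (nat_lit 394) (nat_lit 346) (nat_lit 280)) (XT.nd (nat_lit 78) (nat_lit 228) (nat_lit 0) (XT.lf (nat_lit 152) (nat_lit 432631342) (nat_lit 0) (nat_lit 216811903) (nat_lit 76) (nat_lit 820492250) (nat_lit 131) (nat_lit 1) (nat_lit 129) (nat_lit 1) (nat_lit 130) (nat_lit 1) (nat_lit 395) (nat_lit 346) (nat_lit 279)) (XT.lf (nat_lit 76) (nat_lit 20363702) (nat_lit 0) (nat_lit 312142736) (nat_lit 228) (nat_lit 1112920314) (nat_lit 127) (nat_lit 1) (nat_lit 126) (nat_lit 1) (nat_lit 129) (nat_lit 1) (nat_lit 396) (nat_lit 346) (nat_lit 278)))) (XT.nd (nat_lit 156) (nat_lit 0) (nat_lit 76) (XT.nd (nat_lit 78) (nat_lit 0) (nat_lit 76) (XT.lf (nat_lit 1292) (nat_lit 524795099) (nat_lit 0) (nat_lit 1805539207) (nat_lit 1292) (nat_lit 524795099) (nat_lit 391) (nat_lit 1) (nat_lit 374) (nat_lit 0) (nat_lit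 391) (nat_lit 0) (nat_lit 326) (nat_lit 347) (nat_lit 347)) (XT.lf (nat_lit 1292) (nat_lit 42073743) (nat_lit 0) (nat_lit 3560143646) (nat_lit 1216) (nat_lit 1971031581) (nat_lit 392) (nat_lit 1) (nat_lit 375) (nat_lit 1) (nat_lit 391) (nat_lit 1) (nat_lit 327) (nat_lit 347) (nat_lit 346))) (XT.nd (nat_lit 78) (nat_lit 0) (nat_lit 76) (XT.lf (nat_lit 1292) (nat_lit 1851063796) (nat_lit 76) (nat_lit 2618262004) (nat_lit 0) (nat_lit 971105608) (nat_lit 392) (nat_lit 1) (nat_lit 376) (nat_lit 1) (nat_lit 375) (nat_lit 1) (nat_lit 328) (nat_lit 347) (nat_lit 345)) (XT.lf (nat_lit 1292) (nat_lit 1627242038) (nat_lit 76) (nat_lit 1713839836) (nat_lit 0) (nat_lit 1970832448) (nat_lit 393) (nat_lit 1) (nat_lit 377) (nat_lit 1) (nat_lit 376) (nat_lit 1) (nat_lit 329) (nat_lit 347) (nat_lit 344))))) (XT.nd (nat_lit 234) (nat_lit 1064) (nat_lit 0) (XT.nd (nat_lit 78) (nat_lit 0) (nat_lit 76) (XT.lf (nat_lit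 1292) (nat_lit 1346652357) (nat_lit 76) (nat_lit 885287796) (nat_lit 0) (nat_lit 2955613077) (nat_lit 394) (nat_lit 1) (nat_lit 378) (nat_lit 1) (nat_lit 377) (nat_lit 1) (nat_lit 330) (nat_lit 347) (nat_lit 343)) (XT.nd (nat_lit 78) (nat_lit 0) (nat_lit 76) (XT.lf (nat_lit 1292) (nat_lit 1013621832) (nat_lit 76) (nat_lit 128707751) (nat_lit 0) (nat_lit 3924867942) (nat_lit 395) (nat_lit 1) (nat_lit 379) (nat_lit 1) (nat_lit 378) (nat_lit 1) (nat_lit 331) (nat_lit 347) (nat_lit 342)) (XT.lf (nat_lit 1292) (nat_lit 77992794) (nat_lit 0) (nat_lit 4323851293) (nat_lit 1216) (nat_lit 548697112) (nat_lit 396) (nat_lit 1) (nat_lit 379) (nat_lit 1) (nat_lit 395) (nat_lit 1) (nat_lit 332) (nat_lit 347) (nat_lit 341)))) (XT.nd (nat_lit 156) (nat_lit 0) (nat_lit 76) (XT.nd (nat_lit 78) (nat_lit 1216) (nat_lit 0) (XT.lf (nat_lit 1292) (nat_lit 184859890) (nat_lit 76) (nat_lit 3667696116) (nat_lit 0) (nat_lit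 984748298) (nat_lit 396) (nat_lit 1) (nat_lit 380) (nat_lit 1) (nat_lit 379) (nat_lit 1) (nat_lit 333) (nat_lit 347) (nat_lit 340)) (XT.lf (nat_lit 1368) (nat_lit 2701725197) (nat_lit 0) (nat_lit 292028237) (nat_lit 1292) (nat_lit 1733817123) (nat_lit 381) (nat_lit 1) (nat_lit 363) (nat_lit 1) (nat_lit 380) (nat_lit 1) (nat_lit 334) (nat_lit 347) (nat_lit 339))) (XT.nd (nat_lit 78) (nat_lit 0) (nat_lit 76) (XT.lf (nat_lit 1368) (nat_lit 1576982354) (nat_lit 0) (nat_lit 801291084) (nat_lit 1292) (nat_lit 2242982445) (nat_lit 382) (nat_lit 1) (nat_lit 364) (nat_lit 1) (nat_lit 381) (nat_lit 1) (nat_lit 335) (nat_lit 347) (nat_lit 338)) (XT.lf (nat_lit 76) (nat_lit 476572433) (nat_lit 0) (nat_lit 1343412064) (nat_lit 1292) (nat_lit 2698306052) (nat_lit 366) (nat_lit 1) (nat_lit 365) (nat_lit 1) (nat_lit 382) (nat_lit 1) (nat_lit 336) (nat_lit 347) (nat_lit 337))))))))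
noncomputable def ec22 : XT := (XT.nd (nat_lit 2184) (nat_lit 5776) (nat_lit 0) (XT.nd (nat_lit 1092) (nat_lit 4864) (nat_lit 0) (XT.nd (nat_lit 546) (nat_lit 3420) (nat_lit 0) (XT.nd (nat_lit 234) (nat_lit 1748) (nat_lit 0) (XT.nd (nat_lit 78) (nat_lit 1216) (nat_lit 0) (XT.lf (nat_lit 912) (nat_lit 2497050756) (nat_lit 0) (nat_lit 1309873908) (nat_lit 836) (nat_lit 611455317) (nat_lit 366) (nat_lit 1) (nat_lit 354) (nat_lit 1) (nat_lit 365) (nat_lit 1) (nat_lit 337) (nat_lit 347) (nat_lit 336)) (XT.nd (nat_lit 78) (nat_lit 608) (nat_lit 0) (XT.lf (nat_lit 684) (nat_lit 1790619571) (nat_lit 0) (nat_lit 846606254) (nat_lit 608) (nat_lit 1684228004) (nat_lit 355) (nat_lit 1) (nat_lit 346) (nat_lit 1) (nat_lit 354) (nat_lit 1) (nat_lit 338) (nat_lit 347) (nat_lit 335)) (XT.lf (nat_lit 684) (nat_lit 1062886977) (nat_lit 0) (nat_lit 432301697) (nat_lit 608) (nat_lit 2732354310) (nat_lit 347) (nat_lit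 1) (nat_lit 338) (nat_lit 1) (nat_lit 346) (nat_lit 1) (nat_lit 339) (nat_lit 347) (nat_lit 334)))) (XT.nd (nat_lit 156) (nat_lit 1140) (nat_lit 0) (XT.nd (nat_lit 78) (nat_lit 76) (nat_lit 0) (XT.lf (nat_lit 608) (nat_lit 316189898) (nat_lit 0) (nat_lit 64392304) (nat_lit 532) (nat_lit 3755960180) (nat_lit 339) (nat_lit 1) (nat_lit 331) (nat_lit 1) (nat_lit 338) (nat_lit 1) (nat_lit 340) (nat_lit 347) (nat_lit 333)) (XT.lf (nat_lit 76) (nat_lit 3334088311) (nat_lit 0) (nat_lit 448044902) (nat_lit 608) (nat_lit 265803987) (nat_lit 331) (nat_lit 1) (nat_lit 330) (nat_lit 1) (nat_lit 338) (nat_lit 1) (nat_lit 341) (nat_lit 347) (nat_lit 332))) (XT.nd (nat_lit 78) (nat_lit 532) (nat_lit 0) (XT.lf (nat_lit 76) (nat_lit 2176948911) (nat_lit 0) (nat_lit 1224259824) (nat_lit 684) (nat_lit 560628282) (nat_lit 323) (nat_lit 1) (nat_lit 322) (nat_lit 1) (nat_lit 331) (nat_lit 1) (nat_lit 342) (nat_lit 347)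 (nat_lit 331)) (XT.lf (nat_lit 76) (nat_lit 1049299426) (nat_lit 0) (nat_lit 2012373502) (nat_lit 608) (nat_lit 816698074) (nat_lit 316) (nat_lit 1) (nat_lit 315) (nat_lit 1) (nat_lit 323) (nat_lit 1) (nat_lit 343) (nat_lit 347) (nat_lit 330))))) (XT.nd (nat_lit 234) (nat_lit 1824) (nat_lit 0) (XT.nd (nat_lit 78) (nat_lit 1064) (nat_lit 0) (XT.lf (nat_lit 608) (nat_lit 986310585) (nat_lit 0) (nat_lit 2760869640) (nat_lit 532) (nat_lit 50254354) (nat_lit 316) (nat_lit 1) (nat_lit 308) (nat_lit 1) (nat_lit 315) (nat_lit 1) (nat_lit 344) (nat_lit 347) (nat_lit 329)) (XT.nd (nat_lit 78) (nat_lit 608) (nat_lit 0) (XT.lf (nat_lit 532) (nat_lit 90253023) (nat_lit 0) (nat_lit 2486930216) (nat_lit 456) (nat_lit 1141472122) (nat_lit 309) (nat_lit 1) (nat_lit 302) (nat_lit 1) (nat_lit 308) (nat_lit 1) (nat_lit 345) (nat_lit 347) (nat_lit 328)) (XT.lf (nat_lit 76) (nat_lit 1446126995) (nat_lit 0) (nat_lit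 794332749) (nat_lit 608) (nat_lit 1401565047) (nat_lit 295) (nat_lit 1) (nat_lit 294) (nat_lit 1) (nat_lit 302) (nat_lit 1) (nat_lit 346) (nat_lit 347) (nat_lit 327)))) (XT.nd (nat_lit 156) (nat_lit 912) (nat_lit 0) (XT.nd (nat_lit 78) (nat_lit 456) (nat_lit 0) (XT.lf (nat_lit 76) (nat_lit 346580924) (nat_lit 0) (nat_lit 1680095841) (nat_lit 532) (nat_lit 1540992410) (nat_lit 289) (nat_lit 1) (nat_lit 288) (nat_lit 1) (nat_lit 295) (nat_lit 1) (nat_lit 347) (nat_lit 347) (nat_lit 326)) (XT.lf (nat_lit 532) (nat_lit 920663731) (nat_lit 0) (nat_lit 1837394329) (nat_lit 456) (nat_lit 737266800) (nat_lit 289) (nat_lit 1) (nat_lit 282) (nat_lit 1) (nat_lit 288) (nat_lit 1) (nat_lit 348) (nat_lit 347) (nat_lit 325))) (XT.nd (nat_lit 78) (nat_lit 456) (nat_lit 0) (XT.lf (nat_lit 76) (nat_lit 1627596126) (nat_lit 0) (nat_lit 46940901) (nat_lit 456) (nat_lit 1750486159) (nat_lit 277) (nat_lit 1) (nat_lit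 276) (nat_lit 1) (nat_lit 282) (nat_lit 1) (nat_lit 349) (nat_lit 347) (nat_lit 324)) (XT.lf (nat_lit 76) (nat_lit 537578949) (nat_lit 0) (nat_lit 993785190) (nat_lit 532) (nat_lit 1825179435) (nat_lit 271) (nat_lit 1) (nat_lit 270) (nat_lit 1) (nat_lit 277) (nat_lit 1) (nat_lit 350) (nat_lit 347) (nat_lit 323)))))) (XT.nd (nat_lit 546) (nat_lit 2204) (nat_lit 0) (XT.nd (nat_lit 234) (nat_lit 1444) (nat_lit 0) (XT.nd (nat_lit 78) (nat_lit 836) (nat_lit 0) (XT.lf (nat_lit 456) (nat_lit 1347870765) (nat_lit 0) (nat_lit 1410181117) (nat_lit 380) (nat_lit 531877503) (nat_lit 271) (nat_lit 1) (nat_lit 265) (nat_lit 1) (nat_lit 270) (nat_lit 1) (nat_lit 351) (nat_lit 347) (nat_lit 322)) (XT.nd (nat_lit 78) (nat_lit 456) (nat_lit 0) (XT.lf (nat_lit 456) (nat_lit 334317339) (nat_lit 0) (nat_lit 1309657901) (nat_lit 380) (nat_lit 1581143311) (nat_lit 266) (nat_lit 1) (nat_lit 260) (nat_lit 1) (nat_lit 265)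 (nat_lit 1) (nat_lit 352) (nat_lit 347) (nat_lit 321)) (XT.lf (nat_lit 76) (nat_lit 568480620) (nat_lit 0) (nat_lit 658678213) (nat_lit 456) (nat_lit 1934852581) (nat_lit 255) (nat_lit 1) (nat_lit 254) (nat_lit 1) (nat_lit 260) (nat_lit 1) (nat_lit 353) (nat_lit 347) (nat_lit 320)))) (XT.nd (nat_lit 156) (nat_lit 760) (nat_lit 0) (XT.nd (nat_lit 78) (nat_lit 304) (nat_lit 0) (XT.lf (nat_lit 456) (nat_lit 1458644239) (nat_lit 0) (nat_lit 1159985682) (nat_lit 380) (nat_lit 481877013) (nat_lit 255) (nat_lit 1) (nat_lit 249) (nat_lit 1) (nat_lit 254) (nat_lit 1) (nat_lit 354) (nat_lit 347) (nat_lit 319)) (XT.lf (nat_lit 380) (nat_lit 418784282) (nat_lit 0) (nat_lit 1109506897) (nat_lit 304) (nat_lit 1512331769) (nat_lit 250) (nat_lit 1) (nat_lit 245) (nat_lit 1) (nat_lit 249) (nat_lit 1) (nat_lit 355) (nat_lit 347) (nat_lit 318))) (XT.nd (nat_lit 78) (nat_lit 304) (nat_lit 0) (XT.lf (nat_lit 76) (nat_lit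 476038635) (nat_lit 0) (nat_lit 598154114) (nat_lit 456) (nat_lit 1908100541) (nat_lit 240) (nat_lit 1) (nat_lit 239) (nat_lit 1) (nat_lit 245) (nat_lit 1) (nat_lit 356) (nat_lit 347) (nat_lit 317)) (XT.lf (nat_lit 380) (nat_lit 1324335626) (nat_lit 0) (nat_lit 1049414369) (nat_lit 304) (nat_lit 551611953) (nat_lit 240) (nat_lit 1) (nat_lit 235) (nat_lit 1) (nat_lit 239) (nat_lit 1) (nat_lit 357) (nat_lit 347) (nat_lit 316))))) (XT.nd (nat_lit 234) (nat_lit 1216) (nat_lit 0) (XT.nd (nat_lit 78) (nat_lit 684) (nat_lit 0) (XT.lf (nat_lit 380) (nat_lit 273208097) (nat_lit 0) (nat_lit 1039164077) (nat_lit 304) (nat_lit 1557552242) (nat_lit 236) (nat_lit 1) (nat_lit 231) (nat_lit 1) (nat_lit 235) (nat_lit 1) (nat_lit 358) (nat_lit 347) (nat_lit 315)) (XT.nd (nat_lit 78) (nat_lit 304) (nat_lit 0) (XT.lf (nat_lit 76) (nat_lit 290338930) (nat_lit 0) (nat_lit 749269664) (nat_lit 380) (nat_lit 1776240055)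 (nat_lit 227) (nat_lit 1) (nat_lit 226) (nat_lit 1) (nat_lit 231) (nat_lit 1) (nat_lit 359) (nat_lit 347) (nat_lit 314)) (XT.lf (nat_lit 380) (nat_lit 1003451240) (nat_lit 0) (nat_lit 1047673139) (nat_lit 304) (nat_lit 711900707) (nat_lit 227) (nat_lit 1) (nat_lit 222) (nat_lit 1) (nat_lit 226) (nat_lit 1) (nat_lit 360) (nat_lit 347) (nat_lit 313)))) (XT.nd (nat_lit 156) (nat_lit 608) (nat_lit 0) (XT.nd (nat_lit 78) (nat_lit 304) (nat_lit 0) (XT.lf (nat_lit 76) (nat_lit 1023014023) (nat_lit 0) (nat_lit 46028978) (nat_lit 304) (nat_lit 1642556692) (nat_lit 219) (nat_lit 1) (nat_lit 218) (nat_lit 1) (nat_lit 222) (nat_lit 1) (nat_lit 361) (nat_lit 347) (nat_lit 312)) (XT.lf (nat_lit 76) (nat_lit 35922227) (nat_lit 0) (nat_lit 1060472602) (nat_lit 380) (nat_lit 1564945090) (nat_lit 215) (nat_lit 1) (nat_lit 214) (nat_lit 1) (nat_lit 219) (nat_lit 1) (nat_lit 362) (nat_lit 347) (nat_lit 311))) (XT.nd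 (nat_lit 78) (nat_lit 380) (nat_lit 0) (XT.lf (nat_lit 304) (nat_lit 543805504) (nat_lit 0) (nat_lit 1129469539) (nat_lit 228) (nat_lit 938944292) (nat_lit 215) (nat_lit 1) (nat_lit 211) (nat_lit 1) (nat_lit 214) (nat_lit 1) (nat_lit 363) (nat_lit 347) (nat_lit 310)) (XT.lf (nat_lit 76) (nat_lit 685039725) (nat_lit 0) (nat_lit 486689416) (nat_lit 380) (nat_lit 1392591110) (nat_lit 207) (nat_lit 1) (nat_lit 206) (nat_lit 1) (nat_lit 211) (nat_lit 1) (nat_lit 364) (nat_lit 347) (nat_lit 309))))))) (XT.nd (nat_lit 1092) (nat_lit 2432) (nat_lit 0) (XT.nd (nat_lit 546) (nat_lit 1596) (nat_lit 0) (XT.nd (nat_lit 234) (nat_lit 988) (nat_lit 0) (XT.nd (nat_lit 78) (nat_lit 532) (nat_lit 0) (XT.lf (nat_lit 304) (nat_lit 1025214663) (nat_lit 0) (nat_lit 1219711498) (nat_lit 228) (nat_lit 272597496) (nat_lit 207) (nat_lit 1) (nat_lit 203) (nat_lit 1) (nat_lit 206) (nat_lit 1) (nat_lit 365) (nat_lit 347) (nat_lit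 308)) (XT.nd (nat_lit 78) (nat_lit 228) (nat_lit 0) (XT.lf (nat_lit 76) (nat_lit 1258566496) (nat_lit 0) (nat_lit 15371966) (nat_lit 304) (nat_lit 1197888468) (nat_lit 200) (nat_lit 1) (nat_lit 199) (nat_lit 1) (nat_lit 203) (nat_lit 1) (nat_lit 366) (nat_lit 347) (nat_lit 307)) (XT.lf (nat_lit 76) (nat_lit 312774828) (nat_lit 0) (nat_lit 1017975974) (nat_lit 304) (nat_lit 1096355200) (nat_lit 197) (nat_lit 1) (nat_lit 196) (nat_lit 1) (nat_lit 200) (nat_lit 1) (nat_lit 367) (nat_lit 347) (nat_lit 306)))) (XT.nd (nat_lit 156) (nat_lit 456) (nat_lit 0) (XT.nd (nat_lit 78) (nat_lit 304) (nat_lit 0) (XT.lf (nat_lit 304) (nat_lit 374806064) (nat_lit 0) (nat_lit 1393478458) (nat_lit 228) (nat_lit 615156189) (nat_lit 197) (nat_lit 1) (nat_lit 193) (nat_lit 1) (nat_lit 196) (nat_lit 1) (nat_lit 368) (nat_lit 347) (nat_lit 305)) (XT.lf (nat_lit 76) (nat_lit 827374714) (nat_lit 0) (nat_lit 630903712) (nat_lit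 304) (nat_lit 882423873) (nat_lit 190) (nat_lit 1) (nat_lit 189) (nat_lit 1) (nat_lit 193) (nat_lit 1) (nat_lit 369) (nat_lit 347) (nat_lit 304))) (XT.nd (nat_lit 78) (nat_lit 228) (nat_lit 0) (XT.lf (nat_lit 304) (nat_lit 687578289) (nat_lit 0) (nat_lit 1529673403) (nat_lit 228) (nat_lit 81754297) (nat_lit 190) (nat_lit 1) (nat_lit 186) (nat_lit 1) (nat_lit 189) (nat_lit 1) (nat_lit 370) (nat_lit 347) (nat_lit 303)) (XT.lf (nat_lit 76) (nat_lit 1283479498) (nat_lit 0) (nat_lit 316796021) (nat_lit 228) (nat_lit 657844893) (nat_lit 184) (nat_lit 1) (nat_lit 183) (nat_lit 1) (nat_lit 186) (nat_lit 1) (nat_lit 371) (nat_lit 347) (nat_lit 302))))) (XT.nd (nat_lit 234) (nat_lit 912) (nat_lit 0) (XT.nd (nat_lit 78) (nat_lit 456) (nat_lit 0) (XT.lf (nat_lit 76) (nat_lit 385915412) (nat_lit 0) (nat_lit 1288483944) (nat_lit 304) (nat_lit 543755995) (nat_lit 181) (nat_lit 1) (nat_lit 180) (nat_lit 1) (nat_lit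 184) (nat_lit 1) (nat_lit 372) (nat_lit 347) (nat_lit 301)) (XT.nd (nat_lit 78) (nat_lit 228) (nat_lit 0) (XT.lf (nat_lit 76) (nat_lit 1687269533) (nat_lit 0) (nat_lit 65444938) (nat_lit 228) (nat_lit 426400255) (nat_lit 178) (nat_lit 1) (nat_lit 177) (nat_lit 1) (nat_lit 180) (nat_lit 1) (nat_lit 373) (nat_lit 347) (nat_lit 300)) (XT.lf (nat_lit 76) (nat_lit 801001638) (nat_lit 0) (nat_lit 1026522768) (nat_lit 304) (nat_lit 313234683) (nat_lit 175) (nat_lit 1) (nat_lit 174) (nat_lit 1) (nat_lit 178) (nat_lit 1) (nat_lit 374) (nat_lit 347) (nat_lit 299)))) (XT.nd (nat_lit 156) (nat_lit 532) (nat_lit 0) (XT.nd (nat_lit 78) (nat_lit 228) (nat_lit 0) (XT.lf (nat_lit 228) (nat_lit 134696524) (nat_lit 0) (nat_lit 1910836044) (nat_lit 152) (nat_lit 57890594) (nat_lit 175) (nat_lit 1) (nat_lit 172) (nat_lit 1) (nat_lit 174) (nat_lit 1) (nat_lit 375) (nat_lit 347) (nat_lit 298)) (XT.lf (nat_lit 76) (nat_lit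 1170374131) (nat_lit 0) (nat_lit 816261059) (nat_lit 228) (nat_lit 79990613) (nat_lit 170) (nat_lit 1) (nat_lit 169) (nat_lit 1) (nat_lit 172) (nat_lit 1) (nat_lit 376) (nat_lit 347) (nat_lit 297))) (XT.nd (nat_lit 78) (nat_lit 228) (nat_lit 0) (XT.lf (nat_lit 228) (nat_lit 285501182) (nat_lit 0) (nat_lit 39590534) (nat_lit 152) (nat_lit 1705676918) (nat_lit 168) (nat_lit 1) (nat_lit 165) (nat_lit 1) (nat_lit 167) (nat_lit 1) (nat_lit 377) (nat_lit 347) (nat_lit 296)) (XT.lf (nat_lit 228) (nat_lit 1343730290) (nat_lit 0) (nat_lit 156500944) (nat_lit 152) (nat_lit 495283215) (nat_lit 165) (nat_lit 1) (nat_lit 162) (nat_lit 1) (nat_lit 164) (nat_lit 1) (nat_lit 378) (nat_lit 347) (nat_lit 295)))))) (XT.nd (nat_lit 546) (nat_lit 1216) (nat_lit 0) (XT.nd (nat_lit 234) (nat_lit 684) (nat_lit 0) (XT.nd (nat_lit 78) (nat_lit 380) (nat_lit 0) (XT.lf (nat_lit 228) (nat_lit 394162967) (nat_lit 0) (nat_lit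 274508376) (nat_lit 152) (nat_lit 1292357241) (nat_lit 163) (nat_lit 1) (nat_lit 160) (nat_lit 1) (nat_lit 162) (nat_lit 1) (nat_lit 379) (nat_lit 347) (nat_lit 294)) (XT.nd (nat_lit 78) (nat_lit 152) (nat_lit 0) (XT.lf (nat_lit 228) (nat_lit 1401387587) (nat_lit 0) (nat_lit 392626774) (nat_lit 152) (nat_lit 133253931) (nat_lit 160) (nat_lit 1) (nat_lit 157) (nat_lit 1) (nat_lit 159) (nat_lit 1) (nat_lit 380) (nat_lit 347) (nat_lit 293)) (XT.lf (nat_lit 228) (nat_lit 469210607) (nat_lit 0) (nat_lit 506886499) (nat_lit 152) (nat_lit 918007091) (nat_lit 158) (nat_lit 1) (nat_lit 155) (nat_lit 1) (nat_lit 157) (nat_lit 1) (nat_lit 381) (nat_lit 347) (nat_lit 292)))) (XT.nd (nat_lit 156) (nat_lit 304) (nat_lit 0) (XT.nd (nat_lit 78) (nat_lit 152) (nat_lit 0) (XT.lf (nat_lit 76) (nat_lit 189136114) (nat_lit 0) (nat_lit 433962130) (nat_lit 228) (nat_lit 1238593800) (nat_lit 153) (nat_lit 1) (nat_lit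 152) (nat_lit 1) (nat_lit 155) (nat_lit 1) (nat_lit 382) (nat_lit 347) (nat_lit 291)) (XT.lf (nat_lit 228) (nat_lit 515880416) (nat_lit 0) (nat_lit 735059394) (nat_lit 152) (nat_lit 578898122) (nat_lit 153) (nat_lit 1) (nat_lit 150) (nat_lit 1) (nat_lit 152) (nat_lit 1) (nat_lit 383) (nat_lit 347) (nat_lit 290))) (XT.nd (nat_lit 78) (nat_lit 152) (nat_lit 0) (XT.lf (nat_lit 76) (nat_lit 477142364) (nat_lit 0) (nat_lit 370217058) (nat_lit 152) (nat_lit 951303129) (nat_lit 149) (nat_lit 1) (nat_lit 148) (nat_lit 1) (nat_lit 150) (nat_lit 1) (nat_lit 384) (nat_lit 347) (nat_lit 289)) (XT.lf (nat_lit 228) (nat_lit 538724455) (nat_lit 0) (nat_lit 957663990) (nat_lit 152) (nat_lit 271696724) (nat_lit 149) (nat_lit 1) (nat_lit 146) (nat_lit 1) (nat_lit 148) (nat_lit 1) (nat_lit 385) (nat_lit 347) (nat_lit 288))))) (XT.nd (nat_lit 234) (nat_lit 760) (nat_lit 0) (XT.nd (nat_lit 78) (nat_lit 304) (nat_lit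 0) (XT.lf (nat_lit 76) (nat_lit 736397762) (nat_lit 0) (nat_lit 329110160) (nat_lit 152) (nat_lit 672571817) (nat_lit 145) (nat_lit 1) (nat_lit 144) (nat_lit 1) (nat_lit 146) (nat_lit 1) (nat_lit 386) (nat_lit 347) (nat_lit 287)) (XT.nd (nat_lit 78) (nat_lit 152) (nat_lit 0) (XT.lf (nat_lit 76) (nat_lit 6452333) (nat_lit 0) (nat_lit 1167081290) (nat_lit 228) (nat_lit 535177342) (nat_lit 143) (nat_lit 1) (nat_lit 142) (nat_lit 1) (nat_lit 145) (nat_lit 1) (nat_lit 387) (nat_lit 347) (nat_lit 286)) (XT.lf (nat_lit 76) (nat_lit 969616827) (nat_lit 0) (nat_lit 306947074) (nat_lit 152) (nat_lit 403252129) (nat_lit 141) (nat_lit 1) (nat_lit 140) (nat_lit 1) (nat_lit 142) (nat_lit 1) (nat_lit 388) (nat_lit 347) (nat_lit 285)))) (XT.nd (nat_lit 156) (nat_lit 456) (nat_lit 0) (XT.nd (nat_lit 78) (nat_lit 152) (nat_lit 0) (XT.lf (nat_lit 76) (nat_lit 253561146) (nat_lit 0) (nat_lit 1125866426) (nat_lit 228)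 (nat_lit 272096211) (nat_lit 139) (nat_lit 1) (nat_lit 138) (nat_lit 1) (nat_lit 141) (nat_lit 1) (nat_lit 389) (nat_lit 347) (nat_lit 284)) (XT.lf (nat_lit 76) (nat_lit 1179231813) (nat_lit 0) (nat_lit 300524286) (nat_lit 152) (nat_lit 143997564) (nat_lit 137) (nat_lit 1) (nat_lit 136) (nat_lit 1) (nat_lit 138) (nat_lit 1) (nat_lit 390) (nat_lit 347) (nat_lit 283))) (XT.nd (nat_lit 78) (nat_lit 304) (nat_lit 0) (XT.lf (nat_lit 76) (nat_lit 477282396) (nat_lit 0) (nat_lit 1100048502) (nat_lit 228) (nat_lit 19157055) (nat_lit 135) (nat_lit 1) (nat_lit 134) (nat_lit 1) (nat_lit 137) (nat_lit 1) (nat_lit 391) (nat_lit 347) (nat_lit 282)) (XT.lf (nat_lit 228) (nat_lit 1261658049) (nat_lit 0) (nat_lit 106792903) (nat_lit 152) (nat_lit 201301944) (nat_lit 133) (nat_lit 1) (nat_lit 130) (nat_lit 1) (nat_lit 132) (nat_lit 1) (nat_lit 392) (nat_lit 347) (nat_lit 281))))))))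
noncomputable def ec23 : XT := (XT.nd (nat_lit 49608) (nat_lit 0) (nat_lit 3268) (XT.nd (nat_lit 48516) (nat_lit 0) (nat_lit 11704) (XT.nd (nat_lit 47970) (nat_lit 0) (nat_lit 18316) (XT.nd (nat_lit 234) (nat_lit 228) (nat_lit 0) (XT.nd (nat_lit 78) (nat_lit 304) (nat_lit 0) (XT.lf (nat_lit 152) (nat_lit 454262909) (nat_lit 0) (nat_lit 227652498) (nat_lit 76) (nat_lit 861516863) (nat_lit 131) (nat_lit 1) (nat_lit 129) (nat_lit 1) (nat_lit 130) (nat_lit 1) (nat_lit 393) (nat_lit 347) (nat_lit 280)) (XT.nd (nat_lit 78) (nat_lit 76) (nat_lit 0) (XT.lf (nat_lit 76) (nat_lit 21381887) (nat_lit 0) (nat_lit 327749873) (nat_lit 228) (nat_lit 1168566329) (nat_lit 127) (nat_lit 1) (nat_lit 126) (nat_lit 1) (nat_lit 129) (nat_lit 1) (nat_lit 394) (nat_lit 347) (nat_lit 279)) (XT.lf (nat_lit 152) (nat_lit 403488052) (nat_lit 0) (nat_lit 463762883) (nat_lit 76) (nat_lit 625071083) (nat_lit 127) (nat_lit 1)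 (nat_lit 125) (nat_lit 1) (nat_lit 126) (nat_lit 1) (nat_lit 395) (nat_lit 347) (nat_lit 278)))) (XT.nd (nat_lit 47580) (nat_lit 0) (nat_lit 19228) (XT.nd (nat_lit 47502) (nat_lit 0) (nat_lit 19152) (XT.lf (nat_lit 76) (nat_lit 220810559) (nat_lit 0) (nat_lit 357544010) (nat_lit 228) (nat_lit 889137178) (nat_lit 123) (nat_lit 1) (nat_lit 122) (nat_lit 1) (nat_lit 125) (nat_lit 1) (nat_lit 396) (nat_lit 347) (nat_lit 277)) (XT.lf (nat_lit 1292) (nat_lit 551034854) (nat_lit 0) (nat_lit 1895816168) (nat_lit 1292) (nat_lit 551034854) (nat_lit 391) (nat_lit 1) (nat_lit 374) (nat_lit 0) (nat_lit 391) (nat_lit 0) (nat_lit 324) (nat_lit 348) (nat_lit 348))) (XT.nd (nat_lit 78) (nat_lit 0) (nat_lit 0) (XT.lf (nat_lit 1292) (nat_lit 44177430) (nat_lit 0) (nat_lit 3738150829) (nat_lit 1216) (nat_lit 2069583160) (nat_lit 392) (nat_lit 1) (nat_lit 375) (nat_lit 1) (nat_lit 391) (nat_lit 1) (nat_lit 325) (nat_lit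 348) (nat_lit 347)) (XT.lf (nat_lit 1292) (nat_lit 1943616986) (nat_lit 76) (nat_lit 2749175104) (nat_lit 0) (nat_lit 1019660888) (nat_lit 392) (nat_lit 1) (nat_lit 376) (nat_lit 1) (nat_lit 375) (nat_lit 1) (nat_lit 326) (nat_lit 348) (nat_lit 346))))) (XT.nd (nat_lit 234) (nat_lit 988) (nat_lit 0) (XT.nd (nat_lit 78) (nat_lit 0) (nat_lit 76) (XT.lf (nat_lit 1292) (nat_lit 1708604140) (nat_lit 76) (nat_lit 1799531828) (nat_lit 0) (nat_lit 2069374070) (nat_lit 393) (nat_lit 1) (nat_lit 377) (nat_lit 1) (nat_lit 376) (nat_lit 1) (nat_lit 327) (nat_lit 348) (nat_lit 345)) (XT.nd (nat_lit 78) (nat_lit 0) (nat_lit 76) (XT.lf (nat_lit 1292) (nat_lit 1413984975) (nat_lit 76) (nat_lit 929552186) (nat_lit 0) (nat_lit 3103393731) (nat_lit 394) (nat_lit 1) (nat_lit 378) (nat_lit 1) (nat_lit 377) (nat_lit 1) (nat_lit 328) (nat_lit 348) (nat_lit 344)) (XT.lf (nat_lit 1292) (nat_lit 1064302924) (nat_lit 76)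 (nat_lit 135143139) (nat_lit 0) (nat_lit 4121111339) (nat_lit 395) (nat_lit 1) (nat_lit 379) (nat_lit 1) (nat_lit 378) (nat_lit 1) (nat_lit 329) (nat_lit 348) (nat_lit 343)))) (XT.nd (nat_lit 156) (nat_lit 1216) (nat_lit 0) (XT.nd (nat_lit 78) (nat_lit 0) (nat_lit 0) (XT.lf (nat_lit 1292) (nat_lit 81892434) (nat_lit 0) (nat_lit 4540043858) (nat_lit 1216) (nat_lit 576131968) (nat_lit 396) (nat_lit 1) (nat_lit 379) (nat_lit 1) (nat_lit 395) (nat_lit 1) (nat_lit 330) (nat_lit 348) (nat_lit 342)) (XT.lf (nat_lit 1292) (nat_lit 194102884) (nat_lit 76) (nat_lit 3851080921) (nat_lit 0) (nat_lit 1033985713) (nat_lit 396) (nat_lit 1) (nat_lit 380) (nat_lit 1) (nat_lit 379) (nat_lit 1) (nat_lit 331) (nat_lit 348) (nat_lit 341))) (XT.nd (nat_lit 78) (nat_lit 0) (nat_lit 76) (XT.lf (nat_lit 1368) (nat_lit 2836811457) (nat_lit 0) (nat_lit 306629649) (nat_lit 1292) (nat_lit 1820507979) (nat_lit 381) (nat_lit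 1) (nat_lit 363) (nat_lit 1) (nat_lit 380) (nat_lit 1) (nat_lit 332) (nat_lit 348) (nat_lit 340)) (XT.lf (nat_lit 1368) (nat_lit 1655831471) (nat_lit 0) (nat_lit 841355638) (nat_lit 1292) (nat_lit 2355131567) (nat_lit 382) (nat_lit 1) (nat_lit 364) (nat_lit 1) (nat_lit 381) (nat_lit 1) (nat_lit 333) (nat_lit 348) (nat_lit 339)))))) (XT.nd (nat_lit 546) (nat_lit 3496) (nat_lit 0) (XT.nd (nat_lit 234) (nat_lit 1824) (nat_lit 0) (XT.nd (nat_lit 78) (nat_lit 1444) (nat_lit 0) (XT.lf (nat_lit 76) (nat_lit 500401055) (nat_lit 0) (nat_lit 1410582667) (nat_lit 1292) (nat_lit 2833221355) (nat_lit 366) (nat_lit 1) (nat_lit 365) (nat_lit 1) (nat_lit 382) (nat_lit 1) (nat_lit 334) (nat_lit 348) (nat_lit 338)) (XT.nd (nat_lit 78) (nat_lit 608) (nat_lit 0) (XT.lf (nat_lit 912) (nat_lit 2621903294) (nat_lit 0) (nat_lit 1375367604) (nat_lit 836) (nat_lit 642028083) (nat_lit 366) (nat_lit 1) (nat_lit 354) (nat_lit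 1) (nat_lit 365) (nat_lit 1) (nat_lit 335) (nat_lit 348) (nat_lit 337)) (XT.lf (nat_lit 684) (nat_lit 1880150549) (nat_lit 0) (nat_lit 888936567) (nat_lit 608) (nat_lit 1768439404) (nat_lit 355) (nat_lit 1) (nat_lit 346) (nat_lit 1) (nat_lit 354) (nat_lit 1) (nat_lit 336) (nat_lit 348) (nat_lit 336)))) (XT.nd (nat_lit 156) (nat_lit 684) (nat_lit 0) (XT.nd (nat_lit 78) (nat_lit 532) (nat_lit 0) (XT.lf (nat_lit 684) (nat_lit 1116031326) (nat_lit 0) (nat_lit 453916782) (nat_lit 608) (nat_lit 2868972025) (nat_lit 347) (nat_lit 1) (nat_lit 338) (nat_lit 1) (nat_lit 346) (nat_lit 1) (nat_lit 337) (nat_lit 348) (nat_lit 335)) (XT.lf (nat_lit 608) (nat_lit 331999393) (nat_lit 0) (nat_lit 67611919) (nat_lit 532) (nat_lit 3943758189) (nat_lit 339) (nat_lit 1) (nat_lit 331) (nat_lit 1) (nat_lit 338) (nat_lit 1) (nat_lit 338) (nat_lit 348) (nat_lit 334))) (XT.nd (nat_lit 78) (nat_lit 608) (nat_lit 0) (XT.lf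 (nat_lit 76) (nat_lit 3500792726) (nat_lit 0) (nat_lit 470447147) (nat_lit 608) (nat_lit 279094186) (nat_lit 331) (nat_lit 1) (nat_lit 330) (nat_lit 1) (nat_lit 338) (nat_lit 1) (nat_lit 339) (nat_lit 348) (nat_lit 333)) (XT.lf (nat_lit 76) (nat_lit 2285796357) (nat_lit 0) (nat_lit 1285472815) (nat_lit 684) (nat_lit 588659696) (nat_lit 323) (nat_lit 1) (nat_lit 322) (nat_lit 1) (nat_lit 331) (nat_lit 1) (nat_lit 340) (nat_lit 348) (nat_lit 332))))) (XT.nd (nat_lit 234) (nat_lit 1976) (nat_lit 0) (XT.nd (nat_lit 78) (nat_lit 988) (nat_lit 0) (XT.lf (nat_lit 76) (nat_lit 1101764397) (nat_lit 0) (nat_lit 2112992177) (nat_lit 608) (nat_lit 857532977) (nat_lit 316) (nat_lit 1) (nat_lit 315) (nat_lit 1) (nat_lit 323) (nat_lit 1) (nat_lit 341) (nat_lit 348) (nat_lit 331)) (XT.nd (nat_lit 78) (nat_lit 456) (nat_lit 0) (XT.lf (nat_lit 608) (nat_lit 1035626114) (nat_lit 0) (nat_lit 2898913122) (nat_lit 532)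 (nat_lit 52767071) (nat_lit 316) (nat_lit 1) (nat_lit 308) (nat_lit 1) (nat_lit 315) (nat_lit 1) (nat_lit 342) (nat_lit 348) (nat_lit 330)) (XT.lf (nat_lit 532) (nat_lit 94765675) (nat_lit 0) (nat_lit 2611276727) (nat_lit 456) (nat_lit 1198545728) (nat_lit 309) (nat_lit 1) (nat_lit 302) (nat_lit 1) (nat_lit 308) (nat_lit 1) (nat_lit 343) (nat_lit 348) (nat_lit 329)))) (XT.nd (nat_lit 156) (nat_lit 912) (nat_lit 0) (XT.nd (nat_lit 78) (nat_lit 456) (nat_lit 0) (XT.lf (nat_lit 76) (nat_lit 1518433344) (nat_lit 0) (nat_lit 834049386) (nat_lit 608) (nat_lit 1471643300) (nat_lit 295) (nat_lit 1) (nat_lit 294) (nat_lit 1) (nat_lit 302) (nat_lit 1) (nat_lit 344) (nat_lit 348) (nat_lit 328)) (XT.lf (nat_lit 76) (nat_lit 363909970) (nat_lit 0) (nat_lit 1764100633) (nat_lit 532) (nat_lit 1618042030) (nat_lit 289) (nat_lit 1) (nat_lit 288) (nat_lit 1) (nat_lit 295) (nat_lit 1) (nat_lit 345) (nat_lit 348)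 (nat_lit 327))) (XT.nd (nat_lit 78) (nat_lit 456) (nat_lit 0) (XT.lf (nat_lit 532) (nat_lit 966696918) (nat_lit 0) (nat_lit 1929264046) (nat_lit 456) (nat_lit 774130140) (nat_lit 289) (nat_lit 1) (nat_lit 282) (nat_lit 1) (nat_lit 288) (nat_lit 1) (nat_lit 346) (nat_lit 348) (nat_lit 326)) (XT.lf (nat_lit 76) (nat_lit 1708975932) (nat_lit 0) (nat_lit 49287946) (nat_lit 456) (nat_lit 1838010467) (nat_lit 277) (nat_lit 1) (nat_lit 276) (nat_lit 1) (nat_lit 282) (nat_lit 1) (nat_lit 347) (nat_lit 348) (nat_lit 325))))))) (XT.nd (nat_lit 1092) (nat_lit 3496) (nat_lit 0) (XT.nd (nat_lit 546) (nat_lit 2128) (nat_lit 0) (XT.nd (nat_lit 234) (nat_lit 1596) (nat_lit 0) (XT.nd (nat_lit 78) (nat_lit 760) (nat_lit 0) (XT.lf (nat_lit 76) (nat_lit 564457897) (nat_lit 0) (nat_lit 1043474449) (nat_lit 532) (nat_lit 1916438407) (nat_lit 271) (nat_lit 1) (nat_lit 270) (nat_lit 1) (nat_lit 277) (nat_lit 1) (nat_lit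 348) (nat_lit 348) (nat_lit 324)) (XT.nd (nat_lit 78) (nat_lit 380) (nat_lit 0) (XT.lf (nat_lit 456) (nat_lit 1415264304) (nat_lit 0) (nat_lit 1480690173) (nat_lit 380) (nat_lit 558471378) (nat_lit 271) (nat_lit 1) (nat_lit 265) (nat_lit 1) (nat_lit 270) (nat_lit 1) (nat_lit 349) (nat_lit 348) (nat_lit 323)) (XT.lf (nat_lit 456) (nat_lit 351033206) (nat_lit 0) (nat_lit 1375140796) (nat_lit 380) (nat_lit 1660200477) (nat_lit 266) (nat_lit 1) (nat_lit 260) (nat_lit 1) (nat_lit 265) (nat_lit 1) (nat_lit 350) (nat_lit 348) (nat_lit 322)))) (XT.nd (nat_lit 156) (nat_lit 760) (nat_lit 0) (XT.nd (nat_lit 78) (nat_lit 380) (nat_lit 0) (XT.lf (nat_lit 76) (nat_lit 596904651) (nat_lit 0) (nat_lit 691612123) (nat_lit 456) (nat_lit 2031595210) (nat_lit 255) (nat_lit 1) (nat_lit 254) (nat_lit 1) (nat_lit 260) (nat_lit 1) (nat_lit 351) (nat_lit 348) (nat_lit 321)) (XT.lf (nat_lit 456) (nat_lit 1531576451) (nat_lit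 0) (nat_lit 1217984967) (nat_lit 380) (nat_lit 505970864) (nat_lit 255) (nat_lit 1) (nat_lit 249) (nat_lit 1) (nat_lit 254) (nat_lit 1) (nat_lit 352) (nat_lit 348) (nat_lit 320))) (XT.nd (nat_lit 78) (nat_lit 456) (nat_lit 0) (XT.lf (nat_lit 380) (nat_lit 439723496) (nat_lit 0) (nat_lit 1164982241) (nat_lit 304) (nat_lit 1587948357) (nat_lit 250) (nat_lit 1) (nat_lit 245) (nat_lit 1) (nat_lit 249) (nat_lit 1) (nat_lit 353) (nat_lit 348) (nat_lit 319)) (XT.lf (nat_lit 76) (nat_lit 499840566) (nat_lit 0) (nat_lit 628061820) (nat_lit 456) (nat_lit 2003505568) (nat_lit 240) (nat_lit 1) (nat_lit 239) (nat_lit 1) (nat_lit 245) (nat_lit 1) (nat_lit 354) (nat_lit 348) (nat_lit 318))))) (XT.nd (nat_lit 234) (nat_lit 1140) (nat_lit 0) (XT.nd (nat_lit 78) (nat_lit 684) (nat_lit 0) (XT.lf (nat_lit 380) (nat_lit 1390552408) (nat_lit 0) (nat_lit 1101885087) (nat_lit 304) (nat_lit 579192551) (nat_lit 240) (nat_lit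 1) (nat_lit 235) (nat_lit 1) (nat_lit 239) (nat_lit 1) (nat_lit 355) (nat_lit 348) (nat_lit 317)) (XT.nd (nat_lit 78) (nat_lit 380) (nat_lit 0) (XT.lf (nat_lit 380) (nat_lit 286868502) (nat_lit 0) (nat_lit 1091122281) (nat_lit 304) (nat_lit 1635429854) (nat_lit 236) (nat_lit 1) (nat_lit 231) (nat_lit 1) (nat_lit 235) (nat_lit 1) (nat_lit 356) (nat_lit 348) (nat_lit 316)) (XT.lf (nat_lit 76) (nat_lit 304855877) (nat_lit 0) (nat_lit 786733147) (nat_lit 380) (nat_lit 1865052058) (nat_lit 227) (nat_lit 1) (nat_lit 226) (nat_lit 1) (nat_lit 231) (nat_lit 1) (nat_lit 357) (nat_lit 348) (nat_lit 315)))) (XT.nd (nat_lit 156) (nat_lit 532) (nat_lit 0) (XT.nd (nat_lit 78) (nat_lit 304) (nat_lit 0) (XT.lf (nat_lit 380) (nat_lit 1053623802) (nat_lit 0) (nat_lit 1100056796) (nat_lit 304) (nat_lit 747495742) (nat_lit 227) (nat_lit 1) (nat_lit 222) (nat_lit 1) (nat_lit 226) (nat_lit 1) (nat_lit 358) (nat_lit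 348) (nat_lit 314)) (XT.lf (nat_lit 76) (nat_lit 1074164724) (nat_lit 0) (nat_lit 48330427) (nat_lit 304) (nat_lit 1724684527) (nat_lit 219) (nat_lit 1) (nat_lit 218) (nat_lit 1) (nat_lit 222) (nat_lit 1) (nat_lit 359) (nat_lit 348) (nat_lit 313))) (XT.nd (nat_lit 78) (nat_lit 228) (nat_lit 0) (XT.lf (nat_lit 76) (nat_lit 37718338) (nat_lit 0) (nat_lit 1113496232) (nat_lit 380) (nat_lit 1643192344) (nat_lit 215) (nat_lit 1) (nat_lit 214) (nat_lit 1) (nat_lit 219) (nat_lit 1) (nat_lit 360) (nat_lit 348) (nat_lit 312)) (XT.lf (nat_lit 304) (nat_lit 570995779) (nat_lit 0) (nat_lit 1185943015) (nat_lit 228) (nat_lit 985891507) (nat_lit 215) (nat_lit 1) (nat_lit 211) (nat_lit 1) (nat_lit 214) (nat_lit 1) (nat_lit 361) (nat_lit 348) (nat_lit 311)))))) (XT.nd (nat_lit 546) (nat_lit 1596) (nat_lit 0) (XT.nd (nat_lit 234) (nat_lit 988) (nat_lit 0) (XT.nd (nat_lit 78) (nat_lit 532) (nat_lit 0) (XT.lf (nat_lit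 76) (nat_lit 719291711) (nat_lit 0) (nat_lit 511023886) (nat_lit 380) (nat_lit 1462220665) (nat_lit 207) (nat_lit 1) (nat_lit 206) (nat_lit 1) (nat_lit 211) (nat_lit 1) (nat_lit 362) (nat_lit 348) (nat_lit 310)) (XT.nd (nat_lit 78) (nat_lit 304) (nat_lit 0) (XT.lf (nat_lit 304) (nat_lit 1076475396) (nat_lit 0) (nat_lit 1280697073) (nat_lit 228) (nat_lit 286227370) (nat_lit 207) (nat_lit 1) (nat_lit 203) (nat_lit 1) (nat_lit 206) (nat_lit 1) (nat_lit 363) (nat_lit 348) (nat_lit 309)) (XT.lf (nat_lit 76) (nat_lit 1321494821) (nat_lit 0) (nat_lit 16140564) (nat_lit 304) (nat_lit 1257782891) (nat_lit 200) (nat_lit 1) (nat_lit 199) (nat_lit 1) (nat_lit 203) (nat_lit 1) (nat_lit 364) (nat_lit 348) (nat_lit 308)))) (XT.nd (nat_lit 156) (nat_lit 532) (nat_lit 0) (XT.nd (nat_lit 78) (nat_lit 228) (nat_lit 0) (XT.lf (nat_lit 76) (nat_lit 328413569) (nat_lit 0) (nat_lit 1068874773) (nat_lit 304) (nat_lit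 1151172960) (nat_lit 197) (nat_lit 1) (nat_lit 196) (nat_lit 1) (nat_lit 200) (nat_lit 1) (nat_lit 365) (nat_lit 348) (nat_lit 307)) (XT.lf (nat_lit 304) (nat_lit 393546367) (nat_lit 0) (nat_lit 1463152381) (nat_lit 228) (nat_lit 645913999) (nat_lit 197) (nat_lit 1) (nat_lit 193) (nat_lit 1) (nat_lit 196) (nat_lit 1) (nat_lit 366) (nat_lit 348) (nat_lit 306))) (XT.nd (nat_lit 78) (nat_lit 228) (nat_lit 0) (XT.lf (nat_lit 76) (nat_lit 868743450) (nat_lit 0) (nat_lit 662448897) (nat_lit 304) (nat_lit 926545067) (nat_lit 190) (nat_lit 1) (nat_lit 189) (nat_lit 1) (nat_lit 193) (nat_lit 1) (nat_lit 367) (nat_lit 348) (nat_lit 305)) (XT.lf (nat_lit 304) (nat_lit 721957204) (nat_lit 0) (nat_lit 1606157073) (nat_lit 228) (nat_lit 85842012) (nat_lit 190) (nat_lit 1) (nat_lit 186) (nat_lit 1) (nat_lit 189) (nat_lit 1) (nat_lit 368) (nat_lit 348) (nat_lit 304))))) (XT.nd (nat_lit 234) (nat_lit 912) (nat_lit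 0) (XT.nd (nat_lit 78) (nat_lit 456) (nat_lit 0) (XT.lf (nat_lit 76) (nat_lit 1347653473) (nat_lit 0) (nat_lit 332635822) (nat_lit 228) (nat_lit 690737138) (nat_lit 184) (nat_lit 1) (nat_lit 183) (nat_lit 1) (nat_lit 186) (nat_lit 1) (nat_lit 369) (nat_lit 348) (nat_lit 303)) (XT.nd (nat_lit 78) (nat_lit 228) (nat_lit 0) (XT.lf (nat_lit 76) (nat_lit 405211182) (nat_lit 0) (nat_lit 1352908141) (nat_lit 304) (nat_lit 570943795) (nat_lit 181) (nat_lit 1) (nat_lit 180) (nat_lit 1) (nat_lit 184) (nat_lit 1) (nat_lit 370) (nat_lit 348) (nat_lit 302)) (XT.lf (nat_lit 76) (nat_lit 1771633010) (nat_lit 0) (nat_lit 68717185) (nat_lit 228) (nat_lit 447720268) (nat_lit 178) (nat_lit 1) (nat_lit 177) (nat_lit 1) (nat_lit 180) (nat_lit 1) (nat_lit 371) (nat_lit 348) (nat_lit 301)))) (XT.nd (nat_lit 156) (nat_lit 532) (nat_lit 0) (XT.nd (nat_lit 78) (nat_lit 152) (nat_lit 0) (XT.lf (nat_lit 76) (nat_lit 841051720)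 (nat_lit 0) (nat_lit 1077848907) (nat_lit 304) (nat_lit 328896417) (nat_lit 175) (nat_lit 1) (nat_lit 174) (nat_lit 1) (nat_lit 178) (nat_lit 1) (nat_lit 372) (nat_lit 348) (nat_lit 300)) (XT.lf (nat_lit 228) (nat_lit 141431350) (nat_lit 0) (nat_lit 2006377846) (nat_lit 152) (nat_lit 60785123) (nat_lit 175) (nat_lit 1) (nat_lit 172) (nat_lit 1) (nat_lit 174) (nat_lit 1) (nat_lit 373) (nat_lit 348) (nat_lit 299))) (XT.nd (nat_lit 78) (nat_lit 304) (nat_lit 0) (XT.lf (nat_lit 76) (nat_lit 1228892838) (nat_lit 0) (nat_lit 857074112) (nat_lit 228) (nat_lit 83990144) (nat_lit 170) (nat_lit 1) (nat_lit 169) (nat_lit 1) (nat_lit 172) (nat_lit 1) (nat_lit 374) (nat_lit 348) (nat_lit 298)) (XT.lf (nat_lit 228) (nat_lit 299776241) (nat_lit 0) (nat_lit 41570061) (nat_lit 152) (nat_lit 1790960764) (nat_lit 168) (nat_lit 1) (nat_lit 165) (nat_lit 1) (nat_lit 167) (nat_lit 1) (nat_lit 375) (nat_lit 348) (nat_lit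 297))))))))
noncomputable def ec24 : XT := (XT.nd (nat_lit 49452) (nat_lit 0) (nat_lit 7904) (XT.nd (nat_lit 1092) (nat_lit 1216) (nat_lit 0) (XT.nd (nat_lit 546) (nat_lit 1064) (nat_lit 0) (XT.nd (nat_lit 234) (nat_lit 684) (nat_lit 0) (XT.nd (nat_lit 78) (nat_lit 380) (nat_lit 0) (XT.lf (nat_lit 228) (nat_lit 1410916804) (nat_lit 0) (nat_lit 164325991) (nat_lit 152) (nat_lit 520047375) (nat_lit 165) (nat_lit 1) (nat_lit 162) (nat_lit 1) (nat_lit 164) (nat_lit 1) (nat_lit 376) (nat_lit 348) (nat_lit 296)) (XT.nd (nat_lit 78) (nat_lit 228) (nat_lit 0) (XT.lf (nat_lit 228) (nat_lit 413871115) (nat_lit 0) (nat_lit 288233794) (nat_lit 152) (nat_lit 1356975103) (nat_lit 163) (nat_lit 1) (nat_lit 160) (nat_lit 1) (nat_lit 162) (nat_lit 1) (nat_lit 377) (nat_lit 348) (nat_lit 295)) (XT.lf (nat_lit 228) (nat_lit 1471456967) (nat_lit 0) (nat_lit 412258113) (nat_lit 152) (nat_lit 139916628) (nat_lit 160)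 (nat_lit 1) (nat_lit 157) (nat_lit 1) (nat_lit 159) (nat_lit 1) (nat_lit 378) (nat_lit 348) (nat_lit 294)))) (XT.nd (nat_lit 156) (nat_lit 304) (nat_lit 0) (XT.nd (nat_lit 78) (nat_lit 228) (nat_lit 0) (XT.lf (nat_lit 228) (nat_lit 492671138) (nat_lit 0) (nat_lit 532230824) (nat_lit 152) (nat_lit 963907446) (nat_lit 158) (nat_lit 1) (nat_lit 155) (nat_lit 1) (nat_lit 157) (nat_lit 1) (nat_lit 379) (nat_lit 348) (nat_lit 293)) (XT.lf (nat_lit 76) (nat_lit 198592919) (nat_lit 0) (nat_lit 455660236) (nat_lit 228) (nat_lit 1300523490) (nat_lit 153) (nat_lit 1) (nat_lit 152) (nat_lit 1) (nat_lit 155) (nat_lit 1) (nat_lit 380) (nat_lit 348) (nat_lit 292))) (XT.nd (nat_lit 78) (nat_lit 152) (nat_lit 0) (XT.lf (nat_lit 228) (nat_lit 541674437) (nat_lit 0) (nat_lit 771812364) (nat_lit 152) (nat_lit 607843028) (nat_lit 153) (nat_lit 1) (nat_lit 150) (nat_lit 1) (nat_lit 152) (nat_lit 1) (nat_lit 381) (nat_lit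 348) (nat_lit 291)) (XT.lf (nat_lit 76) (nat_lit 500999483) (nat_lit 0) (nat_lit 388727911) (nat_lit 152) (nat_lit 998868285) (nat_lit 149) (nat_lit 1) (nat_lit 148) (nat_lit 1) (nat_lit 150) (nat_lit 1) (nat_lit 382) (nat_lit 348) (nat_lit 290))))) (XT.nd (nat_lit 234) (nat_lit 608) (nat_lit 0) (XT.nd (nat_lit 78) (nat_lit 304) (nat_lit 0) (XT.lf (nat_lit 228) (nat_lit 565660677) (nat_lit 0) (nat_lit 1005547189) (nat_lit 152) (nat_lit 285281561) (nat_lit 149) (nat_lit 1) (nat_lit 146) (nat_lit 1) (nat_lit 148) (nat_lit 1) (nat_lit 383) (nat_lit 348) (nat_lit 289)) (XT.nd (nat_lit 78) (nat_lit 152) (nat_lit 0) (XT.lf (nat_lit 76) (nat_lit 773217650) (nat_lit 0) (nat_lit 345565668) (nat_lit 152) (nat_lit 706200408) (nat_lit 145) (nat_lit 1) (nat_lit 144) (nat_lit 1) (nat_lit 146) (nat_lit 1) (nat_lit 384) (nat_lit 348) (nat_lit 288)) (XT.lf (nat_lit 76) (nat_lit 6774950) (nat_lit 0) (nat_lit 1225435355)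 (nat_lit 228) (nat_lit 561936209) (nat_lit 143) (nat_lit 1) (nat_lit 142) (nat_lit 1) (nat_lit 145) (nat_lit 1) (nat_lit 385) (nat_lit 348) (nat_lit 287)))) (XT.nd (nat_lit 156) (nat_lit 304) (nat_lit 0) (XT.nd (nat_lit 78) (nat_lit 152) (nat_lit 0) (XT.lf (nat_lit 76) (nat_lit 1018097669) (nat_lit 0) (nat_lit 322294428) (nat_lit 152) (nat_lit 423414736) (nat_lit 141) (nat_lit 1) (nat_lit 140) (nat_lit 1) (nat_lit 142) (nat_lit 1) (nat_lit 386) (nat_lit 348) (nat_lit 286)) (XT.lf (nat_lit 76) (nat_lit 266239203) (nat_lit 0) (nat_lit 1182159747) (nat_lit 228) (nat_lit 285701022) (nat_lit 139) (nat_lit 1) (nat_lit 138) (nat_lit 1) (nat_lit 141) (nat_lit 1) (nat_lit 387) (nat_lit 348) (nat_lit 285))) (XT.nd (nat_lit 78) (nat_lit 152) (nat_lit 0) (XT.lf (nat_lit 76) (nat_lit 1238193404) (nat_lit 0) (nat_lit 315550500) (nat_lit 152) (nat_lit 151197442) (nat_lit 137) (nat_lit 1) (nat_lit 136) (nat_lit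 1) (nat_lit 138) (nat_lit 1) (nat_lit 388) (nat_lit 348) (nat_lit 284)) (XT.lf (nat_lit 76) (nat_lit 501146515) (nat_lit 0) (nat_lit 1155050927) (nat_lit 228) (nat_lit 20114907) (nat_lit 135) (nat_lit 1) (nat_lit 134) (nat_lit 1) (nat_lit 137) (nat_lit 1) (nat_lit 389) (nat_lit 348) (nat_lit 283)))))) (XT.nd (nat_lit 47814) (nat_lit 0) (nat_lit 19456) (XT.nd (nat_lit 234) (nat_lit 608) (nat_lit 0) (XT.nd (nat_lit 78) (nat_lit 304) (nat_lit 0) (XT.lf (nat_lit 228) (nat_lit 1324740951) (nat_lit 0) (nat_lit 112132548) (nat_lit 152) (nat_lit 211367041) (nat_lit 133) (nat_lit 1) (nat_lit 130) (nat_lit 1) (nat_lit 132) (nat_lit 1) (nat_lit 390) (nat_lit 348) (nat_lit 282)) (XT.nd (nat_lit 78) (nat_lit 228) (nat_lit 0) (XT.lf (nat_lit 152) (nat_lit 476976054) (nat_lit 0) (nat_lit 239035123) (nat_lit 76) (nat_lit 904592706) (nat_lit 131) (nat_lit 1) (nat_lit 129) (nat_lit 1) (nat_lit 130) (nat_lit 1) (nat_lit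 391) (nat_lit 348) (nat_lit 281)) (XT.lf (nat_lit 76) (nat_lit 22450981) (nat_lit 0) (nat_lit 344137367) (nat_lit 228) (nat_lit 1226994646) (nat_lit 127) (nat_lit 1) (nat_lit 126) (nat_lit 1) (nat_lit 129) (nat_lit 1) (nat_lit 392) (nat_lit 348) (nat_lit 280)))) (XT.nd (nat_lit 156) (nat_lit 304) (nat_lit 0) (XT.nd (nat_lit 78) (nat_lit 228) (nat_lit 0) (XT.lf (nat_lit 152) (nat_lit 423662455) (nat_lit 0) (nat_lit 486951027) (nat_lit 76) (nat_lit 656324637) (nat_lit 127) (nat_lit 1) (nat_lit 125) (nat_lit 1) (nat_lit 126) (nat_lit 1) (nat_lit 393) (nat_lit 348) (nat_lit 279)) (XT.lf (nat_lit 76) (nat_lit 231851087) (nat_lit 0) (nat_lit 375421211) (nat_lit 228) (nat_lit 933594037) (nat_lit 123) (nat_lit 1) (nat_lit 122) (nat_lit 1) (nat_lit 125) (nat_lit 1) (nat_lit 394) (nat_lit 348) (nat_lit 278))) (XT.nd (nat_lit 78) (nat_lit 228) (nat_lit 0) (XT.lf (nat_lit 152) (nat_lit 363502988) (nat_lit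 0) (nat_lit 723045032) (nat_lit 76) (nat_lit 428677407) (nat_lit 123) (nat_lit 1) (nat_lit 121) (nat_lit 1) (nat_lit 122) (nat_lit 1) (nat_lit 395) (nat_lit 348) (nat_lit 277)) (XT.lf (nat_lit 76) (nat_lit 422678702) (nat_lit 0) (nat_lit 413466900) (nat_lit 228) (nat_lit 653913714) (nat_lit 119) (nat_lit 1) (nat_lit 118) (nat_lit 1) (nat_lit 121) (nat_lit 1) (nat_lit 396) (nat_lit 348) (nat_lit 276))))) (XT.nd (nat_lit 234) (nat_lit 0) (nat_lit 152) (XT.nd (nat_lit 78) (nat_lit 0) (nat_lit 76) (XT.lf (nat_lit 1292) (nat_lit 578586597) (nat_lit 0) (nat_lit 1990606976) (nat_lit 1292) (nat_lit 578586597) (nat_lit 391) (nat_lit 1) (nat_lit 374) (nat_lit 0) (nat_lit 391) (nat_lit 0) (nat_lit 322) (nat_lit 349) (nat_lit 349)) (XT.nd (nat_lit 78) (nat_lit 0) (nat_lit 0) (XT.lf (nat_lit 1292) (nat_lit 46386301) (nat_lit 0) (nat_lit 3925058370) (nat_lit 1216) (nat_lit 2173062318) (nat_lit 392) (nat_lit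 1) (nat_lit 375) (nat_lit 1) (nat_lit 391) (nat_lit 1) (nat_lit 323) (nat_lit 349) (nat_lit 348)) (XT.lf (nat_lit 1292) (nat_lit 2040797835) (nat_lit 76) (nat_lit 2886633859) (nat_lit 0) (nat_lit 1070643933) (nat_lit 392) (nat_lit 1) (nat_lit 376) (nat_lit 1) (nat_lit 375) (nat_lit 1) (nat_lit 324) (nat_lit 349) (nat_lit 347)))) (XT.nd (nat_lit 156) (nat_lit 0) (nat_lit 152) (XT.nd (nat_lit 78) (nat_lit 0) (nat_lit 76) (XT.lf (nat_lit 1292) (nat_lit 1794034347) (nat_lit 76) (nat_lit 1889508419) (nat_lit 0) (nat_lit 2172842774) (nat_lit 393) (nat_lit 1) (nat_lit 377) (nat_lit 1) (nat_lit 376) (nat_lit 1) (nat_lit 325) (nat_lit 349) (nat_lit 346)) (XT.lf (nat_lit 1292) (nat_lit 1484684224) (nat_lit 76) (nat_lit 976029795) (nat_lit 0) (nat_lit 3258563418) (nat_lit 394) (nat_lit 1) (nat_lit 378) (nat_lit 1) (nat_lit 377) (nat_lit 1) (nat_lit 326) (nat_lit 349) (nat_lit 345))) (XT.nd (nat_lit 78) (nat_lit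 0) (nat_lit 76) (XT.lf (nat_lit 1292) (nat_lit 1117518070) (nat_lit 76) (nat_lit 141900296) (nat_lit 0) (nat_lit 4327166906) (nat_lit 395) (nat_lit 1) (nat_lit 379) (nat_lit 1) (nat_lit 378) (nat_lit 1) (nat_lit 327) (nat_lit 349) (nat_lit 344)) (XT.lf (nat_lit 1292) (nat_lit 85987056) (nat_lit 0) (nat_lit 4767046051) (nat_lit 1216) (nat_lit 604938566) (nat_lit 396) (nat_lit 1) (nat_lit 379) (nat_lit 1) (nat_lit 395) (nat_lit 1) (nat_lit 328) (nat_lit 349) (nat_lit 343))))))) (XT.nd (nat_lit 1092) (nat_lit 5472) (nat_lit 0) (XT.nd (nat_lit 546) (nat_lit 3344) (nat_lit 0) (XT.nd (nat_lit 234) (nat_lit 1900) (nat_lit 0) (XT.nd (nat_lit 78) (nat_lit 1216) (nat_lit 0) (XT.lf (nat_lit 1292) (nat_lit 203808028) (nat_lit 76) (nat_lit 4043634968) (nat_lit 0) (nat_lit 1085684998) (nat_lit 396) (nat_lit 1) (nat_lit 380) (nat_lit 1) (nat_lit 379) (nat_lit 1) (nat_lit 329) (nat_lit 349) (nat_lit 342)) (XT.nd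 (nat_lit 78) (nat_lit 0) (nat_lit 76) (XT.lf (nat_lit 1368) (nat_lit 2978652030) (nat_lit 0) (nat_lit 321961132) (nat_lit 1292) (nat_lit 1911533378) (nat_lit 381) (nat_lit 1) (nat_lit 363) (nat_lit 1) (nat_lit 380) (nat_lit 1) (nat_lit 330) (nat_lit 349) (nat_lit 341)) (XT.lf (nat_lit 1368) (nat_lit 1738623045) (nat_lit 0) (nat_lit 883423420) (nat_lit 1292) (nat_lit 2472888146) (nat_lit 382) (nat_lit 1) (nat_lit 364) (nat_lit 1) (nat_lit 381) (nat_lit 1) (nat_lit 331) (nat_lit 349) (nat_lit 340)))) (XT.nd (nat_lit 156) (nat_lit 1216) (nat_lit 0) (XT.nd (nat_lit 78) (nat_lit 836) (nat_lit 0) (XT.lf (nat_lit 76) (nat_lit 525421107) (nat_lit 0) (nat_lit 1481111800) (nat_lit 1292) (nat_lit 2974882423) (nat_lit 366) (nat_lit 1) (nat_lit 365) (nat_lit 1) (nat_lit 382) (nat_lit 1) (nat_lit 332) (nat_lit 349) (nat_lit 339)) (XT.lf (nat_lit 912) (nat_lit 2752998459) (nat_lit 0) (nat_lit 1444135984) (nat_lit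 836) (nat_lit 674129487) (nat_lit 366) (nat_lit 1) (nat_lit 354) (nat_lit 1) (nat_lit 365) (nat_lit 1) (nat_lit 333) (nat_lit 349) (nat_lit 338))) (XT.nd (nat_lit 78) (nat_lit 608) (nat_lit 0) (XT.lf (nat_lit 684) (nat_lit 1974158077) (nat_lit 0) (nat_lit 933383395) (nat_lit 608) (nat_lit 1856861374) (nat_lit 355) (nat_lit 1) (nat_lit 346) (nat_lit 1) (nat_lit 354) (nat_lit 1) (nat_lit 334) (nat_lit 349) (nat_lit 337)) (XT.lf (nat_lit 684) (nat_lit 1171832892) (nat_lit 0) (nat_lit 476612621) (nat_lit 608) (nat_lit 3012420627) (nat_lit 347) (nat_lit 1) (nat_lit 338) (nat_lit 1) (nat_lit 346) (nat_lit 1) (nat_lit 335) (nat_lit 349) (nat_lit 336))))) (XT.nd (nat_lit 234) (nat_lit 2128) (nat_lit 0) (XT.nd (nat_lit 78) (nat_lit 684) (nat_lit 0) (XT.lf (nat_lit 608) (nat_lit 348599363) (nat_lit 0) (nat_lit 70992515) (nat_lit 532) (nat_lit 4140946099) (nat_lit 339) (nat_lit 1) (nat_lit 331) (nat_lit 1)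 (nat_lit 338) (nat_lit 1) (nat_lit 336) (nat_lit 349) (nat_lit 335)) (XT.nd (nat_lit 78) (nat_lit 608) (nat_lit 0) (XT.lf (nat_lit 76) (nat_lit 3675832363) (nat_lit 0) (nat_lit 493969504) (nat_lit 608) (nat_lit 293048895) (nat_lit 331) (nat_lit 1) (nat_lit 330) (nat_lit 1) (nat_lit 338) (nat_lit 1) (nat_lit 337) (nat_lit 349) (nat_lit 334)) (XT.lf (nat_lit 76) (nat_lit 2400086174) (nat_lit 0) (nat_lit 1349746456) (nat_lit 684) (nat_lit 618092681) (nat_lit 323) (nat_lit 1) (nat_lit 322) (nat_lit 1) (nat_lit 331) (nat_lit 1) (nat_lit 338) (nat_lit 349) (nat_lit 333)))) (XT.nd (nat_lit 156) (nat_lit 1064) (nat_lit 0) (XT.nd (nat_lit 78) (nat_lit 532) (nat_lit 0) (XT.lf (nat_lit 76) (nat_lit 1156852617) (nat_lit 0) (nat_lit 2218641786) (nat_lit 608) (nat_lit 900409626) (nat_lit 316) (nat_lit 1) (nat_lit 315) (nat_lit 1) (nat_lit 323) (nat_lit 1) (nat_lit 339) (nat_lit 349) (nat_lit 332)) (XT.lf (nat_lit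 608) (nat_lit 1087407419) (nat_lit 0) (nat_lit 3043858778) (nat_lit 532) (nat_lit 55405425) (nat_lit 316) (nat_lit 1) (nat_lit 308) (nat_lit 1) (nat_lit 315) (nat_lit 1) (nat_lit 340) (nat_lit 349) (nat_lit 331))) (XT.nd (nat_lit 78) (nat_lit 608) (nat_lit 0) (XT.lf (nat_lit 532) (nat_lit 99503958) (nat_lit 0) (nat_lit 2741840563) (nat_lit 456) (nat_lit 1258473015) (nat_lit 309) (nat_lit 1) (nat_lit 302) (nat_lit 1) (nat_lit 308) (nat_lit 1) (nat_lit 341) (nat_lit 349) (nat_lit 330)) (XT.lf (nat_lit 76) (nat_lit 1594355012) (nat_lit 0) (nat_lit 875751855) (nat_lit 608) (nat_lit 1545225465) (nat_lit 295) (nat_lit 1) (nat_lit 294) (nat_lit 1) (nat_lit 302) (nat_lit 1) (nat_lit 342) (nat_lit 349) (nat_lit 329)))))) (XT.nd (nat_lit 546) (nat_lit 2432) (nat_lit 0) (XT.nd (nat_lit 234) (nat_lit 1672) (nat_lit 0) (XT.nd (nat_lit 78) (nat_lit 912) (nat_lit 0) (XT.lf (nat_lit 76) (nat_lit 382105469) (nat_lit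 0) (nat_lit 1852305665) (nat_lit 532) (nat_lit 1698944132) (nat_lit 289) (nat_lit 1) (nat_lit 288) (nat_lit 1) (nat_lit 295) (nat_lit 1) (nat_lit 343) (nat_lit 349) (nat_lit 328)) (XT.nd (nat_lit 78) (nat_lit 456) (nat_lit 0) (XT.lf (nat_lit 532) (nat_lit 1015031764) (nat_lit 0) (nat_lit 2025727248) (nat_lit 456) (nat_lit 812836647) (nat_lit 289) (nat_lit 1) (nat_lit 282) (nat_lit 1) (nat_lit 288) (nat_lit 1) (nat_lit 344) (nat_lit 349) (nat_lit 327)) (XT.lf (nat_lit 76) (nat_lit 1794424729) (nat_lit 0) (nat_lit 51752344) (nat_lit 456) (nat_lit 1929910990) (nat_lit 277) (nat_lit 1) (nat_lit 276) (nat_lit 1) (nat_lit 282) (nat_lit 1) (nat_lit 345) (nat_lit 349) (nat_lit 326)))) (XT.nd (nat_lit 156) (nat_lit 836) (nat_lit 0) (XT.nd (nat_lit 78) (nat_lit 380) (nat_lit 0) (XT.lf (nat_lit 76) (nat_lit 592680791) (nat_lit 0) (nat_lit 1095648171) (nat_lit 532) (nat_lit 2012260327) (nat_lit 271) (nat_lit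 1) (nat_lit 270) (nat_lit 1) (nat_lit 277) (nat_lit 1) (nat_lit 346) (nat_lit 349) (nat_lit 325)) (XT.lf (nat_lit 456) (nat_lit 1486027519) (nat_lit 0) (nat_lit 1554724682) (nat_lit 380) (nat_lit 586394947) (nat_lit 271) (nat_lit 1) (nat_lit 265) (nat_lit 1) (nat_lit 270) (nat_lit 1) (nat_lit 347) (nat_lit 349) (nat_lit 324))) (XT.nd (nat_lit 78) (nat_lit 456) (nat_lit 0) (XT.lf (nat_lit 456) (nat_lit 368584866) (nat_lit 0) (nat_lit 1443897835) (nat_lit 380) (nat_lit 1743210501) (nat_lit 266) (nat_lit 1) (nat_lit 260) (nat_lit 1) (nat_lit 265) (nat_lit 1) (nat_lit 348) (nat_lit 349) (nat_lit 323)) (XT.lf (nat_lit 76) (nat_lit 626749884) (nat_lit 0) (nat_lit 726192730) (nat_lit 456) (nat_lit 2133174971) (nat_lit 255) (nat_lit 1) (nat_lit 254) (nat_lit 1) (nat_lit 260) (nat_lit 1) (nat_lit 349) (nat_lit 349) (nat_lit 322))))) (XT.nd (nat_lit 234) (nat_lit 1292) (nat_lit 0) (XT.nd (nat_lit 78) (nat_lit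 760) (nat_lit 0) (XT.lf (nat_lit 456) (nat_lit 1608155274) (nat_lit 0) (nat_lit 1278884215) (nat_lit 380) (nat_lit 531269407) (nat_lit 255) (nat_lit 1) (nat_lit 249) (nat_lit 1) (nat_lit 254) (nat_lit 1) (nat_lit 350) (nat_lit 349) (nat_lit 321)) (XT.nd (nat_lit 78) (nat_lit 456) (nat_lit 0) (XT.lf (nat_lit 380) (nat_lit 461709671) (nat_lit 0) (nat_lit 1223231353) (nat_lit 304) (nat_lit 1667345775) (nat_lit 250) (nat_lit 1) (nat_lit 245) (nat_lit 1) (nat_lit 249) (nat_lit 1) (nat_lit 351) (nat_lit 349) (nat_lit 320)) (XT.lf (nat_lit 76) (nat_lit 524832595) (nat_lit 0) (nat_lit 659464911) (nat_lit 456) (nat_lit 2103680847) (nat_lit 240) (nat_lit 1) (nat_lit 239) (nat_lit 1) (nat_lit 245) (nat_lit 1) (nat_lit 352) (nat_lit 349) (nat_lit 319)))) (XT.nd (nat_lit 156) (nat_lit 684) (nat_lit 0) (XT.nd (nat_lit 78) (nat_lit 304) (nat_lit 0) (XT.lf (nat_lit 380) (nat_lit 1460080028) (nat_lit 0) (nat_lit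 1156979342) (nat_lit 304) (nat_lit 608152179) (nat_lit 240) (nat_lit 1) (nat_lit 235) (nat_lit 1) (nat_lit 239) (nat_lit 1) (nat_lit 353) (nat_lit 349) (nat_lit 318)) (XT.lf (nat_lit 380) (nat_lit 301211927) (nat_lit 0) (nat_lit 1145678395) (nat_lit 304) (nat_lit 1717201347) (nat_lit 236) (nat_lit 1) (nat_lit 231) (nat_lit 1) (nat_lit 235) (nat_lit 1) (nat_lit 354) (nat_lit 349) (nat_lit 317))) (XT.nd (nat_lit 78) (nat_lit 304) (nat_lit 0) (XT.lf (nat_lit 76) (nat_lit 320098671) (nat_lit 0) (nat_lit 826069804) (nat_lit 380) (nat_lit 1958304660) (nat_lit 227) (nat_lit 1) (nat_lit 226) (nat_lit 1) (nat_lit 231) (nat_lit 1) (nat_lit 355) (nat_lit 349) (nat_lit 316)) (XT.lf (nat_lit 380) (nat_lit 1106304992) (nat_lit 0) (nat_lit 1155059636) (nat_lit 304) (nat_lit 784870529) (nat_lit 227) (nat_lit 1) (nat_lit 222) (nat_lit 1) (nat_lit 226) (nat_lit 1) (nat_lit 356) (nat_lit 349) (nat_lit 315))))))))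
noncomputable def ec25 : XT := (XT.nd (nat_lit 2184) (nat_lit 1900) (nat_lit 0) (XT.nd (nat_lit 1092) (nat_lit 2584) (nat_lit 0) (XT.nd (nat_lit 546) (nat_lit 1672) (nat_lit 0) (XT.nd (nat_lit 234) (nat_lit 1140) (nat_lit 0) (XT.nd (nat_lit 78) (nat_lit 532) (nat_lit 0) (XT.lf (nat_lit 76) (nat_lit 1127872960) (nat_lit 0) (nat_lit 50746948) (nat_lit 304) (nat_lit 1810918753) (nat_lit 219) (nat_lit 1) (nat_lit 218) (nat_lit 1) (nat_lit 222) (nat_lit 1) (nat_lit 357) (nat_lit 349) (nat_lit 314)) (XT.nd (nat_lit 78) (nat_lit 228) (nat_lit 0) (XT.lf (nat_lit 76) (nat_lit 39604255) (nat_lit 0) (nat_lit 1169171044) (nat_lit 380) (nat_lit 1725351962) (nat_lit 215) (nat_lit 1) (nat_lit 214) (nat_lit 1) (nat_lit 219) (nat_lit 1) (nat_lit 358) (nat_lit 349) (nat_lit 313)) (XT.lf (nat_lit 304) (nat_lit 599545568) (nat_lit 0) (nat_lit 1245240166) (nat_lit 228) (nat_lit 1035186082) (nat_lit 215) (nat_lit 1)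 (nat_lit 211) (nat_lit 1) (nat_lit 214) (nat_lit 1) (nat_lit 359) (nat_lit 349) (nat_lit 312)))) (XT.nd (nat_lit 156) (nat_lit 532) (nat_lit 0) (XT.nd (nat_lit 78) (nat_lit 228) (nat_lit 0) (XT.lf (nat_lit 76) (nat_lit 755256297) (nat_lit 0) (nat_lit 536575081) (nat_lit 380) (nat_lit 1535331699) (nat_lit 207) (nat_lit 1) (nat_lit 206) (nat_lit 1) (nat_lit 211) (nat_lit 1) (nat_lit 360) (nat_lit 349) (nat_lit 311)) (XT.lf (nat_lit 304) (nat_lit 1130299166) (nat_lit 0) (nat_lit 1344731927) (nat_lit 228) (nat_lit 300538739) (nat_lit 207) (nat_lit 1) (nat_lit 203) (nat_lit 1) (nat_lit 206) (nat_lit 1) (nat_lit 361) (nat_lit 349) (nat_lit 310))) (XT.nd (nat_lit 78) (nat_lit 228) (nat_lit 0) (XT.lf (nat_lit 76) (nat_lit 1387569562) (nat_lit 0) (nat_lit 16947593) (nat_lit 304) (nat_lit 1320672036) (nat_lit 200) (nat_lit 1) (nat_lit 199) (nat_lit 1) (nat_lit 203) (nat_lit 1) (nat_lit 362) (nat_lit 349)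 (nat_lit 309)) (XT.lf (nat_lit 76) (nat_lit 344834248) (nat_lit 0) (nat_lit 1122318512) (nat_lit 304) (nat_lit 1208731608) (nat_lit 197) (nat_lit 1) (nat_lit 196) (nat_lit 1) (nat_lit 200) (nat_lit 1) (nat_lit 363) (nat_lit 349) (nat_lit 308))))) (XT.nd (nat_lit 234) (nat_lit 912) (nat_lit 0) (XT.nd (nat_lit 78) (nat_lit 532) (nat_lit 0) (XT.lf (nat_lit 304) (nat_lit 413223685) (nat_lit 0) (nat_lit 1536310000) (nat_lit 228) (nat_lit 678209699) (nat_lit 197) (nat_lit 1) (nat_lit 193) (nat_lit 1) (nat_lit 196) (nat_lit 1) (nat_lit 364) (nat_lit 349) (nat_lit 307)) (XT.nd (nat_lit 78) (nat_lit 228) (nat_lit 0) (XT.lf (nat_lit 76) (nat_lit 912180622) (nat_lit 0) (nat_lit 695571342) (nat_lit 304) (nat_lit 972872320) (nat_lit 190) (nat_lit 1) (nat_lit 189) (nat_lit 1) (nat_lit 193) (nat_lit 1) (nat_lit 365) (nat_lit 349) (nat_lit 306)) (XT.lf (nat_lit 304) (nat_lit 758055064) (nat_lit 0) (nat_lit 1686464927)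 (nat_lit 228) (nat_lit 90134113) (nat_lit 190) (nat_lit 1) (nat_lit 186) (nat_lit 1) (nat_lit 189) (nat_lit 1) (nat_lit 366) (nat_lit 349) (nat_lit 305)))) (XT.nd (nat_lit 156) (nat_lit 456) (nat_lit 0) (XT.nd (nat_lit 78) (nat_lit 228) (nat_lit 0) (XT.lf (nat_lit 76) (nat_lit 1415036147) (nat_lit 0) (nat_lit 349267613) (nat_lit 228) (nat_lit 725273995) (nat_lit 184) (nat_lit 1) (nat_lit 183) (nat_lit 1) (nat_lit 186) (nat_lit 1) (nat_lit 367) (nat_lit 349) (nat_lit 304)) (XT.lf (nat_lit 76) (nat_lit 425471741) (nat_lit 0) (nat_lit 1420553548) (nat_lit 304) (nat_lit 599490984) (nat_lit 181) (nat_lit 1) (nat_lit 180) (nat_lit 1) (nat_lit 184) (nat_lit 1) (nat_lit 368) (nat_lit 349) (nat_lit 303))) (XT.nd (nat_lit 78) (nat_lit 228) (nat_lit 0) (XT.lf (nat_lit 76) (nat_lit 1860214661) (nat_lit 0) (nat_lit 72153044) (nat_lit 228) (nat_lit 470106282) (nat_lit 178) (nat_lit 1) (nat_lit 177) (nat_lit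 1) (nat_lit 180) (nat_lit 1) (nat_lit 369) (nat_lit 349) (nat_lit 302)) (XT.lf (nat_lit 76) (nat_lit 883104306) (nat_lit 0) (nat_lit 1131741352) (nat_lit 304) (nat_lit 345341238) (nat_lit 175) (nat_lit 1) (nat_lit 174) (nat_lit 1) (nat_lit 178) (nat_lit 1) (nat_lit 370) (nat_lit 349) (nat_lit 301)))))) (XT.nd (nat_lit 546) (nat_lit 1140) (nat_lit 0) (XT.nd (nat_lit 234) (nat_lit 760) (nat_lit 0) (XT.nd (nat_lit 78) (nat_lit 532) (nat_lit 0) (XT.lf (nat_lit 228) (nat_lit 148502917) (nat_lit 0) (nat_lit 2106696738) (nat_lit 152) (nat_lit 63824379) (nat_lit 175) (nat_lit 1) (nat_lit 172) (nat_lit 1) (nat_lit 174) (nat_lit 1) (nat_lit 371) (nat_lit 349) (nat_lit 300)) (XT.nd (nat_lit 78) (nat_lit 304) (nat_lit 0) (XT.lf (nat_lit 76) (nat_lit 1290337479) (nat_lit 0) (nat_lit 899927818) (nat_lit 228) (nat_lit 88189651) (nat_lit 170) (nat_lit 1) (nat_lit 169) (nat_lit 1) (nat_lit 172) (nat_lit 1) (nat_lit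 372) (nat_lit 349) (nat_lit 299)) (XT.lf (nat_lit 228) (nat_lit 314765053) (nat_lit 0) (nat_lit 43648564) (nat_lit 152) (nat_lit 1880508802) (nat_lit 168) (nat_lit 1) (nat_lit 165) (nat_lit 1) (nat_lit 167) (nat_lit 1) (nat_lit 373) (nat_lit 349) (nat_lit 298)))) (XT.nd (nat_lit 156) (nat_lit 380) (nat_lit 0) (XT.nd (nat_lit 78) (nat_lit 152) (nat_lit 0) (XT.lf (nat_lit 228) (nat_lit 1481462645) (nat_lit 0) (nat_lit 172542291) (nat_lit 152) (nat_lit 546049744) (nat_lit 165) (nat_lit 1) (nat_lit 162) (nat_lit 1) (nat_lit 164) (nat_lit 1) (nat_lit 374) (nat_lit 349) (nat_lit 297)) (XT.lf (nat_lit 228) (nat_lit 434564671) (nat_lit 0) (nat_lit 302645484) (nat_lit 152) (nat_lit 1424823859) (nat_lit 163) (nat_lit 1) (nat_lit 160) (nat_lit 1) (nat_lit 162) (nat_lit 1) (nat_lit 375) (nat_lit 349) (nat_lit 296))) (XT.nd (nat_lit 78) (nat_lit 152) (nat_lit 0) (XT.lf (nat_lit 228) (nat_lit 1545029815) (nat_lit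 0) (nat_lit 432871019) (nat_lit 152) (nat_lit 146912459) (nat_lit 160) (nat_lit 1) (nat_lit 157) (nat_lit 1) (nat_lit 159) (nat_lit 1) (nat_lit 376) (nat_lit 349) (nat_lit 295)) (XT.lf (nat_lit 228) (nat_lit 517304695) (nat_lit 0) (nat_lit 558842365) (nat_lit 152) (nat_lit 1012102818) (nat_lit 158) (nat_lit 1) (nat_lit 155) (nat_lit 1) (nat_lit 157) (nat_lit 1) (nat_lit 377) (nat_lit 349) (nat_lit 294))))) (XT.nd (nat_lit 234) (nat_lit 608) (nat_lit 0) (XT.nd (nat_lit 78) (nat_lit 304) (nat_lit 0) (XT.lf (nat_lit 76) (nat_lit 208522565) (nat_lit 0) (nat_lit 478443248) (nat_lit 228) (nat_lit 1365549664) (nat_lit 153) (nat_lit 1) (nat_lit 152) (nat_lit 1) (nat_lit 155) (nat_lit 1) (nat_lit 378) (nat_lit 349) (nat_lit 293)) (XT.nd (nat_lit 78) (nat_lit 152) (nat_lit 0) (XT.lf (nat_lit 228) (nat_lit 568758159) (nat_lit 0) (nat_lit 810402982) (nat_lit 152) (nat_lit 638235180) (nat_lit 153) (nat_lit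 1) (nat_lit 150) (nat_lit 1) (nat_lit 152) (nat_lit 1) (nat_lit 379) (nat_lit 349) (nat_lit 292)) (XT.lf (nat_lit 76) (nat_lit 526049457) (nat_lit 0) (nat_lit 408164307) (nat_lit 152) (nat_lit 1048811699) (nat_lit 149) (nat_lit 1) (nat_lit 148) (nat_lit 1) (nat_lit 150) (nat_lit 1) (nat_lit 380) (nat_lit 349) (nat_lit 291)))) (XT.nd (nat_lit 156) (nat_lit 304) (nat_lit 0) (XT.nd (nat_lit 78) (nat_lit 152) (nat_lit 0) (XT.lf (nat_lit 228) (nat_lit 593943711) (nat_lit 0) (nat_lit 1055824549) (nat_lit 152) (nat_lit 299545639) (nat_lit 149) (nat_lit 1) (nat_lit 146) (nat_lit 1) (nat_lit 148) (nat_lit 1) (nat_lit 381) (nat_lit 349) (nat_lit 290)) (XT.lf (nat_lit 76) (nat_lit 811878532) (nat_lit 0) (nat_lit 362843952) (nat_lit 152) (nat_lit 741510428) (nat_lit 145) (nat_lit 1) (nat_lit 144) (nat_lit 1) (nat_lit 146) (nat_lit 1) (nat_lit 382) (nat_lit 349) (nat_lit 289))) (XT.nd (nat_lit 78) (nat_lit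 152) (nat_lit 0) (XT.lf (nat_lit 76) (nat_lit 7113698) (nat_lit 0) (nat_lit 1286707123) (nat_lit 228) (nat_lit 590033019) (nat_lit 143) (nat_lit 1) (nat_lit 142) (nat_lit 1) (nat_lit 145) (nat_lit 1) (nat_lit 383) (nat_lit 349) (nat_lit 288)) (XT.lf (nat_lit 76) (nat_lit 1069002552) (nat_lit 0) (nat_lit 338409149) (nat_lit 152) (nat_lit 444585473) (nat_lit 141) (nat_lit 1) (nat_lit 140) (nat_lit 1) (nat_lit 142) (nat_lit 1) (nat_lit 384) (nat_lit 349) (nat_lit 287))))))) (XT.nd (nat_lit 48204) (nat_lit 0) (nat_lit 16340) (XT.nd (nat_lit 546) (nat_lit 760) (nat_lit 0) (XT.nd (nat_lit 234) (nat_lit 684) (nat_lit 0) (XT.nd (nat_lit 78) (nat_lit 304) (nat_lit 0) (XT.lf (nat_lit 76) (nat_lit 279551163) (nat_lit 0) (nat_lit 1241267734) (nat_lit 228) (nat_lit 299986073) (nat_lit 139) (nat_lit 1) (nat_lit 138) (nat_lit 1) (nat_lit 141) (nat_lit 1) (nat_lit 385) (nat_lit 349) (nat_lit 286)) (XT.nd (nat_lit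 78) (nat_lit 152) (nat_lit 0) (XT.lf (nat_lit 76) (nat_lit 1300103074) (nat_lit 0) (nat_lit 331328025) (nat_lit 152) (nat_lit 158757315) (nat_lit 137) (nat_lit 1) (nat_lit 136) (nat_lit 1) (nat_lit 138) (nat_lit 1) (nat_lit 386) (nat_lit 349) (nat_lit 285)) (XT.lf (nat_lit 76) (nat_lit 526203841) (nat_lit 0) (nat_lit 1212803474) (nat_lit 228) (nat_lit 21120653) (nat_lit 135) (nat_lit 1) (nat_lit 134) (nat_lit 1) (nat_lit 137) (nat_lit 1) (nat_lit 387) (nat_lit 349) (nat_lit 284)))) (XT.nd (nat_lit 156) (nat_lit 304) (nat_lit 0) (XT.nd (nat_lit 78) (nat_lit 76) (nat_lit 0) (XT.lf (nat_lit 228) (nat_lit 1390977999) (nat_lit 0) (nat_lit 117739175) (nat_lit 152) (nat_lit 221935394) (nat_lit 133) (nat_lit 1) (nat_lit 130) (nat_lit 1) (nat_lit 132) (nat_lit 1) (nat_lit 388) (nat_lit 349) (nat_lit 283)) (XT.lf (nat_lit 152) (nat_lit 500824857) (nat_lit 0) (nat_lit 250986879) (nat_lit 76) (nat_lit 949822341)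 (nat_lit 131) (nat_lit 1) (nat_lit 129) (nat_lit 1) (nat_lit 130) (nat_lit 1) (nat_lit 389) (nat_lit 349) (nat_lit 282))) (XT.nd (nat_lit 78) (nat_lit 76) (nat_lit 0) (XT.lf (nat_lit 76) (nat_lit 23573530) (nat_lit 0) (nat_lit 361344235) (nat_lit 228) (nat_lit 1288344378) (nat_lit 127) (nat_lit 1) (nat_lit 126) (nat_lit 1) (nat_lit 129) (nat_lit 1) (nat_lit 390) (nat_lit 349) (nat_lit 281)) (XT.lf (nat_lit 152) (nat_lit 444845578) (nat_lit 0) (nat_lit 511298578) (nat_lit 76) (nat_lit 689140869) (nat_lit 127) (nat_lit 1) (nat_lit 125) (nat_lit 1) (nat_lit 126) (nat_lit 1) (nat_lit 391) (nat_lit 349) (nat_lit 280))))) (XT.nd (nat_lit 234) (nat_lit 228) (nat_lit 0) (XT.nd (nat_lit 78) (nat_lit 304) (nat_lit 0) (XT.lf (nat_lit 76) (nat_lit 243443641) (nat_lit 0) (nat_lit 394192271) (nat_lit 228) (nat_lit 980273739) (nat_lit 123) (nat_lit 1) (nat_lit 122) (nat_lit 1) (nat_lit 125) (nat_lit 1) (nat_lit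 392) (nat_lit 349) (nat_lit 279)) (XT.nd (nat_lit 78) (nat_lit 228) (nat_lit 0) (XT.lf (nat_lit 152) (nat_lit 381678137) (nat_lit 0) (nat_lit 759197284) (nat_lit 76) (nat_lit 450111277) (nat_lit 123) (nat_lit 1) (nat_lit 121) (nat_lit 1) (nat_lit 122) (nat_lit 1) (nat_lit 393) (nat_lit 349) (nat_lit 278)) (XT.lf (nat_lit 76) (nat_lit 443812638) (nat_lit 0) (nat_lit 434140245) (nat_lit 228) (nat_lit 686609400) (nat_lit 119) (nat_lit 1) (nat_lit 118) (nat_lit 1) (nat_lit 121) (nat_lit 1) (nat_lit 394) (nat_lit 349) (nat_lit 277)))) (XT.nd (nat_lit 47268) (nat_lit 0) (nat_lit 19684) (XT.nd (nat_lit 78) (nat_lit 152) (nat_lit 0) (XT.lf (nat_lit 152) (nat_lit 313103958) (nat_lit 0) (nat_lit 994598017) (nat_lit 76) (nat_lit 230943627) (nat_lit 119) (nat_lit 1) (nat_lit 117) (nat_lit 1) (nat_lit 118) (nat_lit 1) (nat_lit 395) (nat_lit 349) (nat_lit 276)) (XT.lf (nat_lit 76) (nat_lit 626312781) (nat_lit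 0) (nat_lit 479520099) (nat_lit 152) (nat_lit 407296825) (nat_lit 116) (nat_lit 1) (nat_lit 115) (nat_lit 1) (nat_lit 117) (nat_lit 1) (nat_lit 396) (nat_lit 349) (nat_lit 275))) (XT.nd (nat_lit 78) (nat_lit 0) (nat_lit 76) (XT.lf (nat_lit 1292) (nat_lit 607515926) (nat_lit 0) (nat_lit 2090137325) (nat_lit 1292) (nat_lit 607515926) (nat_lit 391) (nat_lit 1) (nat_lit 374) (nat_lit 0) (nat_lit 391) (nat_lit 0) (nat_lit 320) (nat_lit 350) (nat_lit 350)) (XT.lf (nat_lit 1292) (nat_lit 48705616) (nat_lit 0) (nat_lit 4121311289) (nat_lit 1216) (nat_lit 2281715434) (nat_lit 392) (nat_lit 1) (nat_lit 375) (nat_lit 1) (nat_lit 391) (nat_lit 1) (nat_lit 321) (nat_lit 350) (nat_lit 349)))))) (XT.nd (nat_lit 546) (nat_lit 2508) (nat_lit 0) (XT.nd (nat_lit 234) (nat_lit 912) (nat_lit 0) (XT.nd (nat_lit 78) (nat_lit 0) (nat_lit 76) (XT.lf (nat_lit 1292) (nat_lit 2142837727) (nat_lit 76) (nat_lit 3030965552)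 (nat_lit 0) (nat_lit 1124176130) (nat_lit 392) (nat_lit 1) (nat_lit 376) (nat_lit 1) (nat_lit 375) (nat_lit 1) (nat_lit 322) (nat_lit 350) (nat_lit 348)) (XT.nd (nat_lit 78) (nat_lit 0) (nat_lit 76) (XT.lf (nat_lit 1292) (nat_lit 1883736065) (nat_lit 76) (nat_lit 1983983840) (nat_lit 0) (nat_lit 2281484912) (nat_lit 393) (nat_lit 1) (nat_lit 377) (nat_lit 1) (nat_lit 376) (nat_lit 1) (nat_lit 323) (nat_lit 350) (nat_lit 347)) (XT.lf (nat_lit 1292) (nat_lit 1558918435) (nat_lit 76) (nat_lit 1024831285) (nat_lit 0) (nat_lit 3421491589) (nat_lit 394) (nat_lit 1) (nat_lit 378) (nat_lit 1) (nat_lit 377) (nat_lit 1) (nat_lit 324) (nat_lit 350) (nat_lit 346)))) (XT.nd (nat_lit 156) (nat_lit 1140) (nat_lit 0) (XT.nd (nat_lit 78) (nat_lit 0) (nat_lit 76) (XT.lf (nat_lit 1292) (nat_lit 1173393974) (nat_lit 76) (nat_lit 148995310) (nat_lit 0) (nat_lit 4543525251) (nat_lit 395) (nat_lit 1) (nat_lit 379) (nat_lit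 1) (nat_lit 378) (nat_lit 1) (nat_lit 325) (nat_lit 350) (nat_lit 345)) (XT.lf (nat_lit 1292) (nat_lit 90286408) (nat_lit 0) (nat_lit 5005398353) (nat_lit 1216) (nat_lit 635185495) (nat_lit 396) (nat_lit 1) (nat_lit 379) (nat_lit 1) (nat_lit 395) (nat_lit 1) (nat_lit 326) (nat_lit 350) (nat_lit 344))) (XT.nd (nat_lit 78) (nat_lit 1216) (nat_lit 0) (XT.lf (nat_lit 1292) (nat_lit 213998430) (nat_lit 76) (nat_lit 4245816716) (nat_lit 0) (nat_lit 1139969248) (nat_lit 396) (nat_lit 1) (nat_lit 380) (nat_lit 1) (nat_lit 379) (nat_lit 1) (nat_lit 327) (nat_lit 350) (nat_lit 343)) (XT.lf (nat_lit 1368) (nat_lit 3127584632) (nat_lit 0) (nat_lit 338059188) (nat_lit 1292) (nat_lit 2007110047) (nat_lit 381) (nat_lit 1) (nat_lit 363) (nat_lit 1) (nat_lit 380) (nat_lit 1) (nat_lit 328) (nat_lit 350) (nat_lit 342))))) (XT.nd (nat_lit 234) (nat_lit 1824) (nat_lit 0) (XT.nd (nat_lit 78) (nat_lit 760) (nat_lit 0)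 (XT.lf (nat_lit 1368) (nat_lit 1825554197) (nat_lit 0) (nat_lit 927594591) (nat_lit 1292) (nat_lit 2596532553) (nat_lit 382) (nat_lit 1) (nat_lit 364) (nat_lit 1) (nat_lit 381) (nat_lit 1) (nat_lit 329) (nat_lit 350) (nat_lit 341)) (XT.nd (nat_lit 78) (nat_lit 836) (nat_lit 0) (XT.lf (nat_lit 76) (nat_lit 551692163) (nat_lit 0) (nat_lit 1555167390) (nat_lit 1292) (nat_lit 3123626544) (nat_lit 366) (nat_lit 1) (nat_lit 365) (nat_lit 1) (nat_lit 382) (nat_lit 1) (nat_lit 330) (nat_lit 350) (nat_lit 340)) (XT.lf (nat_lit 912) (nat_lit 2890648382) (nat_lit 0) (nat_lit 1516342783) (nat_lit 836) (nat_lit 707835962) (nat_lit 366) (nat_lit 1) (nat_lit 354) (nat_lit 1) (nat_lit 365) (nat_lit 1) (nat_lit 331) (nat_lit 350) (nat_lit 339)))) (XT.nd (nat_lit 156) (nat_lit 608) (nat_lit 0) (XT.nd (nat_lit 78) (nat_lit 608) (nat_lit 0) (XT.lf (nat_lit 684) (nat_lit 2072865981) (nat_lit 0) (nat_lit 980052565)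 (nat_lit 608) (nat_lit 1949704443) (nat_lit 355) (nat_lit 1) (nat_lit 346) (nat_lit 1) (nat_lit 354) (nat_lit 1) (nat_lit 332) (nat_lit 350) (nat_lit 338)) (XT.lf (nat_lit 684) (nat_lit 1230424537) (nat_lit 0) (nat_lit 500443252) (nat_lit 608) (nat_lit 3163041658) (nat_lit 347) (nat_lit 1) (nat_lit 338) (nat_lit 1) (nat_lit 346) (nat_lit 1) (nat_lit 333) (nat_lit 350) (nat_lit 337))) (XT.nd (nat_lit 78) (nat_lit 76) (nat_lit 0) (XT.lf (nat_lit 608) (nat_lit 366029331) (nat_lit 0) (nat_lit 74542141) (nat_lit 532) (nat_lit 4347993404) (nat_lit 339) (nat_lit 1) (nat_lit 331) (nat_lit 1) (nat_lit 338) (nat_lit 1) (nat_lit 334) (nat_lit 350) (nat_lit 336)) (XT.lf (nat_lit 76) (nat_lit 3859623981) (nat_lit 0) (nat_lit 518667980) (nat_lit 608) (nat_lit 307701340) (nat_lit 331) (nat_lit 1) (nat_lit 330) (nat_lit 1) (nat_lit 338) (nat_lit 1) (nat_lit 335) (nat_lit 350) (nat_lit 335))))))))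
noncomputable def ec26 : XT := (XT.nd (nat_lit 2184) (nat_lit 5168) (nat_lit 0) (XT.nd (nat_lit 1092) (nat_lit 4256) (nat_lit 0) (XT.nd (nat_lit 546) (nat_lit 2812) (nat_lit 0) (XT.nd (nat_lit 234) (nat_lit 1976) (nat_lit 0) (XT.nd (nat_lit 78) (nat_lit 1064) (nat_lit 0) (XT.lf (nat_lit 76) (nat_lit 2520090483) (nat_lit 0) (nat_lit 1417233779) (nat_lit 684) (nat_lit 648997315) (nat_lit 323) (nat_lit 1) (nat_lit 322) (nat_lit 1) (nat_lit 331) (nat_lit 1) (nat_lit 336) (nat_lit 350) (nat_lit 334)) (XT.nd (nat_lit 78) (nat_lit 532) (nat_lit 0) (XT.lf (nat_lit 76) (nat_lit 1214695248) (nat_lit 0) (nat_lit 2329573876) (nat_lit 608) (nat_lit 945430107) (nat_lit 316) (nat_lit 1) (nat_lit 315) (nat_lit 1) (nat_lit 323) (nat_lit 1) (nat_lit 337) (nat_lit 350) (nat_lit 333)) (XT.lf (nat_lit 608) (nat_lit 1141777790) (nat_lit 0) (nat_lit 3196051717) (nat_lit 532) (nat_lit 58175696) (nat_lit 316) (nat_lit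 1) (nat_lit 308) (nat_lit 1) (nat_lit 315) (nat_lit 1) (nat_lit 338) (nat_lit 350) (nat_lit 332)))) (XT.nd (nat_lit 156) (nat_lit 912) (nat_lit 0) (XT.nd (nat_lit 78) (nat_lit 608) (nat_lit 0) (XT.lf (nat_lit 532) (nat_lit 104479156) (nat_lit 0) (nat_lit 2878932591) (nat_lit 456) (nat_lit 1321396665) (nat_lit 309) (nat_lit 1) (nat_lit 302) (nat_lit 1) (nat_lit 308) (nat_lit 1) (nat_lit 339) (nat_lit 350) (nat_lit 331)) (XT.lf (nat_lit 76) (nat_lit 1674072762) (nat_lit 0) (nat_lit 919539448) (nat_lit 608) (nat_lit 1622486738) (nat_lit 295) (nat_lit 1) (nat_lit 294) (nat_lit 1) (nat_lit 302) (nat_lit 1) (nat_lit 340) (nat_lit 350) (nat_lit 330))) (XT.nd (nat_lit 78) (nat_lit 456) (nat_lit 0) (XT.lf (nat_lit 76) (nat_lit 401210742) (nat_lit 0) (nat_lit 1944920948) (nat_lit 532) (nat_lit 1783891338) (nat_lit 289) (nat_lit 1) (nat_lit 288) (nat_lit 1) (nat_lit 295) (nat_lit 1) (nat_lit 341) (nat_lit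 350) (nat_lit 329)) (XT.lf (nat_lit 532) (nat_lit 1065783352) (nat_lit 0) (nat_lit 2127013610) (nat_lit 456) (nat_lit 853478480) (nat_lit 289) (nat_lit 1) (nat_lit 282) (nat_lit 1) (nat_lit 288) (nat_lit 1) (nat_lit 342) (nat_lit 350) (nat_lit 328))))) (XT.nd (nat_lit 234) (nat_lit 1520) (nat_lit 0) (XT.nd (nat_lit 78) (nat_lit 836) (nat_lit 0) (XT.lf (nat_lit 76) (nat_lit 1884145966) (nat_lit 0) (nat_lit 54339961) (nat_lit 456) (nat_lit 2026406540) (nat_lit 277) (nat_lit 1) (nat_lit 276) (nat_lit 1) (nat_lit 282) (nat_lit 1) (nat_lit 343) (nat_lit 350) (nat_lit 327)) (XT.nd (nat_lit 78) (nat_lit 380) (nat_lit 0) (XT.lf (nat_lit 76) (nat_lit 622314831) (nat_lit 0) (nat_lit 1150430580) (nat_lit 532) (nat_lit 2112873343) (nat_lit 271) (nat_lit 1) (nat_lit 270) (nat_lit 1) (nat_lit 277) (nat_lit 1) (nat_lit 344) (nat_lit 350) (nat_lit 326)) (XT.lf (nat_lit 456) (nat_lit 1560328895) (nat_lit 0) (nat_lit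 1632460916) (nat_lit 380) (nat_lit 615714694) (nat_lit 271) (nat_lit 1) (nat_lit 265) (nat_lit 1) (nat_lit 270) (nat_lit 1) (nat_lit 345) (nat_lit 350) (nat_lit 325)))) (XT.nd (nat_lit 156) (nat_lit 684) (nat_lit 0) (XT.nd (nat_lit 78) (nat_lit 456) (nat_lit 0) (XT.lf (nat_lit 456) (nat_lit 387014109) (nat_lit 0) (nat_lit 1516092727) (nat_lit 380) (nat_lit 1830371026) (nat_lit 266) (nat_lit 1) (nat_lit 260) (nat_lit 1) (nat_lit 265) (nat_lit 1) (nat_lit 346) (nat_lit 350) (nat_lit 324)) (XT.lf (nat_lit 76) (nat_lit 658087378) (nat_lit 0) (nat_lit 762502366) (nat_lit 456) (nat_lit 2239833719) (nat_lit 255) (nat_lit 1) (nat_lit 254) (nat_lit 1) (nat_lit 260) (nat_lit 1) (nat_lit 347) (nat_lit 350) (nat_lit 323))) (XT.nd (nat_lit 78) (nat_lit 304) (nat_lit 0) (XT.lf (nat_lit 456) (nat_lit 1688563038) (nat_lit 0) (nat_lit 1342828426) (nat_lit 380) (nat_lit 557832877) (nat_lit 255) (nat_lit 1) (nat_lit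 249) (nat_lit 1) (nat_lit 254) (nat_lit 1) (nat_lit 348) (nat_lit 350) (nat_lit 322)) (XT.lf (nat_lit 380) (nat_lit 484795154) (nat_lit 0) (nat_lit 1284392921) (nat_lit 304) (nat_lit 1750713064) (nat_lit 250) (nat_lit 1) (nat_lit 245) (nat_lit 1) (nat_lit 249) (nat_lit 1) (nat_lit 349) (nat_lit 350) (nat_lit 321)))))) (XT.nd (nat_lit 546) (nat_lit 1900) (nat_lit 0) (XT.nd (nat_lit 234) (nat_lit 1292) (nat_lit 0) (XT.nd (nat_lit 78) (nat_lit 608) (nat_lit 0) (XT.lf (nat_lit 76) (nat_lit 551074225) (nat_lit 0) (nat_lit 692438156) (nat_lit 456) (nat_lit 2208864889) (nat_lit 240) (nat_lit 1) (nat_lit 239) (nat_lit 1) (nat_lit 245) (nat_lit 1) (nat_lit 350) (nat_lit 350) (nat_lit 320)) (XT.nd (nat_lit 78) (nat_lit 304) (nat_lit 0) (XT.lf (nat_lit 380) (nat_lit 1533084030) (nat_lit 0) (nat_lit 1214828309) (nat_lit 304) (nat_lit 638559788) (nat_lit 240) (nat_lit 1) (nat_lit 235) (nat_lit 1) (nat_lit 239)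 (nat_lit 1) (nat_lit 351) (nat_lit 350) (nat_lit 319)) (XT.lf (nat_lit 380) (nat_lit 316272523) (nat_lit 0) (nat_lit 1202962315) (nat_lit 304) (nat_lit 1803061414) (nat_lit 236) (nat_lit 1) (nat_lit 231) (nat_lit 1) (nat_lit 235) (nat_lit 1) (nat_lit 352) (nat_lit 350) (nat_lit 318)))) (XT.nd (nat_lit 156) (nat_lit 608) (nat_lit 0) (XT.nd (nat_lit 78) (nat_lit 304) (nat_lit 0) (XT.lf (nat_lit 76) (nat_lit 336103604) (nat_lit 0) (nat_lit 867373295) (nat_lit 380) (nat_lit 2056219893) (nat_lit 227) (nat_lit 1) (nat_lit 226) (nat_lit 1) (nat_lit 231) (nat_lit 1) (nat_lit 353) (nat_lit 350) (nat_lit 317)) (XT.lf (nat_lit 380) (nat_lit 1161620241) (nat_lit 0) (nat_lit 1212812617) (nat_lit 304) (nat_lit 824114056) (nat_lit 227) (nat_lit 1) (nat_lit 222) (nat_lit 1) (nat_lit 226) (nat_lit 1) (nat_lit 354) (nat_lit 350) (nat_lit 316))) (XT.nd (nat_lit 78) (nat_lit 304) (nat_lit 0) (XT.lf (nat_lit 76) (nat_lit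 1184266608) (nat_lit 0) (nat_lit 53284295) (nat_lit 304) (nat_lit 1901464691) (nat_lit 219) (nat_lit 1) (nat_lit 218) (nat_lit 1) (nat_lit 222) (nat_lit 1) (nat_lit 355) (nat_lit 350) (nat_lit 315)) (XT.lf (nat_lit 76) (nat_lit 41584468) (nat_lit 0) (nat_lit 1227629596) (nat_lit 380) (nat_lit 1811619560) (nat_lit 215) (nat_lit 1) (nat_lit 214) (nat_lit 1) (nat_lit 219) (nat_lit 1) (nat_lit 356) (nat_lit 350) (nat_lit 314))))) (XT.nd (nat_lit 234) (nat_lit 1064) (nat_lit 0) (XT.nd (nat_lit 78) (nat_lit 608) (nat_lit 0) (XT.lf (nat_lit 304) (nat_lit 629522846) (nat_lit 0) (nat_lit 1307502175) (nat_lit 228) (nat_lit 1086945386) (nat_lit 215) (nat_lit 1) (nat_lit 211) (nat_lit 1) (nat_lit 214) (nat_lit 1) (nat_lit 357) (nat_lit 350) (nat_lit 313)) (XT.nd (nat_lit 78) (nat_lit 228) (nat_lit 0) (XT.lf (nat_lit 76) (nat_lit 793019112) (nat_lit 0) (nat_lit 563403835) (nat_lit 380) (nat_lit 1612098284)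 (nat_lit 207) (nat_lit 1) (nat_lit 206) (nat_lit 1) (nat_lit 211) (nat_lit 1) (nat_lit 358) (nat_lit 350) (nat_lit 312)) (XT.lf (nat_lit 304) (nat_lit 1186814125) (nat_lit 0) (nat_lit 1411968523) (nat_lit 228) (nat_lit 315565676) (nat_lit 207) (nat_lit 1) (nat_lit 203) (nat_lit 1) (nat_lit 206) (nat_lit 1) (nat_lit 359) (nat_lit 350) (nat_lit 311)))) (XT.nd (nat_lit 156) (nat_lit 532) (nat_lit 0) (XT.nd (nat_lit 78) (nat_lit 228) (nat_lit 0) (XT.lf (nat_lit 76) (nat_lit 1456948040) (nat_lit 0) (nat_lit 17794972) (nat_lit 304) (nat_lit 1386705637) (nat_lit 200) (nat_lit 1) (nat_lit 199) (nat_lit 1) (nat_lit 203) (nat_lit 1) (nat_lit 360) (nat_lit 350) (nat_lit 310)) (XT.lf (nat_lit 76) (nat_lit 362075960) (nat_lit 0) (nat_lit 1178434437) (nat_lit 304) (nat_lit 1269168189) (nat_lit 197) (nat_lit 1) (nat_lit 196) (nat_lit 1) (nat_lit 200) (nat_lit 1) (nat_lit 361) (nat_lit 350) (nat_lit 309))) (XT.nd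 (nat_lit 78) (nat_lit 304) (nat_lit 0) (XT.lf (nat_lit 304) (nat_lit 433884870) (nat_lit 0) (nat_lit 1613125500) (nat_lit 228) (nat_lit 712120184) (nat_lit 197) (nat_lit 1) (nat_lit 193) (nat_lit 1) (nat_lit 196) (nat_lit 1) (nat_lit 362) (nat_lit 350) (nat_lit 308)) (XT.lf (nat_lit 76) (nat_lit 957789654) (nat_lit 0) (nat_lit 730349909) (nat_lit 304) (nat_lit 1021515936) (nat_lit 190) (nat_lit 1) (nat_lit 189) (nat_lit 1) (nat_lit 193) (nat_lit 1) (nat_lit 363) (nat_lit 350) (nat_lit 307))))))) (XT.nd (nat_lit 1092) (nat_lit 2204) (nat_lit 0) (XT.nd (nat_lit 546) (nat_lit 1444) (nat_lit 0) (XT.nd (nat_lit 234) (nat_lit 836) (nat_lit 0) (XT.nd (nat_lit 78) (nat_lit 456) (nat_lit 0) (XT.lf (nat_lit 304) (nat_lit 795957817) (nat_lit 0) (nat_lit 1770788173) (nat_lit 228) (nat_lit 94640819) (nat_lit 190) (nat_lit 1) (nat_lit 186) (nat_lit 1) (nat_lit 189) (nat_lit 1) (nat_lit 364) (nat_lit 350) (nat_lit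 306)) (XT.nd (nat_lit 78) (nat_lit 228) (nat_lit 0) (XT.lf (nat_lit 76) (nat_lit 1485787954) (nat_lit 0) (nat_lit 366730994) (nat_lit 228) (nat_lit 761537694) (nat_lit 184) (nat_lit 1) (nat_lit 183) (nat_lit 1) (nat_lit 186) (nat_lit 1) (nat_lit 365) (nat_lit 350) (nat_lit 305)) (XT.lf (nat_lit 76) (nat_lit 446745328) (nat_lit 0) (nat_lit 1491581225) (nat_lit 304) (nat_lit 629465534) (nat_lit 181) (nat_lit 1) (nat_lit 180) (nat_lit 1) (nat_lit 184) (nat_lit 1) (nat_lit 366) (nat_lit 350) (nat_lit 304)))) (XT.nd (nat_lit 156) (nat_lit 380) (nat_lit 0) (XT.nd (nat_lit 78) (nat_lit 228) (nat_lit 0) (XT.lf (nat_lit 76) (nat_lit 1953225394) (nat_lit 0) (nat_lit 75760696) (nat_lit 228) (nat_lit 493611596) (nat_lit 178) (nat_lit 1) (nat_lit 177) (nat_lit 1) (nat_lit 180) (nat_lit 1) (nat_lit 367) (nat_lit 350) (nat_lit 303)) (XT.lf (nat_lit 76) (nat_lit 927259521) (nat_lit 0) (nat_lit 1188328419) (nat_lit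 304) (nat_lit 362608300) (nat_lit 175) (nat_lit 1) (nat_lit 174) (nat_lit 1) (nat_lit 178) (nat_lit 1) (nat_lit 368) (nat_lit 350) (nat_lit 302))) (XT.nd (nat_lit 78) (nat_lit 228) (nat_lit 0) (XT.lf (nat_lit 228) (nat_lit 155928063) (nat_lit 0) (nat_lit 2212031575) (nat_lit 152) (nat_lit 67015598) (nat_lit 175) (nat_lit 1) (nat_lit 172) (nat_lit 1) (nat_lit 174) (nat_lit 1) (nat_lit 369) (nat_lit 350) (nat_lit 301)) (XT.lf (nat_lit 76) (nat_lit 1354854353) (nat_lit 0) (nat_lit 944924209) (nat_lit 228) (nat_lit 92599134) (nat_lit 170) (nat_lit 1) (nat_lit 169) (nat_lit 1) (nat_lit 172) (nat_lit 1) (nat_lit 370) (nat_lit 350) (nat_lit 300))))) (XT.nd (nat_lit 234) (nat_lit 760) (nat_lit 0) (XT.nd (nat_lit 78) (nat_lit 380) (nat_lit 0) (XT.lf (nat_lit 228) (nat_lit 330503306) (nat_lit 0) (nat_lit 45830992) (nat_lit 152) (nat_lit 1974534243) (nat_lit 168) (nat_lit 1) (nat_lit 165) (nat_lit 1) (nat_lit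 167) (nat_lit 1) (nat_lit 371) (nat_lit 350) (nat_lit 299)) (XT.nd (nat_lit 78) (nat_lit 152) (nat_lit 0) (XT.lf (nat_lit 228) (nat_lit 1555535777) (nat_lit 0) (nat_lit 181169405) (nat_lit 152) (nat_lit 573352231) (nat_lit 165) (nat_lit 1) (nat_lit 162) (nat_lit 1) (nat_lit 164) (nat_lit 1) (nat_lit 372) (nat_lit 350) (nat_lit 298)) (XT.lf (nat_lit 228) (nat_lit 456292905) (nat_lit 0) (nat_lit 317777758) (nat_lit 152) (nat_lit 1496065051) (nat_lit 163) (nat_lit 1) (nat_lit 160) (nat_lit 1) (nat_lit 162) (nat_lit 1) (nat_lit 373) (nat_lit 350) (nat_lit 297)))) (XT.nd (nat_lit 156) (nat_lit 380) (nat_lit 0) (XT.nd (nat_lit 78) (nat_lit 152) (nat_lit 0) (XT.lf (nat_lit 228) (nat_lit 1622281306) (nat_lit 0) (nat_lit 454514570) (nat_lit 152) (nat_lit 154258082) (nat_lit 160) (nat_lit 1) (nat_lit 157) (nat_lit 1) (nat_lit 159) (nat_lit 1) (nat_lit 374) (nat_lit 350) (nat_lit 296)) (XT.lf (nat_lit 228)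 (nat_lit 543169929) (nat_lit 0) (nat_lit 586784483) (nat_lit 152) (nat_lit 1062707959) (nat_lit 158) (nat_lit 1) (nat_lit 155) (nat_lit 1) (nat_lit 157) (nat_lit 1) (nat_lit 375) (nat_lit 350) (nat_lit 295))) (XT.nd (nat_lit 78) (nat_lit 152) (nat_lit 0) (XT.lf (nat_lit 76) (nat_lit 218948694) (nat_lit 0) (nat_lit 502365411) (nat_lit 228) (nat_lit 1433827148) (nat_lit 153) (nat_lit 1) (nat_lit 152) (nat_lit 1) (nat_lit 155) (nat_lit 1) (nat_lit 376) (nat_lit 350) (nat_lit 294)) (XT.lf (nat_lit 228) (nat_lit 597196067) (nat_lit 0) (nat_lit 850923131) (nat_lit 152) (nat_lit 670146939) (nat_lit 153) (nat_lit 1) (nat_lit 150) (nat_lit 1) (nat_lit 152) (nat_lit 1) (nat_lit 377) (nat_lit 350) (nat_lit 293)))))) (XT.nd (nat_lit 546) (nat_lit 1140) (nat_lit 0) (XT.nd (nat_lit 234) (nat_lit 608) (nat_lit 0) (XT.nd (nat_lit 78) (nat_lit 304) (nat_lit 0) (XT.lf (nat_lit 76) (nat_lit 552351930) (nat_lit 0)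 (nat_lit 428572522) (nat_lit 152) (nat_lit 1101252284) (nat_lit 149) (nat_lit 1) (nat_lit 148) (nat_lit 1) (nat_lit 150) (nat_lit 1) (nat_lit 378) (nat_lit 350) (nat_lit 292)) (XT.nd (nat_lit 78) (nat_lit 152) (nat_lit 0) (XT.lf (nat_lit 228) (nat_lit 623640897) (nat_lit 0) (nat_lit 1108615776) (nat_lit 152) (nat_lit 314522921) (nat_lit 149) (nat_lit 1) (nat_lit 146) (nat_lit 1) (nat_lit 148) (nat_lit 1) (nat_lit 379) (nat_lit 350) (nat_lit 291)) (XT.lf (nat_lit 76) (nat_lit 852472459) (nat_lit 0) (nat_lit 380986149) (nat_lit 152) (nat_lit 778585950) (nat_lit 145) (nat_lit 1) (nat_lit 144) (nat_lit 1) (nat_lit 146) (nat_lit 1) (nat_lit 380) (nat_lit 350) (nat_lit 290)))) (XT.nd (nat_lit 156) (nat_lit 304) (nat_lit 0) (XT.nd (nat_lit 78) (nat_lit 152) (nat_lit 0) (XT.lf (nat_lit 76) (nat_lit 7469383) (nat_lit 0) (nat_lit 1351042479) (nat_lit 228) (nat_lit 619534670) (nat_lit 143) (nat_lit 1) (nat_lit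 142) (nat_lit 1) (nat_lit 145) (nat_lit 1) (nat_lit 381) (nat_lit 350) (nat_lit 289)) (XT.lf (nat_lit 76) (nat_lit 1122452680) (nat_lit 0) (nat_lit 355329607) (nat_lit 152) (nat_lit 466814746) (nat_lit 141) (nat_lit 1) (nat_lit 140) (nat_lit 1) (nat_lit 142) (nat_lit 1) (nat_lit 382) (nat_lit 350) (nat_lit 288))) (XT.nd (nat_lit 78) (nat_lit 152) (nat_lit 0) (XT.lf (nat_lit 76) (nat_lit 293528721) (nat_lit 0) (nat_lit 1303331121) (nat_lit 228) (nat_lit 314985377) (nat_lit 139) (nat_lit 1) (nat_lit 138) (nat_lit 1) (nat_lit 141) (nat_lit 1) (nat_lit 383) (nat_lit 350) (nat_lit 287)) (XT.lf (nat_lit 76) (nat_lit 1365108227) (nat_lit 0) (nat_lit 347894426) (nat_lit 152) (nat_lit 166695180) (nat_lit 137) (nat_lit 1) (nat_lit 136) (nat_lit 1) (nat_lit 138) (nat_lit 1) (nat_lit 384) (nat_lit 350) (nat_lit 286))))) (XT.nd (nat_lit 234) (nat_lit 608) (nat_lit 0) (XT.nd (nat_lit 78) (nat_lit 380) (nat_lit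 0) (XT.lf (nat_lit 76) (nat_lit 552514033) (nat_lit 0) (nat_lit 1273443648) (nat_lit 228) (nat_lit 22176685) (nat_lit 135) (nat_lit 1) (nat_lit 134) (nat_lit 1) (nat_lit 137) (nat_lit 1) (nat_lit 385) (nat_lit 350) (nat_lit 285)) (XT.nd (nat_lit 78) (nat_lit 76) (nat_lit 0) (XT.lf (nat_lit 228) (nat_lit 1460526899) (nat_lit 0) (nat_lit 123626134) (nat_lit 152) (nat_lit 233032163) (nat_lit 133) (nat_lit 1) (nat_lit 130) (nat_lit 1) (nat_lit 132) (nat_lit 1) (nat_lit 386) (nat_lit 350) (nat_lit 284)) (XT.lf (nat_lit 152) (nat_lit 525866100) (nat_lit 0) (nat_lit 263536223) (nat_lit 76) (nat_lit 997313459) (nat_lit 131) (nat_lit 1) (nat_lit 129) (nat_lit 1) (nat_lit 130) (nat_lit 1) (nat_lit 387) (nat_lit 350) (nat_lit 283)))) (XT.nd (nat_lit 156) (nat_lit 304) (nat_lit 0) (XT.nd (nat_lit 78) (nat_lit 76) (nat_lit 0) (XT.lf (nat_lit 76) (nat_lit 24752207) (nat_lit 0) (nat_lit 379411447) (nat_lit 228)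 (nat_lit 1352761597) (nat_lit 127) (nat_lit 1) (nat_lit 126) (nat_lit 1) (nat_lit 129) (nat_lit 1) (nat_lit 388) (nat_lit 350) (nat_lit 282)) (XT.lf (nat_lit 152) (nat_lit 467087856) (nat_lit 0) (nat_lit 536863507) (nat_lit 76) (nat_lit 723597913) (nat_lit 127) (nat_lit 1) (nat_lit 125) (nat_lit 1) (nat_lit 126) (nat_lit 1) (nat_lit 389) (nat_lit 350) (nat_lit 281))) (XT.nd (nat_lit 78) (nat_lit 76) (nat_lit 0) (XT.lf (nat_lit 76) (nat_lit 255615823) (nat_lit 0) (nat_lit 413901885) (nat_lit 228) (nat_lit 1029287426) (nat_lit 123) (nat_lit 1) (nat_lit 122) (nat_lit 1) (nat_lit 125) (nat_lit 1) (nat_lit 390) (nat_lit 350) (nat_lit 280)) (XT.lf (nat_lit 152) (nat_lit 400762044) (nat_lit 0) (nat_lit 797157148) (nat_lit 76) (nat_lit 472616841) (nat_lit 123) (nat_lit 1) (nat_lit 121) (nat_lit 1) (nat_lit 122) (nat_lit 1) (nat_lit 391) (nat_lit 350) (nat_lit 279))))))))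
noncomputable def ec27 : XT := (XT.nd (nat_lit 49140) (nat_lit 0) (nat_lit 4332) (XT.nd (nat_lit 48048) (nat_lit 0) (nat_lit 12920) (XT.nd (nat_lit 47502) (nat_lit 0) (nat_lit 19076) (XT.nd (nat_lit 234) (nat_lit 228) (nat_lit 0) (XT.nd (nat_lit 78) (nat_lit 228) (nat_lit 0) (XT.lf (nat_lit 76) (nat_lit 466003269) (nat_lit 0) (nat_lit 455847257) (nat_lit 228) (nat_lit 720939870) (nat_lit 119) (nat_lit 1) (nat_lit 118) (nat_lit 1) (nat_lit 121) (nat_lit 1) (nat_lit 392) (nat_lit 350) (nat_lit 278)) (XT.nd (nat_lit 78) (nat_lit 152) (nat_lit 0) (XT.lf (nat_lit 152) (nat_lit 328759156) (nat_lit 0) (nat_lit 1044327918) (nat_lit 76) (nat_lit 242490808) (nat_lit 119) (nat_lit 1) (nat_lit 117) (nat_lit 1) (nat_lit 118) (nat_lit 1) (nat_lit 393) (nat_lit 350) (nat_lit 277)) (XT.lf (nat_lit 76) (nat_lit 657628420) (nat_lit 0) (nat_lit 503496104) (nat_lit 152) (nat_lit 427661667) (nat_lit 116) (nat_lit 1)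 (nat_lit 115) (nat_lit 1) (nat_lit 117) (nat_lit 1) (nat_lit 394) (nat_lit 350) (nat_lit 276)))) (XT.nd (nat_lit 47112) (nat_lit 0) (nat_lit 19912) (XT.nd (nat_lit 78) (nat_lit 152) (nat_lit 0) (XT.lf (nat_lit 152) (nat_lit 252677563) (nat_lit 0) (nat_lit 1278385704) (nat_lit 76) (nat_lit 31519877) (nat_lit 116) (nat_lit 1) (nat_lit 114) (nat_lit 1) (nat_lit 115) (nat_lit 1) (nat_lit 395) (nat_lit 350) (nat_lit 275)) (XT.lf (nat_lit 76) (nat_lit 832041599) (nat_lit 0) (nat_lit 555350947) (nat_lit 152) (nat_lit 149311296) (nat_lit 113) (nat_lit 1) (nat_lit 112) (nat_lit 1) (nat_lit 114) (nat_lit 1) (nat_lit 396) (nat_lit 350) (nat_lit 274))) (XT.nd (nat_lit 78) (nat_lit 0) (nat_lit 76) (XT.lf (nat_lit 1292) (nat_lit 637891723) (nat_lit 0) (nat_lit 2194644191) (nat_lit 1292) (nat_lit 637891723) (nat_lit 391) (nat_lit 1) (nat_lit 374) (nat_lit 0) (nat_lit 391) (nat_lit 0) (nat_lit 318) (nat_lit 351)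 (nat_lit 351)) (XT.lf (nat_lit 1292) (nat_lit 51140897) (nat_lit 0) (nat_lit 4327376853) (nat_lit 1216) (nat_lit 2395801205) (nat_lit 392) (nat_lit 1) (nat_lit 375) (nat_lit 1) (nat_lit 391) (nat_lit 1) (nat_lit 319) (nat_lit 351) (nat_lit 350))))) (XT.nd (nat_lit 234) (nat_lit 912) (nat_lit 0) (XT.nd (nat_lit 78) (nat_lit 0) (nat_lit 76) (XT.lf (nat_lit 1292) (nat_lit 2249979613) (nat_lit 76) (nat_lit 3182513830) (nat_lit 0) (nat_lit 1180384936) (nat_lit 392) (nat_lit 1) (nat_lit 376) (nat_lit 1) (nat_lit 375) (nat_lit 1) (nat_lit 320) (nat_lit 351) (nat_lit 349)) (XT.nd (nat_lit 78) (nat_lit 0) (nat_lit 76) (XT.lf (nat_lit 1292) (nat_lit 1977922868) (nat_lit 76) (nat_lit 2083183032) (nat_lit 0) (nat_lit 2395559158) (nat_lit 393) (nat_lit 1) (nat_lit 377) (nat_lit 1) (nat_lit 376) (nat_lit 1) (nat_lit 321) (nat_lit 351) (nat_lit 348)) (XT.lf (nat_lit 1292) (nat_lit 1636864357) (nat_lit 76) (nat_lit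 1076072849) (nat_lit 0) (nat_lit 3592566168) (nat_lit 394) (nat_lit 1) (nat_lit 378) (nat_lit 1) (nat_lit 377) (nat_lit 1) (nat_lit 322) (nat_lit 351) (nat_lit 347)))) (XT.nd (nat_lit 156) (nat_lit 1140) (nat_lit 0) (XT.nd (nat_lit 78) (nat_lit 0) (nat_lit 76) (XT.lf (nat_lit 1292) (nat_lit 1232063673) (nat_lit 76) (nat_lit 156445076) (nat_lit 0) (nat_lit 4770701514) (nat_lit 395) (nat_lit 1) (nat_lit 379) (nat_lit 1) (nat_lit 378) (nat_lit 1) (nat_lit 323) (nat_lit 351) (nat_lit 346)) (XT.lf (nat_lit 1292) (nat_lit 94800729) (nat_lit 0) (nat_lit 5255668271) (nat_lit 1216) (nat_lit 666944770) (nat_lit 396) (nat_lit 1) (nat_lit 379) (nat_lit 1) (nat_lit 395) (nat_lit 1) (nat_lit 324) (nat_lit 351) (nat_lit 345))) (XT.nd (nat_lit 78) (nat_lit 1216) (nat_lit 0) (XT.lf (nat_lit 1292) (nat_lit 224698351) (nat_lit 76) (nat_lit 4458107552) (nat_lit 0) (nat_lit 1196967711) (nat_lit 396) (nat_lit 1) (nat_lit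 380) (nat_lit 1) (nat_lit 379) (nat_lit 1) (nat_lit 325) (nat_lit 351) (nat_lit 344)) (XT.lf (nat_lit 1368) (nat_lit 3283963863) (nat_lit 0) (nat_lit 354962148) (nat_lit 1292) (nat_lit 2107465550) (nat_lit 381) (nat_lit 1) (nat_lit 363) (nat_lit 1) (nat_lit 380) (nat_lit 1) (nat_lit 326) (nat_lit 351) (nat_lit 343)))))) (XT.nd (nat_lit 546) (nat_lit 3648) (nat_lit 0) (XT.nd (nat_lit 234) (nat_lit 1824) (nat_lit 0) (XT.nd (nat_lit 78) (nat_lit 760) (nat_lit 0) (XT.lf (nat_lit 1368) (nat_lit 1916831907) (nat_lit 0) (nat_lit 973974321) (nat_lit 1292) (nat_lit 2726359181) (nat_lit 382) (nat_lit 1) (nat_lit 364) (nat_lit 1) (nat_lit 381) (nat_lit 1) (nat_lit 327) (nat_lit 351) (nat_lit 342)) (XT.nd (nat_lit 78) (nat_lit 836) (nat_lit 0) (XT.lf (nat_lit 76) (nat_lit 579276771) (nat_lit 0) (nat_lit 1632925760) (nat_lit 1292) (nat_lit 3279807871) (nat_lit 366) (nat_lit 1) (nat_lit 365) (nat_lit 1) (nat_lit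 382) (nat_lit 1) (nat_lit 328) (nat_lit 351) (nat_lit 341)) (XT.lf (nat_lit 912) (nat_lit 3035180801) (nat_lit 0) (nat_lit 1592159923) (nat_lit 836) (nat_lit 743227760) (nat_lit 366) (nat_lit 1) (nat_lit 354) (nat_lit 1) (nat_lit 365) (nat_lit 1) (nat_lit 329) (nat_lit 351) (nat_lit 340)))) (XT.nd (nat_lit 156) (nat_lit 608) (nat_lit 0) (XT.nd (nat_lit 78) (nat_lit 608) (nat_lit 0) (XT.lf (nat_lit 684) (nat_lit 2176509280) (nat_lit 0) (nat_lit 1029055193) (nat_lit 608) (nat_lit 2047189665) (nat_lit 355) (nat_lit 1) (nat_lit 346) (nat_lit 1) (nat_lit 354) (nat_lit 1) (nat_lit 330) (nat_lit 351) (nat_lit 339)) (XT.lf (nat_lit 684) (nat_lit 1291945764) (nat_lit 0) (nat_lit 525465415) (nat_lit 608) (nat_lit 3321193741) (nat_lit 347) (nat_lit 1) (nat_lit 338) (nat_lit 1) (nat_lit 346) (nat_lit 1) (nat_lit 331) (nat_lit 351) (nat_lit 338))) (XT.nd (nat_lit 78) (nat_lit 76) (nat_lit 0) (XT.lf (nat_lit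 608) (nat_lit 384330797) (nat_lit 0) (nat_lit 78269248) (nat_lit 532) (nat_lit 4565393074) (nat_lit 339) (nat_lit 1) (nat_lit 331) (nat_lit 1) (nat_lit 338) (nat_lit 1) (nat_lit 332) (nat_lit 351) (nat_lit 337)) (XT.lf (nat_lit 76) (nat_lit 4052605180) (nat_lit 0) (nat_lit 544601379) (nat_lit 608) (nat_lit 323086407) (nat_lit 331) (nat_lit 1) (nat_lit 330) (nat_lit 1) (nat_lit 338) (nat_lit 1) (nat_lit 333) (nat_lit 351) (nat_lit 336))))) (XT.nd (nat_lit 234) (nat_lit 1976) (nat_lit 0) (XT.nd (nat_lit 78) (nat_lit 1064) (nat_lit 0) (XT.lf (nat_lit 76) (nat_lit 2646095007) (nat_lit 0) (nat_lit 1488095468) (nat_lit 684) (nat_lit 681447180) (nat_lit 323) (nat_lit 1) (nat_lit 322) (nat_lit 1) (nat_lit 331) (nat_lit 1) (nat_lit 334) (nat_lit 351) (nat_lit 335)) (XT.nd (nat_lit 78) (nat_lit 532) (nat_lit 0) (XT.lf (nat_lit 76) (nat_lit 1275430010) (nat_lit 0) (nat_lit 2446052569) (nat_lit 608) (nat_lit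 992701613) (nat_lit 316) (nat_lit 1) (nat_lit 315) (nat_lit 1) (nat_lit 323) (nat_lit 1) (nat_lit 335) (nat_lit 351) (nat_lit 334)) (XT.lf (nat_lit 608) (nat_lit 1198866680) (nat_lit 0) (nat_lit 3355854302) (nat_lit 532) (nat_lit 61084481) (nat_lit 316) (nat_lit 1) (nat_lit 308) (nat_lit 1) (nat_lit 315) (nat_lit 1) (nat_lit 336) (nat_lit 351) (nat_lit 333)))) (XT.nd (nat_lit 156) (nat_lit 912) (nat_lit 0) (XT.nd (nat_lit 78) (nat_lit 608) (nat_lit 0) (XT.lf (nat_lit 532) (nat_lit 109703114) (nat_lit 0) (nat_lit 3022879221) (nat_lit 456) (nat_lit 1387466499) (nat_lit 309) (nat_lit 1) (nat_lit 302) (nat_lit 1) (nat_lit 308) (nat_lit 1) (nat_lit 337) (nat_lit 351) (nat_lit 332)) (XT.lf (nat_lit 76) (nat_lit 1757776400) (nat_lit 0) (nat_lit 965516421) (nat_lit 608) (nat_lit 1703611075) (nat_lit 295) (nat_lit 1) (nat_lit 294) (nat_lit 1) (nat_lit 302) (nat_lit 1) (nat_lit 338) (nat_lit 351) (nat_lit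 331))) (XT.nd (nat_lit 78) (nat_lit 456) (nat_lit 0) (XT.lf (nat_lit 76) (nat_lit 421271279) (nat_lit 0) (nat_lit 2042166996) (nat_lit 532) (nat_lit 1873085905) (nat_lit 289) (nat_lit 1) (nat_lit 288) (nat_lit 1) (nat_lit 295) (nat_lit 1) (nat_lit 339) (nat_lit 351) (nat_lit 330)) (XT.lf (nat_lit 532) (nat_lit 1119072520) (nat_lit 0) (nat_lit 2233364291) (nat_lit 456) (nat_lit 896152404) (nat_lit 289) (nat_lit 1) (nat_lit 282) (nat_lit 1) (nat_lit 288) (nat_lit 1) (nat_lit 340) (nat_lit 351) (nat_lit 329))))))) (XT.nd (nat_lit 1092) (nat_lit 3420) (nat_lit 0) (XT.nd (nat_lit 546) (nat_lit 2356) (nat_lit 0) (XT.nd (nat_lit 234) (nat_lit 1520) (nat_lit 0) (XT.nd (nat_lit 78) (nat_lit 836) (nat_lit 0) (XT.lf (nat_lit 76) (nat_lit 1978353264) (nat_lit 0) (nat_lit 57056959) (nat_lit 456) (nat_lit 2127726867) (nat_lit 277) (nat_lit 1) (nat_lit 276) (nat_lit 1) (nat_lit 282) (nat_lit 1) (nat_lit 341)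 (nat_lit 351) (nat_lit 328)) (XT.nd (nat_lit 78) (nat_lit 380) (nat_lit 0) (XT.lf (nat_lit 76) (nat_lit 653430573) (nat_lit 0) (nat_lit 1207952109) (nat_lit 532) (nat_lit 2218517011) (nat_lit 271) (nat_lit 1) (nat_lit 270) (nat_lit 1) (nat_lit 277) (nat_lit 1) (nat_lit 342) (nat_lit 351) (nat_lit 327)) (XT.lf (nat_lit 456) (nat_lit 1638345340) (nat_lit 0) (nat_lit 1714083962) (nat_lit 380) (nat_lit 646500429) (nat_lit 271) (nat_lit 1) (nat_lit 265) (nat_lit 1) (nat_lit 270) (nat_lit 1) (nat_lit 343) (nat_lit 351) (nat_lit 326)))) (XT.nd (nat_lit 156) (nat_lit 684) (nat_lit 0) (XT.nd (nat_lit 78) (nat_lit 456) (nat_lit 0) (XT.lf (nat_lit 456) (nat_lit 406364815) (nat_lit 0) (nat_lit 1591897364) (nat_lit 380) (nat_lit 1921889577) (nat_lit 266) (nat_lit 1) (nat_lit 260) (nat_lit 1) (nat_lit 265) (nat_lit 1) (nat_lit 344) (nat_lit 351) (nat_lit 325)) (XT.lf (nat_lit 76) (nat_lit 690991747) (nat_lit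 0) (nat_lit 800627484) (nat_lit 456) (nat_lit 2351825405) (nat_lit 255) (nat_lit 1) (nat_lit 254) (nat_lit 1) (nat_lit 260) (nat_lit 1) (nat_lit 345) (nat_lit 351) (nat_lit 324))) (XT.nd (nat_lit 78) (nat_lit 304) (nat_lit 0) (XT.lf (nat_lit 456) (nat_lit 1772991190) (nat_lit 0) (nat_lit 1409969847) (nat_lit 380) (nat_lit 585724521) (nat_lit 255) (nat_lit 1) (nat_lit 249) (nat_lit 1) (nat_lit 254) (nat_lit 1) (nat_lit 346) (nat_lit 351) (nat_lit 323)) (XT.lf (nat_lit 380) (nat_lit 509034912) (nat_lit 0) (nat_lit 1348612567) (nat_lit 304) (nat_lit 1838248717) (nat_lit 250) (nat_lit 1) (nat_lit 245) (nat_lit 1) (nat_lit 249) (nat_lit 1) (nat_lit 347) (nat_lit 351) (nat_lit 322))))) (XT.nd (nat_lit 234) (nat_lit 1292) (nat_lit 0) (XT.nd (nat_lit 78) (nat_lit 608) (nat_lit 0) (XT.lf (nat_lit 76) (nat_lit 578627936) (nat_lit 0) (nat_lit 727060064) (nat_lit 456) (nat_lit 2319308133) (nat_lit 240) (nat_lit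 1) (nat_lit 239) (nat_lit 1) (nat_lit 245) (nat_lit 1) (nat_lit 348) (nat_lit 351) (nat_lit 321)) (XT.nd (nat_lit 78) (nat_lit 304) (nat_lit 0) (XT.lf (nat_lit 380) (nat_lit 1609738231) (nat_lit 0) (nat_lit 1275569724) (nat_lit 304) (nat_lit 670487777) (nat_lit 240) (nat_lit 1) (nat_lit 235) (nat_lit 1) (nat_lit 239) (nat_lit 1) (nat_lit 349) (nat_lit 351) (nat_lit 320)) (XT.lf (nat_lit 380) (nat_lit 332086149) (nat_lit 0) (nat_lit 1263110430) (nat_lit 304) (nat_lit 1893214485) (nat_lit 236) (nat_lit 1) (nat_lit 231) (nat_lit 1) (nat_lit 235) (nat_lit 1) (nat_lit 350) (nat_lit 351) (nat_lit 319)))) (XT.nd (nat_lit 156) (nat_lit 608) (nat_lit 0) (XT.nd (nat_lit 78) (nat_lit 304) (nat_lit 0) (XT.lf (nat_lit 76) (nat_lit 352908784) (nat_lit 0) (nat_lit 910741959) (nat_lit 380) (nat_lit 2159030888) (nat_lit 227) (nat_lit 1) (nat_lit 226) (nat_lit 1) (nat_lit 231) (nat_lit 1) (nat_lit 351) (nat_lit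 351) (nat_lit 318)) (XT.lf (nat_lit 380) (nat_lit 1219701253) (nat_lit 0) (nat_lit 1273453248) (nat_lit 304) (nat_lit 865319759) (nat_lit 227) (nat_lit 1) (nat_lit 222) (nat_lit 1) (nat_lit 226) (nat_lit 1) (nat_lit 352) (nat_lit 351) (nat_lit 317))) (XT.nd (nat_lit 78) (nat_lit 304) (nat_lit 0) (XT.lf (nat_lit 76) (nat_lit 1243479938) (nat_lit 0) (nat_lit 55948510) (nat_lit 304) (nat_lit 1996537926) (nat_lit 219) (nat_lit 1) (nat_lit 218) (nat_lit 1) (nat_lit 222) (nat_lit 1) (nat_lit 353) (nat_lit 351) (nat_lit 316)) (XT.lf (nat_lit 76) (nat_lit 43663691) (nat_lit 0) (nat_lit 1289011076) (nat_lit 380) (nat_lit 1902200538) (nat_lit 215) (nat_lit 1) (nat_lit 214) (nat_lit 1) (nat_lit 219) (nat_lit 1) (nat_lit 354) (nat_lit 351) (nat_lit 315)))))) (XT.nd (nat_lit 546) (nat_lit 1520) (nat_lit 0) (XT.nd (nat_lit 234) (nat_lit 1064) (nat_lit 0) (XT.nd (nat_lit 78) (nat_lit 608) (nat_lit 0) (XT.lf (nat_lit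 304) (nat_lit 660998989) (nat_lit 0) (nat_lit 1372877283) (nat_lit 228) (nat_lit 1141292655) (nat_lit 215) (nat_lit 1) (nat_lit 211) (nat_lit 1) (nat_lit 214) (nat_lit 1) (nat_lit 355) (nat_lit 351) (nat_lit 314)) (XT.nd (nat_lit 78) (nat_lit 228) (nat_lit 0) (XT.lf (nat_lit 76) (nat_lit 832670067) (nat_lit 0) (nat_lit 591574027) (nat_lit 380) (nat_lit 1692703198) (nat_lit 207) (nat_lit 1) (nat_lit 206) (nat_lit 1) (nat_lit 211) (nat_lit 1) (nat_lit 356) (nat_lit 351) (nat_lit 313)) (XT.lf (nat_lit 304) (nat_lit 1246154831) (nat_lit 0) (nat_lit 1482566950) (nat_lit 228) (nat_lit 331343960) (nat_lit 207) (nat_lit 1) (nat_lit 203) (nat_lit 1) (nat_lit 206) (nat_lit 1) (nat_lit 357) (nat_lit 351) (nat_lit 312)))) (XT.nd (nat_lit 156) (nat_lit 532) (nat_lit 0) (XT.nd (nat_lit 78) (nat_lit 228) (nat_lit 0) (XT.lf (nat_lit 76) (nat_lit 1529795442) (nat_lit 0) (nat_lit 18684721) (nat_lit 304) (nat_lit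 1456040919) (nat_lit 200) (nat_lit 1) (nat_lit 199) (nat_lit 1) (nat_lit 203) (nat_lit 1) (nat_lit 358) (nat_lit 351) (nat_lit 311)) (XT.lf (nat_lit 76) (nat_lit 380179758) (nat_lit 0) (nat_lit 1237356159) (nat_lit 304) (nat_lit 1332626598) (nat_lit 197) (nat_lit 1) (nat_lit 196) (nat_lit 1) (nat_lit 200) (nat_lit 1) (nat_lit 359) (nat_lit 351) (nat_lit 310))) (XT.nd (nat_lit 78) (nat_lit 304) (nat_lit 0) (XT.lf (nat_lit 304) (nat_lit 455579113) (nat_lit 0) (nat_lit 1693781775) (nat_lit 228) (nat_lit 747726193) (nat_lit 197) (nat_lit 1) (nat_lit 193) (nat_lit 1) (nat_lit 196) (nat_lit 1) (nat_lit 360) (nat_lit 351) (nat_lit 309)) (XT.lf (nat_lit 76) (nat_lit 1005679136) (nat_lit 0) (nat_lit 766867405) (nat_lit 304) (nat_lit 1072591733) (nat_lit 190) (nat_lit 1) (nat_lit 189) (nat_lit 1) (nat_lit 193) (nat_lit 1) (nat_lit 361) (nat_lit 351) (nat_lit 308))))) (XT.nd (nat_lit 234) (nat_lit 836) (nat_lit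 0) (XT.nd (nat_lit 78) (nat_lit 456) (nat_lit 0) (XT.lf (nat_lit 304) (nat_lit 835755708) (nat_lit 0) (nat_lit 1859327582) (nat_lit 228) (nat_lit 99372860) (nat_lit 190) (nat_lit 1) (nat_lit 186) (nat_lit 1) (nat_lit 189) (nat_lit 1) (nat_lit 362) (nat_lit 351) (nat_lit 307)) (XT.nd (nat_lit 78) (nat_lit 228) (nat_lit 0) (XT.lf (nat_lit 76) (nat_lit 1560077352) (nat_lit 0) (nat_lit 385067543) (nat_lit 228) (nat_lit 799614579) (nat_lit 184) (nat_lit 1) (nat_lit 183) (nat_lit 1) (nat_lit 186) (nat_lit 1) (nat_lit 363) (nat_lit 351) (nat_lit 306)) (XT.lf (nat_lit 76) (nat_lit 469082595) (nat_lit 0) (nat_lit 1566160287) (nat_lit 304) (nat_lit 660938810) (nat_lit 181) (nat_lit 1) (nat_lit 180) (nat_lit 1) (nat_lit 184) (nat_lit 1) (nat_lit 364) (nat_lit 351) (nat_lit 305)))) (XT.nd (nat_lit 156) (nat_lit 380) (nat_lit 0) (XT.nd (nat_lit 78) (nat_lit 228) (nat_lit 0) (XT.lf (nat_lit 76) (nat_lit 2050886663)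 (nat_lit 0) (nat_lit 79548731) (nat_lit 228) (nat_lit 518292176) (nat_lit 178) (nat_lit 1) (nat_lit 177) (nat_lit 1) (nat_lit 180) (nat_lit 1) (nat_lit 365) (nat_lit 351) (nat_lit 304)) (XT.lf (nat_lit 76) (nat_lit 973622497) (nat_lit 0) (nat_lit 1247744840) (nat_lit 304) (nat_lit 380738715) (nat_lit 175) (nat_lit 1) (nat_lit 174) (nat_lit 1) (nat_lit 178) (nat_lit 1) (nat_lit 366) (nat_lit 351) (nat_lit 303))) (XT.nd (nat_lit 78) (nat_lit 228) (nat_lit 0) (XT.lf (nat_lit 228) (nat_lit 163724467) (nat_lit 0) (nat_lit 2322633154) (nat_lit 152) (nat_lit 70366378) (nat_lit 175) (nat_lit 1) (nat_lit 172) (nat_lit 1) (nat_lit 174) (nat_lit 1) (nat_lit 367) (nat_lit 351) (nat_lit 302)) (XT.lf (nat_lit 76) (nat_lit 1422597071) (nat_lit 0) (nat_lit 992170419) (nat_lit 228) (nat_lit 97229091) (nat_lit 170) (nat_lit 1) (nat_lit 169) (nat_lit 1) (nat_lit 172) (nat_lit 1) (nat_lit 368) (nat_lit 351) (nat_lit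 301))))))))
noncomputable def ec28 : XT := (XT.nd (nat_lit 2184) (nat_lit 228) (nat_lit 0) (XT.nd (nat_lit 1092) (nat_lit 2128) (nat_lit 0) (XT.nd (nat_lit 546) (nat_lit 1064) (nat_lit 0) (XT.nd (nat_lit 234) (nat_lit 760) (nat_lit 0) (XT.nd (nat_lit 78) (nat_lit 380) (nat_lit 0) (XT.lf (nat_lit 228) (nat_lit 347028471) (nat_lit 0) (nat_lit 48122542) (nat_lit 152) (nat_lit 2073260955) (nat_lit 168) (nat_lit 1) (nat_lit 165) (nat_lit 1) (nat_lit 167) (nat_lit 1) (nat_lit 369) (nat_lit 351) (nat_lit 300)) (XT.nd (nat_lit 78) (nat_lit 152) (nat_lit 0) (XT.lf (nat_lit 228) (nat_lit 1633312566) (nat_lit 0) (nat_lit 190227876) (nat_lit 152) (nat_lit 602019843) (nat_lit 165) (nat_lit 1) (nat_lit 162) (nat_lit 1) (nat_lit 164) (nat_lit 1) (nat_lit 370) (nat_lit 351) (nat_lit 299)) (XT.lf (nat_lit 228) (nat_lit 479107550) (nat_lit 0) (nat_lit 333666646) (nat_lit 152) (nat_lit 1570868304) (nat_lit 163) (nat_lit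 1) (nat_lit 160) (nat_lit 1) (nat_lit 162) (nat_lit 1) (nat_lit 371) (nat_lit 351) (nat_lit 298)))) (XT.nd (nat_lit 156) (nat_lit 380) (nat_lit 0) (XT.nd (nat_lit 78) (nat_lit 152) (nat_lit 0) (XT.lf (nat_lit 228) (nat_lit 1703395371) (nat_lit 0) (nat_lit 477240298) (nat_lit 152) (nat_lit 161970986) (nat_lit 160) (nat_lit 1) (nat_lit 157) (nat_lit 1) (nat_lit 159) (nat_lit 1) (nat_lit 372) (nat_lit 351) (nat_lit 297)) (XT.lf (nat_lit 228) (nat_lit 570328426) (nat_lit 0) (nat_lit 616123707) (nat_lit 152) (nat_lit 1115843357) (nat_lit 158) (nat_lit 1) (nat_lit 155) (nat_lit 1) (nat_lit 157) (nat_lit 1) (nat_lit 373) (nat_lit 351) (nat_lit 296))) (XT.nd (nat_lit 78) (nat_lit 152) (nat_lit 0) (XT.lf (nat_lit 76) (nat_lit 229896128) (nat_lit 0) (nat_lit 527483681) (nat_lit 228) (nat_lit 1505518505) (nat_lit 153) (nat_lit 1) (nat_lit 152) (nat_lit 1) (nat_lit 155) (nat_lit 1) (nat_lit 374) (nat_lit 351)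 (nat_lit 295)) (XT.lf (nat_lit 228) (nat_lit 627055870) (nat_lit 0) (nat_lit 893469288) (nat_lit 152) (nat_lit 703654286) (nat_lit 153) (nat_lit 1) (nat_lit 150) (nat_lit 1) (nat_lit 152) (nat_lit 1) (nat_lit 375) (nat_lit 351) (nat_lit 294))))) (XT.nd (nat_lit 234) (nat_lit 608) (nat_lit 0) (XT.nd (nat_lit 78) (nat_lit 304) (nat_lit 0) (XT.lf (nat_lit 76) (nat_lit 579969526) (nat_lit 0) (nat_lit 450001148) (nat_lit 152) (nat_lit 1156314899) (nat_lit 149) (nat_lit 1) (nat_lit 148) (nat_lit 1) (nat_lit 150) (nat_lit 1) (nat_lit 376) (nat_lit 351) (nat_lit 293)) (XT.nd (nat_lit 78) (nat_lit 152) (nat_lit 0) (XT.lf (nat_lit 228) (nat_lit 654822942) (nat_lit 0) (nat_lit 1164046565) (nat_lit 152) (nat_lit 330249067) (nat_lit 149) (nat_lit 1) (nat_lit 146) (nat_lit 1) (nat_lit 148) (nat_lit 1) (nat_lit 377) (nat_lit 351) (nat_lit 292)) (XT.lf (nat_lit 76) (nat_lit 895096082) (nat_lit 0) (nat_lit 400035457)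 (nat_lit 152) (nat_lit 817515247) (nat_lit 145) (nat_lit 1) (nat_lit 144) (nat_lit 1) (nat_lit 146) (nat_lit 1) (nat_lit 378) (nat_lit 351) (nat_lit 291)))) (XT.nd (nat_lit 156) (nat_lit 304) (nat_lit 0) (XT.nd (nat_lit 78) (nat_lit 152) (nat_lit 0) (XT.lf (nat_lit 76) (nat_lit 7842852) (nat_lit 0) (nat_lit 1418594603) (nat_lit 228) (nat_lit 650511404) (nat_lit 143) (nat_lit 1) (nat_lit 142) (nat_lit 1) (nat_lit 145) (nat_lit 1) (nat_lit 379) (nat_lit 351) (nat_lit 290)) (XT.lf (nat_lit 76) (nat_lit 1178575314) (nat_lit 0) (nat_lit 373096087) (nat_lit 152) (nat_lit 490155484) (nat_lit 141) (nat_lit 1) (nat_lit 140) (nat_lit 1) (nat_lit 142) (nat_lit 1) (nat_lit 380) (nat_lit 351) (nat_lit 289))) (XT.nd (nat_lit 78) (nat_lit 152) (nat_lit 0) (XT.lf (nat_lit 76) (nat_lit 308205157) (nat_lit 0) (nat_lit 1368497677) (nat_lit 228) (nat_lit 330734646) (nat_lit 139) (nat_lit 1) (nat_lit 138) (nat_lit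 1) (nat_lit 141) (nat_lit 1) (nat_lit 381) (nat_lit 351) (nat_lit 288)) (XT.lf (nat_lit 76) (nat_lit 1433363639) (nat_lit 0) (nat_lit 365289148) (nat_lit 152) (nat_lit 175029939) (nat_lit 137) (nat_lit 1) (nat_lit 136) (nat_lit 1) (nat_lit 138) (nat_lit 1) (nat_lit 382) (nat_lit 351) (nat_lit 287)))))) (XT.nd (nat_lit 546) (nat_lit 988) (nat_lit 0) (XT.nd (nat_lit 234) (nat_lit 608) (nat_lit 0) (XT.nd (nat_lit 78) (nat_lit 380) (nat_lit 0) (XT.lf (nat_lit 76) (nat_lit 580139735) (nat_lit 0) (nat_lit 1337115830) (nat_lit 228) (nat_lit 23285520) (nat_lit 135) (nat_lit 1) (nat_lit 134) (nat_lit 1) (nat_lit 137) (nat_lit 1) (nat_lit 383) (nat_lit 351) (nat_lit 286)) (XT.nd (nat_lit 78) (nat_lit 76) (nat_lit 0) (XT.lf (nat_lit 228) (nat_lit 1533553244) (nat_lit 0) (nat_lit 129807441) (nat_lit 152) (nat_lit 244683771) (nat_lit 133) (nat_lit 1) (nat_lit 130) (nat_lit 1) (nat_lit 132) (nat_lit 1) (nat_lit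 384) (nat_lit 351) (nat_lit 285)) (XT.lf (nat_lit 152) (nat_lit 552159405) (nat_lit 0) (nat_lit 276713035) (nat_lit 76) (nat_lit 1047179132) (nat_lit 131) (nat_lit 1) (nat_lit 129) (nat_lit 1) (nat_lit 130) (nat_lit 1) (nat_lit 385) (nat_lit 351) (nat_lit 284)))) (XT.nd (nat_lit 156) (nat_lit 304) (nat_lit 0) (XT.nd (nat_lit 78) (nat_lit 76) (nat_lit 0) (XT.lf (nat_lit 76) (nat_lit 25989817) (nat_lit 0) (nat_lit 398382019) (nat_lit 228) (nat_lit 1420399677) (nat_lit 127) (nat_lit 1) (nat_lit 126) (nat_lit 1) (nat_lit 129) (nat_lit 1) (nat_lit 386) (nat_lit 351) (nat_lit 283)) (XT.lf (nat_lit 152) (nat_lit 490442249) (nat_lit 0) (nat_lit 563706682) (nat_lit 76) (nat_lit 759777808) (nat_lit 127) (nat_lit 1) (nat_lit 125) (nat_lit 1) (nat_lit 126) (nat_lit 1) (nat_lit 387) (nat_lit 351) (nat_lit 282))) (XT.nd (nat_lit 78) (nat_lit 76) (nat_lit 0) (XT.lf (nat_lit 76) (nat_lit 268396614) (nat_lit 0)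 (nat_lit 434596979) (nat_lit 228) (nat_lit 1080751797) (nat_lit 123) (nat_lit 1) (nat_lit 122) (nat_lit 1) (nat_lit 125) (nat_lit 1) (nat_lit 388) (nat_lit 351) (nat_lit 281)) (XT.lf (nat_lit 152) (nat_lit 420800146) (nat_lit 0) (nat_lit 837015006) (nat_lit 76) (nat_lit 496247683) (nat_lit 123) (nat_lit 1) (nat_lit 121) (nat_lit 1) (nat_lit 122) (nat_lit 1) (nat_lit 389) (nat_lit 351) (nat_lit 280))))) (XT.nd (nat_lit 234) (nat_lit 532) (nat_lit 0) (XT.nd (nat_lit 78) (nat_lit 228) (nat_lit 0) (XT.lf (nat_lit 76) (nat_lit 489303433) (nat_lit 0) (nat_lit 478639620) (nat_lit 228) (nat_lit 756986863) (nat_lit 119) (nat_lit 1) (nat_lit 118) (nat_lit 1) (nat_lit 121) (nat_lit 1) (nat_lit 390) (nat_lit 351) (nat_lit 279)) (XT.nd (nat_lit 78) (nat_lit 152) (nat_lit 0) (XT.lf (nat_lit 152) (nat_lit 345197113) (nat_lit 0) (nat_lit 1096544314) (nat_lit 76) (nat_lit 254615349) (nat_lit 119) (nat_lit 1) (nat_lit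 117) (nat_lit 1) (nat_lit 118) (nat_lit 1) (nat_lit 391) (nat_lit 351) (nat_lit 278)) (XT.lf (nat_lit 76) (nat_lit 690509841) (nat_lit 0) (nat_lit 528670909) (nat_lit 152) (nat_lit 449044750) (nat_lit 116) (nat_lit 1) (nat_lit 115) (nat_lit 1) (nat_lit 117) (nat_lit 1) (nat_lit 392) (nat_lit 351) (nat_lit 277)))) (XT.nd (nat_lit 156) (nat_lit 304) (nat_lit 0) (XT.nd (nat_lit 78) (nat_lit 152) (nat_lit 0) (XT.lf (nat_lit 152) (nat_lit 265311442) (nat_lit 0) (nat_lit 1342304989) (nat_lit 76) (nat_lit 33095871) (nat_lit 116) (nat_lit 1) (nat_lit 114) (nat_lit 1) (nat_lit 115) (nat_lit 1) (nat_lit 393) (nat_lit 351) (nat_lit 276)) (XT.lf (nat_lit 76) (nat_lit 873643679) (nat_lit 0) (nat_lit 583118494) (nat_lit 152) (nat_lit 156776861) (nat_lit 113) (nat_lit 1) (nat_lit 112) (nat_lit 1) (nat_lit 114) (nat_lit 1) (nat_lit 394) (nat_lit 351) (nat_lit 275))) (XT.nd (nat_lit 78) (nat_lit 228) (nat_lit 0)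 (XT.lf (nat_lit 0) (nat_lit 166611625) (nat_lit 0) (nat_lit 1406100673) (nat_lit 152) (nat_lit 14278037) (nat_lit 111) (nat_lit 3) (nat_lit 111) (nat_lit 1) (nat_lit 113) (nat_lit 1) (nat_lit 395) (nat_lit 351) (nat_lit 274)) (XT.lf (nat_lit 152) (nat_lit 918928434) (nat_lit 0) (nat_lit 122427945) (nat_lit 76) (nat_lit 519391613) (nat_lit 110) (nat_lit 1) (nat_lit 108) (nat_lit 1) (nat_lit 109) (nat_lit 1) (nat_lit 396) (nat_lit 351) (nat_lit 273))))))) (XT.nd (nat_lit 47736) (nat_lit 0) (nat_lit 12160) (XT.nd (nat_lit 47190) (nat_lit 0) (nat_lit 18924) (XT.nd (nat_lit 46878) (nat_lit 0) (nat_lit 20520) (XT.nd (nat_lit 78) (nat_lit 152) (nat_lit 0) (XT.lf (nat_lit 76) (nat_lit 92098779) (nat_lit 0) (nat_lit 259370575) (nat_lit 76) (nat_lit 1183606647) (nat_lit 108) (nat_lit 3) (nat_lit 107) (nat_lit 1) (nat_lit 108) (nat_lit 1) (nat_lit 397) (nat_lit 351) (nat_lit 272)) (XT.nd (nat_lit 46722) (nat_lit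 0) (nat_lit 20444) (XT.lf (nat_lit 152) (nat_lit 805915440) (nat_lit 0) (nat_lit 389281619) (nat_lit 76) (nat_lit 314567110) (nat_lit 107) (nat_lit 1) (nat_lit 105) (nat_lit 1) (nat_lit 106) (nat_lit 1) (nat_lit 398) (nat_lit 351) (nat_lit 271)) (XT.lf (nat_lit 1292) (nat_lit 669786309) (nat_lit 0) (nat_lit 2304376401) (nat_lit 1292) (nat_lit 669786309) (nat_lit 391) (nat_lit 1) (nat_lit 374) (nat_lit 0) (nat_lit 391) (nat_lit 0) (nat_lit 316) (nat_lit 352) (nat_lit 352)))) (XT.nd (nat_lit 156) (nat_lit 0) (nat_lit 76) (XT.nd (nat_lit 78) (nat_lit 0) (nat_lit 0) (XT.lf (nat_lit 1292) (nat_lit 53697942) (nat_lit 0) (nat_lit 4543745696) (nat_lit 1216) (nat_lit 2515591266) (nat_lit 392) (nat_lit 1) (nat_lit 375) (nat_lit 1) (nat_lit 391) (nat_lit 1) (nat_lit 317) (nat_lit 352) (nat_lit 351)) (XT.lf (nat_lit 1292) (nat_lit 2362478594) (nat_lit 76) (nat_lit 3341639522) (nat_lit 0) (nat_lit 1239404183)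 (nat_lit 392) (nat_lit 1) (nat_lit 376) (nat_lit 1) (nat_lit 375) (nat_lit 1) (nat_lit 318) (nat_lit 352) (nat_lit 350))) (XT.nd (nat_lit 78) (nat_lit 0) (nat_lit 76) (XT.lf (nat_lit 1292) (nat_lit 2076819011) (nat_lit 76) (nat_lit 2187342184) (nat_lit 0) (nat_lit 2515337116) (nat_lit 393) (nat_lit 1) (nat_lit 377) (nat_lit 1) (nat_lit 376) (nat_lit 1) (nat_lit 319) (nat_lit 352) (nat_lit 349)) (XT.lf (nat_lit 1292) (nat_lit 1718707575) (nat_lit 76) (nat_lit 1129876492) (nat_lit 0) (nat_lit 3772194477) (nat_lit 394) (nat_lit 1) (nat_lit 378) (nat_lit 1) (nat_lit 377) (nat_lit 1) (nat_lit 320) (nat_lit 352) (nat_lit 348))))) (XT.nd (nat_lit 234) (nat_lit 1824) (nat_lit 0) (XT.nd (nat_lit 78) (nat_lit 0) (nat_lit 76) (XT.lf (nat_lit 1292) (nat_lit 1293666856) (nat_lit 76) (nat_lit 164267330) (nat_lit 0) (nat_lit 5009236590) (nat_lit 395) (nat_lit 1) (nat_lit 379) (nat_lit 1) (nat_lit 378) (nat_lit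 1) (nat_lit 321) (nat_lit 352) (nat_lit 347)) (XT.nd (nat_lit 78) (nat_lit 0) (nat_lit 0) (XT.lf (nat_lit 1292) (nat_lit 99540765) (nat_lit 0) (nat_lit 5518451684) (nat_lit 1216) (nat_lit 700292008) (nat_lit 396) (nat_lit 1) (nat_lit 379) (nat_lit 1) (nat_lit 395) (nat_lit 1) (nat_lit 322) (nat_lit 352) (nat_lit 346)) (XT.lf (nat_lit 1292) (nat_lit 235933269) (nat_lit 76) (nat_lit 4681012929) (nat_lit 0) (nat_lit 1256816096) (nat_lit 396) (nat_lit 1) (nat_lit 380) (nat_lit 1) (nat_lit 379) (nat_lit 1) (nat_lit 323) (nat_lit 352) (nat_lit 345)))) (XT.nd (nat_lit 156) (nat_lit 684) (nat_lit 0) (XT.nd (nat_lit 78) (nat_lit 0) (nat_lit 76) (XT.lf (nat_lit 1368) (nat_lit 3448162056) (nat_lit 0) (nat_lit 372710255) (nat_lit 1292) (nat_lit 2212838827) (nat_lit 381) (nat_lit 1) (nat_lit 363) (nat_lit 1) (nat_lit 380) (nat_lit 1) (nat_lit 324) (nat_lit 352) (nat_lit 344)) (XT.lf (nat_lit 1368) (nat_lit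 2012673502) (nat_lit 0) (nat_lit 1022673037) (nat_lit 1292) (nat_lit 2862677140) (nat_lit 382) (nat_lit 1) (nat_lit 364) (nat_lit 1) (nat_lit 381) (nat_lit 1) (nat_lit 325) (nat_lit 352) (nat_lit 343))) (XT.nd (nat_lit 78) (nat_lit 836) (nat_lit 0) (XT.lf (nat_lit 76) (nat_lit 608240609) (nat_lit 0) (nat_lit 1714572048) (nat_lit 1292) (nat_lit 3443798264) (nat_lit 366) (nat_lit 1) (nat_lit 365) (nat_lit 1) (nat_lit 382) (nat_lit 1) (nat_lit 326) (nat_lit 352) (nat_lit 342)) (XT.lf (nat_lit 912) (nat_lit 3186939841) (nat_lit 0) (nat_lit 1671767919) (nat_lit 836) (nat_lit 780389148) (nat_lit 366) (nat_lit 1) (nat_lit 354) (nat_lit 1) (nat_lit 365) (nat_lit 1) (nat_lit 327) (nat_lit 352) (nat_lit 341)))))) (XT.nd (nat_lit 546) (nat_lit 3268) (nat_lit 0) (XT.nd (nat_lit 234) (nat_lit 1748) (nat_lit 0) (XT.nd (nat_lit 78) (nat_lit 1140) (nat_lit 0) (XT.lf (nat_lit 684) (nat_lit 2285334744) (nat_lit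 0) (nat_lit 1080507953) (nat_lit 608) (nat_lit 2149549148) (nat_lit 355) (nat_lit 1) (nat_lit 346) (nat_lit 1) (nat_lit 354) (nat_lit 1) (nat_lit 328) (nat_lit 352) (nat_lit 340)) (XT.nd (nat_lit 78) (nat_lit 532) (nat_lit 0) (XT.lf (nat_lit 684) (nat_lit 1356543052) (nat_lit 0) (nat_lit 551738685) (nat_lit 608) (nat_lit 3487253428) (nat_lit 347) (nat_lit 1) (nat_lit 338) (nat_lit 1) (nat_lit 346) (nat_lit 1) (nat_lit 329) (nat_lit 352) (nat_lit 339)) (XT.lf (nat_lit 608) (nat_lit 403547337) (nat_lit 0) (nat_lit 82182710) (nat_lit 532) (nat_lit 4793662728) (nat_lit 339) (nat_lit 1) (nat_lit 331) (nat_lit 1) (nat_lit 338) (nat_lit 1) (nat_lit 330) (nat_lit 352) (nat_lit 338)))) (XT.nd (nat_lit 156) (nat_lit 1064) (nat_lit 0) (XT.nd (nat_lit 78) (nat_lit 608) (nat_lit 0) (XT.lf (nat_lit 76) (nat_lit 4255235439) (nat_lit 0) (nat_lit 571831447) (nat_lit 608) (nat_lit 339240727) (nat_lit 331) (nat_lit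 1) (nat_lit 330) (nat_lit 1) (nat_lit 338) (nat_lit 1) (nat_lit 331) (nat_lit 352) (nat_lit 337)) (XT.lf (nat_lit 76) (nat_lit 2778399758) (nat_lit 0) (nat_lit 1562500241) (nat_lit 684) (nat_lit 715519539) (nat_lit 323) (nat_lit 1) (nat_lit 322) (nat_lit 1) (nat_lit 331) (nat_lit 1) (nat_lit 332) (nat_lit 352) (nat_lit 336))) (XT.nd (nat_lit 78) (nat_lit 532) (nat_lit 0) (XT.lf (nat_lit 76) (nat_lit 1339201511) (nat_lit 0) (nat_lit 2568355198) (nat_lit 608) (nat_lit 1042336693) (nat_lit 316) (nat_lit 1) (nat_lit 315) (nat_lit 1) (nat_lit 323) (nat_lit 1) (nat_lit 333) (nat_lit 352) (nat_lit 335)) (XT.lf (nat_lit 608) (nat_lit 1258810014) (nat_lit 0) (nat_lit 3523647018) (nat_lit 532) (nat_lit 64138705) (nat_lit 316) (nat_lit 1) (nat_lit 308) (nat_lit 1) (nat_lit 315) (nat_lit 1) (nat_lit 334) (nat_lit 352) (nat_lit 334))))) (XT.nd (nat_lit 234) (nat_lit 1748) (nat_lit 0) (XT.nd (nat_lit 78) (nat_lit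 1064) (nat_lit 0) (XT.lf (nat_lit 532) (nat_lit 115188270) (nat_lit 0) (nat_lit 3174023182) (nat_lit 456) (nat_lit 1456839824) (nat_lit 309) (nat_lit 1) (nat_lit 302) (nat_lit 1) (nat_lit 308) (nat_lit 1) (nat_lit 335) (nat_lit 352) (nat_lit 333)) (XT.nd (nat_lit 78) (nat_lit 456) (nat_lit 0) (XT.lf (nat_lit 76) (nat_lit 1845665221) (nat_lit 0) (nat_lit 1013792242) (nat_lit 608) (nat_lit 1788791629) (nat_lit 295) (nat_lit 1) (nat_lit 294) (nat_lit 1) (nat_lit 302) (nat_lit 1) (nat_lit 336) (nat_lit 352) (nat_lit 332)) (XT.lf (nat_lit 76) (nat_lit 442334843) (nat_lit 0) (nat_lit 2144275345) (nat_lit 532) (nat_lit 1966740201) (nat_lit 289) (nat_lit 1) (nat_lit 288) (nat_lit 1) (nat_lit 295) (nat_lit 1) (nat_lit 337) (nat_lit 352) (nat_lit 331)))) (XT.nd (nat_lit 156) (nat_lit 836) (nat_lit 0) (XT.nd (nat_lit 78) (nat_lit 456) (nat_lit 0) (XT.lf (nat_lit 532) (nat_lit 1175026146) (nat_lit 0) (nat_lit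 2345032506) (nat_lit 456) (nat_lit 940960024) (nat_lit 289) (nat_lit 1) (nat_lit 282) (nat_lit 1) (nat_lit 288) (nat_lit 1) (nat_lit 338) (nat_lit 352) (nat_lit 330)) (XT.lf (nat_lit 76) (nat_lit 2077270927) (nat_lit 0) (nat_lit 59909807) (nat_lit 456) (nat_lit 2234113210) (nat_lit 277) (nat_lit 1) (nat_lit 276) (nat_lit 1) (nat_lit 282) (nat_lit 1) (nat_lit 339) (nat_lit 352) (nat_lit 329))) (XT.nd (nat_lit 78) (nat_lit 380) (nat_lit 0) (XT.lf (nat_lit 76) (nat_lit 686102101) (nat_lit 0) (nat_lit 1268349715) (nat_lit 532) (nat_lit 2329442861) (nat_lit 271) (nat_lit 1) (nat_lit 270) (nat_lit 1) (nat_lit 277) (nat_lit 1) (nat_lit 340) (nat_lit 352) (nat_lit 328)) (XT.lf (nat_lit 456) (nat_lit 1720262607) (nat_lit 0) (nat_lit 1799788160) (nat_lit 380) (nat_lit 678825450) (nat_lit 271) (nat_lit 1) (nat_lit 265) (nat_lit 1) (nat_lit 270) (nat_lit 1) (nat_lit 341) (nat_lit 352) (nat_lit 327))))))))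
noncomputable def ec29 : XT := (XT.nd (nat_lit 2184) (nat_lit 4256) (nat_lit 0) (XT.nd (nat_lit 1092) (nat_lit 3268) (nat_lit 0) (XT.nd (nat_lit 546) (nat_lit 2128) (nat_lit 0) (XT.nd (nat_lit 234) (nat_lit 1368) (nat_lit 0) (XT.nd (nat_lit 78) (nat_lit 836) (nat_lit 0) (XT.lf (nat_lit 456) (nat_lit 426683056) (nat_lit 0) (nat_lit 1671492232) (nat_lit 380) (nat_lit 2017984056) (nat_lit 266) (nat_lit 1) (nat_lit 260) (nat_lit 1) (nat_lit 265) (nat_lit 1) (nat_lit 342) (nat_lit 352) (nat_lit 326)) (XT.nd (nat_lit 78) (nat_lit 380) (nat_lit 0) (XT.lf (nat_lit 76) (nat_lit 725541334) (nat_lit 0) (nat_lit 840658859) (nat_lit 456) (nat_lit 2469416676) (nat_lit 255) (nat_lit 1) (nat_lit 254) (nat_lit 1) (nat_lit 260) (nat_lit 1) (nat_lit 343) (nat_lit 352) (nat_lit 325)) (XT.lf (nat_lit 456) (nat_lit 1861640749) (nat_lit 0) (nat_lit 1480468339) (nat_lit 380) (nat_lit 615010747) (nat_lit 255) (nat_lit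 1) (nat_lit 249) (nat_lit 1) (nat_lit 254) (nat_lit 1) (nat_lit 344) (nat_lit 352) (nat_lit 324)))) (XT.nd (nat_lit 156) (nat_lit 608) (nat_lit 0) (XT.nd (nat_lit 78) (nat_lit 456) (nat_lit 0) (XT.lf (nat_lit 380) (nat_lit 534486658) (nat_lit 0) (nat_lit 1416043196) (nat_lit 304) (nat_lit 1930161153) (nat_lit 250) (nat_lit 1) (nat_lit 245) (nat_lit 1) (nat_lit 249) (nat_lit 1) (nat_lit 345) (nat_lit 352) (nat_lit 323)) (XT.lf (nat_lit 76) (nat_lit 607559333) (nat_lit 0) (nat_lit 763413067) (nat_lit 456) (nat_lit 2435273540) (nat_lit 240) (nat_lit 1) (nat_lit 239) (nat_lit 1) (nat_lit 245) (nat_lit 1) (nat_lit 346) (nat_lit 352) (nat_lit 322))) (XT.nd (nat_lit 78) (nat_lit 304) (nat_lit 0) (XT.lf (nat_lit 380) (nat_lit 1690225143) (nat_lit 0) (nat_lit 1339348211) (nat_lit 304) (nat_lit 704012166) (nat_lit 240) (nat_lit 1) (nat_lit 235) (nat_lit 1) (nat_lit 239) (nat_lit 1) (nat_lit 347) (nat_lit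 352) (nat_lit 321)) (XT.lf (nat_lit 380) (nat_lit 348690457) (nat_lit 0) (nat_lit 1326265952) (nat_lit 304) (nat_lit 1987875209) (nat_lit 236) (nat_lit 1) (nat_lit 231) (nat_lit 1) (nat_lit 235) (nat_lit 1) (nat_lit 348) (nat_lit 352) (nat_lit 320))))) (XT.nd (nat_lit 234) (nat_lit 1140) (nat_lit 0) (XT.nd (nat_lit 78) (nat_lit 608) (nat_lit 0) (XT.lf (nat_lit 76) (nat_lit 370554224) (nat_lit 0) (nat_lit 956279057) (nat_lit 380) (nat_lit 2266982433) (nat_lit 227) (nat_lit 1) (nat_lit 226) (nat_lit 1) (nat_lit 231) (nat_lit 1) (nat_lit 349) (nat_lit 352) (nat_lit 319)) (XT.nd (nat_lit 78) (nat_lit 304) (nat_lit 0) (XT.lf (nat_lit 380) (nat_lit 1280686316) (nat_lit 0) (nat_lit 1337125911) (nat_lit 304) (nat_lit 908585747) (nat_lit 227) (nat_lit 1) (nat_lit 222) (nat_lit 1) (nat_lit 226) (nat_lit 1) (nat_lit 350) (nat_lit 352) (nat_lit 318)) (XT.lf (nat_lit 76) (nat_lit 1305653935) (nat_lit 0) (nat_lit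 58745936) (nat_lit 304) (nat_lit 2096364822) (nat_lit 219) (nat_lit 1) (nat_lit 218) (nat_lit 1) (nat_lit 222) (nat_lit 1) (nat_lit 351) (nat_lit 352) (nat_lit 317)))) (XT.nd (nat_lit 156) (nat_lit 608) (nat_lit 0) (XT.nd (nat_lit 78) (nat_lit 228) (nat_lit 0) (XT.lf (nat_lit 76) (nat_lit 45846876) (nat_lit 0) (nat_lit 1353461630) (nat_lit 380) (nat_lit 1997310565) (nat_lit 215) (nat_lit 1) (nat_lit 214) (nat_lit 1) (nat_lit 219) (nat_lit 1) (nat_lit 352) (nat_lit 352) (nat_lit 316)) (XT.lf (nat_lit 304) (nat_lit 694048938) (nat_lit 0) (nat_lit 1441521148) (nat_lit 228) (nat_lit 1198357288) (nat_lit 215) (nat_lit 1) (nat_lit 211) (nat_lit 1) (nat_lit 214) (nat_lit 1) (nat_lit 353) (nat_lit 352) (nat_lit 315))) (XT.nd (nat_lit 78) (nat_lit 228) (nat_lit 0) (XT.lf (nat_lit 76) (nat_lit 874303571) (nat_lit 0) (nat_lit 621152728) (nat_lit 380) (nat_lit 1777338358) (nat_lit 207) (nat_lit 1) (nat_lit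 206) (nat_lit 1) (nat_lit 211) (nat_lit 1) (nat_lit 354) (nat_lit 352) (nat_lit 314)) (XT.lf (nat_lit 304) (nat_lit 1308462572) (nat_lit 0) (nat_lit 1556695297) (nat_lit 228) (nat_lit 347911158) (nat_lit 207) (nat_lit 1) (nat_lit 203) (nat_lit 1) (nat_lit 206) (nat_lit 1) (nat_lit 355) (nat_lit 352) (nat_lit 313)))))) (XT.nd (nat_lit 546) (nat_lit 1520) (nat_lit 0) (XT.nd (nat_lit 234) (nat_lit 988) (nat_lit 0) (XT.nd (nat_lit 78) (nat_lit 456) (nat_lit 0) (XT.lf (nat_lit 76) (nat_lit 1606285214) (nat_lit 0) (nat_lit 19618957) (nat_lit 304) (nat_lit 1528842965) (nat_lit 200) (nat_lit 1) (nat_lit 199) (nat_lit 1) (nat_lit 203) (nat_lit 1) (nat_lit 356) (nat_lit 352) (nat_lit 312)) (XT.nd (nat_lit 78) (nat_lit 228) (nat_lit 0) (XT.lf (nat_lit 76) (nat_lit 399188746) (nat_lit 0) (nat_lit 1299223967) (nat_lit 304) (nat_lit 1399257928) (nat_lit 197) (nat_lit 1) (nat_lit 196) (nat_lit 1) (nat_lit 200)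 (nat_lit 1) (nat_lit 357) (nat_lit 352) (nat_lit 311)) (XT.lf (nat_lit 304) (nat_lit 478358069) (nat_lit 0) (nat_lit 1778470864) (nat_lit 228) (nat_lit 785112503) (nat_lit 197) (nat_lit 1) (nat_lit 193) (nat_lit 1) (nat_lit 196) (nat_lit 1) (nat_lit 358) (nat_lit 352) (nat_lit 310)))) (XT.nd (nat_lit 156) (nat_lit 456) (nat_lit 0) (XT.nd (nat_lit 78) (nat_lit 228) (nat_lit 0) (XT.lf (nat_lit 76) (nat_lit 1055963093) (nat_lit 0) (nat_lit 805210775) (nat_lit 304) (nat_lit 1126221320) (nat_lit 190) (nat_lit 1) (nat_lit 189) (nat_lit 1) (nat_lit 193) (nat_lit 1) (nat_lit 359) (nat_lit 352) (nat_lit 309)) (XT.lf (nat_lit 304) (nat_lit 877543494) (nat_lit 0) (nat_lit 1952293961) (nat_lit 228) (nat_lit 104341503) (nat_lit 190) (nat_lit 1) (nat_lit 186) (nat_lit 1) (nat_lit 189) (nat_lit 1) (nat_lit 360) (nat_lit 352) (nat_lit 308))) (XT.nd (nat_lit 78) (nat_lit 228) (nat_lit 0) (XT.lf (nat_lit 76) (nat_lit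 1638081219) (nat_lit 0) (nat_lit 404320920) (nat_lit 228) (nat_lit 839595308) (nat_lit 184) (nat_lit 1) (nat_lit 183) (nat_lit 1) (nat_lit 186) (nat_lit 1) (nat_lit 361) (nat_lit 352) (nat_lit 307)) (XT.lf (nat_lit 76) (nat_lit 492536725) (nat_lit 0) (nat_lit 1644468301) (nat_lit 304) (nat_lit 693985751) (nat_lit 181) (nat_lit 1) (nat_lit 180) (nat_lit 1) (nat_lit 184) (nat_lit 1) (nat_lit 362) (nat_lit 352) (nat_lit 306))))) (XT.nd (nat_lit 234) (nat_lit 912) (nat_lit 0) (XT.nd (nat_lit 78) (nat_lit 380) (nat_lit 0) (XT.lf (nat_lit 76) (nat_lit 2153430997) (nat_lit 0) (nat_lit 83526167) (nat_lit 228) (nat_lit 544206784) (nat_lit 178) (nat_lit 1) (nat_lit 177) (nat_lit 1) (nat_lit 180) (nat_lit 1) (nat_lit 363) (nat_lit 352) (nat_lit 305)) (XT.nd (nat_lit 78) (nat_lit 152) (nat_lit 0) (XT.lf (nat_lit 76) (nat_lit 1022303622) (nat_lit 0) (nat_lit 1310132083) (nat_lit 304) (nat_lit 399775651) (nat_lit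 175) (nat_lit 1) (nat_lit 174) (nat_lit 1) (nat_lit 178) (nat_lit 1) (nat_lit 364) (nat_lit 352) (nat_lit 304)) (XT.lf (nat_lit 228) (nat_lit 171910690) (nat_lit 0) (nat_lit 2438764812) (nat_lit 152) (nat_lit 73884697) (nat_lit 175) (nat_lit 1) (nat_lit 172) (nat_lit 1) (nat_lit 174) (nat_lit 1) (nat_lit 365) (nat_lit 352) (nat_lit 303)))) (XT.nd (nat_lit 156) (nat_lit 380) (nat_lit 0) (XT.nd (nat_lit 78) (nat_lit 304) (nat_lit 0) (XT.lf (nat_lit 76) (nat_lit 1493726925) (nat_lit 0) (nat_lit 1041778940) (nat_lit 228) (nat_lit 102090545) (nat_lit 170) (nat_lit 1) (nat_lit 169) (nat_lit 1) (nat_lit 172) (nat_lit 1) (nat_lit 366) (nat_lit 352) (nat_lit 302)) (XT.lf (nat_lit 228) (nat_lit 364379894) (nat_lit 0) (nat_lit 50528669) (nat_lit 152) (nat_lit 2176924003) (nat_lit 168) (nat_lit 1) (nat_lit 165) (nat_lit 1) (nat_lit 167) (nat_lit 1) (nat_lit 367) (nat_lit 352) (nat_lit 301))) (XT.nd (nat_lit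 78) (nat_lit 152) (nat_lit 0) (XT.lf (nat_lit 228) (nat_lit 1714978194) (nat_lit 0) (nat_lit 199739270) (nat_lit 152) (nat_lit 632120835) (nat_lit 165) (nat_lit 1) (nat_lit 162) (nat_lit 1) (nat_lit 164) (nat_lit 1) (nat_lit 368) (nat_lit 352) (nat_lit 300)) (XT.lf (nat_lit 228) (nat_lit 503062927) (nat_lit 0) (nat_lit 350349979) (nat_lit 152) (nat_lit 1649411719) (nat_lit 163) (nat_lit 1) (nat_lit 160) (nat_lit 1) (nat_lit 162) (nat_lit 1) (nat_lit 369) (nat_lit 352) (nat_lit 299))))))) (XT.nd (nat_lit 1092) (nat_lit 1900) (nat_lit 0) (XT.nd (nat_lit 546) (nat_lit 1140) (nat_lit 0) (XT.nd (nat_lit 234) (nat_lit 608) (nat_lit 0) (XT.nd (nat_lit 78) (nat_lit 380) (nat_lit 0) (XT.lf (nat_lit 228) (nat_lit 1788565140) (nat_lit 0) (nat_lit 501102313) (nat_lit 152) (nat_lit 170069536) (nat_lit 160) (nat_lit 1) (nat_lit 157) (nat_lit 1) (nat_lit 159) (nat_lit 1) (nat_lit 370) (nat_lit 352) (nat_lit 298))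 (XT.nd (nat_lit 78) (nat_lit 228) (nat_lit 0) (XT.lf (nat_lit 228) (nat_lit 598844847) (nat_lit 0) (nat_lit 646929893) (nat_lit 152) (nat_lit 1171635525) (nat_lit 158) (nat_lit 1) (nat_lit 155) (nat_lit 1) (nat_lit 157) (nat_lit 1) (nat_lit 371) (nat_lit 352) (nat_lit 297)) (XT.lf (nat_lit 76) (nat_lit 241390935) (nat_lit 0) (nat_lit 553857865) (nat_lit 228) (nat_lit 1580794430) (nat_lit 153) (nat_lit 1) (nat_lit 152) (nat_lit 1) (nat_lit 155) (nat_lit 1) (nat_lit 372) (nat_lit 352) (nat_lit 296)))) (XT.nd (nat_lit 156) (nat_lit 304) (nat_lit 0) (XT.nd (nat_lit 78) (nat_lit 152) (nat_lit 0) (XT.lf (nat_lit 228) (nat_lit 658408664) (nat_lit 0) (nat_lit 938142752) (nat_lit 152) (nat_lit 738837000) (nat_lit 153) (nat_lit 1) (nat_lit 150) (nat_lit 1) (nat_lit 152) (nat_lit 1) (nat_lit 373) (nat_lit 352) (nat_lit 295)) (XT.lf (nat_lit 76) (nat_lit 608968003) (nat_lit 0) (nat_lit 472501205) (nat_lit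 152) (nat_lit 1214130644) (nat_lit 149) (nat_lit 1) (nat_lit 148) (nat_lit 1) (nat_lit 150) (nat_lit 1) (nat_lit 374) (nat_lit 352) (nat_lit 294))) (XT.nd (nat_lit 78) (nat_lit 152) (nat_lit 0) (XT.lf (nat_lit 228) (nat_lit 687564089) (nat_lit 0) (nat_lit 1222248893) (nat_lit 152) (nat_lit 346761520) (nat_lit 149) (nat_lit 1) (nat_lit 146) (nat_lit 1) (nat_lit 148) (nat_lit 1) (nat_lit 375) (nat_lit 352) (nat_lit 293)) (XT.lf (nat_lit 76) (nat_lit 939850886) (nat_lit 0) (nat_lit 420037230) (nat_lit 152) (nat_lit 858391010) (nat_lit 145) (nat_lit 1) (nat_lit 144) (nat_lit 1) (nat_lit 146) (nat_lit 1) (nat_lit 376) (nat_lit 352) (nat_lit 292))))) (XT.nd (nat_lit 234) (nat_lit 684) (nat_lit 0) (XT.nd (nat_lit 78) (nat_lit 304) (nat_lit 0) (XT.lf (nat_lit 76) (nat_lit 8234994) (nat_lit 0) (nat_lit 1489524333) (nat_lit 228) (nat_lit 683036974) (nat_lit 143) (nat_lit 1) (nat_lit 142) (nat_lit 1) (nat_lit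 145) (nat_lit 1) (nat_lit 377) (nat_lit 352) (nat_lit 291)) (XT.nd (nat_lit 78) (nat_lit 152) (nat_lit 0) (XT.lf (nat_lit 76) (nat_lit 1237504080) (nat_lit 0) (nat_lit 391750892) (nat_lit 152) (nat_lit 514663258) (nat_lit 141) (nat_lit 1) (nat_lit 140) (nat_lit 1) (nat_lit 142) (nat_lit 1) (nat_lit 378) (nat_lit 352) (nat_lit 290)) (XT.lf (nat_lit 76) (nat_lit 323615415) (nat_lit 0) (nat_lit 1436922561) (nat_lit 228) (nat_lit 347271378) (nat_lit 139) (nat_lit 1) (nat_lit 138) (nat_lit 1) (nat_lit 141) (nat_lit 1) (nat_lit 379) (nat_lit 352) (nat_lit 289)))) (XT.nd (nat_lit 156) (nat_lit 380) (nat_lit 0) (XT.nd (nat_lit 78) (nat_lit 152) (nat_lit 0) (XT.lf (nat_lit 76) (nat_lit 1505031821) (nat_lit 0) (nat_lit 383553605) (nat_lit 152) (nat_lit 183781436) (nat_lit 137) (nat_lit 1) (nat_lit 136) (nat_lit 1) (nat_lit 138) (nat_lit 1) (nat_lit 380) (nat_lit 352) (nat_lit 288)) (XT.lf (nat_lit 76) (nat_lit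 609146722) (nat_lit 0) (nat_lit 1403971621) (nat_lit 228) (nat_lit 24449796) (nat_lit 135) (nat_lit 1) (nat_lit 134) (nat_lit 1) (nat_lit 137) (nat_lit 1) (nat_lit 381) (nat_lit 352) (nat_lit 287))) (XT.nd (nat_lit 78) (nat_lit 76) (nat_lit 0) (XT.lf (nat_lit 228) (nat_lit 1610230906) (nat_lit 0) (nat_lit 136297813) (nat_lit 152) (nat_lit 256917960) (nat_lit 133) (nat_lit 1) (nat_lit 130) (nat_lit 1) (nat_lit 132) (nat_lit 1) (nat_lit 382) (nat_lit 352) (nat_lit 286)) (XT.lf (nat_lit 152) (nat_lit 579767375) (nat_lit 0) (nat_lit 290548686) (nat_lit 76) (nat_lit 1099538088) (nat_lit 131) (nat_lit 1) (nat_lit 129) (nat_lit 1) (nat_lit 130) (nat_lit 1) (nat_lit 383) (nat_lit 352) (nat_lit 285)))))) (XT.nd (nat_lit 546) (nat_lit 836) (nat_lit 0) (XT.nd (nat_lit 234) (nat_lit 532) (nat_lit 0) (XT.nd (nat_lit 78) (nat_lit 304) (nat_lit 0) (XT.lf (nat_lit 76) (nat_lit 27289308) (nat_lit 0) (nat_lit 418301120)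 (nat_lit 228) (nat_lit 1491419661) (nat_lit 127) (nat_lit 1) (nat_lit 126) (nat_lit 1) (nat_lit 129) (nat_lit 1) (nat_lit 384) (nat_lit 352) (nat_lit 284)) (XT.nd (nat_lit 78) (nat_lit 228) (nat_lit 0) (XT.lf (nat_lit 152) (nat_lit 514964362) (nat_lit 0) (nat_lit 591892017) (nat_lit 76) (nat_lit 797766699) (nat_lit 127) (nat_lit 1) (nat_lit 125) (nat_lit 1) (nat_lit 126) (nat_lit 1) (nat_lit 385) (nat_lit 352) (nat_lit 283)) (XT.lf (nat_lit 76) (nat_lit 281816445) (nat_lit 0) (nat_lit 456326828) (nat_lit 228) (nat_lit 1134789387) (nat_lit 123) (nat_lit 1) (nat_lit 122) (nat_lit 1) (nat_lit 125) (nat_lit 1) (nat_lit 386) (nat_lit 352) (nat_lit 282)))) (XT.nd (nat_lit 156) (nat_lit 228) (nat_lit 0) (XT.nd (nat_lit 78) (nat_lit 228) (nat_lit 0) (XT.lf (nat_lit 152) (nat_lit 441840153) (nat_lit 0) (nat_lit 878865756) (nat_lit 76) (nat_lit 521060067) (nat_lit 123) (nat_lit 1) (nat_lit 121) (nat_lit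 1) (nat_lit 122) (nat_lit 1) (nat_lit 387) (nat_lit 352) (nat_lit 281)) (XT.lf (nat_lit 76) (nat_lit 513768605) (nat_lit 0) (nat_lit 502571601) (nat_lit 228) (nat_lit 794836206) (nat_lit 119) (nat_lit 1) (nat_lit 118) (nat_lit 1) (nat_lit 121) (nat_lit 1) (nat_lit 388) (nat_lit 352) (nat_lit 280))) (XT.nd (nat_lit 78) (nat_lit 152) (nat_lit 0) (XT.lf (nat_lit 152) (nat_lit 362456969) (nat_lit 0) (nat_lit 1151371530) (nat_lit 76) (nat_lit 267346116) (nat_lit 119) (nat_lit 1) (nat_lit 117) (nat_lit 1) (nat_lit 118) (nat_lit 1) (nat_lit 389) (nat_lit 352) (nat_lit 279)) (XT.lf (nat_lit 76) (nat_lit 725035333) (nat_lit 0) (nat_lit 555104454) (nat_lit 152) (nat_lit 471496988) (nat_lit 116) (nat_lit 1) (nat_lit 115) (nat_lit 1) (nat_lit 117) (nat_lit 1) (nat_lit 390) (nat_lit 352) (nat_lit 278))))) (XT.nd (nat_lit 234) (nat_lit 532) (nat_lit 0) (XT.nd (nat_lit 78) (nat_lit 228) (nat_lit 0) (XT.lf (nat_lit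 152) (nat_lit 278577014) (nat_lit 0) (nat_lit 1409420239) (nat_lit 76) (nat_lit 34750665) (nat_lit 116) (nat_lit 1) (nat_lit 114) (nat_lit 1) (nat_lit 115) (nat_lit 1) (nat_lit 391) (nat_lit 352) (nat_lit 277)) (XT.nd (nat_lit 78) (nat_lit 76) (nat_lit 0) (XT.lf (nat_lit 76) (nat_lit 917325863) (nat_lit 0) (nat_lit 612274419) (nat_lit 152) (nat_lit 164615704) (nat_lit 113) (nat_lit 1) (nat_lit 112) (nat_lit 1) (nat_lit 114) (nat_lit 1) (nat_lit 392) (nat_lit 352) (nat_lit 276)) (XT.lf (nat_lit 0) (nat_lit 174942206) (nat_lit 0) (nat_lit 1476405707) (nat_lit 152) (nat_lit 14991939) (nat_lit 111) (nat_lit 3) (nat_lit 111) (nat_lit 1) (nat_lit 113) (nat_lit 1) (nat_lit 393) (nat_lit 352) (nat_lit 275)))) (XT.nd (nat_lit 156) (nat_lit 228) (nat_lit 0) (XT.nd (nat_lit 78) (nat_lit 76) (nat_lit 0) (XT.lf (nat_lit 152) (nat_lit 964874856) (nat_lit 0) (nat_lit 128549342) (nat_lit 76) (nat_lit 545361194)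 (nat_lit 110) (nat_lit 1) (nat_lit 108) (nat_lit 1) (nat_lit 109) (nat_lit 1) (nat_lit 394) (nat_lit 352) (nat_lit 274)) (XT.lf (nat_lit 76) (nat_lit 96703718) (nat_lit 0) (nat_lit 272339104) (nat_lit 76) (nat_lit 1242786980) (nat_lit 108) (nat_lit 3) (nat_lit 107) (nat_lit 1) (nat_lit 108) (nat_lit 1) (nat_lit 395) (nat_lit 352) (nat_lit 273))) (XT.nd (nat_lit 78) (nat_lit 76) (nat_lit 0) (XT.lf (nat_lit 152) (nat_lit 846211212) (nat_lit 0) (nat_lit 408745700) (nat_lit 76) (nat_lit 330295466) (nat_lit 107) (nat_lit 1) (nat_lit 105) (nat_lit 1) (nat_lit 106) (nat_lit 1) (nat_lit 396) (nat_lit 352) (nat_lit 272)) (XT.lf (nat_lit 76) (nat_lit 2992745) (nat_lit 0) (nat_lit 543983647) (nat_lit 76) (nat_lit 1012246438) (nat_lit 105) (nat_lit 3) (nat_lit 104) (nat_lit 1) (nat_lit 105) (nat_lit 1) (nat_lit 397) (nat_lit 352) (nat_lit 271))))))))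
noncomputable def ec30 : XT := (XT.nd (nat_lit 48672) (nat_lit 0) (nat_lit 4180) (XT.nd (nat_lit 47580) (nat_lit 0) (nat_lit 12008) (XT.nd (nat_lit 47034) (nat_lit 0) (nat_lit 18544) (XT.nd (nat_lit 46722) (nat_lit 0) (nat_lit 20748) (XT.nd (nat_lit 46566) (nat_lit 0) (nat_lit 20672) (XT.lf (nat_lit 152) (nat_lit 728536778) (nat_lit 0) (nat_lit 673052753) (nat_lit 76) (nat_lit 131994904) (nat_lit 104) (nat_lit 1) (nat_lit 102) (nat_lit 1) (nat_lit 103) (nat_lit 1) (nat_lit 398) (nat_lit 352) (nat_lit 270)) (XT.nd (nat_lit 78) (nat_lit 0) (nat_lit 76) (XT.lf (nat_lit 1292) (nat_lit 703275624) (nat_lit 0) (nat_lit 2419595221) (nat_lit 1292) (nat_lit 703275624) (nat_lit 391) (nat_lit 1) (nat_lit 374) (nat_lit 0) (nat_lit 391) (nat_lit 0) (nat_lit 314) (nat_lit 353) (nat_lit 353)) (XT.lf (nat_lit 1292) (nat_lit 56382839) (nat_lit 0) (nat_lit 4770932981) (nat_lit 1216) (nat_lit 2641370829) (nat_lit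 392) (nat_lit 1) (nat_lit 375) (nat_lit 1) (nat_lit 391) (nat_lit 1) (nat_lit 315) (nat_lit 353) (nat_lit 352)))) (XT.nd (nat_lit 156) (nat_lit 0) (nat_lit 152) (XT.nd (nat_lit 78) (nat_lit 0) (nat_lit 76) (XT.lf (nat_lit 1292) (nat_lit 2480602524) (nat_lit 76) (nat_lit 3508721498) (nat_lit 0) (nat_lit 1301374392) (nat_lit 392) (nat_lit 1) (nat_lit 376) (nat_lit 1) (nat_lit 375) (nat_lit 1) (nat_lit 316) (nat_lit 353) (nat_lit 351)) (XT.lf (nat_lit 1292) (nat_lit 2180659962) (nat_lit 76) (nat_lit 2296709293) (nat_lit 0) (nat_lit 2641103972) (nat_lit 393) (nat_lit 1) (nat_lit 377) (nat_lit 1) (nat_lit 376) (nat_lit 1) (nat_lit 317) (nat_lit 353) (nat_lit 350))) (XT.nd (nat_lit 78) (nat_lit 0) (nat_lit 76) (XT.lf (nat_lit 1292) (nat_lit 1804642954) (nat_lit 76) (nat_lit 1186370316) (nat_lit 0) (nat_lit 3960804201) (nat_lit 394) (nat_lit 1) (nat_lit 378) (nat_lit 1) (nat_lit 377) (nat_lit 1) (nat_lit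 318) (nat_lit 353) (nat_lit 349)) (XT.lf (nat_lit 1292) (nat_lit 1358350199) (nat_lit 76) (nat_lit 172480696) (nat_lit 0) (nat_lit 5259698419) (nat_lit 395) (nat_lit 1) (nat_lit 379) (nat_lit 1) (nat_lit 378) (nat_lit 1) (nat_lit 319) (nat_lit 353) (nat_lit 348))))) (XT.nd (nat_lit 234) (nat_lit 1292) (nat_lit 0) (XT.nd (nat_lit 78) (nat_lit 1216) (nat_lit 0) (XT.lf (nat_lit 1292) (nat_lit 104517804) (nat_lit 0) (nat_lit 5794374269) (nat_lit 1216) (nat_lit 735306609) (nat_lit 396) (nat_lit 1) (nat_lit 379) (nat_lit 1) (nat_lit 395) (nat_lit 1) (nat_lit 320) (nat_lit 353) (nat_lit 347)) (XT.nd (nat_lit 78) (nat_lit 1216) (nat_lit 0) (XT.lf (nat_lit 1292) (nat_lit 247729932) (nat_lit 76) (nat_lit 4915063576) (nat_lit 0) (nat_lit 1319656901) (nat_lit 396) (nat_lit 1) (nat_lit 380) (nat_lit 1) (nat_lit 379) (nat_lit 1) (nat_lit 321) (nat_lit 353) (nat_lit 346)) (XT.lf (nat_lit 1368) (nat_lit 3620570159)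 (nat_lit 0) (nat_lit 391345768) (nat_lit 1292) (nat_lit 2323480769) (nat_lit 381) (nat_lit 1) (nat_lit 363) (nat_lit 1) (nat_lit 380) (nat_lit 1) (nat_lit 322) (nat_lit 353) (nat_lit 345)))) (XT.nd (nat_lit 156) (nat_lit 1368) (nat_lit 0) (XT.nd (nat_lit 78) (nat_lit 0) (nat_lit 76) (XT.lf (nat_lit 1368) (nat_lit 2113307177) (nat_lit 0) (nat_lit 1073806689) (nat_lit 1292) (nat_lit 3005810997) (nat_lit 382) (nat_lit 1) (nat_lit 364) (nat_lit 1) (nat_lit 381) (nat_lit 1) (nat_lit 323) (nat_lit 353) (nat_lit 344)) (XT.lf (nat_lit 76) (nat_lit 638652640) (nat_lit 0) (nat_lit 1800300650) (nat_lit 1292) (nat_lit 3615988178) (nat_lit 366) (nat_lit 1) (nat_lit 365) (nat_lit 1) (nat_lit 382) (nat_lit 1) (nat_lit 324) (nat_lit 353) (nat_lit 343))) (XT.nd (nat_lit 78) (nat_lit 608) (nat_lit 0) (XT.lf (nat_lit 912) (nat_lit 3346286833) (nat_lit 0) (nat_lit 1755356315) (nat_lit 836) (nat_lit 819408605) (nat_lit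 366) (nat_lit 1) (nat_lit 354) (nat_lit 1) (nat_lit 365) (nat_lit 1) (nat_lit 325) (nat_lit 353) (nat_lit 342)) (XT.lf (nat_lit 684) (nat_lit 2399601481) (nat_lit 0) (nat_lit 1134533350) (nat_lit 608) (nat_lit 2257026606) (nat_lit 355) (nat_lit 1) (nat_lit 346) (nat_lit 1) (nat_lit 354) (nat_lit 1) (nat_lit 326) (nat_lit 353) (nat_lit 341)))))) (XT.nd (nat_lit 546) (nat_lit 3192) (nat_lit 0) (XT.nd (nat_lit 234) (nat_lit 2128) (nat_lit 0) (XT.nd (nat_lit 78) (nat_lit 608) (nat_lit 0) (XT.lf (nat_lit 684) (nat_lit 1424370205) (nat_lit 0) (nat_lit 579325620) (nat_lit 608) (nat_lit 3661616099) (nat_lit 347) (nat_lit 1) (nat_lit 338) (nat_lit 1) (nat_lit 346) (nat_lit 1) (nat_lit 327) (nat_lit 353) (nat_lit 340)) (XT.nd (nat_lit 78) (nat_lit 76) (nat_lit 0) (XT.lf (nat_lit 608) (nat_lit 423724704) (nat_lit 0) (nat_lit 86291846) (nat_lit 532) (nat_lit 5033345864) (nat_lit 339) (nat_lit 1) (nat_lit 331)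 (nat_lit 1) (nat_lit 338) (nat_lit 1) (nat_lit 328) (nat_lit 353) (nat_lit 339)) (XT.lf (nat_lit 76) (nat_lit 4467997211) (nat_lit 0) (nat_lit 600423020) (nat_lit 608) (nat_lit 356202764) (nat_lit 331) (nat_lit 1) (nat_lit 330) (nat_lit 1) (nat_lit 338) (nat_lit 1) (nat_lit 329) (nat_lit 353) (nat_lit 338)))) (XT.nd (nat_lit 156) (nat_lit 988) (nat_lit 0) (XT.nd (nat_lit 78) (nat_lit 532) (nat_lit 0) (XT.lf (nat_lit 76) (nat_lit 2917319746) (nat_lit 0) (nat_lit 1640625253) (nat_lit 684) (nat_lit 751295516) (nat_lit 323) (nat_lit 1) (nat_lit 322) (nat_lit 1) (nat_lit 331) (nat_lit 1) (nat_lit 330) (nat_lit 353) (nat_lit 337)) (XT.lf (nat_lit 76) (nat_lit 1406161587) (nat_lit 0) (nat_lit 2696772958) (nat_lit 608) (nat_lit 1094453528) (nat_lit 316) (nat_lit 1) (nat_lit 315) (nat_lit 1) (nat_lit 323) (nat_lit 1) (nat_lit 331) (nat_lit 353) (nat_lit 336))) (XT.nd (nat_lit 78) (nat_lit 456) (nat_lit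 0) (XT.lf (nat_lit 608) (nat_lit 1321750515) (nat_lit 0) (nat_lit 3699829368) (nat_lit 532) (nat_lit 67345640) (nat_lit 316) (nat_lit 1) (nat_lit 308) (nat_lit 1) (nat_lit 315) (nat_lit 1) (nat_lit 332) (nat_lit 353) (nat_lit 335)) (XT.lf (nat_lit 532) (nat_lit 120947683) (nat_lit 0) (nat_lit 3332724341) (nat_lit 456) (nat_lit 1529681815) (nat_lit 309) (nat_lit 1) (nat_lit 302) (nat_lit 1) (nat_lit 308) (nat_lit 1) (nat_lit 333) (nat_lit 353) (nat_lit 334))))) (XT.nd (nat_lit 234) (nat_lit 1672) (nat_lit 0) (XT.nd (nat_lit 78) (nat_lit 912) (nat_lit 0) (XT.lf (nat_lit 76) (nat_lit 1937948482) (nat_lit 0) (nat_lit 1064481854) (nat_lit 608) (nat_lit 1878231210) (nat_lit 295) (nat_lit 1) (nat_lit 294) (nat_lit 1) (nat_lit 302) (nat_lit 1) (nat_lit 334) (nat_lit 353) (nat_lit 333)) (XT.nd (nat_lit 78) (nat_lit 456) (nat_lit 0) (XT.lf (nat_lit 76) (nat_lit 464451585) (nat_lit 0) (nat_lit 2251489113)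 (nat_lit 532) (nat_lit 2065077211) (nat_lit 289) (nat_lit 1) (nat_lit 288) (nat_lit 1) (nat_lit 295) (nat_lit 1) (nat_lit 335) (nat_lit 353) (nat_lit 332)) (XT.lf (nat_lit 532) (nat_lit 1233777453) (nat_lit 0) (nat_lit 2462284131) (nat_lit 456) (nat_lit 988008025) (nat_lit 289) (nat_lit 1) (nat_lit 282) (nat_lit 1) (nat_lit 288) (nat_lit 1) (nat_lit 336) (nat_lit 353) (nat_lit 331)))) (XT.nd (nat_lit 156) (nat_lit 760) (nat_lit 0) (XT.nd (nat_lit 78) (nat_lit 456) (nat_lit 0) (XT.lf (nat_lit 76) (nat_lit 2181134474) (nat_lit 0) (nat_lit 62905297) (nat_lit 456) (nat_lit 2345818871) (nat_lit 277) (nat_lit 1) (nat_lit 276) (nat_lit 1) (nat_lit 282) (nat_lit 1) (nat_lit 337) (nat_lit 353) (nat_lit 330)) (XT.lf (nat_lit 76) (nat_lit 720407206) (nat_lit 0) (nat_lit 1331767200) (nat_lit 532) (nat_lit 2445915004) (nat_lit 271) (nat_lit 1) (nat_lit 270) (nat_lit 1) (nat_lit 277) (nat_lit 1) (nat_lit 338)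 (nat_lit 353) (nat_lit 329))) (XT.nd (nat_lit 78) (nat_lit 380) (nat_lit 0) (XT.lf (nat_lit 456) (nat_lit 1806275737) (nat_lit 0) (nat_lit 1889777568) (nat_lit 380) (nat_lit 712766723) (nat_lit 271) (nat_lit 1) (nat_lit 265) (nat_lit 1) (nat_lit 270) (nat_lit 1) (nat_lit 339) (nat_lit 353) (nat_lit 328)) (XT.lf (nat_lit 456) (nat_lit 448017209) (nat_lit 0) (nat_lit 1755066843) (nat_lit 380) (nat_lit 2118883259) (nat_lit 266) (nat_lit 1) (nat_lit 260) (nat_lit 1) (nat_lit 265) (nat_lit 1) (nat_lit 340) (nat_lit 353) (nat_lit 327))))))) (XT.nd (nat_lit 1092) (nat_lit 3192) (nat_lit 0) (XT.nd (nat_lit 546) (nat_lit 2052) (nat_lit 0) (XT.nd (nat_lit 234) (nat_lit 1444) (nat_lit 0) (XT.nd (nat_lit 78) (nat_lit 684) (nat_lit 0) (XT.lf (nat_lit 76) (nat_lit 761818401) (nat_lit 0) (nat_lit 882691802) (nat_lit 456) (nat_lit 2592887510) (nat_lit 255) (nat_lit 1) (nat_lit 254) (nat_lit 1) (nat_lit 260) (nat_lit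 1) (nat_lit 341) (nat_lit 353) (nat_lit 326)) (XT.nd (nat_lit 78) (nat_lit 304) (nat_lit 0) (XT.lf (nat_lit 456) (nat_lit 1954722787) (nat_lit 0) (nat_lit 1554491756) (nat_lit 380) (nat_lit 645761285) (nat_lit 255) (nat_lit 1) (nat_lit 249) (nat_lit 1) (nat_lit 254) (nat_lit 1) (nat_lit 342) (nat_lit 353) (nat_lit 325)) (XT.lf (nat_lit 380) (nat_lit 561210990) (nat_lit 0) (nat_lit 1486845355) (nat_lit 304) (nat_lit 2026669210) (nat_lit 250) (nat_lit 1) (nat_lit 245) (nat_lit 1) (nat_lit 249) (nat_lit 1) (nat_lit 343) (nat_lit 353) (nat_lit 324)))) (XT.nd (nat_lit 156) (nat_lit 684) (nat_lit 0) (XT.nd (nat_lit 78) (nat_lit 304) (nat_lit 0) (XT.lf (nat_lit 76) (nat_lit 637937299) (nat_lit 0) (nat_lit 801583721) (nat_lit 456) (nat_lit 2557037217) (nat_lit 240) (nat_lit 1) (nat_lit 239) (nat_lit 1) (nat_lit 245) (nat_lit 1) (nat_lit 344) (nat_lit 353) (nat_lit 323)) (XT.lf (nat_lit 380) (nat_lit 1774736400)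 (nat_lit 0) (nat_lit 1406315621) (nat_lit 304) (nat_lit 739212774) (nat_lit 240) (nat_lit 1) (nat_lit 235) (nat_lit 1) (nat_lit 239) (nat_lit 1) (nat_lit 345) (nat_lit 353) (nat_lit 322))) (XT.nd (nat_lit 78) (nat_lit 380) (nat_lit 0) (XT.lf (nat_lit 380) (nat_lit 366124980) (nat_lit 0) (nat_lit 1392579250) (nat_lit 304) (nat_lit 2087268970) (nat_lit 236) (nat_lit 1) (nat_lit 231) (nat_lit 1) (nat_lit 235) (nat_lit 1) (nat_lit 346) (nat_lit 353) (nat_lit 321)) (XT.lf (nat_lit 76) (nat_lit 389081935) (nat_lit 0) (nat_lit 1004093010) (nat_lit 380) (nat_lit 2380331554) (nat_lit 227) (nat_lit 1) (nat_lit 226) (nat_lit 1) (nat_lit 231) (nat_lit 1) (nat_lit 347) (nat_lit 353) (nat_lit 320))))) (XT.nd (nat_lit 234) (nat_lit 1140) (nat_lit 0) (XT.nd (nat_lit 78) (nat_lit 608) (nat_lit 0) (XT.lf (nat_lit 380) (nat_lit 1344720632) (nat_lit 0) (nat_lit 1403982206) (nat_lit 304) (nat_lit 954015034) (nat_lit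 227) (nat_lit 1) (nat_lit 222) (nat_lit 1) (nat_lit 226) (nat_lit 1) (nat_lit 348) (nat_lit 353) (nat_lit 319)) (XT.nd (nat_lit 78) (nat_lit 304) (nat_lit 0) (XT.lf (nat_lit 76) (nat_lit 1370936632) (nat_lit 0) (nat_lit 61683233) (nat_lit 304) (nat_lit 2201183063) (nat_lit 219) (nat_lit 1) (nat_lit 218) (nat_lit 1) (nat_lit 222) (nat_lit 1) (nat_lit 349) (nat_lit 353) (nat_lit 318)) (XT.lf (nat_lit 76) (nat_lit 48139219) (nat_lit 0) (nat_lit 1421134711) (nat_lit 380) (nat_lit 2097176093) (nat_lit 215) (nat_lit 1) (nat_lit 214) (nat_lit 1) (nat_lit 219) (nat_lit 1) (nat_lit 350) (nat_lit 353) (nat_lit 317)))) (XT.nd (nat_lit 156) (nat_lit 532) (nat_lit 0) (XT.nd (nat_lit 78) (nat_lit 380) (nat_lit 0) (XT.lf (nat_lit 304) (nat_lit 728751385) (nat_lit 0) (nat_lit 1513597205) (nat_lit 228) (nat_lit 1258275153) (nat_lit 215) (nat_lit 1) (nat_lit 211) (nat_lit 1) (nat_lit 214) (nat_lit 1) (nat_lit 351)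 (nat_lit 353) (nat_lit 316)) (XT.lf (nat_lit 76) (nat_lit 918018749) (nat_lit 0) (nat_lit 652210364) (nat_lit 380) (nat_lit 1866205276) (nat_lit 207) (nat_lit 1) (nat_lit 206) (nat_lit 1) (nat_lit 211) (nat_lit 1) (nat_lit 352) (nat_lit 353) (nat_lit 315))) (XT.nd (nat_lit 78) (nat_lit 304) (nat_lit 0) (XT.lf (nat_lit 304) (nat_lit 1373885701) (nat_lit 0) (nat_lit 1634530062) (nat_lit 228) (nat_lit 365306716) (nat_lit 207) (nat_lit 1) (nat_lit 203) (nat_lit 1) (nat_lit 206) (nat_lit 1) (nat_lit 353) (nat_lit 353) (nat_lit 314)) (XT.lf (nat_lit 76) (nat_lit 1686599475) (nat_lit 0) (nat_lit 20599905) (nat_lit 304) (nat_lit 1605285114) (nat_lit 200) (nat_lit 1) (nat_lit 199) (nat_lit 1) (nat_lit 203) (nat_lit 1) (nat_lit 354) (nat_lit 353) (nat_lit 313)))))) (XT.nd (nat_lit 546) (nat_lit 1520) (nat_lit 0) (XT.nd (nat_lit 234) (nat_lit 912) (nat_lit 0) (XT.nd (nat_lit 78) (nat_lit 532) (nat_lit 0)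 (XT.lf (nat_lit 76) (nat_lit 419148183) (nat_lit 0) (nat_lit 1364185166) (nat_lit 304) (nat_lit 1469220825) (nat_lit 197) (nat_lit 1) (nat_lit 196) (nat_lit 1) (nat_lit 200) (nat_lit 1) (nat_lit 355) (nat_lit 353) (nat_lit 312)) (XT.nd (nat_lit 78) (nat_lit 304) (nat_lit 0) (XT.lf (nat_lit 304) (nat_lit 502275972) (nat_lit 0) (nat_lit 1867394407) (nat_lit 228) (nat_lit 824368128) (nat_lit 197) (nat_lit 1) (nat_lit 193) (nat_lit 1) (nat_lit 196) (nat_lit 1) (nat_lit 356) (nat_lit 353) (nat_lit 311)) (XT.lf (nat_lit 76) (nat_lit 1108761248) (nat_lit 0) (nat_lit 845471314) (nat_lit 304) (nat_lit 1182532386) (nat_lit 190) (nat_lit 1) (nat_lit 189) (nat_lit 1) (nat_lit 193) (nat_lit 1) (nat_lit 357) (nat_lit 353) (nat_lit 310)))) (XT.nd (nat_lit 156) (nat_lit 456) (nat_lit 0) (XT.nd (nat_lit 78) (nat_lit 228) (nat_lit 0) (XT.lf (nat_lit 304) (nat_lit 921420668) (nat_lit 0) (nat_lit 2049908659) (nat_lit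 228) (nat_lit 109558578) (nat_lit 190) (nat_lit 1) (nat_lit 186) (nat_lit 1) (nat_lit 189) (nat_lit 1) (nat_lit 358) (nat_lit 353) (nat_lit 309)) (XT.lf (nat_lit 76) (nat_lit 1719985280) (nat_lit 0) (nat_lit 424536967) (nat_lit 228) (nat_lit 881575073) (nat_lit 184) (nat_lit 1) (nat_lit 183) (nat_lit 1) (nat_lit 186) (nat_lit 1) (nat_lit 359) (nat_lit 353) (nat_lit 308))) (XT.nd (nat_lit 78) (nat_lit 228) (nat_lit 0) (XT.lf (nat_lit 76) (nat_lit 517163561) (nat_lit 0) (nat_lit 1726691716) (nat_lit 304) (nat_lit 728685038) (nat_lit 181) (nat_lit 1) (nat_lit 180) (nat_lit 1) (nat_lit 184) (nat_lit 1) (nat_lit 360) (nat_lit 353) (nat_lit 307)) (XT.lf (nat_lit 76) (nat_lit 2261102546) (nat_lit 0) (nat_lit 87702476) (nat_lit 228) (nat_lit 571417124) (nat_lit 178) (nat_lit 1) (nat_lit 177) (nat_lit 1) (nat_lit 180) (nat_lit 1) (nat_lit 361) (nat_lit 353) (nat_lit 306))))) (XT.nd (nat_lit 234) (nat_lit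 912) (nat_lit 0) (XT.nd (nat_lit 78) (nat_lit 380) (nat_lit 0) (XT.lf (nat_lit 76) (nat_lit 1073418803) (nat_lit 0) (nat_lit 1375638687) (nat_lit 304) (nat_lit 419764434) (nat_lit 175) (nat_lit 1) (nat_lit 174) (nat_lit 1) (nat_lit 178) (nat_lit 1) (nat_lit 362) (nat_lit 353) (nat_lit 305)) (XT.nd (nat_lit 78) (nat_lit 228) (nat_lit 0) (XT.lf (nat_lit 228) (nat_lit 180506224) (nat_lit 0) (nat_lit 2560703053) (nat_lit 152) (nat_lit 77578932) (nat_lit 175) (nat_lit 1) (nat_lit 172) (nat_lit 1) (nat_lit 174) (nat_lit 1) (nat_lit 363) (nat_lit 353) (nat_lit 304)) (XT.lf (nat_lit 76) (nat_lit 1568413271) (nat_lit 0) (nat_lit 1093867887) (nat_lit 228) (nat_lit 107195072) (nat_lit 170) (nat_lit 1) (nat_lit 169) (nat_lit 1) (nat_lit 172) (nat_lit 1) (nat_lit 364) (nat_lit 353) (nat_lit 303)))) (XT.nd (nat_lit 156) (nat_lit 380) (nat_lit 0) (XT.nd (nat_lit 78) (nat_lit 228) (nat_lit 0) (XT.lf (nat_lit 228)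 (nat_lit 382598889) (nat_lit 0) (nat_lit 53055103) (nat_lit 152) (nat_lit 2285770203) (nat_lit 168) (nat_lit 1) (nat_lit 165) (nat_lit 1) (nat_lit 167) (nat_lit 1) (nat_lit 365) (nat_lit 353) (nat_lit 302)) (XT.lf (nat_lit 228) (nat_lit 1800727104) (nat_lit 0) (nat_lit 209726233) (nat_lit 152) (nat_lit 663726877) (nat_lit 165) (nat_lit 1) (nat_lit 162) (nat_lit 1) (nat_lit 164) (nat_lit 1) (nat_lit 366) (nat_lit 353) (nat_lit 301))) (XT.nd (nat_lit 78) (nat_lit 228) (nat_lit 0) (XT.lf (nat_lit 228) (nat_lit 528216074) (nat_lit 0) (nat_lit 367867478) (nat_lit 152) (nat_lit 1731882305) (nat_lit 163) (nat_lit 1) (nat_lit 160) (nat_lit 1) (nat_lit 162) (nat_lit 1) (nat_lit 367) (nat_lit 353) (nat_lit 300)) (XT.lf (nat_lit 228) (nat_lit 1877993397) (nat_lit 0) (nat_lit 526157429) (nat_lit 152) (nat_lit 178573012) (nat_lit 160) (nat_lit 1) (nat_lit 157) (nat_lit 1) (nat_lit 159) (nat_lit 1) (nat_lit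 368) (nat_lit 353) (nat_lit 299))))))))
noncomputable def ec31 : XT := (XT.nd (nat_lit 2184) (nat_lit 228) (nat_lit 0) (XT.nd (nat_lit 1092) (nat_lit 1824) (nat_lit 0) (XT.nd (nat_lit 546) (nat_lit 1216) (nat_lit 0) (XT.nd (nat_lit 234) (nat_lit 608) (nat_lit 0) (XT.nd (nat_lit 78) (nat_lit 380) (nat_lit 0) (XT.lf (nat_lit 228) (nat_lit 628787090) (nat_lit 0) (nat_lit 679276387) (nat_lit 152) (nat_lit 1230217301) (nat_lit 158) (nat_lit 1) (nat_lit 155) (nat_lit 1) (nat_lit 157) (nat_lit 1) (nat_lit 369) (nat_lit 353) (nat_lit 298)) (XT.nd (nat_lit 78) (nat_lit 152) (nat_lit 0) (XT.lf (nat_lit 76) (nat_lit 253460482) (nat_lit 0) (nat_lit 581550759) (nat_lit 228) (nat_lit 1659834152) (nat_lit 153) (nat_lit 1) (nat_lit 152) (nat_lit 1) (nat_lit 155) (nat_lit 1) (nat_lit 370) (nat_lit 353) (nat_lit 297)) (XT.lf (nat_lit 228) (nat_lit 691329097) (nat_lit 0) (nat_lit 985049890) (nat_lit 152) (nat_lit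 775778850) (nat_lit 153) (nat_lit 1) (nat_lit 150) (nat_lit 1) (nat_lit 152) (nat_lit 1) (nat_lit 371) (nat_lit 353) (nat_lit 296)))) (XT.nd (nat_lit 156) (nat_lit 304) (nat_lit 0) (XT.nd (nat_lit 78) (nat_lit 152) (nat_lit 0) (XT.lf (nat_lit 76) (nat_lit 639416403) (nat_lit 0) (nat_lit 496126266) (nat_lit 152) (nat_lit 1274837176) (nat_lit 149) (nat_lit 1) (nat_lit 148) (nat_lit 1) (nat_lit 150) (nat_lit 1) (nat_lit 372) (nat_lit 353) (nat_lit 295)) (XT.lf (nat_lit 228) (nat_lit 721942293) (nat_lit 0) (nat_lit 1283361338) (nat_lit 152) (nat_lit 364099596) (nat_lit 149) (nat_lit 1) (nat_lit 146) (nat_lit 1) (nat_lit 148) (nat_lit 1) (nat_lit 373) (nat_lit 353) (nat_lit 294))) (XT.nd (nat_lit 78) (nat_lit 152) (nat_lit 0) (XT.lf (nat_lit 76) (nat_lit 986843430) (nat_lit 0) (nat_lit 441039091) (nat_lit 152) (nat_lit 901310560) (nat_lit 145) (nat_lit 1) (nat_lit 144) (nat_lit 1) (nat_lit 146) (nat_lit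 1) (nat_lit 374) (nat_lit 353) (nat_lit 293)) (XT.lf (nat_lit 76) (nat_lit 8646744) (nat_lit 0) (nat_lit 1564000550) (nat_lit 228) (nat_lit 717188823) (nat_lit 143) (nat_lit 1) (nat_lit 142) (nat_lit 1) (nat_lit 145) (nat_lit 1) (nat_lit 375) (nat_lit 353) (nat_lit 292))))) (XT.nd (nat_lit 234) (nat_lit 760) (nat_lit 0) (XT.nd (nat_lit 78) (nat_lit 304) (nat_lit 0) (XT.lf (nat_lit 76) (nat_lit 1299379284) (nat_lit 0) (nat_lit 411338436) (nat_lit 152) (nat_lit 540396421) (nat_lit 141) (nat_lit 1) (nat_lit 140) (nat_lit 1) (nat_lit 142) (nat_lit 1) (nat_lit 376) (nat_lit 353) (nat_lit 291)) (XT.nd (nat_lit 78) (nat_lit 152) (nat_lit 0) (XT.lf (nat_lit 76) (nat_lit 339796186) (nat_lit 0) (nat_lit 1508768689) (nat_lit 228) (nat_lit 364634947) (nat_lit 139) (nat_lit 1) (nat_lit 138) (nat_lit 1) (nat_lit 141) (nat_lit 1) (nat_lit 377) (nat_lit 353) (nat_lit 290)) (XT.lf (nat_lit 76) (nat_lit 1580283412)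 (nat_lit 0) (nat_lit 402731285) (nat_lit 152) (nat_lit 192970508) (nat_lit 137) (nat_lit 1) (nat_lit 136) (nat_lit 1) (nat_lit 138) (nat_lit 1) (nat_lit 378) (nat_lit 353) (nat_lit 289)))) (XT.nd (nat_lit 156) (nat_lit 304) (nat_lit 0) (XT.nd (nat_lit 78) (nat_lit 304) (nat_lit 0) (XT.lf (nat_lit 76) (nat_lit 639604058) (nat_lit 0) (nat_lit 1474170203) (nat_lit 228) (nat_lit 25672285) (nat_lit 135) (nat_lit 1) (nat_lit 134) (nat_lit 1) (nat_lit 137) (nat_lit 1) (nat_lit 379) (nat_lit 353) (nat_lit 288)) (XT.lf (nat_lit 228) (nat_lit 1690742452) (nat_lit 0) (nat_lit 143112703) (nat_lit 152) (nat_lit 269763858) (nat_lit 133) (nat_lit 1) (nat_lit 130) (nat_lit 1) (nat_lit 132) (nat_lit 1) (nat_lit 380) (nat_lit 353) (nat_lit 287))) (XT.nd (nat_lit 78) (nat_lit 228) (nat_lit 0) (XT.lf (nat_lit 152) (nat_lit 608755744) (nat_lit 0) (nat_lit 305076121) (nat_lit 76) (nat_lit 1154514993) (nat_lit 131) (nat_lit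 1) (nat_lit 129) (nat_lit 1) (nat_lit 130) (nat_lit 1) (nat_lit 381) (nat_lit 353) (nat_lit 286)) (XT.lf (nat_lit 76) (nat_lit 28653774) (nat_lit 0) (nat_lit 439216176) (nat_lit 228) (nat_lit 1565990644) (nat_lit 127) (nat_lit 1) (nat_lit 126) (nat_lit 1) (nat_lit 129) (nat_lit 1) (nat_lit 382) (nat_lit 353) (nat_lit 285)))))) (XT.nd (nat_lit 546) (nat_lit 912) (nat_lit 0) (XT.nd (nat_lit 234) (nat_lit 532) (nat_lit 0) (XT.nd (nat_lit 78) (nat_lit 304) (nat_lit 0) (XT.lf (nat_lit 152) (nat_lit 540712580) (nat_lit 0) (nat_lit 621486617) (nat_lit 76) (nat_lit 837655034) (nat_lit 127) (nat_lit 1) (nat_lit 125) (nat_lit 1) (nat_lit 126) (nat_lit 1) (nat_lit 383) (nat_lit 353) (nat_lit 284)) (XT.nd (nat_lit 78) (nat_lit 76) (nat_lit 0) (XT.lf (nat_lit 76) (nat_lit 295907267) (nat_lit 0) (nat_lit 479143170) (nat_lit 228) (nat_lit 1191528857) (nat_lit 123) (nat_lit 1) (nat_lit 122) (nat_lit 1) (nat_lit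 125) (nat_lit 1) (nat_lit 384) (nat_lit 353) (nat_lit 283)) (XT.lf (nat_lit 152) (nat_lit 463932161) (nat_lit 0) (nat_lit 922809044) (nat_lit 76) (nat_lit 547113071) (nat_lit 123) (nat_lit 1) (nat_lit 121) (nat_lit 1) (nat_lit 122) (nat_lit 1) (nat_lit 385) (nat_lit 353) (nat_lit 282)))) (XT.nd (nat_lit 156) (nat_lit 228) (nat_lit 0) (XT.nd (nat_lit 78) (nat_lit 76) (nat_lit 0) (XT.lf (nat_lit 76) (nat_lit 539457035) (nat_lit 0) (nat_lit 527700181) (nat_lit 228) (nat_lit 834578017) (nat_lit 119) (nat_lit 1) (nat_lit 118) (nat_lit 1) (nat_lit 121) (nat_lit 1) (nat_lit 386) (nat_lit 353) (nat_lit 281)) (XT.lf (nat_lit 152) (nat_lit 380579818) (nat_lit 0) (nat_lit 1208940106) (nat_lit 76) (nat_lit 280713422) (nat_lit 119) (nat_lit 1) (nat_lit 117) (nat_lit 1) (nat_lit 118) (nat_lit 1) (nat_lit 387) (nat_lit 353) (nat_lit 280))) (XT.nd (nat_lit 78) (nat_lit 76) (nat_lit 0) (XT.lf (nat_lit 76) (nat_lit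 761287099) (nat_lit 0) (nat_lit 582859677) (nat_lit 152) (nat_lit 495071837) (nat_lit 116) (nat_lit 1) (nat_lit 115) (nat_lit 1) (nat_lit 117) (nat_lit 1) (nat_lit 388) (nat_lit 353) (nat_lit 279)) (XT.lf (nat_lit 152) (nat_lit 292505864) (nat_lit 0) (nat_lit 1479891251) (nat_lit 76) (nat_lit 36488198) (nat_lit 116) (nat_lit 1) (nat_lit 114) (nat_lit 1) (nat_lit 115) (nat_lit 1) (nat_lit 389) (nat_lit 353) (nat_lit 278))))) (XT.nd (nat_lit 234) (nat_lit 456) (nat_lit 0) (XT.nd (nat_lit 78) (nat_lit 304) (nat_lit 0) (XT.lf (nat_lit 76) (nat_lit 963192156) (nat_lit 0) (nat_lit 642888140) (nat_lit 152) (nat_lit 172846489) (nat_lit 113) (nat_lit 1) (nat_lit 112) (nat_lit 1) (nat_lit 114) (nat_lit 1) (nat_lit 390) (nat_lit 353) (nat_lit 277)) (XT.nd (nat_lit 78) (nat_lit 228) (nat_lit 0) (XT.lf (nat_lit 0) (nat_lit 183689317) (nat_lit 0) (nat_lit 1550225992) (nat_lit 152) (nat_lit 15741536) (nat_lit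 111) (nat_lit 3) (nat_lit 111) (nat_lit 1) (nat_lit 113) (nat_lit 1) (nat_lit 391) (nat_lit 353) (nat_lit 276)) (XT.lf (nat_lit 152) (nat_lit 1013118599) (nat_lit 0) (nat_lit 134976809) (nat_lit 76) (nat_lit 572629254) (nat_lit 110) (nat_lit 1) (nat_lit 108) (nat_lit 1) (nat_lit 109) (nat_lit 1) (nat_lit 392) (nat_lit 353) (nat_lit 275)))) (XT.nd (nat_lit 156) (nat_lit 228) (nat_lit 0) (XT.nd (nat_lit 78) (nat_lit 152) (nat_lit 0) (XT.lf (nat_lit 76) (nat_lit 101538903) (nat_lit 0) (nat_lit 285956059) (nat_lit 76) (nat_lit 1304926329) (nat_lit 108) (nat_lit 3) (nat_lit 107) (nat_lit 1) (nat_lit 108) (nat_lit 1) (nat_lit 393) (nat_lit 353) (nat_lit 274)) (XT.lf (nat_lit 152) (nat_lit 888521773) (nat_lit 0) (nat_lit 429182985) (nat_lit 76) (nat_lit 346810239) (nat_lit 107) (nat_lit 1) (nat_lit 105) (nat_lit 1) (nat_lit 106) (nat_lit 1) (nat_lit 394) (nat_lit 353) (nat_lit 273))) (XT.nd (nat_lit 78)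 (nat_lit 152) (nat_lit 0) (XT.lf (nat_lit 76) (nat_lit 3142382) (nat_lit 0) (nat_lit 571182830) (nat_lit 76) (nat_lit 1062858760) (nat_lit 105) (nat_lit 3) (nat_lit 104) (nat_lit 1) (nat_lit 105) (nat_lit 1) (nat_lit 395) (nat_lit 353) (nat_lit 272)) (XT.lf (nat_lit 152) (nat_lit 764963617) (nat_lit 0) (nat_lit 706705391) (nat_lit 76) (nat_lit 138594650) (nat_lit 104) (nat_lit 1) (nat_lit 102) (nat_lit 1) (nat_lit 103) (nat_lit 1) (nat_lit 396) (nat_lit 353) (nat_lit 271))))))) (XT.nd (nat_lit 47424) (nat_lit 0) (nat_lit 12616) (XT.nd (nat_lit 46878) (nat_lit 0) (nat_lit 19380) (XT.nd (nat_lit 46566) (nat_lit 0) (nat_lit 20976) (XT.nd (nat_lit 78) (nat_lit 76) (nat_lit 0) (XT.lf (nat_lit 76) (nat_lit 746249863) (nat_lit 0) (nat_lit 92823776) (nat_lit 152) (nat_lit 744765785) (nat_lit 101) (nat_lit 1) (nat_lit 100) (nat_lit 1) (nat_lit 102) (nat_lit 1) (nat_lit 397) (nat_lit 353) (nat_lit 270))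 (XT.nd (nat_lit 46410) (nat_lit 0) (nat_lit 20900) (XT.lf (nat_lit 0) (nat_lit 52280063) (nat_lit 0) (nat_lit 915153897) (nat_lit 152) (nat_lit 590441250) (nat_lit 99) (nat_lit 3) (nat_lit 99) (nat_lit 1) (nat_lit 101) (nat_lit 1) (nat_lit 398) (nat_lit 353) (nat_lit 269)) (XT.lf (nat_lit 1292) (nat_lit 738439406) (nat_lit 0) (nat_lit 2540574982) (nat_lit 1292) (nat_lit 738439406) (nat_lit 391) (nat_lit 1) (nat_lit 374) (nat_lit 0) (nat_lit 391) (nat_lit 0) (nat_lit 312) (nat_lit 354) (nat_lit 354)))) (XT.nd (nat_lit 156) (nat_lit 0) (nat_lit 76) (XT.nd (nat_lit 78) (nat_lit 0) (nat_lit 0) (XT.lf (nat_lit 1292) (nat_lit 59201981) (nat_lit 0) (nat_lit 5009479630) (nat_lit 1216) (nat_lit 2773439370) (nat_lit 392) (nat_lit 1) (nat_lit 375) (nat_lit 1) (nat_lit 391) (nat_lit 1) (nat_lit 313) (nat_lit 354) (nat_lit 353)) (XT.lf (nat_lit 1292) (nat_lit 2604632650) (nat_lit 76) (nat_lit 3684157573) (nat_lit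 0) (nat_lit 1366443112) (nat_lit 392) (nat_lit 1) (nat_lit 376) (nat_lit 1) (nat_lit 375) (nat_lit 1) (nat_lit 314) (nat_lit 354) (nat_lit 352))) (XT.nd (nat_lit 78) (nat_lit 0) (nat_lit 76) (XT.lf (nat_lit 1292) (nat_lit 2289692960) (nat_lit 76) (nat_lit 2411544758) (nat_lit 0) (nat_lit 2773159170) (nat_lit 393) (nat_lit 1) (nat_lit 377) (nat_lit 1) (nat_lit 376) (nat_lit 1) (nat_lit 315) (nat_lit 354) (nat_lit 351)) (XT.lf (nat_lit 1292) (nat_lit 1894875101) (nat_lit 76) (nat_lit 1245688832) (nat_lit 0) (nat_lit 4158844411) (nat_lit 394) (nat_lit 1) (nat_lit 378) (nat_lit 1) (nat_lit 377) (nat_lit 1) (nat_lit 316) (nat_lit 354) (nat_lit 350))))) (XT.nd (nat_lit 234) (nat_lit 1824) (nat_lit 0) (XT.nd (nat_lit 78) (nat_lit 0) (nat_lit 76) (XT.lf (nat_lit 1292) (nat_lit 1426267709) (nat_lit 76) (nat_lit 181104731) (nat_lit 0) (nat_lit 5522683340) (nat_lit 395) (nat_lit 1) (nat_lit 379) (nat_lit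 1) (nat_lit 378) (nat_lit 1) (nat_lit 317) (nat_lit 354) (nat_lit 349)) (XT.nd (nat_lit 78) (nat_lit 0) (nat_lit 0) (XT.lf (nat_lit 1292) (nat_lit 109743694) (nat_lit 0) (nat_lit 6084092982) (nat_lit 1216) (nat_lit 772071939) (nat_lit 396) (nat_lit 1) (nat_lit 379) (nat_lit 1) (nat_lit 395) (nat_lit 1) (nat_lit 318) (nat_lit 354) (nat_lit 348)) (XT.lf (nat_lit 1292) (nat_lit 260116429) (nat_lit 76) (nat_lit 5160816755) (nat_lit 0) (nat_lit 1385639746) (nat_lit 396) (nat_lit 1) (nat_lit 380) (nat_lit 1) (nat_lit 379) (nat_lit 1) (nat_lit 319) (nat_lit 354) (nat_lit 347)))) (XT.nd (nat_lit 156) (nat_lit 684) (nat_lit 0) (XT.nd (nat_lit 78) (nat_lit 0) (nat_lit 76) (XT.lf (nat_lit 1368) (nat_lit 3801598667) (nat_lit 0) (nat_lit 410913057) (nat_lit 1292) (nat_lit 2439654807) (nat_lit 381) (nat_lit 1) (nat_lit 363) (nat_lit 1) (nat_lit 380) (nat_lit 1) (nat_lit 320) (nat_lit 354) (nat_lit 346)) (XT.lf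 (nat_lit 1368) (nat_lit 2218972536) (nat_lit 0) (nat_lit 1127497023) (nat_lit 1292) (nat_lit 3156101546) (nat_lit 382) (nat_lit 1) (nat_lit 364) (nat_lit 1) (nat_lit 381) (nat_lit 1) (nat_lit 321) (nat_lit 354) (nat_lit 345))) (XT.nd (nat_lit 78) (nat_lit 836) (nat_lit 0) (XT.lf (nat_lit 76) (nat_lit 670585272) (nat_lit 0) (nat_lit 1890315683) (nat_lit 1292) (nat_lit 3796787587) (nat_lit 366) (nat_lit 1) (nat_lit 365) (nat_lit 1) (nat_lit 382) (nat_lit 1) (nat_lit 322) (nat_lit 354) (nat_lit 344)) (XT.lf (nat_lit 912) (nat_lit 3513601174) (nat_lit 0) (nat_lit 1843124130) (nat_lit 836) (nat_lit 860379035) (nat_lit 366) (nat_lit 1) (nat_lit 354) (nat_lit 1) (nat_lit 365) (nat_lit 1) (nat_lit 323) (nat_lit 354) (nat_lit 343)))))) (XT.nd (nat_lit 546) (nat_lit 3268) (nat_lit 0) (XT.nd (nat_lit 234) (nat_lit 1748) (nat_lit 0) (XT.nd (nat_lit 78) (nat_lit 1140) (nat_lit 0) (XT.lf (nat_lit 684) (nat_lit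 2519581555) (nat_lit 0) (nat_lit 1191260018) (nat_lit 608) (nat_lit 2369877936) (nat_lit 355) (nat_lit 1) (nat_lit 346) (nat_lit 1) (nat_lit 354) (nat_lit 1) (nat_lit 324) (nat_lit 354) (nat_lit 342)) (XT.nd (nat_lit 78) (nat_lit 532) (nat_lit 0) (XT.lf (nat_lit 684) (nat_lit 1495588715) (nat_lit 0) (nat_lit 608291901) (nat_lit 608) (nat_lit 3844696904) (nat_lit 347) (nat_lit 1) (nat_lit 338) (nat_lit 1) (nat_lit 346) (nat_lit 1) (nat_lit 325) (nat_lit 354) (nat_lit 341)) (XT.lf (nat_lit 608) (nat_lit 444910939) (nat_lit 0) (nat_lit 90606438) (nat_lit 532) (nat_lit 5285013157) (nat_lit 339) (nat_lit 1) (nat_lit 331) (nat_lit 1) (nat_lit 338) (nat_lit 1) (nat_lit 326) (nat_lit 354) (nat_lit 340)))) (XT.nd (nat_lit 156) (nat_lit 1064) (nat_lit 0) (XT.nd (nat_lit 78) (nat_lit 608) (nat_lit 0) (XT.lf (nat_lit 76) (nat_lit 4691397072) (nat_lit 0) (nat_lit 630444171) (nat_lit 608) (nat_lit 374012902)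 (nat_lit 331) (nat_lit 1) (nat_lit 330) (nat_lit 1) (nat_lit 338) (nat_lit 1) (nat_lit 327) (nat_lit 354) (nat_lit 339)) (XT.lf (nat_lit 76) (nat_lit 3063185733) (nat_lit 0) (nat_lit 1722656516) (nat_lit 684) (nat_lit 788860292) (nat_lit 323) (nat_lit 1) (nat_lit 322) (nat_lit 1) (nat_lit 331) (nat_lit 1) (nat_lit 328) (nat_lit 354) (nat_lit 338))) (XT.nd (nat_lit 78) (nat_lit 532) (nat_lit 0) (XT.lf (nat_lit 76) (nat_lit 1476469666) (nat_lit 0) (nat_lit 2831611606) (nat_lit 608) (nat_lit 1149176205) (nat_lit 316) (nat_lit 1) (nat_lit 315) (nat_lit 1) (nat_lit 323) (nat_lit 1) (nat_lit 329) (nat_lit 354) (nat_lit 337)) (XT.lf (nat_lit 608) (nat_lit 1387838041) (nat_lit 0) (nat_lit 3884820837) (nat_lit 532) (nat_lit 70712922) (nat_lit 316) (nat_lit 1) (nat_lit 308) (nat_lit 1) (nat_lit 315) (nat_lit 1) (nat_lit 330) (nat_lit 354) (nat_lit 336))))) (XT.nd (nat_lit 234) (nat_lit 1748) (nat_lit 0)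 (XT.nd (nat_lit 78) (nat_lit 1064) (nat_lit 0) (XT.lf (nat_lit 532) (nat_lit 126995068) (nat_lit 0) (nat_lit 3499360558) (nat_lit 456) (nat_lit 1606165906) (nat_lit 309) (nat_lit 1) (nat_lit 302) (nat_lit 1) (nat_lit 308) (nat_lit 1) (nat_lit 331) (nat_lit 354) (nat_lit 335)) (XT.nd (nat_lit 78) (nat_lit 456) (nat_lit 0) (XT.lf (nat_lit 76) (nat_lit 2034845906) (nat_lit 0) (nat_lit 1117705947) (nat_lit 608) (nat_lit 1972142771) (nat_lit 295) (nat_lit 1) (nat_lit 294) (nat_lit 1) (nat_lit 302) (nat_lit 1) (nat_lit 332) (nat_lit 354) (nat_lit 334)) (XT.lf (nat_lit 76) (nat_lit 487674165) (nat_lit 0) (nat_lit 2364063568) (nat_lit 532) (nat_lit 2168331071) (nat_lit 289) (nat_lit 1) (nat_lit 288) (nat_lit 1) (nat_lit 295) (nat_lit 1) (nat_lit 333) (nat_lit 354) (nat_lit 333)))) (XT.nd (nat_lit 156) (nat_lit 836) (nat_lit 0) (XT.nd (nat_lit 78) (nat_lit 456) (nat_lit 0) (XT.lf (nat_lit 532) (nat_lit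 1295466325) (nat_lit 0) (nat_lit 2585398337) (nat_lit 456) (nat_lit 1037408426) (nat_lit 289) (nat_lit 1) (nat_lit 282) (nat_lit 1) (nat_lit 288) (nat_lit 1) (nat_lit 334) (nat_lit 354) (nat_lit 332)) (XT.lf (nat_lit 76) (nat_lit 2290191197) (nat_lit 0) (nat_lit 66050562) (nat_lit 456) (nat_lit 2463109815) (nat_lit 277) (nat_lit 1) (nat_lit 276) (nat_lit 1) (nat_lit 282) (nat_lit 1) (nat_lit 335) (nat_lit 354) (nat_lit 331))) (XT.nd (nat_lit 78) (nat_lit 380) (nat_lit 0) (XT.lf (nat_lit 76) (nat_lit 756427567) (nat_lit 0) (nat_lit 1398355560) (nat_lit 532) (nat_lit 2568210754) (nat_lit 271) (nat_lit 1) (nat_lit 270) (nat_lit 1) (nat_lit 277) (nat_lit 1) (nat_lit 336) (nat_lit 354) (nat_lit 330)) (XT.lf (nat_lit 456) (nat_lit 1896589524) (nat_lit 0) (nat_lit 1984266446) (nat_lit 380) (nat_lit 748405059) (nat_lit 271) (nat_lit 1) (nat_lit 265) (nat_lit 1) (nat_lit 270) (nat_lit 1) (nat_lit 337) (nat_lit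 354) (nat_lit 329))))))))
noncomputable def ec32 : XT := (XT.nd (nat_lit 2106) (nat_lit 4332) (nat_lit 0) (XT.nd (nat_lit 1014) (nat_lit 3344) (nat_lit 0) (XT.nd (nat_lit 468) (nat_lit 2204) (nat_lit 0) (XT.nd (nat_lit 234) (nat_lit 1064) (nat_lit 0) (XT.nd (nat_lit 78) (nat_lit 836) (nat_lit 0) (XT.lf (nat_lit 456) (nat_lit 470418069) (nat_lit 0) (nat_lit 1842820186) (nat_lit 380) (nat_lit 2224827421) (nat_lit 266) (nat_lit 1) (nat_lit 260) (nat_lit 1) (nat_lit 265) (nat_lit 1) (nat_lit 338) (nat_lit 354) (nat_lit 328)) (XT.nd (nat_lit 78) (nat_lit 380) (nat_lit 0) (XT.lf (nat_lit 76) (nat_lit 799909321) (nat_lit 0) (nat_lit 926826392) (nat_lit 456) (nat_lit 2722531885) (nat_lit 255) (nat_lit 1) (nat_lit 254) (nat_lit 1) (nat_lit 260) (nat_lit 1) (nat_lit 339) (nat_lit 354) (nat_lit 327)) (XT.lf (nat_lit 456) (nat_lit 2052458926) (nat_lit 0) (nat_lit 1632216344) (nat_lit 380) (nat_lit 678049349)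 (nat_lit 255) (nat_lit 1) (nat_lit 249) (nat_lit 1) (nat_lit 254) (nat_lit 1) (nat_lit 340) (nat_lit 354) (nat_lit 326)))) (XT.nd (nat_lit 78) (nat_lit 760) (nat_lit 0) (XT.lf (nat_lit 380) (nat_lit 589271540) (nat_lit 0) (nat_lit 1561187623) (nat_lit 304) (nat_lit 2128002671) (nat_lit 250) (nat_lit 1) (nat_lit 245) (nat_lit 1) (nat_lit 249) (nat_lit 1) (nat_lit 341) (nat_lit 354) (nat_lit 325)) (XT.nd (nat_lit 78) (nat_lit 304) (nat_lit 0) (XT.lf (nat_lit 76) (nat_lit 669834164) (nat_lit 0) (nat_lit 841662907) (nat_lit 456) (nat_lit 2684889078) (nat_lit 240) (nat_lit 1) (nat_lit 239) (nat_lit 1) (nat_lit 245) (nat_lit 1) (nat_lit 342) (nat_lit 354) (nat_lit 324)) (XT.lf (nat_lit 380) (nat_lit 1863473220) (nat_lit 0) (nat_lit 1476631402) (nat_lit 304) (nat_lit 776173413) (nat_lit 240) (nat_lit 1) (nat_lit 235) (nat_lit 1) (nat_lit 239) (nat_lit 1) (nat_lit 343) (nat_lit 354) (nat_lit 323))))) (XT.nd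 (nat_lit 234) (nat_lit 1216) (nat_lit 0) (XT.nd (nat_lit 78) (nat_lit 684) (nat_lit 0) (XT.lf (nat_lit 380) (nat_lit 384431229) (nat_lit 0) (nat_lit 1462208212) (nat_lit 304) (nat_lit 2191632418) (nat_lit 236) (nat_lit 1) (nat_lit 231) (nat_lit 1) (nat_lit 235) (nat_lit 1) (nat_lit 344) (nat_lit 354) (nat_lit 322)) (XT.nd (nat_lit 78) (nat_lit 304) (nat_lit 0) (XT.lf (nat_lit 76) (nat_lit 408536032) (nat_lit 0) (nat_lit 1054297661) (nat_lit 380) (nat_lit 2499348132) (nat_lit 227) (nat_lit 1) (nat_lit 226) (nat_lit 1) (nat_lit 231) (nat_lit 1) (nat_lit 345) (nat_lit 354) (nat_lit 321)) (XT.lf (nat_lit 380) (nat_lit 1411956664) (nat_lit 0) (nat_lit 1474181317) (nat_lit 304) (nat_lit 1001715786) (nat_lit 227) (nat_lit 1) (nat_lit 222) (nat_lit 1) (nat_lit 226) (nat_lit 1) (nat_lit 346) (nat_lit 354) (nat_lit 320)))) (XT.nd (nat_lit 156) (nat_lit 608) (nat_lit 0) (XT.nd (nat_lit 78) (nat_lit 304) (nat_lit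 0) (XT.lf (nat_lit 76) (nat_lit 1439483464) (nat_lit 0) (nat_lit 64767394) (nat_lit 304) (nat_lit 2311242216) (nat_lit 219) (nat_lit 1) (nat_lit 218) (nat_lit 1) (nat_lit 222) (nat_lit 1) (nat_lit 347) (nat_lit 354) (nat_lit 319)) (XT.lf (nat_lit 76) (nat_lit 50546180) (nat_lit 0) (nat_lit 1492191447) (nat_lit 380) (nat_lit 2202034898) (nat_lit 215) (nat_lit 1) (nat_lit 214) (nat_lit 1) (nat_lit 219) (nat_lit 1) (nat_lit 348) (nat_lit 354) (nat_lit 318))) (XT.nd (nat_lit 78) (nat_lit 380) (nat_lit 0) (XT.lf (nat_lit 304) (nat_lit 765188954) (nat_lit 0) (nat_lit 1589277065) (nat_lit 228) (nat_lit 1321188910) (nat_lit 215) (nat_lit 1) (nat_lit 211) (nat_lit 1) (nat_lit 214) (nat_lit 1) (nat_lit 349) (nat_lit 354) (nat_lit 317)) (XT.lf (nat_lit 76) (nat_lit 963919687) (nat_lit 0) (nat_lit 684820883) (nat_lit 380) (nat_lit 1959515539) (nat_lit 207) (nat_lit 1) (nat_lit 206) (nat_lit 1) (nat_lit 211)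 (nat_lit 1) (nat_lit 350) (nat_lit 354) (nat_lit 316)))))) (XT.nd (nat_lit 546) (nat_lit 1596) (nat_lit 0) (XT.nd (nat_lit 234) (nat_lit 988) (nat_lit 0) (XT.nd (nat_lit 78) (nat_lit 532) (nat_lit 0) (XT.lf (nat_lit 304) (nat_lit 1442579986) (nat_lit 0) (nat_lit 1716256565) (nat_lit 228) (nat_lit 383572052) (nat_lit 207) (nat_lit 1) (nat_lit 203) (nat_lit 1) (nat_lit 206) (nat_lit 1) (nat_lit 351) (nat_lit 354) (nat_lit 315)) (XT.nd (nat_lit 78) (nat_lit 228) (nat_lit 0) (XT.lf (nat_lit 76) (nat_lit 1770929449) (nat_lit 0) (nat_lit 21629900) (nat_lit 304) (nat_lit 1685549369) (nat_lit 200) (nat_lit 1) (nat_lit 199) (nat_lit 1) (nat_lit 203) (nat_lit 1) (nat_lit 352) (nat_lit 354) (nat_lit 314)) (XT.lf (nat_lit 76) (nat_lit 440105592) (nat_lit 0) (nat_lit 1432394424) (nat_lit 304) (nat_lit 1542681866) (nat_lit 197) (nat_lit 1) (nat_lit 196) (nat_lit 1) (nat_lit 200) (nat_lit 1) (nat_lit 353) (nat_lit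 354) (nat_lit 313)))) (XT.nd (nat_lit 156) (nat_lit 456) (nat_lit 0) (XT.nd (nat_lit 78) (nat_lit 304) (nat_lit 0) (XT.lf (nat_lit 304) (nat_lit 527389771) (nat_lit 0) (nat_lit 1960764127) (nat_lit 228) (nat_lit 865586534) (nat_lit 197) (nat_lit 1) (nat_lit 193) (nat_lit 1) (nat_lit 196) (nat_lit 1) (nat_lit 354) (nat_lit 354) (nat_lit 312)) (XT.lf (nat_lit 76) (nat_lit 1164199310) (nat_lit 0) (nat_lit 887744880) (nat_lit 304) (nat_lit 1241659005) (nat_lit 190) (nat_lit 1) (nat_lit 189) (nat_lit 1) (nat_lit 193) (nat_lit 1) (nat_lit 355) (nat_lit 354) (nat_lit 311))) (XT.nd (nat_lit 78) (nat_lit 228) (nat_lit 0) (XT.lf (nat_lit 304) (nat_lit 967491702) (nat_lit 0) (nat_lit 2152404092) (nat_lit 228) (nat_lit 115036507) (nat_lit 190) (nat_lit 1) (nat_lit 186) (nat_lit 1) (nat_lit 189) (nat_lit 1) (nat_lit 356) (nat_lit 354) (nat_lit 310)) (XT.lf (nat_lit 76) (nat_lit 1805984545) (nat_lit 0) (nat_lit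 445763815) (nat_lit 228) (nat_lit 925653827) (nat_lit 184) (nat_lit 1) (nat_lit 183) (nat_lit 1) (nat_lit 186) (nat_lit 1) (nat_lit 357) (nat_lit 354) (nat_lit 309))))) (XT.nd (nat_lit 234) (nat_lit 912) (nat_lit 0) (XT.nd (nat_lit 78) (nat_lit 456) (nat_lit 0) (XT.lf (nat_lit 76) (nat_lit 543021739) (nat_lit 0) (nat_lit 1813026302) (nat_lit 304) (nat_lit 765119290) (nat_lit 181) (nat_lit 1) (nat_lit 180) (nat_lit 1) (nat_lit 184) (nat_lit 1) (nat_lit 358) (nat_lit 354) (nat_lit 308)) (XT.nd (nat_lit 78) (nat_lit 228) (nat_lit 0) (XT.lf (nat_lit 76) (nat_lit 2374157674) (nat_lit 0) (nat_lit 92087600) (nat_lit 228) (nat_lit 599987980) (nat_lit 178) (nat_lit 1) (nat_lit 177) (nat_lit 1) (nat_lit 180) (nat_lit 1) (nat_lit 359) (nat_lit 354) (nat_lit 307)) (XT.lf (nat_lit 76) (nat_lit 1127089743) (nat_lit 0) (nat_lit 1444420621) (nat_lit 304) (nat_lit 440752655) (nat_lit 175) (nat_lit 1) (nat_lit 174)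 (nat_lit 1) (nat_lit 178) (nat_lit 1) (nat_lit 360) (nat_lit 354) (nat_lit 306)))) (XT.nd (nat_lit 156) (nat_lit 532) (nat_lit 0) (XT.nd (nat_lit 78) (nat_lit 228) (nat_lit 0) (XT.lf (nat_lit 228) (nat_lit 189531536) (nat_lit 0) (nat_lit 2688738205) (nat_lit 152) (nat_lit 81457879) (nat_lit 175) (nat_lit 1) (nat_lit 172) (nat_lit 1) (nat_lit 174) (nat_lit 1) (nat_lit 361) (nat_lit 354) (nat_lit 305)) (XT.lf (nat_lit 76) (nat_lit 1646833935) (nat_lit 0) (nat_lit 1148561281) (nat_lit 228) (nat_lit 112554826) (nat_lit 170) (nat_lit 1) (nat_lit 169) (nat_lit 1) (nat_lit 172) (nat_lit 1) (nat_lit 362) (nat_lit 354) (nat_lit 304))) (XT.nd (nat_lit 78) (nat_lit 228) (nat_lit 0) (XT.lf (nat_lit 228) (nat_lit 401728834) (nat_lit 0) (nat_lit 55707858) (nat_lit 152) (nat_lit 2400058713) (nat_lit 168) (nat_lit 1) (nat_lit 165) (nat_lit 1) (nat_lit 167) (nat_lit 1) (nat_lit 363) (nat_lit 354) (nat_lit 303))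 (XT.lf (nat_lit 228) (nat_lit 1890763459) (nat_lit 0) (nat_lit 220212545) (nat_lit 152) (nat_lit 696913221) (nat_lit 165) (nat_lit 1) (nat_lit 162) (nat_lit 1) (nat_lit 164) (nat_lit 1) (nat_lit 364) (nat_lit 354) (nat_lit 302))))))) (XT.nd (nat_lit 1092) (nat_lit 1900) (nat_lit 0) (XT.nd (nat_lit 546) (nat_lit 1216) (nat_lit 0) (XT.nd (nat_lit 234) (nat_lit 684) (nat_lit 0) (XT.nd (nat_lit 78) (nat_lit 380) (nat_lit 0) (XT.lf (nat_lit 228) (nat_lit 554626877) (nat_lit 0) (nat_lit 386260852) (nat_lit 152) (nat_lit 1818476421) (nat_lit 163) (nat_lit 1) (nat_lit 160) (nat_lit 1) (nat_lit 162) (nat_lit 1) (nat_lit 365) (nat_lit 354) (nat_lit 301)) (XT.nd (nat_lit 78) (nat_lit 152) (nat_lit 0) (XT.lf (nat_lit 228) (nat_lit 1971893067) (nat_lit 0) (nat_lit 552465300) (nat_lit 152) (nat_lit 187501663) (nat_lit 160) (nat_lit 1) (nat_lit 157) (nat_lit 1) (nat_lit 159) (nat_lit 1) (nat_lit 366) (nat_lit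 354) (nat_lit 300)) (XT.lf (nat_lit 228) (nat_lit 660226444) (nat_lit 0) (nat_lit 713240207) (nat_lit 152) (nat_lit 1291728166) (nat_lit 158) (nat_lit 1) (nat_lit 155) (nat_lit 1) (nat_lit 157) (nat_lit 1) (nat_lit 367) (nat_lit 354) (nat_lit 299)))) (XT.nd (nat_lit 156) (nat_lit 304) (nat_lit 0) (XT.nd (nat_lit 78) (nat_lit 152) (nat_lit 0) (XT.lf (nat_lit 76) (nat_lit 266133506) (nat_lit 0) (nat_lit 610628297) (nat_lit 228) (nat_lit 1742825859) (nat_lit 153) (nat_lit 1) (nat_lit 152) (nat_lit 1) (nat_lit 155) (nat_lit 1) (nat_lit 368) (nat_lit 354) (nat_lit 298)) (XT.lf (nat_lit 228) (nat_lit 725895552) (nat_lit 0) (nat_lit 1034302384) (nat_lit 152) (nat_lit 814567793) (nat_lit 153) (nat_lit 1) (nat_lit 150) (nat_lit 1) (nat_lit 152) (nat_lit 1) (nat_lit 369) (nat_lit 354) (nat_lit 297))) (XT.nd (nat_lit 78) (nat_lit 152) (nat_lit 0) (XT.lf (nat_lit 76) (nat_lit 671387223) (nat_lit 0) (nat_lit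 520932579) (nat_lit 152) (nat_lit 1338579035) (nat_lit 149) (nat_lit 1) (nat_lit 148) (nat_lit 1) (nat_lit 150) (nat_lit 1) (nat_lit 370) (nat_lit 354) (nat_lit 296)) (XT.lf (nat_lit 228) (nat_lit 758039408) (nat_lit 0) (nat_lit 1347529405) (nat_lit 152) (nat_lit 382304576) (nat_lit 149) (nat_lit 1) (nat_lit 146) (nat_lit 1) (nat_lit 148) (nat_lit 1) (nat_lit 371) (nat_lit 354) (nat_lit 295))))) (XT.nd (nat_lit 234) (nat_lit 760) (nat_lit 0) (XT.nd (nat_lit 78) (nat_lit 304) (nat_lit 0) (XT.lf (nat_lit 76) (nat_lit 1036185602) (nat_lit 0) (nat_lit 463091046) (nat_lit 152) (nat_lit 946376088) (nat_lit 145) (nat_lit 1) (nat_lit 144) (nat_lit 1) (nat_lit 146) (nat_lit 1) (nat_lit 372) (nat_lit 354) (nat_lit 294)) (XT.nd (nat_lit 78) (nat_lit 152) (nat_lit 0) (XT.lf (nat_lit 76) (nat_lit 9079081) (nat_lit 0) (nat_lit 1642200577) (nat_lit 228) (nat_lit 753048264) (nat_lit 143) (nat_lit 1) (nat_lit 142)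 (nat_lit 1) (nat_lit 145) (nat_lit 1) (nat_lit 373) (nat_lit 354) (nat_lit 293)) (XT.lf (nat_lit 76) (nat_lit 1364348248) (nat_lit 0) (nat_lit 431905358) (nat_lit 152) (nat_lit 567416242) (nat_lit 141) (nat_lit 1) (nat_lit 140) (nat_lit 1) (nat_lit 142) (nat_lit 1) (nat_lit 374) (nat_lit 354) (nat_lit 292)))) (XT.nd (nat_lit 156) (nat_lit 456) (nat_lit 0) (XT.nd (nat_lit 78) (nat_lit 152) (nat_lit 0) (XT.lf (nat_lit 76) (nat_lit 356785995) (nat_lit 0) (nat_lit 1584207124) (nat_lit 228) (nat_lit 382866694) (nat_lit 139) (nat_lit 1) (nat_lit 138) (nat_lit 1) (nat_lit 141) (nat_lit 1) (nat_lit 375) (nat_lit 354) (nat_lit 291)) (XT.lf (nat_lit 76) (nat_lit 1659297583) (nat_lit 0) (nat_lit 422867850) (nat_lit 152) (nat_lit 202619034) (nat_lit 137) (nat_lit 1) (nat_lit 136) (nat_lit 1) (nat_lit 138) (nat_lit 1) (nat_lit 376) (nat_lit 354) (nat_lit 290))) (XT.nd (nat_lit 78) (nat_lit 304) (nat_lit 0)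 (XT.lf (nat_lit 76) (nat_lit 671584261) (nat_lit 0) (nat_lit 1547878713) (nat_lit 228) (nat_lit 26955900) (nat_lit 135) (nat_lit 1) (nat_lit 134) (nat_lit 1) (nat_lit 137) (nat_lit 1) (nat_lit 377) (nat_lit 354) (nat_lit 289)) (XT.lf (nat_lit 228) (nat_lit 1775279574) (nat_lit 0) (nat_lit 150268339) (nat_lit 152) (nat_lit 283252051) (nat_lit 133) (nat_lit 1) (nat_lit 130) (nat_lit 1) (nat_lit 132) (nat_lit 1) (nat_lit 378) (nat_lit 354) (nat_lit 288)))))) (XT.nd (nat_lit 546) (nat_lit 912) (nat_lit 0) (XT.nd (nat_lit 234) (nat_lit 608) (nat_lit 0) (XT.nd (nat_lit 78) (nat_lit 304) (nat_lit 0) (XT.lf (nat_lit 152) (nat_lit 639193531) (nat_lit 0) (nat_lit 320329927) (nat_lit 76) (nat_lit 1212240742) (nat_lit 131) (nat_lit 1) (nat_lit 129) (nat_lit 1) (nat_lit 130) (nat_lit 1) (nat_lit 379) (nat_lit 354) (nat_lit 287)) (XT.nd (nat_lit 78) (nat_lit 76) (nat_lit 0) (XT.lf (nat_lit 76) (nat_lit 30086462)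 (nat_lit 0) (nat_lit 461176985) (nat_lit 228) (nat_lit 1644290176) (nat_lit 127) (nat_lit 1) (nat_lit 126) (nat_lit 1) (nat_lit 129) (nat_lit 1) (nat_lit 380) (nat_lit 354) (nat_lit 286)) (XT.lf (nat_lit 152) (nat_lit 567748209) (nat_lit 0) (nat_lit 652560948) (nat_lit 76) (nat_lit 879537786) (nat_lit 127) (nat_lit 1) (nat_lit 125) (nat_lit 1) (nat_lit 126) (nat_lit 1) (nat_lit 381) (nat_lit 354) (nat_lit 285)))) (XT.nd (nat_lit 156) (nat_lit 304) (nat_lit 0) (XT.nd (nat_lit 78) (nat_lit 76) (nat_lit 0) (XT.lf (nat_lit 76) (nat_lit 310702631) (nat_lit 0) (nat_lit 503100328) (nat_lit 228) (nat_lit 1251105299) (nat_lit 123) (nat_lit 1) (nat_lit 122) (nat_lit 1) (nat_lit 125) (nat_lit 1) (nat_lit 382) (nat_lit 354) (nat_lit 284)) (XT.lf (nat_lit 152) (nat_lit 487128769) (nat_lit 0) (nat_lit 968949496) (nat_lit 76) (nat_lit 574468724) (nat_lit 123) (nat_lit 1) (nat_lit 121) (nat_lit 1) (nat_lit 122)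 (nat_lit 1) (nat_lit 383) (nat_lit 354) (nat_lit 283))) (XT.nd (nat_lit 78) (nat_lit 76) (nat_lit 0) (XT.lf (nat_lit 76) (nat_lit 566429887) (nat_lit 0) (nat_lit 554085190) (nat_lit 228) (nat_lit 876306918) (nat_lit 119) (nat_lit 1) (nat_lit 118) (nat_lit 1) (nat_lit 121) (nat_lit 1) (nat_lit 384) (nat_lit 354) (nat_lit 282)) (XT.lf (nat_lit 152) (nat_lit 399608808) (nat_lit 0) (nat_lit 1269387112) (nat_lit 76) (nat_lit 294749093) (nat_lit 119) (nat_lit 1) (nat_lit 117) (nat_lit 1) (nat_lit 118) (nat_lit 1) (nat_lit 385) (nat_lit 354) (nat_lit 281))))) (XT.nd (nat_lit 234) (nat_lit 532) (nat_lit 0) (XT.nd (nat_lit 78) (nat_lit 228) (nat_lit 0) (XT.lf (nat_lit 76) (nat_lit 799351454) (nat_lit 0) (nat_lit 612002661) (nat_lit 152) (nat_lit 519825429) (nat_lit 116) (nat_lit 1) (nat_lit 115) (nat_lit 1) (nat_lit 117) (nat_lit 1) (nat_lit 386) (nat_lit 354) (nat_lit 280)) (XT.nd (nat_lit 78) (nat_lit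 152) (nat_lit 0) (XT.lf (nat_lit 152) (nat_lit 307131158) (nat_lit 0) (nat_lit 1553885813) (nat_lit 76) (nat_lit 38312608) (nat_lit 116) (nat_lit 1) (nat_lit 114) (nat_lit 1) (nat_lit 115) (nat_lit 1) (nat_lit 387) (nat_lit 354) (nat_lit 279)) (XT.lf (nat_lit 76) (nat_lit 1011351764) (nat_lit 0) (nat_lit 675032547) (nat_lit 152) (nat_lit 181488814) (nat_lit 113) (nat_lit 1) (nat_lit 112) (nat_lit 1) (nat_lit 114) (nat_lit 1) (nat_lit 388) (nat_lit 354) (nat_lit 278)))) (XT.nd (nat_lit 156) (nat_lit 228) (nat_lit 0) (XT.nd (nat_lit 78) (nat_lit 228) (nat_lit 0) (XT.lf (nat_lit 0) (nat_lit 192873783) (nat_lit 0) (nat_lit 1627737292) (nat_lit 152) (nat_lit 16528613) (nat_lit 111) (nat_lit 3) (nat_lit 111) (nat_lit 1) (nat_lit 113) (nat_lit 1) (nat_lit 389) (nat_lit 354) (nat_lit 277)) (XT.lf (nat_lit 152) (nat_lit 1063774529) (nat_lit 0) (nat_lit 141725650) (nat_lit 76) (nat_lit 601260717) (nat_lit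 110) (nat_lit 1) (nat_lit 108) (nat_lit 1) (nat_lit 109) (nat_lit 1) (nat_lit 390) (nat_lit 354) (nat_lit 276))) (XT.nd (nat_lit 78) (nat_lit 152) (nat_lit 0) (XT.lf (nat_lit 76) (nat_lit 106615849) (nat_lit 0) (nat_lit 300253862) (nat_lit 76) (nat_lit 1370172645) (nat_lit 108) (nat_lit 3) (nat_lit 107) (nat_lit 1) (nat_lit 108) (nat_lit 1) (nat_lit 391) (nat_lit 354) (nat_lit 275)) (XT.lf (nat_lit 152) (nat_lit 932947861) (nat_lit 0) (nat_lit 450642135) (nat_lit 76) (nat_lit 364150751) (nat_lit 107) (nat_lit 1) (nat_lit 105) (nat_lit 1) (nat_lit 106) (nat_lit 1) (nat_lit 392) (nat_lit 354) (nat_lit 274))))))))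
noncomputable def ec33 : XT := (XT.nd (nat_lit 48438) (nat_lit 0) (nat_lit 5472) (XT.nd (nat_lit 47346) (nat_lit 0) (nat_lit 14060) (XT.nd (nat_lit 46800) (nat_lit 0) (nat_lit 20216) (XT.nd (nat_lit 234) (nat_lit 228) (nat_lit 0) (XT.nd (nat_lit 78) (nat_lit 304) (nat_lit 0) (XT.lf (nat_lit 76) (nat_lit 3299502) (nat_lit 0) (nat_lit 599741971) (nat_lit 76) (nat_lit 1116001698) (nat_lit 105) (nat_lit 3) (nat_lit 104) (nat_lit 1) (nat_lit 105) (nat_lit 1) (nat_lit 393) (nat_lit 354) (nat_lit 273)) (XT.nd (nat_lit 78) (nat_lit 152) (nat_lit 0) (XT.lf (nat_lit 152) (nat_lit 803211798) (nat_lit 0) (nat_lit 742040660) (nat_lit 76) (nat_lit 145524382) (nat_lit 104) (nat_lit 1) (nat_lit 102) (nat_lit 1) (nat_lit 103) (nat_lit 1) (nat_lit 394) (nat_lit 354) (nat_lit 272)) (XT.lf (nat_lit 76) (nat_lit 783562357) (nat_lit 0) (nat_lit 97464964) (nat_lit 152) (nat_lit 782004075) (nat_lit 101) (nat_lit 1) (nat_lit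 100) (nat_lit 1) (nat_lit 102) (nat_lit 1) (nat_lit 395) (nat_lit 354) (nat_lit 271)))) (XT.nd (nat_lit 46410) (nat_lit 0) (nat_lit 21052) (XT.nd (nat_lit 78) (nat_lit 152) (nat_lit 0) (XT.lf (nat_lit 0) (nat_lit 54894066) (nat_lit 0) (nat_lit 960911592) (nat_lit 152) (nat_lit 619963312) (nat_lit 99) (nat_lit 3) (nat_lit 99) (nat_lit 1) (nat_lit 101) (nat_lit 1) (nat_lit 396) (nat_lit 354) (nat_lit 270)) (XT.lf (nat_lit 76) (nat_lit 948752915) (nat_lit 0) (nat_lit 196770429) (nat_lit 152) (nat_lit 463429861) (nat_lit 98) (nat_lit 1) (nat_lit 97) (nat_lit 1) (nat_lit 99) (nat_lit 1) (nat_lit 397) (nat_lit 354) (nat_lit 269))) (XT.nd (nat_lit 78) (nat_lit 0) (nat_lit 76) (XT.lf (nat_lit 1292) (nat_lit 775361376) (nat_lit 0) (nat_lit 2667603731) (nat_lit 1292) (nat_lit 775361376) (nat_lit 391) (nat_lit 1) (nat_lit 374) (nat_lit 0) (nat_lit 391) (nat_lit 0) (nat_lit 310) (nat_lit 355) (nat_lit 355))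 (XT.lf (nat_lit 1292) (nat_lit 62162080) (nat_lit 0) (nat_lit 5259953611) (nat_lit 1216) (nat_lit 2912111339) (nat_lit 392) (nat_lit 1) (nat_lit 375) (nat_lit 1) (nat_lit 391) (nat_lit 1) (nat_lit 311) (nat_lit 355) (nat_lit 354))))) (XT.nd (nat_lit 234) (nat_lit 912) (nat_lit 0) (XT.nd (nat_lit 78) (nat_lit 0) (nat_lit 76) (XT.lf (nat_lit 1292) (nat_lit 2734864282) (nat_lit 76) (nat_lit 3868365451) (nat_lit 0) (nat_lit 1434765267) (nat_lit 392) (nat_lit 1) (nat_lit 376) (nat_lit 1) (nat_lit 375) (nat_lit 1) (nat_lit 312) (nat_lit 355) (nat_lit 353)) (XT.nd (nat_lit 78) (nat_lit 0) (nat_lit 76) (XT.lf (nat_lit 1292) (nat_lit 2404177608) (nat_lit 76) (nat_lit 2532121996) (nat_lit 0) (nat_lit 2911817129) (nat_lit 393) (nat_lit 1) (nat_lit 377) (nat_lit 1) (nat_lit 376) (nat_lit 1) (nat_lit 313) (nat_lit 355) (nat_lit 352)) (XT.lf (nat_lit 1292) (nat_lit 1989618857) (nat_lit 76) (nat_lit 1307973274)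 (nat_lit 0) (nat_lit 4366786631) (nat_lit 394) (nat_lit 1) (nat_lit 378) (nat_lit 1) (nat_lit 377) (nat_lit 1) (nat_lit 314) (nat_lit 355) (nat_lit 351)))) (XT.nd (nat_lit 156) (nat_lit 1140) (nat_lit 0) (XT.nd (nat_lit 78) (nat_lit 0) (nat_lit 76) (XT.lf (nat_lit 1292) (nat_lit 1497581095) (nat_lit 76) (nat_lit 190159968) (nat_lit 0) (nat_lit 5798817507) (nat_lit 395) (nat_lit 1) (nat_lit 379) (nat_lit 1) (nat_lit 378) (nat_lit 1) (nat_lit 315) (nat_lit 355) (nat_lit 350)) (XT.lf (nat_lit 1292) (nat_lit 115230878) (nat_lit 0) (nat_lit 6388297631) (nat_lit 1216) (nat_lit 810675536) (nat_lit 396) (nat_lit 1) (nat_lit 379) (nat_lit 1) (nat_lit 395) (nat_lit 1) (nat_lit 316) (nat_lit 355) (nat_lit 349))) (XT.nd (nat_lit 78) (nat_lit 1216) (nat_lit 0) (XT.lf (nat_lit 1292) (nat_lit 273122251) (nat_lit 76) (nat_lit 5418857593) (nat_lit 0) (nat_lit 1454921734) (nat_lit 396) (nat_lit 1) (nat_lit 380)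 (nat_lit 1) (nat_lit 379) (nat_lit 1) (nat_lit 317) (nat_lit 355) (nat_lit 348)) (XT.lf (nat_lit 1368) (nat_lit 3991678601) (nat_lit 0) (nat_lit 431458709) (nat_lit 1292) (nat_lit 2561637548) (nat_lit 381) (nat_lit 1) (nat_lit 363) (nat_lit 1) (nat_lit 380) (nat_lit 1) (nat_lit 318) (nat_lit 355) (nat_lit 347)))))) (XT.nd (nat_lit 546) (nat_lit 3648) (nat_lit 0) (XT.nd (nat_lit 234) (nat_lit 1824) (nat_lit 0) (XT.nd (nat_lit 78) (nat_lit 760) (nat_lit 0) (XT.lf (nat_lit 1368) (nat_lit 2329921163) (nat_lit 0) (nat_lit 1183871875) (nat_lit 1292) (nat_lit 3313906624) (nat_lit 382) (nat_lit 1) (nat_lit 364) (nat_lit 1) (nat_lit 381) (nat_lit 1) (nat_lit 319) (nat_lit 355) (nat_lit 346)) (XT.nd (nat_lit 78) (nat_lit 836) (nat_lit 0) (XT.lf (nat_lit 76) (nat_lit 704114536) (nat_lit 0) (nat_lit 1984831467) (nat_lit 1292) (nat_lit 3986626966) (nat_lit 366) (nat_lit 1) (nat_lit 365) (nat_lit 1) (nat_lit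 382) (nat_lit 1) (nat_lit 320) (nat_lit 355) (nat_lit 345)) (XT.lf (nat_lit 912) (nat_lit 3689281233) (nat_lit 0) (nat_lit 1935280337) (nat_lit 836) (nat_lit 903397987) (nat_lit 366) (nat_lit 1) (nat_lit 354) (nat_lit 1) (nat_lit 365) (nat_lit 1) (nat_lit 321) (nat_lit 355) (nat_lit 344)))) (XT.nd (nat_lit 156) (nat_lit 608) (nat_lit 0) (XT.nd (nat_lit 78) (nat_lit 608) (nat_lit 0) (XT.lf (nat_lit 684) (nat_lit 2645560633) (nat_lit 0) (nat_lit 1250823019) (nat_lit 608) (nat_lit 2488371833) (nat_lit 355) (nat_lit 1) (nat_lit 346) (nat_lit 1) (nat_lit 354) (nat_lit 1) (nat_lit 322) (nat_lit 355) (nat_lit 343)) (XT.lf (nat_lit 684) (nat_lit 1570368151) (nat_lit 0) (nat_lit 638706496) (nat_lit 608) (nat_lit 4036931750) (nat_lit 347) (nat_lit 1) (nat_lit 338) (nat_lit 1) (nat_lit 346) (nat_lit 1) (nat_lit 323) (nat_lit 355) (nat_lit 342))) (XT.nd (nat_lit 78) (nat_lit 76) (nat_lit 0) (XT.lf (nat_lit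 608) (nat_lit 467156486) (nat_lit 0) (nat_lit 95136760) (nat_lit 532) (nat_lit 5549263815) (nat_lit 339) (nat_lit 1) (nat_lit 331) (nat_lit 1) (nat_lit 338) (nat_lit 1) (nat_lit 324) (nat_lit 355) (nat_lit 341)) (XT.lf (nat_lit 76) (nat_lit 4925966925) (nat_lit 0) (nat_lit 661966379) (nat_lit 608) (nat_lit 392713547) (nat_lit 331) (nat_lit 1) (nat_lit 330) (nat_lit 1) (nat_lit 338) (nat_lit 1) (nat_lit 325) (nat_lit 355) (nat_lit 340))))) (XT.nd (nat_lit 234) (nat_lit 1976) (nat_lit 0) (XT.nd (nat_lit 78) (nat_lit 1064) (nat_lit 0) (XT.lf (nat_lit 76) (nat_lit 3216345020) (nat_lit 0) (nat_lit 1808789342) (nat_lit 684) (nat_lit 828303307) (nat_lit 323) (nat_lit 1) (nat_lit 322) (nat_lit 1) (nat_lit 331) (nat_lit 1) (nat_lit 326) (nat_lit 355) (nat_lit 339)) (XT.nd (nat_lit 78) (nat_lit 532) (nat_lit 0) (XT.lf (nat_lit 76) (nat_lit 1550293149) (nat_lit 0) (nat_lit 2973192186) (nat_lit 608) (nat_lit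 1206635015) (nat_lit 316) (nat_lit 1) (nat_lit 315) (nat_lit 1) (nat_lit 323) (nat_lit 1) (nat_lit 327) (nat_lit 355) (nat_lit 338)) (XT.lf (nat_lit 608) (nat_lit 1457229943) (nat_lit 0) (nat_lit 4079061879) (nat_lit 532) (nat_lit 74248569) (nat_lit 316) (nat_lit 1) (nat_lit 308) (nat_lit 1) (nat_lit 315) (nat_lit 1) (nat_lit 328) (nat_lit 355) (nat_lit 337)))) (XT.nd (nat_lit 156) (nat_lit 912) (nat_lit 0) (XT.nd (nat_lit 78) (nat_lit 608) (nat_lit 0) (XT.lf (nat_lit 532) (nat_lit 133344821) (nat_lit 0) (nat_lit 3674328586) (nat_lit 456) (nat_lit 1686474201) (nat_lit 309) (nat_lit 1) (nat_lit 302) (nat_lit 1) (nat_lit 308) (nat_lit 1) (nat_lit 329) (nat_lit 355) (nat_lit 336)) (XT.lf (nat_lit 76) (nat_lit 2136588201) (nat_lit 0) (nat_lit 1173591244) (nat_lit 608) (nat_lit 2070749909) (nat_lit 295) (nat_lit 1) (nat_lit 294) (nat_lit 1) (nat_lit 302) (nat_lit 1) (nat_lit 330) (nat_lit 355) (nat_lit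 335))) (XT.nd (nat_lit 78) (nat_lit 456) (nat_lit 0) (XT.lf (nat_lit 76) (nat_lit 512057873) (nat_lit 0) (nat_lit 2482266747) (nat_lit 532) (nat_lit 2276747625) (nat_lit 289) (nat_lit 1) (nat_lit 288) (nat_lit 1) (nat_lit 295) (nat_lit 1) (nat_lit 331) (nat_lit 355) (nat_lit 334)) (XT.lf (nat_lit 532) (nat_lit 1360239642) (nat_lit 0) (nat_lit 2714668254) (nat_lit 456) (nat_lit 1089278848) (nat_lit 289) (nat_lit 1) (nat_lit 282) (nat_lit 1) (nat_lit 288) (nat_lit 1) (nat_lit 332) (nat_lit 355) (nat_lit 333))))))) (XT.nd (nat_lit 1092) (nat_lit 3420) (nat_lit 0) (XT.nd (nat_lit 546) (nat_lit 2356) (nat_lit 0) (XT.nd (nat_lit 234) (nat_lit 1520) (nat_lit 0) (XT.nd (nat_lit 78) (nat_lit 836) (nat_lit 0) (XT.lf (nat_lit 76) (nat_lit 2404700757) (nat_lit 0) (nat_lit 69353090) (nat_lit 456) (nat_lit 2586265305) (nat_lit 277) (nat_lit 1) (nat_lit 276) (nat_lit 1) (nat_lit 282) (nat_lit 1) (nat_lit 333)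 (nat_lit 355) (nat_lit 332)) (XT.nd (nat_lit 78) (nat_lit 380) (nat_lit 0) (XT.lf (nat_lit 76) (nat_lit 794248945) (nat_lit 0) (nat_lit 1468273338) (nat_lit 532) (nat_lit 2696621292) (nat_lit 271) (nat_lit 1) (nat_lit 270) (nat_lit 1) (nat_lit 277) (nat_lit 1) (nat_lit 334) (nat_lit 355) (nat_lit 331)) (XT.lf (nat_lit 456) (nat_lit 1991419000) (nat_lit 0) (nat_lit 2083479769) (nat_lit 380) (nat_lit 785825312) (nat_lit 271) (nat_lit 1) (nat_lit 265) (nat_lit 1) (nat_lit 270) (nat_lit 1) (nat_lit 335) (nat_lit 355) (nat_lit 330)))) (XT.nd (nat_lit 156) (nat_lit 684) (nat_lit 0) (XT.nd (nat_lit 78) (nat_lit 456) (nat_lit 0) (XT.lf (nat_lit 456) (nat_lit 493938972) (nat_lit 0) (nat_lit 1934961195) (nat_lit 380) (nat_lit 2336068793) (nat_lit 266) (nat_lit 1) (nat_lit 260) (nat_lit 1) (nat_lit 265) (nat_lit 1) (nat_lit 336) (nat_lit 355) (nat_lit 329)) (XT.lf (nat_lit 76) (nat_lit 839904787) (nat_lit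 0) (nat_lit 973167711) (nat_lit 456) (nat_lit 2858658479) (nat_lit 255) (nat_lit 1) (nat_lit 254) (nat_lit 1) (nat_lit 260) (nat_lit 1) (nat_lit 337) (nat_lit 355) (nat_lit 328))) (XT.nd (nat_lit 78) (nat_lit 304) (nat_lit 0) (XT.lf (nat_lit 456) (nat_lit 2155081872) (nat_lit 0) (nat_lit 1713827161) (nat_lit 380) (nat_lit 711951817) (nat_lit 255) (nat_lit 1) (nat_lit 249) (nat_lit 1) (nat_lit 254) (nat_lit 1) (nat_lit 338) (nat_lit 355) (nat_lit 327)) (XT.lf (nat_lit 380) (nat_lit 618735117) (nat_lit 0) (nat_lit 1639247004) (nat_lit 304) (nat_lit 2234402805) (nat_lit 250) (nat_lit 1) (nat_lit 245) (nat_lit 1) (nat_lit 249) (nat_lit 1) (nat_lit 339) (nat_lit 355) (nat_lit 326))))) (XT.nd (nat_lit 234) (nat_lit 1292) (nat_lit 0) (XT.nd (nat_lit 78) (nat_lit 608) (nat_lit 0) (XT.lf (nat_lit 76) (nat_lit 703325872) (nat_lit 0) (nat_lit 883746052) (nat_lit 456) (nat_lit 2819133532) (nat_lit 240) (nat_lit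 1) (nat_lit 239) (nat_lit 1) (nat_lit 245) (nat_lit 1) (nat_lit 340) (nat_lit 355) (nat_lit 325)) (XT.nd (nat_lit 78) (nat_lit 304) (nat_lit 0) (XT.lf (nat_lit 380) (nat_lit 1956646881) (nat_lit 0) (nat_lit 1550462972) (nat_lit 304) (nat_lit 814982084) (nat_lit 240) (nat_lit 1) (nat_lit 235) (nat_lit 1) (nat_lit 239) (nat_lit 1) (nat_lit 341) (nat_lit 355) (nat_lit 324)) (XT.lf (nat_lit 380) (nat_lit 403652790) (nat_lit 0) (nat_lit 1535318623) (nat_lit 304) (nat_lit 2301214039) (nat_lit 236) (nat_lit 1) (nat_lit 231) (nat_lit 1) (nat_lit 235) (nat_lit 1) (nat_lit 342) (nat_lit 355) (nat_lit 323)))) (XT.nd (nat_lit 156) (nat_lit 608) (nat_lit 0) (XT.nd (nat_lit 78) (nat_lit 304) (nat_lit 0) (XT.lf (nat_lit 76) (nat_lit 428962833) (nat_lit 0) (nat_lit 1107012544) (nat_lit 380) (nat_lit 2624315539) (nat_lit 227) (nat_lit 1) (nat_lit 226) (nat_lit 1) (nat_lit 231) (nat_lit 1) (nat_lit 343) (nat_lit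 355) (nat_lit 322)) (XT.lf (nat_lit 380) (nat_lit 1482554497) (nat_lit 0) (nat_lit 1547890383) (nat_lit 304) (nat_lit 1051801575) (nat_lit 227) (nat_lit 1) (nat_lit 222) (nat_lit 1) (nat_lit 226) (nat_lit 1) (nat_lit 344) (nat_lit 355) (nat_lit 321))) (XT.nd (nat_lit 78) (nat_lit 304) (nat_lit 0) (XT.lf (nat_lit 76) (nat_lit 1511457637) (nat_lit 0) (nat_lit 68005764) (nat_lit 304) (nat_lit 2426804327) (nat_lit 219) (nat_lit 1) (nat_lit 218) (nat_lit 1) (nat_lit 222) (nat_lit 1) (nat_lit 345) (nat_lit 355) (nat_lit 320)) (XT.lf (nat_lit 76) (nat_lit 53073490) (nat_lit 0) (nat_lit 1566801019) (nat_lit 380) (nat_lit 2312136643) (nat_lit 215) (nat_lit 1) (nat_lit 214) (nat_lit 1) (nat_lit 219) (nat_lit 1) (nat_lit 346) (nat_lit 355) (nat_lit 319)))))) (XT.nd (nat_lit 546) (nat_lit 1520) (nat_lit 0) (XT.nd (nat_lit 234) (nat_lit 1064) (nat_lit 0) (XT.nd (nat_lit 78) (nat_lit 608) (nat_lit 0) (XT.lf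 (nat_lit 304) (nat_lit 803448402) (nat_lit 0) (nat_lit 1668740918) (nat_lit 228) (nat_lit 1387248356) (nat_lit 215) (nat_lit 1) (nat_lit 211) (nat_lit 1) (nat_lit 214) (nat_lit 1) (nat_lit 347) (nat_lit 355) (nat_lit 318)) (XT.nd (nat_lit 78) (nat_lit 228) (nat_lit 0) (XT.lf (nat_lit 76) (nat_lit 1012115671) (nat_lit 0) (nat_lit 719061927) (nat_lit 380) (nat_lit 2057491316) (nat_lit 207) (nat_lit 1) (nat_lit 206) (nat_lit 1) (nat_lit 211) (nat_lit 1) (nat_lit 348) (nat_lit 355) (nat_lit 317)) (XT.lf (nat_lit 304) (nat_lit 1514708986) (nat_lit 0) (nat_lit 1802069393) (nat_lit 228) (nat_lit 402750654) (nat_lit 207) (nat_lit 1) (nat_lit 203) (nat_lit 1) (nat_lit 206) (nat_lit 1) (nat_lit 349) (nat_lit 355) (nat_lit 316)))) (XT.nd (nat_lit 156) (nat_lit 532) (nat_lit 0) (XT.nd (nat_lit 78) (nat_lit 228) (nat_lit 0) (XT.lf (nat_lit 76) (nat_lit 1859475921) (nat_lit 0) (nat_lit 22711395) (nat_lit 304)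 (nat_lit 1769826838) (nat_lit 200) (nat_lit 1) (nat_lit 199) (nat_lit 1) (nat_lit 203) (nat_lit 1) (nat_lit 350) (nat_lit 355) (nat_lit 315)) (XT.lf (nat_lit 76) (nat_lit 462110872) (nat_lit 0) (nat_lit 1504014145) (nat_lit 304) (nat_lit 1619815959) (nat_lit 197) (nat_lit 1) (nat_lit 196) (nat_lit 1) (nat_lit 200) (nat_lit 1) (nat_lit 351) (nat_lit 355) (nat_lit 314))) (XT.nd (nat_lit 78) (nat_lit 304) (nat_lit 0) (XT.lf (nat_lit 304) (nat_lit 553759260) (nat_lit 0) (nat_lit 2058802334) (nat_lit 228) (nat_lit 908865861) (nat_lit 197) (nat_lit 1) (nat_lit 193) (nat_lit 1) (nat_lit 196) (nat_lit 1) (nat_lit 352) (nat_lit 355) (nat_lit 313)) (XT.lf (nat_lit 76) (nat_lit 1222409276) (nat_lit 0) (nat_lit 932132124) (nat_lit 304) (nat_lit 1303741956) (nat_lit 190) (nat_lit 1) (nat_lit 189) (nat_lit 1) (nat_lit 193) (nat_lit 1) (nat_lit 353) (nat_lit 355) (nat_lit 312))))) (XT.nd (nat_lit 234) (nat_lit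 836) (nat_lit 0) (XT.nd (nat_lit 78) (nat_lit 456) (nat_lit 0) (XT.lf (nat_lit 304) (nat_lit 1015866287) (nat_lit 0) (nat_lit 2260024297) (nat_lit 228) (nat_lit 120788332) (nat_lit 190) (nat_lit 1) (nat_lit 186) (nat_lit 1) (nat_lit 189) (nat_lit 1) (nat_lit 354) (nat_lit 355) (nat_lit 311)) (XT.nd (nat_lit 78) (nat_lit 228) (nat_lit 0) (XT.lf (nat_lit 76) (nat_lit 1896283772) (nat_lit 0) (nat_lit 468052006) (nat_lit 228) (nat_lit 971936519) (nat_lit 184) (nat_lit 1) (nat_lit 183) (nat_lit 1) (nat_lit 186) (nat_lit 1) (nat_lit 355) (nat_lit 355) (nat_lit 310)) (XT.lf (nat_lit 76) (nat_lit 570172826) (nat_lit 0) (nat_lit 1903677617) (nat_lit 304) (nat_lit 803375255) (nat_lit 181) (nat_lit 1) (nat_lit 180) (nat_lit 1) (nat_lit 184) (nat_lit 1) (nat_lit 356) (nat_lit 355) (nat_lit 309)))) (XT.nd (nat_lit 156) (nat_lit 380) (nat_lit 0) (XT.nd (nat_lit 78) (nat_lit 228) (nat_lit 0) (XT.lf (nat_lit 76)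 (nat_lit 2492865557) (nat_lit 0) (nat_lit 96691980) (nat_lit 228) (nat_lit 629987379) (nat_lit 178) (nat_lit 1) (nat_lit 177) (nat_lit 1) (nat_lit 180) (nat_lit 1) (nat_lit 357) (nat_lit 355) (nat_lit 308)) (XT.lf (nat_lit 76) (nat_lit 1183444230) (nat_lit 0) (nat_lit 1516641652) (nat_lit 304) (nat_lit 462790288) (nat_lit 175) (nat_lit 1) (nat_lit 174) (nat_lit 1) (nat_lit 178) (nat_lit 1) (nat_lit 358) (nat_lit 355) (nat_lit 307))) (XT.nd (nat_lit 78) (nat_lit 228) (nat_lit 0) (XT.lf (nat_lit 228) (nat_lit 199008112) (nat_lit 0) (nat_lit 2823175116) (nat_lit 152) (nat_lit 85530773) (nat_lit 175) (nat_lit 1) (nat_lit 172) (nat_lit 1) (nat_lit 174) (nat_lit 1) (nat_lit 359) (nat_lit 355) (nat_lit 306)) (XT.lf (nat_lit 76) (nat_lit 1729175631) (nat_lit 0) (nat_lit 1205989345) (nat_lit 228) (nat_lit 118182567) (nat_lit 170) (nat_lit 1) (nat_lit 169) (nat_lit 1) (nat_lit 172) (nat_lit 1) (nat_lit 360)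 (nat_lit 355) (nat_lit 305))))))))
noncomputable def ec34 : XT := (XT.nd (nat_lit 2184) (nat_lit 1064) (nat_lit 0) (XT.nd (nat_lit 1092) (nat_lit 2128) (nat_lit 0) (XT.nd (nat_lit 546) (nat_lit 1064) (nat_lit 0) (XT.nd (nat_lit 234) (nat_lit 760) (nat_lit 0) (XT.nd (nat_lit 78) (nat_lit 380) (nat_lit 0) (XT.lf (nat_lit 228) (nat_lit 421815275) (nat_lit 0) (nat_lit 58493251) (nat_lit 152) (nat_lit 2520061649) (nat_lit 168) (nat_lit 1) (nat_lit 165) (nat_lit 1) (nat_lit 167) (nat_lit 1) (nat_lit 361) (nat_lit 355) (nat_lit 304)) (XT.nd (nat_lit 78) (nat_lit 152) (nat_lit 0) (XT.lf (nat_lit 228) (nat_lit 1985301632) (nat_lit 0) (nat_lit 231223172) (nat_lit 152) (nat_lit 731758882) (nat_lit 165) (nat_lit 1) (nat_lit 162) (nat_lit 1) (nat_lit 164) (nat_lit 1) (nat_lit 362) (nat_lit 355) (nat_lit 303)) (XT.lf (nat_lit 228) (nat_lit 582358221) (nat_lit 0) (nat_lit 405573894) (nat_lit 152) (nat_lit 1909400242)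 (nat_lit 163) (nat_lit 1) (nat_lit 160) (nat_lit 1) (nat_lit 162) (nat_lit 1) (nat_lit 363) (nat_lit 355) (nat_lit 302)))) (XT.nd (nat_lit 156) (nat_lit 380) (nat_lit 0) (XT.nd (nat_lit 78) (nat_lit 152) (nat_lit 0) (XT.lf (nat_lit 228) (nat_lit 2070487720) (nat_lit 0) (nat_lit 580088565) (nat_lit 152) (nat_lit 196876746) (nat_lit 160) (nat_lit 1) (nat_lit 157) (nat_lit 1) (nat_lit 159) (nat_lit 1) (nat_lit 364) (nat_lit 355) (nat_lit 301)) (XT.lf (nat_lit 228) (nat_lit 693237766) (nat_lit 0) (nat_lit 748902217) (nat_lit 152) (nat_lit 1356314575) (nat_lit 158) (nat_lit 1) (nat_lit 155) (nat_lit 1) (nat_lit 157) (nat_lit 1) (nat_lit 365) (nat_lit 355) (nat_lit 300))) (XT.nd (nat_lit 78) (nat_lit 152) (nat_lit 0) (XT.lf (nat_lit 76) (nat_lit 279440181) (nat_lit 0) (nat_lit 641159711) (nat_lit 228) (nat_lit 1829967152) (nat_lit 153) (nat_lit 1) (nat_lit 152) (nat_lit 1) (nat_lit 155) (nat_lit 1) (nat_lit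 366) (nat_lit 355) (nat_lit 299)) (XT.lf (nat_lit 228) (nat_lit 762190329) (nat_lit 0) (nat_lit 1086017504) (nat_lit 152) (nat_lit 855296182) (nat_lit 153) (nat_lit 1) (nat_lit 150) (nat_lit 1) (nat_lit 152) (nat_lit 1) (nat_lit 367) (nat_lit 355) (nat_lit 298))))) (XT.nd (nat_lit 234) (nat_lit 608) (nat_lit 0) (XT.nd (nat_lit 78) (nat_lit 304) (nat_lit 0) (XT.lf (nat_lit 76) (nat_lit 704956584) (nat_lit 0) (nat_lit 546979208) (nat_lit 152) (nat_lit 1405507986) (nat_lit 149) (nat_lit 1) (nat_lit 148) (nat_lit 1) (nat_lit 150) (nat_lit 1) (nat_lit 368) (nat_lit 355) (nat_lit 297)) (XT.nd (nat_lit 78) (nat_lit 152) (nat_lit 0) (XT.lf (nat_lit 228) (nat_lit 795941379) (nat_lit 0) (nat_lit 1414905875) (nat_lit 152) (nat_lit 401419805) (nat_lit 149) (nat_lit 1) (nat_lit 146) (nat_lit 1) (nat_lit 148) (nat_lit 1) (nat_lit 369) (nat_lit 355) (nat_lit 296)) (XT.lf (nat_lit 76) (nat_lit 1087994882) (nat_lit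 0) (nat_lit 486245598) (nat_lit 152) (nat_lit 993694893) (nat_lit 145) (nat_lit 1) (nat_lit 144) (nat_lit 1) (nat_lit 146) (nat_lit 1) (nat_lit 370) (nat_lit 355) (nat_lit 295)))) (XT.nd (nat_lit 156) (nat_lit 304) (nat_lit 0) (XT.nd (nat_lit 78) (nat_lit 152) (nat_lit 0) (XT.lf (nat_lit 76) (nat_lit 9533035) (nat_lit 0) (nat_lit 1724310606) (nat_lit 228) (nat_lit 790700677) (nat_lit 143) (nat_lit 1) (nat_lit 142) (nat_lit 1) (nat_lit 145) (nat_lit 1) (nat_lit 371) (nat_lit 355) (nat_lit 294)) (XT.lf (nat_lit 76) (nat_lit 1432565660) (nat_lit 0) (nat_lit 453500626) (nat_lit 152) (nat_lit 595787054) (nat_lit 141) (nat_lit 1) (nat_lit 140) (nat_lit 1) (nat_lit 142) (nat_lit 1) (nat_lit 372) (nat_lit 355) (nat_lit 293))) (XT.nd (nat_lit 78) (nat_lit 152) (nat_lit 0) (XT.lf (nat_lit 76) (nat_lit 374625295) (nat_lit 0) (nat_lit 1663417480) (nat_lit 228) (nat_lit 402010029) (nat_lit 139) (nat_lit 1)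 (nat_lit 138) (nat_lit 1) (nat_lit 141) (nat_lit 1) (nat_lit 373) (nat_lit 355) (nat_lit 292)) (XT.lf (nat_lit 76) (nat_lit 1742262462) (nat_lit 0) (nat_lit 444011242) (nat_lit 152) (nat_lit 212749985) (nat_lit 137) (nat_lit 1) (nat_lit 136) (nat_lit 1) (nat_lit 138) (nat_lit 1) (nat_lit 374) (nat_lit 355) (nat_lit 291)))))) (XT.nd (nat_lit 546) (nat_lit 988) (nat_lit 0) (XT.nd (nat_lit 234) (nat_lit 608) (nat_lit 0) (XT.nd (nat_lit 78) (nat_lit 380) (nat_lit 0) (XT.lf (nat_lit 76) (nat_lit 705163474) (nat_lit 0) (nat_lit 1625272648) (nat_lit 228) (nat_lit 28303695) (nat_lit 135) (nat_lit 1) (nat_lit 134) (nat_lit 1) (nat_lit 137) (nat_lit 1) (nat_lit 375) (nat_lit 355) (nat_lit 290)) (XT.nd (nat_lit 78) (nat_lit 76) (nat_lit 0) (XT.lf (nat_lit 228) (nat_lit 1864043553) (nat_lit 0) (nat_lit 157781756) (nat_lit 152) (nat_lit 297414654) (nat_lit 133) (nat_lit 1) (nat_lit 130) (nat_lit 1) (nat_lit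 132) (nat_lit 1) (nat_lit 376) (nat_lit 355) (nat_lit 289)) (XT.lf (nat_lit 152) (nat_lit 671153208) (nat_lit 0) (nat_lit 336346423) (nat_lit 76) (nat_lit 1272852779) (nat_lit 131) (nat_lit 1) (nat_lit 129) (nat_lit 1) (nat_lit 130) (nat_lit 1) (nat_lit 377) (nat_lit 355) (nat_lit 288)))) (XT.nd (nat_lit 156) (nat_lit 304) (nat_lit 0) (XT.nd (nat_lit 78) (nat_lit 76) (nat_lit 0) (XT.lf (nat_lit 76) (nat_lit 31590786) (nat_lit 0) (nat_lit 484235834) (nat_lit 228) (nat_lit 1726504685) (nat_lit 127) (nat_lit 1) (nat_lit 126) (nat_lit 1) (nat_lit 129) (nat_lit 1) (nat_lit 378) (nat_lit 355) (nat_lit 287)) (XT.lf (nat_lit 152) (nat_lit 596135619) (nat_lit 0) (nat_lit 685188996) (nat_lit 76) (nat_lit 923514675) (nat_lit 127) (nat_lit 1) (nat_lit 125) (nat_lit 1) (nat_lit 126) (nat_lit 1) (nat_lit 379) (nat_lit 355) (nat_lit 286))) (XT.nd (nat_lit 78) (nat_lit 76) (nat_lit 0) (XT.lf (nat_lit 76) (nat_lit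 326237762) (nat_lit 0) (nat_lit 528255345) (nat_lit 228) (nat_lit 1313660564) (nat_lit 123) (nat_lit 1) (nat_lit 122) (nat_lit 1) (nat_lit 125) (nat_lit 1) (nat_lit 380) (nat_lit 355) (nat_lit 285)) (XT.lf (nat_lit 152) (nat_lit 511485208) (nat_lit 0) (nat_lit 1017396971) (nat_lit 76) (nat_lit 603192160) (nat_lit 123) (nat_lit 1) (nat_lit 121) (nat_lit 1) (nat_lit 122) (nat_lit 1) (nat_lit 381) (nat_lit 355) (nat_lit 284))))) (XT.nd (nat_lit 234) (nat_lit 532) (nat_lit 0) (XT.nd (nat_lit 78) (nat_lit 228) (nat_lit 0) (XT.lf (nat_lit 76) (nat_lit 594751381) (nat_lit 0) (nat_lit 581789449) (nat_lit 228) (nat_lit 920122263) (nat_lit 119) (nat_lit 1) (nat_lit 118) (nat_lit 1) (nat_lit 121) (nat_lit 1) (nat_lit 382) (nat_lit 355) (nat_lit 283)) (XT.nd (nat_lit 78) (nat_lit 152) (nat_lit 0) (XT.lf (nat_lit 152) (nat_lit 419589249) (nat_lit 0) (nat_lit 1332856467) (nat_lit 76) (nat_lit 309486548) (nat_lit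 119) (nat_lit 1) (nat_lit 117) (nat_lit 1) (nat_lit 118) (nat_lit 1) (nat_lit 383) (nat_lit 355) (nat_lit 282)) (XT.lf (nat_lit 76) (nat_lit 839319027) (nat_lit 0) (nat_lit 642602794) (nat_lit 152) (nat_lit 545816700) (nat_lit 116) (nat_lit 1) (nat_lit 115) (nat_lit 1) (nat_lit 117) (nat_lit 1) (nat_lit 384) (nat_lit 355) (nat_lit 281)))) (XT.nd (nat_lit 156) (nat_lit 304) (nat_lit 0) (XT.nd (nat_lit 78) (nat_lit 152) (nat_lit 0) (XT.lf (nat_lit 152) (nat_lit 322487715) (nat_lit 0) (nat_lit 1631580104) (nat_lit 76) (nat_lit 40228238) (nat_lit 116) (nat_lit 1) (nat_lit 114) (nat_lit 1) (nat_lit 115) (nat_lit 1) (nat_lit 385) (nat_lit 355) (nat_lit 280)) (XT.lf (nat_lit 76) (nat_lit 1061919352) (nat_lit 0) (nat_lit 708784174) (nat_lit 152) (nat_lit 190563254) (nat_lit 113) (nat_lit 1) (nat_lit 112) (nat_lit 1) (nat_lit 114) (nat_lit 1) (nat_lit 386) (nat_lit 355) (nat_lit 279))) (XT.nd (nat_lit 78)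 (nat_lit 228) (nat_lit 0) (XT.lf (nat_lit 0) (nat_lit 202517472) (nat_lit 0) (nat_lit 1709124156) (nat_lit 152) (nat_lit 17355043) (nat_lit 111) (nat_lit 3) (nat_lit 111) (nat_lit 1) (nat_lit 113) (nat_lit 1) (nat_lit 387) (nat_lit 355) (nat_lit 278)) (XT.lf (nat_lit 152) (nat_lit 1116963255) (nat_lit 0) (nat_lit 148811932) (nat_lit 76) (nat_lit 631323752) (nat_lit 110) (nat_lit 1) (nat_lit 108) (nat_lit 1) (nat_lit 109) (nat_lit 1) (nat_lit 388) (nat_lit 355) (nat_lit 277))))))) (XT.nd (nat_lit 47190) (nat_lit 0) (nat_lit 16264) (XT.nd (nat_lit 546) (nat_lit 228) (nat_lit 0) (XT.nd (nat_lit 234) (nat_lit 532) (nat_lit 0) (XT.nd (nat_lit 78) (nat_lit 228) (nat_lit 0) (XT.lf (nat_lit 76) (nat_lit 111946641) (nat_lit 0) (nat_lit 315266555) (nat_lit 76) (nat_lit 1438681277) (nat_lit 108) (nat_lit 3) (nat_lit 107) (nat_lit 1) (nat_lit 108) (nat_lit 1) (nat_lit 389) (nat_lit 355) (nat_lit 276)) (XT.nd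 (nat_lit 78) (nat_lit 76) (nat_lit 0) (XT.lf (nat_lit 152) (nat_lit 979595254) (nat_lit 0) (nat_lit 473174241) (nat_lit 76) (nat_lit 382358289) (nat_lit 107) (nat_lit 1) (nat_lit 105) (nat_lit 1) (nat_lit 106) (nat_lit 1) (nat_lit 390) (nat_lit 355) (nat_lit 275)) (XT.lf (nat_lit 76) (nat_lit 3464477) (nat_lit 0) (nat_lit 629729070) (nat_lit 76) (nat_lit 1171801783) (nat_lit 105) (nat_lit 3) (nat_lit 104) (nat_lit 1) (nat_lit 105) (nat_lit 1) (nat_lit 391) (nat_lit 355) (nat_lit 274)))) (XT.nd (nat_lit 156) (nat_lit 228) (nat_lit 0) (XT.nd (nat_lit 78) (nat_lit 152) (nat_lit 0) (XT.lf (nat_lit 152) (nat_lit 843372388) (nat_lit 0) (nat_lit 779142693) (nat_lit 76) (nat_lit 152800601) (nat_lit 104) (nat_lit 1) (nat_lit 102) (nat_lit 1) (nat_lit 103) (nat_lit 1) (nat_lit 392) (nat_lit 355) (nat_lit 273)) (XT.lf (nat_lit 76) (nat_lit 822740474) (nat_lit 0) (nat_lit 102338213) (nat_lit 152) (nat_lit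 821104278) (nat_lit 101) (nat_lit 1) (nat_lit 100) (nat_lit 1) (nat_lit 102) (nat_lit 1) (nat_lit 393) (nat_lit 355) (nat_lit 272))) (XT.nd (nat_lit 78) (nat_lit 152) (nat_lit 0) (XT.lf (nat_lit 0) (nat_lit 57638770) (nat_lit 0) (nat_lit 1008957172) (nat_lit 152) (nat_lit 650961478) (nat_lit 99) (nat_lit 3) (nat_lit 99) (nat_lit 1) (nat_lit 101) (nat_lit 1) (nat_lit 394) (nat_lit 355) (nat_lit 271)) (XT.lf (nat_lit 76) (nat_lit 996190561) (nat_lit 0) (nat_lit 206608951) (nat_lit 152) (nat_lit 486601354) (nat_lit 98) (nat_lit 1) (nat_lit 97) (nat_lit 1) (nat_lit 99) (nat_lit 1) (nat_lit 395) (nat_lit 355) (nat_lit 270))))) (XT.nd (nat_lit 46332) (nat_lit 0) (nat_lit 21356) (XT.nd (nat_lit 78) (nat_lit 152) (nat_lit 0) (XT.lf (nat_lit 0) (nat_lit 248762933) (nat_lit 0) (nat_lit 1086504519) (nat_lit 152) (nat_lit 326479934) (nat_lit 96) (nat_lit 3) (nat_lit 96) (nat_lit 1) (nat_lit 98) (nat_lit 1)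 (nat_lit 396) (nat_lit 355) (nat_lit 269)) (XT.nd (nat_lit 46176) (nat_lit 0) (nat_lit 21280) (XT.lf (nat_lit 76) (nat_lit 1154710013) (nat_lit 0) (nat_lit 308728318) (nat_lit 152) (nat_lit 171130642) (nat_lit 95) (nat_lit 1) (nat_lit 94) (nat_lit 1) (nat_lit 96) (nat_lit 1) (nat_lit 397) (nat_lit 355) (nat_lit 268)) (XT.lf (nat_lit 1292) (nat_lit 814129445) (nat_lit 0) (nat_lit 2800983918) (nat_lit 1292) (nat_lit 814129445) (nat_lit 391) (nat_lit 1) (nat_lit 374) (nat_lit 0) (nat_lit 391) (nat_lit 0) (nat_lit 308) (nat_lit 356) (nat_lit 356)))) (XT.nd (nat_lit 156) (nat_lit 0) (nat_lit 76) (XT.nd (nat_lit 78) (nat_lit 0) (nat_lit 0) (XT.lf (nat_lit 1292) (nat_lit 65270184) (nat_lit 0) (nat_lit 5522951292) (nat_lit 1216) (nat_lit 3057716906) (nat_lit 392) (nat_lit 1) (nat_lit 375) (nat_lit 1) (nat_lit 391) (nat_lit 1) (nat_lit 309) (nat_lit 356) (nat_lit 355)) (XT.lf (nat_lit 1292) (nat_lit 2871607496)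 (nat_lit 76) (nat_lit 4061783724) (nat_lit 0) (nat_lit 1506503531) (nat_lit 392) (nat_lit 1) (nat_lit 376) (nat_lit 1) (nat_lit 375) (nat_lit 1) (nat_lit 310) (nat_lit 356) (nat_lit 354))) (XT.nd (nat_lit 78) (nat_lit 0) (nat_lit 76) (XT.lf (nat_lit 1292) (nat_lit 2524386489) (nat_lit 76) (nat_lit 2658728096) (nat_lit 0) (nat_lit 3057407985) (nat_lit 393) (nat_lit 1) (nat_lit 377) (nat_lit 1) (nat_lit 376) (nat_lit 1) (nat_lit 311) (nat_lit 356) (nat_lit 353)) (XT.lf (nat_lit 1292) (nat_lit 2089099799) (nat_lit 76) (nat_lit 1373371937) (nat_lit 0) (nat_lit 4585125963) (nat_lit 394) (nat_lit 1) (nat_lit 378) (nat_lit 1) (nat_lit 377) (nat_lit 1) (nat_lit 312) (nat_lit 356) (nat_lit 352)))))) (XT.nd (nat_lit 546) (nat_lit 3496) (nat_lit 0) (XT.nd (nat_lit 234) (nat_lit 1824) (nat_lit 0) (XT.nd (nat_lit 78) (nat_lit 0) (nat_lit 76) (XT.lf (nat_lit 1292) (nat_lit 1572460149) (nat_lit 76) (nat_lit 199667966)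 (nat_lit 0) (nat_lit 6088758382) (nat_lit 395) (nat_lit 1) (nat_lit 379) (nat_lit 1) (nat_lit 378) (nat_lit 1) (nat_lit 313) (nat_lit 356) (nat_lit 351)) (XT.nd (nat_lit 78) (nat_lit 0) (nat_lit 0) (XT.lf (nat_lit 1292) (nat_lit 120992422) (nat_lit 0) (nat_lit 6707712513) (nat_lit 1216) (nat_lit 851209313) (nat_lit 396) (nat_lit 1) (nat_lit 379) (nat_lit 1) (nat_lit 395) (nat_lit 1) (nat_lit 314) (nat_lit 356) (nat_lit 350)) (XT.lf (nat_lit 1292) (nat_lit 286778363) (nat_lit 76) (nat_lit 5689800472) (nat_lit 0) (nat_lit 1527667820) (nat_lit 396) (nat_lit 1) (nat_lit 380) (nat_lit 1) (nat_lit 379) (nat_lit 1) (nat_lit 315) (nat_lit 356) (nat_lit 349)))) (XT.nd (nat_lit 156) (nat_lit 684) (nat_lit 0) (XT.nd (nat_lit 78) (nat_lit 0) (nat_lit 76) (XT.lf (nat_lit 1368) (nat_lit 4191262531) (nat_lit 0) (nat_lit 453031645) (nat_lit 1292) (nat_lit 2689719425) (nat_lit 381) (nat_lit 1) (nat_lit 363) (nat_lit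 1) (nat_lit 380) (nat_lit 1) (nat_lit 316) (nat_lit 356) (nat_lit 348)) (XT.lf (nat_lit 1368) (nat_lit 2446417221) (nat_lit 0) (nat_lit 1243065468) (nat_lit 1292) (nat_lit 3479601955) (nat_lit 382) (nat_lit 1) (nat_lit 364) (nat_lit 1) (nat_lit 381) (nat_lit 1) (nat_lit 317) (nat_lit 356) (nat_lit 347))) (XT.nd (nat_lit 78) (nat_lit 836) (nat_lit 0) (XT.lf (nat_lit 76) (nat_lit 739320262) (nat_lit 0) (nat_lit 2084073040) (nat_lit 1292) (nat_lit 4185958314) (nat_lit 366) (nat_lit 1) (nat_lit 365) (nat_lit 1) (nat_lit 382) (nat_lit 1) (nat_lit 318) (nat_lit 356) (nat_lit 346)) (XT.lf (nat_lit 912) (nat_lit 3873745295) (nat_lit 0) (nat_lit 2032044354) (nat_lit 836) (nat_lit 948567886) (nat_lit 366) (nat_lit 1) (nat_lit 354) (nat_lit 1) (nat_lit 365) (nat_lit 1) (nat_lit 319) (nat_lit 356) (nat_lit 345))))) (XT.nd (nat_lit 234) (nat_lit 1748) (nat_lit 0) (XT.nd (nat_lit 78) (nat_lit 1140) (nat_lit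 0) (XT.lf (nat_lit 684) (nat_lit 2777838665) (nat_lit 0) (nat_lit 1313364170) (nat_lit 608) (nat_lit 2612790425) (nat_lit 355) (nat_lit 1) (nat_lit 346) (nat_lit 1) (nat_lit 354) (nat_lit 1) (nat_lit 320) (nat_lit 356) (nat_lit 344)) (XT.nd (nat_lit 78) (nat_lit 532) (nat_lit 0) (XT.lf (nat_lit 684) (nat_lit 1648886558) (nat_lit 0) (nat_lit 670641821) (nat_lit 608) (nat_lit 4238778337) (nat_lit 347) (nat_lit 1) (nat_lit 338) (nat_lit 1) (nat_lit 346) (nat_lit 1) (nat_lit 321) (nat_lit 356) (nat_lit 343)) (XT.lf (nat_lit 608) (nat_lit 490514311) (nat_lit 0) (nat_lit 99893598) (nat_lit 532) (nat_lit 5826727006) (nat_lit 339) (nat_lit 1) (nat_lit 331) (nat_lit 1) (nat_lit 338) (nat_lit 1) (nat_lit 322) (nat_lit 356) (nat_lit 342)))) (XT.nd (nat_lit 156) (nat_lit 1064) (nat_lit 0) (XT.nd (nat_lit 78) (nat_lit 608) (nat_lit 0) (XT.lf (nat_lit 76) (nat_lit 5172265271) (nat_lit 0) (nat_lit 695064698)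 (nat_lit 608) (nat_lit 412349225) (nat_lit 331) (nat_lit 1) (nat_lit 330) (nat_lit 1) (nat_lit 338) (nat_lit 1) (nat_lit 323) (nat_lit 356) (nat_lit 341)) (XT.lf (nat_lit 76) (nat_lit 3377162271) (nat_lit 0) (nat_lit 1899228809) (nat_lit 684) (nat_lit 869718472) (nat_lit 323) (nat_lit 1) (nat_lit 322) (nat_lit 1) (nat_lit 331) (nat_lit 1) (nat_lit 324) (nat_lit 356) (nat_lit 340))) (XT.nd (nat_lit 78) (nat_lit 532) (nat_lit 0) (XT.lf (nat_lit 76) (nat_lit 1627807807) (nat_lit 0) (nat_lit 3121851795) (nat_lit 608) (nat_lit 1266966766) (nat_lit 316) (nat_lit 1) (nat_lit 315) (nat_lit 1) (nat_lit 323) (nat_lit 1) (nat_lit 325) (nat_lit 356) (nat_lit 339)) (XT.lf (nat_lit 608) (nat_lit 1530091440) (nat_lit 0) (nat_lit 4283014973) (nat_lit 532) (nat_lit 77960997) (nat_lit 316) (nat_lit 1) (nat_lit 308) (nat_lit 1) (nat_lit 315) (nat_lit 1) (nat_lit 326) (nat_lit 356) (nat_lit 338))))))))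
noncomputable def ec35 : XT := (XT.nd (nat_lit 2184) (nat_lit 4940) (nat_lit 0) (XT.nd (nat_lit 1092) (nat_lit 3876) (nat_lit 0) (XT.nd (nat_lit 546) (nat_lit 2584) (nat_lit 0) (XT.nd (nat_lit 234) (nat_lit 1748) (nat_lit 0) (XT.nd (nat_lit 78) (nat_lit 1064) (nat_lit 0) (XT.lf (nat_lit 532) (nat_lit 140012062) (nat_lit 0) (nat_lit 3858045016) (nat_lit 456) (nat_lit 1770797911) (nat_lit 309) (nat_lit 1) (nat_lit 302) (nat_lit 1) (nat_lit 308) (nat_lit 1) (nat_lit 327) (nat_lit 356) (nat_lit 337)) (XT.nd (nat_lit 78) (nat_lit 456) (nat_lit 0) (XT.lf (nat_lit 76) (nat_lit 2243417611) (nat_lit 0) (nat_lit 1232270806) (nat_lit 608) (nat_lit 2174287405) (nat_lit 295) (nat_lit 1) (nat_lit 294) (nat_lit 1) (nat_lit 302) (nat_lit 1) (nat_lit 328) (nat_lit 356) (nat_lit 336)) (XT.lf (nat_lit 76) (nat_lit 537660767) (nat_lit 0) (nat_lit 2606380084) (nat_lit 532) (nat_lit 2390585006) (nat_lit 289) (nat_lit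 1) (nat_lit 288) (nat_lit 1) (nat_lit 295) (nat_lit 1) (nat_lit 329) (nat_lit 356) (nat_lit 335)))) (XT.nd (nat_lit 156) (nat_lit 836) (nat_lit 0) (XT.nd (nat_lit 78) (nat_lit 456) (nat_lit 0) (XT.lf (nat_lit 532) (nat_lit 1428251624) (nat_lit 0) (nat_lit 2850401667) (nat_lit 456) (nat_lit 1143742790) (nat_lit 289) (nat_lit 1) (nat_lit 282) (nat_lit 1) (nat_lit 288) (nat_lit 1) (nat_lit 330) (nat_lit 356) (nat_lit 334)) (XT.lf (nat_lit 76) (nat_lit 2524935795) (nat_lit 0) (nat_lit 72820745) (nat_lit 456) (nat_lit 2715578571) (nat_lit 277) (nat_lit 1) (nat_lit 276) (nat_lit 1) (nat_lit 282) (nat_lit 1) (nat_lit 331) (nat_lit 356) (nat_lit 333))) (XT.nd (nat_lit 78) (nat_lit 380) (nat_lit 0) (XT.lf (nat_lit 76) (nat_lit 833961392) (nat_lit 0) (nat_lit 1541687005) (nat_lit 532) (nat_lit 2831452357) (nat_lit 271) (nat_lit 1) (nat_lit 270) (nat_lit 1) (nat_lit 277) (nat_lit 1) (nat_lit 332) (nat_lit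 356) (nat_lit 332)) (XT.lf (nat_lit 456) (nat_lit 2090989950) (nat_lit 0) (nat_lit 2187653757) (nat_lit 380) (nat_lit 825116578) (nat_lit 271) (nat_lit 1) (nat_lit 265) (nat_lit 1) (nat_lit 270) (nat_lit 1) (nat_lit 333) (nat_lit 356) (nat_lit 331))))) (XT.nd (nat_lit 234) (nat_lit 1368) (nat_lit 0) (XT.nd (nat_lit 78) (nat_lit 836) (nat_lit 0) (XT.lf (nat_lit 456) (nat_lit 518635921) (nat_lit 0) (nat_lit 2031709255) (nat_lit 380) (nat_lit 2452872232) (nat_lit 266) (nat_lit 1) (nat_lit 260) (nat_lit 1) (nat_lit 265) (nat_lit 1) (nat_lit 334) (nat_lit 356) (nat_lit 330)) (XT.nd (nat_lit 78) (nat_lit 380) (nat_lit 0) (XT.lf (nat_lit 76) (nat_lit 881900026) (nat_lit 0) (nat_lit 1021826097) (nat_lit 456) (nat_lit 3001591403) (nat_lit 255) (nat_lit 1) (nat_lit 254) (nat_lit 1) (nat_lit 260) (nat_lit 1) (nat_lit 335) (nat_lit 356) (nat_lit 329)) (XT.lf (nat_lit 456) (nat_lit 2262835966) (nat_lit 0) (nat_lit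 1799518520) (nat_lit 380) (nat_lit 747549407) (nat_lit 255) (nat_lit 1) (nat_lit 249) (nat_lit 1) (nat_lit 254) (nat_lit 1) (nat_lit 336) (nat_lit 356) (nat_lit 328)))) (XT.nd (nat_lit 156) (nat_lit 608) (nat_lit 0) (XT.nd (nat_lit 78) (nat_lit 456) (nat_lit 0) (XT.lf (nat_lit 380) (nat_lit 649671873) (nat_lit 0) (nat_lit 1721209355) (nat_lit 304) (nat_lit 2346122945) (nat_lit 250) (nat_lit 1) (nat_lit 245) (nat_lit 1) (nat_lit 249) (nat_lit 1) (nat_lit 337) (nat_lit 356) (nat_lit 327)) (XT.lf (nat_lit 76) (nat_lit 738492166) (nat_lit 0) (nat_lit 927933355) (nat_lit 456) (nat_lit 2960090209) (nat_lit 240) (nat_lit 1) (nat_lit 239) (nat_lit 1) (nat_lit 245) (nat_lit 1) (nat_lit 338) (nat_lit 356) (nat_lit 326))) (XT.nd (nat_lit 78) (nat_lit 304) (nat_lit 0) (XT.lf (nat_lit 380) (nat_lit 2054479225) (nat_lit 0) (nat_lit 1627986121) (nat_lit 304) (nat_lit 855731188) (nat_lit 240) (nat_lit 1) (nat_lit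 235) (nat_lit 1) (nat_lit 239) (nat_lit 1) (nat_lit 339) (nat_lit 356) (nat_lit 325)) (XT.lf (nat_lit 380) (nat_lit 423835430) (nat_lit 0) (nat_lit 1612084554) (nat_lit 304) (nat_lit 2416274741) (nat_lit 236) (nat_lit 1) (nat_lit 231) (nat_lit 1) (nat_lit 235) (nat_lit 1) (nat_lit 340) (nat_lit 356) (nat_lit 324)))))) (XT.nd (nat_lit 546) (nat_lit 1748) (nat_lit 0) (XT.nd (nat_lit 234) (nat_lit 1140) (nat_lit 0) (XT.nd (nat_lit 78) (nat_lit 608) (nat_lit 0) (XT.lf (nat_lit 76) (nat_lit 450410975) (nat_lit 0) (nat_lit 1162363171) (nat_lit 380) (nat_lit 2755531316) (nat_lit 227) (nat_lit 1) (nat_lit 226) (nat_lit 1) (nat_lit 231) (nat_lit 1) (nat_lit 341) (nat_lit 356) (nat_lit 323)) (XT.nd (nat_lit 78) (nat_lit 304) (nat_lit 0) (XT.lf (nat_lit 380) (nat_lit 1556682222) (nat_lit 0) (nat_lit 1625284902) (nat_lit 304) (nat_lit 1104391654) (nat_lit 227) (nat_lit 1) (nat_lit 222) (nat_lit 1) (nat_lit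 226) (nat_lit 1) (nat_lit 342) (nat_lit 356) (nat_lit 322)) (XT.lf (nat_lit 76) (nat_lit 1587030519) (nat_lit 0) (nat_lit 71406052) (nat_lit 304) (nat_lit 2548144543) (nat_lit 219) (nat_lit 1) (nat_lit 218) (nat_lit 1) (nat_lit 222) (nat_lit 1) (nat_lit 343) (nat_lit 356) (nat_lit 321)))) (XT.nd (nat_lit 156) (nat_lit 608) (nat_lit 0) (XT.nd (nat_lit 78) (nat_lit 228) (nat_lit 0) (XT.lf (nat_lit 76) (nat_lit 55727164) (nat_lit 0) (nat_lit 1645141070) (nat_lit 380) (nat_lit 2427743475) (nat_lit 215) (nat_lit 1) (nat_lit 214) (nat_lit 1) (nat_lit 219) (nat_lit 1) (nat_lit 344) (nat_lit 356) (nat_lit 320)) (XT.lf (nat_lit 304) (nat_lit 843620822) (nat_lit 0) (nat_lit 1752177964) (nat_lit 228) (nat_lit 1456610774) (nat_lit 215) (nat_lit 1) (nat_lit 211) (nat_lit 1) (nat_lit 214) (nat_lit 1) (nat_lit 345) (nat_lit 356) (nat_lit 319))) (XT.nd (nat_lit 78) (nat_lit 228) (nat_lit 0) (XT.lf (nat_lit 76)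 (nat_lit 1062721455) (nat_lit 0) (nat_lit 755015023) (nat_lit 380) (nat_lit 2160365882) (nat_lit 207) (nat_lit 1) (nat_lit 206) (nat_lit 1) (nat_lit 211) (nat_lit 1) (nat_lit 346) (nat_lit 356) (nat_lit 318)) (XT.lf (nat_lit 304) (nat_lit 1590444435) (nat_lit 0) (nat_lit 1892172863) (nat_lit 228) (nat_lit 422888187) (nat_lit 207) (nat_lit 1) (nat_lit 203) (nat_lit 1) (nat_lit 206) (nat_lit 1) (nat_lit 347) (nat_lit 356) (nat_lit 317))))) (XT.nd (nat_lit 234) (nat_lit 988) (nat_lit 0) (XT.nd (nat_lit 78) (nat_lit 456) (nat_lit 0) (XT.lf (nat_lit 76) (nat_lit 1952449717) (nat_lit 0) (nat_lit 23846965) (nat_lit 304) (nat_lit 1858318180) (nat_lit 200) (nat_lit 1) (nat_lit 199) (nat_lit 1) (nat_lit 203) (nat_lit 1) (nat_lit 348) (nat_lit 356) (nat_lit 316)) (XT.nd (nat_lit 78) (nat_lit 228) (nat_lit 0) (XT.lf (nat_lit 76) (nat_lit 485216416) (nat_lit 0) (nat_lit 1579214852) (nat_lit 304) (nat_lit 1700806757)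 (nat_lit 197) (nat_lit 1) (nat_lit 196) (nat_lit 1) (nat_lit 200) (nat_lit 1) (nat_lit 349) (nat_lit 356) (nat_lit 315)) (XT.lf (nat_lit 304) (nat_lit 581447223) (nat_lit 0) (nat_lit 2161742451) (nat_lit 228) (nat_lit 954309154) (nat_lit 197) (nat_lit 1) (nat_lit 193) (nat_lit 1) (nat_lit 196) (nat_lit 1) (nat_lit 350) (nat_lit 356) (nat_lit 314)))) (XT.nd (nat_lit 156) (nat_lit 456) (nat_lit 0) (XT.nd (nat_lit 78) (nat_lit 228) (nat_lit 0) (XT.lf (nat_lit 76) (nat_lit 1283529740) (nat_lit 0) (nat_lit 978738730) (nat_lit 304) (nat_lit 1368929053) (nat_lit 190) (nat_lit 1) (nat_lit 189) (nat_lit 1) (nat_lit 193) (nat_lit 1) (nat_lit 351) (nat_lit 356) (nat_lit 313)) (XT.lf (nat_lit 304) (nat_lit 1066659601) (nat_lit 0) (nat_lit 2373025512) (nat_lit 228) (nat_lit 126827749) (nat_lit 190) (nat_lit 1) (nat_lit 186) (nat_lit 1) (nat_lit 189) (nat_lit 1) (nat_lit 352) (nat_lit 356) (nat_lit 312))) (XT.nd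 (nat_lit 78) (nat_lit 228) (nat_lit 0) (XT.lf (nat_lit 76) (nat_lit 1991097960) (nat_lit 0) (nat_lit 491454606) (nat_lit 228) (nat_lit 1020533344) (nat_lit 184) (nat_lit 1) (nat_lit 183) (nat_lit 1) (nat_lit 186) (nat_lit 1) (nat_lit 353) (nat_lit 356) (nat_lit 311)) (XT.lf (nat_lit 76) (nat_lit 598681467) (nat_lit 0) (nat_lit 1998861498) (nat_lit 304) (nat_lit 843544018) (nat_lit 181) (nat_lit 1) (nat_lit 180) (nat_lit 1) (nat_lit 184) (nat_lit 1) (nat_lit 354) (nat_lit 356) (nat_lit 310))))))) (XT.nd (nat_lit 1092) (nat_lit 2204) (nat_lit 0) (XT.nd (nat_lit 546) (nat_lit 1216) (nat_lit 0) (XT.nd (nat_lit 234) (nat_lit 912) (nat_lit 0) (XT.nd (nat_lit 78) (nat_lit 380) (nat_lit 0) (XT.lf (nat_lit 76) (nat_lit 2617508835) (nat_lit 0) (nat_lit 101526579) (nat_lit 228) (nat_lit 661486748) (nat_lit 178) (nat_lit 1) (nat_lit 177) (nat_lit 1) (nat_lit 180) (nat_lit 1) (nat_lit 355) (nat_lit 356) (nat_lit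 309)) (XT.nd (nat_lit 78) (nat_lit 152) (nat_lit 0) (XT.lf (nat_lit 76) (nat_lit 1242616442) (nat_lit 0) (nat_lit 1592473735) (nat_lit 304) (nat_lit 485929803) (nat_lit 175) (nat_lit 1) (nat_lit 174) (nat_lit 1) (nat_lit 178) (nat_lit 1) (nat_lit 356) (nat_lit 356) (nat_lit 308)) (XT.lf (nat_lit 228) (nat_lit 208958518) (nat_lit 0) (nat_lit 2964333871) (nat_lit 152) (nat_lit 89807311) (nat_lit 175) (nat_lit 1) (nat_lit 172) (nat_lit 1) (nat_lit 174) (nat_lit 1) (nat_lit 357) (nat_lit 356) (nat_lit 307)))) (XT.nd (nat_lit 156) (nat_lit 380) (nat_lit 0) (XT.nd (nat_lit 78) (nat_lit 304) (nat_lit 0) (XT.lf (nat_lit 76) (nat_lit 1815634413) (nat_lit 0) (nat_lit 1266288813) (nat_lit 228) (nat_lit 124091696) (nat_lit 170) (nat_lit 1) (nat_lit 169) (nat_lit 1) (nat_lit 172) (nat_lit 1) (nat_lit 358) (nat_lit 356) (nat_lit 306)) (XT.lf (nat_lit 228) (nat_lit 442906039) (nat_lit 0) (nat_lit 61417913) (nat_lit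 152) (nat_lit 2646064731) (nat_lit 168) (nat_lit 1) (nat_lit 165) (nat_lit 1) (nat_lit 167) (nat_lit 1) (nat_lit 359) (nat_lit 356) (nat_lit 305))) (XT.nd (nat_lit 78) (nat_lit 152) (nat_lit 0) (XT.lf (nat_lit 228) (nat_lit 2084566714) (nat_lit 0) (nat_lit 242784331) (nat_lit 152) (nat_lit 768346826) (nat_lit 165) (nat_lit 1) (nat_lit 162) (nat_lit 1) (nat_lit 164) (nat_lit 1) (nat_lit 360) (nat_lit 356) (nat_lit 304)) (XT.lf (nat_lit 228) (nat_lit 611476132) (nat_lit 0) (nat_lit 425852589) (nat_lit 152) (nat_lit 2004870254) (nat_lit 163) (nat_lit 1) (nat_lit 160) (nat_lit 1) (nat_lit 162) (nat_lit 1) (nat_lit 361) (nat_lit 356) (nat_lit 303))))) (XT.nd (nat_lit 234) (nat_lit 608) (nat_lit 0) (XT.nd (nat_lit 78) (nat_lit 380) (nat_lit 0) (XT.lf (nat_lit 228) (nat_lit 2174012106) (nat_lit 0) (nat_lit 609092994) (nat_lit 152) (nat_lit 206720584) (nat_lit 160) (nat_lit 1) (nat_lit 157) (nat_lit 1)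 (nat_lit 159) (nat_lit 1) (nat_lit 362) (nat_lit 356) (nat_lit 302)) (XT.nd (nat_lit 78) (nat_lit 228) (nat_lit 0) (XT.lf (nat_lit 228) (nat_lit 727899655) (nat_lit 0) (nat_lit 786347328) (nat_lit 152) (nat_lit 1424130304) (nat_lit 158) (nat_lit 1) (nat_lit 155) (nat_lit 1) (nat_lit 157) (nat_lit 1) (nat_lit 363) (nat_lit 356) (nat_lit 301)) (XT.lf (nat_lit 76) (nat_lit 293412190) (nat_lit 0) (nat_lit 673217697) (nat_lit 228) (nat_lit 1921465510) (nat_lit 153) (nat_lit 1) (nat_lit 152) (nat_lit 1) (nat_lit 155) (nat_lit 1) (nat_lit 364) (nat_lit 356) (nat_lit 300)))) (XT.nd (nat_lit 156) (nat_lit 304) (nat_lit 0) (XT.nd (nat_lit 78) (nat_lit 152) (nat_lit 0) (XT.lf (nat_lit 228) (nat_lit 800299846) (nat_lit 0) (nat_lit 1140318379) (nat_lit 152) (nat_lit 898060991) (nat_lit 153) (nat_lit 1) (nat_lit 150) (nat_lit 1) (nat_lit 152) (nat_lit 1) (nat_lit 365) (nat_lit 356) (nat_lit 299)) (XT.lf (nat_lit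 76) (nat_lit 740204413) (nat_lit 0) (nat_lit 574328168) (nat_lit 152) (nat_lit 1475783386) (nat_lit 149) (nat_lit 1) (nat_lit 148) (nat_lit 1) (nat_lit 150) (nat_lit 1) (nat_lit 366) (nat_lit 356) (nat_lit 298))) (XT.nd (nat_lit 78) (nat_lit 152) (nat_lit 0) (XT.lf (nat_lit 228) (nat_lit 835738448) (nat_lit 0) (nat_lit 1485651169) (nat_lit 152) (nat_lit 421490795) (nat_lit 149) (nat_lit 1) (nat_lit 146) (nat_lit 1) (nat_lit 148) (nat_lit 1) (nat_lit 367) (nat_lit 356) (nat_lit 297)) (XT.lf (nat_lit 76) (nat_lit 1142394626) (nat_lit 0) (nat_lit 510557878) (nat_lit 152) (nat_lit 1043379637) (nat_lit 145) (nat_lit 1) (nat_lit 144) (nat_lit 1) (nat_lit 146) (nat_lit 1) (nat_lit 368) (nat_lit 356) (nat_lit 296)))))) (XT.nd (nat_lit 546) (nat_lit 1064) (nat_lit 0) (XT.nd (nat_lit 234) (nat_lit 684) (nat_lit 0) (XT.nd (nat_lit 78) (nat_lit 304) (nat_lit 0) (XT.lf (nat_lit 76) (nat_lit 10009687) (nat_lit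 0) (nat_lit 1810526136) (nat_lit 228) (nat_lit 830235711) (nat_lit 143) (nat_lit 1) (nat_lit 142) (nat_lit 1) (nat_lit 145) (nat_lit 1) (nat_lit 369) (nat_lit 356) (nat_lit 295)) (XT.nd (nat_lit 78) (nat_lit 152) (nat_lit 0) (XT.lf (nat_lit 76) (nat_lit 1504193943) (nat_lit 0) (nat_lit 476175657) (nat_lit 152) (nat_lit 625576407) (nat_lit 141) (nat_lit 1) (nat_lit 140) (nat_lit 1) (nat_lit 142) (nat_lit 1) (nat_lit 370) (nat_lit 356) (nat_lit 294)) (XT.lf (nat_lit 76) (nat_lit 393356560) (nat_lit 0) (nat_lit 1746588354) (nat_lit 228) (nat_lit 422110531) (nat_lit 139) (nat_lit 1) (nat_lit 138) (nat_lit 1) (nat_lit 141) (nat_lit 1) (nat_lit 371) (nat_lit 356) (nat_lit 293)))) (XT.nd (nat_lit 156) (nat_lit 380) (nat_lit 0) (XT.nd (nat_lit 78) (nat_lit 152) (nat_lit 0) (XT.lf (nat_lit 76) (nat_lit 1829375585) (nat_lit 0) (nat_lit 466211804) (nat_lit 152) (nat_lit 223387485) (nat_lit 137) (nat_lit 1)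 (nat_lit 136) (nat_lit 1) (nat_lit 138) (nat_lit 1) (nat_lit 372) (nat_lit 356) (nat_lit 292)) (XT.lf (nat_lit 76) (nat_lit 740421648) (nat_lit 0) (nat_lit 1706536281) (nat_lit 228) (nat_lit 29718880) (nat_lit 135) (nat_lit 1) (nat_lit 134) (nat_lit 1) (nat_lit 137) (nat_lit 1) (nat_lit 373) (nat_lit 356) (nat_lit 291))) (XT.nd (nat_lit 78) (nat_lit 76) (nat_lit 0) (XT.lf (nat_lit 228) (nat_lit 1957245731) (nat_lit 0) (nat_lit 165670843) (nat_lit 152) (nat_lit 312285386) (nat_lit 133) (nat_lit 1) (nat_lit 130) (nat_lit 1) (nat_lit 132) (nat_lit 1) (nat_lit 374) (nat_lit 356) (nat_lit 290)) (XT.lf (nat_lit 152) (nat_lit 704710868) (nat_lit 0) (nat_lit 353163744) (nat_lit 76) (nat_lit 1336495418) (nat_lit 131) (nat_lit 1) (nat_lit 129) (nat_lit 1) (nat_lit 130) (nat_lit 1) (nat_lit 375) (nat_lit 356) (nat_lit 289))))) (XT.nd (nat_lit 234) (nat_lit 532) (nat_lit 0) (XT.nd (nat_lit 78) (nat_lit 304)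 (nat_lit 0) (XT.lf (nat_lit 76) (nat_lit 33170325) (nat_lit 0) (nat_lit 508447626) (nat_lit 228) (nat_lit 1812829919) (nat_lit 127) (nat_lit 1) (nat_lit 126) (nat_lit 1) (nat_lit 129) (nat_lit 1) (nat_lit 376) (nat_lit 356) (nat_lit 288)) (XT.nd (nat_lit 78) (nat_lit 228) (nat_lit 0) (XT.lf (nat_lit 152) (nat_lit 625942400) (nat_lit 0) (nat_lit 719448446) (nat_lit 76) (nat_lit 969690409) (nat_lit 127) (nat_lit 1) (nat_lit 125) (nat_lit 1) (nat_lit 126) (nat_lit 1) (nat_lit 377) (nat_lit 356) (nat_lit 287)) (XT.lf (nat_lit 76) (nat_lit 342549650) (nat_lit 0) (nat_lit 554668112) (nat_lit 228) (nat_lit 1379343593) (nat_lit 123) (nat_lit 1) (nat_lit 122) (nat_lit 1) (nat_lit 125) (nat_lit 1) (nat_lit 378) (nat_lit 356) (nat_lit 286)))) (XT.nd (nat_lit 156) (nat_lit 228) (nat_lit 0) (XT.nd (nat_lit 78) (nat_lit 228) (nat_lit 0) (XT.lf (nat_lit 152) (nat_lit 537059468) (nat_lit 0) (nat_lit 1068266819)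 (nat_lit 76) (nat_lit 633351768) (nat_lit 123) (nat_lit 1) (nat_lit 121) (nat_lit 1) (nat_lit 122) (nat_lit 1) (nat_lit 379) (nat_lit 356) (nat_lit 285)) (XT.lf (nat_lit 76) (nat_lit 624488950) (nat_lit 0) (nat_lit 610878922) (nat_lit 228) (nat_lit 966128377) (nat_lit 119) (nat_lit 1) (nat_lit 118) (nat_lit 1) (nat_lit 121) (nat_lit 1) (nat_lit 380) (nat_lit 356) (nat_lit 284))) (XT.nd (nat_lit 78) (nat_lit 152) (nat_lit 0) (XT.lf (nat_lit 152) (nat_lit 440568711) (nat_lit 0) (nat_lit 1399499291) (nat_lit 76) (nat_lit 324960875) (nat_lit 119) (nat_lit 1) (nat_lit 117) (nat_lit 1) (nat_lit 118) (nat_lit 1) (nat_lit 381) (nat_lit 356) (nat_lit 283)) (XT.lf (nat_lit 76) (nat_lit 881284978) (nat_lit 0) (nat_lit 674732934) (nat_lit 152) (nat_lit 573107535) (nat_lit 116) (nat_lit 1) (nat_lit 115) (nat_lit 1) (nat_lit 117) (nat_lit 1) (nat_lit 382) (nat_lit 356) (nat_lit 282))))))))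
noncomputable def ec36 : XT := (XT.nd (nat_lit 48126) (nat_lit 0) (nat_lit 8284) (XT.nd (nat_lit 1092) (nat_lit 228) (nat_lit 0) (XT.nd (nat_lit 546) (nat_lit 836) (nat_lit 0) (XT.nd (nat_lit 234) (nat_lit 532) (nat_lit 0) (XT.nd (nat_lit 78) (nat_lit 228) (nat_lit 0) (XT.lf (nat_lit 152) (nat_lit 338612101) (nat_lit 0) (nat_lit 1713159109) (nat_lit 76) (nat_lit 42239650) (nat_lit 116) (nat_lit 1) (nat_lit 114) (nat_lit 1) (nat_lit 115) (nat_lit 1) (nat_lit 383) (nat_lit 356) (nat_lit 281)) (XT.nd (nat_lit 78) (nat_lit 76) (nat_lit 0) (XT.lf (nat_lit 76) (nat_lit 1115015320) (nat_lit 0) (nat_lit 744223383) (nat_lit 152) (nat_lit 200091417) (nat_lit 113) (nat_lit 1) (nat_lit 112) (nat_lit 1) (nat_lit 114) (nat_lit 1) (nat_lit 384) (nat_lit 356) (nat_lit 280)) (XT.lf (nat_lit 0) (nat_lit 212643345) (nat_lit 0) (nat_lit 1794580364) (nat_lit 152) (nat_lit 18222796) (nat_lit 111) (nat_lit 3) (nat_lit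 111) (nat_lit 1) (nat_lit 113) (nat_lit 1) (nat_lit 385) (nat_lit 356) (nat_lit 279)))) (XT.nd (nat_lit 156) (nat_lit 228) (nat_lit 0) (XT.nd (nat_lit 78) (nat_lit 76) (nat_lit 0) (XT.lf (nat_lit 152) (nat_lit 1172811418) (nat_lit 0) (nat_lit 156252529) (nat_lit 76) (nat_lit 662889940) (nat_lit 110) (nat_lit 1) (nat_lit 108) (nat_lit 1) (nat_lit 109) (nat_lit 1) (nat_lit 386) (nat_lit 356) (nat_lit 278)) (XT.lf (nat_lit 76) (nat_lit 117543973) (nat_lit 0) (nat_lit 331029883) (nat_lit 76) (nat_lit 1510615341) (nat_lit 108) (nat_lit 3) (nat_lit 107) (nat_lit 1) (nat_lit 108) (nat_lit 1) (nat_lit 387) (nat_lit 356) (nat_lit 277))) (XT.nd (nat_lit 78) (nat_lit 76) (nat_lit 0) (XT.lf (nat_lit 152) (nat_lit 1028575017) (nat_lit 0) (nat_lit 496832953) (nat_lit 76) (nat_lit 401476203) (nat_lit 107) (nat_lit 1) (nat_lit 105) (nat_lit 1) (nat_lit 106) (nat_lit 1) (nat_lit 388) (nat_lit 356) (nat_lit 276))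 (XT.lf (nat_lit 76) (nat_lit 3637701) (nat_lit 0) (nat_lit 661215523) (nat_lit 76) (nat_lit 1230391872) (nat_lit 105) (nat_lit 3) (nat_lit 104) (nat_lit 1) (nat_lit 105) (nat_lit 1) (nat_lit 389) (nat_lit 356) (nat_lit 275))))) (XT.nd (nat_lit 234) (nat_lit 456) (nat_lit 0) (XT.nd (nat_lit 78) (nat_lit 228) (nat_lit 0) (XT.lf (nat_lit 152) (nat_lit 885541008) (nat_lit 0) (nat_lit 818099828) (nat_lit 76) (nat_lit 160440631) (nat_lit 104) (nat_lit 1) (nat_lit 102) (nat_lit 1) (nat_lit 103) (nat_lit 1) (nat_lit 390) (nat_lit 356) (nat_lit 274)) (XT.nd (nat_lit 78) (nat_lit 76) (nat_lit 0) (XT.lf (nat_lit 76) (nat_lit 863877498) (nat_lit 0) (nat_lit 107455123) (nat_lit 152) (nat_lit 862159492) (nat_lit 101) (nat_lit 1) (nat_lit 100) (nat_lit 1) (nat_lit 102) (nat_lit 1) (nat_lit 391) (nat_lit 356) (nat_lit 273)) (XT.lf (nat_lit 0) (nat_lit 60520708) (nat_lit 0) (nat_lit 1059405030) (nat_lit 152) (nat_lit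 683509552) (nat_lit 99) (nat_lit 3) (nat_lit 99) (nat_lit 1) (nat_lit 101) (nat_lit 1) (nat_lit 392) (nat_lit 356) (nat_lit 272)))) (XT.nd (nat_lit 156) (nat_lit 228) (nat_lit 0) (XT.nd (nat_lit 78) (nat_lit 76) (nat_lit 0) (XT.lf (nat_lit 76) (nat_lit 1046000089) (nat_lit 0) (nat_lit 216939398) (nat_lit 152) (nat_lit 510931422) (nat_lit 98) (nat_lit 1) (nat_lit 97) (nat_lit 1) (nat_lit 99) (nat_lit 1) (nat_lit 393) (nat_lit 356) (nat_lit 271)) (XT.lf (nat_lit 0) (nat_lit 261201080) (nat_lit 0) (nat_lit 1140829745) (nat_lit 152) (nat_lit 342803931) (nat_lit 96) (nat_lit 3) (nat_lit 96) (nat_lit 1) (nat_lit 98) (nat_lit 1) (nat_lit 394) (nat_lit 356) (nat_lit 270))) (XT.nd (nat_lit 78) (nat_lit 76) (nat_lit 0) (XT.lf (nat_lit 76) (nat_lit 1212445514) (nat_lit 0) (nat_lit 324164734) (nat_lit 152) (nat_lit 179687174) (nat_lit 95) (nat_lit 1) (nat_lit 94) (nat_lit 1) (nat_lit 96) (nat_lit 1) (nat_lit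 395) (nat_lit 356) (nat_lit 269)) (XT.lf (nat_lit 0) (nat_lit 445967919) (nat_lit 0) (nat_lit 1220578725) (nat_lit 152) (nat_lit 21696442) (nat_lit 93) (nat_lit 3) (nat_lit 93) (nat_lit 1) (nat_lit 95) (nat_lit 1) (nat_lit 396) (nat_lit 356) (nat_lit 268)))))) (XT.nd (nat_lit 46488) (nat_lit 0) (nat_lit 19456) (XT.nd (nat_lit 46176) (nat_lit 0) (nat_lit 21660) (XT.nd (nat_lit 46020) (nat_lit 0) (nat_lit 21584) (XT.lf (nat_lit 152) (nat_lit 1230812476) (nat_lit 0) (nat_lit 134850156) (nat_lit 76) (nat_lit 294989613) (nat_lit 92) (nat_lit 1) (nat_lit 90) (nat_lit 1) (nat_lit 91) (nat_lit 1) (nat_lit 397) (nat_lit 356) (nat_lit 267)) (XT.nd (nat_lit 78) (nat_lit 0) (nat_lit 76) (XT.lf (nat_lit 1292) (nat_lit 854835917) (nat_lit 0) (nat_lit 2941033113) (nat_lit 1292) (nat_lit 854835917) (nat_lit 391) (nat_lit 1) (nat_lit 374) (nat_lit 0) (nat_lit 391) (nat_lit 0) (nat_lit 306) (nat_lit 357) (nat_lit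 357)) (XT.lf (nat_lit 1292) (nat_lit 68533694) (nat_lit 0) (nat_lit 5799098856) (nat_lit 1216) (nat_lit 3210602751) (nat_lit 392) (nat_lit 1) (nat_lit 375) (nat_lit 1) (nat_lit 391) (nat_lit 1) (nat_lit 307) (nat_lit 357) (nat_lit 356)))) (XT.nd (nat_lit 156) (nat_lit 0) (nat_lit 152) (XT.nd (nat_lit 78) (nat_lit 0) (nat_lit 76) (XT.lf (nat_lit 1292) (nat_lit 3015187871) (nat_lit 76) (nat_lit 4264872910) (nat_lit 0) (nat_lit 1581828707) (nat_lit 392) (nat_lit 1) (nat_lit 376) (nat_lit 1) (nat_lit 375) (nat_lit 1) (nat_lit 308) (nat_lit 357) (nat_lit 355)) (XT.lf (nat_lit 1292) (nat_lit 2650605813) (nat_lit 76) (nat_lit 2791664500) (nat_lit 0) (nat_lit 3210278385) (nat_lit 393) (nat_lit 1) (nat_lit 377) (nat_lit 1) (nat_lit 376) (nat_lit 1) (nat_lit 309) (nat_lit 357) (nat_lit 354))) (XT.nd (nat_lit 78) (nat_lit 0) (nat_lit 76) (XT.lf (nat_lit 1292) (nat_lit 2193554789) (nat_lit 76) (nat_lit 1442040534)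 (nat_lit 0) (nat_lit 4814382261) (nat_lit 394) (nat_lit 1) (nat_lit 378) (nat_lit 1) (nat_lit 377) (nat_lit 1) (nat_lit 310) (nat_lit 357) (nat_lit 353)) (XT.lf (nat_lit 1292) (nat_lit 1651083157) (nat_lit 76) (nat_lit 209651364) (nat_lit 0) (nat_lit 6393196302) (nat_lit 395) (nat_lit 1) (nat_lit 379) (nat_lit 1) (nat_lit 378) (nat_lit 1) (nat_lit 311) (nat_lit 357) (nat_lit 352))))) (XT.nd (nat_lit 234) (nat_lit 1292) (nat_lit 0) (XT.nd (nat_lit 78) (nat_lit 1216) (nat_lit 0) (XT.lf (nat_lit 1292) (nat_lit 127042044) (nat_lit 0) (nat_lit 7043098139) (nat_lit 1216) (nat_lit 893769778) (nat_lit 396) (nat_lit 1) (nat_lit 379) (nat_lit 1) (nat_lit 395) (nat_lit 1) (nat_lit 312) (nat_lit 357) (nat_lit 351)) (XT.nd (nat_lit 78) (nat_lit 1216) (nat_lit 0) (XT.lf (nat_lit 1292) (nat_lit 301117281) (nat_lit 76) (nat_lit 5974290496) (nat_lit 0) (nat_lit 1604051211) (nat_lit 396) (nat_lit 1) (nat_lit 380)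 (nat_lit 1) (nat_lit 379) (nat_lit 1) (nat_lit 313) (nat_lit 357) (nat_lit 350)) (XT.lf (nat_lit 1368) (nat_lit 4400825657) (nat_lit 0) (nat_lit 475683227) (nat_lit 1292) (nat_lit 2824205396) (nat_lit 381) (nat_lit 1) (nat_lit 363) (nat_lit 1) (nat_lit 380) (nat_lit 1) (nat_lit 314) (nat_lit 357) (nat_lit 349)))) (XT.nd (nat_lit 156) (nat_lit 1368) (nat_lit 0) (XT.nd (nat_lit 78) (nat_lit 0) (nat_lit 76) (XT.lf (nat_lit 1368) (nat_lit 2568738083) (nat_lit 0) (nat_lit 1305218742) (nat_lit 1292) (nat_lit 3653582053) (nat_lit 382) (nat_lit 1) (nat_lit 364) (nat_lit 1) (nat_lit 381) (nat_lit 1) (nat_lit 315) (nat_lit 357) (nat_lit 348)) (XT.lf (nat_lit 76) (nat_lit 776286276) (nat_lit 0) (nat_lit 2188276692) (nat_lit 1292) (nat_lit 4395256230) (nat_lit 366) (nat_lit 1) (nat_lit 365) (nat_lit 1) (nat_lit 382) (nat_lit 1) (nat_lit 316) (nat_lit 357) (nat_lit 347))) (XT.nd (nat_lit 78) (nat_lit 608) (nat_lit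 0) (XT.lf (nat_lit 912) (nat_lit 4067432560) (nat_lit 0) (nat_lit 2133646572) (nat_lit 836) (nat_lit 995996281) (nat_lit 366) (nat_lit 1) (nat_lit 354) (nat_lit 1) (nat_lit 365) (nat_lit 1) (nat_lit 317) (nat_lit 357) (nat_lit 346)) (XT.lf (nat_lit 684) (nat_lit 2916730598) (nat_lit 0) (nat_lit 1379032378) (nat_lit 608) (nat_lit 2743429946) (nat_lit 355) (nat_lit 1) (nat_lit 346) (nat_lit 1) (nat_lit 354) (nat_lit 1) (nat_lit 318) (nat_lit 357) (nat_lit 345))))))) (XT.nd (nat_lit 1092) (nat_lit 4636) (nat_lit 0) (XT.nd (nat_lit 546) (nat_lit 3192) (nat_lit 0) (XT.nd (nat_lit 234) (nat_lit 2128) (nat_lit 0) (XT.nd (nat_lit 78) (nat_lit 608) (nat_lit 0) (XT.lf (nat_lit 684) (nat_lit 1731330886) (nat_lit 0) (nat_lit 704173912) (nat_lit 608) (nat_lit 4450717254) (nat_lit 347) (nat_lit 1) (nat_lit 338) (nat_lit 1) (nat_lit 346) (nat_lit 1) (nat_lit 319) (nat_lit 357) (nat_lit 344)) (XT.nd (nat_lit 78)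 (nat_lit 76) (nat_lit 0) (XT.lf (nat_lit 608) (nat_lit 515040026) (nat_lit 0) (nat_lit 104888278) (nat_lit 532) (nat_lit 6118063356) (nat_lit 339) (nat_lit 1) (nat_lit 331) (nat_lit 1) (nat_lit 338) (nat_lit 1) (nat_lit 320) (nat_lit 357) (nat_lit 343)) (XT.lf (nat_lit 76) (nat_lit 5430878535) (nat_lit 0) (nat_lit 729817933) (nat_lit 608) (nat_lit 432966686) (nat_lit 331) (nat_lit 1) (nat_lit 330) (nat_lit 1) (nat_lit 338) (nat_lit 1) (nat_lit 321) (nat_lit 357) (nat_lit 342)))) (XT.nd (nat_lit 156) (nat_lit 988) (nat_lit 0) (XT.nd (nat_lit 78) (nat_lit 532) (nat_lit 0) (XT.lf (nat_lit 76) (nat_lit 3546020384) (nat_lit 0) (nat_lit 1994190249) (nat_lit 684) (nat_lit 913204396) (nat_lit 323) (nat_lit 1) (nat_lit 322) (nat_lit 1) (nat_lit 331) (nat_lit 1) (nat_lit 322) (nat_lit 357) (nat_lit 341)) (XT.lf (nat_lit 76) (nat_lit 1709198197) (nat_lit 0) (nat_lit 3277944385) (nat_lit 608) (nat_lit 1330315104)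 (nat_lit 316) (nat_lit 1) (nat_lit 315) (nat_lit 1) (nat_lit 323) (nat_lit 1) (nat_lit 323) (nat_lit 357) (nat_lit 340))) (XT.nd (nat_lit 78) (nat_lit 456) (nat_lit 0) (XT.lf (nat_lit 608) (nat_lit 1606596012) (nat_lit 0) (nat_lit 4497165721) (nat_lit 532) (nat_lit 81859047) (nat_lit 316) (nat_lit 1) (nat_lit 308) (nat_lit 1) (nat_lit 315) (nat_lit 1) (nat_lit 324) (nat_lit 357) (nat_lit 339)) (XT.lf (nat_lit 532) (nat_lit 147012665) (nat_lit 0) (nat_lit 4050947266) (nat_lit 456) (nat_lit 1859337806) (nat_lit 309) (nat_lit 1) (nat_lit 302) (nat_lit 1) (nat_lit 308) (nat_lit 1) (nat_lit 325) (nat_lit 357) (nat_lit 338))))) (XT.nd (nat_lit 234) (nat_lit 1672) (nat_lit 0) (XT.nd (nat_lit 78) (nat_lit 912) (nat_lit 0) (XT.lf (nat_lit 76) (nat_lit 2355588492) (nat_lit 0) (nat_lit 1293884346) (nat_lit 608) (nat_lit 2283001775) (nat_lit 295) (nat_lit 1) (nat_lit 294) (nat_lit 1) (nat_lit 302) (nat_lit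 1) (nat_lit 326) (nat_lit 357) (nat_lit 337)) (XT.nd (nat_lit 78) (nat_lit 456) (nat_lit 0) (XT.lf (nat_lit 76) (nat_lit 564543805) (nat_lit 0) (nat_lit 2736699088) (nat_lit 532) (nat_lit 2510114257) (nat_lit 289) (nat_lit 1) (nat_lit 288) (nat_lit 1) (nat_lit 295) (nat_lit 1) (nat_lit 327) (nat_lit 357) (nat_lit 336)) (XT.lf (nat_lit 532) (nat_lit 1499664205) (nat_lit 0) (nat_lit 2992921750) (nat_lit 456) (nat_lit 1200929930) (nat_lit 289) (nat_lit 1) (nat_lit 282) (nat_lit 1) (nat_lit 288) (nat_lit 1) (nat_lit 328) (nat_lit 357) (nat_lit 335)))) (XT.nd (nat_lit 156) (nat_lit 760) (nat_lit 0) (XT.nd (nat_lit 78) (nat_lit 456) (nat_lit 0) (XT.lf (nat_lit 76) (nat_lit 2651182585) (nat_lit 0) (nat_lit 76461782) (nat_lit 456) (nat_lit 2851357499) (nat_lit 277) (nat_lit 1) (nat_lit 276) (nat_lit 1) (nat_lit 282) (nat_lit 1) (nat_lit 329) (nat_lit 357) (nat_lit 334)) (XT.lf (nat_lit 76) (nat_lit 875659462)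 (nat_lit 0) (nat_lit 1618771356) (nat_lit 532) (nat_lit 2973024975) (nat_lit 271) (nat_lit 1) (nat_lit 270) (nat_lit 1) (nat_lit 277) (nat_lit 1) (nat_lit 330) (nat_lit 357) (nat_lit 333))) (XT.nd (nat_lit 78) (nat_lit 380) (nat_lit 0) (XT.lf (nat_lit 456) (nat_lit 2195539448) (nat_lit 0) (nat_lit 2297036445) (nat_lit 380) (nat_lit 866372407) (nat_lit 271) (nat_lit 1) (nat_lit 265) (nat_lit 1) (nat_lit 270) (nat_lit 1) (nat_lit 331) (nat_lit 357) (nat_lit 332)) (XT.lf (nat_lit 456) (nat_lit 544567717) (nat_lit 0) (nat_lit 2133294717) (nat_lit 380) (nat_lit 2575515844) (nat_lit 266) (nat_lit 1) (nat_lit 260) (nat_lit 1) (nat_lit 265) (nat_lit 1) (nat_lit 332) (nat_lit 357) (nat_lit 331)))))) (XT.nd (nat_lit 546) (nat_lit 2052) (nat_lit 0) (XT.nd (nat_lit 234) (nat_lit 1444) (nat_lit 0) (XT.nd (nat_lit 78) (nat_lit 684) (nat_lit 0) (XT.lf (nat_lit 76) (nat_lit 925995028) (nat_lit 0) (nat_lit 1072917402)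 (nat_lit 456) (nat_lit 3151670973) (nat_lit 255) (nat_lit 1) (nat_lit 254) (nat_lit 1) (nat_lit 260) (nat_lit 1) (nat_lit 333) (nat_lit 357) (nat_lit 330)) (XT.nd (nat_lit 78) (nat_lit 304) (nat_lit 0) (XT.lf (nat_lit 456) (nat_lit 2375977764) (nat_lit 0) (nat_lit 1889494446) (nat_lit 380) (nat_lit 784926878) (nat_lit 255) (nat_lit 1) (nat_lit 249) (nat_lit 1) (nat_lit 254) (nat_lit 1) (nat_lit 334) (nat_lit 357) (nat_lit 329)) (XT.lf (nat_lit 380) (nat_lit 682155467) (nat_lit 0) (nat_lit 1807269822) (nat_lit 304) (nat_lit 2463429092) (nat_lit 250) (nat_lit 1) (nat_lit 245) (nat_lit 1) (nat_lit 249) (nat_lit 1) (nat_lit 335) (nat_lit 357) (nat_lit 328)))) (XT.nd (nat_lit 156) (nat_lit 684) (nat_lit 0) (XT.nd (nat_lit 78) (nat_lit 304) (nat_lit 0) (XT.lf (nat_lit 76) (nat_lit 775416774) (nat_lit 0) (nat_lit 974330022) (nat_lit 456) (nat_lit 3108094719) (nat_lit 240) (nat_lit 1) (nat_lit 239) (nat_lit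 1) (nat_lit 245) (nat_lit 1) (nat_lit 336) (nat_lit 357) (nat_lit 327)) (XT.lf (nat_lit 380) (nat_lit 2157203186) (nat_lit 0) (nat_lit 1709385427) (nat_lit 304) (nat_lit 898517747) (nat_lit 240) (nat_lit 1) (nat_lit 235) (nat_lit 1) (nat_lit 239) (nat_lit 1) (nat_lit 337) (nat_lit 357) (nat_lit 326))) (XT.nd (nat_lit 78) (nat_lit 380) (nat_lit 0) (XT.lf (nat_lit 380) (nat_lit 445027201) (nat_lit 0) (nat_lit 1692688782) (nat_lit 304) (nat_lit 2537088479) (nat_lit 236) (nat_lit 1) (nat_lit 231) (nat_lit 1) (nat_lit 235) (nat_lit 1) (nat_lit 338) (nat_lit 357) (nat_lit 325)) (XT.lf (nat_lit 76) (nat_lit 472931524) (nat_lit 0) (nat_lit 1220481330) (nat_lit 380) (nat_lit 2893307881) (nat_lit 227) (nat_lit 1) (nat_lit 226) (nat_lit 1) (nat_lit 231) (nat_lit 1) (nat_lit 339) (nat_lit 357) (nat_lit 324))))) (XT.nd (nat_lit 234) (nat_lit 1140) (nat_lit 0) (XT.nd (nat_lit 78) (nat_lit 608) (nat_lit 0) (XT.lf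 (nat_lit 380) (nat_lit 1634516333) (nat_lit 0) (nat_lit 1706549147) (nat_lit 304) (nat_lit 1159611236) (nat_lit 227) (nat_lit 1) (nat_lit 222) (nat_lit 1) (nat_lit 226) (nat_lit 1) (nat_lit 340) (nat_lit 357) (nat_lit 323)) (XT.nd (nat_lit 78) (nat_lit 304) (nat_lit 0) (XT.lf (nat_lit 76) (nat_lit 1666382045) (nat_lit 0) (nat_lit 74976355) (nat_lit 304) (nat_lit 2675551771) (nat_lit 219) (nat_lit 1) (nat_lit 218) (nat_lit 1) (nat_lit 222) (nat_lit 1) (nat_lit 341) (nat_lit 357) (nat_lit 322)) (XT.lf (nat_lit 76) (nat_lit 58513522) (nat_lit 0) (nat_lit 1727398124) (nat_lit 380) (nat_lit 2549130649) (nat_lit 215) (nat_lit 1) (nat_lit 214) (nat_lit 1) (nat_lit 219) (nat_lit 1) (nat_lit 342) (nat_lit 357) (nat_lit 321)))) (XT.nd (nat_lit 156) (nat_lit 532) (nat_lit 0) (XT.nd (nat_lit 78) (nat_lit 380) (nat_lit 0) (XT.lf (nat_lit 304) (nat_lit 885801863) (nat_lit 0) (nat_lit 1839786863) (nat_lit 228)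 (nat_lit 1529441312) (nat_lit 215) (nat_lit 1) (nat_lit 211) (nat_lit 1) (nat_lit 214) (nat_lit 1) (nat_lit 343) (nat_lit 357) (nat_lit 320)) (XT.lf (nat_lit 76) (nat_lit 1115857528) (nat_lit 0) (nat_lit 792765774) (nat_lit 380) (nat_lit 2268384176) (nat_lit 207) (nat_lit 1) (nat_lit 206) (nat_lit 1) (nat_lit 211) (nat_lit 1) (nat_lit 344) (nat_lit 357) (nat_lit 319))) (XT.nd (nat_lit 78) (nat_lit 304) (nat_lit 0) (XT.lf (nat_lit 304) (nat_lit 1669966657) (nat_lit 0) (nat_lit 1986781506) (nat_lit 228) (nat_lit 444032596) (nat_lit 207) (nat_lit 1) (nat_lit 203) (nat_lit 1) (nat_lit 206) (nat_lit 1) (nat_lit 345) (nat_lit 357) (nat_lit 318)) (XT.lf (nat_lit 76) (nat_lit 2050072203) (nat_lit 0) (nat_lit 25039313) (nat_lit 304) (nat_lit 1951234089) (nat_lit 200) (nat_lit 1) (nat_lit 199) (nat_lit 1) (nat_lit 203) (nat_lit 1) (nat_lit 346) (nat_lit 357) (nat_lit 317))))))))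
noncomputable def ec37 : XT := (XT.nd (nat_lit 2184) (nat_lit 2964) (nat_lit 0) (XT.nd (nat_lit 1092) (nat_lit 2356) (nat_lit 0) (XT.nd (nat_lit 546) (nat_lit 1520) (nat_lit 0) (XT.nd (nat_lit 234) (nat_lit 912) (nat_lit 0) (XT.nd (nat_lit 78) (nat_lit 532) (nat_lit 0) (XT.lf (nat_lit 76) (nat_lit 509477237) (nat_lit 0) (nat_lit 1658175595) (nat_lit 304) (nat_lit 1785847095) (nat_lit 197) (nat_lit 1) (nat_lit 196) (nat_lit 1) (nat_lit 200) (nat_lit 1) (nat_lit 347) (nat_lit 357) (nat_lit 316)) (XT.nd (nat_lit 78) (nat_lit 304) (nat_lit 0) (XT.lf (nat_lit 304) (nat_lit 610519584) (nat_lit 0) (nat_lit 2269829573) (nat_lit 228) (nat_lit 1002024612) (nat_lit 197) (nat_lit 1) (nat_lit 193) (nat_lit 1) (nat_lit 196) (nat_lit 1) (nat_lit 348) (nat_lit 357) (nat_lit 315)) (XT.lf (nat_lit 76) (nat_lit 1347706227) (nat_lit 0) (nat_lit 1027675667) (nat_lit 304) (nat_lit 1437375506) (nat_lit 190) (nat_lit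 1) (nat_lit 189) (nat_lit 1) (nat_lit 193) (nat_lit 1) (nat_lit 349) (nat_lit 357) (nat_lit 314)))) (XT.nd (nat_lit 156) (nat_lit 456) (nat_lit 0) (XT.nd (nat_lit 78) (nat_lit 228) (nat_lit 0) (XT.lf (nat_lit 304) (nat_lit 1119992581) (nat_lit 0) (nat_lit 2491676787) (nat_lit 228) (nat_lit 133169136) (nat_lit 190) (nat_lit 1) (nat_lit 186) (nat_lit 1) (nat_lit 189) (nat_lit 1) (nat_lit 350) (nat_lit 357) (nat_lit 313)) (XT.lf (nat_lit 76) (nat_lit 2090652858) (nat_lit 0) (nat_lit 516027336) (nat_lit 228) (nat_lit 1071560012) (nat_lit 184) (nat_lit 1) (nat_lit 183) (nat_lit 1) (nat_lit 186) (nat_lit 1) (nat_lit 351) (nat_lit 357) (nat_lit 312))) (XT.nd (nat_lit 78) (nat_lit 228) (nat_lit 0) (XT.lf (nat_lit 76) (nat_lit 628615541) (nat_lit 0) (nat_lit 2098804573) (nat_lit 304) (nat_lit 885721219) (nat_lit 181) (nat_lit 1) (nat_lit 180) (nat_lit 1) (nat_lit 184) (nat_lit 1) (nat_lit 352) (nat_lit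 357) (nat_lit 311)) (XT.lf (nat_lit 76) (nat_lit 2748384277) (nat_lit 0) (nat_lit 106602908) (nat_lit 228) (nat_lit 694561085) (nat_lit 178) (nat_lit 1) (nat_lit 177) (nat_lit 1) (nat_lit 180) (nat_lit 1) (nat_lit 353) (nat_lit 357) (nat_lit 310))))) (XT.nd (nat_lit 234) (nat_lit 912) (nat_lit 0) (XT.nd (nat_lit 78) (nat_lit 380) (nat_lit 0) (XT.lf (nat_lit 76) (nat_lit 1304747264) (nat_lit 0) (nat_lit 1672097422) (nat_lit 304) (nat_lit 510226293) (nat_lit 175) (nat_lit 1) (nat_lit 174) (nat_lit 1) (nat_lit 178) (nat_lit 1) (nat_lit 354) (nat_lit 357) (nat_lit 309)) (XT.nd (nat_lit 78) (nat_lit 228) (nat_lit 0) (XT.lf (nat_lit 228) (nat_lit 219406444) (nat_lit 0) (nat_lit 3112550565) (nat_lit 152) (nat_lit 94297677) (nat_lit 175) (nat_lit 1) (nat_lit 172) (nat_lit 1) (nat_lit 174) (nat_lit 1) (nat_lit 355) (nat_lit 357) (nat_lit 308)) (XT.lf (nat_lit 76) (nat_lit 1906416134) (nat_lit 0) (nat_lit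 1329603253) (nat_lit 228) (nat_lit 130296281) (nat_lit 170) (nat_lit 1) (nat_lit 169) (nat_lit 1) (nat_lit 172) (nat_lit 1) (nat_lit 356) (nat_lit 357) (nat_lit 307)))) (XT.nd (nat_lit 156) (nat_lit 380) (nat_lit 0) (XT.nd (nat_lit 78) (nat_lit 228) (nat_lit 0) (XT.lf (nat_lit 228) (nat_lit 465051341) (nat_lit 0) (nat_lit 64488809) (nat_lit 152) (nat_lit 2778367968) (nat_lit 168) (nat_lit 1) (nat_lit 165) (nat_lit 1) (nat_lit 167) (nat_lit 1) (nat_lit 357) (nat_lit 357) (nat_lit 306)) (XT.lf (nat_lit 228) (nat_lit 2188795049) (nat_lit 0) (nat_lit 254923547) (nat_lit 152) (nat_lit 806764167) (nat_lit 165) (nat_lit 1) (nat_lit 162) (nat_lit 1) (nat_lit 164) (nat_lit 1) (nat_lit 358) (nat_lit 357) (nat_lit 305))) (XT.nd (nat_lit 78) (nat_lit 228) (nat_lit 0) (XT.lf (nat_lit 228) (nat_lit 642049939) (nat_lit 0) (nat_lit 447145218) (nat_lit 152) (nat_lit 2105113766) (nat_lit 163) (nat_lit 1) (nat_lit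 160) (nat_lit 1) (nat_lit 162) (nat_lit 1) (nat_lit 359) (nat_lit 357) (nat_lit 304)) (XT.lf (nat_lit 228) (nat_lit 2282712712) (nat_lit 0) (nat_lit 639547643) (nat_lit 152) (nat_lit 217056613) (nat_lit 160) (nat_lit 1) (nat_lit 157) (nat_lit 1) (nat_lit 159) (nat_lit 1) (nat_lit 360) (nat_lit 357) (nat_lit 303)))))) (XT.nd (nat_lit 546) (nat_lit 1216) (nat_lit 0) (XT.nd (nat_lit 234) (nat_lit 608) (nat_lit 0) (XT.nd (nat_lit 78) (nat_lit 380) (nat_lit 0) (XT.lf (nat_lit 228) (nat_lit 764294637) (nat_lit 0) (nat_lit 825664694) (nat_lit 152) (nat_lit 1495336819) (nat_lit 158) (nat_lit 1) (nat_lit 155) (nat_lit 1) (nat_lit 157) (nat_lit 1) (nat_lit 361) (nat_lit 357) (nat_lit 302)) (XT.nd (nat_lit 78) (nat_lit 152) (nat_lit 0) (XT.lf (nat_lit 76) (nat_lit 308082800) (nat_lit 0) (nat_lit 706878582) (nat_lit 228) (nat_lit 2017538785) (nat_lit 153) (nat_lit 1) (nat_lit 152) (nat_lit 1) (nat_lit 155)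 (nat_lit 1) (nat_lit 362) (nat_lit 357) (nat_lit 301)) (XT.lf (nat_lit 228) (nat_lit 840314838) (nat_lit 0) (nat_lit 1197334298) (nat_lit 152) (nat_lit 942964041) (nat_lit 153) (nat_lit 1) (nat_lit 150) (nat_lit 1) (nat_lit 152) (nat_lit 1) (nat_lit 363) (nat_lit 357) (nat_lit 300)))) (XT.nd (nat_lit 156) (nat_lit 304) (nat_lit 0) (XT.nd (nat_lit 78) (nat_lit 152) (nat_lit 0) (XT.lf (nat_lit 76) (nat_lit 777214634) (nat_lit 0) (nat_lit 603044577) (nat_lit 152) (nat_lit 1549572555) (nat_lit 149) (nat_lit 1) (nat_lit 148) (nat_lit 1) (nat_lit 150) (nat_lit 1) (nat_lit 364) (nat_lit 357) (nat_lit 299)) (XT.lf (nat_lit 228) (nat_lit 877525370) (nat_lit 0) (nat_lit 1559933727) (nat_lit 152) (nat_lit 442565335) (nat_lit 149) (nat_lit 1) (nat_lit 146) (nat_lit 1) (nat_lit 148) (nat_lit 1) (nat_lit 365) (nat_lit 357) (nat_lit 298))) (XT.nd (nat_lit 78) (nat_lit 152) (nat_lit 0) (XT.lf (nat_lit 76) (nat_lit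 1199514358) (nat_lit 0) (nat_lit 536085772) (nat_lit 152) (nat_lit 1095548619) (nat_lit 145) (nat_lit 1) (nat_lit 144) (nat_lit 1) (nat_lit 146) (nat_lit 1) (nat_lit 366) (nat_lit 357) (nat_lit 297)) (XT.lf (nat_lit 76) (nat_lit 10510172) (nat_lit 0) (nat_lit 1901052443) (nat_lit 228) (nat_lit 871747497) (nat_lit 143) (nat_lit 1) (nat_lit 142) (nat_lit 1) (nat_lit 145) (nat_lit 1) (nat_lit 367) (nat_lit 357) (nat_lit 296))))) (XT.nd (nat_lit 234) (nat_lit 760) (nat_lit 0) (XT.nd (nat_lit 78) (nat_lit 304) (nat_lit 0) (XT.lf (nat_lit 76) (nat_lit 1579403640) (nat_lit 0) (nat_lit 499984440) (nat_lit 152) (nat_lit 656855227) (nat_lit 141) (nat_lit 1) (nat_lit 140) (nat_lit 1) (nat_lit 142) (nat_lit 1) (nat_lit 368) (nat_lit 357) (nat_lit 295)) (XT.nd (nat_lit 78) (nat_lit 152) (nat_lit 0) (XT.lf (nat_lit 76) (nat_lit 413024388) (nat_lit 0) (nat_lit 1833917772) (nat_lit 228) (nat_lit 443216057) (nat_lit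 139) (nat_lit 1) (nat_lit 138) (nat_lit 1) (nat_lit 141) (nat_lit 1) (nat_lit 369) (nat_lit 357) (nat_lit 294)) (XT.lf (nat_lit 76) (nat_lit 1920844364) (nat_lit 0) (nat_lit 489522395) (nat_lit 152) (nat_lit 234556859) (nat_lit 137) (nat_lit 1) (nat_lit 136) (nat_lit 1) (nat_lit 138) (nat_lit 1) (nat_lit 370) (nat_lit 357) (nat_lit 293)))) (XT.nd (nat_lit 156) (nat_lit 304) (nat_lit 0) (XT.nd (nat_lit 78) (nat_lit 304) (nat_lit 0) (XT.lf (nat_lit 76) (nat_lit 777442730) (nat_lit 0) (nat_lit 1791863095) (nat_lit 228) (nat_lit 31204824) (nat_lit 135) (nat_lit 1) (nat_lit 134) (nat_lit 1) (nat_lit 137) (nat_lit 1) (nat_lit 371) (nat_lit 357) (nat_lit 292)) (XT.lf (nat_lit 228) (nat_lit 2055108017) (nat_lit 0) (nat_lit 173954386) (nat_lit 152) (nat_lit 327899656) (nat_lit 133) (nat_lit 1) (nat_lit 130) (nat_lit 1) (nat_lit 132) (nat_lit 1) (nat_lit 372) (nat_lit 357) (nat_lit 291))) (XT.nd (nat_lit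 78) (nat_lit 228) (nat_lit 0) (XT.lf (nat_lit 152) (nat_lit 739946412) (nat_lit 0) (nat_lit 370821932) (nat_lit 76) (nat_lit 1403320189) (nat_lit 131) (nat_lit 1) (nat_lit 129) (nat_lit 1) (nat_lit 130) (nat_lit 1) (nat_lit 373) (nat_lit 357) (nat_lit 290)) (XT.lf (nat_lit 76) (nat_lit 34828841) (nat_lit 0) (nat_lit 533870007) (nat_lit 228) (nat_lit 1903471415) (nat_lit 127) (nat_lit 1) (nat_lit 126) (nat_lit 1) (nat_lit 129) (nat_lit 1) (nat_lit 374) (nat_lit 357) (nat_lit 289))))))) (XT.nd (nat_lit 1092) (nat_lit 1140) (nat_lit 0) (XT.nd (nat_lit 546) (nat_lit 912) (nat_lit 0) (XT.nd (nat_lit 234) (nat_lit 532) (nat_lit 0) (XT.nd (nat_lit 78) (nat_lit 304) (nat_lit 0) (XT.lf (nat_lit 152) (nat_lit 657239520) (nat_lit 0) (nat_lit 755420868) (nat_lit 76) (nat_lit 1018174929) (nat_lit 127) (nat_lit 1) (nat_lit 125) (nat_lit 1) (nat_lit 126) (nat_lit 1) (nat_lit 375) (nat_lit 357) (nat_lit 288))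 (XT.nd (nat_lit 78) (nat_lit 76) (nat_lit 0) (XT.lf (nat_lit 76) (nat_lit 359677133) (nat_lit 0) (nat_lit 582401517) (nat_lit 228) (nat_lit 1448310772) (nat_lit 123) (nat_lit 1) (nat_lit 122) (nat_lit 1) (nat_lit 125) (nat_lit 1) (nat_lit 376) (nat_lit 357) (nat_lit 287)) (XT.lf (nat_lit 152) (nat_lit 563912441) (nat_lit 0) (nat_lit 1121680160) (nat_lit 76) (nat_lit 665019357) (nat_lit 123) (nat_lit 1) (nat_lit 121) (nat_lit 1) (nat_lit 122) (nat_lit 1) (nat_lit 377) (nat_lit 357) (nat_lit 286)))) (XT.nd (nat_lit 156) (nat_lit 228) (nat_lit 0) (XT.nd (nat_lit 78) (nat_lit 76) (nat_lit 0) (XT.lf (nat_lit 76) (nat_lit 655713398) (nat_lit 0) (nat_lit 641422868) (nat_lit 228) (nat_lit 1014434795) (nat_lit 119) (nat_lit 1) (nat_lit 118) (nat_lit 1) (nat_lit 121) (nat_lit 1) (nat_lit 378) (nat_lit 357) (nat_lit 285)) (XT.lf (nat_lit 152) (nat_lit 462597147) (nat_lit 0) (nat_lit 1469474255) (nat_lit 76)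 (nat_lit 341208919) (nat_lit 119) (nat_lit 1) (nat_lit 117) (nat_lit 1) (nat_lit 118) (nat_lit 1) (nat_lit 379) (nat_lit 357) (nat_lit 284))) (XT.nd (nat_lit 78) (nat_lit 76) (nat_lit 0) (XT.lf (nat_lit 76) (nat_lit 925349227) (nat_lit 0) (nat_lit 708469581) (nat_lit 152) (nat_lit 601762912) (nat_lit 116) (nat_lit 1) (nat_lit 115) (nat_lit 1) (nat_lit 117) (nat_lit 1) (nat_lit 380) (nat_lit 357) (nat_lit 283)) (XT.lf (nat_lit 152) (nat_lit 355542706) (nat_lit 0) (nat_lit 1798817065) (nat_lit 76) (nat_lit 44351633) (nat_lit 116) (nat_lit 1) (nat_lit 114) (nat_lit 1) (nat_lit 115) (nat_lit 1) (nat_lit 381) (nat_lit 357) (nat_lit 282))))) (XT.nd (nat_lit 234) (nat_lit 456) (nat_lit 0) (XT.nd (nat_lit 78) (nat_lit 304) (nat_lit 0) (XT.lf (nat_lit 76) (nat_lit 1170766086) (nat_lit 0) (nat_lit 781434552) (nat_lit 152) (nat_lit 210095988) (nat_lit 113) (nat_lit 1) (nat_lit 112) (nat_lit 1) (nat_lit 114)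 (nat_lit 1) (nat_lit 382) (nat_lit 357) (nat_lit 281)) (XT.nd (nat_lit 78) (nat_lit 228) (nat_lit 0) (XT.lf (nat_lit 0) (nat_lit 223275513) (nat_lit 0) (nat_lit 1884309382) (nat_lit 152) (nat_lit 19133935) (nat_lit 111) (nat_lit 3) (nat_lit 111) (nat_lit 1) (nat_lit 113) (nat_lit 1) (nat_lit 383) (nat_lit 357) (nat_lit 280)) (XT.lf (nat_lit 152) (nat_lit 1231451989) (nat_lit 0) (nat_lit 164065155) (nat_lit 76) (nat_lit 696034437) (nat_lit 110) (nat_lit 1) (nat_lit 108) (nat_lit 1) (nat_lit 109) (nat_lit 1) (nat_lit 384) (nat_lit 357) (nat_lit 279)))) (XT.nd (nat_lit 156) (nat_lit 228) (nat_lit 0) (XT.nd (nat_lit 78) (nat_lit 152) (nat_lit 0) (XT.lf (nat_lit 76) (nat_lit 123421172) (nat_lit 0) (nat_lit 347581377) (nat_lit 76) (nat_lit 1586146108) (nat_lit 108) (nat_lit 3) (nat_lit 107) (nat_lit 1) (nat_lit 108) (nat_lit 1) (nat_lit 385) (nat_lit 357) (nat_lit 278)) (XT.lf (nat_lit 152) (nat_lit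 1080003768) (nat_lit 0) (nat_lit 521674601) (nat_lit 76) (nat_lit 421550013) (nat_lit 107) (nat_lit 1) (nat_lit 105) (nat_lit 1) (nat_lit 106) (nat_lit 1) (nat_lit 386) (nat_lit 357) (nat_lit 277))) (XT.nd (nat_lit 78) (nat_lit 152) (nat_lit 0) (XT.lf (nat_lit 76) (nat_lit 3819586) (nat_lit 0) (nat_lit 694276299) (nat_lit 76) (nat_lit 1291911465) (nat_lit 105) (nat_lit 3) (nat_lit 104) (nat_lit 1) (nat_lit 105) (nat_lit 1) (nat_lit 387) (nat_lit 357) (nat_lit 276)) (XT.lf (nat_lit 152) (nat_lit 929818058) (nat_lit 0) (nat_lit 859004820) (nat_lit 76) (nat_lit 168462663) (nat_lit 104) (nat_lit 1) (nat_lit 102) (nat_lit 1) (nat_lit 103) (nat_lit 1) (nat_lit 388) (nat_lit 357) (nat_lit 275)))))) (XT.nd (nat_lit 546) (nat_lit 228) (nat_lit 0) (XT.nd (nat_lit 234) (nat_lit 532) (nat_lit 0) (XT.nd (nat_lit 78) (nat_lit 228) (nat_lit 0) (XT.lf (nat_lit 76) (nat_lit 907071373) (nat_lit 0) (nat_lit 112827880)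 (nat_lit 152) (nat_lit 905267467) (nat_lit 101) (nat_lit 1) (nat_lit 100) (nat_lit 1) (nat_lit 102) (nat_lit 1) (nat_lit 389) (nat_lit 357) (nat_lit 274)) (XT.nd (nat_lit 78) (nat_lit 152) (nat_lit 0) (XT.lf (nat_lit 0) (nat_lit 63546744) (nat_lit 0) (nat_lit 1112375282) (nat_lit 152) (nat_lit 717685029) (nat_lit 99) (nat_lit 3) (nat_lit 99) (nat_lit 1) (nat_lit 101) (nat_lit 1) (nat_lit 390) (nat_lit 357) (nat_lit 273)) (XT.lf (nat_lit 76) (nat_lit 1098300093) (nat_lit 0) (nat_lit 227786368) (nat_lit 152) (nat_lit 536477993) (nat_lit 98) (nat_lit 1) (nat_lit 97) (nat_lit 1) (nat_lit 99) (nat_lit 1) (nat_lit 391) (nat_lit 357) (nat_lit 272)))) (XT.nd (nat_lit 156) (nat_lit 304) (nat_lit 0) (XT.nd (nat_lit 78) (nat_lit 152) (nat_lit 0) (XT.lf (nat_lit 0) (nat_lit 274261134) (nat_lit 0) (nat_lit 1197871233) (nat_lit 152) (nat_lit 359944127) (nat_lit 96) (nat_lit 3) (nat_lit 96) (nat_lit 1) (nat_lit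 98) (nat_lit 1) (nat_lit 392) (nat_lit 357) (nat_lit 271)) (XT.lf (nat_lit 76) (nat_lit 1273067789) (nat_lit 0) (nat_lit 340372971) (nat_lit 152) (nat_lit 188671533) (nat_lit 95) (nat_lit 1) (nat_lit 94) (nat_lit 1) (nat_lit 96) (nat_lit 1) (nat_lit 393) (nat_lit 357) (nat_lit 270))) (XT.nd (nat_lit 78) (nat_lit 228) (nat_lit 0) (XT.lf (nat_lit 0) (nat_lit 468266315) (nat_lit 0) (nat_lit 1281607661) (nat_lit 152) (nat_lit 22781265) (nat_lit 93) (nat_lit 3) (nat_lit 93) (nat_lit 1) (nat_lit 95) (nat_lit 1) (nat_lit 394) (nat_lit 357) (nat_lit 269)) (XT.lf (nat_lit 152) (nat_lit 1292353100) (nat_lit 0) (nat_lit 141592664) (nat_lit 76) (nat_lit 309739094) (nat_lit 92) (nat_lit 1) (nat_lit 90) (nat_lit 1) (nat_lit 91) (nat_lit 1) (nat_lit 395) (nat_lit 357) (nat_lit 268))))) (XT.nd (nat_lit 46020) (nat_lit 0) (nat_lit 21888) (XT.nd (nat_lit 78) (nat_lit 152) (nat_lit 0) (XT.lf (nat_lit 76) (nat_lit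 349297153) (nat_lit 0) (nat_lit 300342385) (nat_lit 76) (nat_lit 1065534606) (nat_lit 90) (nat_lit 3) (nat_lit 89) (nat_lit 1) (nat_lit 90) (nat_lit 1) (nat_lit 396) (nat_lit 357) (nat_lit 267)) (XT.nd (nat_lit 45864) (nat_lit 0) (nat_lit 21812) (XT.lf (nat_lit 152) (nat_lit 1126729670) (nat_lit 0) (nat_lit 455609942) (nat_lit 76) (nat_lit 104853530) (nat_lit 89) (nat_lit 1) (nat_lit 87) (nat_lit 1) (nat_lit 88) (nat_lit 1) (nat_lit 397) (nat_lit 357) (nat_lit 266)) (XT.lf (nat_lit 1292) (nat_lit 897577713) (nat_lit 0) (nat_lit 3088084769) (nat_lit 1292) (nat_lit 897577713) (nat_lit 391) (nat_lit 1) (nat_lit 374) (nat_lit 0) (nat_lit 391) (nat_lit 0) (nat_lit 304) (nat_lit 358) (nat_lit 358)))) (XT.nd (nat_lit 156) (nat_lit 0) (nat_lit 76) (XT.nd (nat_lit 78) (nat_lit 0) (nat_lit 0) (XT.lf (nat_lit 1292) (nat_lit 71960378) (nat_lit 0) (nat_lit 6089053799) (nat_lit 1216) (nat_lit 3371132889) (nat_lit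 392) (nat_lit 1) (nat_lit 375) (nat_lit 1) (nat_lit 391) (nat_lit 1) (nat_lit 305) (nat_lit 358) (nat_lit 357)) (XT.lf (nat_lit 1292) (nat_lit 3165947265) (nat_lit 76) (nat_lit 4478116556) (nat_lit 0) (nat_lit 1660920143) (nat_lit 392) (nat_lit 1) (nat_lit 376) (nat_lit 1) (nat_lit 375) (nat_lit 1) (nat_lit 306) (nat_lit 358) (nat_lit 356))) (XT.nd (nat_lit 78) (nat_lit 0) (nat_lit 76) (XT.lf (nat_lit 1292) (nat_lit 2783136104) (nat_lit 76) (nat_lit 2931247726) (nat_lit 0) (nat_lit 3370792304) (nat_lit 393) (nat_lit 1) (nat_lit 377) (nat_lit 1) (nat_lit 376) (nat_lit 1) (nat_lit 307) (nat_lit 358) (nat_lit 355)) (XT.lf (nat_lit 1292) (nat_lit 2303232529) (nat_lit 76) (nat_lit 1514142561) (nat_lit 0) (nat_lit 5055101374) (nat_lit 394) (nat_lit 1) (nat_lit 378) (nat_lit 1) (nat_lit 377) (nat_lit 1) (nat_lit 308) (nat_lit 358) (nat_lit 354))))))))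
noncomputable def ec38 : XT := (XT.nd (nat_lit 2184) (nat_lit 6612) (nat_lit 0) (XT.nd (nat_lit 1092) (nat_lit 5852) (nat_lit 0) (XT.nd (nat_lit 546) (nat_lit 3496) (nat_lit 0) (XT.nd (nat_lit 234) (nat_lit 1824) (nat_lit 0) (XT.nd (nat_lit 78) (nat_lit 0) (nat_lit 76) (XT.lf (nat_lit 1292) (nat_lit 1733637315) (nat_lit 76) (nat_lit 220133933) (nat_lit 0) (nat_lit 6712856117) (nat_lit 395) (nat_lit 1) (nat_lit 379) (nat_lit 1) (nat_lit 378) (nat_lit 1) (nat_lit 309) (nat_lit 358) (nat_lit 353)) (XT.nd (nat_lit 78) (nat_lit 0) (nat_lit 0) (XT.lf (nat_lit 1292) (nat_lit 133394146) (nat_lit 0) (nat_lit 7395253046) (nat_lit 1216) (nat_lit 938458267) (nat_lit 396) (nat_lit 1) (nat_lit 379) (nat_lit 1) (nat_lit 395) (nat_lit 1) (nat_lit 310) (nat_lit 358) (nat_lit 352)) (XT.lf (nat_lit 1292) (nat_lit 316173145) (nat_lit 76) (nat_lit 6273005021) (nat_lit 0) (nat_lit 1684253772) (nat_lit 396) (nat_lit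 1) (nat_lit 380) (nat_lit 1) (nat_lit 379) (nat_lit 1) (nat_lit 311) (nat_lit 358) (nat_lit 351)))) (XT.nd (nat_lit 156) (nat_lit 684) (nat_lit 0) (XT.nd (nat_lit 78) (nat_lit 0) (nat_lit 76) (XT.lf (nat_lit 1368) (nat_lit 4620866940) (nat_lit 0) (nat_lit 499467389) (nat_lit 1292) (nat_lit 2965415666) (nat_lit 381) (nat_lit 1) (nat_lit 363) (nat_lit 1) (nat_lit 380) (nat_lit 1) (nat_lit 312) (nat_lit 358) (nat_lit 350)) (XT.lf (nat_lit 1368) (nat_lit 2697174987) (nat_lit 0) (nat_lit 1370479679) (nat_lit 1292) (nat_lit 3836261155) (nat_lit 382) (nat_lit 1) (nat_lit 364) (nat_lit 1) (nat_lit 381) (nat_lit 1) (nat_lit 313) (nat_lit 358) (nat_lit 349))) (XT.nd (nat_lit 78) (nat_lit 836) (nat_lit 0) (XT.lf (nat_lit 76) (nat_lit 815100589) (nat_lit 0) (nat_lit 2297690527) (nat_lit 1292) (nat_lit 4615019042) (nat_lit 366) (nat_lit 1) (nat_lit 365) (nat_lit 1) (nat_lit 382) (nat_lit 1) (nat_lit 314) (nat_lit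 358) (nat_lit 348)) (XT.lf (nat_lit 912) (nat_lit 4270804188) (nat_lit 0) (nat_lit 2240328900) (nat_lit 836) (nat_lit 1045796095) (nat_lit 366) (nat_lit 1) (nat_lit 354) (nat_lit 1) (nat_lit 365) (nat_lit 1) (nat_lit 315) (nat_lit 358) (nat_lit 347))))) (XT.nd (nat_lit 234) (nat_lit 1748) (nat_lit 0) (XT.nd (nat_lit 78) (nat_lit 1140) (nat_lit 0) (XT.lf (nat_lit 684) (nat_lit 3062567128) (nat_lit 0) (nat_lit 1447983997) (nat_lit 608) (nat_lit 2880601443) (nat_lit 355) (nat_lit 1) (nat_lit 346) (nat_lit 1) (nat_lit 354) (nat_lit 1) (nat_lit 316) (nat_lit 358) (nat_lit 346)) (XT.nd (nat_lit 78) (nat_lit 532) (nat_lit 0) (XT.lf (nat_lit 684) (nat_lit 1817897430) (nat_lit 0) (nat_lit 739382607) (nat_lit 608) (nat_lit 4673253117) (nat_lit 347) (nat_lit 1) (nat_lit 338) (nat_lit 1) (nat_lit 346) (nat_lit 1) (nat_lit 317) (nat_lit 358) (nat_lit 345)) (XT.lf (nat_lit 608) (nat_lit 540792028) (nat_lit 0)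 (nat_lit 110132692) (nat_lit 532) (nat_lit 6423966524) (nat_lit 339) (nat_lit 1) (nat_lit 331) (nat_lit 1) (nat_lit 338) (nat_lit 1) (nat_lit 318) (nat_lit 358) (nat_lit 344)))) (XT.nd (nat_lit 156) (nat_lit 1064) (nat_lit 0) (XT.nd (nat_lit 78) (nat_lit 608) (nat_lit 0) (XT.lf (nat_lit 76) (nat_lit 5702422462) (nat_lit 0) (nat_lit 766308830) (nat_lit 608) (nat_lit 454615020) (nat_lit 331) (nat_lit 1) (nat_lit 330) (nat_lit 1) (nat_lit 338) (nat_lit 1) (nat_lit 319) (nat_lit 358) (nat_lit 343)) (XT.lf (nat_lit 76) (nat_lit 3723321404) (nat_lit 0) (nat_lit 2093899762) (nat_lit 684) (nat_lit 958864616) (nat_lit 323) (nat_lit 1) (nat_lit 322) (nat_lit 1) (nat_lit 331) (nat_lit 1) (nat_lit 320) (nat_lit 358) (nat_lit 342))) (XT.nd (nat_lit 78) (nat_lit 532) (nat_lit 0) (XT.lf (nat_lit 76) (nat_lit 1794658107) (nat_lit 0) (nat_lit 3441841604) (nat_lit 608) (nat_lit 1396830859) (nat_lit 316) (nat_lit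 1) (nat_lit 315) (nat_lit 1) (nat_lit 323) (nat_lit 1) (nat_lit 321) (nat_lit 358) (nat_lit 341)) (XT.lf (nat_lit 608) (nat_lit 1686925812) (nat_lit 0) (nat_lit 4722024008) (nat_lit 532) (nat_lit 85951999) (nat_lit 316) (nat_lit 1) (nat_lit 308) (nat_lit 1) (nat_lit 315) (nat_lit 1) (nat_lit 322) (nat_lit 358) (nat_lit 340)))))) (XT.nd (nat_lit 546) (nat_lit 2584) (nat_lit 0) (XT.nd (nat_lit 234) (nat_lit 1748) (nat_lit 0) (XT.nd (nat_lit 78) (nat_lit 1064) (nat_lit 0) (XT.lf (nat_lit 532) (nat_lit 154363298) (nat_lit 0) (nat_lit 4253494630) (nat_lit 456) (nat_lit 1952304697) (nat_lit 309) (nat_lit 1) (nat_lit 302) (nat_lit 1) (nat_lit 308) (nat_lit 1) (nat_lit 323) (nat_lit 358) (nat_lit 339)) (XT.nd (nat_lit 78) (nat_lit 456) (nat_lit 0) (XT.lf (nat_lit 76) (nat_lit 2473367916) (nat_lit 0) (nat_lit 1358578564) (nat_lit 608) (nat_lit 2397151864) (nat_lit 295) (nat_lit 1) (nat_lit 294) (nat_lit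 1) (nat_lit 302) (nat_lit 1) (nat_lit 324) (nat_lit 358) (nat_lit 338)) (XT.lf (nat_lit 76) (nat_lit 592770995) (nat_lit 0) (nat_lit 2873534043) (nat_lit 532) (nat_lit 2635619969) (nat_lit 289) (nat_lit 1) (nat_lit 288) (nat_lit 1) (nat_lit 295) (nat_lit 1) (nat_lit 325) (nat_lit 358) (nat_lit 337)))) (XT.nd (nat_lit 156) (nat_lit 836) (nat_lit 0) (XT.nd (nat_lit 78) (nat_lit 456) (nat_lit 0) (XT.lf (nat_lit 532) (nat_lit 1574647415) (nat_lit 0) (nat_lit 3142567838) (nat_lit 456) (nat_lit 1260976426) (nat_lit 289) (nat_lit 1) (nat_lit 282) (nat_lit 1) (nat_lit 288) (nat_lit 1) (nat_lit 326) (nat_lit 358) (nat_lit 336)) (XT.lf (nat_lit 76) (nat_lit 2783741714) (nat_lit 0) (nat_lit 80284871) (nat_lit 456) (nat_lit 2993925374) (nat_lit 277) (nat_lit 1) (nat_lit 276) (nat_lit 1) (nat_lit 282) (nat_lit 1) (nat_lit 327) (nat_lit 358) (nat_lit 335))) (XT.nd (nat_lit 78) (nat_lit 380) (nat_lit 0) (XT.lf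 (nat_lit 76) (nat_lit 919442435) (nat_lit 0) (nat_lit 1699709923) (nat_lit 532) (nat_lit 3121676223) (nat_lit 271) (nat_lit 1) (nat_lit 270) (nat_lit 1) (nat_lit 277) (nat_lit 1) (nat_lit 328) (nat_lit 358) (nat_lit 334)) (XT.lf (nat_lit 456) (nat_lit 2305316420) (nat_lit 0) (nat_lit 2411888267) (nat_lit 380) (nat_lit 909691027) (nat_lit 271) (nat_lit 1) (nat_lit 265) (nat_lit 1) (nat_lit 270) (nat_lit 1) (nat_lit 329) (nat_lit 358) (nat_lit 333))))) (XT.nd (nat_lit 234) (nat_lit 1368) (nat_lit 0) (XT.nd (nat_lit 78) (nat_lit 836) (nat_lit 0) (XT.lf (nat_lit 456) (nat_lit 571796103) (nat_lit 0) (nat_lit 2239959453) (nat_lit 380) (nat_lit 2704291636) (nat_lit 266) (nat_lit 1) (nat_lit 260) (nat_lit 1) (nat_lit 265) (nat_lit 1) (nat_lit 330) (nat_lit 358) (nat_lit 332)) (XT.nd (nat_lit 78) (nat_lit 380) (nat_lit 0) (XT.lf (nat_lit 76) (nat_lit 972294779) (nat_lit 0) (nat_lit 1126563272) (nat_lit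 456) (nat_lit 3309254522) (nat_lit 255) (nat_lit 1) (nat_lit 254) (nat_lit 1) (nat_lit 260) (nat_lit 1) (nat_lit 331) (nat_lit 358) (nat_lit 331)) (XT.lf (nat_lit 456) (nat_lit 2494776653) (nat_lit 0) (nat_lit 1983969168) (nat_lit 380) (nat_lit 824173222) (nat_lit 255) (nat_lit 1) (nat_lit 249) (nat_lit 1) (nat_lit 254) (nat_lit 1) (nat_lit 332) (nat_lit 358) (nat_lit 330)))) (XT.nd (nat_lit 156) (nat_lit 608) (nat_lit 0) (XT.nd (nat_lit 78) (nat_lit 456) (nat_lit 0) (XT.lf (nat_lit 380) (nat_lit 716263240) (nat_lit 0) (nat_lit 1897633314) (nat_lit 304) (nat_lit 2586600547) (nat_lit 250) (nat_lit 1) (nat_lit 245) (nat_lit 1) (nat_lit 249) (nat_lit 1) (nat_lit 333) (nat_lit 358) (nat_lit 329)) (XT.lf (nat_lit 76) (nat_lit 814187613) (nat_lit 0) (nat_lit 1023046524) (nat_lit 456) (nat_lit 3263499455) (nat_lit 240) (nat_lit 1) (nat_lit 239) (nat_lit 1) (nat_lit 245) (nat_lit 1) (nat_lit 334) (nat_lit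 358) (nat_lit 328))) (XT.nd (nat_lit 78) (nat_lit 304) (nat_lit 0) (XT.lf (nat_lit 380) (nat_lit 2265063346) (nat_lit 0) (nat_lit 1794854699) (nat_lit 304) (nat_lit 943443635) (nat_lit 240) (nat_lit 1) (nat_lit 235) (nat_lit 1) (nat_lit 239) (nat_lit 1) (nat_lit 335) (nat_lit 358) (nat_lit 327)) (XT.lf (nat_lit 380) (nat_lit 467278561) (nat_lit 0) (nat_lit 1777323221) (nat_lit 304) (nat_lit 2663942902) (nat_lit 236) (nat_lit 1) (nat_lit 231) (nat_lit 1) (nat_lit 235) (nat_lit 1) (nat_lit 336) (nat_lit 358) (nat_lit 326))))))) (XT.nd (nat_lit 1092) (nat_lit 2736) (nat_lit 0) (XT.nd (nat_lit 546) (nat_lit 1748) (nat_lit 0) (XT.nd (nat_lit 234) (nat_lit 1140) (nat_lit 0) (XT.nd (nat_lit 78) (nat_lit 608) (nat_lit 0) (XT.lf (nat_lit 76) (nat_lit 496578100) (nat_lit 0) (nat_lit 1281505396) (nat_lit 380) (nat_lit 3037973275) (nat_lit 227) (nat_lit 1) (nat_lit 226) (nat_lit 1) (nat_lit 231) (nat_lit 1)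 (nat_lit 337) (nat_lit 358) (nat_lit 325)) (XT.nd (nat_lit 78) (nat_lit 304) (nat_lit 0) (XT.lf (nat_lit 380) (nat_lit 1716242149) (nat_lit 0) (nat_lit 1791876604) (nat_lit 304) (nat_lit 1217591798) (nat_lit 227) (nat_lit 1) (nat_lit 222) (nat_lit 1) (nat_lit 226) (nat_lit 1) (nat_lit 338) (nat_lit 358) (nat_lit 324)) (XT.lf (nat_lit 76) (nat_lit 1749701147) (nat_lit 0) (nat_lit 78725173) (nat_lit 304) (nat_lit 2809329359) (nat_lit 219) (nat_lit 1) (nat_lit 218) (nat_lit 1) (nat_lit 222) (nat_lit 1) (nat_lit 339) (nat_lit 358) (nat_lit 323)))) (XT.nd (nat_lit 156) (nat_lit 608) (nat_lit 0) (XT.nd (nat_lit 78) (nat_lit 228) (nat_lit 0) (XT.lf (nat_lit 76) (nat_lit 61439198) (nat_lit 0) (nat_lit 1813768030) (nat_lit 380) (nat_lit 2676587181) (nat_lit 215) (nat_lit 1) (nat_lit 214) (nat_lit 1) (nat_lit 219) (nat_lit 1) (nat_lit 340) (nat_lit 358) (nat_lit 322)) (XT.lf (nat_lit 304) (nat_lit 930091957)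 (nat_lit 0) (nat_lit 1931776206) (nat_lit 228) (nat_lit 1605913378) (nat_lit 215) (nat_lit 1) (nat_lit 211) (nat_lit 1) (nat_lit 214) (nat_lit 1) (nat_lit 341) (nat_lit 358) (nat_lit 321))) (XT.nd (nat_lit 78) (nat_lit 228) (nat_lit 0) (XT.lf (nat_lit 76) (nat_lit 1171650404) (nat_lit 0) (nat_lit 832404063) (nat_lit 380) (nat_lit 2381803385) (nat_lit 207) (nat_lit 1) (nat_lit 206) (nat_lit 1) (nat_lit 211) (nat_lit 1) (nat_lit 342) (nat_lit 358) (nat_lit 320)) (XT.lf (nat_lit 304) (nat_lit 1753464989) (nat_lit 0) (nat_lit 2086120582) (nat_lit 228) (nat_lit 466234226) (nat_lit 207) (nat_lit 1) (nat_lit 203) (nat_lit 1) (nat_lit 206) (nat_lit 1) (nat_lit 343) (nat_lit 358) (nat_lit 319))))) (XT.nd (nat_lit 234) (nat_lit 988) (nat_lit 0) (XT.nd (nat_lit 78) (nat_lit 456) (nat_lit 0) (XT.lf (nat_lit 76) (nat_lit 2152575813) (nat_lit 0) (nat_lit 26291279) (nat_lit 304) (nat_lit 2048795793) (nat_lit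 200) (nat_lit 1) (nat_lit 199) (nat_lit 1) (nat_lit 203) (nat_lit 1) (nat_lit 344) (nat_lit 358) (nat_lit 318)) (XT.nd (nat_lit 78) (nat_lit 228) (nat_lit 0) (XT.lf (nat_lit 76) (nat_lit 534951098) (nat_lit 0) (nat_lit 1741084375) (nat_lit 304) (nat_lit 1875139450) (nat_lit 197) (nat_lit 1) (nat_lit 196) (nat_lit 1) (nat_lit 200) (nat_lit 1) (nat_lit 345) (nat_lit 358) (nat_lit 317)) (XT.lf (nat_lit 304) (nat_lit 641045563) (nat_lit 0) (nat_lit 2383321052) (nat_lit 228) (nat_lit 1052125843) (nat_lit 197) (nat_lit 1) (nat_lit 193) (nat_lit 1) (nat_lit 196) (nat_lit 1) (nat_lit 346) (nat_lit 358) (nat_lit 316)))) (XT.nd (nat_lit 156) (nat_lit 456) (nat_lit 0) (XT.nd (nat_lit 78) (nat_lit 228) (nat_lit 0) (XT.lf (nat_lit 76) (nat_lit 1415091538) (nat_lit 0) (nat_lit 1079059450) (nat_lit 304) (nat_lit 1509244281) (nat_lit 190) (nat_lit 1) (nat_lit 189) (nat_lit 1) (nat_lit 193) (nat_lit 1) (nat_lit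 347) (nat_lit 358) (nat_lit 315)) (XT.lf (nat_lit 304) (nat_lit 1175992210) (nat_lit 0) (nat_lit 2616260627) (nat_lit 228) (nat_lit 139827593) (nat_lit 190) (nat_lit 1) (nat_lit 186) (nat_lit 1) (nat_lit 189) (nat_lit 1) (nat_lit 348) (nat_lit 358) (nat_lit 314))) (XT.nd (nat_lit 78) (nat_lit 228) (nat_lit 0) (XT.lf (nat_lit 76) (nat_lit 2195185501) (nat_lit 0) (nat_lit 541828703) (nat_lit 228) (nat_lit 1125138012) (nat_lit 184) (nat_lit 1) (nat_lit 183) (nat_lit 1) (nat_lit 186) (nat_lit 1) (nat_lit 349) (nat_lit 358) (nat_lit 313)) (XT.lf (nat_lit 76) (nat_lit 660046318) (nat_lit 0) (nat_lit 2203744801) (nat_lit 304) (nat_lit 930007279) (nat_lit 181) (nat_lit 1) (nat_lit 180) (nat_lit 1) (nat_lit 184) (nat_lit 1) (nat_lit 350) (nat_lit 358) (nat_lit 312)))))) (XT.nd (nat_lit 546) (nat_lit 1216) (nat_lit 0) (XT.nd (nat_lit 234) (nat_lit 912) (nat_lit 0) (XT.nd (nat_lit 78) (nat_lit 380) (nat_lit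 0) (XT.lf (nat_lit 76) (nat_lit 2885803491) (nat_lit 0) (nat_lit 111933053) (nat_lit 228) (nat_lit 729289139) (nat_lit 178) (nat_lit 1) (nat_lit 177) (nat_lit 1) (nat_lit 180) (nat_lit 1) (nat_lit 351) (nat_lit 358) (nat_lit 311)) (XT.nd (nat_lit 78) (nat_lit 152) (nat_lit 0) (XT.lf (nat_lit 76) (nat_lit 1369984627) (nat_lit 0) (nat_lit 1755702293) (nat_lit 304) (nat_lit 535737607) (nat_lit 175) (nat_lit 1) (nat_lit 174) (nat_lit 1) (nat_lit 178) (nat_lit 1) (nat_lit 352) (nat_lit 358) (nat_lit 310)) (XT.lf (nat_lit 228) (nat_lit 230376766) (nat_lit 0) (nat_lit 3268178093) (nat_lit 152) (nat_lit 99012561) (nat_lit 175) (nat_lit 1) (nat_lit 172) (nat_lit 1) (nat_lit 174) (nat_lit 1) (nat_lit 353) (nat_lit 358) (nat_lit 309)))) (XT.nd (nat_lit 156) (nat_lit 380) (nat_lit 0) (XT.nd (nat_lit 78) (nat_lit 304) (nat_lit 0) (XT.lf (nat_lit 76) (nat_lit 2001736940) (nat_lit 0) (nat_lit 1396083416) (nat_lit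 228) (nat_lit 136811095) (nat_lit 170) (nat_lit 1) (nat_lit 169) (nat_lit 1) (nat_lit 172) (nat_lit 1) (nat_lit 354) (nat_lit 358) (nat_lit 308)) (XT.lf (nat_lit 228) (nat_lit 488303908) (nat_lit 0) (nat_lit 67713249) (nat_lit 152) (nat_lit 2917286366) (nat_lit 168) (nat_lit 1) (nat_lit 165) (nat_lit 1) (nat_lit 167) (nat_lit 1) (nat_lit 355) (nat_lit 358) (nat_lit 307))) (XT.nd (nat_lit 78) (nat_lit 152) (nat_lit 0) (XT.lf (nat_lit 228) (nat_lit 2298234802) (nat_lit 0) (nat_lit 267669725) (nat_lit 152) (nat_lit 847102376) (nat_lit 165) (nat_lit 1) (nat_lit 162) (nat_lit 1) (nat_lit 164) (nat_lit 1) (nat_lit 356) (nat_lit 358) (nat_lit 306)) (XT.lf (nat_lit 228) (nat_lit 674152436) (nat_lit 0) (nat_lit 469502479) (nat_lit 152) (nat_lit 2210369455) (nat_lit 163) (nat_lit 1) (nat_lit 160) (nat_lit 1) (nat_lit 162) (nat_lit 1) (nat_lit 357) (nat_lit 358) (nat_lit 305))))) (XT.nd (nat_lit 234) (nat_lit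 608) (nat_lit 0) (XT.nd (nat_lit 78) (nat_lit 380) (nat_lit 0) (XT.lf (nat_lit 228) (nat_lit 2396848347) (nat_lit 0) (nat_lit 671525026) (nat_lit 152) (nat_lit 227909444) (nat_lit 160) (nat_lit 1) (nat_lit 157) (nat_lit 1) (nat_lit 159) (nat_lit 1) (nat_lit 358) (nat_lit 358) (nat_lit 304)) (XT.nd (nat_lit 78) (nat_lit 228) (nat_lit 0) (XT.lf (nat_lit 228) (nat_lit 802509369) (nat_lit 0) (nat_lit 866947929) (nat_lit 152) (nat_lit 1570103660) (nat_lit 158) (nat_lit 1) (nat_lit 155) (nat_lit 1) (nat_lit 157) (nat_lit 1) (nat_lit 359) (nat_lit 358) (nat_lit 303)) (XT.lf (nat_lit 76) (nat_lit 323486940) (nat_lit 0) (nat_lit 742222511) (nat_lit 228) (nat_lit 2118415725) (nat_lit 153) (nat_lit 1) (nat_lit 152) (nat_lit 1) (nat_lit 155) (nat_lit 1) (nat_lit 360) (nat_lit 358) (nat_lit 302)))) (XT.nd (nat_lit 156) (nat_lit 304) (nat_lit 0) (XT.nd (nat_lit 78) (nat_lit 152) (nat_lit 0) (XT.lf (nat_lit 228)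 (nat_lit 882330580) (nat_lit 0) (nat_lit 1257201013) (nat_lit 152) (nat_lit 990112243) (nat_lit 153) (nat_lit 1) (nat_lit 150) (nat_lit 1) (nat_lit 152) (nat_lit 1) (nat_lit 361) (nat_lit 358) (nat_lit 301)) (XT.lf (nat_lit 76) (nat_lit 816075366) (nat_lit 0) (nat_lit 633196806) (nat_lit 152) (nat_lit 1627051183) (nat_lit 149) (nat_lit 1) (nat_lit 148) (nat_lit 1) (nat_lit 150) (nat_lit 1) (nat_lit 362) (nat_lit 358) (nat_lit 300))) (XT.nd (nat_lit 78) (nat_lit 152) (nat_lit 0) (XT.lf (nat_lit 228) (nat_lit 921401638) (nat_lit 0) (nat_lit 1637930414) (nat_lit 152) (nat_lit 464693601) (nat_lit 149) (nat_lit 1) (nat_lit 146) (nat_lit 1) (nat_lit 148) (nat_lit 1) (nat_lit 363) (nat_lit 358) (nat_lit 299)) (XT.lf (nat_lit 76) (nat_lit 1259490075) (nat_lit 0) (nat_lit 562890061) (nat_lit 152) (nat_lit 1150326050) (nat_lit 145) (nat_lit 1) (nat_lit 144) (nat_lit 1) (nat_lit 146) (nat_lit 1) (nat_lit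 364) (nat_lit 358) (nat_lit 298))))))))
noncomputable def ec39 : XT := (XT.nd (nat_lit 2184) (nat_lit 684) (nat_lit 0) (XT.nd (nat_lit 1092) (nat_lit 1672) (nat_lit 0) (XT.nd (nat_lit 546) (nat_lit 1064) (nat_lit 0) (XT.nd (nat_lit 234) (nat_lit 684) (nat_lit 0) (XT.nd (nat_lit 78) (nat_lit 304) (nat_lit 0) (XT.lf (nat_lit 76) (nat_lit 11035680) (nat_lit 0) (nat_lit 1996105066) (nat_lit 228) (nat_lit 915334872) (nat_lit 143) (nat_lit 1) (nat_lit 142) (nat_lit 1) (nat_lit 145) (nat_lit 1) (nat_lit 365) (nat_lit 358) (nat_lit 297)) (XT.nd (nat_lit 78) (nat_lit 152) (nat_lit 0) (XT.lf (nat_lit 76) (nat_lit 1658373822) (nat_lit 0) (nat_lit 524983662) (nat_lit 152) (nat_lit 689697988) (nat_lit 141) (nat_lit 1) (nat_lit 140) (nat_lit 1) (nat_lit 142) (nat_lit 1) (nat_lit 366) (nat_lit 358) (nat_lit 296)) (XT.lf (nat_lit 76) (nat_lit 433675607) (nat_lit 0) (nat_lit 1925613660) (nat_lit 228) (nat_lit 465376860)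 (nat_lit 139) (nat_lit 1) (nat_lit 138) (nat_lit 1) (nat_lit 141) (nat_lit 1) (nat_lit 367) (nat_lit 358) (nat_lit 295)))) (XT.nd (nat_lit 156) (nat_lit 380) (nat_lit 0) (XT.nd (nat_lit 78) (nat_lit 152) (nat_lit 0) (XT.lf (nat_lit 76) (nat_lit 2016886582) (nat_lit 0) (nat_lit 513998514) (nat_lit 152) (nat_lit 246284702) (nat_lit 137) (nat_lit 1) (nat_lit 136) (nat_lit 1) (nat_lit 138) (nat_lit 1) (nat_lit 368) (nat_lit 358) (nat_lit 294)) (XT.lf (nat_lit 76) (nat_lit 816314867) (nat_lit 0) (nat_lit 1881456250) (nat_lit 228) (nat_lit 32765065) (nat_lit 135) (nat_lit 1) (nat_lit 134) (nat_lit 1) (nat_lit 137) (nat_lit 1) (nat_lit 369) (nat_lit 358) (nat_lit 293))) (XT.nd (nat_lit 78) (nat_lit 76) (nat_lit 0) (XT.lf (nat_lit 228) (nat_lit 2157863418) (nat_lit 0) (nat_lit 182652105) (nat_lit 152) (nat_lit 344294638) (nat_lit 133) (nat_lit 1) (nat_lit 130) (nat_lit 1) (nat_lit 132) (nat_lit 1) (nat_lit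 370) (nat_lit 358) (nat_lit 292)) (XT.lf (nat_lit 152) (nat_lit 776943732) (nat_lit 0) (nat_lit 389363028) (nat_lit 76) (nat_lit 1473486199) (nat_lit 131) (nat_lit 1) (nat_lit 129) (nat_lit 1) (nat_lit 130) (nat_lit 1) (nat_lit 371) (nat_lit 358) (nat_lit 291))))) (XT.nd (nat_lit 234) (nat_lit 532) (nat_lit 0) (XT.nd (nat_lit 78) (nat_lit 304) (nat_lit 0) (XT.lf (nat_lit 76) (nat_lit 36570283) (nat_lit 0) (nat_lit 560563508) (nat_lit 228) (nat_lit 1998644986) (nat_lit 127) (nat_lit 1) (nat_lit 126) (nat_lit 1) (nat_lit 129) (nat_lit 1) (nat_lit 372) (nat_lit 358) (nat_lit 290)) (XT.nd (nat_lit 78) (nat_lit 228) (nat_lit 0) (XT.lf (nat_lit 152) (nat_lit 690101496) (nat_lit 0) (nat_lit 793191911) (nat_lit 76) (nat_lit 1069083676) (nat_lit 127) (nat_lit 1) (nat_lit 125) (nat_lit 1) (nat_lit 126) (nat_lit 1) (nat_lit 373) (nat_lit 358) (nat_lit 289)) (XT.lf (nat_lit 76) (nat_lit 377660990) (nat_lit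 0) (nat_lit 611521593) (nat_lit 228) (nat_lit 1520726311) (nat_lit 123) (nat_lit 1) (nat_lit 122) (nat_lit 1) (nat_lit 125) (nat_lit 1) (nat_lit 374) (nat_lit 358) (nat_lit 288)))) (XT.nd (nat_lit 156) (nat_lit 228) (nat_lit 0) (XT.nd (nat_lit 78) (nat_lit 228) (nat_lit 0) (XT.lf (nat_lit 152) (nat_lit 592108064) (nat_lit 0) (nat_lit 1177764168) (nat_lit 76) (nat_lit 698270325) (nat_lit 123) (nat_lit 1) (nat_lit 121) (nat_lit 1) (nat_lit 122) (nat_lit 1) (nat_lit 375) (nat_lit 358) (nat_lit 287)) (XT.lf (nat_lit 76) (nat_lit 688499067) (nat_lit 0) (nat_lit 673494011) (nat_lit 228) (nat_lit 1065156535) (nat_lit 119) (nat_lit 1) (nat_lit 118) (nat_lit 1) (nat_lit 121) (nat_lit 1) (nat_lit 376) (nat_lit 358) (nat_lit 286))) (XT.nd (nat_lit 78) (nat_lit 152) (nat_lit 0) (XT.lf (nat_lit 152) (nat_lit 485727004) (nat_lit 0) (nat_lit 1542947968) (nat_lit 76) (nat_lit 358269365) (nat_lit 119) (nat_lit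 1) (nat_lit 117) (nat_lit 1) (nat_lit 118) (nat_lit 1) (nat_lit 377) (nat_lit 358) (nat_lit 285)) (XT.lf (nat_lit 76) (nat_lit 971616689) (nat_lit 0) (nat_lit 743893060) (nat_lit 152) (nat_lit 631851058) (nat_lit 116) (nat_lit 1) (nat_lit 115) (nat_lit 1) (nat_lit 117) (nat_lit 1) (nat_lit 378) (nat_lit 358) (nat_lit 284)))))) (XT.nd (nat_lit 546) (nat_lit 836) (nat_lit 0) (XT.nd (nat_lit 234) (nat_lit 532) (nat_lit 0) (XT.nd (nat_lit 78) (nat_lit 228) (nat_lit 0) (XT.lf (nat_lit 152) (nat_lit 373319842) (nat_lit 0) (nat_lit 1888757918) (nat_lit 76) (nat_lit 46569214) (nat_lit 116) (nat_lit 1) (nat_lit 114) (nat_lit 1) (nat_lit 115) (nat_lit 1) (nat_lit 379) (nat_lit 358) (nat_lit 283)) (XT.nd (nat_lit 78) (nat_lit 76) (nat_lit 0) (XT.lf (nat_lit 76) (nat_lit 1229304390) (nat_lit 0) (nat_lit 820506280) (nat_lit 152) (nat_lit 220600787) (nat_lit 113) (nat_lit 1) (nat_lit 112) (nat_lit 1) (nat_lit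 114) (nat_lit 1) (nat_lit 380) (nat_lit 358) (nat_lit 282)) (XT.lf (nat_lit 0) (nat_lit 234439288) (nat_lit 0) (nat_lit 1978524851) (nat_lit 152) (nat_lit 20090632) (nat_lit 111) (nat_lit 3) (nat_lit 111) (nat_lit 1) (nat_lit 113) (nat_lit 1) (nat_lit 381) (nat_lit 358) (nat_lit 281)))) (XT.nd (nat_lit 156) (nat_lit 228) (nat_lit 0) (XT.nd (nat_lit 78) (nat_lit 76) (nat_lit 0) (XT.lf (nat_lit 152) (nat_lit 1293024589) (nat_lit 0) (nat_lit 172268413) (nat_lit 76) (nat_lit 730836159) (nat_lit 110) (nat_lit 1) (nat_lit 108) (nat_lit 1) (nat_lit 109) (nat_lit 1) (nat_lit 382) (nat_lit 358) (nat_lit 280)) (XT.lf (nat_lit 76) (nat_lit 129592230) (nat_lit 0) (nat_lit 364960446) (nat_lit 76) (nat_lit 1665453414) (nat_lit 108) (nat_lit 3) (nat_lit 107) (nat_lit 1) (nat_lit 108) (nat_lit 1) (nat_lit 383) (nat_lit 358) (nat_lit 279))) (XT.nd (nat_lit 78) (nat_lit 76) (nat_lit 0) (XT.lf (nat_lit 152) (nat_lit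 1134003956) (nat_lit 0) (nat_lit 547758331) (nat_lit 76) (nat_lit 442627514) (nat_lit 107) (nat_lit 1) (nat_lit 105) (nat_lit 1) (nat_lit 106) (nat_lit 1) (nat_lit 384) (nat_lit 358) (nat_lit 278)) (XT.lf (nat_lit 76) (nat_lit 4010565) (nat_lit 0) (nat_lit 728990114) (nat_lit 76) (nat_lit 1356507039) (nat_lit 105) (nat_lit 3) (nat_lit 104) (nat_lit 1) (nat_lit 105) (nat_lit 1) (nat_lit 385) (nat_lit 358) (nat_lit 277))))) (XT.nd (nat_lit 234) (nat_lit 456) (nat_lit 0) (XT.nd (nat_lit 78) (nat_lit 228) (nat_lit 0) (XT.lf (nat_lit 152) (nat_lit 976308961) (nat_lit 0) (nat_lit 901955061) (nat_lit 76) (nat_lit 176885796) (nat_lit 104) (nat_lit 1) (nat_lit 102) (nat_lit 1) (nat_lit 103) (nat_lit 1) (nat_lit 386) (nat_lit 358) (nat_lit 276)) (XT.nd (nat_lit 78) (nat_lit 76) (nat_lit 0) (XT.lf (nat_lit 76) (nat_lit 952424942) (nat_lit 0) (nat_lit 118469274) (nat_lit 152) (nat_lit 950530840) (nat_lit 101)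 (nat_lit 1) (nat_lit 100) (nat_lit 1) (nat_lit 102) (nat_lit 1) (nat_lit 387) (nat_lit 358) (nat_lit 275)) (XT.lf (nat_lit 0) (nat_lit 66724081) (nat_lit 0) (nat_lit 1167994046) (nat_lit 152) (nat_lit 753569281) (nat_lit 99) (nat_lit 3) (nat_lit 99) (nat_lit 1) (nat_lit 101) (nat_lit 1) (nat_lit 388) (nat_lit 358) (nat_lit 274)))) (XT.nd (nat_lit 156) (nat_lit 228) (nat_lit 0) (XT.nd (nat_lit 78) (nat_lit 76) (nat_lit 0) (XT.lf (nat_lit 76) (nat_lit 1153215098) (nat_lit 0) (nat_lit 239175687) (nat_lit 152) (nat_lit 563301893) (nat_lit 98) (nat_lit 1) (nat_lit 97) (nat_lit 1) (nat_lit 99) (nat_lit 1) (nat_lit 389) (nat_lit 358) (nat_lit 273)) (XT.lf (nat_lit 0) (nat_lit 287974190) (nat_lit 0) (nat_lit 1257764794) (nat_lit 152) (nat_lit 377941334) (nat_lit 96) (nat_lit 3) (nat_lit 96) (nat_lit 1) (nat_lit 98) (nat_lit 1) (nat_lit 390) (nat_lit 358) (nat_lit 272))) (XT.nd (nat_lit 78) (nat_lit 76)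 (nat_lit 0) (XT.lf (nat_lit 76) (nat_lit 1336721179) (nat_lit 0) (nat_lit 357391619) (nat_lit 152) (nat_lit 198105110) (nat_lit 95) (nat_lit 1) (nat_lit 94) (nat_lit 1) (nat_lit 96) (nat_lit 1) (nat_lit 391) (nat_lit 358) (nat_lit 271)) (XT.lf (nat_lit 0) (nat_lit 491679631) (nat_lit 0) (nat_lit 1345688044) (nat_lit 152) (nat_lit 23920328) (nat_lit 93) (nat_lit 3) (nat_lit 93) (nat_lit 1) (nat_lit 95) (nat_lit 1) (nat_lit 392) (nat_lit 358) (nat_lit 270))))))) (XT.nd (nat_lit 46722) (nat_lit 0) (nat_lit 15048) (XT.nd (nat_lit 46176) (nat_lit 0) (nat_lit 21204) (XT.nd (nat_lit 234) (nat_lit 228) (nat_lit 0) (XT.nd (nat_lit 78) (nat_lit 228) (nat_lit 0) (XT.lf (nat_lit 152) (nat_lit 1356970755) (nat_lit 0) (nat_lit 148672297) (nat_lit 76) (nat_lit 325226048) (nat_lit 92) (nat_lit 1) (nat_lit 90) (nat_lit 1) (nat_lit 91) (nat_lit 1) (nat_lit 393) (nat_lit 358) (nat_lit 269)) (XT.nd (nat_lit 78) (nat_lit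 152) (nat_lit 0) (XT.lf (nat_lit 76) (nat_lit 366762011) (nat_lit 0) (nat_lit 315359504) (nat_lit 76) (nat_lit 1118811337) (nat_lit 90) (nat_lit 3) (nat_lit 89) (nat_lit 1) (nat_lit 90) (nat_lit 1) (nat_lit 394) (nat_lit 358) (nat_lit 268)) (XT.lf (nat_lit 152) (nat_lit 1183066153) (nat_lit 0) (nat_lit 478390439) (nat_lit 76) (nat_lit 110096206) (nat_lit 89) (nat_lit 1) (nat_lit 87) (nat_lit 1) (nat_lit 88) (nat_lit 1) (nat_lit 395) (nat_lit 358) (nat_lit 267)))) (XT.nd (nat_lit 45786) (nat_lit 0) (nat_lit 22040) (XT.nd (nat_lit 78) (nat_lit 152) (nat_lit 0) (XT.lf (nat_lit 76) (nat_lit 222907098) (nat_lit 0) (nat_lit 634545327) (nat_lit 76) (nat_lit 885170116) (nat_lit 87) (nat_lit 3) (nat_lit 86) (nat_lit 1) (nat_lit 87) (nat_lit 1) (nat_lit 396) (nat_lit 358) (nat_lit 266)) (XT.lf (nat_lit 0) (nat_lit 87311040) (nat_lit 0) (nat_lit 699667043) (nat_lit 152) (nat_lit 927243473) (nat_lit 84) (nat_lit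 3) (nat_lit 84) (nat_lit 1) (nat_lit 86) (nat_lit 1) (nat_lit 397) (nat_lit 358) (nat_lit 265))) (XT.nd (nat_lit 78) (nat_lit 0) (nat_lit 76) (XT.lf (nat_lit 1292) (nat_lit 942456599) (nat_lit 0) (nat_lit 3242489008) (nat_lit 1292) (nat_lit 942456599) (nat_lit 391) (nat_lit 1) (nat_lit 374) (nat_lit 0) (nat_lit 391) (nat_lit 0) (nat_lit 302) (nat_lit 359) (nat_lit 359)) (XT.lf (nat_lit 1292) (nat_lit 75558397) (nat_lit 0) (nat_lit 6393506489) (nat_lit 1216) (nat_lit 3539689533) (nat_lit 392) (nat_lit 1) (nat_lit 375) (nat_lit 1) (nat_lit 391) (nat_lit 1) (nat_lit 303) (nat_lit 359) (nat_lit 358))))) (XT.nd (nat_lit 234) (nat_lit 912) (nat_lit 0) (XT.nd (nat_lit 78) (nat_lit 0) (nat_lit 76) (XT.lf (nat_lit 1292) (nat_lit 3324244628) (nat_lit 76) (nat_lit 4702022383) (nat_lit 0) (nat_lit 1743966150) (nat_lit 392) (nat_lit 1) (nat_lit 376) (nat_lit 1) (nat_lit 375) (nat_lit 1) (nat_lit 304) (nat_lit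 359) (nat_lit 357)) (XT.nd (nat_lit 78) (nat_lit 0) (nat_lit 76) (XT.lf (nat_lit 1292) (nat_lit 2922292909) (nat_lit 76) (nat_lit 3077810112) (nat_lit 0) (nat_lit 3539331919) (nat_lit 393) (nat_lit 1) (nat_lit 377) (nat_lit 1) (nat_lit 376) (nat_lit 1) (nat_lit 305) (nat_lit 359) (nat_lit 356)) (XT.lf (nat_lit 1292) (nat_lit 2418394155) (nat_lit 76) (nat_lit 1589849689) (nat_lit 0) (nat_lit 5307856443) (nat_lit 394) (nat_lit 1) (nat_lit 378) (nat_lit 1) (nat_lit 377) (nat_lit 1) (nat_lit 306) (nat_lit 359) (nat_lit 355)))) (XT.nd (nat_lit 156) (nat_lit 1140) (nat_lit 0) (XT.nd (nat_lit 78) (nat_lit 0) (nat_lit 76) (XT.lf (nat_lit 1292) (nat_lit 1820319180) (nat_lit 76) (nat_lit 231140629) (nat_lit 0) (nat_lit 7048498923) (nat_lit 395) (nat_lit 1) (nat_lit 379) (nat_lit 1) (nat_lit 378) (nat_lit 1) (nat_lit 307) (nat_lit 359) (nat_lit 354)) (XT.lf (nat_lit 1292) (nat_lit 140063853) (nat_lit 0) (nat_lit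 7765015698) (nat_lit 1216) (nat_lit 985381181) (nat_lit 396) (nat_lit 1) (nat_lit 379) (nat_lit 1) (nat_lit 395) (nat_lit 1) (nat_lit 308) (nat_lit 359) (nat_lit 353))) (XT.nd (nat_lit 78) (nat_lit 1216) (nat_lit 0) (XT.lf (nat_lit 1292) (nat_lit 331981803) (nat_lit 76) (nat_lit 6586655272) (nat_lit 0) (nat_lit 1768466461) (nat_lit 396) (nat_lit 1) (nat_lit 380) (nat_lit 1) (nat_lit 379) (nat_lit 1) (nat_lit 309) (nat_lit 359) (nat_lit 352)) (XT.lf (nat_lit 1368) (nat_lit 4851910287) (nat_lit 0) (nat_lit 524440758) (nat_lit 1292) (nat_lit 3113686449) (nat_lit 381) (nat_lit 1) (nat_lit 363) (nat_lit 1) (nat_lit 380) (nat_lit 1) (nat_lit 310) (nat_lit 359) (nat_lit 351)))))) (XT.nd (nat_lit 546) (nat_lit 3648) (nat_lit 0) (XT.nd (nat_lit 234) (nat_lit 1824) (nat_lit 0) (XT.nd (nat_lit 78) (nat_lit 760) (nat_lit 0) (XT.lf (nat_lit 1368) (nat_lit 2832033736) (nat_lit 0) (nat_lit 1439003663) (nat_lit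 1292) (nat_lit 4028074213) (nat_lit 382) (nat_lit 1) (nat_lit 364) (nat_lit 1) (nat_lit 381) (nat_lit 1) (nat_lit 311) (nat_lit 359) (nat_lit 350)) (XT.nd (nat_lit 78) (nat_lit 836) (nat_lit 0) (XT.lf (nat_lit 76) (nat_lit 855855619) (nat_lit 0) (nat_lit 2412575053) (nat_lit 1292) (nat_lit 4845769994) (nat_lit 366) (nat_lit 1) (nat_lit 365) (nat_lit 1) (nat_lit 382) (nat_lit 1) (nat_lit 312) (nat_lit 359) (nat_lit 349)) (XT.lf (nat_lit 912) (nat_lit 4484344397) (nat_lit 0) (nat_lit 2352345345) (nat_lit 836) (nat_lit 1098085900) (nat_lit 366) (nat_lit 1) (nat_lit 354) (nat_lit 1) (nat_lit 365) (nat_lit 1) (nat_lit 313) (nat_lit 359) (nat_lit 348)))) (XT.nd (nat_lit 156) (nat_lit 608) (nat_lit 0) (XT.nd (nat_lit 78) (nat_lit 608) (nat_lit 0) (XT.lf (nat_lit 684) (nat_lit 3215695484) (nat_lit 0) (nat_lit 1520383197) (nat_lit 608) (nat_lit 3024631516) (nat_lit 355) (nat_lit 1) (nat_lit 346) (nat_lit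 1) (nat_lit 354) (nat_lit 1) (nat_lit 314) (nat_lit 359) (nat_lit 347)) (XT.lf (nat_lit 684) (nat_lit 1908792302) (nat_lit 0) (nat_lit 776351738) (nat_lit 608) (nat_lit 4906915773) (nat_lit 347) (nat_lit 1) (nat_lit 338) (nat_lit 1) (nat_lit 346) (nat_lit 1) (nat_lit 315) (nat_lit 359) (nat_lit 346))) (XT.nd (nat_lit 78) (nat_lit 76) (nat_lit 0) (XT.lf (nat_lit 608) (nat_lit 567831629) (nat_lit 0) (nat_lit 115639327) (nat_lit 532) (nat_lit 6745164851) (nat_lit 339) (nat_lit 1) (nat_lit 331) (nat_lit 1) (nat_lit 338) (nat_lit 1) (nat_lit 316) (nat_lit 359) (nat_lit 345)) (XT.lf (nat_lit 76) (nat_lit 5987543585) (nat_lit 0) (nat_lit 804624272) (nat_lit 608) (nat_lit 477345771) (nat_lit 331) (nat_lit 1) (nat_lit 330) (nat_lit 1) (nat_lit 338) (nat_lit 1) (nat_lit 317) (nat_lit 359) (nat_lit 344))))) (XT.nd (nat_lit 234) (nat_lit 1976) (nat_lit 0) (XT.nd (nat_lit 78) (nat_lit 1064) (nat_lit 0) (XT.lf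 (nat_lit 76) (nat_lit 3909487474) (nat_lit 0) (nat_lit 2198594750) (nat_lit 684) (nat_lit 1006807847) (nat_lit 323) (nat_lit 1) (nat_lit 322) (nat_lit 1) (nat_lit 331) (nat_lit 1) (nat_lit 318) (nat_lit 359) (nat_lit 343)) (XT.nd (nat_lit 78) (nat_lit 532) (nat_lit 0) (XT.lf (nat_lit 76) (nat_lit 1884391012) (nat_lit 0) (nat_lit 3613933685) (nat_lit 608) (nat_lit 1466672402) (nat_lit 316) (nat_lit 1) (nat_lit 315) (nat_lit 1) (nat_lit 323) (nat_lit 1) (nat_lit 319) (nat_lit 359) (nat_lit 342)) (XT.lf (nat_lit 608) (nat_lit 1771272103) (nat_lit 0) (nat_lit 4958125208) (nat_lit 532) (nat_lit 90249599) (nat_lit 316) (nat_lit 1) (nat_lit 308) (nat_lit 1) (nat_lit 315) (nat_lit 1) (nat_lit 320) (nat_lit 359) (nat_lit 341)))) (XT.nd (nat_lit 156) (nat_lit 912) (nat_lit 0) (XT.nd (nat_lit 78) (nat_lit 608) (nat_lit 0) (XT.lf (nat_lit 532) (nat_lit 162081463) (nat_lit 0) (nat_lit 4466169361) (nat_lit 456)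 (nat_lit 2049919932) (nat_lit 309) (nat_lit 1) (nat_lit 302) (nat_lit 1) (nat_lit 308) (nat_lit 1) (nat_lit 321) (nat_lit 359) (nat_lit 340)) (XT.lf (nat_lit 76) (nat_lit 2597036312) (nat_lit 0) (nat_lit 1426507492) (nat_lit 608) (nat_lit 2517009457) (nat_lit 295) (nat_lit 1) (nat_lit 294) (nat_lit 1) (nat_lit 302) (nat_lit 1) (nat_lit 322) (nat_lit 359) (nat_lit 339))) (XT.nd (nat_lit 78) (nat_lit 456) (nat_lit 0) (XT.lf (nat_lit 76) (nat_lit 622409545) (nat_lit 0) (nat_lit 3017210745) (nat_lit 532) (nat_lit 2767400968) (nat_lit 289) (nat_lit 1) (nat_lit 288) (nat_lit 1) (nat_lit 295) (nat_lit 1) (nat_lit 323) (nat_lit 359) (nat_lit 338)) (XT.lf (nat_lit 532) (nat_lit 1653379786) (nat_lit 0) (nat_lit 3299696230) (nat_lit 456) (nat_lit 1324025248) (nat_lit 289) (nat_lit 1) (nat_lit 282) (nat_lit 1) (nat_lit 288) (nat_lit 1) (nat_lit 324) (nat_lit 359) (nat_lit 337))))))))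
noncomputable def ec40 : XT := (XT.nd (nat_lit 2106) (nat_lit 4636) (nat_lit 0) (XT.nd (nat_lit 1014) (nat_lit 3496) (nat_lit 0) (XT.nd (nat_lit 468) (nat_lit 2356) (nat_lit 0) (XT.nd (nat_lit 234) (nat_lit 1216) (nat_lit 0) (XT.nd (nat_lit 78) (nat_lit 836) (nat_lit 0) (XT.lf (nat_lit 76) (nat_lit 2922928800) (nat_lit 0) (nat_lit 84299115) (nat_lit 456) (nat_lit 3143621643) (nat_lit 277) (nat_lit 1) (nat_lit 276) (nat_lit 1) (nat_lit 282) (nat_lit 1) (nat_lit 325) (nat_lit 359) (nat_lit 336)) (XT.nd (nat_lit 78) (nat_lit 380) (nat_lit 0) (XT.lf (nat_lit 76) (nat_lit 965414557) (nat_lit 0) (nat_lit 1784695420) (nat_lit 532) (nat_lit 3277760035) (nat_lit 271) (nat_lit 1) (nat_lit 270) (nat_lit 1) (nat_lit 277) (nat_lit 1) (nat_lit 326) (nat_lit 359) (nat_lit 335)) (XT.lf (nat_lit 456) (nat_lit 2420582241) (nat_lit 0) (nat_lit 2532482681) (nat_lit 380) (nat_lit 955175578) (nat_lit 271) (nat_lit 1)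 (nat_lit 265) (nat_lit 1) (nat_lit 270) (nat_lit 1) (nat_lit 327) (nat_lit 359) (nat_lit 334)))) (XT.nd (nat_lit 78) (nat_lit 836) (nat_lit 0) (XT.lf (nat_lit 456) (nat_lit 600385908) (nat_lit 0) (nat_lit 2351957426) (nat_lit 380) (nat_lit 2839506218) (nat_lit 266) (nat_lit 1) (nat_lit 260) (nat_lit 1) (nat_lit 265) (nat_lit 1) (nat_lit 328) (nat_lit 359) (nat_lit 333)) (XT.nd (nat_lit 78) (nat_lit 380) (nat_lit 0) (XT.lf (nat_lit 76) (nat_lit 1020909518) (nat_lit 0) (nat_lit 1182891436) (nat_lit 456) (nat_lit 3474717248) (nat_lit 255) (nat_lit 1) (nat_lit 254) (nat_lit 1) (nat_lit 260) (nat_lit 1) (nat_lit 329) (nat_lit 359) (nat_lit 332)) (XT.lf (nat_lit 456) (nat_lit 2619515485) (nat_lit 0) (nat_lit 2083167626) (nat_lit 380) (nat_lit 865381883) (nat_lit 255) (nat_lit 1) (nat_lit 249) (nat_lit 1) (nat_lit 254) (nat_lit 1) (nat_lit 330) (nat_lit 359) (nat_lit 331))))) (XT.nd (nat_lit 234) (nat_lit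 1292) (nat_lit 0) (XT.nd (nat_lit 78) (nat_lit 760) (nat_lit 0) (XT.lf (nat_lit 380) (nat_lit 752076402) (nat_lit 0) (nat_lit 1992514979) (nat_lit 304) (nat_lit 2715930574) (nat_lit 250) (nat_lit 1) (nat_lit 245) (nat_lit 1) (nat_lit 249) (nat_lit 1) (nat_lit 331) (nat_lit 359) (nat_lit 330)) (XT.nd (nat_lit 78) (nat_lit 304) (nat_lit 0) (XT.lf (nat_lit 76) (nat_lit 854896994) (nat_lit 0) (nat_lit 1074198850) (nat_lit 456) (nat_lit 3426674428) (nat_lit 240) (nat_lit 1) (nat_lit 239) (nat_lit 1) (nat_lit 245) (nat_lit 1) (nat_lit 332) (nat_lit 359) (nat_lit 329)) (XT.lf (nat_lit 380) (nat_lit 2378316513) (nat_lit 0) (nat_lit 1884597434) (nat_lit 304) (nat_lit 990615816) (nat_lit 240) (nat_lit 1) (nat_lit 235) (nat_lit 1) (nat_lit 239) (nat_lit 1) (nat_lit 333) (nat_lit 359) (nat_lit 328)))) (XT.nd (nat_lit 156) (nat_lit 608) (nat_lit 0) (XT.nd (nat_lit 78) (nat_lit 380) (nat_lit 0) (XT.lf (nat_lit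 380) (nat_lit 490642489) (nat_lit 0) (nat_lit 1866189382) (nat_lit 304) (nat_lit 2797140048) (nat_lit 236) (nat_lit 1) (nat_lit 231) (nat_lit 1) (nat_lit 235) (nat_lit 1) (nat_lit 334) (nat_lit 359) (nat_lit 327)) (XT.lf (nat_lit 76) (nat_lit 521407005) (nat_lit 0) (nat_lit 1345580666) (nat_lit 380) (nat_lit 3189871939) (nat_lit 227) (nat_lit 1) (nat_lit 226) (nat_lit 1) (nat_lit 231) (nat_lit 1) (nat_lit 335) (nat_lit 359) (nat_lit 326))) (XT.nd (nat_lit 78) (nat_lit 304) (nat_lit 0) (XT.lf (nat_lit 380) (nat_lit 1802054257) (nat_lit 0) (nat_lit 1881470434) (nat_lit 304) (nat_lit 1278471388) (nat_lit 227) (nat_lit 1) (nat_lit 222) (nat_lit 1) (nat_lit 226) (nat_lit 1) (nat_lit 336) (nat_lit 359) (nat_lit 325)) (XT.lf (nat_lit 76) (nat_lit 1837186204) (nat_lit 0) (nat_lit 82661431) (nat_lit 304) (nat_lit 2949795827) (nat_lit 219) (nat_lit 1) (nat_lit 218) (nat_lit 1) (nat_lit 222) (nat_lit 1) (nat_lit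 337) (nat_lit 359) (nat_lit 324)))))) (XT.nd (nat_lit 546) (nat_lit 1596) (nat_lit 0) (XT.nd (nat_lit 234) (nat_lit 988) (nat_lit 0) (XT.nd (nat_lit 78) (nat_lit 608) (nat_lit 0) (XT.lf (nat_lit 76) (nat_lit 64511158) (nat_lit 0) (nat_lit 1904456432) (nat_lit 380) (nat_lit 2810416540) (nat_lit 215) (nat_lit 1) (nat_lit 214) (nat_lit 1) (nat_lit 219) (nat_lit 1) (nat_lit 338) (nat_lit 359) (nat_lit 323)) (XT.nd (nat_lit 78) (nat_lit 380) (nat_lit 0) (XT.lf (nat_lit 304) (nat_lit 976596555) (nat_lit 0) (nat_lit 2028365016) (nat_lit 228) (nat_lit 1686209047) (nat_lit 215) (nat_lit 1) (nat_lit 211) (nat_lit 1) (nat_lit 214) (nat_lit 1) (nat_lit 339) (nat_lit 359) (nat_lit 322)) (XT.lf (nat_lit 76) (nat_lit 1230232924) (nat_lit 0) (nat_lit 874024266) (nat_lit 380) (nat_lit 2500893555) (nat_lit 207) (nat_lit 1) (nat_lit 206) (nat_lit 1) (nat_lit 211) (nat_lit 1) (nat_lit 340) (nat_lit 359) (nat_lit 321))))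 (XT.nd (nat_lit 156) (nat_lit 456) (nat_lit 0) (XT.nd (nat_lit 78) (nat_lit 304) (nat_lit 0) (XT.lf (nat_lit 304) (nat_lit 1841138239) (nat_lit 0) (nat_lit 2190426611) (nat_lit 228) (nat_lit 489545937) (nat_lit 207) (nat_lit 1) (nat_lit 203) (nat_lit 1) (nat_lit 206) (nat_lit 1) (nat_lit 341) (nat_lit 359) (nat_lit 320)) (XT.lf (nat_lit 76) (nat_lit 2260204604) (nat_lit 0) (nat_lit 27605843) (nat_lit 304) (nat_lit 2151235583) (nat_lit 200) (nat_lit 1) (nat_lit 199) (nat_lit 1) (nat_lit 203) (nat_lit 1) (nat_lit 342) (nat_lit 359) (nat_lit 319))) (XT.nd (nat_lit 78) (nat_lit 228) (nat_lit 0) (XT.lf (nat_lit 76) (nat_lit 561698653) (nat_lit 0) (nat_lit 1828138594) (nat_lit 304) (nat_lit 1968896422) (nat_lit 197) (nat_lit 1) (nat_lit 196) (nat_lit 1) (nat_lit 200) (nat_lit 1) (nat_lit 343) (nat_lit 359) (nat_lit 318)) (XT.lf (nat_lit 304) (nat_lit 673097841) (nat_lit 0) (nat_lit 2502487104) (nat_lit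 228) (nat_lit 1104732135) (nat_lit 197) (nat_lit 1) (nat_lit 193) (nat_lit 1) (nat_lit 196) (nat_lit 1) (nat_lit 344) (nat_lit 359) (nat_lit 317))))) (XT.nd (nat_lit 234) (nat_lit 836) (nat_lit 0) (XT.nd (nat_lit 78) (nat_lit 456) (nat_lit 0) (XT.lf (nat_lit 76) (nat_lit 1485846115) (nat_lit 0) (nat_lit 1133012422) (nat_lit 304) (nat_lit 1584706496) (nat_lit 190) (nat_lit 1) (nat_lit 189) (nat_lit 1) (nat_lit 193) (nat_lit 1) (nat_lit 345) (nat_lit 359) (nat_lit 316)) (XT.nd (nat_lit 78) (nat_lit 228) (nat_lit 0) (XT.lf (nat_lit 304) (nat_lit 1234791821) (nat_lit 0) (nat_lit 2747073658) (nat_lit 228) (nat_lit 146818973) (nat_lit 190) (nat_lit 1) (nat_lit 186) (nat_lit 1) (nat_lit 189) (nat_lit 1) (nat_lit 346) (nat_lit 359) (nat_lit 315)) (XT.lf (nat_lit 76) (nat_lit 2304944776) (nat_lit 0) (nat_lit 568920138) (nat_lit 228) (nat_lit 1181394913) (nat_lit 184) (nat_lit 1) (nat_lit 183) (nat_lit 1)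 (nat_lit 186) (nat_lit 1) (nat_lit 347) (nat_lit 359) (nat_lit 314)))) (XT.nd (nat_lit 156) (nat_lit 380) (nat_lit 0) (XT.nd (nat_lit 78) (nat_lit 228) (nat_lit 0) (XT.lf (nat_lit 76) (nat_lit 693048634) (nat_lit 0) (nat_lit 2313932042) (nat_lit 304) (nat_lit 976507643) (nat_lit 181) (nat_lit 1) (nat_lit 180) (nat_lit 1) (nat_lit 184) (nat_lit 1) (nat_lit 348) (nat_lit 359) (nat_lit 313)) (XT.lf (nat_lit 76) (nat_lit 3030093666) (nat_lit 0) (nat_lit 117529706) (nat_lit 228) (nat_lit 765753596) (nat_lit 178) (nat_lit 1) (nat_lit 177) (nat_lit 1) (nat_lit 180) (nat_lit 1) (nat_lit 349) (nat_lit 359) (nat_lit 312))) (XT.nd (nat_lit 78) (nat_lit 152) (nat_lit 0) (XT.lf (nat_lit 76) (nat_lit 1438483859) (nat_lit 0) (nat_lit 1843487407) (nat_lit 304) (nat_lit 562524488) (nat_lit 175) (nat_lit 1) (nat_lit 174) (nat_lit 1) (nat_lit 178) (nat_lit 1) (nat_lit 350) (nat_lit 359) (nat_lit 311)) (XT.lf (nat_lit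 228) (nat_lit 241895605) (nat_lit 0) (nat_lit 3431586998) (nat_lit 152) (nat_lit 103963189) (nat_lit 175) (nat_lit 1) (nat_lit 172) (nat_lit 1) (nat_lit 174) (nat_lit 1) (nat_lit 351) (nat_lit 359) (nat_lit 310))))))) (XT.nd (nat_lit 1092) (nat_lit 2052) (nat_lit 0) (XT.nd (nat_lit 546) (nat_lit 1064) (nat_lit 0) (XT.nd (nat_lit 234) (nat_lit 760) (nat_lit 0) (XT.nd (nat_lit 78) (nat_lit 532) (nat_lit 0) (XT.lf (nat_lit 76) (nat_lit 2101823787) (nat_lit 0) (nat_lit 1465887587) (nat_lit 228) (nat_lit 143651649) (nat_lit 170) (nat_lit 1) (nat_lit 169) (nat_lit 1) (nat_lit 172) (nat_lit 1) (nat_lit 352) (nat_lit 359) (nat_lit 309)) (XT.nd (nat_lit 78) (nat_lit 228) (nat_lit 0) (XT.lf (nat_lit 228) (nat_lit 512719104) (nat_lit 0) (nat_lit 71098912) (nat_lit 152) (nat_lit 3063150684) (nat_lit 168) (nat_lit 1) (nat_lit 165) (nat_lit 1) (nat_lit 167) (nat_lit 1) (nat_lit 353) (nat_lit 359) (nat_lit 308))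 (XT.lf (nat_lit 228) (nat_lit 2413146542) (nat_lit 0) (nat_lit 281053211) (nat_lit 152) (nat_lit 889457495) (nat_lit 165) (nat_lit 1) (nat_lit 162) (nat_lit 1) (nat_lit 164) (nat_lit 1) (nat_lit 354) (nat_lit 359) (nat_lit 307)))) (XT.nd (nat_lit 156) (nat_lit 380) (nat_lit 0) (XT.nd (nat_lit 78) (nat_lit 228) (nat_lit 0) (XT.lf (nat_lit 228) (nat_lit 707860058) (nat_lit 0) (nat_lit 492977603) (nat_lit 152) (nat_lit 2320887928) (nat_lit 163) (nat_lit 1) (nat_lit 160) (nat_lit 1) (nat_lit 162) (nat_lit 1) (nat_lit 355) (nat_lit 359) (nat_lit 306)) (XT.lf (nat_lit 228) (nat_lit 2516690765) (nat_lit 0) (nat_lit 705101277) (nat_lit 152) (nat_lit 239304916) (nat_lit 160) (nat_lit 1) (nat_lit 157) (nat_lit 1) (nat_lit 159) (nat_lit 1) (nat_lit 356) (nat_lit 359) (nat_lit 305))) (XT.nd (nat_lit 78) (nat_lit 228) (nat_lit 0) (XT.lf (nat_lit 228) (nat_lit 842634838) (nat_lit 0) (nat_lit 910295326) (nat_lit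 152) (nat_lit 1648608843) (nat_lit 158) (nat_lit 1) (nat_lit 155) (nat_lit 1) (nat_lit 157) (nat_lit 1) (nat_lit 357) (nat_lit 359) (nat_lit 304)) (XT.lf (nat_lit 76) (nat_lit 339661287) (nat_lit 0) (nat_lit 779333637) (nat_lit 228) (nat_lit 2224336511) (nat_lit 153) (nat_lit 1) (nat_lit 152) (nat_lit 1) (nat_lit 155) (nat_lit 1) (nat_lit 358) (nat_lit 359) (nat_lit 303))))) (XT.nd (nat_lit 234) (nat_lit 608) (nat_lit 0) (XT.nd (nat_lit 78) (nat_lit 304) (nat_lit 0) (XT.lf (nat_lit 228) (nat_lit 926447109) (nat_lit 0) (nat_lit 1320061063) (nat_lit 152) (nat_lit 1039617855) (nat_lit 153) (nat_lit 1) (nat_lit 150) (nat_lit 1) (nat_lit 152) (nat_lit 1) (nat_lit 359) (nat_lit 359) (nat_lit 302)) (XT.nd (nat_lit 78) (nat_lit 152) (nat_lit 0) (XT.lf (nat_lit 76) (nat_lit 856879134) (nat_lit 0) (nat_lit 664856646) (nat_lit 152) (nat_lit 1708403742) (nat_lit 149) (nat_lit 1) (nat_lit 148) (nat_lit 1) (nat_lit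 150) (nat_lit 1) (nat_lit 360) (nat_lit 359) (nat_lit 301)) (XT.lf (nat_lit 228) (nat_lit 967471720) (nat_lit 0) (nat_lit 1719826934) (nat_lit 152) (nat_lit 487928282) (nat_lit 149) (nat_lit 1) (nat_lit 146) (nat_lit 1) (nat_lit 148) (nat_lit 1) (nat_lit 361) (nat_lit 359) (nat_lit 300)))) (XT.nd (nat_lit 156) (nat_lit 304) (nat_lit 0) (XT.nd (nat_lit 78) (nat_lit 152) (nat_lit 0) (XT.lf (nat_lit 76) (nat_lit 1322464579) (nat_lit 0) (nat_lit 591034564) (nat_lit 152) (nat_lit 1207842353) (nat_lit 145) (nat_lit 1) (nat_lit 144) (nat_lit 1) (nat_lit 146) (nat_lit 1) (nat_lit 362) (nat_lit 359) (nat_lit 299)) (XT.lf (nat_lit 76) (nat_lit 11587464) (nat_lit 0) (nat_lit 2095910319) (nat_lit 228) (nat_lit 961101615) (nat_lit 143) (nat_lit 1) (nat_lit 142) (nat_lit 1) (nat_lit 145) (nat_lit 1) (nat_lit 363) (nat_lit 359) (nat_lit 298))) (XT.nd (nat_lit 78) (nat_lit 152) (nat_lit 0) (XT.lf (nat_lit 76)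 (nat_lit 1741292514) (nat_lit 0) (nat_lit 551232845) (nat_lit 152) (nat_lit 724182888) (nat_lit 141) (nat_lit 1) (nat_lit 140) (nat_lit 1) (nat_lit 142) (nat_lit 1) (nat_lit 364) (nat_lit 359) (nat_lit 297)) (XT.lf (nat_lit 76) (nat_lit 455359388) (nat_lit 0) (nat_lit 2021894343) (nat_lit 228) (nat_lit 488645703) (nat_lit 139) (nat_lit 1) (nat_lit 138) (nat_lit 1) (nat_lit 141) (nat_lit 1) (nat_lit 365) (nat_lit 359) (nat_lit 296)))))) (XT.nd (nat_lit 546) (nat_lit 836) (nat_lit 0) (XT.nd (nat_lit 234) (nat_lit 608) (nat_lit 0) (XT.nd (nat_lit 78) (nat_lit 456) (nat_lit 0) (XT.lf (nat_lit 76) (nat_lit 2117730911) (nat_lit 0) (nat_lit 539698440) (nat_lit 152) (nat_lit 258598937) (nat_lit 137) (nat_lit 1) (nat_lit 136) (nat_lit 1) (nat_lit 138) (nat_lit 1) (nat_lit 366) (nat_lit 359) (nat_lit 295)) (XT.nd (nat_lit 78) (nat_lit 304) (nat_lit 0) (XT.lf (nat_lit 76) (nat_lit 857130610) (nat_lit 0) (nat_lit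 1975529062) (nat_lit 228) (nat_lit 34403318) (nat_lit 135) (nat_lit 1) (nat_lit 134) (nat_lit 1) (nat_lit 137) (nat_lit 1) (nat_lit 367) (nat_lit 359) (nat_lit 294)) (XT.lf (nat_lit 228) (nat_lit 2265756589) (nat_lit 0) (nat_lit 191784710) (nat_lit 152) (nat_lit 361509370) (nat_lit 133) (nat_lit 1) (nat_lit 130) (nat_lit 1) (nat_lit 132) (nat_lit 1) (nat_lit 368) (nat_lit 359) (nat_lit 293)))) (XT.nd (nat_lit 156) (nat_lit 304) (nat_lit 0) (XT.nd (nat_lit 78) (nat_lit 228) (nat_lit 0) (XT.lf (nat_lit 152) (nat_lit 815790919) (nat_lit 0) (nat_lit 408831180) (nat_lit 76) (nat_lit 1547160509) (nat_lit 131) (nat_lit 1) (nat_lit 129) (nat_lit 1) (nat_lit 130) (nat_lit 1) (nat_lit 369) (nat_lit 359) (nat_lit 292)) (XT.lf (nat_lit 76) (nat_lit 38398797) (nat_lit 0) (nat_lit 588591683) (nat_lit 228) (nat_lit 2098577235) (nat_lit 127) (nat_lit 1) (nat_lit 126) (nat_lit 1) (nat_lit 129) (nat_lit 1) (nat_lit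 370) (nat_lit 359) (nat_lit 291))) (XT.nd (nat_lit 78) (nat_lit 228) (nat_lit 0) (XT.lf (nat_lit 152) (nat_lit 724606571) (nat_lit 0) (nat_lit 832851507) (nat_lit 76) (nat_lit 1122537859) (nat_lit 127) (nat_lit 1) (nat_lit 125) (nat_lit 1) (nat_lit 126) (nat_lit 1) (nat_lit 371) (nat_lit 359) (nat_lit 290)) (XT.lf (nat_lit 76) (nat_lit 396544039) (nat_lit 0) (nat_lit 642097673) (nat_lit 228) (nat_lit 1596762627) (nat_lit 123) (nat_lit 1) (nat_lit 122) (nat_lit 1) (nat_lit 125) (nat_lit 1) (nat_lit 372) (nat_lit 359) (nat_lit 289))))) (XT.nd (nat_lit 234) (nat_lit 456) (nat_lit 0) (XT.nd (nat_lit 78) (nat_lit 304) (nat_lit 0) (XT.lf (nat_lit 152) (nat_lit 621713467) (nat_lit 0) (nat_lit 1236652377) (nat_lit 76) (nat_lit 733183841) (nat_lit 123) (nat_lit 1) (nat_lit 121) (nat_lit 1) (nat_lit 122) (nat_lit 1) (nat_lit 373) (nat_lit 359) (nat_lit 288)) (XT.nd (nat_lit 78) (nat_lit 76) (nat_lit 0) (XT.lf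 (nat_lit 76) (nat_lit 722924021) (nat_lit 0) (nat_lit 707168712) (nat_lit 228) (nat_lit 1118414362) (nat_lit 119) (nat_lit 1) (nat_lit 118) (nat_lit 1) (nat_lit 121) (nat_lit 1) (nat_lit 374) (nat_lit 359) (nat_lit 287)) (XT.lf (nat_lit 152) (nat_lit 510013355) (nat_lit 0) (nat_lit 1620095366) (nat_lit 76) (nat_lit 376182833) (nat_lit 119) (nat_lit 1) (nat_lit 117) (nat_lit 1) (nat_lit 118) (nat_lit 1) (nat_lit 375) (nat_lit 359) (nat_lit 286)))) (XT.nd (nat_lit 156) (nat_lit 228) (nat_lit 0) (XT.nd (nat_lit 78) (nat_lit 76) (nat_lit 0) (XT.lf (nat_lit 76) (nat_lit 1020197523) (nat_lit 0) (nat_lit 781087713) (nat_lit 152) (nat_lit 663443611) (nat_lit 116) (nat_lit 1) (nat_lit 115) (nat_lit 1) (nat_lit 117) (nat_lit 1) (nat_lit 376) (nat_lit 359) (nat_lit 285)) (XT.lf (nat_lit 152) (nat_lit 391985834) (nat_lit 0) (nat_lit 1983195814) (nat_lit 76) (nat_lit 48897675) (nat_lit 116) (nat_lit 1) (nat_lit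 114) (nat_lit 1) (nat_lit 115) (nat_lit 1) (nat_lit 377) (nat_lit 359) (nat_lit 284))) (XT.nd (nat_lit 78) (nat_lit 76) (nat_lit 0) (XT.lf (nat_lit 76) (nat_lit 1290769610) (nat_lit 0) (nat_lit 861531594) (nat_lit 152) (nat_lit 231630827) (nat_lit 113) (nat_lit 1) (nat_lit 112) (nat_lit 1) (nat_lit 114) (nat_lit 1) (nat_lit 378) (nat_lit 359) (nat_lit 283)) (XT.lf (nat_lit 0) (nat_lit 246161253) (nat_lit 0) (nat_lit 2077451094) (nat_lit 152) (nat_lit 21095164) (nat_lit 111) (nat_lit 3) (nat_lit 111) (nat_lit 1) (nat_lit 113) (nat_lit 1) (nat_lit 379) (nat_lit 359) (nat_lit 282))))))))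
noncomputable def ec41 : XT := (XT.nd (nat_lit 47658) (nat_lit 0) (nat_lit 9880) (XT.nd (nat_lit 1092) (nat_lit 456) (nat_lit 0) (XT.nd (nat_lit 546) (nat_lit 912) (nat_lit 0) (XT.nd (nat_lit 234) (nat_lit 456) (nat_lit 0) (XT.nd (nat_lit 78) (nat_lit 228) (nat_lit 0) (XT.lf (nat_lit 152) (nat_lit 1357675818) (nat_lit 0) (nat_lit 180881834) (nat_lit 76) (nat_lit 767377967) (nat_lit 110) (nat_lit 1) (nat_lit 108) (nat_lit 1) (nat_lit 109) (nat_lit 1) (nat_lit 380) (nat_lit 359) (nat_lit 281)) (XT.nd (nat_lit 78) (nat_lit 152) (nat_lit 0) (XT.lf (nat_lit 76) (nat_lit 136071842) (nat_lit 0) (nat_lit 383208468) (nat_lit 76) (nat_lit 1748726084) (nat_lit 108) (nat_lit 3) (nat_lit 107) (nat_lit 1) (nat_lit 108) (nat_lit 1) (nat_lit 381) (nat_lit 359) (nat_lit 280)) (XT.lf (nat_lit 152) (nat_lit 1190704154) (nat_lit 0) (nat_lit 575146248) (nat_lit 76) (nat_lit 464758890) (nat_lit 107) (nat_lit 1) (nat_lit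 105) (nat_lit 1) (nat_lit 106) (nat_lit 1) (nat_lit 382) (nat_lit 359) (nat_lit 279)))) (XT.nd (nat_lit 156) (nat_lit 228) (nat_lit 0) (XT.nd (nat_lit 78) (nat_lit 152) (nat_lit 0) (XT.lf (nat_lit 76) (nat_lit 4211093) (nat_lit 0) (nat_lit 765439620) (nat_lit 76) (nat_lit 1424332391) (nat_lit 105) (nat_lit 3) (nat_lit 104) (nat_lit 1) (nat_lit 105) (nat_lit 1) (nat_lit 383) (nat_lit 359) (nat_lit 278)) (XT.lf (nat_lit 152) (nat_lit 1025124409) (nat_lit 0) (nat_lit 947052814) (nat_lit 76) (nat_lit 185730086) (nat_lit 104) (nat_lit 1) (nat_lit 102) (nat_lit 1) (nat_lit 103) (nat_lit 1) (nat_lit 384) (nat_lit 359) (nat_lit 277))) (XT.nd (nat_lit 78) (nat_lit 76) (nat_lit 0) (XT.lf (nat_lit 76) (nat_lit 1000046189) (nat_lit 0) (nat_lit 124392737) (nat_lit 152) (nat_lit 998057382) (nat_lit 101) (nat_lit 1) (nat_lit 100) (nat_lit 1) (nat_lit 102) (nat_lit 1) (nat_lit 385) (nat_lit 359) (nat_lit 276))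 (XT.lf (nat_lit 0) (nat_lit 70060285) (nat_lit 0) (nat_lit 1226393748) (nat_lit 152) (nat_lit 791247745) (nat_lit 99) (nat_lit 3) (nat_lit 99) (nat_lit 1) (nat_lit 101) (nat_lit 1) (nat_lit 386) (nat_lit 359) (nat_lit 275))))) (XT.nd (nat_lit 234) (nat_lit 532) (nat_lit 0) (XT.nd (nat_lit 78) (nat_lit 228) (nat_lit 0) (XT.lf (nat_lit 76) (nat_lit 1210875853) (nat_lit 0) (nat_lit 251134471) (nat_lit 152) (nat_lit 591466988) (nat_lit 98) (nat_lit 1) (nat_lit 97) (nat_lit 1) (nat_lit 99) (nat_lit 1) (nat_lit 387) (nat_lit 359) (nat_lit 274)) (XT.nd (nat_lit 78) (nat_lit 152) (nat_lit 0) (XT.lf (nat_lit 0) (nat_lit 302372900) (nat_lit 0) (nat_lit 1320653034) (nat_lit 152) (nat_lit 396838400) (nat_lit 96) (nat_lit 3) (nat_lit 96) (nat_lit 1) (nat_lit 98) (nat_lit 1) (nat_lit 388) (nat_lit 359) (nat_lit 273)) (XT.lf (nat_lit 76) (nat_lit 1403557238) (nat_lit 0) (nat_lit 375261200) (nat_lit 152) (nat_lit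 208010365) (nat_lit 95) (nat_lit 1) (nat_lit 94) (nat_lit 1) (nat_lit 96) (nat_lit 1) (nat_lit 389) (nat_lit 359) (nat_lit 272)))) (XT.nd (nat_lit 156) (nat_lit 228) (nat_lit 0) (XT.nd (nat_lit 78) (nat_lit 228) (nat_lit 0) (XT.lf (nat_lit 0) (nat_lit 516263613) (nat_lit 0) (nat_lit 1412972446) (nat_lit 152) (nat_lit 25116344) (nat_lit 93) (nat_lit 3) (nat_lit 93) (nat_lit 1) (nat_lit 95) (nat_lit 1) (nat_lit 390) (nat_lit 359) (nat_lit 271)) (XT.lf (nat_lit 152) (nat_lit 1424819292) (nat_lit 0) (nat_lit 156105912) (nat_lit 76) (nat_lit 341487351) (nat_lit 92) (nat_lit 1) (nat_lit 90) (nat_lit 1) (nat_lit 91) (nat_lit 1) (nat_lit 391) (nat_lit 359) (nat_lit 270))) (XT.nd (nat_lit 78) (nat_lit 152) (nat_lit 0) (XT.lf (nat_lit 76) (nat_lit 385100111) (nat_lit 0) (nat_lit 331127479) (nat_lit 76) (nat_lit 1174751904) (nat_lit 90) (nat_lit 3) (nat_lit 89) (nat_lit 1) (nat_lit 90) (nat_lit 1) (nat_lit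 392) (nat_lit 359) (nat_lit 269)) (XT.lf (nat_lit 152) (nat_lit 1242219461) (nat_lit 0) (nat_lit 502309961) (nat_lit 76) (nat_lit 115601017) (nat_lit 89) (nat_lit 1) (nat_lit 87) (nat_lit 1) (nat_lit 88) (nat_lit 1) (nat_lit 393) (nat_lit 359) (nat_lit 268)))))) (XT.nd (nat_lit 46020) (nat_lit 0) (nat_lit 21432) (XT.nd (nat_lit 234) (nat_lit 152) (nat_lit 0) (XT.nd (nat_lit 78) (nat_lit 228) (nat_lit 0) (XT.lf (nat_lit 76) (nat_lit 234052453) (nat_lit 0) (nat_lit 666272593) (nat_lit 76) (nat_lit 929428622) (nat_lit 87) (nat_lit 3) (nat_lit 86) (nat_lit 1) (nat_lit 87) (nat_lit 1) (nat_lit 394) (nat_lit 359) (nat_lit 267)) (XT.nd (nat_lit 78) (nat_lit 76) (nat_lit 0) (XT.lf (nat_lit 0) (nat_lit 91676592) (nat_lit 0) (nat_lit 734650395) (nat_lit 152) (nat_lit 973605647) (nat_lit 84) (nat_lit 3) (nat_lit 84) (nat_lit 1) (nat_lit 86) (nat_lit 1) (nat_lit 395) (nat_lit 359) (nat_lit 266)) (XT.lf (nat_lit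 76) (nat_lit 88819331) (nat_lit 0) (nat_lit 980605520) (nat_lit 76) (nat_lit 701175334) (nat_lit 84) (nat_lit 3) (nat_lit 83) (nat_lit 1) (nat_lit 84) (nat_lit 1) (nat_lit 396) (nat_lit 359) (nat_lit 265)))) (XT.nd (nat_lit 45630) (nat_lit 0) (nat_lit 22344) (XT.nd (nat_lit 45552) (nat_lit 0) (nat_lit 22268) (XT.lf (nat_lit 0) (nat_lit 281339406) (nat_lit 0) (nat_lit 847549302) (nat_lit 152) (nat_lit 612848713) (nat_lit 81) (nat_lit 3) (nat_lit 81) (nat_lit 1) (nat_lit 83) (nat_lit 1) (nat_lit 397) (nat_lit 359) (nat_lit 264)) (XT.lf (nat_lit 1292) (nat_lit 989579428) (nat_lit 0) (nat_lit 3404613458) (nat_lit 1292) (nat_lit 989579428) (nat_lit 391) (nat_lit 1) (nat_lit 374) (nat_lit 0) (nat_lit 391) (nat_lit 0) (nat_lit 300) (nat_lit 360) (nat_lit 360))) (XT.nd (nat_lit 78) (nat_lit 0) (nat_lit 0) (XT.lf (nat_lit 1292) (nat_lit 79336317) (nat_lit 0) (nat_lit 6713181814) (nat_lit 1216) (nat_lit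 3716674010) (nat_lit 392) (nat_lit 1) (nat_lit 375) (nat_lit 1) (nat_lit 391) (nat_lit 1) (nat_lit 301) (nat_lit 360) (nat_lit 359)) (XT.lf (nat_lit 1292) (nat_lit 3490456860) (nat_lit 76) (nat_lit 4937123502) (nat_lit 0) (nat_lit 1831164457) (nat_lit 392) (nat_lit 1) (nat_lit 376) (nat_lit 1) (nat_lit 375) (nat_lit 1) (nat_lit 302) (nat_lit 360) (nat_lit 358))))) (XT.nd (nat_lit 234) (nat_lit 988) (nat_lit 0) (XT.nd (nat_lit 78) (nat_lit 0) (nat_lit 76) (XT.lf (nat_lit 1292) (nat_lit 3068407554) (nat_lit 76) (nat_lit 3231700617) (nat_lit 0) (nat_lit 3716298515) (nat_lit 393) (nat_lit 1) (nat_lit 377) (nat_lit 1) (nat_lit 376) (nat_lit 1) (nat_lit 303) (nat_lit 360) (nat_lit 357)) (XT.nd (nat_lit 78) (nat_lit 0) (nat_lit 76) (XT.lf (nat_lit 1292) (nat_lit 2539313863) (nat_lit 76) (nat_lit 1669342174) (nat_lit 0) (nat_lit 5573249265) (nat_lit 394) (nat_lit 1) (nat_lit 378) (nat_lit 1) (nat_lit 377)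 (nat_lit 1) (nat_lit 304) (nat_lit 360) (nat_lit 356)) (XT.lf (nat_lit 1292) (nat_lit 1911335140) (nat_lit 76) (nat_lit 242697661) (nat_lit 0) (nat_lit 7400923869) (nat_lit 395) (nat_lit 1) (nat_lit 379) (nat_lit 1) (nat_lit 378) (nat_lit 1) (nat_lit 305) (nat_lit 360) (nat_lit 355)))) (XT.nd (nat_lit 156) (nat_lit 1216) (nat_lit 0) (XT.nd (nat_lit 78) (nat_lit 0) (nat_lit 0) (XT.lf (nat_lit 1292) (nat_lit 147067046) (nat_lit 0) (nat_lit 8153266483) (nat_lit 1216) (nat_lit 1034650240) (nat_lit 396) (nat_lit 1) (nat_lit 379) (nat_lit 1) (nat_lit 395) (nat_lit 1) (nat_lit 306) (nat_lit 360) (nat_lit 354)) (XT.lf (nat_lit 1292) (nat_lit 348580893) (nat_lit 76) (nat_lit 6915988035) (nat_lit 0) (nat_lit 1856889784) (nat_lit 396) (nat_lit 1) (nat_lit 380) (nat_lit 1) (nat_lit 379) (nat_lit 1) (nat_lit 307) (nat_lit 360) (nat_lit 353))) (XT.nd (nat_lit 78) (nat_lit 0) (nat_lit 76) (XT.lf (nat_lit 1368)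 (nat_lit 5094505802) (nat_lit 0) (nat_lit 550662796) (nat_lit 1292) (nat_lit 3269370772) (nat_lit 381) (nat_lit 1) (nat_lit 363) (nat_lit 1) (nat_lit 380) (nat_lit 1) (nat_lit 308) (nat_lit 360) (nat_lit 352)) (XT.lf (nat_lit 1368) (nat_lit 2973635423) (nat_lit 0) (nat_lit 1510953846) (nat_lit 1292) (nat_lit 4229477924) (nat_lit 382) (nat_lit 1) (nat_lit 364) (nat_lit 1) (nat_lit 381) (nat_lit 1) (nat_lit 309) (nat_lit 360) (nat_lit 351))))))) (XT.nd (nat_lit 1092) (nat_lit 4940) (nat_lit 0) (XT.nd (nat_lit 546) (nat_lit 3496) (nat_lit 0) (XT.nd (nat_lit 234) (nat_lit 1824) (nat_lit 0) (XT.nd (nat_lit 78) (nat_lit 1444) (nat_lit 0) (XT.lf (nat_lit 76) (nat_lit 898648400) (nat_lit 0) (nat_lit 2533203806) (nat_lit 1292) (nat_lit 5088058493) (nat_lit 366) (nat_lit 1) (nat_lit 365) (nat_lit 1) (nat_lit 382) (nat_lit 1) (nat_lit 310) (nat_lit 360) (nat_lit 350)) (XT.nd (nat_lit 78) (nat_lit 608) (nat_lit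 0) (XT.lf (nat_lit 912) (nat_lit 4708561617) (nat_lit 0) (nat_lit 2469962612) (nat_lit 836) (nat_lit 1152990195) (nat_lit 366) (nat_lit 1) (nat_lit 354) (nat_lit 1) (nat_lit 365) (nat_lit 1) (nat_lit 311) (nat_lit 360) (nat_lit 349)) (XT.lf (nat_lit 684) (nat_lit 3376480258) (nat_lit 0) (nat_lit 1596402357) (nat_lit 608) (nat_lit 3175863091) (nat_lit 355) (nat_lit 1) (nat_lit 346) (nat_lit 1) (nat_lit 354) (nat_lit 1) (nat_lit 312) (nat_lit 360) (nat_lit 348)))) (XT.nd (nat_lit 156) (nat_lit 684) (nat_lit 0) (XT.nd (nat_lit 78) (nat_lit 532) (nat_lit 0) (XT.lf (nat_lit 684) (nat_lit 2004231917) (nat_lit 0) (nat_lit 815169324) (nat_lit 608) (nat_lit 5152261561) (nat_lit 347) (nat_lit 1) (nat_lit 338) (nat_lit 1) (nat_lit 346) (nat_lit 1) (nat_lit 313) (nat_lit 360) (nat_lit 347)) (XT.lf (nat_lit 608) (nat_lit 596223211) (nat_lit 0) (nat_lit 121421293) (nat_lit 532) (nat_lit 7082423093) (nat_lit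 339) (nat_lit 1) (nat_lit 331) (nat_lit 1) (nat_lit 338) (nat_lit 1) (nat_lit 314) (nat_lit 360) (nat_lit 346))) (XT.nd (nat_lit 78) (nat_lit 608) (nat_lit 0) (XT.lf (nat_lit 76) (nat_lit 6286920764) (nat_lit 0) (nat_lit 844855485) (nat_lit 608) (nat_lit 501213060) (nat_lit 331) (nat_lit 1) (nat_lit 330) (nat_lit 1) (nat_lit 338) (nat_lit 1) (nat_lit 315) (nat_lit 360) (nat_lit 345)) (XT.lf (nat_lit 76) (nat_lit 4104961847) (nat_lit 0) (nat_lit 2308524487) (nat_lit 684) (nat_lit 1057148239) (nat_lit 323) (nat_lit 1) (nat_lit 322) (nat_lit 1) (nat_lit 331) (nat_lit 1) (nat_lit 316) (nat_lit 360) (nat_lit 344))))) (XT.nd (nat_lit 234) (nat_lit 1976) (nat_lit 0) (XT.nd (nat_lit 78) (nat_lit 988) (nat_lit 0) (XT.lf (nat_lit 76) (nat_lit 1978610563) (nat_lit 0) (nat_lit 3794630369) (nat_lit 608) (nat_lit 1540006022) (nat_lit 316) (nat_lit 1) (nat_lit 315) (nat_lit 1) (nat_lit 323) (nat_lit 1) (nat_lit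 317) (nat_lit 360) (nat_lit 343)) (XT.nd (nat_lit 78) (nat_lit 456) (nat_lit 0) (XT.lf (nat_lit 608) (nat_lit 1859835708) (nat_lit 0) (nat_lit 5206031468) (nat_lit 532) (nat_lit 94762079) (nat_lit 316) (nat_lit 1) (nat_lit 308) (nat_lit 1) (nat_lit 315) (nat_lit 1) (nat_lit 318) (nat_lit 360) (nat_lit 342)) (XT.lf (nat_lit 532) (nat_lit 170185537) (nat_lit 0) (nat_lit 4689477829) (nat_lit 456) (nat_lit 2152415928) (nat_lit 309) (nat_lit 1) (nat_lit 302) (nat_lit 1) (nat_lit 308) (nat_lit 1) (nat_lit 319) (nat_lit 360) (nat_lit 341)))) (XT.nd (nat_lit 156) (nat_lit 912) (nat_lit 0) (XT.nd (nat_lit 78) (nat_lit 456) (nat_lit 0) (XT.lf (nat_lit 76) (nat_lit 2726888128) (nat_lit 0) (nat_lit 1497832867) (nat_lit 608) (nat_lit 2642859930) (nat_lit 295) (nat_lit 1) (nat_lit 294) (nat_lit 1) (nat_lit 302) (nat_lit 1) (nat_lit 320) (nat_lit 360) (nat_lit 340)) (XT.lf (nat_lit 76) (nat_lit 653530022) (nat_lit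 0) (nat_lit 3168071282) (nat_lit 532) (nat_lit 2905771016) (nat_lit 289) (nat_lit 1) (nat_lit 288) (nat_lit 1) (nat_lit 295) (nat_lit 1) (nat_lit 321) (nat_lit 360) (nat_lit 339))) (XT.nd (nat_lit 78) (nat_lit 456) (nat_lit 0) (XT.lf (nat_lit 532) (nat_lit 1736048776) (nat_lit 0) (nat_lit 3464681041) (nat_lit 456) (nat_lit 1390226510) (nat_lit 289) (nat_lit 1) (nat_lit 282) (nat_lit 1) (nat_lit 288) (nat_lit 1) (nat_lit 322) (nat_lit 360) (nat_lit 338)) (XT.lf (nat_lit 76) (nat_lit 3069075240) (nat_lit 0) (nat_lit 88514071) (nat_lit 456) (nat_lit 3300802725) (nat_lit 277) (nat_lit 1) (nat_lit 276) (nat_lit 1) (nat_lit 282) (nat_lit 1) (nat_lit 323) (nat_lit 360) (nat_lit 337)))))) (XT.nd (nat_lit 546) (nat_lit 2128) (nat_lit 0) (XT.nd (nat_lit 234) (nat_lit 1596) (nat_lit 0) (XT.nd (nat_lit 78) (nat_lit 760) (nat_lit 0) (XT.lf (nat_lit 76) (nat_lit 1013685285) (nat_lit 0) (nat_lit 1873930191) (nat_lit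 532) (nat_lit 3441648036) (nat_lit 271) (nat_lit 1) (nat_lit 270) (nat_lit 1) (nat_lit 277) (nat_lit 1) (nat_lit 324) (nat_lit 360) (nat_lit 336)) (XT.nd (nat_lit 78) (nat_lit 380) (nat_lit 0) (XT.lf (nat_lit 456) (nat_lit 2541611353) (nat_lit 0) (nat_lit 2659106815) (nat_lit 380) (nat_lit 1002934357) (nat_lit 271) (nat_lit 1) (nat_lit 265) (nat_lit 1) (nat_lit 270) (nat_lit 1) (nat_lit 325) (nat_lit 360) (nat_lit 335)) (XT.lf (nat_lit 456) (nat_lit 630405204) (nat_lit 0) (nat_lit 2469555297) (nat_lit 380) (nat_lit 2981481529) (nat_lit 266) (nat_lit 1) (nat_lit 260) (nat_lit 1) (nat_lit 265) (nat_lit 1) (nat_lit 326) (nat_lit 360) (nat_lit 334)))) (XT.nd (nat_lit 156) (nat_lit 760) (nat_lit 0) (XT.nd (nat_lit 78) (nat_lit 380) (nat_lit 0) (XT.lf (nat_lit 76) (nat_lit 1071954994) (nat_lit 0) (nat_lit 1242036007) (nat_lit 456) (nat_lit 3648453111) (nat_lit 255) (nat_lit 1) (nat_lit 254) (nat_lit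 1) (nat_lit 260) (nat_lit 1) (nat_lit 327) (nat_lit 360) (nat_lit 333)) (XT.lf (nat_lit 456) (nat_lit 2750491259) (nat_lit 0) (nat_lit 2187326008) (nat_lit 380) (nat_lit 908650977) (nat_lit 255) (nat_lit 1) (nat_lit 249) (nat_lit 1) (nat_lit 254) (nat_lit 1) (nat_lit 328) (nat_lit 360) (nat_lit 332))) (XT.nd (nat_lit 78) (nat_lit 456) (nat_lit 0) (XT.lf (nat_lit 380) (nat_lit 789680222) (nat_lit 0) (nat_lit 2092140728) (nat_lit 304) (nat_lit 2851727103) (nat_lit 250) (nat_lit 1) (nat_lit 245) (nat_lit 1) (nat_lit 249) (nat_lit 1) (nat_lit 329) (nat_lit 360) (nat_lit 331)) (XT.lf (nat_lit 76) (nat_lit 897641844) (nat_lit 0) (nat_lit 1127908792) (nat_lit 456) (nat_lit 3598008149) (nat_lit 240) (nat_lit 1) (nat_lit 239) (nat_lit 1) (nat_lit 245) (nat_lit 1) (nat_lit 330) (nat_lit 360) (nat_lit 330))))) (XT.nd (nat_lit 234) (nat_lit 1140) (nat_lit 0) (XT.nd (nat_lit 78) (nat_lit 684) (nat_lit 0) (XT.lf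 (nat_lit 380) (nat_lit 2497232339) (nat_lit 0) (nat_lit 1978827305) (nat_lit 304) (nat_lit 1040146607) (nat_lit 240) (nat_lit 1) (nat_lit 235) (nat_lit 1) (nat_lit 239) (nat_lit 1) (nat_lit 331) (nat_lit 360) (nat_lit 329)) (XT.nd (nat_lit 78) (nat_lit 380) (nat_lit 0) (XT.lf (nat_lit 380) (nat_lit 515174614) (nat_lit 0) (nat_lit 1959498851) (nat_lit 304) (nat_lit 2936997050) (nat_lit 236) (nat_lit 1) (nat_lit 231) (nat_lit 1) (nat_lit 235) (nat_lit 1) (nat_lit 332) (nat_lit 360) (nat_lit 328)) (XT.lf (nat_lit 76) (nat_lit 547477355) (nat_lit 0) (nat_lit 1412859699) (nat_lit 380) (nat_lit 3349365536) (nat_lit 227) (nat_lit 1) (nat_lit 226) (nat_lit 1) (nat_lit 231) (nat_lit 1) (nat_lit 333) (nat_lit 360) (nat_lit 327)))) (XT.nd (nat_lit 156) (nat_lit 532) (nat_lit 0) (XT.nd (nat_lit 78) (nat_lit 304) (nat_lit 0) (XT.lf (nat_lit 380) (nat_lit 1892156970) (nat_lit 0) (nat_lit 1975543956) (nat_lit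 304) (nat_lit 1342394958) (nat_lit 227) (nat_lit 1) (nat_lit 222) (nat_lit 1) (nat_lit 226) (nat_lit 1) (nat_lit 334) (nat_lit 360) (nat_lit 326)) (XT.lf (nat_lit 76) (nat_lit 1929045515) (nat_lit 0) (nat_lit 86794503) (nat_lit 304) (nat_lit 3097285618) (nat_lit 219) (nat_lit 1) (nat_lit 218) (nat_lit 1) (nat_lit 222) (nat_lit 1) (nat_lit 335) (nat_lit 360) (nat_lit 325))) (XT.nd (nat_lit 78) (nat_lit 228) (nat_lit 0) (XT.lf (nat_lit 76) (nat_lit 67736716) (nat_lit 0) (nat_lit 1999679253) (nat_lit 380) (nat_lit 2950937367) (nat_lit 215) (nat_lit 1) (nat_lit 214) (nat_lit 1) (nat_lit 219) (nat_lit 1) (nat_lit 336) (nat_lit 360) (nat_lit 324)) (XT.lf (nat_lit 304) (nat_lit 1025426382) (nat_lit 0) (nat_lit 2129783267) (nat_lit 228) (nat_lit 1770519499) (nat_lit 215) (nat_lit 1) (nat_lit 211) (nat_lit 1) (nat_lit 214) (nat_lit 1) (nat_lit 337) (nat_lit 360) (nat_lit 323))))))))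
noncomputable def ec42 : XT := (XT.nd (nat_lit 2184) (nat_lit 3800) (nat_lit 0) (XT.nd (nat_lit 1092) (nat_lit 2356) (nat_lit 0) (XT.nd (nat_lit 546) (nat_lit 1596) (nat_lit 0) (XT.nd (nat_lit 234) (nat_lit 988) (nat_lit 0) (XT.nd (nat_lit 78) (nat_lit 532) (nat_lit 0) (XT.lf (nat_lit 76) (nat_lit 1291744571) (nat_lit 0) (nat_lit 917725479) (nat_lit 380) (nat_lit 2625938232) (nat_lit 207) (nat_lit 1) (nat_lit 206) (nat_lit 1) (nat_lit 211) (nat_lit 1) (nat_lit 338) (nat_lit 360) (nat_lit 322)) (XT.nd (nat_lit 78) (nat_lit 304) (nat_lit 0) (XT.lf (nat_lit 304) (nat_lit 1933195151) (nat_lit 0) (nat_lit 2299947941) (nat_lit 228) (nat_lit 514023234) (nat_lit 207) (nat_lit 1) (nat_lit 203) (nat_lit 1) (nat_lit 206) (nat_lit 1) (nat_lit 339) (nat_lit 360) (nat_lit 321)) (XT.lf (nat_lit 76) (nat_lit 2373214834) (nat_lit 0) (nat_lit 28986135) (nat_lit 304) (nat_lit 2258797362) (nat_lit 200) (nat_lit 1)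 (nat_lit 199) (nat_lit 1) (nat_lit 203) (nat_lit 1) (nat_lit 340) (nat_lit 360) (nat_lit 320)))) (XT.nd (nat_lit 156) (nat_lit 532) (nat_lit 0) (XT.nd (nat_lit 78) (nat_lit 228) (nat_lit 0) (XT.lf (nat_lit 76) (nat_lit 589783586) (nat_lit 0) (nat_lit 1919545523) (nat_lit 304) (nat_lit 2067341243) (nat_lit 197) (nat_lit 1) (nat_lit 196) (nat_lit 1) (nat_lit 200) (nat_lit 1) (nat_lit 341) (nat_lit 360) (nat_lit 319)) (XT.lf (nat_lit 304) (nat_lit 706752733) (nat_lit 0) (nat_lit 2627611460) (nat_lit 228) (nat_lit 1159968742) (nat_lit 197) (nat_lit 1) (nat_lit 193) (nat_lit 1) (nat_lit 196) (nat_lit 1) (nat_lit 342) (nat_lit 360) (nat_lit 318))) (XT.nd (nat_lit 78) (nat_lit 228) (nat_lit 0) (XT.lf (nat_lit 76) (nat_lit 1560138421) (nat_lit 0) (nat_lit 1189663044) (nat_lit 304) (nat_lit 1663941820) (nat_lit 190) (nat_lit 1) (nat_lit 189) (nat_lit 1) (nat_lit 193) (nat_lit 1) (nat_lit 343) (nat_lit 360)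 (nat_lit 317)) (XT.lf (nat_lit 304) (nat_lit 1296531412) (nat_lit 0) (nat_lit 2884427341) (nat_lit 228) (nat_lit 154159921) (nat_lit 190) (nat_lit 1) (nat_lit 186) (nat_lit 1) (nat_lit 189) (nat_lit 1) (nat_lit 344) (nat_lit 360) (nat_lit 316))))) (XT.nd (nat_lit 234) (nat_lit 912) (nat_lit 0) (XT.nd (nat_lit 78) (nat_lit 456) (nat_lit 0) (XT.lf (nat_lit 76) (nat_lit 2420192015) (nat_lit 0) (nat_lit 597366145) (nat_lit 228) (nat_lit 1240464659) (nat_lit 184) (nat_lit 1) (nat_lit 183) (nat_lit 1) (nat_lit 186) (nat_lit 1) (nat_lit 345) (nat_lit 360) (nat_lit 315)) (XT.nd (nat_lit 78) (nat_lit 228) (nat_lit 0) (XT.lf (nat_lit 76) (nat_lit 727701065) (nat_lit 0) (nat_lit 2429628644) (nat_lit 304) (nat_lit 1025333026) (nat_lit 181) (nat_lit 1) (nat_lit 180) (nat_lit 1) (nat_lit 184) (nat_lit 1) (nat_lit 346) (nat_lit 360) (nat_lit 314)) (XT.lf (nat_lit 76) (nat_lit 3181598349) (nat_lit 0) (nat_lit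 123406191) (nat_lit 228) (nat_lit 804041276) (nat_lit 178) (nat_lit 1) (nat_lit 177) (nat_lit 1) (nat_lit 180) (nat_lit 1) (nat_lit 347) (nat_lit 360) (nat_lit 313)))) (XT.nd (nat_lit 156) (nat_lit 532) (nat_lit 0) (XT.nd (nat_lit 78) (nat_lit 152) (nat_lit 0) (XT.lf (nat_lit 76) (nat_lit 1510408052) (nat_lit 0) (nat_lit 1935661778) (nat_lit 304) (nat_lit 590650712) (nat_lit 175) (nat_lit 1) (nat_lit 174) (nat_lit 1) (nat_lit 178) (nat_lit 1) (nat_lit 348) (nat_lit 360) (nat_lit 312)) (XT.lf (nat_lit 228) (nat_lit 253990385) (nat_lit 0) (nat_lit 3603166348) (nat_lit 152) (nat_lit 109161348) (nat_lit 175) (nat_lit 1) (nat_lit 172) (nat_lit 1) (nat_lit 174) (nat_lit 1) (nat_lit 349) (nat_lit 360) (nat_lit 311))) (XT.nd (nat_lit 78) (nat_lit 304) (nat_lit 0) (XT.lf (nat_lit 76) (nat_lit 2206914977) (nat_lit 0) (nat_lit 1539181966) (nat_lit 228) (nat_lit 150834232) (nat_lit 170) (nat_lit 1) (nat_lit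 169) (nat_lit 1) (nat_lit 172) (nat_lit 1) (nat_lit 350) (nat_lit 360) (nat_lit 310)) (XT.lf (nat_lit 228) (nat_lit 538355059) (nat_lit 0) (nat_lit 74653857) (nat_lit 152) (nat_lit 3216308218) (nat_lit 168) (nat_lit 1) (nat_lit 165) (nat_lit 1) (nat_lit 167) (nat_lit 1) (nat_lit 351) (nat_lit 360) (nat_lit 309)))))) (XT.nd (nat_lit 546) (nat_lit 1064) (nat_lit 0) (XT.nd (nat_lit 234) (nat_lit 684) (nat_lit 0) (XT.nd (nat_lit 78) (nat_lit 380) (nat_lit 0) (XT.lf (nat_lit 228) (nat_lit 2533803869) (nat_lit 0) (nat_lit 295105871) (nat_lit 152) (nat_lit 933930369) (nat_lit 165) (nat_lit 1) (nat_lit 162) (nat_lit 1) (nat_lit 164) (nat_lit 1) (nat_lit 352) (nat_lit 360) (nat_lit 308)) (XT.nd (nat_lit 78) (nat_lit 228) (nat_lit 0) (XT.lf (nat_lit 228) (nat_lit 743253061) (nat_lit 0) (nat_lit 517626483) (nat_lit 152) (nat_lit 2436932324) (nat_lit 163) (nat_lit 1) (nat_lit 160) (nat_lit 1) (nat_lit 162)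 (nat_lit 1) (nat_lit 353) (nat_lit 360) (nat_lit 307)) (XT.lf (nat_lit 228) (nat_lit 2642525303) (nat_lit 0) (nat_lit 740356341) (nat_lit 152) (nat_lit 251270162) (nat_lit 160) (nat_lit 1) (nat_lit 157) (nat_lit 1) (nat_lit 159) (nat_lit 1) (nat_lit 354) (nat_lit 360) (nat_lit 306)))) (XT.nd (nat_lit 156) (nat_lit 304) (nat_lit 0) (XT.nd (nat_lit 78) (nat_lit 228) (nat_lit 0) (XT.lf (nat_lit 228) (nat_lit 884766580) (nat_lit 0) (nat_lit 955810092) (nat_lit 152) (nat_lit 1731039285) (nat_lit 158) (nat_lit 1) (nat_lit 155) (nat_lit 1) (nat_lit 157) (nat_lit 1) (nat_lit 355) (nat_lit 360) (nat_lit 305)) (XT.lf (nat_lit 76) (nat_lit 356644351) (nat_lit 0) (nat_lit 818300318) (nat_lit 228) (nat_lit 2335553337) (nat_lit 153) (nat_lit 1) (nat_lit 152) (nat_lit 1) (nat_lit 155) (nat_lit 1) (nat_lit 356) (nat_lit 360) (nat_lit 304))) (XT.nd (nat_lit 78) (nat_lit 152) (nat_lit 0) (XT.lf (nat_lit 228) (nat_lit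 972769465) (nat_lit 0) (nat_lit 1386064117) (nat_lit 152) (nat_lit 1091598748) (nat_lit 153) (nat_lit 1) (nat_lit 150) (nat_lit 1) (nat_lit 152) (nat_lit 1) (nat_lit 357) (nat_lit 360) (nat_lit 303)) (XT.lf (nat_lit 76) (nat_lit 899723091) (nat_lit 0) (nat_lit 698099478) (nat_lit 152) (nat_lit 1793823929) (nat_lit 149) (nat_lit 1) (nat_lit 148) (nat_lit 1) (nat_lit 150) (nat_lit 1) (nat_lit 358) (nat_lit 360) (nat_lit 302))))) (XT.nd (nat_lit 234) (nat_lit 608) (nat_lit 0) (XT.nd (nat_lit 78) (nat_lit 304) (nat_lit 0) (XT.lf (nat_lit 228) (nat_lit 1015845306) (nat_lit 0) (nat_lit 1805818281) (nat_lit 152) (nat_lit 512324696) (nat_lit 149) (nat_lit 1) (nat_lit 146) (nat_lit 1) (nat_lit 148) (nat_lit 1) (nat_lit 359) (nat_lit 360) (nat_lit 301)) (XT.nd (nat_lit 78) (nat_lit 152) (nat_lit 0) (XT.lf (nat_lit 76) (nat_lit 1388587808) (nat_lit 0) (nat_lit 620586292) (nat_lit 152) (nat_lit 1268234470)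 (nat_lit 145) (nat_lit 1) (nat_lit 144) (nat_lit 1) (nat_lit 146) (nat_lit 1) (nat_lit 360) (nat_lit 360) (nat_lit 300)) (XT.lf (nat_lit 76) (nat_lit 12166837) (nat_lit 0) (nat_lit 2200705835) (nat_lit 228) (nat_lit 1009156696) (nat_lit 143) (nat_lit 1) (nat_lit 142) (nat_lit 1) (nat_lit 145) (nat_lit 1) (nat_lit 361) (nat_lit 360) (nat_lit 299)))) (XT.nd (nat_lit 156) (nat_lit 304) (nat_lit 0) (XT.nd (nat_lit 78) (nat_lit 152) (nat_lit 0) (XT.lf (nat_lit 76) (nat_lit 1828357139) (nat_lit 0) (nat_lit 578794488) (nat_lit 152) (nat_lit 760392032) (nat_lit 141) (nat_lit 1) (nat_lit 140) (nat_lit 1) (nat_lit 142) (nat_lit 1) (nat_lit 362) (nat_lit 360) (nat_lit 298)) (XT.lf (nat_lit 76) (nat_lit 478127357) (nat_lit 0) (nat_lit 2122989061) (nat_lit 228) (nat_lit 513077988) (nat_lit 139) (nat_lit 1) (nat_lit 138) (nat_lit 1) (nat_lit 141) (nat_lit 1) (nat_lit 363) (nat_lit 360) (nat_lit 297))) (XT.nd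 (nat_lit 78) (nat_lit 152) (nat_lit 0) (XT.lf (nat_lit 76) (nat_lit 2223617457) (nat_lit 0) (nat_lit 566683362) (nat_lit 152) (nat_lit 271528884) (nat_lit 137) (nat_lit 1) (nat_lit 136) (nat_lit 1) (nat_lit 138) (nat_lit 1) (nat_lit 364) (nat_lit 360) (nat_lit 296)) (XT.lf (nat_lit 76) (nat_lit 899987140) (nat_lit 0) (nat_lit 2074305515) (nat_lit 228) (nat_lit 36123484) (nat_lit 135) (nat_lit 1) (nat_lit 134) (nat_lit 1) (nat_lit 137) (nat_lit 1) (nat_lit 365) (nat_lit 360) (nat_lit 295))))))) (XT.nd (nat_lit 1092) (nat_lit 1748) (nat_lit 0) (XT.nd (nat_lit 546) (nat_lit 836) (nat_lit 0) (XT.nd (nat_lit 234) (nat_lit 608) (nat_lit 0) (XT.nd (nat_lit 78) (nat_lit 304) (nat_lit 0) (XT.lf (nat_lit 228) (nat_lit 2379044418) (nat_lit 0) (nat_lit 201373946) (nat_lit 152) (nat_lit 379584839) (nat_lit 133) (nat_lit 1) (nat_lit 130) (nat_lit 1) (nat_lit 132) (nat_lit 1) (nat_lit 366) (nat_lit 360) (nat_lit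 294)) (XT.nd (nat_lit 78) (nat_lit 228) (nat_lit 0) (XT.lf (nat_lit 152) (nat_lit 856580465) (nat_lit 0) (nat_lit 429272739) (nat_lit 76) (nat_lit 1624518534) (nat_lit 131) (nat_lit 1) (nat_lit 129) (nat_lit 1) (nat_lit 130) (nat_lit 1) (nat_lit 367) (nat_lit 360) (nat_lit 293)) (XT.lf (nat_lit 76) (nat_lit 40318737) (nat_lit 0) (nat_lit 618021267) (nat_lit 228) (nat_lit 2203506097) (nat_lit 127) (nat_lit 1) (nat_lit 126) (nat_lit 1) (nat_lit 129) (nat_lit 1) (nat_lit 368) (nat_lit 360) (nat_lit 292)))) (XT.nd (nat_lit 156) (nat_lit 304) (nat_lit 0) (XT.nd (nat_lit 78) (nat_lit 228) (nat_lit 0) (XT.lf (nat_lit 152) (nat_lit 760836900) (nat_lit 0) (nat_lit 874494082) (nat_lit 76) (nat_lit 1178664752) (nat_lit 127) (nat_lit 1) (nat_lit 125) (nat_lit 1) (nat_lit 126) (nat_lit 1) (nat_lit 369) (nat_lit 360) (nat_lit 291)) (XT.lf (nat_lit 76) (nat_lit 416371241) (nat_lit 0) (nat_lit 674202557) (nat_lit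 228) (nat_lit 1676600758) (nat_lit 123) (nat_lit 1) (nat_lit 122) (nat_lit 1) (nat_lit 125) (nat_lit 1) (nat_lit 370) (nat_lit 360) (nat_lit 290))) (XT.nd (nat_lit 78) (nat_lit 228) (nat_lit 0) (XT.lf (nat_lit 152) (nat_lit 652799140) (nat_lit 0) (nat_lit 1298484996) (nat_lit 76) (nat_lit 769843033) (nat_lit 123) (nat_lit 1) (nat_lit 121) (nat_lit 1) (nat_lit 122) (nat_lit 1) (nat_lit 371) (nat_lit 360) (nat_lit 289)) (XT.lf (nat_lit 76) (nat_lit 759070222) (nat_lit 0) (nat_lit 742527148) (nat_lit 228) (nat_lit 1174335080) (nat_lit 119) (nat_lit 1) (nat_lit 118) (nat_lit 1) (nat_lit 121) (nat_lit 1) (nat_lit 372) (nat_lit 360) (nat_lit 288))))) (XT.nd (nat_lit 234) (nat_lit 532) (nat_lit 0) (XT.nd (nat_lit 78) (nat_lit 228) (nat_lit 0) (XT.lf (nat_lit 152) (nat_lit 535514022) (nat_lit 0) (nat_lit 1701100135) (nat_lit 76) (nat_lit 394991975) (nat_lit 119) (nat_lit 1) (nat_lit 117) (nat_lit 1) (nat_lit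 118) (nat_lit 1) (nat_lit 373) (nat_lit 360) (nat_lit 287)) (XT.nd (nat_lit 78) (nat_lit 76) (nat_lit 0) (XT.lf (nat_lit 76) (nat_lit 1071207399) (nat_lit 0) (nat_lit 820142098) (nat_lit 152) (nat_lit 696615791) (nat_lit 116) (nat_lit 1) (nat_lit 115) (nat_lit 1) (nat_lit 117) (nat_lit 1) (nat_lit 374) (nat_lit 360) (nat_lit 286)) (XT.lf (nat_lit 152) (nat_lit 411585126) (nat_lit 0) (nat_lit 2082355605) (nat_lit 76) (nat_lit 51342559) (nat_lit 116) (nat_lit 1) (nat_lit 114) (nat_lit 1) (nat_lit 115) (nat_lit 1) (nat_lit 375) (nat_lit 360) (nat_lit 285)))) (XT.nd (nat_lit 156) (nat_lit 304) (nat_lit 0) (XT.nd (nat_lit 78) (nat_lit 76) (nat_lit 0) (XT.lf (nat_lit 76) (nat_lit 1355308091) (nat_lit 0) (nat_lit 904608173) (nat_lit 152) (nat_lit 243212368) (nat_lit 113) (nat_lit 1) (nat_lit 112) (nat_lit 1) (nat_lit 114) (nat_lit 1) (nat_lit 376) (nat_lit 360) (nat_lit 284)) (XT.lf (nat_lit 0) (nat_lit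 258469315) (nat_lit 0) (nat_lit 2181323649) (nat_lit 152) (nat_lit 22149922) (nat_lit 111) (nat_lit 3) (nat_lit 111) (nat_lit 1) (nat_lit 113) (nat_lit 1) (nat_lit 377) (nat_lit 360) (nat_lit 283))) (XT.nd (nat_lit 78) (nat_lit 76) (nat_lit 0) (XT.lf (nat_lit 152) (nat_lit 1425559609) (nat_lit 0) (nat_lit 189925925) (nat_lit 76) (nat_lit 805746865) (nat_lit 110) (nat_lit 1) (nat_lit 108) (nat_lit 1) (nat_lit 109) (nat_lit 1) (nat_lit 378) (nat_lit 360) (nat_lit 282)) (XT.lf (nat_lit 76) (nat_lit 142875434) (nat_lit 0) (nat_lit 402368892) (nat_lit 76) (nat_lit 1836162389) (nat_lit 108) (nat_lit 3) (nat_lit 107) (nat_lit 1) (nat_lit 108) (nat_lit 1) (nat_lit 379) (nat_lit 360) (nat_lit 281)))))) (XT.nd (nat_lit 546) (nat_lit 912) (nat_lit 0) (XT.nd (nat_lit 234) (nat_lit 456) (nat_lit 0) (XT.nd (nat_lit 78) (nat_lit 228) (nat_lit 0) (XT.lf (nat_lit 152) (nat_lit 1250239362) (nat_lit 0) (nat_lit 603903560)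 (nat_lit 76) (nat_lit 487996834) (nat_lit 107) (nat_lit 1) (nat_lit 105) (nat_lit 1) (nat_lit 106) (nat_lit 1) (nat_lit 380) (nat_lit 360) (nat_lit 280)) (XT.nd (nat_lit 78) (nat_lit 152) (nat_lit 0) (XT.lf (nat_lit 76) (nat_lit 4421648) (nat_lit 0) (nat_lit 803711601) (nat_lit 76) (nat_lit 1495549010) (nat_lit 105) (nat_lit 3) (nat_lit 104) (nat_lit 1) (nat_lit 105) (nat_lit 1) (nat_lit 381) (nat_lit 360) (nat_lit 279)) (XT.lf (nat_lit 152) (nat_lit 1076380630) (nat_lit 0) (nat_lit 994405454) (nat_lit 76) (nat_lit 195016590) (nat_lit 104) (nat_lit 1) (nat_lit 102) (nat_lit 1) (nat_lit 103) (nat_lit 1) (nat_lit 382) (nat_lit 360) (nat_lit 278)))) (XT.nd (nat_lit 156) (nat_lit 228) (nat_lit 0) (XT.nd (nat_lit 78) (nat_lit 76) (nat_lit 0) (XT.lf (nat_lit 76) (nat_lit 1050048498) (nat_lit 0) (nat_lit 130612374) (nat_lit 152) (nat_lit 1047960252) (nat_lit 101) (nat_lit 1) (nat_lit 100) (nat_lit 1)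 (nat_lit 102) (nat_lit 1) (nat_lit 383) (nat_lit 360) (nat_lit 277)) (XT.lf (nat_lit 0) (nat_lit 73563299) (nat_lit 0) (nat_lit 1287713436) (nat_lit 152) (nat_lit 830810132) (nat_lit 99) (nat_lit 3) (nat_lit 99) (nat_lit 1) (nat_lit 101) (nat_lit 1) (nat_lit 384) (nat_lit 360) (nat_lit 276))) (XT.nd (nat_lit 78) (nat_lit 76) (nat_lit 0) (XT.lf (nat_lit 76) (nat_lit 1271419645) (nat_lit 0) (nat_lit 263691194) (nat_lit 152) (nat_lit 621040337) (nat_lit 98) (nat_lit 1) (nat_lit 97) (nat_lit 1) (nat_lit 99) (nat_lit 1) (nat_lit 385) (nat_lit 360) (nat_lit 275)) (XT.lf (nat_lit 0) (nat_lit 317491545) (nat_lit 0) (nat_lit 1386685686) (nat_lit 152) (nat_lit 416680320) (nat_lit 96) (nat_lit 3) (nat_lit 96) (nat_lit 1) (nat_lit 98) (nat_lit 1) (nat_lit 386) (nat_lit 360) (nat_lit 274))))) (XT.nd (nat_lit 234) (nat_lit 456) (nat_lit 0) (XT.nd (nat_lit 78) (nat_lit 304) (nat_lit 0) (XT.lf (nat_lit 76) (nat_lit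 1473735100) (nat_lit 0) (nat_lit 394024261) (nat_lit 152) (nat_lit 218410884) (nat_lit 95) (nat_lit 1) (nat_lit 94) (nat_lit 1) (nat_lit 96) (nat_lit 1) (nat_lit 387) (nat_lit 360) (nat_lit 273)) (XT.nd (nat_lit 78) (nat_lit 228) (nat_lit 0) (XT.lf (nat_lit 0) (nat_lit 542076793) (nat_lit 0) (nat_lit 1483621069) (nat_lit 152) (nat_lit 26372162) (nat_lit 93) (nat_lit 3) (nat_lit 93) (nat_lit 1) (nat_lit 95) (nat_lit 1) (nat_lit 388) (nat_lit 360) (nat_lit 272)) (XT.lf (nat_lit 152) (nat_lit 1496060257) (nat_lit 0) (nat_lit 163911208) (nat_lit 76) (nat_lit 358561718) (nat_lit 92) (nat_lit 1) (nat_lit 90) (nat_lit 1) (nat_lit 91) (nat_lit 1) (nat_lit 389) (nat_lit 360) (nat_lit 271)))) (XT.nd (nat_lit 156) (nat_lit 228) (nat_lit 0) (XT.nd (nat_lit 78) (nat_lit 152) (nat_lit 0) (XT.lf (nat_lit 76) (nat_lit 404355117) (nat_lit 0) (nat_lit 347683853) (nat_lit 76) (nat_lit 1233489499) (nat_lit 90) (nat_lit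 3) (nat_lit 89) (nat_lit 1) (nat_lit 90) (nat_lit 1) (nat_lit 390) (nat_lit 360) (nat_lit 270)) (XT.lf (nat_lit 152) (nat_lit 1304330434) (nat_lit 0) (nat_lit 527425459) (nat_lit 76) (nat_lit 121381068) (nat_lit 89) (nat_lit 1) (nat_lit 87) (nat_lit 1) (nat_lit 88) (nat_lit 1) (nat_lit 391) (nat_lit 360) (nat_lit 269))) (XT.nd (nat_lit 78) (nat_lit 152) (nat_lit 0) (XT.lf (nat_lit 76) (nat_lit 245755076) (nat_lit 0) (nat_lit 699586223) (nat_lit 76) (nat_lit 975900053) (nat_lit 87) (nat_lit 3) (nat_lit 86) (nat_lit 1) (nat_lit 87) (nat_lit 1) (nat_lit 392) (nat_lit 360) (nat_lit 268)) (XT.lf (nat_lit 0) (nat_lit 96260421) (nat_lit 0) (nat_lit 771382915) (nat_lit 152) (nat_lit 1022285930) (nat_lit 84) (nat_lit 3) (nat_lit 84) (nat_lit 1) (nat_lit 86) (nat_lit 1) (nat_lit 393) (nat_lit 360) (nat_lit 267))))))))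
noncomputable def ec43 : XT := (XT.nd (nat_lit 47580) (nat_lit 0) (nat_lit 6308) (XT.nd (nat_lit 46488) (nat_lit 0) (nat_lit 14516) (XT.nd (nat_lit 45942) (nat_lit 0) (nat_lit 21584) (XT.nd (nat_lit 45630) (nat_lit 0) (nat_lit 22420) (XT.nd (nat_lit 78) (nat_lit 304) (nat_lit 0) (XT.lf (nat_lit 76) (nat_lit 93260298) (nat_lit 0) (nat_lit 1029635796) (nat_lit 76) (nat_lit 736234101) (nat_lit 84) (nat_lit 3) (nat_lit 83) (nat_lit 1) (nat_lit 84) (nat_lit 1) (nat_lit 394) (nat_lit 360) (nat_lit 266)) (XT.nd (nat_lit 78) (nat_lit 152) (nat_lit 0) (XT.lf (nat_lit 0) (nat_lit 295406376) (nat_lit 0) (nat_lit 889926768) (nat_lit 152) (nat_lit 643491148) (nat_lit 81) (nat_lit 3) (nat_lit 81) (nat_lit 1) (nat_lit 83) (nat_lit 1) (nat_lit 395) (nat_lit 360) (nat_lit 265)) (XT.lf (nat_lit 76) (nat_lit 1286290514) (nat_lit 0) (nat_lit 51847224) (nat_lit 152) (nat_lit 460960030) (nat_lit 80) (nat_lit 1) (nat_lit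 79) (nat_lit 1) (nat_lit 81) (nat_lit 1) (nat_lit 396) (nat_lit 360) (nat_lit 264)))) (XT.nd (nat_lit 156) (nat_lit 0) (nat_lit 76) (XT.nd (nat_lit 78) (nat_lit 0) (nat_lit 76) (XT.lf (nat_lit 1292) (nat_lit 1039058400) (nat_lit 0) (nat_lit 3574844131) (nat_lit 1292) (nat_lit 1039058400) (nat_lit 391) (nat_lit 1) (nat_lit 374) (nat_lit 0) (nat_lit 391) (nat_lit 0) (nat_lit 298) (nat_lit 361) (nat_lit 361)) (XT.lf (nat_lit 1292) (nat_lit 83303133) (nat_lit 0) (nat_lit 7048840904) (nat_lit 1216) (nat_lit 3902507710) (nat_lit 392) (nat_lit 1) (nat_lit 375) (nat_lit 1) (nat_lit 391) (nat_lit 1) (nat_lit 299) (nat_lit 361) (nat_lit 360))) (XT.nd (nat_lit 78) (nat_lit 0) (nat_lit 76) (XT.lf (nat_lit 1292) (nat_lit 3664979703) (nat_lit 76) (nat_lit 5183979678) (nat_lit 0) (nat_lit 1922722680) (nat_lit 392) (nat_lit 1) (nat_lit 376) (nat_lit 1) (nat_lit 375) (nat_lit 1) (nat_lit 300) (nat_lit 361) (nat_lit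 359)) (XT.lf (nat_lit 1292) (nat_lit 3221827932) (nat_lit 76) (nat_lit 3393285648) (nat_lit 0) (nat_lit 3902113441) (nat_lit 393) (nat_lit 1) (nat_lit 377) (nat_lit 1) (nat_lit 376) (nat_lit 1) (nat_lit 301) (nat_lit 361) (nat_lit 358))))) (XT.nd (nat_lit 234) (nat_lit 1064) (nat_lit 0) (XT.nd (nat_lit 78) (nat_lit 0) (nat_lit 76) (XT.lf (nat_lit 1292) (nat_lit 2666279556) (nat_lit 76) (nat_lit 1752809282) (nat_lit 0) (nat_lit 5851911728) (nat_lit 394) (nat_lit 1) (nat_lit 378) (nat_lit 1) (nat_lit 377) (nat_lit 1) (nat_lit 302) (nat_lit 361) (nat_lit 357)) (XT.nd (nat_lit 78) (nat_lit 0) (nat_lit 76) (XT.lf (nat_lit 1292) (nat_lit 2006901897) (nat_lit 76) (nat_lit 254832544) (nat_lit 0) (nat_lit 7770970062) (nat_lit 395) (nat_lit 1) (nat_lit 379) (nat_lit 1) (nat_lit 378) (nat_lit 1) (nat_lit 303) (nat_lit 361) (nat_lit 356)) (XT.lf (nat_lit 1292) (nat_lit 154420398) (nat_lit 0) (nat_lit 8560929807)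 (nat_lit 1216) (nat_lit 1086382752) (nat_lit 396) (nat_lit 1) (nat_lit 379) (nat_lit 1) (nat_lit 395) (nat_lit 1) (nat_lit 304) (nat_lit 361) (nat_lit 355)))) (XT.nd (nat_lit 156) (nat_lit 0) (nat_lit 76) (XT.nd (nat_lit 78) (nat_lit 1216) (nat_lit 0) (XT.lf (nat_lit 1292) (nat_lit 366009937) (nat_lit 76) (nat_lit 7261787437) (nat_lit 0) (nat_lit 1949734273) (nat_lit 396) (nat_lit 1) (nat_lit 380) (nat_lit 1) (nat_lit 379) (nat_lit 1) (nat_lit 305) (nat_lit 361) (nat_lit 354)) (XT.lf (nat_lit 1368) (nat_lit 5349231092) (nat_lit 0) (nat_lit 578195936) (nat_lit 1292) (nat_lit 3432839310) (nat_lit 381) (nat_lit 1) (nat_lit 363) (nat_lit 1) (nat_lit 380) (nat_lit 1) (nat_lit 306) (nat_lit 361) (nat_lit 353))) (XT.nd (nat_lit 78) (nat_lit 0) (nat_lit 76) (XT.lf (nat_lit 1368) (nat_lit 3122317194) (nat_lit 0) (nat_lit 1586501538) (nat_lit 1292) (nat_lit 4440951820) (nat_lit 382) (nat_lit 1) (nat_lit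 364) (nat_lit 1) (nat_lit 381) (nat_lit 1) (nat_lit 307) (nat_lit 361) (nat_lit 352)) (XT.lf (nat_lit 76) (nat_lit 943580820) (nat_lit 0) (nat_lit 2659863996) (nat_lit 1292) (nat_lit 5342461418) (nat_lit 366) (nat_lit 1) (nat_lit 365) (nat_lit 1) (nat_lit 382) (nat_lit 1) (nat_lit 308) (nat_lit 361) (nat_lit 351)))))) (XT.nd (nat_lit 546) (nat_lit 3420) (nat_lit 0) (XT.nd (nat_lit 234) (nat_lit 1748) (nat_lit 0) (XT.nd (nat_lit 78) (nat_lit 1216) (nat_lit 0) (XT.lf (nat_lit 912) (nat_lit 4943989698) (nat_lit 0) (nat_lit 2593460743) (nat_lit 836) (nat_lit 1210639704) (nat_lit 366) (nat_lit 1) (nat_lit 354) (nat_lit 1) (nat_lit 365) (nat_lit 1) (nat_lit 309) (nat_lit 361) (nat_lit 350)) (XT.nd (nat_lit 78) (nat_lit 608) (nat_lit 0) (XT.lf (nat_lit 684) (nat_lit 3545304271) (nat_lit 0) (nat_lit 1676222475) (nat_lit 608) (nat_lit 3334656246) (nat_lit 355) (nat_lit 1) (nat_lit 346) (nat_lit 1) (nat_lit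 354) (nat_lit 1) (nat_lit 310) (nat_lit 361) (nat_lit 349)) (XT.lf (nat_lit 684) (nat_lit 2104443513) (nat_lit 0) (nat_lit 855927791) (nat_lit 608) (nat_lit 5409874639) (nat_lit 347) (nat_lit 1) (nat_lit 338) (nat_lit 1) (nat_lit 346) (nat_lit 1) (nat_lit 311) (nat_lit 361) (nat_lit 348)))) (XT.nd (nat_lit 156) (nat_lit 1140) (nat_lit 0) (XT.nd (nat_lit 78) (nat_lit 76) (nat_lit 0) (XT.lf (nat_lit 608) (nat_lit 626034371) (nat_lit 0) (nat_lit 127492358) (nat_lit 532) (nat_lit 7436544248) (nat_lit 339) (nat_lit 1) (nat_lit 331) (nat_lit 1) (nat_lit 338) (nat_lit 1) (nat_lit 312) (nat_lit 361) (nat_lit 347)) (XT.lf (nat_lit 76) (nat_lit 6601266802) (nat_lit 0) (nat_lit 887098260) (nat_lit 608) (nat_lit 526273713) (nat_lit 331) (nat_lit 1) (nat_lit 330) (nat_lit 1) (nat_lit 338) (nat_lit 1) (nat_lit 313) (nat_lit 361) (nat_lit 346))) (XT.nd (nat_lit 78) (nat_lit 532) (nat_lit 0) (XT.lf (nat_lit 76)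 (nat_lit 4310209940) (nat_lit 0) (nat_lit 2423950712) (nat_lit 684) (nat_lit 1110005651) (nat_lit 323) (nat_lit 1) (nat_lit 322) (nat_lit 1) (nat_lit 331) (nat_lit 1) (nat_lit 314) (nat_lit 361) (nat_lit 345)) (XT.lf (nat_lit 76) (nat_lit 2077541091) (nat_lit 0) (nat_lit 3984361887) (nat_lit 608) (nat_lit 1617006323) (nat_lit 316) (nat_lit 1) (nat_lit 315) (nat_lit 1) (nat_lit 323) (nat_lit 1) (nat_lit 315) (nat_lit 361) (nat_lit 344))))) (XT.nd (nat_lit 234) (nat_lit 1824) (nat_lit 0) (XT.nd (nat_lit 78) (nat_lit 1064) (nat_lit 0) (XT.lf (nat_lit 608) (nat_lit 1952827494) (nat_lit 0) (nat_lit 5466333042) (nat_lit 532) (nat_lit 99500183) (nat_lit 316) (nat_lit 1) (nat_lit 308) (nat_lit 1) (nat_lit 315) (nat_lit 1) (nat_lit 316) (nat_lit 361) (nat_lit 343)) (XT.nd (nat_lit 78) (nat_lit 608) (nat_lit 0) (XT.lf (nat_lit 532) (nat_lit 178694813) (nat_lit 0) (nat_lit 4923951721) (nat_lit 456) (nat_lit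 2260036725) (nat_lit 309) (nat_lit 1) (nat_lit 302) (nat_lit 1) (nat_lit 308) (nat_lit 1) (nat_lit 317) (nat_lit 361) (nat_lit 342)) (XT.lf (nat_lit 76) (nat_lit 2863232534) (nat_lit 0) (nat_lit 1572724510) (nat_lit 608) (nat_lit 2775002926) (nat_lit 295) (nat_lit 1) (nat_lit 294) (nat_lit 1) (nat_lit 302) (nat_lit 1) (nat_lit 318) (nat_lit 361) (nat_lit 341)))) (XT.nd (nat_lit 156) (nat_lit 912) (nat_lit 0) (XT.nd (nat_lit 78) (nat_lit 456) (nat_lit 0) (XT.lf (nat_lit 76) (nat_lit 686206523) (nat_lit 0) (nat_lit 3326474846) (nat_lit 532) (nat_lit 3051059567) (nat_lit 289) (nat_lit 1) (nat_lit 288) (nat_lit 1) (nat_lit 295) (nat_lit 1) (nat_lit 319) (nat_lit 361) (nat_lit 340)) (XT.lf (nat_lit 532) (nat_lit 1822851214) (nat_lit 0) (nat_lit 3637915093) (nat_lit 456) (nat_lit 1459737835) (nat_lit 289) (nat_lit 1) (nat_lit 282) (nat_lit 1) (nat_lit 288) (nat_lit 1) (nat_lit 320) (nat_lit 361) (nat_lit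 339))) (XT.nd (nat_lit 78) (nat_lit 456) (nat_lit 0) (XT.lf (nat_lit 76) (nat_lit 3222529002) (nat_lit 0) (nat_lit 92939774) (nat_lit 456) (nat_lit 3465842861) (nat_lit 277) (nat_lit 1) (nat_lit 276) (nat_lit 1) (nat_lit 282) (nat_lit 1) (nat_lit 321) (nat_lit 361) (nat_lit 338)) (XT.lf (nat_lit 76) (nat_lit 1064369549) (nat_lit 0) (nat_lit 1967626700) (nat_lit 532) (nat_lit 3613730438) (nat_lit 271) (nat_lit 1) (nat_lit 270) (nat_lit 1) (nat_lit 277) (nat_lit 1) (nat_lit 322) (nat_lit 361) (nat_lit 337))))))) (XT.nd (nat_lit 1092) (nat_lit 3344) (nat_lit 0) (XT.nd (nat_lit 546) (nat_lit 2204) (nat_lit 0) (XT.nd (nat_lit 234) (nat_lit 1444) (nat_lit 0) (XT.nd (nat_lit 78) (nat_lit 836) (nat_lit 0) (XT.lf (nat_lit 456) (nat_lit 2668691921) (nat_lit 0) (nat_lit 2792062156) (nat_lit 380) (nat_lit 1053081075) (nat_lit 271) (nat_lit 1) (nat_lit 265) (nat_lit 1) (nat_lit 270) (nat_lit 1) (nat_lit 323)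 (nat_lit 361) (nat_lit 336)) (XT.nd (nat_lit 78) (nat_lit 456) (nat_lit 0) (XT.lf (nat_lit 456) (nat_lit 661925464) (nat_lit 0) (nat_lit 2593033062) (nat_lit 380) (nat_lit 3130555605) (nat_lit 266) (nat_lit 1) (nat_lit 260) (nat_lit 1) (nat_lit 265) (nat_lit 1) (nat_lit 324) (nat_lit 361) (nat_lit 335)) (XT.lf (nat_lit 76) (nat_lit 1125552744) (nat_lit 0) (nat_lit 1304137808) (nat_lit 456) (nat_lit 3830875766) (nat_lit 255) (nat_lit 1) (nat_lit 254) (nat_lit 1) (nat_lit 260) (nat_lit 1) (nat_lit 325) (nat_lit 361) (nat_lit 334)))) (XT.nd (nat_lit 156) (nat_lit 760) (nat_lit 0) (XT.nd (nat_lit 78) (nat_lit 304) (nat_lit 0) (XT.lf (nat_lit 456) (nat_lit 2888015822) (nat_lit 0) (nat_lit 2296692308) (nat_lit 380) (nat_lit 954083526) (nat_lit 255) (nat_lit 1) (nat_lit 249) (nat_lit 1) (nat_lit 254) (nat_lit 1) (nat_lit 326) (nat_lit 361) (nat_lit 333)) (XT.lf (nat_lit 380) (nat_lit 829164233) (nat_lit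 0) (nat_lit 2196747765) (nat_lit 304) (nat_lit 2994313458) (nat_lit 250) (nat_lit 1) (nat_lit 245) (nat_lit 1) (nat_lit 249) (nat_lit 1) (nat_lit 327) (nat_lit 361) (nat_lit 332))) (XT.nd (nat_lit 78) (nat_lit 304) (nat_lit 0) (XT.lf (nat_lit 76) (nat_lit 942523936) (nat_lit 0) (nat_lit 1184304232) (nat_lit 456) (nat_lit 3777908557) (nat_lit 240) (nat_lit 1) (nat_lit 239) (nat_lit 1) (nat_lit 245) (nat_lit 1) (nat_lit 328) (nat_lit 361) (nat_lit 331)) (XT.lf (nat_lit 380) (nat_lit 2622093956) (nat_lit 0) (nat_lit 2077768671) (nat_lit 304) (nat_lit 1092153937) (nat_lit 240) (nat_lit 1) (nat_lit 235) (nat_lit 1) (nat_lit 239) (nat_lit 1) (nat_lit 329) (nat_lit 361) (nat_lit 330))))) (XT.nd (nat_lit 234) (nat_lit 1216) (nat_lit 0) (XT.nd (nat_lit 78) (nat_lit 684) (nat_lit 0) (XT.lf (nat_lit 380) (nat_lit 540933345) (nat_lit 0) (nat_lit 2057473793) (nat_lit 304) (nat_lit 3083846903) (nat_lit 236)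 (nat_lit 1) (nat_lit 231) (nat_lit 1) (nat_lit 235) (nat_lit 1) (nat_lit 330) (nat_lit 361) (nat_lit 329)) (XT.nd (nat_lit 78) (nat_lit 304) (nat_lit 0) (XT.lf (nat_lit 76) (nat_lit 574851223) (nat_lit 0) (nat_lit 1483502684) (nat_lit 380) (nat_lit 3516833813) (nat_lit 227) (nat_lit 1) (nat_lit 226) (nat_lit 1) (nat_lit 231) (nat_lit 1) (nat_lit 331) (nat_lit 361) (nat_lit 328)) (XT.lf (nat_lit 380) (nat_lit 1986764818) (nat_lit 0) (nat_lit 2074321154) (nat_lit 304) (nat_lit 1409514705) (nat_lit 227) (nat_lit 1) (nat_lit 222) (nat_lit 1) (nat_lit 226) (nat_lit 1) (nat_lit 332) (nat_lit 361) (nat_lit 327)))) (XT.nd (nat_lit 156) (nat_lit 608) (nat_lit 0) (XT.nd (nat_lit 78) (nat_lit 304) (nat_lit 0) (XT.lf (nat_lit 76) (nat_lit 2025497790) (nat_lit 0) (nat_lit 91134228) (nat_lit 304) (nat_lit 3252149899) (nat_lit 219) (nat_lit 1) (nat_lit 218) (nat_lit 1) (nat_lit 222) (nat_lit 1) (nat_lit 333)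 (nat_lit 361) (nat_lit 326)) (XT.lf (nat_lit 76) (nat_lit 71123552) (nat_lit 0) (nat_lit 2099663216) (nat_lit 380) (nat_lit 3098484235) (nat_lit 215) (nat_lit 1) (nat_lit 214) (nat_lit 1) (nat_lit 219) (nat_lit 1) (nat_lit 334) (nat_lit 361) (nat_lit 325))) (XT.nd (nat_lit 78) (nat_lit 380) (nat_lit 0) (XT.lf (nat_lit 304) (nat_lit 1076697701) (nat_lit 0) (nat_lit 2236272430) (nat_lit 228) (nat_lit 1859045474) (nat_lit 215) (nat_lit 1) (nat_lit 211) (nat_lit 1) (nat_lit 214) (nat_lit 1) (nat_lit 335) (nat_lit 361) (nat_lit 324)) (XT.lf (nat_lit 76) (nat_lit 1356331799) (nat_lit 0) (nat_lit 963611753) (nat_lit 380) (nat_lit 2757235144) (nat_lit 207) (nat_lit 1) (nat_lit 206) (nat_lit 1) (nat_lit 211) (nat_lit 1) (nat_lit 336) (nat_lit 361) (nat_lit 323)))))) (XT.nd (nat_lit 546) (nat_lit 1596) (nat_lit 0) (XT.nd (nat_lit 234) (nat_lit 988) (nat_lit 0) (XT.nd (nat_lit 78) (nat_lit 532) (nat_lit 0)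 (XT.lf (nat_lit 304) (nat_lit 2029854909) (nat_lit 0) (nat_lit 2414945338) (nat_lit 228) (nat_lit 539724396) (nat_lit 207) (nat_lit 1) (nat_lit 203) (nat_lit 1) (nat_lit 206) (nat_lit 1) (nat_lit 337) (nat_lit 361) (nat_lit 322)) (XT.nd (nat_lit 78) (nat_lit 228) (nat_lit 0) (XT.lf (nat_lit 76) (nat_lit 2491875576) (nat_lit 0) (nat_lit 30435442) (nat_lit 304) (nat_lit 2371737230) (nat_lit 200) (nat_lit 1) (nat_lit 199) (nat_lit 1) (nat_lit 203) (nat_lit 1) (nat_lit 338) (nat_lit 361) (nat_lit 321)) (XT.lf (nat_lit 76) (nat_lit 619272765) (nat_lit 0) (nat_lit 2015522800) (nat_lit 304) (nat_lit 2170708306) (nat_lit 197) (nat_lit 1) (nat_lit 196) (nat_lit 1) (nat_lit 200) (nat_lit 1) (nat_lit 339) (nat_lit 361) (nat_lit 320)))) (XT.nd (nat_lit 156) (nat_lit 456) (nat_lit 0) (XT.nd (nat_lit 78) (nat_lit 304) (nat_lit 0) (XT.lf (nat_lit 304) (nat_lit 742090370) (nat_lit 0) (nat_lit 2758992033) (nat_lit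 228) (nat_lit 1217967179) (nat_lit 197) (nat_lit 1) (nat_lit 193) (nat_lit 1) (nat_lit 196) (nat_lit 1) (nat_lit 340) (nat_lit 361) (nat_lit 319)) (XT.lf (nat_lit 76) (nat_lit 1638145342) (nat_lit 0) (nat_lit 1249146196) (nat_lit 304) (nat_lit 1747138911) (nat_lit 190) (nat_lit 1) (nat_lit 189) (nat_lit 1) (nat_lit 193) (nat_lit 1) (nat_lit 341) (nat_lit 361) (nat_lit 318))) (XT.nd (nat_lit 78) (nat_lit 228) (nat_lit 0) (XT.lf (nat_lit 304) (nat_lit 1361357983) (nat_lit 0) (nat_lit 3028648708) (nat_lit 228) (nat_lit 161867917) (nat_lit 190) (nat_lit 1) (nat_lit 186) (nat_lit 1) (nat_lit 189) (nat_lit 1) (nat_lit 342) (nat_lit 361) (nat_lit 317)) (XT.lf (nat_lit 76) (nat_lit 2541201616) (nat_lit 0) (nat_lit 627234452) (nat_lit 228) (nat_lit 1302487892) (nat_lit 184) (nat_lit 1) (nat_lit 183) (nat_lit 1) (nat_lit 186) (nat_lit 1) (nat_lit 343) (nat_lit 361) (nat_lit 316))))) (XT.nd (nat_lit 234)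 (nat_lit 912) (nat_lit 0) (XT.nd (nat_lit 78) (nat_lit 456) (nat_lit 0) (XT.lf (nat_lit 76) (nat_lit 764086119) (nat_lit 0) (nat_lit 2551110076) (nat_lit 304) (nat_lit 1076599677) (nat_lit 181) (nat_lit 1) (nat_lit 180) (nat_lit 1) (nat_lit 184) (nat_lit 1) (nat_lit 344) (nat_lit 361) (nat_lit 315)) (XT.nd (nat_lit 78) (nat_lit 228) (nat_lit 0) (XT.lf (nat_lit 76) (nat_lit 3340678266) (nat_lit 0) (nat_lit 129576500) (nat_lit 228) (nat_lit 844243340) (nat_lit 178) (nat_lit 1) (nat_lit 177) (nat_lit 1) (nat_lit 180) (nat_lit 1) (nat_lit 345) (nat_lit 361) (nat_lit 314)) (XT.lf (nat_lit 76) (nat_lit 1585928454) (nat_lit 0) (nat_lit 2032444867) (nat_lit 304) (nat_lit 620183248) (nat_lit 175) (nat_lit 1) (nat_lit 174) (nat_lit 1) (nat_lit 178) (nat_lit 1) (nat_lit 346) (nat_lit 361) (nat_lit 313)))) (XT.nd (nat_lit 156) (nat_lit 532) (nat_lit 0) (XT.nd (nat_lit 78) (nat_lit 228) (nat_lit 0) (XT.lf (nat_lit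 228) (nat_lit 266689904) (nat_lit 0) (nat_lit 3783324665) (nat_lit 152) (nat_lit 114619416) (nat_lit 175) (nat_lit 1) (nat_lit 172) (nat_lit 1) (nat_lit 174) (nat_lit 1) (nat_lit 347) (nat_lit 361) (nat_lit 312)) (XT.lf (nat_lit 76) (nat_lit 2317260726) (nat_lit 0) (nat_lit 1616141065) (nat_lit 228) (nat_lit 158375944) (nat_lit 170) (nat_lit 1) (nat_lit 169) (nat_lit 1) (nat_lit 172) (nat_lit 1) (nat_lit 348) (nat_lit 361) (nat_lit 311))) (XT.nd (nat_lit 78) (nat_lit 228) (nat_lit 0) (XT.lf (nat_lit 228) (nat_lit 565272812) (nat_lit 0) (nat_lit 78386550) (nat_lit 152) (nat_lit 3377123629) (nat_lit 168) (nat_lit 1) (nat_lit 165) (nat_lit 1) (nat_lit 167) (nat_lit 1) (nat_lit 349) (nat_lit 361) (nat_lit 310)) (XT.lf (nat_lit 228) (nat_lit 2660494063) (nat_lit 0) (nat_lit 309861165) (nat_lit 152) (nat_lit 980626888) (nat_lit 165) (nat_lit 1) (nat_lit 162) (nat_lit 1) (nat_lit 164) (nat_lit 1) (nat_lit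 350) (nat_lit 361) (nat_lit 309))))))))
noncomputable def ec44 : XT := (XT.nd (nat_lit 2184) (nat_lit 2204) (nat_lit 0) (XT.nd (nat_lit 1092) (nat_lit 1900) (nat_lit 0) (XT.nd (nat_lit 546) (nat_lit 1216) (nat_lit 0) (XT.nd (nat_lit 234) (nat_lit 684) (nat_lit 0) (XT.nd (nat_lit 78) (nat_lit 380) (nat_lit 0) (XT.lf (nat_lit 228) (nat_lit 780415714) (nat_lit 0) (nat_lit 543507808) (nat_lit 152) (nat_lit 2558778940) (nat_lit 163) (nat_lit 1) (nat_lit 160) (nat_lit 1) (nat_lit 162) (nat_lit 1) (nat_lit 351) (nat_lit 361) (nat_lit 308)) (XT.nd (nat_lit 78) (nat_lit 152) (nat_lit 0) (XT.lf (nat_lit 228) (nat_lit 2774651568) (nat_lit 0) (nat_lit 777374158) (nat_lit 152) (nat_lit 263833670) (nat_lit 160) (nat_lit 1) (nat_lit 157) (nat_lit 1) (nat_lit 159) (nat_lit 1) (nat_lit 352) (nat_lit 361) (nat_lit 307)) (XT.lf (nat_lit 228) (nat_lit 929004909) (nat_lit 0) (nat_lit 1003600597) (nat_lit 152) (nat_lit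 1817591249) (nat_lit 158) (nat_lit 1) (nat_lit 155) (nat_lit 1) (nat_lit 157) (nat_lit 1) (nat_lit 353) (nat_lit 361) (nat_lit 306)))) (XT.nd (nat_lit 156) (nat_lit 304) (nat_lit 0) (XT.nd (nat_lit 78) (nat_lit 152) (nat_lit 0) (XT.lf (nat_lit 76) (nat_lit 374476569) (nat_lit 0) (nat_lit 859215334) (nat_lit 228) (nat_lit 2452331003) (nat_lit 153) (nat_lit 1) (nat_lit 152) (nat_lit 1) (nat_lit 155) (nat_lit 1) (nat_lit 354) (nat_lit 361) (nat_lit 305)) (XT.lf (nat_lit 228) (nat_lit 1021407938) (nat_lit 0) (nat_lit 1455367322) (nat_lit 152) (nat_lit 1146178685) (nat_lit 153) (nat_lit 1) (nat_lit 150) (nat_lit 1) (nat_lit 152) (nat_lit 1) (nat_lit 355) (nat_lit 361) (nat_lit 304))) (XT.nd (nat_lit 78) (nat_lit 152) (nat_lit 0) (XT.lf (nat_lit 76) (nat_lit 944709245) (nat_lit 0) (nat_lit 733004452) (nat_lit 152) (nat_lit 1883515126) (nat_lit 149) (nat_lit 1) (nat_lit 148) (nat_lit 1) (nat_lit 150)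 (nat_lit 1) (nat_lit 356) (nat_lit 361) (nat_lit 303)) (XT.lf (nat_lit 228) (nat_lit 1066637572) (nat_lit 0) (nat_lit 1896109195) (nat_lit 152) (nat_lit 537940930) (nat_lit 149) (nat_lit 1) (nat_lit 146) (nat_lit 1) (nat_lit 148) (nat_lit 1) (nat_lit 357) (nat_lit 361) (nat_lit 302))))) (XT.nd (nat_lit 234) (nat_lit 760) (nat_lit 0) (XT.nd (nat_lit 78) (nat_lit 304) (nat_lit 0) (XT.lf (nat_lit 76) (nat_lit 1458017199) (nat_lit 0) (nat_lit 651615607) (nat_lit 152) (nat_lit 1331646194) (nat_lit 145) (nat_lit 1) (nat_lit 144) (nat_lit 1) (nat_lit 146) (nat_lit 1) (nat_lit 358) (nat_lit 361) (nat_lit 301)) (XT.nd (nat_lit 78) (nat_lit 152) (nat_lit 0) (XT.lf (nat_lit 76) (nat_lit 12775179) (nat_lit 0) (nat_lit 2310741127) (nat_lit 228) (nat_lit 1059614531) (nat_lit 143) (nat_lit 1) (nat_lit 142) (nat_lit 1) (nat_lit 145) (nat_lit 1) (nat_lit 359) (nat_lit 361) (nat_lit 300)) (XT.lf (nat_lit 76) (nat_lit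 1919774996) (nat_lit 0) (nat_lit 607734212) (nat_lit 152) (nat_lit 798411634) (nat_lit 141) (nat_lit 1) (nat_lit 140) (nat_lit 1) (nat_lit 142) (nat_lit 1) (nat_lit 360) (nat_lit 361) (nat_lit 299)))) (XT.nd (nat_lit 156) (nat_lit 456) (nat_lit 0) (XT.nd (nat_lit 78) (nat_lit 152) (nat_lit 0) (XT.lf (nat_lit 76) (nat_lit 502033725) (nat_lit 0) (nat_lit 2229138514) (nat_lit 228) (nat_lit 538731888) (nat_lit 139) (nat_lit 1) (nat_lit 138) (nat_lit 1) (nat_lit 141) (nat_lit 1) (nat_lit 361) (nat_lit 361) (nat_lit 298)) (XT.lf (nat_lit 76) (nat_lit 2334798330) (nat_lit 0) (nat_lit 595017530) (nat_lit 152) (nat_lit 285105328) (nat_lit 137) (nat_lit 1) (nat_lit 136) (nat_lit 1) (nat_lit 138) (nat_lit 1) (nat_lit 362) (nat_lit 361) (nat_lit 297))) (XT.nd (nat_lit 78) (nat_lit 304) (nat_lit 0) (XT.lf (nat_lit 76) (nat_lit 944986497) (nat_lit 0) (nat_lit 2178020791) (nat_lit 228) (nat_lit 37929658) (nat_lit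 135) (nat_lit 1) (nat_lit 134) (nat_lit 1) (nat_lit 137) (nat_lit 1) (nat_lit 363) (nat_lit 361) (nat_lit 296)) (XT.lf (nat_lit 228) (nat_lit 2497996639) (nat_lit 0) (nat_lit 211442643) (nat_lit 152) (nat_lit 398564081) (nat_lit 133) (nat_lit 1) (nat_lit 130) (nat_lit 1) (nat_lit 132) (nat_lit 1) (nat_lit 364) (nat_lit 361) (nat_lit 295)))))) (XT.nd (nat_lit 546) (nat_lit 912) (nat_lit 0) (XT.nd (nat_lit 234) (nat_lit 608) (nat_lit 0) (XT.nd (nat_lit 78) (nat_lit 304) (nat_lit 0) (XT.lf (nat_lit 152) (nat_lit 899409488) (nat_lit 0) (nat_lit 450736376) (nat_lit 76) (nat_lit 1705744461) (nat_lit 131) (nat_lit 1) (nat_lit 129) (nat_lit 1) (nat_lit 130) (nat_lit 1) (nat_lit 365) (nat_lit 361) (nat_lit 294)) (XT.nd (nat_lit 78) (nat_lit 76) (nat_lit 0) (XT.lf (nat_lit 76) (nat_lit 42334674) (nat_lit 0) (nat_lit 648922331) (nat_lit 228) (nat_lit 2313681402) (nat_lit 127) (nat_lit 1) (nat_lit 126) (nat_lit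 1) (nat_lit 129) (nat_lit 1) (nat_lit 366) (nat_lit 361) (nat_lit 293)) (XT.lf (nat_lit 152) (nat_lit 798878745) (nat_lit 0) (nat_lit 918218786) (nat_lit 76) (nat_lit 1237597990) (nat_lit 127) (nat_lit 1) (nat_lit 125) (nat_lit 1) (nat_lit 126) (nat_lit 1) (nat_lit 367) (nat_lit 361) (nat_lit 292)))) (XT.nd (nat_lit 156) (nat_lit 304) (nat_lit 0) (XT.nd (nat_lit 78) (nat_lit 76) (nat_lit 0) (XT.lf (nat_lit 76) (nat_lit 437189803) (nat_lit 0) (nat_lit 707912685) (nat_lit 228) (nat_lit 1760430796) (nat_lit 123) (nat_lit 1) (nat_lit 122) (nat_lit 1) (nat_lit 125) (nat_lit 1) (nat_lit 368) (nat_lit 361) (nat_lit 291)) (XT.lf (nat_lit 152) (nat_lit 685439097) (nat_lit 0) (nat_lit 1363409246) (nat_lit 76) (nat_lit 808335185) (nat_lit 123) (nat_lit 1) (nat_lit 121) (nat_lit 1) (nat_lit 122) (nat_lit 1) (nat_lit 369) (nat_lit 361) (nat_lit 290))) (XT.nd (nat_lit 78) (nat_lit 76) (nat_lit 0) (XT.lf (nat_lit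 76) (nat_lit 797023733) (nat_lit 0) (nat_lit 779653505) (nat_lit 228) (nat_lit 1233051834) (nat_lit 119) (nat_lit 1) (nat_lit 118) (nat_lit 1) (nat_lit 121) (nat_lit 1) (nat_lit 370) (nat_lit 361) (nat_lit 289)) (XT.lf (nat_lit 152) (nat_lit 562289723) (nat_lit 0) (nat_lit 1786155141) (nat_lit 76) (nat_lit 414741573) (nat_lit 119) (nat_lit 1) (nat_lit 117) (nat_lit 1) (nat_lit 118) (nat_lit 1) (nat_lit 371) (nat_lit 361) (nat_lit 288))))) (XT.nd (nat_lit 234) (nat_lit 532) (nat_lit 0) (XT.nd (nat_lit 78) (nat_lit 228) (nat_lit 0) (XT.lf (nat_lit 76) (nat_lit 1124767769) (nat_lit 0) (nat_lit 861149203) (nat_lit 152) (nat_lit 731446581) (nat_lit 116) (nat_lit 1) (nat_lit 115) (nat_lit 1) (nat_lit 117) (nat_lit 1) (nat_lit 372) (nat_lit 361) (nat_lit 287)) (XT.nd (nat_lit 78) (nat_lit 152) (nat_lit 0) (XT.lf (nat_lit 152) (nat_lit 432164382) (nat_lit 0) (nat_lit 2186473385) (nat_lit 76) (nat_lit 53909687)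 (nat_lit 116) (nat_lit 1) (nat_lit 114) (nat_lit 1) (nat_lit 115) (nat_lit 1) (nat_lit 373) (nat_lit 361) (nat_lit 286)) (XT.lf (nat_lit 76) (nat_lit 1423073495) (nat_lit 0) (nat_lit 949838582) (nat_lit 152) (nat_lit 255372986) (nat_lit 113) (nat_lit 1) (nat_lit 112) (nat_lit 1) (nat_lit 114) (nat_lit 1) (nat_lit 374) (nat_lit 361) (nat_lit 285)))) (XT.nd (nat_lit 156) (nat_lit 228) (nat_lit 0) (XT.nd (nat_lit 78) (nat_lit 228) (nat_lit 0) (XT.lf (nat_lit 0) (nat_lit 271392781) (nat_lit 0) (nat_lit 2290389831) (nat_lit 152) (nat_lit 23257418) (nat_lit 111) (nat_lit 3) (nat_lit 111) (nat_lit 1) (nat_lit 113) (nat_lit 1) (nat_lit 375) (nat_lit 361) (nat_lit 284)) (XT.lf (nat_lit 152) (nat_lit 1496837589) (nat_lit 0) (nat_lit 199422222) (nat_lit 76) (nat_lit 846034209) (nat_lit 110) (nat_lit 1) (nat_lit 108) (nat_lit 1) (nat_lit 109) (nat_lit 1) (nat_lit 376) (nat_lit 361) (nat_lit 283))) (XT.nd (nat_lit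 78) (nat_lit 152) (nat_lit 0) (XT.lf (nat_lit 76) (nat_lit 150019206) (nat_lit 0) (nat_lit 422487336) (nat_lit 76) (nat_lit 1927970508) (nat_lit 108) (nat_lit 3) (nat_lit 107) (nat_lit 1) (nat_lit 108) (nat_lit 1) (nat_lit 377) (nat_lit 361) (nat_lit 282)) (XT.lf (nat_lit 152) (nat_lit 1312751330) (nat_lit 0) (nat_lit 634098738) (nat_lit 76) (nat_lit 512396676) (nat_lit 107) (nat_lit 1) (nat_lit 105) (nat_lit 1) (nat_lit 106) (nat_lit 1) (nat_lit 378) (nat_lit 361) (nat_lit 281))))))) (XT.nd (nat_lit 1092) (nat_lit 532) (nat_lit 0) (XT.nd (nat_lit 546) (nat_lit 836) (nat_lit 0) (XT.nd (nat_lit 234) (nat_lit 456) (nat_lit 0) (XT.nd (nat_lit 78) (nat_lit 304) (nat_lit 0) (XT.lf (nat_lit 76) (nat_lit 4642730) (nat_lit 0) (nat_lit 843897181) (nat_lit 76) (nat_lit 1570326461) (nat_lit 105) (nat_lit 3) (nat_lit 104) (nat_lit 1) (nat_lit 105) (nat_lit 1) (nat_lit 379) (nat_lit 361) (nat_lit 280)) (XT.nd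 (nat_lit 78) (nat_lit 152) (nat_lit 0) (XT.lf (nat_lit 152) (nat_lit 1130199661) (nat_lit 0) (nat_lit 1044125727) (nat_lit 76) (nat_lit 204767420) (nat_lit 104) (nat_lit 1) (nat_lit 102) (nat_lit 1) (nat_lit 103) (nat_lit 1) (nat_lit 380) (nat_lit 361) (nat_lit 279)) (XT.lf (nat_lit 76) (nat_lit 1102550923) (nat_lit 0) (nat_lit 137142993) (nat_lit 152) (nat_lit 1100358264) (nat_lit 101) (nat_lit 1) (nat_lit 100) (nat_lit 1) (nat_lit 102) (nat_lit 1) (nat_lit 381) (nat_lit 361) (nat_lit 278)))) (XT.nd (nat_lit 156) (nat_lit 228) (nat_lit 0) (XT.nd (nat_lit 78) (nat_lit 152) (nat_lit 0) (XT.lf (nat_lit 0) (nat_lit 77241464) (nat_lit 0) (nat_lit 1352099107) (nat_lit 152) (nat_lit 872350639) (nat_lit 99) (nat_lit 3) (nat_lit 99) (nat_lit 1) (nat_lit 101) (nat_lit 1) (nat_lit 382) (nat_lit 361) (nat_lit 277)) (XT.lf (nat_lit 76) (nat_lit 1334990628) (nat_lit 0) (nat_lit 276875754) (nat_lit 152) (nat_lit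 652092354) (nat_lit 98) (nat_lit 1) (nat_lit 97) (nat_lit 1) (nat_lit 99) (nat_lit 1) (nat_lit 383) (nat_lit 361) (nat_lit 276))) (XT.nd (nat_lit 78) (nat_lit 152) (nat_lit 0) (XT.lf (nat_lit 0) (nat_lit 333366122) (nat_lit 0) (nat_lit 1456019970) (nat_lit 152) (nat_lit 437514336) (nat_lit 96) (nat_lit 3) (nat_lit 96) (nat_lit 1) (nat_lit 98) (nat_lit 1) (nat_lit 384) (nat_lit 361) (nat_lit 275)) (XT.lf (nat_lit 76) (nat_lit 1547421855) (nat_lit 0) (nat_lit 413725474) (nat_lit 152) (nat_lit 229331428) (nat_lit 95) (nat_lit 1) (nat_lit 94) (nat_lit 1) (nat_lit 96) (nat_lit 1) (nat_lit 385) (nat_lit 361) (nat_lit 274))))) (XT.nd (nat_lit 234) (nat_lit 456) (nat_lit 0) (XT.nd (nat_lit 78) (nat_lit 304) (nat_lit 0) (XT.lf (nat_lit 0) (nat_lit 569180633) (nat_lit 0) (nat_lit 1557802122) (nat_lit 152) (nat_lit 27690770) (nat_lit 93) (nat_lit 3) (nat_lit 93) (nat_lit 1) (nat_lit 95) (nat_lit 1) (nat_lit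 386) (nat_lit 361) (nat_lit 273)) (XT.nd (nat_lit 78) (nat_lit 76) (nat_lit 0) (XT.lf (nat_lit 152) (nat_lit 1570863270) (nat_lit 0) (nat_lit 172106768) (nat_lit 76) (nat_lit 376489804) (nat_lit 92) (nat_lit 1) (nat_lit 90) (nat_lit 1) (nat_lit 91) (nat_lit 1) (nat_lit 387) (nat_lit 361) (nat_lit 272)) (XT.lf (nat_lit 76) (nat_lit 424572873) (nat_lit 0) (nat_lit 365068046) (nat_lit 76) (nat_lit 1295163974) (nat_lit 90) (nat_lit 3) (nat_lit 89) (nat_lit 1) (nat_lit 90) (nat_lit 1) (nat_lit 388) (nat_lit 361) (nat_lit 271)))) (XT.nd (nat_lit 156) (nat_lit 228) (nat_lit 0) (XT.nd (nat_lit 78) (nat_lit 76) (nat_lit 0) (XT.lf (nat_lit 152) (nat_lit 1369546956) (nat_lit 0) (nat_lit 553796732) (nat_lit 76) (nat_lit 127450121) (nat_lit 89) (nat_lit 1) (nat_lit 87) (nat_lit 1) (nat_lit 88) (nat_lit 1) (nat_lit 389) (nat_lit 361) (nat_lit 270)) (XT.lf (nat_lit 76) (nat_lit 258042830) (nat_lit 0) (nat_lit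 734565534) (nat_lit 76) (nat_lit 1024695055) (nat_lit 87) (nat_lit 3) (nat_lit 86) (nat_lit 1) (nat_lit 87) (nat_lit 1) (nat_lit 390) (nat_lit 361) (nat_lit 269))) (XT.nd (nat_lit 78) (nat_lit 76) (nat_lit 0) (XT.lf (nat_lit 0) (nat_lit 101073442) (nat_lit 0) (nat_lit 809952060) (nat_lit 152) (nat_lit 1073400226) (nat_lit 84) (nat_lit 3) (nat_lit 84) (nat_lit 1) (nat_lit 86) (nat_lit 1) (nat_lit 391) (nat_lit 361) (nat_lit 268)) (XT.lf (nat_lit 76) (nat_lit 97923313) (nat_lit 0) (nat_lit 1081117586) (nat_lit 76) (nat_lit 773045806) (nat_lit 84) (nat_lit 3) (nat_lit 83) (nat_lit 1) (nat_lit 84) (nat_lit 1) (nat_lit 392) (nat_lit 361) (nat_lit 267)))))) (XT.nd (nat_lit 45786) (nat_lit 0) (nat_lit 21812) (XT.nd (nat_lit 234) (nat_lit 152) (nat_lit 0) (XT.nd (nat_lit 78) (nat_lit 228) (nat_lit 0) (XT.lf (nat_lit 0) (nat_lit 310176695) (nat_lit 0) (nat_lit 934423106) (nat_lit 152) (nat_lit 675665706)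 (nat_lit 81) (nat_lit 3) (nat_lit 81) (nat_lit 1) (nat_lit 83) (nat_lit 1) (nat_lit 393) (nat_lit 361) (nat_lit 266)) (XT.nd (nat_lit 78) (nat_lit 76) (nat_lit 0) (XT.lf (nat_lit 76) (nat_lit 1350605040) (nat_lit 0) (nat_lit 54439585) (nat_lit 152) (nat_lit 484008032) (nat_lit 80) (nat_lit 1) (nat_lit 79) (nat_lit 1) (nat_lit 81) (nat_lit 1) (nat_lit 394) (nat_lit 361) (nat_lit 265)) (XT.lf (nat_lit 0) (nat_lit 503464150) (nat_lit 0) (nat_lit 1053182496) (nat_lit 152) (nat_lit 301619146) (nat_lit 78) (nat_lit 3) (nat_lit 78) (nat_lit 1) (nat_lit 80) (nat_lit 1) (nat_lit 395) (nat_lit 361) (nat_lit 264)))) (XT.nd (nat_lit 45396) (nat_lit 0) (nat_lit 22724) (XT.nd (nat_lit 45318) (nat_lit 0) (nat_lit 22648) (XT.lf (nat_lit 76) (nat_lit 1508687851) (nat_lit 0) (nat_lit 198174807) (nat_lit 152) (nat_lit 121246423) (nat_lit 77) (nat_lit 1) (nat_lit 76) (nat_lit 1) (nat_lit 78) (nat_lit 1) (nat_lit 396)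 (nat_lit 361) (nat_lit 263)) (XT.lf (nat_lit 1292) (nat_lit 1091011320) (nat_lit 0) (nat_lit 3753586337) (nat_lit 1292) (nat_lit 1091011320) (nat_lit 391) (nat_lit 1) (nat_lit 374) (nat_lit 0) (nat_lit 391) (nat_lit 0) (nat_lit 296) (nat_lit 362) (nat_lit 362))) (XT.nd (nat_lit 78) (nat_lit 0) (nat_lit 0) (XT.lf (nat_lit 1292) (nat_lit 87468290) (nat_lit 0) (nat_lit 7401282950) (nat_lit 1216) (nat_lit 4097633096) (nat_lit 392) (nat_lit 1) (nat_lit 375) (nat_lit 1) (nat_lit 391) (nat_lit 1) (nat_lit 297) (nat_lit 362) (nat_lit 361)) (XT.lf (nat_lit 1292) (nat_lit 3848228688) (nat_lit 76) (nat_lit 5443178662) (nat_lit 0) (nat_lit 2018858814) (nat_lit 392) (nat_lit 1) (nat_lit 376) (nat_lit 1) (nat_lit 375) (nat_lit 1) (nat_lit 298) (nat_lit 362) (nat_lit 360))))) (XT.nd (nat_lit 234) (nat_lit 988) (nat_lit 0) (XT.nd (nat_lit 78) (nat_lit 0) (nat_lit 76) (XT.lf (nat_lit 1292) (nat_lit 3382919329)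 (nat_lit 76) (nat_lit 3562949931) (nat_lit 0) (nat_lit 4097219113) (nat_lit 393) (nat_lit 1) (nat_lit 377) (nat_lit 1) (nat_lit 376) (nat_lit 1) (nat_lit 299) (nat_lit 362) (nat_lit 359)) (XT.nd (nat_lit 78) (nat_lit 0) (nat_lit 76) (XT.lf (nat_lit 1292) (nat_lit 2799593534) (nat_lit 76) (nat_lit 1840449747) (nat_lit 0) (nat_lit 6144507314) (nat_lit 394) (nat_lit 1) (nat_lit 378) (nat_lit 1) (nat_lit 377) (nat_lit 1) (nat_lit 300) (nat_lit 362) (nat_lit 358)) (XT.lf (nat_lit 1292) (nat_lit 2107246991) (nat_lit 76) (nat_lit 267574171) (nat_lit 0) (nat_lit 8159518565) (nat_lit 395) (nat_lit 1) (nat_lit 379) (nat_lit 1) (nat_lit 378) (nat_lit 1) (nat_lit 301) (nat_lit 362) (nat_lit 357)))) (XT.nd (nat_lit 156) (nat_lit 1216) (nat_lit 0) (XT.nd (nat_lit 78) (nat_lit 0) (nat_lit 0) (XT.lf (nat_lit 1292) (nat_lit 162141418) (nat_lit 0) (nat_lit 8988976297) (nat_lit 1216) (nat_lit 1140701889) (nat_lit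 396) (nat_lit 1) (nat_lit 379) (nat_lit 1) (nat_lit 395) (nat_lit 1) (nat_lit 302) (nat_lit 362) (nat_lit 356)) (XT.lf (nat_lit 1292) (nat_lit 384310434) (nat_lit 76) (nat_lit 7624876809) (nat_lit 0) (nat_lit 2047220987) (nat_lit 396) (nat_lit 1) (nat_lit 380) (nat_lit 1) (nat_lit 379) (nat_lit 1) (nat_lit 303) (nat_lit 362) (nat_lit 355))) (XT.nd (nat_lit 78) (nat_lit 0) (nat_lit 76) (XT.lf (nat_lit 1368) (nat_lit 5616692646) (nat_lit 0) (nat_lit 607105733) (nat_lit 1292) (nat_lit 3604481276) (nat_lit 381) (nat_lit 1) (nat_lit 363) (nat_lit 1) (nat_lit 380) (nat_lit 1) (nat_lit 304) (nat_lit 362) (nat_lit 354)) (XT.lf (nat_lit 1368) (nat_lit 3278433054) (nat_lit 0) (nat_lit 1665826615) (nat_lit 1292) (nat_lit 4662999411) (nat_lit 382) (nat_lit 1) (nat_lit 364) (nat_lit 1) (nat_lit 381) (nat_lit 1) (nat_lit 305) (nat_lit 362) (nat_lit 353))))))))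
noncomputable def ec45 : XT := (XT.nd (nat_lit 2184) (nat_lit 5852) (nat_lit 0) (XT.nd (nat_lit 1092) (nat_lit 4940) (nat_lit 0) (XT.nd (nat_lit 546) (nat_lit 3496) (nat_lit 0) (XT.nd (nat_lit 234) (nat_lit 1824) (nat_lit 0) (XT.nd (nat_lit 78) (nat_lit 1444) (nat_lit 0) (XT.lf (nat_lit 76) (nat_lit 990759861) (nat_lit 0) (nat_lit 2792857196) (nat_lit 1292) (nat_lit 5609584489) (nat_lit 366) (nat_lit 1) (nat_lit 365) (nat_lit 1) (nat_lit 382) (nat_lit 1) (nat_lit 306) (nat_lit 362) (nat_lit 352)) (XT.nd (nat_lit 78) (nat_lit 608) (nat_lit 0) (XT.lf (nat_lit 912) (nat_lit 5191189183) (nat_lit 0) (nat_lit 2723133780) (nat_lit 836) (nat_lit 1271171690) (nat_lit 366) (nat_lit 1) (nat_lit 354) (nat_lit 1) (nat_lit 365) (nat_lit 1) (nat_lit 307) (nat_lit 362) (nat_lit 351)) (XT.lf (nat_lit 684) (nat_lit 3722569485) (nat_lit 0) (nat_lit 1760033599) (nat_lit 608) (nat_lit 3501389058) (nat_lit 355) (nat_lit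 1) (nat_lit 346) (nat_lit 1) (nat_lit 354) (nat_lit 1) (nat_lit 308) (nat_lit 362) (nat_lit 350)))) (XT.nd (nat_lit 156) (nat_lit 684) (nat_lit 0) (XT.nd (nat_lit 78) (nat_lit 532) (nat_lit 0) (XT.lf (nat_lit 684) (nat_lit 2209665689) (nat_lit 0) (nat_lit 898724180) (nat_lit 608) (nat_lit 5680368371) (nat_lit 347) (nat_lit 1) (nat_lit 338) (nat_lit 1) (nat_lit 346) (nat_lit 1) (nat_lit 309) (nat_lit 362) (nat_lit 349)) (XT.lf (nat_lit 608) (nat_lit 657336090) (nat_lit 0) (nat_lit 133866976) (nat_lit 532) (nat_lit 7808371460) (nat_lit 339) (nat_lit 1) (nat_lit 331) (nat_lit 1) (nat_lit 338) (nat_lit 1) (nat_lit 310) (nat_lit 362) (nat_lit 348))) (XT.nd (nat_lit 78) (nat_lit 608) (nat_lit 0) (XT.lf (nat_lit 76) (nat_lit 6931330143) (nat_lit 0) (nat_lit 931453173) (nat_lit 608) (nat_lit 552587399) (nat_lit 331) (nat_lit 1) (nat_lit 330) (nat_lit 1) (nat_lit 338) (nat_lit 1) (nat_lit 311) (nat_lit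 362) (nat_lit 347)) (XT.lf (nat_lit 76) (nat_lit 4525720437) (nat_lit 0) (nat_lit 2545148247) (nat_lit 684) (nat_lit 1165505933) (nat_lit 323) (nat_lit 1) (nat_lit 322) (nat_lit 1) (nat_lit 331) (nat_lit 1) (nat_lit 312) (nat_lit 362) (nat_lit 346))))) (XT.nd (nat_lit 234) (nat_lit 1976) (nat_lit 0) (XT.nd (nat_lit 78) (nat_lit 988) (nat_lit 0) (XT.lf (nat_lit 76) (nat_lit 2181418146) (nat_lit 0) (nat_lit 4183579982) (nat_lit 608) (nat_lit 1697856640) (nat_lit 316) (nat_lit 1) (nat_lit 315) (nat_lit 1) (nat_lit 323) (nat_lit 1) (nat_lit 313) (nat_lit 362) (nat_lit 345)) (XT.nd (nat_lit 78) (nat_lit 456) (nat_lit 0) (XT.lf (nat_lit 608) (nat_lit 2050468868) (nat_lit 0) (nat_lit 5739649694) (nat_lit 532) (nat_lit 104475192) (nat_lit 316) (nat_lit 1) (nat_lit 308) (nat_lit 1) (nat_lit 315) (nat_lit 1) (nat_lit 314) (nat_lit 362) (nat_lit 344)) (XT.lf (nat_lit 532) (nat_lit 187629554) (nat_lit 0) (nat_lit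 5170149307) (nat_lit 456) (nat_lit 2373038561) (nat_lit 309) (nat_lit 1) (nat_lit 302) (nat_lit 1) (nat_lit 308) (nat_lit 1) (nat_lit 315) (nat_lit 362) (nat_lit 343)))) (XT.nd (nat_lit 156) (nat_lit 912) (nat_lit 0) (XT.nd (nat_lit 78) (nat_lit 456) (nat_lit 0) (XT.lf (nat_lit 76) (nat_lit 3006394161) (nat_lit 0) (nat_lit 1651360736) (nat_lit 608) (nat_lit 2913753073) (nat_lit 295) (nat_lit 1) (nat_lit 294) (nat_lit 1) (nat_lit 302) (nat_lit 1) (nat_lit 316) (nat_lit 362) (nat_lit 342)) (XT.lf (nat_lit 76) (nat_lit 720516850) (nat_lit 0) (nat_lit 3492798589) (nat_lit 532) (nat_lit 3203612546) (nat_lit 289) (nat_lit 1) (nat_lit 288) (nat_lit 1) (nat_lit 295) (nat_lit 1) (nat_lit 317) (nat_lit 362) (nat_lit 341))) (XT.nd (nat_lit 78) (nat_lit 456) (nat_lit 0) (XT.lf (nat_lit 532) (nat_lit 1913993775) (nat_lit 0) (nat_lit 3819810848) (nat_lit 456) (nat_lit 1532724727) (nat_lit 289) (nat_lit 1) (nat_lit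 282) (nat_lit 1) (nat_lit 288) (nat_lit 1) (nat_lit 318) (nat_lit 362) (nat_lit 340)) (XT.lf (nat_lit 76) (nat_lit 3383655452) (nat_lit 0) (nat_lit 97586763) (nat_lit 456) (nat_lit 3639135004) (nat_lit 277) (nat_lit 1) (nat_lit 276) (nat_lit 1) (nat_lit 282) (nat_lit 1) (nat_lit 319) (nat_lit 362) (nat_lit 339)))))) (XT.nd (nat_lit 546) (nat_lit 2128) (nat_lit 0) (XT.nd (nat_lit 234) (nat_lit 1596) (nat_lit 0) (XT.nd (nat_lit 78) (nat_lit 760) (nat_lit 0) (XT.lf (nat_lit 76) (nat_lit 1117588026) (nat_lit 0) (nat_lit 2066008035) (nat_lit 532) (nat_lit 3794416960) (nat_lit 271) (nat_lit 1) (nat_lit 270) (nat_lit 1) (nat_lit 277) (nat_lit 1) (nat_lit 320) (nat_lit 362) (nat_lit 338)) (XT.nd (nat_lit 78) (nat_lit 380) (nat_lit 0) (XT.lf (nat_lit 456) (nat_lit 2802126517) (nat_lit 0) (nat_lit 2931665263) (nat_lit 380) (nat_lit 1105735129) (nat_lit 271) (nat_lit 1) (nat_lit 265) (nat_lit 1) (nat_lit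 270) (nat_lit 1) (nat_lit 321) (nat_lit 362) (nat_lit 337)) (XT.lf (nat_lit 456) (nat_lit 695021737) (nat_lit 0) (nat_lit 2722684715) (nat_lit 380) (nat_lit 3287083386) (nat_lit 266) (nat_lit 1) (nat_lit 260) (nat_lit 1) (nat_lit 265) (nat_lit 1) (nat_lit 322) (nat_lit 362) (nat_lit 336)))) (XT.nd (nat_lit 156) (nat_lit 760) (nat_lit 0) (XT.nd (nat_lit 78) (nat_lit 380) (nat_lit 0) (XT.lf (nat_lit 76) (nat_lit 1181830381) (nat_lit 0) (nat_lit 1369344698) (nat_lit 456) (nat_lit 4022419555) (nat_lit 255) (nat_lit 1) (nat_lit 254) (nat_lit 1) (nat_lit 260) (nat_lit 1) (nat_lit 323) (nat_lit 362) (nat_lit 335)) (XT.lf (nat_lit 456) (nat_lit 3032416614) (nat_lit 0) (nat_lit 2411526923) (nat_lit 380) (nat_lit 1001787702) (nat_lit 255) (nat_lit 1) (nat_lit 249) (nat_lit 1) (nat_lit 254) (nat_lit 1) (nat_lit 324) (nat_lit 362) (nat_lit 334))) (XT.nd (nat_lit 78) (nat_lit 456) (nat_lit 0) (XT.lf (nat_lit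 380) (nat_lit 870622445) (nat_lit 0) (nat_lit 2306585153) (nat_lit 304) (nat_lit 3144029131) (nat_lit 250) (nat_lit 1) (nat_lit 245) (nat_lit 1) (nat_lit 249) (nat_lit 1) (nat_lit 325) (nat_lit 362) (nat_lit 333)) (XT.lf (nat_lit 76) (nat_lit 989650133) (nat_lit 0) (nat_lit 1243519443) (nat_lit 456) (nat_lit 3966803985) (nat_lit 240) (nat_lit 1) (nat_lit 239) (nat_lit 1) (nat_lit 245) (nat_lit 1) (nat_lit 326) (nat_lit 362) (nat_lit 332))))) (XT.nd (nat_lit 234) (nat_lit 1140) (nat_lit 0) (XT.nd (nat_lit 78) (nat_lit 684) (nat_lit 0) (XT.lf (nat_lit 380) (nat_lit 2753198653) (nat_lit 0) (nat_lit 2181657104) (nat_lit 304) (nat_lit 1146761634) (nat_lit 240) (nat_lit 1) (nat_lit 235) (nat_lit 1) (nat_lit 239) (nat_lit 1) (nat_lit 327) (nat_lit 362) (nat_lit 331)) (XT.nd (nat_lit 78) (nat_lit 380) (nat_lit 0) (XT.lf (nat_lit 380) (nat_lit 567980012) (nat_lit 0) (nat_lit 2160347483) (nat_lit 304) (nat_lit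 3238039248) (nat_lit 236) (nat_lit 1) (nat_lit 231) (nat_lit 1) (nat_lit 235) (nat_lit 1) (nat_lit 328) (nat_lit 362) (nat_lit 330)) (XT.lf (nat_lit 76) (nat_lit 603593784) (nat_lit 0) (nat_lit 1557677819) (nat_lit 380) (nat_lit 3692675504) (nat_lit 227) (nat_lit 1) (nat_lit 226) (nat_lit 1) (nat_lit 231) (nat_lit 1) (nat_lit 329) (nat_lit 362) (nat_lit 329)))) (XT.nd (nat_lit 156) (nat_lit 532) (nat_lit 0) (XT.nd (nat_lit 78) (nat_lit 304) (nat_lit 0) (XT.lf (nat_lit 380) (nat_lit 2086103059) (nat_lit 0) (nat_lit 2178037212) (nat_lit 304) (nat_lit 1479990441) (nat_lit 227) (nat_lit 1) (nat_lit 222) (nat_lit 1) (nat_lit 226) (nat_lit 1) (nat_lit 330) (nat_lit 362) (nat_lit 328)) (XT.lf (nat_lit 76) (nat_lit 2126772680) (nat_lit 0) (nat_lit 95690939) (nat_lit 304) (nat_lit 3414757394) (nat_lit 219) (nat_lit 1) (nat_lit 218) (nat_lit 1) (nat_lit 222) (nat_lit 1) (nat_lit 331) (nat_lit 362) (nat_lit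 327))) (XT.nd (nat_lit 78) (nat_lit 228) (nat_lit 0) (XT.lf (nat_lit 76) (nat_lit 74679730) (nat_lit 0) (nat_lit 2204646377) (nat_lit 380) (nat_lit 3253408447) (nat_lit 215) (nat_lit 1) (nat_lit 214) (nat_lit 1) (nat_lit 219) (nat_lit 1) (nat_lit 332) (nat_lit 362) (nat_lit 326)) (XT.lf (nat_lit 304) (nat_lit 1130532586) (nat_lit 0) (nat_lit 2348086052) (nat_lit 228) (nat_lit 1951997748) (nat_lit 215) (nat_lit 1) (nat_lit 211) (nat_lit 1) (nat_lit 214) (nat_lit 1) (nat_lit 333) (nat_lit 362) (nat_lit 325))))))) (XT.nd (nat_lit 1092) (nat_lit 2356) (nat_lit 0) (XT.nd (nat_lit 546) (nat_lit 1596) (nat_lit 0) (XT.nd (nat_lit 234) (nat_lit 988) (nat_lit 0) (XT.nd (nat_lit 78) (nat_lit 532) (nat_lit 0) (XT.lf (nat_lit 76) (nat_lit 1424148389) (nat_lit 0) (nat_lit 1011792341) (nat_lit 380) (nat_lit 2895096901) (nat_lit 207) (nat_lit 1) (nat_lit 206) (nat_lit 1) (nat_lit 211) (nat_lit 1) (nat_lit 334)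 (nat_lit 362) (nat_lit 324)) (XT.nd (nat_lit 78) (nat_lit 304) (nat_lit 0) (XT.lf (nat_lit 304) (nat_lit 2131347654) (nat_lit 0) (nat_lit 2535692605) (nat_lit 228) (nat_lit 566710616) (nat_lit 207) (nat_lit 1) (nat_lit 203) (nat_lit 1) (nat_lit 206) (nat_lit 1) (nat_lit 335) (nat_lit 362) (nat_lit 323)) (XT.lf (nat_lit 76) (nat_lit 2616469355) (nat_lit 0) (nat_lit 31957214) (nat_lit 304) (nat_lit 2490324092) (nat_lit 200) (nat_lit 1) (nat_lit 199) (nat_lit 1) (nat_lit 203) (nat_lit 1) (nat_lit 336) (nat_lit 362) (nat_lit 322)))) (XT.nd (nat_lit 156) (nat_lit 532) (nat_lit 0) (XT.nd (nat_lit 78) (nat_lit 228) (nat_lit 0) (XT.lf (nat_lit 76) (nat_lit 650236404) (nat_lit 0) (nat_lit 2116298940) (nat_lit 304) (nat_lit 2279243721) (nat_lit 197) (nat_lit 1) (nat_lit 196) (nat_lit 1) (nat_lit 200) (nat_lit 1) (nat_lit 337) (nat_lit 362) (nat_lit 321)) (XT.lf (nat_lit 304) (nat_lit 779194888) (nat_lit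 0) (nat_lit 2896941634) (nat_lit 228) (nat_lit 1278865538) (nat_lit 197) (nat_lit 1) (nat_lit 193) (nat_lit 1) (nat_lit 196) (nat_lit 1) (nat_lit 338) (nat_lit 362) (nat_lit 320))) (XT.nd (nat_lit 78) (nat_lit 228) (nat_lit 0) (XT.lf (nat_lit 76) (nat_lit 1720052609) (nat_lit 0) (nat_lit 1311603506) (nat_lit 304) (nat_lit 1834495857) (nat_lit 190) (nat_lit 1) (nat_lit 189) (nat_lit 1) (nat_lit 193) (nat_lit 1) (nat_lit 339) (nat_lit 362) (nat_lit 319)) (XT.lf (nat_lit 304) (nat_lit 1429425882) (nat_lit 0) (nat_lit 3180081144) (nat_lit 228) (nat_lit 169961313) (nat_lit 190) (nat_lit 1) (nat_lit 186) (nat_lit 1) (nat_lit 189) (nat_lit 1) (nat_lit 340) (nat_lit 362) (nat_lit 318))))) (XT.nd (nat_lit 234) (nat_lit 912) (nat_lit 0) (XT.nd (nat_lit 78) (nat_lit 456) (nat_lit 0) (XT.lf (nat_lit 76) (nat_lit 2668261697) (nat_lit 0) (nat_lit 658596175) (nat_lit 228) (nat_lit 1367612286) (nat_lit 184) (nat_lit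 1) (nat_lit 183) (nat_lit 1) (nat_lit 186) (nat_lit 1) (nat_lit 341) (nat_lit 362) (nat_lit 317)) (XT.nd (nat_lit 78) (nat_lit 228) (nat_lit 0) (XT.lf (nat_lit 76) (nat_lit 802290425) (nat_lit 0) (nat_lit 2678665580) (nat_lit 304) (nat_lit 1130429661) (nat_lit 181) (nat_lit 1) (nat_lit 180) (nat_lit 1) (nat_lit 184) (nat_lit 1) (nat_lit 342) (nat_lit 362) (nat_lit 316)) (XT.lf (nat_lit 76) (nat_lit 3507712180) (nat_lit 0) (nat_lit 136055326) (nat_lit 228) (nat_lit 886455507) (nat_lit 178) (nat_lit 1) (nat_lit 177) (nat_lit 1) (nat_lit 180) (nat_lit 1) (nat_lit 343) (nat_lit 362) (nat_lit 315)))) (XT.nd (nat_lit 156) (nat_lit 532) (nat_lit 0) (XT.nd (nat_lit 78) (nat_lit 152) (nat_lit 0) (XT.lf (nat_lit 76) (nat_lit 1665224877) (nat_lit 0) (nat_lit 2134067110) (nat_lit 304) (nat_lit 651192410) (nat_lit 175) (nat_lit 1) (nat_lit 174) (nat_lit 1) (nat_lit 178) (nat_lit 1) (nat_lit 344) (nat_lit 362)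 (nat_lit 314)) (XT.lf (nat_lit 228) (nat_lit 280024399) (nat_lit 0) (nat_lit 3972490899) (nat_lit 152) (nat_lit 120350387) (nat_lit 175) (nat_lit 1) (nat_lit 172) (nat_lit 1) (nat_lit 174) (nat_lit 1) (nat_lit 345) (nat_lit 362) (nat_lit 313))) (XT.nd (nat_lit 78) (nat_lit 304) (nat_lit 0) (XT.lf (nat_lit 76) (nat_lit 2433123762) (nat_lit 0) (nat_lit 1696948118) (nat_lit 228) (nat_lit 166294741) (nat_lit 170) (nat_lit 1) (nat_lit 169) (nat_lit 1) (nat_lit 172) (nat_lit 1) (nat_lit 346) (nat_lit 362) (nat_lit 312)) (XT.lf (nat_lit 228) (nat_lit 593536452) (nat_lit 0) (nat_lit 82305878) (nat_lit 152) (nat_lit 3545979811) (nat_lit 168) (nat_lit 1) (nat_lit 165) (nat_lit 1) (nat_lit 167) (nat_lit 1) (nat_lit 347) (nat_lit 362) (nat_lit 311)))))) (XT.nd (nat_lit 546) (nat_lit 1064) (nat_lit 0) (XT.nd (nat_lit 234) (nat_lit 684) (nat_lit 0) (XT.nd (nat_lit 78) (nat_lit 380) (nat_lit 0) (XT.lf (nat_lit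 228) (nat_lit 2793518766) (nat_lit 0) (nat_lit 325354223) (nat_lit 152) (nat_lit 1029658232) (nat_lit 165) (nat_lit 1) (nat_lit 162) (nat_lit 1) (nat_lit 164) (nat_lit 1) (nat_lit 348) (nat_lit 362) (nat_lit 310)) (XT.nd (nat_lit 78) (nat_lit 228) (nat_lit 0) (XT.lf (nat_lit 228) (nat_lit 819436499) (nat_lit 0) (nat_lit 570683198) (nat_lit 152) (nat_lit 2686717887) (nat_lit 163) (nat_lit 1) (nat_lit 160) (nat_lit 1) (nat_lit 162) (nat_lit 1) (nat_lit 349) (nat_lit 362) (nat_lit 309)) (XT.lf (nat_lit 228) (nat_lit 2913384146) (nat_lit 0) (nat_lit 816242866) (nat_lit 152) (nat_lit 277025353) (nat_lit 160) (nat_lit 1) (nat_lit 157) (nat_lit 1) (nat_lit 159) (nat_lit 1) (nat_lit 350) (nat_lit 362) (nat_lit 308)))) (XT.nd (nat_lit 156) (nat_lit 304) (nat_lit 0) (XT.nd (nat_lit 78) (nat_lit 228) (nat_lit 0) (XT.lf (nat_lit 228) (nat_lit 975455154) (nat_lit 0) (nat_lit 1053780627) (nat_lit 152) (nat_lit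 1908470812) (nat_lit 158) (nat_lit 1) (nat_lit 155) (nat_lit 1) (nat_lit 157) (nat_lit 1) (nat_lit 351) (nat_lit 362) (nat_lit 307)) (XT.lf (nat_lit 76) (nat_lit 393200397) (nat_lit 0) (nat_lit 902176101) (nat_lit 228) (nat_lit 2574947554) (nat_lit 153) (nat_lit 1) (nat_lit 152) (nat_lit 1) (nat_lit 155) (nat_lit 1) (nat_lit 352) (nat_lit 362) (nat_lit 306))) (XT.nd (nat_lit 78) (nat_lit 152) (nat_lit 0) (XT.lf (nat_lit 228) (nat_lit 1072478335) (nat_lit 0) (nat_lit 1528135688) (nat_lit 152) (nat_lit 1203487620) (nat_lit 153) (nat_lit 1) (nat_lit 150) (nat_lit 1) (nat_lit 152) (nat_lit 1) (nat_lit 353) (nat_lit 362) (nat_lit 305)) (XT.lf (nat_lit 76) (nat_lit 991944708) (nat_lit 0) (nat_lit 769654675) (nat_lit 152) (nat_lit 1977690882) (nat_lit 149) (nat_lit 1) (nat_lit 148) (nat_lit 1) (nat_lit 150) (nat_lit 1) (nat_lit 354) (nat_lit 362) (nat_lit 304))))) (XT.nd (nat_lit 234) (nat_lit 608) (nat_lit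 0) (XT.nd (nat_lit 78) (nat_lit 304) (nat_lit 0) (XT.lf (nat_lit 228) (nat_lit 1119969450) (nat_lit 0) (nat_lit 1990914655) (nat_lit 152) (nat_lit 564837977) (nat_lit 149) (nat_lit 1) (nat_lit 146) (nat_lit 1) (nat_lit 148) (nat_lit 1) (nat_lit 355) (nat_lit 362) (nat_lit 303)) (XT.nd (nat_lit 78) (nat_lit 152) (nat_lit 0) (XT.lf (nat_lit 76) (nat_lit 1530918059) (nat_lit 0) (nat_lit 684196387) (nat_lit 152) (nat_lit 1398228504) (nat_lit 145) (nat_lit 1) (nat_lit 144) (nat_lit 1) (nat_lit 146) (nat_lit 1) (nat_lit 356) (nat_lit 362) (nat_lit 302)) (XT.lf (nat_lit 76) (nat_lit 13413938) (nat_lit 0) (nat_lit 2426278183) (nat_lit 228) (nat_lit 1112595257) (nat_lit 143) (nat_lit 1) (nat_lit 142) (nat_lit 1) (nat_lit 145) (nat_lit 1) (nat_lit 357) (nat_lit 362) (nat_lit 301)))) (XT.nd (nat_lit 156) (nat_lit 304) (nat_lit 0) (XT.nd (nat_lit 78) (nat_lit 152) (nat_lit 0) (XT.lf (nat_lit 76) (nat_lit 2015763746)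 (nat_lit 0) (nat_lit 638120923) (nat_lit 152) (nat_lit 838332216) (nat_lit 141) (nat_lit 1) (nat_lit 140) (nat_lit 1) (nat_lit 142) (nat_lit 1) (nat_lit 358) (nat_lit 362) (nat_lit 300)) (XT.lf (nat_lit 76) (nat_lit 527135411) (nat_lit 0) (nat_lit 2340595439) (nat_lit 228) (nat_lit 565668482) (nat_lit 139) (nat_lit 1) (nat_lit 138) (nat_lit 1) (nat_lit 141) (nat_lit 1) (nat_lit 359) (nat_lit 362) (nat_lit 299))) (XT.nd (nat_lit 78) (nat_lit 152) (nat_lit 0) (XT.lf (nat_lit 76) (nat_lit 2451538246) (nat_lit 0) (nat_lit 624768407) (nat_lit 152) (nat_lit 299360594) (nat_lit 137) (nat_lit 1) (nat_lit 136) (nat_lit 1) (nat_lit 138) (nat_lit 1) (nat_lit 360) (nat_lit 362) (nat_lit 298)) (XT.lf (nat_lit 76) (nat_lit 992235822) (nat_lit 0) (nat_lit 2286921831) (nat_lit 228) (nat_lit 39826141) (nat_lit 135) (nat_lit 1) (nat_lit 134) (nat_lit 1) (nat_lit 137) (nat_lit 1) (nat_lit 361) (nat_lit 362) (nat_lit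 297))))))))
noncomputable def ec46 : XT := (XT.nd (nat_lit 2184) (nat_lit 912) (nat_lit 0) (XT.nd (nat_lit 1092) (nat_lit 1748) (nat_lit 0) (XT.nd (nat_lit 546) (nat_lit 836) (nat_lit 0) (XT.nd (nat_lit 234) (nat_lit 608) (nat_lit 0) (XT.nd (nat_lit 78) (nat_lit 304) (nat_lit 0) (XT.lf (nat_lit 228) (nat_lit 2622896471) (nat_lit 0) (nat_lit 222014775) (nat_lit 152) (nat_lit 418492285) (nat_lit 133) (nat_lit 1) (nat_lit 130) (nat_lit 1) (nat_lit 132) (nat_lit 1) (nat_lit 362) (nat_lit 362) (nat_lit 296)) (XT.nd (nat_lit 78) (nat_lit 228) (nat_lit 0) (XT.lf (nat_lit 152) (nat_lit 944379963) (nat_lit 0) (nat_lit 473273194) (nat_lit 76) (nat_lit 1791031684) (nat_lit 131) (nat_lit 1) (nat_lit 129) (nat_lit 1) (nat_lit 130) (nat_lit 1) (nat_lit 363) (nat_lit 362) (nat_lit 295)) (XT.lf (nat_lit 76) (nat_lit 44451408) (nat_lit 0) (nat_lit 681368447) (nat_lit 228) (nat_lit 2429365472) (nat_lit 127) (nat_lit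 1) (nat_lit 126) (nat_lit 1) (nat_lit 129) (nat_lit 1) (nat_lit 364) (nat_lit 362) (nat_lit 294)))) (XT.nd (nat_lit 156) (nat_lit 304) (nat_lit 0) (XT.nd (nat_lit 78) (nat_lit 228) (nat_lit 0) (XT.lf (nat_lit 152) (nat_lit 838822682) (nat_lit 0) (nat_lit 964129726) (nat_lit 76) (nat_lit 1299477890) (nat_lit 127) (nat_lit 1) (nat_lit 125) (nat_lit 1) (nat_lit 126) (nat_lit 1) (nat_lit 365) (nat_lit 362) (nat_lit 293)) (XT.lf (nat_lit 76) (nat_lit 459049293) (nat_lit 0) (nat_lit 743308319) (nat_lit 228) (nat_lit 1848452336) (nat_lit 123) (nat_lit 1) (nat_lit 122) (nat_lit 1) (nat_lit 125) (nat_lit 1) (nat_lit 366) (nat_lit 362) (nat_lit 292))) (XT.nd (nat_lit 78) (nat_lit 228) (nat_lit 0) (XT.lf (nat_lit 152) (nat_lit 719711052) (nat_lit 0) (nat_lit 1431579708) (nat_lit 76) (nat_lit 848751944) (nat_lit 123) (nat_lit 1) (nat_lit 121) (nat_lit 1) (nat_lit 122) (nat_lit 1) (nat_lit 367) (nat_lit 362)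 (nat_lit 291)) (XT.lf (nat_lit 76) (nat_lit 836874920) (nat_lit 0) (nat_lit 818636180) (nat_lit 228) (nat_lit 1294704426) (nat_lit 119) (nat_lit 1) (nat_lit 118) (nat_lit 1) (nat_lit 121) (nat_lit 1) (nat_lit 368) (nat_lit 362) (nat_lit 290))))) (XT.nd (nat_lit 234) (nat_lit 532) (nat_lit 0) (XT.nd (nat_lit 78) (nat_lit 228) (nat_lit 0) (XT.lf (nat_lit 152) (nat_lit 590404210) (nat_lit 0) (nat_lit 1875462898) (nat_lit 76) (nat_lit 435478652) (nat_lit 119) (nat_lit 1) (nat_lit 117) (nat_lit 1) (nat_lit 118) (nat_lit 1) (nat_lit 369) (nat_lit 362) (nat_lit 289)) (XT.nd (nat_lit 78) (nat_lit 76) (nat_lit 0) (XT.lf (nat_lit 76) (nat_lit 1181006158) (nat_lit 0) (nat_lit 904206663) (nat_lit 152) (nat_lit 768018910) (nat_lit 116) (nat_lit 1) (nat_lit 115) (nat_lit 1) (nat_lit 117) (nat_lit 1) (nat_lit 370) (nat_lit 362) (nat_lit 288)) (XT.lf (nat_lit 152) (nat_lit 453772601) (nat_lit 0) (nat_lit 2295797054)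 (nat_lit 76) (nat_lit 56605171) (nat_lit 116) (nat_lit 1) (nat_lit 114) (nat_lit 1) (nat_lit 115) (nat_lit 1) (nat_lit 371) (nat_lit 362) (nat_lit 287)))) (XT.nd (nat_lit 156) (nat_lit 304) (nat_lit 0) (XT.nd (nat_lit 78) (nat_lit 76) (nat_lit 0) (XT.lf (nat_lit 76) (nat_lit 1494227170) (nat_lit 0) (nat_lit 997330511) (nat_lit 152) (nat_lit 268141636) (nat_lit 113) (nat_lit 1) (nat_lit 112) (nat_lit 1) (nat_lit 114) (nat_lit 1) (nat_lit 372) (nat_lit 362) (nat_lit 286)) (XT.lf (nat_lit 0) (nat_lit 284962420) (nat_lit 0) (nat_lit 2404909323) (nat_lit 152) (nat_lit 24420289) (nat_lit 111) (nat_lit 3) (nat_lit 111) (nat_lit 1) (nat_lit 113) (nat_lit 1) (nat_lit 373) (nat_lit 362) (nat_lit 285))) (XT.nd (nat_lit 78) (nat_lit 76) (nat_lit 0) (XT.lf (nat_lit 152) (nat_lit 1571679469) (nat_lit 0) (nat_lit 209393333) (nat_lit 76) (nat_lit 888335919) (nat_lit 110) (nat_lit 1) (nat_lit 108) (nat_lit 1) (nat_lit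 109) (nat_lit 1) (nat_lit 374) (nat_lit 362) (nat_lit 284)) (XT.lf (nat_lit 76) (nat_lit 157520166) (nat_lit 0) (nat_lit 443611703) (nat_lit 76) (nat_lit 2024369033) (nat_lit 108) (nat_lit 3) (nat_lit 107) (nat_lit 1) (nat_lit 108) (nat_lit 1) (nat_lit 375) (nat_lit 362) (nat_lit 283)))))) (XT.nd (nat_lit 546) (nat_lit 912) (nat_lit 0) (XT.nd (nat_lit 234) (nat_lit 456) (nat_lit 0) (XT.nd (nat_lit 78) (nat_lit 228) (nat_lit 0) (XT.lf (nat_lit 152) (nat_lit 1378388897) (nat_lit 0) (nat_lit 665803675) (nat_lit 76) (nat_lit 538016510) (nat_lit 107) (nat_lit 1) (nat_lit 105) (nat_lit 1) (nat_lit 106) (nat_lit 1) (nat_lit 376) (nat_lit 362) (nat_lit 282)) (XT.nd (nat_lit 78) (nat_lit 152) (nat_lit 0) (XT.lf (nat_lit 76) (nat_lit 4874867) (nat_lit 0) (nat_lit 886092040) (nat_lit 76) (nat_lit 1648842784) (nat_lit 105) (nat_lit 3) (nat_lit 104) (nat_lit 1) (nat_lit 105) (nat_lit 1) (nat_lit 377) (nat_lit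 362) (nat_lit 281)) (XT.lf (nat_lit 152) (nat_lit 1186709644) (nat_lit 0) (nat_lit 1096332013) (nat_lit 76) (nat_lit 215005791) (nat_lit 104) (nat_lit 1) (nat_lit 102) (nat_lit 1) (nat_lit 103) (nat_lit 1) (nat_lit 378) (nat_lit 362) (nat_lit 280)))) (XT.nd (nat_lit 156) (nat_lit 228) (nat_lit 0) (XT.nd (nat_lit 78) (nat_lit 76) (nat_lit 0) (XT.lf (nat_lit 76) (nat_lit 1157678470) (nat_lit 0) (nat_lit 144000143) (nat_lit 152) (nat_lit 1155376177) (nat_lit 101) (nat_lit 1) (nat_lit 100) (nat_lit 1) (nat_lit 102) (nat_lit 1) (nat_lit 379) (nat_lit 362) (nat_lit 279)) (XT.lf (nat_lit 0) (nat_lit 81103537) (nat_lit 0) (nat_lit 1419704063) (nat_lit 152) (nat_lit 915968171) (nat_lit 99) (nat_lit 3) (nat_lit 99) (nat_lit 1) (nat_lit 101) (nat_lit 1) (nat_lit 380) (nat_lit 362) (nat_lit 278))) (XT.nd (nat_lit 78) (nat_lit 76) (nat_lit 0) (XT.lf (nat_lit 76) (nat_lit 1401740159) (nat_lit 0) (nat_lit 290719542)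 (nat_lit 152) (nat_lit 684696972) (nat_lit 98) (nat_lit 1) (nat_lit 97) (nat_lit 1) (nat_lit 99) (nat_lit 1) (nat_lit 381) (nat_lit 362) (nat_lit 277)) (XT.lf (nat_lit 0) (nat_lit 350034428) (nat_lit 0) (nat_lit 1528820968) (nat_lit 152) (nat_lit 459390053) (nat_lit 96) (nat_lit 3) (nat_lit 96) (nat_lit 1) (nat_lit 98) (nat_lit 1) (nat_lit 382) (nat_lit 362) (nat_lit 276))))) (XT.nd (nat_lit 234) (nat_lit 456) (nat_lit 0) (XT.nd (nat_lit 78) (nat_lit 304) (nat_lit 0) (XT.lf (nat_lit 76) (nat_lit 1624792948) (nat_lit 0) (nat_lit 434411747) (nat_lit 152) (nat_lit 240797999) (nat_lit 95) (nat_lit 1) (nat_lit 94) (nat_lit 1) (nat_lit 96) (nat_lit 1) (nat_lit 383) (nat_lit 362) (nat_lit 275)) (XT.nd (nat_lit 78) (nat_lit 228) (nat_lit 0) (XT.lf (nat_lit 0) (nat_lit 597639665) (nat_lit 0) (nat_lit 1635692228) (nat_lit 152) (nat_lit 29075308) (nat_lit 93) (nat_lit 3) (nat_lit 93) (nat_lit 1) (nat_lit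 95) (nat_lit 1) (nat_lit 384) (nat_lit 362) (nat_lit 274)) (XT.lf (nat_lit 152) (nat_lit 1649406433) (nat_lit 0) (nat_lit 180712107) (nat_lit 76) (nat_lit 395314294) (nat_lit 92) (nat_lit 1) (nat_lit 90) (nat_lit 1) (nat_lit 91) (nat_lit 1) (nat_lit 385) (nat_lit 362) (nat_lit 273)))) (XT.nd (nat_lit 156) (nat_lit 228) (nat_lit 0) (XT.nd (nat_lit 78) (nat_lit 152) (nat_lit 0) (XT.lf (nat_lit 76) (nat_lit 445801517) (nat_lit 0) (nat_lit 383321448) (nat_lit 76) (nat_lit 1359922172) (nat_lit 90) (nat_lit 3) (nat_lit 89) (nat_lit 1) (nat_lit 90) (nat_lit 1) (nat_lit 386) (nat_lit 362) (nat_lit 272)) (XT.lf (nat_lit 152) (nat_lit 1438024304) (nat_lit 0) (nat_lit 581486569) (nat_lit 76) (nat_lit 133822627) (nat_lit 89) (nat_lit 1) (nat_lit 87) (nat_lit 1) (nat_lit 88) (nat_lit 1) (nat_lit 387) (nat_lit 362) (nat_lit 271))) (XT.nd (nat_lit 78) (nat_lit 152) (nat_lit 0) (XT.lf (nat_lit 76) (nat_lit 270944971)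 (nat_lit 0) (nat_lit 771293811) (nat_lit 76) (nat_lit 1075929808) (nat_lit 87) (nat_lit 3) (nat_lit 86) (nat_lit 1) (nat_lit 87) (nat_lit 1) (nat_lit 388) (nat_lit 362) (nat_lit 270)) (XT.lf (nat_lit 0) (nat_lit 106127114) (nat_lit 0) (nat_lit 850449663) (nat_lit 152) (nat_lit 1127070237) (nat_lit 84) (nat_lit 3) (nat_lit 84) (nat_lit 1) (nat_lit 86) (nat_lit 1) (nat_lit 389) (nat_lit 362) (nat_lit 269))))))) (XT.nd (nat_lit 46176) (nat_lit 0) (nat_lit 16872) (XT.nd (nat_lit 45630) (nat_lit 0) (nat_lit 22952) (XT.nd (nat_lit 234) (nat_lit 532) (nat_lit 0) (XT.nd (nat_lit 78) (nat_lit 304) (nat_lit 0) (XT.lf (nat_lit 76) (nat_lit 102819479) (nat_lit 0) (nat_lit 1135173465) (nat_lit 76) (nat_lit 811698097) (nat_lit 84) (nat_lit 3) (nat_lit 83) (nat_lit 1) (nat_lit 84) (nat_lit 1) (nat_lit 390) (nat_lit 362) (nat_lit 268)) (XT.nd (nat_lit 78) (nat_lit 152) (nat_lit 0) (XT.lf (nat_lit 0) (nat_lit 325685530)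 (nat_lit 0) (nat_lit 981144261) (nat_lit 152) (nat_lit 709448991) (nat_lit 81) (nat_lit 3) (nat_lit 81) (nat_lit 1) (nat_lit 83) (nat_lit 1) (nat_lit 391) (nat_lit 362) (nat_lit 267)) (XT.lf (nat_lit 76) (nat_lit 1418135292) (nat_lit 0) (nat_lit 57161565) (nat_lit 152) (nat_lit 508208433) (nat_lit 80) (nat_lit 1) (nat_lit 79) (nat_lit 1) (nat_lit 81) (nat_lit 1) (nat_lit 392) (nat_lit 362) (nat_lit 266)))) (XT.nd (nat_lit 156) (nat_lit 304) (nat_lit 0) (XT.nd (nat_lit 78) (nat_lit 152) (nat_lit 0) (XT.lf (nat_lit 0) (nat_lit 528637357) (nat_lit 0) (nat_lit 1105841621) (nat_lit 152) (nat_lit 316700103) (nat_lit 78) (nat_lit 3) (nat_lit 78) (nat_lit 1) (nat_lit 80) (nat_lit 1) (nat_lit 393) (nat_lit 362) (nat_lit 265)) (XT.lf (nat_lit 76) (nat_lit 1584122243) (nat_lit 0) (nat_lit 208083547) (nat_lit 152) (nat_lit 127308744) (nat_lit 77) (nat_lit 1) (nat_lit 76) (nat_lit 1) (nat_lit 78) (nat_lit 1)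 (nat_lit 394) (nat_lit 362) (nat_lit 264))) (XT.nd (nat_lit 78) (nat_lit 152) (nat_lit 0) (XT.lf (nat_lit 76) (nat_lit 663376773) (nat_lit 0) (nat_lit 53202398) (nat_lit 76) (nat_lit 1171669280) (nat_lit 75) (nat_lit 3) (nat_lit 74) (nat_lit 1) (nat_lit 75) (nat_lit 1) (nat_lit 395) (nat_lit 362) (nat_lit 263)) (XT.lf (nat_lit 152) (nat_lit 1503497306) (nat_lit 0) (nat_lit 234737874) (nat_lit 76) (nat_lit 119363591) (nat_lit 74) (nat_lit 1) (nat_lit 72) (nat_lit 1) (nat_lit 73) (nat_lit 1) (nat_lit 396) (nat_lit 362) (nat_lit 262))))) (XT.nd (nat_lit 234) (nat_lit 0) (nat_lit 152) (XT.nd (nat_lit 78) (nat_lit 0) (nat_lit 76) (XT.lf (nat_lit 1292) (nat_lit 1145561886) (nat_lit 0) (nat_lit 3941265654) (nat_lit 1292) (nat_lit 1145561886) (nat_lit 391) (nat_lit 1) (nat_lit 374) (nat_lit 0) (nat_lit 391) (nat_lit 0) (nat_lit 294) (nat_lit 363) (nat_lit 363)) (XT.nd (nat_lit 78) (nat_lit 0) (nat_lit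 0) (XT.lf (nat_lit 1292) (nat_lit 91841704) (nat_lit 0) (nat_lit 7771347097) (nat_lit 1216) (nat_lit 4302514751) (nat_lit 392) (nat_lit 1) (nat_lit 375) (nat_lit 1) (nat_lit 391) (nat_lit 1) (nat_lit 295) (nat_lit 363) (nat_lit 362)) (XT.lf (nat_lit 1292) (nat_lit 4040640122) (nat_lit 76) (nat_lit 5715337595) (nat_lit 0) (nat_lit 2119801755) (nat_lit 392) (nat_lit 1) (nat_lit 376) (nat_lit 1) (nat_lit 375) (nat_lit 1) (nat_lit 296) (nat_lit 363) (nat_lit 361)))) (XT.nd (nat_lit 156) (nat_lit 0) (nat_lit 152) (XT.nd (nat_lit 78) (nat_lit 0) (nat_lit 76) (XT.lf (nat_lit 1292) (nat_lit 3552065295) (nat_lit 76) (nat_lit 3741097427) (nat_lit 0) (nat_lit 4302080069) (nat_lit 393) (nat_lit 1) (nat_lit 377) (nat_lit 1) (nat_lit 376) (nat_lit 1) (nat_lit 297) (nat_lit 363) (nat_lit 360)) (XT.lf (nat_lit 1292) (nat_lit 2939573211) (nat_lit 76) (nat_lit 1932472234) (nat_lit 0) (nat_lit 6451732680) (nat_lit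 394) (nat_lit 1) (nat_lit 378) (nat_lit 1) (nat_lit 377) (nat_lit 1) (nat_lit 298) (nat_lit 363) (nat_lit 359))) (XT.nd (nat_lit 78) (nat_lit 0) (nat_lit 76) (XT.lf (nat_lit 1292) (nat_lit 2212609341) (nat_lit 76) (nat_lit 280952880) (nat_lit 0) (nat_lit 8567494494) (nat_lit 395) (nat_lit 1) (nat_lit 379) (nat_lit 1) (nat_lit 378) (nat_lit 1) (nat_lit 299) (nat_lit 363) (nat_lit 358)) (XT.lf (nat_lit 1292) (nat_lit 170248489) (nat_lit 0) (nat_lit 9438425112) (nat_lit 1216) (nat_lit 1197736984) (nat_lit 396) (nat_lit 1) (nat_lit 379) (nat_lit 1) (nat_lit 395) (nat_lit 1) (nat_lit 300) (nat_lit 363) (nat_lit 357)))))) (XT.nd (nat_lit 546) (nat_lit 3344) (nat_lit 0) (XT.nd (nat_lit 234) (nat_lit 1900) (nat_lit 0) (XT.nd (nat_lit 78) (nat_lit 1216) (nat_lit 0) (XT.lf (nat_lit 1292) (nat_lit 403525956) (nat_lit 76) (nat_lit 8006120649) (nat_lit 0) (nat_lit 2149582036) (nat_lit 396) (nat_lit 1) (nat_lit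 380) (nat_lit 1) (nat_lit 379) (nat_lit 1) (nat_lit 301) (nat_lit 363) (nat_lit 356)) (XT.nd (nat_lit 78) (nat_lit 0) (nat_lit 76) (XT.lf (nat_lit 1368) (nat_lit 5897527279) (nat_lit 0) (nat_lit 637461019) (nat_lit 1292) (nat_lit 3784705340) (nat_lit 381) (nat_lit 1) (nat_lit 363) (nat_lit 1) (nat_lit 380) (nat_lit 1) (nat_lit 302) (nat_lit 363) (nat_lit 355)) (XT.lf (nat_lit 1368) (nat_lit 3442354706) (nat_lit 0) (nat_lit 1749117946) (nat_lit 1292) (nat_lit 4896149382) (nat_lit 382) (nat_lit 1) (nat_lit 364) (nat_lit 1) (nat_lit 381) (nat_lit 1) (nat_lit 303) (nat_lit 363) (nat_lit 354)))) (XT.nd (nat_lit 156) (nat_lit 1216) (nat_lit 0) (XT.nd (nat_lit 78) (nat_lit 836) (nat_lit 0) (XT.lf (nat_lit 76) (nat_lit 1040297854) (nat_lit 0) (nat_lit 2932500056) (nat_lit 1292) (nat_lit 5890063713) (nat_lit 366) (nat_lit 1) (nat_lit 365) (nat_lit 1) (nat_lit 382) (nat_lit 1) (nat_lit 304) (nat_lit 363)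 (nat_lit 353)) (XT.lf (nat_lit 912) (nat_lit 5450748642) (nat_lit 0) (nat_lit 2859290469) (nat_lit 836) (nat_lit 1334730274) (nat_lit 366) (nat_lit 1) (nat_lit 354) (nat_lit 1) (nat_lit 365) (nat_lit 1) (nat_lit 305) (nat_lit 363) (nat_lit 352))) (XT.nd (nat_lit 78) (nat_lit 608) (nat_lit 0) (XT.lf (nat_lit 684) (nat_lit 3908697959) (nat_lit 0) (nat_lit 1848035279) (nat_lit 608) (nat_lit 3676458511) (nat_lit 355) (nat_lit 1) (nat_lit 346) (nat_lit 1) (nat_lit 354) (nat_lit 1) (nat_lit 306) (nat_lit 363) (nat_lit 351)) (XT.lf (nat_lit 684) (nat_lit 2320148973) (nat_lit 0) (nat_lit 943660389) (nat_lit 608) (nat_lit 5964386790) (nat_lit 347) (nat_lit 1) (nat_lit 338) (nat_lit 1) (nat_lit 346) (nat_lit 1) (nat_lit 307) (nat_lit 363) (nat_lit 350))))) (XT.nd (nat_lit 234) (nat_lit 2128) (nat_lit 0) (XT.nd (nat_lit 78) (nat_lit 684) (nat_lit 0) (XT.lf (nat_lit 608) (nat_lit 690202894) (nat_lit 0) (nat_lit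 140560325) (nat_lit 532) (nat_lit 8198790033) (nat_lit 339) (nat_lit 1) (nat_lit 331) (nat_lit 1) (nat_lit 338) (nat_lit 1) (nat_lit 308) (nat_lit 363) (nat_lit 349)) (XT.nd (nat_lit 78) (nat_lit 608) (nat_lit 0) (XT.lf (nat_lit 76) (nat_lit 7277896650) (nat_lit 0) (nat_lit 978025831) (nat_lit 608) (nat_lit 580216768) (nat_lit 331) (nat_lit 1) (nat_lit 330) (nat_lit 1) (nat_lit 338) (nat_lit 1) (nat_lit 309) (nat_lit 363) (nat_lit 348)) (XT.lf (nat_lit 76) (nat_lit 4752006459) (nat_lit 0) (nat_lit 2672405660) (nat_lit 684) (nat_lit 1223781230) (nat_lit 323) (nat_lit 1) (nat_lit 322) (nat_lit 1) (nat_lit 331) (nat_lit 1) (nat_lit 310) (nat_lit 363) (nat_lit 347)))) (XT.nd (nat_lit 156) (nat_lit 1064) (nat_lit 0) (XT.nd (nat_lit 78) (nat_lit 532) (nat_lit 0) (XT.lf (nat_lit 76) (nat_lit 2290489053) (nat_lit 0) (nat_lit 4392758981) (nat_lit 608) (nat_lit 1782749472) (nat_lit 316) (nat_lit 1) (nat_lit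 315) (nat_lit 1) (nat_lit 323) (nat_lit 1) (nat_lit 311) (nat_lit 363) (nat_lit 346)) (XT.lf (nat_lit 608) (nat_lit 2152992312) (nat_lit 0) (nat_lit 6026632179) (nat_lit 532) (nat_lit 109698952) (nat_lit 316) (nat_lit 1) (nat_lit 308) (nat_lit 1) (nat_lit 315) (nat_lit 1) (nat_lit 312) (nat_lit 363) (nat_lit 345))) (XT.nd (nat_lit 78) (nat_lit 608) (nat_lit 0) (XT.lf (nat_lit 532) (nat_lit 197011032) (nat_lit 0) (nat_lit 5428656772) (nat_lit 456) (nat_lit 2491690489) (nat_lit 309) (nat_lit 1) (nat_lit 302) (nat_lit 1) (nat_lit 308) (nat_lit 1) (nat_lit 313) (nat_lit 363) (nat_lit 344)) (XT.lf (nat_lit 76) (nat_lit 3156713869) (nat_lit 0) (nat_lit 1733928772) (nat_lit 608) (nat_lit 3059440726) (nat_lit 295) (nat_lit 1) (nat_lit 294) (nat_lit 1) (nat_lit 302) (nat_lit 1) (nat_lit 314) (nat_lit 363) (nat_lit 343))))))))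
noncomputable def ec47 : XT := (XT.nd (nat_lit 2184) (nat_lit 4712) (nat_lit 0) (XT.nd (nat_lit 1092) (nat_lit 3648) (nat_lit 0) (XT.nd (nat_lit 546) (nat_lit 2432) (nat_lit 0) (XT.nd (nat_lit 234) (nat_lit 1672) (nat_lit 0) (XT.nd (nat_lit 78) (nat_lit 912) (nat_lit 0) (XT.lf (nat_lit 76) (nat_lit 756542692) (nat_lit 0) (nat_lit 3667438518) (nat_lit 532) (nat_lit 3363793173) (nat_lit 289) (nat_lit 1) (nat_lit 288) (nat_lit 1) (nat_lit 295) (nat_lit 1) (nat_lit 315) (nat_lit 363) (nat_lit 342)) (XT.nd (nat_lit 78) (nat_lit 456) (nat_lit 0) (XT.lf (nat_lit 532) (nat_lit 2009693464) (nat_lit 0) (nat_lit 4010801391) (nat_lit 456) (nat_lit 1609360964) (nat_lit 289) (nat_lit 1) (nat_lit 282) (nat_lit 1) (nat_lit 288) (nat_lit 1) (nat_lit 316) (nat_lit 363) (nat_lit 341)) (XT.lf (nat_lit 76) (nat_lit 3552838224) (nat_lit 0) (nat_lit 102466101) (nat_lit 456) (nat_lit 3821091755) (nat_lit 277) (nat_lit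 1) (nat_lit 276) (nat_lit 1) (nat_lit 282) (nat_lit 1) (nat_lit 317) (nat_lit 363) (nat_lit 340)))) (XT.nd (nat_lit 156) (nat_lit 836) (nat_lit 0) (XT.nd (nat_lit 78) (nat_lit 380) (nat_lit 0) (XT.lf (nat_lit 76) (nat_lit 1173467428) (nat_lit 0) (nat_lit 2169308437) (nat_lit 532) (nat_lit 3984137808) (nat_lit 271) (nat_lit 1) (nat_lit 270) (nat_lit 1) (nat_lit 277) (nat_lit 1) (nat_lit 318) (nat_lit 363) (nat_lit 339)) (XT.lf (nat_lit 456) (nat_lit 2942232843) (nat_lit 0) (nat_lit 3078248527) (nat_lit 380) (nat_lit 1161021885) (nat_lit 271) (nat_lit 1) (nat_lit 265) (nat_lit 1) (nat_lit 270) (nat_lit 1) (nat_lit 319) (nat_lit 363) (nat_lit 338))) (XT.nd (nat_lit 78) (nat_lit 456) (nat_lit 0) (XT.lf (nat_lit 456) (nat_lit 729772824) (nat_lit 0) (nat_lit 2858818951) (nat_lit 380) (nat_lit 3451437555) (nat_lit 266) (nat_lit 1) (nat_lit 260) (nat_lit 1) (nat_lit 265) (nat_lit 1) (nat_lit 320) (nat_lit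 363) (nat_lit 337)) (XT.lf (nat_lit 76) (nat_lit 1240921900) (nat_lit 0) (nat_lit 1437811933) (nat_lit 456) (nat_lit 4223540532) (nat_lit 255) (nat_lit 1) (nat_lit 254) (nat_lit 1) (nat_lit 260) (nat_lit 1) (nat_lit 321) (nat_lit 363) (nat_lit 336))))) (XT.nd (nat_lit 234) (nat_lit 1292) (nat_lit 0) (XT.nd (nat_lit 78) (nat_lit 760) (nat_lit 0) (XT.lf (nat_lit 456) (nat_lit 3184037444) (nat_lit 0) (nat_lit 2532103270) (nat_lit 380) (nat_lit 1051877087) (nat_lit 255) (nat_lit 1) (nat_lit 249) (nat_lit 1) (nat_lit 254) (nat_lit 1) (nat_lit 322) (nat_lit 363) (nat_lit 335)) (XT.nd (nat_lit 78) (nat_lit 456) (nat_lit 0) (XT.lf (nat_lit 380) (nat_lit 914153567) (nat_lit 0) (nat_lit 2421914411) (nat_lit 304) (nat_lit 3301230587) (nat_lit 250) (nat_lit 1) (nat_lit 245) (nat_lit 1) (nat_lit 249) (nat_lit 1) (nat_lit 323) (nat_lit 363) (nat_lit 334)) (XT.lf (nat_lit 76) (nat_lit 1039132639) (nat_lit 0)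 (nat_lit 1305695416) (nat_lit 456) (nat_lit 4165144184) (nat_lit 240) (nat_lit 1) (nat_lit 239) (nat_lit 1) (nat_lit 245) (nat_lit 1) (nat_lit 324) (nat_lit 363) (nat_lit 333)))) (XT.nd (nat_lit 156) (nat_lit 684) (nat_lit 0) (XT.nd (nat_lit 78) (nat_lit 304) (nat_lit 0) (XT.lf (nat_lit 380) (nat_lit 2890858586) (nat_lit 0) (nat_lit 2290739959) (nat_lit 304) (nat_lit 1204099716) (nat_lit 240) (nat_lit 1) (nat_lit 235) (nat_lit 1) (nat_lit 239) (nat_lit 1) (nat_lit 325) (nat_lit 363) (nat_lit 332)) (XT.lf (nat_lit 380) (nat_lit 596379013) (nat_lit 0) (nat_lit 2268364857) (nat_lit 304) (nat_lit 3399941210) (nat_lit 236) (nat_lit 1) (nat_lit 231) (nat_lit 1) (nat_lit 235) (nat_lit 1) (nat_lit 326) (nat_lit 363) (nat_lit 331))) (XT.nd (nat_lit 78) (nat_lit 304) (nat_lit 0) (XT.lf (nat_lit 76) (nat_lit 633773473) (nat_lit 0) (nat_lit 1635561710) (nat_lit 380) (nat_lit 3877309279) (nat_lit 227) (nat_lit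 1) (nat_lit 226) (nat_lit 1) (nat_lit 231) (nat_lit 1) (nat_lit 327) (nat_lit 363) (nat_lit 330)) (XT.lf (nat_lit 380) (nat_lit 2190408212) (nat_lit 0) (nat_lit 2286939072) (nat_lit 304) (nat_lit 1553989963) (nat_lit 227) (nat_lit 1) (nat_lit 222) (nat_lit 1) (nat_lit 226) (nat_lit 1) (nat_lit 328) (nat_lit 363) (nat_lit 329)))))) (XT.nd (nat_lit 546) (nat_lit 1672) (nat_lit 0) (XT.nd (nat_lit 234) (nat_lit 1140) (nat_lit 0) (XT.nd (nat_lit 78) (nat_lit 532) (nat_lit 0) (XT.lf (nat_lit 76) (nat_lit 2233111314) (nat_lit 0) (nat_lit 100475486) (nat_lit 304) (nat_lit 3585495264) (nat_lit 219) (nat_lit 1) (nat_lit 218) (nat_lit 1) (nat_lit 222) (nat_lit 1) (nat_lit 329) (nat_lit 363) (nat_lit 328)) (XT.nd (nat_lit 78) (nat_lit 228) (nat_lit 0) (XT.lf (nat_lit 76) (nat_lit 78413716) (nat_lit 0) (nat_lit 2314878696) (nat_lit 380) (nat_lit 3416078870) (nat_lit 215) (nat_lit 1) (nat_lit 214) (nat_lit 1)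 (nat_lit 219) (nat_lit 1) (nat_lit 330) (nat_lit 363) (nat_lit 327)) (XT.lf (nat_lit 304) (nat_lit 1187059216) (nat_lit 0) (nat_lit 2465490355) (nat_lit 228) (nat_lit 2049597635) (nat_lit 215) (nat_lit 1) (nat_lit 211) (nat_lit 1) (nat_lit 214) (nat_lit 1) (nat_lit 331) (nat_lit 363) (nat_lit 326)))) (XT.nd (nat_lit 156) (nat_lit 532) (nat_lit 0) (XT.nd (nat_lit 78) (nat_lit 228) (nat_lit 0) (XT.lf (nat_lit 76) (nat_lit 1495355809) (nat_lit 0) (nat_lit 1062381958) (nat_lit 380) (nat_lit 3039851746) (nat_lit 207) (nat_lit 1) (nat_lit 206) (nat_lit 1) (nat_lit 211) (nat_lit 1) (nat_lit 332) (nat_lit 363) (nat_lit 325)) (XT.lf (nat_lit 304) (nat_lit 2237915037) (nat_lit 0) (nat_lit 2662477236) (nat_lit 228) (nat_lit 595046147) (nat_lit 207) (nat_lit 1) (nat_lit 203) (nat_lit 1) (nat_lit 206) (nat_lit 1) (nat_lit 333) (nat_lit 363) (nat_lit 324))) (XT.nd (nat_lit 78) (nat_lit 228) (nat_lit 0) (XT.lf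 (nat_lit 76) (nat_lit 2747292822) (nat_lit 0) (nat_lit 33555075) (nat_lit 304) (nat_lit 2614840296) (nat_lit 200) (nat_lit 1) (nat_lit 199) (nat_lit 1) (nat_lit 203) (nat_lit 1) (nat_lit 334) (nat_lit 363) (nat_lit 323)) (XT.lf (nat_lit 76) (nat_lit 682748224) (nat_lit 0) (nat_lit 2222113887) (nat_lit 304) (nat_lit 2393205907) (nat_lit 197) (nat_lit 1) (nat_lit 196) (nat_lit 1) (nat_lit 200) (nat_lit 1) (nat_lit 335) (nat_lit 363) (nat_lit 322))))) (XT.nd (nat_lit 234) (nat_lit 912) (nat_lit 0) (XT.nd (nat_lit 78) (nat_lit 532) (nat_lit 0) (XT.lf (nat_lit 304) (nat_lit 818154633) (nat_lit 0) (nat_lit 3041788716) (nat_lit 228) (nat_lit 1342808814) (nat_lit 197) (nat_lit 1) (nat_lit 193) (nat_lit 1) (nat_lit 196) (nat_lit 1) (nat_lit 336) (nat_lit 363) (nat_lit 321)) (XT.nd (nat_lit 78) (nat_lit 228) (nat_lit 0) (XT.lf (nat_lit 76) (nat_lit 1806055239) (nat_lit 0) (nat_lit 1377183681) (nat_lit 304)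 (nat_lit 1926220650) (nat_lit 190) (nat_lit 1) (nat_lit 189) (nat_lit 1) (nat_lit 193) (nat_lit 1) (nat_lit 337) (nat_lit 363) (nat_lit 320)) (XT.lf (nat_lit 304) (nat_lit 1500897176) (nat_lit 0) (nat_lit 3339085201) (nat_lit 228) (nat_lit 178459379) (nat_lit 190) (nat_lit 1) (nat_lit 186) (nat_lit 1) (nat_lit 189) (nat_lit 1) (nat_lit 338) (nat_lit 363) (nat_lit 319)))) (XT.nd (nat_lit 156) (nat_lit 456) (nat_lit 0) (XT.nd (nat_lit 78) (nat_lit 228) (nat_lit 0) (XT.lf (nat_lit 76) (nat_lit 2801674782) (nat_lit 0) (nat_lit 691525984) (nat_lit 228) (nat_lit 1435992901) (nat_lit 184) (nat_lit 1) (nat_lit 183) (nat_lit 1) (nat_lit 186) (nat_lit 1) (nat_lit 339) (nat_lit 363) (nat_lit 318)) (XT.lf (nat_lit 76) (nat_lit 842404946) (nat_lit 0) (nat_lit 2812598859) (nat_lit 304) (nat_lit 1186951144) (nat_lit 181) (nat_lit 1) (nat_lit 180) (nat_lit 1) (nat_lit 184) (nat_lit 1) (nat_lit 340) (nat_lit 363)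 (nat_lit 317))) (XT.nd (nat_lit 78) (nat_lit 228) (nat_lit 0) (XT.lf (nat_lit 76) (nat_lit 3683097789) (nat_lit 0) (nat_lit 142858092) (nat_lit 228) (nat_lit 930778283) (nat_lit 178) (nat_lit 1) (nat_lit 177) (nat_lit 1) (nat_lit 180) (nat_lit 1) (nat_lit 341) (nat_lit 363) (nat_lit 316)) (XT.lf (nat_lit 76) (nat_lit 1748486121) (nat_lit 0) (nat_lit 2240770465) (nat_lit 304) (nat_lit 683752031) (nat_lit 175) (nat_lit 1) (nat_lit 174) (nat_lit 1) (nat_lit 178) (nat_lit 1) (nat_lit 342) (nat_lit 363) (nat_lit 315))))))) (XT.nd (nat_lit 1092) (nat_lit 2128) (nat_lit 0) (XT.nd (nat_lit 546) (nat_lit 1140) (nat_lit 0) (XT.nd (nat_lit 234) (nat_lit 760) (nat_lit 0) (XT.nd (nat_lit 78) (nat_lit 532) (nat_lit 0) (XT.lf (nat_lit 228) (nat_lit 294025619) (nat_lit 0) (nat_lit 4171115443) (nat_lit 152) (nat_lit 126367906) (nat_lit 175) (nat_lit 1) (nat_lit 172) (nat_lit 1) (nat_lit 174) (nat_lit 1) (nat_lit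 343) (nat_lit 363) (nat_lit 314)) (XT.nd (nat_lit 78) (nat_lit 304) (nat_lit 0) (XT.lf (nat_lit 76) (nat_lit 2554779950) (nat_lit 0) (nat_lit 1781795524) (nat_lit 228) (nat_lit 174609478) (nat_lit 170) (nat_lit 1) (nat_lit 169) (nat_lit 1) (nat_lit 172) (nat_lit 1) (nat_lit 344) (nat_lit 363) (nat_lit 313)) (XT.lf (nat_lit 228) (nat_lit 623213275) (nat_lit 0) (nat_lit 86421172) (nat_lit 152) (nat_lit 3723278802) (nat_lit 168) (nat_lit 1) (nat_lit 165) (nat_lit 1) (nat_lit 167) (nat_lit 1) (nat_lit 345) (nat_lit 363) (nat_lit 312)))) (XT.nd (nat_lit 156) (nat_lit 380) (nat_lit 0) (XT.nd (nat_lit 78) (nat_lit 152) (nat_lit 0) (XT.lf (nat_lit 228) (nat_lit 2933194704) (nat_lit 0) (nat_lit 341621935) (nat_lit 152) (nat_lit 1081141144) (nat_lit 165) (nat_lit 1) (nat_lit 162) (nat_lit 1) (nat_lit 164) (nat_lit 1) (nat_lit 346) (nat_lit 363) (nat_lit 311)) (XT.lf (nat_lit 228) (nat_lit 860408324) (nat_lit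 0) (nat_lit 599217358) (nat_lit 152) (nat_lit 2821053782) (nat_lit 163) (nat_lit 1) (nat_lit 160) (nat_lit 1) (nat_lit 162) (nat_lit 1) (nat_lit 347) (nat_lit 363) (nat_lit 310))) (XT.nd (nat_lit 78) (nat_lit 152) (nat_lit 0) (XT.lf (nat_lit 228) (nat_lit 3059053354) (nat_lit 0) (nat_lit 857055009) (nat_lit 152) (nat_lit 290876621) (nat_lit 160) (nat_lit 1) (nat_lit 157) (nat_lit 1) (nat_lit 159) (nat_lit 1) (nat_lit 348) (nat_lit 363) (nat_lit 309)) (XT.lf (nat_lit 228) (nat_lit 1024227912) (nat_lit 0) (nat_lit 1106469658) (nat_lit 152) (nat_lit 2003894352) (nat_lit 158) (nat_lit 1) (nat_lit 155) (nat_lit 1) (nat_lit 157) (nat_lit 1) (nat_lit 349) (nat_lit 363) (nat_lit 308))))) (XT.nd (nat_lit 234) (nat_lit 608) (nat_lit 0) (XT.nd (nat_lit 78) (nat_lit 304) (nat_lit 0) (XT.lf (nat_lit 76) (nat_lit 412860417) (nat_lit 0) (nat_lit 947284906) (nat_lit 228) (nat_lit 2703694931) (nat_lit 153) (nat_lit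 1) (nat_lit 152) (nat_lit 1) (nat_lit 155) (nat_lit 1) (nat_lit 350) (nat_lit 363) (nat_lit 307)) (XT.nd (nat_lit 78) (nat_lit 152) (nat_lit 0) (XT.lf (nat_lit 228) (nat_lit 1126102252) (nat_lit 0) (nat_lit 1604542473) (nat_lit 152) (nat_lit 1263662001) (nat_lit 153) (nat_lit 1) (nat_lit 150) (nat_lit 1) (nat_lit 152) (nat_lit 1) (nat_lit 351) (nat_lit 363) (nat_lit 306)) (XT.lf (nat_lit 76) (nat_lit 1041541943) (nat_lit 0) (nat_lit 808137409) (nat_lit 152) (nat_lit 2076575426) (nat_lit 149) (nat_lit 1) (nat_lit 148) (nat_lit 1) (nat_lit 150) (nat_lit 1) (nat_lit 352) (nat_lit 363) (nat_lit 305)))) (XT.nd (nat_lit 156) (nat_lit 304) (nat_lit 0) (XT.nd (nat_lit 78) (nat_lit 152) (nat_lit 0) (XT.lf (nat_lit 228) (nat_lit 1175967923) (nat_lit 0) (nat_lit 2090460388) (nat_lit 152) (nat_lit 593079876) (nat_lit 149) (nat_lit 1) (nat_lit 146) (nat_lit 1) (nat_lit 148) (nat_lit 1) (nat_lit 353) (nat_lit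 363) (nat_lit 304)) (XT.lf (nat_lit 76) (nat_lit 1607463962) (nat_lit 0) (nat_lit 718406206) (nat_lit 152) (nat_lit 1468139929) (nat_lit 145) (nat_lit 1) (nat_lit 144) (nat_lit 1) (nat_lit 146) (nat_lit 1) (nat_lit 354) (nat_lit 363) (nat_lit 303))) (XT.nd (nat_lit 78) (nat_lit 152) (nat_lit 0) (XT.lf (nat_lit 76) (nat_lit 14084635) (nat_lit 0) (nat_lit 2547592092) (nat_lit 228) (nat_lit 1168225020) (nat_lit 143) (nat_lit 1) (nat_lit 142) (nat_lit 1) (nat_lit 145) (nat_lit 1) (nat_lit 355) (nat_lit 363) (nat_lit 302)) (XT.lf (nat_lit 76) (nat_lit 2116551933) (nat_lit 0) (nat_lit 670026969) (nat_lit 152) (nat_lit 880248827) (nat_lit 141) (nat_lit 1) (nat_lit 140) (nat_lit 1) (nat_lit 142) (nat_lit 1) (nat_lit 356) (nat_lit 363) (nat_lit 301)))))) (XT.nd (nat_lit 546) (nat_lit 988) (nat_lit 0) (XT.nd (nat_lit 234) (nat_lit 684) (nat_lit 0) (XT.nd (nat_lit 78) (nat_lit 304) (nat_lit 0) (XT.lf (nat_lit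 76) (nat_lit 553492182) (nat_lit 0) (nat_lit 2457625211) (nat_lit 228) (nat_lit 593951906) (nat_lit 139) (nat_lit 1) (nat_lit 138) (nat_lit 1) (nat_lit 141) (nat_lit 1) (nat_lit 357) (nat_lit 363) (nat_lit 300)) (XT.nd (nat_lit 78) (nat_lit 152) (nat_lit 0) (XT.lf (nat_lit 76) (nat_lit 2574115159) (nat_lit 0) (nat_lit 656006827) (nat_lit 152) (nat_lit 314328624) (nat_lit 137) (nat_lit 1) (nat_lit 136) (nat_lit 1) (nat_lit 138) (nat_lit 1) (nat_lit 358) (nat_lit 363) (nat_lit 299)) (XT.lf (nat_lit 76) (nat_lit 1041847614) (nat_lit 0) (nat_lit 2401267922) (nat_lit 228) (nat_lit 41817448) (nat_lit 135) (nat_lit 1) (nat_lit 134) (nat_lit 1) (nat_lit 137) (nat_lit 1) (nat_lit 359) (nat_lit 363) (nat_lit 298)))) (XT.nd (nat_lit 156) (nat_lit 304) (nat_lit 0) (XT.nd (nat_lit 78) (nat_lit 76) (nat_lit 0) (XT.lf (nat_lit 228) (nat_lit 2754041295) (nat_lit 0) (nat_lit 233115514) (nat_lit 152) (nat_lit 439416899)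 (nat_lit 133) (nat_lit 1) (nat_lit 130) (nat_lit 1) (nat_lit 132) (nat_lit 1) (nat_lit 360) (nat_lit 363) (nat_lit 297)) (XT.lf (nat_lit 152) (nat_lit 991598961) (nat_lit 0) (nat_lit 496936854) (nat_lit 76) (nat_lit 1880583268) (nat_lit 131) (nat_lit 1) (nat_lit 129) (nat_lit 1) (nat_lit 130) (nat_lit 1) (nat_lit 361) (nat_lit 363) (nat_lit 296))) (XT.nd (nat_lit 78) (nat_lit 76) (nat_lit 0) (XT.lf (nat_lit 76) (nat_lit 46673978) (nat_lit 0) (nat_lit 715436870) (nat_lit 228) (nat_lit 2550833746) (nat_lit 127) (nat_lit 1) (nat_lit 126) (nat_lit 1) (nat_lit 129) (nat_lit 1) (nat_lit 362) (nat_lit 363) (nat_lit 295)) (XT.lf (nat_lit 152) (nat_lit 880763816) (nat_lit 0) (nat_lit 1012336212) (nat_lit 76) (nat_lit 1364451784) (nat_lit 127) (nat_lit 1) (nat_lit 125) (nat_lit 1) (nat_lit 126) (nat_lit 1) (nat_lit 363) (nat_lit 363) (nat_lit 294))))) (XT.nd (nat_lit 234) (nat_lit 456) (nat_lit 0) (XT.nd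 (nat_lit 78) (nat_lit 304) (nat_lit 0) (XT.lf (nat_lit 76) (nat_lit 482001758) (nat_lit 0) (nat_lit 780473735) (nat_lit 228) (nat_lit 1940874952) (nat_lit 123) (nat_lit 1) (nat_lit 122) (nat_lit 1) (nat_lit 125) (nat_lit 1) (nat_lit 364) (nat_lit 363) (nat_lit 293)) (XT.nd (nat_lit 78) (nat_lit 228) (nat_lit 0) (XT.lf (nat_lit 152) (nat_lit 755696605) (nat_lit 0) (nat_lit 1503158693) (nat_lit 76) (nat_lit 891189541) (nat_lit 123) (nat_lit 1) (nat_lit 121) (nat_lit 1) (nat_lit 122) (nat_lit 1) (nat_lit 365) (nat_lit 363) (nat_lit 292)) (XT.lf (nat_lit 76) (nat_lit 878718666) (nat_lit 0) (nat_lit 859567989) (nat_lit 228) (nat_lit 1359439647) (nat_lit 119) (nat_lit 1) (nat_lit 118) (nat_lit 1) (nat_lit 121) (nat_lit 1) (nat_lit 366) (nat_lit 363) (nat_lit 291)))) (XT.nd (nat_lit 156) (nat_lit 228) (nat_lit 0) (XT.nd (nat_lit 78) (nat_lit 152) (nat_lit 0) (XT.lf (nat_lit 152) (nat_lit 619924420) (nat_lit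 0) (nat_lit 1969236043) (nat_lit 76) (nat_lit 457252585) (nat_lit 119) (nat_lit 1) (nat_lit 117) (nat_lit 1) (nat_lit 118) (nat_lit 1) (nat_lit 367) (nat_lit 363) (nat_lit 290)) (XT.lf (nat_lit 76) (nat_lit 1240056466) (nat_lit 0) (nat_lit 949416997) (nat_lit 152) (nat_lit 806419856) (nat_lit 116) (nat_lit 1) (nat_lit 115) (nat_lit 1) (nat_lit 117) (nat_lit 1) (nat_lit 368) (nat_lit 363) (nat_lit 289))) (XT.nd (nat_lit 78) (nat_lit 152) (nat_lit 0) (XT.lf (nat_lit 152) (nat_lit 476461231) (nat_lit 0) (nat_lit 2410586907) (nat_lit 76) (nat_lit 59435430) (nat_lit 116) (nat_lit 1) (nat_lit 114) (nat_lit 1) (nat_lit 115) (nat_lit 1) (nat_lit 369) (nat_lit 363) (nat_lit 288)) (XT.lf (nat_lit 76) (nat_lit 1568938528) (nat_lit 0) (nat_lit 1047197037) (nat_lit 152) (nat_lit 281548718) (nat_lit 113) (nat_lit 1) (nat_lit 112) (nat_lit 1) (nat_lit 114) (nat_lit 1) (nat_lit 370) (nat_lit 363) (nat_lit 287))))))))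
noncomputable def ec48 : XT := (XT.nd (nat_lit 47034) (nat_lit 0) (nat_lit 13680) (XT.nd (nat_lit 1014) (nat_lit 1596) (nat_lit 0) (XT.nd (nat_lit 468) (nat_lit 912) (nat_lit 0) (XT.nd (nat_lit 234) (nat_lit 380) (nat_lit 0) (XT.nd (nat_lit 78) (nat_lit 304) (nat_lit 0) (XT.lf (nat_lit 0) (nat_lit 299210541) (nat_lit 0) (nat_lit 2525154789) (nat_lit 152) (nat_lit 25641304) (nat_lit 111) (nat_lit 3) (nat_lit 111) (nat_lit 1) (nat_lit 113) (nat_lit 1) (nat_lit 371) (nat_lit 363) (nat_lit 286)) (XT.nd (nat_lit 78) (nat_lit 76) (nat_lit 0) (XT.lf (nat_lit 152) (nat_lit 1650263442) (nat_lit 0) (nat_lit 219862999) (nat_lit 76) (nat_lit 932752715) (nat_lit 110) (nat_lit 1) (nat_lit 108) (nat_lit 1) (nat_lit 109) (nat_lit 1) (nat_lit 372) (nat_lit 363) (nat_lit 285)) (XT.lf (nat_lit 76) (nat_lit 165396175) (nat_lit 0) (nat_lit 465792288) (nat_lit 76) (nat_lit 2125587485) (nat_lit 108) (nat_lit 3) (nat_lit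 107) (nat_lit 1) (nat_lit 108) (nat_lit 1) (nat_lit 373) (nat_lit 363) (nat_lit 284)))) (XT.nd (nat_lit 78) (nat_lit 228) (nat_lit 0) (XT.lf (nat_lit 152) (nat_lit 1447308342) (nat_lit 0) (nat_lit 699093859) (nat_lit 76) (nat_lit 564917335) (nat_lit 107) (nat_lit 1) (nat_lit 105) (nat_lit 1) (nat_lit 106) (nat_lit 1) (nat_lit 374) (nat_lit 363) (nat_lit 283)) (XT.nd (nat_lit 78) (nat_lit 152) (nat_lit 0) (XT.lf (nat_lit 76) (nat_lit 5118610) (nat_lit 0) (nat_lit 930396642) (nat_lit 76) (nat_lit 1731284923) (nat_lit 105) (nat_lit 3) (nat_lit 104) (nat_lit 1) (nat_lit 105) (nat_lit 1) (nat_lit 375) (nat_lit 363) (nat_lit 282)) (XT.lf (nat_lit 152) (nat_lit 1246045126) (nat_lit 0) (nat_lit 1151148614) (nat_lit 76) (nat_lit 225756080) (nat_lit 104) (nat_lit 1) (nat_lit 102) (nat_lit 1) (nat_lit 103) (nat_lit 1) (nat_lit 376) (nat_lit 363) (nat_lit 281))))) (XT.nd (nat_lit 234) (nat_lit 532) (nat_lit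 0) (XT.nd (nat_lit 78) (nat_lit 228) (nat_lit 0) (XT.lf (nat_lit 76) (nat_lit 1215562393) (nat_lit 0) (nat_lit 151200150) (nat_lit 152) (nat_lit 1213144986) (nat_lit 101) (nat_lit 1) (nat_lit 100) (nat_lit 1) (nat_lit 102) (nat_lit 1) (nat_lit 377) (nat_lit 363) (nat_lit 280)) (XT.nd (nat_lit 78) (nat_lit 152) (nat_lit 0) (XT.lf (nat_lit 0) (nat_lit 85158714) (nat_lit 0) (nat_lit 1490689266) (nat_lit 152) (nat_lit 961766579) (nat_lit 99) (nat_lit 3) (nat_lit 99) (nat_lit 1) (nat_lit 101) (nat_lit 1) (nat_lit 378) (nat_lit 363) (nat_lit 279)) (XT.lf (nat_lit 76) (nat_lit 1471827167) (nat_lit 0) (nat_lit 305255519) (nat_lit 152) (nat_lit 718931820) (nat_lit 98) (nat_lit 1) (nat_lit 97) (nat_lit 1) (nat_lit 99) (nat_lit 1) (nat_lit 379) (nat_lit 363) (nat_lit 278)))) (XT.nd (nat_lit 156) (nat_lit 304) (nat_lit 0) (XT.nd (nat_lit 78) (nat_lit 152) (nat_lit 0) (XT.lf (nat_lit 0) (nat_lit 367536150)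 (nat_lit 0) (nat_lit 1605262017) (nat_lit 152) (nat_lit 482359556) (nat_lit 96) (nat_lit 3) (nat_lit 96) (nat_lit 1) (nat_lit 98) (nat_lit 1) (nat_lit 380) (nat_lit 363) (nat_lit 277)) (XT.lf (nat_lit 76) (nat_lit 1706032595) (nat_lit 0) (nat_lit 456132335) (nat_lit 152) (nat_lit 252837899) (nat_lit 95) (nat_lit 1) (nat_lit 94) (nat_lit 1) (nat_lit 96) (nat_lit 1) (nat_lit 381) (nat_lit 363) (nat_lit 276))) (XT.nd (nat_lit 78) (nat_lit 228) (nat_lit 0) (XT.lf (nat_lit 0) (nat_lit 627521648) (nat_lit 0) (nat_lit 1717476840) (nat_lit 152) (nat_lit 30529074) (nat_lit 93) (nat_lit 3) (nat_lit 93) (nat_lit 1) (nat_lit 95) (nat_lit 1) (nat_lit 382) (nat_lit 363) (nat_lit 275)) (XT.lf (nat_lit 152) (nat_lit 1731876755) (nat_lit 0) (nat_lit 189747712) (nat_lit 76) (nat_lit 415080009) (nat_lit 92) (nat_lit 1) (nat_lit 90) (nat_lit 1) (nat_lit 91) (nat_lit 1) (nat_lit 383) (nat_lit 363) (nat_lit 274))))))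 (XT.nd (nat_lit 546) (nat_lit 760) (nat_lit 0) (XT.nd (nat_lit 234) (nat_lit 532) (nat_lit 0) (XT.nd (nat_lit 78) (nat_lit 228) (nat_lit 0) (XT.lf (nat_lit 76) (nat_lit 468091592) (nat_lit 0) (nat_lit 402487521) (nat_lit 76) (nat_lit 1427918281) (nat_lit 90) (nat_lit 3) (nat_lit 89) (nat_lit 1) (nat_lit 90) (nat_lit 1) (nat_lit 384) (nat_lit 363) (nat_lit 273)) (XT.nd (nat_lit 78) (nat_lit 76) (nat_lit 0) (XT.lf (nat_lit 152) (nat_lit 1509925519) (nat_lit 0) (nat_lit 610560898) (nat_lit 76) (nat_lit 140513759) (nat_lit 89) (nat_lit 1) (nat_lit 87) (nat_lit 1) (nat_lit 88) (nat_lit 1) (nat_lit 385) (nat_lit 363) (nat_lit 272)) (XT.lf (nat_lit 76) (nat_lit 284492220) (nat_lit 0) (nat_lit 809858501) (nat_lit 76) (nat_lit 1129726299) (nat_lit 87) (nat_lit 3) (nat_lit 86) (nat_lit 1) (nat_lit 87) (nat_lit 1) (nat_lit 386) (nat_lit 363) (nat_lit 271)))) (XT.nd (nat_lit 156) (nat_lit 304) (nat_lit 0)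 (XT.nd (nat_lit 78) (nat_lit 76) (nat_lit 0) (XT.lf (nat_lit 0) (nat_lit 111433470) (nat_lit 0) (nat_lit 892972147) (nat_lit 152) (nat_lit 1183423749) (nat_lit 84) (nat_lit 3) (nat_lit 84) (nat_lit 1) (nat_lit 86) (nat_lit 1) (nat_lit 387) (nat_lit 363) (nat_lit 270)) (XT.lf (nat_lit 76) (nat_lit 107960453) (nat_lit 0) (nat_lit 1191932138) (nat_lit 76) (nat_lit 852283002) (nat_lit 84) (nat_lit 3) (nat_lit 83) (nat_lit 1) (nat_lit 84) (nat_lit 1) (nat_lit 388) (nat_lit 363) (nat_lit 269))) (XT.nd (nat_lit 78) (nat_lit 152) (nat_lit 0) (XT.lf (nat_lit 0) (nat_lit 341969806) (nat_lit 0) (nat_lit 1030201474) (nat_lit 152) (nat_lit 744921441) (nat_lit 81) (nat_lit 3) (nat_lit 81) (nat_lit 1) (nat_lit 83) (nat_lit 1) (nat_lit 389) (nat_lit 363) (nat_lit 268)) (XT.lf (nat_lit 76) (nat_lit 1489042056) (nat_lit 0) (nat_lit 60019643) (nat_lit 152) (nat_lit 533618855) (nat_lit 80) (nat_lit 1) (nat_lit 79)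 (nat_lit 1) (nat_lit 81) (nat_lit 1) (nat_lit 390) (nat_lit 363) (nat_lit 267))))) (XT.nd (nat_lit 234) (nat_lit 380) (nat_lit 0) (XT.nd (nat_lit 78) (nat_lit 304) (nat_lit 0) (XT.lf (nat_lit 0) (nat_lit 555069225) (nat_lit 0) (nat_lit 1161133702) (nat_lit 152) (nat_lit 332535108) (nat_lit 78) (nat_lit 3) (nat_lit 78) (nat_lit 1) (nat_lit 80) (nat_lit 1) (nat_lit 391) (nat_lit 363) (nat_lit 266)) (XT.nd (nat_lit 78) (nat_lit 152) (nat_lit 0) (XT.lf (nat_lit 76) (nat_lit 1663328356) (nat_lit 0) (nat_lit 218487724) (nat_lit 152) (nat_lit 133674182) (nat_lit 77) (nat_lit 1) (nat_lit 76) (nat_lit 1) (nat_lit 78) (nat_lit 1) (nat_lit 392) (nat_lit 363) (nat_lit 265)) (XT.lf (nat_lit 76) (nat_lit 696545612) (nat_lit 0) (nat_lit 55862518) (nat_lit 76) (nat_lit 1230252744) (nat_lit 75) (nat_lit 3) (nat_lit 74) (nat_lit 1) (nat_lit 75) (nat_lit 1) (nat_lit 393) (nat_lit 363) (nat_lit 264)))) (XT.nd (nat_lit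 156) (nat_lit 152) (nat_lit 0) (XT.nd (nat_lit 78) (nat_lit 76) (nat_lit 0) (XT.lf (nat_lit 152) (nat_lit 1578672172) (nat_lit 0) (nat_lit 246474768) (nat_lit 76) (nat_lit 125331771) (nat_lit 74) (nat_lit 1) (nat_lit 72) (nat_lit 1) (nat_lit 73) (nat_lit 1) (nat_lit 394) (nat_lit 363) (nat_lit 263)) (XT.lf (nat_lit 76) (nat_lit 511184791) (nat_lit 0) (nat_lit 426344365) (nat_lit 76) (nat_lit 981173239) (nat_lit 72) (nat_lit 3) (nat_lit 71) (nat_lit 1) (nat_lit 72) (nat_lit 1) (nat_lit 395) (nat_lit 363) (nat_lit 262))) (XT.nd (nat_lit 45006) (nat_lit 0) (nat_lit 23180) (XT.lf (nat_lit 0) (nat_lit 84900930) (nat_lit 0) (nat_lit 519471848) (nat_lit 152) (nat_lit 1283204729) (nat_lit 69) (nat_lit 3) (nat_lit 69) (nat_lit 1) (nat_lit 71) (nat_lit 1) (nat_lit 396) (nat_lit 363) (nat_lit 261)) (XT.lf (nat_lit 1292) (nat_lit 1202839980) (nat_lit 0) (nat_lit 4138328937) (nat_lit 1292) (nat_lit 1202839980)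 (nat_lit 391) (nat_lit 1) (nat_lit 374) (nat_lit 0) (nat_lit 391) (nat_lit 0) (nat_lit 292) (nat_lit 364) (nat_lit 364))))))) (XT.nd (nat_lit 1092) (nat_lit 6232) (nat_lit 0) (XT.nd (nat_lit 546) (nat_lit 3344) (nat_lit 0) (XT.nd (nat_lit 234) (nat_lit 0) (nat_lit 152) (XT.nd (nat_lit 78) (nat_lit 0) (nat_lit 0) (XT.lf (nat_lit 1292) (nat_lit 96433789) (nat_lit 0) (nat_lit 8159914452) (nat_lit 1216) (nat_lit 4517640488) (nat_lit 392) (nat_lit 1) (nat_lit 375) (nat_lit 1) (nat_lit 391) (nat_lit 1) (nat_lit 293) (nat_lit 364) (nat_lit 363)) (XT.nd (nat_lit 78) (nat_lit 0) (nat_lit 76) (XT.lf (nat_lit 1292) (nat_lit 4242672128) (nat_lit 76) (nat_lit 6001104474) (nat_lit 0) (nat_lit 2225791843) (nat_lit 392) (nat_lit 1) (nat_lit 376) (nat_lit 1) (nat_lit 375) (nat_lit 1) (nat_lit 294) (nat_lit 364) (nat_lit 362)) (XT.lf (nat_lit 1292) (nat_lit 3729668560) (nat_lit 76) (nat_lit 3928152299) (nat_lit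 0) (nat_lit 4517184072) (nat_lit 393) (nat_lit 1) (nat_lit 377) (nat_lit 1) (nat_lit 376) (nat_lit 1) (nat_lit 295) (nat_lit 364) (nat_lit 361)))) (XT.nd (nat_lit 156) (nat_lit 0) (nat_lit 152) (XT.nd (nat_lit 78) (nat_lit 0) (nat_lit 76) (XT.lf (nat_lit 1292) (nat_lit 3086551871) (nat_lit 76) (nat_lit 2029095846) (nat_lit 0) (nat_lit 6774319314) (nat_lit 394) (nat_lit 1) (nat_lit 378) (nat_lit 1) (nat_lit 377) (nat_lit 1) (nat_lit 296) (nat_lit 364) (nat_lit 360)) (XT.lf (nat_lit 1292) (nat_lit 2323239808) (nat_lit 76) (nat_lit 295000524) (nat_lit 0) (nat_lit 8995869218) (nat_lit 395) (nat_lit 1) (nat_lit 379) (nat_lit 1) (nat_lit 378) (nat_lit 1) (nat_lit 297) (nat_lit 364) (nat_lit 359))) (XT.nd (nat_lit 78) (nat_lit 0) (nat_lit 0) (XT.lf (nat_lit 1292) (nat_lit 178760913) (nat_lit 0) (nat_lit 9910346368) (nat_lit 1216) (nat_lit 1257623833) (nat_lit 396) (nat_lit 1) (nat_lit 379) (nat_lit 1)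 (nat_lit 395) (nat_lit 1) (nat_lit 298) (nat_lit 364) (nat_lit 358)) (XT.lf (nat_lit 1292) (nat_lit 423702254) (nat_lit 76) (nat_lit 8406426682) (nat_lit 0) (nat_lit 2257061138) (nat_lit 396) (nat_lit 1) (nat_lit 380) (nat_lit 1) (nat_lit 379) (nat_lit 1) (nat_lit 299) (nat_lit 364) (nat_lit 357))))) (XT.nd (nat_lit 234) (nat_lit 2432) (nat_lit 0) (XT.nd (nat_lit 78) (nat_lit 0) (nat_lit 76) (XT.lf (nat_lit 1368) (nat_lit 6192403643) (nat_lit 0) (nat_lit 669334070) (nat_lit 1292) (nat_lit 3973940607) (nat_lit 381) (nat_lit 1) (nat_lit 363) (nat_lit 1) (nat_lit 380) (nat_lit 1) (nat_lit 300) (nat_lit 364) (nat_lit 356)) (XT.nd (nat_lit 78) (nat_lit 0) (nat_lit 76) (XT.lf (nat_lit 1368) (nat_lit 3614472442) (nat_lit 0) (nat_lit 1836573844) (nat_lit 1292) (nat_lit 5140956851) (nat_lit 382) (nat_lit 1) (nat_lit 364) (nat_lit 1) (nat_lit 381) (nat_lit 1) (nat_lit 301) (nat_lit 364) (nat_lit 355)) (XT.lf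 (nat_lit 76) (nat_lit 1092312747) (nat_lit 0) (nat_lit 3079125059) (nat_lit 1292) (nat_lit 6184566899) (nat_lit 366) (nat_lit 1) (nat_lit 365) (nat_lit 1) (nat_lit 382) (nat_lit 1) (nat_lit 302) (nat_lit 364) (nat_lit 354)))) (XT.nd (nat_lit 156) (nat_lit 1140) (nat_lit 0) (XT.nd (nat_lit 78) (nat_lit 608) (nat_lit 0) (XT.lf (nat_lit 912) (nat_lit 5723286074) (nat_lit 0) (nat_lit 3002254993) (nat_lit 836) (nat_lit 1401466788) (nat_lit 366) (nat_lit 1) (nat_lit 354) (nat_lit 1) (nat_lit 365) (nat_lit 1) (nat_lit 303) (nat_lit 364) (nat_lit 353)) (XT.lf (nat_lit 684) (nat_lit 4104132857) (nat_lit 0) (nat_lit 1940437043) (nat_lit 608) (nat_lit 3860281437) (nat_lit 355) (nat_lit 1) (nat_lit 346) (nat_lit 1) (nat_lit 354) (nat_lit 1) (nat_lit 304) (nat_lit 364) (nat_lit 352))) (XT.nd (nat_lit 78) (nat_lit 532) (nat_lit 0) (XT.lf (nat_lit 684) (nat_lit 2436156422) (nat_lit 0) (nat_lit 990843409) (nat_lit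 608) (nat_lit 6262606130) (nat_lit 347) (nat_lit 1) (nat_lit 338) (nat_lit 1) (nat_lit 346) (nat_lit 1) (nat_lit 305) (nat_lit 364) (nat_lit 351)) (XT.lf (nat_lit 608) (nat_lit 724713039) (nat_lit 0) (nat_lit 147588341) (nat_lit 532) (nat_lit 8608729535) (nat_lit 339) (nat_lit 1) (nat_lit 331) (nat_lit 1) (nat_lit 338) (nat_lit 1) (nat_lit 306) (nat_lit 364) (nat_lit 350)))))) (XT.nd (nat_lit 546) (nat_lit 2964) (nat_lit 0) (XT.nd (nat_lit 234) (nat_lit 2052) (nat_lit 0) (XT.nd (nat_lit 78) (nat_lit 1140) (nat_lit 0) (XT.lf (nat_lit 76) (nat_lit 7641791482) (nat_lit 0) (nat_lit 1026927123) (nat_lit 608) (nat_lit 609227607) (nat_lit 331) (nat_lit 1) (nat_lit 330) (nat_lit 1) (nat_lit 338) (nat_lit 1) (nat_lit 307) (nat_lit 364) (nat_lit 349)) (XT.nd (nat_lit 78) (nat_lit 532) (nat_lit 0) (XT.lf (nat_lit 76) (nat_lit 4989606782) (nat_lit 0) (nat_lit 2806025943) (nat_lit 684) (nat_lit 1284970292)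 (nat_lit 323) (nat_lit 1) (nat_lit 322) (nat_lit 1) (nat_lit 331) (nat_lit 1) (nat_lit 308) (nat_lit 364) (nat_lit 348)) (XT.lf (nat_lit 76) (nat_lit 2405013506) (nat_lit 0) (nat_lit 4612396930) (nat_lit 608) (nat_lit 1871886945) (nat_lit 316) (nat_lit 1) (nat_lit 315) (nat_lit 1) (nat_lit 323) (nat_lit 1) (nat_lit 309) (nat_lit 364) (nat_lit 347)))) (XT.nd (nat_lit 156) (nat_lit 1064) (nat_lit 0) (XT.nd (nat_lit 78) (nat_lit 456) (nat_lit 0) (XT.lf (nat_lit 608) (nat_lit 2260641927) (nat_lit 0) (nat_lit 6327963788) (nat_lit 532) (nat_lit 115183900) (nat_lit 316) (nat_lit 1) (nat_lit 308) (nat_lit 1) (nat_lit 315) (nat_lit 1) (nat_lit 310) (nat_lit 364) (nat_lit 346)) (XT.lf (nat_lit 532) (nat_lit 206861584) (nat_lit 0) (nat_lit 5700089611) (nat_lit 456) (nat_lit 2616275013) (nat_lit 309) (nat_lit 1) (nat_lit 302) (nat_lit 1) (nat_lit 308) (nat_lit 1) (nat_lit 311) (nat_lit 364) (nat_lit 345)))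 (XT.nd (nat_lit 78) (nat_lit 456) (nat_lit 0) (XT.lf (nat_lit 76) (nat_lit 3314549562) (nat_lit 0) (nat_lit 1820625211) (nat_lit 608) (nat_lit 3212412763) (nat_lit 295) (nat_lit 1) (nat_lit 294) (nat_lit 1) (nat_lit 302) (nat_lit 1) (nat_lit 312) (nat_lit 364) (nat_lit 344)) (XT.lf (nat_lit 76) (nat_lit 794369827) (nat_lit 0) (nat_lit 3850810444) (nat_lit 532) (nat_lit 3531982832) (nat_lit 289) (nat_lit 1) (nat_lit 288) (nat_lit 1) (nat_lit 295) (nat_lit 1) (nat_lit 313) (nat_lit 364) (nat_lit 343))))) (XT.nd (nat_lit 234) (nat_lit 1596) (nat_lit 0) (XT.nd (nat_lit 78) (nat_lit 912) (nat_lit 0) (XT.lf (nat_lit 532) (nat_lit 2110178137) (nat_lit 0) (nat_lit 4211341460) (nat_lit 456) (nat_lit 1689829012) (nat_lit 289) (nat_lit 1) (nat_lit 282) (nat_lit 1) (nat_lit 288) (nat_lit 1) (nat_lit 314) (nat_lit 364) (nat_lit 342)) (XT.nd (nat_lit 78) (nat_lit 456) (nat_lit 0) (XT.lf (nat_lit 76) (nat_lit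 3730480136) (nat_lit 0) (nat_lit 107589406) (nat_lit 456) (nat_lit 4012146342) (nat_lit 277) (nat_lit 1) (nat_lit 276) (nat_lit 1) (nat_lit 282) (nat_lit 1) (nat_lit 315) (nat_lit 364) (nat_lit 341)) (XT.lf (nat_lit 76) (nat_lit 1232140799) (nat_lit 0) (nat_lit 2277773859) (nat_lit 532) (nat_lit 4183344699) (nat_lit 271) (nat_lit 1) (nat_lit 270) (nat_lit 1) (nat_lit 277) (nat_lit 1) (nat_lit 316) (nat_lit 364) (nat_lit 340)))) (XT.nd (nat_lit 156) (nat_lit 836) (nat_lit 0) (XT.nd (nat_lit 78) (nat_lit 380) (nat_lit 0) (XT.lf (nat_lit 456) (nat_lit 3089344485) (nat_lit 0) (nat_lit 3232160953) (nat_lit 380) (nat_lit 1219072980) (nat_lit 271) (nat_lit 1) (nat_lit 265) (nat_lit 1) (nat_lit 270) (nat_lit 1) (nat_lit 317) (nat_lit 364) (nat_lit 339)) (XT.lf (nat_lit 456) (nat_lit 766261465) (nat_lit 0) (nat_lit 3001759899) (nat_lit 380) (nat_lit 3624009433) (nat_lit 266) (nat_lit 1) (nat_lit 260) (nat_lit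 1) (nat_lit 265) (nat_lit 1) (nat_lit 318) (nat_lit 364) (nat_lit 338))) (XT.nd (nat_lit 78) (nat_lit 380) (nat_lit 0) (XT.lf (nat_lit 76) (nat_lit 1302967995) (nat_lit 0) (nat_lit 1509702530) (nat_lit 456) (nat_lit 4434717559) (nat_lit 255) (nat_lit 1) (nat_lit 254) (nat_lit 1) (nat_lit 260) (nat_lit 1) (nat_lit 319) (nat_lit 364) (nat_lit 337)) (XT.lf (nat_lit 456) (nat_lit 3343239317) (nat_lit 0) (nat_lit 2658708433) (nat_lit 380) (nat_lit 1104470942) (nat_lit 255) (nat_lit 1) (nat_lit 249) (nat_lit 1) (nat_lit 254) (nat_lit 1) (nat_lit 320) (nat_lit 364) (nat_lit 336))))))))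
noncomputable def ec49 : XT := (XT.nd (nat_lit 2184) (nat_lit 4028) (nat_lit 0) (XT.nd (nat_lit 1092) (nat_lit 3116) (nat_lit 0) (XT.nd (nat_lit 546) (nat_lit 1900) (nat_lit 0) (XT.nd (nat_lit 234) (nat_lit 1292) (nat_lit 0) (XT.nd (nat_lit 78) (nat_lit 760) (nat_lit 0) (XT.lf (nat_lit 380) (nat_lit 959861245) (nat_lit 0) (nat_lit 2543010131) (nat_lit 304) (nat_lit 3466292117) (nat_lit 250) (nat_lit 1) (nat_lit 245) (nat_lit 1) (nat_lit 249) (nat_lit 1) (nat_lit 321) (nat_lit 364) (nat_lit 335)) (XT.nd (nat_lit 78) (nat_lit 304) (nat_lit 0) (XT.lf (nat_lit 76) (nat_lit 1091089271) (nat_lit 0) (nat_lit 1370980186) (nat_lit 456) (nat_lit 4373401393) (nat_lit 240) (nat_lit 1) (nat_lit 239) (nat_lit 1) (nat_lit 245) (nat_lit 1) (nat_lit 322) (nat_lit 364) (nat_lit 334)) (XT.lf (nat_lit 380) (nat_lit 3035401515) (nat_lit 0) (nat_lit 2405276957) (nat_lit 304) (nat_lit 1264304702) (nat_lit 240) (nat_lit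 1) (nat_lit 235) (nat_lit 1) (nat_lit 239) (nat_lit 1) (nat_lit 323) (nat_lit 364) (nat_lit 333)))) (XT.nd (nat_lit 156) (nat_lit 608) (nat_lit 0) (XT.nd (nat_lit 78) (nat_lit 380) (nat_lit 0) (XT.lf (nat_lit 380) (nat_lit 626197963) (nat_lit 0) (nat_lit 2381783100) (nat_lit 304) (nat_lit 3569938271) (nat_lit 236) (nat_lit 1) (nat_lit 231) (nat_lit 1) (nat_lit 235) (nat_lit 1) (nat_lit 324) (nat_lit 364) (nat_lit 332)) (XT.lf (nat_lit 76) (nat_lit 665462147) (nat_lit 0) (nat_lit 1717339795) (nat_lit 380) (nat_lit 4071174743) (nat_lit 227) (nat_lit 1) (nat_lit 226) (nat_lit 1) (nat_lit 231) (nat_lit 1) (nat_lit 325) (nat_lit 364) (nat_lit 331))) (XT.nd (nat_lit 78) (nat_lit 304) (nat_lit 0) (XT.lf (nat_lit 380) (nat_lit 2299928623) (nat_lit 0) (nat_lit 2401286026) (nat_lit 304) (nat_lit 1631689461) (nat_lit 227) (nat_lit 1) (nat_lit 222) (nat_lit 1) (nat_lit 226) (nat_lit 1) (nat_lit 326) (nat_lit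 364) (nat_lit 330)) (XT.lf (nat_lit 76) (nat_lit 2344766880) (nat_lit 0) (nat_lit 105499261) (nat_lit 304) (nat_lit 3764770027) (nat_lit 219) (nat_lit 1) (nat_lit 218) (nat_lit 1) (nat_lit 222) (nat_lit 1) (nat_lit 327) (nat_lit 364) (nat_lit 329))))) (XT.nd (nat_lit 234) (nat_lit 988) (nat_lit 0) (XT.nd (nat_lit 78) (nat_lit 608) (nat_lit 0) (XT.lf (nat_lit 76) (nat_lit 82334402) (nat_lit 0) (nat_lit 2430622630) (nat_lit 380) (nat_lit 3586882813) (nat_lit 215) (nat_lit 1) (nat_lit 214) (nat_lit 1) (nat_lit 219) (nat_lit 1) (nat_lit 328) (nat_lit 364) (nat_lit 328)) (XT.nd (nat_lit 78) (nat_lit 380) (nat_lit 0) (XT.lf (nat_lit 304) (nat_lit 1246412177) (nat_lit 0) (nat_lit 2588764872) (nat_lit 228) (nat_lit 2152077517) (nat_lit 215) (nat_lit 1) (nat_lit 211) (nat_lit 1) (nat_lit 214) (nat_lit 1) (nat_lit 329) (nat_lit 364) (nat_lit 327)) (XT.lf (nat_lit 76) (nat_lit 1570123599) (nat_lit 0) (nat_lit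 1115501056) (nat_lit 380) (nat_lit 3191844334) (nat_lit 207) (nat_lit 1) (nat_lit 206) (nat_lit 1) (nat_lit 211) (nat_lit 1) (nat_lit 330) (nat_lit 364) (nat_lit 326)))) (XT.nd (nat_lit 156) (nat_lit 456) (nat_lit 0) (XT.nd (nat_lit 78) (nat_lit 304) (nat_lit 0) (XT.lf (nat_lit 304) (nat_lit 2349810789) (nat_lit 0) (nat_lit 2795601097) (nat_lit 228) (nat_lit 624798454) (nat_lit 207) (nat_lit 1) (nat_lit 203) (nat_lit 1) (nat_lit 206) (nat_lit 1) (nat_lit 331) (nat_lit 364) (nat_lit 325)) (XT.lf (nat_lit 76) (nat_lit 2884657463) (nat_lit 0) (nat_lit 35232828) (nat_lit 304) (nat_lit 2745582311) (nat_lit 200) (nat_lit 1) (nat_lit 199) (nat_lit 1) (nat_lit 203) (nat_lit 1) (nat_lit 332) (nat_lit 364) (nat_lit 324))) (XT.nd (nat_lit 78) (nat_lit 228) (nat_lit 0) (XT.lf (nat_lit 76) (nat_lit 716885635) (nat_lit 0) (nat_lit 2333219581) (nat_lit 304) (nat_lit 2512866202) (nat_lit 197) (nat_lit 1) (nat_lit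 196) (nat_lit 1) (nat_lit 200) (nat_lit 1) (nat_lit 333) (nat_lit 364) (nat_lit 323)) (XT.lf (nat_lit 304) (nat_lit 859062365) (nat_lit 0) (nat_lit 3193878152) (nat_lit 228) (nat_lit 1409949255) (nat_lit 197) (nat_lit 1) (nat_lit 193) (nat_lit 1) (nat_lit 196) (nat_lit 1) (nat_lit 334) (nat_lit 364) (nat_lit 322)))))) (XT.nd (nat_lit 546) (nat_lit 1520) (nat_lit 0) (XT.nd (nat_lit 234) (nat_lit 836) (nat_lit 0) (XT.nd (nat_lit 78) (nat_lit 456) (nat_lit 0) (XT.lf (nat_lit 76) (nat_lit 1896358001) (nat_lit 0) (nat_lit 1446042865) (nat_lit 304) (nat_lit 2022531682) (nat_lit 190) (nat_lit 1) (nat_lit 189) (nat_lit 1) (nat_lit 193) (nat_lit 1) (nat_lit 335) (nat_lit 364) (nat_lit 321)) (XT.nd (nat_lit 78) (nat_lit 228) (nat_lit 0) (XT.lf (nat_lit 304) (nat_lit 1575942035) (nat_lit 0) (nat_lit 3506039461) (nat_lit 228) (nat_lit 187382348) (nat_lit 190) (nat_lit 1) (nat_lit 186) (nat_lit 1) (nat_lit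 189) (nat_lit 1) (nat_lit 336) (nat_lit 364) (nat_lit 320)) (XT.lf (nat_lit 76) (nat_lit 2941758521) (nat_lit 0) (nat_lit 726102283) (nat_lit 228) (nat_lit 1507792546) (nat_lit 184) (nat_lit 1) (nat_lit 183) (nat_lit 1) (nat_lit 186) (nat_lit 1) (nat_lit 337) (nat_lit 364) (nat_lit 319)))) (XT.nd (nat_lit 156) (nat_lit 380) (nat_lit 0) (XT.nd (nat_lit 78) (nat_lit 228) (nat_lit 0) (XT.lf (nat_lit 76) (nat_lit 884525193) (nat_lit 0) (nat_lit 2953228802) (nat_lit 304) (nat_lit 1246298701) (nat_lit 181) (nat_lit 1) (nat_lit 180) (nat_lit 1) (nat_lit 184) (nat_lit 1) (nat_lit 338) (nat_lit 364) (nat_lit 318)) (XT.lf (nat_lit 76) (nat_lit 3867252678) (nat_lit 0) (nat_lit 150000996) (nat_lit 228) (nat_lit 977317197) (nat_lit 178) (nat_lit 1) (nat_lit 177) (nat_lit 1) (nat_lit 180) (nat_lit 1) (nat_lit 339) (nat_lit 364) (nat_lit 317))) (XT.nd (nat_lit 78) (nat_lit 152) (nat_lit 0) (XT.lf (nat_lit 76)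 (nat_lit 1835910427) (nat_lit 0) (nat_lit 2352808989) (nat_lit 304) (nat_lit 717939632) (nat_lit 175) (nat_lit 1) (nat_lit 174) (nat_lit 1) (nat_lit 178) (nat_lit 1) (nat_lit 340) (nat_lit 364) (nat_lit 316)) (XT.lf (nat_lit 228) (nat_lit 308726900) (nat_lit 0) (nat_lit 4379671216) (nat_lit 152) (nat_lit 132686301) (nat_lit 175) (nat_lit 1) (nat_lit 172) (nat_lit 1) (nat_lit 174) (nat_lit 1) (nat_lit 341) (nat_lit 364) (nat_lit 315))))) (XT.nd (nat_lit 234) (nat_lit 760) (nat_lit 0) (XT.nd (nat_lit 78) (nat_lit 532) (nat_lit 0) (XT.lf (nat_lit 76) (nat_lit 2682518948) (nat_lit 0) (nat_lit 1870885300) (nat_lit 228) (nat_lit 183339952) (nat_lit 170) (nat_lit 1) (nat_lit 169) (nat_lit 1) (nat_lit 172) (nat_lit 1) (nat_lit 342) (nat_lit 364) (nat_lit 314)) (XT.nd (nat_lit 78) (nat_lit 228) (nat_lit 0) (XT.lf (nat_lit 228) (nat_lit 654373939) (nat_lit 0) (nat_lit 90742230) (nat_lit 152) (nat_lit 3909442742)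 (nat_lit 168) (nat_lit 1) (nat_lit 165) (nat_lit 1) (nat_lit 167) (nat_lit 1) (nat_lit 343) (nat_lit 364) (nat_lit 313)) (XT.lf (nat_lit 228) (nat_lit 3079854439) (nat_lit 0) (nat_lit 358703031) (nat_lit 152) (nat_lit 1135198201) (nat_lit 165) (nat_lit 1) (nat_lit 162) (nat_lit 1) (nat_lit 164) (nat_lit 1) (nat_lit 344) (nat_lit 364) (nat_lit 312)))) (XT.nd (nat_lit 156) (nat_lit 380) (nat_lit 0) (XT.nd (nat_lit 78) (nat_lit 228) (nat_lit 0) (XT.lf (nat_lit 228) (nat_lit 903428741) (nat_lit 0) (nat_lit 629178226) (nat_lit 152) (nat_lit 2962106471) (nat_lit 163) (nat_lit 1) (nat_lit 160) (nat_lit 1) (nat_lit 162) (nat_lit 1) (nat_lit 345) (nat_lit 364) (nat_lit 311)) (XT.lf (nat_lit 228) (nat_lit 3212006022) (nat_lit 0) (nat_lit 899907760) (nat_lit 152) (nat_lit 305420452) (nat_lit 160) (nat_lit 1) (nat_lit 157) (nat_lit 1) (nat_lit 159) (nat_lit 1) (nat_lit 346) (nat_lit 364) (nat_lit 310))) (XT.nd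 (nat_lit 78) (nat_lit 228) (nat_lit 0) (XT.lf (nat_lit 228) (nat_lit 1075439308) (nat_lit 0) (nat_lit 1161793141) (nat_lit 152) (nat_lit 2104089070) (nat_lit 158) (nat_lit 1) (nat_lit 155) (nat_lit 1) (nat_lit 157) (nat_lit 1) (nat_lit 347) (nat_lit 364) (nat_lit 309)) (XT.lf (nat_lit 76) (nat_lit 433503438) (nat_lit 0) (nat_lit 994649151) (nat_lit 228) (nat_lit 2838879678) (nat_lit 153) (nat_lit 1) (nat_lit 152) (nat_lit 1) (nat_lit 155) (nat_lit 1) (nat_lit 348) (nat_lit 364) (nat_lit 308))))))) (XT.nd (nat_lit 1092) (nat_lit 1748) (nat_lit 0) (XT.nd (nat_lit 546) (nat_lit 1216) (nat_lit 0) (XT.nd (nat_lit 234) (nat_lit 608) (nat_lit 0) (XT.nd (nat_lit 78) (nat_lit 304) (nat_lit 0) (XT.lf (nat_lit 228) (nat_lit 1182407364) (nat_lit 0) (nat_lit 1684769597) (nat_lit 152) (nat_lit 1326845101) (nat_lit 153) (nat_lit 1) (nat_lit 150) (nat_lit 1) (nat_lit 152) (nat_lit 1) (nat_lit 349) (nat_lit 364)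 (nat_lit 307)) (XT.nd (nat_lit 78) (nat_lit 152) (nat_lit 0) (XT.lf (nat_lit 76) (nat_lit 1093619040) (nat_lit 0) (nat_lit 848544279) (nat_lit 152) (nat_lit 2180404197) (nat_lit 149) (nat_lit 1) (nat_lit 148) (nat_lit 1) (nat_lit 150) (nat_lit 1) (nat_lit 350) (nat_lit 364) (nat_lit 306)) (XT.lf (nat_lit 228) (nat_lit 1234766319) (nat_lit 0) (nat_lit 2194983407) (nat_lit 152) (nat_lit 622733870) (nat_lit 149) (nat_lit 1) (nat_lit 146) (nat_lit 1) (nat_lit 148) (nat_lit 1) (nat_lit 351) (nat_lit 364) (nat_lit 305)))) (XT.nd (nat_lit 156) (nat_lit 304) (nat_lit 0) (XT.nd (nat_lit 78) (nat_lit 152) (nat_lit 0) (XT.lf (nat_lit 76) (nat_lit 1687837160) (nat_lit 0) (nat_lit 754326517) (nat_lit 152) (nat_lit 1541546925) (nat_lit 145) (nat_lit 1) (nat_lit 144) (nat_lit 1) (nat_lit 146) (nat_lit 1) (nat_lit 352) (nat_lit 364) (nat_lit 304)) (XT.lf (nat_lit 76) (nat_lit 14788867) (nat_lit 0) (nat_lit 2674971697)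 (nat_lit 228) (nat_lit 1226636271) (nat_lit 143) (nat_lit 1) (nat_lit 142) (nat_lit 1) (nat_lit 145) (nat_lit 1) (nat_lit 353) (nat_lit 364) (nat_lit 303))) (XT.nd (nat_lit 78) (nat_lit 152) (nat_lit 0) (XT.lf (nat_lit 76) (nat_lit 2222379530) (nat_lit 0) (nat_lit 703528317) (nat_lit 152) (nat_lit 924261268) (nat_lit 141) (nat_lit 1) (nat_lit 140) (nat_lit 1) (nat_lit 142) (nat_lit 1) (nat_lit 354) (nat_lit 364) (nat_lit 302)) (XT.lf (nat_lit 76) (nat_lit 581166791) (nat_lit 0) (nat_lit 2580506472) (nat_lit 228) (nat_lit 623649502) (nat_lit 139) (nat_lit 1) (nat_lit 138) (nat_lit 1) (nat_lit 141) (nat_lit 1) (nat_lit 355) (nat_lit 364) (nat_lit 301))))) (XT.nd (nat_lit 234) (nat_lit 608) (nat_lit 0) (XT.nd (nat_lit 78) (nat_lit 456) (nat_lit 0) (XT.lf (nat_lit 76) (nat_lit 2702820917) (nat_lit 0) (nat_lit 688807168) (nat_lit 152) (nat_lit 330045055) (nat_lit 137) (nat_lit 1) (nat_lit 136) (nat_lit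 1) (nat_lit 138) (nat_lit 1) (nat_lit 356) (nat_lit 364) (nat_lit 300)) (XT.nd (nat_lit 78) (nat_lit 304) (nat_lit 0) (XT.lf (nat_lit 76) (nat_lit 1093939994) (nat_lit 0) (nat_lit 2521331318) (nat_lit 228) (nat_lit 43908321) (nat_lit 135) (nat_lit 1) (nat_lit 134) (nat_lit 1) (nat_lit 137) (nat_lit 1) (nat_lit 357) (nat_lit 364) (nat_lit 299)) (XT.lf (nat_lit 228) (nat_lit 2891743360) (nat_lit 0) (nat_lit 244771290) (nat_lit 152) (nat_lit 461387744) (nat_lit 133) (nat_lit 1) (nat_lit 130) (nat_lit 1) (nat_lit 132) (nat_lit 1) (nat_lit 358) (nat_lit 364) (nat_lit 298)))) (XT.nd (nat_lit 156) (nat_lit 304) (nat_lit 0) (XT.nd (nat_lit 78) (nat_lit 228) (nat_lit 0) (XT.lf (nat_lit 152) (nat_lit 1041178909) (nat_lit 0) (nat_lit 521783697) (nat_lit 76) (nat_lit 1974612432) (nat_lit 131) (nat_lit 1) (nat_lit 129) (nat_lit 1) (nat_lit 130) (nat_lit 1) (nat_lit 359) (nat_lit 364) (nat_lit 297)) (XT.lf (nat_lit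 76) (nat_lit 49007677) (nat_lit 0) (nat_lit 751208713) (nat_lit 228) (nat_lit 2678375433) (nat_lit 127) (nat_lit 1) (nat_lit 126) (nat_lit 1) (nat_lit 129) (nat_lit 1) (nat_lit 360) (nat_lit 364) (nat_lit 296))) (XT.nd (nat_lit 78) (nat_lit 228) (nat_lit 0) (XT.lf (nat_lit 152) (nat_lit 924802007) (nat_lit 0) (nat_lit 1062953023) (nat_lit 76) (nat_lit 1432674373) (nat_lit 127) (nat_lit 1) (nat_lit 125) (nat_lit 1) (nat_lit 126) (nat_lit 1) (nat_lit 361) (nat_lit 364) (nat_lit 295)) (XT.lf (nat_lit 76) (nat_lit 506101846) (nat_lit 0) (nat_lit 819497422) (nat_lit 228) (nat_lit 2037918700) (nat_lit 123) (nat_lit 1) (nat_lit 122) (nat_lit 1) (nat_lit 125) (nat_lit 1) (nat_lit 362) (nat_lit 364) (nat_lit 294)))))) (XT.nd (nat_lit 546) (nat_lit 912) (nat_lit 0) (XT.nd (nat_lit 234) (nat_lit 456) (nat_lit 0) (XT.nd (nat_lit 78) (nat_lit 304) (nat_lit 0) (XT.lf (nat_lit 152) (nat_lit 793481435) (nat_lit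 0) (nat_lit 1578316628) (nat_lit 76) (nat_lit 935749018) (nat_lit 123) (nat_lit 1) (nat_lit 121) (nat_lit 1) (nat_lit 122) (nat_lit 1) (nat_lit 363) (nat_lit 364) (nat_lit 293)) (XT.nd (nat_lit 78) (nat_lit 76) (nat_lit 0) (XT.lf (nat_lit 76) (nat_lit 922654599) (nat_lit 0) (nat_lit 902546389) (nat_lit 228) (nat_lit 1427411630) (nat_lit 119) (nat_lit 1) (nat_lit 118) (nat_lit 1) (nat_lit 121) (nat_lit 1) (nat_lit 364) (nat_lit 364) (nat_lit 292)) (XT.lf (nat_lit 152) (nat_lit 650920641) (nat_lit 0) (nat_lit 2067697846) (nat_lit 76) (nat_lit 480115214) (nat_lit 119) (nat_lit 1) (nat_lit 117) (nat_lit 1) (nat_lit 118) (nat_lit 1) (nat_lit 365) (nat_lit 364) (nat_lit 291)))) (XT.nd (nat_lit 156) (nat_lit 228) (nat_lit 0) (XT.nd (nat_lit 78) (nat_lit 76) (nat_lit 0) (XT.lf (nat_lit 76) (nat_lit 1302059289) (nat_lit 0) (nat_lit 996887846) (nat_lit 152) (nat_lit 846740848) (nat_lit 116) (nat_lit 1) (nat_lit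 115) (nat_lit 1) (nat_lit 117) (nat_lit 1) (nat_lit 366) (nat_lit 364) (nat_lit 290)) (XT.lf (nat_lit 152) (nat_lit 500284293) (nat_lit 0) (nat_lit 2531116252) (nat_lit 76) (nat_lit 62407201) (nat_lit 116) (nat_lit 1) (nat_lit 114) (nat_lit 1) (nat_lit 115) (nat_lit 1) (nat_lit 367) (nat_lit 364) (nat_lit 289))) (XT.nd (nat_lit 78) (nat_lit 76) (nat_lit 0) (XT.lf (nat_lit 76) (nat_lit 1647385455) (nat_lit 0) (nat_lit 1099556889) (nat_lit 152) (nat_lit 295626153) (nat_lit 113) (nat_lit 1) (nat_lit 112) (nat_lit 1) (nat_lit 114) (nat_lit 1) (nat_lit 368) (nat_lit 364) (nat_lit 288)) (XT.lf (nat_lit 0) (nat_lit 314171068) (nat_lit 0) (nat_lit 2651412528) (nat_lit 152) (nat_lit 26923369) (nat_lit 111) (nat_lit 3) (nat_lit 111) (nat_lit 1) (nat_lit 113) (nat_lit 1) (nat_lit 369) (nat_lit 364) (nat_lit 287))))) (XT.nd (nat_lit 234) (nat_lit 456) (nat_lit 0) (XT.nd (nat_lit 78) (nat_lit 228) (nat_lit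 0) (XT.lf (nat_lit 152) (nat_lit 1732776615) (nat_lit 0) (nat_lit 230856149) (nat_lit 76) (nat_lit 979390351) (nat_lit 110) (nat_lit 1) (nat_lit 108) (nat_lit 1) (nat_lit 109) (nat_lit 1) (nat_lit 370) (nat_lit 364) (nat_lit 286)) (XT.nd (nat_lit 78) (nat_lit 152) (nat_lit 0) (XT.lf (nat_lit 76) (nat_lit 173665983) (nat_lit 0) (nat_lit 489081903) (nat_lit 76) (nat_lit 2231866859) (nat_lit 108) (nat_lit 3) (nat_lit 107) (nat_lit 1) (nat_lit 108) (nat_lit 1) (nat_lit 371) (nat_lit 364) (nat_lit 285)) (XT.lf (nat_lit 152) (nat_lit 1519673759) (nat_lit 0) (nat_lit 734048552) (nat_lit 76) (nat_lit 593163202) (nat_lit 107) (nat_lit 1) (nat_lit 105) (nat_lit 1) (nat_lit 106) (nat_lit 1) (nat_lit 372) (nat_lit 364) (nat_lit 284)))) (XT.nd (nat_lit 156) (nat_lit 228) (nat_lit 0) (XT.nd (nat_lit 78) (nat_lit 152) (nat_lit 0) (XT.lf (nat_lit 76) (nat_lit 5374541) (nat_lit 0) (nat_lit 976916474) (nat_lit 76)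 (nat_lit 1817849169) (nat_lit 105) (nat_lit 3) (nat_lit 104) (nat_lit 1) (nat_lit 105) (nat_lit 1) (nat_lit 373) (nat_lit 364) (nat_lit 283)) (XT.lf (nat_lit 152) (nat_lit 1308347383) (nat_lit 0) (nat_lit 1208706045) (nat_lit 76) (nat_lit 237043884) (nat_lit 104) (nat_lit 1) (nat_lit 102) (nat_lit 1) (nat_lit 103) (nat_lit 1) (nat_lit 374) (nat_lit 364) (nat_lit 282))) (XT.nd (nat_lit 78) (nat_lit 76) (nat_lit 0) (XT.lf (nat_lit 76) (nat_lit 1276340513) (nat_lit 0) (nat_lit 158760157) (nat_lit 152) (nat_lit 1273802236) (nat_lit 101) (nat_lit 1) (nat_lit 100) (nat_lit 1) (nat_lit 102) (nat_lit 1) (nat_lit 375) (nat_lit 364) (nat_lit 281)) (XT.lf (nat_lit 0) (nat_lit 89416650) (nat_lit 0) (nat_lit 1565223729) (nat_lit 152) (nat_lit 1009854908) (nat_lit 99) (nat_lit 3) (nat_lit 99) (nat_lit 1) (nat_lit 101) (nat_lit 1) (nat_lit 376) (nat_lit 364) (nat_lit 280))))))))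
noncomputable def ec50 : XT := (XT.nd (nat_lit 46956) (nat_lit 0) (nat_lit 11552) (XT.nd (nat_lit 1092) (nat_lit 760) (nat_lit 0) (XT.nd (nat_lit 546) (nat_lit 836) (nat_lit 0) (XT.nd (nat_lit 234) (nat_lit 532) (nat_lit 0) (XT.nd (nat_lit 78) (nat_lit 228) (nat_lit 0) (XT.lf (nat_lit 76) (nat_lit 1545418525) (nat_lit 0) (nat_lit 320518295) (nat_lit 152) (nat_lit 754878411) (nat_lit 98) (nat_lit 1) (nat_lit 97) (nat_lit 1) (nat_lit 99) (nat_lit 1) (nat_lit 377) (nat_lit 364) (nat_lit 279)) (XT.nd (nat_lit 78) (nat_lit 152) (nat_lit 0) (XT.lf (nat_lit 0) (nat_lit 385912957) (nat_lit 0) (nat_lit 1685525118) (nat_lit 152) (nat_lit 506477534) (nat_lit 96) (nat_lit 3) (nat_lit 96) (nat_lit 1) (nat_lit 98) (nat_lit 1) (nat_lit 378) (nat_lit 364) (nat_lit 278)) (XT.lf (nat_lit 76) (nat_lit 1791334225) (nat_lit 0) (nat_lit 478938951) (nat_lit 152) (nat_lit 265479794) (nat_lit 95) (nat_lit 1) (nat_lit 94)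 (nat_lit 1) (nat_lit 96) (nat_lit 1) (nat_lit 379) (nat_lit 364) (nat_lit 277)))) (XT.nd (nat_lit 156) (nat_lit 228) (nat_lit 0) (XT.nd (nat_lit 78) (nat_lit 228) (nat_lit 0) (XT.lf (nat_lit 0) (nat_lit 658897730) (nat_lit 0) (nat_lit 1803350682) (nat_lit 152) (nat_lit 32055527) (nat_lit 93) (nat_lit 3) (nat_lit 93) (nat_lit 1) (nat_lit 95) (nat_lit 1) (nat_lit 380) (nat_lit 364) (nat_lit 276)) (XT.lf (nat_lit 152) (nat_lit 1818470593) (nat_lit 0) (nat_lit 199235098) (nat_lit 76) (nat_lit 435834010) (nat_lit 92) (nat_lit 1) (nat_lit 90) (nat_lit 1) (nat_lit 91) (nat_lit 1) (nat_lit 381) (nat_lit 364) (nat_lit 275))) (XT.nd (nat_lit 78) (nat_lit 152) (nat_lit 0) (XT.lf (nat_lit 76) (nat_lit 491496172) (nat_lit 0) (nat_lit 422611897) (nat_lit 76) (nat_lit 1499314195) (nat_lit 90) (nat_lit 3) (nat_lit 89) (nat_lit 1) (nat_lit 90) (nat_lit 1) (nat_lit 382) (nat_lit 364) (nat_lit 274)) (XT.lf (nat_lit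 152) (nat_lit 1585421795) (nat_lit 0) (nat_lit 641088943) (nat_lit 76) (nat_lit 147539447) (nat_lit 89) (nat_lit 1) (nat_lit 87) (nat_lit 1) (nat_lit 88) (nat_lit 1) (nat_lit 383) (nat_lit 364) (nat_lit 273))))) (XT.nd (nat_lit 234) (nat_lit 532) (nat_lit 0) (XT.nd (nat_lit 78) (nat_lit 228) (nat_lit 0) (XT.lf (nat_lit 76) (nat_lit 298716831) (nat_lit 0) (nat_lit 850351426) (nat_lit 76) (nat_lit 1186212613) (nat_lit 87) (nat_lit 3) (nat_lit 86) (nat_lit 1) (nat_lit 87) (nat_lit 1) (nat_lit 384) (nat_lit 364) (nat_lit 272)) (XT.nd (nat_lit 78) (nat_lit 76) (nat_lit 0) (XT.lf (nat_lit 0) (nat_lit 117005144) (nat_lit 0) (nat_lit 937620754) (nat_lit 152) (nat_lit 1242594937) (nat_lit 84) (nat_lit 3) (nat_lit 84) (nat_lit 1) (nat_lit 86) (nat_lit 1) (nat_lit 385) (nat_lit 364) (nat_lit 271)) (XT.lf (nat_lit 76) (nat_lit 113358475) (nat_lit 0) (nat_lit 1251528745) (nat_lit 76) (nat_lit 894897152) (nat_lit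 84) (nat_lit 3) (nat_lit 83) (nat_lit 1) (nat_lit 84) (nat_lit 1) (nat_lit 386) (nat_lit 364) (nat_lit 270)))) (XT.nd (nat_lit 156) (nat_lit 228) (nat_lit 0) (XT.nd (nat_lit 78) (nat_lit 152) (nat_lit 0) (XT.lf (nat_lit 0) (nat_lit 359068297) (nat_lit 0) (nat_lit 1081711548) (nat_lit 152) (nat_lit 782167513) (nat_lit 81) (nat_lit 3) (nat_lit 81) (nat_lit 1) (nat_lit 83) (nat_lit 1) (nat_lit 387) (nat_lit 364) (nat_lit 269)) (XT.lf (nat_lit 76) (nat_lit 1563494159) (nat_lit 0) (nat_lit 63020625) (nat_lit 152) (nat_lit 560299798) (nat_lit 80) (nat_lit 1) (nat_lit 79) (nat_lit 1) (nat_lit 81) (nat_lit 1) (nat_lit 388) (nat_lit 364) (nat_lit 268))) (XT.nd (nat_lit 78) (nat_lit 152) (nat_lit 0) (XT.lf (nat_lit 0) (nat_lit 582822687) (nat_lit 0) (nat_lit 1219190387) (nat_lit 152) (nat_lit 349161864) (nat_lit 78) (nat_lit 3) (nat_lit 78) (nat_lit 1) (nat_lit 80) (nat_lit 1) (nat_lit 389) (nat_lit 364)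 (nat_lit 267)) (XT.lf (nat_lit 76) (nat_lit 1746494773) (nat_lit 0) (nat_lit 229412111) (nat_lit 152) (nat_lit 140357891) (nat_lit 77) (nat_lit 1) (nat_lit 76) (nat_lit 1) (nat_lit 78) (nat_lit 1) (nat_lit 390) (nat_lit 364) (nat_lit 266)))))) (XT.nd (nat_lit 45318) (nat_lit 0) (nat_lit 23484) (XT.nd (nat_lit 234) (nat_lit 380) (nat_lit 0) (XT.nd (nat_lit 78) (nat_lit 228) (nat_lit 0) (XT.lf (nat_lit 76) (nat_lit 731372893) (nat_lit 0) (nat_lit 58655644) (nat_lit 76) (nat_lit 1291765382) (nat_lit 75) (nat_lit 3) (nat_lit 74) (nat_lit 1) (nat_lit 75) (nat_lit 1) (nat_lit 391) (nat_lit 364) (nat_lit 265)) (XT.nd (nat_lit 78) (nat_lit 76) (nat_lit 0) (XT.lf (nat_lit 152) (nat_lit 1657605780) (nat_lit 0) (nat_lit 258798506) (nat_lit 76) (nat_lit 131598359) (nat_lit 74) (nat_lit 1) (nat_lit 72) (nat_lit 1) (nat_lit 73) (nat_lit 1) (nat_lit 392) (nat_lit 364) (nat_lit 264)) (XT.lf (nat_lit 76) (nat_lit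 536744031) (nat_lit 0) (nat_lit 447661583) (nat_lit 76) (nat_lit 1030231901) (nat_lit 72) (nat_lit 3) (nat_lit 71) (nat_lit 1) (nat_lit 72) (nat_lit 1) (nat_lit 393) (nat_lit 364) (nat_lit 263)))) (XT.nd (nat_lit 156) (nat_lit 152) (nat_lit 0) (XT.nd (nat_lit 78) (nat_lit 76) (nat_lit 0) (XT.lf (nat_lit 0) (nat_lit 89145976) (nat_lit 0) (nat_lit 545445441) (nat_lit 152) (nat_lit 1347364965) (nat_lit 69) (nat_lit 3) (nat_lit 69) (nat_lit 1) (nat_lit 71) (nat_lit 1) (nat_lit 394) (nat_lit 364) (nat_lit 262)) (XT.lf (nat_lit 76) (nat_lit 351583916) (nat_lit 0) (nat_lit 811984945) (nat_lit 76) (nat_lit 786154834) (nat_lit 69) (nat_lit 3) (nat_lit 68) (nat_lit 1) (nat_lit 69) (nat_lit 1) (nat_lit 395) (nat_lit 364) (nat_lit 261))) (XT.nd (nat_lit 44850) (nat_lit 0) (nat_lit 23408) (XT.lf (nat_lit 0) (nat_lit 291616745) (nat_lit 0) (nat_lit 693439139) (nat_lit 152) (nat_lit 933021595) (nat_lit 66) (nat_lit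 3) (nat_lit 66) (nat_lit 1) (nat_lit 68) (nat_lit 1) (nat_lit 396) (nat_lit 364) (nat_lit 260)) (XT.lf (nat_lit 1292) (nat_lit 1262981979) (nat_lit 0) (nat_lit 4345245384) (nat_lit 1292) (nat_lit 1262981979) (nat_lit 391) (nat_lit 1) (nat_lit 374) (nat_lit 0) (nat_lit 391) (nat_lit 0) (nat_lit 290) (nat_lit 365) (nat_lit 365))))) (XT.nd (nat_lit 234) (nat_lit 0) (nat_lit 152) (XT.nd (nat_lit 78) (nat_lit 0) (nat_lit 0) (XT.lf (nat_lit 1292) (nat_lit 101255479) (nat_lit 0) (nat_lit 8567910175) (nat_lit 1216) (nat_lit 4743522513) (nat_lit 392) (nat_lit 1) (nat_lit 375) (nat_lit 1) (nat_lit 391) (nat_lit 1) (nat_lit 291) (nat_lit 365) (nat_lit 364)) (XT.nd (nat_lit 78) (nat_lit 0) (nat_lit 76) (XT.lf (nat_lit 1292) (nat_lit 4454805735) (nat_lit 76) (nat_lit 6301159698) (nat_lit 0) (nat_lit 2337081435) (nat_lit 392) (nat_lit 1) (nat_lit 376) (nat_lit 1) (nat_lit 375) (nat_lit 1) (nat_lit 292) (nat_lit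 365) (nat_lit 363)) (XT.lf (nat_lit 1292) (nat_lit 3916151988) (nat_lit 76) (nat_lit 4124559914) (nat_lit 0) (nat_lit 4743043276) (nat_lit 393) (nat_lit 1) (nat_lit 377) (nat_lit 1) (nat_lit 376) (nat_lit 1) (nat_lit 293) (nat_lit 365) (nat_lit 362)))) (XT.nd (nat_lit 156) (nat_lit 0) (nat_lit 152) (XT.nd (nat_lit 78) (nat_lit 0) (nat_lit 76) (XT.lf (nat_lit 1292) (nat_lit 3240879465) (nat_lit 76) (nat_lit 2130550638) (nat_lit 0) (nat_lit 7113035280) (nat_lit 394) (nat_lit 1) (nat_lit 378) (nat_lit 1) (nat_lit 377) (nat_lit 1) (nat_lit 294) (nat_lit 365) (nat_lit 361)) (XT.lf (nat_lit 1292) (nat_lit 2439401798) (nat_lit 76) (nat_lit 309750550) (nat_lit 0) (nat_lit 9445662679) (nat_lit 395) (nat_lit 1) (nat_lit 379) (nat_lit 1) (nat_lit 378) (nat_lit 1) (nat_lit 295) (nat_lit 365) (nat_lit 360))) (XT.nd (nat_lit 78) (nat_lit 0) (nat_lit 0) (XT.lf (nat_lit 1292) (nat_lit 187698959) (nat_lit 0) (nat_lit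 10405863686) (nat_lit 1216) (nat_lit 1320505025) (nat_lit 396) (nat_lit 1) (nat_lit 379) (nat_lit 1) (nat_lit 395) (nat_lit 1) (nat_lit 296) (nat_lit 365) (nat_lit 359)) (XT.lf (nat_lit 1292) (nat_lit 444887367) (nat_lit 76) (nat_lit 8826748016) (nat_lit 0) (nat_lit 2369914195) (nat_lit 396) (nat_lit 1) (nat_lit 380) (nat_lit 1) (nat_lit 379) (nat_lit 1) (nat_lit 297) (nat_lit 365) (nat_lit 358))))))) (XT.nd (nat_lit 1092) (nat_lit 5320) (nat_lit 0) (XT.nd (nat_lit 546) (nat_lit 3268) (nat_lit 0) (XT.nd (nat_lit 234) (nat_lit 2432) (nat_lit 0) (XT.nd (nat_lit 78) (nat_lit 0) (nat_lit 76) (XT.lf (nat_lit 1368) (nat_lit 6502023825) (nat_lit 0) (nat_lit 702800774) (nat_lit 1292) (nat_lit 4172637637) (nat_lit 381) (nat_lit 1) (nat_lit 363) (nat_lit 1) (nat_lit 380) (nat_lit 1) (nat_lit 298) (nat_lit 365) (nat_lit 357)) (XT.nd (nat_lit 78) (nat_lit 0) (nat_lit 76) (XT.lf (nat_lit 1368) (nat_lit 3795196064)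 (nat_lit 0) (nat_lit 1928402536) (nat_lit 1292) (nat_lit 5398004693) (nat_lit 382) (nat_lit 1) (nat_lit 364) (nat_lit 1) (nat_lit 381) (nat_lit 1) (nat_lit 299) (nat_lit 365) (nat_lit 356)) (XT.lf (nat_lit 76) (nat_lit 1146928384) (nat_lit 0) (nat_lit 3233081312) (nat_lit 1292) (nat_lit 6493795244) (nat_lit 366) (nat_lit 1) (nat_lit 365) (nat_lit 1) (nat_lit 382) (nat_lit 1) (nat_lit 300) (nat_lit 365) (nat_lit 355)))) (XT.nd (nat_lit 156) (nat_lit 1140) (nat_lit 0) (XT.nd (nat_lit 78) (nat_lit 608) (nat_lit 0) (XT.lf (nat_lit 912) (nat_lit 6009450378) (nat_lit 0) (nat_lit 3152367742) (nat_lit 836) (nat_lit 1471540127) (nat_lit 366) (nat_lit 1) (nat_lit 354) (nat_lit 1) (nat_lit 365) (nat_lit 1) (nat_lit 301) (nat_lit 365) (nat_lit 354)) (XT.lf (nat_lit 684) (nat_lit 4309339500) (nat_lit 0) (nat_lit 2037458895) (nat_lit 608) (nat_lit 4053295509) (nat_lit 355) (nat_lit 1) (nat_lit 346) (nat_lit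 1) (nat_lit 354) (nat_lit 1) (nat_lit 302) (nat_lit 365) (nat_lit 353))) (XT.nd (nat_lit 78) (nat_lit 532) (nat_lit 0) (XT.lf (nat_lit 684) (nat_lit 2557964243) (nat_lit 0) (nat_lit 1040385579) (nat_lit 608) (nat_lit 6575736436) (nat_lit 347) (nat_lit 1) (nat_lit 338) (nat_lit 1) (nat_lit 346) (nat_lit 1) (nat_lit 303) (nat_lit 365) (nat_lit 352)) (XT.lf (nat_lit 608) (nat_lit 760948691) (nat_lit 0) (nat_lit 154967758) (nat_lit 532) (nat_lit 9039166012) (nat_lit 339) (nat_lit 1) (nat_lit 331) (nat_lit 1) (nat_lit 338) (nat_lit 1) (nat_lit 304) (nat_lit 365) (nat_lit 351))))) (XT.nd (nat_lit 234) (nat_lit 2052) (nat_lit 0) (XT.nd (nat_lit 78) (nat_lit 1140) (nat_lit 0) (XT.lf (nat_lit 76) (nat_lit 8023881056) (nat_lit 0) (nat_lit 1078273479) (nat_lit 608) (nat_lit 639688987) (nat_lit 331) (nat_lit 1) (nat_lit 330) (nat_lit 1) (nat_lit 338) (nat_lit 1) (nat_lit 305) (nat_lit 365) (nat_lit 350)) (XT.nd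 (nat_lit 78) (nat_lit 532) (nat_lit 0) (XT.lf (nat_lit 76) (nat_lit 5239087121) (nat_lit 0) (nat_lit 2946327240) (nat_lit 684) (nat_lit 1349218806) (nat_lit 323) (nat_lit 1) (nat_lit 322) (nat_lit 1) (nat_lit 331) (nat_lit 1) (nat_lit 306) (nat_lit 365) (nat_lit 349)) (XT.lf (nat_lit 76) (nat_lit 2525264181) (nat_lit 0) (nat_lit 4843016776) (nat_lit 608) (nat_lit 1965481293) (nat_lit 316) (nat_lit 1) (nat_lit 315) (nat_lit 1) (nat_lit 323) (nat_lit 1) (nat_lit 307) (nat_lit 365) (nat_lit 348)))) (XT.nd (nat_lit 156) (nat_lit 1064) (nat_lit 0) (XT.nd (nat_lit 78) (nat_lit 456) (nat_lit 0) (XT.lf (nat_lit 608) (nat_lit 2373674024) (nat_lit 0) (nat_lit 6644361977) (nat_lit 532) (nat_lit 120943095) (nat_lit 316) (nat_lit 1) (nat_lit 308) (nat_lit 1) (nat_lit 315) (nat_lit 1) (nat_lit 308) (nat_lit 365) (nat_lit 347)) (XT.lf (nat_lit 532) (nat_lit 217204663) (nat_lit 0) (nat_lit 5985094091) (nat_lit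 456) (nat_lit 2747088764) (nat_lit 309) (nat_lit 1) (nat_lit 302) (nat_lit 1) (nat_lit 308) (nat_lit 1) (nat_lit 309) (nat_lit 365) (nat_lit 346))) (XT.nd (nat_lit 78) (nat_lit 456) (nat_lit 0) (XT.lf (nat_lit 76) (nat_lit 3480277041) (nat_lit 0) (nat_lit 1911656472) (nat_lit 608) (nat_lit 3373033401) (nat_lit 295) (nat_lit 1) (nat_lit 294) (nat_lit 1) (nat_lit 302) (nat_lit 1) (nat_lit 310) (nat_lit 365) (nat_lit 345)) (XT.lf (nat_lit 76) (nat_lit 834088318) (nat_lit 0) (nat_lit 4043350966) (nat_lit 532) (nat_lit 3708581973) (nat_lit 289) (nat_lit 1) (nat_lit 288) (nat_lit 1) (nat_lit 295) (nat_lit 1) (nat_lit 311) (nat_lit 365) (nat_lit 344)))))) (XT.nd (nat_lit 546) (nat_lit 2356) (nat_lit 0) (XT.nd (nat_lit 234) (nat_lit 1596) (nat_lit 0) (XT.nd (nat_lit 78) (nat_lit 912) (nat_lit 0) (XT.lf (nat_lit 532) (nat_lit 2215687044) (nat_lit 0) (nat_lit 4421908533) (nat_lit 456) (nat_lit 1774320463)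 (nat_lit 289) (nat_lit 1) (nat_lit 282) (nat_lit 1) (nat_lit 288) (nat_lit 1) (nat_lit 312) (nat_lit 365) (nat_lit 343)) (XT.nd (nat_lit 78) (nat_lit 456) (nat_lit 0) (XT.lf (nat_lit 76) (nat_lit 3917004143) (nat_lit 0) (nat_lit 112968877) (nat_lit 456) (nat_lit 4212753659) (nat_lit 277) (nat_lit 1) (nat_lit 276) (nat_lit 1) (nat_lit 282) (nat_lit 1) (nat_lit 313) (nat_lit 365) (nat_lit 342)) (XT.lf (nat_lit 76) (nat_lit 1293747839) (nat_lit 0) (nat_lit 2391662552) (nat_lit 532) (nat_lit 4392511934) (nat_lit 271) (nat_lit 1) (nat_lit 270) (nat_lit 1) (nat_lit 277) (nat_lit 1) (nat_lit 314) (nat_lit 365) (nat_lit 341)))) (XT.nd (nat_lit 156) (nat_lit 836) (nat_lit 0) (XT.nd (nat_lit 78) (nat_lit 380) (nat_lit 0) (XT.lf (nat_lit 456) (nat_lit 3243811709) (nat_lit 0) (nat_lit 3393769001) (nat_lit 380) (nat_lit 1280026629) (nat_lit 271) (nat_lit 1) (nat_lit 265) (nat_lit 1) (nat_lit 270) (nat_lit 1)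 (nat_lit 315) (nat_lit 365) (nat_lit 340)) (XT.lf (nat_lit 456) (nat_lit 804574539) (nat_lit 0) (nat_lit 3151847894) (nat_lit 380) (nat_lit 3805209904) (nat_lit 266) (nat_lit 1) (nat_lit 260) (nat_lit 1) (nat_lit 265) (nat_lit 1) (nat_lit 316) (nat_lit 365) (nat_lit 339))) (XT.nd (nat_lit 78) (nat_lit 380) (nat_lit 0) (XT.lf (nat_lit 76) (nat_lit 1368116395) (nat_lit 0) (nat_lit 1585187656) (nat_lit 456) (nat_lit 4656453437) (nat_lit 255) (nat_lit 1) (nat_lit 254) (nat_lit 1) (nat_lit 260) (nat_lit 1) (nat_lit 317) (nat_lit 365) (nat_lit 338)) (XT.lf (nat_lit 456) (nat_lit 3510401282) (nat_lit 0) (nat_lit 2791643855) (nat_lit 380) (nat_lit 1159694489) (nat_lit 255) (nat_lit 1) (nat_lit 249) (nat_lit 1) (nat_lit 254) (nat_lit 1) (nat_lit 318) (nat_lit 365) (nat_lit 337))))) (XT.nd (nat_lit 234) (nat_lit 1292) (nat_lit 0) (XT.nd (nat_lit 78) (nat_lit 760) (nat_lit 0) (XT.lf (nat_lit 380) (nat_lit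 1007854308) (nat_lit 0) (nat_lit 2670160638) (nat_lit 304) (nat_lit 3639606723) (nat_lit 250) (nat_lit 1) (nat_lit 245) (nat_lit 1) (nat_lit 249) (nat_lit 1) (nat_lit 319) (nat_lit 365) (nat_lit 336)) (XT.nd (nat_lit 78) (nat_lit 304) (nat_lit 0) (XT.lf (nat_lit 76) (nat_lit 1145643735) (nat_lit 0) (nat_lit 1439529196) (nat_lit 456) (nat_lit 4592071463) (nat_lit 240) (nat_lit 1) (nat_lit 239) (nat_lit 1) (nat_lit 245) (nat_lit 1) (nat_lit 320) (nat_lit 365) (nat_lit 335)) (XT.lf (nat_lit 380) (nat_lit 3187171591) (nat_lit 0) (nat_lit 2525540805) (nat_lit 304) (nat_lit 1327519937) (nat_lit 240) (nat_lit 1) (nat_lit 235) (nat_lit 1) (nat_lit 239) (nat_lit 1) (nat_lit 321) (nat_lit 365) (nat_lit 334)))) (XT.nd (nat_lit 156) (nat_lit 608) (nat_lit 0) (XT.nd (nat_lit 78) (nat_lit 380) (nat_lit 0) (XT.lf (nat_lit 380) (nat_lit 657507861) (nat_lit 0) (nat_lit 2500872255) (nat_lit 304) (nat_lit 3748435184)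 (nat_lit 236) (nat_lit 1) (nat_lit 231) (nat_lit 1) (nat_lit 235) (nat_lit 1) (nat_lit 322) (nat_lit 365) (nat_lit 333)) (XT.lf (nat_lit 76) (nat_lit 698735254) (nat_lit 0) (nat_lit 1803206785) (nat_lit 380) (nat_lit 4274733480) (nat_lit 227) (nat_lit 1) (nat_lit 226) (nat_lit 1) (nat_lit 231) (nat_lit 1) (nat_lit 323) (nat_lit 365) (nat_lit 332))) (XT.nd (nat_lit 78) (nat_lit 304) (nat_lit 0) (XT.lf (nat_lit 380) (nat_lit 2414925054) (nat_lit 0) (nat_lit 2521350327) (nat_lit 304) (nat_lit 1713273934) (nat_lit 227) (nat_lit 1) (nat_lit 222) (nat_lit 1) (nat_lit 226) (nat_lit 1) (nat_lit 324) (nat_lit 365) (nat_lit 331)) (XT.lf (nat_lit 76) (nat_lit 2462005224) (nat_lit 0) (nat_lit 110774224) (nat_lit 304) (nat_lit 3953008529) (nat_lit 219) (nat_lit 1) (nat_lit 218) (nat_lit 1) (nat_lit 222) (nat_lit 1) (nat_lit 325) (nat_lit 365) (nat_lit 330))))))))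
noncomputable def ec51 : XT := (XT.nd (nat_lit 2184) (nat_lit 3876) (nat_lit 0) (XT.nd (nat_lit 1092) (nat_lit 2584) (nat_lit 0) (XT.nd (nat_lit 546) (nat_lit 1596) (nat_lit 0) (XT.nd (nat_lit 234) (nat_lit 988) (nat_lit 0) (XT.nd (nat_lit 78) (nat_lit 608) (nat_lit 0) (XT.lf (nat_lit 76) (nat_lit 86451122) (nat_lit 0) (nat_lit 2552153762) (nat_lit 380) (nat_lit 3766226954) (nat_lit 215) (nat_lit 1) (nat_lit 214) (nat_lit 1) (nat_lit 219) (nat_lit 1) (nat_lit 326) (nat_lit 365) (nat_lit 329)) (XT.nd (nat_lit 78) (nat_lit 380) (nat_lit 0) (XT.lf (nat_lit 304) (nat_lit 1308732786) (nat_lit 0) (nat_lit 2718203116) (nat_lit 228) (nat_lit 2259681393) (nat_lit 215) (nat_lit 1) (nat_lit 211) (nat_lit 1) (nat_lit 214) (nat_lit 1) (nat_lit 327) (nat_lit 365) (nat_lit 328)) (XT.lf (nat_lit 76) (nat_lit 1648629779) (nat_lit 0) (nat_lit 1171276109) (nat_lit 380) (nat_lit 3351436550) (nat_lit 207) (nat_lit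 1) (nat_lit 206) (nat_lit 1) (nat_lit 211) (nat_lit 1) (nat_lit 328) (nat_lit 365) (nat_lit 327)))) (XT.nd (nat_lit 156) (nat_lit 456) (nat_lit 0) (XT.nd (nat_lit 78) (nat_lit 304) (nat_lit 0) (XT.lf (nat_lit 304) (nat_lit 2467301328) (nat_lit 0) (nat_lit 2935381152) (nat_lit 228) (nat_lit 656038377) (nat_lit 207) (nat_lit 1) (nat_lit 203) (nat_lit 1) (nat_lit 206) (nat_lit 1) (nat_lit 329) (nat_lit 365) (nat_lit 326)) (XT.lf (nat_lit 76) (nat_lit 3028890337) (nat_lit 0) (nat_lit 36994470) (nat_lit 304) (nat_lit 2882861427) (nat_lit 200) (nat_lit 1) (nat_lit 199) (nat_lit 1) (nat_lit 203) (nat_lit 1) (nat_lit 330) (nat_lit 365) (nat_lit 325))) (XT.nd (nat_lit 78) (nat_lit 228) (nat_lit 0) (XT.lf (nat_lit 76) (nat_lit 752729917) (nat_lit 0) (nat_lit 2449880560) (nat_lit 304) (nat_lit 2638509512) (nat_lit 197) (nat_lit 1) (nat_lit 196) (nat_lit 1) (nat_lit 200) (nat_lit 1) (nat_lit 331) (nat_lit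 365) (nat_lit 324)) (XT.lf (nat_lit 304) (nat_lit 902015483) (nat_lit 0) (nat_lit 3353572060) (nat_lit 228) (nat_lit 1480446718) (nat_lit 197) (nat_lit 1) (nat_lit 193) (nat_lit 1) (nat_lit 196) (nat_lit 1) (nat_lit 332) (nat_lit 365) (nat_lit 323))))) (XT.nd (nat_lit 234) (nat_lit 836) (nat_lit 0) (XT.nd (nat_lit 78) (nat_lit 456) (nat_lit 0) (XT.lf (nat_lit 76) (nat_lit 1991175901) (nat_lit 0) (nat_lit 1518345008) (nat_lit 304) (nat_lit 2123658266) (nat_lit 190) (nat_lit 1) (nat_lit 189) (nat_lit 1) (nat_lit 193) (nat_lit 1) (nat_lit 333) (nat_lit 365) (nat_lit 322)) (XT.nd (nat_lit 78) (nat_lit 228) (nat_lit 0) (XT.lf (nat_lit 304) (nat_lit 1654739136) (nat_lit 0) (nat_lit 3681341434) (nat_lit 228) (nat_lit 196751465) (nat_lit 190) (nat_lit 1) (nat_lit 186) (nat_lit 1) (nat_lit 189) (nat_lit 1) (nat_lit 334) (nat_lit 365) (nat_lit 321)) (XT.lf (nat_lit 76) (nat_lit 3088846447) (nat_lit 0) (nat_lit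 762407397) (nat_lit 228) (nat_lit 1583182173) (nat_lit 184) (nat_lit 1) (nat_lit 183) (nat_lit 1) (nat_lit 186) (nat_lit 1) (nat_lit 335) (nat_lit 365) (nat_lit 320)))) (XT.nd (nat_lit 156) (nat_lit 380) (nat_lit 0) (XT.nd (nat_lit 78) (nat_lit 228) (nat_lit 0) (XT.lf (nat_lit 76) (nat_lit 928751453) (nat_lit 0) (nat_lit 3100890242) (nat_lit 304) (nat_lit 1308613636) (nat_lit 181) (nat_lit 1) (nat_lit 180) (nat_lit 1) (nat_lit 184) (nat_lit 1) (nat_lit 336) (nat_lit 365) (nat_lit 319)) (XT.lf (nat_lit 76) (nat_lit 4060615312) (nat_lit 0) (nat_lit 157501046) (nat_lit 228) (nat_lit 1026183057) (nat_lit 178) (nat_lit 1) (nat_lit 177) (nat_lit 1) (nat_lit 180) (nat_lit 1) (nat_lit 337) (nat_lit 365) (nat_lit 318))) (XT.nd (nat_lit 78) (nat_lit 152) (nat_lit 0) (XT.lf (nat_lit 76) (nat_lit 1927705948) (nat_lit 0) (nat_lit 2470449438) (nat_lit 304) (nat_lit 753836614) (nat_lit 175) (nat_lit 1) (nat_lit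 174) (nat_lit 1) (nat_lit 178) (nat_lit 1) (nat_lit 338) (nat_lit 365) (nat_lit 317)) (XT.lf (nat_lit 228) (nat_lit 324163245) (nat_lit 0) (nat_lit 4598654776) (nat_lit 152) (nat_lit 139320616) (nat_lit 175) (nat_lit 1) (nat_lit 172) (nat_lit 1) (nat_lit 174) (nat_lit 1) (nat_lit 339) (nat_lit 365) (nat_lit 316)))))) (XT.nd (nat_lit 546) (nat_lit 1064) (nat_lit 0) (XT.nd (nat_lit 234) (nat_lit 760) (nat_lit 0) (XT.nd (nat_lit 78) (nat_lit 532) (nat_lit 0) (XT.lf (nat_lit 76) (nat_lit 2816644895) (nat_lit 0) (nat_lit 1964429565) (nat_lit 228) (nat_lit 192506949) (nat_lit 170) (nat_lit 1) (nat_lit 169) (nat_lit 1) (nat_lit 172) (nat_lit 1) (nat_lit 340) (nat_lit 365) (nat_lit 315)) (XT.nd (nat_lit 78) (nat_lit 228) (nat_lit 0) (XT.lf (nat_lit 228) (nat_lit 687092636) (nat_lit 0) (nat_lit 95279342) (nat_lit 152) (nat_lit 4104914879) (nat_lit 168) (nat_lit 1) (nat_lit 165) (nat_lit 1) (nat_lit 167)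 (nat_lit 1) (nat_lit 341) (nat_lit 365) (nat_lit 314)) (XT.lf (nat_lit 228) (nat_lit 3233847161) (nat_lit 0) (nat_lit 376638183) (nat_lit 152) (nat_lit 1191958111) (nat_lit 165) (nat_lit 1) (nat_lit 162) (nat_lit 1) (nat_lit 164) (nat_lit 1) (nat_lit 342) (nat_lit 365) (nat_lit 313)))) (XT.nd (nat_lit 156) (nat_lit 380) (nat_lit 0) (XT.nd (nat_lit 78) (nat_lit 228) (nat_lit 0) (XT.lf (nat_lit 228) (nat_lit 948600178) (nat_lit 0) (nat_lit 660637137) (nat_lit 152) (nat_lit 3110211794) (nat_lit 163) (nat_lit 1) (nat_lit 160) (nat_lit 1) (nat_lit 162) (nat_lit 1) (nat_lit 343) (nat_lit 365) (nat_lit 312)) (XT.lf (nat_lit 228) (nat_lit 3372606323) (nat_lit 0) (nat_lit 944903148) (nat_lit 152) (nat_lit 320691474) (nat_lit 160) (nat_lit 1) (nat_lit 157) (nat_lit 1) (nat_lit 159) (nat_lit 1) (nat_lit 344) (nat_lit 365) (nat_lit 311))) (XT.nd (nat_lit 78) (nat_lit 228) (nat_lit 0) (XT.lf (nat_lit 228) (nat_lit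 1129211273) (nat_lit 0) (nat_lit 1219882798) (nat_lit 152) (nat_lit 2209293523) (nat_lit 158) (nat_lit 1) (nat_lit 155) (nat_lit 1) (nat_lit 157) (nat_lit 1) (nat_lit 345) (nat_lit 365) (nat_lit 310)) (XT.lf (nat_lit 76) (nat_lit 455178610) (nat_lit 0) (nat_lit 1044381609) (nat_lit 228) (nat_lit 2980823662) (nat_lit 153) (nat_lit 1) (nat_lit 152) (nat_lit 1) (nat_lit 155) (nat_lit 1) (nat_lit 346) (nat_lit 365) (nat_lit 309))))) (XT.nd (nat_lit 234) (nat_lit 608) (nat_lit 0) (XT.nd (nat_lit 78) (nat_lit 304) (nat_lit 0) (XT.lf (nat_lit 228) (nat_lit 1241527733) (nat_lit 0) (nat_lit 1769008076) (nat_lit 152) (nat_lit 1393187356) (nat_lit 153) (nat_lit 1) (nat_lit 150) (nat_lit 1) (nat_lit 152) (nat_lit 1) (nat_lit 347) (nat_lit 365) (nat_lit 308)) (XT.nd (nat_lit 78) (nat_lit 152) (nat_lit 0) (XT.lf (nat_lit 76) (nat_lit 1148299992) (nat_lit 0) (nat_lit 890971493) (nat_lit 152) (nat_lit 2289424407)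 (nat_lit 149) (nat_lit 1) (nat_lit 148) (nat_lit 1) (nat_lit 150) (nat_lit 1) (nat_lit 348) (nat_lit 365) (nat_lit 307)) (XT.lf (nat_lit 228) (nat_lit 1296504635) (nat_lit 0) (nat_lit 2304732578) (nat_lit 152) (nat_lit 653870563) (nat_lit 149) (nat_lit 1) (nat_lit 146) (nat_lit 1) (nat_lit 148) (nat_lit 1) (nat_lit 349) (nat_lit 365) (nat_lit 306)))) (XT.nd (nat_lit 156) (nat_lit 304) (nat_lit 0) (XT.nd (nat_lit 78) (nat_lit 152) (nat_lit 0) (XT.lf (nat_lit 76) (nat_lit 1772229018) (nat_lit 0) (nat_lit 792042842) (nat_lit 152) (nat_lit 1618624272) (nat_lit 145) (nat_lit 1) (nat_lit 144) (nat_lit 1) (nat_lit 146) (nat_lit 1) (nat_lit 350) (nat_lit 365) (nat_lit 305)) (XT.lf (nat_lit 76) (nat_lit 15528310) (nat_lit 0) (nat_lit 2808720282) (nat_lit 228) (nat_lit 1287968085) (nat_lit 143) (nat_lit 1) (nat_lit 142) (nat_lit 1) (nat_lit 145) (nat_lit 1) (nat_lit 351) (nat_lit 365) (nat_lit 304))) (XT.nd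 (nat_lit 78) (nat_lit 152) (nat_lit 0) (XT.lf (nat_lit 76) (nat_lit 2333498507) (nat_lit 0) (nat_lit 738704733) (nat_lit 152) (nat_lit 970474331) (nat_lit 141) (nat_lit 1) (nat_lit 140) (nat_lit 1) (nat_lit 142) (nat_lit 1) (nat_lit 352) (nat_lit 365) (nat_lit 303)) (XT.lf (nat_lit 76) (nat_lit 610225130) (nat_lit 0) (nat_lit 2709531796) (nat_lit 228) (nat_lit 654831977) (nat_lit 139) (nat_lit 1) (nat_lit 138) (nat_lit 1) (nat_lit 141) (nat_lit 1) (nat_lit 353) (nat_lit 365) (nat_lit 302))))))) (XT.nd (nat_lit 1092) (nat_lit 1824) (nat_lit 0) (XT.nd (nat_lit 546) (nat_lit 836) (nat_lit 0) (XT.nd (nat_lit 234) (nat_lit 608) (nat_lit 0) (XT.nd (nat_lit 78) (nat_lit 456) (nat_lit 0) (XT.lf (nat_lit 76) (nat_lit 2837961963) (nat_lit 0) (nat_lit 723247527) (nat_lit 152) (nat_lit 346547308) (nat_lit 137) (nat_lit 1) (nat_lit 136) (nat_lit 1) (nat_lit 138) (nat_lit 1) (nat_lit 354) (nat_lit 365) (nat_lit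 301)) (XT.nd (nat_lit 78) (nat_lit 304) (nat_lit 0) (XT.lf (nat_lit 76) (nat_lit 1148636994) (nat_lit 0) (nat_lit 2647397884) (nat_lit 228) (nat_lit 46103737) (nat_lit 135) (nat_lit 1) (nat_lit 134) (nat_lit 1) (nat_lit 137) (nat_lit 1) (nat_lit 355) (nat_lit 365) (nat_lit 300)) (XT.lf (nat_lit 228) (nat_lit 3036330528) (nat_lit 0) (nat_lit 257009854) (nat_lit 152) (nat_lit 484457132) (nat_lit 133) (nat_lit 1) (nat_lit 130) (nat_lit 1) (nat_lit 132) (nat_lit 1) (nat_lit 356) (nat_lit 365) (nat_lit 299)))) (XT.nd (nat_lit 156) (nat_lit 304) (nat_lit 0) (XT.nd (nat_lit 78) (nat_lit 228) (nat_lit 0) (XT.lf (nat_lit 152) (nat_lit 1093237854) (nat_lit 0) (nat_lit 547872882) (nat_lit 76) (nat_lit 2073343053) (nat_lit 131) (nat_lit 1) (nat_lit 129) (nat_lit 1) (nat_lit 130) (nat_lit 1) (nat_lit 357) (nat_lit 365) (nat_lit 298)) (XT.lf (nat_lit 76) (nat_lit 51458061) (nat_lit 0) (nat_lit 788769149) (nat_lit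 228) (nat_lit 2812294205) (nat_lit 127) (nat_lit 1) (nat_lit 126) (nat_lit 1) (nat_lit 129) (nat_lit 1) (nat_lit 358) (nat_lit 365) (nat_lit 297))) (XT.nd (nat_lit 78) (nat_lit 228) (nat_lit 0) (XT.lf (nat_lit 152) (nat_lit 971042108) (nat_lit 0) (nat_lit 1116100674) (nat_lit 76) (nat_lit 1504308092) (nat_lit 127) (nat_lit 1) (nat_lit 125) (nat_lit 1) (nat_lit 126) (nat_lit 1) (nat_lit 359) (nat_lit 365) (nat_lit 296)) (XT.lf (nat_lit 76) (nat_lit 531406938) (nat_lit 0) (nat_lit 860472293) (nat_lit 228) (nat_lit 2139814635) (nat_lit 123) (nat_lit 1) (nat_lit 122) (nat_lit 1) (nat_lit 125) (nat_lit 1) (nat_lit 360) (nat_lit 365) (nat_lit 295))))) (XT.nd (nat_lit 234) (nat_lit 456) (nat_lit 0) (XT.nd (nat_lit 78) (nat_lit 304) (nat_lit 0) (XT.lf (nat_lit 152) (nat_lit 833155507) (nat_lit 0) (nat_lit 1657232459) (nat_lit 76) (nat_lit 982536469) (nat_lit 123) (nat_lit 1) (nat_lit 121) (nat_lit 1) (nat_lit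 122) (nat_lit 1) (nat_lit 361) (nat_lit 365) (nat_lit 294)) (XT.nd (nat_lit 78) (nat_lit 76) (nat_lit 0) (XT.lf (nat_lit 76) (nat_lit 968787329) (nat_lit 0) (nat_lit 947673708) (nat_lit 228) (nat_lit 1498782211) (nat_lit 119) (nat_lit 1) (nat_lit 118) (nat_lit 1) (nat_lit 121) (nat_lit 1) (nat_lit 362) (nat_lit 365) (nat_lit 293)) (XT.lf (nat_lit 152) (nat_lit 683466673) (nat_lit 0) (nat_lit 2171082738) (nat_lit 76) (nat_lit 504120975) (nat_lit 119) (nat_lit 1) (nat_lit 117) (nat_lit 1) (nat_lit 118) (nat_lit 1) (nat_lit 363) (nat_lit 365) (nat_lit 292)))) (XT.nd (nat_lit 156) (nat_lit 228) (nat_lit 0) (XT.nd (nat_lit 78) (nat_lit 76) (nat_lit 0) (XT.lf (nat_lit 76) (nat_lit 1367162254) (nat_lit 0) (nat_lit 1046732239) (nat_lit 152) (nat_lit 889077891) (nat_lit 116) (nat_lit 1) (nat_lit 115) (nat_lit 1) (nat_lit 117) (nat_lit 1) (nat_lit 364) (nat_lit 365) (nat_lit 291)) (XT.lf (nat_lit 152) (nat_lit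 525298507) (nat_lit 0) (nat_lit 2657672065) (nat_lit 76) (nat_lit 65527561) (nat_lit 116) (nat_lit 1) (nat_lit 114) (nat_lit 1) (nat_lit 115) (nat_lit 1) (nat_lit 365) (nat_lit 365) (nat_lit 290))) (XT.nd (nat_lit 78) (nat_lit 76) (nat_lit 0) (XT.lf (nat_lit 76) (nat_lit 1729754728) (nat_lit 0) (nat_lit 1154534733) (nat_lit 152) (nat_lit 310407461) (nat_lit 113) (nat_lit 1) (nat_lit 112) (nat_lit 1) (nat_lit 114) (nat_lit 1) (nat_lit 366) (nat_lit 365) (nat_lit 289)) (XT.lf (nat_lit 0) (nat_lit 329879622) (nat_lit 0) (nat_lit 2783983155) (nat_lit 152) (nat_lit 28269537) (nat_lit 111) (nat_lit 3) (nat_lit 111) (nat_lit 1) (nat_lit 113) (nat_lit 1) (nat_lit 367) (nat_lit 365) (nat_lit 288)))))) (XT.nd (nat_lit 546) (nat_lit 912) (nat_lit 0) (XT.nd (nat_lit 234) (nat_lit 456) (nat_lit 0) (XT.nd (nat_lit 78) (nat_lit 228) (nat_lit 0) (XT.lf (nat_lit 152) (nat_lit 1819415445) (nat_lit 0) (nat_lit 242398957)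 (nat_lit 76) (nat_lit 1028359868) (nat_lit 110) (nat_lit 1) (nat_lit 108) (nat_lit 1) (nat_lit 109) (nat_lit 1) (nat_lit 368) (nat_lit 365) (nat_lit 287)) (XT.nd (nat_lit 78) (nat_lit 152) (nat_lit 0) (XT.lf (nat_lit 76) (nat_lit 182349282) (nat_lit 0) (nat_lit 513535998) (nat_lit 76) (nat_lit 2343460202) (nat_lit 108) (nat_lit 3) (nat_lit 107) (nat_lit 1) (nat_lit 108) (nat_lit 1) (nat_lit 369) (nat_lit 365) (nat_lit 286)) (XT.lf (nat_lit 152) (nat_lit 1595657447) (nat_lit 0) (nat_lit 770750980) (nat_lit 76) (nat_lit 622821362) (nat_lit 107) (nat_lit 1) (nat_lit 105) (nat_lit 1) (nat_lit 106) (nat_lit 1) (nat_lit 370) (nat_lit 365) (nat_lit 285)))) (XT.nd (nat_lit 156) (nat_lit 228) (nat_lit 0) (XT.nd (nat_lit 78) (nat_lit 152) (nat_lit 0) (XT.lf (nat_lit 76) (nat_lit 5643268) (nat_lit 0) (nat_lit 1025762298) (nat_lit 76) (nat_lit 1908741628) (nat_lit 105) (nat_lit 3) (nat_lit 104) (nat_lit 1)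 (nat_lit 105) (nat_lit 1) (nat_lit 371) (nat_lit 365) (nat_lit 284)) (XT.lf (nat_lit 152) (nat_lit 1373764752) (nat_lit 0) (nat_lit 1269141347) (nat_lit 76) (nat_lit 248896078) (nat_lit 104) (nat_lit 1) (nat_lit 102) (nat_lit 1) (nat_lit 103) (nat_lit 1) (nat_lit 372) (nat_lit 365) (nat_lit 283))) (XT.nd (nat_lit 78) (nat_lit 76) (nat_lit 0) (XT.lf (nat_lit 76) (nat_lit 1340157538) (nat_lit 0) (nat_lit 166698165) (nat_lit 152) (nat_lit 1337492348) (nat_lit 101) (nat_lit 1) (nat_lit 100) (nat_lit 1) (nat_lit 102) (nat_lit 1) (nat_lit 373) (nat_lit 365) (nat_lit 282)) (XT.lf (nat_lit 0) (nat_lit 93887483) (nat_lit 0) (nat_lit 1643484916) (nat_lit 152) (nat_lit 1060347654) (nat_lit 99) (nat_lit 3) (nat_lit 99) (nat_lit 1) (nat_lit 101) (nat_lit 1) (nat_lit 374) (nat_lit 365) (nat_lit 281))))) (XT.nd (nat_lit 234) (nat_lit 532) (nat_lit 0) (XT.nd (nat_lit 78) (nat_lit 228) (nat_lit 0) (XT.lf (nat_lit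 76) (nat_lit 1622689452) (nat_lit 0) (nat_lit 336544210) (nat_lit 152) (nat_lit 792622332) (nat_lit 98) (nat_lit 1) (nat_lit 97) (nat_lit 1) (nat_lit 99) (nat_lit 1) (nat_lit 375) (nat_lit 365) (nat_lit 280)) (XT.nd (nat_lit 78) (nat_lit 152) (nat_lit 0) (XT.lf (nat_lit 0) (nat_lit 405208605) (nat_lit 0) (nat_lit 1769801374) (nat_lit 152) (nat_lit 531801410) (nat_lit 96) (nat_lit 3) (nat_lit 96) (nat_lit 1) (nat_lit 98) (nat_lit 1) (nat_lit 376) (nat_lit 365) (nat_lit 279)) (XT.lf (nat_lit 76) (nat_lit 1880900936) (nat_lit 0) (nat_lit 502885899) (nat_lit 152) (nat_lit 278753784) (nat_lit 95) (nat_lit 1) (nat_lit 94) (nat_lit 1) (nat_lit 96) (nat_lit 1) (nat_lit 377) (nat_lit 365) (nat_lit 278)))) (XT.nd (nat_lit 156) (nat_lit 228) (nat_lit 0) (XT.nd (nat_lit 78) (nat_lit 228) (nat_lit 0) (XT.lf (nat_lit 0) (nat_lit 691842617) (nat_lit 0) (nat_lit 1893518216) (nat_lit 152) (nat_lit 33658304) (nat_lit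 93) (nat_lit 3) (nat_lit 93) (nat_lit 1) (nat_lit 95) (nat_lit 1) (nat_lit 378) (nat_lit 365) (nat_lit 277)) (XT.lf (nat_lit 152) (nat_lit 1909394122) (nat_lit 0) (nat_lit 209196853) (nat_lit 76) (nat_lit 457625710) (nat_lit 92) (nat_lit 1) (nat_lit 90) (nat_lit 1) (nat_lit 91) (nat_lit 1) (nat_lit 379) (nat_lit 365) (nat_lit 276))) (XT.nd (nat_lit 78) (nat_lit 152) (nat_lit 0) (XT.lf (nat_lit 76) (nat_lit 516070981) (nat_lit 0) (nat_lit 443742491) (nat_lit 76) (nat_lit 1574279905) (nat_lit 90) (nat_lit 3) (nat_lit 89) (nat_lit 1) (nat_lit 90) (nat_lit 1) (nat_lit 380) (nat_lit 365) (nat_lit 275)) (XT.lf (nat_lit 152) (nat_lit 1664692885) (nat_lit 0) (nat_lit 673143390) (nat_lit 76) (nat_lit 154916419) (nat_lit 89) (nat_lit 1) (nat_lit 87) (nat_lit 1) (nat_lit 88) (nat_lit 1) (nat_lit 381) (nat_lit 365) (nat_lit 274))))))))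
noncomputable def ec52 : XT := (XT.nd (nat_lit 46800) (nat_lit 0) (nat_lit 10336) (XT.nd (nat_lit 1092) (nat_lit 152) (nat_lit 0) (XT.nd (nat_lit 546) (nat_lit 836) (nat_lit 0) (XT.nd (nat_lit 234) (nat_lit 532) (nat_lit 0) (XT.nd (nat_lit 78) (nat_lit 228) (nat_lit 0) (XT.lf (nat_lit 76) (nat_lit 313652673) (nat_lit 0) (nat_lit 892868997) (nat_lit 76) (nat_lit 1245523244) (nat_lit 87) (nat_lit 3) (nat_lit 86) (nat_lit 1) (nat_lit 87) (nat_lit 1) (nat_lit 382) (nat_lit 365) (nat_lit 273)) (XT.nd (nat_lit 78) (nat_lit 76) (nat_lit 0) (XT.lf (nat_lit 0) (nat_lit 122855401) (nat_lit 0) (nat_lit 984501792) (nat_lit 152) (nat_lit 1304724684) (nat_lit 84) (nat_lit 3) (nat_lit 84) (nat_lit 1) (nat_lit 86) (nat_lit 1) (nat_lit 383) (nat_lit 365) (nat_lit 272)) (XT.lf (nat_lit 76) (nat_lit 119026399) (nat_lit 0) (nat_lit 1314105182) (nat_lit 76) (nat_lit 939642009) (nat_lit 84) (nat_lit 3) (nat_lit 83)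 (nat_lit 1) (nat_lit 84) (nat_lit 1) (nat_lit 384) (nat_lit 365) (nat_lit 271)))) (XT.nd (nat_lit 156) (nat_lit 228) (nat_lit 0) (XT.nd (nat_lit 78) (nat_lit 152) (nat_lit 0) (XT.lf (nat_lit 0) (nat_lit 377021712) (nat_lit 0) (nat_lit 1135797126) (nat_lit 152) (nat_lit 821275888) (nat_lit 81) (nat_lit 3) (nat_lit 81) (nat_lit 1) (nat_lit 83) (nat_lit 1) (nat_lit 385) (nat_lit 365) (nat_lit 270)) (XT.lf (nat_lit 76) (nat_lit 1641668867) (nat_lit 0) (nat_lit 66171656) (nat_lit 152) (nat_lit 588314787) (nat_lit 80) (nat_lit 1) (nat_lit 79) (nat_lit 1) (nat_lit 81) (nat_lit 1) (nat_lit 386) (nat_lit 365) (nat_lit 269))) (XT.nd (nat_lit 78) (nat_lit 152) (nat_lit 0) (XT.lf (nat_lit 0) (nat_lit 611963821) (nat_lit 0) (nat_lit 1280149906) (nat_lit 152) (nat_lit 366619957) (nat_lit 78) (nat_lit 3) (nat_lit 78) (nat_lit 1) (nat_lit 80) (nat_lit 1) (nat_lit 387) (nat_lit 365) (nat_lit 268)) (XT.lf (nat_lit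 76) (nat_lit 1833819512) (nat_lit 0) (nat_lit 240882716) (nat_lit 152) (nat_lit 147375785) (nat_lit 77) (nat_lit 1) (nat_lit 76) (nat_lit 1) (nat_lit 78) (nat_lit 1) (nat_lit 388) (nat_lit 365) (nat_lit 267))))) (XT.nd (nat_lit 234) (nat_lit 456) (nat_lit 0) (XT.nd (nat_lit 78) (nat_lit 228) (nat_lit 0) (XT.lf (nat_lit 76) (nat_lit 767941537) (nat_lit 0) (nat_lit 61588426) (nat_lit 76) (nat_lit 1356353651) (nat_lit 75) (nat_lit 3) (nat_lit 74) (nat_lit 1) (nat_lit 75) (nat_lit 1) (nat_lit 389) (nat_lit 365) (nat_lit 266)) (XT.nd (nat_lit 78) (nat_lit 76) (nat_lit 0) (XT.lf (nat_lit 152) (nat_lit 1740486069) (nat_lit 0) (nat_lit 271738432) (nat_lit 76) (nat_lit 138178277) (nat_lit 74) (nat_lit 1) (nat_lit 72) (nat_lit 1) (nat_lit 73) (nat_lit 1) (nat_lit 390) (nat_lit 365) (nat_lit 265)) (XT.lf (nat_lit 76) (nat_lit 563581232) (nat_lit 0) (nat_lit 470044662) (nat_lit 76) (nat_lit 1081743497) (nat_lit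 72) (nat_lit 3) (nat_lit 71) (nat_lit 1) (nat_lit 72) (nat_lit 1) (nat_lit 391) (nat_lit 365) (nat_lit 264)))) (XT.nd (nat_lit 156) (nat_lit 228) (nat_lit 0) (XT.nd (nat_lit 78) (nat_lit 76) (nat_lit 0) (XT.lf (nat_lit 0) (nat_lit 93603275) (nat_lit 0) (nat_lit 572717713) (nat_lit 152) (nat_lit 1414733213) (nat_lit 69) (nat_lit 3) (nat_lit 69) (nat_lit 1) (nat_lit 71) (nat_lit 1) (nat_lit 392) (nat_lit 365) (nat_lit 263)) (XT.lf (nat_lit 76) (nat_lit 369163112) (nat_lit 0) (nat_lit 852584193) (nat_lit 76) (nat_lit 825462576) (nat_lit 69) (nat_lit 3) (nat_lit 68) (nat_lit 1) (nat_lit 69) (nat_lit 1) (nat_lit 393) (nat_lit 365) (nat_lit 262))) (XT.nd (nat_lit 78) (nat_lit 76) (nat_lit 0) (XT.lf (nat_lit 0) (nat_lit 306197583) (nat_lit 0) (nat_lit 728111096) (nat_lit 152) (nat_lit 979672675) (nat_lit 66) (nat_lit 3) (nat_lit 66) (nat_lit 1) (nat_lit 68) (nat_lit 1) (nat_lit 394) (nat_lit 365) (nat_lit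 261)) (XT.lf (nat_lit 76) (nat_lit 184590540) (nat_lit 0) (nat_lit 1210316593) (nat_lit 76) (nat_lit 586412933) (nat_lit 66) (nat_lit 3) (nat_lit 65) (nat_lit 1) (nat_lit 66) (nat_lit 1) (nat_lit 395) (nat_lit 365) (nat_lit 260)))))) (XT.nd (nat_lit 45162) (nat_lit 0) (nat_lit 21508) (XT.nd (nat_lit 44850) (nat_lit 0) (nat_lit 23712) (XT.nd (nat_lit 44694) (nat_lit 0) (nat_lit 23636) (XT.lf (nat_lit 0) (nat_lit 503309800) (nat_lit 0) (nat_lit 874851541) (nat_lit 152) (nat_lit 570979444) (nat_lit 63) (nat_lit 3) (nat_lit 63) (nat_lit 1) (nat_lit 65) (nat_lit 1) (nat_lit 396) (nat_lit 365) (nat_lit 259)) (XT.nd (nat_lit 78) (nat_lit 0) (nat_lit 76) (XT.lf (nat_lit 1292) (nat_lit 1326131078) (nat_lit 0) (nat_lit 4562507653) (nat_lit 1292) (nat_lit 1326131078) (nat_lit 391) (nat_lit 1) (nat_lit 374) (nat_lit 0) (nat_lit 391) (nat_lit 0) (nat_lit 288) (nat_lit 366) (nat_lit 366)) (XT.lf (nat_lit 1292)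 (nat_lit 106318253) (nat_lit 0) (nat_lit 8996305684) (nat_lit 1216) (nat_lit 4980698639) (nat_lit 392) (nat_lit 1) (nat_lit 375) (nat_lit 1) (nat_lit 391) (nat_lit 1) (nat_lit 289) (nat_lit 366) (nat_lit 365)))) (XT.nd (nat_lit 156) (nat_lit 0) (nat_lit 152) (XT.nd (nat_lit 78) (nat_lit 0) (nat_lit 76) (XT.lf (nat_lit 1292) (nat_lit 4677546022) (nat_lit 76) (nat_lit 6616217683) (nat_lit 0) (nat_lit 2453935507) (nat_lit 392) (nat_lit 1) (nat_lit 376) (nat_lit 1) (nat_lit 375) (nat_lit 1) (nat_lit 290) (nat_lit 366) (nat_lit 364)) (XT.lf (nat_lit 1292) (nat_lit 4111959587) (nat_lit 76) (nat_lit 4330787909) (nat_lit 0) (nat_lit 4980195440) (nat_lit 393) (nat_lit 1) (nat_lit 377) (nat_lit 1) (nat_lit 376) (nat_lit 1) (nat_lit 291) (nat_lit 366) (nat_lit 363))) (XT.nd (nat_lit 78) (nat_lit 0) (nat_lit 76) (XT.lf (nat_lit 1292) (nat_lit 3402923438) (nat_lit 76) (nat_lit 2237078170) (nat_lit 0) (nat_lit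 7468687044) (nat_lit 394) (nat_lit 1) (nat_lit 378) (nat_lit 1) (nat_lit 377) (nat_lit 1) (nat_lit 292) (nat_lit 366) (nat_lit 362)) (XT.lf (nat_lit 1292) (nat_lit 2561371888) (nat_lit 76) (nat_lit 325238077) (nat_lit 0) (nat_lit 9917945813) (nat_lit 395) (nat_lit 1) (nat_lit 379) (nat_lit 1) (nat_lit 378) (nat_lit 1) (nat_lit 293) (nat_lit 366) (nat_lit 361))))) (XT.nd (nat_lit 234) (nat_lit 1292) (nat_lit 0) (XT.nd (nat_lit 78) (nat_lit 1216) (nat_lit 0) (XT.lf (nat_lit 1292) (nat_lit 197083907) (nat_lit 0) (nat_lit 10926156871) (nat_lit 1216) (nat_lit 1386530276) (nat_lit 396) (nat_lit 1) (nat_lit 379) (nat_lit 1) (nat_lit 395) (nat_lit 1) (nat_lit 294) (nat_lit 366) (nat_lit 360)) (XT.nd (nat_lit 78) (nat_lit 1216) (nat_lit 0) (XT.lf (nat_lit 1292) (nat_lit 467131735) (nat_lit 76) (nat_lit 9268085417) (nat_lit 0) (nat_lit 2488409904) (nat_lit 396) (nat_lit 1) (nat_lit 380) (nat_lit 1) (nat_lit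 379) (nat_lit 1) (nat_lit 295) (nat_lit 366) (nat_lit 359)) (XT.lf (nat_lit 1368) (nat_lit 6827125016) (nat_lit 0) (nat_lit 737940812) (nat_lit 1292) (nat_lit 4381269519) (nat_lit 381) (nat_lit 1) (nat_lit 363) (nat_lit 1) (nat_lit 380) (nat_lit 1) (nat_lit 296) (nat_lit 366) (nat_lit 358)))) (XT.nd (nat_lit 156) (nat_lit 1368) (nat_lit 0) (XT.nd (nat_lit 78) (nat_lit 0) (nat_lit 76) (XT.lf (nat_lit 1368) (nat_lit 3984955867) (nat_lit 0) (nat_lit 2024822663) (nat_lit 1292) (nat_lit 5667904928) (nat_lit 382) (nat_lit 1) (nat_lit 364) (nat_lit 1) (nat_lit 381) (nat_lit 1) (nat_lit 297) (nat_lit 366) (nat_lit 357)) (XT.lf (nat_lit 76) (nat_lit 1204274803) (nat_lit 0) (nat_lit 3394735377) (nat_lit 1292) (nat_lit 6818485006) (nat_lit 366) (nat_lit 1) (nat_lit 365) (nat_lit 1) (nat_lit 382) (nat_lit 1) (nat_lit 298) (nat_lit 366) (nat_lit 356))) (XT.nd (nat_lit 78) (nat_lit 608) (nat_lit 0) (XT.lf (nat_lit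 912) (nat_lit 6309922897) (nat_lit 0) (nat_lit 3309986130) (nat_lit 836) (nat_lit 1545117134) (nat_lit 366) (nat_lit 1) (nat_lit 354) (nat_lit 1) (nat_lit 365) (nat_lit 1) (nat_lit 299) (nat_lit 366) (nat_lit 355)) (XT.lf (nat_lit 684) (nat_lit 4524806475) (nat_lit 0) (nat_lit 2139331840) (nat_lit 608) (nat_lit 4255960284) (nat_lit 355) (nat_lit 1) (nat_lit 346) (nat_lit 1) (nat_lit 354) (nat_lit 1) (nat_lit 300) (nat_lit 366) (nat_lit 354))))))) (XT.nd (nat_lit 1092) (nat_lit 4636) (nat_lit 0) (XT.nd (nat_lit 546) (nat_lit 3192) (nat_lit 0) (XT.nd (nat_lit 234) (nat_lit 2128) (nat_lit 0) (XT.nd (nat_lit 78) (nat_lit 608) (nat_lit 0) (XT.lf (nat_lit 684) (nat_lit 2685862455) (nat_lit 0) (nat_lit 1092404858) (nat_lit 608) (nat_lit 6904523258) (nat_lit 347) (nat_lit 1) (nat_lit 338) (nat_lit 1) (nat_lit 346) (nat_lit 1) (nat_lit 301) (nat_lit 366) (nat_lit 353)) (XT.nd (nat_lit 78) (nat_lit 76) (nat_lit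 0) (XT.lf (nat_lit 608) (nat_lit 798996126) (nat_lit 0) (nat_lit 162716146) (nat_lit 532) (nat_lit 9491124312) (nat_lit 339) (nat_lit 1) (nat_lit 331) (nat_lit 1) (nat_lit 338) (nat_lit 1) (nat_lit 302) (nat_lit 366) (nat_lit 352)) (XT.lf (nat_lit 76) (nat_lit 8425075109) (nat_lit 0) (nat_lit 1132187153) (nat_lit 608) (nat_lit 671673437) (nat_lit 331) (nat_lit 1) (nat_lit 330) (nat_lit 1) (nat_lit 338) (nat_lit 1) (nat_lit 303) (nat_lit 366) (nat_lit 351)))) (XT.nd (nat_lit 156) (nat_lit 988) (nat_lit 0) (XT.nd (nat_lit 78) (nat_lit 532) (nat_lit 0) (XT.lf (nat_lit 76) (nat_lit 5501041477) (nat_lit 0) (nat_lit 3093643602) (nat_lit 684) (nat_lit 1416679747) (nat_lit 323) (nat_lit 1) (nat_lit 322) (nat_lit 1) (nat_lit 331) (nat_lit 1) (nat_lit 304) (nat_lit 366) (nat_lit 350)) (XT.lf (nat_lit 76) (nat_lit 2651527390) (nat_lit 0) (nat_lit 5085167615) (nat_lit 608) (nat_lit 2063755357) (nat_lit 316)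 (nat_lit 1) (nat_lit 315) (nat_lit 1) (nat_lit 323) (nat_lit 1) (nat_lit 305) (nat_lit 366) (nat_lit 349))) (XT.nd (nat_lit 78) (nat_lit 456) (nat_lit 0) (XT.lf (nat_lit 608) (nat_lit 2492357725) (nat_lit 0) (nat_lit 6976580076) (nat_lit 532) (nat_lit 126990249) (nat_lit 316) (nat_lit 1) (nat_lit 308) (nat_lit 1) (nat_lit 315) (nat_lit 1) (nat_lit 306) (nat_lit 366) (nat_lit 348)) (XT.lf (nat_lit 532) (nat_lit 228064896) (nat_lit 0) (nat_lit 6284348796) (nat_lit 456) (nat_lit 2884443202) (nat_lit 309) (nat_lit 1) (nat_lit 302) (nat_lit 1) (nat_lit 308) (nat_lit 1) (nat_lit 307) (nat_lit 366) (nat_lit 347))))) (XT.nd (nat_lit 234) (nat_lit 1672) (nat_lit 0) (XT.nd (nat_lit 78) (nat_lit 912) (nat_lit 0) (XT.lf (nat_lit 76) (nat_lit 3654290893) (nat_lit 0) (nat_lit 2007239295) (nat_lit 608) (nat_lit 3541685071) (nat_lit 295) (nat_lit 1) (nat_lit 294) (nat_lit 1) (nat_lit 302) (nat_lit 1) (nat_lit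 308) (nat_lit 366) (nat_lit 346)) (XT.nd (nat_lit 78) (nat_lit 456) (nat_lit 0) (XT.lf (nat_lit 76) (nat_lit 875792734) (nat_lit 0) (nat_lit 4245518515) (nat_lit 532) (nat_lit 3894011072) (nat_lit 289) (nat_lit 1) (nat_lit 288) (nat_lit 1) (nat_lit 295) (nat_lit 1) (nat_lit 309) (nat_lit 366) (nat_lit 345)) (XT.lf (nat_lit 532) (nat_lit 2326471396) (nat_lit 0) (nat_lit 4643003960) (nat_lit 456) (nat_lit 1863036486) (nat_lit 289) (nat_lit 1) (nat_lit 282) (nat_lit 1) (nat_lit 288) (nat_lit 1) (nat_lit 310) (nat_lit 366) (nat_lit 344)))) (XT.nd (nat_lit 156) (nat_lit 760) (nat_lit 0) (XT.nd (nat_lit 78) (nat_lit 456) (nat_lit 0) (XT.lf (nat_lit 76) (nat_lit 4112854350) (nat_lit 0) (nat_lit 118617320) (nat_lit 456) (nat_lit 4423391342) (nat_lit 277) (nat_lit 1) (nat_lit 276) (nat_lit 1) (nat_lit 282) (nat_lit 1) (nat_lit 311) (nat_lit 366) (nat_lit 343)) (XT.lf (nat_lit 76) (nat_lit 1358435231) (nat_lit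 0) (nat_lit 2511245680) (nat_lit 532) (nat_lit 4612137530) (nat_lit 271) (nat_lit 1) (nat_lit 270) (nat_lit 1) (nat_lit 277) (nat_lit 1) (nat_lit 312) (nat_lit 366) (nat_lit 342))) (XT.nd (nat_lit 78) (nat_lit 380) (nat_lit 0) (XT.lf (nat_lit 456) (nat_lit 3406002295) (nat_lit 0) (nat_lit 3563457451) (nat_lit 380) (nat_lit 1344027960) (nat_lit 271) (nat_lit 1) (nat_lit 265) (nat_lit 1) (nat_lit 270) (nat_lit 1) (nat_lit 313) (nat_lit 366) (nat_lit 341)) (XT.lf (nat_lit 456) (nat_lit 844803265) (nat_lit 0) (nat_lit 3309440289) (nat_lit 380) (nat_lit 3995470400) (nat_lit 266) (nat_lit 1) (nat_lit 260) (nat_lit 1) (nat_lit 265) (nat_lit 1) (nat_lit 314) (nat_lit 366) (nat_lit 340)))))) (XT.nd (nat_lit 546) (nat_lit 2052) (nat_lit 0) (XT.nd (nat_lit 234) (nat_lit 1444) (nat_lit 0) (XT.nd (nat_lit 78) (nat_lit 684) (nat_lit 0) (XT.lf (nat_lit 76) (nat_lit 1436522215) (nat_lit 0) (nat_lit 1664447039)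 (nat_lit 456) (nat_lit 4889276109) (nat_lit 255) (nat_lit 1) (nat_lit 254) (nat_lit 1) (nat_lit 260) (nat_lit 1) (nat_lit 315) (nat_lit 366) (nat_lit 339)) (XT.nd (nat_lit 78) (nat_lit 304) (nat_lit 0) (XT.lf (nat_lit 456) (nat_lit 3685921347) (nat_lit 0) (nat_lit 2931226048) (nat_lit 380) (nat_lit 1217679213) (nat_lit 255) (nat_lit 1) (nat_lit 249) (nat_lit 1) (nat_lit 254) (nat_lit 1) (nat_lit 316) (nat_lit 366) (nat_lit 338)) (XT.lf (nat_lit 380) (nat_lit 1058247023) (nat_lit 0) (nat_lit 2803668670) (nat_lit 304) (nat_lit 3821587059) (nat_lit 250) (nat_lit 1) (nat_lit 245) (nat_lit 1) (nat_lit 249) (nat_lit 1) (nat_lit 317) (nat_lit 366) (nat_lit 337)))) (XT.nd (nat_lit 156) (nat_lit 684) (nat_lit 0) (XT.nd (nat_lit 78) (nat_lit 304) (nat_lit 0) (XT.lf (nat_lit 76) (nat_lit 1202925922) (nat_lit 0) (nat_lit 1511505656) (nat_lit 456) (nat_lit 4821675036) (nat_lit 240) (nat_lit 1) (nat_lit 239)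 (nat_lit 1) (nat_lit 245) (nat_lit 1) (nat_lit 318) (nat_lit 366) (nat_lit 336)) (XT.lf (nat_lit 380) (nat_lit 3346530171) (nat_lit 0) (nat_lit 2651817846) (nat_lit 304) (nat_lit 1393895934) (nat_lit 240) (nat_lit 1) (nat_lit 235) (nat_lit 1) (nat_lit 239) (nat_lit 1) (nat_lit 319) (nat_lit 366) (nat_lit 335))) (XT.nd (nat_lit 78) (nat_lit 380) (nat_lit 0) (XT.lf (nat_lit 380) (nat_lit 690383254) (nat_lit 0) (nat_lit 2625915868) (nat_lit 304) (nat_lit 3935856943) (nat_lit 236) (nat_lit 1) (nat_lit 231) (nat_lit 1) (nat_lit 235) (nat_lit 1) (nat_lit 320) (nat_lit 366) (nat_lit 334)) (XT.lf (nat_lit 76) (nat_lit 733672017) (nat_lit 0) (nat_lit 1893367124) (nat_lit 380) (nat_lit 4488470154) (nat_lit 227) (nat_lit 1) (nat_lit 226) (nat_lit 1) (nat_lit 231) (nat_lit 1) (nat_lit 321) (nat_lit 366) (nat_lit 333))))) (XT.nd (nat_lit 234) (nat_lit 1140) (nat_lit 0) (XT.nd (nat_lit 78) (nat_lit 608) (nat_lit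 0) (XT.lf (nat_lit 380) (nat_lit 2535671307) (nat_lit 0) (nat_lit 2647417844) (nat_lit 304) (nat_lit 1798937631) (nat_lit 227) (nat_lit 1) (nat_lit 222) (nat_lit 1) (nat_lit 226) (nat_lit 1) (nat_lit 322) (nat_lit 366) (nat_lit 332)) (XT.nd (nat_lit 78) (nat_lit 304) (nat_lit 0) (XT.lf (nat_lit 76) (nat_lit 2585105485) (nat_lit 0) (nat_lit 116312935) (nat_lit 304) (nat_lit 4150658955) (nat_lit 219) (nat_lit 1) (nat_lit 218) (nat_lit 1) (nat_lit 222) (nat_lit 1) (nat_lit 323) (nat_lit 366) (nat_lit 331)) (XT.lf (nat_lit 76) (nat_lit 90773678) (nat_lit 0) (nat_lit 2679761450) (nat_lit 380) (nat_lit 3954538302) (nat_lit 215) (nat_lit 1) (nat_lit 214) (nat_lit 1) (nat_lit 219) (nat_lit 1) (nat_lit 324) (nat_lit 366) (nat_lit 330)))) (XT.nd (nat_lit 156) (nat_lit 532) (nat_lit 0) (XT.nd (nat_lit 78) (nat_lit 380) (nat_lit 0) (XT.lf (nat_lit 304) (nat_lit 1374169425) (nat_lit 0) (nat_lit 2854113272)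 (nat_lit 228) (nat_lit 2372665463) (nat_lit 215) (nat_lit 1) (nat_lit 211) (nat_lit 1) (nat_lit 214) (nat_lit 1) (nat_lit 325) (nat_lit 366) (nat_lit 329)) (XT.lf (nat_lit 76) (nat_lit 1731061268) (nat_lit 0) (nat_lit 1229839915) (nat_lit 380) (nat_lit 3519008378) (nat_lit 207) (nat_lit 1) (nat_lit 206) (nat_lit 1) (nat_lit 211) (nat_lit 1) (nat_lit 326) (nat_lit 366) (nat_lit 328))) (XT.nd (nat_lit 78) (nat_lit 304) (nat_lit 0) (XT.lf (nat_lit 304) (nat_lit 2590666394) (nat_lit 0) (nat_lit 3082150210) (nat_lit 228) (nat_lit 688840296) (nat_lit 207) (nat_lit 1) (nat_lit 203) (nat_lit 1) (nat_lit 206) (nat_lit 1) (nat_lit 327) (nat_lit 366) (nat_lit 327)) (XT.lf (nat_lit 76) (nat_lit 3180334854) (nat_lit 0) (nat_lit 38844193) (nat_lit 304) (nat_lit 3027004498) (nat_lit 200) (nat_lit 1) (nat_lit 199) (nat_lit 1) (nat_lit 203) (nat_lit 1) (nat_lit 328) (nat_lit 366) (nat_lit 326))))))))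
noncomputable def ec53 : XT := (XT.nd (nat_lit 2184) (nat_lit 3572) (nat_lit 0) (XT.nd (nat_lit 1092) (nat_lit 2356) (nat_lit 0) (XT.nd (nat_lit 546) (nat_lit 1520) (nat_lit 0) (XT.nd (nat_lit 234) (nat_lit 912) (nat_lit 0) (XT.nd (nat_lit 78) (nat_lit 532) (nat_lit 0) (XT.lf (nat_lit 76) (nat_lit 790366413) (nat_lit 0) (nat_lit 2572374588) (nat_lit 304) (nat_lit 2770434988) (nat_lit 197) (nat_lit 1) (nat_lit 196) (nat_lit 1) (nat_lit 200) (nat_lit 1) (nat_lit 329) (nat_lit 366) (nat_lit 325)) (XT.nd (nat_lit 78) (nat_lit 304) (nat_lit 0) (XT.lf (nat_lit 304) (nat_lit 947116257) (nat_lit 0) (nat_lit 3521250663) (nat_lit 228) (nat_lit 1554469054) (nat_lit 197) (nat_lit 1) (nat_lit 193) (nat_lit 1) (nat_lit 196) (nat_lit 1) (nat_lit 330) (nat_lit 366) (nat_lit 324)) (XT.lf (nat_lit 76) (nat_lit 2090734696) (nat_lit 0) (nat_lit 1594262259) (nat_lit 304) (nat_lit 2229841180) (nat_lit 190) (nat_lit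 1) (nat_lit 189) (nat_lit 1) (nat_lit 193) (nat_lit 1) (nat_lit 331) (nat_lit 366) (nat_lit 323)))) (XT.nd (nat_lit 156) (nat_lit 456) (nat_lit 0) (XT.nd (nat_lit 78) (nat_lit 228) (nat_lit 0) (XT.lf (nat_lit 304) (nat_lit 1737476093) (nat_lit 0) (nat_lit 3865408506) (nat_lit 228) (nat_lit 206589039) (nat_lit 190) (nat_lit 1) (nat_lit 186) (nat_lit 1) (nat_lit 189) (nat_lit 1) (nat_lit 332) (nat_lit 366) (nat_lit 322)) (XT.lf (nat_lit 76) (nat_lit 3243288769) (nat_lit 0) (nat_lit 800527767) (nat_lit 228) (nat_lit 1662341282) (nat_lit 184) (nat_lit 1) (nat_lit 183) (nat_lit 1) (nat_lit 186) (nat_lit 1) (nat_lit 333) (nat_lit 366) (nat_lit 321))) (XT.nd (nat_lit 78) (nat_lit 228) (nat_lit 0) (XT.lf (nat_lit 76) (nat_lit 975189025) (nat_lit 0) (nat_lit 3255934754) (nat_lit 304) (nat_lit 1374044318) (nat_lit 181) (nat_lit 1) (nat_lit 180) (nat_lit 1) (nat_lit 184) (nat_lit 1) (nat_lit 334) (nat_lit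 366) (nat_lit 320)) (XT.lf (nat_lit 76) (nat_lit 4263646078) (nat_lit 0) (nat_lit 165376099) (nat_lit 228) (nat_lit 1077492209) (nat_lit 178) (nat_lit 1) (nat_lit 177) (nat_lit 1) (nat_lit 180) (nat_lit 1) (nat_lit 335) (nat_lit 366) (nat_lit 319))))) (XT.nd (nat_lit 234) (nat_lit 912) (nat_lit 0) (XT.nd (nat_lit 78) (nat_lit 380) (nat_lit 0) (XT.lf (nat_lit 76) (nat_lit 2024091246) (nat_lit 0) (nat_lit 2593971910) (nat_lit 304) (nat_lit 791528445) (nat_lit 175) (nat_lit 1) (nat_lit 174) (nat_lit 1) (nat_lit 178) (nat_lit 1) (nat_lit 336) (nat_lit 366) (nat_lit 318)) (XT.nd (nat_lit 78) (nat_lit 228) (nat_lit 0) (XT.lf (nat_lit 228) (nat_lit 340371408) (nat_lit 0) (nat_lit 4828587515) (nat_lit 152) (nat_lit 146286647) (nat_lit 175) (nat_lit 1) (nat_lit 172) (nat_lit 1) (nat_lit 174) (nat_lit 1) (nat_lit 337) (nat_lit 366) (nat_lit 317)) (XT.lf (nat_lit 76) (nat_lit 2957477140) (nat_lit 0) (nat_lit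 2062651043) (nat_lit 228) (nat_lit 202132297) (nat_lit 170) (nat_lit 1) (nat_lit 169) (nat_lit 1) (nat_lit 172) (nat_lit 1) (nat_lit 338) (nat_lit 366) (nat_lit 316)))) (XT.nd (nat_lit 156) (nat_lit 380) (nat_lit 0) (XT.nd (nat_lit 78) (nat_lit 228) (nat_lit 0) (XT.lf (nat_lit 228) (nat_lit 721447268) (nat_lit 0) (nat_lit 100043309) (nat_lit 152) (nat_lit 4310160623) (nat_lit 168) (nat_lit 1) (nat_lit 165) (nat_lit 1) (nat_lit 167) (nat_lit 1) (nat_lit 339) (nat_lit 366) (nat_lit 315)) (XT.lf (nat_lit 228) (nat_lit 3395539519) (nat_lit 0) (nat_lit 395470092) (nat_lit 152) (nat_lit 1251556017) (nat_lit 165) (nat_lit 1) (nat_lit 162) (nat_lit 1) (nat_lit 164) (nat_lit 1) (nat_lit 340) (nat_lit 366) (nat_lit 314))) (XT.nd (nat_lit 78) (nat_lit 228) (nat_lit 0) (XT.lf (nat_lit 228) (nat_lit 996030187) (nat_lit 0) (nat_lit 693668994) (nat_lit 152) (nat_lit 3265722384) (nat_lit 163) (nat_lit 1) (nat_lit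 160) (nat_lit 1) (nat_lit 162) (nat_lit 1) (nat_lit 341) (nat_lit 366) (nat_lit 313)) (XT.lf (nat_lit 228) (nat_lit 3541236639) (nat_lit 0) (nat_lit 992148305) (nat_lit 152) (nat_lit 336726048) (nat_lit 160) (nat_lit 1) (nat_lit 157) (nat_lit 1) (nat_lit 159) (nat_lit 1) (nat_lit 342) (nat_lit 366) (nat_lit 312)))))) (XT.nd (nat_lit 546) (nat_lit 1216) (nat_lit 0) (XT.nd (nat_lit 234) (nat_lit 608) (nat_lit 0) (XT.nd (nat_lit 78) (nat_lit 380) (nat_lit 0) (XT.lf (nat_lit 228) (nat_lit 1185671837) (nat_lit 0) (nat_lit 1280876938) (nat_lit 152) (nat_lit 2319758200) (nat_lit 158) (nat_lit 1) (nat_lit 155) (nat_lit 1) (nat_lit 157) (nat_lit 1) (nat_lit 343) (nat_lit 366) (nat_lit 311)) (XT.nd (nat_lit 78) (nat_lit 152) (nat_lit 0) (XT.lf (nat_lit 76) (nat_lit 477937540) (nat_lit 0) (nat_lit 1096600690) (nat_lit 228) (nat_lit 3129864845) (nat_lit 153) (nat_lit 1) (nat_lit 152) (nat_lit 1) (nat_lit 155)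 (nat_lit 1) (nat_lit 344) (nat_lit 366) (nat_lit 310)) (XT.lf (nat_lit 228) (nat_lit 1303604119) (nat_lit 0) (nat_lit 1857458480) (nat_lit 152) (nat_lit 1462846724) (nat_lit 153) (nat_lit 1) (nat_lit 150) (nat_lit 1) (nat_lit 152) (nat_lit 1) (nat_lit 345) (nat_lit 366) (nat_lit 309)))) (XT.nd (nat_lit 156) (nat_lit 304) (nat_lit 0) (XT.nd (nat_lit 78) (nat_lit 152) (nat_lit 0) (XT.lf (nat_lit 76) (nat_lit 1205714992) (nat_lit 0) (nat_lit 935520068) (nat_lit 152) (nat_lit 2403895628) (nat_lit 149) (nat_lit 1) (nat_lit 148) (nat_lit 1) (nat_lit 150) (nat_lit 1) (nat_lit 346) (nat_lit 366) (nat_lit 308)) (XT.lf (nat_lit 228) (nat_lit 1361329867) (nat_lit 0) (nat_lit 2419969206) (nat_lit 152) (nat_lit 686564091) (nat_lit 149) (nat_lit 1) (nat_lit 146) (nat_lit 1) (nat_lit 148) (nat_lit 1) (nat_lit 347) (nat_lit 366) (nat_lit 307))) (XT.nd (nat_lit 78) (nat_lit 152) (nat_lit 0) (XT.lf (nat_lit 76)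 (nat_lit 1860840469) (nat_lit 0) (nat_lit 831644985) (nat_lit 152) (nat_lit 1699555485) (nat_lit 145) (nat_lit 1) (nat_lit 144) (nat_lit 1) (nat_lit 146) (nat_lit 1) (nat_lit 348) (nat_lit 366) (nat_lit 306)) (XT.lf (nat_lit 76) (nat_lit 16304726) (nat_lit 0) (nat_lit 2949156296) (nat_lit 228) (nat_lit 1352366489) (nat_lit 143) (nat_lit 1) (nat_lit 142) (nat_lit 1) (nat_lit 145) (nat_lit 1) (nat_lit 349) (nat_lit 366) (nat_lit 305))))) (XT.nd (nat_lit 234) (nat_lit 760) (nat_lit 0) (XT.nd (nat_lit 78) (nat_lit 304) (nat_lit 0) (XT.lf (nat_lit 76) (nat_lit 2450173432) (nat_lit 0) (nat_lit 775639970) (nat_lit 152) (nat_lit 1018998048) (nat_lit 141) (nat_lit 1) (nat_lit 140) (nat_lit 1) (nat_lit 142) (nat_lit 1) (nat_lit 350) (nat_lit 366) (nat_lit 304)) (XT.nd (nat_lit 78) (nat_lit 152) (nat_lit 0) (XT.lf (nat_lit 76) (nat_lit 640736387) (nat_lit 0) (nat_lit 2845008385) (nat_lit 228) (nat_lit 687573576)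 (nat_lit 139) (nat_lit 1) (nat_lit 138) (nat_lit 1) (nat_lit 141) (nat_lit 1) (nat_lit 351) (nat_lit 366) (nat_lit 303)) (XT.lf (nat_lit 76) (nat_lit 2979860061) (nat_lit 0) (nat_lit 759409903) (nat_lit 152) (nat_lit 363874674) (nat_lit 137) (nat_lit 1) (nat_lit 136) (nat_lit 1) (nat_lit 138) (nat_lit 1) (nat_lit 352) (nat_lit 366) (nat_lit 302)))) (XT.nd (nat_lit 156) (nat_lit 304) (nat_lit 0) (XT.nd (nat_lit 78) (nat_lit 304) (nat_lit 0) (XT.lf (nat_lit 76) (nat_lit 1206068844) (nat_lit 0) (nat_lit 2779767779) (nat_lit 228) (nat_lit 48408924) (nat_lit 135) (nat_lit 1) (nat_lit 134) (nat_lit 1) (nat_lit 137) (nat_lit 1) (nat_lit 353) (nat_lit 366) (nat_lit 301)) (XT.lf (nat_lit 228) (nat_lit 3188147054) (nat_lit 0) (nat_lit 269860347) (nat_lit 152) (nat_lit 508679988) (nat_lit 133) (nat_lit 1) (nat_lit 130) (nat_lit 1) (nat_lit 132) (nat_lit 1) (nat_lit 354) (nat_lit 366) (nat_lit 300))) (XT.nd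 (nat_lit 78) (nat_lit 228) (nat_lit 0) (XT.lf (nat_lit 152) (nat_lit 1147899747) (nat_lit 0) (nat_lit 575266526) (nat_lit 76) (nat_lit 2177010206) (nat_lit 131) (nat_lit 1) (nat_lit 129) (nat_lit 1) (nat_lit 130) (nat_lit 1) (nat_lit 355) (nat_lit 366) (nat_lit 299)) (XT.lf (nat_lit 76) (nat_lit 54030964) (nat_lit 0) (nat_lit 828207606) (nat_lit 228) (nat_lit 2952908915) (nat_lit 127) (nat_lit 1) (nat_lit 126) (nat_lit 1) (nat_lit 129) (nat_lit 1) (nat_lit 356) (nat_lit 366) (nat_lit 298))))))) (XT.nd (nat_lit 1092) (nat_lit 1748) (nat_lit 0) (XT.nd (nat_lit 546) (nat_lit 912) (nat_lit 0) (XT.nd (nat_lit 234) (nat_lit 532) (nat_lit 0) (XT.nd (nat_lit 78) (nat_lit 304) (nat_lit 0) (XT.lf (nat_lit 152) (nat_lit 1019594213) (nat_lit 0) (nat_lit 1171905707) (nat_lit 76) (nat_lit 1579523497) (nat_lit 127) (nat_lit 1) (nat_lit 125) (nat_lit 1) (nat_lit 126) (nat_lit 1) (nat_lit 357) (nat_lit 366) (nat_lit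 297)) (XT.nd (nat_lit 78) (nat_lit 76) (nat_lit 0) (XT.lf (nat_lit 76) (nat_lit 557977285) (nat_lit 0) (nat_lit 903495907) (nat_lit 228) (nat_lit 2246805367) (nat_lit 123) (nat_lit 1) (nat_lit 122) (nat_lit 1) (nat_lit 125) (nat_lit 1) (nat_lit 358) (nat_lit 366) (nat_lit 296)) (XT.lf (nat_lit 152) (nat_lit 874813282) (nat_lit 0) (nat_lit 1740094082) (nat_lit 76) (nat_lit 1031663293) (nat_lit 123) (nat_lit 1) (nat_lit 121) (nat_lit 1) (nat_lit 122) (nat_lit 1) (nat_lit 359) (nat_lit 366) (nat_lit 295)))) (XT.nd (nat_lit 156) (nat_lit 228) (nat_lit 0) (XT.nd (nat_lit 78) (nat_lit 76) (nat_lit 0) (XT.lf (nat_lit 76) (nat_lit 1017226695) (nat_lit 0) (nat_lit 995057394) (nat_lit 228) (nat_lit 1573721322) (nat_lit 119) (nat_lit 1) (nat_lit 118) (nat_lit 1) (nat_lit 121) (nat_lit 1) (nat_lit 360) (nat_lit 366) (nat_lit 294)) (XT.lf (nat_lit 152) (nat_lit 717640007) (nat_lit 0) (nat_lit 2279636875) (nat_lit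 76) (nat_lit 529327024) (nat_lit 119) (nat_lit 1) (nat_lit 117) (nat_lit 1) (nat_lit 118) (nat_lit 1) (nat_lit 361) (nat_lit 366) (nat_lit 293))) (XT.nd (nat_lit 78) (nat_lit 76) (nat_lit 0) (XT.lf (nat_lit 76) (nat_lit 1435520366) (nat_lit 0) (nat_lit 1099068851) (nat_lit 152) (nat_lit 933531785) (nat_lit 116) (nat_lit 1) (nat_lit 115) (nat_lit 1) (nat_lit 117) (nat_lit 1) (nat_lit 362) (nat_lit 366) (nat_lit 292)) (XT.lf (nat_lit 152) (nat_lit 551563433) (nat_lit 0) (nat_lit 2790555668) (nat_lit 76) (nat_lit 68803940) (nat_lit 116) (nat_lit 1) (nat_lit 114) (nat_lit 1) (nat_lit 115) (nat_lit 1) (nat_lit 363) (nat_lit 366) (nat_lit 291))))) (XT.nd (nat_lit 234) (nat_lit 456) (nat_lit 0) (XT.nd (nat_lit 78) (nat_lit 304) (nat_lit 0) (XT.lf (nat_lit 76) (nat_lit 1816242464) (nat_lit 0) (nat_lit 1212261470) (nat_lit 152) (nat_lit 325927834) (nat_lit 113) (nat_lit 1) (nat_lit 112) (nat_lit 1) (nat_lit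 114) (nat_lit 1) (nat_lit 364) (nat_lit 366) (nat_lit 290)) (XT.nd (nat_lit 78) (nat_lit 228) (nat_lit 0) (XT.lf (nat_lit 0) (nat_lit 346373603) (nat_lit 0) (nat_lit 2923182313) (nat_lit 152) (nat_lit 29683014) (nat_lit 111) (nat_lit 3) (nat_lit 111) (nat_lit 1) (nat_lit 113) (nat_lit 1) (nat_lit 365) (nat_lit 366) (nat_lit 289)) (XT.lf (nat_lit 152) (nat_lit 1910386218) (nat_lit 0) (nat_lit 254518905) (nat_lit 76) (nat_lit 1079777862) (nat_lit 110) (nat_lit 1) (nat_lit 108) (nat_lit 1) (nat_lit 109) (nat_lit 1) (nat_lit 366) (nat_lit 366) (nat_lit 288)))) (XT.nd (nat_lit 156) (nat_lit 228) (nat_lit 0) (XT.nd (nat_lit 78) (nat_lit 152) (nat_lit 0) (XT.lf (nat_lit 76) (nat_lit 191466747) (nat_lit 0) (nat_lit 539212798) (nat_lit 76) (nat_lit 2460633213) (nat_lit 108) (nat_lit 3) (nat_lit 107) (nat_lit 1) (nat_lit 108) (nat_lit 1) (nat_lit 367) (nat_lit 366) (nat_lit 287)) (XT.lf (nat_lit 152) (nat_lit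 1675440319) (nat_lit 0) (nat_lit 809288529) (nat_lit 76) (nat_lit 653962431) (nat_lit 107) (nat_lit 1) (nat_lit 105) (nat_lit 1) (nat_lit 106) (nat_lit 1) (nat_lit 368) (nat_lit 366) (nat_lit 286))) (XT.nd (nat_lit 78) (nat_lit 152) (nat_lit 0) (XT.lf (nat_lit 76) (nat_lit 5925431) (nat_lit 0) (nat_lit 1077050413) (nat_lit 76) (nat_lit 2004178709) (nat_lit 105) (nat_lit 3) (nat_lit 104) (nat_lit 1) (nat_lit 105) (nat_lit 1) (nat_lit 369) (nat_lit 366) (nat_lit 285)) (XT.lf (nat_lit 152) (nat_lit 1442452989) (nat_lit 0) (nat_lit 1332598415) (nat_lit 76) (nat_lit 261340882) (nat_lit 104) (nat_lit 1) (nat_lit 102) (nat_lit 1) (nat_lit 103) (nat_lit 1) (nat_lit 370) (nat_lit 366) (nat_lit 284)))))) (XT.nd (nat_lit 546) (nat_lit 836) (nat_lit 0) (XT.nd (nat_lit 234) (nat_lit 532) (nat_lit 0) (XT.nd (nat_lit 78) (nat_lit 228) (nat_lit 0) (XT.lf (nat_lit 76) (nat_lit 1407165415) (nat_lit 0) (nat_lit 175033073)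 (nat_lit 152) (nat_lit 1404366965) (nat_lit 101) (nat_lit 1) (nat_lit 100) (nat_lit 1) (nat_lit 102) (nat_lit 1) (nat_lit 371) (nat_lit 366) (nat_lit 283)) (XT.nd (nat_lit 78) (nat_lit 152) (nat_lit 0) (XT.lf (nat_lit 0) (nat_lit 98581857) (nat_lit 0) (nat_lit 1725659162) (nat_lit 152) (nat_lit 1113365037) (nat_lit 99) (nat_lit 3) (nat_lit 99) (nat_lit 1) (nat_lit 101) (nat_lit 1) (nat_lit 372) (nat_lit 366) (nat_lit 282)) (XT.lf (nat_lit 76) (nat_lit 1703823924) (nat_lit 0) (nat_lit 353371420) (nat_lit 152) (nat_lit 832253448) (nat_lit 98) (nat_lit 1) (nat_lit 97) (nat_lit 1) (nat_lit 99) (nat_lit 1) (nat_lit 373) (nat_lit 366) (nat_lit 281)))) (XT.nd (nat_lit 156) (nat_lit 304) (nat_lit 0) (XT.nd (nat_lit 78) (nat_lit 152) (nat_lit 0) (XT.lf (nat_lit 0) (nat_lit 425469035) (nat_lit 0) (nat_lit 1858291442) (nat_lit 152) (nat_lit 558391481) (nat_lit 96) (nat_lit 3) (nat_lit 96) (nat_lit 1) (nat_lit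 98) (nat_lit 1) (nat_lit 374) (nat_lit 366) (nat_lit 280)) (XT.lf (nat_lit 76) (nat_lit 1974945983) (nat_lit 0) (nat_lit 528030194) (nat_lit 152) (nat_lit 292691473) (nat_lit 95) (nat_lit 1) (nat_lit 94) (nat_lit 1) (nat_lit 96) (nat_lit 1) (nat_lit 375) (nat_lit 366) (nat_lit 279))) (XT.nd (nat_lit 78) (nat_lit 228) (nat_lit 0) (XT.lf (nat_lit 0) (nat_lit 726434748) (nat_lit 0) (nat_lit 1988194127) (nat_lit 152) (nat_lit 35341219) (nat_lit 93) (nat_lit 3) (nat_lit 93) (nat_lit 1) (nat_lit 95) (nat_lit 1) (nat_lit 376) (nat_lit 366) (nat_lit 278)) (XT.lf (nat_lit 152) (nat_lit 2004863829) (nat_lit 0) (nat_lit 219656696) (nat_lit 76) (nat_lit 480506996) (nat_lit 92) (nat_lit 1) (nat_lit 90) (nat_lit 1) (nat_lit 91) (nat_lit 1) (nat_lit 377) (nat_lit 366) (nat_lit 277))))) (XT.nd (nat_lit 234) (nat_lit 532) (nat_lit 0) (XT.nd (nat_lit 78) (nat_lit 228) (nat_lit 0) (XT.lf (nat_lit 76) (nat_lit 541874530)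 (nat_lit 0) (nat_lit 465929616) (nat_lit 76) (nat_lit 1652993900) (nat_lit 90) (nat_lit 3) (nat_lit 89) (nat_lit 1) (nat_lit 90) (nat_lit 1) (nat_lit 378) (nat_lit 366) (nat_lit 276)) (XT.nd (nat_lit 78) (nat_lit 76) (nat_lit 0) (XT.lf (nat_lit 152) (nat_lit 1747927529) (nat_lit 0) (nat_lit 706800559) (nat_lit 76) (nat_lit 162662240) (nat_lit 89) (nat_lit 1) (nat_lit 87) (nat_lit 1) (nat_lit 88) (nat_lit 1) (nat_lit 379) (nat_lit 366) (nat_lit 275)) (XT.lf (nat_lit 76) (nat_lit 329335306) (nat_lit 0) (nat_lit 937512447) (nat_lit 76) (nat_lit 1307799406) (nat_lit 87) (nat_lit 3) (nat_lit 86) (nat_lit 1) (nat_lit 87) (nat_lit 1) (nat_lit 380) (nat_lit 366) (nat_lit 274)))) (XT.nd (nat_lit 156) (nat_lit 304) (nat_lit 0) (XT.nd (nat_lit 78) (nat_lit 76) (nat_lit 0) (XT.lf (nat_lit 0) (nat_lit 128998171) (nat_lit 0) (nat_lit 1033726881) (nat_lit 152) (nat_lit 1369960918) (nat_lit 84) (nat_lit 3) (nat_lit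 84) (nat_lit 1) (nat_lit 86) (nat_lit 1) (nat_lit 381) (nat_lit 366) (nat_lit 273)) (XT.lf (nat_lit 76) (nat_lit 124977719) (nat_lit 0) (nat_lit 1379810442) (nat_lit 76) (nat_lit 986624110) (nat_lit 84) (nat_lit 3) (nat_lit 83) (nat_lit 1) (nat_lit 84) (nat_lit 1) (nat_lit 382) (nat_lit 366) (nat_lit 272))) (XT.nd (nat_lit 78) (nat_lit 152) (nat_lit 0) (XT.lf (nat_lit 0) (nat_lit 395872797) (nat_lit 0) (nat_lit 1192586982) (nat_lit 152) (nat_lit 862339683) (nat_lit 81) (nat_lit 3) (nat_lit 81) (nat_lit 1) (nat_lit 83) (nat_lit 1) (nat_lit 383) (nat_lit 366) (nat_lit 271)) (XT.lf (nat_lit 76) (nat_lit 1723752310) (nat_lit 0) (nat_lit 69480239) (nat_lit 152) (nat_lit 617730527) (nat_lit 80) (nat_lit 1) (nat_lit 79) (nat_lit 1) (nat_lit 81) (nat_lit 1) (nat_lit 384) (nat_lit 366) (nat_lit 270))))))))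
noncomputable def ec54 : XT := (XT.nd (nat_lit 46722) (nat_lit 0) (nat_lit 9424) (XT.nd (nat_lit 45630) (nat_lit 0) (nat_lit 19760) (XT.nd (nat_lit 546) (nat_lit 456) (nat_lit 0) (XT.nd (nat_lit 234) (nat_lit 456) (nat_lit 0) (XT.nd (nat_lit 78) (nat_lit 304) (nat_lit 0) (XT.lf (nat_lit 0) (nat_lit 642562012) (nat_lit 0) (nat_lit 1344157402) (nat_lit 152) (nat_lit 384950955) (nat_lit 78) (nat_lit 3) (nat_lit 78) (nat_lit 1) (nat_lit 80) (nat_lit 1) (nat_lit 385) (nat_lit 366) (nat_lit 269)) (XT.nd (nat_lit 78) (nat_lit 152) (nat_lit 0) (XT.lf (nat_lit 76) (nat_lit 1925510488) (nat_lit 0) (nat_lit 252926852) (nat_lit 152) (nat_lit 154744574) (nat_lit 77) (nat_lit 1) (nat_lit 76) (nat_lit 1) (nat_lit 78) (nat_lit 1) (nat_lit 386) (nat_lit 366) (nat_lit 268)) (XT.lf (nat_lit 76) (nat_lit 806338614) (nat_lit 0) (nat_lit 64667848) (nat_lit 76) (nat_lit 1424171333) (nat_lit 75) (nat_lit 3) (nat_lit 74)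 (nat_lit 1) (nat_lit 75) (nat_lit 1) (nat_lit 387) (nat_lit 366) (nat_lit 267)))) (XT.nd (nat_lit 156) (nat_lit 228) (nat_lit 0) (XT.nd (nat_lit 78) (nat_lit 76) (nat_lit 0) (XT.lf (nat_lit 152) (nat_lit 1827510373) (nat_lit 0) (nat_lit 285325353) (nat_lit 76) (nat_lit 145087191) (nat_lit 74) (nat_lit 1) (nat_lit 72) (nat_lit 1) (nat_lit 73) (nat_lit 1) (nat_lit 388) (nat_lit 366) (nat_lit 266)) (XT.lf (nat_lit 76) (nat_lit 591760294) (nat_lit 0) (nat_lit 493546896) (nat_lit 76) (nat_lit 1135830671) (nat_lit 72) (nat_lit 3) (nat_lit 71) (nat_lit 1) (nat_lit 72) (nat_lit 1) (nat_lit 389) (nat_lit 366) (nat_lit 265))) (XT.nd (nat_lit 78) (nat_lit 76) (nat_lit 0) (XT.lf (nat_lit 0) (nat_lit 98283439) (nat_lit 0) (nat_lit 601353598) (nat_lit 152) (nat_lit 1485469874) (nat_lit 69) (nat_lit 3) (nat_lit 69) (nat_lit 1) (nat_lit 71) (nat_lit 1) (nat_lit 390) (nat_lit 366) (nat_lit 264)) (XT.lf (nat_lit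 76) (nat_lit 387621267) (nat_lit 0) (nat_lit 895213402) (nat_lit 76) (nat_lit 866735705) (nat_lit 69) (nat_lit 3) (nat_lit 68) (nat_lit 1) (nat_lit 69) (nat_lit 1) (nat_lit 391) (nat_lit 366) (nat_lit 263))))) (XT.nd (nat_lit 234) (nat_lit 76) (nat_lit 0) (XT.nd (nat_lit 78) (nat_lit 228) (nat_lit 0) (XT.lf (nat_lit 0) (nat_lit 321507462) (nat_lit 0) (nat_lit 764516650) (nat_lit 152) (nat_lit 1028656309) (nat_lit 66) (nat_lit 3) (nat_lit 66) (nat_lit 1) (nat_lit 68) (nat_lit 1) (nat_lit 392) (nat_lit 366) (nat_lit 262)) (XT.nd (nat_lit 78) (nat_lit 152) (nat_lit 0) (XT.lf (nat_lit 76) (nat_lit 193820067) (nat_lit 0) (nat_lit 1270832423) (nat_lit 76) (nat_lit 615733580) (nat_lit 66) (nat_lit 3) (nat_lit 65) (nat_lit 1) (nat_lit 66) (nat_lit 1) (nat_lit 393) (nat_lit 366) (nat_lit 261)) (XT.lf (nat_lit 0) (nat_lit 528475290) (nat_lit 0) (nat_lit 918594118) (nat_lit 152) (nat_lit 599528416) (nat_lit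 63) (nat_lit 3) (nat_lit 63) (nat_lit 1) (nat_lit 65) (nat_lit 1) (nat_lit 394) (nat_lit 366) (nat_lit 260)))) (XT.nd (nat_lit 44694) (nat_lit 0) (nat_lit 23788) (XT.nd (nat_lit 44616) (nat_lit 0) (nat_lit 23712) (XT.lf (nat_lit 76) (nat_lit 10207479) (nat_lit 0) (nat_lit 1621542873) (nat_lit 76) (nat_lit 381749220) (nat_lit 63) (nat_lit 3) (nat_lit 62) (nat_lit 1) (nat_lit 63) (nat_lit 1) (nat_lit 395) (nat_lit 366) (nat_lit 259)) (XT.lf (nat_lit 1292) (nat_lit 1392437632) (nat_lit 0) (nat_lit 4790633036) (nat_lit 1292) (nat_lit 1392437632) (nat_lit 391) (nat_lit 1) (nat_lit 374) (nat_lit 0) (nat_lit 391) (nat_lit 0) (nat_lit 286) (nat_lit 367) (nat_lit 367))) (XT.nd (nat_lit 78) (nat_lit 0) (nat_lit 0) (XT.lf (nat_lit 1292) (nat_lit 111634165) (nat_lit 0) (nat_lit 9446120968) (nat_lit 1216) (nat_lit 5229733570) (nat_lit 392) (nat_lit 1) (nat_lit 375) (nat_lit 1) (nat_lit 391) (nat_lit 1) (nat_lit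 287) (nat_lit 367) (nat_lit 366)) (XT.lf (nat_lit 1292) (nat_lit 4911423323) (nat_lit 76) (nat_lit 6947028567) (nat_lit 0) (nat_lit 2576632282) (nat_lit 392) (nat_lit 1) (nat_lit 376) (nat_lit 1) (nat_lit 375) (nat_lit 1) (nat_lit 288) (nat_lit 367) (nat_lit 365)))))) (XT.nd (nat_lit 546) (nat_lit 3116) (nat_lit 0) (XT.nd (nat_lit 234) (nat_lit 988) (nat_lit 0) (XT.nd (nat_lit 78) (nat_lit 0) (nat_lit 76) (XT.lf (nat_lit 1292) (nat_lit 4317557567) (nat_lit 76) (nat_lit 4547327305) (nat_lit 0) (nat_lit 5229205212) (nat_lit 393) (nat_lit 1) (nat_lit 377) (nat_lit 1) (nat_lit 376) (nat_lit 1) (nat_lit 289) (nat_lit 367) (nat_lit 364)) (XT.nd (nat_lit 78) (nat_lit 0) (nat_lit 76) (XT.lf (nat_lit 1292) (nat_lit 3573069610) (nat_lit 76) (nat_lit 2348932078) (nat_lit 0) (nat_lit 7842121396) (nat_lit 394) (nat_lit 1) (nat_lit 378) (nat_lit 1) (nat_lit 377) (nat_lit 1) (nat_lit 290) (nat_lit 367) (nat_lit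 363)) (XT.lf (nat_lit 1292) (nat_lit 2689440483) (nat_lit 76) (nat_lit 341499981) (nat_lit 0) (nat_lit 10413843104) (nat_lit 395) (nat_lit 1) (nat_lit 379) (nat_lit 1) (nat_lit 378) (nat_lit 1) (nat_lit 291) (nat_lit 367) (nat_lit 362)))) (XT.nd (nat_lit 156) (nat_lit 1216) (nat_lit 0) (XT.nd (nat_lit 78) (nat_lit 0) (nat_lit 0) (XT.lf (nat_lit 1292) (nat_lit 206938102) (nat_lit 0) (nat_lit 11472464714) (nat_lit 1216) (nat_lit 1455856790) (nat_lit 396) (nat_lit 1) (nat_lit 379) (nat_lit 1) (nat_lit 395) (nat_lit 1) (nat_lit 292) (nat_lit 367) (nat_lit 361)) (XT.lf (nat_lit 1292) (nat_lit 490488322) (nat_lit 76) (nat_lit 9731489688) (nat_lit 0) (nat_lit 2612830400) (nat_lit 396) (nat_lit 1) (nat_lit 380) (nat_lit 1) (nat_lit 379) (nat_lit 1) (nat_lit 293) (nat_lit 367) (nat_lit 360))) (XT.nd (nat_lit 78) (nat_lit 0) (nat_lit 76) (XT.lf (nat_lit 1368) (nat_lit 7168481267) (nat_lit 0) (nat_lit 774837853)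 (nat_lit 1292) (nat_lit 4600332995) (nat_lit 381) (nat_lit 1) (nat_lit 363) (nat_lit 1) (nat_lit 380) (nat_lit 1) (nat_lit 294) (nat_lit 367) (nat_lit 359)) (XT.lf (nat_lit 1368) (nat_lit 4184203661) (nat_lit 0) (nat_lit 2126063796) (nat_lit 1292) (nat_lit 5951300175) (nat_lit 382) (nat_lit 1) (nat_lit 364) (nat_lit 1) (nat_lit 381) (nat_lit 1) (nat_lit 295) (nat_lit 367) (nat_lit 358))))) (XT.nd (nat_lit 234) (nat_lit 1824) (nat_lit 0) (XT.nd (nat_lit 78) (nat_lit 1444) (nat_lit 0) (XT.lf (nat_lit 76) (nat_lit 1264488543) (nat_lit 0) (nat_lit 3564472146) (nat_lit 1292) (nat_lit 7159409257) (nat_lit 366) (nat_lit 1) (nat_lit 365) (nat_lit 1) (nat_lit 382) (nat_lit 1) (nat_lit 296) (nat_lit 367) (nat_lit 357)) (XT.nd (nat_lit 78) (nat_lit 608) (nat_lit 0) (XT.lf (nat_lit 912) (nat_lit 6625419042) (nat_lit 0) (nat_lit 3475485436) (nat_lit 836) (nat_lit 1622372990) (nat_lit 366) (nat_lit 1) (nat_lit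 354) (nat_lit 1) (nat_lit 365) (nat_lit 1) (nat_lit 297) (nat_lit 367) (nat_lit 356)) (XT.lf (nat_lit 684) (nat_lit 4751046799) (nat_lit 0) (nat_lit 2246298432) (nat_lit 608) (nat_lit 4468758298) (nat_lit 355) (nat_lit 1) (nat_lit 346) (nat_lit 1) (nat_lit 354) (nat_lit 1) (nat_lit 298) (nat_lit 367) (nat_lit 355)))) (XT.nd (nat_lit 156) (nat_lit 684) (nat_lit 0) (XT.nd (nat_lit 78) (nat_lit 532) (nat_lit 0) (XT.lf (nat_lit 684) (nat_lit 2820155578) (nat_lit 0) (nat_lit 1147025101) (nat_lit 608) (nat_lit 7249749421) (nat_lit 347) (nat_lit 1) (nat_lit 338) (nat_lit 1) (nat_lit 346) (nat_lit 1) (nat_lit 299) (nat_lit 367) (nat_lit 354)) (XT.lf (nat_lit 608) (nat_lit 838945932) (nat_lit 0) (nat_lit 170851953) (nat_lit 532) (nat_lit 9965680528) (nat_lit 339) (nat_lit 1) (nat_lit 331) (nat_lit 1) (nat_lit 338) (nat_lit 1) (nat_lit 300) (nat_lit 367) (nat_lit 353))) (XT.nd (nat_lit 78) (nat_lit 608)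 (nat_lit 0) (XT.lf (nat_lit 76) (nat_lit 8846328865) (nat_lit 0) (nat_lit 1188796511) (nat_lit 608) (nat_lit 705257109) (nat_lit 331) (nat_lit 1) (nat_lit 330) (nat_lit 1) (nat_lit 338) (nat_lit 1) (nat_lit 301) (nat_lit 367) (nat_lit 352)) (XT.lf (nat_lit 76) (nat_lit 5776093551) (nat_lit 0) (nat_lit 3248325782) (nat_lit 684) (nat_lit 1487513734) (nat_lit 323) (nat_lit 1) (nat_lit 322) (nat_lit 1) (nat_lit 331) (nat_lit 1) (nat_lit 302) (nat_lit 367) (nat_lit 351))))))) (XT.nd (nat_lit 1092) (nat_lit 4028) (nat_lit 0) (XT.nd (nat_lit 546) (nat_lit 2812) (nat_lit 0) (XT.nd (nat_lit 234) (nat_lit 1976) (nat_lit 0) (XT.nd (nat_lit 78) (nat_lit 988) (nat_lit 0) (XT.lf (nat_lit 76) (nat_lit 2784103760) (nat_lit 0) (nat_lit 5339425996) (nat_lit 608) (nat_lit 2166943125) (nat_lit 316) (nat_lit 1) (nat_lit 315) (nat_lit 1) (nat_lit 323) (nat_lit 1) (nat_lit 303) (nat_lit 367) (nat_lit 350)) (XT.nd (nat_lit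 78) (nat_lit 456) (nat_lit 0) (XT.lf (nat_lit 608) (nat_lit 2616975611) (nat_lit 0) (nat_lit 7325409080) (nat_lit 532) (nat_lit 133339762) (nat_lit 316) (nat_lit 1) (nat_lit 308) (nat_lit 1) (nat_lit 315) (nat_lit 1) (nat_lit 304) (nat_lit 367) (nat_lit 349)) (XT.lf (nat_lit 532) (nat_lit 239468141) (nat_lit 0) (nat_lit 6598566236) (nat_lit 456) (nat_lit 3028665363) (nat_lit 309) (nat_lit 1) (nat_lit 302) (nat_lit 1) (nat_lit 308) (nat_lit 1) (nat_lit 305) (nat_lit 367) (nat_lit 348)))) (XT.nd (nat_lit 156) (nat_lit 912) (nat_lit 0) (XT.nd (nat_lit 78) (nat_lit 456) (nat_lit 0) (XT.lf (nat_lit 76) (nat_lit 3837005437) (nat_lit 0) (nat_lit 2107601260) (nat_lit 608) (nat_lit 3718769325) (nat_lit 295) (nat_lit 1) (nat_lit 294) (nat_lit 1) (nat_lit 302) (nat_lit 1) (nat_lit 306) (nat_lit 367) (nat_lit 347)) (XT.lf (nat_lit 76) (nat_lit 919582371) (nat_lit 0) (nat_lit 4457794440) (nat_lit 532) (nat_lit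 4088711625) (nat_lit 289) (nat_lit 1) (nat_lit 288) (nat_lit 1) (nat_lit 295) (nat_lit 1) (nat_lit 307) (nat_lit 367) (nat_lit 346))) (XT.nd (nat_lit 78) (nat_lit 456) (nat_lit 0) (XT.lf (nat_lit 532) (nat_lit 2442794966) (nat_lit 0) (nat_lit 4875154158) (nat_lit 456) (nat_lit 1956188310) (nat_lit 289) (nat_lit 1) (nat_lit 282) (nat_lit 1) (nat_lit 288) (nat_lit 1) (nat_lit 308) (nat_lit 367) (nat_lit 345)) (XT.lf (nat_lit 76) (nat_lit 4318497067) (nat_lit 0) (nat_lit 124548186) (nat_lit 456) (nat_lit 4644560910) (nat_lit 277) (nat_lit 1) (nat_lit 276) (nat_lit 1) (nat_lit 282) (nat_lit 1) (nat_lit 309) (nat_lit 367) (nat_lit 344))))) (XT.nd (nat_lit 234) (nat_lit 1596) (nat_lit 0) (XT.nd (nat_lit 78) (nat_lit 760) (nat_lit 0) (XT.lf (nat_lit 76) (nat_lit 1426356993) (nat_lit 0) (nat_lit 2636807964) (nat_lit 532) (nat_lit 4842744407) (nat_lit 271) (nat_lit 1) (nat_lit 270) (nat_lit 1) (nat_lit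 277) (nat_lit 1) (nat_lit 310) (nat_lit 367) (nat_lit 343)) (XT.nd (nat_lit 78) (nat_lit 380) (nat_lit 0) (XT.lf (nat_lit 456) (nat_lit 3576302409) (nat_lit 0) (nat_lit 3741630323) (nat_lit 380) (nat_lit 1411229358) (nat_lit 271) (nat_lit 1) (nat_lit 265) (nat_lit 1) (nat_lit 270) (nat_lit 1) (nat_lit 311) (nat_lit 367) (nat_lit 342)) (XT.lf (nat_lit 456) (nat_lit 887043429) (nat_lit 0) (nat_lit 3474912303) (nat_lit 380) (nat_lit 4195243920) (nat_lit 266) (nat_lit 1) (nat_lit 260) (nat_lit 1) (nat_lit 265) (nat_lit 1) (nat_lit 312) (nat_lit 367) (nat_lit 341)))) (XT.nd (nat_lit 156) (nat_lit 760) (nat_lit 0) (XT.nd (nat_lit 78) (nat_lit 380) (nat_lit 0) (XT.lf (nat_lit 76) (nat_lit 1508348325) (nat_lit 0) (nat_lit 1747669391) (nat_lit 456) (nat_lit 5133739914) (nat_lit 255) (nat_lit 1) (nat_lit 254) (nat_lit 1) (nat_lit 260) (nat_lit 1) (nat_lit 313) (nat_lit 367) (nat_lit 340)) (XT.lf (nat_lit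 456) (nat_lit 3870217414) (nat_lit 0) (nat_lit 3077787350) (nat_lit 380) (nat_lit 1278563174) (nat_lit 255) (nat_lit 1) (nat_lit 249) (nat_lit 1) (nat_lit 254) (nat_lit 1) (nat_lit 314) (nat_lit 367) (nat_lit 339))) (XT.nd (nat_lit 78) (nat_lit 456) (nat_lit 0) (XT.lf (nat_lit 380) (nat_lit 1111159374) (nat_lit 0) (nat_lit 2943852103) (nat_lit 304) (nat_lit 4012666412) (nat_lit 250) (nat_lit 1) (nat_lit 245) (nat_lit 1) (nat_lit 249) (nat_lit 1) (nat_lit 315) (nat_lit 367) (nat_lit 338)) (XT.lf (nat_lit 76) (nat_lit 1263072218) (nat_lit 0) (nat_lit 1587080938) (nat_lit 456) (nat_lit 5062758788) (nat_lit 240) (nat_lit 1) (nat_lit 239) (nat_lit 1) (nat_lit 245) (nat_lit 1) (nat_lit 316) (nat_lit 367) (nat_lit 337)))))) (XT.nd (nat_lit 546) (nat_lit 1900) (nat_lit 0) (XT.nd (nat_lit 234) (nat_lit 1140) (nat_lit 0) (XT.nd (nat_lit 78) (nat_lit 684) (nat_lit 0) (XT.lf (nat_lit 380) (nat_lit 3513856679)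 (nat_lit 0) (nat_lit 2784408738) (nat_lit 304) (nat_lit 1463590731) (nat_lit 240) (nat_lit 1) (nat_lit 235) (nat_lit 1) (nat_lit 239) (nat_lit 1) (nat_lit 317) (nat_lit 367) (nat_lit 336)) (XT.nd (nat_lit 78) (nat_lit 380) (nat_lit 0) (XT.lf (nat_lit 380) (nat_lit 724902417) (nat_lit 0) (nat_lit 2757211661) (nat_lit 304) (nat_lit 4132649791) (nat_lit 236) (nat_lit 1) (nat_lit 231) (nat_lit 1) (nat_lit 235) (nat_lit 1) (nat_lit 318) (nat_lit 367) (nat_lit 335)) (XT.lf (nat_lit 76) (nat_lit 770355618) (nat_lit 0) (nat_lit 1988035480) (nat_lit 380) (nat_lit 4712893662) (nat_lit 227) (nat_lit 1) (nat_lit 226) (nat_lit 1) (nat_lit 231) (nat_lit 1) (nat_lit 319) (nat_lit 367) (nat_lit 334)))) (XT.nd (nat_lit 156) (nat_lit 532) (nat_lit 0) (XT.nd (nat_lit 78) (nat_lit 304) (nat_lit 0) (XT.lf (nat_lit 380) (nat_lit 2662454872) (nat_lit 0) (nat_lit 2779788736) (nat_lit 304) (nat_lit 1888884512) (nat_lit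 227) (nat_lit 1) (nat_lit 222) (nat_lit 1) (nat_lit 226) (nat_lit 1) (nat_lit 320) (nat_lit 367) (nat_lit 333)) (XT.lf (nat_lit 76) (nat_lit 2714360759) (nat_lit 0) (nat_lit 122128582) (nat_lit 304) (nat_lit 4358191903) (nat_lit 219) (nat_lit 1) (nat_lit 218) (nat_lit 1) (nat_lit 222) (nat_lit 1) (nat_lit 321) (nat_lit 367) (nat_lit 332))) (XT.nd (nat_lit 78) (nat_lit 228) (nat_lit 0) (XT.lf (nat_lit 76) (nat_lit 95312362) (nat_lit 0) (nat_lit 2813749523) (nat_lit 380) (nat_lit 4152265217) (nat_lit 215) (nat_lit 1) (nat_lit 214) (nat_lit 1) (nat_lit 219) (nat_lit 1) (nat_lit 322) (nat_lit 367) (nat_lit 331)) (XT.lf (nat_lit 304) (nat_lit 1442877896) (nat_lit 0) (nat_lit 2996818935) (nat_lit 228) (nat_lit 2491298736) (nat_lit 215) (nat_lit 1) (nat_lit 211) (nat_lit 1) (nat_lit 214) (nat_lit 1) (nat_lit 323) (nat_lit 367) (nat_lit 330))))) (XT.nd (nat_lit 234) (nat_lit 988) (nat_lit 0) (XT.nd (nat_lit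 78) (nat_lit 532) (nat_lit 0) (XT.lf (nat_lit 76) (nat_lit 1817614331) (nat_lit 0) (nat_lit 1291331910) (nat_lit 380) (nat_lit 3694958797) (nat_lit 207) (nat_lit 1) (nat_lit 206) (nat_lit 1) (nat_lit 211) (nat_lit 1) (nat_lit 324) (nat_lit 367) (nat_lit 329)) (XT.nd (nat_lit 78) (nat_lit 304) (nat_lit 0) (XT.lf (nat_lit 304) (nat_lit 2720199714) (nat_lit 0) (nat_lit 3236257721) (nat_lit 228) (nat_lit 723282311) (nat_lit 207) (nat_lit 1) (nat_lit 203) (nat_lit 1) (nat_lit 206) (nat_lit 1) (nat_lit 325) (nat_lit 367) (nat_lit 328)) (XT.lf (nat_lit 76) (nat_lit 3339351596) (nat_lit 0) (nat_lit 40786403) (nat_lit 304) (nat_lit 3178354723) (nat_lit 200) (nat_lit 1) (nat_lit 199) (nat_lit 1) (nat_lit 203) (nat_lit 1) (nat_lit 326) (nat_lit 367) (nat_lit 327)))) (XT.nd (nat_lit 156) (nat_lit 532) (nat_lit 0) (XT.nd (nat_lit 78) (nat_lit 228) (nat_lit 0) (XT.lf (nat_lit 76) (nat_lit 829884733) (nat_lit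 0) (nat_lit 2700993317) (nat_lit 304) (nat_lit 2908956738) (nat_lit 197) (nat_lit 1) (nat_lit 196) (nat_lit 1) (nat_lit 200) (nat_lit 1) (nat_lit 327) (nat_lit 367) (nat_lit 326)) (XT.lf (nat_lit 304) (nat_lit 994472070) (nat_lit 0) (nat_lit 3697313196) (nat_lit 228) (nat_lit 1632192507) (nat_lit 197) (nat_lit 1) (nat_lit 193) (nat_lit 1) (nat_lit 196) (nat_lit 1) (nat_lit 328) (nat_lit 367) (nat_lit 325))) (XT.nd (nat_lit 78) (nat_lit 228) (nat_lit 0) (XT.lf (nat_lit 76) (nat_lit 2195271431) (nat_lit 0) (nat_lit 1673975372) (nat_lit 304) (nat_lit 2341333239) (nat_lit 190) (nat_lit 1) (nat_lit 189) (nat_lit 1) (nat_lit 193) (nat_lit 1) (nat_lit 329) (nat_lit 367) (nat_lit 324)) (XT.lf (nat_lit 304) (nat_lit 1824349898) (nat_lit 0) (nat_lit 4058678931) (nat_lit 228) (nat_lit 216918491) (nat_lit 190) (nat_lit 1) (nat_lit 186) (nat_lit 1) (nat_lit 189) (nat_lit 1) (nat_lit 330) (nat_lit 367) (nat_lit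 323))))))))
noncomputable def ec55 : XT := (XT.nd (nat_lit 2184) (nat_lit 3496) (nat_lit 0) (XT.nd (nat_lit 1092) (nat_lit 2280) (nat_lit 0) (XT.nd (nat_lit 546) (nat_lit 1292) (nat_lit 0) (XT.nd (nat_lit 234) (nat_lit 912) (nat_lit 0) (XT.nd (nat_lit 78) (nat_lit 456) (nat_lit 0) (XT.lf (nat_lit 76) (nat_lit 3405453208) (nat_lit 0) (nat_lit 840554156) (nat_lit 228) (nat_lit 1745458346) (nat_lit 184) (nat_lit 1) (nat_lit 183) (nat_lit 1) (nat_lit 186) (nat_lit 1) (nat_lit 331) (nat_lit 367) (nat_lit 322)) (XT.nd (nat_lit 78) (nat_lit 228) (nat_lit 0) (XT.lf (nat_lit 76) (nat_lit 1023948477) (nat_lit 0) (nat_lit 3418731492) (nat_lit 304) (nat_lit 1442746534) (nat_lit 181) (nat_lit 1) (nat_lit 180) (nat_lit 1) (nat_lit 184) (nat_lit 1) (nat_lit 332) (nat_lit 367) (nat_lit 321)) (XT.lf (nat_lit 76) (nat_lit 4476828382) (nat_lit 0) (nat_lit 173644904) (nat_lit 228) (nat_lit 1131366820) (nat_lit 178)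 (nat_lit 1) (nat_lit 177) (nat_lit 1) (nat_lit 180) (nat_lit 1) (nat_lit 333) (nat_lit 367) (nat_lit 320)))) (XT.nd (nat_lit 156) (nat_lit 532) (nat_lit 0) (XT.nd (nat_lit 78) (nat_lit 152) (nat_lit 0) (XT.lf (nat_lit 76) (nat_lit 2125295808) (nat_lit 0) (nat_lit 2723670506) (nat_lit 304) (nat_lit 831104867) (nat_lit 175) (nat_lit 1) (nat_lit 174) (nat_lit 1) (nat_lit 178) (nat_lit 1) (nat_lit 334) (nat_lit 367) (nat_lit 319)) (XT.lf (nat_lit 228) (nat_lit 357389978) (nat_lit 0) (nat_lit 5070016891) (nat_lit 152) (nat_lit 153600980) (nat_lit 175) (nat_lit 1) (nat_lit 172) (nat_lit 1) (nat_lit 174) (nat_lit 1) (nat_lit 335) (nat_lit 367) (nat_lit 318))) (XT.nd (nat_lit 78) (nat_lit 304) (nat_lit 0) (XT.lf (nat_lit 76) (nat_lit 3105350997) (nat_lit 0) (nat_lit 2165783596) (nat_lit 228) (nat_lit 212238912) (nat_lit 170) (nat_lit 1) (nat_lit 169) (nat_lit 1) (nat_lit 172) (nat_lit 1) (nat_lit 336)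 (nat_lit 367) (nat_lit 317)) (XT.lf (nat_lit 228) (nat_lit 757519631) (nat_lit 0) (nat_lit 105045474) (nat_lit 152) (nat_lit 4525668654) (nat_lit 168) (nat_lit 1) (nat_lit 165) (nat_lit 1) (nat_lit 167) (nat_lit 1) (nat_lit 337) (nat_lit 367) (nat_lit 316))))) (XT.nd (nat_lit 234) (nat_lit 684) (nat_lit 0) (XT.nd (nat_lit 78) (nat_lit 380) (nat_lit 0) (XT.lf (nat_lit 228) (nat_lit 3565316495) (nat_lit 0) (nat_lit 415243597) (nat_lit 152) (nat_lit 1314133818) (nat_lit 165) (nat_lit 1) (nat_lit 162) (nat_lit 1) (nat_lit 164) (nat_lit 1) (nat_lit 338) (nat_lit 367) (nat_lit 315)) (XT.nd (nat_lit 78) (nat_lit 228) (nat_lit 0) (XT.lf (nat_lit 228) (nat_lit 1045831696) (nat_lit 0) (nat_lit 728352444) (nat_lit 152) (nat_lit 3429008503) (nat_lit 163) (nat_lit 1) (nat_lit 160) (nat_lit 1) (nat_lit 162) (nat_lit 1) (nat_lit 339) (nat_lit 367) (nat_lit 314)) (XT.lf (nat_lit 228) (nat_lit 3718298471) (nat_lit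 0) (nat_lit 1041755720) (nat_lit 152) (nat_lit 353562351) (nat_lit 160) (nat_lit 1) (nat_lit 157) (nat_lit 1) (nat_lit 159) (nat_lit 1) (nat_lit 340) (nat_lit 367) (nat_lit 313)))) (XT.nd (nat_lit 156) (nat_lit 304) (nat_lit 0) (XT.nd (nat_lit 78) (nat_lit 228) (nat_lit 0) (XT.lf (nat_lit 228) (nat_lit 1244955428) (nat_lit 0) (nat_lit 1344920785) (nat_lit 152) (nat_lit 2435746110) (nat_lit 158) (nat_lit 1) (nat_lit 155) (nat_lit 1) (nat_lit 157) (nat_lit 1) (nat_lit 341) (nat_lit 367) (nat_lit 312)) (XT.lf (nat_lit 76) (nat_lit 501834417) (nat_lit 0) (nat_lit 1151430724) (nat_lit 228) (nat_lit 3286358087) (nat_lit 153) (nat_lit 1) (nat_lit 152) (nat_lit 1) (nat_lit 155) (nat_lit 1) (nat_lit 342) (nat_lit 367) (nat_lit 311))) (XT.nd (nat_lit 78) (nat_lit 152) (nat_lit 0) (XT.lf (nat_lit 228) (nat_lit 1368784325) (nat_lit 0) (nat_lit 1950331404) (nat_lit 152) (nat_lit 1535989060) (nat_lit 153) (nat_lit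 1) (nat_lit 150) (nat_lit 1) (nat_lit 152) (nat_lit 1) (nat_lit 343) (nat_lit 367) (nat_lit 310)) (XT.lf (nat_lit 76) (nat_lit 1266000741) (nat_lit 0) (nat_lit 982296071) (nat_lit 152) (nat_lit 2524090409) (nat_lit 149) (nat_lit 1) (nat_lit 148) (nat_lit 1) (nat_lit 150) (nat_lit 1) (nat_lit 344) (nat_lit 367) (nat_lit 309)))))) (XT.nd (nat_lit 546) (nat_lit 1216) (nat_lit 0) (XT.nd (nat_lit 234) (nat_lit 608) (nat_lit 0) (XT.nd (nat_lit 78) (nat_lit 304) (nat_lit 0) (XT.lf (nat_lit 228) (nat_lit 1429396360) (nat_lit 0) (nat_lit 2540967667) (nat_lit 152) (nat_lit 720892296) (nat_lit 149) (nat_lit 1) (nat_lit 146) (nat_lit 1) (nat_lit 148) (nat_lit 1) (nat_lit 345) (nat_lit 367) (nat_lit 308)) (XT.nd (nat_lit 78) (nat_lit 152) (nat_lit 0) (XT.lf (nat_lit 76) (nat_lit 1953882492) (nat_lit 0) (nat_lit 873227234) (nat_lit 152) (nat_lit 1784533259) (nat_lit 145) (nat_lit 1) (nat_lit 144) (nat_lit 1)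 (nat_lit 146) (nat_lit 1) (nat_lit 346) (nat_lit 367) (nat_lit 307)) (XT.lf (nat_lit 76) (nat_lit 17119962) (nat_lit 0) (nat_lit 3096614110) (nat_lit 228) (nat_lit 1419984814) (nat_lit 143) (nat_lit 1) (nat_lit 142) (nat_lit 1) (nat_lit 145) (nat_lit 1) (nat_lit 347) (nat_lit 367) (nat_lit 306)))) (XT.nd (nat_lit 156) (nat_lit 304) (nat_lit 0) (XT.nd (nat_lit 78) (nat_lit 152) (nat_lit 0) (XT.lf (nat_lit 76) (nat_lit 2572682104) (nat_lit 0) (nat_lit 814421968) (nat_lit 152) (nat_lit 1069947950) (nat_lit 141) (nat_lit 1) (nat_lit 140) (nat_lit 1) (nat_lit 142) (nat_lit 1) (nat_lit 348) (nat_lit 367) (nat_lit 305)) (XT.lf (nat_lit 76) (nat_lit 672773206) (nat_lit 0) (nat_lit 2987258805) (nat_lit 228) (nat_lit 721952254) (nat_lit 139) (nat_lit 1) (nat_lit 138) (nat_lit 1) (nat_lit 141) (nat_lit 1) (nat_lit 349) (nat_lit 367) (nat_lit 304))) (XT.nd (nat_lit 78) (nat_lit 152) (nat_lit 0) (XT.lf (nat_lit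 76) (nat_lit 3128853064) (nat_lit 0) (nat_lit 797380398) (nat_lit 152) (nat_lit 382068407) (nat_lit 137) (nat_lit 1) (nat_lit 136) (nat_lit 1) (nat_lit 138) (nat_lit 1) (nat_lit 350) (nat_lit 367) (nat_lit 303)) (XT.lf (nat_lit 76) (nat_lit 1266372286) (nat_lit 0) (nat_lit 2918756168) (nat_lit 228) (nat_lit 50829370) (nat_lit 135) (nat_lit 1) (nat_lit 134) (nat_lit 1) (nat_lit 137) (nat_lit 1) (nat_lit 351) (nat_lit 367) (nat_lit 302))))) (XT.nd (nat_lit 234) (nat_lit 608) (nat_lit 0) (XT.nd (nat_lit 78) (nat_lit 304) (nat_lit 0) (XT.lf (nat_lit 228) (nat_lit 3347554407) (nat_lit 0) (nat_lit 283353364) (nat_lit 152) (nat_lit 534113988) (nat_lit 133) (nat_lit 1) (nat_lit 130) (nat_lit 1) (nat_lit 132) (nat_lit 1) (nat_lit 352) (nat_lit 367) (nat_lit 301)) (XT.nd (nat_lit 78) (nat_lit 228) (nat_lit 0) (XT.lf (nat_lit 152) (nat_lit 1205294734) (nat_lit 0) (nat_lit 604029852) (nat_lit 76) (nat_lit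 2285860716) (nat_lit 131) (nat_lit 1) (nat_lit 129) (nat_lit 1) (nat_lit 130) (nat_lit 1) (nat_lit 353) (nat_lit 367) (nat_lit 300)) (XT.lf (nat_lit 76) (nat_lit 56732513) (nat_lit 0) (nat_lit 869617987) (nat_lit 228) (nat_lit 3100554361) (nat_lit 127) (nat_lit 1) (nat_lit 126) (nat_lit 1) (nat_lit 129) (nat_lit 1) (nat_lit 354) (nat_lit 367) (nat_lit 299)))) (XT.nd (nat_lit 156) (nat_lit 304) (nat_lit 0) (XT.nd (nat_lit 78) (nat_lit 228) (nat_lit 0) (XT.lf (nat_lit 152) (nat_lit 1070573924) (nat_lit 0) (nat_lit 1230500993) (nat_lit 76) (nat_lit 1658499671) (nat_lit 127) (nat_lit 1) (nat_lit 125) (nat_lit 1) (nat_lit 126) (nat_lit 1) (nat_lit 355) (nat_lit 367) (nat_lit 298)) (XT.lf (nat_lit 76) (nat_lit 585876150) (nat_lit 0) (nat_lit 948670703) (nat_lit 228) (nat_lit 2359145635) (nat_lit 123) (nat_lit 1) (nat_lit 122) (nat_lit 1) (nat_lit 125) (nat_lit 1) (nat_lit 356) (nat_lit 367) (nat_lit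 297))) (XT.nd (nat_lit 78) (nat_lit 228) (nat_lit 0) (XT.lf (nat_lit 152) (nat_lit 918553946) (nat_lit 0) (nat_lit 1827098787) (nat_lit 76) (nat_lit 1083246457) (nat_lit 123) (nat_lit 1) (nat_lit 121) (nat_lit 1) (nat_lit 122) (nat_lit 1) (nat_lit 357) (nat_lit 367) (nat_lit 296)) (XT.lf (nat_lit 76) (nat_lit 1068088030) (nat_lit 0) (nat_lit 1044810263) (nat_lit 228) (nat_lit 1652407388) (nat_lit 119) (nat_lit 1) (nat_lit 118) (nat_lit 1) (nat_lit 121) (nat_lit 1) (nat_lit 358) (nat_lit 367) (nat_lit 295))))))) (XT.nd (nat_lit 1092) (nat_lit 1824) (nat_lit 0) (XT.nd (nat_lit 546) (nat_lit 836) (nat_lit 0) (XT.nd (nat_lit 234) (nat_lit 532) (nat_lit 0) (XT.nd (nat_lit 78) (nat_lit 228) (nat_lit 0) (XT.lf (nat_lit 152) (nat_lit 753522007) (nat_lit 0) (nat_lit 2393618719) (nat_lit 76) (nat_lit 555793375) (nat_lit 119) (nat_lit 1) (nat_lit 117) (nat_lit 1) (nat_lit 118) (nat_lit 1) (nat_lit 359) (nat_lit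 367) (nat_lit 294)) (XT.nd (nat_lit 78) (nat_lit 76) (nat_lit 0) (XT.lf (nat_lit 76) (nat_lit 1507296385) (nat_lit 0) (nat_lit 1154022293) (nat_lit 152) (nat_lit 980208375) (nat_lit 116) (nat_lit 1) (nat_lit 115) (nat_lit 1) (nat_lit 117) (nat_lit 1) (nat_lit 360) (nat_lit 367) (nat_lit 293)) (XT.lf (nat_lit 152) (nat_lit 579141604) (nat_lit 0) (nat_lit 2930083452) (nat_lit 76) (nat_lit 72244137) (nat_lit 116) (nat_lit 1) (nat_lit 114) (nat_lit 1) (nat_lit 115) (nat_lit 1) (nat_lit 361) (nat_lit 367) (nat_lit 292)))) (XT.nd (nat_lit 156) (nat_lit 304) (nat_lit 0) (XT.nd (nat_lit 78) (nat_lit 76) (nat_lit 0) (XT.lf (nat_lit 76) (nat_lit 1907054587) (nat_lit 0) (nat_lit 1272874543) (nat_lit 152) (nat_lit 342224226) (nat_lit 113) (nat_lit 1) (nat_lit 112) (nat_lit 1) (nat_lit 114) (nat_lit 1) (nat_lit 362) (nat_lit 367) (nat_lit 291)) (XT.lf (nat_lit 0) (nat_lit 363692283) (nat_lit 0) (nat_lit 3069341428)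 (nat_lit 152) (nat_lit 31167165) (nat_lit 111) (nat_lit 3) (nat_lit 111) (nat_lit 1) (nat_lit 113) (nat_lit 1) (nat_lit 363) (nat_lit 367) (nat_lit 290))) (XT.nd (nat_lit 78) (nat_lit 76) (nat_lit 0) (XT.lf (nat_lit 152) (nat_lit 2005905529) (nat_lit 0) (nat_lit 267244850) (nat_lit 76) (nat_lit 1133766755) (nat_lit 110) (nat_lit 1) (nat_lit 108) (nat_lit 1) (nat_lit 109) (nat_lit 1) (nat_lit 364) (nat_lit 367) (nat_lit 289)) (XT.lf (nat_lit 76) (nat_lit 201040084) (nat_lit 0) (nat_lit 566173438) (nat_lit 76) (nat_lit 2583664873) (nat_lit 108) (nat_lit 3) (nat_lit 107) (nat_lit 1) (nat_lit 108) (nat_lit 1) (nat_lit 365) (nat_lit 367) (nat_lit 288))))) (XT.nd (nat_lit 234) (nat_lit 456) (nat_lit 0) (XT.nd (nat_lit 78) (nat_lit 228) (nat_lit 0) (XT.lf (nat_lit 152) (nat_lit 1759212335) (nat_lit 0) (nat_lit 849752955) (nat_lit 76) (nat_lit 686660552) (nat_lit 107) (nat_lit 1) (nat_lit 105) (nat_lit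 1) (nat_lit 106) (nat_lit 1) (nat_lit 366) (nat_lit 367) (nat_lit 287)) (XT.nd (nat_lit 78) (nat_lit 152) (nat_lit 0) (XT.lf (nat_lit 76) (nat_lit 6221703) (nat_lit 0) (nat_lit 1130902934) (nat_lit 76) (nat_lit 2104387644) (nat_lit 105) (nat_lit 3) (nat_lit 104) (nat_lit 1) (nat_lit 105) (nat_lit 1) (nat_lit 367) (nat_lit 367) (nat_lit 286)) (XT.lf (nat_lit 152) (nat_lit 1514575639) (nat_lit 0) (nat_lit 1399228335) (nat_lit 76) (nat_lit 274407927) (nat_lit 104) (nat_lit 1) (nat_lit 102) (nat_lit 1) (nat_lit 103) (nat_lit 1) (nat_lit 368) (nat_lit 367) (nat_lit 285)))) (XT.nd (nat_lit 156) (nat_lit 228) (nat_lit 0) (XT.nd (nat_lit 78) (nat_lit 76) (nat_lit 0) (XT.lf (nat_lit 76) (nat_lit 1477523686) (nat_lit 0) (nat_lit 183784727) (nat_lit 152) (nat_lit 1474585313) (nat_lit 101) (nat_lit 1) (nat_lit 100) (nat_lit 1) (nat_lit 102) (nat_lit 1) (nat_lit 369) (nat_lit 367) (nat_lit 284)) (XT.lf (nat_lit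 0) (nat_lit 103510950) (nat_lit 0) (nat_lit 1811942120) (nat_lit 152) (nat_lit 1169033288) (nat_lit 99) (nat_lit 3) (nat_lit 99) (nat_lit 1) (nat_lit 101) (nat_lit 1) (nat_lit 370) (nat_lit 367) (nat_lit 283))) (XT.nd (nat_lit 78) (nat_lit 76) (nat_lit 0) (XT.lf (nat_lit 76) (nat_lit 1789015120) (nat_lit 0) (nat_lit 371039991) (nat_lit 152) (nat_lit 873866121) (nat_lit 98) (nat_lit 1) (nat_lit 97) (nat_lit 1) (nat_lit 99) (nat_lit 1) (nat_lit 371) (nat_lit 367) (nat_lit 282)) (XT.lf (nat_lit 0) (nat_lit 446742487) (nat_lit 0) (nat_lit 1951206015) (nat_lit 152) (nat_lit 586311055) (nat_lit 96) (nat_lit 3) (nat_lit 96) (nat_lit 1) (nat_lit 98) (nat_lit 1) (nat_lit 372) (nat_lit 367) (nat_lit 281)))))) (XT.nd (nat_lit 546) (nat_lit 912) (nat_lit 0) (XT.nd (nat_lit 234) (nat_lit 456) (nat_lit 0) (XT.nd (nat_lit 78) (nat_lit 304) (nat_lit 0) (XT.lf (nat_lit 76) (nat_lit 2073693282) (nat_lit 0) (nat_lit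 554431704) (nat_lit 152) (nat_lit 307326047) (nat_lit 95) (nat_lit 1) (nat_lit 94) (nat_lit 1) (nat_lit 96) (nat_lit 1) (nat_lit 373) (nat_lit 367) (nat_lit 280)) (XT.nd (nat_lit 78) (nat_lit 228) (nat_lit 0) (XT.lf (nat_lit 0) (nat_lit 762756485) (nat_lit 0) (nat_lit 2087603833) (nat_lit 152) (nat_lit 37108280) (nat_lit 93) (nat_lit 3) (nat_lit 93) (nat_lit 1) (nat_lit 95) (nat_lit 1) (nat_lit 374) (nat_lit 367) (nat_lit 279)) (XT.lf (nat_lit 152) (nat_lit 2105107020) (nat_lit 0) (nat_lit 230639530) (nat_lit 76) (nat_lit 504532346) (nat_lit 92) (nat_lit 1) (nat_lit 90) (nat_lit 1) (nat_lit 91) (nat_lit 1) (nat_lit 375) (nat_lit 367) (nat_lit 278)))) (XT.nd (nat_lit 156) (nat_lit 228) (nat_lit 0) (XT.nd (nat_lit 78) (nat_lit 152) (nat_lit 0) (XT.lf (nat_lit 76) (nat_lit 568968256) (nat_lit 0) (nat_lit 489226097) (nat_lit 76) (nat_lit 1735643595) (nat_lit 90) (nat_lit 3) (nat_lit 89) (nat_lit 1)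 (nat_lit 90) (nat_lit 1) (nat_lit 376) (nat_lit 367) (nat_lit 277)) (XT.lf (nat_lit 152) (nat_lit 1835323905) (nat_lit 0) (nat_lit 742140587) (nat_lit 76) (nat_lit 170795352) (nat_lit 89) (nat_lit 1) (nat_lit 87) (nat_lit 1) (nat_lit 88) (nat_lit 1) (nat_lit 377) (nat_lit 367) (nat_lit 276))) (XT.nd (nat_lit 78) (nat_lit 152) (nat_lit 0) (XT.lf (nat_lit 76) (nat_lit 345802072) (nat_lit 0) (nat_lit 984388070) (nat_lit 76) (nat_lit 1373189377) (nat_lit 87) (nat_lit 3) (nat_lit 86) (nat_lit 1) (nat_lit 87) (nat_lit 1) (nat_lit 378) (nat_lit 367) (nat_lit 275)) (XT.lf (nat_lit 0) (nat_lit 135448080) (nat_lit 0) (nat_lit 1085413225) (nat_lit 152) (nat_lit 1438458964) (nat_lit 84) (nat_lit 3) (nat_lit 84) (nat_lit 1) (nat_lit 86) (nat_lit 1) (nat_lit 379) (nat_lit 367) (nat_lit 274))))) (XT.nd (nat_lit 234) (nat_lit 532) (nat_lit 0) (XT.nd (nat_lit 78) (nat_lit 304) (nat_lit 0) (XT.lf (nat_lit 76) (nat_lit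 131226605) (nat_lit 0) (nat_lit 1448800964) (nat_lit 76) (nat_lit 1035955315) (nat_lit 84) (nat_lit 3) (nat_lit 83) (nat_lit 1) (nat_lit 84) (nat_lit 1) (nat_lit 380) (nat_lit 367) (nat_lit 273)) (XT.nd (nat_lit 78) (nat_lit 152) (nat_lit 0) (XT.lf (nat_lit 0) (nat_lit 415666437) (nat_lit 0) (nat_lit 1252216331) (nat_lit 152) (nat_lit 905456667) (nat_lit 81) (nat_lit 3) (nat_lit 81) (nat_lit 1) (nat_lit 83) (nat_lit 1) (nat_lit 381) (nat_lit 367) (nat_lit 272)) (XT.lf (nat_lit 76) (nat_lit 1809939926) (nat_lit 0) (nat_lit 72954251) (nat_lit 152) (nat_lit 648617053) (nat_lit 80) (nat_lit 1) (nat_lit 79) (nat_lit 1) (nat_lit 81) (nat_lit 1) (nat_lit 382) (nat_lit 367) (nat_lit 271)))) (XT.nd (nat_lit 156) (nat_lit 304) (nat_lit 0) (XT.nd (nat_lit 78) (nat_lit 152) (nat_lit 0) (XT.lf (nat_lit 0) (nat_lit 674690113) (nat_lit 0) (nat_lit 1411365272) (nat_lit 152) (nat_lit 404198503) (nat_lit 78) (nat_lit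 3) (nat_lit 78) (nat_lit 1) (nat_lit 80) (nat_lit 1) (nat_lit 383) (nat_lit 367) (nat_lit 270)) (XT.lf (nat_lit 76) (nat_lit 2021786012) (nat_lit 0) (nat_lit 265573195) (nat_lit 152) (nat_lit 162481803) (nat_lit 77) (nat_lit 1) (nat_lit 76) (nat_lit 1) (nat_lit 78) (nat_lit 1) (nat_lit 384) (nat_lit 367) (nat_lit 269))) (XT.nd (nat_lit 78) (nat_lit 152) (nat_lit 0) (XT.lf (nat_lit 76) (nat_lit 846655545) (nat_lit 0) (nat_lit 67901240) (nat_lit 76) (nat_lit 1495379900) (nat_lit 75) (nat_lit 3) (nat_lit 74) (nat_lit 1) (nat_lit 75) (nat_lit 1) (nat_lit 385) (nat_lit 367) (nat_lit 268)) (XT.lf (nat_lit 152) (nat_lit 1918885892) (nat_lit 0) (nat_lit 299591621) (nat_lit 76) (nat_lit 152341551) (nat_lit 74) (nat_lit 1) (nat_lit 72) (nat_lit 1) (nat_lit 73) (nat_lit 1) (nat_lit 386) (nat_lit 367) (nat_lit 267))))))))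
noncomputable def ec56 : XT := (XT.nd (nat_lit 46566) (nat_lit 0) (nat_lit 9272) (XT.nd (nat_lit 45474) (nat_lit 0) (nat_lit 19000) (XT.nd (nat_lit 546) (nat_lit 304) (nat_lit 0) (XT.nd (nat_lit 234) (nat_lit 456) (nat_lit 0) (XT.nd (nat_lit 78) (nat_lit 228) (nat_lit 0) (XT.lf (nat_lit 76) (nat_lit 621348309) (nat_lit 0) (nat_lit 518224240) (nat_lit 76) (nat_lit 1192622205) (nat_lit 72) (nat_lit 3) (nat_lit 71) (nat_lit 1) (nat_lit 72) (nat_lit 1) (nat_lit 387) (nat_lit 367) (nat_lit 266)) (XT.nd (nat_lit 78) (nat_lit 76) (nat_lit 0) (XT.lf (nat_lit 0) (nat_lit 103197611) (nat_lit 0) (nat_lit 631421278) (nat_lit 152) (nat_lit 1559743368) (nat_lit 69) (nat_lit 3) (nat_lit 69) (nat_lit 1) (nat_lit 71) (nat_lit 1) (nat_lit 388) (nat_lit 367) (nat_lit 265)) (XT.lf (nat_lit 76) (nat_lit 407002331) (nat_lit 0) (nat_lit 939974072) (nat_lit 76) (nat_lit 910072490) (nat_lit 69) (nat_lit 3) (nat_lit 68)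 (nat_lit 1) (nat_lit 69) (nat_lit 1) (nat_lit 389) (nat_lit 367) (nat_lit 264)))) (XT.nd (nat_lit 156) (nat_lit 228) (nat_lit 0) (XT.nd (nat_lit 78) (nat_lit 76) (nat_lit 0) (XT.lf (nat_lit 0) (nat_lit 337582835) (nat_lit 0) (nat_lit 802742483) (nat_lit 152) (nat_lit 1080089125) (nat_lit 66) (nat_lit 3) (nat_lit 66) (nat_lit 1) (nat_lit 68) (nat_lit 1) (nat_lit 390) (nat_lit 367) (nat_lit 263)) (XT.lf (nat_lit 76) (nat_lit 203511071) (nat_lit 0) (nat_lit 1334374044) (nat_lit 76) (nat_lit 646520259) (nat_lit 66) (nat_lit 3) (nat_lit 65) (nat_lit 1) (nat_lit 66) (nat_lit 1) (nat_lit 391) (nat_lit 367) (nat_lit 262))) (XT.nd (nat_lit 78) (nat_lit 76) (nat_lit 0) (XT.lf (nat_lit 0) (nat_lit 554899054) (nat_lit 0) (nat_lit 964523824) (nat_lit 152) (nat_lit 629504837) (nat_lit 63) (nat_lit 3) (nat_lit 63) (nat_lit 1) (nat_lit 65) (nat_lit 1) (nat_lit 392) (nat_lit 367) (nat_lit 261)) (XT.lf (nat_lit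 76) (nat_lit 10717853) (nat_lit 0) (nat_lit 1702620017) (nat_lit 76) (nat_lit 400836681) (nat_lit 63) (nat_lit 3) (nat_lit 62) (nat_lit 1) (nat_lit 63) (nat_lit 1) (nat_lit 393) (nat_lit 367) (nat_lit 260))))) (XT.nd (nat_lit 44616) (nat_lit 0) (nat_lit 24092) (XT.nd (nat_lit 78) (nat_lit 152) (nat_lit 0) (XT.lf (nat_lit 0) (nat_lit 756183294) (nat_lit 0) (nat_lit 1116903431) (nat_lit 152) (nat_lit 206727472) (nat_lit 60) (nat_lit 3) (nat_lit 60) (nat_lit 1) (nat_lit 62) (nat_lit 1) (nat_lit 394) (nat_lit 367) (nat_lit 259)) (XT.nd (nat_lit 44460) (nat_lit 0) (nat_lit 24016) (XT.lf (nat_lit 76) (nat_lit 1875952177) (nat_lit 0) (nat_lit 168227216) (nat_lit 152) (nat_lit 2041738) (nat_lit 59) (nat_lit 1) (nat_lit 58) (nat_lit 1) (nat_lit 60) (nat_lit 1) (nat_lit 395) (nat_lit 367) (nat_lit 258)) (XT.lf (nat_lit 1292) (nat_lit 1462059514) (nat_lit 0) (nat_lit 5030164688) (nat_lit 1292) (nat_lit 1462059514)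 (nat_lit 391) (nat_lit 1) (nat_lit 374) (nat_lit 0) (nat_lit 391) (nat_lit 0) (nat_lit 284) (nat_lit 368) (nat_lit 368)))) (XT.nd (nat_lit 156) (nat_lit 0) (nat_lit 76) (XT.nd (nat_lit 78) (nat_lit 0) (nat_lit 0) (XT.lf (nat_lit 1292) (nat_lit 117215874) (nat_lit 0) (nat_lit 9918427016) (nat_lit 1216) (nat_lit 5491220249) (nat_lit 392) (nat_lit 1) (nat_lit 375) (nat_lit 1) (nat_lit 391) (nat_lit 1) (nat_lit 285) (nat_lit 368) (nat_lit 367)) (XT.lf (nat_lit 1292) (nat_lit 5156994489) (nat_lit 76) (nat_lit 7294379996) (nat_lit 0) (nat_lit 2705463896) (nat_lit 392) (nat_lit 1) (nat_lit 376) (nat_lit 1) (nat_lit 375) (nat_lit 1) (nat_lit 286) (nat_lit 368) (nat_lit 366))) (XT.nd (nat_lit 78) (nat_lit 0) (nat_lit 76) (XT.lf (nat_lit 1292) (nat_lit 4533435445) (nat_lit 76) (nat_lit 4774693670) (nat_lit 0) (nat_lit 5490665472) (nat_lit 393) (nat_lit 1) (nat_lit 377) (nat_lit 1) (nat_lit 376) (nat_lit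 1) (nat_lit 287) (nat_lit 368) (nat_lit 365)) (XT.lf (nat_lit 1292) (nat_lit 3751723091) (nat_lit 76) (nat_lit 2466378682) (nat_lit 0) (nat_lit 8234227466) (nat_lit 394) (nat_lit 1) (nat_lit 378) (nat_lit 1) (nat_lit 377) (nat_lit 1) (nat_lit 288) (nat_lit 368) (nat_lit 364)))))) (XT.nd (nat_lit 546) (nat_lit 3496) (nat_lit 0) (XT.nd (nat_lit 234) (nat_lit 1824) (nat_lit 0) (XT.nd (nat_lit 78) (nat_lit 0) (nat_lit 76) (XT.lf (nat_lit 1292) (nat_lit 2823912507) (nat_lit 76) (nat_lit 358574980) (nat_lit 0) (nat_lit 10934535259) (nat_lit 395) (nat_lit 1) (nat_lit 379) (nat_lit 1) (nat_lit 378) (nat_lit 1) (nat_lit 289) (nat_lit 368) (nat_lit 363)) (XT.nd (nat_lit 78) (nat_lit 0) (nat_lit 0) (XT.lf (nat_lit 1292) (nat_lit 217285008) (nat_lit 0) (nat_lit 12046087950) (nat_lit 1216) (nat_lit 1528649630) (nat_lit 396) (nat_lit 1) (nat_lit 379) (nat_lit 1) (nat_lit 395) (nat_lit 1) (nat_lit 290) (nat_lit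 368) (nat_lit 362)) (XT.lf (nat_lit 1292) (nat_lit 515012738) (nat_lit 76) (nat_lit 10218064172) (nat_lit 0) (nat_lit 2743471920) (nat_lit 396) (nat_lit 1) (nat_lit 380) (nat_lit 1) (nat_lit 379) (nat_lit 1) (nat_lit 291) (nat_lit 368) (nat_lit 361)))) (XT.nd (nat_lit 156) (nat_lit 684) (nat_lit 0) (XT.nd (nat_lit 78) (nat_lit 0) (nat_lit 76) (XT.lf (nat_lit 1368) (nat_lit 7526905330) (nat_lit 0) (nat_lit 813579746) (nat_lit 1292) (nat_lit 4830349645) (nat_lit 381) (nat_lit 1) (nat_lit 363) (nat_lit 1) (nat_lit 380) (nat_lit 1) (nat_lit 292) (nat_lit 368) (nat_lit 360)) (XT.lf (nat_lit 1368) (nat_lit 4393413844) (nat_lit 0) (nat_lit 2232366985) (nat_lit 1292) (nat_lit 6248865183) (nat_lit 382) (nat_lit 1) (nat_lit 364) (nat_lit 1) (nat_lit 381) (nat_lit 1) (nat_lit 293) (nat_lit 368) (nat_lit 359))) (XT.nd (nat_lit 78) (nat_lit 836) (nat_lit 0) (XT.lf (nat_lit 76) (nat_lit 1327712971) (nat_lit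 0) (nat_lit 3742695753) (nat_lit 1292) (nat_lit 7517379720) (nat_lit 366) (nat_lit 1) (nat_lit 365) (nat_lit 1) (nat_lit 382) (nat_lit 1) (nat_lit 294) (nat_lit 368) (nat_lit 358)) (XT.lf (nat_lit 912) (nat_lit 6956689994) (nat_lit 0) (nat_lit 3649259708) (nat_lit 836) (nat_lit 1703491640) (nat_lit 366) (nat_lit 1) (nat_lit 354) (nat_lit 1) (nat_lit 365) (nat_lit 1) (nat_lit 295) (nat_lit 368) (nat_lit 357))))) (XT.nd (nat_lit 234) (nat_lit 1748) (nat_lit 0) (XT.nd (nat_lit 78) (nat_lit 1140) (nat_lit 0) (XT.lf (nat_lit 684) (nat_lit 4988599139) (nat_lit 0) (nat_lit 2358613353) (nat_lit 608) (nat_lit 4692196213) (nat_lit 355) (nat_lit 1) (nat_lit 346) (nat_lit 1) (nat_lit 354) (nat_lit 1) (nat_lit 296) (nat_lit 368) (nat_lit 356)) (XT.nd (nat_lit 78) (nat_lit 532) (nat_lit 0) (XT.lf (nat_lit 684) (nat_lit 2961163357) (nat_lit 0) (nat_lit 1204376356) (nat_lit 608) (nat_lit 7612236892) (nat_lit 347)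 (nat_lit 1) (nat_lit 338) (nat_lit 1) (nat_lit 346) (nat_lit 1) (nat_lit 297) (nat_lit 368) (nat_lit 355)) (XT.lf (nat_lit 608) (nat_lit 880893228) (nat_lit 0) (nat_lit 179394551) (nat_lit 532) (nat_lit 10463964554) (nat_lit 339) (nat_lit 1) (nat_lit 331) (nat_lit 1) (nat_lit 338) (nat_lit 1) (nat_lit 298) (nat_lit 368) (nat_lit 354)))) (XT.nd (nat_lit 156) (nat_lit 1064) (nat_lit 0) (XT.nd (nat_lit 78) (nat_lit 608) (nat_lit 0) (XT.lf (nat_lit 76) (nat_lit 9288645308) (nat_lit 0) (nat_lit 1248236336) (nat_lit 608) (nat_lit 740519964) (nat_lit 331) (nat_lit 1) (nat_lit 330) (nat_lit 1) (nat_lit 338) (nat_lit 1) (nat_lit 299) (nat_lit 368) (nat_lit 353)) (XT.lf (nat_lit 76) (nat_lit 6064898228) (nat_lit 0) (nat_lit 3410742071) (nat_lit 684) (nat_lit 1561889421) (nat_lit 323) (nat_lit 1) (nat_lit 322) (nat_lit 1) (nat_lit 331) (nat_lit 1) (nat_lit 300) (nat_lit 368) (nat_lit 352))) (XT.nd (nat_lit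 78) (nat_lit 532) (nat_lit 0) (XT.lf (nat_lit 76) (nat_lit 2923308948) (nat_lit 0) (nat_lit 5606397296) (nat_lit 608) (nat_lit 2275290281) (nat_lit 316) (nat_lit 1) (nat_lit 315) (nat_lit 1) (nat_lit 323) (nat_lit 1) (nat_lit 301) (nat_lit 368) (nat_lit 351)) (XT.lf (nat_lit 608) (nat_lit 2747824392) (nat_lit 0) (nat_lit 7691679534) (nat_lit 532) (nat_lit 140006750) (nat_lit 316) (nat_lit 1) (nat_lit 308) (nat_lit 1) (nat_lit 315) (nat_lit 1) (nat_lit 302) (nat_lit 368) (nat_lit 350))))))) (XT.nd (nat_lit 1092) (nat_lit 3876) (nat_lit 0) (XT.nd (nat_lit 546) (nat_lit 2584) (nat_lit 0) (XT.nd (nat_lit 234) (nat_lit 1748) (nat_lit 0) (XT.nd (nat_lit 78) (nat_lit 1064) (nat_lit 0) (XT.lf (nat_lit 532) (nat_lit 251441548) (nat_lit 0) (nat_lit 6928494548) (nat_lit 456) (nat_lit 3180098631) (nat_lit 309) (nat_lit 1) (nat_lit 302) (nat_lit 1) (nat_lit 308) (nat_lit 1) (nat_lit 303) (nat_lit 368) (nat_lit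 349)) (XT.nd (nat_lit 78) (nat_lit 456) (nat_lit 0) (XT.lf (nat_lit 76) (nat_lit 4028855709) (nat_lit 0) (nat_lit 2212981323) (nat_lit 608) (nat_lit 3904707791) (nat_lit 295) (nat_lit 1) (nat_lit 294) (nat_lit 1) (nat_lit 302) (nat_lit 1) (nat_lit 304) (nat_lit 368) (nat_lit 348)) (XT.lf (nat_lit 76) (nat_lit 965561489) (nat_lit 0) (nat_lit 4680684162) (nat_lit 532) (nat_lit 4293147207) (nat_lit 289) (nat_lit 1) (nat_lit 288) (nat_lit 1) (nat_lit 295) (nat_lit 1) (nat_lit 305) (nat_lit 368) (nat_lit 347)))) (XT.nd (nat_lit 156) (nat_lit 836) (nat_lit 0) (XT.nd (nat_lit 78) (nat_lit 456) (nat_lit 0) (XT.lf (nat_lit 532) (nat_lit 2564934714) (nat_lit 0) (nat_lit 5118911866) (nat_lit 456) (nat_lit 2053997725) (nat_lit 289) (nat_lit 1) (nat_lit 282) (nat_lit 1) (nat_lit 288) (nat_lit 1) (nat_lit 306) (nat_lit 368) (nat_lit 346)) (XT.lf (nat_lit 76) (nat_lit 4534421921) (nat_lit 0) (nat_lit 130775596)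 (nat_lit 456) (nat_lit 4876788955) (nat_lit 277) (nat_lit 1) (nat_lit 276) (nat_lit 1) (nat_lit 282) (nat_lit 1) (nat_lit 307) (nat_lit 368) (nat_lit 345))) (XT.nd (nat_lit 78) (nat_lit 380) (nat_lit 0) (XT.lf (nat_lit 76) (nat_lit 1497674842) (nat_lit 0) (nat_lit 2768648362) (nat_lit 532) (nat_lit 5084881627) (nat_lit 271) (nat_lit 1) (nat_lit 270) (nat_lit 1) (nat_lit 277) (nat_lit 1) (nat_lit 308) (nat_lit 368) (nat_lit 344)) (XT.lf (nat_lit 456) (nat_lit 3755117530) (nat_lit 0) (nat_lit 3928711839) (nat_lit 380) (nat_lit 1481790826) (nat_lit 271) (nat_lit 1) (nat_lit 265) (nat_lit 1) (nat_lit 270) (nat_lit 1) (nat_lit 309) (nat_lit 368) (nat_lit 343))))) (XT.nd (nat_lit 234) (nat_lit 1368) (nat_lit 0) (XT.nd (nat_lit 78) (nat_lit 836) (nat_lit 0) (XT.lf (nat_lit 456) (nat_lit 931395600) (nat_lit 0) (nat_lit 3648657918) (nat_lit 380) (nat_lit 4405006116) (nat_lit 266) (nat_lit 1) (nat_lit 260)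 (nat_lit 1) (nat_lit 265) (nat_lit 1) (nat_lit 310) (nat_lit 368) (nat_lit 342)) (XT.nd (nat_lit 78) (nat_lit 380) (nat_lit 0) (XT.lf (nat_lit 76) (nat_lit 1583765742) (nat_lit 0) (nat_lit 1835052861) (nat_lit 456) (nat_lit 5390426910) (nat_lit 255) (nat_lit 1) (nat_lit 254) (nat_lit 1) (nat_lit 260) (nat_lit 1) (nat_lit 311) (nat_lit 368) (nat_lit 341)) (XT.lf (nat_lit 456) (nat_lit 4063728285) (nat_lit 0) (nat_lit 3231676718) (nat_lit 380) (nat_lit 1342491333) (nat_lit 255) (nat_lit 1) (nat_lit 249) (nat_lit 1) (nat_lit 254) (nat_lit 1) (nat_lit 312) (nat_lit 368) (nat_lit 340)))) (XT.nd (nat_lit 156) (nat_lit 608) (nat_lit 0) (XT.nd (nat_lit 78) (nat_lit 456) (nat_lit 0) (XT.lf (nat_lit 380) (nat_lit 1166717343) (nat_lit 0) (nat_lit 3091044708) (nat_lit 304) (nat_lit 4213299732) (nat_lit 250) (nat_lit 1) (nat_lit 245) (nat_lit 1) (nat_lit 249) (nat_lit 1) (nat_lit 313) (nat_lit 368) (nat_lit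 339)) (XT.lf (nat_lit 76) (nat_lit 1326225829) (nat_lit 0) (nat_lit 1666434985) (nat_lit 456) (nat_lit 5315896727) (nat_lit 240) (nat_lit 1) (nat_lit 239) (nat_lit 1) (nat_lit 245) (nat_lit 1) (nat_lit 314) (nat_lit 368) (nat_lit 338))) (XT.nd (nat_lit 78) (nat_lit 304) (nat_lit 0) (XT.lf (nat_lit 380) (nat_lit 3689549513) (nat_lit 0) (nat_lit 2923629175) (nat_lit 304) (nat_lit 1536770267) (nat_lit 240) (nat_lit 1) (nat_lit 235) (nat_lit 1) (nat_lit 239) (nat_lit 1) (nat_lit 315) (nat_lit 368) (nat_lit 337)) (XT.lf (nat_lit 380) (nat_lit 761147538) (nat_lit 0) (nat_lit 2895072244) (nat_lit 304) (nat_lit 4339282280) (nat_lit 236) (nat_lit 1) (nat_lit 231) (nat_lit 1) (nat_lit 235) (nat_lit 1) (nat_lit 316) (nat_lit 368) (nat_lit 336)))))) (XT.nd (nat_lit 546) (nat_lit 1748) (nat_lit 0) (XT.nd (nat_lit 234) (nat_lit 1140) (nat_lit 0) (XT.nd (nat_lit 78) (nat_lit 608) (nat_lit 0) (XT.lf (nat_lit 76)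 (nat_lit 808873399) (nat_lit 0) (nat_lit 2087437254) (nat_lit 380) (nat_lit 4948538345) (nat_lit 227) (nat_lit 1) (nat_lit 226) (nat_lit 1) (nat_lit 231) (nat_lit 1) (nat_lit 317) (nat_lit 368) (nat_lit 335)) (XT.nd (nat_lit 78) (nat_lit 304) (nat_lit 0) (XT.lf (nat_lit 380) (nat_lit 2795577616) (nat_lit 0) (nat_lit 2918778173) (nat_lit 304) (nat_lit 1983328738) (nat_lit 227) (nat_lit 1) (nat_lit 222) (nat_lit 1) (nat_lit 226) (nat_lit 1) (nat_lit 318) (nat_lit 368) (nat_lit 334)) (XT.lf (nat_lit 76) (nat_lit 2850078797) (nat_lit 0) (nat_lit 128235011) (nat_lit 304) (nat_lit 4576101498) (nat_lit 219) (nat_lit 1) (nat_lit 218) (nat_lit 1) (nat_lit 222) (nat_lit 1) (nat_lit 319) (nat_lit 368) (nat_lit 333)))) (XT.nd (nat_lit 156) (nat_lit 608) (nat_lit 0) (XT.nd (nat_lit 78) (nat_lit 228) (nat_lit 0) (XT.lf (nat_lit 76) (nat_lit 100077980) (nat_lit 0) (nat_lit 2954436999) (nat_lit 380) (nat_lit 4359878478)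 (nat_lit 215) (nat_lit 1) (nat_lit 214) (nat_lit 1) (nat_lit 219) (nat_lit 1) (nat_lit 320) (nat_lit 368) (nat_lit 332)) (XT.lf (nat_lit 304) (nat_lit 1515021791) (nat_lit 0) (nat_lit 3146659882) (nat_lit 228) (nat_lit 2615863673) (nat_lit 215) (nat_lit 1) (nat_lit 211) (nat_lit 1) (nat_lit 214) (nat_lit 1) (nat_lit 321) (nat_lit 368) (nat_lit 331))) (XT.nd (nat_lit 78) (nat_lit 228) (nat_lit 0) (XT.lf (nat_lit 76) (nat_lit 1908495048) (nat_lit 0) (nat_lit 1355898506) (nat_lit 380) (nat_lit 3879706737) (nat_lit 207) (nat_lit 1) (nat_lit 206) (nat_lit 1) (nat_lit 211) (nat_lit 1) (nat_lit 322) (nat_lit 368) (nat_lit 330)) (XT.lf (nat_lit 304) (nat_lit 2856209700) (nat_lit 0) (nat_lit 3398070607) (nat_lit 228) (nat_lit 759446426) (nat_lit 207) (nat_lit 1) (nat_lit 203) (nat_lit 1) (nat_lit 206) (nat_lit 1) (nat_lit 323) (nat_lit 368) (nat_lit 329))))) (XT.nd (nat_lit 234) (nat_lit 988) (nat_lit 0)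 (XT.nd (nat_lit 78) (nat_lit 456) (nat_lit 0) (XT.lf (nat_lit 76) (nat_lit 3506319176) (nat_lit 0) (nat_lit 42825723) (nat_lit 304) (nat_lit 3337272459) (nat_lit 200) (nat_lit 1) (nat_lit 199) (nat_lit 1) (nat_lit 203) (nat_lit 1) (nat_lit 324) (nat_lit 368) (nat_lit 328)) (XT.nd (nat_lit 78) (nat_lit 228) (nat_lit 0) (XT.lf (nat_lit 76) (nat_lit 871378970) (nat_lit 0) (nat_lit 2836042983) (nat_lit 304) (nat_lit 3054404574) (nat_lit 197) (nat_lit 1) (nat_lit 196) (nat_lit 1) (nat_lit 200) (nat_lit 1) (nat_lit 325) (nat_lit 368) (nat_lit 327)) (XT.lf (nat_lit 304) (nat_lit 1044195673) (nat_lit 0) (nat_lit 3882178856) (nat_lit 228) (nat_lit 1713802132) (nat_lit 197) (nat_lit 1) (nat_lit 193) (nat_lit 1) (nat_lit 196) (nat_lit 1) (nat_lit 326) (nat_lit 368) (nat_lit 326)))) (XT.nd (nat_lit 156) (nat_lit 456) (nat_lit 0) (XT.nd (nat_lit 78) (nat_lit 228) (nat_lit 0) (XT.lf (nat_lit 76) (nat_lit 2305035003)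 (nat_lit 0) (nat_lit 1757674140) (nat_lit 304) (nat_lit 2458399901) (nat_lit 190) (nat_lit 1) (nat_lit 189) (nat_lit 1) (nat_lit 193) (nat_lit 1) (nat_lit 327) (nat_lit 368) (nat_lit 325)) (XT.lf (nat_lit 304) (nat_lit 1915567393) (nat_lit 0) (nat_lit 4261612878) (nat_lit 228) (nat_lit 227764415) (nat_lit 190) (nat_lit 1) (nat_lit 186) (nat_lit 1) (nat_lit 189) (nat_lit 1) (nat_lit 328) (nat_lit 368) (nat_lit 324))) (XT.nd (nat_lit 78) (nat_lit 228) (nat_lit 0) (XT.lf (nat_lit 76) (nat_lit 3575725868) (nat_lit 0) (nat_lit 882581863) (nat_lit 228) (nat_lit 1832731263) (nat_lit 184) (nat_lit 1) (nat_lit 183) (nat_lit 1) (nat_lit 186) (nat_lit 1) (nat_lit 329) (nat_lit 368) (nat_lit 323)) (XT.lf (nat_lit 76) (nat_lit 1075145901) (nat_lit 0) (nat_lit 3589668066) (nat_lit 304) (nat_lit 1514883861) (nat_lit 181) (nat_lit 1) (nat_lit 180) (nat_lit 1) (nat_lit 184) (nat_lit 1) (nat_lit 330) (nat_lit 368)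 (nat_lit 322))))))))
noncomputable def ec57 : XT := (XT.nd (nat_lit 2184) (nat_lit 3496) (nat_lit 0) (XT.nd (nat_lit 1092) (nat_lit 2204) (nat_lit 0) (XT.nd (nat_lit 546) (nat_lit 1216) (nat_lit 0) (XT.nd (nat_lit 234) (nat_lit 912) (nat_lit 0) (XT.nd (nat_lit 78) (nat_lit 380) (nat_lit 0) (XT.lf (nat_lit 76) (nat_lit 4700669801) (nat_lit 0) (nat_lit 182327149) (nat_lit 228) (nat_lit 1187935161) (nat_lit 178) (nat_lit 1) (nat_lit 177) (nat_lit 1) (nat_lit 180) (nat_lit 1) (nat_lit 331) (nat_lit 368) (nat_lit 321)) (XT.nd (nat_lit 78) (nat_lit 152) (nat_lit 0) (XT.lf (nat_lit 76) (nat_lit 2231560598) (nat_lit 0) (nat_lit 2859854031) (nat_lit 304) (nat_lit 872660110) (nat_lit 175) (nat_lit 1) (nat_lit 174) (nat_lit 1) (nat_lit 178) (nat_lit 1) (nat_lit 332) (nat_lit 368) (nat_lit 320)) (XT.lf (nat_lit 228) (nat_lit 375259477) (nat_lit 0) (nat_lit 5323517736) (nat_lit 152) (nat_lit 161281029) (nat_lit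 175) (nat_lit 1) (nat_lit 172) (nat_lit 1) (nat_lit 174) (nat_lit 1) (nat_lit 333) (nat_lit 368) (nat_lit 319)))) (XT.nd (nat_lit 156) (nat_lit 380) (nat_lit 0) (XT.nd (nat_lit 78) (nat_lit 304) (nat_lit 0) (XT.lf (nat_lit 76) (nat_lit 3260618547) (nat_lit 0) (nat_lit 2274072775) (nat_lit 228) (nat_lit 222850857) (nat_lit 170) (nat_lit 1) (nat_lit 169) (nat_lit 1) (nat_lit 172) (nat_lit 1) (nat_lit 334) (nat_lit 368) (nat_lit 318)) (XT.lf (nat_lit 228) (nat_lit 795395613) (nat_lit 0) (nat_lit 110297748) (nat_lit 152) (nat_lit 4751952087) (nat_lit 168) (nat_lit 1) (nat_lit 165) (nat_lit 1) (nat_lit 167) (nat_lit 1) (nat_lit 335) (nat_lit 368) (nat_lit 317))) (XT.nd (nat_lit 78) (nat_lit 152) (nat_lit 0) (XT.lf (nat_lit 228) (nat_lit 3743582320) (nat_lit 0) (nat_lit 436005777) (nat_lit 152) (nat_lit 1379840509) (nat_lit 165) (nat_lit 1) (nat_lit 162) (nat_lit 1) (nat_lit 164) (nat_lit 1) (nat_lit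 336) (nat_lit 368) (nat_lit 316)) (XT.lf (nat_lit 228) (nat_lit 1098123281) (nat_lit 0) (nat_lit 764770066) (nat_lit 152) (nat_lit 3600458928) (nat_lit 163) (nat_lit 1) (nat_lit 160) (nat_lit 1) (nat_lit 162) (nat_lit 1) (nat_lit 337) (nat_lit 368) (nat_lit 315))))) (XT.nd (nat_lit 234) (nat_lit 608) (nat_lit 0) (XT.nd (nat_lit 78) (nat_lit 380) (nat_lit 0) (XT.lf (nat_lit 228) (nat_lit 3904213394) (nat_lit 0) (nat_lit 1093843506) (nat_lit 152) (nat_lit 371240468) (nat_lit 160) (nat_lit 1) (nat_lit 157) (nat_lit 1) (nat_lit 159) (nat_lit 1) (nat_lit 338) (nat_lit 368) (nat_lit 314)) (XT.nd (nat_lit 78) (nat_lit 228) (nat_lit 0) (XT.lf (nat_lit 228) (nat_lit 1307203200) (nat_lit 0) (nat_lit 1412166824) (nat_lit 152) (nat_lit 2557533415) (nat_lit 158) (nat_lit 1) (nat_lit 155) (nat_lit 1) (nat_lit 157) (nat_lit 1) (nat_lit 339) (nat_lit 368) (nat_lit 313)) (XT.lf (nat_lit 76) (nat_lit 526926138)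 (nat_lit 0) (nat_lit 1209002260) (nat_lit 228) (nat_lit 3450675992) (nat_lit 153) (nat_lit 1) (nat_lit 152) (nat_lit 1) (nat_lit 155) (nat_lit 1) (nat_lit 340) (nat_lit 368) (nat_lit 312)))) (XT.nd (nat_lit 156) (nat_lit 304) (nat_lit 0) (XT.nd (nat_lit 78) (nat_lit 152) (nat_lit 0) (XT.lf (nat_lit 228) (nat_lit 1437223541) (nat_lit 0) (nat_lit 2047847975) (nat_lit 152) (nat_lit 1612788513) (nat_lit 153) (nat_lit 1) (nat_lit 150) (nat_lit 1) (nat_lit 152) (nat_lit 1) (nat_lit 341) (nat_lit 368) (nat_lit 311)) (XT.lf (nat_lit 76) (nat_lit 1329300778) (nat_lit 0) (nat_lit 1031410875) (nat_lit 152) (nat_lit 2650294929) (nat_lit 149) (nat_lit 1) (nat_lit 148) (nat_lit 1) (nat_lit 150) (nat_lit 1) (nat_lit 342) (nat_lit 368) (nat_lit 310))) (XT.nd (nat_lit 78) (nat_lit 152) (nat_lit 0) (XT.lf (nat_lit 228) (nat_lit 1500866178) (nat_lit 0) (nat_lit 2668016050) (nat_lit 152) (nat_lit 756936911) (nat_lit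 149) (nat_lit 1) (nat_lit 146) (nat_lit 1) (nat_lit 148) (nat_lit 1) (nat_lit 343) (nat_lit 368) (nat_lit 309)) (XT.lf (nat_lit 76) (nat_lit 2051576617) (nat_lit 0) (nat_lit 916888596) (nat_lit 152) (nat_lit 1873759922) (nat_lit 145) (nat_lit 1) (nat_lit 144) (nat_lit 1) (nat_lit 146) (nat_lit 1) (nat_lit 344) (nat_lit 368) (nat_lit 308)))))) (XT.nd (nat_lit 546) (nat_lit 1064) (nat_lit 0) (XT.nd (nat_lit 234) (nat_lit 684) (nat_lit 0) (XT.nd (nat_lit 78) (nat_lit 304) (nat_lit 0) (XT.lf (nat_lit 76) (nat_lit 17975960) (nat_lit 0) (nat_lit 3251444816) (nat_lit 228) (nat_lit 1490984054) (nat_lit 143) (nat_lit 1) (nat_lit 142) (nat_lit 1) (nat_lit 145) (nat_lit 1) (nat_lit 345) (nat_lit 368) (nat_lit 307)) (XT.nd (nat_lit 78) (nat_lit 152) (nat_lit 0) (XT.lf (nat_lit 76) (nat_lit 2701316209) (nat_lit 0) (nat_lit 855143067) (nat_lit 152) (nat_lit 1123445348) (nat_lit 141) (nat_lit 1) (nat_lit 140)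 (nat_lit 1) (nat_lit 142) (nat_lit 1) (nat_lit 346) (nat_lit 368) (nat_lit 306)) (XT.lf (nat_lit 76) (nat_lit 706411867) (nat_lit 0) (nat_lit 3136621745) (nat_lit 228) (nat_lit 758049867) (nat_lit 139) (nat_lit 1) (nat_lit 138) (nat_lit 1) (nat_lit 141) (nat_lit 1) (nat_lit 347) (nat_lit 368) (nat_lit 305)))) (XT.nd (nat_lit 156) (nat_lit 380) (nat_lit 0) (XT.nd (nat_lit 78) (nat_lit 152) (nat_lit 0) (XT.lf (nat_lit 76) (nat_lit 3285295717) (nat_lit 0) (nat_lit 837249418) (nat_lit 152) (nat_lit 401171828) (nat_lit 137) (nat_lit 1) (nat_lit 136) (nat_lit 1) (nat_lit 138) (nat_lit 1) (nat_lit 348) (nat_lit 368) (nat_lit 304)) (XT.lf (nat_lit 76) (nat_lit 1329690900) (nat_lit 0) (nat_lit 3064693976) (nat_lit 228) (nat_lit 53370838) (nat_lit 135) (nat_lit 1) (nat_lit 134) (nat_lit 1) (nat_lit 137) (nat_lit 1) (nat_lit 349) (nat_lit 368) (nat_lit 303))) (XT.nd (nat_lit 78) (nat_lit 76) (nat_lit 0) (XT.lf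 (nat_lit 228) (nat_lit 3514932127) (nat_lit 0) (nat_lit 297521033) (nat_lit 152) (nat_lit 560819687) (nat_lit 133) (nat_lit 1) (nat_lit 130) (nat_lit 1) (nat_lit 132) (nat_lit 1) (nat_lit 350) (nat_lit 368) (nat_lit 302)) (XT.lf (nat_lit 152) (nat_lit 1265559471) (nat_lit 0) (nat_lit 634231345) (nat_lit 76) (nat_lit 2400153752) (nat_lit 131) (nat_lit 1) (nat_lit 129) (nat_lit 1) (nat_lit 130) (nat_lit 1) (nat_lit 351) (nat_lit 368) (nat_lit 301))))) (XT.nd (nat_lit 234) (nat_lit 532) (nat_lit 0) (XT.nd (nat_lit 78) (nat_lit 304) (nat_lit 0) (XT.lf (nat_lit 76) (nat_lit 59569138) (nat_lit 0) (nat_lit 913098886) (nat_lit 228) (nat_lit 3255582079) (nat_lit 127) (nat_lit 1) (nat_lit 126) (nat_lit 1) (nat_lit 129) (nat_lit 1) (nat_lit 352) (nat_lit 368) (nat_lit 300)) (XT.nd (nat_lit 78) (nat_lit 228) (nat_lit 0) (XT.lf (nat_lit 152) (nat_lit 1124102620) (nat_lit 0) (nat_lit 1292026043) (nat_lit 76)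 (nat_lit 1741424655) (nat_lit 127) (nat_lit 1) (nat_lit 125) (nat_lit 1) (nat_lit 126) (nat_lit 1) (nat_lit 353) (nat_lit 368) (nat_lit 299)) (XT.lf (nat_lit 76) (nat_lit 615169957) (nat_lit 0) (nat_lit 996104238) (nat_lit 228) (nat_lit 2477102917) (nat_lit 123) (nat_lit 1) (nat_lit 122) (nat_lit 1) (nat_lit 125) (nat_lit 1) (nat_lit 354) (nat_lit 368) (nat_lit 298)))) (XT.nd (nat_lit 156) (nat_lit 228) (nat_lit 0) (XT.nd (nat_lit 78) (nat_lit 228) (nat_lit 0) (XT.lf (nat_lit 152) (nat_lit 964481643) (nat_lit 0) (nat_lit 1918453726) (nat_lit 76) (nat_lit 1137408780) (nat_lit 123) (nat_lit 1) (nat_lit 121) (nat_lit 1) (nat_lit 122) (nat_lit 1) (nat_lit 355) (nat_lit 368) (nat_lit 297)) (XT.lf (nat_lit 76) (nat_lit 1121492432) (nat_lit 0) (nat_lit 1097050777) (nat_lit 228) (nat_lit 1735027757) (nat_lit 119) (nat_lit 1) (nat_lit 118) (nat_lit 1) (nat_lit 121) (nat_lit 1) (nat_lit 356) (nat_lit 368)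 (nat_lit 296))) (XT.nd (nat_lit 78) (nat_lit 152) (nat_lit 0) (XT.lf (nat_lit 152) (nat_lit 791198108) (nat_lit 0) (nat_lit 2513299655) (nat_lit 76) (nat_lit 583583044) (nat_lit 119) (nat_lit 1) (nat_lit 117) (nat_lit 1) (nat_lit 118) (nat_lit 1) (nat_lit 357) (nat_lit 368) (nat_lit 295)) (XT.lf (nat_lit 76) (nat_lit 1582661204) (nat_lit 0) (nat_lit 1211723408) (nat_lit 152) (nat_lit 1029218793) (nat_lit 116) (nat_lit 1) (nat_lit 115) (nat_lit 1) (nat_lit 117) (nat_lit 1) (nat_lit 358) (nat_lit 368) (nat_lit 294))))))) (XT.nd (nat_lit 1092) (nat_lit 1824) (nat_lit 0) (XT.nd (nat_lit 546) (nat_lit 836) (nat_lit 0) (XT.nd (nat_lit 234) (nat_lit 532) (nat_lit 0) (XT.nd (nat_lit 78) (nat_lit 228) (nat_lit 0) (XT.lf (nat_lit 152) (nat_lit 608098685) (nat_lit 0) (nat_lit 3076587624) (nat_lit 76) (nat_lit 75856343) (nat_lit 116) (nat_lit 1) (nat_lit 114) (nat_lit 1) (nat_lit 115) (nat_lit 1) (nat_lit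 359) (nat_lit 368) (nat_lit 293)) (XT.nd (nat_lit 78) (nat_lit 76) (nat_lit 0) (XT.lf (nat_lit 76) (nat_lit 2002407317) (nat_lit 0) (nat_lit 1336518270) (nat_lit 152) (nat_lit 359335437) (nat_lit 113) (nat_lit 1) (nat_lit 112) (nat_lit 1) (nat_lit 114) (nat_lit 1) (nat_lit 360) (nat_lit 368) (nat_lit 292)) (XT.lf (nat_lit 0) (nat_lit 381876897) (nat_lit 0) (nat_lit 3222808500) (nat_lit 152) (nat_lit 32725523) (nat_lit 111) (nat_lit 3) (nat_lit 111) (nat_lit 1) (nat_lit 113) (nat_lit 1) (nat_lit 361) (nat_lit 368) (nat_lit 291)))) (XT.nd (nat_lit 156) (nat_lit 228) (nat_lit 0) (XT.nd (nat_lit 78) (nat_lit 76) (nat_lit 0) (XT.lf (nat_lit 152) (nat_lit 2106200805) (nat_lit 0) (nat_lit 280607092) (nat_lit 76) (nat_lit 1190455093) (nat_lit 110) (nat_lit 1) (nat_lit 108) (nat_lit 1) (nat_lit 109) (nat_lit 1) (nat_lit 362) (nat_lit 368) (nat_lit 290)) (XT.lf (nat_lit 76) (nat_lit 211092088) (nat_lit 0)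 (nat_lit 594482110) (nat_lit 76) (nat_lit 2712848117) (nat_lit 108) (nat_lit 3) (nat_lit 107) (nat_lit 1) (nat_lit 108) (nat_lit 1) (nat_lit 363) (nat_lit 368) (nat_lit 289))) (XT.nd (nat_lit 78) (nat_lit 76) (nat_lit 0) (XT.lf (nat_lit 152) (nat_lit 1847172952) (nat_lit 0) (nat_lit 892240603) (nat_lit 76) (nat_lit 720993580) (nat_lit 107) (nat_lit 1) (nat_lit 105) (nat_lit 1) (nat_lit 106) (nat_lit 1) (nat_lit 364) (nat_lit 368) (nat_lit 288)) (XT.lf (nat_lit 76) (nat_lit 6532788) (nat_lit 0) (nat_lit 1187448081) (nat_lit 76) (nat_lit 2209607027) (nat_lit 105) (nat_lit 3) (nat_lit 104) (nat_lit 1) (nat_lit 105) (nat_lit 1) (nat_lit 365) (nat_lit 368) (nat_lit 287))))) (XT.nd (nat_lit 234) (nat_lit 456) (nat_lit 0) (XT.nd (nat_lit 78) (nat_lit 228) (nat_lit 0) (XT.lf (nat_lit 152) (nat_lit 1590304421) (nat_lit 0) (nat_lit 1469189752) (nat_lit 76) (nat_lit 288128323) (nat_lit 104) (nat_lit 1) (nat_lit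 102) (nat_lit 1) (nat_lit 103) (nat_lit 1) (nat_lit 366) (nat_lit 368) (nat_lit 286)) (XT.nd (nat_lit 78) (nat_lit 76) (nat_lit 0) (XT.lf (nat_lit 76) (nat_lit 1551399870) (nat_lit 0) (nat_lit 192973963) (nat_lit 152) (nat_lit 1548314579) (nat_lit 101) (nat_lit 1) (nat_lit 100) (nat_lit 1) (nat_lit 102) (nat_lit 1) (nat_lit 367) (nat_lit 368) (nat_lit 285)) (XT.lf (nat_lit 0) (nat_lit 108686497) (nat_lit 0) (nat_lit 1902539226) (nat_lit 152) (nat_lit 1227484953) (nat_lit 99) (nat_lit 3) (nat_lit 99) (nat_lit 1) (nat_lit 101) (nat_lit 1) (nat_lit 368) (nat_lit 368) (nat_lit 284)))) (XT.nd (nat_lit 156) (nat_lit 228) (nat_lit 0) (XT.nd (nat_lit 78) (nat_lit 76) (nat_lit 0) (XT.lf (nat_lit 76) (nat_lit 1878465876) (nat_lit 0) (nat_lit 389591991) (nat_lit 152) (nat_lit 917559427) (nat_lit 98) (nat_lit 1) (nat_lit 97) (nat_lit 1) (nat_lit 99) (nat_lit 1) (nat_lit 369) (nat_lit 368) (nat_lit 283)) (XT.lf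 (nat_lit 0) (nat_lit 469079611) (nat_lit 0) (nat_lit 2048766315) (nat_lit 152) (nat_lit 615626608) (nat_lit 96) (nat_lit 3) (nat_lit 96) (nat_lit 1) (nat_lit 98) (nat_lit 1) (nat_lit 370) (nat_lit 368) (nat_lit 282))) (XT.nd (nat_lit 78) (nat_lit 76) (nat_lit 0) (XT.lf (nat_lit 76) (nat_lit 2177377946) (nat_lit 0) (nat_lit 582153289) (nat_lit 152) (nat_lit 322692349) (nat_lit 95) (nat_lit 1) (nat_lit 94) (nat_lit 1) (nat_lit 96) (nat_lit 1) (nat_lit 371) (nat_lit 368) (nat_lit 281)) (XT.lf (nat_lit 0) (nat_lit 800894309) (nat_lit 0) (nat_lit 2191984025) (nat_lit 152) (nat_lit 38963694) (nat_lit 93) (nat_lit 3) (nat_lit 93) (nat_lit 1) (nat_lit 95) (nat_lit 1) (nat_lit 372) (nat_lit 368) (nat_lit 280)))))) (XT.nd (nat_lit 546) (nat_lit 912) (nat_lit 0) (XT.nd (nat_lit 234) (nat_lit 456) (nat_lit 0) (XT.nd (nat_lit 78) (nat_lit 228) (nat_lit 0) (XT.lf (nat_lit 152) (nat_lit 2210362371) (nat_lit 0)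 (nat_lit 242171507) (nat_lit 76) (nat_lit 529758963) (nat_lit 92) (nat_lit 1) (nat_lit 90) (nat_lit 1) (nat_lit 91) (nat_lit 1) (nat_lit 373) (nat_lit 368) (nat_lit 279)) (XT.nd (nat_lit 78) (nat_lit 152) (nat_lit 0) (XT.lf (nat_lit 76) (nat_lit 597416669) (nat_lit 0) (nat_lit 513687402) (nat_lit 76) (nat_lit 1822425775) (nat_lit 90) (nat_lit 3) (nat_lit 89) (nat_lit 1) (nat_lit 90) (nat_lit 1) (nat_lit 374) (nat_lit 368) (nat_lit 278)) (XT.lf (nat_lit 152) (nat_lit 1927090101) (nat_lit 0) (nat_lit 779247617) (nat_lit 76) (nat_lit 179335119) (nat_lit 89) (nat_lit 1) (nat_lit 87) (nat_lit 1) (nat_lit 88) (nat_lit 1) (nat_lit 375) (nat_lit 368) (nat_lit 277)))) (XT.nd (nat_lit 156) (nat_lit 228) (nat_lit 0) (XT.nd (nat_lit 78) (nat_lit 152) (nat_lit 0) (XT.lf (nat_lit 76) (nat_lit 363092175) (nat_lit 0) (nat_lit 1033607473) (nat_lit 76) (nat_lit 1441848846) (nat_lit 87) (nat_lit 3) (nat_lit 86) (nat_lit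 1) (nat_lit 87) (nat_lit 1) (nat_lit 376) (nat_lit 368) (nat_lit 276)) (XT.lf (nat_lit 0) (nat_lit 142220484) (nat_lit 0) (nat_lit 1139683887) (nat_lit 152) (nat_lit 1510381912) (nat_lit 84) (nat_lit 3) (nat_lit 84) (nat_lit 1) (nat_lit 86) (nat_lit 1) (nat_lit 377) (nat_lit 368) (nat_lit 275))) (XT.nd (nat_lit 78) (nat_lit 152) (nat_lit 0) (XT.lf (nat_lit 76) (nat_lit 137787935) (nat_lit 0) (nat_lit 1521241012) (nat_lit 76) (nat_lit 1087753081) (nat_lit 84) (nat_lit 3) (nat_lit 83) (nat_lit 1) (nat_lit 84) (nat_lit 1) (nat_lit 378) (nat_lit 368) (nat_lit 274)) (XT.lf (nat_lit 0) (nat_lit 436449759) (nat_lit 0) (nat_lit 1314827148) (nat_lit 152) (nat_lit 950729500) (nat_lit 81) (nat_lit 3) (nat_lit 81) (nat_lit 1) (nat_lit 83) (nat_lit 1) (nat_lit 379) (nat_lit 368) (nat_lit 273))))) (XT.nd (nat_lit 234) (nat_lit 532) (nat_lit 0) (XT.nd (nat_lit 78) (nat_lit 228) (nat_lit 0) (XT.lf (nat_lit 76)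 (nat_lit 1900436922) (nat_lit 0) (nat_lit 76601964) (nat_lit 152) (nat_lit 681047906) (nat_lit 80) (nat_lit 1) (nat_lit 79) (nat_lit 1) (nat_lit 81) (nat_lit 1) (nat_lit 380) (nat_lit 368) (nat_lit 272)) (XT.nd (nat_lit 78) (nat_lit 152) (nat_lit 0) (XT.lf (nat_lit 0) (nat_lit 708424618) (nat_lit 0) (nat_lit 1481933535) (nat_lit 152) (nat_lit 424408428) (nat_lit 78) (nat_lit 3) (nat_lit 78) (nat_lit 1) (nat_lit 80) (nat_lit 1) (nat_lit 381) (nat_lit 368) (nat_lit 271)) (XT.lf (nat_lit 76) (nat_lit 2122875313) (nat_lit 0) (nat_lit 278851854) (nat_lit 152) (nat_lit 170605893) (nat_lit 77) (nat_lit 1) (nat_lit 76) (nat_lit 1) (nat_lit 78) (nat_lit 1) (nat_lit 382) (nat_lit 368) (nat_lit 270)))) (XT.nd (nat_lit 156) (nat_lit 228) (nat_lit 0) (XT.nd (nat_lit 78) (nat_lit 152) (nat_lit 0) (XT.lf (nat_lit 76) (nat_lit 888988322) (nat_lit 0) (nat_lit 71296302) (nat_lit 76) (nat_lit 1570148895) (nat_lit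 75) (nat_lit 3) (nat_lit 74) (nat_lit 1) (nat_lit 75) (nat_lit 1) (nat_lit 383) (nat_lit 368) (nat_lit 269)) (XT.lf (nat_lit 152) (nat_lit 2014830186) (nat_lit 0) (nat_lit 314571202) (nat_lit 76) (nat_lit 159958628) (nat_lit 74) (nat_lit 1) (nat_lit 72) (nat_lit 1) (nat_lit 73) (nat_lit 1) (nat_lit 384) (nat_lit 368) (nat_lit 268))) (XT.nd (nat_lit 78) (nat_lit 152) (nat_lit 0) (XT.lf (nat_lit 76) (nat_lit 652415724) (nat_lit 0) (nat_lit 544135452) (nat_lit 76) (nat_lit 1252253315) (nat_lit 72) (nat_lit 3) (nat_lit 71) (nat_lit 1) (nat_lit 72) (nat_lit 1) (nat_lit 385) (nat_lit 368) (nat_lit 267)) (XT.lf (nat_lit 0) (nat_lit 108357491) (nat_lit 0) (nat_lit 662992342) (nat_lit 152) (nat_lit 1637730536) (nat_lit 69) (nat_lit 3) (nat_lit 69) (nat_lit 1) (nat_lit 71) (nat_lit 1) (nat_lit 386) (nat_lit 368) (nat_lit 266))))))))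
noncomputable def ec58 : XT := (XT.nd (nat_lit 46410) (nat_lit 0) (nat_lit 9576) (XT.nd (nat_lit 45318) (nat_lit 0) (nat_lit 19304) (XT.nd (nat_lit 546) (nat_lit 304) (nat_lit 0) (XT.nd (nat_lit 234) (nat_lit 532) (nat_lit 0) (XT.nd (nat_lit 78) (nat_lit 228) (nat_lit 0) (XT.lf (nat_lit 76) (nat_lit 427352447) (nat_lit 0) (nat_lit 986972776) (nat_lit 76) (nat_lit 955576115) (nat_lit 69) (nat_lit 3) (nat_lit 68) (nat_lit 1) (nat_lit 69) (nat_lit 1) (nat_lit 387) (nat_lit 368) (nat_lit 265)) (XT.nd (nat_lit 78) (nat_lit 76) (nat_lit 0) (XT.lf (nat_lit 0) (nat_lit 354461977) (nat_lit 0) (nat_lit 842879607) (nat_lit 152) (nat_lit 1134093581) (nat_lit 66) (nat_lit 3) (nat_lit 66) (nat_lit 1) (nat_lit 68) (nat_lit 1) (nat_lit 388) (nat_lit 368) (nat_lit 264)) (XT.lf (nat_lit 76) (nat_lit 213686624) (nat_lit 0) (nat_lit 1401092746) (nat_lit 76) (nat_lit 678846272) (nat_lit 66) (nat_lit 3) (nat_lit 65)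 (nat_lit 1) (nat_lit 66) (nat_lit 1) (nat_lit 389) (nat_lit 368) (nat_lit 263)))) (XT.nd (nat_lit 156) (nat_lit 304) (nat_lit 0) (XT.nd (nat_lit 78) (nat_lit 76) (nat_lit 0) (XT.lf (nat_lit 0) (nat_lit 582644007) (nat_lit 0) (nat_lit 1012750015) (nat_lit 152) (nat_lit 660980079) (nat_lit 63) (nat_lit 3) (nat_lit 63) (nat_lit 1) (nat_lit 65) (nat_lit 1) (nat_lit 390) (nat_lit 368) (nat_lit 262)) (XT.lf (nat_lit 76) (nat_lit 11253745) (nat_lit 0) (nat_lit 1787751018) (nat_lit 76) (nat_lit 420878515) (nat_lit 63) (nat_lit 3) (nat_lit 62) (nat_lit 1) (nat_lit 63) (nat_lit 1) (nat_lit 391) (nat_lit 368) (nat_lit 261))) (XT.nd (nat_lit 78) (nat_lit 152) (nat_lit 0) (XT.lf (nat_lit 0) (nat_lit 793992458) (nat_lit 0) (nat_lit 1172748603) (nat_lit 152) (nat_lit 217063846) (nat_lit 60) (nat_lit 3) (nat_lit 60) (nat_lit 1) (nat_lit 62) (nat_lit 1) (nat_lit 392) (nat_lit 368) (nat_lit 260)) (XT.lf (nat_lit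 76) (nat_lit 1969749785) (nat_lit 0) (nat_lit 176638577) (nat_lit 152) (nat_lit 2143824) (nat_lit 59) (nat_lit 1) (nat_lit 58) (nat_lit 1) (nat_lit 60) (nat_lit 1) (nat_lit 393) (nat_lit 368) (nat_lit 259))))) (XT.nd (nat_lit 44460) (nat_lit 0) (nat_lit 24396) (XT.nd (nat_lit 78) (nat_lit 152) (nat_lit 0) (XT.lf (nat_lit 76) (nat_lit 788569504) (nat_lit 0) (nat_lit 202904813) (nat_lit 76) (nat_lit 1122106386) (nat_lit 57) (nat_lit 3) (nat_lit 56) (nat_lit 1) (nat_lit 57) (nat_lit 1) (nat_lit 394) (nat_lit 368) (nat_lit 258)) (XT.nd (nat_lit 44304) (nat_lit 0) (nat_lit 24320) (XT.lf (nat_lit 0) (nat_lit 49751203) (nat_lit 0) (nat_lit 358153313) (nat_lit 152) (nat_lit 1671500941) (nat_lit 54) (nat_lit 3) (nat_lit 54) (nat_lit 1) (nat_lit 56) (nat_lit 1) (nat_lit 395) (nat_lit 368) (nat_lit 257)) (XT.lf (nat_lit 1292) (nat_lit 1535162490) (nat_lit 0) (nat_lit 5281672922) (nat_lit 1292) (nat_lit 1535162490)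 (nat_lit 391) (nat_lit 1) (nat_lit 374) (nat_lit 0) (nat_lit 391) (nat_lit 0) (nat_lit 282) (nat_lit 369) (nat_lit 369)))) (XT.nd (nat_lit 156) (nat_lit 0) (nat_lit 76) (XT.nd (nat_lit 78) (nat_lit 0) (nat_lit 0) (XT.lf (nat_lit 1292) (nat_lit 123076667) (nat_lit 0) (nat_lit 10414348367) (nat_lit 1216) (nat_lit 5765781261) (nat_lit 392) (nat_lit 1) (nat_lit 375) (nat_lit 1) (nat_lit 391) (nat_lit 1) (nat_lit 283) (nat_lit 369) (nat_lit 368)) (XT.lf (nat_lit 1292) (nat_lit 5414844213) (nat_lit 76) (nat_lit 7659098995) (nat_lit 0) (nat_lit 2840737091) (nat_lit 392) (nat_lit 1) (nat_lit 376) (nat_lit 1) (nat_lit 375) (nat_lit 1) (nat_lit 284) (nat_lit 369) (nat_lit 367))) (XT.nd (nat_lit 78) (nat_lit 0) (nat_lit 76) (XT.lf (nat_lit 1292) (nat_lit 4760107218) (nat_lit 76) (nat_lit 5013428354) (nat_lit 0) (nat_lit 5765198746) (nat_lit 393) (nat_lit 1) (nat_lit 377) (nat_lit 1) (nat_lit 376) (nat_lit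 1) (nat_lit 285) (nat_lit 369) (nat_lit 366)) (XT.lf (nat_lit 1292) (nat_lit 3939309245) (nat_lit 76) (nat_lit 2589697616) (nat_lit 0) (nat_lit 8645938839) (nat_lit 394) (nat_lit 1) (nat_lit 378) (nat_lit 1) (nat_lit 377) (nat_lit 1) (nat_lit 286) (nat_lit 369) (nat_lit 365)))))) (XT.nd (nat_lit 546) (nat_lit 3496) (nat_lit 0) (XT.nd (nat_lit 234) (nat_lit 1824) (nat_lit 0) (XT.nd (nat_lit 78) (nat_lit 0) (nat_lit 76) (XT.lf (nat_lit 1292) (nat_lit 2965108132) (nat_lit 76) (nat_lit 376503729) (nat_lit 0) (nat_lit 11481262022) (nat_lit 395) (nat_lit 1) (nat_lit 379) (nat_lit 1) (nat_lit 378) (nat_lit 1) (nat_lit 287) (nat_lit 369) (nat_lit 364)) (XT.nd (nat_lit 78) (nat_lit 0) (nat_lit 0) (XT.lf (nat_lit 1292) (nat_lit 228149258) (nat_lit 0) (nat_lit 12648392347) (nat_lit 1216) (nat_lit 1605082111) (nat_lit 396) (nat_lit 1) (nat_lit 379) (nat_lit 1) (nat_lit 395) (nat_lit 1) (nat_lit 288) (nat_lit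 369) (nat_lit 363)) (XT.lf (nat_lit 1292) (nat_lit 540763375) (nat_lit 76) (nat_lit 10728967381) (nat_lit 0) (nat_lit 2880645516) (nat_lit 396) (nat_lit 1) (nat_lit 380) (nat_lit 1) (nat_lit 379) (nat_lit 1) (nat_lit 289) (nat_lit 369) (nat_lit 362)))) (XT.nd (nat_lit 156) (nat_lit 684) (nat_lit 0) (XT.nd (nat_lit 78) (nat_lit 0) (nat_lit 76) (XT.lf (nat_lit 1368) (nat_lit 7903250597) (nat_lit 0) (nat_lit 854258733) (nat_lit 1292) (nat_lit 5071867127) (nat_lit 381) (nat_lit 1) (nat_lit 363) (nat_lit 1) (nat_lit 380) (nat_lit 1) (nat_lit 290) (nat_lit 369) (nat_lit 361)) (XT.lf (nat_lit 1368) (nat_lit 4613084536) (nat_lit 0) (nat_lit 2343985335) (nat_lit 1292) (nat_lit 6561308443) (nat_lit 382) (nat_lit 1) (nat_lit 364) (nat_lit 1) (nat_lit 381) (nat_lit 1) (nat_lit 291) (nat_lit 369) (nat_lit 360))) (XT.nd (nat_lit 78) (nat_lit 836) (nat_lit 0) (XT.lf (nat_lit 76) (nat_lit 1394098619) (nat_lit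 0) (nat_lit 3929830541) (nat_lit 1292) (nat_lit 7893248706) (nat_lit 366) (nat_lit 1) (nat_lit 365) (nat_lit 1) (nat_lit 382) (nat_lit 1) (nat_lit 292) (nat_lit 369) (nat_lit 359)) (XT.lf (nat_lit 912) (nat_lit 7304524493) (nat_lit 0) (nat_lit 3831722693) (nat_lit 836) (nat_lit 1788666222) (nat_lit 366) (nat_lit 1) (nat_lit 354) (nat_lit 1) (nat_lit 365) (nat_lit 1) (nat_lit 293) (nat_lit 369) (nat_lit 358))))) (XT.nd (nat_lit 234) (nat_lit 1748) (nat_lit 0) (XT.nd (nat_lit 78) (nat_lit 1140) (nat_lit 0) (XT.lf (nat_lit 684) (nat_lit 5238029096) (nat_lit 0) (nat_lit 2476544021) (nat_lit 608) (nat_lit 4926806024) (nat_lit 355) (nat_lit 1) (nat_lit 346) (nat_lit 1) (nat_lit 354) (nat_lit 1) (nat_lit 294) (nat_lit 369) (nat_lit 357)) (XT.nd (nat_lit 78) (nat_lit 532) (nat_lit 0) (XT.lf (nat_lit 684) (nat_lit 3109221525) (nat_lit 0) (nat_lit 1264595174) (nat_lit 608) (nat_lit 7992848737) (nat_lit 347)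 (nat_lit 1) (nat_lit 338) (nat_lit 1) (nat_lit 346) (nat_lit 1) (nat_lit 295) (nat_lit 369) (nat_lit 356)) (XT.lf (nat_lit 608) (nat_lit 924937890) (nat_lit 0) (nat_lit 188364279) (nat_lit 532) (nat_lit 10987162782) (nat_lit 339) (nat_lit 1) (nat_lit 331) (nat_lit 1) (nat_lit 338) (nat_lit 1) (nat_lit 296) (nat_lit 369) (nat_lit 355)))) (XT.nd (nat_lit 156) (nat_lit 1064) (nat_lit 0) (XT.nd (nat_lit 78) (nat_lit 608) (nat_lit 0) (XT.lf (nat_lit 76) (nat_lit 9753077573) (nat_lit 0) (nat_lit 1310648153) (nat_lit 608) (nat_lit 777545962) (nat_lit 331) (nat_lit 1) (nat_lit 330) (nat_lit 1) (nat_lit 338) (nat_lit 1) (nat_lit 297) (nat_lit 369) (nat_lit 354)) (XT.lf (nat_lit 76) (nat_lit 6368143140) (nat_lit 0) (nat_lit 3581279175) (nat_lit 684) (nat_lit 1639983892) (nat_lit 323) (nat_lit 1) (nat_lit 322) (nat_lit 1) (nat_lit 331) (nat_lit 1) (nat_lit 298) (nat_lit 369) (nat_lit 353))) (XT.nd (nat_lit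 78) (nat_lit 532) (nat_lit 0) (XT.lf (nat_lit 76) (nat_lit 3069474395) (nat_lit 0) (nat_lit 5886717161) (nat_lit 608) (nat_lit 2389054795) (nat_lit 316) (nat_lit 1) (nat_lit 315) (nat_lit 1) (nat_lit 323) (nat_lit 1) (nat_lit 299) (nat_lit 369) (nat_lit 352)) (XT.lf (nat_lit 608) (nat_lit 2885215611) (nat_lit 0) (nat_lit 8076263510) (nat_lit 532) (nat_lit 147007088) (nat_lit 316) (nat_lit 1) (nat_lit 308) (nat_lit 1) (nat_lit 315) (nat_lit 1) (nat_lit 300) (nat_lit 369) (nat_lit 351))))))) (XT.nd (nat_lit 1092) (nat_lit 3876) (nat_lit 0) (XT.nd (nat_lit 546) (nat_lit 2584) (nat_lit 0) (XT.nd (nat_lit 234) (nat_lit 1748) (nat_lit 0) (XT.nd (nat_lit 78) (nat_lit 1064) (nat_lit 0) (XT.lf (nat_lit 532) (nat_lit 264013625) (nat_lit 0) (nat_lit 7274919275) (nat_lit 456) (nat_lit 3339103562) (nat_lit 309) (nat_lit 1) (nat_lit 302) (nat_lit 1) (nat_lit 308) (nat_lit 1) (nat_lit 301) (nat_lit 369) (nat_lit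 350)) (XT.nd (nat_lit 78) (nat_lit 456) (nat_lit 0) (XT.lf (nat_lit 76) (nat_lit 4230298495) (nat_lit 0) (nat_lit 2323630389) (nat_lit 608) (nat_lit 4099943180) (nat_lit 295) (nat_lit 1) (nat_lit 294) (nat_lit 1) (nat_lit 302) (nat_lit 1) (nat_lit 302) (nat_lit 369) (nat_lit 349)) (XT.lf (nat_lit 76) (nat_lit 1013839564) (nat_lit 0) (nat_lit 4914718371) (nat_lit 532) (nat_lit 4507804567) (nat_lit 289) (nat_lit 1) (nat_lit 288) (nat_lit 1) (nat_lit 295) (nat_lit 1) (nat_lit 303) (nat_lit 369) (nat_lit 348)))) (XT.nd (nat_lit 156) (nat_lit 836) (nat_lit 0) (XT.nd (nat_lit 78) (nat_lit 456) (nat_lit 0) (XT.lf (nat_lit 532) (nat_lit 2693181450) (nat_lit 0) (nat_lit 5374857459) (nat_lit 456) (nat_lit 2156697612) (nat_lit 289) (nat_lit 1) (nat_lit 282) (nat_lit 1) (nat_lit 288) (nat_lit 1) (nat_lit 304) (nat_lit 369) (nat_lit 347)) (XT.lf (nat_lit 76) (nat_lit 4761143017) (nat_lit 0) (nat_lit 137314376)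 (nat_lit 456) (nat_lit 5120628403) (nat_lit 277) (nat_lit 1) (nat_lit 276) (nat_lit 1) (nat_lit 282) (nat_lit 1) (nat_lit 305) (nat_lit 369) (nat_lit 346))) (XT.nd (nat_lit 78) (nat_lit 380) (nat_lit 0) (XT.lf (nat_lit 76) (nat_lit 1572558585) (nat_lit 0) (nat_lit 2907080780) (nat_lit 532) (nat_lit 5339125709) (nat_lit 271) (nat_lit 1) (nat_lit 270) (nat_lit 1) (nat_lit 277) (nat_lit 1) (nat_lit 306) (nat_lit 369) (nat_lit 345)) (XT.lf (nat_lit 456) (nat_lit 3942873407) (nat_lit 0) (nat_lit 4125147431) (nat_lit 380) (nat_lit 1555880368) (nat_lit 271) (nat_lit 1) (nat_lit 265) (nat_lit 1) (nat_lit 270) (nat_lit 1) (nat_lit 307) (nat_lit 369) (nat_lit 344))))) (XT.nd (nat_lit 234) (nat_lit 1368) (nat_lit 0) (XT.nd (nat_lit 78) (nat_lit 836) (nat_lit 0) (XT.lf (nat_lit 456) (nat_lit 977965380) (nat_lit 0) (nat_lit 3831090814) (nat_lit 380) (nat_lit 4625256421) (nat_lit 266) (nat_lit 1) (nat_lit 260)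 (nat_lit 1) (nat_lit 265) (nat_lit 1) (nat_lit 308) (nat_lit 369) (nat_lit 343)) (XT.nd (nat_lit 78) (nat_lit 380) (nat_lit 0) (XT.lf (nat_lit 76) (nat_lit 1662954029) (nat_lit 0) (nat_lit 1926805504) (nat_lit 456) (nat_lit 5659948256) (nat_lit 255) (nat_lit 1) (nat_lit 254) (nat_lit 1) (nat_lit 260) (nat_lit 1) (nat_lit 309) (nat_lit 369) (nat_lit 342)) (XT.lf (nat_lit 456) (nat_lit 4266914699) (nat_lit 0) (nat_lit 3393260554) (nat_lit 380) (nat_lit 1409615899) (nat_lit 255) (nat_lit 1) (nat_lit 249) (nat_lit 1) (nat_lit 254) (nat_lit 1) (nat_lit 310) (nat_lit 369) (nat_lit 341)))) (XT.nd (nat_lit 156) (nat_lit 608) (nat_lit 0) (XT.nd (nat_lit 78) (nat_lit 456) (nat_lit 0) (XT.lf (nat_lit 380) (nat_lit 1225053210) (nat_lit 0) (nat_lit 3245596944) (nat_lit 304) (nat_lit 4423964719) (nat_lit 250) (nat_lit 1) (nat_lit 245) (nat_lit 1) (nat_lit 249) (nat_lit 1) (nat_lit 311) (nat_lit 369) (nat_lit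 340)) (XT.lf (nat_lit 76) (nat_lit 1392537120) (nat_lit 0) (nat_lit 1749756735) (nat_lit 456) (nat_lit 5581691563) (nat_lit 240) (nat_lit 1) (nat_lit 239) (nat_lit 1) (nat_lit 245) (nat_lit 1) (nat_lit 312) (nat_lit 369) (nat_lit 339))) (XT.nd (nat_lit 78) (nat_lit 304) (nat_lit 0) (XT.lf (nat_lit 380) (nat_lit 3874026989) (nat_lit 0) (nat_lit 3069810633) (nat_lit 304) (nat_lit 1613608781) (nat_lit 240) (nat_lit 1) (nat_lit 235) (nat_lit 1) (nat_lit 239) (nat_lit 1) (nat_lit 313) (nat_lit 369) (nat_lit 338)) (XT.lf (nat_lit 380) (nat_lit 799204915) (nat_lit 0) (nat_lit 3039825857) (nat_lit 304) (nat_lit 4556246394) (nat_lit 236) (nat_lit 1) (nat_lit 231) (nat_lit 1) (nat_lit 235) (nat_lit 1) (nat_lit 314) (nat_lit 369) (nat_lit 337)))))) (XT.nd (nat_lit 546) (nat_lit 1748) (nat_lit 0) (XT.nd (nat_lit 234) (nat_lit 1140) (nat_lit 0) (XT.nd (nat_lit 78) (nat_lit 608) (nat_lit 0) (XT.lf (nat_lit 76)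 (nat_lit 849317069) (nat_lit 0) (nat_lit 2191809117) (nat_lit 380) (nat_lit 5195965262) (nat_lit 227) (nat_lit 1) (nat_lit 226) (nat_lit 1) (nat_lit 231) (nat_lit 1) (nat_lit 315) (nat_lit 369) (nat_lit 336)) (XT.nd (nat_lit 78) (nat_lit 304) (nat_lit 0) (XT.lf (nat_lit 380) (nat_lit 2935356497) (nat_lit 0) (nat_lit 3064717081) (nat_lit 304) (nat_lit 2082495175) (nat_lit 227) (nat_lit 1) (nat_lit 222) (nat_lit 1) (nat_lit 226) (nat_lit 1) (nat_lit 316) (nat_lit 369) (nat_lit 335)) (XT.lf (nat_lit 76) (nat_lit 2992582737) (nat_lit 0) (nat_lit 134646761) (nat_lit 304) (nat_lit 4804906573) (nat_lit 219) (nat_lit 1) (nat_lit 218) (nat_lit 1) (nat_lit 222) (nat_lit 1) (nat_lit 317) (nat_lit 369) (nat_lit 334)))) (XT.nd (nat_lit 156) (nat_lit 608) (nat_lit 0) (XT.nd (nat_lit 78) (nat_lit 228) (nat_lit 0) (XT.lf (nat_lit 76) (nat_lit 105081879) (nat_lit 0) (nat_lit 3102158849) (nat_lit 380) (nat_lit 4577872401)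 (nat_lit 215) (nat_lit 1) (nat_lit 214) (nat_lit 1) (nat_lit 219) (nat_lit 1) (nat_lit 318) (nat_lit 369) (nat_lit 333)) (XT.lf (nat_lit 304) (nat_lit 1590772880) (nat_lit 0) (nat_lit 3303992876) (nat_lit 228) (nat_lit 2746656857) (nat_lit 215) (nat_lit 1) (nat_lit 211) (nat_lit 1) (nat_lit 214) (nat_lit 1) (nat_lit 319) (nat_lit 369) (nat_lit 332))) (XT.nd (nat_lit 78) (nat_lit 228) (nat_lit 0) (XT.lf (nat_lit 76) (nat_lit 2003919800) (nat_lit 0) (nat_lit 1423693431) (nat_lit 380) (nat_lit 4073692074) (nat_lit 207) (nat_lit 1) (nat_lit 206) (nat_lit 1) (nat_lit 211) (nat_lit 1) (nat_lit 320) (nat_lit 369) (nat_lit 331)) (XT.lf (nat_lit 304) (nat_lit 2999020185) (nat_lit 0) (nat_lit 3567974137) (nat_lit 228) (nat_lit 797418747) (nat_lit 207) (nat_lit 1) (nat_lit 203) (nat_lit 1) (nat_lit 206) (nat_lit 1) (nat_lit 321) (nat_lit 369) (nat_lit 330))))) (XT.nd (nat_lit 234) (nat_lit 988) (nat_lit 0)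 (XT.nd (nat_lit 78) (nat_lit 456) (nat_lit 0) (XT.lf (nat_lit 76) (nat_lit 3681635135) (nat_lit 0) (nat_lit 44967009) (nat_lit 304) (nat_lit 3504136082) (nat_lit 200) (nat_lit 1) (nat_lit 199) (nat_lit 1) (nat_lit 203) (nat_lit 1) (nat_lit 322) (nat_lit 369) (nat_lit 329)) (XT.nd (nat_lit 78) (nat_lit 228) (nat_lit 0) (XT.lf (nat_lit 76) (nat_lit 914947919) (nat_lit 0) (nat_lit 2977845132) (nat_lit 304) (nat_lit 3207124803) (nat_lit 197) (nat_lit 1) (nat_lit 196) (nat_lit 1) (nat_lit 200) (nat_lit 1) (nat_lit 323) (nat_lit 369) (nat_lit 328)) (XT.lf (nat_lit 304) (nat_lit 1096405457) (nat_lit 0) (nat_lit 4076287798) (nat_lit 228) (nat_lit 1799492239) (nat_lit 197) (nat_lit 1) (nat_lit 193) (nat_lit 1) (nat_lit 196) (nat_lit 1) (nat_lit 324) (nat_lit 369) (nat_lit 327)))) (XT.nd (nat_lit 156) (nat_lit 456) (nat_lit 0) (XT.nd (nat_lit 78) (nat_lit 228) (nat_lit 0) (XT.lf (nat_lit 76) (nat_lit 2420286753)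 (nat_lit 0) (nat_lit 1845557847) (nat_lit 304) (nat_lit 2581319896) (nat_lit 190) (nat_lit 1) (nat_lit 189) (nat_lit 1) (nat_lit 193) (nat_lit 1) (nat_lit 325) (nat_lit 369) (nat_lit 326)) (XT.lf (nat_lit 304) (nat_lit 2011345763) (nat_lit 0) (nat_lit 4474693522) (nat_lit 228) (nat_lit 239152636) (nat_lit 190) (nat_lit 1) (nat_lit 186) (nat_lit 1) (nat_lit 189) (nat_lit 1) (nat_lit 326) (nat_lit 369) (nat_lit 325))) (XT.nd (nat_lit 78) (nat_lit 228) (nat_lit 0) (XT.lf (nat_lit 76) (nat_lit 3754512162) (nat_lit 0) (nat_lit 926710957) (nat_lit 228) (nat_lit 1924367826) (nat_lit 184) (nat_lit 1) (nat_lit 183) (nat_lit 1) (nat_lit 186) (nat_lit 1) (nat_lit 327) (nat_lit 369) (nat_lit 324)) (XT.lf (nat_lit 76) (nat_lit 1128903196) (nat_lit 0) (nat_lit 3769151470) (nat_lit 304) (nat_lit 1590628054) (nat_lit 181) (nat_lit 1) (nat_lit 180) (nat_lit 1) (nat_lit 184) (nat_lit 1) (nat_lit 328) (nat_lit 369)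 (nat_lit 323))))))))
noncomputable def ec59 : XT := (XT.nd (nat_lit 2184) (nat_lit 3496) (nat_lit 0) (XT.nd (nat_lit 1092) (nat_lit 2204) (nat_lit 0) (XT.nd (nat_lit 546) (nat_lit 1216) (nat_lit 0) (XT.nd (nat_lit 234) (nat_lit 912) (nat_lit 0) (XT.nd (nat_lit 78) (nat_lit 380) (nat_lit 0) (XT.lf (nat_lit 76) (nat_lit 4935703291) (nat_lit 0) (nat_lit 191443506) (nat_lit 228) (nat_lit 1247331919) (nat_lit 178) (nat_lit 1) (nat_lit 177) (nat_lit 1) (nat_lit 180) (nat_lit 1) (nat_lit 329) (nat_lit 369) (nat_lit 322)) (XT.nd (nat_lit 78) (nat_lit 152) (nat_lit 0) (XT.lf (nat_lit 76) (nat_lit 2343138628) (nat_lit 0) (nat_lit 3002846733) (nat_lit 304) (nat_lit 916293116) (nat_lit 175) (nat_lit 1) (nat_lit 174) (nat_lit 1) (nat_lit 178) (nat_lit 1) (nat_lit 330) (nat_lit 369) (nat_lit 321)) (XT.lf (nat_lit 228) (nat_lit 394022451) (nat_lit 0) (nat_lit 5589693622) (nat_lit 152) (nat_lit 169345080) (nat_lit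 175) (nat_lit 1) (nat_lit 172) (nat_lit 1) (nat_lit 174) (nat_lit 1) (nat_lit 331) (nat_lit 369) (nat_lit 320)))) (XT.nd (nat_lit 156) (nat_lit 380) (nat_lit 0) (XT.nd (nat_lit 78) (nat_lit 304) (nat_lit 0) (XT.lf (nat_lit 76) (nat_lit 3423649474) (nat_lit 0) (nat_lit 2387776414) (nat_lit 228) (nat_lit 233993400) (nat_lit 170) (nat_lit 1) (nat_lit 169) (nat_lit 1) (nat_lit 172) (nat_lit 1) (nat_lit 332) (nat_lit 369) (nat_lit 319)) (XT.lf (nat_lit 228) (nat_lit 835165393) (nat_lit 0) (nat_lit 115812636) (nat_lit 152) (nat_lit 4989549691) (nat_lit 168) (nat_lit 1) (nat_lit 165) (nat_lit 1) (nat_lit 167) (nat_lit 1) (nat_lit 333) (nat_lit 369) (nat_lit 318))) (XT.nd (nat_lit 78) (nat_lit 152) (nat_lit 0) (XT.lf (nat_lit 228) (nat_lit 3930761436) (nat_lit 0) (nat_lit 457806065) (nat_lit 152) (nat_lit 1448832534) (nat_lit 165) (nat_lit 1) (nat_lit 162) (nat_lit 1) (nat_lit 164) (nat_lit 1) (nat_lit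 334) (nat_lit 369) (nat_lit 317)) (XT.lf (nat_lit 228) (nat_lit 1153029445) (nat_lit 0) (nat_lit 803008569) (nat_lit 152) (nat_lit 3780481875) (nat_lit 163) (nat_lit 1) (nat_lit 160) (nat_lit 1) (nat_lit 162) (nat_lit 1) (nat_lit 335) (nat_lit 369) (nat_lit 316))))) (XT.nd (nat_lit 234) (nat_lit 608) (nat_lit 0) (XT.nd (nat_lit 78) (nat_lit 380) (nat_lit 0) (XT.lf (nat_lit 228) (nat_lit 4099424064) (nat_lit 0) (nat_lit 1148535682) (nat_lit 152) (nat_lit 389802492) (nat_lit 160) (nat_lit 1) (nat_lit 157) (nat_lit 1) (nat_lit 159) (nat_lit 1) (nat_lit 336) (nat_lit 369) (nat_lit 315)) (XT.nd (nat_lit 78) (nat_lit 228) (nat_lit 0) (XT.lf (nat_lit 228) (nat_lit 1372563360) (nat_lit 0) (nat_lit 1482775165) (nat_lit 152) (nat_lit 2685410086) (nat_lit 158) (nat_lit 1) (nat_lit 155) (nat_lit 1) (nat_lit 157) (nat_lit 1) (nat_lit 337) (nat_lit 369) (nat_lit 314)) (XT.lf (nat_lit 76) (nat_lit 553272445)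 (nat_lit 0) (nat_lit 1269452373) (nat_lit 228) (nat_lit 3623209791) (nat_lit 153) (nat_lit 1) (nat_lit 152) (nat_lit 1) (nat_lit 155) (nat_lit 1) (nat_lit 338) (nat_lit 369) (nat_lit 313)))) (XT.nd (nat_lit 156) (nat_lit 304) (nat_lit 0) (XT.nd (nat_lit 78) (nat_lit 152) (nat_lit 0) (XT.lf (nat_lit 228) (nat_lit 1509084719) (nat_lit 0) (nat_lit 2150240373) (nat_lit 152) (nat_lit 1693427938) (nat_lit 153) (nat_lit 1) (nat_lit 150) (nat_lit 1) (nat_lit 152) (nat_lit 1) (nat_lit 339) (nat_lit 369) (nat_lit 312)) (XT.lf (nat_lit 76) (nat_lit 1395765817) (nat_lit 0) (nat_lit 1082981419) (nat_lit 152) (nat_lit 2782809676) (nat_lit 149) (nat_lit 1) (nat_lit 148) (nat_lit 1) (nat_lit 150) (nat_lit 1) (nat_lit 340) (nat_lit 369) (nat_lit 311))) (XT.nd (nat_lit 78) (nat_lit 152) (nat_lit 0) (XT.lf (nat_lit 228) (nat_lit 1575909487) (nat_lit 0) (nat_lit 2801416853) (nat_lit 152) (nat_lit 794783756) (nat_lit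 149) (nat_lit 1) (nat_lit 146) (nat_lit 1) (nat_lit 148) (nat_lit 1) (nat_lit 341) (nat_lit 369) (nat_lit 310)) (XT.lf (nat_lit 76) (nat_lit 2154155448) (nat_lit 0) (nat_lit 962733025) (nat_lit 152) (nat_lit 1967447919) (nat_lit 145) (nat_lit 1) (nat_lit 144) (nat_lit 1) (nat_lit 146) (nat_lit 1) (nat_lit 342) (nat_lit 369) (nat_lit 309)))))) (XT.nd (nat_lit 546) (nat_lit 1064) (nat_lit 0) (XT.nd (nat_lit 234) (nat_lit 684) (nat_lit 0) (XT.nd (nat_lit 78) (nat_lit 304) (nat_lit 0) (XT.lf (nat_lit 76) (nat_lit 18874758) (nat_lit 0) (nat_lit 3414017057) (nat_lit 228) (nat_lit 1565533257) (nat_lit 143) (nat_lit 1) (nat_lit 142) (nat_lit 1) (nat_lit 145) (nat_lit 1) (nat_lit 343) (nat_lit 369) (nat_lit 308)) (XT.nd (nat_lit 78) (nat_lit 152) (nat_lit 0) (XT.lf (nat_lit 76) (nat_lit 2836382019) (nat_lit 0) (nat_lit 897900220) (nat_lit 152) (nat_lit 1179617615) (nat_lit 141) (nat_lit 1) (nat_lit 140)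 (nat_lit 1) (nat_lit 142) (nat_lit 1) (nat_lit 344) (nat_lit 369) (nat_lit 307)) (XT.lf (nat_lit 76) (nat_lit 741732460) (nat_lit 0) (nat_lit 3293452832) (nat_lit 228) (nat_lit 795952360) (nat_lit 139) (nat_lit 1) (nat_lit 138) (nat_lit 1) (nat_lit 141) (nat_lit 1) (nat_lit 345) (nat_lit 369) (nat_lit 306)))) (XT.nd (nat_lit 156) (nat_lit 380) (nat_lit 0) (XT.nd (nat_lit 78) (nat_lit 152) (nat_lit 0) (XT.lf (nat_lit 76) (nat_lit 3449560503) (nat_lit 0) (nat_lit 879111889) (nat_lit 152) (nat_lit 421230419) (nat_lit 137) (nat_lit 1) (nat_lit 136) (nat_lit 1) (nat_lit 138) (nat_lit 1) (nat_lit 346) (nat_lit 369) (nat_lit 305)) (XT.lf (nat_lit 76) (nat_lit 1396175445) (nat_lit 0) (nat_lit 3217928675) (nat_lit 228) (nat_lit 56039380) (nat_lit 135) (nat_lit 1) (nat_lit 134) (nat_lit 1) (nat_lit 137) (nat_lit 1) (nat_lit 347) (nat_lit 369) (nat_lit 304))) (XT.nd (nat_lit 78) (nat_lit 76) (nat_lit 0) (XT.lf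 (nat_lit 228) (nat_lit 3690678733) (nat_lit 0) (nat_lit 312397084) (nat_lit 152) (nat_lit 588860671) (nat_lit 133) (nat_lit 1) (nat_lit 130) (nat_lit 1) (nat_lit 132) (nat_lit 1) (nat_lit 348) (nat_lit 369) (nat_lit 303)) (XT.lf (nat_lit 152) (nat_lit 1328837445) (nat_lit 0) (nat_lit 665942912) (nat_lit 76) (nat_lit 2520161440) (nat_lit 131) (nat_lit 1) (nat_lit 129) (nat_lit 1) (nat_lit 130) (nat_lit 1) (nat_lit 349) (nat_lit 369) (nat_lit 302))))) (XT.nd (nat_lit 234) (nat_lit 532) (nat_lit 0) (XT.nd (nat_lit 78) (nat_lit 304) (nat_lit 0) (XT.lf (nat_lit 76) (nat_lit 62547595) (nat_lit 0) (nat_lit 958753830) (nat_lit 228) (nat_lit 3418361183) (nat_lit 127) (nat_lit 1) (nat_lit 126) (nat_lit 1) (nat_lit 129) (nat_lit 1) (nat_lit 350) (nat_lit 369) (nat_lit 301)) (XT.nd (nat_lit 78) (nat_lit 228) (nat_lit 0) (XT.lf (nat_lit 152) (nat_lit 1180307751) (nat_lit 0) (nat_lit 1356627345) (nat_lit 76)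 (nat_lit 1828495888) (nat_lit 127) (nat_lit 1) (nat_lit 125) (nat_lit 1) (nat_lit 126) (nat_lit 1) (nat_lit 351) (nat_lit 369) (nat_lit 300)) (XT.lf (nat_lit 76) (nat_lit 645928455) (nat_lit 0) (nat_lit 1045909450) (nat_lit 228) (nat_lit 2600958063) (nat_lit 123) (nat_lit 1) (nat_lit 122) (nat_lit 1) (nat_lit 125) (nat_lit 1) (nat_lit 352) (nat_lit 369) (nat_lit 299)))) (XT.nd (nat_lit 156) (nat_lit 228) (nat_lit 0) (XT.nd (nat_lit 78) (nat_lit 228) (nat_lit 0) (XT.lf (nat_lit 152) (nat_lit 1012705726) (nat_lit 0) (nat_lit 2014376412) (nat_lit 76) (nat_lit 1194279219) (nat_lit 123) (nat_lit 1) (nat_lit 121) (nat_lit 1) (nat_lit 122) (nat_lit 1) (nat_lit 353) (nat_lit 369) (nat_lit 298)) (XT.lf (nat_lit 76) (nat_lit 1177567053) (nat_lit 0) (nat_lit 1151903315) (nat_lit 228) (nat_lit 1821779145) (nat_lit 119) (nat_lit 1) (nat_lit 118) (nat_lit 1) (nat_lit 121) (nat_lit 1) (nat_lit 354) (nat_lit 369)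 (nat_lit 297))) (XT.nd (nat_lit 78) (nat_lit 152) (nat_lit 0) (XT.lf (nat_lit 152) (nat_lit 830758013) (nat_lit 0) (nat_lit 2638964637) (nat_lit 76) (nat_lit 612762196) (nat_lit 119) (nat_lit 1) (nat_lit 117) (nat_lit 1) (nat_lit 118) (nat_lit 1) (nat_lit 355) (nat_lit 369) (nat_lit 296)) (XT.lf (nat_lit 76) (nat_lit 1661794264) (nat_lit 0) (nat_lit 1272309578) (nat_lit 152) (nat_lit 1080679733) (nat_lit 116) (nat_lit 1) (nat_lit 115) (nat_lit 1) (nat_lit 117) (nat_lit 1) (nat_lit 356) (nat_lit 369) (nat_lit 295))))))) (XT.nd (nat_lit 1092) (nat_lit 1824) (nat_lit 0) (XT.nd (nat_lit 546) (nat_lit 836) (nat_lit 0) (XT.nd (nat_lit 234) (nat_lit 532) (nat_lit 0) (XT.nd (nat_lit 78) (nat_lit 228) (nat_lit 0) (XT.lf (nat_lit 152) (nat_lit 638503619) (nat_lit 0) (nat_lit 3230417005) (nat_lit 76) (nat_lit 79649161) (nat_lit 116) (nat_lit 1) (nat_lit 114) (nat_lit 1) (nat_lit 115) (nat_lit 1) (nat_lit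 357) (nat_lit 369) (nat_lit 294)) (XT.nd (nat_lit 78) (nat_lit 76) (nat_lit 0) (XT.lf (nat_lit 76) (nat_lit 2102527683) (nat_lit 0) (nat_lit 1403344184) (nat_lit 152) (nat_lit 377302209) (nat_lit 113) (nat_lit 1) (nat_lit 112) (nat_lit 1) (nat_lit 114) (nat_lit 1) (nat_lit 358) (nat_lit 369) (nat_lit 293)) (XT.lf (nat_lit 0) (nat_lit 400970742) (nat_lit 0) (nat_lit 3383948925) (nat_lit 152) (nat_lit 34361800) (nat_lit 111) (nat_lit 3) (nat_lit 111) (nat_lit 1) (nat_lit 113) (nat_lit 1) (nat_lit 359) (nat_lit 369) (nat_lit 292)))) (XT.nd (nat_lit 156) (nat_lit 228) (nat_lit 0) (XT.nd (nat_lit 78) (nat_lit 76) (nat_lit 0) (XT.lf (nat_lit 152) (nat_lit 2211510845) (nat_lit 0) (nat_lit 294637447) (nat_lit 76) (nat_lit 1249977847) (nat_lit 110) (nat_lit 1) (nat_lit 108) (nat_lit 1) (nat_lit 109) (nat_lit 1) (nat_lit 360) (nat_lit 369) (nat_lit 291)) (XT.lf (nat_lit 76) (nat_lit 221646693) (nat_lit 0)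 (nat_lit 624206215) (nat_lit 76) (nat_lit 2848490523) (nat_lit 108) (nat_lit 3) (nat_lit 107) (nat_lit 1) (nat_lit 108) (nat_lit 1) (nat_lit 361) (nat_lit 369) (nat_lit 290))) (XT.nd (nat_lit 78) (nat_lit 76) (nat_lit 0) (XT.lf (nat_lit 152) (nat_lit 1939531599) (nat_lit 0) (nat_lit 936852633) (nat_lit 76) (nat_lit 757043259) (nat_lit 107) (nat_lit 1) (nat_lit 105) (nat_lit 1) (nat_lit 106) (nat_lit 1) (nat_lit 362) (nat_lit 369) (nat_lit 289)) (XT.lf (nat_lit 76) (nat_lit 6859427) (nat_lit 0) (nat_lit 1246820485) (nat_lit 76) (nat_lit 2320087378) (nat_lit 105) (nat_lit 3) (nat_lit 104) (nat_lit 1) (nat_lit 105) (nat_lit 1) (nat_lit 363) (nat_lit 369) (nat_lit 288))))) (XT.nd (nat_lit 234) (nat_lit 456) (nat_lit 0) (XT.nd (nat_lit 78) (nat_lit 228) (nat_lit 0) (XT.lf (nat_lit 152) (nat_lit 1669819642) (nat_lit 0) (nat_lit 1542649240) (nat_lit 76) (nat_lit 302534739) (nat_lit 104) (nat_lit 1) (nat_lit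 102) (nat_lit 1) (nat_lit 103) (nat_lit 1) (nat_lit 364) (nat_lit 369) (nat_lit 287)) (XT.nd (nat_lit 78) (nat_lit 76) (nat_lit 0) (XT.lf (nat_lit 76) (nat_lit 1628969864) (nat_lit 0) (nat_lit 202622662) (nat_lit 152) (nat_lit 1625730308) (nat_lit 101) (nat_lit 1) (nat_lit 100) (nat_lit 1) (nat_lit 102) (nat_lit 1) (nat_lit 365) (nat_lit 369) (nat_lit 286)) (XT.lf (nat_lit 0) (nat_lit 114120822) (nat_lit 0) (nat_lit 1997666187) (nat_lit 152) (nat_lit 1288859201) (nat_lit 99) (nat_lit 3) (nat_lit 99) (nat_lit 1) (nat_lit 101) (nat_lit 1) (nat_lit 366) (nat_lit 369) (nat_lit 285)))) (XT.nd (nat_lit 156) (nat_lit 228) (nat_lit 0) (XT.nd (nat_lit 78) (nat_lit 76) (nat_lit 0) (XT.lf (nat_lit 76) (nat_lit 1972389170) (nat_lit 0) (nat_lit 409071591) (nat_lit 152) (nat_lit 963437398) (nat_lit 98) (nat_lit 1) (nat_lit 97) (nat_lit 1) (nat_lit 99) (nat_lit 1) (nat_lit 367) (nat_lit 369) (nat_lit 284)) (XT.lf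 (nat_lit 0) (nat_lit 492533592) (nat_lit 0) (nat_lit 2151204631) (nat_lit 152) (nat_lit 646407938) (nat_lit 96) (nat_lit 3) (nat_lit 96) (nat_lit 1) (nat_lit 98) (nat_lit 1) (nat_lit 368) (nat_lit 369) (nat_lit 283))) (XT.nd (nat_lit 78) (nat_lit 76) (nat_lit 0) (XT.lf (nat_lit 76) (nat_lit 2286246844) (nat_lit 0) (nat_lit 611260953) (nat_lit 152) (nat_lit 338826967) (nat_lit 95) (nat_lit 1) (nat_lit 94) (nat_lit 1) (nat_lit 96) (nat_lit 1) (nat_lit 369) (nat_lit 369) (nat_lit 282)) (XT.lf (nat_lit 0) (nat_lit 840939025) (nat_lit 0) (nat_lit 2301583226) (nat_lit 152) (nat_lit 40911879) (nat_lit 93) (nat_lit 3) (nat_lit 93) (nat_lit 1) (nat_lit 95) (nat_lit 1) (nat_lit 370) (nat_lit 369) (nat_lit 281)))))) (XT.nd (nat_lit 546) (nat_lit 912) (nat_lit 0) (XT.nd (nat_lit 234) (nat_lit 456) (nat_lit 0) (XT.nd (nat_lit 78) (nat_lit 228) (nat_lit 0) (XT.lf (nat_lit 152) (nat_lit 2320880490) (nat_lit 0)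 (nat_lit 254280082) (nat_lit 76) (nat_lit 556246911) (nat_lit 92) (nat_lit 1) (nat_lit 90) (nat_lit 1) (nat_lit 91) (nat_lit 1) (nat_lit 371) (nat_lit 369) (nat_lit 280)) (XT.nd (nat_lit 78) (nat_lit 152) (nat_lit 0) (XT.lf (nat_lit 76) (nat_lit 627287503) (nat_lit 0) (nat_lit 539371772) (nat_lit 76) (nat_lit 1913547064) (nat_lit 90) (nat_lit 3) (nat_lit 89) (nat_lit 1) (nat_lit 90) (nat_lit 1) (nat_lit 372) (nat_lit 369) (nat_lit 279)) (XT.lf (nat_lit 152) (nat_lit 2023444606) (nat_lit 0) (nat_lit 818209997) (nat_lit 76) (nat_lit 188301875) (nat_lit 89) (nat_lit 1) (nat_lit 87) (nat_lit 1) (nat_lit 88) (nat_lit 1) (nat_lit 373) (nat_lit 369) (nat_lit 278)))) (XT.nd (nat_lit 156) (nat_lit 228) (nat_lit 0) (XT.nd (nat_lit 78) (nat_lit 152) (nat_lit 0) (XT.lf (nat_lit 76) (nat_lit 381246784) (nat_lit 0) (nat_lit 1085287847) (nat_lit 76) (nat_lit 1513941288) (nat_lit 87) (nat_lit 3) (nat_lit 86) (nat_lit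 1) (nat_lit 87) (nat_lit 1) (nat_lit 374) (nat_lit 369) (nat_lit 277)) (XT.lf (nat_lit 0) (nat_lit 149331508) (nat_lit 0) (nat_lit 1196668081) (nat_lit 152) (nat_lit 1585901008) (nat_lit 84) (nat_lit 3) (nat_lit 84) (nat_lit 1) (nat_lit 86) (nat_lit 1) (nat_lit 375) (nat_lit 369) (nat_lit 276))) (XT.nd (nat_lit 78) (nat_lit 152) (nat_lit 0) (XT.lf (nat_lit 76) (nat_lit 144677332) (nat_lit 0) (nat_lit 1597303063) (nat_lit 76) (nat_lit 1142140735) (nat_lit 84) (nat_lit 3) (nat_lit 83) (nat_lit 1) (nat_lit 84) (nat_lit 1) (nat_lit 376) (nat_lit 369) (nat_lit 275)) (XT.lf (nat_lit 0) (nat_lit 458272247) (nat_lit 0) (nat_lit 1380568505) (nat_lit 152) (nat_lit 998265975) (nat_lit 81) (nat_lit 3) (nat_lit 81) (nat_lit 1) (nat_lit 83) (nat_lit 1) (nat_lit 377) (nat_lit 369) (nat_lit 274))))) (XT.nd (nat_lit 234) (nat_lit 532) (nat_lit 0) (XT.nd (nat_lit 78) (nat_lit 228) (nat_lit 0) (XT.lf (nat_lit 76)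 (nat_lit 1995458768) (nat_lit 0) (nat_lit 80432062) (nat_lit 152) (nat_lit 715100301) (nat_lit 80) (nat_lit 1) (nat_lit 79) (nat_lit 1) (nat_lit 81) (nat_lit 1) (nat_lit 378) (nat_lit 369) (nat_lit 273)) (XT.nd (nat_lit 78) (nat_lit 152) (nat_lit 0) (XT.lf (nat_lit 0) (nat_lit 743845849) (nat_lit 0) (nat_lit 1556030212) (nat_lit 152) (nat_lit 445628849) (nat_lit 78) (nat_lit 3) (nat_lit 78) (nat_lit 1) (nat_lit 80) (nat_lit 1) (nat_lit 379) (nat_lit 369) (nat_lit 272)) (XT.lf (nat_lit 76) (nat_lit 2229019078) (nat_lit 0) (nat_lit 292794447) (nat_lit 152) (nat_lit 179136188) (nat_lit 77) (nat_lit 1) (nat_lit 76) (nat_lit 1) (nat_lit 78) (nat_lit 1) (nat_lit 380) (nat_lit 369) (nat_lit 271)))) (XT.nd (nat_lit 156) (nat_lit 228) (nat_lit 0) (XT.nd (nat_lit 78) (nat_lit 152) (nat_lit 0) (XT.lf (nat_lit 76) (nat_lit 933437738) (nat_lit 0) (nat_lit 74861117) (nat_lit 76) (nat_lit 1648656340) (nat_lit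 75) (nat_lit 3) (nat_lit 74) (nat_lit 1) (nat_lit 75) (nat_lit 1) (nat_lit 381) (nat_lit 369) (nat_lit 270)) (XT.lf (nat_lit 152) (nat_lit 2115571696) (nat_lit 0) (nat_lit 330299762) (nat_lit 76) (nat_lit 167956560) (nat_lit 74) (nat_lit 1) (nat_lit 72) (nat_lit 1) (nat_lit 73) (nat_lit 1) (nat_lit 382) (nat_lit 369) (nat_lit 269))) (XT.nd (nat_lit 78) (nat_lit 152) (nat_lit 0) (XT.lf (nat_lit 76) (nat_lit 685036510) (nat_lit 0) (nat_lit 571342225) (nat_lit 76) (nat_lit 1314865981) (nat_lit 72) (nat_lit 3) (nat_lit 71) (nat_lit 1) (nat_lit 72) (nat_lit 1) (nat_lit 383) (nat_lit 369) (nat_lit 268)) (XT.lf (nat_lit 0) (nat_lit 113775366) (nat_lit 0) (nat_lit 696141959) (nat_lit 152) (nat_lit 1719617063) (nat_lit 69) (nat_lit 3) (nat_lit 69) (nat_lit 1) (nat_lit 71) (nat_lit 1) (nat_lit 384) (nat_lit 369) (nat_lit 267))))))))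
noncomputable def ec60 : XT := (XT.nd (nat_lit 46254) (nat_lit 0) (nat_lit 10260) (XT.nd (nat_lit 45162) (nat_lit 0) (nat_lit 20596) (XT.nd (nat_lit 546) (nat_lit 532) (nat_lit 0) (XT.nd (nat_lit 234) (nat_lit 532) (nat_lit 0) (XT.nd (nat_lit 78) (nat_lit 228) (nat_lit 0) (XT.lf (nat_lit 76) (nat_lit 448720069) (nat_lit 0) (nat_lit 1036321415) (nat_lit 76) (nat_lit 1003354920) (nat_lit 69) (nat_lit 3) (nat_lit 68) (nat_lit 1) (nat_lit 69) (nat_lit 1) (nat_lit 385) (nat_lit 369) (nat_lit 266)) (XT.nd (nat_lit 78) (nat_lit 76) (nat_lit 0) (XT.lf (nat_lit 0) (nat_lit 372185075) (nat_lit 0) (nat_lit 885023587) (nat_lit 152) (nat_lit 1190798260) (nat_lit 66) (nat_lit 3) (nat_lit 66) (nat_lit 1) (nat_lit 68) (nat_lit 1) (nat_lit 386) (nat_lit 369) (nat_lit 265)) (XT.lf (nat_lit 76) (nat_lit 224370955) (nat_lit 0) (nat_lit 1471147384) (nat_lit 76) (nat_lit 712788586) (nat_lit 66) (nat_lit 3) (nat_lit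 65) (nat_lit 1) (nat_lit 66) (nat_lit 1) (nat_lit 387) (nat_lit 369) (nat_lit 264)))) (XT.nd (nat_lit 156) (nat_lit 304) (nat_lit 0) (XT.nd (nat_lit 78) (nat_lit 76) (nat_lit 0) (XT.lf (nat_lit 0) (nat_lit 611776207) (nat_lit 0) (nat_lit 1063387516) (nat_lit 152) (nat_lit 694029083) (nat_lit 63) (nat_lit 3) (nat_lit 63) (nat_lit 1) (nat_lit 65) (nat_lit 1) (nat_lit 388) (nat_lit 369) (nat_lit 263)) (XT.lf (nat_lit 76) (nat_lit 11816432) (nat_lit 0) (nat_lit 1877138569) (nat_lit 76) (nat_lit 441922441) (nat_lit 63) (nat_lit 3) (nat_lit 62) (nat_lit 1) (nat_lit 63) (nat_lit 1) (nat_lit 389) (nat_lit 369) (nat_lit 262))) (XT.nd (nat_lit 78) (nat_lit 152) (nat_lit 0) (XT.lf (nat_lit 0) (nat_lit 833692081) (nat_lit 0) (nat_lit 1231386033) (nat_lit 152) (nat_lit 227917038) (nat_lit 60) (nat_lit 3) (nat_lit 60) (nat_lit 1) (nat_lit 62) (nat_lit 1) (nat_lit 390) (nat_lit 369) (nat_lit 261)) (XT.lf (nat_lit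 76) (nat_lit 2068237275) (nat_lit 0) (nat_lit 185470506) (nat_lit 152) (nat_lit 2251016) (nat_lit 59) (nat_lit 1) (nat_lit 58) (nat_lit 1) (nat_lit 60) (nat_lit 1) (nat_lit 391) (nat_lit 369) (nat_lit 260))))) (XT.nd (nat_lit 234) (nat_lit 152) (nat_lit 0) (XT.nd (nat_lit 78) (nat_lit 228) (nat_lit 0) (XT.lf (nat_lit 76) (nat_lit 827997979) (nat_lit 0) (nat_lit 213050054) (nat_lit 76) (nat_lit 1178211705) (nat_lit 57) (nat_lit 3) (nat_lit 56) (nat_lit 1) (nat_lit 57) (nat_lit 1) (nat_lit 392) (nat_lit 369) (nat_lit 259)) (XT.nd (nat_lit 78) (nat_lit 76) (nat_lit 0) (XT.lf (nat_lit 0) (nat_lit 52238763) (nat_lit 0) (nat_lit 376060978) (nat_lit 152) (nat_lit 1755075988) (nat_lit 54) (nat_lit 3) (nat_lit 54) (nat_lit 1) (nat_lit 56) (nat_lit 1) (nat_lit 393) (nat_lit 369) (nat_lit 258)) (XT.lf (nat_lit 76) (nat_lit 604744319) (nat_lit 0) (nat_lit 630009529) (nat_lit 76) (nat_lit 913146429) (nat_lit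 54) (nat_lit 3) (nat_lit 53) (nat_lit 1) (nat_lit 54) (nat_lit 1) (nat_lit 394) (nat_lit 369) (nat_lit 257)))) (XT.nd (nat_lit 44226) (nat_lit 0) (nat_lit 24624) (XT.nd (nat_lit 44148) (nat_lit 0) (nat_lit 24548) (XT.lf (nat_lit 0) (nat_lit 272066027) (nat_lit 0) (nat_lit 557227478) (nat_lit 152) (nat_lit 1283848294) (nat_lit 51) (nat_lit 3) (nat_lit 51) (nat_lit 1) (nat_lit 53) (nat_lit 1) (nat_lit 395) (nat_lit 369) (nat_lit 256)) (XT.lf (nat_lit 1292) (nat_lit 1611920614) (nat_lit 0) (nat_lit 5545756568) (nat_lit 1292) (nat_lit 1611920614) (nat_lit 391) (nat_lit 1) (nat_lit 374) (nat_lit 0) (nat_lit 391) (nat_lit 0) (nat_lit 280) (nat_lit 370) (nat_lit 370))) (XT.nd (nat_lit 78) (nat_lit 0) (nat_lit 0) (XT.lf (nat_lit 1292) (nat_lit 129230501) (nat_lit 0) (nat_lit 10935065785) (nat_lit 1216) (nat_lit 6054070325) (nat_lit 392) (nat_lit 1) (nat_lit 375) (nat_lit 1) (nat_lit 391) (nat_lit 1) (nat_lit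 281) (nat_lit 370) (nat_lit 369)) (XT.lf (nat_lit 1292) (nat_lit 5685586424) (nat_lit 76) (nat_lit 8042053945) (nat_lit 0) (nat_lit 2982773945) (nat_lit 392) (nat_lit 1) (nat_lit 376) (nat_lit 1) (nat_lit 375) (nat_lit 1) (nat_lit 282) (nat_lit 370) (nat_lit 368)))))) (XT.nd (nat_lit 546) (nat_lit 3116) (nat_lit 0) (XT.nd (nat_lit 234) (nat_lit 988) (nat_lit 0) (XT.nd (nat_lit 78) (nat_lit 0) (nat_lit 76) (XT.lf (nat_lit 1292) (nat_lit 4998112578) (nat_lit 76) (nat_lit 5264099771) (nat_lit 0) (nat_lit 6053458683) (nat_lit 393) (nat_lit 1) (nat_lit 377) (nat_lit 1) (nat_lit 376) (nat_lit 1) (nat_lit 283) (nat_lit 370) (nat_lit 367)) (XT.nd (nat_lit 78) (nat_lit 0) (nat_lit 76) (XT.lf (nat_lit 1292) (nat_lit 4136274708) (nat_lit 76) (nat_lit 2719182497) (nat_lit 0) (nat_lit 9078235781) (nat_lit 394) (nat_lit 1) (nat_lit 378) (nat_lit 1) (nat_lit 377) (nat_lit 1) (nat_lit 284) (nat_lit 370) (nat_lit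 366)) (XT.lf (nat_lit 1292) (nat_lit 3113363539) (nat_lit 76) (nat_lit 395328916) (nat_lit 0) (nat_lit 12055325123) (nat_lit 395) (nat_lit 1) (nat_lit 379) (nat_lit 1) (nat_lit 378) (nat_lit 1) (nat_lit 285) (nat_lit 370) (nat_lit 365)))) (XT.nd (nat_lit 156) (nat_lit 1216) (nat_lit 0) (XT.nd (nat_lit 78) (nat_lit 0) (nat_lit 0) (XT.lf (nat_lit 1292) (nat_lit 239556721) (nat_lit 0) (nat_lit 13280811965) (nat_lit 1216) (nat_lit 1685336217) (nat_lit 396) (nat_lit 1) (nat_lit 379) (nat_lit 1) (nat_lit 395) (nat_lit 1) (nat_lit 286) (nat_lit 370) (nat_lit 364)) (XT.lf (nat_lit 1292) (nat_lit 567801544) (nat_lit 76) (nat_lit 11265415750) (nat_lit 0) (nat_lit 3024677792) (nat_lit 396) (nat_lit 1) (nat_lit 380) (nat_lit 1) (nat_lit 379) (nat_lit 1) (nat_lit 287) (nat_lit 370) (nat_lit 363))) (XT.nd (nat_lit 78) (nat_lit 0) (nat_lit 76) (XT.lf (nat_lit 1368) (nat_lit 8298413126) (nat_lit 0) (nat_lit 896971670)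 (nat_lit 1292) (nat_lit 5325460483) (nat_lit 381) (nat_lit 1) (nat_lit 363) (nat_lit 1) (nat_lit 380) (nat_lit 1) (nat_lit 288) (nat_lit 370) (nat_lit 362)) (XT.lf (nat_lit 1368) (nat_lit 4843738763) (nat_lit 0) (nat_lit 2461184602) (nat_lit 1292) (nat_lit 6889373865) (nat_lit 382) (nat_lit 1) (nat_lit 364) (nat_lit 1) (nat_lit 381) (nat_lit 1) (nat_lit 289) (nat_lit 370) (nat_lit 361))))) (XT.nd (nat_lit 234) (nat_lit 1824) (nat_lit 0) (XT.nd (nat_lit 78) (nat_lit 1444) (nat_lit 0) (XT.lf (nat_lit 76) (nat_lit 1463803550) (nat_lit 0) (nat_lit 4126322068) (nat_lit 1292) (nat_lit 8287911141) (nat_lit 366) (nat_lit 1) (nat_lit 365) (nat_lit 1) (nat_lit 382) (nat_lit 1) (nat_lit 290) (nat_lit 370) (nat_lit 360)) (XT.nd (nat_lit 78) (nat_lit 608) (nat_lit 0) (XT.lf (nat_lit 912) (nat_lit 7669750718) (nat_lit 0) (nat_lit 4023308828) (nat_lit 836) (nat_lit 1878099533) (nat_lit 366) (nat_lit 1) (nat_lit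 354) (nat_lit 1) (nat_lit 365) (nat_lit 1) (nat_lit 291) (nat_lit 370) (nat_lit 359)) (XT.lf (nat_lit 684) (nat_lit 5499930551) (nat_lit 0) (nat_lit 2600371222) (nat_lit 608) (nat_lit 5173146325) (nat_lit 355) (nat_lit 1) (nat_lit 346) (nat_lit 1) (nat_lit 354) (nat_lit 1) (nat_lit 292) (nat_lit 370) (nat_lit 358)))) (XT.nd (nat_lit 156) (nat_lit 684) (nat_lit 0) (XT.nd (nat_lit 78) (nat_lit 532) (nat_lit 0) (XT.lf (nat_lit 684) (nat_lit 3264682601) (nat_lit 0) (nat_lit 1327824933) (nat_lit 608) (nat_lit 8392491173) (nat_lit 347) (nat_lit 1) (nat_lit 338) (nat_lit 1) (nat_lit 346) (nat_lit 1) (nat_lit 293) (nat_lit 370) (nat_lit 357)) (XT.lf (nat_lit 608) (nat_lit 971184784) (nat_lit 0) (nat_lit 197782492) (nat_lit 532) (nat_lit 11536520921) (nat_lit 339) (nat_lit 1) (nat_lit 331) (nat_lit 1) (nat_lit 338) (nat_lit 1) (nat_lit 294) (nat_lit 370) (nat_lit 356))) (XT.nd (nat_lit 78) (nat_lit 608)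 (nat_lit 0) (XT.lf (nat_lit 76) (nat_lit 10240731452) (nat_lit 0) (nat_lit 1376180561) (nat_lit 608) (nat_lit 816423260) (nat_lit 331) (nat_lit 1) (nat_lit 330) (nat_lit 1) (nat_lit 338) (nat_lit 1) (nat_lit 295) (nat_lit 370) (nat_lit 355)) (XT.lf (nat_lit 76) (nat_lit 6686550297) (nat_lit 0) (nat_lit 3760343134) (nat_lit 684) (nat_lit 1721983086) (nat_lit 323) (nat_lit 1) (nat_lit 322) (nat_lit 1) (nat_lit 331) (nat_lit 1) (nat_lit 296) (nat_lit 370) (nat_lit 354))))))) (XT.nd (nat_lit 1092) (nat_lit 4028) (nat_lit 0) (XT.nd (nat_lit 546) (nat_lit 2812) (nat_lit 0) (XT.nd (nat_lit 234) (nat_lit 1976) (nat_lit 0) (XT.nd (nat_lit 78) (nat_lit 988) (nat_lit 0) (XT.lf (nat_lit 76) (nat_lit 3222948115) (nat_lit 0) (nat_lit 6181053019) (nat_lit 608) (nat_lit 2508507535) (nat_lit 316) (nat_lit 1) (nat_lit 315) (nat_lit 1) (nat_lit 323) (nat_lit 1) (nat_lit 297) (nat_lit 370) (nat_lit 353)) (XT.nd (nat_lit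 78) (nat_lit 456) (nat_lit 0) (XT.lf (nat_lit 608) (nat_lit 3029476392) (nat_lit 0) (nat_lit 8480076686) (nat_lit 532) (nat_lit 154357442) (nat_lit 316) (nat_lit 1) (nat_lit 308) (nat_lit 1) (nat_lit 315) (nat_lit 1) (nat_lit 298) (nat_lit 370) (nat_lit 352)) (XT.lf (nat_lit 532) (nat_lit 277214306) (nat_lit 0) (nat_lit 7638665239) (nat_lit 456) (nat_lit 3506058740) (nat_lit 309) (nat_lit 1) (nat_lit 302) (nat_lit 1) (nat_lit 308) (nat_lit 1) (nat_lit 299) (nat_lit 370) (nat_lit 351)))) (XT.nd (nat_lit 156) (nat_lit 912) (nat_lit 0) (XT.nd (nat_lit 78) (nat_lit 456) (nat_lit 0) (XT.lf (nat_lit 76) (nat_lit 4441813419) (nat_lit 0) (nat_lit 2439811909) (nat_lit 608) (nat_lit 4304940339) (nat_lit 295) (nat_lit 1) (nat_lit 294) (nat_lit 1) (nat_lit 302) (nat_lit 1) (nat_lit 300) (nat_lit 370) (nat_lit 350)) (XT.lf (nat_lit 76) (nat_lit 1064531542) (nat_lit 0) (nat_lit 5160454289) (nat_lit 532) (nat_lit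 4733194795) (nat_lit 289) (nat_lit 1) (nat_lit 288) (nat_lit 1) (nat_lit 295) (nat_lit 1) (nat_lit 301) (nat_lit 370) (nat_lit 349))) (XT.nd (nat_lit 78) (nat_lit 456) (nat_lit 0) (XT.lf (nat_lit 532) (nat_lit 2827840523) (nat_lit 0) (nat_lit 5643600332) (nat_lit 456) (nat_lit 2264532492) (nat_lit 289) (nat_lit 1) (nat_lit 282) (nat_lit 1) (nat_lit 288) (nat_lit 1) (nat_lit 302) (nat_lit 370) (nat_lit 348)) (XT.lf (nat_lit 76) (nat_lit 4999200168) (nat_lit 0) (nat_lit 144180094) (nat_lit 456) (nat_lit 5376659823) (nat_lit 277) (nat_lit 1) (nat_lit 276) (nat_lit 1) (nat_lit 282) (nat_lit 1) (nat_lit 303) (nat_lit 370) (nat_lit 347))))) (XT.nd (nat_lit 234) (nat_lit 1596) (nat_lit 0) (XT.nd (nat_lit 78) (nat_lit 760) (nat_lit 0) (XT.lf (nat_lit 76) (nat_lit 1651186514) (nat_lit 0) (nat_lit 3052434819) (nat_lit 532) (nat_lit 5606081994) (nat_lit 271) (nat_lit 1) (nat_lit 270) (nat_lit 1) (nat_lit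 277) (nat_lit 1) (nat_lit 304) (nat_lit 370) (nat_lit 346)) (XT.nd (nat_lit 78) (nat_lit 380) (nat_lit 0) (XT.lf (nat_lit 456) (nat_lit 4140017077) (nat_lit 0) (nat_lit 4331404803) (nat_lit 380) (nat_lit 1633674386) (nat_lit 271) (nat_lit 1) (nat_lit 265) (nat_lit 1) (nat_lit 270) (nat_lit 1) (nat_lit 305) (nat_lit 370) (nat_lit 345)) (XT.lf (nat_lit 456) (nat_lit 1026863649) (nat_lit 0) (nat_lit 4022645355) (nat_lit 380) (nat_lit 4856519242) (nat_lit 266) (nat_lit 1) (nat_lit 260) (nat_lit 1) (nat_lit 265) (nat_lit 1) (nat_lit 306) (nat_lit 370) (nat_lit 344)))) (XT.nd (nat_lit 156) (nat_lit 760) (nat_lit 0) (XT.nd (nat_lit 78) (nat_lit 380) (nat_lit 0) (XT.lf (nat_lit 76) (nat_lit 1746101730) (nat_lit 0) (nat_lit 2023145779) (nat_lit 456) (nat_lit 5942945668) (nat_lit 255) (nat_lit 1) (nat_lit 254) (nat_lit 1) (nat_lit 260) (nat_lit 1) (nat_lit 307) (nat_lit 370) (nat_lit 343)) (XT.lf (nat_lit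 456) (nat_lit 4480260434) (nat_lit 0) (nat_lit 3562923581) (nat_lit 380) (nat_lit 1480096694) (nat_lit 255) (nat_lit 1) (nat_lit 249) (nat_lit 1) (nat_lit 254) (nat_lit 1) (nat_lit 308) (nat_lit 370) (nat_lit 342))) (XT.nd (nat_lit 78) (nat_lit 456) (nat_lit 0) (XT.lf (nat_lit 380) (nat_lit 1286305871) (nat_lit 0) (nat_lit 3407876791) (nat_lit 304) (nat_lit 4645162955) (nat_lit 250) (nat_lit 1) (nat_lit 245) (nat_lit 1) (nat_lit 249) (nat_lit 1) (nat_lit 309) (nat_lit 370) (nat_lit 341)) (XT.lf (nat_lit 76) (nat_lit 1462163976) (nat_lit 0) (nat_lit 1837244571) (nat_lit 456) (nat_lit 5860776142) (nat_lit 240) (nat_lit 1) (nat_lit 239) (nat_lit 1) (nat_lit 245) (nat_lit 1) (nat_lit 310) (nat_lit 370) (nat_lit 340)))))) (XT.nd (nat_lit 546) (nat_lit 1900) (nat_lit 0) (XT.nd (nat_lit 234) (nat_lit 1140) (nat_lit 0) (XT.nd (nat_lit 78) (nat_lit 684) (nat_lit 0) (XT.lf (nat_lit 380) (nat_lit 4067728339)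 (nat_lit 0) (nat_lit 3223301165) (nat_lit 304) (nat_lit 1694289220) (nat_lit 240) (nat_lit 1) (nat_lit 235) (nat_lit 1) (nat_lit 239) (nat_lit 1) (nat_lit 311) (nat_lit 370) (nat_lit 339)) (XT.nd (nat_lit 78) (nat_lit 380) (nat_lit 0) (XT.lf (nat_lit 380) (nat_lit 839165161) (nat_lit 0) (nat_lit 3191817150) (nat_lit 304) (nat_lit 4784058714) (nat_lit 236) (nat_lit 1) (nat_lit 231) (nat_lit 1) (nat_lit 235) (nat_lit 1) (nat_lit 312) (nat_lit 370) (nat_lit 338)) (XT.lf (nat_lit 76) (nat_lit 891782922) (nat_lit 0) (nat_lit 2301399573) (nat_lit 380) (nat_lit 5455763525) (nat_lit 227) (nat_lit 1) (nat_lit 226) (nat_lit 1) (nat_lit 231) (nat_lit 1) (nat_lit 313) (nat_lit 370) (nat_lit 337)))) (XT.nd (nat_lit 156) (nat_lit 532) (nat_lit 0) (XT.nd (nat_lit 78) (nat_lit 304) (nat_lit 0) (XT.lf (nat_lit 380) (nat_lit 3082124321) (nat_lit 0) (nat_lit 3217952936) (nat_lit 304) (nat_lit 2186619934) (nat_lit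 227) (nat_lit 1) (nat_lit 222) (nat_lit 1) (nat_lit 226) (nat_lit 1) (nat_lit 314) (nat_lit 370) (nat_lit 336)) (XT.lf (nat_lit 76) (nat_lit 3142211874) (nat_lit 0) (nat_lit 141379100) (nat_lit 304) (nat_lit 5045151902) (nat_lit 219) (nat_lit 1) (nat_lit 218) (nat_lit 1) (nat_lit 222) (nat_lit 1) (nat_lit 315) (nat_lit 370) (nat_lit 335))) (XT.nd (nat_lit 78) (nat_lit 228) (nat_lit 0) (XT.lf (nat_lit 76) (nat_lit 110335973) (nat_lit 0) (nat_lit 3257266791) (nat_lit 380) (nat_lit 4806766022) (nat_lit 215) (nat_lit 1) (nat_lit 214) (nat_lit 1) (nat_lit 219) (nat_lit 1) (nat_lit 316) (nat_lit 370) (nat_lit 334)) (XT.lf (nat_lit 304) (nat_lit 1670311525) (nat_lit 0) (nat_lit 3469192520) (nat_lit 228) (nat_lit 2883989699) (nat_lit 215) (nat_lit 1) (nat_lit 211) (nat_lit 1) (nat_lit 214) (nat_lit 1) (nat_lit 317) (nat_lit 370) (nat_lit 333))))) (XT.nd (nat_lit 234) (nat_lit 988) (nat_lit 0) (XT.nd (nat_lit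 78) (nat_lit 532) (nat_lit 0) (XT.lf (nat_lit 76) (nat_lit 2104115790) (nat_lit 0) (nat_lit 1494878103) (nat_lit 380) (nat_lit 4277376677) (nat_lit 207) (nat_lit 1) (nat_lit 206) (nat_lit 1) (nat_lit 211) (nat_lit 1) (nat_lit 318) (nat_lit 370) (nat_lit 332)) (XT.nd (nat_lit 78) (nat_lit 304) (nat_lit 0) (XT.lf (nat_lit 304) (nat_lit 3148971194) (nat_lit 0) (nat_lit 3746372844) (nat_lit 228) (nat_lit 837289685) (nat_lit 207) (nat_lit 1) (nat_lit 203) (nat_lit 1) (nat_lit 206) (nat_lit 1) (nat_lit 319) (nat_lit 370) (nat_lit 331)) (XT.lf (nat_lit 76) (nat_lit 3865716892) (nat_lit 0) (nat_lit 47215360) (nat_lit 304) (nat_lit 3679342886) (nat_lit 200) (nat_lit 1) (nat_lit 199) (nat_lit 1) (nat_lit 203) (nat_lit 1) (nat_lit 320) (nat_lit 370) (nat_lit 330)))) (XT.nd (nat_lit 156) (nat_lit 532) (nat_lit 0) (XT.nd (nat_lit 78) (nat_lit 228) (nat_lit 0) (XT.lf (nat_lit 76) (nat_lit 960695314) (nat_lit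 0) (nat_lit 3126737389) (nat_lit 304) (nat_lit 3367481043) (nat_lit 197) (nat_lit 1) (nat_lit 196) (nat_lit 1) (nat_lit 200) (nat_lit 1) (nat_lit 321) (nat_lit 370) (nat_lit 329)) (XT.lf (nat_lit 304) (nat_lit 1151225730) (nat_lit 0) (nat_lit 4280102188) (nat_lit 228) (nat_lit 1889466851) (nat_lit 197) (nat_lit 1) (nat_lit 193) (nat_lit 1) (nat_lit 196) (nat_lit 1) (nat_lit 322) (nat_lit 370) (nat_lit 328))) (XT.nd (nat_lit 78) (nat_lit 228) (nat_lit 0) (XT.lf (nat_lit 76) (nat_lit 2541301091) (nat_lit 0) (nat_lit 1937835740) (nat_lit 304) (nat_lit 2710385891) (nat_lit 190) (nat_lit 1) (nat_lit 189) (nat_lit 1) (nat_lit 193) (nat_lit 1) (nat_lit 323) (nat_lit 370) (nat_lit 327)) (XT.lf (nat_lit 304) (nat_lit 2111913051) (nat_lit 0) (nat_lit 4698428198) (nat_lit 228) (nat_lit 251110268) (nat_lit 190) (nat_lit 1) (nat_lit 186) (nat_lit 1) (nat_lit 189) (nat_lit 1) (nat_lit 324) (nat_lit 370) (nat_lit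 326))))))))
noncomputable def ec61 : XT := (XT.nd (nat_lit 2184) (nat_lit 3496) (nat_lit 0) (XT.nd (nat_lit 1092) (nat_lit 2280) (nat_lit 0) (XT.nd (nat_lit 546) (nat_lit 1292) (nat_lit 0) (XT.nd (nat_lit 234) (nat_lit 912) (nat_lit 0) (XT.nd (nat_lit 78) (nat_lit 456) (nat_lit 0) (XT.lf (nat_lit 76) (nat_lit 3942237770) (nat_lit 0) (nat_lit 973046504) (nat_lit 228) (nat_lit 2020586218) (nat_lit 184) (nat_lit 1) (nat_lit 183) (nat_lit 1) (nat_lit 186) (nat_lit 1) (nat_lit 325) (nat_lit 370) (nat_lit 325)) (XT.nd (nat_lit 78) (nat_lit 228) (nat_lit 0) (XT.lf (nat_lit 76) (nat_lit 1185348356) (nat_lit 0) (nat_lit 3957609043) (nat_lit 304) (nat_lit 1670159456) (nat_lit 181) (nat_lit 1) (nat_lit 180) (nat_lit 1) (nat_lit 184) (nat_lit 1) (nat_lit 326) (nat_lit 370) (nat_lit 324)) (XT.lf (nat_lit 76) (nat_lit 5182488455) (nat_lit 0) (nat_lit 201015682) (nat_lit 228) (nat_lit 1309698515) (nat_lit 178)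 (nat_lit 1) (nat_lit 177) (nat_lit 1) (nat_lit 180) (nat_lit 1) (nat_lit 327) (nat_lit 370) (nat_lit 323)))) (XT.nd (nat_lit 156) (nat_lit 532) (nat_lit 0) (XT.nd (nat_lit 78) (nat_lit 152) (nat_lit 0) (XT.lf (nat_lit 76) (nat_lit 2460295560) (nat_lit 0) (nat_lit 3152989069) (nat_lit 304) (nat_lit 962107772) (nat_lit 175) (nat_lit 1) (nat_lit 174) (nat_lit 1) (nat_lit 178) (nat_lit 1) (nat_lit 328) (nat_lit 370) (nat_lit 322)) (XT.lf (nat_lit 228) (nat_lit 413723573) (nat_lit 0) (nat_lit 5869178304) (nat_lit 152) (nat_lit 177812334) (nat_lit 175) (nat_lit 1) (nat_lit 172) (nat_lit 1) (nat_lit 174) (nat_lit 1) (nat_lit 329) (nat_lit 370) (nat_lit 321))) (XT.nd (nat_lit 78) (nat_lit 304) (nat_lit 0) (XT.lf (nat_lit 76) (nat_lit 3594831948) (nat_lit 0) (nat_lit 2507165235) (nat_lit 228) (nat_lit 245693070) (nat_lit 170) (nat_lit 1) (nat_lit 169) (nat_lit 1) (nat_lit 172) (nat_lit 1) (nat_lit 330)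 (nat_lit 370) (nat_lit 320)) (XT.lf (nat_lit 228) (nat_lit 876923663) (nat_lit 0) (nat_lit 121603267) (nat_lit 152) (nat_lit 5239027175) (nat_lit 168) (nat_lit 1) (nat_lit 165) (nat_lit 1) (nat_lit 167) (nat_lit 1) (nat_lit 331) (nat_lit 370) (nat_lit 319))))) (XT.nd (nat_lit 234) (nat_lit 684) (nat_lit 0) (XT.nd (nat_lit 78) (nat_lit 380) (nat_lit 0) (XT.lf (nat_lit 228) (nat_lit 4127299508) (nat_lit 0) (nat_lit 480696369) (nat_lit 152) (nat_lit 1521274161) (nat_lit 165) (nat_lit 1) (nat_lit 162) (nat_lit 1) (nat_lit 164) (nat_lit 1) (nat_lit 332) (nat_lit 370) (nat_lit 318)) (XT.nd (nat_lit 78) (nat_lit 228) (nat_lit 0) (XT.lf (nat_lit 228) (nat_lit 1210680917) (nat_lit 0) (nat_lit 843158998) (nat_lit 152) (nat_lit 3969505969) (nat_lit 163) (nat_lit 1) (nat_lit 160) (nat_lit 1) (nat_lit 162) (nat_lit 1) (nat_lit 333) (nat_lit 370) (nat_lit 317)) (XT.lf (nat_lit 228) (nat_lit 4304395267) (nat_lit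 0) (nat_lit 1205962466) (nat_lit 152) (nat_lit 409292616) (nat_lit 160) (nat_lit 1) (nat_lit 157) (nat_lit 1) (nat_lit 159) (nat_lit 1) (nat_lit 334) (nat_lit 370) (nat_lit 316)))) (XT.nd (nat_lit 156) (nat_lit 304) (nat_lit 0) (XT.nd (nat_lit 78) (nat_lit 228) (nat_lit 0) (XT.lf (nat_lit 228) (nat_lit 1441191528) (nat_lit 0) (nat_lit 1556913923) (nat_lit 152) (nat_lit 2819680590) (nat_lit 158) (nat_lit 1) (nat_lit 155) (nat_lit 1) (nat_lit 157) (nat_lit 1) (nat_lit 335) (nat_lit 370) (nat_lit 315)) (XT.lf (nat_lit 76) (nat_lit 580936067) (nat_lit 0) (nat_lit 1332924992) (nat_lit 228) (nat_lit 3804370281) (nat_lit 153) (nat_lit 1) (nat_lit 152) (nat_lit 1) (nat_lit 155) (nat_lit 1) (nat_lit 336) (nat_lit 370) (nat_lit 314))) (XT.nd (nat_lit 78) (nat_lit 152) (nat_lit 0) (XT.lf (nat_lit 228) (nat_lit 1584538955) (nat_lit 0) (nat_lit 2257752392) (nat_lit 152) (nat_lit 1778099335) (nat_lit 153) (nat_lit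 1) (nat_lit 150) (nat_lit 1) (nat_lit 152) (nat_lit 1) (nat_lit 337) (nat_lit 370) (nat_lit 313)) (XT.lf (nat_lit 76) (nat_lit 1465554108) (nat_lit 0) (nat_lit 1137130490) (nat_lit 152) (nat_lit 2921950160) (nat_lit 149) (nat_lit 1) (nat_lit 148) (nat_lit 1) (nat_lit 150) (nat_lit 1) (nat_lit 338) (nat_lit 370) (nat_lit 312)))))) (XT.nd (nat_lit 546) (nat_lit 1216) (nat_lit 0) (XT.nd (nat_lit 234) (nat_lit 608) (nat_lit 0) (XT.nd (nat_lit 78) (nat_lit 304) (nat_lit 0) (XT.lf (nat_lit 228) (nat_lit 1654704962) (nat_lit 0) (nat_lit 2941487695) (nat_lit 152) (nat_lit 834522944) (nat_lit 149) (nat_lit 1) (nat_lit 146) (nat_lit 1) (nat_lit 148) (nat_lit 1) (nat_lit 339) (nat_lit 370) (nat_lit 311)) (XT.nd (nat_lit 78) (nat_lit 152) (nat_lit 0) (XT.lf (nat_lit 76) (nat_lit 2261863220) (nat_lit 0) (nat_lit 1010869677) (nat_lit 152) (nat_lit 2065820315) (nat_lit 145) (nat_lit 1) (nat_lit 144) (nat_lit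 1) (nat_lit 146) (nat_lit 1) (nat_lit 340) (nat_lit 370) (nat_lit 310)) (XT.lf (nat_lit 76) (nat_lit 19818496) (nat_lit 0) (nat_lit 3584717910) (nat_lit 228) (nat_lit 1643809920) (nat_lit 143) (nat_lit 1) (nat_lit 142) (nat_lit 1) (nat_lit 145) (nat_lit 1) (nat_lit 341) (nat_lit 370) (nat_lit 309)))) (XT.nd (nat_lit 156) (nat_lit 304) (nat_lit 0) (XT.nd (nat_lit 78) (nat_lit 152) (nat_lit 0) (XT.lf (nat_lit 76) (nat_lit 2978201120) (nat_lit 0) (nat_lit 942795231) (nat_lit 152) (nat_lit 1238598496) (nat_lit 141) (nat_lit 1) (nat_lit 140) (nat_lit 1) (nat_lit 142) (nat_lit 1) (nat_lit 342) (nat_lit 370) (nat_lit 308)) (XT.lf (nat_lit 76) (nat_lit 778819083) (nat_lit 0) (nat_lit 3458125474) (nat_lit 228) (nat_lit 835749978) (nat_lit 139) (nat_lit 1) (nat_lit 138) (nat_lit 1) (nat_lit 141) (nat_lit 1) (nat_lit 343) (nat_lit 370) (nat_lit 307))) (XT.nd (nat_lit 78) (nat_lit 152) (nat_lit 0) (XT.lf (nat_lit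 76) (nat_lit 3622038528) (nat_lit 0) (nat_lit 923067484) (nat_lit 152) (nat_lit 442291940) (nat_lit 137) (nat_lit 1) (nat_lit 136) (nat_lit 1) (nat_lit 138) (nat_lit 1) (nat_lit 344) (nat_lit 370) (nat_lit 306)) (XT.lf (nat_lit 76) (nat_lit 1465984218) (nat_lit 0) (nat_lit 3378825109) (nat_lit 228) (nat_lit 58841349) (nat_lit 135) (nat_lit 1) (nat_lit 134) (nat_lit 1) (nat_lit 137) (nat_lit 1) (nat_lit 345) (nat_lit 370) (nat_lit 305))))) (XT.nd (nat_lit 234) (nat_lit 608) (nat_lit 0) (XT.nd (nat_lit 78) (nat_lit 304) (nat_lit 0) (XT.lf (nat_lit 228) (nat_lit 3875212670) (nat_lit 0) (nat_lit 328016938) (nat_lit 152) (nat_lit 618303705) (nat_lit 133) (nat_lit 1) (nat_lit 130) (nat_lit 1) (nat_lit 132) (nat_lit 1) (nat_lit 346) (nat_lit 370) (nat_lit 304)) (XT.nd (nat_lit 78) (nat_lit 228) (nat_lit 0) (XT.lf (nat_lit 152) (nat_lit 1395279317) (nat_lit 0) (nat_lit 699240058) (nat_lit 76) (nat_lit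 2646169512) (nat_lit 131) (nat_lit 1) (nat_lit 129) (nat_lit 1) (nat_lit 130) (nat_lit 1) (nat_lit 347) (nat_lit 370) (nat_lit 303)) (XT.lf (nat_lit 76) (nat_lit 65674975) (nat_lit 0) (nat_lit 1006691522) (nat_lit 228) (nat_lit 3589279242) (nat_lit 127) (nat_lit 1) (nat_lit 126) (nat_lit 1) (nat_lit 129) (nat_lit 1) (nat_lit 348) (nat_lit 370) (nat_lit 302)))) (XT.nd (nat_lit 156) (nat_lit 304) (nat_lit 0) (XT.nd (nat_lit 78) (nat_lit 228) (nat_lit 0) (XT.lf (nat_lit 152) (nat_lit 1239323138) (nat_lit 0) (nat_lit 1424458712) (nat_lit 76) (nat_lit 1919920682) (nat_lit 127) (nat_lit 1) (nat_lit 125) (nat_lit 1) (nat_lit 126) (nat_lit 1) (nat_lit 349) (nat_lit 370) (nat_lit 301)) (XT.lf (nat_lit 76) (nat_lit 678224878) (nat_lit 0) (nat_lit 1098204922) (nat_lit 228) (nat_lit 2731005966) (nat_lit 123) (nat_lit 1) (nat_lit 122) (nat_lit 1) (nat_lit 125) (nat_lit 1) (nat_lit 350) (nat_lit 370) (nat_lit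 300))) (XT.nd (nat_lit 78) (nat_lit 228) (nat_lit 0) (XT.lf (nat_lit 152) (nat_lit 1063341012) (nat_lit 0) (nat_lit 2115095233) (nat_lit 76) (nat_lit 1253993180) (nat_lit 123) (nat_lit 1) (nat_lit 121) (nat_lit 1) (nat_lit 122) (nat_lit 1) (nat_lit 351) (nat_lit 370) (nat_lit 299)) (XT.lf (nat_lit 76) (nat_lit 1236445406) (nat_lit 0) (nat_lit 1209498481) (nat_lit 228) (nat_lit 1912868102) (nat_lit 119) (nat_lit 1) (nat_lit 118) (nat_lit 1) (nat_lit 121) (nat_lit 1) (nat_lit 352) (nat_lit 370) (nat_lit 298))))))) (XT.nd (nat_lit 1092) (nat_lit 1824) (nat_lit 0) (XT.nd (nat_lit 546) (nat_lit 836) (nat_lit 0) (XT.nd (nat_lit 234) (nat_lit 532) (nat_lit 0) (XT.nd (nat_lit 78) (nat_lit 228) (nat_lit 0) (XT.lf (nat_lit 152) (nat_lit 872295914) (nat_lit 0) (nat_lit 2770912869) (nat_lit 76) (nat_lit 643400306) (nat_lit 119) (nat_lit 1) (nat_lit 117) (nat_lit 1) (nat_lit 118) (nat_lit 1) (nat_lit 353) (nat_lit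 370) (nat_lit 297)) (XT.nd (nat_lit 78) (nat_lit 76) (nat_lit 0) (XT.lf (nat_lit 76) (nat_lit 1744883977) (nat_lit 0) (nat_lit 1335925057) (nat_lit 152) (nat_lit 1134713720) (nat_lit 116) (nat_lit 1) (nat_lit 115) (nat_lit 1) (nat_lit 117) (nat_lit 1) (nat_lit 354) (nat_lit 370) (nat_lit 296)) (XT.lf (nat_lit 152) (nat_lit 670428800) (nat_lit 0) (nat_lit 3391937856) (nat_lit 76) (nat_lit 83631619) (nat_lit 116) (nat_lit 1) (nat_lit 114) (nat_lit 1) (nat_lit 115) (nat_lit 1) (nat_lit 355) (nat_lit 370) (nat_lit 295)))) (XT.nd (nat_lit 156) (nat_lit 304) (nat_lit 0) (XT.nd (nat_lit 78) (nat_lit 76) (nat_lit 0) (XT.lf (nat_lit 76) (nat_lit 2207654067) (nat_lit 0) (nat_lit 1473511393) (nat_lit 152) (nat_lit 396167320) (nat_lit 113) (nat_lit 1) (nat_lit 112) (nat_lit 1) (nat_lit 114) (nat_lit 1) (nat_lit 356) (nat_lit 370) (nat_lit 294)) (XT.lf (nat_lit 0) (nat_lit 421019279) (nat_lit 0) (nat_lit 3553146371)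 (nat_lit 152) (nat_lit 36079890) (nat_lit 111) (nat_lit 3) (nat_lit 111) (nat_lit 1) (nat_lit 113) (nat_lit 1) (nat_lit 357) (nat_lit 370) (nat_lit 293))) (XT.nd (nat_lit 78) (nat_lit 76) (nat_lit 0) (XT.lf (nat_lit 152) (nat_lit 2322086388) (nat_lit 0) (nat_lit 309369319) (nat_lit 76) (nat_lit 1312476740) (nat_lit 110) (nat_lit 1) (nat_lit 108) (nat_lit 1) (nat_lit 109) (nat_lit 1) (nat_lit 358) (nat_lit 370) (nat_lit 292)) (XT.lf (nat_lit 76) (nat_lit 232729027) (nat_lit 0) (nat_lit 655416526) (nat_lit 76) (nat_lit 2990915049) (nat_lit 108) (nat_lit 3) (nat_lit 107) (nat_lit 1) (nat_lit 108) (nat_lit 1) (nat_lit 359) (nat_lit 370) (nat_lit 291))))) (XT.nd (nat_lit 234) (nat_lit 456) (nat_lit 0) (XT.nd (nat_lit 78) (nat_lit 228) (nat_lit 0) (XT.lf (nat_lit 152) (nat_lit 2036508179) (nat_lit 0) (nat_lit 983695265) (nat_lit 76) (nat_lit 794895422) (nat_lit 107) (nat_lit 1) (nat_lit 105) (nat_lit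 1) (nat_lit 106) (nat_lit 1) (nat_lit 360) (nat_lit 370) (nat_lit 290)) (XT.nd (nat_lit 78) (nat_lit 152) (nat_lit 0) (XT.lf (nat_lit 76) (nat_lit 7202399) (nat_lit 0) (nat_lit 1309161509) (nat_lit 76) (nat_lit 2436091747) (nat_lit 105) (nat_lit 3) (nat_lit 104) (nat_lit 1) (nat_lit 105) (nat_lit 1) (nat_lit 361) (nat_lit 370) (nat_lit 289)) (XT.lf (nat_lit 152) (nat_lit 1753310624) (nat_lit 0) (nat_lit 1619781702) (nat_lit 76) (nat_lit 317661476) (nat_lit 104) (nat_lit 1) (nat_lit 102) (nat_lit 1) (nat_lit 103) (nat_lit 1) (nat_lit 362) (nat_lit 370) (nat_lit 288)))) (XT.nd (nat_lit 156) (nat_lit 228) (nat_lit 0) (XT.nd (nat_lit 78) (nat_lit 76) (nat_lit 0) (XT.lf (nat_lit 76) (nat_lit 1710418357) (nat_lit 0) (nat_lit 212753795) (nat_lit 152) (nat_lit 1707016823) (nat_lit 101) (nat_lit 1) (nat_lit 100) (nat_lit 1) (nat_lit 102) (nat_lit 1) (nat_lit 363) (nat_lit 370) (nat_lit 287)) (XT.lf (nat_lit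 0) (nat_lit 119826863) (nat_lit 0) (nat_lit 2097549496) (nat_lit 152) (nat_lit 1353302161) (nat_lit 99) (nat_lit 3) (nat_lit 99) (nat_lit 1) (nat_lit 101) (nat_lit 1) (nat_lit 364) (nat_lit 370) (nat_lit 286))) (XT.nd (nat_lit 78) (nat_lit 76) (nat_lit 0) (XT.lf (nat_lit 76) (nat_lit 2071008629) (nat_lit 0) (nat_lit 429525170) (nat_lit 152) (nat_lit 1011609268) (nat_lit 98) (nat_lit 1) (nat_lit 97) (nat_lit 1) (nat_lit 99) (nat_lit 1) (nat_lit 365) (nat_lit 370) (nat_lit 285)) (XT.lf (nat_lit 0) (nat_lit 517160272) (nat_lit 0) (nat_lit 2258764863) (nat_lit 152) (nat_lit 678728335) (nat_lit 96) (nat_lit 3) (nat_lit 96) (nat_lit 1) (nat_lit 98) (nat_lit 1) (nat_lit 366) (nat_lit 370) (nat_lit 284)))))) (XT.nd (nat_lit 546) (nat_lit 912) (nat_lit 0) (XT.nd (nat_lit 234) (nat_lit 456) (nat_lit 0) (XT.nd (nat_lit 78) (nat_lit 304) (nat_lit 0) (XT.lf (nat_lit 76) (nat_lit 2400559186) (nat_lit 0) (nat_lit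 641824001) (nat_lit 152) (nat_lit 355768315) (nat_lit 95) (nat_lit 1) (nat_lit 94) (nat_lit 1) (nat_lit 96) (nat_lit 1) (nat_lit 367) (nat_lit 370) (nat_lit 283)) (XT.nd (nat_lit 78) (nat_lit 228) (nat_lit 0) (XT.lf (nat_lit 0) (nat_lit 882985976) (nat_lit 0) (nat_lit 2416662387) (nat_lit 152) (nat_lit 42957473) (nat_lit 93) (nat_lit 3) (nat_lit 93) (nat_lit 1) (nat_lit 95) (nat_lit 1) (nat_lit 368) (nat_lit 370) (nat_lit 282)) (XT.lf (nat_lit 152) (nat_lit 2436924514) (nat_lit 0) (nat_lit 266994086) (nat_lit 76) (nat_lit 584059257) (nat_lit 92) (nat_lit 1) (nat_lit 90) (nat_lit 1) (nat_lit 91) (nat_lit 1) (nat_lit 369) (nat_lit 370) (nat_lit 281)))) (XT.nd (nat_lit 156) (nat_lit 228) (nat_lit 0) (XT.nd (nat_lit 78) (nat_lit 152) (nat_lit 0) (XT.lf (nat_lit 76) (nat_lit 658651878) (nat_lit 0) (nat_lit 566340361) (nat_lit 76) (nat_lit 2009224417) (nat_lit 90) (nat_lit 3) (nat_lit 89) (nat_lit 1)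 (nat_lit 90) (nat_lit 1) (nat_lit 370) (nat_lit 370) (nat_lit 280)) (XT.lf (nat_lit 152) (nat_lit 2124616836) (nat_lit 0) (nat_lit 859120497) (nat_lit 76) (nat_lit 197716969) (nat_lit 89) (nat_lit 1) (nat_lit 87) (nat_lit 1) (nat_lit 88) (nat_lit 1) (nat_lit 371) (nat_lit 370) (nat_lit 279))) (XT.nd (nat_lit 78) (nat_lit 152) (nat_lit 0) (XT.lf (nat_lit 76) (nat_lit 400309123) (nat_lit 0) (nat_lit 1139552239) (nat_lit 76) (nat_lit 1589638352) (nat_lit 87) (nat_lit 3) (nat_lit 86) (nat_lit 1) (nat_lit 87) (nat_lit 1) (nat_lit 372) (nat_lit 370) (nat_lit 278)) (XT.lf (nat_lit 0) (nat_lit 156798083) (nat_lit 0) (nat_lit 1256501485) (nat_lit 152) (nat_lit 1665196058) (nat_lit 84) (nat_lit 3) (nat_lit 84) (nat_lit 1) (nat_lit 86) (nat_lit 1) (nat_lit 373) (nat_lit 370) (nat_lit 277))))) (XT.nd (nat_lit 234) (nat_lit 532) (nat_lit 0) (XT.nd (nat_lit 78) (nat_lit 304) (nat_lit 0) (XT.lf (nat_lit 76) (nat_lit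 151911199) (nat_lit 0) (nat_lit 1677168216) (nat_lit 76) (nat_lit 1199247772) (nat_lit 84) (nat_lit 3) (nat_lit 83) (nat_lit 1) (nat_lit 84) (nat_lit 1) (nat_lit 374) (nat_lit 370) (nat_lit 276)) (XT.nd (nat_lit 78) (nat_lit 152) (nat_lit 0) (XT.lf (nat_lit 0) (nat_lit 481185859) (nat_lit 0) (nat_lit 1449596930) (nat_lit 152) (nat_lit 1048179274) (nat_lit 81) (nat_lit 3) (nat_lit 81) (nat_lit 1) (nat_lit 83) (nat_lit 1) (nat_lit 375) (nat_lit 370) (nat_lit 275)) (XT.lf (nat_lit 76) (nat_lit 2095231707) (nat_lit 0) (nat_lit 84453665) (nat_lit 152) (nat_lit 750855316) (nat_lit 80) (nat_lit 1) (nat_lit 79) (nat_lit 1) (nat_lit 81) (nat_lit 1) (nat_lit 376) (nat_lit 370) (nat_lit 274)))) (XT.nd (nat_lit 156) (nat_lit 304) (nat_lit 0) (XT.nd (nat_lit 78) (nat_lit 152) (nat_lit 0) (XT.lf (nat_lit 0) (nat_lit 781038142) (nat_lit 0) (nat_lit 1633831723) (nat_lit 152) (nat_lit 467910292) (nat_lit 78) (nat_lit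 3) (nat_lit 78) (nat_lit 1) (nat_lit 80) (nat_lit 1) (nat_lit 377) (nat_lit 370) (nat_lit 273)) (XT.lf (nat_lit 76) (nat_lit 2340470032) (nat_lit 0) (nat_lit 307434169) (nat_lit 152) (nat_lit 188092997) (nat_lit 77) (nat_lit 1) (nat_lit 76) (nat_lit 1) (nat_lit 78) (nat_lit 1) (nat_lit 378) (nat_lit 370) (nat_lit 272))) (XT.nd (nat_lit 78) (nat_lit 152) (nat_lit 0) (XT.lf (nat_lit 76) (nat_lit 980109625) (nat_lit 0) (nat_lit 78604173) (nat_lit 76) (nat_lit 1731089157) (nat_lit 75) (nat_lit 3) (nat_lit 74) (nat_lit 1) (nat_lit 75) (nat_lit 1) (nat_lit 379) (nat_lit 370) (nat_lit 271)) (XT.lf (nat_lit 152) (nat_lit 2221350280) (nat_lit 0) (nat_lit 346814750) (nat_lit 76) (nat_lit 176354388) (nat_lit 74) (nat_lit 1) (nat_lit 72) (nat_lit 1) (nat_lit 73) (nat_lit 1) (nat_lit 380) (nat_lit 370) (nat_lit 270))))))))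
noncomputable def ec62 : XT := (XT.nd (nat_lit 46098) (nat_lit 0) (nat_lit 11476) (XT.nd (nat_lit 1092) (nat_lit 152) (nat_lit 0) (XT.nd (nat_lit 546) (nat_lit 912) (nat_lit 0) (XT.nd (nat_lit 234) (nat_lit 456) (nat_lit 0) (XT.nd (nat_lit 78) (nat_lit 228) (nat_lit 0) (XT.lf (nat_lit 76) (nat_lit 719288336) (nat_lit 0) (nat_lit 599909336) (nat_lit 76) (nat_lit 1380609280) (nat_lit 72) (nat_lit 3) (nat_lit 71) (nat_lit 1) (nat_lit 72) (nat_lit 1) (nat_lit 381) (nat_lit 370) (nat_lit 269)) (XT.nd (nat_lit 78) (nat_lit 76) (nat_lit 0) (XT.lf (nat_lit 0) (nat_lit 119464134) (nat_lit 0) (nat_lit 730949057) (nat_lit 152) (nat_lit 1805597916) (nat_lit 69) (nat_lit 3) (nat_lit 69) (nat_lit 1) (nat_lit 71) (nat_lit 1) (nat_lit 382) (nat_lit 370) (nat_lit 268)) (XT.lf (nat_lit 76) (nat_lit 471156073) (nat_lit 0) (nat_lit 1088137486) (nat_lit 76) (nat_lit 1053522666) (nat_lit 69) (nat_lit 3) (nat_lit 68)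 (nat_lit 1) (nat_lit 69) (nat_lit 1) (nat_lit 383) (nat_lit 370) (nat_lit 267)))) (XT.nd (nat_lit 156) (nat_lit 228) (nat_lit 0) (XT.nd (nat_lit 78) (nat_lit 76) (nat_lit 0) (XT.lf (nat_lit 0) (nat_lit 390794329) (nat_lit 0) (nat_lit 929274767) (nat_lit 152) (nat_lit 1250338173) (nat_lit 66) (nat_lit 3) (nat_lit 66) (nat_lit 1) (nat_lit 68) (nat_lit 1) (nat_lit 384) (nat_lit 370) (nat_lit 266)) (XT.lf (nat_lit 76) (nat_lit 235589503) (nat_lit 0) (nat_lit 1544704753) (nat_lit 76) (nat_lit 748428015) (nat_lit 66) (nat_lit 3) (nat_lit 65) (nat_lit 1) (nat_lit 66) (nat_lit 1) (nat_lit 385) (nat_lit 370) (nat_lit 265))) (XT.nd (nat_lit 78) (nat_lit 76) (nat_lit 0) (XT.lf (nat_lit 0) (nat_lit 642365018) (nat_lit 0) (nat_lit 1116556892) (nat_lit 152) (nat_lit 728730537) (nat_lit 63) (nat_lit 3) (nat_lit 63) (nat_lit 1) (nat_lit 65) (nat_lit 1) (nat_lit 386) (nat_lit 370) (nat_lit 264)) (XT.lf (nat_lit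 76) (nat_lit 12407254) (nat_lit 0) (nat_lit 1970995497) (nat_lit 76) (nat_lit 464018563) (nat_lit 63) (nat_lit 3) (nat_lit 62) (nat_lit 1) (nat_lit 63) (nat_lit 1) (nat_lit 387) (nat_lit 370) (nat_lit 263))))) (XT.nd (nat_lit 234) (nat_lit 456) (nat_lit 0) (XT.nd (nat_lit 78) (nat_lit 304) (nat_lit 0) (XT.lf (nat_lit 0) (nat_lit 875376685) (nat_lit 0) (nat_lit 1292955334) (nat_lit 152) (nat_lit 239312890) (nat_lit 60) (nat_lit 3) (nat_lit 60) (nat_lit 1) (nat_lit 62) (nat_lit 1) (nat_lit 388) (nat_lit 370) (nat_lit 262)) (XT.nd (nat_lit 78) (nat_lit 152) (nat_lit 0) (XT.lf (nat_lit 76) (nat_lit 2171649139) (nat_lit 0) (nat_lit 194744031) (nat_lit 152) (nat_lit 2363566) (nat_lit 59) (nat_lit 1) (nat_lit 58) (nat_lit 1) (nat_lit 60) (nat_lit 1) (nat_lit 389) (nat_lit 370) (nat_lit 261)) (XT.lf (nat_lit 76) (nat_lit 869397878) (nat_lit 0) (nat_lit 223702557) (nat_lit 76) (nat_lit 1237122290) (nat_lit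 57) (nat_lit 3) (nat_lit 56) (nat_lit 1) (nat_lit 57) (nat_lit 1) (nat_lit 390) (nat_lit 370) (nat_lit 260)))) (XT.nd (nat_lit 156) (nat_lit 228) (nat_lit 0) (XT.nd (nat_lit 78) (nat_lit 76) (nat_lit 0) (XT.lf (nat_lit 0) (nat_lit 54850702) (nat_lit 0) (nat_lit 394864027) (nat_lit 152) (nat_lit 1842829787) (nat_lit 54) (nat_lit 3) (nat_lit 54) (nat_lit 1) (nat_lit 56) (nat_lit 1) (nat_lit 391) (nat_lit 370) (nat_lit 259)) (XT.lf (nat_lit 76) (nat_lit 634981535) (nat_lit 0) (nat_lit 661510005) (nat_lit 76) (nat_lit 958803750) (nat_lit 54) (nat_lit 3) (nat_lit 53) (nat_lit 1) (nat_lit 54) (nat_lit 1) (nat_lit 392) (nat_lit 370) (nat_lit 258))) (XT.nd (nat_lit 78) (nat_lit 76) (nat_lit 0) (XT.lf (nat_lit 0) (nat_lit 285669328) (nat_lit 0) (nat_lit 585088852) (nat_lit 152) (nat_lit 1348040708) (nat_lit 51) (nat_lit 3) (nat_lit 51) (nat_lit 1) (nat_lit 53) (nat_lit 1) (nat_lit 393) (nat_lit 370) (nat_lit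 257)) (XT.lf (nat_lit 76) (nat_lit 413484455) (nat_lit 0) (nat_lit 1070712692) (nat_lit 76) (nat_lit 698645907) (nat_lit 51) (nat_lit 3) (nat_lit 50) (nat_lit 1) (nat_lit 51) (nat_lit 1) (nat_lit 394) (nat_lit 370) (nat_lit 256)))))) (XT.nd (nat_lit 44460) (nat_lit 0) (nat_lit 22648) (XT.nd (nat_lit 44148) (nat_lit 0) (nat_lit 24852) (XT.nd (nat_lit 43992) (nat_lit 0) (nat_lit 24776) (XT.lf (nat_lit 0) (nat_lit 500168366) (nat_lit 0) (nat_lit 763840535) (nat_lit 152) (nat_lit 883480192) (nat_lit 48) (nat_lit 3) (nat_lit 48) (nat_lit 1) (nat_lit 50) (nat_lit 1) (nat_lit 395) (nat_lit 370) (nat_lit 255)) (XT.nd (nat_lit 78) (nat_lit 0) (nat_lit 76) (XT.lf (nat_lit 1292) (nat_lit 1692516645) (nat_lit 0) (nat_lit 5823044397) (nat_lit 1292) (nat_lit 1692516645) (nat_lit 391) (nat_lit 1) (nat_lit 374) (nat_lit 0) (nat_lit 391) (nat_lit 0) (nat_lit 278) (nat_lit 371) (nat_lit 371)) (XT.lf (nat_lit 1292)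 (nat_lit 135692026) (nat_lit 0) (nat_lit 11481819075) (nat_lit 1216) (nat_lit 6356773841) (nat_lit 392) (nat_lit 1) (nat_lit 375) (nat_lit 1) (nat_lit 391) (nat_lit 1) (nat_lit 279) (nat_lit 371) (nat_lit 370)))) (XT.nd (nat_lit 156) (nat_lit 0) (nat_lit 152) (XT.nd (nat_lit 78) (nat_lit 0) (nat_lit 76) (XT.lf (nat_lit 1292) (nat_lit 5969865745) (nat_lit 76) (nat_lit 8444156643) (nat_lit 0) (nat_lit 3131912643) (nat_lit 392) (nat_lit 1) (nat_lit 376) (nat_lit 1) (nat_lit 375) (nat_lit 1) (nat_lit 280) (nat_lit 371) (nat_lit 369)) (XT.lf (nat_lit 1292) (nat_lit 5248018207) (nat_lit 76) (nat_lit 5527304760) (nat_lit 0) (nat_lit 6356131617) (nat_lit 393) (nat_lit 1) (nat_lit 377) (nat_lit 1) (nat_lit 376) (nat_lit 1) (nat_lit 281) (nat_lit 371) (nat_lit 368))) (XT.nd (nat_lit 78) (nat_lit 0) (nat_lit 76) (XT.lf (nat_lit 1292) (nat_lit 4343088443) (nat_lit 76) (nat_lit 2855141622) (nat_lit 0) (nat_lit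 9532147571) (nat_lit 394) (nat_lit 1) (nat_lit 378) (nat_lit 1) (nat_lit 377) (nat_lit 1) (nat_lit 282) (nat_lit 371) (nat_lit 367)) (XT.lf (nat_lit 1292) (nat_lit 3269031716) (nat_lit 76) (nat_lit 415095362) (nat_lit 0) (nat_lit 12658091379) (nat_lit 395) (nat_lit 1) (nat_lit 379) (nat_lit 1) (nat_lit 378) (nat_lit 1) (nat_lit 283) (nat_lit 371) (nat_lit 366))))) (XT.nd (nat_lit 234) (nat_lit 1292) (nat_lit 0) (XT.nd (nat_lit 78) (nat_lit 1216) (nat_lit 0) (XT.lf (nat_lit 1292) (nat_lit 251534557) (nat_lit 0) (nat_lit 13944852563) (nat_lit 1216) (nat_lit 1769603027) (nat_lit 396) (nat_lit 1) (nat_lit 379) (nat_lit 1) (nat_lit 395) (nat_lit 1) (nat_lit 284) (nat_lit 371) (nat_lit 365)) (XT.nd (nat_lit 78) (nat_lit 1216) (nat_lit 0) (XT.lf (nat_lit 1292) (nat_lit 596191621) (nat_lit 76) (nat_lit 11828686537) (nat_lit 0) (nat_lit 3175911681) (nat_lit 396) (nat_lit 1) (nat_lit 380) (nat_lit 1) (nat_lit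 379) (nat_lit 1) (nat_lit 285) (nat_lit 371) (nat_lit 364)) (XT.lf (nat_lit 1368) (nat_lit 8713333783) (nat_lit 0) (nat_lit 941820253) (nat_lit 1292) (nat_lit 5591733508) (nat_lit 381) (nat_lit 1) (nat_lit 363) (nat_lit 1) (nat_lit 380) (nat_lit 1) (nat_lit 286) (nat_lit 371) (nat_lit 363)))) (XT.nd (nat_lit 156) (nat_lit 1368) (nat_lit 0) (XT.nd (nat_lit 78) (nat_lit 0) (nat_lit 76) (XT.lf (nat_lit 1368) (nat_lit 5085925701) (nat_lit 0) (nat_lit 2584243832) (nat_lit 1292) (nat_lit 7233842558) (nat_lit 382) (nat_lit 1) (nat_lit 364) (nat_lit 1) (nat_lit 381) (nat_lit 1) (nat_lit 287) (nat_lit 371) (nat_lit 362)) (XT.lf (nat_lit 76) (nat_lit 1536993728) (nat_lit 0) (nat_lit 4332638172) (nat_lit 1292) (nat_lit 8702306698) (nat_lit 366) (nat_lit 1) (nat_lit 365) (nat_lit 1) (nat_lit 382) (nat_lit 1) (nat_lit 288) (nat_lit 371) (nat_lit 361))) (XT.nd (nat_lit 78) (nat_lit 608) (nat_lit 0) (XT.lf (nat_lit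 912) (nat_lit 8053238254) (nat_lit 0) (nat_lit 4224474270) (nat_lit 836) (nat_lit 1972004510) (nat_lit 366) (nat_lit 1) (nat_lit 354) (nat_lit 1) (nat_lit 365) (nat_lit 1) (nat_lit 289) (nat_lit 371) (nat_lit 360)) (XT.lf (nat_lit 684) (nat_lit 5774927078) (nat_lit 0) (nat_lit 2730389783) (nat_lit 608) (nat_lit 5431803641) (nat_lit 355) (nat_lit 1) (nat_lit 346) (nat_lit 1) (nat_lit 354) (nat_lit 1) (nat_lit 290) (nat_lit 371) (nat_lit 359))))))) (XT.nd (nat_lit 1092) (nat_lit 4636) (nat_lit 0) (XT.nd (nat_lit 546) (nat_lit 3192) (nat_lit 0) (XT.nd (nat_lit 234) (nat_lit 2128) (nat_lit 0) (XT.nd (nat_lit 78) (nat_lit 608) (nat_lit 0) (XT.lf (nat_lit 684) (nat_lit 3427916731) (nat_lit 0) (nat_lit 1394216180) (nat_lit 608) (nat_lit 8812115732) (nat_lit 347) (nat_lit 1) (nat_lit 338) (nat_lit 1) (nat_lit 346) (nat_lit 1) (nat_lit 291) (nat_lit 371) (nat_lit 358)) (XT.nd (nat_lit 78) (nat_lit 76) (nat_lit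 0) (XT.lf (nat_lit 608) (nat_lit 1019744024) (nat_lit 0) (nat_lit 207671617) (nat_lit 532) (nat_lit 12113346967) (nat_lit 339) (nat_lit 1) (nat_lit 331) (nat_lit 1) (nat_lit 338) (nat_lit 1) (nat_lit 292) (nat_lit 371) (nat_lit 357)) (XT.lf (nat_lit 76) (nat_lit 10752768025) (nat_lit 0) (nat_lit 1444989589) (nat_lit 608) (nat_lit 857244423) (nat_lit 331) (nat_lit 1) (nat_lit 330) (nat_lit 1) (nat_lit 338) (nat_lit 1) (nat_lit 293) (nat_lit 371) (nat_lit 356)))) (XT.nd (nat_lit 156) (nat_lit 988) (nat_lit 0) (XT.nd (nat_lit 78) (nat_lit 532) (nat_lit 0) (XT.lf (nat_lit 76) (nat_lit 7020877812) (nat_lit 0) (nat_lit 3948360290) (nat_lit 684) (nat_lit 1808082241) (nat_lit 323) (nat_lit 1) (nat_lit 322) (nat_lit 1) (nat_lit 331) (nat_lit 1) (nat_lit 294) (nat_lit 371) (nat_lit 355)) (XT.lf (nat_lit 76) (nat_lit 3384095521) (nat_lit 0) (nat_lit 6490105670) (nat_lit 608) (nat_lit 2633932912) (nat_lit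 316) (nat_lit 1) (nat_lit 315) (nat_lit 1) (nat_lit 323) (nat_lit 1) (nat_lit 295) (nat_lit 371) (nat_lit 354))) (XT.nd (nat_lit 78) (nat_lit 456) (nat_lit 0) (XT.lf (nat_lit 608) (nat_lit 3180950212) (nat_lit 0) (nat_lit 8904080520) (nat_lit 532) (nat_lit 162075314) (nat_lit 316) (nat_lit 1) (nat_lit 308) (nat_lit 1) (nat_lit 315) (nat_lit 1) (nat_lit 296) (nat_lit 371) (nat_lit 353)) (XT.lf (nat_lit 532) (nat_lit 291075022) (nat_lit 0) (nat_lit 8020598501) (nat_lit 456) (nat_lit 3681361677) (nat_lit 309) (nat_lit 1) (nat_lit 302) (nat_lit 1) (nat_lit 308) (nat_lit 1) (nat_lit 297) (nat_lit 371) (nat_lit 352))))) (XT.nd (nat_lit 234) (nat_lit 1672) (nat_lit 0) (XT.nd (nat_lit 78) (nat_lit 912) (nat_lit 0) (XT.lf (nat_lit 76) (nat_lit 4663904090) (nat_lit 0) (nat_lit 2561802504) (nat_lit 608) (nat_lit 4520187356) (nat_lit 295) (nat_lit 1) (nat_lit 294) (nat_lit 1) (nat_lit 302) (nat_lit 1) (nat_lit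 298) (nat_lit 371) (nat_lit 351)) (XT.nd (nat_lit 78) (nat_lit 456) (nat_lit 0) (XT.lf (nat_lit 76) (nat_lit 1117758119) (nat_lit 0) (nat_lit 5418477004) (nat_lit 532) (nat_lit 4969854535) (nat_lit 289) (nat_lit 1) (nat_lit 288) (nat_lit 1) (nat_lit 295) (nat_lit 1) (nat_lit 299) (nat_lit 371) (nat_lit 350)) (XT.lf (nat_lit 532) (nat_lit 2969232549) (nat_lit 0) (nat_lit 5925780349) (nat_lit 456) (nat_lit 2377759117) (nat_lit 289) (nat_lit 1) (nat_lit 282) (nat_lit 1) (nat_lit 288) (nat_lit 1) (nat_lit 300) (nat_lit 371) (nat_lit 349)))) (XT.nd (nat_lit 156) (nat_lit 760) (nat_lit 0) (XT.nd (nat_lit 78) (nat_lit 456) (nat_lit 0) (XT.lf (nat_lit 76) (nat_lit 5249160176) (nat_lit 0) (nat_lit 151389099) (nat_lit 456) (nat_lit 5645492814) (nat_lit 277) (nat_lit 1) (nat_lit 276) (nat_lit 1) (nat_lit 282) (nat_lit 1) (nat_lit 301) (nat_lit 371) (nat_lit 348)) (XT.lf (nat_lit 76) (nat_lit 1733745840) (nat_lit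 0) (nat_lit 3205056560) (nat_lit 532) (nat_lit 5886386094) (nat_lit 271) (nat_lit 1) (nat_lit 270) (nat_lit 1) (nat_lit 277) (nat_lit 1) (nat_lit 302) (nat_lit 371) (nat_lit 347))) (XT.nd (nat_lit 78) (nat_lit 380) (nat_lit 0) (XT.lf (nat_lit 456) (nat_lit 4347017931) (nat_lit 0) (nat_lit 4547975043) (nat_lit 380) (nat_lit 1715358105) (nat_lit 271) (nat_lit 1) (nat_lit 265) (nat_lit 1) (nat_lit 270) (nat_lit 1) (nat_lit 303) (nat_lit 371) (nat_lit 346)) (XT.lf (nat_lit 456) (nat_lit 1078206832) (nat_lit 0) (nat_lit 4223777623) (nat_lit 380) (nat_lit 5099345205) (nat_lit 266) (nat_lit 1) (nat_lit 260) (nat_lit 1) (nat_lit 265) (nat_lit 1) (nat_lit 304) (nat_lit 371) (nat_lit 345)))))) (XT.nd (nat_lit 546) (nat_lit 2052) (nat_lit 0) (XT.nd (nat_lit 234) (nat_lit 1444) (nat_lit 0) (XT.nd (nat_lit 78) (nat_lit 684) (nat_lit 0) (XT.lf (nat_lit 76) (nat_lit 1833406817) (nat_lit 0) (nat_lit 2124303068)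 (nat_lit 456) (nat_lit 6240092952) (nat_lit 255) (nat_lit 1) (nat_lit 254) (nat_lit 1) (nat_lit 260) (nat_lit 1) (nat_lit 305) (nat_lit 371) (nat_lit 344)) (XT.nd (nat_lit 78) (nat_lit 304) (nat_lit 0) (XT.lf (nat_lit 456) (nat_lit 4704273456) (nat_lit 0) (nat_lit 3741069760) (nat_lit 380) (nat_lit 1554101529) (nat_lit 255) (nat_lit 1) (nat_lit 249) (nat_lit 1) (nat_lit 254) (nat_lit 1) (nat_lit 306) (nat_lit 371) (nat_lit 343)) (XT.lf (nat_lit 380) (nat_lit 1350621164) (nat_lit 0) (nat_lit 3578270631) (nat_lit 304) (nat_lit 4877421103) (nat_lit 250) (nat_lit 1) (nat_lit 245) (nat_lit 1) (nat_lit 249) (nat_lit 1) (nat_lit 307) (nat_lit 371) (nat_lit 342)))) (XT.nd (nat_lit 156) (nat_lit 684) (nat_lit 0) (XT.nd (nat_lit 78) (nat_lit 304) (nat_lit 0) (XT.lf (nat_lit 76) (nat_lit 1535272175) (nat_lit 0) (nat_lit 1929106800) (nat_lit 456) (nat_lit 6153814949) (nat_lit 240) (nat_lit 1) (nat_lit 239)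 (nat_lit 1) (nat_lit 245) (nat_lit 1) (nat_lit 308) (nat_lit 371) (nat_lit 341)) (XT.lf (nat_lit 380) (nat_lit 4271114756) (nat_lit 0) (nat_lit 3384466223) (nat_lit 304) (nat_lit 1779003681) (nat_lit 240) (nat_lit 1) (nat_lit 235) (nat_lit 1) (nat_lit 239) (nat_lit 1) (nat_lit 309) (nat_lit 371) (nat_lit 340))) (XT.nd (nat_lit 78) (nat_lit 380) (nat_lit 0) (XT.lf (nat_lit 380) (nat_lit 881123419) (nat_lit 0) (nat_lit 3351408007) (nat_lit 304) (nat_lit 5023261650) (nat_lit 236) (nat_lit 1) (nat_lit 231) (nat_lit 1) (nat_lit 235) (nat_lit 1) (nat_lit 310) (nat_lit 371) (nat_lit 339)) (XT.lf (nat_lit 76) (nat_lit 936372068) (nat_lit 0) (nat_lit 2416469552) (nat_lit 380) (nat_lit 5728551702) (nat_lit 227) (nat_lit 1) (nat_lit 226) (nat_lit 1) (nat_lit 231) (nat_lit 1) (nat_lit 311) (nat_lit 371) (nat_lit 338))))) (XT.nd (nat_lit 234) (nat_lit 1140) (nat_lit 0) (XT.nd (nat_lit 78) (nat_lit 608) (nat_lit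 0) (XT.lf (nat_lit 380) (nat_lit 3236230537) (nat_lit 0) (nat_lit 3378850582) (nat_lit 304) (nat_lit 2295950930) (nat_lit 227) (nat_lit 1) (nat_lit 222) (nat_lit 1) (nat_lit 226) (nat_lit 1) (nat_lit 312) (nat_lit 371) (nat_lit 337)) (XT.nd (nat_lit 78) (nat_lit 304) (nat_lit 0) (XT.lf (nat_lit 76) (nat_lit 3299322468) (nat_lit 0) (nat_lit 148448055) (nat_lit 304) (nat_lit 5297409497) (nat_lit 219) (nat_lit 1) (nat_lit 218) (nat_lit 1) (nat_lit 222) (nat_lit 1) (nat_lit 313) (nat_lit 371) (nat_lit 336)) (XT.lf (nat_lit 76) (nat_lit 115852772) (nat_lit 0) (nat_lit 3420130131) (nat_lit 380) (nat_lit 5047104323) (nat_lit 215) (nat_lit 1) (nat_lit 214) (nat_lit 1) (nat_lit 219) (nat_lit 1) (nat_lit 314) (nat_lit 371) (nat_lit 335)))) (XT.nd (nat_lit 156) (nat_lit 532) (nat_lit 0) (XT.nd (nat_lit 78) (nat_lit 380) (nat_lit 0) (XT.lf (nat_lit 304) (nat_lit 1753827101) (nat_lit 0) (nat_lit 3642652146)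 (nat_lit 228) (nat_lit 3028189184) (nat_lit 215) (nat_lit 1) (nat_lit 211) (nat_lit 1) (nat_lit 214) (nat_lit 1) (nat_lit 315) (nat_lit 371) (nat_lit 334)) (XT.lf (nat_lit 76) (nat_lit 2209321580) (nat_lit 0) (nat_lit 1569622008) (nat_lit 380) (nat_lit 4491245511) (nat_lit 207) (nat_lit 1) (nat_lit 206) (nat_lit 1) (nat_lit 211) (nat_lit 1) (nat_lit 316) (nat_lit 371) (nat_lit 333))) (XT.nd (nat_lit 78) (nat_lit 304) (nat_lit 0) (XT.lf (nat_lit 304) (nat_lit 3306419754) (nat_lit 0) (nat_lit 3933691486) (nat_lit 228) (nat_lit 879154169) (nat_lit 207) (nat_lit 1) (nat_lit 203) (nat_lit 1) (nat_lit 206) (nat_lit 1) (nat_lit 317) (nat_lit 371) (nat_lit 332)) (XT.lf (nat_lit 76) (nat_lit 4059002736) (nat_lit 0) (nat_lit 49576128) (nat_lit 304) (nat_lit 3863310031) (nat_lit 200) (nat_lit 1) (nat_lit 199) (nat_lit 1) (nat_lit 203) (nat_lit 1) (nat_lit 318) (nat_lit 371) (nat_lit 331))))))))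
noncomputable def ec63 : XT := (XT.nd (nat_lit 2184) (nat_lit 3572) (nat_lit 0) (XT.nd (nat_lit 1092) (nat_lit 2356) (nat_lit 0) (XT.nd (nat_lit 546) (nat_lit 1520) (nat_lit 0) (XT.nd (nat_lit 234) (nat_lit 912) (nat_lit 0) (XT.nd (nat_lit 78) (nat_lit 532) (nat_lit 0) (XT.lf (nat_lit 76) (nat_lit 1008730080) (nat_lit 0) (nat_lit 3283074259) (nat_lit 304) (nat_lit 3535855096) (nat_lit 197) (nat_lit 1) (nat_lit 196) (nat_lit 1) (nat_lit 200) (nat_lit 1) (nat_lit 319) (nat_lit 371) (nat_lit 330)) (XT.nd (nat_lit 78) (nat_lit 304) (nat_lit 0) (XT.lf (nat_lit 304) (nat_lit 1208787016) (nat_lit 0) (nat_lit 4494107298) (nat_lit 228) (nat_lit 1983940193) (nat_lit 197) (nat_lit 1) (nat_lit 193) (nat_lit 1) (nat_lit 196) (nat_lit 1) (nat_lit 320) (nat_lit 371) (nat_lit 329)) (XT.lf (nat_lit 76) (nat_lit 2668366145) (nat_lit 0) (nat_lit 2034727527) (nat_lit 304) (nat_lit 2845905185) (nat_lit 190) (nat_lit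 1) (nat_lit 189) (nat_lit 1) (nat_lit 193) (nat_lit 1) (nat_lit 321) (nat_lit 371) (nat_lit 328)))) (XT.nd (nat_lit 156) (nat_lit 456) (nat_lit 0) (XT.nd (nat_lit 78) (nat_lit 228) (nat_lit 0) (XT.lf (nat_lit 304) (nat_lit 2217508703) (nat_lit 0) (nat_lit 4933349608) (nat_lit 228) (nat_lit 263665781) (nat_lit 190) (nat_lit 1) (nat_lit 186) (nat_lit 1) (nat_lit 189) (nat_lit 1) (nat_lit 322) (nat_lit 371) (nat_lit 327)) (XT.lf (nat_lit 76) (nat_lit 4139349658) (nat_lit 0) (nat_lit 1021698830) (nat_lit 228) (nat_lit 2121615528) (nat_lit 184) (nat_lit 1) (nat_lit 183) (nat_lit 1) (nat_lit 186) (nat_lit 1) (nat_lit 323) (nat_lit 371) (nat_lit 326))) (XT.nd (nat_lit 78) (nat_lit 228) (nat_lit 0) (XT.lf (nat_lit 76) (nat_lit 1244615773) (nat_lit 0) (nat_lit 4155489495) (nat_lit 304) (nat_lit 1753667429) (nat_lit 181) (nat_lit 1) (nat_lit 180) (nat_lit 1) (nat_lit 184) (nat_lit 1) (nat_lit 324) (nat_lit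 371) (nat_lit 325)) (XT.lf (nat_lit 76) (nat_lit 5441612878) (nat_lit 0) (nat_lit 211066466) (nat_lit 228) (nat_lit 1375183441) (nat_lit 178) (nat_lit 1) (nat_lit 177) (nat_lit 1) (nat_lit 180) (nat_lit 1) (nat_lit 325) (nat_lit 371) (nat_lit 324))))) (XT.nd (nat_lit 234) (nat_lit 912) (nat_lit 0) (XT.nd (nat_lit 78) (nat_lit 380) (nat_lit 0) (XT.lf (nat_lit 76) (nat_lit 2583310338) (nat_lit 0) (nat_lit 3310638523) (nat_lit 304) (nat_lit 1010213160) (nat_lit 175) (nat_lit 1) (nat_lit 174) (nat_lit 1) (nat_lit 178) (nat_lit 1) (nat_lit 326) (nat_lit 371) (nat_lit 323)) (XT.nd (nat_lit 78) (nat_lit 228) (nat_lit 0) (XT.lf (nat_lit 228) (nat_lit 434409752) (nat_lit 0) (nat_lit 6162637219) (nat_lit 152) (nat_lit 186702951) (nat_lit 175) (nat_lit 1) (nat_lit 172) (nat_lit 1) (nat_lit 174) (nat_lit 1) (nat_lit 327) (nat_lit 371) (nat_lit 322)) (XT.lf (nat_lit 76) (nat_lit 3774573545) (nat_lit 0) (nat_lit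 2632523497) (nat_lit 228) (nat_lit 257977724) (nat_lit 170) (nat_lit 1) (nat_lit 169) (nat_lit 1) (nat_lit 172) (nat_lit 1) (nat_lit 328) (nat_lit 371) (nat_lit 321)))) (XT.nd (nat_lit 156) (nat_lit 380) (nat_lit 0) (XT.nd (nat_lit 78) (nat_lit 228) (nat_lit 0) (XT.lf (nat_lit 228) (nat_lit 920769846) (nat_lit 0) (nat_lit 127683431) (nat_lit 152) (nat_lit 5500978534) (nat_lit 168) (nat_lit 1) (nat_lit 165) (nat_lit 1) (nat_lit 167) (nat_lit 1) (nat_lit 329) (nat_lit 371) (nat_lit 320)) (XT.lf (nat_lit 228) (nat_lit 4333664483) (nat_lit 0) (nat_lit 504731187) (nat_lit 152) (nat_lit 1597337869) (nat_lit 165) (nat_lit 1) (nat_lit 162) (nat_lit 1) (nat_lit 164) (nat_lit 1) (nat_lit 330) (nat_lit 371) (nat_lit 319))) (XT.nd (nat_lit 78) (nat_lit 228) (nat_lit 0) (XT.lf (nat_lit 228) (nat_lit 1271214963) (nat_lit 0) (nat_lit 885316948) (nat_lit 152) (nat_lit 4167981267) (nat_lit 163) (nat_lit 1) (nat_lit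 160) (nat_lit 1) (nat_lit 162) (nat_lit 1) (nat_lit 331) (nat_lit 371) (nat_lit 318)) (XT.lf (nat_lit 228) (nat_lit 4519615031) (nat_lit 0) (nat_lit 1266260589) (nat_lit 152) (nat_lit 429757247) (nat_lit 160) (nat_lit 1) (nat_lit 157) (nat_lit 1) (nat_lit 159) (nat_lit 1) (nat_lit 332) (nat_lit 371) (nat_lit 317)))))) (XT.nd (nat_lit 546) (nat_lit 1216) (nat_lit 0) (XT.nd (nat_lit 234) (nat_lit 608) (nat_lit 0) (XT.nd (nat_lit 78) (nat_lit 380) (nat_lit 0) (XT.lf (nat_lit 228) (nat_lit 1513251104) (nat_lit 0) (nat_lit 1634759620) (nat_lit 152) (nat_lit 2960664620) (nat_lit 158) (nat_lit 1) (nat_lit 155) (nat_lit 1) (nat_lit 157) (nat_lit 1) (nat_lit 333) (nat_lit 371) (nat_lit 316)) (XT.nd (nat_lit 78) (nat_lit 152) (nat_lit 0) (XT.lf (nat_lit 76) (nat_lit 609982871) (nat_lit 0) (nat_lit 1399571242) (nat_lit 228) (nat_lit 3994588795) (nat_lit 153) (nat_lit 1) (nat_lit 152) (nat_lit 1) (nat_lit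 155) (nat_lit 1) (nat_lit 334) (nat_lit 371) (nat_lit 315)) (XT.lf (nat_lit 228) (nat_lit 1663765902) (nat_lit 0) (nat_lit 2370640012) (nat_lit 152) (nat_lit 1867004302) (nat_lit 153) (nat_lit 1) (nat_lit 150) (nat_lit 1) (nat_lit 152) (nat_lit 1) (nat_lit 335) (nat_lit 371) (nat_lit 314)))) (XT.nd (nat_lit 156) (nat_lit 304) (nat_lit 0) (XT.nd (nat_lit 78) (nat_lit 152) (nat_lit 0) (XT.lf (nat_lit 76) (nat_lit 1538831814) (nat_lit 0) (nat_lit 1193987014) (nat_lit 152) (nat_lit 3068047668) (nat_lit 149) (nat_lit 1) (nat_lit 148) (nat_lit 1) (nat_lit 150) (nat_lit 1) (nat_lit 336) (nat_lit 371) (nat_lit 313)) (XT.lf (nat_lit 228) (nat_lit 1737440210) (nat_lit 0) (nat_lit 3088562080) (nat_lit 152) (nat_lit 876249091) (nat_lit 149) (nat_lit 1) (nat_lit 146) (nat_lit 1) (nat_lit 148) (nat_lit 1) (nat_lit 337) (nat_lit 371) (nat_lit 312))) (XT.nd (nat_lit 78) (nat_lit 152) (nat_lit 0) (XT.lf (nat_lit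 76) (nat_lit 2374956381) (nat_lit 0) (nat_lit 1061413161) (nat_lit 152) (nat_lit 2169111330) (nat_lit 145) (nat_lit 1) (nat_lit 144) (nat_lit 1) (nat_lit 146) (nat_lit 1) (nat_lit 338) (nat_lit 371) (nat_lit 311)) (XT.lf (nat_lit 76) (nat_lit 20809421) (nat_lit 0) (nat_lit 3763953805) (nat_lit 228) (nat_lit 1726000416) (nat_lit 143) (nat_lit 1) (nat_lit 142) (nat_lit 1) (nat_lit 145) (nat_lit 1) (nat_lit 339) (nat_lit 371) (nat_lit 310))))) (XT.nd (nat_lit 234) (nat_lit 760) (nat_lit 0) (XT.nd (nat_lit 78) (nat_lit 304) (nat_lit 0) (XT.lf (nat_lit 76) (nat_lit 3127111176) (nat_lit 0) (nat_lit 989934993) (nat_lit 152) (nat_lit 1300528421) (nat_lit 141) (nat_lit 1) (nat_lit 140) (nat_lit 1) (nat_lit 142) (nat_lit 1) (nat_lit 340) (nat_lit 371) (nat_lit 309)) (XT.nd (nat_lit 78) (nat_lit 152) (nat_lit 0) (XT.lf (nat_lit 76) (nat_lit 817760037) (nat_lit 0) (nat_lit 3631031748) (nat_lit 228) (nat_lit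 877537477) (nat_lit 139) (nat_lit 1) (nat_lit 138) (nat_lit 1) (nat_lit 141) (nat_lit 1) (nat_lit 341) (nat_lit 371) (nat_lit 308)) (XT.lf (nat_lit 76) (nat_lit 3803140455) (nat_lit 0) (nat_lit 969220858) (nat_lit 152) (nat_lit 464406537) (nat_lit 137) (nat_lit 1) (nat_lit 136) (nat_lit 1) (nat_lit 138) (nat_lit 1) (nat_lit 342) (nat_lit 371) (nat_lit 307)))) (XT.nd (nat_lit 156) (nat_lit 304) (nat_lit 0) (XT.nd (nat_lit 78) (nat_lit 304) (nat_lit 0) (XT.lf (nat_lit 76) (nat_lit 1539283428) (nat_lit 0) (nat_lit 3547766364) (nat_lit 228) (nat_lit 61783417) (nat_lit 135) (nat_lit 1) (nat_lit 134) (nat_lit 1) (nat_lit 137) (nat_lit 1) (nat_lit 343) (nat_lit 371) (nat_lit 306)) (XT.lf (nat_lit 228) (nat_lit 4068973304) (nat_lit 0) (nat_lit 344417785) (nat_lit 152) (nat_lit 649218890) (nat_lit 133) (nat_lit 1) (nat_lit 130) (nat_lit 1) (nat_lit 132) (nat_lit 1) (nat_lit 344) (nat_lit 371) (nat_lit 305)))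 (XT.nd (nat_lit 78) (nat_lit 228) (nat_lit 0) (XT.lf (nat_lit 152) (nat_lit 1465043283) (nat_lit 0) (nat_lit 734202061) (nat_lit 76) (nat_lit 2778477987) (nat_lit 131) (nat_lit 1) (nat_lit 129) (nat_lit 1) (nat_lit 130) (nat_lit 1) (nat_lit 345) (nat_lit 371) (nat_lit 304)) (XT.lf (nat_lit 76) (nat_lit 68958724) (nat_lit 0) (nat_lit 1057026098) (nat_lit 228) (nat_lit 3768743204) (nat_lit 127) (nat_lit 1) (nat_lit 126) (nat_lit 1) (nat_lit 129) (nat_lit 1) (nat_lit 346) (nat_lit 371) (nat_lit 303))))))) (XT.nd (nat_lit 1092) (nat_lit 1748) (nat_lit 0) (XT.nd (nat_lit 546) (nat_lit 912) (nat_lit 0) (XT.nd (nat_lit 234) (nat_lit 532) (nat_lit 0) (XT.nd (nat_lit 78) (nat_lit 304) (nat_lit 0) (XT.lf (nat_lit 152) (nat_lit 1301289295) (nat_lit 0) (nat_lit 1495681648) (nat_lit 76) (nat_lit 2015916716) (nat_lit 127) (nat_lit 1) (nat_lit 125) (nat_lit 1) (nat_lit 126) (nat_lit 1) (nat_lit 347) (nat_lit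 371) (nat_lit 302)) (XT.nd (nat_lit 78) (nat_lit 76) (nat_lit 0) (XT.lf (nat_lit 76) (nat_lit 712136122) (nat_lit 0) (nat_lit 1153115168) (nat_lit 228) (nat_lit 2867556265) (nat_lit 123) (nat_lit 1) (nat_lit 122) (nat_lit 1) (nat_lit 125) (nat_lit 1) (nat_lit 348) (nat_lit 371) (nat_lit 301)) (XT.lf (nat_lit 152) (nat_lit 1116508063) (nat_lit 0) (nat_lit 2220849994) (nat_lit 76) (nat_lit 1316692839) (nat_lit 123) (nat_lit 1) (nat_lit 121) (nat_lit 1) (nat_lit 122) (nat_lit 1) (nat_lit 349) (nat_lit 371) (nat_lit 300)))) (XT.nd (nat_lit 156) (nat_lit 228) (nat_lit 0) (XT.nd (nat_lit 78) (nat_lit 76) (nat_lit 0) (XT.lf (nat_lit 76) (nat_lit 1298267676) (nat_lit 0) (nat_lit 1269973405) (nat_lit 228) (nat_lit 2008511508) (nat_lit 119) (nat_lit 1) (nat_lit 118) (nat_lit 1) (nat_lit 121) (nat_lit 1) (nat_lit 350) (nat_lit 371) (nat_lit 299)) (XT.lf (nat_lit 152) (nat_lit 915910709) (nat_lit 0) (nat_lit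 2909458513) (nat_lit 76) (nat_lit 675570321) (nat_lit 119) (nat_lit 1) (nat_lit 117) (nat_lit 1) (nat_lit 118) (nat_lit 1) (nat_lit 351) (nat_lit 371) (nat_lit 298))) (XT.nd (nat_lit 78) (nat_lit 76) (nat_lit 0) (XT.lf (nat_lit 76) (nat_lit 1832128176) (nat_lit 0) (nat_lit 1402721310) (nat_lit 152) (nat_lit 1191449406) (nat_lit 116) (nat_lit 1) (nat_lit 115) (nat_lit 1) (nat_lit 117) (nat_lit 1) (nat_lit 352) (nat_lit 371) (nat_lit 297)) (XT.lf (nat_lit 152) (nat_lit 703950240) (nat_lit 0) (nat_lit 3561534748) (nat_lit 76) (nat_lit 87813200) (nat_lit 116) (nat_lit 1) (nat_lit 114) (nat_lit 1) (nat_lit 115) (nat_lit 1) (nat_lit 353) (nat_lit 371) (nat_lit 296))))) (XT.nd (nat_lit 234) (nat_lit 456) (nat_lit 0) (XT.nd (nat_lit 78) (nat_lit 304) (nat_lit 0) (XT.lf (nat_lit 76) (nat_lit 2318036770) (nat_lit 0) (nat_lit 1547186963) (nat_lit 152) (nat_lit 415975686) (nat_lit 113) (nat_lit 1) (nat_lit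 112) (nat_lit 1) (nat_lit 114) (nat_lit 1) (nat_lit 354) (nat_lit 371) (nat_lit 295)) (XT.nd (nat_lit 78) (nat_lit 228) (nat_lit 0) (XT.lf (nat_lit 0) (nat_lit 442070243) (nat_lit 0) (nat_lit 3730803689) (nat_lit 152) (nat_lit 37883884) (nat_lit 111) (nat_lit 3) (nat_lit 111) (nat_lit 1) (nat_lit 113) (nat_lit 1) (nat_lit 355) (nat_lit 371) (nat_lit 294)) (XT.lf (nat_lit 152) (nat_lit 2438190707) (nat_lit 0) (nat_lit 324837785) (nat_lit 76) (nat_lit 1378100577) (nat_lit 110) (nat_lit 1) (nat_lit 108) (nat_lit 1) (nat_lit 109) (nat_lit 1) (nat_lit 356) (nat_lit 371) (nat_lit 293)))) (XT.nd (nat_lit 156) (nat_lit 228) (nat_lit 0) (XT.nd (nat_lit 78) (nat_lit 152) (nat_lit 0) (XT.lf (nat_lit 76) (nat_lit 244365479) (nat_lit 0) (nat_lit 688187352) (nat_lit 76) (nat_lit 3140460801) (nat_lit 108) (nat_lit 3) (nat_lit 107) (nat_lit 1) (nat_lit 108) (nat_lit 1) (nat_lit 357) (nat_lit 371) (nat_lit 292))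 (XT.lf (nat_lit 152) (nat_lit 2138333588) (nat_lit 0) (nat_lit 1032880028) (nat_lit 76) (nat_lit 834640193) (nat_lit 107) (nat_lit 1) (nat_lit 105) (nat_lit 1) (nat_lit 106) (nat_lit 1) (nat_lit 358) (nat_lit 371) (nat_lit 291))) (XT.nd (nat_lit 78) (nat_lit 152) (nat_lit 0) (XT.lf (nat_lit 76) (nat_lit 7562519) (nat_lit 0) (nat_lit 1374619584) (nat_lit 76) (nat_lit 2557896334) (nat_lit 105) (nat_lit 3) (nat_lit 104) (nat_lit 1) (nat_lit 105) (nat_lit 1) (nat_lit 359) (nat_lit 371) (nat_lit 290)) (XT.lf (nat_lit 152) (nat_lit 1840976155) (nat_lit 0) (nat_lit 1700770787) (nat_lit 76) (nat_lit 333544550) (nat_lit 104) (nat_lit 1) (nat_lit 102) (nat_lit 1) (nat_lit 103) (nat_lit 1) (nat_lit 360) (nat_lit 371) (nat_lit 289)))))) (XT.nd (nat_lit 546) (nat_lit 836) (nat_lit 0) (XT.nd (nat_lit 234) (nat_lit 532) (nat_lit 0) (XT.nd (nat_lit 78) (nat_lit 228) (nat_lit 0) (XT.lf (nat_lit 76) (nat_lit 1795939275)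 (nat_lit 0) (nat_lit 223391484) (nat_lit 152) (nat_lit 1792367664) (nat_lit 101) (nat_lit 1) (nat_lit 100) (nat_lit 1) (nat_lit 102) (nat_lit 1) (nat_lit 361) (nat_lit 371) (nat_lit 288)) (XT.nd (nat_lit 78) (nat_lit 152) (nat_lit 0) (XT.lf (nat_lit 0) (nat_lit 125818206) (nat_lit 0) (nat_lit 2202426971) (nat_lit 152) (nat_lit 1420967269) (nat_lit 99) (nat_lit 3) (nat_lit 99) (nat_lit 1) (nat_lit 101) (nat_lit 1) (nat_lit 362) (nat_lit 371) (nat_lit 287)) (XT.lf (nat_lit 76) (nat_lit 2174559060) (nat_lit 0) (nat_lit 451001429) (nat_lit 152) (nat_lit 1062189732) (nat_lit 98) (nat_lit 1) (nat_lit 97) (nat_lit 1) (nat_lit 99) (nat_lit 1) (nat_lit 363) (nat_lit 371) (nat_lit 286)))) (XT.nd (nat_lit 156) (nat_lit 304) (nat_lit 0) (XT.nd (nat_lit 78) (nat_lit 152) (nat_lit 0) (XT.lf (nat_lit 0) (nat_lit 543018285) (nat_lit 0) (nat_lit 2371703106) (nat_lit 152) (nat_lit 712664752) (nat_lit 96) (nat_lit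 3) (nat_lit 96) (nat_lit 1) (nat_lit 98) (nat_lit 1) (nat_lit 364) (nat_lit 371) (nat_lit 285)) (XT.lf (nat_lit 76) (nat_lit 2520587145) (nat_lit 0) (nat_lit 673915201) (nat_lit 152) (nat_lit 373556731) (nat_lit 95) (nat_lit 1) (nat_lit 94) (nat_lit 1) (nat_lit 96) (nat_lit 1) (nat_lit 365) (nat_lit 371) (nat_lit 284))) (XT.nd (nat_lit 78) (nat_lit 228) (nat_lit 0) (XT.lf (nat_lit 0) (nat_lit 927135275) (nat_lit 0) (nat_lit 2537495507) (nat_lit 152) (nat_lit 45105346) (nat_lit 93) (nat_lit 3) (nat_lit 93) (nat_lit 1) (nat_lit 95) (nat_lit 1) (nat_lit 366) (nat_lit 371) (nat_lit 283)) (XT.lf (nat_lit 152) (nat_lit 2558770740) (nat_lit 0) (nat_lit 280343791) (nat_lit 76) (nat_lit 613262219) (nat_lit 92) (nat_lit 1) (nat_lit 90) (nat_lit 1) (nat_lit 91) (nat_lit 1) (nat_lit 367) (nat_lit 371) (nat_lit 282))))) (XT.nd (nat_lit 234) (nat_lit 532) (nat_lit 0) (XT.nd (nat_lit 78) (nat_lit 228) (nat_lit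 0) (XT.lf (nat_lit 76) (nat_lit 691584472) (nat_lit 0) (nat_lit 594657379) (nat_lit 76) (nat_lit 2109685638) (nat_lit 90) (nat_lit 3) (nat_lit 89) (nat_lit 1) (nat_lit 90) (nat_lit 1) (nat_lit 368) (nat_lit 371) (nat_lit 281)) (XT.nd (nat_lit 78) (nat_lit 76) (nat_lit 0) (XT.lf (nat_lit 152) (nat_lit 2230847678) (nat_lit 0) (nat_lit 902076522) (nat_lit 76) (nat_lit 207602818) (nat_lit 89) (nat_lit 1) (nat_lit 87) (nat_lit 1) (nat_lit 88) (nat_lit 1) (nat_lit 369) (nat_lit 371) (nat_lit 280)) (XT.lf (nat_lit 76) (nat_lit 420324579) (nat_lit 0) (nat_lit 1196529851) (nat_lit 76) (nat_lit 1669120270) (nat_lit 87) (nat_lit 3) (nat_lit 86) (nat_lit 1) (nat_lit 87) (nat_lit 1) (nat_lit 370) (nat_lit 371) (nat_lit 279)))) (XT.nd (nat_lit 156) (nat_lit 304) (nat_lit 0) (XT.nd (nat_lit 78) (nat_lit 76) (nat_lit 0) (XT.lf (nat_lit 0) (nat_lit 164637987) (nat_lit 0) (nat_lit 1319326559) (nat_lit 152) (nat_lit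 1748455861) (nat_lit 84) (nat_lit 3) (nat_lit 84) (nat_lit 1) (nat_lit 86) (nat_lit 1) (nat_lit 371) (nat_lit 371) (nat_lit 278)) (XT.lf (nat_lit 76) (nat_lit 159506759) (nat_lit 0) (nat_lit 1761026627) (nat_lit 76) (nat_lit 1259210160) (nat_lit 84) (nat_lit 3) (nat_lit 83) (nat_lit 1) (nat_lit 84) (nat_lit 1) (nat_lit 372) (nat_lit 371) (nat_lit 277))) (XT.nd (nat_lit 78) (nat_lit 152) (nat_lit 0) (XT.lf (nat_lit 0) (nat_lit 505245152) (nat_lit 0) (nat_lit 1522076777) (nat_lit 152) (nat_lit 1100588238) (nat_lit 81) (nat_lit 3) (nat_lit 81) (nat_lit 1) (nat_lit 83) (nat_lit 1) (nat_lit 373) (nat_lit 371) (nat_lit 276)) (XT.lf (nat_lit 76) (nat_lit 2199993292) (nat_lit 0) (nat_lit 88676348) (nat_lit 152) (nat_lit 788398082) (nat_lit 80) (nat_lit 1) (nat_lit 79) (nat_lit 1) (nat_lit 81) (nat_lit 1) (nat_lit 374) (nat_lit 371) (nat_lit 275))))))))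
noncomputable def ec64 : XT := (XT.nd (nat_lit 45942) (nat_lit 0) (nat_lit 13300) (XT.nd (nat_lit 1014) (nat_lit 836) (nat_lit 0) (XT.nd (nat_lit 468) (nat_lit 836) (nat_lit 0) (XT.nd (nat_lit 234) (nat_lit 380) (nat_lit 0) (XT.nd (nat_lit 78) (nat_lit 304) (nat_lit 0) (XT.lf (nat_lit 0) (nat_lit 820090049) (nat_lit 0) (nat_lit 1715523309) (nat_lit 152) (nat_lit 491305806) (nat_lit 78) (nat_lit 3) (nat_lit 78) (nat_lit 1) (nat_lit 80) (nat_lit 1) (nat_lit 375) (nat_lit 371) (nat_lit 274)) (XT.nd (nat_lit 78) (nat_lit 152) (nat_lit 0) (XT.lf (nat_lit 76) (nat_lit 2457493534) (nat_lit 0) (nat_lit 322805878) (nat_lit 152) (nat_lit 197497647) (nat_lit 77) (nat_lit 1) (nat_lit 76) (nat_lit 1) (nat_lit 78) (nat_lit 1) (nat_lit 376) (nat_lit 371) (nat_lit 273)) (XT.lf (nat_lit 76) (nat_lit 1029115107) (nat_lit 0) (nat_lit 82534382) (nat_lit 76) (nat_lit 1817643615) (nat_lit 75) (nat_lit 3) (nat_lit 74)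 (nat_lit 1) (nat_lit 75) (nat_lit 1) (nat_lit 377) (nat_lit 371) (nat_lit 272)))) (XT.nd (nat_lit 78) (nat_lit 228) (nat_lit 0) (XT.lf (nat_lit 152) (nat_lit 2332417794) (nat_lit 0) (nat_lit 364155488) (nat_lit 76) (nat_lit 185172107) (nat_lit 74) (nat_lit 1) (nat_lit 72) (nat_lit 1) (nat_lit 73) (nat_lit 1) (nat_lit 378) (nat_lit 371) (nat_lit 271)) (XT.nd (nat_lit 78) (nat_lit 152) (nat_lit 0) (XT.lf (nat_lit 76) (nat_lit 755252753) (nat_lit 0) (nat_lit 629904803) (nat_lit 76) (nat_lit 1449639744) (nat_lit 72) (nat_lit 3) (nat_lit 71) (nat_lit 1) (nat_lit 72) (nat_lit 1) (nat_lit 379) (nat_lit 371) (nat_lit 270)) (XT.lf (nat_lit 0) (nat_lit 125437341) (nat_lit 0) (nat_lit 767496510) (nat_lit 152) (nat_lit 1895877812) (nat_lit 69) (nat_lit 3) (nat_lit 69) (nat_lit 1) (nat_lit 71) (nat_lit 1) (nat_lit 380) (nat_lit 371) (nat_lit 269))))) (XT.nd (nat_lit 234) (nat_lit 532) (nat_lit 0) (XT.nd (nat_lit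 78) (nat_lit 228) (nat_lit 0) (XT.lf (nat_lit 76) (nat_lit 494713877) (nat_lit 0) (nat_lit 1142544360) (nat_lit 76) (nat_lit 1106198800) (nat_lit 69) (nat_lit 3) (nat_lit 68) (nat_lit 1) (nat_lit 69) (nat_lit 1) (nat_lit 381) (nat_lit 371) (nat_lit 268)) (XT.nd (nat_lit 78) (nat_lit 76) (nat_lit 0) (XT.lf (nat_lit 0) (nat_lit 410334046) (nat_lit 0) (nat_lit 975738505) (nat_lit 152) (nat_lit 1312855082) (nat_lit 66) (nat_lit 3) (nat_lit 66) (nat_lit 1) (nat_lit 68) (nat_lit 1) (nat_lit 382) (nat_lit 371) (nat_lit 267)) (XT.lf (nat_lit 76) (nat_lit 247368978) (nat_lit 0) (nat_lit 1621939990) (nat_lit 76) (nat_lit 785849416) (nat_lit 66) (nat_lit 3) (nat_lit 65) (nat_lit 1) (nat_lit 66) (nat_lit 1) (nat_lit 383) (nat_lit 371) (nat_lit 266)))) (XT.nd (nat_lit 156) (nat_lit 304) (nat_lit 0) (XT.nd (nat_lit 78) (nat_lit 76) (nat_lit 0) (XT.lf (nat_lit 0) (nat_lit 674483269) (nat_lit 0) (nat_lit 1172384737)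 (nat_lit 152) (nat_lit 765167064) (nat_lit 63) (nat_lit 3) (nat_lit 63) (nat_lit 1) (nat_lit 65) (nat_lit 1) (nat_lit 384) (nat_lit 371) (nat_lit 265)) (XT.lf (nat_lit 76) (nat_lit 13027617) (nat_lit 0) (nat_lit 2069545272) (nat_lit 76) (nat_lit 487219491) (nat_lit 63) (nat_lit 3) (nat_lit 62) (nat_lit 1) (nat_lit 63) (nat_lit 1) (nat_lit 385) (nat_lit 371) (nat_lit 264))) (XT.nd (nat_lit 78) (nat_lit 152) (nat_lit 0) (XT.lf (nat_lit 0) (nat_lit 919145520) (nat_lit 0) (nat_lit 1357603101) (nat_lit 152) (nat_lit 251278534) (nat_lit 60) (nat_lit 3) (nat_lit 60) (nat_lit 1) (nat_lit 62) (nat_lit 1) (nat_lit 386) (nat_lit 371) (nat_lit 263)) (XT.lf (nat_lit 76) (nat_lit 2280231595) (nat_lit 0) (nat_lit 204481233) (nat_lit 152) (nat_lit 2481745) (nat_lit 59) (nat_lit 1) (nat_lit 58) (nat_lit 1) (nat_lit 60) (nat_lit 1) (nat_lit 387) (nat_lit 371) (nat_lit 262)))))) (XT.nd (nat_lit 44382) (nat_lit 0)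 (nat_lit 24852) (XT.nd (nat_lit 234) (nat_lit 456) (nat_lit 0) (XT.nd (nat_lit 78) (nat_lit 228) (nat_lit 0) (XT.lf (nat_lit 76) (nat_lit 912867772) (nat_lit 0) (nat_lit 234887684) (nat_lit 76) (nat_lit 1298978405) (nat_lit 57) (nat_lit 3) (nat_lit 56) (nat_lit 1) (nat_lit 57) (nat_lit 1) (nat_lit 388) (nat_lit 371) (nat_lit 261)) (XT.nd (nat_lit 78) (nat_lit 76) (nat_lit 0) (XT.lf (nat_lit 0) (nat_lit 57593237) (nat_lit 0) (nat_lit 414607229) (nat_lit 152) (nat_lit 1934971276) (nat_lit 54) (nat_lit 3) (nat_lit 54) (nat_lit 1) (nat_lit 56) (nat_lit 1) (nat_lit 389) (nat_lit 371) (nat_lit 260)) (XT.lf (nat_lit 76) (nat_lit 666730612) (nat_lit 0) (nat_lit 694585506) (nat_lit 76) (nat_lit 1006743938) (nat_lit 54) (nat_lit 3) (nat_lit 53) (nat_lit 1) (nat_lit 54) (nat_lit 1) (nat_lit 390) (nat_lit 371) (nat_lit 259)))) (XT.nd (nat_lit 156) (nat_lit 228) (nat_lit 0) (XT.nd (nat_lit 78) (nat_lit 76)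 (nat_lit 0) (XT.lf (nat_lit 0) (nat_lit 299952794) (nat_lit 0) (nat_lit 614343294) (nat_lit 152) (nat_lit 1415442744) (nat_lit 51) (nat_lit 3) (nat_lit 51) (nat_lit 1) (nat_lit 53) (nat_lit 1) (nat_lit 391) (nat_lit 371) (nat_lit 258)) (XT.lf (nat_lit 76) (nat_lit 434158678) (nat_lit 0) (nat_lit 1124248326) (nat_lit 76) (nat_lit 733578202) (nat_lit 51) (nat_lit 3) (nat_lit 50) (nat_lit 1) (nat_lit 51) (nat_lit 1) (nat_lit 392) (nat_lit 371) (nat_lit 257))) (XT.nd (nat_lit 78) (nat_lit 76) (nat_lit 0) (XT.lf (nat_lit 0) (nat_lit 525176784) (nat_lit 0) (nat_lit 802032562) (nat_lit 152) (nat_lit 927654201) (nat_lit 48) (nat_lit 3) (nat_lit 48) (nat_lit 1) (nat_lit 50) (nat_lit 1) (nat_lit 393) (nat_lit 371) (nat_lit 256)) (XT.lf (nat_lit 76) (nat_lit 214740921) (nat_lit 0) (nat_lit 1525264673) (nat_lit 76) (nat_lit 478413090) (nat_lit 48) (nat_lit 3) (nat_lit 47) (nat_lit 1) (nat_lit 48) (nat_lit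 1) (nat_lit 394) (nat_lit 371) (nat_lit 255))))) (XT.nd (nat_lit 234) (nat_lit 0) (nat_lit 152) (XT.nd (nat_lit 78) (nat_lit 0) (nat_lit 76) (XT.lf (nat_lit 1292) (nat_lit 1777142477) (nat_lit 0) (nat_lit 6114196617) (nat_lit 1292) (nat_lit 1777142477) (nat_lit 391) (nat_lit 1) (nat_lit 374) (nat_lit 0) (nat_lit 391) (nat_lit 0) (nat_lit 276) (nat_lit 372) (nat_lit 372)) (XT.nd (nat_lit 78) (nat_lit 0) (nat_lit 0) (XT.lf (nat_lit 1292) (nat_lit 142476627) (nat_lit 0) (nat_lit 12055910028) (nat_lit 1216) (nat_lit 6674612533) (nat_lit 392) (nat_lit 1) (nat_lit 375) (nat_lit 1) (nat_lit 391) (nat_lit 1) (nat_lit 277) (nat_lit 372) (nat_lit 371)) (XT.lf (nat_lit 1292) (nat_lit 6268359032) (nat_lit 76) (nat_lit 8866364475) (nat_lit 0) (nat_lit 3288508275) (nat_lit 392) (nat_lit 1) (nat_lit 376) (nat_lit 1) (nat_lit 375) (nat_lit 1) (nat_lit 278) (nat_lit 372) (nat_lit 370)))) (XT.nd (nat_lit 156) (nat_lit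 0) (nat_lit 152) (XT.nd (nat_lit 78) (nat_lit 0) (nat_lit 76) (XT.lf (nat_lit 1292) (nat_lit 5510419118) (nat_lit 76) (nat_lit 5803669998) (nat_lit 0) (nat_lit 6673938198) (nat_lit 393) (nat_lit 1) (nat_lit 377) (nat_lit 1) (nat_lit 376) (nat_lit 1) (nat_lit 279) (nat_lit 372) (nat_lit 369)) (XT.lf (nat_lit 1292) (nat_lit 4560242865) (nat_lit 76) (nat_lit 2997898703) (nat_lit 0) (nat_lit 10008754949) (nat_lit 394) (nat_lit 1) (nat_lit 378) (nat_lit 1) (nat_lit 377) (nat_lit 1) (nat_lit 280) (nat_lit 372) (nat_lit 368))) (XT.nd (nat_lit 78) (nat_lit 0) (nat_lit 76) (XT.lf (nat_lit 1292) (nat_lit 3432483302) (nat_lit 76) (nat_lit 435850130) (nat_lit 0) (nat_lit 13290995948) (nat_lit 395) (nat_lit 1) (nat_lit 379) (nat_lit 1) (nat_lit 378) (nat_lit 1) (nat_lit 281) (nat_lit 372) (nat_lit 367)) (XT.lf (nat_lit 1292) (nat_lit 264111285) (nat_lit 0) (nat_lit 14642095191) (nat_lit 1216) (nat_lit 1858083179)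 (nat_lit 396) (nat_lit 1) (nat_lit 379) (nat_lit 1) (nat_lit 395) (nat_lit 1) (nat_lit 282) (nat_lit 372) (nat_lit 366))))))) (XT.nd (nat_lit 1092) (nat_lit 5472) (nat_lit 0) (XT.nd (nat_lit 546) (nat_lit 3344) (nat_lit 0) (XT.nd (nat_lit 234) (nat_lit 1900) (nat_lit 0) (XT.nd (nat_lit 78) (nat_lit 1216) (nat_lit 0) (XT.lf (nat_lit 1292) (nat_lit 626001202) (nat_lit 76) (nat_lit 12420120864) (nat_lit 0) (nat_lit 3334707265) (nat_lit 396) (nat_lit 1) (nat_lit 380) (nat_lit 1) (nat_lit 379) (nat_lit 1) (nat_lit 283) (nat_lit 372) (nat_lit 365)) (XT.nd (nat_lit 78) (nat_lit 0) (nat_lit 76) (XT.lf (nat_lit 1368) (nat_lit 9149000472) (nat_lit 0) (nat_lit 988911266) (nat_lit 1292) (nat_lit 5871320183) (nat_lit 381) (nat_lit 1) (nat_lit 363) (nat_lit 1) (nat_lit 380) (nat_lit 1) (nat_lit 284) (nat_lit 372) (nat_lit 364)) (XT.lf (nat_lit 1368) (nat_lit 5340221986) (nat_lit 0) (nat_lit 2713456023) (nat_lit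 1292) (nat_lit 7595534686) (nat_lit 382) (nat_lit 1) (nat_lit 364) (nat_lit 1) (nat_lit 381) (nat_lit 1) (nat_lit 285) (nat_lit 372) (nat_lit 363)))) (XT.nd (nat_lit 156) (nat_lit 1216) (nat_lit 0) (XT.nd (nat_lit 78) (nat_lit 836) (nat_lit 0) (XT.lf (nat_lit 76) (nat_lit 1613843414) (nat_lit 0) (nat_lit 4549270080) (nat_lit 1292) (nat_lit 9137422033) (nat_lit 366) (nat_lit 1) (nat_lit 365) (nat_lit 1) (nat_lit 382) (nat_lit 1) (nat_lit 286) (nat_lit 372) (nat_lit 362)) (XT.lf (nat_lit 912) (nat_lit 8455900167) (nat_lit 0) (nat_lit 4435697983) (nat_lit 836) (nat_lit 2070604735) (nat_lit 366) (nat_lit 1) (nat_lit 354) (nat_lit 1) (nat_lit 365) (nat_lit 1) (nat_lit 287) (nat_lit 372) (nat_lit 361))) (XT.nd (nat_lit 78) (nat_lit 608) (nat_lit 0) (XT.lf (nat_lit 684) (nat_lit 6063673432) (nat_lit 0) (nat_lit 2866909272) (nat_lit 608) (nat_lit 5703393824) (nat_lit 355) (nat_lit 1) (nat_lit 346) (nat_lit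 1) (nat_lit 354) (nat_lit 1) (nat_lit 288) (nat_lit 372) (nat_lit 360)) (XT.lf (nat_lit 684) (nat_lit 3599312567) (nat_lit 0) (nat_lit 1463926989) (nat_lit 608) (nat_lit 9252721519) (nat_lit 347) (nat_lit 1) (nat_lit 338) (nat_lit 1) (nat_lit 346) (nat_lit 1) (nat_lit 289) (nat_lit 372) (nat_lit 359))))) (XT.nd (nat_lit 234) (nat_lit 2128) (nat_lit 0) (XT.nd (nat_lit 78) (nat_lit 684) (nat_lit 0) (XT.lf (nat_lit 608) (nat_lit 1070731225) (nat_lit 0) (nat_lit 218055198) (nat_lit 532) (nat_lit 12719014316) (nat_lit 339) (nat_lit 1) (nat_lit 331) (nat_lit 1) (nat_lit 338) (nat_lit 1) (nat_lit 290) (nat_lit 372) (nat_lit 358)) (XT.nd (nat_lit 78) (nat_lit 608) (nat_lit 0) (XT.lf (nat_lit 76) (nat_lit 11290406426) (nat_lit 0) (nat_lit 1517239068) (nat_lit 608) (nat_lit 900106645) (nat_lit 331) (nat_lit 1) (nat_lit 330) (nat_lit 1) (nat_lit 338) (nat_lit 1) (nat_lit 291) (nat_lit 372) (nat_lit 357))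 (XT.lf (nat_lit 76) (nat_lit 7371921702) (nat_lit 0) (nat_lit 4145778305) (nat_lit 684) (nat_lit 1898486353) (nat_lit 323) (nat_lit 1) (nat_lit 322) (nat_lit 1) (nat_lit 331) (nat_lit 1) (nat_lit 292) (nat_lit 372) (nat_lit 356)))) (XT.nd (nat_lit 156) (nat_lit 1064) (nat_lit 0) (XT.nd (nat_lit 78) (nat_lit 532) (nat_lit 0) (XT.lf (nat_lit 76) (nat_lit 3553300297) (nat_lit 0) (nat_lit 6814610953) (nat_lit 608) (nat_lit 2765629558) (nat_lit 316) (nat_lit 1) (nat_lit 315) (nat_lit 1) (nat_lit 323) (nat_lit 1) (nat_lit 293) (nat_lit 372) (nat_lit 355)) (XT.lf (nat_lit 608) (nat_lit 3339997722) (nat_lit 0) (nat_lit 9349284546) (nat_lit 532) (nat_lit 170179080) (nat_lit 316) (nat_lit 1) (nat_lit 308) (nat_lit 1) (nat_lit 315) (nat_lit 1) (nat_lit 294) (nat_lit 372) (nat_lit 354))) (XT.nd (nat_lit 78) (nat_lit 608) (nat_lit 0) (XT.lf (nat_lit 532) (nat_lit 305628773) (nat_lit 0) (nat_lit 8421628426)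 (nat_lit 456) (nat_lit 3865429761) (nat_lit 309) (nat_lit 1) (nat_lit 302) (nat_lit 1) (nat_lit 308) (nat_lit 1) (nat_lit 295) (nat_lit 372) (nat_lit 353)) (XT.lf (nat_lit 76) (nat_lit 4897099295) (nat_lit 0) (nat_lit 2689892629) (nat_lit 608) (nat_lit 4746196724) (nat_lit 295) (nat_lit 1) (nat_lit 294) (nat_lit 1) (nat_lit 302) (nat_lit 1) (nat_lit 296) (nat_lit 372) (nat_lit 352)))))) (XT.nd (nat_lit 546) (nat_lit 2432) (nat_lit 0) (XT.nd (nat_lit 234) (nat_lit 1672) (nat_lit 0) (XT.nd (nat_lit 78) (nat_lit 912) (nat_lit 0) (XT.lf (nat_lit 76) (nat_lit 1173646025) (nat_lit 0) (nat_lit 5689400854) (nat_lit 532) (nat_lit 5218347262) (nat_lit 289) (nat_lit 1) (nat_lit 288) (nat_lit 1) (nat_lit 295) (nat_lit 1) (nat_lit 297) (nat_lit 372) (nat_lit 351)) (XT.nd (nat_lit 78) (nat_lit 456) (nat_lit 0) (XT.lf (nat_lit 532) (nat_lit 3117694176) (nat_lit 0) (nat_lit 6222069366) (nat_lit 456) (nat_lit 2496647073)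 (nat_lit 289) (nat_lit 1) (nat_lit 282) (nat_lit 1) (nat_lit 288) (nat_lit 1) (nat_lit 298) (nat_lit 372) (nat_lit 350)) (XT.lf (nat_lit 76) (nat_lit 5511618185) (nat_lit 0) (nat_lit 158958554) (nat_lit 456) (nat_lit 5927767455) (nat_lit 277) (nat_lit 1) (nat_lit 276) (nat_lit 1) (nat_lit 282) (nat_lit 1) (nat_lit 299) (nat_lit 372) (nat_lit 349)))) (XT.nd (nat_lit 156) (nat_lit 836) (nat_lit 0) (XT.nd (nat_lit 78) (nat_lit 380) (nat_lit 0) (XT.lf (nat_lit 76) (nat_lit 1820433132) (nat_lit 0) (nat_lit 3365309388) (nat_lit 532) (nat_lit 6180705399) (nat_lit 271) (nat_lit 1) (nat_lit 270) (nat_lit 1) (nat_lit 277) (nat_lit 1) (nat_lit 300) (nat_lit 372) (nat_lit 348)) (XT.lf (nat_lit 456) (nat_lit 4564368827) (nat_lit 0) (nat_lit 4775373795) (nat_lit 380) (nat_lit 1801126011) (nat_lit 271) (nat_lit 1) (nat_lit 265) (nat_lit 1) (nat_lit 270) (nat_lit 1) (nat_lit 301) (nat_lit 372) (nat_lit 347)))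 (XT.nd (nat_lit 78) (nat_lit 456) (nat_lit 0) (XT.lf (nat_lit 456) (nat_lit 1132117173) (nat_lit 0) (nat_lit 4434966504) (nat_lit 380) (nat_lit 5354312465) (nat_lit 266) (nat_lit 1) (nat_lit 260) (nat_lit 1) (nat_lit 265) (nat_lit 1) (nat_lit 302) (nat_lit 372) (nat_lit 346)) (XT.lf (nat_lit 76) (nat_lit 1925077158) (nat_lit 0) (nat_lit 2230518221) (nat_lit 456) (nat_lit 6552097600) (nat_lit 255) (nat_lit 1) (nat_lit 254) (nat_lit 1) (nat_lit 260) (nat_lit 1) (nat_lit 303) (nat_lit 372) (nat_lit 345))))) (XT.nd (nat_lit 234) (nat_lit 1292) (nat_lit 0) (XT.nd (nat_lit 78) (nat_lit 760) (nat_lit 0) (XT.lf (nat_lit 456) (nat_lit 4939487128) (nat_lit 0) (nat_lit 3928123248) (nat_lit 380) (nat_lit 1631806605) (nat_lit 255) (nat_lit 1) (nat_lit 249) (nat_lit 1) (nat_lit 254) (nat_lit 1) (nat_lit 304) (nat_lit 372) (nat_lit 344)) (XT.nd (nat_lit 78) (nat_lit 456) (nat_lit 0) (XT.lf (nat_lit 380) (nat_lit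 1418152223) (nat_lit 0) (nat_lit 3757184162) (nat_lit 304) (nat_lit 5121292158) (nat_lit 250) (nat_lit 1) (nat_lit 245) (nat_lit 1) (nat_lit 249) (nat_lit 1) (nat_lit 305) (nat_lit 372) (nat_lit 343)) (XT.lf (nat_lit 76) (nat_lit 1612035784) (nat_lit 0) (nat_lit 2025562140) (nat_lit 456) (nat_lit 6461505696) (nat_lit 240) (nat_lit 1) (nat_lit 239) (nat_lit 1) (nat_lit 245) (nat_lit 1) (nat_lit 306) (nat_lit 372) (nat_lit 342)))) (XT.nd (nat_lit 156) (nat_lit 684) (nat_lit 0) (XT.nd (nat_lit 78) (nat_lit 304) (nat_lit 0) (XT.lf (nat_lit 380) (nat_lit 4484670493) (nat_lit 0) (nat_lit 3553689535) (nat_lit 304) (nat_lit 1867953865) (nat_lit 240) (nat_lit 1) (nat_lit 235) (nat_lit 1) (nat_lit 239) (nat_lit 1) (nat_lit 307) (nat_lit 372) (nat_lit 341)) (XT.lf (nat_lit 380) (nat_lit 925179590) (nat_lit 0) (nat_lit 3518978407) (nat_lit 304) (nat_lit 5274424732) (nat_lit 236) (nat_lit 1) (nat_lit 231) (nat_lit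 1) (nat_lit 235) (nat_lit 1) (nat_lit 308) (nat_lit 372) (nat_lit 340))) (XT.nd (nat_lit 78) (nat_lit 304) (nat_lit 0) (XT.lf (nat_lit 76) (nat_lit 983190672) (nat_lit 0) (nat_lit 2537293029) (nat_lit 380) (nat_lit 6014979287) (nat_lit 227) (nat_lit 1) (nat_lit 226) (nat_lit 1) (nat_lit 231) (nat_lit 1) (nat_lit 309) (nat_lit 372) (nat_lit 339)) (XT.lf (nat_lit 380) (nat_lit 3398042064) (nat_lit 0) (nat_lit 3547793112) (nat_lit 304) (nat_lit 2410748477) (nat_lit 227) (nat_lit 1) (nat_lit 222) (nat_lit 1) (nat_lit 226) (nat_lit 1) (nat_lit 310) (nat_lit 372) (nat_lit 338))))))))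
noncomputable def ec65 : XT := (XT.nd (nat_lit 2184) (nat_lit 3876) (nat_lit 0) (XT.nd (nat_lit 1092) (nat_lit 2584) (nat_lit 0) (XT.nd (nat_lit 546) (nat_lit 1672) (nat_lit 0) (XT.nd (nat_lit 234) (nat_lit 1140) (nat_lit 0) (XT.nd (nat_lit 78) (nat_lit 532) (nat_lit 0) (XT.lf (nat_lit 76) (nat_lit 3464288591) (nat_lit 0) (nat_lit 155870457) (nat_lit 304) (nat_lit 5562279972) (nat_lit 219) (nat_lit 1) (nat_lit 218) (nat_lit 1) (nat_lit 222) (nat_lit 1) (nat_lit 311) (nat_lit 372) (nat_lit 337)) (XT.nd (nat_lit 78) (nat_lit 228) (nat_lit 0) (XT.lf (nat_lit 76) (nat_lit 121645411) (nat_lit 0) (nat_lit 3591136637) (nat_lit 380) (nat_lit 5299459539) (nat_lit 215) (nat_lit 1) (nat_lit 214) (nat_lit 1) (nat_lit 219) (nat_lit 1) (nat_lit 312) (nat_lit 372) (nat_lit 336)) (XT.lf (nat_lit 304) (nat_lit 1841518456) (nat_lit 0) (nat_lit 3824784753) (nat_lit 228) (nat_lit 3179598644) (nat_lit 215) (nat_lit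 1) (nat_lit 211) (nat_lit 1) (nat_lit 214) (nat_lit 1) (nat_lit 313) (nat_lit 372) (nat_lit 335)))) (XT.nd (nat_lit 156) (nat_lit 532) (nat_lit 0) (XT.nd (nat_lit 78) (nat_lit 228) (nat_lit 0) (XT.lf (nat_lit 76) (nat_lit 2319787659) (nat_lit 0) (nat_lit 1648103108) (nat_lit 380) (nat_lit 4715807787) (nat_lit 207) (nat_lit 1) (nat_lit 206) (nat_lit 1) (nat_lit 211) (nat_lit 1) (nat_lit 314) (nat_lit 372) (nat_lit 334)) (XT.lf (nat_lit 304) (nat_lit 3471740742) (nat_lit 0) (nat_lit 4130376060) (nat_lit 228) (nat_lit 923111878) (nat_lit 207) (nat_lit 1) (nat_lit 203) (nat_lit 1) (nat_lit 206) (nat_lit 1) (nat_lit 315) (nat_lit 372) (nat_lit 333))) (XT.nd (nat_lit 78) (nat_lit 228) (nat_lit 0) (XT.lf (nat_lit 76) (nat_lit 4261952873) (nat_lit 0) (nat_lit 52054934) (nat_lit 304) (nat_lit 4056475532) (nat_lit 200) (nat_lit 1) (nat_lit 199) (nat_lit 1) (nat_lit 203) (nat_lit 1) (nat_lit 316) (nat_lit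 372) (nat_lit 332)) (XT.lf (nat_lit 76) (nat_lit 1059166584) (nat_lit 0) (nat_lit 3447227972) (nat_lit 304) (nat_lit 3712647850) (nat_lit 197) (nat_lit 1) (nat_lit 196) (nat_lit 1) (nat_lit 200) (nat_lit 1) (nat_lit 317) (nat_lit 372) (nat_lit 331))))) (XT.nd (nat_lit 234) (nat_lit 912) (nat_lit 0) (XT.nd (nat_lit 78) (nat_lit 532) (nat_lit 0) (XT.lf (nat_lit 304) (nat_lit 1269226367) (nat_lit 0) (nat_lit 4718812663) (nat_lit 228) (nat_lit 2083137203) (nat_lit 197) (nat_lit 1) (nat_lit 193) (nat_lit 1) (nat_lit 196) (nat_lit 1) (nat_lit 318) (nat_lit 372) (nat_lit 330)) (XT.nd (nat_lit 78) (nat_lit 228) (nat_lit 0) (XT.lf (nat_lit 76) (nat_lit 2801784453) (nat_lit 0) (nat_lit 2136463903) (nat_lit 304) (nat_lit 2988200445) (nat_lit 190) (nat_lit 1) (nat_lit 189) (nat_lit 1) (nat_lit 193) (nat_lit 1) (nat_lit 319) (nat_lit 372) (nat_lit 329)) (XT.lf (nat_lit 304) (nat_lit 2328384138) (nat_lit 0)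 (nat_lit 5180017088) (nat_lit 228) (nat_lit 276849070) (nat_lit 190) (nat_lit 1) (nat_lit 186) (nat_lit 1) (nat_lit 189) (nat_lit 1) (nat_lit 320) (nat_lit 372) (nat_lit 328)))) (XT.nd (nat_lit 156) (nat_lit 456) (nat_lit 0) (XT.nd (nat_lit 78) (nat_lit 228) (nat_lit 0) (XT.lf (nat_lit 76) (nat_lit 4346317141) (nat_lit 0) (nat_lit 1072783771) (nat_lit 228) (nat_lit 2227696305) (nat_lit 184) (nat_lit 1) (nat_lit 183) (nat_lit 1) (nat_lit 186) (nat_lit 1) (nat_lit 321) (nat_lit 372) (nat_lit 327)) (XT.lf (nat_lit 76) (nat_lit 1306846562) (nat_lit 0) (nat_lit 4363263970) (nat_lit 304) (nat_lit 1841350801) (nat_lit 181) (nat_lit 1) (nat_lit 180) (nat_lit 1) (nat_lit 184) (nat_lit 1) (nat_lit 322) (nat_lit 372) (nat_lit 326))) (XT.nd (nat_lit 78) (nat_lit 228) (nat_lit 0) (XT.lf (nat_lit 76) (nat_lit 5713693522) (nat_lit 0) (nat_lit 221619789) (nat_lit 228) (nat_lit 1443942613) (nat_lit 178) (nat_lit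 1) (nat_lit 177) (nat_lit 1) (nat_lit 180) (nat_lit 1) (nat_lit 323) (nat_lit 372) (nat_lit 325)) (XT.lf (nat_lit 76) (nat_lit 2712475855) (nat_lit 0) (nat_lit 3476170449) (nat_lit 304) (nat_lit 1060723818) (nat_lit 175) (nat_lit 1) (nat_lit 174) (nat_lit 1) (nat_lit 178) (nat_lit 1) (nat_lit 324) (nat_lit 372) (nat_lit 324)))))) (XT.nd (nat_lit 546) (nat_lit 1140) (nat_lit 0) (XT.nd (nat_lit 234) (nat_lit 760) (nat_lit 0) (XT.nd (nat_lit 78) (nat_lit 532) (nat_lit 0) (XT.lf (nat_lit 228) (nat_lit 456130240) (nat_lit 0) (nat_lit 6470769080) (nat_lit 152) (nat_lit 196038099) (nat_lit 175) (nat_lit 1) (nat_lit 172) (nat_lit 1) (nat_lit 174) (nat_lit 1) (nat_lit 325) (nat_lit 372) (nat_lit 323)) (XT.nd (nat_lit 78) (nat_lit 304) (nat_lit 0) (XT.lf (nat_lit 76) (nat_lit 3963302222) (nat_lit 0) (nat_lit 2764149672) (nat_lit 228) (nat_lit 270876610) (nat_lit 170) (nat_lit 1) (nat_lit 169) (nat_lit 1)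 (nat_lit 172) (nat_lit 1) (nat_lit 326) (nat_lit 372) (nat_lit 322)) (XT.lf (nat_lit 228) (nat_lit 966808338) (nat_lit 0) (nat_lit 134067602) (nat_lit 152) (nat_lit 5776027461) (nat_lit 168) (nat_lit 1) (nat_lit 165) (nat_lit 1) (nat_lit 167) (nat_lit 1) (nat_lit 327) (nat_lit 372) (nat_lit 321)))) (XT.nd (nat_lit 156) (nat_lit 380) (nat_lit 0) (XT.nd (nat_lit 78) (nat_lit 152) (nat_lit 0) (XT.lf (nat_lit 228) (nat_lit 4550347708) (nat_lit 0) (nat_lit 529967746) (nat_lit 152) (nat_lit 1677204762) (nat_lit 165) (nat_lit 1) (nat_lit 162) (nat_lit 1) (nat_lit 164) (nat_lit 1) (nat_lit 328) (nat_lit 372) (nat_lit 320)) (XT.lf (nat_lit 228) (nat_lit 1334775711) (nat_lit 0) (nat_lit 929582795) (nat_lit 152) (nat_lit 4376380331) (nat_lit 163) (nat_lit 1) (nat_lit 160) (nat_lit 1) (nat_lit 162) (nat_lit 1) (nat_lit 329) (nat_lit 372) (nat_lit 319))) (XT.nd (nat_lit 78) (nat_lit 152) (nat_lit 0) (XT.lf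 (nat_lit 228) (nat_lit 4745595782) (nat_lit 0) (nat_lit 1329573619) (nat_lit 152) (nat_lit 451245109) (nat_lit 160) (nat_lit 1) (nat_lit 157) (nat_lit 1) (nat_lit 159) (nat_lit 1) (nat_lit 330) (nat_lit 372) (nat_lit 318)) (XT.lf (nat_lit 228) (nat_lit 1588913660) (nat_lit 0) (nat_lit 1716497601) (nat_lit 152) (nat_lit 3108697851) (nat_lit 158) (nat_lit 1) (nat_lit 155) (nat_lit 1) (nat_lit 157) (nat_lit 1) (nat_lit 331) (nat_lit 372) (nat_lit 317))))) (XT.nd (nat_lit 234) (nat_lit 608) (nat_lit 0) (XT.nd (nat_lit 78) (nat_lit 304) (nat_lit 0) (XT.lf (nat_lit 76) (nat_lit 640482014) (nat_lit 0) (nat_lit 1469549804) (nat_lit 228) (nat_lit 4194318235) (nat_lit 153) (nat_lit 1) (nat_lit 152) (nat_lit 1) (nat_lit 155) (nat_lit 1) (nat_lit 332) (nat_lit 372) (nat_lit 316)) (XT.nd (nat_lit 78) (nat_lit 152) (nat_lit 0) (XT.lf (nat_lit 228) (nat_lit 1746954197) (nat_lit 0) (nat_lit 2489172012) (nat_lit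 152) (nat_lit 1960354517) (nat_lit 153) (nat_lit 1) (nat_lit 150) (nat_lit 1) (nat_lit 152) (nat_lit 1) (nat_lit 333) (nat_lit 372) (nat_lit 315)) (XT.lf (nat_lit 76) (nat_lit 1615773404) (nat_lit 0) (nat_lit 1253686365) (nat_lit 152) (nat_lit 3221450051) (nat_lit 149) (nat_lit 1) (nat_lit 148) (nat_lit 1) (nat_lit 150) (nat_lit 1) (nat_lit 334) (nat_lit 372) (nat_lit 314)))) (XT.nd (nat_lit 156) (nat_lit 304) (nat_lit 0) (XT.nd (nat_lit 78) (nat_lit 152) (nat_lit 0) (XT.lf (nat_lit 228) (nat_lit 1824312220) (nat_lit 0) (nat_lit 3242990184) (nat_lit 152) (nat_lit 920061546) (nat_lit 149) (nat_lit 1) (nat_lit 146) (nat_lit 1) (nat_lit 148) (nat_lit 1) (nat_lit 335) (nat_lit 372) (nat_lit 313)) (XT.lf (nat_lit 76) (nat_lit 2493704200) (nat_lit 0) (nat_lit 1114483819) (nat_lit 152) (nat_lit 2277566897) (nat_lit 145) (nat_lit 1) (nat_lit 144) (nat_lit 1) (nat_lit 146) (nat_lit 1) (nat_lit 336) (nat_lit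 372) (nat_lit 312))) (XT.nd (nat_lit 78) (nat_lit 152) (nat_lit 0) (XT.lf (nat_lit 76) (nat_lit 21849892) (nat_lit 0) (nat_lit 3952151496) (nat_lit 228) (nat_lit 1812300437) (nat_lit 143) (nat_lit 1) (nat_lit 142) (nat_lit 1) (nat_lit 145) (nat_lit 1) (nat_lit 337) (nat_lit 372) (nat_lit 311)) (XT.lf (nat_lit 76) (nat_lit 3283466735) (nat_lit 0) (nat_lit 1039431742) (nat_lit 152) (nat_lit 1365554842) (nat_lit 141) (nat_lit 1) (nat_lit 140) (nat_lit 1) (nat_lit 142) (nat_lit 1) (nat_lit 338) (nat_lit 372) (nat_lit 310))))))) (XT.nd (nat_lit 1092) (nat_lit 1748) (nat_lit 0) (XT.nd (nat_lit 546) (nat_lit 988) (nat_lit 0) (XT.nd (nat_lit 234) (nat_lit 684) (nat_lit 0) (XT.nd (nat_lit 78) (nat_lit 304) (nat_lit 0) (XT.lf (nat_lit 76) (nat_lit 858648039) (nat_lit 0) (nat_lit 3812583335) (nat_lit 228) (nat_lit 921414351) (nat_lit 139) (nat_lit 1) (nat_lit 138) (nat_lit 1) (nat_lit 141) (nat_lit 1) (nat_lit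 339) (nat_lit 372) (nat_lit 309)) (XT.nd (nat_lit 78) (nat_lit 152) (nat_lit 0) (XT.lf (nat_lit 76) (nat_lit 3993297477) (nat_lit 0) (nat_lit 1017681901) (nat_lit 152) (nat_lit 487626864) (nat_lit 137) (nat_lit 1) (nat_lit 136) (nat_lit 1) (nat_lit 138) (nat_lit 1) (nat_lit 340) (nat_lit 372) (nat_lit 308)) (XT.lf (nat_lit 76) (nat_lit 1616247600) (nat_lit 0) (nat_lit 3725154682) (nat_lit 228) (nat_lit 64872588) (nat_lit 135) (nat_lit 1) (nat_lit 134) (nat_lit 1) (nat_lit 137) (nat_lit 1) (nat_lit 341) (nat_lit 372) (nat_lit 307)))) (XT.nd (nat_lit 156) (nat_lit 304) (nat_lit 0) (XT.nd (nat_lit 78) (nat_lit 76) (nat_lit 0) (XT.lf (nat_lit 228) (nat_lit 4272421969) (nat_lit 0) (nat_lit 361638675) (nat_lit 152) (nat_lit 681679835) (nat_lit 133) (nat_lit 1) (nat_lit 130) (nat_lit 1) (nat_lit 132) (nat_lit 1) (nat_lit 342) (nat_lit 372) (nat_lit 306)) (XT.lf (nat_lit 152) (nat_lit 1538295447) (nat_lit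 0) (nat_lit 770912164) (nat_lit 76) (nat_lit 2917401887) (nat_lit 131) (nat_lit 1) (nat_lit 129) (nat_lit 1) (nat_lit 130) (nat_lit 1) (nat_lit 343) (nat_lit 372) (nat_lit 305))) (XT.nd (nat_lit 78) (nat_lit 76) (nat_lit 0) (XT.lf (nat_lit 76) (nat_lit 72406660) (nat_lit 0) (nat_lit 1109877403) (nat_lit 228) (nat_lit 3957180364) (nat_lit 127) (nat_lit 1) (nat_lit 126) (nat_lit 1) (nat_lit 129) (nat_lit 1) (nat_lit 344) (nat_lit 372) (nat_lit 304)) (XT.lf (nat_lit 152) (nat_lit 1366353760) (nat_lit 0) (nat_lit 1570465730) (nat_lit 76) (nat_lit 2116712552) (nat_lit 127) (nat_lit 1) (nat_lit 125) (nat_lit 1) (nat_lit 126) (nat_lit 1) (nat_lit 345) (nat_lit 372) (nat_lit 303))))) (XT.nd (nat_lit 234) (nat_lit 456) (nat_lit 0) (XT.nd (nat_lit 78) (nat_lit 304) (nat_lit 0) (XT.lf (nat_lit 76) (nat_lit 747742928) (nat_lit 0) (nat_lit 1210770927) (nat_lit 228) (nat_lit 3010934078) (nat_lit 123) (nat_lit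 1) (nat_lit 122) (nat_lit 1) (nat_lit 125) (nat_lit 1) (nat_lit 346) (nat_lit 372) (nat_lit 302)) (XT.nd (nat_lit 78) (nat_lit 228) (nat_lit 0) (XT.lf (nat_lit 152) (nat_lit 1172333466) (nat_lit 0) (nat_lit 2331892494) (nat_lit 76) (nat_lit 1382527481) (nat_lit 123) (nat_lit 1) (nat_lit 121) (nat_lit 1) (nat_lit 122) (nat_lit 1) (nat_lit 347) (nat_lit 372) (nat_lit 301)) (XT.lf (nat_lit 76) (nat_lit 1363181060) (nat_lit 0) (nat_lit 1333472076) (nat_lit 228) (nat_lit 2108937083) (nat_lit 119) (nat_lit 1) (nat_lit 118) (nat_lit 1) (nat_lit 121) (nat_lit 1) (nat_lit 348) (nat_lit 372) (nat_lit 300)))) (XT.nd (nat_lit 156) (nat_lit 228) (nat_lit 0) (XT.nd (nat_lit 78) (nat_lit 152) (nat_lit 0) (XT.lf (nat_lit 152) (nat_lit 961706245) (nat_lit 0) (nat_lit 3054931438) (nat_lit 76) (nat_lit 709348837) (nat_lit 119) (nat_lit 1) (nat_lit 117) (nat_lit 1) (nat_lit 118) (nat_lit 1) (nat_lit 349) (nat_lit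 372) (nat_lit 299)) (XT.lf (nat_lit 76) (nat_lit 1923734585) (nat_lit 0) (nat_lit 1472857376) (nat_lit 152) (nat_lit 1251021876) (nat_lit 116) (nat_lit 1) (nat_lit 115) (nat_lit 1) (nat_lit 117) (nat_lit 1) (nat_lit 350) (nat_lit 372) (nat_lit 298))) (XT.nd (nat_lit 78) (nat_lit 152) (nat_lit 0) (XT.lf (nat_lit 152) (nat_lit 739147752) (nat_lit 0) (nat_lit 3739611486) (nat_lit 76) (nat_lit 92203860) (nat_lit 116) (nat_lit 1) (nat_lit 114) (nat_lit 1) (nat_lit 115) (nat_lit 1) (nat_lit 351) (nat_lit 372) (nat_lit 297)) (XT.lf (nat_lit 76) (nat_lit 2433938609) (nat_lit 0) (nat_lit 1624546311) (nat_lit 152) (nat_lit 436774470) (nat_lit 113) (nat_lit 1) (nat_lit 112) (nat_lit 1) (nat_lit 114) (nat_lit 1) (nat_lit 352) (nat_lit 372) (nat_lit 296)))))) (XT.nd (nat_lit 546) (nat_lit 836) (nat_lit 0) (XT.nd (nat_lit 234) (nat_lit 532) (nat_lit 0) (XT.nd (nat_lit 78) (nat_lit 304) (nat_lit 0) (XT.lf (nat_lit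 0) (nat_lit 464173755) (nat_lit 0) (nat_lit 3917343874) (nat_lit 152) (nat_lit 39778078) (nat_lit 111) (nat_lit 3) (nat_lit 111) (nat_lit 1) (nat_lit 113) (nat_lit 1) (nat_lit 353) (nat_lit 372) (nat_lit 295)) (XT.nd (nat_lit 78) (nat_lit 76) (nat_lit 0) (XT.lf (nat_lit 152) (nat_lit 2560100242) (nat_lit 0) (nat_lit 341079675) (nat_lit 76) (nat_lit 1447005606) (nat_lit 110) (nat_lit 1) (nat_lit 108) (nat_lit 1) (nat_lit 109) (nat_lit 1) (nat_lit 354) (nat_lit 372) (nat_lit 294)) (XT.lf (nat_lit 76) (nat_lit 256583753) (nat_lit 0) (nat_lit 722596720) (nat_lit 76) (nat_lit 3297483842) (nat_lit 108) (nat_lit 3) (nat_lit 107) (nat_lit 1) (nat_lit 108) (nat_lit 1) (nat_lit 355) (nat_lit 372) (nat_lit 293)))) (XT.nd (nat_lit 156) (nat_lit 304) (nat_lit 0) (XT.nd (nat_lit 78) (nat_lit 76) (nat_lit 0) (XT.lf (nat_lit 152) (nat_lit 2245250268) (nat_lit 0) (nat_lit 1084524029) (nat_lit 76) (nat_lit 876372202)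 (nat_lit 107) (nat_lit 1) (nat_lit 105) (nat_lit 1) (nat_lit 106) (nat_lit 1) (nat_lit 356) (nat_lit 372) (nat_lit 292)) (XT.lf (nat_lit 76) (nat_lit 7940645) (nat_lit 0) (nat_lit 1443350564) (nat_lit 76) (nat_lit 2685791151) (nat_lit 105) (nat_lit 3) (nat_lit 104) (nat_lit 1) (nat_lit 105) (nat_lit 1) (nat_lit 357) (nat_lit 372) (nat_lit 291))) (XT.nd (nat_lit 78) (nat_lit 152) (nat_lit 0) (XT.lf (nat_lit 152) (nat_lit 1933024963) (nat_lit 0) (nat_lit 1785809326) (nat_lit 76) (nat_lit 350221777) (nat_lit 104) (nat_lit 1) (nat_lit 102) (nat_lit 1) (nat_lit 103) (nat_lit 1) (nat_lit 358) (nat_lit 372) (nat_lit 290)) (XT.lf (nat_lit 76) (nat_lit 1885736239) (nat_lit 0) (nat_lit 234561059) (nat_lit 152) (nat_lit 1881986048) (nat_lit 101) (nat_lit 1) (nat_lit 100) (nat_lit 1) (nat_lit 102) (nat_lit 1) (nat_lit 359) (nat_lit 372) (nat_lit 289))))) (XT.nd (nat_lit 234) (nat_lit 532) (nat_lit 0) (XT.nd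 (nat_lit 78) (nat_lit 228) (nat_lit 0) (XT.lf (nat_lit 0) (nat_lit 132109117) (nat_lit 0) (nat_lit 2312548320) (nat_lit 152) (nat_lit 1492015632) (nat_lit 99) (nat_lit 3) (nat_lit 99) (nat_lit 1) (nat_lit 101) (nat_lit 1) (nat_lit 360) (nat_lit 372) (nat_lit 288)) (XT.nd (nat_lit 78) (nat_lit 76) (nat_lit 0) (XT.lf (nat_lit 76) (nat_lit 2283287013) (nat_lit 0) (nat_lit 473551500) (nat_lit 152) (nat_lit 1115299218) (nat_lit 98) (nat_lit 1) (nat_lit 97) (nat_lit 1) (nat_lit 99) (nat_lit 1) (nat_lit 361) (nat_lit 372) (nat_lit 287)) (XT.lf (nat_lit 0) (nat_lit 570169200) (nat_lit 0) (nat_lit 2490288261) (nat_lit 152) (nat_lit 748297990) (nat_lit 96) (nat_lit 3) (nat_lit 96) (nat_lit 1) (nat_lit 98) (nat_lit 1) (nat_lit 362) (nat_lit 372) (nat_lit 286)))) (XT.nd (nat_lit 156) (nat_lit 304) (nat_lit 0) (XT.nd (nat_lit 78) (nat_lit 76) (nat_lit 0) (XT.lf (nat_lit 76) (nat_lit 2646616502) (nat_lit 0)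 (nat_lit 707610961) (nat_lit 152) (nat_lit 392234568) (nat_lit 95) (nat_lit 1) (nat_lit 94) (nat_lit 1) (nat_lit 96) (nat_lit 1) (nat_lit 363) (nat_lit 372) (nat_lit 285)) (XT.lf (nat_lit 0) (nat_lit 973492039) (nat_lit 0) (nat_lit 2664370282) (nat_lit 152) (nat_lit 47360613) (nat_lit 93) (nat_lit 3) (nat_lit 93) (nat_lit 1) (nat_lit 95) (nat_lit 1) (nat_lit 364) (nat_lit 372) (nat_lit 284))) (XT.nd (nat_lit 78) (nat_lit 76) (nat_lit 0) (XT.lf (nat_lit 152) (nat_lit 2686709277) (nat_lit 0) (nat_lit 294360980) (nat_lit 76) (nat_lit 643925330) (nat_lit 92) (nat_lit 1) (nat_lit 90) (nat_lit 1) (nat_lit 91) (nat_lit 1) (nat_lit 365) (nat_lit 372) (nat_lit 283)) (XT.lf (nat_lit 76) (nat_lit 726163695) (nat_lit 0) (nat_lit 624390248) (nat_lit 76) (nat_lit 2215169920) (nat_lit 90) (nat_lit 3) (nat_lit 89) (nat_lit 1) (nat_lit 90) (nat_lit 1) (nat_lit 366) (nat_lit 372) (nat_lit 282))))))))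
noncomputable def ec66 : XT := (XT.nd (nat_lit 45864) (nat_lit 0) (nat_lit 15960) (XT.nd (nat_lit 1092) (nat_lit 1672) (nat_lit 0) (XT.nd (nat_lit 546) (nat_lit 912) (nat_lit 0) (XT.nd (nat_lit 234) (nat_lit 456) (nat_lit 0) (XT.nd (nat_lit 78) (nat_lit 228) (nat_lit 0) (XT.lf (nat_lit 152) (nat_lit 2342390062) (nat_lit 0) (nat_lit 947180348) (nat_lit 76) (nat_lit 217982959) (nat_lit 89) (nat_lit 1) (nat_lit 87) (nat_lit 1) (nat_lit 88) (nat_lit 1) (nat_lit 367) (nat_lit 372) (nat_lit 281)) (XT.nd (nat_lit 78) (nat_lit 152) (nat_lit 0) (XT.lf (nat_lit 76) (nat_lit 441340808) (nat_lit 0) (nat_lit 1256356344) (nat_lit 76) (nat_lit 1752576284) (nat_lit 87) (nat_lit 3) (nat_lit 86) (nat_lit 1) (nat_lit 87) (nat_lit 1) (nat_lit 368) (nat_lit 372) (nat_lit 280)) (XT.lf (nat_lit 0) (nat_lit 172869887) (nat_lit 0) (nat_lit 1385292887) (nat_lit 152) (nat_lit 1835878654) (nat_lit 84) (nat_lit 3) (nat_lit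 84) (nat_lit 1) (nat_lit 86) (nat_lit 1) (nat_lit 369) (nat_lit 372) (nat_lit 279)))) (XT.nd (nat_lit 156) (nat_lit 228) (nat_lit 0) (XT.nd (nat_lit 78) (nat_lit 152) (nat_lit 0) (XT.lf (nat_lit 76) (nat_lit 167482097) (nat_lit 0) (nat_lit 1849077958) (nat_lit 76) (nat_lit 1322170669) (nat_lit 84) (nat_lit 3) (nat_lit 83) (nat_lit 1) (nat_lit 84) (nat_lit 1) (nat_lit 370) (nat_lit 372) (nat_lit 278)) (XT.lf (nat_lit 0) (nat_lit 530507410) (nat_lit 0) (nat_lit 1598180616) (nat_lit 152) (nat_lit 1155617650) (nat_lit 81) (nat_lit 3) (nat_lit 81) (nat_lit 1) (nat_lit 83) (nat_lit 1) (nat_lit 371) (nat_lit 372) (nat_lit 277))) (XT.nd (nat_lit 78) (nat_lit 76) (nat_lit 0) (XT.lf (nat_lit 76) (nat_lit 2309992957) (nat_lit 0) (nat_lit 93110166) (nat_lit 152) (nat_lit 827817986) (nat_lit 80) (nat_lit 1) (nat_lit 79) (nat_lit 1) (nat_lit 81) (nat_lit 1) (nat_lit 372) (nat_lit 372) (nat_lit 276)) (XT.lf (nat_lit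 0) (nat_lit 861094551) (nat_lit 0) (nat_lit 1801299474) (nat_lit 152) (nat_lit 515871097) (nat_lit 78) (nat_lit 3) (nat_lit 78) (nat_lit 1) (nat_lit 80) (nat_lit 1) (nat_lit 373) (nat_lit 372) (nat_lit 275))))) (XT.nd (nat_lit 234) (nat_lit 456) (nat_lit 0) (XT.nd (nat_lit 78) (nat_lit 304) (nat_lit 0) (XT.lf (nat_lit 76) (nat_lit 2580368211) (nat_lit 0) (nat_lit 338946172) (nat_lit 152) (nat_lit 207372530) (nat_lit 77) (nat_lit 1) (nat_lit 76) (nat_lit 1) (nat_lit 78) (nat_lit 1) (nat_lit 374) (nat_lit 372) (nat_lit 274)) (XT.nd (nat_lit 78) (nat_lit 152) (nat_lit 0) (XT.lf (nat_lit 76) (nat_lit 1080570862) (nat_lit 0) (nat_lit 86661101) (nat_lit 76) (nat_lit 1908525795) (nat_lit 75) (nat_lit 3) (nat_lit 74) (nat_lit 1) (nat_lit 75) (nat_lit 1) (nat_lit 375) (nat_lit 372) (nat_lit 273)) (XT.lf (nat_lit 152) (nat_lit 2449038684) (nat_lit 0) (nat_lit 382363262) (nat_lit 76) (nat_lit 194430712) (nat_lit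 74) (nat_lit 1) (nat_lit 72) (nat_lit 1) (nat_lit 73) (nat_lit 1) (nat_lit 376) (nat_lit 372) (nat_lit 272)))) (XT.nd (nat_lit 156) (nat_lit 228) (nat_lit 0) (XT.nd (nat_lit 78) (nat_lit 152) (nat_lit 0) (XT.lf (nat_lit 76) (nat_lit 793015390) (nat_lit 0) (nat_lit 661400043) (nat_lit 76) (nat_lit 1522121731) (nat_lit 72) (nat_lit 3) (nat_lit 71) (nat_lit 1) (nat_lit 72) (nat_lit 1) (nat_lit 377) (nat_lit 372) (nat_lit 271)) (XT.lf (nat_lit 0) (nat_lit 131709208) (nat_lit 0) (nat_lit 805871336) (nat_lit 152) (nat_lit 1990671703) (nat_lit 69) (nat_lit 3) (nat_lit 69) (nat_lit 1) (nat_lit 71) (nat_lit 1) (nat_lit 378) (nat_lit 372) (nat_lit 270))) (XT.nd (nat_lit 78) (nat_lit 152) (nat_lit 0) (XT.lf (nat_lit 76) (nat_lit 519449571) (nat_lit 0) (nat_lit 1199671578) (nat_lit 76) (nat_lit 1161508740) (nat_lit 69) (nat_lit 3) (nat_lit 68) (nat_lit 1) (nat_lit 69) (nat_lit 1) (nat_lit 379) (nat_lit 372)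 (nat_lit 269)) (XT.lf (nat_lit 0) (nat_lit 430850748) (nat_lit 0) (nat_lit 1024525430) (nat_lit 152) (nat_lit 1378497836) (nat_lit 66) (nat_lit 3) (nat_lit 66) (nat_lit 1) (nat_lit 68) (nat_lit 1) (nat_lit 380) (nat_lit 372) (nat_lit 268)))))) (XT.nd (nat_lit 546) (nat_lit 760) (nat_lit 0) (XT.nd (nat_lit 234) (nat_lit 608) (nat_lit 0) (XT.nd (nat_lit 78) (nat_lit 228) (nat_lit 0) (XT.lf (nat_lit 76) (nat_lit 259737427) (nat_lit 0) (nat_lit 1703036990) (nat_lit 76) (nat_lit 825141887) (nat_lit 66) (nat_lit 3) (nat_lit 65) (nat_lit 1) (nat_lit 66) (nat_lit 1) (nat_lit 381) (nat_lit 372) (nat_lit 267)) (XT.nd (nat_lit 78) (nat_lit 76) (nat_lit 0) (XT.lf (nat_lit 0) (nat_lit 708207432) (nat_lit 0) (nat_lit 1231003973) (nat_lit 152) (nat_lit 803425417) (nat_lit 63) (nat_lit 3) (nat_lit 63) (nat_lit 1) (nat_lit 65) (nat_lit 1) (nat_lit 382) (nat_lit 372) (nat_lit 266)) (XT.lf (nat_lit 76) (nat_lit 13678998)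 (nat_lit 0) (nat_lit 2173022536) (nat_lit 76) (nat_lit 511580466) (nat_lit 63) (nat_lit 3) (nat_lit 62) (nat_lit 1) (nat_lit 63) (nat_lit 1) (nat_lit 383) (nat_lit 372) (nat_lit 265)))) (XT.nd (nat_lit 156) (nat_lit 304) (nat_lit 0) (XT.nd (nat_lit 78) (nat_lit 152) (nat_lit 0) (XT.lf (nat_lit 0) (nat_lit 965102796) (nat_lit 0) (nat_lit 1425483256) (nat_lit 152) (nat_lit 263842461) (nat_lit 60) (nat_lit 3) (nat_lit 60) (nat_lit 1) (nat_lit 62) (nat_lit 1) (nat_lit 384) (nat_lit 372) (nat_lit 264)) (XT.lf (nat_lit 76) (nat_lit 2394243175) (nat_lit 0) (nat_lit 214705294) (nat_lit 152) (nat_lit 2605832) (nat_lit 59) (nat_lit 1) (nat_lit 58) (nat_lit 1) (nat_lit 60) (nat_lit 1) (nat_lit 385) (nat_lit 372) (nat_lit 263))) (XT.nd (nat_lit 78) (nat_lit 152) (nat_lit 0) (XT.lf (nat_lit 76) (nat_lit 958511161) (nat_lit 0) (nat_lit 246632069) (nat_lit 76) (nat_lit 1363927325) (nat_lit 57) (nat_lit 3) (nat_lit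 56) (nat_lit 1) (nat_lit 57) (nat_lit 1) (nat_lit 386) (nat_lit 372) (nat_lit 262)) (XT.lf (nat_lit 0) (nat_lit 60472899) (nat_lit 0) (nat_lit 435337590) (nat_lit 152) (nat_lit 2031719840) (nat_lit 54) (nat_lit 3) (nat_lit 54) (nat_lit 1) (nat_lit 56) (nat_lit 1) (nat_lit 387) (nat_lit 372) (nat_lit 261))))) (XT.nd (nat_lit 234) (nat_lit 456) (nat_lit 0) (XT.nd (nat_lit 78) (nat_lit 228) (nat_lit 0) (XT.lf (nat_lit 76) (nat_lit 700067143) (nat_lit 0) (nat_lit 729314781) (nat_lit 76) (nat_lit 1057081135) (nat_lit 54) (nat_lit 3) (nat_lit 53) (nat_lit 1) (nat_lit 54) (nat_lit 1) (nat_lit 388) (nat_lit 372) (nat_lit 260)) (XT.nd (nat_lit 78) (nat_lit 76) (nat_lit 0) (XT.lf (nat_lit 0) (nat_lit 314950434) (nat_lit 0) (nat_lit 645060459) (nat_lit 152) (nat_lit 1486214881) (nat_lit 51) (nat_lit 3) (nat_lit 51) (nat_lit 1) (nat_lit 53) (nat_lit 1) (nat_lit 389) (nat_lit 372) (nat_lit 259)) (XT.lf (nat_lit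 76) (nat_lit 455866612) (nat_lit 0) (nat_lit 1180460743) (nat_lit 76) (nat_lit 770257112) (nat_lit 51) (nat_lit 3) (nat_lit 50) (nat_lit 1) (nat_lit 51) (nat_lit 1) (nat_lit 390) (nat_lit 372) (nat_lit 258)))) (XT.nd (nat_lit 156) (nat_lit 228) (nat_lit 0) (XT.nd (nat_lit 78) (nat_lit 76) (nat_lit 0) (XT.lf (nat_lit 0) (nat_lit 551435623) (nat_lit 0) (nat_lit 842134190) (nat_lit 152) (nat_lit 974036912) (nat_lit 48) (nat_lit 3) (nat_lit 48) (nat_lit 1) (nat_lit 50) (nat_lit 1) (nat_lit 391) (nat_lit 372) (nat_lit 257)) (XT.lf (nat_lit 76) (nat_lit 225477967) (nat_lit 0) (nat_lit 1601527906) (nat_lit 76) (nat_lit 502333745) (nat_lit 48) (nat_lit 3) (nat_lit 47) (nat_lit 1) (nat_lit 48) (nat_lit 1) (nat_lit 392) (nat_lit 372) (nat_lit 256))) (XT.nd (nat_lit 78) (nat_lit 76) (nat_lit 0) (XT.lf (nat_lit 0) (nat_lit 770960605) (nat_lit 0) (nat_lit 1026953002) (nat_lit 152) (nat_lit 493666112) (nat_lit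 45) (nat_lit 3) (nat_lit 45) (nat_lit 1) (nat_lit 47) (nat_lit 1) (nat_lit 393) (nat_lit 372) (nat_lit 255)) (XT.lf (nat_lit 76) (nat_lit 8454551) (nat_lit 0) (nat_lit 1993925743) (nat_lit 76) (nat_lit 252256835) (nat_lit 45) (nat_lit 3) (nat_lit 44) (nat_lit 1) (nat_lit 45) (nat_lit 1) (nat_lit 394) (nat_lit 372) (nat_lit 254))))))) (XT.nd (nat_lit 1092) (nat_lit 6384) (nat_lit 0) (XT.nd (nat_lit 546) (nat_lit 2736) (nat_lit 0) (XT.nd (nat_lit 234) (nat_lit 0) (nat_lit 152) (XT.nd (nat_lit 78) (nat_lit 0) (nat_lit 76) (XT.lf (nat_lit 1292) (nat_lit 1865999601) (nat_lit 0) (nat_lit 6419906447) (nat_lit 1292) (nat_lit 1865999601) (nat_lit 391) (nat_lit 1) (nat_lit 374) (nat_lit 0) (nat_lit 391) (nat_lit 0) (nat_lit 274) (nat_lit 373) (nat_lit 373)) (XT.nd (nat_lit 78) (nat_lit 0) (nat_lit 0) (XT.lf (nat_lit 1292) (nat_lit 149600459) (nat_lit 0) (nat_lit 12658705530) (nat_lit 1216) (nat_lit 7008343160)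 (nat_lit 392) (nat_lit 1) (nat_lit 375) (nat_lit 1) (nat_lit 391) (nat_lit 1) (nat_lit 275) (nat_lit 373) (nat_lit 372)) (XT.lf (nat_lit 1292) (nat_lit 6581776984) (nat_lit 76) (nat_lit 9309682698) (nat_lit 0) (nat_lit 3452933689) (nat_lit 392) (nat_lit 1) (nat_lit 376) (nat_lit 1) (nat_lit 375) (nat_lit 1) (nat_lit 276) (nat_lit 373) (nat_lit 371)))) (XT.nd (nat_lit 156) (nat_lit 0) (nat_lit 152) (XT.nd (nat_lit 78) (nat_lit 0) (nat_lit 76) (XT.lf (nat_lit 1292) (nat_lit 5785940074) (nat_lit 76) (nat_lit 6093853498) (nat_lit 0) (nat_lit 7007635108) (nat_lit 393) (nat_lit 1) (nat_lit 377) (nat_lit 1) (nat_lit 376) (nat_lit 1) (nat_lit 277) (nat_lit 373) (nat_lit 370)) (XT.lf (nat_lit 1292) (nat_lit 4788255009) (nat_lit 76) (nat_lit 3147793638) (nat_lit 0) (nat_lit 10509192697) (nat_lit 394) (nat_lit 1) (nat_lit 378) (nat_lit 1) (nat_lit 377) (nat_lit 1) (nat_lit 278) (nat_lit 373) (nat_lit 369)))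 (XT.nd (nat_lit 78) (nat_lit 0) (nat_lit 76) (XT.lf (nat_lit 1292) (nat_lit 3604107467) (nat_lit 76) (nat_lit 457642636) (nat_lit 0) (nat_lit 13955545746) (nat_lit 395) (nat_lit 1) (nat_lit 379) (nat_lit 1) (nat_lit 378) (nat_lit 1) (nat_lit 279) (nat_lit 373) (nat_lit 368)) (XT.lf (nat_lit 1292) (nat_lit 277316849) (nat_lit 0) (nat_lit 15374199951) (nat_lit 1216) (nat_lit 1950987338) (nat_lit 396) (nat_lit 1) (nat_lit 379) (nat_lit 1) (nat_lit 395) (nat_lit 1) (nat_lit 280) (nat_lit 373) (nat_lit 367))))) (XT.nd (nat_lit 234) (nat_lit 1900) (nat_lit 0) (XT.nd (nat_lit 78) (nat_lit 1216) (nat_lit 0) (XT.lf (nat_lit 1292) (nat_lit 657301262) (nat_lit 76) (nat_lit 13041126908) (nat_lit 0) (nat_lit 3501442628) (nat_lit 396) (nat_lit 1) (nat_lit 380) (nat_lit 1) (nat_lit 379) (nat_lit 1) (nat_lit 281) (nat_lit 373) (nat_lit 366)) (XT.nd (nat_lit 78) (nat_lit 0) (nat_lit 76) (XT.lf (nat_lit 1368) (nat_lit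 9606450496) (nat_lit 0) (nat_lit 1038356829) (nat_lit 1292) (nat_lit 6164886192) (nat_lit 381) (nat_lit 1) (nat_lit 363) (nat_lit 1) (nat_lit 380) (nat_lit 1) (nat_lit 282) (nat_lit 373) (nat_lit 365)) (XT.lf (nat_lit 1368) (nat_lit 5607233085) (nat_lit 0) (nat_lit 2849128824) (nat_lit 1292) (nat_lit 7975311420) (nat_lit 382) (nat_lit 1) (nat_lit 364) (nat_lit 1) (nat_lit 381) (nat_lit 1) (nat_lit 283) (nat_lit 373) (nat_lit 364)))) (XT.nd (nat_lit 156) (nat_lit 1216) (nat_lit 0) (XT.nd (nat_lit 78) (nat_lit 836) (nat_lit 0) (XT.lf (nat_lit 76) (nat_lit 1694535585) (nat_lit 0) (nat_lit 4776733584) (nat_lit 1292) (nat_lit 9594293135) (nat_lit 366) (nat_lit 1) (nat_lit 365) (nat_lit 1) (nat_lit 382) (nat_lit 1) (nat_lit 284) (nat_lit 373) (nat_lit 363)) (XT.lf (nat_lit 912) (nat_lit 8878695175) (nat_lit 0) (nat_lit 4657482882) (nat_lit 836) (nat_lit 2174134972) (nat_lit 366) (nat_lit 1) (nat_lit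 354) (nat_lit 1) (nat_lit 365) (nat_lit 1) (nat_lit 285) (nat_lit 373) (nat_lit 362))) (XT.nd (nat_lit 78) (nat_lit 608) (nat_lit 0) (XT.lf (nat_lit 684) (nat_lit 6366857104) (nat_lit 0) (nat_lit 3010254736) (nat_lit 608) (nat_lit 5988563515) (nat_lit 355) (nat_lit 1) (nat_lit 346) (nat_lit 1) (nat_lit 354) (nat_lit 1) (nat_lit 286) (nat_lit 373) (nat_lit 361)) (XT.lf (nat_lit 684) (nat_lit 3779278196) (nat_lit 0) (nat_lit 1537123338) (nat_lit 608) (nat_lit 9715357595) (nat_lit 347) (nat_lit 1) (nat_lit 338) (nat_lit 1) (nat_lit 346) (nat_lit 1) (nat_lit 287) (nat_lit 373) (nat_lit 360)))))) (XT.nd (nat_lit 546) (nat_lit 3040) (nat_lit 0) (XT.nd (nat_lit 234) (nat_lit 2128) (nat_lit 0) (XT.nd (nat_lit 78) (nat_lit 684) (nat_lit 0) (XT.lf (nat_lit 608) (nat_lit 1124267786) (nat_lit 0) (nat_lit 228957958) (nat_lit 532) (nat_lit 13354965032) (nat_lit 339) (nat_lit 1) (nat_lit 331) (nat_lit 1) (nat_lit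 338) (nat_lit 1) (nat_lit 288) (nat_lit 373) (nat_lit 359)) (XT.nd (nat_lit 78) (nat_lit 608) (nat_lit 0) (XT.lf (nat_lit 76) (nat_lit 11854926747) (nat_lit 0) (nat_lit 1593101022) (nat_lit 608) (nat_lit 945111977) (nat_lit 331) (nat_lit 1) (nat_lit 330) (nat_lit 1) (nat_lit 338) (nat_lit 1) (nat_lit 289) (nat_lit 373) (nat_lit 358)) (XT.lf (nat_lit 76) (nat_lit 7740517787) (nat_lit 0) (nat_lit 4353067220) (nat_lit 684) (nat_lit 1993410671) (nat_lit 323) (nat_lit 1) (nat_lit 322) (nat_lit 1) (nat_lit 331) (nat_lit 1) (nat_lit 290) (nat_lit 373) (nat_lit 357)))) (XT.nd (nat_lit 156) (nat_lit 1064) (nat_lit 0) (XT.nd (nat_lit 78) (nat_lit 532) (nat_lit 0) (XT.lf (nat_lit 76) (nat_lit 3730965312) (nat_lit 0) (nat_lit 7155341501) (nat_lit 608) (nat_lit 2903911036) (nat_lit 316) (nat_lit 1) (nat_lit 315) (nat_lit 1) (nat_lit 323) (nat_lit 1) (nat_lit 291) (nat_lit 373) (nat_lit 356)) (XT.lf (nat_lit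 608) (nat_lit 3506997608) (nat_lit 0) (nat_lit 9816748774) (nat_lit 532) (nat_lit 178688034) (nat_lit 316) (nat_lit 1) (nat_lit 308) (nat_lit 1) (nat_lit 315) (nat_lit 1) (nat_lit 292) (nat_lit 373) (nat_lit 355))) (XT.nd (nat_lit 78) (nat_lit 608) (nat_lit 0) (XT.lf (nat_lit 532) (nat_lit 320910212) (nat_lit 0) (nat_lit 8842709847) (nat_lit 456) (nat_lit 4058701249) (nat_lit 309) (nat_lit 1) (nat_lit 302) (nat_lit 1) (nat_lit 308) (nat_lit 1) (nat_lit 293) (nat_lit 373) (nat_lit 354)) (XT.lf (nat_lit 76) (nat_lit 5141954260) (nat_lit 0) (nat_lit 2824387261) (nat_lit 608) (nat_lit 4983506560) (nat_lit 295) (nat_lit 1) (nat_lit 294) (nat_lit 1) (nat_lit 302) (nat_lit 1) (nat_lit 294) (nat_lit 373) (nat_lit 353))))) (XT.nd (nat_lit 234) (nat_lit 1672) (nat_lit 0) (XT.nd (nat_lit 78) (nat_lit 912) (nat_lit 0) (XT.lf (nat_lit 76) (nat_lit 1232328326) (nat_lit 0) (nat_lit 5973870897) (nat_lit 532) (nat_lit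 5479264625) (nat_lit 289) (nat_lit 1) (nat_lit 288) (nat_lit 1) (nat_lit 295) (nat_lit 1) (nat_lit 295) (nat_lit 373) (nat_lit 352)) (XT.nd (nat_lit 78) (nat_lit 456) (nat_lit 0) (XT.lf (nat_lit 532) (nat_lit 3273578885) (nat_lit 0) (nat_lit 6533172835) (nat_lit 456) (nat_lit 2621479427) (nat_lit 289) (nat_lit 1) (nat_lit 282) (nat_lit 1) (nat_lit 288) (nat_lit 1) (nat_lit 296) (nat_lit 373) (nat_lit 351)) (XT.lf (nat_lit 76) (nat_lit 5787199094) (nat_lit 0) (nat_lit 166906482) (nat_lit 456) (nat_lit 6224155828) (nat_lit 277) (nat_lit 1) (nat_lit 276) (nat_lit 1) (nat_lit 282) (nat_lit 1) (nat_lit 297) (nat_lit 373) (nat_lit 350)))) (XT.nd (nat_lit 156) (nat_lit 836) (nat_lit 0) (XT.nd (nat_lit 78) (nat_lit 380) (nat_lit 0) (XT.lf (nat_lit 76) (nat_lit 1911454788) (nat_lit 0) (nat_lit 3533574857) (nat_lit 532) (nat_lit 6489740668) (nat_lit 271) (nat_lit 1) (nat_lit 270) (nat_lit 1) (nat_lit 277)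 (nat_lit 1) (nat_lit 298) (nat_lit 373) (nat_lit 349)) (XT.lf (nat_lit 456) (nat_lit 4792587269) (nat_lit 0) (nat_lit 5014142485) (nat_lit 380) (nat_lit 1891182311) (nat_lit 271) (nat_lit 1) (nat_lit 265) (nat_lit 1) (nat_lit 270) (nat_lit 1) (nat_lit 299) (nat_lit 373) (nat_lit 348))) (XT.nd (nat_lit 78) (nat_lit 456) (nat_lit 0) (XT.lf (nat_lit 456) (nat_lit 1188723032) (nat_lit 0) (nat_lit 4656714829) (nat_lit 380) (nat_lit 5622028088) (nat_lit 266) (nat_lit 1) (nat_lit 260) (nat_lit 1) (nat_lit 265) (nat_lit 1) (nat_lit 300) (nat_lit 373) (nat_lit 347)) (XT.lf (nat_lit 76) (nat_lit 2021331016) (nat_lit 0) (nat_lit 2342044133) (nat_lit 456) (nat_lit 6879702480) (nat_lit 255) (nat_lit 1) (nat_lit 254) (nat_lit 1) (nat_lit 260) (nat_lit 1) (nat_lit 301) (nat_lit 373) (nat_lit 346))))))))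
noncomputable def ec67 : XT := (XT.nd (nat_lit 2184) (nat_lit 4180) (nat_lit 0) (XT.nd (nat_lit 1092) (nat_lit 3116) (nat_lit 0) (XT.nd (nat_lit 546) (nat_lit 1976) (nat_lit 0) (XT.nd (nat_lit 234) (nat_lit 1292) (nat_lit 0) (XT.nd (nat_lit 78) (nat_lit 760) (nat_lit 0) (XT.lf (nat_lit 456) (nat_lit 5186461485) (nat_lit 0) (nat_lit 4124529411) (nat_lit 380) (nat_lit 1713396936) (nat_lit 255) (nat_lit 1) (nat_lit 249) (nat_lit 1) (nat_lit 254) (nat_lit 1) (nat_lit 302) (nat_lit 373) (nat_lit 345)) (XT.nd (nat_lit 78) (nat_lit 456) (nat_lit 0) (XT.lf (nat_lit 380) (nat_lit 1489059834) (nat_lit 0) (nat_lit 3945043370) (nat_lit 304) (nat_lit 5377356766) (nat_lit 250) (nat_lit 1) (nat_lit 245) (nat_lit 1) (nat_lit 249) (nat_lit 1) (nat_lit 303) (nat_lit 373) (nat_lit 344)) (XT.lf (nat_lit 76) (nat_lit 1692637573) (nat_lit 0) (nat_lit 2126840247) (nat_lit 456) (nat_lit 6784580981) (nat_lit 240) (nat_lit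 1) (nat_lit 239) (nat_lit 1) (nat_lit 245) (nat_lit 1) (nat_lit 304) (nat_lit 373) (nat_lit 343)))) (XT.nd (nat_lit 156) (nat_lit 684) (nat_lit 0) (XT.nd (nat_lit 78) (nat_lit 304) (nat_lit 0) (XT.lf (nat_lit 380) (nat_lit 4708904018) (nat_lit 0) (nat_lit 3731374011) (nat_lit 304) (nat_lit 1961351558) (nat_lit 240) (nat_lit 1) (nat_lit 235) (nat_lit 1) (nat_lit 239) (nat_lit 1) (nat_lit 305) (nat_lit 373) (nat_lit 342)) (XT.lf (nat_lit 380) (nat_lit 971438569) (nat_lit 0) (nat_lit 3694927328) (nat_lit 304) (nat_lit 5538145969) (nat_lit 236) (nat_lit 1) (nat_lit 231) (nat_lit 1) (nat_lit 235) (nat_lit 1) (nat_lit 306) (nat_lit 373) (nat_lit 341))) (XT.nd (nat_lit 78) (nat_lit 304) (nat_lit 0) (XT.lf (nat_lit 76) (nat_lit 1032350205) (nat_lit 0) (nat_lit 2664157681) (nat_lit 380) (nat_lit 6315728251) (nat_lit 227) (nat_lit 1) (nat_lit 226) (nat_lit 1) (nat_lit 231) (nat_lit 1) (nat_lit 307) (nat_lit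 373) (nat_lit 340)) (XT.lf (nat_lit 380) (nat_lit 3567944168) (nat_lit 0) (nat_lit 3725182767) (nat_lit 304) (nat_lit 2531285901) (nat_lit 227) (nat_lit 1) (nat_lit 222) (nat_lit 1) (nat_lit 226) (nat_lit 1) (nat_lit 308) (nat_lit 373) (nat_lit 339))))) (XT.nd (nat_lit 234) (nat_lit 1140) (nat_lit 0) (XT.nd (nat_lit 78) (nat_lit 532) (nat_lit 0) (XT.lf (nat_lit 76) (nat_lit 3637503021) (nat_lit 0) (nat_lit 163663980) (nat_lit 304) (nat_lit 5840393970) (nat_lit 219) (nat_lit 1) (nat_lit 218) (nat_lit 1) (nat_lit 222) (nat_lit 1) (nat_lit 309) (nat_lit 373) (nat_lit 338)) (XT.nd (nat_lit 78) (nat_lit 228) (nat_lit 0) (XT.lf (nat_lit 76) (nat_lit 127727681) (nat_lit 0) (nat_lit 3770693469) (nat_lit 380) (nat_lit 5564432516) (nat_lit 215) (nat_lit 1) (nat_lit 214) (nat_lit 1) (nat_lit 219) (nat_lit 1) (nat_lit 310) (nat_lit 373) (nat_lit 337)) (XT.lf (nat_lit 304) (nat_lit 1933594379) (nat_lit 0) (nat_lit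 4016023991) (nat_lit 228) (nat_lit 3338578576) (nat_lit 215) (nat_lit 1) (nat_lit 211) (nat_lit 1) (nat_lit 214) (nat_lit 1) (nat_lit 311) (nat_lit 373) (nat_lit 336)))) (XT.nd (nat_lit 156) (nat_lit 532) (nat_lit 0) (XT.nd (nat_lit 78) (nat_lit 228) (nat_lit 0) (XT.lf (nat_lit 76) (nat_lit 2435777042) (nat_lit 0) (nat_lit 1730508264) (nat_lit 380) (nat_lit 4951598176) (nat_lit 207) (nat_lit 1) (nat_lit 206) (nat_lit 1) (nat_lit 211) (nat_lit 1) (nat_lit 312) (nat_lit 373) (nat_lit 335)) (XT.lf (nat_lit 304) (nat_lit 3645327779) (nat_lit 0) (nat_lit 4336894863) (nat_lit 228) (nat_lit 969267471) (nat_lit 207) (nat_lit 1) (nat_lit 203) (nat_lit 1) (nat_lit 206) (nat_lit 1) (nat_lit 313) (nat_lit 373) (nat_lit 334))) (XT.nd (nat_lit 78) (nat_lit 228) (nat_lit 0) (XT.lf (nat_lit 76) (nat_lit 4475050517) (nat_lit 0) (nat_lit 54657681) (nat_lit 304) (nat_lit 4259299309) (nat_lit 200) (nat_lit 1) (nat_lit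 199) (nat_lit 1) (nat_lit 203) (nat_lit 1) (nat_lit 314) (nat_lit 373) (nat_lit 333)) (XT.lf (nat_lit 76) (nat_lit 1112124914) (nat_lit 0) (nat_lit 3619589370) (nat_lit 304) (nat_lit 3898280243) (nat_lit 197) (nat_lit 1) (nat_lit 196) (nat_lit 1) (nat_lit 200) (nat_lit 1) (nat_lit 315) (nat_lit 373) (nat_lit 332)))))) (XT.nd (nat_lit 546) (nat_lit 1444) (nat_lit 0) (XT.nd (nat_lit 234) (nat_lit 912) (nat_lit 0) (XT.nd (nat_lit 78) (nat_lit 532) (nat_lit 0) (XT.lf (nat_lit 304) (nat_lit 1332687686) (nat_lit 0) (nat_lit 4954753296) (nat_lit 228) (nat_lit 2187294063) (nat_lit 197) (nat_lit 1) (nat_lit 193) (nat_lit 1) (nat_lit 196) (nat_lit 1) (nat_lit 316) (nat_lit 373) (nat_lit 331)) (XT.nd (nat_lit 78) (nat_lit 228) (nat_lit 0) (XT.lf (nat_lit 76) (nat_lit 2941873675) (nat_lit 0) (nat_lit 2243287098) (nat_lit 304) (nat_lit 3137610467) (nat_lit 190) (nat_lit 1) (nat_lit 189) (nat_lit 1) (nat_lit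 193) (nat_lit 1) (nat_lit 317) (nat_lit 373) (nat_lit 330)) (XT.lf (nat_lit 304) (nat_lit 2444803345) (nat_lit 0) (nat_lit 5439017942) (nat_lit 228) (nat_lit 290691524) (nat_lit 190) (nat_lit 1) (nat_lit 186) (nat_lit 1) (nat_lit 189) (nat_lit 1) (nat_lit 318) (nat_lit 373) (nat_lit 329)))) (XT.nd (nat_lit 156) (nat_lit 456) (nat_lit 0) (XT.nd (nat_lit 78) (nat_lit 228) (nat_lit 0) (XT.lf (nat_lit 76) (nat_lit 4563632998) (nat_lit 0) (nat_lit 1126422960) (nat_lit 228) (nat_lit 2339081120) (nat_lit 184) (nat_lit 1) (nat_lit 183) (nat_lit 1) (nat_lit 186) (nat_lit 1) (nat_lit 319) (nat_lit 373) (nat_lit 328)) (XT.lf (nat_lit 76) (nat_lit 1372188890) (nat_lit 0) (nat_lit 4581427169) (nat_lit 304) (nat_lit 1933418341) (nat_lit 181) (nat_lit 1) (nat_lit 180) (nat_lit 1) (nat_lit 184) (nat_lit 1) (nat_lit 320) (nat_lit 373) (nat_lit 327))) (XT.nd (nat_lit 78) (nat_lit 228) (nat_lit 0) (XT.lf (nat_lit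 76) (nat_lit 5999378198) (nat_lit 0) (nat_lit 232700779) (nat_lit 228) (nat_lit 1516139743) (nat_lit 178) (nat_lit 1) (nat_lit 177) (nat_lit 1) (nat_lit 180) (nat_lit 1) (nat_lit 321) (nat_lit 373) (nat_lit 326)) (XT.lf (nat_lit 76) (nat_lit 2848099648) (nat_lit 0) (nat_lit 3649978971) (nat_lit 304) (nat_lit 1113760009) (nat_lit 175) (nat_lit 1) (nat_lit 174) (nat_lit 1) (nat_lit 178) (nat_lit 1) (nat_lit 322) (nat_lit 373) (nat_lit 325))))) (XT.nd (nat_lit 234) (nat_lit 760) (nat_lit 0) (XT.nd (nat_lit 78) (nat_lit 532) (nat_lit 0) (XT.lf (nat_lit 228) (nat_lit 478936752) (nat_lit 0) (nat_lit 6794307534) (nat_lit 152) (nat_lit 205840003) (nat_lit 175) (nat_lit 1) (nat_lit 172) (nat_lit 1) (nat_lit 174) (nat_lit 1) (nat_lit 323) (nat_lit 373) (nat_lit 324)) (XT.nd (nat_lit 78) (nat_lit 304) (nat_lit 0) (XT.lf (nat_lit 76) (nat_lit 4161467333) (nat_lit 0) (nat_lit 2902357155) (nat_lit 228) (nat_lit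 284420441) (nat_lit 170) (nat_lit 1) (nat_lit 169) (nat_lit 1) (nat_lit 172) (nat_lit 1) (nat_lit 324) (nat_lit 373) (nat_lit 323)) (XT.lf (nat_lit 228) (nat_lit 1015148755) (nat_lit 0) (nat_lit 140770983) (nat_lit 152) (nat_lit 6064828834) (nat_lit 168) (nat_lit 1) (nat_lit 165) (nat_lit 1) (nat_lit 167) (nat_lit 1) (nat_lit 325) (nat_lit 373) (nat_lit 322)))) (XT.nd (nat_lit 156) (nat_lit 380) (nat_lit 0) (XT.nd (nat_lit 78) (nat_lit 152) (nat_lit 0) (XT.lf (nat_lit 228) (nat_lit 4777865093) (nat_lit 0) (nat_lit 556466134) (nat_lit 152) (nat_lit 1761065000) (nat_lit 165) (nat_lit 1) (nat_lit 162) (nat_lit 1) (nat_lit 164) (nat_lit 1) (nat_lit 326) (nat_lit 373) (nat_lit 321)) (XT.lf (nat_lit 228) (nat_lit 1401514497) (nat_lit 0) (nat_lit 976061935) (nat_lit 152) (nat_lit 4595199347) (nat_lit 163) (nat_lit 1) (nat_lit 160) (nat_lit 1) (nat_lit 162) (nat_lit 1) (nat_lit 327) (nat_lit 373) (nat_lit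 320))) (XT.nd (nat_lit 78) (nat_lit 152) (nat_lit 0) (XT.lf (nat_lit 228) (nat_lit 4982875571) (nat_lit 0) (nat_lit 1396052300) (nat_lit 152) (nat_lit 473807365) (nat_lit 160) (nat_lit 1) (nat_lit 157) (nat_lit 1) (nat_lit 159) (nat_lit 1) (nat_lit 328) (nat_lit 373) (nat_lit 319)) (XT.lf (nat_lit 228) (nat_lit 1668359343) (nat_lit 0) (nat_lit 1802322481) (nat_lit 152) (nat_lit 3264132743) (nat_lit 158) (nat_lit 1) (nat_lit 155) (nat_lit 1) (nat_lit 157) (nat_lit 1) (nat_lit 329) (nat_lit 373) (nat_lit 318))))))) (XT.nd (nat_lit 1092) (nat_lit 1900) (nat_lit 0) (XT.nd (nat_lit 546) (nat_lit 1140) (nat_lit 0) (XT.nd (nat_lit 234) (nat_lit 608) (nat_lit 0) (XT.nd (nat_lit 78) (nat_lit 304) (nat_lit 0) (XT.lf (nat_lit 76) (nat_lit 672506115) (nat_lit 0) (nat_lit 1543027294) (nat_lit 228) (nat_lit 4404034147) (nat_lit 153) (nat_lit 1) (nat_lit 152) (nat_lit 1) (nat_lit 155) (nat_lit 1) (nat_lit 330)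 (nat_lit 373) (nat_lit 317)) (XT.nd (nat_lit 78) (nat_lit 152) (nat_lit 0) (XT.lf (nat_lit 228) (nat_lit 1834301907) (nat_lit 0) (nat_lit 2613630613) (nat_lit 152) (nat_lit 2058372243) (nat_lit 153) (nat_lit 1) (nat_lit 150) (nat_lit 1) (nat_lit 152) (nat_lit 1) (nat_lit 331) (nat_lit 373) (nat_lit 316)) (XT.lf (nat_lit 76) (nat_lit 1696562075) (nat_lit 0) (nat_lit 1316370683) (nat_lit 152) (nat_lit 3382522554) (nat_lit 149) (nat_lit 1) (nat_lit 148) (nat_lit 1) (nat_lit 150) (nat_lit 1) (nat_lit 332) (nat_lit 373) (nat_lit 315)))) (XT.nd (nat_lit 156) (nat_lit 304) (nat_lit 0) (XT.nd (nat_lit 78) (nat_lit 152) (nat_lit 0) (XT.lf (nat_lit 228) (nat_lit 1915527831) (nat_lit 0) (nat_lit 3405139693) (nat_lit 152) (nat_lit 966064623) (nat_lit 149) (nat_lit 1) (nat_lit 146) (nat_lit 1) (nat_lit 148) (nat_lit 1) (nat_lit 333) (nat_lit 373) (nat_lit 314)) (XT.lf (nat_lit 76) (nat_lit 2618389410) (nat_lit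 0) (nat_lit 1170208010) (nat_lit 152) (nat_lit 2391445242) (nat_lit 145) (nat_lit 1) (nat_lit 144) (nat_lit 1) (nat_lit 146) (nat_lit 1) (nat_lit 334) (nat_lit 373) (nat_lit 313))) (XT.nd (nat_lit 78) (nat_lit 152) (nat_lit 0) (XT.lf (nat_lit 76) (nat_lit 22942387) (nat_lit 0) (nat_lit 4149759070) (nat_lit 228) (nat_lit 1902915459) (nat_lit 143) (nat_lit 1) (nat_lit 142) (nat_lit 1) (nat_lit 145) (nat_lit 1) (nat_lit 335) (nat_lit 373) (nat_lit 312)) (XT.lf (nat_lit 76) (nat_lit 3447640072) (nat_lit 0) (nat_lit 1091403330) (nat_lit 152) (nat_lit 1433832584) (nat_lit 141) (nat_lit 1) (nat_lit 140) (nat_lit 1) (nat_lit 142) (nat_lit 1) (nat_lit 336) (nat_lit 373) (nat_lit 311))))) (XT.nd (nat_lit 234) (nat_lit 684) (nat_lit 0) (XT.nd (nat_lit 78) (nat_lit 304) (nat_lit 0) (XT.lf (nat_lit 76) (nat_lit 901580441) (nat_lit 0) (nat_lit 4003212502) (nat_lit 228) (nat_lit 967485069) (nat_lit 139) (nat_lit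 1) (nat_lit 138) (nat_lit 1) (nat_lit 141) (nat_lit 1) (nat_lit 337) (nat_lit 373) (nat_lit 310)) (XT.nd (nat_lit 78) (nat_lit 152) (nat_lit 0) (XT.lf (nat_lit 76) (nat_lit 4192962351) (nat_lit 0) (nat_lit 1068565996) (nat_lit 152) (nat_lit 512008207) (nat_lit 137) (nat_lit 1) (nat_lit 136) (nat_lit 1) (nat_lit 138) (nat_lit 1) (nat_lit 338) (nat_lit 373) (nat_lit 309)) (XT.lf (nat_lit 76) (nat_lit 1697059980) (nat_lit 0) (nat_lit 3911412416) (nat_lit 228) (nat_lit 68116217) (nat_lit 135) (nat_lit 1) (nat_lit 134) (nat_lit 1) (nat_lit 137) (nat_lit 1) (nat_lit 339) (nat_lit 373) (nat_lit 308)))) (XT.nd (nat_lit 156) (nat_lit 304) (nat_lit 0) (XT.nd (nat_lit 78) (nat_lit 76) (nat_lit 0) (XT.lf (nat_lit 228) (nat_lit 4486043067) (nat_lit 0) (nat_lit 379720608) (nat_lit 152) (nat_lit 715763827) (nat_lit 133) (nat_lit 1) (nat_lit 130) (nat_lit 1) (nat_lit 132) (nat_lit 1) (nat_lit 340) (nat_lit 373)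 (nat_lit 307)) (XT.lf (nat_lit 152) (nat_lit 1615210219) (nat_lit 0) (nat_lit 809457772) (nat_lit 76) (nat_lit 3063271981) (nat_lit 131) (nat_lit 1) (nat_lit 129) (nat_lit 1) (nat_lit 130) (nat_lit 1) (nat_lit 341) (nat_lit 373) (nat_lit 306))) (XT.nd (nat_lit 78) (nat_lit 76) (nat_lit 0) (XT.lf (nat_lit 76) (nat_lit 76026993) (nat_lit 0) (nat_lit 1165371273) (nat_lit 228) (nat_lit 4155039383) (nat_lit 127) (nat_lit 1) (nat_lit 126) (nat_lit 1) (nat_lit 129) (nat_lit 1) (nat_lit 342) (nat_lit 373) (nat_lit 305)) (XT.lf (nat_lit 152) (nat_lit 1434671448) (nat_lit 0) (nat_lit 1648989017) (nat_lit 76) (nat_lit 2222548180) (nat_lit 127) (nat_lit 1) (nat_lit 125) (nat_lit 1) (nat_lit 126) (nat_lit 1) (nat_lit 343) (nat_lit 373) (nat_lit 304)))))) (XT.nd (nat_lit 546) (nat_lit 912) (nat_lit 0) (XT.nd (nat_lit 234) (nat_lit 456) (nat_lit 0) (XT.nd (nat_lit 78) (nat_lit 304) (nat_lit 0) (XT.lf (nat_lit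 76) (nat_lit 785130074) (nat_lit 0) (nat_lit 1271309473) (nat_lit 228) (nat_lit 3161480782) (nat_lit 123) (nat_lit 1) (nat_lit 122) (nat_lit 1) (nat_lit 125) (nat_lit 1) (nat_lit 344) (nat_lit 373) (nat_lit 303)) (XT.nd (nat_lit 78) (nat_lit 228) (nat_lit 0) (XT.lf (nat_lit 152) (nat_lit 1230950139) (nat_lit 0) (nat_lit 2448487119) (nat_lit 76) (nat_lit 1451653856) (nat_lit 123) (nat_lit 1) (nat_lit 121) (nat_lit 1) (nat_lit 122) (nat_lit 1) (nat_lit 345) (nat_lit 373) (nat_lit 302)) (XT.lf (nat_lit 76) (nat_lit 1431340113) (nat_lit 0) (nat_lit 1400145679) (nat_lit 228) (nat_lit 2214383937) (nat_lit 119) (nat_lit 1) (nat_lit 118) (nat_lit 1) (nat_lit 121) (nat_lit 1) (nat_lit 346) (nat_lit 373) (nat_lit 301)))) (XT.nd (nat_lit 156) (nat_lit 228) (nat_lit 0) (XT.nd (nat_lit 78) (nat_lit 152) (nat_lit 0) (XT.lf (nat_lit 152) (nat_lit 1009791557) (nat_lit 0) (nat_lit 3207678010) (nat_lit 76) (nat_lit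 744816279) (nat_lit 119) (nat_lit 1) (nat_lit 117) (nat_lit 1) (nat_lit 118) (nat_lit 1) (nat_lit 347) (nat_lit 373) (nat_lit 300)) (XT.lf (nat_lit 76) (nat_lit 2019921314) (nat_lit 0) (nat_lit 1546500245) (nat_lit 152) (nat_lit 1313572970) (nat_lit 116) (nat_lit 1) (nat_lit 115) (nat_lit 1) (nat_lit 117) (nat_lit 1) (nat_lit 348) (nat_lit 373) (nat_lit 299))) (XT.nd (nat_lit 78) (nat_lit 152) (nat_lit 0) (XT.lf (nat_lit 152) (nat_lit 776105139) (nat_lit 0) (nat_lit 3926592060) (nat_lit 76) (nat_lit 96814053) (nat_lit 116) (nat_lit 1) (nat_lit 114) (nat_lit 1) (nat_lit 115) (nat_lit 1) (nat_lit 349) (nat_lit 373) (nat_lit 298)) (XT.lf (nat_lit 76) (nat_lit 2555635539) (nat_lit 0) (nat_lit 1705773627) (nat_lit 152) (nat_lit 458613194) (nat_lit 113) (nat_lit 1) (nat_lit 112) (nat_lit 1) (nat_lit 114) (nat_lit 1) (nat_lit 350) (nat_lit 373) (nat_lit 297))))) (XT.nd (nat_lit 234) (nat_lit 532) (nat_lit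 0) (XT.nd (nat_lit 78) (nat_lit 304) (nat_lit 0) (XT.lf (nat_lit 0) (nat_lit 487382443) (nat_lit 0) (nat_lit 4113211068) (nat_lit 152) (nat_lit 41766982) (nat_lit 111) (nat_lit 3) (nat_lit 111) (nat_lit 1) (nat_lit 113) (nat_lit 1) (nat_lit 351) (nat_lit 373) (nat_lit 296)) (XT.nd (nat_lit 78) (nat_lit 76) (nat_lit 0) (XT.lf (nat_lit 152) (nat_lit 2688105254) (nat_lit 0) (nat_lit 358133658) (nat_lit 76) (nat_lit 1519355886) (nat_lit 110) (nat_lit 1) (nat_lit 108) (nat_lit 1) (nat_lit 109) (nat_lit 1) (nat_lit 352) (nat_lit 373) (nat_lit 295)) (XT.lf (nat_lit 76) (nat_lit 269412940) (nat_lit 0) (nat_lit 758726556) (nat_lit 76) (nat_lit 3462358034) (nat_lit 108) (nat_lit 3) (nat_lit 107) (nat_lit 1) (nat_lit 108) (nat_lit 1) (nat_lit 353) (nat_lit 373) (nat_lit 294)))) (XT.nd (nat_lit 156) (nat_lit 304) (nat_lit 0) (XT.nd (nat_lit 78) (nat_lit 76) (nat_lit 0) (XT.lf (nat_lit 152) (nat_lit 2357512781)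 (nat_lit 0) (nat_lit 1138750231) (nat_lit 76) (nat_lit 920190813) (nat_lit 107) (nat_lit 1) (nat_lit 105) (nat_lit 1) (nat_lit 106) (nat_lit 1) (nat_lit 354) (nat_lit 373) (nat_lit 293)) (XT.lf (nat_lit 76) (nat_lit 8337677) (nat_lit 0) (nat_lit 1515518092) (nat_lit 76) (nat_lit 2820080709) (nat_lit 105) (nat_lit 3) (nat_lit 104) (nat_lit 1) (nat_lit 105) (nat_lit 1) (nat_lit 355) (nat_lit 373) (nat_lit 292))) (XT.nd (nat_lit 78) (nat_lit 152) (nat_lit 0) (XT.lf (nat_lit 152) (nat_lit 2029676211) (nat_lit 0) (nat_lit 1875099793) (nat_lit 76) (nat_lit 367732866) (nat_lit 104) (nat_lit 1) (nat_lit 102) (nat_lit 1) (nat_lit 103) (nat_lit 1) (nat_lit 356) (nat_lit 373) (nat_lit 291)) (XT.lf (nat_lit 76) (nat_lit 1980023051) (nat_lit 0) (nat_lit 246289112) (nat_lit 152) (nat_lit 1976085350) (nat_lit 101) (nat_lit 1) (nat_lit 100) (nat_lit 1) (nat_lit 102) (nat_lit 1) (nat_lit 357) (nat_lit 373) (nat_lit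 290))))))))
noncomputable def ec68 : XT := (XT.nd (nat_lit 2184) (nat_lit 1140) (nat_lit 0) (XT.nd (nat_lit 1092) (nat_lit 1824) (nat_lit 0) (XT.nd (nat_lit 546) (nat_lit 836) (nat_lit 0) (XT.nd (nat_lit 234) (nat_lit 532) (nat_lit 0) (XT.nd (nat_lit 78) (nat_lit 228) (nat_lit 0) (XT.lf (nat_lit 0) (nat_lit 138714573) (nat_lit 0) (nat_lit 2428175736) (nat_lit 152) (nat_lit 1566616414) (nat_lit 99) (nat_lit 3) (nat_lit 99) (nat_lit 1) (nat_lit 101) (nat_lit 1) (nat_lit 358) (nat_lit 373) (nat_lit 289)) (XT.nd (nat_lit 78) (nat_lit 76) (nat_lit 0) (XT.lf (nat_lit 76) (nat_lit 2397451364) (nat_lit 0) (nat_lit 497229075) (nat_lit 152) (nat_lit 1171064179) (nat_lit 98) (nat_lit 1) (nat_lit 97) (nat_lit 1) (nat_lit 99) (nat_lit 1) (nat_lit 359) (nat_lit 373) (nat_lit 288)) (XT.lf (nat_lit 0) (nat_lit 598677660) (nat_lit 0) (nat_lit 2614802674) (nat_lit 152) (nat_lit 785712889) (nat_lit 96) (nat_lit 3)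 (nat_lit 96) (nat_lit 1) (nat_lit 98) (nat_lit 1) (nat_lit 360) (nat_lit 373) (nat_lit 287)))) (XT.nd (nat_lit 156) (nat_lit 304) (nat_lit 0) (XT.nd (nat_lit 78) (nat_lit 76) (nat_lit 0) (XT.lf (nat_lit 76) (nat_lit 2778947328) (nat_lit 0) (nat_lit 742991509) (nat_lit 152) (nat_lit 411846296) (nat_lit 95) (nat_lit 1) (nat_lit 94) (nat_lit 1) (nat_lit 96) (nat_lit 1) (nat_lit 361) (nat_lit 373) (nat_lit 286)) (XT.lf (nat_lit 0) (nat_lit 1022166641) (nat_lit 0) (nat_lit 2797588796) (nat_lit 152) (nat_lit 49728644) (nat_lit 93) (nat_lit 3) (nat_lit 93) (nat_lit 1) (nat_lit 95) (nat_lit 1) (nat_lit 362) (nat_lit 373) (nat_lit 285))) (XT.nd (nat_lit 78) (nat_lit 76) (nat_lit 0) (XT.lf (nat_lit 152) (nat_lit 2821044741) (nat_lit 0) (nat_lit 309079029) (nat_lit 76) (nat_lit 676121597) (nat_lit 92) (nat_lit 1) (nat_lit 90) (nat_lit 1) (nat_lit 91) (nat_lit 1) (nat_lit 363) (nat_lit 373) (nat_lit 284))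 (XT.lf (nat_lit 76) (nat_lit 762471880) (nat_lit 0) (nat_lit 655609760) (nat_lit 76) (nat_lit 2325928416) (nat_lit 90) (nat_lit 3) (nat_lit 89) (nat_lit 1) (nat_lit 90) (nat_lit 1) (nat_lit 364) (nat_lit 373) (nat_lit 283))))) (XT.nd (nat_lit 234) (nat_lit 456) (nat_lit 0) (XT.nd (nat_lit 78) (nat_lit 228) (nat_lit 0) (XT.lf (nat_lit 152) (nat_lit 2459509565) (nat_lit 0) (nat_lit 994539366) (nat_lit 76) (nat_lit 228882107) (nat_lit 89) (nat_lit 1) (nat_lit 87) (nat_lit 1) (nat_lit 88) (nat_lit 1) (nat_lit 365) (nat_lit 373) (nat_lit 282)) (XT.nd (nat_lit 78) (nat_lit 152) (nat_lit 0) (XT.lf (nat_lit 76) (nat_lit 463407849) (nat_lit 0) (nat_lit 1319174161) (nat_lit 76) (nat_lit 1840205098) (nat_lit 87) (nat_lit 3) (nat_lit 86) (nat_lit 1) (nat_lit 87) (nat_lit 1) (nat_lit 366) (nat_lit 373) (nat_lit 281)) (XT.lf (nat_lit 0) (nat_lit 181513381) (nat_lit 0) (nat_lit 1454557532) (nat_lit 152) (nat_lit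 1927672587) (nat_lit 84) (nat_lit 3) (nat_lit 84) (nat_lit 1) (nat_lit 86) (nat_lit 1) (nat_lit 367) (nat_lit 373) (nat_lit 280)))) (XT.nd (nat_lit 156) (nat_lit 228) (nat_lit 0) (XT.nd (nat_lit 78) (nat_lit 152) (nat_lit 0) (XT.lf (nat_lit 76) (nat_lit 175856201) (nat_lit 0) (nat_lit 1941531856) (nat_lit 76) (nat_lit 1388279202) (nat_lit 84) (nat_lit 3) (nat_lit 83) (nat_lit 1) (nat_lit 84) (nat_lit 1) (nat_lit 368) (nat_lit 373) (nat_lit 279)) (XT.lf (nat_lit 0) (nat_lit 557032780) (nat_lit 0) (nat_lit 1678089646) (nat_lit 152) (nat_lit 1213398532) (nat_lit 81) (nat_lit 3) (nat_lit 81) (nat_lit 1) (nat_lit 83) (nat_lit 1) (nat_lit 369) (nat_lit 373) (nat_lit 278))) (XT.nd (nat_lit 78) (nat_lit 76) (nat_lit 0) (XT.lf (nat_lit 76) (nat_lit 2425492605) (nat_lit 0) (nat_lit 97765674) (nat_lit 152) (nat_lit 869208886) (nat_lit 80) (nat_lit 1) (nat_lit 79) (nat_lit 1) (nat_lit 81) (nat_lit 1) (nat_lit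 370) (nat_lit 373) (nat_lit 277)) (XT.lf (nat_lit 0) (nat_lit 904149279) (nat_lit 0) (nat_lit 1891364448) (nat_lit 152) (nat_lit 541664652) (nat_lit 78) (nat_lit 3) (nat_lit 78) (nat_lit 1) (nat_lit 80) (nat_lit 1) (nat_lit 371) (nat_lit 373) (nat_lit 276)))))) (XT.nd (nat_lit 546) (nat_lit 912) (nat_lit 0) (XT.nd (nat_lit 234) (nat_lit 456) (nat_lit 0) (XT.nd (nat_lit 78) (nat_lit 304) (nat_lit 0) (XT.lf (nat_lit 76) (nat_lit 2709386621) (nat_lit 0) (nat_lit 355893481) (nat_lit 152) (nat_lit 217741156) (nat_lit 77) (nat_lit 1) (nat_lit 76) (nat_lit 1) (nat_lit 78) (nat_lit 1) (nat_lit 372) (nat_lit 373) (nat_lit 275)) (XT.nd (nat_lit 78) (nat_lit 152) (nat_lit 0) (XT.lf (nat_lit 76) (nat_lit 1134599405) (nat_lit 0) (nat_lit 90994156) (nat_lit 76) (nat_lit 2003952085) (nat_lit 75) (nat_lit 3) (nat_lit 74) (nat_lit 1) (nat_lit 75) (nat_lit 1) (nat_lit 373) (nat_lit 373) (nat_lit 274)) (XT.lf (nat_lit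 152) (nat_lit 2571490618) (nat_lit 0) (nat_lit 401481425) (nat_lit 76) (nat_lit 204152248) (nat_lit 74) (nat_lit 1) (nat_lit 72) (nat_lit 1) (nat_lit 73) (nat_lit 1) (nat_lit 374) (nat_lit 373) (nat_lit 273)))) (XT.nd (nat_lit 156) (nat_lit 228) (nat_lit 0) (XT.nd (nat_lit 78) (nat_lit 152) (nat_lit 0) (XT.lf (nat_lit 76) (nat_lit 832666160) (nat_lit 0) (nat_lit 694470046) (nat_lit 76) (nat_lit 1598227818) (nat_lit 72) (nat_lit 3) (nat_lit 71) (nat_lit 1) (nat_lit 72) (nat_lit 1) (nat_lit 375) (nat_lit 373) (nat_lit 272)) (XT.lf (nat_lit 0) (nat_lit 138294669) (nat_lit 0) (nat_lit 846164903) (nat_lit 152) (nat_lit 2090205288) (nat_lit 69) (nat_lit 3) (nat_lit 69) (nat_lit 1) (nat_lit 71) (nat_lit 1) (nat_lit 376) (nat_lit 373) (nat_lit 271))) (XT.nd (nat_lit 78) (nat_lit 152) (nat_lit 0) (XT.lf (nat_lit 76) (nat_lit 545422049) (nat_lit 0) (nat_lit 1259655157) (nat_lit 76) (nat_lit 1219584177) (nat_lit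 69) (nat_lit 3) (nat_lit 68) (nat_lit 1) (nat_lit 69) (nat_lit 1) (nat_lit 377) (nat_lit 373) (nat_lit 270)) (XT.lf (nat_lit 0) (nat_lit 452393285) (nat_lit 0) (nat_lit 1075751702) (nat_lit 152) (nat_lit 1447422727) (nat_lit 66) (nat_lit 3) (nat_lit 66) (nat_lit 1) (nat_lit 68) (nat_lit 1) (nat_lit 378) (nat_lit 373) (nat_lit 269))))) (XT.nd (nat_lit 234) (nat_lit 608) (nat_lit 0) (XT.nd (nat_lit 78) (nat_lit 228) (nat_lit 0) (XT.lf (nat_lit 76) (nat_lit 272724299) (nat_lit 0) (nat_lit 1788188840) (nat_lit 76) (nat_lit 866398981) (nat_lit 66) (nat_lit 3) (nat_lit 65) (nat_lit 1) (nat_lit 66) (nat_lit 1) (nat_lit 379) (nat_lit 373) (nat_lit 268)) (XT.nd (nat_lit 78) (nat_lit 76) (nat_lit 0) (XT.lf (nat_lit 0) (nat_lit 743617804) (nat_lit 0) (nat_lit 1292554172) (nat_lit 152) (nat_lit 843596688) (nat_lit 63) (nat_lit 3) (nat_lit 63) (nat_lit 1) (nat_lit 65) (nat_lit 1) (nat_lit 380) (nat_lit 373)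 (nat_lit 267)) (XT.lf (nat_lit 76) (nat_lit 14362948) (nat_lit 0) (nat_lit 2281673663) (nat_lit 76) (nat_lit 537159489) (nat_lit 63) (nat_lit 3) (nat_lit 62) (nat_lit 1) (nat_lit 63) (nat_lit 1) (nat_lit 381) (nat_lit 373) (nat_lit 266)))) (XT.nd (nat_lit 156) (nat_lit 304) (nat_lit 0) (XT.nd (nat_lit 78) (nat_lit 152) (nat_lit 0) (XT.lf (nat_lit 0) (nat_lit 1013357936) (nat_lit 0) (nat_lit 1496757419) (nat_lit 152) (nat_lit 277034584) (nat_lit 60) (nat_lit 3) (nat_lit 60) (nat_lit 1) (nat_lit 62) (nat_lit 1) (nat_lit 382) (nat_lit 373) (nat_lit 265)) (XT.lf (nat_lit 76) (nat_lit 2513955334) (nat_lit 0) (nat_lit 225440559) (nat_lit 152) (nat_lit 2736124) (nat_lit 59) (nat_lit 1) (nat_lit 58) (nat_lit 1) (nat_lit 60) (nat_lit 1) (nat_lit 383) (nat_lit 373) (nat_lit 264))) (XT.nd (nat_lit 78) (nat_lit 152) (nat_lit 0) (XT.lf (nat_lit 76) (nat_lit 1006436719) (nat_lit 0) (nat_lit 258963672) (nat_lit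 76) (nat_lit 1432123691) (nat_lit 57) (nat_lit 3) (nat_lit 56) (nat_lit 1) (nat_lit 57) (nat_lit 1) (nat_lit 384) (nat_lit 373) (nat_lit 263)) (XT.lf (nat_lit 0) (nat_lit 63496544) (nat_lit 0) (nat_lit 457104470) (nat_lit 152) (nat_lit 2133305832) (nat_lit 54) (nat_lit 3) (nat_lit 54) (nat_lit 1) (nat_lit 56) (nat_lit 1) (nat_lit 385) (nat_lit 373) (nat_lit 262))))))) (XT.nd (nat_lit 44616) (nat_lit 0) (nat_lit 20444) (XT.nd (nat_lit 546) (nat_lit 380) (nat_lit 0) (XT.nd (nat_lit 234) (nat_lit 456) (nat_lit 0) (XT.nd (nat_lit 78) (nat_lit 228) (nat_lit 0) (XT.lf (nat_lit 76) (nat_lit 735070500) (nat_lit 0) (nat_lit 765780520) (nat_lit 76) (nat_lit 1109935192) (nat_lit 54) (nat_lit 3) (nat_lit 53) (nat_lit 1) (nat_lit 54) (nat_lit 1) (nat_lit 386) (nat_lit 373) (nat_lit 261)) (XT.nd (nat_lit 78) (nat_lit 76) (nat_lit 0) (XT.lf (nat_lit 0) (nat_lit 330697956) (nat_lit 0) (nat_lit 677313482) (nat_lit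 152) (nat_lit 1560525625) (nat_lit 51) (nat_lit 3) (nat_lit 51) (nat_lit 1) (nat_lit 53) (nat_lit 1) (nat_lit 387) (nat_lit 373) (nat_lit 260)) (XT.lf (nat_lit 76) (nat_lit 478659943) (nat_lit 0) (nat_lit 1239483780) (nat_lit 76) (nat_lit 808769968) (nat_lit 51) (nat_lit 3) (nat_lit 50) (nat_lit 1) (nat_lit 51) (nat_lit 1) (nat_lit 388) (nat_lit 373) (nat_lit 259)))) (XT.nd (nat_lit 156) (nat_lit 228) (nat_lit 0) (XT.nd (nat_lit 78) (nat_lit 76) (nat_lit 0) (XT.lf (nat_lit 0) (nat_lit 579007404) (nat_lit 0) (nat_lit 884240900) (nat_lit 152) (nat_lit 1022738757) (nat_lit 48) (nat_lit 3) (nat_lit 48) (nat_lit 1) (nat_lit 50) (nat_lit 1) (nat_lit 389) (nat_lit 373) (nat_lit 258)) (XT.lf (nat_lit 76) (nat_lit 236751865) (nat_lit 0) (nat_lit 1681604302) (nat_lit 76) (nat_lit 527450432) (nat_lit 48) (nat_lit 3) (nat_lit 47) (nat_lit 1) (nat_lit 48) (nat_lit 1) (nat_lit 390) (nat_lit 373) (nat_lit 257)))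 (XT.nd (nat_lit 78) (nat_lit 76) (nat_lit 0) (XT.lf (nat_lit 0) (nat_lit 809508635) (nat_lit 0) (nat_lit 1078300652) (nat_lit 152) (nat_lit 518349418) (nat_lit 45) (nat_lit 3) (nat_lit 45) (nat_lit 1) (nat_lit 47) (nat_lit 1) (nat_lit 391) (nat_lit 373) (nat_lit 256)) (XT.lf (nat_lit 76) (nat_lit 8877279) (nat_lit 0) (nat_lit 2093622030) (nat_lit 76) (nat_lit 264869676) (nat_lit 45) (nat_lit 3) (nat_lit 44) (nat_lit 1) (nat_lit 45) (nat_lit 1) (nat_lit 392) (nat_lit 373) (nat_lit 255))))) (XT.nd (nat_lit 43758) (nat_lit 0) (nat_lit 25536) (XT.nd (nat_lit 78) (nat_lit 228) (nat_lit 0) (XT.lf (nat_lit 0) (nat_lit 1023220051) (nat_lit 0) (nat_lit 1259921297) (nat_lit 152) (nat_lit 45816385) (nat_lit 42) (nat_lit 3) (nat_lit 42) (nat_lit 1) (nat_lit 44) (nat_lit 1) (nat_lit 393) (nat_lit 373) (nat_lit 254)) (XT.nd (nat_lit 43602) (nat_lit 0) (nat_lit 25460) (XT.lf (nat_lit 152) (nat_lit 2088162036)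 (nat_lit 0) (nat_lit 187134076) (nat_lit 76) (nat_lit 16099339) (nat_lit 41) (nat_lit 1) (nat_lit 39) (nat_lit 1) (nat_lit 40) (nat_lit 1) (nat_lit 394) (nat_lit 373) (nat_lit 253)) (XT.lf (nat_lit 1292) (nat_lit 1959299581) (nat_lit 0) (nat_lit 6740901770) (nat_lit 1292) (nat_lit 1959299581) (nat_lit 391) (nat_lit 1) (nat_lit 374) (nat_lit 0) (nat_lit 391) (nat_lit 0) (nat_lit 272) (nat_lit 374) (nat_lit 374)))) (XT.nd (nat_lit 156) (nat_lit 0) (nat_lit 76) (XT.nd (nat_lit 78) (nat_lit 0) (nat_lit 0) (XT.lf (nat_lit 1292) (nat_lit 157080482) (nat_lit 0) (nat_lit 13291640806) (nat_lit 1216) (nat_lit 7358760318) (nat_lit 392) (nat_lit 1) (nat_lit 375) (nat_lit 1) (nat_lit 391) (nat_lit 1) (nat_lit 273) (nat_lit 374) (nat_lit 373)) (XT.lf (nat_lit 1292) (nat_lit 6910865833) (nat_lit 76) (nat_lit 9775166833) (nat_lit 0) (nat_lit 3625580373) (nat_lit 392) (nat_lit 1) (nat_lit 376) (nat_lit 1) (nat_lit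 375) (nat_lit 1) (nat_lit 274) (nat_lit 374) (nat_lit 372))) (XT.nd (nat_lit 78) (nat_lit 0) (nat_lit 76) (XT.lf (nat_lit 1292) (nat_lit 6075237077) (nat_lit 76) (nat_lit 6398546173) (nat_lit 0) (nat_lit 7358016864) (nat_lit 393) (nat_lit 1) (nat_lit 377) (nat_lit 1) (nat_lit 376) (nat_lit 1) (nat_lit 275) (nat_lit 374) (nat_lit 371)) (XT.lf (nat_lit 1292) (nat_lit 5027667759) (nat_lit 76) (nat_lit 3305183320) (nat_lit 0) (nat_lit 11034652331) (nat_lit 394) (nat_lit 1) (nat_lit 378) (nat_lit 1) (nat_lit 377) (nat_lit 1) (nat_lit 276) (nat_lit 374) (nat_lit 370)))))) (XT.nd (nat_lit 546) (nat_lit 3496) (nat_lit 0) (XT.nd (nat_lit 234) (nat_lit 1824) (nat_lit 0) (XT.nd (nat_lit 78) (nat_lit 0) (nat_lit 76) (XT.lf (nat_lit 1292) (nat_lit 3784312840) (nat_lit 76) (nat_lit 480524768) (nat_lit 0) (nat_lit 14653323033) (nat_lit 395) (nat_lit 1) (nat_lit 379) (nat_lit 1) (nat_lit 378) (nat_lit 1) (nat_lit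 277) (nat_lit 374) (nat_lit 369)) (XT.nd (nat_lit 78) (nat_lit 0) (nat_lit 0) (XT.lf (nat_lit 1292) (nat_lit 291182692) (nat_lit 0) (nat_lit 16142909948) (nat_lit 1216) (nat_lit 2048536705) (nat_lit 396) (nat_lit 1) (nat_lit 379) (nat_lit 1) (nat_lit 395) (nat_lit 1) (nat_lit 278) (nat_lit 374) (nat_lit 368)) (XT.lf (nat_lit 1292) (nat_lit 690166325) (nat_lit 76) (nat_lit 13693183253) (nat_lit 0) (nat_lit 3676514760) (nat_lit 396) (nat_lit 1) (nat_lit 380) (nat_lit 1) (nat_lit 379) (nat_lit 1) (nat_lit 279) (nat_lit 374) (nat_lit 367)))) (XT.nd (nat_lit 156) (nat_lit 684) (nat_lit 0) (XT.nd (nat_lit 78) (nat_lit 0) (nat_lit 76) (XT.lf (nat_lit 1368) (nat_lit 10086773020) (nat_lit 0) (nat_lit 1090274671) (nat_lit 1292) (nat_lit 6473130502) (nat_lit 381) (nat_lit 1) (nat_lit 363) (nat_lit 1) (nat_lit 380) (nat_lit 1) (nat_lit 280) (nat_lit 374) (nat_lit 366)) (XT.lf (nat_lit 1368) (nat_lit 5887594739)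 (nat_lit 0) (nat_lit 2991585266) (nat_lit 1292) (nat_lit 8374076991) (nat_lit 382) (nat_lit 1) (nat_lit 364) (nat_lit 1) (nat_lit 381) (nat_lit 1) (nat_lit 281) (nat_lit 374) (nat_lit 365))) (XT.nd (nat_lit 78) (nat_lit 836) (nat_lit 0) (XT.lf (nat_lit 76) (nat_lit 1779262364) (nat_lit 0) (nat_lit 5015570264) (nat_lit 1292) (nat_lit 10074007791) (nat_lit 366) (nat_lit 1) (nat_lit 365) (nat_lit 1) (nat_lit 382) (nat_lit 1) (nat_lit 282) (nat_lit 374) (nat_lit 364)) (XT.lf (nat_lit 912) (nat_lit 9322629934) (nat_lit 0) (nat_lit 4890357026) (nat_lit 836) (nat_lit 2282841721) (nat_lit 366) (nat_lit 1) (nat_lit 354) (nat_lit 1) (nat_lit 365) (nat_lit 1) (nat_lit 283) (nat_lit 374) (nat_lit 363))))) (XT.nd (nat_lit 234) (nat_lit 1748) (nat_lit 0) (XT.nd (nat_lit 78) (nat_lit 1140) (nat_lit 0) (XT.lf (nat_lit 684) (nat_lit 6685199959) (nat_lit 0) (nat_lit 3160767473) (nat_lit 608) (nat_lit 6287991691)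 (nat_lit 355) (nat_lit 1) (nat_lit 346) (nat_lit 1) (nat_lit 354) (nat_lit 1) (nat_lit 284) (nat_lit 374) (nat_lit 362)) (XT.nd (nat_lit 78) (nat_lit 532) (nat_lit 0) (XT.lf (nat_lit 684) (nat_lit 3968242106) (nat_lit 0) (nat_lit 1613979505) (nat_lit 608) (nat_lit 10201125474) (nat_lit 347) (nat_lit 1) (nat_lit 338) (nat_lit 1) (nat_lit 346) (nat_lit 1) (nat_lit 285) (nat_lit 374) (nat_lit 361)) (XT.lf (nat_lit 608) (nat_lit 1180481176) (nat_lit 0) (nat_lit 240405856) (nat_lit 532) (nat_lit 14022713283) (nat_lit 339) (nat_lit 1) (nat_lit 331) (nat_lit 1) (nat_lit 338) (nat_lit 1) (nat_lit 286) (nat_lit 374) (nat_lit 360)))) (XT.nd (nat_lit 156) (nat_lit 1064) (nat_lit 0) (XT.nd (nat_lit 78) (nat_lit 608) (nat_lit 0) (XT.lf (nat_lit 76) (nat_lit 12447673085) (nat_lit 0) (nat_lit 1672756073) (nat_lit 608) (nat_lit 992367576) (nat_lit 331) (nat_lit 1) (nat_lit 330) (nat_lit 1) (nat_lit 338) (nat_lit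 1) (nat_lit 287) (nat_lit 374) (nat_lit 359)) (XT.lf (nat_lit 76) (nat_lit 8127543677) (nat_lit 0) (nat_lit 4570720581) (nat_lit 684) (nat_lit 2093081204) (nat_lit 323) (nat_lit 1) (nat_lit 322) (nat_lit 1) (nat_lit 331) (nat_lit 1) (nat_lit 288) (nat_lit 374) (nat_lit 358))) (XT.nd (nat_lit 78) (nat_lit 532) (nat_lit 0) (XT.lf (nat_lit 76) (nat_lit 3917513577) (nat_lit 0) (nat_lit 7513108576) (nat_lit 608) (nat_lit 3049106587) (nat_lit 316) (nat_lit 1) (nat_lit 315) (nat_lit 1) (nat_lit 323) (nat_lit 1) (nat_lit 289) (nat_lit 374) (nat_lit 357)) (XT.lf (nat_lit 608) (nat_lit 3682347489) (nat_lit 0) (nat_lit 10307586212) (nat_lit 532) (nat_lit 187622436) (nat_lit 316) (nat_lit 1) (nat_lit 308) (nat_lit 1) (nat_lit 315) (nat_lit 1) (nat_lit 290) (nat_lit 374) (nat_lit 356))))))))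
noncomputable def ec69 : XT := (XT.nd (nat_lit 2184) (nat_lit 4940) (nat_lit 0) (XT.nd (nat_lit 1092) (nat_lit 3876) (nat_lit 0) (XT.nd (nat_lit 546) (nat_lit 2584) (nat_lit 0) (XT.nd (nat_lit 234) (nat_lit 1748) (nat_lit 0) (XT.nd (nat_lit 78) (nat_lit 1064) (nat_lit 0) (XT.lf (nat_lit 532) (nat_lit 336955722) (nat_lit 0) (nat_lit 9284845340) (nat_lit 456) (nat_lit 4261636312) (nat_lit 309) (nat_lit 1) (nat_lit 302) (nat_lit 1) (nat_lit 308) (nat_lit 1) (nat_lit 291) (nat_lit 374) (nat_lit 355)) (XT.nd (nat_lit 78) (nat_lit 456) (nat_lit 0) (XT.lf (nat_lit 76) (nat_lit 5399051973) (nat_lit 0) (nat_lit 2965606624) (nat_lit 608) (nat_lit 5232681888) (nat_lit 295) (nat_lit 1) (nat_lit 294) (nat_lit 1) (nat_lit 302) (nat_lit 1) (nat_lit 292) (nat_lit 374) (nat_lit 354)) (XT.lf (nat_lit 76) (nat_lit 1293944743) (nat_lit 0) (nat_lit 6272564441) (nat_lit 532) (nat_lit 5753227856) (nat_lit 289) (nat_lit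 1) (nat_lit 288) (nat_lit 1) (nat_lit 295) (nat_lit 1) (nat_lit 293) (nat_lit 374) (nat_lit 353)))) (XT.nd (nat_lit 156) (nat_lit 836) (nat_lit 0) (XT.nd (nat_lit 78) (nat_lit 456) (nat_lit 0) (XT.lf (nat_lit 532) (nat_lit 3437257829) (nat_lit 0) (nat_lit 6859831476) (nat_lit 456) (nat_lit 2752553398) (nat_lit 289) (nat_lit 1) (nat_lit 282) (nat_lit 1) (nat_lit 288) (nat_lit 1) (nat_lit 294) (nat_lit 374) (nat_lit 352)) (XT.lf (nat_lit 76) (nat_lit 6076559049) (nat_lit 0) (nat_lit 175251806) (nat_lit 456) (nat_lit 6535363619) (nat_lit 277) (nat_lit 1) (nat_lit 276) (nat_lit 1) (nat_lit 282) (nat_lit 1) (nat_lit 295) (nat_lit 374) (nat_lit 351))) (XT.nd (nat_lit 78) (nat_lit 380) (nat_lit 0) (XT.lf (nat_lit 76) (nat_lit 2007027528) (nat_lit 0) (nat_lit 3710253600) (nat_lit 532) (nat_lit 6814227702) (nat_lit 271) (nat_lit 1) (nat_lit 270) (nat_lit 1) (nat_lit 277) (nat_lit 1) (nat_lit 296) (nat_lit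 374) (nat_lit 350)) (XT.lf (nat_lit 456) (nat_lit 5032216632) (nat_lit 0) (nat_lit 5264849609) (nat_lit 380) (nat_lit 1985741427) (nat_lit 271) (nat_lit 1) (nat_lit 265) (nat_lit 1) (nat_lit 270) (nat_lit 1) (nat_lit 297) (nat_lit 374) (nat_lit 349))))) (XT.nd (nat_lit 234) (nat_lit 1368) (nat_lit 0) (XT.nd (nat_lit 78) (nat_lit 836) (nat_lit 0) (XT.lf (nat_lit 456) (nat_lit 1248159184) (nat_lit 0) (nat_lit 4889550570) (nat_lit 380) (nat_lit 5903129493) (nat_lit 266) (nat_lit 1) (nat_lit 260) (nat_lit 1) (nat_lit 265) (nat_lit 1) (nat_lit 298) (nat_lit 374) (nat_lit 348)) (XT.nd (nat_lit 78) (nat_lit 380) (nat_lit 0) (XT.lf (nat_lit 76) (nat_lit 2122397566) (nat_lit 0) (nat_lit 2459146339) (nat_lit 456) (nat_lit 7223687604) (nat_lit 255) (nat_lit 1) (nat_lit 254) (nat_lit 1) (nat_lit 260) (nat_lit 1) (nat_lit 299) (nat_lit 374) (nat_lit 347)) (XT.lf (nat_lit 456) (nat_lit 5445784559) (nat_lit 0)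 (nat_lit 4330755881) (nat_lit 380) (nat_lit 1799066783) (nat_lit 255) (nat_lit 1) (nat_lit 249) (nat_lit 1) (nat_lit 254) (nat_lit 1) (nat_lit 300) (nat_lit 374) (nat_lit 346)))) (XT.nd (nat_lit 156) (nat_lit 608) (nat_lit 0) (XT.nd (nat_lit 78) (nat_lit 456) (nat_lit 0) (XT.lf (nat_lit 380) (nat_lit 1563512826) (nat_lit 0) (nat_lit 4142295539) (nat_lit 304) (nat_lit 5646224604) (nat_lit 250) (nat_lit 1) (nat_lit 245) (nat_lit 1) (nat_lit 249) (nat_lit 1) (nat_lit 301) (nat_lit 374) (nat_lit 345)) (XT.lf (nat_lit 76) (nat_lit 1777269452) (nat_lit 0) (nat_lit 2233182260) (nat_lit 456) (nat_lit 7123810030) (nat_lit 240) (nat_lit 1) (nat_lit 239) (nat_lit 1) (nat_lit 245) (nat_lit 1) (nat_lit 302) (nat_lit 374) (nat_lit 344))) (XT.nd (nat_lit 78) (nat_lit 304) (nat_lit 0) (XT.lf (nat_lit 380) (nat_lit 4944349219) (nat_lit 0) (nat_lit 3917942712) (nat_lit 304) (nat_lit 2059419136) (nat_lit 240) (nat_lit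 1) (nat_lit 235) (nat_lit 1) (nat_lit 239) (nat_lit 1) (nat_lit 303) (nat_lit 374) (nat_lit 343)) (XT.lf (nat_lit 380) (nat_lit 1020010498) (nat_lit 0) (nat_lit 3879673694) (nat_lit 304) (nat_lit 5815053267) (nat_lit 236) (nat_lit 1) (nat_lit 231) (nat_lit 1) (nat_lit 235) (nat_lit 1) (nat_lit 304) (nat_lit 374) (nat_lit 342)))))) (XT.nd (nat_lit 546) (nat_lit 1748) (nat_lit 0) (XT.nd (nat_lit 234) (nat_lit 1140) (nat_lit 0) (XT.nd (nat_lit 78) (nat_lit 608) (nat_lit 0) (XT.lf (nat_lit 76) (nat_lit 1083967716) (nat_lit 0) (nat_lit 2797365565) (nat_lit 380) (nat_lit 6631514664) (nat_lit 227) (nat_lit 1) (nat_lit 226) (nat_lit 1) (nat_lit 231) (nat_lit 1) (nat_lit 305) (nat_lit 374) (nat_lit 341)) (XT.nd (nat_lit 78) (nat_lit 304) (nat_lit 0) (XT.lf (nat_lit 380) (nat_lit 3746341376) (nat_lit 0) (nat_lit 3911441906) (nat_lit 304) (nat_lit 2657850196) (nat_lit 227) (nat_lit 1) (nat_lit 222) (nat_lit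 1) (nat_lit 226) (nat_lit 1) (nat_lit 306) (nat_lit 374) (nat_lit 340)) (XT.lf (nat_lit 76) (nat_lit 3819378172) (nat_lit 0) (nat_lit 171847179) (nat_lit 304) (nat_lit 6132413669) (nat_lit 219) (nat_lit 1) (nat_lit 218) (nat_lit 1) (nat_lit 222) (nat_lit 1) (nat_lit 307) (nat_lit 374) (nat_lit 339)))) (XT.nd (nat_lit 156) (nat_lit 608) (nat_lit 0) (XT.nd (nat_lit 78) (nat_lit 228) (nat_lit 0) (XT.lf (nat_lit 76) (nat_lit 134114065) (nat_lit 0) (nat_lit 3959228143) (nat_lit 380) (nat_lit 5842654142) (nat_lit 215) (nat_lit 1) (nat_lit 214) (nat_lit 1) (nat_lit 219) (nat_lit 1) (nat_lit 308) (nat_lit 374) (nat_lit 338)) (XT.lf (nat_lit 304) (nat_lit 2030274098) (nat_lit 0) (nat_lit 4216825191) (nat_lit 228) (nat_lit 3505507505) (nat_lit 215) (nat_lit 1) (nat_lit 211) (nat_lit 1) (nat_lit 214) (nat_lit 1) (nat_lit 309) (nat_lit 374) (nat_lit 337))) (XT.nd (nat_lit 78) (nat_lit 228) (nat_lit 0) (XT.lf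 (nat_lit 76) (nat_lit 2557565894) (nat_lit 0) (nat_lit 1817033677) (nat_lit 380) (nat_lit 5199178085) (nat_lit 207) (nat_lit 1) (nat_lit 206) (nat_lit 1) (nat_lit 211) (nat_lit 1) (nat_lit 310) (nat_lit 374) (nat_lit 336)) (XT.lf (nat_lit 304) (nat_lit 3827594168) (nat_lit 0) (nat_lit 4553739607) (nat_lit 228) (nat_lit 1017730845) (nat_lit 207) (nat_lit 1) (nat_lit 203) (nat_lit 1) (nat_lit 206) (nat_lit 1) (nat_lit 311) (nat_lit 374) (nat_lit 335))))) (XT.nd (nat_lit 234) (nat_lit 988) (nat_lit 0) (XT.nd (nat_lit 78) (nat_lit 456) (nat_lit 0) (XT.lf (nat_lit 76) (nat_lit 4698803043) (nat_lit 0) (nat_lit 57390565) (nat_lit 304) (nat_lit 4472264274) (nat_lit 200) (nat_lit 1) (nat_lit 199) (nat_lit 1) (nat_lit 203) (nat_lit 1) (nat_lit 312) (nat_lit 374) (nat_lit 334)) (XT.nd (nat_lit 78) (nat_lit 228) (nat_lit 0) (XT.lf (nat_lit 76) (nat_lit 1167731159) (nat_lit 0) (nat_lit 3800568839) (nat_lit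 304) (nat_lit 4093194255) (nat_lit 197) (nat_lit 1) (nat_lit 196) (nat_lit 1) (nat_lit 200) (nat_lit 1) (nat_lit 313) (nat_lit 374) (nat_lit 333)) (XT.lf (nat_lit 304) (nat_lit 1399322070) (nat_lit 0) (nat_lit 5202490961) (nat_lit 228) (nat_lit 2296658766) (nat_lit 197) (nat_lit 1) (nat_lit 193) (nat_lit 1) (nat_lit 196) (nat_lit 1) (nat_lit 314) (nat_lit 374) (nat_lit 332)))) (XT.nd (nat_lit 156) (nat_lit 456) (nat_lit 0) (XT.nd (nat_lit 78) (nat_lit 228) (nat_lit 0) (XT.lf (nat_lit 76) (nat_lit 3088967359) (nat_lit 0) (nat_lit 2355451453) (nat_lit 304) (nat_lit 3294490990) (nat_lit 190) (nat_lit 1) (nat_lit 189) (nat_lit 1) (nat_lit 193) (nat_lit 1) (nat_lit 315) (nat_lit 374) (nat_lit 331)) (XT.lf (nat_lit 304) (nat_lit 2567043513) (nat_lit 0) (nat_lit 5710968840) (nat_lit 228) (nat_lit 305226100) (nat_lit 190) (nat_lit 1) (nat_lit 186) (nat_lit 1) (nat_lit 189) (nat_lit 1) (nat_lit 316) (nat_lit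 374) (nat_lit 330))) (XT.nd (nat_lit 78) (nat_lit 228) (nat_lit 0) (XT.lf (nat_lit 76) (nat_lit 4791814648) (nat_lit 0) (nat_lit 1182744108) (nat_lit 228) (nat_lit 2456035176) (nat_lit 184) (nat_lit 1) (nat_lit 183) (nat_lit 1) (nat_lit 186) (nat_lit 1) (nat_lit 317) (nat_lit 374) (nat_lit 329)) (XT.lf (nat_lit 76) (nat_lit 1440798335) (nat_lit 0) (nat_lit 4810498527) (nat_lit 304) (nat_lit 2030089258) (nat_lit 181) (nat_lit 1) (nat_lit 180) (nat_lit 1) (nat_lit 184) (nat_lit 1) (nat_lit 318) (nat_lit 374) (nat_lit 328))))))) (XT.nd (nat_lit 1092) (nat_lit 2204) (nat_lit 0) (XT.nd (nat_lit 546) (nat_lit 1216) (nat_lit 0) (XT.nd (nat_lit 234) (nat_lit 912) (nat_lit 0) (XT.nd (nat_lit 78) (nat_lit 380) (nat_lit 0) (XT.lf (nat_lit 76) (nat_lit 6299347108) (nat_lit 0) (nat_lit 244335817) (nat_lit 228) (nat_lit 1591946731) (nat_lit 178) (nat_lit 1) (nat_lit 177) (nat_lit 1) (nat_lit 180) (nat_lit 1)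 (nat_lit 319) (nat_lit 374) (nat_lit 327)) (XT.nd (nat_lit 78) (nat_lit 152) (nat_lit 0) (XT.lf (nat_lit 76) (nat_lit 2990504630) (nat_lit 0) (nat_lit 3832477920) (nat_lit 304) (nat_lit 1169448010) (nat_lit 175) (nat_lit 1) (nat_lit 174) (nat_lit 1) (nat_lit 178) (nat_lit 1) (nat_lit 320) (nat_lit 374) (nat_lit 326)) (XT.lf (nat_lit 228) (nat_lit 502883589) (nat_lit 0) (nat_lit 7134022911) (nat_lit 152) (nat_lit 216132004) (nat_lit 175) (nat_lit 1) (nat_lit 172) (nat_lit 1) (nat_lit 174) (nat_lit 1) (nat_lit 321) (nat_lit 374) (nat_lit 325)))) (XT.nd (nat_lit 156) (nat_lit 380) (nat_lit 0) (XT.nd (nat_lit 78) (nat_lit 304) (nat_lit 0) (XT.lf (nat_lit 76) (nat_lit 4369540700) (nat_lit 0) (nat_lit 3047475013) (nat_lit 228) (nat_lit 298641463) (nat_lit 170) (nat_lit 1) (nat_lit 169) (nat_lit 1) (nat_lit 172) (nat_lit 1) (nat_lit 322) (nat_lit 374) (nat_lit 324)) (XT.lf (nat_lit 228) (nat_lit 1065906193)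 (nat_lit 0) (nat_lit 147809532) (nat_lit 152) (nat_lit 6368070276) (nat_lit 168) (nat_lit 1) (nat_lit 165) (nat_lit 1) (nat_lit 167) (nat_lit 1) (nat_lit 323) (nat_lit 374) (nat_lit 323))) (XT.nd (nat_lit 78) (nat_lit 152) (nat_lit 0) (XT.lf (nat_lit 228) (nat_lit 5016758348) (nat_lit 0) (nat_lit 584289441) (nat_lit 152) (nat_lit 1849118251) (nat_lit 165) (nat_lit 1) (nat_lit 162) (nat_lit 1) (nat_lit 164) (nat_lit 1) (nat_lit 324) (nat_lit 374) (nat_lit 322)) (XT.lf (nat_lit 228) (nat_lit 1471590222) (nat_lit 0) (nat_lit 1024865032) (nat_lit 152) (nat_lit 4824959314) (nat_lit 163) (nat_lit 1) (nat_lit 160) (nat_lit 1) (nat_lit 162) (nat_lit 1) (nat_lit 325) (nat_lit 374) (nat_lit 321))))) (XT.nd (nat_lit 234) (nat_lit 608) (nat_lit 0) (XT.nd (nat_lit 78) (nat_lit 380) (nat_lit 0) (XT.lf (nat_lit 228) (nat_lit 5232019350) (nat_lit 0) (nat_lit 1465854915) (nat_lit 152) (nat_lit 497497733) (nat_lit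 160) (nat_lit 1) (nat_lit 157) (nat_lit 1) (nat_lit 159) (nat_lit 1) (nat_lit 326) (nat_lit 374) (nat_lit 320)) (XT.nd (nat_lit 78) (nat_lit 228) (nat_lit 0) (XT.lf (nat_lit 228) (nat_lit 1751777310) (nat_lit 0) (nat_lit 1892438605) (nat_lit 152) (nat_lit 3427339380) (nat_lit 158) (nat_lit 1) (nat_lit 155) (nat_lit 1) (nat_lit 157) (nat_lit 1) (nat_lit 327) (nat_lit 374) (nat_lit 319)) (XT.lf (nat_lit 76) (nat_lit 706131421) (nat_lit 0) (nat_lit 1620178659) (nat_lit 228) (nat_lit 4624235854) (nat_lit 153) (nat_lit 1) (nat_lit 152) (nat_lit 1) (nat_lit 155) (nat_lit 1) (nat_lit 328) (nat_lit 374) (nat_lit 318)))) (XT.nd (nat_lit 156) (nat_lit 304) (nat_lit 0) (XT.nd (nat_lit 78) (nat_lit 152) (nat_lit 0) (XT.lf (nat_lit 228) (nat_lit 1926017003) (nat_lit 0) (nat_lit 2744312144) (nat_lit 152) (nat_lit 2161290855) (nat_lit 153) (nat_lit 1) (nat_lit 150) (nat_lit 1) (nat_lit 152) (nat_lit 1) (nat_lit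 329) (nat_lit 374) (nat_lit 317)) (XT.lf (nat_lit 76) (nat_lit 1781390178) (nat_lit 0) (nat_lit 1382189217) (nat_lit 152) (nat_lit 3551648681) (nat_lit 149) (nat_lit 1) (nat_lit 148) (nat_lit 1) (nat_lit 150) (nat_lit 1) (nat_lit 330) (nat_lit 374) (nat_lit 316))) (XT.nd (nat_lit 78) (nat_lit 152) (nat_lit 0) (XT.lf (nat_lit 228) (nat_lit 2011304223) (nat_lit 0) (nat_lit 3575396678) (nat_lit 152) (nat_lit 1014367855) (nat_lit 149) (nat_lit 1) (nat_lit 146) (nat_lit 1) (nat_lit 148) (nat_lit 1) (nat_lit 331) (nat_lit 374) (nat_lit 315)) (XT.lf (nat_lit 76) (nat_lit 2749308881) (nat_lit 0) (nat_lit 1228718410) (nat_lit 152) (nat_lit 2511017504) (nat_lit 145) (nat_lit 1) (nat_lit 144) (nat_lit 1) (nat_lit 146) (nat_lit 1) (nat_lit 332) (nat_lit 374) (nat_lit 314)))))) (XT.nd (nat_lit 546) (nat_lit 1064) (nat_lit 0) (XT.nd (nat_lit 234) (nat_lit 684) (nat_lit 0) (XT.nd (nat_lit 78) (nat_lit 304) (nat_lit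 0) (XT.lf (nat_lit 76) (nat_lit 24089506) (nat_lit 0) (nat_lit 4357247024) (nat_lit 228) (nat_lit 1998061232) (nat_lit 143) (nat_lit 1) (nat_lit 142) (nat_lit 1) (nat_lit 145) (nat_lit 1) (nat_lit 333) (nat_lit 374) (nat_lit 313)) (XT.nd (nat_lit 78) (nat_lit 152) (nat_lit 0) (XT.lf (nat_lit 76) (nat_lit 3620022076) (nat_lit 0) (nat_lit 1145973496) (nat_lit 152) (nat_lit 1505524213) (nat_lit 141) (nat_lit 1) (nat_lit 140) (nat_lit 1) (nat_lit 142) (nat_lit 1) (nat_lit 334) (nat_lit 374) (nat_lit 312)) (XT.lf (nat_lit 76) (nat_lit 946659463) (nat_lit 0) (nat_lit 4203373127) (nat_lit 228) (nat_lit 1015859322) (nat_lit 139) (nat_lit 1) (nat_lit 138) (nat_lit 1) (nat_lit 141) (nat_lit 1) (nat_lit 335) (nat_lit 374) (nat_lit 311)))) (XT.nd (nat_lit 156) (nat_lit 380) (nat_lit 0) (XT.nd (nat_lit 78) (nat_lit 152) (nat_lit 0) (XT.lf (nat_lit 76) (nat_lit 4402610469) (nat_lit 0) (nat_lit 1121994296) (nat_lit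 152) (nat_lit 537608618) (nat_lit 137) (nat_lit 1) (nat_lit 136) (nat_lit 1) (nat_lit 138) (nat_lit 1) (nat_lit 336) (nat_lit 374) (nat_lit 310)) (XT.lf (nat_lit 76) (nat_lit 1781912979) (nat_lit 0) (nat_lit 4106983037) (nat_lit 228) (nat_lit 71522028) (nat_lit 135) (nat_lit 1) (nat_lit 134) (nat_lit 1) (nat_lit 137) (nat_lit 1) (nat_lit 337) (nat_lit 374) (nat_lit 309))) (XT.nd (nat_lit 78) (nat_lit 76) (nat_lit 0) (XT.lf (nat_lit 228) (nat_lit 4710345221) (nat_lit 0) (nat_lit 398706639) (nat_lit 152) (nat_lit 751552018) (nat_lit 133) (nat_lit 1) (nat_lit 130) (nat_lit 1) (nat_lit 132) (nat_lit 1) (nat_lit 338) (nat_lit 374) (nat_lit 308)) (XT.lf (nat_lit 152) (nat_lit 1695970730) (nat_lit 0) (nat_lit 849930661) (nat_lit 76) (nat_lit 3216435580) (nat_lit 131) (nat_lit 1) (nat_lit 129) (nat_lit 1) (nat_lit 130) (nat_lit 1) (nat_lit 339) (nat_lit 374) (nat_lit 307))))) (XT.nd (nat_lit 234) (nat_lit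 532) (nat_lit 0) (XT.nd (nat_lit 78) (nat_lit 304) (nat_lit 0) (XT.lf (nat_lit 76) (nat_lit 79828343) (nat_lit 0) (nat_lit 1223639837) (nat_lit 228) (nat_lit 4362791352) (nat_lit 127) (nat_lit 1) (nat_lit 126) (nat_lit 1) (nat_lit 129) (nat_lit 1) (nat_lit 340) (nat_lit 374) (nat_lit 306)) (XT.nd (nat_lit 78) (nat_lit 228) (nat_lit 0) (XT.lf (nat_lit 152) (nat_lit 1506405021) (nat_lit 0) (nat_lit 1731438467) (nat_lit 76) (nat_lit 2333675589) (nat_lit 127) (nat_lit 1) (nat_lit 125) (nat_lit 1) (nat_lit 126) (nat_lit 1) (nat_lit 341) (nat_lit 374) (nat_lit 305)) (XT.lf (nat_lit 76) (nat_lit 824386578) (nat_lit 0) (nat_lit 1334874947) (nat_lit 228) (nat_lit 3319554821) (nat_lit 123) (nat_lit 1) (nat_lit 122) (nat_lit 1) (nat_lit 125) (nat_lit 1) (nat_lit 342) (nat_lit 374) (nat_lit 304)))) (XT.nd (nat_lit 156) (nat_lit 228) (nat_lit 0) (XT.nd (nat_lit 78) (nat_lit 228) (nat_lit 0) (XT.lf (nat_lit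 152) (nat_lit 1292497646) (nat_lit 0) (nat_lit 2570911475) (nat_lit 76) (nat_lit 1524236548) (nat_lit 123) (nat_lit 1) (nat_lit 121) (nat_lit 1) (nat_lit 122) (nat_lit 1) (nat_lit 343) (nat_lit 374) (nat_lit 303)) (XT.lf (nat_lit 76) (nat_lit 1502907119) (nat_lit 0) (nat_lit 1470152963) (nat_lit 228) (nat_lit 2325103134) (nat_lit 119) (nat_lit 1) (nat_lit 118) (nat_lit 1) (nat_lit 121) (nat_lit 1) (nat_lit 344) (nat_lit 374) (nat_lit 302))) (XT.nd (nat_lit 78) (nat_lit 152) (nat_lit 0) (XT.lf (nat_lit 152) (nat_lit 1060281135) (nat_lit 0) (nat_lit 3368061911) (nat_lit 76) (nat_lit 782057093) (nat_lit 119) (nat_lit 1) (nat_lit 117) (nat_lit 1) (nat_lit 118) (nat_lit 1) (nat_lit 345) (nat_lit 374) (nat_lit 301)) (XT.lf (nat_lit 76) (nat_lit 2120917380) (nat_lit 0) (nat_lit 1623825257) (nat_lit 152) (nat_lit 1379251618) (nat_lit 116) (nat_lit 1) (nat_lit 115) (nat_lit 1) (nat_lit 117) (nat_lit 1)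 (nat_lit 346) (nat_lit 374) (nat_lit 300))))))))
noncomputable def ec70 : XT := (XT.nd (nat_lit 2184) (nat_lit 2508) (nat_lit 0) (XT.nd (nat_lit 1092) (nat_lit 1824) (nat_lit 0) (XT.nd (nat_lit 546) (nat_lit 836) (nat_lit 0) (XT.nd (nat_lit 234) (nat_lit 532) (nat_lit 0) (XT.nd (nat_lit 78) (nat_lit 228) (nat_lit 0) (XT.lf (nat_lit 152) (nat_lit 814910396) (nat_lit 0) (nat_lit 4122921663) (nat_lit 76) (nat_lit 101654755) (nat_lit 116) (nat_lit 1) (nat_lit 114) (nat_lit 1) (nat_lit 115) (nat_lit 1) (nat_lit 347) (nat_lit 374) (nat_lit 299)) (XT.nd (nat_lit 78) (nat_lit 76) (nat_lit 0) (XT.lf (nat_lit 76) (nat_lit 2683417316) (nat_lit 0) (nat_lit 1791062308) (nat_lit 152) (nat_lit 481543853) (nat_lit 113) (nat_lit 1) (nat_lit 112) (nat_lit 1) (nat_lit 114) (nat_lit 1) (nat_lit 348) (nat_lit 374) (nat_lit 298)) (XT.lf (nat_lit 0) (nat_lit 511751565) (nat_lit 0) (nat_lit 4318871621) (nat_lit 152) (nat_lit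 43855331) (nat_lit 111) (nat_lit 3) (nat_lit 111) (nat_lit 1) (nat_lit 113) (nat_lit 1) (nat_lit 349) (nat_lit 374) (nat_lit 297)))) (XT.nd (nat_lit 156) (nat_lit 228) (nat_lit 0) (XT.nd (nat_lit 78) (nat_lit 76) (nat_lit 0) (XT.lf (nat_lit 152) (nat_lit 2822510517) (nat_lit 0) (nat_lit 376040341) (nat_lit 76) (nat_lit 1595323680) (nat_lit 110) (nat_lit 1) (nat_lit 108) (nat_lit 1) (nat_lit 109) (nat_lit 1) (nat_lit 350) (nat_lit 374) (nat_lit 296)) (XT.lf (nat_lit 76) (nat_lit 282883587) (nat_lit 0) (nat_lit 796662884) (nat_lit 76) (nat_lit 3635475935) (nat_lit 108) (nat_lit 3) (nat_lit 107) (nat_lit 1) (nat_lit 108) (nat_lit 1) (nat_lit 351) (nat_lit 374) (nat_lit 295))) (XT.nd (nat_lit 78) (nat_lit 76) (nat_lit 0) (XT.lf (nat_lit 152) (nat_lit 2475388420) (nat_lit 0) (nat_lit 1195687742) (nat_lit 76) (nat_lit 966200353) (nat_lit 107) (nat_lit 1) (nat_lit 105) (nat_lit 1) (nat_lit 106) (nat_lit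 1) (nat_lit 352) (nat_lit 374) (nat_lit 294)) (XT.lf (nat_lit 76) (nat_lit 8754561) (nat_lit 0) (nat_lit 1591293996) (nat_lit 76) (nat_lit 2961084744) (nat_lit 105) (nat_lit 3) (nat_lit 104) (nat_lit 1) (nat_lit 105) (nat_lit 1) (nat_lit 353) (nat_lit 374) (nat_lit 293))))) (XT.nd (nat_lit 234) (nat_lit 456) (nat_lit 0) (XT.nd (nat_lit 78) (nat_lit 228) (nat_lit 0) (XT.lf (nat_lit 152) (nat_lit 2131160022) (nat_lit 0) (nat_lit 1968854782) (nat_lit 76) (nat_lit 386119510) (nat_lit 104) (nat_lit 1) (nat_lit 102) (nat_lit 1) (nat_lit 103) (nat_lit 1) (nat_lit 354) (nat_lit 374) (nat_lit 292)) (XT.nd (nat_lit 78) (nat_lit 76) (nat_lit 0) (XT.lf (nat_lit 76) (nat_lit 2079024203) (nat_lit 0) (nat_lit 258603567) (nat_lit 152) (nat_lit 2074889618) (nat_lit 101) (nat_lit 1) (nat_lit 100) (nat_lit 1) (nat_lit 102) (nat_lit 1) (nat_lit 355) (nat_lit 374) (nat_lit 291)) (XT.lf (nat_lit 0) (nat_lit 145650301)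 (nat_lit 0) (nat_lit 2549584523) (nat_lit 152) (nat_lit 1644947234) (nat_lit 99) (nat_lit 3) (nat_lit 99) (nat_lit 1) (nat_lit 101) (nat_lit 1) (nat_lit 356) (nat_lit 374) (nat_lit 290)))) (XT.nd (nat_lit 156) (nat_lit 228) (nat_lit 0) (XT.nd (nat_lit 78) (nat_lit 76) (nat_lit 0) (XT.lf (nat_lit 76) (nat_lit 2517323932) (nat_lit 0) (nat_lit 522090529) (nat_lit 152) (nat_lit 1229617388) (nat_lit 98) (nat_lit 1) (nat_lit 97) (nat_lit 1) (nat_lit 99) (nat_lit 1) (nat_lit 357) (nat_lit 374) (nat_lit 289)) (XT.lf (nat_lit 0) (nat_lit 628611543) (nat_lit 0) (nat_lit 2745542808) (nat_lit 152) (nat_lit 824998534) (nat_lit 96) (nat_lit 3) (nat_lit 96) (nat_lit 1) (nat_lit 98) (nat_lit 1) (nat_lit 358) (nat_lit 374) (nat_lit 288))) (XT.nd (nat_lit 78) (nat_lit 76) (nat_lit 0) (XT.lf (nat_lit 76) (nat_lit 2917894694) (nat_lit 0) (nat_lit 780141085) (nat_lit 152) (nat_lit 432438611) (nat_lit 95) (nat_lit 1)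 (nat_lit 94) (nat_lit 1) (nat_lit 96) (nat_lit 1) (nat_lit 359) (nat_lit 374) (nat_lit 287)) (XT.lf (nat_lit 0) (nat_lit 1073274973) (nat_lit 0) (nat_lit 2937468236) (nat_lit 152) (nat_lit 52215076) (nat_lit 93) (nat_lit 3) (nat_lit 93) (nat_lit 1) (nat_lit 95) (nat_lit 1) (nat_lit 360) (nat_lit 374) (nat_lit 286)))))) (XT.nd (nat_lit 546) (nat_lit 912) (nat_lit 0) (XT.nd (nat_lit 234) (nat_lit 456) (nat_lit 0) (XT.nd (nat_lit 78) (nat_lit 228) (nat_lit 0) (XT.lf (nat_lit 152) (nat_lit 2962096978) (nat_lit 0) (nat_lit 324532981) (nat_lit 76) (nat_lit 709927677) (nat_lit 92) (nat_lit 1) (nat_lit 90) (nat_lit 1) (nat_lit 91) (nat_lit 1) (nat_lit 361) (nat_lit 374) (nat_lit 285)) (XT.nd (nat_lit 78) (nat_lit 152) (nat_lit 0) (XT.lf (nat_lit 76) (nat_lit 800595474) (nat_lit 0) (nat_lit 688390248) (nat_lit 76) (nat_lit 2442224837) (nat_lit 90) (nat_lit 3) (nat_lit 89) (nat_lit 1) (nat_lit 90) (nat_lit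 1) (nat_lit 362) (nat_lit 374) (nat_lit 284)) (XT.lf (nat_lit 152) (nat_lit 2582485043) (nat_lit 0) (nat_lit 1044266334) (nat_lit 76) (nat_lit 240326212) (nat_lit 89) (nat_lit 1) (nat_lit 87) (nat_lit 1) (nat_lit 88) (nat_lit 1) (nat_lit 363) (nat_lit 374) (nat_lit 283)))) (XT.nd (nat_lit 156) (nat_lit 228) (nat_lit 0) (XT.nd (nat_lit 78) (nat_lit 152) (nat_lit 0) (XT.lf (nat_lit 76) (nat_lit 486578241) (nat_lit 0) (nat_lit 1385132869) (nat_lit 76) (nat_lit 1932215353) (nat_lit 87) (nat_lit 3) (nat_lit 86) (nat_lit 1) (nat_lit 87) (nat_lit 1) (nat_lit 364) (nat_lit 374) (nat_lit 282)) (XT.lf (nat_lit 0) (nat_lit 190589050) (nat_lit 0) (nat_lit 1527285408) (nat_lit 152) (nat_lit 2024056216) (nat_lit 84) (nat_lit 3) (nat_lit 84) (nat_lit 1) (nat_lit 86) (nat_lit 1) (nat_lit 365) (nat_lit 374) (nat_lit 281))) (XT.nd (nat_lit 78) (nat_lit 152) (nat_lit 0) (XT.lf (nat_lit 76) (nat_lit 184649011) (nat_lit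 0) (nat_lit 2038608449) (nat_lit 76) (nat_lit 1457693162) (nat_lit 84) (nat_lit 3) (nat_lit 83) (nat_lit 1) (nat_lit 84) (nat_lit 1) (nat_lit 366) (nat_lit 374) (nat_lit 280)) (XT.lf (nat_lit 0) (nat_lit 584884419) (nat_lit 0) (nat_lit 1761994129) (nat_lit 152) (nat_lit 1274068459) (nat_lit 81) (nat_lit 3) (nat_lit 81) (nat_lit 1) (nat_lit 83) (nat_lit 1) (nat_lit 367) (nat_lit 374) (nat_lit 279))))) (XT.nd (nat_lit 234) (nat_lit 532) (nat_lit 0) (XT.nd (nat_lit 78) (nat_lit 228) (nat_lit 0) (XT.lf (nat_lit 76) (nat_lit 2546767235) (nat_lit 0) (nat_lit 102653958) (nat_lit 152) (nat_lit 912669330) (nat_lit 80) (nat_lit 1) (nat_lit 79) (nat_lit 1) (nat_lit 81) (nat_lit 1) (nat_lit 368) (nat_lit 374) (nat_lit 278)) (XT.nd (nat_lit 78) (nat_lit 152) (nat_lit 0) (XT.lf (nat_lit 0) (nat_lit 949356743) (nat_lit 0) (nat_lit 1985932671) (nat_lit 152) (nat_lit 568747884) (nat_lit 78) (nat_lit 3) (nat_lit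 78) (nat_lit 1) (nat_lit 80) (nat_lit 1) (nat_lit 369) (nat_lit 374) (nat_lit 277)) (XT.lf (nat_lit 76) (nat_lit 2844855952) (nat_lit 0) (nat_lit 373688155) (nat_lit 152) (nat_lit 228628214) (nat_lit 77) (nat_lit 1) (nat_lit 76) (nat_lit 1) (nat_lit 78) (nat_lit 1) (nat_lit 370) (nat_lit 374) (nat_lit 276)))) (XT.nd (nat_lit 156) (nat_lit 228) (nat_lit 0) (XT.nd (nat_lit 78) (nat_lit 152) (nat_lit 0) (XT.lf (nat_lit 76) (nat_lit 1191329375) (nat_lit 0) (nat_lit 95543864) (nat_lit 76) (nat_lit 2104149689) (nat_lit 75) (nat_lit 3) (nat_lit 74) (nat_lit 1) (nat_lit 75) (nat_lit 1) (nat_lit 371) (nat_lit 374) (nat_lit 275)) (XT.lf (nat_lit 152) (nat_lit 2700065149) (nat_lit 0) (nat_lit 421555497) (nat_lit 76) (nat_lit 214359860) (nat_lit 74) (nat_lit 1) (nat_lit 72) (nat_lit 1) (nat_lit 73) (nat_lit 1) (nat_lit 372) (nat_lit 374) (nat_lit 274))) (XT.nd (nat_lit 78) (nat_lit 152) (nat_lit 0) (XT.lf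 (nat_lit 76) (nat_lit 874299468) (nat_lit 0) (nat_lit 729193548) (nat_lit 76) (nat_lit 1678139209) (nat_lit 72) (nat_lit 3) (nat_lit 71) (nat_lit 1) (nat_lit 72) (nat_lit 1) (nat_lit 373) (nat_lit 374) (nat_lit 273)) (XT.lf (nat_lit 0) (nat_lit 145209402) (nat_lit 0) (nat_lit 888473148) (nat_lit 152) (nat_lit 2194715552) (nat_lit 69) (nat_lit 3) (nat_lit 69) (nat_lit 1) (nat_lit 71) (nat_lit 1) (nat_lit 374) (nat_lit 374) (nat_lit 272))))))) (XT.nd (nat_lit 1092) (nat_lit 836) (nat_lit 0) (XT.nd (nat_lit 546) (nat_lit 836) (nat_lit 0) (XT.nd (nat_lit 234) (nat_lit 532) (nat_lit 0) (XT.nd (nat_lit 78) (nat_lit 228) (nat_lit 0) (XT.lf (nat_lit 76) (nat_lit 572693152) (nat_lit 0) (nat_lit 1322637915) (nat_lit 76) (nat_lit 1280563386) (nat_lit 69) (nat_lit 3) (nat_lit 68) (nat_lit 1) (nat_lit 69) (nat_lit 1) (nat_lit 375) (nat_lit 374) (nat_lit 271)) (XT.nd (nat_lit 78) (nat_lit 76) (nat_lit 0) (XT.lf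 (nat_lit 0) (nat_lit 475012950) (nat_lit 0) (nat_lit 1129539287) (nat_lit 152) (nat_lit 1519793864) (nat_lit 66) (nat_lit 3) (nat_lit 66) (nat_lit 1) (nat_lit 68) (nat_lit 1) (nat_lit 376) (nat_lit 374) (nat_lit 270)) (XT.lf (nat_lit 76) (nat_lit 286360514) (nat_lit 0) (nat_lit 1877598282) (nat_lit 76) (nat_lit 909718930) (nat_lit 66) (nat_lit 3) (nat_lit 65) (nat_lit 1) (nat_lit 66) (nat_lit 1) (nat_lit 377) (nat_lit 374) (nat_lit 269)))) (XT.nd (nat_lit 156) (nat_lit 304) (nat_lit 0) (XT.nd (nat_lit 78) (nat_lit 76) (nat_lit 0) (XT.lf (nat_lit 0) (nat_lit 780798694) (nat_lit 0) (nat_lit 1357181881) (nat_lit 152) (nat_lit 885776522) (nat_lit 63) (nat_lit 3) (nat_lit 63) (nat_lit 1) (nat_lit 65) (nat_lit 1) (nat_lit 378) (nat_lit 374) (nat_lit 268)) (XT.lf (nat_lit 76) (nat_lit 15081095) (nat_lit 0) (nat_lit 2395757346) (nat_lit 76) (nat_lit 564017463) (nat_lit 63) (nat_lit 3) (nat_lit 62) (nat_lit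 1) (nat_lit 63) (nat_lit 1) (nat_lit 379) (nat_lit 374) (nat_lit 267))) (XT.nd (nat_lit 78) (nat_lit 152) (nat_lit 0) (XT.lf (nat_lit 0) (nat_lit 1064025832) (nat_lit 0) (nat_lit 1571595290) (nat_lit 152) (nat_lit 290886314) (nat_lit 60) (nat_lit 3) (nat_lit 60) (nat_lit 1) (nat_lit 62) (nat_lit 1) (nat_lit 380) (nat_lit 374) (nat_lit 266)) (XT.lf (nat_lit 76) (nat_lit 2639653101) (nat_lit 0) (nat_lit 236712587) (nat_lit 152) (nat_lit 2872930) (nat_lit 59) (nat_lit 1) (nat_lit 58) (nat_lit 1) (nat_lit 60) (nat_lit 1) (nat_lit 381) (nat_lit 374) (nat_lit 265))))) (XT.nd (nat_lit 234) (nat_lit 456) (nat_lit 0) (XT.nd (nat_lit 78) (nat_lit 228) (nat_lit 0) (XT.lf (nat_lit 76) (nat_lit 1056758555) (nat_lit 0) (nat_lit 271911856) (nat_lit 76) (nat_lit 1503729876) (nat_lit 57) (nat_lit 3) (nat_lit 56) (nat_lit 1) (nat_lit 57) (nat_lit 1) (nat_lit 382) (nat_lit 374) (nat_lit 264)) (XT.nd (nat_lit 78)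 (nat_lit 76) (nat_lit 0) (XT.lf (nat_lit 0) (nat_lit 66671371) (nat_lit 0) (nat_lit 479959693) (nat_lit 152) (nat_lit 2239971124) (nat_lit 54) (nat_lit 3) (nat_lit 54) (nat_lit 1) (nat_lit 56) (nat_lit 1) (nat_lit 383) (nat_lit 374) (nat_lit 263)) (XT.lf (nat_lit 76) (nat_lit 771824025) (nat_lit 0) (nat_lit 804069546) (nat_lit 76) (nat_lit 1165431951) (nat_lit 54) (nat_lit 3) (nat_lit 53) (nat_lit 1) (nat_lit 54) (nat_lit 1) (nat_lit 384) (nat_lit 374) (nat_lit 262)))) (XT.nd (nat_lit 156) (nat_lit 228) (nat_lit 0) (XT.nd (nat_lit 78) (nat_lit 76) (nat_lit 0) (XT.lf (nat_lit 0) (nat_lit 347232854) (nat_lit 0) (nat_lit 711179156) (nat_lit 152) (nat_lit 1638551907) (nat_lit 51) (nat_lit 3) (nat_lit 51) (nat_lit 1) (nat_lit 53) (nat_lit 1) (nat_lit 385) (nat_lit 374) (nat_lit 261)) (XT.lf (nat_lit 76) (nat_lit 502592940) (nat_lit 0) (nat_lit 1301457969) (nat_lit 76) (nat_lit 849208466) (nat_lit 51)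 (nat_lit 3) (nat_lit 50) (nat_lit 1) (nat_lit 51) (nat_lit 1) (nat_lit 386) (nat_lit 374) (nat_lit 260))) (XT.nd (nat_lit 78) (nat_lit 76) (nat_lit 0) (XT.lf (nat_lit 0) (nat_lit 607957775) (nat_lit 0) (nat_lit 928452945) (nat_lit 152) (nat_lit 1073875695) (nat_lit 48) (nat_lit 3) (nat_lit 48) (nat_lit 1) (nat_lit 50) (nat_lit 1) (nat_lit 387) (nat_lit 374) (nat_lit 259)) (XT.lf (nat_lit 76) (nat_lit 248589458) (nat_lit 0) (nat_lit 1765684517) (nat_lit 76) (nat_lit 553822953) (nat_lit 48) (nat_lit 3) (nat_lit 47) (nat_lit 1) (nat_lit 48) (nat_lit 1) (nat_lit 388) (nat_lit 374) (nat_lit 258)))))) (XT.nd (nat_lit 43914) (nat_lit 0) (nat_lit 25764) (XT.nd (nat_lit 234) (nat_lit 456) (nat_lit 0) (XT.nd (nat_lit 78) (nat_lit 228) (nat_lit 0) (XT.lf (nat_lit 0) (nat_lit 849984067) (nat_lit 0) (nat_lit 1132215685) (nat_lit 152) (nat_lit 544266889) (nat_lit 45) (nat_lit 3) (nat_lit 45) (nat_lit 1) (nat_lit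 47) (nat_lit 1) (nat_lit 389) (nat_lit 374) (nat_lit 257)) (XT.nd (nat_lit 78) (nat_lit 152) (nat_lit 0) (XT.lf (nat_lit 76) (nat_lit 9321143) (nat_lit 0) (nat_lit 2198303131) (nat_lit 76) (nat_lit 278113160) (nat_lit 45) (nat_lit 3) (nat_lit 44) (nat_lit 1) (nat_lit 45) (nat_lit 1) (nat_lit 390) (nat_lit 374) (nat_lit 256)) (XT.lf (nat_lit 0) (nat_lit 1074381053) (nat_lit 0) (nat_lit 1322917362) (nat_lit 152) (nat_lit 48107205) (nat_lit 42) (nat_lit 3) (nat_lit 42) (nat_lit 1) (nat_lit 44) (nat_lit 1) (nat_lit 391) (nat_lit 374) (nat_lit 255)))) (XT.nd (nat_lit 156) (nat_lit 152) (nat_lit 0) (XT.nd (nat_lit 78) (nat_lit 76) (nat_lit 0) (XT.lf (nat_lit 152) (nat_lit 2192570138) (nat_lit 0) (nat_lit 196490780) (nat_lit 76) (nat_lit 16904306) (nat_lit 41) (nat_lit 1) (nat_lit 39) (nat_lit 1) (nat_lit 40) (nat_lit 1) (nat_lit 392) (nat_lit 374) (nat_lit 254)) (XT.lf (nat_lit 76) (nat_lit 861787447)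 (nat_lit 0) (nat_lit 424447092) (nat_lit 76) (nat_lit 1080651290) (nat_lit 39) (nat_lit 3) (nat_lit 38) (nat_lit 1) (nat_lit 39) (nat_lit 1) (nat_lit 393) (nat_lit 374) (nat_lit 253))) (XT.nd (nat_lit 43446) (nat_lit 0) (nat_lit 25688) (XT.lf (nat_lit 0) (nat_lit 224821337) (nat_lit 0) (nat_lit 427191973) (nat_lit 152) (nat_lit 1676652598) (nat_lit 36) (nat_lit 3) (nat_lit 36) (nat_lit 1) (nat_lit 38) (nat_lit 1) (nat_lit 394) (nat_lit 374) (nat_lit 252)) (XT.lf (nat_lit 1292) (nat_lit 2057264560) (nat_lit 0) (nat_lit 7077946858) (nat_lit 1292) (nat_lit 2057264560) (nat_lit 391) (nat_lit 1) (nat_lit 374) (nat_lit 0) (nat_lit 391) (nat_lit 0) (nat_lit 270) (nat_lit 375) (nat_lit 375))))) (XT.nd (nat_lit 234) (nat_lit 0) (nat_lit 152) (XT.nd (nat_lit 78) (nat_lit 0) (nat_lit 0) (XT.lf (nat_lit 1292) (nat_lit 164934506) (nat_lit 0) (nat_lit 13956222847) (nat_lit 1216) (nat_lit 7726698333) (nat_lit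 392) (nat_lit 1) (nat_lit 375) (nat_lit 1) (nat_lit 391) (nat_lit 1) (nat_lit 271) (nat_lit 375) (nat_lit 374)) (XT.nd (nat_lit 78) (nat_lit 0) (nat_lit 76) (XT.lf (nat_lit 1292) (nat_lit 7256409125) (nat_lit 76) (nat_lit 10263925175) (nat_lit 0) (nat_lit 3806859392) (nat_lit 392) (nat_lit 1) (nat_lit 376) (nat_lit 1) (nat_lit 375) (nat_lit 1) (nat_lit 272) (nat_lit 375) (nat_lit 373)) (XT.lf (nat_lit 1292) (nat_lit 6378998931) (nat_lit 76) (nat_lit 6718473482) (nat_lit 0) (nat_lit 7725917707) (nat_lit 393) (nat_lit 1) (nat_lit 377) (nat_lit 1) (nat_lit 376) (nat_lit 1) (nat_lit 273) (nat_lit 375) (nat_lit 372)))) (XT.nd (nat_lit 156) (nat_lit 0) (nat_lit 152) (XT.nd (nat_lit 78) (nat_lit 0) (nat_lit 76) (XT.lf (nat_lit 1292) (nat_lit 5279051147) (nat_lit 76) (nat_lit 3470442486) (nat_lit 0) (nat_lit 11586384948) (nat_lit 394) (nat_lit 1) (nat_lit 378) (nat_lit 1) (nat_lit 377) (nat_lit 1) (nat_lit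 274) (nat_lit 375) (nat_lit 371)) (XT.lf (nat_lit 1292) (nat_lit 3973528482) (nat_lit 76) (nat_lit 504551007) (nat_lit 0) (nat_lit 15385989185) (nat_lit 395) (nat_lit 1) (nat_lit 379) (nat_lit 1) (nat_lit 378) (nat_lit 1) (nat_lit 275) (nat_lit 375) (nat_lit 370))) (XT.nd (nat_lit 78) (nat_lit 0) (nat_lit 0) (XT.lf (nat_lit 1292) (nat_lit 305741826) (nat_lit 0) (nat_lit 16950055446) (nat_lit 1216) (nat_lit 2150963540) (nat_lit 396) (nat_lit 1) (nat_lit 379) (nat_lit 1) (nat_lit 395) (nat_lit 1) (nat_lit 276) (nat_lit 375) (nat_lit 369)) (XT.lf (nat_lit 1292) (nat_lit 724674641) (nat_lit 76) (nat_lit 14377842416) (nat_lit 0) (nat_lit 3860340498) (nat_lit 396) (nat_lit 1) (nat_lit 380) (nat_lit 1) (nat_lit 379) (nat_lit 1) (nat_lit 277) (nat_lit 375) (nat_lit 368))))))))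
noncomputable def ec71 : XT := (XT.nd (nat_lit 2184) (nat_lit 6080) (nat_lit 0) (XT.nd (nat_lit 1092) (nat_lit 5320) (nat_lit 0) (XT.nd (nat_lit 546) (nat_lit 3268) (nat_lit 0) (XT.nd (nat_lit 234) (nat_lit 2432) (nat_lit 0) (XT.nd (nat_lit 78) (nat_lit 0) (nat_lit 76) (XT.lf (nat_lit 1368) (nat_lit 10591111671) (nat_lit 0) (nat_lit 1144788404) (nat_lit 1292) (nat_lit 6796787027) (nat_lit 381) (nat_lit 1) (nat_lit 363) (nat_lit 1) (nat_lit 380) (nat_lit 1) (nat_lit 278) (nat_lit 375) (nat_lit 367)) (XT.nd (nat_lit 78) (nat_lit 0) (nat_lit 76) (XT.lf (nat_lit 1368) (nat_lit 6181974476) (nat_lit 0) (nat_lit 3141164529) (nat_lit 1292) (nat_lit 8792780841) (nat_lit 382) (nat_lit 1) (nat_lit 364) (nat_lit 1) (nat_lit 381) (nat_lit 1) (nat_lit 279) (nat_lit 375) (nat_lit 366)) (XT.lf (nat_lit 76) (nat_lit 1868225482) (nat_lit 0) (nat_lit 5266348777) (nat_lit 1292) (nat_lit 10577708181) (nat_lit 366)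 (nat_lit 1) (nat_lit 365) (nat_lit 1) (nat_lit 382) (nat_lit 1) (nat_lit 280) (nat_lit 375) (nat_lit 365)))) (XT.nd (nat_lit 156) (nat_lit 1140) (nat_lit 0) (XT.nd (nat_lit 78) (nat_lit 608) (nat_lit 0) (XT.lf (nat_lit 912) (nat_lit 9788761431) (nat_lit 0) (nat_lit 5134874878) (nat_lit 836) (nat_lit 2396983807) (nat_lit 366) (nat_lit 1) (nat_lit 354) (nat_lit 1) (nat_lit 365) (nat_lit 1) (nat_lit 281) (nat_lit 375) (nat_lit 364)) (XT.lf (nat_lit 684) (nat_lit 7019459957) (nat_lit 0) (nat_lit 3318805846) (nat_lit 608) (nat_lit 6602391275) (nat_lit 355) (nat_lit 1) (nat_lit 346) (nat_lit 1) (nat_lit 354) (nat_lit 1) (nat_lit 282) (nat_lit 375) (nat_lit 363))) (XT.nd (nat_lit 78) (nat_lit 532) (nat_lit 0) (XT.lf (nat_lit 684) (nat_lit 4166654211) (nat_lit 0) (nat_lit 1694678480) (nat_lit 608) (nat_lit 10711181748) (nat_lit 347) (nat_lit 1) (nat_lit 338) (nat_lit 1) (nat_lit 346) (nat_lit 1) (nat_lit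 283) (nat_lit 375) (nat_lit 362)) (XT.lf (nat_lit 608) (nat_lit 1239505234) (nat_lit 0) (nat_lit 252426149) (nat_lit 532) (nat_lit 14723848947) (nat_lit 339) (nat_lit 1) (nat_lit 331) (nat_lit 1) (nat_lit 338) (nat_lit 1) (nat_lit 284) (nat_lit 375) (nat_lit 361))))) (XT.nd (nat_lit 234) (nat_lit 2052) (nat_lit 0) (XT.nd (nat_lit 78) (nat_lit 1140) (nat_lit 0) (XT.lf (nat_lit 76) (nat_lit 13070056739) (nat_lit 0) (nat_lit 1756393876) (nat_lit 608) (nat_lit 1041985955) (nat_lit 331) (nat_lit 1) (nat_lit 330) (nat_lit 1) (nat_lit 338) (nat_lit 1) (nat_lit 285) (nat_lit 375) (nat_lit 360)) (XT.nd (nat_lit 78) (nat_lit 532) (nat_lit 0) (XT.lf (nat_lit 76) (nat_lit 8533920861) (nat_lit 0) (nat_lit 4799256610) (nat_lit 684) (nat_lit 2197735264) (nat_lit 323) (nat_lit 1) (nat_lit 322) (nat_lit 1) (nat_lit 331) (nat_lit 1) (nat_lit 286) (nat_lit 375) (nat_lit 359)) (XT.lf (nat_lit 76) (nat_lit 4113389256)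 (nat_lit 0) (nat_lit 7888764005) (nat_lit 608) (nat_lit 3201561917) (nat_lit 316) (nat_lit 1) (nat_lit 315) (nat_lit 1) (nat_lit 323) (nat_lit 1) (nat_lit 287) (nat_lit 375) (nat_lit 358)))) (XT.nd (nat_lit 156) (nat_lit 1064) (nat_lit 0) (XT.nd (nat_lit 78) (nat_lit 456) (nat_lit 0) (XT.lf (nat_lit 608) (nat_lit 3866464863) (nat_lit 0) (nat_lit 10822965523) (nat_lit 532) (nat_lit 197003557) (nat_lit 316) (nat_lit 1) (nat_lit 308) (nat_lit 1) (nat_lit 315) (nat_lit 1) (nat_lit 288) (nat_lit 375) (nat_lit 357)) (XT.lf (nat_lit 532) (nat_lit 353803508) (nat_lit 0) (nat_lit 9749087607) (nat_lit 456) (nat_lit 4474718128) (nat_lit 309) (nat_lit 1) (nat_lit 302) (nat_lit 1) (nat_lit 308) (nat_lit 1) (nat_lit 289) (nat_lit 375) (nat_lit 356))) (XT.nd (nat_lit 78) (nat_lit 456) (nat_lit 0) (XT.lf (nat_lit 76) (nat_lit 5669004571) (nat_lit 0) (nat_lit 3113886955) (nat_lit 608) (nat_lit 5494315983) (nat_lit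 295) (nat_lit 1) (nat_lit 294) (nat_lit 1) (nat_lit 302) (nat_lit 1) (nat_lit 290) (nat_lit 375) (nat_lit 355)) (XT.lf (nat_lit 76) (nat_lit 1358641980) (nat_lit 0) (nat_lit 6586192663) (nat_lit 532) (nat_lit 6040889249) (nat_lit 289) (nat_lit 1) (nat_lit 288) (nat_lit 1) (nat_lit 295) (nat_lit 1) (nat_lit 291) (nat_lit 375) (nat_lit 354)))))) (XT.nd (nat_lit 546) (nat_lit 2356) (nat_lit 0) (XT.nd (nat_lit 234) (nat_lit 1596) (nat_lit 0) (XT.nd (nat_lit 78) (nat_lit 912) (nat_lit 0) (XT.lf (nat_lit 532) (nat_lit 3609120721) (nat_lit 0) (nat_lit 7202823050) (nat_lit 456) (nat_lit 2890181068) (nat_lit 289) (nat_lit 1) (nat_lit 282) (nat_lit 1) (nat_lit 288) (nat_lit 1) (nat_lit 292) (nat_lit 375) (nat_lit 353)) (XT.nd (nat_lit 78) (nat_lit 456) (nat_lit 0) (XT.lf (nat_lit 76) (nat_lit 6380387001) (nat_lit 0) (nat_lit 184014396) (nat_lit 456) (nat_lit 6862131800) (nat_lit 277) (nat_lit 1) (nat_lit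 276) (nat_lit 1) (nat_lit 282) (nat_lit 1) (nat_lit 293) (nat_lit 375) (nat_lit 352)) (XT.lf (nat_lit 76) (nat_lit 2107378904) (nat_lit 0) (nat_lit 3895766280) (nat_lit 532) (nat_lit 7154939087) (nat_lit 271) (nat_lit 1) (nat_lit 270) (nat_lit 1) (nat_lit 277) (nat_lit 1) (nat_lit 294) (nat_lit 375) (nat_lit 351)))) (XT.nd (nat_lit 156) (nat_lit 836) (nat_lit 0) (XT.nd (nat_lit 78) (nat_lit 380) (nat_lit 0) (XT.lf (nat_lit 456) (nat_lit 5283827464) (nat_lit 0) (nat_lit 5528092090) (nat_lit 380) (nat_lit 2085028498) (nat_lit 271) (nat_lit 1) (nat_lit 265) (nat_lit 1) (nat_lit 270) (nat_lit 1) (nat_lit 295) (nat_lit 375) (nat_lit 350)) (XT.lf (nat_lit 456) (nat_lit 1310567143) (nat_lit 0) (nat_lit 5134028099) (nat_lit 380) (nat_lit 6198285967) (nat_lit 266) (nat_lit 1) (nat_lit 260) (nat_lit 1) (nat_lit 265) (nat_lit 1) (nat_lit 296) (nat_lit 375) (nat_lit 349))) (XT.nd (nat_lit 78) (nat_lit 380)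 (nat_lit 0) (XT.lf (nat_lit 76) (nat_lit 2228517445) (nat_lit 0) (nat_lit 2582103656) (nat_lit 456) (nat_lit 7584871984) (nat_lit 255) (nat_lit 1) (nat_lit 254) (nat_lit 1) (nat_lit 260) (nat_lit 1) (nat_lit 297) (nat_lit 375) (nat_lit 348)) (XT.lf (nat_lit 456) (nat_lit 5718073787) (nat_lit 0) (nat_lit 4547293675) (nat_lit 380) (nat_lit 1889020122) (nat_lit 255) (nat_lit 1) (nat_lit 249) (nat_lit 1) (nat_lit 254) (nat_lit 1) (nat_lit 298) (nat_lit 375) (nat_lit 347))))) (XT.nd (nat_lit 234) (nat_lit 1292) (nat_lit 0) (XT.nd (nat_lit 78) (nat_lit 760) (nat_lit 0) (XT.lf (nat_lit 380) (nat_lit 1641688467) (nat_lit 0) (nat_lit 4349410316) (nat_lit 304) (nat_lit 5928535834) (nat_lit 250) (nat_lit 1) (nat_lit 245) (nat_lit 1) (nat_lit 249) (nat_lit 1) (nat_lit 299) (nat_lit 375) (nat_lit 346)) (XT.nd (nat_lit 78) (nat_lit 304) (nat_lit 0) (XT.lf (nat_lit 76) (nat_lit 1866132924) (nat_lit 0) (nat_lit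 2344841373) (nat_lit 456) (nat_lit 7480000532) (nat_lit 240) (nat_lit 1) (nat_lit 239) (nat_lit 1) (nat_lit 245) (nat_lit 1) (nat_lit 300) (nat_lit 375) (nat_lit 345)) (XT.lf (nat_lit 380) (nat_lit 5191566680) (nat_lit 0) (nat_lit 4113839848) (nat_lit 304) (nat_lit 2162390093) (nat_lit 240) (nat_lit 1) (nat_lit 235) (nat_lit 1) (nat_lit 239) (nat_lit 1) (nat_lit 301) (nat_lit 375) (nat_lit 344)))) (XT.nd (nat_lit 156) (nat_lit 608) (nat_lit 0) (XT.nd (nat_lit 78) (nat_lit 380) (nat_lit 0) (XT.lf (nat_lit 380) (nat_lit 1071011023) (nat_lit 0) (nat_lit 4073657379) (nat_lit 304) (nat_lit 6105805931) (nat_lit 236) (nat_lit 1) (nat_lit 231) (nat_lit 1) (nat_lit 235) (nat_lit 1) (nat_lit 302) (nat_lit 375) (nat_lit 343)) (XT.lf (nat_lit 76) (nat_lit 1138166102) (nat_lit 0) (nat_lit 2937233843) (nat_lit 380) (nat_lit 6963090397) (nat_lit 227) (nat_lit 1) (nat_lit 226) (nat_lit 1) (nat_lit 231) (nat_lit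 1) (nat_lit 303) (nat_lit 375) (nat_lit 342))) (XT.nd (nat_lit 78) (nat_lit 304) (nat_lit 0) (XT.lf (nat_lit 380) (nat_lit 3933658445) (nat_lit 0) (nat_lit 4107014001) (nat_lit 304) (nat_lit 2790742706) (nat_lit 227) (nat_lit 1) (nat_lit 222) (nat_lit 1) (nat_lit 226) (nat_lit 1) (nat_lit 304) (nat_lit 375) (nat_lit 341)) (XT.lf (nat_lit 76) (nat_lit 4010347080) (nat_lit 0) (nat_lit 180439538) (nat_lit 304) (nat_lit 6439034352) (nat_lit 219) (nat_lit 1) (nat_lit 218) (nat_lit 1) (nat_lit 222) (nat_lit 1) (nat_lit 305) (nat_lit 375) (nat_lit 340))))))) (XT.nd (nat_lit 1092) (nat_lit 2584) (nat_lit 0) (XT.nd (nat_lit 546) (nat_lit 1596) (nat_lit 0) (XT.nd (nat_lit 234) (nat_lit 988) (nat_lit 0) (XT.nd (nat_lit 78) (nat_lit 608) (nat_lit 0) (XT.lf (nat_lit 76) (nat_lit 140819769) (nat_lit 0) (nat_lit 4157189550) (nat_lit 380) (nat_lit 6134786849) (nat_lit 215) (nat_lit 1) (nat_lit 214) (nat_lit 1)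 (nat_lit 219) (nat_lit 1) (nat_lit 306) (nat_lit 375) (nat_lit 339)) (XT.nd (nat_lit 78) (nat_lit 380) (nat_lit 0) (XT.lf (nat_lit 304) (nat_lit 2131787803) (nat_lit 0) (nat_lit 4427666450) (nat_lit 228) (nat_lit 3680782880) (nat_lit 215) (nat_lit 1) (nat_lit 211) (nat_lit 1) (nat_lit 214) (nat_lit 1) (nat_lit 307) (nat_lit 375) (nat_lit 338)) (XT.lf (nat_lit 76) (nat_lit 2685444189) (nat_lit 0) (nat_lit 1907885361) (nat_lit 380) (nat_lit 5459136989) (nat_lit 207) (nat_lit 1) (nat_lit 206) (nat_lit 1) (nat_lit 211) (nat_lit 1) (nat_lit 308) (nat_lit 375) (nat_lit 337)))) (XT.nd (nat_lit 156) (nat_lit 456) (nat_lit 0) (XT.nd (nat_lit 78) (nat_lit 304) (nat_lit 0) (XT.lf (nat_lit 304) (nat_lit 4018973876) (nat_lit 0) (nat_lit 4781426587) (nat_lit 228) (nat_lit 1068617387) (nat_lit 207) (nat_lit 1) (nat_lit 203) (nat_lit 1) (nat_lit 206) (nat_lit 1) (nat_lit 309) (nat_lit 375) (nat_lit 336)) (XT.lf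 (nat_lit 76) (nat_lit 4933743195) (nat_lit 0) (nat_lit 60260094) (nat_lit 304) (nat_lit 4695877488) (nat_lit 200) (nat_lit 1) (nat_lit 199) (nat_lit 1) (nat_lit 203) (nat_lit 1) (nat_lit 310) (nat_lit 375) (nat_lit 335))) (XT.nd (nat_lit 78) (nat_lit 228) (nat_lit 0) (XT.lf (nat_lit 76) (nat_lit 1226117717) (nat_lit 0) (nat_lit 3990597281) (nat_lit 304) (nat_lit 4297853968) (nat_lit 197) (nat_lit 1) (nat_lit 196) (nat_lit 1) (nat_lit 200) (nat_lit 1) (nat_lit 311) (nat_lit 375) (nat_lit 334)) (XT.lf (nat_lit 304) (nat_lit 1469288174) (nat_lit 0) (nat_lit 5462615509) (nat_lit 228) (nat_lit 2411491705) (nat_lit 197) (nat_lit 1) (nat_lit 193) (nat_lit 1) (nat_lit 196) (nat_lit 1) (nat_lit 312) (nat_lit 375) (nat_lit 333))))) (XT.nd (nat_lit 234) (nat_lit 836) (nat_lit 0) (XT.nd (nat_lit 78) (nat_lit 456) (nat_lit 0) (XT.lf (nat_lit 76) (nat_lit 3243415727) (nat_lit 0) (nat_lit 2473224026) (nat_lit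 304) (nat_lit 3459215540) (nat_lit 190) (nat_lit 1) (nat_lit 189) (nat_lit 1) (nat_lit 193) (nat_lit 1) (nat_lit 313) (nat_lit 375) (nat_lit 332)) (XT.nd (nat_lit 78) (nat_lit 228) (nat_lit 0) (XT.lf (nat_lit 304) (nat_lit 2695395688) (nat_lit 0) (nat_lit 5996517282) (nat_lit 228) (nat_lit 320487405) (nat_lit 190) (nat_lit 1) (nat_lit 186) (nat_lit 1) (nat_lit 189) (nat_lit 1) (nat_lit 314) (nat_lit 375) (nat_lit 331)) (XT.lf (nat_lit 76) (nat_lit 5031405381) (nat_lit 0) (nat_lit 1241881313) (nat_lit 228) (nat_lit 2578836935) (nat_lit 184) (nat_lit 1) (nat_lit 183) (nat_lit 1) (nat_lit 186) (nat_lit 1) (nat_lit 315) (nat_lit 375) (nat_lit 330)))) (XT.nd (nat_lit 156) (nat_lit 380) (nat_lit 0) (XT.nd (nat_lit 78) (nat_lit 228) (nat_lit 0) (XT.lf (nat_lit 76) (nat_lit 1512838251) (nat_lit 0) (nat_lit 5051023453) (nat_lit 304) (nat_lit 2131593721) (nat_lit 181) (nat_lit 1) (nat_lit 180) (nat_lit 1)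 (nat_lit 184) (nat_lit 1) (nat_lit 316) (nat_lit 375) (nat_lit 329)) (XT.lf (nat_lit 76) (nat_lit 6614314464) (nat_lit 0) (nat_lit 256552608) (nat_lit 228) (nat_lit 1671544067) (nat_lit 178) (nat_lit 1) (nat_lit 177) (nat_lit 1) (nat_lit 180) (nat_lit 1) (nat_lit 317) (nat_lit 375) (nat_lit 328))) (XT.nd (nat_lit 78) (nat_lit 152) (nat_lit 0) (XT.lf (nat_lit 76) (nat_lit 3140029862) (nat_lit 0) (nat_lit 4024101816) (nat_lit 304) (nat_lit 1227920410) (nat_lit 175) (nat_lit 1) (nat_lit 174) (nat_lit 1) (nat_lit 178) (nat_lit 1) (nat_lit 318) (nat_lit 375) (nat_lit 327)) (XT.lf (nat_lit 228) (nat_lit 528027769) (nat_lit 0) (nat_lit 7490724056) (nat_lit 152) (nat_lit 226938604) (nat_lit 175) (nat_lit 1) (nat_lit 172) (nat_lit 1) (nat_lit 174) (nat_lit 1) (nat_lit 319) (nat_lit 375) (nat_lit 326)))))) (XT.nd (nat_lit 546) (nat_lit 1064) (nat_lit 0) (XT.nd (nat_lit 234) (nat_lit 760) (nat_lit 0) (XT.nd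 (nat_lit 78) (nat_lit 532) (nat_lit 0) (XT.lf (nat_lit 76) (nat_lit 4588017735) (nat_lit 0) (nat_lit 3199848764) (nat_lit 228) (nat_lit 313573536) (nat_lit 170) (nat_lit 1) (nat_lit 169) (nat_lit 1) (nat_lit 172) (nat_lit 1) (nat_lit 320) (nat_lit 375) (nat_lit 325)) (XT.nd (nat_lit 78) (nat_lit 228) (nat_lit 0) (XT.lf (nat_lit 228) (nat_lit 1119201503) (nat_lit 0) (nat_lit 155200008) (nat_lit 152) (nat_lit 6686473790) (nat_lit 168) (nat_lit 1) (nat_lit 165) (nat_lit 1) (nat_lit 167) (nat_lit 1) (nat_lit 321) (nat_lit 375) (nat_lit 324)) (XT.lf (nat_lit 228) (nat_lit 5267596265) (nat_lit 0) (nat_lit 613503913) (nat_lit 152) (nat_lit 1941574163) (nat_lit 165) (nat_lit 1) (nat_lit 162) (nat_lit 1) (nat_lit 164) (nat_lit 1) (nat_lit 322) (nat_lit 375) (nat_lit 323)))) (XT.nd (nat_lit 156) (nat_lit 380) (nat_lit 0) (XT.nd (nat_lit 78) (nat_lit 228) (nat_lit 0) (XT.lf (nat_lit 228) (nat_lit 1545169733)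 (nat_lit 0) (nat_lit 1076108283) (nat_lit 152) (nat_lit 5066207280) (nat_lit 163) (nat_lit 1) (nat_lit 160) (nat_lit 1) (nat_lit 162) (nat_lit 1) (nat_lit 323) (nat_lit 375) (nat_lit 322)) (XT.lf (nat_lit 228) (nat_lit 5493620317) (nat_lit 0) (nat_lit 1539147660) (nat_lit 152) (nat_lit 522372620) (nat_lit 160) (nat_lit 1) (nat_lit 157) (nat_lit 1) (nat_lit 159) (nat_lit 1) (nat_lit 324) (nat_lit 375) (nat_lit 321))) (XT.nd (nat_lit 78) (nat_lit 228) (nat_lit 0) (XT.lf (nat_lit 228) (nat_lit 1839366175) (nat_lit 0) (nat_lit 1987060535) (nat_lit 152) (nat_lit 3598706350) (nat_lit 158) (nat_lit 1) (nat_lit 155) (nat_lit 1) (nat_lit 157) (nat_lit 1) (nat_lit 325) (nat_lit 375) (nat_lit 320)) (XT.lf (nat_lit 76) (nat_lit 741437992) (nat_lit 0) (nat_lit 1701187592) (nat_lit 228) (nat_lit 4855447647) (nat_lit 153) (nat_lit 1) (nat_lit 152) (nat_lit 1) (nat_lit 155) (nat_lit 1) (nat_lit 326) (nat_lit 375)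 (nat_lit 319))))) (XT.nd (nat_lit 234) (nat_lit 608) (nat_lit 0) (XT.nd (nat_lit 78) (nat_lit 304) (nat_lit 0) (XT.lf (nat_lit 228) (nat_lit 2022317853) (nat_lit 0) (nat_lit 2881527751) (nat_lit 152) (nat_lit 2269355398) (nat_lit 153) (nat_lit 1) (nat_lit 150) (nat_lit 1) (nat_lit 152) (nat_lit 1) (nat_lit 327) (nat_lit 375) (nat_lit 318)) (XT.nd (nat_lit 78) (nat_lit 152) (nat_lit 0) (XT.lf (nat_lit 76) (nat_lit 1870459687) (nat_lit 0) (nat_lit 1451298678) (nat_lit 152) (nat_lit 3729231116) (nat_lit 149) (nat_lit 1) (nat_lit 148) (nat_lit 1) (nat_lit 150) (nat_lit 1) (nat_lit 328) (nat_lit 375) (nat_lit 317)) (XT.lf (nat_lit 228) (nat_lit 2111869434) (nat_lit 0) (nat_lit 3754166512) (nat_lit 152) (nat_lit 1065086247) (nat_lit 149) (nat_lit 1) (nat_lit 146) (nat_lit 1) (nat_lit 148) (nat_lit 1) (nat_lit 329) (nat_lit 375) (nat_lit 316)))) (XT.nd (nat_lit 156) (nat_lit 304) (nat_lit 0) (XT.nd (nat_lit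 78) (nat_lit 152) (nat_lit 0) (XT.lf (nat_lit 76) (nat_lit 2886774325) (nat_lit 0) (nat_lit 1290154331) (nat_lit 152) (nat_lit 2636568379) (nat_lit 145) (nat_lit 1) (nat_lit 144) (nat_lit 1) (nat_lit 146) (nat_lit 1) (nat_lit 330) (nat_lit 375) (nat_lit 315)) (XT.lf (nat_lit 76) (nat_lit 25293982) (nat_lit 0) (nat_lit 4575109375) (nat_lit 228) (nat_lit 2097964293) (nat_lit 143) (nat_lit 1) (nat_lit 142) (nat_lit 1) (nat_lit 145) (nat_lit 1) (nat_lit 331) (nat_lit 375) (nat_lit 314))) (XT.nd (nat_lit 78) (nat_lit 152) (nat_lit 0) (XT.lf (nat_lit 76) (nat_lit 3801023179) (nat_lit 0) (nat_lit 1203272171) (nat_lit 152) (nat_lit 1580800424) (nat_lit 141) (nat_lit 1) (nat_lit 140) (nat_lit 1) (nat_lit 142) (nat_lit 1) (nat_lit 332) (nat_lit 375) (nat_lit 313)) (XT.lf (nat_lit 76) (nat_lit 993992436) (nat_lit 0) (nat_lit 4413541783) (nat_lit 228) (nat_lit 1066652289) (nat_lit 139) (nat_lit 1) (nat_lit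 138) (nat_lit 1) (nat_lit 141) (nat_lit 1) (nat_lit 333) (nat_lit 375) (nat_lit 312))))))))
noncomputable def ec72 : XT := (XT.nd (nat_lit 2106) (nat_lit 3420) (nat_lit 0) (XT.nd (nat_lit 1014) (nat_lit 1748) (nat_lit 0) (XT.nd (nat_lit 468) (nat_lit 988) (nat_lit 0) (XT.nd (nat_lit 234) (nat_lit 380) (nat_lit 0) (XT.nd (nat_lit 78) (nat_lit 456) (nat_lit 0) (XT.lf (nat_lit 76) (nat_lit 4622740992) (nat_lit 0) (nat_lit 1178094011) (nat_lit 152) (nat_lit 564489049) (nat_lit 137) (nat_lit 1) (nat_lit 136) (nat_lit 1) (nat_lit 138) (nat_lit 1) (nat_lit 334) (nat_lit 375) (nat_lit 311)) (XT.nd (nat_lit 78) (nat_lit 304) (nat_lit 0) (XT.lf (nat_lit 76) (nat_lit 1871008628) (nat_lit 0) (nat_lit 4312332189) (nat_lit 228) (nat_lit 75098129) (nat_lit 135) (nat_lit 1) (nat_lit 134) (nat_lit 1) (nat_lit 137) (nat_lit 1) (nat_lit 335) (nat_lit 375) (nat_lit 310)) (XT.lf (nat_lit 228) (nat_lit 4945862482) (nat_lit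 0) (nat_lit 418641971) (nat_lit 152) (nat_lit 789129619) (nat_lit 133) (nat_lit 1) (nat_lit 130) (nat_lit 1) (nat_lit 132) (nat_lit 1) (nat_lit 336) (nat_lit 375) (nat_lit 309)))) (XT.nd (nat_lit 78) (nat_lit 304) (nat_lit 0) (XT.lf (nat_lit 152) (nat_lit 1780769267) (nat_lit 0) (nat_lit 892427194) (nat_lit 76) (nat_lit 3377257359) (nat_lit 131) (nat_lit 1) (nat_lit 129) (nat_lit 1) (nat_lit 130) (nat_lit 1) (nat_lit 337) (nat_lit 375) (nat_lit 308)) (XT.nd (nat_lit 78) (nat_lit 76) (nat_lit 0) (XT.lf (nat_lit 76) (nat_lit 83819760) (nat_lit 0) (nat_lit 1284821828) (nat_lit 228) (nat_lit 4580930919) (nat_lit 127) (nat_lit 1) (nat_lit 126) (nat_lit 1) (nat_lit 129) (nat_lit 1) (nat_lit 338) (nat_lit 375) (nat_lit 307)) (XT.lf (nat_lit 152) (nat_lit 1581725272) (nat_lit 0) (nat_lit 1818010391) (nat_lit 76) (nat_lit 2450359368) (nat_lit 127) (nat_lit 1) (nat_lit 125) (nat_lit 1) (nat_lit 126) (nat_lit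 1) (nat_lit 339) (nat_lit 375) (nat_lit 306))))) (XT.nd (nat_lit 234) (nat_lit 456) (nat_lit 0) (XT.nd (nat_lit 78) (nat_lit 304) (nat_lit 0) (XT.lf (nat_lit 76) (nat_lit 865605907) (nat_lit 0) (nat_lit 1401618694) (nat_lit 228) (nat_lit 3485532562) (nat_lit 123) (nat_lit 1) (nat_lit 122) (nat_lit 1) (nat_lit 125) (nat_lit 1) (nat_lit 340) (nat_lit 375) (nat_lit 305)) (XT.nd (nat_lit 78) (nat_lit 228) (nat_lit 0) (XT.lf (nat_lit 152) (nat_lit 1357122528) (nat_lit 0) (nat_lit 2699457049) (nat_lit 76) (nat_lit 1600448376) (nat_lit 123) (nat_lit 1) (nat_lit 121) (nat_lit 1) (nat_lit 122) (nat_lit 1) (nat_lit 341) (nat_lit 375) (nat_lit 304)) (XT.lf (nat_lit 76) (nat_lit 1578052475) (nat_lit 0) (nat_lit 1543660612) (nat_lit 228) (nat_lit 2441358291) (nat_lit 119) (nat_lit 1) (nat_lit 118) (nat_lit 1) (nat_lit 121) (nat_lit 1) (nat_lit 342) (nat_lit 375) (nat_lit 303)))) (XT.nd (nat_lit 156) (nat_lit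 228) (nat_lit 0) (XT.nd (nat_lit 78) (nat_lit 152) (nat_lit 0) (XT.lf (nat_lit 152) (nat_lit 1113295192) (nat_lit 0) (nat_lit 3536465006) (nat_lit 76) (nat_lit 821159947) (nat_lit 119) (nat_lit 1) (nat_lit 117) (nat_lit 1) (nat_lit 118) (nat_lit 1) (nat_lit 343) (nat_lit 375) (nat_lit 302)) (XT.lf (nat_lit 76) (nat_lit 2226963249) (nat_lit 0) (nat_lit 1705016520) (nat_lit 152) (nat_lit 1448214199) (nat_lit 116) (nat_lit 1) (nat_lit 115) (nat_lit 1) (nat_lit 117) (nat_lit 1) (nat_lit 344) (nat_lit 375) (nat_lit 301))) (XT.nd (nat_lit 78) (nat_lit 152) (nat_lit 0) (XT.lf (nat_lit 152) (nat_lit 855655916) (nat_lit 0) (nat_lit 4329067746) (nat_lit 76) (nat_lit 106737493) (nat_lit 116) (nat_lit 1) (nat_lit 114) (nat_lit 1) (nat_lit 115) (nat_lit 1) (nat_lit 345) (nat_lit 375) (nat_lit 300)) (XT.lf (nat_lit 76) (nat_lit 2817588182) (nat_lit 0) (nat_lit 1880615424) (nat_lit 152) (nat_lit 505621046) (nat_lit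 113) (nat_lit 1) (nat_lit 112) (nat_lit 1) (nat_lit 114) (nat_lit 1) (nat_lit 346) (nat_lit 375) (nat_lit 299)))))) (XT.nd (nat_lit 546) (nat_lit 836) (nat_lit 0) (XT.nd (nat_lit 234) (nat_lit 532) (nat_lit 0) (XT.nd (nat_lit 78) (nat_lit 304) (nat_lit 0) (XT.lf (nat_lit 0) (nat_lit 537339144) (nat_lit 0) (nat_lit 4534815202) (nat_lit 152) (nat_lit 46048098) (nat_lit 111) (nat_lit 3) (nat_lit 111) (nat_lit 1) (nat_lit 113) (nat_lit 1) (nat_lit 347) (nat_lit 375) (nat_lit 298)) (XT.nd (nat_lit 78) (nat_lit 76) (nat_lit 0) (XT.lf (nat_lit 152) (nat_lit 2963636043) (nat_lit 0) (nat_lit 394842359) (nat_lit 76) (nat_lit 1675089864) (nat_lit 110) (nat_lit 1) (nat_lit 108) (nat_lit 1) (nat_lit 109) (nat_lit 1) (nat_lit 348) (nat_lit 375) (nat_lit 297)) (XT.lf (nat_lit 76) (nat_lit 297027767) (nat_lit 0) (nat_lit 836496028) (nat_lit 76) (nat_lit 3817249732) (nat_lit 108) (nat_lit 3) (nat_lit 107) (nat_lit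 1) (nat_lit 108) (nat_lit 1) (nat_lit 349) (nat_lit 375) (nat_lit 296)))) (XT.nd (nat_lit 156) (nat_lit 304) (nat_lit 0) (XT.nd (nat_lit 78) (nat_lit 76) (nat_lit 0) (XT.lf (nat_lit 152) (nat_lit 2599157841) (nat_lit 0) (nat_lit 1255472130) (nat_lit 76) (nat_lit 1014510371) (nat_lit 107) (nat_lit 1) (nat_lit 105) (nat_lit 1) (nat_lit 106) (nat_lit 1) (nat_lit 350) (nat_lit 375) (nat_lit 295)) (XT.lf (nat_lit 76) (nat_lit 9192289) (nat_lit 0) (nat_lit 1670858696) (nat_lit 76) (nat_lit 3109138981) (nat_lit 105) (nat_lit 3) (nat_lit 104) (nat_lit 1) (nat_lit 105) (nat_lit 1) (nat_lit 351) (nat_lit 375) (nat_lit 294))) (XT.nd (nat_lit 78) (nat_lit 152) (nat_lit 0) (XT.lf (nat_lit 152) (nat_lit 2237718023) (nat_lit 0) (nat_lit 2067297521) (nat_lit 76) (nat_lit 405425485) (nat_lit 104) (nat_lit 1) (nat_lit 102) (nat_lit 1) (nat_lit 103) (nat_lit 1) (nat_lit 352) (nat_lit 375) (nat_lit 293)) (XT.lf (nat_lit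 76) (nat_lit 2182975414) (nat_lit 0) (nat_lit 271533746) (nat_lit 152) (nat_lit 2178634099) (nat_lit 101) (nat_lit 1) (nat_lit 100) (nat_lit 1) (nat_lit 102) (nat_lit 1) (nat_lit 353) (nat_lit 375) (nat_lit 292))))) (XT.nd (nat_lit 234) (nat_lit 532) (nat_lit 0) (XT.nd (nat_lit 78) (nat_lit 228) (nat_lit 0) (XT.lf (nat_lit 0) (nat_lit 152932816) (nat_lit 0) (nat_lit 2677063749) (nat_lit 152) (nat_lit 1727194596) (nat_lit 99) (nat_lit 3) (nat_lit 99) (nat_lit 1) (nat_lit 101) (nat_lit 1) (nat_lit 354) (nat_lit 375) (nat_lit 291)) (XT.nd (nat_lit 78) (nat_lit 76) (nat_lit 0) (XT.lf (nat_lit 76) (nat_lit 2643190129) (nat_lit 0) (nat_lit 548195055) (nat_lit 152) (nat_lit 1291098258) (nat_lit 98) (nat_lit 1) (nat_lit 97) (nat_lit 1) (nat_lit 99) (nat_lit 1) (nat_lit 355) (nat_lit 375) (nat_lit 290)) (XT.lf (nat_lit 0) (nat_lit 660042120) (nat_lit 0) (nat_lit 2882819948) (nat_lit 152) (nat_lit 866248460)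 (nat_lit 96) (nat_lit 3) (nat_lit 96) (nat_lit 1) (nat_lit 98) (nat_lit 1) (nat_lit 356) (nat_lit 375) (nat_lit 289)))) (XT.nd (nat_lit 156) (nat_lit 304) (nat_lit 0) (XT.nd (nat_lit 78) (nat_lit 76) (nat_lit 0) (XT.lf (nat_lit 76) (nat_lit 3063789429) (nat_lit 0) (nat_lit 819148139) (nat_lit 152) (nat_lit 454060541) (nat_lit 95) (nat_lit 1) (nat_lit 94) (nat_lit 1) (nat_lit 96) (nat_lit 1) (nat_lit 357) (nat_lit 375) (nat_lit 288)) (XT.lf (nat_lit 0) (nat_lit 1126938721) (nat_lit 0) (nat_lit 3084341648) (nat_lit 152) (nat_lit 54825830) (nat_lit 93) (nat_lit 3) (nat_lit 93) (nat_lit 1) (nat_lit 95) (nat_lit 1) (nat_lit 358) (nat_lit 375) (nat_lit 287))) (XT.nd (nat_lit 78) (nat_lit 76) (nat_lit 0) (XT.lf (nat_lit 152) (nat_lit 3110201827) (nat_lit 0) (nat_lit 340759630) (nat_lit 76) (nat_lit 745424061) (nat_lit 92) (nat_lit 1) (nat_lit 90) (nat_lit 1) (nat_lit 91) (nat_lit 1) (nat_lit 359) (nat_lit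 375) (nat_lit 286)) (XT.lf (nat_lit 76) (nat_lit 840625248) (nat_lit 0) (nat_lit 722809760) (nat_lit 76) (nat_lit 2564336079) (nat_lit 90) (nat_lit 3) (nat_lit 89) (nat_lit 1) (nat_lit 90) (nat_lit 1) (nat_lit 360) (nat_lit 375) (nat_lit 285))))))) (XT.nd (nat_lit 1092) (nat_lit 1672) (nat_lit 0) (XT.nd (nat_lit 546) (nat_lit 912) (nat_lit 0) (XT.nd (nat_lit 234) (nat_lit 456) (nat_lit 0) (XT.nd (nat_lit 78) (nat_lit 228) (nat_lit 0) (XT.lf (nat_lit 152) (nat_lit 2711609295) (nat_lit 0) (nat_lit 1096479651) (nat_lit 76) (nat_lit 252342523) (nat_lit 89) (nat_lit 1) (nat_lit 87) (nat_lit 1) (nat_lit 88) (nat_lit 1) (nat_lit 361) (nat_lit 375) (nat_lit 284)) (XT.nd (nat_lit 78) (nat_lit 152) (nat_lit 0) (XT.lf (nat_lit 76) (nat_lit 510907153) (nat_lit 0) (nat_lit 1454389513) (nat_lit 76) (nat_lit 2028826120) (nat_lit 87) (nat_lit 3) (nat_lit 86) (nat_lit 1) (nat_lit 87) (nat_lit 1) (nat_lit 362) (nat_lit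 375) (nat_lit 283)) (XT.lf (nat_lit 0) (nat_lit 200118503) (nat_lit 0) (nat_lit 1603649679) (nat_lit 152) (nat_lit 2125259027) (nat_lit 84) (nat_lit 3) (nat_lit 84) (nat_lit 1) (nat_lit 86) (nat_lit 1) (nat_lit 363) (nat_lit 375) (nat_lit 282)))) (XT.nd (nat_lit 156) (nat_lit 228) (nat_lit 0) (XT.nd (nat_lit 78) (nat_lit 152) (nat_lit 0) (XT.lf (nat_lit 76) (nat_lit 193881462) (nat_lit 0) (nat_lit 2140538871) (nat_lit 76) (nat_lit 1530577820) (nat_lit 84) (nat_lit 3) (nat_lit 83) (nat_lit 1) (nat_lit 84) (nat_lit 1) (nat_lit 364) (nat_lit 375) (nat_lit 281)) (XT.lf (nat_lit 0) (nat_lit 614128640) (nat_lit 0) (nat_lit 1850093835) (nat_lit 152) (nat_lit 1337771882) (nat_lit 81) (nat_lit 3) (nat_lit 81) (nat_lit 1) (nat_lit 83) (nat_lit 1) (nat_lit 365) (nat_lit 375) (nat_lit 280))) (XT.nd (nat_lit 78) (nat_lit 76) (nat_lit 0) (XT.lf (nat_lit 76) (nat_lit 2674105597) (nat_lit 0) (nat_lit 107786656)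 (nat_lit 152) (nat_lit 958302797) (nat_lit 80) (nat_lit 1) (nat_lit 79) (nat_lit 1) (nat_lit 81) (nat_lit 1) (nat_lit 366) (nat_lit 375) (nat_lit 279)) (XT.lf (nat_lit 0) (nat_lit 996824580) (nat_lit 0) (nat_lit 2085229304) (nat_lit 152) (nat_lit 597185278) (nat_lit 78) (nat_lit 3) (nat_lit 78) (nat_lit 1) (nat_lit 80) (nat_lit 1) (nat_lit 367) (nat_lit 375) (nat_lit 278))))) (XT.nd (nat_lit 234) (nat_lit 456) (nat_lit 0) (XT.nd (nat_lit 78) (nat_lit 304) (nat_lit 0) (XT.lf (nat_lit 76) (nat_lit 2987098750) (nat_lit 0) (nat_lit 392372562) (nat_lit 152) (nat_lit 240059625) (nat_lit 77) (nat_lit 1) (nat_lit 76) (nat_lit 1) (nat_lit 78) (nat_lit 1) (nat_lit 368) (nat_lit 375) (nat_lit 277)) (XT.nd (nat_lit 78) (nat_lit 152) (nat_lit 0) (XT.lf (nat_lit 76) (nat_lit 1250895844) (nat_lit 0) (nat_lit 100321057) (nat_lit 76) (nat_lit 2209357174) (nat_lit 75) (nat_lit 3) (nat_lit 74) (nat_lit 1) (nat_lit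 75) (nat_lit 1) (nat_lit 369) (nat_lit 375) (nat_lit 276)) (XT.lf (nat_lit 152) (nat_lit 2835068407) (nat_lit 0) (nat_lit 442633272) (nat_lit 76) (nat_lit 225077853) (nat_lit 74) (nat_lit 1) (nat_lit 72) (nat_lit 1) (nat_lit 73) (nat_lit 1) (nat_lit 370) (nat_lit 375) (nat_lit 275)))) (XT.nd (nat_lit 156) (nat_lit 228) (nat_lit 0) (XT.nd (nat_lit 78) (nat_lit 152) (nat_lit 0) (XT.lf (nat_lit 76) (nat_lit 918014441) (nat_lit 0) (nat_lit 765653225) (nat_lit 76) (nat_lit 1762046169) (nat_lit 72) (nat_lit 3) (nat_lit 71) (nat_lit 1) (nat_lit 72) (nat_lit 1) (nat_lit 371) (nat_lit 375) (nat_lit 274)) (XT.lf (nat_lit 0) (nat_lit 152469872) (nat_lit 0) (nat_lit 932896805) (nat_lit 152) (nat_lit 2304451330) (nat_lit 69) (nat_lit 3) (nat_lit 69) (nat_lit 1) (nat_lit 71) (nat_lit 1) (nat_lit 372) (nat_lit 375) (nat_lit 273))) (XT.nd (nat_lit 78) (nat_lit 152) (nat_lit 0) (XT.lf (nat_lit 76) (nat_lit 601327809)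 (nat_lit 0) (nat_lit 1388769811) (nat_lit 76) (nat_lit 1344591555) (nat_lit 69) (nat_lit 3) (nat_lit 68) (nat_lit 1) (nat_lit 69) (nat_lit 1) (nat_lit 373) (nat_lit 375) (nat_lit 272)) (XT.lf (nat_lit 0) (nat_lit 498763597) (nat_lit 0) (nat_lit 1186016252) (nat_lit 152) (nat_lit 1595783557) (nat_lit 66) (nat_lit 3) (nat_lit 66) (nat_lit 1) (nat_lit 68) (nat_lit 1) (nat_lit 374) (nat_lit 375) (nat_lit 271)))))) (XT.nd (nat_lit 546) (nat_lit 760) (nat_lit 0) (XT.nd (nat_lit 234) (nat_lit 608) (nat_lit 0) (XT.nd (nat_lit 78) (nat_lit 228) (nat_lit 0) (XT.lf (nat_lit 76) (nat_lit 300678539) (nat_lit 0) (nat_lit 1971478196) (nat_lit 76) (nat_lit 955204877) (nat_lit 66) (nat_lit 3) (nat_lit 65) (nat_lit 1) (nat_lit 66) (nat_lit 1) (nat_lit 375) (nat_lit 375) (nat_lit 270)) (XT.nd (nat_lit 78) (nat_lit 76) (nat_lit 0) (XT.lf (nat_lit 0) (nat_lit 819838629) (nat_lit 0) (nat_lit 1425040975) (nat_lit 152)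 (nat_lit 930065348) (nat_lit 63) (nat_lit 3) (nat_lit 63) (nat_lit 1) (nat_lit 65) (nat_lit 1) (nat_lit 376) (nat_lit 375) (nat_lit 269)) (XT.lf (nat_lit 76) (nat_lit 15835150) (nat_lit 0) (nat_lit 2515545213) (nat_lit 76) (nat_lit 592218337) (nat_lit 63) (nat_lit 3) (nat_lit 62) (nat_lit 1) (nat_lit 63) (nat_lit 1) (nat_lit 377) (nat_lit 375) (nat_lit 268)))) (XT.nd (nat_lit 156) (nat_lit 304) (nat_lit 0) (XT.nd (nat_lit 78) (nat_lit 152) (nat_lit 0) (XT.lf (nat_lit 0) (nat_lit 1117227124) (nat_lit 0) (nat_lit 1650175055) (nat_lit 152) (nat_lit 305430629) (nat_lit 60) (nat_lit 3) (nat_lit 60) (nat_lit 1) (nat_lit 62) (nat_lit 1) (nat_lit 378) (nat_lit 375) (nat_lit 267)) (XT.lf (nat_lit 76) (nat_lit 2771635756) (nat_lit 0) (nat_lit 248548217) (nat_lit 152) (nat_lit 3016576) (nat_lit 59) (nat_lit 1) (nat_lit 58) (nat_lit 1) (nat_lit 60) (nat_lit 1) (nat_lit 379) (nat_lit 375) (nat_lit 266))) (XT.nd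 (nat_lit 78) (nat_lit 152) (nat_lit 0) (XT.lf (nat_lit 76) (nat_lit 1109596483) (nat_lit 0) (nat_lit 285507449) (nat_lit 76) (nat_lit 1578916370) (nat_lit 57) (nat_lit 3) (nat_lit 56) (nat_lit 1) (nat_lit 57) (nat_lit 1) (nat_lit 380) (nat_lit 375) (nat_lit 265)) (XT.lf (nat_lit 0) (nat_lit 70004939) (nat_lit 0) (nat_lit 503957678) (nat_lit 152) (nat_lit 2351969680) (nat_lit 54) (nat_lit 3) (nat_lit 54) (nat_lit 1) (nat_lit 56) (nat_lit 1) (nat_lit 381) (nat_lit 375) (nat_lit 264))))) (XT.nd (nat_lit 234) (nat_lit 456) (nat_lit 0) (XT.nd (nat_lit 78) (nat_lit 228) (nat_lit 0) (XT.lf (nat_lit 76) (nat_lit 810415226) (nat_lit 0) (nat_lit 844273023) (nat_lit 76) (nat_lit 1223703549) (nat_lit 54) (nat_lit 3) (nat_lit 53) (nat_lit 1) (nat_lit 54) (nat_lit 1) (nat_lit 382) (nat_lit 375) (nat_lit 263)) (XT.nd (nat_lit 78) (nat_lit 76) (nat_lit 0) (XT.lf (nat_lit 0) (nat_lit 364594496) (nat_lit 0) (nat_lit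 746738114) (nat_lit 152) (nat_lit 1720479502) (nat_lit 51) (nat_lit 3) (nat_lit 51) (nat_lit 1) (nat_lit 53) (nat_lit 1) (nat_lit 383) (nat_lit 375) (nat_lit 262)) (XT.lf (nat_lit 76) (nat_lit 527722587) (nat_lit 0) (nat_lit 1366530867) (nat_lit 76) (nat_lit 891668889) (nat_lit 51) (nat_lit 3) (nat_lit 50) (nat_lit 1) (nat_lit 51) (nat_lit 1) (nat_lit 384) (nat_lit 375) (nat_lit 261)))) (XT.nd (nat_lit 156) (nat_lit 228) (nat_lit 0) (XT.nd (nat_lit 78) (nat_lit 76) (nat_lit 0) (XT.lf (nat_lit 0) (nat_lit 638355663) (nat_lit 0) (nat_lit 974875592) (nat_lit 152) (nat_lit 1127569480) (nat_lit 48) (nat_lit 3) (nat_lit 48) (nat_lit 1) (nat_lit 50) (nat_lit 1) (nat_lit 385) (nat_lit 375) (nat_lit 260)) (XT.lf (nat_lit 76) (nat_lit 261018931) (nat_lit 0) (nat_lit 1853968742) (nat_lit 76) (nat_lit 581514101) (nat_lit 48) (nat_lit 3) (nat_lit 47) (nat_lit 1) (nat_lit 48) (nat_lit 1) (nat_lit 386) (nat_lit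 375) (nat_lit 259))) (XT.nd (nat_lit 78) (nat_lit 76) (nat_lit 0) (XT.lf (nat_lit 0) (nat_lit 892483270) (nat_lit 0) (nat_lit 1188826469) (nat_lit 152) (nat_lit 571480233) (nat_lit 45) (nat_lit 3) (nat_lit 45) (nat_lit 1) (nat_lit 47) (nat_lit 1) (nat_lit 387) (nat_lit 375) (nat_lit 258)) (XT.lf (nat_lit 76) (nat_lit 9787200) (nat_lit 0) (nat_lit 2308218288) (nat_lit 76) (nat_lit 292018818) (nat_lit 45) (nat_lit 3) (nat_lit 44) (nat_lit 1) (nat_lit 45) (nat_lit 1) (nat_lit 388) (nat_lit 375) (nat_lit 257))))))))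
noncomputable def ec73 : XT := (XT.nd (nat_lit 45474) (nat_lit 0) (nat_lit 10184) (XT.nd (nat_lit 44382) (nat_lit 0) (nat_lit 18772) (XT.nd (nat_lit 43836) (nat_lit 0) (nat_lit 24928) (XT.nd (nat_lit 234) (nat_lit 228) (nat_lit 0) (XT.nd (nat_lit 78) (nat_lit 304) (nat_lit 0) (XT.lf (nat_lit 0) (nat_lit 1128100106) (nat_lit 0) (nat_lit 1389063230) (nat_lit 152) (nat_lit 50512565) (nat_lit 42) (nat_lit 3) (nat_lit 42) (nat_lit 1) (nat_lit 44) (nat_lit 1) (nat_lit 389) (nat_lit 375) (nat_lit 256)) (XT.nd (nat_lit 78) (nat_lit 76) (nat_lit 0) (XT.lf (nat_lit 152) (nat_lit 2302198645) (nat_lit 0) (nat_lit 206315319) (nat_lit 76) (nat_lit 17749522) (nat_lit 41) (nat_lit 1) (nat_lit 39) (nat_lit 1) (nat_lit 40) (nat_lit 1) (nat_lit 390) (nat_lit 375) (nat_lit 255)) (XT.lf (nat_lit 76) (nat_lit 904876819) (nat_lit 0) (nat_lit 445669447) (nat_lit 76) (nat_lit 1134683854) (nat_lit 39) (nat_lit 3) (nat_lit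 38) (nat_lit 1) (nat_lit 39) (nat_lit 1) (nat_lit 391) (nat_lit 375) (nat_lit 254)))) (XT.nd (nat_lit 43446) (nat_lit 0) (nat_lit 25764) (XT.nd (nat_lit 78) (nat_lit 76) (nat_lit 0) (XT.lf (nat_lit 0) (nat_lit 236062404) (nat_lit 0) (nat_lit 448551572) (nat_lit 152) (nat_lit 1760485227) (nat_lit 36) (nat_lit 3) (nat_lit 36) (nat_lit 1) (nat_lit 38) (nat_lit 1) (nat_lit 392) (nat_lit 375) (nat_lit 253)) (XT.lf (nat_lit 76) (nat_lit 646394736) (nat_lit 0) (nat_lit 910319540) (nat_lit 76) (nat_lit 848765372) (nat_lit 36) (nat_lit 3) (nat_lit 35) (nat_lit 1) (nat_lit 36) (nat_lit 1) (nat_lit 393) (nat_lit 375) (nat_lit 252))) (XT.nd (nat_lit 78) (nat_lit 0) (nat_lit 76) (XT.lf (nat_lit 1292) (nat_lit 2160127788) (nat_lit 0) (nat_lit 7431844201) (nat_lit 1292) (nat_lit 2160127788) (nat_lit 391) (nat_lit 1) (nat_lit 374) (nat_lit 0) (nat_lit 391) (nat_lit 0) (nat_lit 268) (nat_lit 376) (nat_lit 376))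 (XT.lf (nat_lit 1292) (nat_lit 173181231) (nat_lit 0) (nat_lit 14654033989) (nat_lit 1216) (nat_lit 8113033250) (nat_lit 392) (nat_lit 1) (nat_lit 375) (nat_lit 1) (nat_lit 391) (nat_lit 1) (nat_lit 269) (nat_lit 376) (nat_lit 375))))) (XT.nd (nat_lit 234) (nat_lit 912) (nat_lit 0) (XT.nd (nat_lit 78) (nat_lit 0) (nat_lit 76) (XT.lf (nat_lit 1292) (nat_lit 7619229581) (nat_lit 76) (nat_lit 10777121434) (nat_lit 0) (nat_lit 3997202361) (nat_lit 392) (nat_lit 1) (nat_lit 376) (nat_lit 1) (nat_lit 375) (nat_lit 1) (nat_lit 270) (nat_lit 376) (nat_lit 374)) (XT.nd (nat_lit 78) (nat_lit 0) (nat_lit 76) (XT.lf (nat_lit 1292) (nat_lit 6697948878) (nat_lit 76) (nat_lit 7054397156) (nat_lit 0) (nat_lit 8112213592) (nat_lit 393) (nat_lit 1) (nat_lit 377) (nat_lit 1) (nat_lit 376) (nat_lit 1) (nat_lit 271) (nat_lit 376) (nat_lit 373)) (XT.lf (nat_lit 1292) (nat_lit 5543003704) (nat_lit 76) (nat_lit 3643964611)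 (nat_lit 0) (nat_lit 12165704195) (nat_lit 394) (nat_lit 1) (nat_lit 378) (nat_lit 1) (nat_lit 377) (nat_lit 1) (nat_lit 272) (nat_lit 376) (nat_lit 372)))) (XT.nd (nat_lit 156) (nat_lit 1140) (nat_lit 0) (XT.nd (nat_lit 78) (nat_lit 0) (nat_lit 76) (XT.lf (nat_lit 1292) (nat_lit 4172204907) (nat_lit 76) (nat_lit 529778557) (nat_lit 0) (nat_lit 16155288644) (nat_lit 395) (nat_lit 1) (nat_lit 379) (nat_lit 1) (nat_lit 378) (nat_lit 1) (nat_lit 273) (nat_lit 376) (nat_lit 371)) (XT.lf (nat_lit 1292) (nat_lit 321028917) (nat_lit 0) (nat_lit 17797558218) (nat_lit 1216) (nat_lit 2258511717) (nat_lit 396) (nat_lit 1) (nat_lit 379) (nat_lit 1) (nat_lit 395) (nat_lit 1) (nat_lit 274) (nat_lit 376) (nat_lit 370))) (XT.nd (nat_lit 78) (nat_lit 1216) (nat_lit 0) (XT.lf (nat_lit 1292) (nat_lit 760908373) (nat_lit 76) (nat_lit 15096734536) (nat_lit 0) (nat_lit 4053357523) (nat_lit 396) (nat_lit 1) (nat_lit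 380) (nat_lit 1) (nat_lit 379) (nat_lit 1) (nat_lit 275) (nat_lit 376) (nat_lit 369)) (XT.lf (nat_lit 1368) (nat_lit 11120667255) (nat_lit 0) (nat_lit 1202027825) (nat_lit 1292) (nat_lit 7136626378) (nat_lit 381) (nat_lit 1) (nat_lit 363) (nat_lit 1) (nat_lit 380) (nat_lit 1) (nat_lit 276) (nat_lit 376) (nat_lit 368)))))) (XT.nd (nat_lit 546) (nat_lit 3648) (nat_lit 0) (XT.nd (nat_lit 234) (nat_lit 1824) (nat_lit 0) (XT.nd (nat_lit 78) (nat_lit 760) (nat_lit 0) (XT.lf (nat_lit 1368) (nat_lit 6491073200) (nat_lit 0) (nat_lit 3298222755) (nat_lit 1292) (nat_lit 9232419883) (nat_lit 382) (nat_lit 1) (nat_lit 364) (nat_lit 1) (nat_lit 381) (nat_lit 1) (nat_lit 277) (nat_lit 376) (nat_lit 367)) (XT.nd (nat_lit 78) (nat_lit 836) (nat_lit 0) (XT.lf (nat_lit 76) (nat_lit 1961636756) (nat_lit 0) (nat_lit 5529666216) (nat_lit 1292) (nat_lit 11106593590) (nat_lit 366) (nat_lit 1) (nat_lit 365) (nat_lit 1)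 (nat_lit 382) (nat_lit 1) (nat_lit 278) (nat_lit 376) (nat_lit 366)) (XT.lf (nat_lit 912) (nat_lit 10278199502) (nat_lit 0) (nat_lit 5391618622) (nat_lit 836) (nat_lit 2516832997) (nat_lit 366) (nat_lit 1) (nat_lit 354) (nat_lit 1) (nat_lit 365) (nat_lit 1) (nat_lit 279) (nat_lit 376) (nat_lit 365)))) (XT.nd (nat_lit 156) (nat_lit 608) (nat_lit 0) (XT.nd (nat_lit 78) (nat_lit 608) (nat_lit 0) (XT.lf (nat_lit 684) (nat_lit 7370432955) (nat_lit 0) (nat_lit 3484746139) (nat_lit 608) (nat_lit 6932510839) (nat_lit 355) (nat_lit 1) (nat_lit 346) (nat_lit 1) (nat_lit 354) (nat_lit 1) (nat_lit 280) (nat_lit 376) (nat_lit 364)) (XT.lf (nat_lit 684) (nat_lit 4374986922) (nat_lit 0) (nat_lit 1779412404) (nat_lit 608) (nat_lit 11246740836) (nat_lit 347) (nat_lit 1) (nat_lit 338) (nat_lit 1) (nat_lit 346) (nat_lit 1) (nat_lit 281) (nat_lit 376) (nat_lit 363))) (XT.nd (nat_lit 78) (nat_lit 76) (nat_lit 0) (XT.lf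 (nat_lit 608) (nat_lit 1301480496) (nat_lit 0) (nat_lit 265047456) (nat_lit 532) (nat_lit 15460041395) (nat_lit 339) (nat_lit 1) (nat_lit 331) (nat_lit 1) (nat_lit 338) (nat_lit 1) (nat_lit 282) (nat_lit 376) (nat_lit 362)) (XT.lf (nat_lit 76) (nat_lit 13723559576) (nat_lit 0) (nat_lit 1844213570) (nat_lit 608) (nat_lit 1094085252) (nat_lit 331) (nat_lit 1) (nat_lit 330) (nat_lit 1) (nat_lit 338) (nat_lit 1) (nat_lit 283) (nat_lit 376) (nat_lit 361))))) (XT.nd (nat_lit 234) (nat_lit 1976) (nat_lit 0) (XT.nd (nat_lit 78) (nat_lit 1064) (nat_lit 0) (XT.lf (nat_lit 76) (nat_lit 8960616904) (nat_lit 0) (nat_lit 5039219441) (nat_lit 684) (nat_lit 2307622028) (nat_lit 323) (nat_lit 1) (nat_lit 322) (nat_lit 1) (nat_lit 331) (nat_lit 1) (nat_lit 284) (nat_lit 376) (nat_lit 360)) (XT.nd (nat_lit 78) (nat_lit 532) (nat_lit 0) (XT.lf (nat_lit 76) (nat_lit 4319058719) (nat_lit 0) (nat_lit 8283202205) (nat_lit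 608) (nat_lit 3361640013) (nat_lit 316) (nat_lit 1) (nat_lit 315) (nat_lit 1) (nat_lit 323) (nat_lit 1) (nat_lit 285) (nat_lit 376) (nat_lit 359)) (XT.lf (nat_lit 608) (nat_lit 4059788107) (nat_lit 0) (nat_lit 11364113799) (nat_lit 532) (nat_lit 206853735) (nat_lit 316) (nat_lit 1) (nat_lit 308) (nat_lit 1) (nat_lit 315) (nat_lit 1) (nat_lit 286) (nat_lit 376) (nat_lit 358)))) (XT.nd (nat_lit 156) (nat_lit 912) (nat_lit 0) (XT.nd (nat_lit 78) (nat_lit 608) (nat_lit 0) (XT.lf (nat_lit 532) (nat_lit 371493684) (nat_lit 0) (nat_lit 10236541987) (nat_lit 456) (nat_lit 4698454034) (nat_lit 309) (nat_lit 1) (nat_lit 302) (nat_lit 1) (nat_lit 308) (nat_lit 1) (nat_lit 287) (nat_lit 376) (nat_lit 357)) (XT.lf (nat_lit 76) (nat_lit 5952454800) (nat_lit 0) (nat_lit 3269581303) (nat_lit 608) (nat_lit 5769031782) (nat_lit 295) (nat_lit 1) (nat_lit 294) (nat_lit 1) (nat_lit 302) (nat_lit 1) (nat_lit 288) (nat_lit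 376) (nat_lit 356))) (XT.nd (nat_lit 78) (nat_lit 456) (nat_lit 0) (XT.lf (nat_lit 76) (nat_lit 1426574079) (nat_lit 0) (nat_lit 6915502297) (nat_lit 532) (nat_lit 6342933712) (nat_lit 289) (nat_lit 1) (nat_lit 288) (nat_lit 1) (nat_lit 295) (nat_lit 1) (nat_lit 289) (nat_lit 376) (nat_lit 355)) (XT.lf (nat_lit 532) (nat_lit 3789576757) (nat_lit 0) (nat_lit 7562964203) (nat_lit 456) (nat_lit 3034690121) (nat_lit 289) (nat_lit 1) (nat_lit 282) (nat_lit 1) (nat_lit 288) (nat_lit 1) (nat_lit 290) (nat_lit 376) (nat_lit 354))))))) (XT.nd (nat_lit 1092) (nat_lit 3420) (nat_lit 0) (XT.nd (nat_lit 546) (nat_lit 2356) (nat_lit 0) (XT.nd (nat_lit 234) (nat_lit 1520) (nat_lit 0) (XT.nd (nat_lit 78) (nat_lit 836) (nat_lit 0) (XT.lf (nat_lit 76) (nat_lit 6699406351) (nat_lit 0) (nat_lit 193215116) (nat_lit 456) (nat_lit 7205238390) (nat_lit 277) (nat_lit 1) (nat_lit 276) (nat_lit 1) (nat_lit 282) (nat_lit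 1) (nat_lit 291) (nat_lit 376) (nat_lit 353)) (XT.nd (nat_lit 78) (nat_lit 380) (nat_lit 0) (XT.lf (nat_lit 76) (nat_lit 2212747849) (nat_lit 0) (nat_lit 4090554594) (nat_lit 532) (nat_lit 7512686041) (nat_lit 271) (nat_lit 1) (nat_lit 270) (nat_lit 1) (nat_lit 277) (nat_lit 1) (nat_lit 292) (nat_lit 376) (nat_lit 352)) (XT.lf (nat_lit 456) (nat_lit 5548018837) (nat_lit 0) (nat_lit 5804496694) (nat_lit 380) (nat_lit 2189279923) (nat_lit 271) (nat_lit 1) (nat_lit 265) (nat_lit 1) (nat_lit 270) (nat_lit 1) (nat_lit 293) (nat_lit 376) (nat_lit 351)))) (XT.nd (nat_lit 156) (nat_lit 684) (nat_lit 0) (XT.nd (nat_lit 78) (nat_lit 456) (nat_lit 0) (XT.lf (nat_lit 456) (nat_lit 1376095500) (nat_lit 0) (nat_lit 5390729504) (nat_lit 380) (nat_lit 6508200266) (nat_lit 266) (nat_lit 1) (nat_lit 260) (nat_lit 1) (nat_lit 265) (nat_lit 1) (nat_lit 294) (nat_lit 376) (nat_lit 350)) (XT.lf (nat_lit 76) (nat_lit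 2339943317) (nat_lit 0) (nat_lit 2711208839) (nat_lit 456) (nat_lit 7964115583) (nat_lit 255) (nat_lit 1) (nat_lit 254) (nat_lit 1) (nat_lit 260) (nat_lit 1) (nat_lit 295) (nat_lit 376) (nat_lit 349))) (XT.nd (nat_lit 78) (nat_lit 304) (nat_lit 0) (XT.lf (nat_lit 456) (nat_lit 6003977476) (nat_lit 0) (nat_lit 4774658359) (nat_lit 380) (nat_lit 1983471128) (nat_lit 255) (nat_lit 1) (nat_lit 249) (nat_lit 1) (nat_lit 254) (nat_lit 1) (nat_lit 296) (nat_lit 376) (nat_lit 348)) (XT.lf (nat_lit 380) (nat_lit 1723772890) (nat_lit 0) (nat_lit 4566880832) (nat_lit 304) (nat_lit 6224962626) (nat_lit 250) (nat_lit 1) (nat_lit 245) (nat_lit 1) (nat_lit 249) (nat_lit 1) (nat_lit 297) (nat_lit 376) (nat_lit 347))))) (XT.nd (nat_lit 234) (nat_lit 1292) (nat_lit 0) (XT.nd (nat_lit 78) (nat_lit 608) (nat_lit 0) (XT.lf (nat_lit 76) (nat_lit 1959439570) (nat_lit 0) (nat_lit 2462083441) (nat_lit 456) (nat_lit 7854000558)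 (nat_lit 240) (nat_lit 1) (nat_lit 239) (nat_lit 1) (nat_lit 245) (nat_lit 1) (nat_lit 298) (nat_lit 376) (nat_lit 346)) (XT.nd (nat_lit 78) (nat_lit 304) (nat_lit 0) (XT.lf (nat_lit 380) (nat_lit 5451145014) (nat_lit 0) (nat_lit 4319531840) (nat_lit 304) (nat_lit 2270509597) (nat_lit 240) (nat_lit 1) (nat_lit 235) (nat_lit 1) (nat_lit 239) (nat_lit 1) (nat_lit 299) (nat_lit 376) (nat_lit 345)) (XT.lf (nat_lit 380) (nat_lit 1124561574) (nat_lit 0) (nat_lit 4277340248) (nat_lit 304) (nat_lit 6411096227) (nat_lit 236) (nat_lit 1) (nat_lit 231) (nat_lit 1) (nat_lit 235) (nat_lit 1) (nat_lit 300) (nat_lit 376) (nat_lit 344)))) (XT.nd (nat_lit 156) (nat_lit 608) (nat_lit 0) (XT.nd (nat_lit 78) (nat_lit 304) (nat_lit 0) (XT.lf (nat_lit 76) (nat_lit 1195074407) (nat_lit 0) (nat_lit 3084095535) (nat_lit 380) (nat_lit 7311244917) (nat_lit 227) (nat_lit 1) (nat_lit 226) (nat_lit 1) (nat_lit 231) (nat_lit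 1) (nat_lit 301) (nat_lit 376) (nat_lit 343)) (XT.lf (nat_lit 380) (nat_lit 4130341367) (nat_lit 0) (nat_lit 4312364701) (nat_lit 304) (nat_lit 2930279841) (nat_lit 227) (nat_lit 1) (nat_lit 222) (nat_lit 1) (nat_lit 226) (nat_lit 1) (nat_lit 302) (nat_lit 376) (nat_lit 342))) (XT.nd (nat_lit 78) (nat_lit 304) (nat_lit 0) (XT.lf (nat_lit 76) (nat_lit 4210864434) (nat_lit 0) (nat_lit 189461515) (nat_lit 304) (nat_lit 6760986070) (nat_lit 219) (nat_lit 1) (nat_lit 218) (nat_lit 1) (nat_lit 222) (nat_lit 1) (nat_lit 303) (nat_lit 376) (nat_lit 341)) (XT.lf (nat_lit 76) (nat_lit 147860757) (nat_lit 0) (nat_lit 4365049027) (nat_lit 380) (nat_lit 6441526191) (nat_lit 215) (nat_lit 1) (nat_lit 214) (nat_lit 1) (nat_lit 219) (nat_lit 1) (nat_lit 304) (nat_lit 376) (nat_lit 340)))))) (XT.nd (nat_lit 546) (nat_lit 1520) (nat_lit 0) (XT.nd (nat_lit 234) (nat_lit 1064) (nat_lit 0) (XT.nd (nat_lit 78) (nat_lit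 608) (nat_lit 0) (XT.lf (nat_lit 304) (nat_lit 2238377193) (nat_lit 0) (nat_lit 4649049773) (nat_lit 228) (nat_lit 3864822024) (nat_lit 215) (nat_lit 1) (nat_lit 211) (nat_lit 1) (nat_lit 214) (nat_lit 1) (nat_lit 305) (nat_lit 376) (nat_lit 339)) (XT.nd (nat_lit 78) (nat_lit 228) (nat_lit 0) (XT.lf (nat_lit 76) (nat_lit 2819716398) (nat_lit 0) (nat_lit 2003279629) (nat_lit 380) (nat_lit 5732093839) (nat_lit 207) (nat_lit 1) (nat_lit 206) (nat_lit 1) (nat_lit 211) (nat_lit 1) (nat_lit 306) (nat_lit 376) (nat_lit 338)) (XT.lf (nat_lit 304) (nat_lit 4219922570) (nat_lit 0) (nat_lit 5020497916) (nat_lit 228) (nat_lit 1122048257) (nat_lit 207) (nat_lit 1) (nat_lit 203) (nat_lit 1) (nat_lit 206) (nat_lit 1) (nat_lit 307) (nat_lit 376) (nat_lit 337)))) (XT.nd (nat_lit 156) (nat_lit 532) (nat_lit 0) (XT.nd (nat_lit 78) (nat_lit 228) (nat_lit 0) (XT.lf (nat_lit 76) (nat_lit 5180430355) (nat_lit 0) (nat_lit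 63273098) (nat_lit 304) (nat_lit 4930671362) (nat_lit 200) (nat_lit 1) (nat_lit 199) (nat_lit 1) (nat_lit 203) (nat_lit 1) (nat_lit 308) (nat_lit 376) (nat_lit 336)) (XT.lf (nat_lit 76) (nat_lit 1287423603) (nat_lit 0) (nat_lit 4190127145) (nat_lit 304) (nat_lit 4512746666) (nat_lit 197) (nat_lit 1) (nat_lit 196) (nat_lit 1) (nat_lit 200) (nat_lit 1) (nat_lit 309) (nat_lit 376) (nat_lit 335))) (XT.nd (nat_lit 78) (nat_lit 304) (nat_lit 0) (XT.lf (nat_lit 304) (nat_lit 1542752582) (nat_lit 0) (nat_lit 5735746284) (nat_lit 228) (nat_lit 2532066290) (nat_lit 197) (nat_lit 1) (nat_lit 193) (nat_lit 1) (nat_lit 196) (nat_lit 1) (nat_lit 310) (nat_lit 376) (nat_lit 334)) (XT.lf (nat_lit 76) (nat_lit 3405586513) (nat_lit 0) (nat_lit 2596885227) (nat_lit 304) (nat_lit 3632176317) (nat_lit 190) (nat_lit 1) (nat_lit 189) (nat_lit 1) (nat_lit 193) (nat_lit 1) (nat_lit 311) (nat_lit 376) (nat_lit 333)))))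 (XT.nd (nat_lit 234) (nat_lit 836) (nat_lit 0) (XT.nd (nat_lit 78) (nat_lit 456) (nat_lit 0) (XT.lf (nat_lit 304) (nat_lit 2830165473) (nat_lit 0) (nat_lit 6296343146) (nat_lit 228) (nat_lit 336511776) (nat_lit 190) (nat_lit 1) (nat_lit 186) (nat_lit 1) (nat_lit 189) (nat_lit 1) (nat_lit 312) (nat_lit 376) (nat_lit 332)) (XT.nd (nat_lit 78) (nat_lit 228) (nat_lit 0) (XT.lf (nat_lit 76) (nat_lit 5282975650) (nat_lit 0) (nat_lit 1303975379) (nat_lit 228) (nat_lit 2707778782) (nat_lit 184) (nat_lit 1) (nat_lit 183) (nat_lit 1) (nat_lit 186) (nat_lit 1) (nat_lit 313) (nat_lit 376) (nat_lit 331)) (XT.lf (nat_lit 76) (nat_lit 1588480164) (nat_lit 0) (nat_lit 5303574626) (nat_lit 304) (nat_lit 2238173407) (nat_lit 181) (nat_lit 1) (nat_lit 180) (nat_lit 1) (nat_lit 184) (nat_lit 1) (nat_lit 314) (nat_lit 376) (nat_lit 330)))) (XT.nd (nat_lit 156) (nat_lit 380) (nat_lit 0) (XT.nd (nat_lit 78) (nat_lit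 228) (nat_lit 0) (XT.lf (nat_lit 76) (nat_lit 6945030187) (nat_lit 0) (nat_lit 269380239) (nat_lit 228) (nat_lit 1755121271) (nat_lit 178) (nat_lit 1) (nat_lit 177) (nat_lit 1) (nat_lit 180) (nat_lit 1) (nat_lit 315) (nat_lit 376) (nat_lit 329)) (XT.lf (nat_lit 76) (nat_lit 3297031355) (nat_lit 0) (nat_lit 4225306907) (nat_lit 304) (nat_lit 1289316431) (nat_lit 175) (nat_lit 1) (nat_lit 174) (nat_lit 1) (nat_lit 178) (nat_lit 1) (nat_lit 316) (nat_lit 376) (nat_lit 328))) (XT.nd (nat_lit 78) (nat_lit 228) (nat_lit 0) (XT.lf (nat_lit 228) (nat_lit 554429157) (nat_lit 0) (nat_lit 7865260259) (nat_lit 152) (nat_lit 238285534) (nat_lit 175) (nat_lit 1) (nat_lit 172) (nat_lit 1) (nat_lit 174) (nat_lit 1) (nat_lit 317) (nat_lit 376) (nat_lit 327)) (XT.lf (nat_lit 76) (nat_lit 4817418622) (nat_lit 0) (nat_lit 3359841202) (nat_lit 228) (nat_lit 329252213) (nat_lit 170) (nat_lit 1) (nat_lit 169) (nat_lit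 1) (nat_lit 172) (nat_lit 1) (nat_lit 318) (nat_lit 376) (nat_lit 326))))))))
noncomputable def ec74 : XT := (XT.nd (nat_lit 2184) (nat_lit 3420) (nat_lit 0) (XT.nd (nat_lit 1092) (nat_lit 2128) (nat_lit 0) (XT.nd (nat_lit 546) (nat_lit 1064) (nat_lit 0) (XT.nd (nat_lit 234) (nat_lit 760) (nat_lit 0) (XT.nd (nat_lit 78) (nat_lit 380) (nat_lit 0) (XT.lf (nat_lit 228) (nat_lit 1175161578) (nat_lit 0) (nat_lit 162960009) (nat_lit 152) (nat_lit 7020797479) (nat_lit 168) (nat_lit 1) (nat_lit 165) (nat_lit 1) (nat_lit 167) (nat_lit 1) (nat_lit 319) (nat_lit 376) (nat_lit 325)) (XT.nd (nat_lit 78) (nat_lit 152) (nat_lit 0) (XT.lf (nat_lit 228) (nat_lit 5530976078) (nat_lit 0) (nat_lit 644179108) (nat_lit 152) (nat_lit 2038652871) (nat_lit 165) (nat_lit 1) (nat_lit 162) (nat_lit 1) (nat_lit 164) (nat_lit 1) (nat_lit 320) (nat_lit 376) (nat_lit 324)) (XT.lf (nat_lit 228) (nat_lit 1622428220) (nat_lit 0)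 (nat_lit 1129913698) (nat_lit 152) (nat_lit 5319517644) (nat_lit 163) (nat_lit 1) (nat_lit 160) (nat_lit 1) (nat_lit 162) (nat_lit 1) (nat_lit 321) (nat_lit 376) (nat_lit 323)))) (XT.nd (nat_lit 156) (nat_lit 380) (nat_lit 0) (XT.nd (nat_lit 78) (nat_lit 152) (nat_lit 0) (XT.lf (nat_lit 228) (nat_lit 5768301333) (nat_lit 0) (nat_lit 1616105043) (nat_lit 152) (nat_lit 548491251) (nat_lit 160) (nat_lit 1) (nat_lit 157) (nat_lit 1) (nat_lit 159) (nat_lit 1) (nat_lit 322) (nat_lit 376) (nat_lit 322)) (XT.lf (nat_lit 228) (nat_lit 1931334484) (nat_lit 0) (nat_lit 2086413562) (nat_lit 152) (nat_lit 3778641667) (nat_lit 158) (nat_lit 1) (nat_lit 155) (nat_lit 1) (nat_lit 157) (nat_lit 1) (nat_lit 323) (nat_lit 376) (nat_lit 321))) (XT.nd (nat_lit 78) (nat_lit 152) (nat_lit 0) (XT.lf (nat_lit 76) (nat_lit 778509892) (nat_lit 0) (nat_lit 1786246971) (nat_lit 228) (nat_lit 5098220029) (nat_lit 153) (nat_lit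 1) (nat_lit 152) (nat_lit 1) (nat_lit 155) (nat_lit 1) (nat_lit 324) (nat_lit 376) (nat_lit 320)) (XT.lf (nat_lit 228) (nat_lit 2123433746) (nat_lit 0) (nat_lit 3025604138) (nat_lit 152) (nat_lit 2382823168) (nat_lit 153) (nat_lit 1) (nat_lit 150) (nat_lit 1) (nat_lit 152) (nat_lit 1) (nat_lit 325) (nat_lit 376) (nat_lit 319))))) (XT.nd (nat_lit 234) (nat_lit 608) (nat_lit 0) (XT.nd (nat_lit 78) (nat_lit 304) (nat_lit 0) (XT.lf (nat_lit 76) (nat_lit 1963982672) (nat_lit 0) (nat_lit 1523863612) (nat_lit 152) (nat_lit 3915692671) (nat_lit 149) (nat_lit 1) (nat_lit 148) (nat_lit 1) (nat_lit 150) (nat_lit 1) (nat_lit 326) (nat_lit 376) (nat_lit 318)) (XT.nd (nat_lit 78) (nat_lit 152) (nat_lit 0) (XT.lf (nat_lit 228) (nat_lit 2217462906) (nat_lit 0) (nat_lit 3941874838) (nat_lit 152) (nat_lit 1118340560) (nat_lit 149) (nat_lit 1) (nat_lit 146) (nat_lit 1) (nat_lit 148) (nat_lit 1) (nat_lit 327) (nat_lit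 376) (nat_lit 317)) (XT.lf (nat_lit 76) (nat_lit 3031113041) (nat_lit 0) (nat_lit 1354662047) (nat_lit 152) (nat_lit 2768396798) (nat_lit 145) (nat_lit 1) (nat_lit 144) (nat_lit 1) (nat_lit 146) (nat_lit 1) (nat_lit 328) (nat_lit 376) (nat_lit 316)))) (XT.nd (nat_lit 156) (nat_lit 304) (nat_lit 0) (XT.nd (nat_lit 78) (nat_lit 152) (nat_lit 0) (XT.lf (nat_lit 76) (nat_lit 26558681) (nat_lit 0) (nat_lit 4803864844) (nat_lit 228) (nat_lit 2202862508) (nat_lit 143) (nat_lit 1) (nat_lit 142) (nat_lit 1) (nat_lit 145) (nat_lit 1) (nat_lit 329) (nat_lit 376) (nat_lit 315)) (XT.lf (nat_lit 76) (nat_lit 3991074338) (nat_lit 0) (nat_lit 1263435780) (nat_lit 152) (nat_lit 1659840445) (nat_lit 141) (nat_lit 1) (nat_lit 140) (nat_lit 1) (nat_lit 142) (nat_lit 1) (nat_lit 330) (nat_lit 376) (nat_lit 314))) (XT.nd (nat_lit 78) (nat_lit 152) (nat_lit 0) (XT.lf (nat_lit 76) (nat_lit 1043692058) (nat_lit 0) (nat_lit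 4634218872) (nat_lit 228) (nat_lit 1119984903) (nat_lit 139) (nat_lit 1) (nat_lit 138) (nat_lit 1) (nat_lit 141) (nat_lit 1) (nat_lit 331) (nat_lit 376) (nat_lit 313)) (XT.lf (nat_lit 76) (nat_lit 4853878042) (nat_lit 0) (nat_lit 1236998711) (nat_lit 152) (nat_lit 592713501) (nat_lit 137) (nat_lit 1) (nat_lit 136) (nat_lit 1) (nat_lit 138) (nat_lit 1) (nat_lit 332) (nat_lit 376) (nat_lit 312)))))) (XT.nd (nat_lit 546) (nat_lit 988) (nat_lit 0) (XT.nd (nat_lit 234) (nat_lit 608) (nat_lit 0) (XT.nd (nat_lit 78) (nat_lit 380) (nat_lit 0) (XT.lf (nat_lit 76) (nat_lit 1964559059) (nat_lit 0) (nat_lit 4527948799) (nat_lit 228) (nat_lit 78853036) (nat_lit 135) (nat_lit 1) (nat_lit 134) (nat_lit 1) (nat_lit 137) (nat_lit 1) (nat_lit 333) (nat_lit 376) (nat_lit 311)) (XT.nd (nat_lit 78) (nat_lit 76) (nat_lit 0) (XT.lf (nat_lit 228) (nat_lit 5193155606) (nat_lit 0) (nat_lit 439574069) (nat_lit 152) (nat_lit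 828586100) (nat_lit 133) (nat_lit 1) (nat_lit 130) (nat_lit 1) (nat_lit 132) (nat_lit 1) (nat_lit 334) (nat_lit 376) (nat_lit 310)) (XT.lf (nat_lit 152) (nat_lit 1869807730) (nat_lit 0) (nat_lit 937048553) (nat_lit 76) (nat_lit 3546120227) (nat_lit 131) (nat_lit 1) (nat_lit 129) (nat_lit 1) (nat_lit 130) (nat_lit 1) (nat_lit 335) (nat_lit 376) (nat_lit 309)))) (XT.nd (nat_lit 156) (nat_lit 304) (nat_lit 0) (XT.nd (nat_lit 78) (nat_lit 76) (nat_lit 0) (XT.lf (nat_lit 76) (nat_lit 88010748) (nat_lit 0) (nat_lit 1349062920) (nat_lit 228) (nat_lit 4809977465) (nat_lit 127) (nat_lit 1) (nat_lit 126) (nat_lit 1) (nat_lit 129) (nat_lit 1) (nat_lit 336) (nat_lit 376) (nat_lit 308)) (XT.lf (nat_lit 152) (nat_lit 1660811535) (nat_lit 0) (nat_lit 1908910910) (nat_lit 76) (nat_lit 2572877337) (nat_lit 127) (nat_lit 1) (nat_lit 125) (nat_lit 1) (nat_lit 126) (nat_lit 1) (nat_lit 337) (nat_lit 376) (nat_lit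 307))) (XT.nd (nat_lit 78) (nat_lit 76) (nat_lit 0) (XT.lf (nat_lit 76) (nat_lit 908886202) (nat_lit 0) (nat_lit 1471699629) (nat_lit 228) (nat_lit 3659809190) (nat_lit 123) (nat_lit 1) (nat_lit 122) (nat_lit 1) (nat_lit 125) (nat_lit 1) (nat_lit 338) (nat_lit 376) (nat_lit 306)) (XT.lf (nat_lit 152) (nat_lit 1424978655) (nat_lit 0) (nat_lit 2834429901) (nat_lit 76) (nat_lit 1680470795) (nat_lit 123) (nat_lit 1) (nat_lit 121) (nat_lit 1) (nat_lit 122) (nat_lit 1) (nat_lit 339) (nat_lit 376) (nat_lit 305))))) (XT.nd (nat_lit 234) (nat_lit 532) (nat_lit 0) (XT.nd (nat_lit 78) (nat_lit 228) (nat_lit 0) (XT.lf (nat_lit 76) (nat_lit 1656955099) (nat_lit 0) (nat_lit 1620843642) (nat_lit 228) (nat_lit 2563426205) (nat_lit 119) (nat_lit 1) (nat_lit 118) (nat_lit 1) (nat_lit 121) (nat_lit 1) (nat_lit 340) (nat_lit 376) (nat_lit 304)) (XT.nd (nat_lit 78) (nat_lit 152) (nat_lit 0) (XT.lf (nat_lit 152) (nat_lit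 1168959952) (nat_lit 0) (nat_lit 3713288257) (nat_lit 76) (nat_lit 862217945) (nat_lit 119) (nat_lit 1) (nat_lit 117) (nat_lit 1) (nat_lit 118) (nat_lit 1) (nat_lit 341) (nat_lit 376) (nat_lit 303)) (XT.lf (nat_lit 76) (nat_lit 2338311412) (nat_lit 0) (nat_lit 1790267346) (nat_lit 152) (nat_lit 1520624909) (nat_lit 116) (nat_lit 1) (nat_lit 115) (nat_lit 1) (nat_lit 117) (nat_lit 1) (nat_lit 342) (nat_lit 376) (nat_lit 302)))) (XT.nd (nat_lit 156) (nat_lit 304) (nat_lit 0) (XT.nd (nat_lit 78) (nat_lit 152) (nat_lit 0) (XT.lf (nat_lit 152) (nat_lit 898438712) (nat_lit 0) (nat_lit 4545521134) (nat_lit 76) (nat_lit 112074368) (nat_lit 116) (nat_lit 1) (nat_lit 114) (nat_lit 1) (nat_lit 115) (nat_lit 1) (nat_lit 343) (nat_lit 376) (nat_lit 301)) (XT.lf (nat_lit 76) (nat_lit 2958467591) (nat_lit 0) (nat_lit 1974646195) (nat_lit 152) (nat_lit 530902098) (nat_lit 113) (nat_lit 1) (nat_lit 112) (nat_lit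 1) (nat_lit 114) (nat_lit 1) (nat_lit 344) (nat_lit 376) (nat_lit 300))) (XT.nd (nat_lit 78) (nat_lit 228) (nat_lit 0) (XT.lf (nat_lit 0) (nat_lit 564206101) (nat_lit 0) (nat_lit 4761555962) (nat_lit 152) (nat_lit 48350503) (nat_lit 111) (nat_lit 3) (nat_lit 111) (nat_lit 1) (nat_lit 113) (nat_lit 1) (nat_lit 345) (nat_lit 376) (nat_lit 299)) (XT.lf (nat_lit 152) (nat_lit 3111817845) (nat_lit 0) (nat_lit 414584476) (nat_lit 76) (nat_lit 1758844358) (nat_lit 110) (nat_lit 1) (nat_lit 108) (nat_lit 1) (nat_lit 109) (nat_lit 1) (nat_lit 346) (nat_lit 376) (nat_lit 298))))))) (XT.nd (nat_lit 1092) (nat_lit 1748) (nat_lit 0) (XT.nd (nat_lit 546) (nat_lit 836) (nat_lit 0) (XT.nd (nat_lit 234) (nat_lit 532) (nat_lit 0) (XT.nd (nat_lit 78) (nat_lit 228) (nat_lit 0) (XT.lf (nat_lit 76) (nat_lit 311879155) (nat_lit 0) (nat_lit 878320830) (nat_lit 76) (nat_lit 4008112219) (nat_lit 108) (nat_lit 3) (nat_lit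 107) (nat_lit 1) (nat_lit 108) (nat_lit 1) (nat_lit 347) (nat_lit 376) (nat_lit 297)) (XT.nd (nat_lit 78) (nat_lit 76) (nat_lit 0) (XT.lf (nat_lit 152) (nat_lit 2729115733) (nat_lit 0) (nat_lit 1318245736) (nat_lit 76) (nat_lit 1065235890) (nat_lit 107) (nat_lit 1) (nat_lit 105) (nat_lit 1) (nat_lit 106) (nat_lit 1) (nat_lit 348) (nat_lit 376) (nat_lit 296)) (XT.lf (nat_lit 76) (nat_lit 9651903) (nat_lit 0) (nat_lit 1754401631) (nat_lit 76) (nat_lit 3264595930) (nat_lit 105) (nat_lit 3) (nat_lit 104) (nat_lit 1) (nat_lit 105) (nat_lit 1) (nat_lit 349) (nat_lit 376) (nat_lit 295)))) (XT.nd (nat_lit 156) (nat_lit 228) (nat_lit 0) (XT.nd (nat_lit 78) (nat_lit 152) (nat_lit 0) (XT.lf (nat_lit 152) (nat_lit 2349603924) (nat_lit 0) (nat_lit 2170662397) (nat_lit 76) (nat_lit 425696759) (nat_lit 104) (nat_lit 1) (nat_lit 102) (nat_lit 1) (nat_lit 103) (nat_lit 1) (nat_lit 350) (nat_lit 376) (nat_lit 294))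 (XT.lf (nat_lit 76) (nat_lit 2292124184) (nat_lit 0) (nat_lit 285110433) (nat_lit 152) (nat_lit 2287565803) (nat_lit 101) (nat_lit 1) (nat_lit 100) (nat_lit 1) (nat_lit 102) (nat_lit 1) (nat_lit 351) (nat_lit 376) (nat_lit 293))) (XT.nd (nat_lit 78) (nat_lit 152) (nat_lit 0) (XT.lf (nat_lit 0) (nat_lit 160579457) (nat_lit 0) (nat_lit 2810916936) (nat_lit 152) (nat_lit 1813554326) (nat_lit 99) (nat_lit 3) (nat_lit 99) (nat_lit 1) (nat_lit 101) (nat_lit 1) (nat_lit 352) (nat_lit 376) (nat_lit 292)) (XT.lf (nat_lit 76) (nat_lit 2775349635) (nat_lit 0) (nat_lit 575604808) (nat_lit 152) (nat_lit 1355653171) (nat_lit 98) (nat_lit 1) (nat_lit 97) (nat_lit 1) (nat_lit 99) (nat_lit 1) (nat_lit 353) (nat_lit 376) (nat_lit 291))))) (XT.nd (nat_lit 234) (nat_lit 532) (nat_lit 0) (XT.nd (nat_lit 78) (nat_lit 228) (nat_lit 0) (XT.lf (nat_lit 0) (nat_lit 693044226) (nat_lit 0) (nat_lit 3026960946) (nat_lit 152)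 (nat_lit 909560883) (nat_lit 96) (nat_lit 3) (nat_lit 96) (nat_lit 1) (nat_lit 98) (nat_lit 1) (nat_lit 354) (nat_lit 376) (nat_lit 290)) (XT.nd (nat_lit 78) (nat_lit 76) (nat_lit 0) (XT.lf (nat_lit 76) (nat_lit 3216978900) (nat_lit 0) (nat_lit 860105546) (nat_lit 152) (nat_lit 476763568) (nat_lit 95) (nat_lit 1) (nat_lit 94) (nat_lit 1) (nat_lit 96) (nat_lit 1) (nat_lit 355) (nat_lit 376) (nat_lit 289)) (XT.lf (nat_lit 0) (nat_lit 1183285657) (nat_lit 0) (nat_lit 3238558730) (nat_lit 152) (nat_lit 57567122) (nat_lit 93) (nat_lit 3) (nat_lit 93) (nat_lit 1) (nat_lit 95) (nat_lit 1) (nat_lit 356) (nat_lit 376) (nat_lit 288)))) (XT.nd (nat_lit 156) (nat_lit 228) (nat_lit 0) (XT.nd (nat_lit 78) (nat_lit 76) (nat_lit 0) (XT.lf (nat_lit 152) (nat_lit 3265711918) (nat_lit 0) (nat_lit 357797611) (nat_lit 76) (nat_lit 782695264) (nat_lit 92) (nat_lit 1) (nat_lit 90) (nat_lit 1) (nat_lit 91) (nat_lit 1)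 (nat_lit 357) (nat_lit 376) (nat_lit 287)) (XT.lf (nat_lit 76) (nat_lit 882656510) (nat_lit 0) (nat_lit 758950248) (nat_lit 76) (nat_lit 2692552883) (nat_lit 90) (nat_lit 3) (nat_lit 89) (nat_lit 1) (nat_lit 90) (nat_lit 1) (nat_lit 358) (nat_lit 376) (nat_lit 286))) (XT.nd (nat_lit 78) (nat_lit 76) (nat_lit 0) (XT.lf (nat_lit 152) (nat_lit 2847189760) (nat_lit 0) (nat_lit 1151303633) (nat_lit 76) (nat_lit 264959649) (nat_lit 89) (nat_lit 1) (nat_lit 87) (nat_lit 1) (nat_lit 88) (nat_lit 1) (nat_lit 359) (nat_lit 376) (nat_lit 285)) (XT.lf (nat_lit 76) (nat_lit 536452511) (nat_lit 0) (nat_lit 1527108988) (nat_lit 76) (nat_lit 2130267426) (nat_lit 87) (nat_lit 3) (nat_lit 86) (nat_lit 1) (nat_lit 87) (nat_lit 1) (nat_lit 360) (nat_lit 376) (nat_lit 284)))))) (XT.nd (nat_lit 546) (nat_lit 836) (nat_lit 0) (XT.nd (nat_lit 234) (nat_lit 532) (nat_lit 0) (XT.nd (nat_lit 78) (nat_lit 228) (nat_lit 0)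 (XT.lf (nat_lit 0) (nat_lit 210124428) (nat_lit 0) (nat_lit 1683832163) (nat_lit 152) (nat_lit 2231521978) (nat_lit 84) (nat_lit 3) (nat_lit 84) (nat_lit 1) (nat_lit 86) (nat_lit 1) (nat_lit 361) (nat_lit 376) (nat_lit 283)) (XT.nd (nat_lit 78) (nat_lit 152) (nat_lit 0) (XT.lf (nat_lit 76) (nat_lit 203575535) (nat_lit 0) (nat_lit 2247565815) (nat_lit 76) (nat_lit 1607106711) (nat_lit 84) (nat_lit 3) (nat_lit 83) (nat_lit 1) (nat_lit 84) (nat_lit 1) (nat_lit 362) (nat_lit 376) (nat_lit 282)) (XT.lf (nat_lit 0) (nat_lit 644835072) (nat_lit 0) (nat_lit 1942598527) (nat_lit 152) (nat_lit 1404660476) (nat_lit 81) (nat_lit 3) (nat_lit 81) (nat_lit 1) (nat_lit 83) (nat_lit 1) (nat_lit 363) (nat_lit 376) (nat_lit 281)))) (XT.nd (nat_lit 156) (nat_lit 304) (nat_lit 0) (XT.nd (nat_lit 78) (nat_lit 76) (nat_lit 0) (XT.lf (nat_lit 76) (nat_lit 2807810876) (nat_lit 0) (nat_lit 113175989) (nat_lit 152) (nat_lit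 1006217936) (nat_lit 80) (nat_lit 1) (nat_lit 79) (nat_lit 1) (nat_lit 81) (nat_lit 1) (nat_lit 364) (nat_lit 376) (nat_lit 280)) (XT.lf (nat_lit 0) (nat_lit 1046665809) (nat_lit 0) (nat_lit 2189490769) (nat_lit 152) (nat_lit 627044542) (nat_lit 78) (nat_lit 3) (nat_lit 78) (nat_lit 1) (nat_lit 80) (nat_lit 1) (nat_lit 365) (nat_lit 376) (nat_lit 279))) (XT.nd (nat_lit 78) (nat_lit 152) (nat_lit 0) (XT.lf (nat_lit 76) (nat_lit 3136453688) (nat_lit 0) (nat_lit 411991190) (nat_lit 152) (nat_lit 252062606) (nat_lit 77) (nat_lit 1) (nat_lit 76) (nat_lit 1) (nat_lit 78) (nat_lit 1) (nat_lit 366) (nat_lit 376) (nat_lit 278)) (XT.lf (nat_lit 76) (nat_lit 1313440637) (nat_lit 0) (nat_lit 105337110) (nat_lit 76) (nat_lit 2319825033) (nat_lit 75) (nat_lit 3) (nat_lit 74) (nat_lit 1) (nat_lit 75) (nat_lit 1) (nat_lit 367) (nat_lit 376) (nat_lit 277))))) (XT.nd (nat_lit 234) (nat_lit 456) (nat_lit 0) (XT.nd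 (nat_lit 78) (nat_lit 228) (nat_lit 0) (XT.lf (nat_lit 152) (nat_lit 2976821827) (nat_lit 0) (nat_lit 464764935) (nat_lit 76) (nat_lit 236331746) (nat_lit 74) (nat_lit 1) (nat_lit 72) (nat_lit 1) (nat_lit 73) (nat_lit 1) (nat_lit 368) (nat_lit 376) (nat_lit 276)) (XT.nd (nat_lit 78) (nat_lit 152) (nat_lit 0) (XT.lf (nat_lit 76) (nat_lit 963915164) (nat_lit 0) (nat_lit 803935887) (nat_lit 76) (nat_lit 1850148478) (nat_lit 72) (nat_lit 3) (nat_lit 71) (nat_lit 1) (nat_lit 72) (nat_lit 1) (nat_lit 369) (nat_lit 376) (nat_lit 275)) (XT.lf (nat_lit 0) (nat_lit 160093366) (nat_lit 0) (nat_lit 979541645) (nat_lit 152) (nat_lit 2419673896) (nat_lit 69) (nat_lit 3) (nat_lit 69) (nat_lit 1) (nat_lit 71) (nat_lit 1) (nat_lit 370) (nat_lit 376) (nat_lit 274)))) (XT.nd (nat_lit 156) (nat_lit 228) (nat_lit 0) (XT.nd (nat_lit 78) (nat_lit 152) (nat_lit 0) (XT.lf (nat_lit 76) (nat_lit 631394200) (nat_lit 0) (nat_lit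 1458208301) (nat_lit 76) (nat_lit 1411821133) (nat_lit 69) (nat_lit 3) (nat_lit 68) (nat_lit 1) (nat_lit 69) (nat_lit 1) (nat_lit 371) (nat_lit 376) (nat_lit 273)) (XT.lf (nat_lit 0) (nat_lit 523701777) (nat_lit 0) (nat_lit 1245317064) (nat_lit 152) (nat_lit 1675572735) (nat_lit 66) (nat_lit 3) (nat_lit 66) (nat_lit 1) (nat_lit 68) (nat_lit 1) (nat_lit 372) (nat_lit 376) (nat_lit 272))) (XT.nd (nat_lit 78) (nat_lit 152) (nat_lit 0) (XT.lf (nat_lit 76) (nat_lit 315712466) (nat_lit 0) (nat_lit 2070052105) (nat_lit 76) (nat_lit 1002965121) (nat_lit 66) (nat_lit 3) (nat_lit 65) (nat_lit 1) (nat_lit 66) (nat_lit 1) (nat_lit 373) (nat_lit 376) (nat_lit 271)) (XT.lf (nat_lit 0) (nat_lit 860830560) (nat_lit 0) (nat_lit 1496293024) (nat_lit 152) (nat_lit 976568616) (nat_lit 63) (nat_lit 3) (nat_lit 63) (nat_lit 1) (nat_lit 65) (nat_lit 1) (nat_lit 374) (nat_lit 376) (nat_lit 270))))))))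
noncomputable def ec75 : XT := (XT.nd (nat_lit 45318) (nat_lit 0) (nat_lit 13832) (XT.nd (nat_lit 1092) (nat_lit 532) (nat_lit 0) (XT.nd (nat_lit 546) (nat_lit 912) (nat_lit 0) (XT.nd (nat_lit 234) (nat_lit 532) (nat_lit 0) (XT.nd (nat_lit 78) (nat_lit 304) (nat_lit 0) (XT.lf (nat_lit 76) (nat_lit 16626907) (nat_lit 0) (nat_lit 2641322474) (nat_lit 76) (nat_lit 621829254) (nat_lit 63) (nat_lit 3) (nat_lit 62) (nat_lit 1) (nat_lit 63) (nat_lit 1) (nat_lit 375) (nat_lit 376) (nat_lit 269)) (XT.nd (nat_lit 78) (nat_lit 152) (nat_lit 0) (XT.lf (nat_lit 0) (nat_lit 1173088480) (nat_lit 0) (nat_lit 1732683807) (nat_lit 152) (nat_lit 320702161) (nat_lit 60) (nat_lit 3) (nat_lit 60) (nat_lit 1) (nat_lit 62) (nat_lit 1) (nat_lit 376) (nat_lit 376) (nat_lit 268)) (XT.lf (nat_lit 76) (nat_lit 2910217544) (nat_lit 0) (nat_lit 260975627) (nat_lit 152) (nat_lit 3167405) (nat_lit 59) (nat_lit 1) (nat_lit 58)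 (nat_lit 1) (nat_lit 60) (nat_lit 1) (nat_lit 377) (nat_lit 376) (nat_lit 267)))) (XT.nd (nat_lit 156) (nat_lit 228) (nat_lit 0) (XT.nd (nat_lit 78) (nat_lit 152) (nat_lit 0) (XT.lf (nat_lit 76) (nat_lit 1165076307) (nat_lit 0) (nat_lit 299782821) (nat_lit 76) (nat_lit 1657862188) (nat_lit 57) (nat_lit 3) (nat_lit 56) (nat_lit 1) (nat_lit 57) (nat_lit 1) (nat_lit 378) (nat_lit 376) (nat_lit 266)) (XT.lf (nat_lit 0) (nat_lit 73505186) (nat_lit 0) (nat_lit 529155562) (nat_lit 152) (nat_lit 2469568164) (nat_lit 54) (nat_lit 3) (nat_lit 54) (nat_lit 1) (nat_lit 56) (nat_lit 1) (nat_lit 379) (nat_lit 376) (nat_lit 265))) (XT.nd (nat_lit 78) (nat_lit 152) (nat_lit 0) (XT.lf (nat_lit 76) (nat_lit 850935987) (nat_lit 0) (nat_lit 886486674) (nat_lit 76) (nat_lit 1284888726) (nat_lit 54) (nat_lit 3) (nat_lit 53) (nat_lit 1) (nat_lit 54) (nat_lit 1) (nat_lit 380) (nat_lit 376) (nat_lit 264)) (XT.lf (nat_lit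 0) (nat_lit 382824221) (nat_lit 0) (nat_lit 784075020) (nat_lit 152) (nat_lit 1806503477) (nat_lit 51) (nat_lit 3) (nat_lit 51) (nat_lit 1) (nat_lit 53) (nat_lit 1) (nat_lit 381) (nat_lit 376) (nat_lit 263))))) (XT.nd (nat_lit 234) (nat_lit 608) (nat_lit 0) (XT.nd (nat_lit 78) (nat_lit 228) (nat_lit 0) (XT.lf (nat_lit 76) (nat_lit 554108716) (nat_lit 0) (nat_lit 1434857411) (nat_lit 76) (nat_lit 936252334) (nat_lit 51) (nat_lit 3) (nat_lit 50) (nat_lit 1) (nat_lit 51) (nat_lit 1) (nat_lit 382) (nat_lit 376) (nat_lit 262)) (XT.nd (nat_lit 78) (nat_lit 76) (nat_lit 0) (XT.lf (nat_lit 0) (nat_lit 670273447) (nat_lit 0) (nat_lit 1023619371) (nat_lit 152) (nat_lit 1183947954) (nat_lit 48) (nat_lit 3) (nat_lit 48) (nat_lit 1) (nat_lit 50) (nat_lit 1) (nat_lit 383) (nat_lit 376) (nat_lit 261)) (XT.lf (nat_lit 76) (nat_lit 274069878) (nat_lit 0) (nat_lit 1946667180) (nat_lit 76) (nat_lit 610589806) (nat_lit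 48) (nat_lit 3) (nat_lit 47) (nat_lit 1) (nat_lit 48) (nat_lit 1) (nat_lit 384) (nat_lit 376) (nat_lit 260)))) (XT.nd (nat_lit 156) (nat_lit 380) (nat_lit 0) (XT.nd (nat_lit 78) (nat_lit 76) (nat_lit 0) (XT.lf (nat_lit 0) (nat_lit 937107434) (nat_lit 0) (nat_lit 1248267793) (nat_lit 152) (nat_lit 600054245) (nat_lit 45) (nat_lit 3) (nat_lit 45) (nat_lit 1) (nat_lit 47) (nat_lit 1) (nat_lit 385) (nat_lit 376) (nat_lit 259)) (XT.lf (nat_lit 76) (nat_lit 10276560) (nat_lit 0) (nat_lit 2423629202) (nat_lit 76) (nat_lit 306619759) (nat_lit 45) (nat_lit 3) (nat_lit 44) (nat_lit 1) (nat_lit 45) (nat_lit 1) (nat_lit 386) (nat_lit 376) (nat_lit 258))) (XT.nd (nat_lit 78) (nat_lit 228) (nat_lit 0) (XT.lf (nat_lit 0) (nat_lit 1184505111) (nat_lit 0) (nat_lit 1458516391) (nat_lit 152) (nat_lit 53038193) (nat_lit 42) (nat_lit 3) (nat_lit 42) (nat_lit 1) (nat_lit 44) (nat_lit 1) (nat_lit 387) (nat_lit 376) (nat_lit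 257)) (XT.lf (nat_lit 152) (nat_lit 2417308577) (nat_lit 0) (nat_lit 216631084) (nat_lit 76) (nat_lit 18636998) (nat_lit 41) (nat_lit 1) (nat_lit 39) (nat_lit 1) (nat_lit 40) (nat_lit 1) (nat_lit 388) (nat_lit 376) (nat_lit 256)))))) (XT.nd (nat_lit 43680) (nat_lit 0) (nat_lit 25156) (XT.nd (nat_lit 234) (nat_lit 228) (nat_lit 0) (XT.nd (nat_lit 78) (nat_lit 228) (nat_lit 0) (XT.lf (nat_lit 76) (nat_lit 950120660) (nat_lit 0) (nat_lit 467952919) (nat_lit 76) (nat_lit 1191418047) (nat_lit 39) (nat_lit 3) (nat_lit 38) (nat_lit 1) (nat_lit 39) (nat_lit 1) (nat_lit 389) (nat_lit 376) (nat_lit 255)) (XT.nd (nat_lit 78) (nat_lit 76) (nat_lit 0) (XT.lf (nat_lit 0) (nat_lit 247865525) (nat_lit 0) (nat_lit 470979151) (nat_lit 152) (nat_lit 1848509489) (nat_lit 36) (nat_lit 3) (nat_lit 36) (nat_lit 1) (nat_lit 38) (nat_lit 1) (nat_lit 390) (nat_lit 376) (nat_lit 254)) (XT.lf (nat_lit 76) (nat_lit 678714472)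 (nat_lit 0) (nat_lit 955835517) (nat_lit 76) (nat_lit 891203640) (nat_lit 36) (nat_lit 3) (nat_lit 35) (nat_lit 1) (nat_lit 36) (nat_lit 1) (nat_lit 391) (nat_lit 376) (nat_lit 253)))) (XT.nd (nat_lit 43290) (nat_lit 0) (nat_lit 25992) (XT.nd (nat_lit 78) (nat_lit 76) (nat_lit 0) (XT.lf (nat_lit 0) (nat_lit 495614466) (nat_lit 0) (nat_lit 692090811) (nat_lit 152) (nat_lit 1297222531) (nat_lit 33) (nat_lit 3) (nat_lit 33) (nat_lit 1) (nat_lit 35) (nat_lit 1) (nat_lit 392) (nat_lit 376) (nat_lit 252)) (XT.lf (nat_lit 76) (nat_lit 423230101) (nat_lit 0) (nat_lit 1411183309) (nat_lit 76) (nat_lit 610350430) (nat_lit 33) (nat_lit 3) (nat_lit 32) (nat_lit 1) (nat_lit 33) (nat_lit 1) (nat_lit 393) (nat_lit 376) (nat_lit 251))) (XT.nd (nat_lit 78) (nat_lit 0) (nat_lit 76) (XT.lf (nat_lit 1292) (nat_lit 2268134178) (nat_lit 0) (nat_lit 7803436411) (nat_lit 1292) (nat_lit 2268134178) (nat_lit 391) (nat_lit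 1) (nat_lit 374) (nat_lit 0) (nat_lit 391) (nat_lit 0) (nat_lit 266) (nat_lit 377) (nat_lit 377)) (XT.lf (nat_lit 1292) (nat_lit 181840293) (nat_lit 0) (nat_lit 15386735689) (nat_lit 1216) (nat_lit 8518684913) (nat_lit 392) (nat_lit 1) (nat_lit 375) (nat_lit 1) (nat_lit 391) (nat_lit 1) (nat_lit 267) (nat_lit 377) (nat_lit 376))))) (XT.nd (nat_lit 234) (nat_lit 912) (nat_lit 0) (XT.nd (nat_lit 78) (nat_lit 0) (nat_lit 76) (XT.lf (nat_lit 1292) (nat_lit 8000191060) (nat_lit 76) (nat_lit 11315977506) (nat_lit 0) (nat_lit 4197062480) (nat_lit 392) (nat_lit 1) (nat_lit 376) (nat_lit 1) (nat_lit 375) (nat_lit 1) (nat_lit 268) (nat_lit 377) (nat_lit 375)) (XT.nd (nat_lit 78) (nat_lit 0) (nat_lit 76) (XT.lf (nat_lit 1292) (nat_lit 7032846322) (nat_lit 76) (nat_lit 7407117013) (nat_lit 0) (nat_lit 8517824272) (nat_lit 393) (nat_lit 1) (nat_lit 377) (nat_lit 1) (nat_lit 376) (nat_lit 1) (nat_lit 269) (nat_lit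 377) (nat_lit 374)) (XT.lf (nat_lit 1292) (nat_lit 5820153890) (nat_lit 76) (nat_lit 3826162841) (nat_lit 0) (nat_lit 12773989405) (nat_lit 394) (nat_lit 1) (nat_lit 378) (nat_lit 1) (nat_lit 377) (nat_lit 1) (nat_lit 270) (nat_lit 377) (nat_lit 373)))) (XT.nd (nat_lit 156) (nat_lit 1140) (nat_lit 0) (XT.nd (nat_lit 78) (nat_lit 0) (nat_lit 76) (XT.lf (nat_lit 1292) (nat_lit 4380815152) (nat_lit 76) (nat_lit 556267485) (nat_lit 0) (nat_lit 16963053076) (nat_lit 395) (nat_lit 1) (nat_lit 379) (nat_lit 1) (nat_lit 378) (nat_lit 1) (nat_lit 271) (nat_lit 377) (nat_lit 372)) (XT.lf (nat_lit 1292) (nat_lit 337080363) (nat_lit 0) (nat_lit 18687436129) (nat_lit 1216) (nat_lit 2371437303) (nat_lit 396) (nat_lit 1) (nat_lit 379) (nat_lit 1) (nat_lit 395) (nat_lit 1) (nat_lit 272) (nat_lit 377) (nat_lit 371))) (XT.nd (nat_lit 78) (nat_lit 1216) (nat_lit 0) (XT.lf (nat_lit 1292) (nat_lit 798953792) (nat_lit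 76) (nat_lit 15851571263) (nat_lit 0) (nat_lit 4256025399) (nat_lit 396) (nat_lit 1) (nat_lit 380) (nat_lit 1) (nat_lit 379) (nat_lit 1) (nat_lit 273) (nat_lit 377) (nat_lit 370)) (XT.lf (nat_lit 1368) (nat_lit 11676700618) (nat_lit 0) (nat_lit 1262129216) (nat_lit 1292) (nat_lit 7493457697) (nat_lit 381) (nat_lit 1) (nat_lit 363) (nat_lit 1) (nat_lit 380) (nat_lit 1) (nat_lit 274) (nat_lit 377) (nat_lit 369))))))) (XT.nd (nat_lit 1092) (nat_lit 5168) (nat_lit 0) (XT.nd (nat_lit 546) (nat_lit 3648) (nat_lit 0) (XT.nd (nat_lit 234) (nat_lit 1824) (nat_lit 0) (XT.nd (nat_lit 78) (nat_lit 760) (nat_lit 0) (XT.lf (nat_lit 1368) (nat_lit 6815626860) (nat_lit 0) (nat_lit 3463133893) (nat_lit 1292) (nat_lit 9694040877) (nat_lit 382) (nat_lit 1) (nat_lit 364) (nat_lit 1) (nat_lit 381) (nat_lit 1) (nat_lit 275) (nat_lit 377) (nat_lit 368)) (XT.nd (nat_lit 78) (nat_lit 836) (nat_lit 0) (XT.lf (nat_lit 76)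 (nat_lit 2059718594) (nat_lit 0) (nat_lit 5806149526) (nat_lit 1292) (nat_lit 11661923269) (nat_lit 366) (nat_lit 1) (nat_lit 365) (nat_lit 1) (nat_lit 382) (nat_lit 1) (nat_lit 276) (nat_lit 377) (nat_lit 367)) (XT.lf (nat_lit 912) (nat_lit 10792109477) (nat_lit 0) (nat_lit 5661199553) (nat_lit 836) (nat_lit 2642674647) (nat_lit 366) (nat_lit 1) (nat_lit 354) (nat_lit 1) (nat_lit 365) (nat_lit 1) (nat_lit 277) (nat_lit 377) (nat_lit 366)))) (XT.nd (nat_lit 156) (nat_lit 608) (nat_lit 0) (XT.nd (nat_lit 78) (nat_lit 608) (nat_lit 0) (XT.lf (nat_lit 684) (nat_lit 7738954603) (nat_lit 0) (nat_lit 3658983446) (nat_lit 608) (nat_lit 7279136381) (nat_lit 355) (nat_lit 1) (nat_lit 346) (nat_lit 1) (nat_lit 354) (nat_lit 1) (nat_lit 278) (nat_lit 377) (nat_lit 365)) (XT.lf (nat_lit 684) (nat_lit 4593736268) (nat_lit 0) (nat_lit 1868383024) (nat_lit 608) (nat_lit 11809077877) (nat_lit 347) (nat_lit 1)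 (nat_lit 338) (nat_lit 1) (nat_lit 346) (nat_lit 1) (nat_lit 279) (nat_lit 377) (nat_lit 364))) (XT.nd (nat_lit 78) (nat_lit 76) (nat_lit 0) (XT.lf (nat_lit 608) (nat_lit 1366554521) (nat_lit 0) (nat_lit 278299829) (nat_lit 532) (nat_lit 16233043465) (nat_lit 339) (nat_lit 1) (nat_lit 331) (nat_lit 1) (nat_lit 338) (nat_lit 1) (nat_lit 280) (nat_lit 377) (nat_lit 363)) (XT.lf (nat_lit 76) (nat_lit 14409737555) (nat_lit 0) (nat_lit 1936424249) (nat_lit 608) (nat_lit 1148789515) (nat_lit 331) (nat_lit 1) (nat_lit 330) (nat_lit 1) (nat_lit 338) (nat_lit 1) (nat_lit 281) (nat_lit 377) (nat_lit 362))))) (XT.nd (nat_lit 234) (nat_lit 1976) (nat_lit 0) (XT.nd (nat_lit 78) (nat_lit 1064) (nat_lit 0) (XT.lf (nat_lit 76) (nat_lit 9408647749) (nat_lit 0) (nat_lit 5291180413) (nat_lit 684) (nat_lit 2423003129) (nat_lit 323) (nat_lit 1) (nat_lit 322) (nat_lit 1) (nat_lit 331) (nat_lit 1) (nat_lit 282) (nat_lit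 377) (nat_lit 361)) (XT.nd (nat_lit 78) (nat_lit 532) (nat_lit 0) (XT.lf (nat_lit 76) (nat_lit 4535011655) (nat_lit 0) (nat_lit 8697362315) (nat_lit 608) (nat_lit 3529722013) (nat_lit 316) (nat_lit 1) (nat_lit 315) (nat_lit 1) (nat_lit 323) (nat_lit 1) (nat_lit 283) (nat_lit 377) (nat_lit 360)) (XT.lf (nat_lit 608) (nat_lit 4262777512) (nat_lit 0) (nat_lit 11932319489) (nat_lit 532) (nat_lit 217196422) (nat_lit 316) (nat_lit 1) (nat_lit 308) (nat_lit 1) (nat_lit 315) (nat_lit 1) (nat_lit 284) (nat_lit 377) (nat_lit 359)))) (XT.nd (nat_lit 156) (nat_lit 912) (nat_lit 0) (XT.nd (nat_lit 78) (nat_lit 608) (nat_lit 0) (XT.lf (nat_lit 532) (nat_lit 390068368) (nat_lit 0) (nat_lit 10748369086) (nat_lit 456) (nat_lit 4933376736) (nat_lit 309) (nat_lit 1) (nat_lit 302) (nat_lit 1) (nat_lit 308) (nat_lit 1) (nat_lit 285) (nat_lit 377) (nat_lit 358)) (XT.lf (nat_lit 76) (nat_lit 6250077540) (nat_lit 0) (nat_lit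 3433060368) (nat_lit 608) (nat_lit 6057483371) (nat_lit 295) (nat_lit 1) (nat_lit 294) (nat_lit 1) (nat_lit 302) (nat_lit 1) (nat_lit 286) (nat_lit 377) (nat_lit 357))) (XT.nd (nat_lit 78) (nat_lit 456) (nat_lit 0) (XT.lf (nat_lit 76) (nat_lit 1497902783) (nat_lit 0) (nat_lit 7261277412) (nat_lit 532) (nat_lit 6660080397) (nat_lit 289) (nat_lit 1) (nat_lit 288) (nat_lit 1) (nat_lit 295) (nat_lit 1) (nat_lit 287) (nat_lit 377) (nat_lit 356)) (XT.lf (nat_lit 532) (nat_lit 3979055595) (nat_lit 0) (nat_lit 7941112413) (nat_lit 456) (nat_lit 3186424627) (nat_lit 289) (nat_lit 1) (nat_lit 282) (nat_lit 1) (nat_lit 288) (nat_lit 1) (nat_lit 288) (nat_lit 377) (nat_lit 355)))))) (XT.nd (nat_lit 546) (nat_lit 2356) (nat_lit 0) (XT.nd (nat_lit 234) (nat_lit 1520) (nat_lit 0) (XT.nd (nat_lit 78) (nat_lit 836) (nat_lit 0) (XT.lf (nat_lit 76) (nat_lit 7034376669) (nat_lit 0) (nat_lit 202875872) (nat_lit 456)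 (nat_lit 7565500310) (nat_lit 277) (nat_lit 1) (nat_lit 276) (nat_lit 1) (nat_lit 282) (nat_lit 1) (nat_lit 289) (nat_lit 377) (nat_lit 354)) (XT.nd (nat_lit 78) (nat_lit 380) (nat_lit 0) (XT.lf (nat_lit 76) (nat_lit 2323385242) (nat_lit 0) (nat_lit 4295082324) (nat_lit 532) (nat_lit 7888320344) (nat_lit 271) (nat_lit 1) (nat_lit 270) (nat_lit 1) (nat_lit 277) (nat_lit 1) (nat_lit 290) (nat_lit 377) (nat_lit 353)) (XT.lf (nat_lit 456) (nat_lit 5825419779) (nat_lit 0) (nat_lit 6094721529) (nat_lit 380) (nat_lit 2298743919) (nat_lit 271) (nat_lit 1) (nat_lit 265) (nat_lit 1) (nat_lit 270) (nat_lit 1) (nat_lit 291) (nat_lit 377) (nat_lit 352)))) (XT.nd (nat_lit 156) (nat_lit 684) (nat_lit 0) (XT.nd (nat_lit 78) (nat_lit 456) (nat_lit 0) (XT.lf (nat_lit 456) (nat_lit 1444900275) (nat_lit 0) (nat_lit 5660265979) (nat_lit 380) (nat_lit 6833610279) (nat_lit 266) (nat_lit 1) (nat_lit 260) (nat_lit 1) (nat_lit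 265) (nat_lit 1) (nat_lit 292) (nat_lit 377) (nat_lit 351)) (XT.lf (nat_lit 76) (nat_lit 2456940483) (nat_lit 0) (nat_lit 2846769281) (nat_lit 456) (nat_lit 8362321362) (nat_lit 255) (nat_lit 1) (nat_lit 254) (nat_lit 1) (nat_lit 260) (nat_lit 1) (nat_lit 293) (nat_lit 377) (nat_lit 350))) (XT.nd (nat_lit 78) (nat_lit 304) (nat_lit 0) (XT.lf (nat_lit 456) (nat_lit 6304176350) (nat_lit 0) (nat_lit 5013391277) (nat_lit 380) (nat_lit 2082644684) (nat_lit 255) (nat_lit 1) (nat_lit 249) (nat_lit 1) (nat_lit 254) (nat_lit 1) (nat_lit 294) (nat_lit 377) (nat_lit 349)) (XT.lf (nat_lit 380) (nat_lit 1809961535) (nat_lit 0) (nat_lit 4795224873) (nat_lit 304) (nat_lit 6536210758) (nat_lit 250) (nat_lit 1) (nat_lit 245) (nat_lit 1) (nat_lit 249) (nat_lit 1) (nat_lit 295) (nat_lit 377) (nat_lit 348))))) (XT.nd (nat_lit 234) (nat_lit 1292) (nat_lit 0) (XT.nd (nat_lit 78) (nat_lit 608) (nat_lit 0) (XT.lf (nat_lit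 76) (nat_lit 2057411549) (nat_lit 0) (nat_lit 2585187613) (nat_lit 456) (nat_lit 8246700586) (nat_lit 240) (nat_lit 1) (nat_lit 239) (nat_lit 1) (nat_lit 245) (nat_lit 1) (nat_lit 296) (nat_lit 377) (nat_lit 347)) (XT.nd (nat_lit 78) (nat_lit 304) (nat_lit 0) (XT.lf (nat_lit 380) (nat_lit 5723702265) (nat_lit 0) (nat_lit 4535508432) (nat_lit 304) (nat_lit 2384035077) (nat_lit 240) (nat_lit 1) (nat_lit 235) (nat_lit 1) (nat_lit 239) (nat_lit 1) (nat_lit 297) (nat_lit 377) (nat_lit 346)) (XT.lf (nat_lit 380) (nat_lit 1180789653) (nat_lit 0) (nat_lit 4491207260) (nat_lit 304) (nat_lit 6731651039) (nat_lit 236) (nat_lit 1) (nat_lit 231) (nat_lit 1) (nat_lit 235) (nat_lit 1) (nat_lit 298) (nat_lit 377) (nat_lit 345)))) (XT.nd (nat_lit 156) (nat_lit 608) (nat_lit 0) (XT.nd (nat_lit 78) (nat_lit 304) (nat_lit 0) (XT.lf (nat_lit 76) (nat_lit 1254828127) (nat_lit 0) (nat_lit 3238300312) (nat_lit 380) (nat_lit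 7676807163) (nat_lit 227) (nat_lit 1) (nat_lit 226) (nat_lit 1) (nat_lit 231) (nat_lit 1) (nat_lit 299) (nat_lit 377) (nat_lit 344)) (XT.lf (nat_lit 380) (nat_lit 4336858435) (nat_lit 0) (nat_lit 4527982936) (nat_lit 304) (nat_lit 3076793833) (nat_lit 227) (nat_lit 1) (nat_lit 222) (nat_lit 1) (nat_lit 226) (nat_lit 1) (nat_lit 300) (nat_lit 377) (nat_lit 343))) (XT.nd (nat_lit 78) (nat_lit 304) (nat_lit 0) (XT.lf (nat_lit 76) (nat_lit 4421407656) (nat_lit 0) (nat_lit 198934591) (nat_lit 304) (nat_lit 7099035374) (nat_lit 219) (nat_lit 1) (nat_lit 218) (nat_lit 1) (nat_lit 222) (nat_lit 1) (nat_lit 301) (nat_lit 377) (nat_lit 342)) (XT.lf (nat_lit 76) (nat_lit 155253795) (nat_lit 0) (nat_lit 4583301479) (nat_lit 380) (nat_lit 6763602501) (nat_lit 215) (nat_lit 1) (nat_lit 214) (nat_lit 1) (nat_lit 219) (nat_lit 1) (nat_lit 302) (nat_lit 377) (nat_lit 341))))))))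
noncomputable def ec76 : XT := (XT.nd (nat_lit 2184) (nat_lit 3800) (nat_lit 0) (XT.nd (nat_lit 1092) (nat_lit 2508) (nat_lit 0) (XT.nd (nat_lit 546) (nat_lit 1520) (nat_lit 0) (XT.nd (nat_lit 234) (nat_lit 1064) (nat_lit 0) (XT.nd (nat_lit 78) (nat_lit 608) (nat_lit 0) (XT.lf (nat_lit 304) (nat_lit 2350296052) (nat_lit 0) (nat_lit 4881502262) (nat_lit 228) (nat_lit 4058063125) (nat_lit 215) (nat_lit 1) (nat_lit 211) (nat_lit 1) (nat_lit 214) (nat_lit 1) (nat_lit 303) (nat_lit 377) (nat_lit 340)) (XT.nd (nat_lit 78) (nat_lit 228) (nat_lit 0) (XT.lf (nat_lit 76) (nat_lit 2960702218) (nat_lit 0) (nat_lit 2103443610) (nat_lit 380) (nat_lit 6018698531) (nat_lit 207) (nat_lit 1) (nat_lit 206) (nat_lit 1) (nat_lit 211) (nat_lit 1) (nat_lit 304) (nat_lit 377) (nat_lit 339)) (XT.lf (nat_lit 304) (nat_lit 4430918698) (nat_lit 0) (nat_lit 5271522812) (nat_lit 228) (nat_lit 1178150670) (nat_lit 207) (nat_lit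 1) (nat_lit 203) (nat_lit 1) (nat_lit 206) (nat_lit 1) (nat_lit 305) (nat_lit 377) (nat_lit 338)))) (XT.nd (nat_lit 156) (nat_lit 532) (nat_lit 0) (XT.nd (nat_lit 78) (nat_lit 228) (nat_lit 0) (XT.lf (nat_lit 76) (nat_lit 5439451872) (nat_lit 0) (nat_lit 66436753) (nat_lit 304) (nat_lit 5177204931) (nat_lit 200) (nat_lit 1) (nat_lit 199) (nat_lit 1) (nat_lit 203) (nat_lit 1) (nat_lit 306) (nat_lit 377) (nat_lit 337)) (XT.lf (nat_lit 76) (nat_lit 1351794783) (nat_lit 0) (nat_lit 4399633502) (nat_lit 304) (nat_lit 4738384000) (nat_lit 197) (nat_lit 1) (nat_lit 196) (nat_lit 1) (nat_lit 200) (nat_lit 1) (nat_lit 307) (nat_lit 377) (nat_lit 336))) (XT.nd (nat_lit 78) (nat_lit 304) (nat_lit 0) (XT.lf (nat_lit 304) (nat_lit 1619890211) (nat_lit 0) (nat_lit 6022533598) (nat_lit 228) (nat_lit 2658669604) (nat_lit 197) (nat_lit 1) (nat_lit 193) (nat_lit 1) (nat_lit 196) (nat_lit 1) (nat_lit 308) (nat_lit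 377) (nat_lit 335)) (XT.lf (nat_lit 76) (nat_lit 3575865839) (nat_lit 0) (nat_lit 2726729488) (nat_lit 304) (nat_lit 3813785133) (nat_lit 190) (nat_lit 1) (nat_lit 189) (nat_lit 1) (nat_lit 193) (nat_lit 1) (nat_lit 309) (nat_lit 377) (nat_lit 334))))) (XT.nd (nat_lit 234) (nat_lit 836) (nat_lit 0) (XT.nd (nat_lit 78) (nat_lit 456) (nat_lit 0) (XT.lf (nat_lit 304) (nat_lit 2971673746) (nat_lit 0) (nat_lit 6611160303) (nat_lit 228) (nat_lit 353337364) (nat_lit 190) (nat_lit 1) (nat_lit 186) (nat_lit 1) (nat_lit 189) (nat_lit 1) (nat_lit 310) (nat_lit 377) (nat_lit 333)) (XT.nd (nat_lit 78) (nat_lit 228) (nat_lit 0) (XT.lf (nat_lit 76) (nat_lit 5547124432) (nat_lit 0) (nat_lit 1369174148) (nat_lit 228) (nat_lit 2843167721) (nat_lit 184) (nat_lit 1) (nat_lit 183) (nat_lit 1) (nat_lit 186) (nat_lit 1) (nat_lit 311) (nat_lit 377) (nat_lit 332)) (XT.lf (nat_lit 76) (nat_lit 1667904172) (nat_lit 0) (nat_lit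 5568753357) (nat_lit 304) (nat_lit 2350082077) (nat_lit 181) (nat_lit 1) (nat_lit 180) (nat_lit 1) (nat_lit 184) (nat_lit 1) (nat_lit 312) (nat_lit 377) (nat_lit 331)))) (XT.nd (nat_lit 156) (nat_lit 380) (nat_lit 0) (XT.nd (nat_lit 78) (nat_lit 228) (nat_lit 0) (XT.lf (nat_lit 76) (nat_lit 7292281696) (nat_lit 0) (nat_lit 282849251) (nat_lit 228) (nat_lit 1842877334) (nat_lit 178) (nat_lit 1) (nat_lit 177) (nat_lit 1) (nat_lit 180) (nat_lit 1) (nat_lit 313) (nat_lit 377) (nat_lit 330)) (XT.lf (nat_lit 76) (nat_lit 3461882922) (nat_lit 0) (nat_lit 4436572252) (nat_lit 304) (nat_lit 1353782252) (nat_lit 175) (nat_lit 1) (nat_lit 174) (nat_lit 1) (nat_lit 178) (nat_lit 1) (nat_lit 314) (nat_lit 377) (nat_lit 329))) (XT.nd (nat_lit 78) (nat_lit 228) (nat_lit 0) (XT.lf (nat_lit 228) (nat_lit 582150615) (nat_lit 0) (nat_lit 8258523272) (nat_lit 152) (nat_lit 250199811) (nat_lit 175) (nat_lit 1) (nat_lit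 172) (nat_lit 1) (nat_lit 174) (nat_lit 1) (nat_lit 315) (nat_lit 377) (nat_lit 328)) (XT.lf (nat_lit 76) (nat_lit 5058289553) (nat_lit 0) (nat_lit 3527833262) (nat_lit 228) (nat_lit 345714823) (nat_lit 170) (nat_lit 1) (nat_lit 169) (nat_lit 1) (nat_lit 172) (nat_lit 1) (nat_lit 316) (nat_lit 377) (nat_lit 327)))))) (XT.nd (nat_lit 546) (nat_lit 1064) (nat_lit 0) (XT.nd (nat_lit 234) (nat_lit 760) (nat_lit 0) (XT.nd (nat_lit 78) (nat_lit 380) (nat_lit 0) (XT.lf (nat_lit 228) (nat_lit 1233919657) (nat_lit 0) (nat_lit 171108009) (nat_lit 152) (nat_lit 7371837353) (nat_lit 168) (nat_lit 1) (nat_lit 165) (nat_lit 1) (nat_lit 167) (nat_lit 1) (nat_lit 317) (nat_lit 377) (nat_lit 326)) (XT.nd (nat_lit 78) (nat_lit 152) (nat_lit 0) (XT.lf (nat_lit 228) (nat_lit 5807524882) (nat_lit 0) (nat_lit 676388064) (nat_lit 152) (nat_lit 2140585515) (nat_lit 165) (nat_lit 1) (nat_lit 162) (nat_lit 1) (nat_lit 164)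 (nat_lit 1) (nat_lit 318) (nat_lit 377) (nat_lit 325)) (XT.lf (nat_lit 228) (nat_lit 1703549631) (nat_lit 0) (nat_lit 1186409383) (nat_lit 152) (nat_lit 5585493527) (nat_lit 163) (nat_lit 1) (nat_lit 160) (nat_lit 1) (nat_lit 162) (nat_lit 1) (nat_lit 319) (nat_lit 377) (nat_lit 324)))) (XT.nd (nat_lit 156) (nat_lit 380) (nat_lit 0) (XT.nd (nat_lit 78) (nat_lit 152) (nat_lit 0) (XT.lf (nat_lit 228) (nat_lit 6056716400) (nat_lit 0) (nat_lit 1696910296) (nat_lit 152) (nat_lit 575915814) (nat_lit 160) (nat_lit 1) (nat_lit 157) (nat_lit 1) (nat_lit 159) (nat_lit 1) (nat_lit 320) (nat_lit 377) (nat_lit 323)) (XT.lf (nat_lit 228) (nat_lit 2027901208) (nat_lit 0) (nat_lit 2190734240) (nat_lit 152) (nat_lit 3967573750) (nat_lit 158) (nat_lit 1) (nat_lit 155) (nat_lit 1) (nat_lit 157) (nat_lit 1) (nat_lit 321) (nat_lit 377) (nat_lit 322))) (XT.nd (nat_lit 78) (nat_lit 152) (nat_lit 0) (XT.lf (nat_lit 76)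 (nat_lit 817435386) (nat_lit 0) (nat_lit 1875559320) (nat_lit 228) (nat_lit 5353131030) (nat_lit 153) (nat_lit 1) (nat_lit 152) (nat_lit 1) (nat_lit 155) (nat_lit 1) (nat_lit 322) (nat_lit 377) (nat_lit 321)) (XT.lf (nat_lit 228) (nat_lit 2229605433) (nat_lit 0) (nat_lit 3176884345) (nat_lit 152) (nat_lit 2501964327) (nat_lit 153) (nat_lit 1) (nat_lit 150) (nat_lit 1) (nat_lit 152) (nat_lit 1) (nat_lit 323) (nat_lit 377) (nat_lit 320))))) (XT.nd (nat_lit 234) (nat_lit 608) (nat_lit 0) (XT.nd (nat_lit 78) (nat_lit 304) (nat_lit 0) (XT.lf (nat_lit 76) (nat_lit 2062181805) (nat_lit 0) (nat_lit 1600056793) (nat_lit 152) (nat_lit 4111477305) (nat_lit 149) (nat_lit 1) (nat_lit 148) (nat_lit 1) (nat_lit 150) (nat_lit 1) (nat_lit 324) (nat_lit 377) (nat_lit 319)) (XT.nd (nat_lit 78) (nat_lit 152) (nat_lit 0) (XT.lf (nat_lit 228) (nat_lit 2328336051) (nat_lit 0) (nat_lit 4138968580) (nat_lit 152) (nat_lit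 1174257588) (nat_lit 149) (nat_lit 1) (nat_lit 146) (nat_lit 1) (nat_lit 148) (nat_lit 1) (nat_lit 325) (nat_lit 377) (nat_lit 318)) (XT.lf (nat_lit 76) (nat_lit 3182668693) (nat_lit 0) (nat_lit 1422395149) (nat_lit 152) (nat_lit 2906816638) (nat_lit 145) (nat_lit 1) (nat_lit 144) (nat_lit 1) (nat_lit 146) (nat_lit 1) (nat_lit 326) (nat_lit 377) (nat_lit 317)))) (XT.nd (nat_lit 156) (nat_lit 304) (nat_lit 0) (XT.nd (nat_lit 78) (nat_lit 152) (nat_lit 0) (XT.lf (nat_lit 76) (nat_lit 27886615) (nat_lit 0) (nat_lit 5044058086) (nat_lit 228) (nat_lit 2313005634) (nat_lit 143) (nat_lit 1) (nat_lit 142) (nat_lit 1) (nat_lit 145) (nat_lit 1) (nat_lit 327) (nat_lit 377) (nat_lit 316)) (XT.lf (nat_lit 76) (nat_lit 4190628055) (nat_lit 0) (nat_lit 1326607569) (nat_lit 152) (nat_lit 1742832467) (nat_lit 141) (nat_lit 1) (nat_lit 140) (nat_lit 1) (nat_lit 142) (nat_lit 1) (nat_lit 328) (nat_lit 377) (nat_lit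 315))) (XT.nd (nat_lit 78) (nat_lit 152) (nat_lit 0) (XT.lf (nat_lit 76) (nat_lit 1095876661) (nat_lit 0) (nat_lit 4865929816) (nat_lit 228) (nat_lit 1175984148) (nat_lit 139) (nat_lit 1) (nat_lit 138) (nat_lit 1) (nat_lit 141) (nat_lit 1) (nat_lit 329) (nat_lit 377) (nat_lit 314)) (XT.lf (nat_lit 76) (nat_lit 5096571944) (nat_lit 0) (nat_lit 1298848647) (nat_lit 152) (nat_lit 622349176) (nat_lit 137) (nat_lit 1) (nat_lit 136) (nat_lit 1) (nat_lit 138) (nat_lit 1) (nat_lit 330) (nat_lit 377) (nat_lit 313))))))) (XT.nd (nat_lit 1092) (nat_lit 1672) (nat_lit 0) (XT.nd (nat_lit 546) (nat_lit 988) (nat_lit 0) (XT.nd (nat_lit 234) (nat_lit 608) (nat_lit 0) (XT.nd (nat_lit 78) (nat_lit 380) (nat_lit 0) (XT.lf (nat_lit 76) (nat_lit 2062787012) (nat_lit 0) (nat_lit 4754346239) (nat_lit 228) (nat_lit 82795688) (nat_lit 135) (nat_lit 1) (nat_lit 134) (nat_lit 1) (nat_lit 137) (nat_lit 1) (nat_lit 331) (nat_lit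 377) (nat_lit 312)) (XT.nd (nat_lit 78) (nat_lit 76) (nat_lit 0) (XT.lf (nat_lit 228) (nat_lit 5452813386) (nat_lit 0) (nat_lit 461552773) (nat_lit 152) (nat_lit 870015405) (nat_lit 133) (nat_lit 1) (nat_lit 130) (nat_lit 1) (nat_lit 132) (nat_lit 1) (nat_lit 332) (nat_lit 377) (nat_lit 311)) (XT.lf (nat_lit 152) (nat_lit 1963298117) (nat_lit 0) (nat_lit 983900981) (nat_lit 76) (nat_lit 3723426239) (nat_lit 131) (nat_lit 1) (nat_lit 129) (nat_lit 1) (nat_lit 130) (nat_lit 1) (nat_lit 333) (nat_lit 377) (nat_lit 310)))) (XT.nd (nat_lit 156) (nat_lit 304) (nat_lit 0) (XT.nd (nat_lit 78) (nat_lit 76) (nat_lit 0) (XT.lf (nat_lit 76) (nat_lit 92411285) (nat_lit 0) (nat_lit 1416516066) (nat_lit 228) (nat_lit 5050476339) (nat_lit 127) (nat_lit 1) (nat_lit 126) (nat_lit 1) (nat_lit 129) (nat_lit 1) (nat_lit 334) (nat_lit 377) (nat_lit 309)) (XT.lf (nat_lit 152) (nat_lit 1743852112) (nat_lit 0) (nat_lit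 2004356456) (nat_lit 76) (nat_lit 2701521204) (nat_lit 127) (nat_lit 1) (nat_lit 125) (nat_lit 1) (nat_lit 126) (nat_lit 1) (nat_lit 335) (nat_lit 377) (nat_lit 308))) (XT.nd (nat_lit 78) (nat_lit 76) (nat_lit 0) (XT.lf (nat_lit 76) (nat_lit 954330512) (nat_lit 0) (nat_lit 1545284611) (nat_lit 228) (nat_lit 3842799650) (nat_lit 123) (nat_lit 1) (nat_lit 122) (nat_lit 1) (nat_lit 125) (nat_lit 1) (nat_lit 336) (nat_lit 377) (nat_lit 307)) (XT.lf (nat_lit 152) (nat_lit 1496227588) (nat_lit 0) (nat_lit 2976151396) (nat_lit 76) (nat_lit 1764494334) (nat_lit 123) (nat_lit 1) (nat_lit 121) (nat_lit 1) (nat_lit 122) (nat_lit 1) (nat_lit 337) (nat_lit 377) (nat_lit 306))))) (XT.nd (nat_lit 234) (nat_lit 532) (nat_lit 0) (XT.nd (nat_lit 78) (nat_lit 228) (nat_lit 0) (XT.lf (nat_lit 76) (nat_lit 1739802854) (nat_lit 0) (nat_lit 1701885824) (nat_lit 228) (nat_lit 2691597516) (nat_lit 119) (nat_lit 1) (nat_lit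 118) (nat_lit 1) (nat_lit 121) (nat_lit 1) (nat_lit 338) (nat_lit 377) (nat_lit 305)) (XT.nd (nat_lit 78) (nat_lit 152) (nat_lit 0) (XT.lf (nat_lit 152) (nat_lit 1227407949) (nat_lit 0) (nat_lit 3898952670) (nat_lit 76) (nat_lit 905328842) (nat_lit 119) (nat_lit 1) (nat_lit 117) (nat_lit 1) (nat_lit 118) (nat_lit 1) (nat_lit 339) (nat_lit 377) (nat_lit 304)) (XT.lf (nat_lit 76) (nat_lit 2455226982) (nat_lit 0) (nat_lit 1879780713) (nat_lit 152) (nat_lit 1596656155) (nat_lit 116) (nat_lit 1) (nat_lit 115) (nat_lit 1) (nat_lit 117) (nat_lit 1) (nat_lit 340) (nat_lit 377) (nat_lit 303)))) (XT.nd (nat_lit 156) (nat_lit 304) (nat_lit 0) (XT.nd (nat_lit 78) (nat_lit 152) (nat_lit 0) (XT.lf (nat_lit 152) (nat_lit 943360648) (nat_lit 0) (nat_lit 4772797191) (nat_lit 76) (nat_lit 117678086) (nat_lit 116) (nat_lit 1) (nat_lit 114) (nat_lit 1) (nat_lit 115) (nat_lit 1) (nat_lit 341) (nat_lit 377) (nat_lit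 302)) (XT.lf (nat_lit 76) (nat_lit 3106390971) (nat_lit 0) (nat_lit 2073378504) (nat_lit 152) (nat_lit 557447203) (nat_lit 113) (nat_lit 1) (nat_lit 112) (nat_lit 1) (nat_lit 114) (nat_lit 1) (nat_lit 342) (nat_lit 377) (nat_lit 301))) (XT.nd (nat_lit 78) (nat_lit 228) (nat_lit 0) (XT.lf (nat_lit 0) (nat_lit 592416406) (nat_lit 0) (nat_lit 4999633760) (nat_lit 152) (nat_lit 50768028) (nat_lit 111) (nat_lit 3) (nat_lit 111) (nat_lit 1) (nat_lit 113) (nat_lit 1) (nat_lit 343) (nat_lit 377) (nat_lit 300)) (XT.lf (nat_lit 152) (nat_lit 3267408738) (nat_lit 0) (nat_lit 435313700) (nat_lit 76) (nat_lit 1846786576) (nat_lit 110) (nat_lit 1) (nat_lit 108) (nat_lit 1) (nat_lit 109) (nat_lit 1) (nat_lit 344) (nat_lit 377) (nat_lit 299)))))) (XT.nd (nat_lit 546) (nat_lit 836) (nat_lit 0) (XT.nd (nat_lit 234) (nat_lit 532) (nat_lit 0) (XT.nd (nat_lit 78) (nat_lit 228) (nat_lit 0) (XT.lf (nat_lit 76) (nat_lit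 327473113) (nat_lit 0) (nat_lit 922236871) (nat_lit 76) (nat_lit 4208517830) (nat_lit 108) (nat_lit 3) (nat_lit 107) (nat_lit 1) (nat_lit 108) (nat_lit 1) (nat_lit 345) (nat_lit 377) (nat_lit 298)) (XT.nd (nat_lit 78) (nat_lit 76) (nat_lit 0) (XT.lf (nat_lit 152) (nat_lit 2865571520) (nat_lit 0) (nat_lit 1384158023) (nat_lit 76) (nat_lit 1118497684) (nat_lit 107) (nat_lit 1) (nat_lit 105) (nat_lit 1) (nat_lit 106) (nat_lit 1) (nat_lit 346) (nat_lit 377) (nat_lit 297)) (XT.lf (nat_lit 76) (nat_lit 10134498) (nat_lit 0) (nat_lit 1842121713) (nat_lit 76) (nat_lit 3427825727) (nat_lit 105) (nat_lit 3) (nat_lit 104) (nat_lit 1) (nat_lit 105) (nat_lit 1) (nat_lit 347) (nat_lit 377) (nat_lit 296)))) (XT.nd (nat_lit 156) (nat_lit 228) (nat_lit 0) (XT.nd (nat_lit 78) (nat_lit 152) (nat_lit 0) (XT.lf (nat_lit 152) (nat_lit 2467084121) (nat_lit 0) (nat_lit 2279195517) (nat_lit 76) (nat_lit 446981597) (nat_lit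 104) (nat_lit 1) (nat_lit 102) (nat_lit 1) (nat_lit 103) (nat_lit 1) (nat_lit 348) (nat_lit 377) (nat_lit 295)) (XT.lf (nat_lit 76) (nat_lit 2406730394) (nat_lit 0) (nat_lit 299365955) (nat_lit 152) (nat_lit 2401944094) (nat_lit 101) (nat_lit 1) (nat_lit 100) (nat_lit 1) (nat_lit 102) (nat_lit 1) (nat_lit 349) (nat_lit 377) (nat_lit 294))) (XT.nd (nat_lit 78) (nat_lit 152) (nat_lit 0) (XT.lf (nat_lit 0) (nat_lit 168608430) (nat_lit 0) (nat_lit 2951462783) (nat_lit 152) (nat_lit 1904232042) (nat_lit 99) (nat_lit 3) (nat_lit 99) (nat_lit 1) (nat_lit 101) (nat_lit 1) (nat_lit 350) (nat_lit 377) (nat_lit 293)) (XT.lf (nat_lit 76) (nat_lit 2914117117) (nat_lit 0) (nat_lit 604385049) (nat_lit 152) (nat_lit 1423435829) (nat_lit 98) (nat_lit 1) (nat_lit 97) (nat_lit 1) (nat_lit 99) (nat_lit 1) (nat_lit 351) (nat_lit 377) (nat_lit 292))))) (XT.nd (nat_lit 234) (nat_lit 532) (nat_lit 0) (XT.nd (nat_lit 78)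 (nat_lit 228) (nat_lit 0) (XT.lf (nat_lit 0) (nat_lit 727696437) (nat_lit 0) (nat_lit 3178308993) (nat_lit 152) (nat_lit 955038928) (nat_lit 96) (nat_lit 3) (nat_lit 96) (nat_lit 1) (nat_lit 98) (nat_lit 1) (nat_lit 352) (nat_lit 377) (nat_lit 291)) (XT.nd (nat_lit 78) (nat_lit 76) (nat_lit 0) (XT.lf (nat_lit 76) (nat_lit 3377827845) (nat_lit 0) (nat_lit 903110823) (nat_lit 152) (nat_lit 500601747) (nat_lit 95) (nat_lit 1) (nat_lit 94) (nat_lit 1) (nat_lit 96) (nat_lit 1) (nat_lit 353) (nat_lit 377) (nat_lit 290)) (XT.lf (nat_lit 0) (nat_lit 1242449940) (nat_lit 0) (nat_lit 3400486667) (nat_lit 152) (nat_lit 60445478) (nat_lit 93) (nat_lit 3) (nat_lit 93) (nat_lit 1) (nat_lit 95) (nat_lit 1) (nat_lit 354) (nat_lit 377) (nat_lit 289)))) (XT.nd (nat_lit 156) (nat_lit 228) (nat_lit 0) (XT.nd (nat_lit 78) (nat_lit 76) (nat_lit 0) (XT.lf (nat_lit 152) (nat_lit 3428997514) (nat_lit 0) (nat_lit 375687492)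 (nat_lit 76) (nat_lit 821830027) (nat_lit 92) (nat_lit 1) (nat_lit 90) (nat_lit 1) (nat_lit 91) (nat_lit 1) (nat_lit 355) (nat_lit 377) (nat_lit 288)) (XT.lf (nat_lit 76) (nat_lit 926789336) (nat_lit 0) (nat_lit 796897761) (nat_lit 76) (nat_lit 2827180527) (nat_lit 90) (nat_lit 3) (nat_lit 89) (nat_lit 1) (nat_lit 90) (nat_lit 1) (nat_lit 356) (nat_lit 377) (nat_lit 287))) (XT.nd (nat_lit 78) (nat_lit 76) (nat_lit 0) (XT.lf (nat_lit 152) (nat_lit 2989549248) (nat_lit 0) (nat_lit 1208868815) (nat_lit 76) (nat_lit 278207631) (nat_lit 89) (nat_lit 1) (nat_lit 87) (nat_lit 1) (nat_lit 88) (nat_lit 1) (nat_lit 357) (nat_lit 377) (nat_lit 286)) (XT.lf (nat_lit 76) (nat_lit 563275137) (nat_lit 0) (nat_lit 1603464438) (nat_lit 76) (nat_lit 2236780798) (nat_lit 87) (nat_lit 3) (nat_lit 86) (nat_lit 1) (nat_lit 87) (nat_lit 1) (nat_lit 358) (nat_lit 377) (nat_lit 285))))))))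
noncomputable def ec77 : XT := (XT.nd (nat_lit 2184) (nat_lit 760) (nat_lit 0) (XT.nd (nat_lit 1092) (nat_lit 1824) (nat_lit 0) (XT.nd (nat_lit 546) (nat_lit 836) (nat_lit 0) (XT.nd (nat_lit 234) (nat_lit 532) (nat_lit 0) (XT.nd (nat_lit 78) (nat_lit 228) (nat_lit 0) (XT.lf (nat_lit 0) (nat_lit 220630649) (nat_lit 0) (nat_lit 1768023771) (nat_lit 152) (nat_lit 2343098077) (nat_lit 84) (nat_lit 3) (nat_lit 84) (nat_lit 1) (nat_lit 86) (nat_lit 1) (nat_lit 359) (nat_lit 377) (nat_lit 284)) (XT.nd (nat_lit 78) (nat_lit 152) (nat_lit 0) (XT.lf (nat_lit 76) (nat_lit 213754312) (nat_lit 0) (nat_lit 2359944105) (nat_lit 76) (nat_lit 1687462047) (nat_lit 84) (nat_lit 3) (nat_lit 83) (nat_lit 1) (nat_lit 84) (nat_lit 1) (nat_lit 360) (nat_lit 377) (nat_lit 283)) (XT.lf (nat_lit 0) (nat_lit 677076826) (nat_lit 0) (nat_lit 2039728453) (nat_lit 152) (nat_lit 1474893500) (nat_lit 81) (nat_lit 3) (nat_lit 81)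 (nat_lit 1) (nat_lit 83) (nat_lit 1) (nat_lit 361) (nat_lit 377) (nat_lit 282)))) (XT.nd (nat_lit 156) (nat_lit 304) (nat_lit 0) (XT.nd (nat_lit 78) (nat_lit 76) (nat_lit 0) (XT.lf (nat_lit 76) (nat_lit 2948201420) (nat_lit 0) (nat_lit 118834788) (nat_lit 152) (nat_lit 1056528833) (nat_lit 80) (nat_lit 1) (nat_lit 79) (nat_lit 1) (nat_lit 81) (nat_lit 1) (nat_lit 362) (nat_lit 377) (nat_lit 281)) (XT.lf (nat_lit 0) (nat_lit 1098999099) (nat_lit 0) (nat_lit 2298965308) (nat_lit 152) (nat_lit 658396769) (nat_lit 78) (nat_lit 3) (nat_lit 78) (nat_lit 1) (nat_lit 80) (nat_lit 1) (nat_lit 363) (nat_lit 377) (nat_lit 280))) (XT.nd (nat_lit 78) (nat_lit 152) (nat_lit 0) (XT.lf (nat_lit 76) (nat_lit 3293276372) (nat_lit 0) (nat_lit 432590750) (nat_lit 152) (nat_lit 264665736) (nat_lit 77) (nat_lit 1) (nat_lit 76) (nat_lit 1) (nat_lit 78) (nat_lit 1) (nat_lit 364) (nat_lit 377) (nat_lit 279)) (XT.lf (nat_lit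 76) (nat_lit 1379112668) (nat_lit 0) (nat_lit 110603966) (nat_lit 76) (nat_lit 2435816284) (nat_lit 75) (nat_lit 3) (nat_lit 74) (nat_lit 1) (nat_lit 75) (nat_lit 1) (nat_lit 365) (nat_lit 377) (nat_lit 278))))) (XT.nd (nat_lit 234) (nat_lit 456) (nat_lit 0) (XT.nd (nat_lit 78) (nat_lit 228) (nat_lit 0) (XT.lf (nat_lit 152) (nat_lit 3125662919) (nat_lit 0) (nat_lit 488003182) (nat_lit 76) (nat_lit 248148334) (nat_lit 74) (nat_lit 1) (nat_lit 72) (nat_lit 1) (nat_lit 73) (nat_lit 1) (nat_lit 366) (nat_lit 377) (nat_lit 277)) (XT.nd (nat_lit 78) (nat_lit 152) (nat_lit 0) (XT.lf (nat_lit 76) (nat_lit 1012110922) (nat_lit 0) (nat_lit 844132681) (nat_lit 76) (nat_lit 1942655902) (nat_lit 72) (nat_lit 3) (nat_lit 71) (nat_lit 1) (nat_lit 72) (nat_lit 1) (nat_lit 367) (nat_lit 377) (nat_lit 276)) (XT.lf (nat_lit 0) (nat_lit 168098034) (nat_lit 0) (nat_lit 1028518728) (nat_lit 152) (nat_lit 2540657591)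 (nat_lit 69) (nat_lit 3) (nat_lit 69) (nat_lit 1) (nat_lit 71) (nat_lit 1) (nat_lit 368) (nat_lit 377) (nat_lit 275)))) (XT.nd (nat_lit 156) (nat_lit 228) (nat_lit 0) (XT.nd (nat_lit 78) (nat_lit 152) (nat_lit 0) (XT.lf (nat_lit 76) (nat_lit 662963910) (nat_lit 0) (nat_lit 1531118716) (nat_lit 76) (nat_lit 1482412189) (nat_lit 69) (nat_lit 3) (nat_lit 68) (nat_lit 1) (nat_lit 69) (nat_lit 1) (nat_lit 369) (nat_lit 377) (nat_lit 274)) (XT.lf (nat_lit 0) (nat_lit 549886866) (nat_lit 0) (nat_lit 1307582917) (nat_lit 152) (nat_lit 1759351372) (nat_lit 66) (nat_lit 3) (nat_lit 66) (nat_lit 1) (nat_lit 68) (nat_lit 1) (nat_lit 370) (nat_lit 377) (nat_lit 273))) (XT.nd (nat_lit 78) (nat_lit 152) (nat_lit 0) (XT.lf (nat_lit 76) (nat_lit 331498090) (nat_lit 0) (nat_lit 2173554711) (nat_lit 76) (nat_lit 1053113377) (nat_lit 66) (nat_lit 3) (nat_lit 65) (nat_lit 1) (nat_lit 66) (nat_lit 1) (nat_lit 371) (nat_lit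 377) (nat_lit 272)) (XT.lf (nat_lit 0) (nat_lit 903872088) (nat_lit 0) (nat_lit 1571107675) (nat_lit 152) (nat_lit 1025397046) (nat_lit 63) (nat_lit 3) (nat_lit 63) (nat_lit 1) (nat_lit 65) (nat_lit 1) (nat_lit 372) (nat_lit 377) (nat_lit 271)))))) (XT.nd (nat_lit 546) (nat_lit 912) (nat_lit 0) (XT.nd (nat_lit 234) (nat_lit 532) (nat_lit 0) (XT.nd (nat_lit 78) (nat_lit 304) (nat_lit 0) (XT.lf (nat_lit 76) (nat_lit 17458253) (nat_lit 0) (nat_lit 2773388597) (nat_lit 76) (nat_lit 652920716) (nat_lit 63) (nat_lit 3) (nat_lit 62) (nat_lit 1) (nat_lit 63) (nat_lit 1) (nat_lit 373) (nat_lit 377) (nat_lit 270)) (XT.nd (nat_lit 78) (nat_lit 152) (nat_lit 0) (XT.lf (nat_lit 0) (nat_lit 1231742904) (nat_lit 0) (nat_lit 1819317998) (nat_lit 152) (nat_lit 336737269) (nat_lit 60) (nat_lit 3) (nat_lit 60) (nat_lit 1) (nat_lit 62) (nat_lit 1) (nat_lit 374) (nat_lit 377) (nat_lit 269)) (XT.lf (nat_lit 76) (nat_lit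 3055728421) (nat_lit 0) (nat_lit 274024409) (nat_lit 152) (nat_lit 3325776) (nat_lit 59) (nat_lit 1) (nat_lit 58) (nat_lit 1) (nat_lit 60) (nat_lit 1) (nat_lit 375) (nat_lit 377) (nat_lit 268)))) (XT.nd (nat_lit 156) (nat_lit 228) (nat_lit 0) (XT.nd (nat_lit 78) (nat_lit 152) (nat_lit 0) (XT.lf (nat_lit 76) (nat_lit 1223330122) (nat_lit 0) (nat_lit 314771962) (nat_lit 76) (nat_lit 1740755298) (nat_lit 57) (nat_lit 3) (nat_lit 56) (nat_lit 1) (nat_lit 57) (nat_lit 1) (nat_lit 376) (nat_lit 377) (nat_lit 267)) (XT.lf (nat_lit 0) (nat_lit 77180446) (nat_lit 0) (nat_lit 555613340) (nat_lit 152) (nat_lit 2593046572) (nat_lit 54) (nat_lit 3) (nat_lit 54) (nat_lit 1) (nat_lit 56) (nat_lit 1) (nat_lit 377) (nat_lit 377) (nat_lit 266))) (XT.nd (nat_lit 78) (nat_lit 152) (nat_lit 0) (XT.lf (nat_lit 76) (nat_lit 893482787) (nat_lit 0) (nat_lit 930811008) (nat_lit 76) (nat_lit 1349133162) (nat_lit 54) (nat_lit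 3) (nat_lit 53) (nat_lit 1) (nat_lit 54) (nat_lit 1) (nat_lit 378) (nat_lit 377) (nat_lit 265)) (XT.lf (nat_lit 0) (nat_lit 401965432) (nat_lit 0) (nat_lit 823278771) (nat_lit 152) (nat_lit 1896828651) (nat_lit 51) (nat_lit 3) (nat_lit 51) (nat_lit 1) (nat_lit 53) (nat_lit 1) (nat_lit 379) (nat_lit 377) (nat_lit 264))))) (XT.nd (nat_lit 234) (nat_lit 608) (nat_lit 0) (XT.nd (nat_lit 78) (nat_lit 228) (nat_lit 0) (XT.lf (nat_lit 76) (nat_lit 581814152) (nat_lit 0) (nat_lit 1506600281) (nat_lit 76) (nat_lit 983064951) (nat_lit 51) (nat_lit 3) (nat_lit 50) (nat_lit 1) (nat_lit 51) (nat_lit 1) (nat_lit 380) (nat_lit 377) (nat_lit 263)) (XT.nd (nat_lit 78) (nat_lit 76) (nat_lit 0) (XT.lf (nat_lit 0) (nat_lit 703787119) (nat_lit 0) (nat_lit 1074800340) (nat_lit 152) (nat_lit 1243145352) (nat_lit 48) (nat_lit 3) (nat_lit 48) (nat_lit 1) (nat_lit 50) (nat_lit 1) (nat_lit 381) (nat_lit 377) (nat_lit 262))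 (XT.lf (nat_lit 76) (nat_lit 287773372) (nat_lit 0) (nat_lit 2044000539) (nat_lit 76) (nat_lit 641119297) (nat_lit 48) (nat_lit 3) (nat_lit 47) (nat_lit 1) (nat_lit 48) (nat_lit 1) (nat_lit 382) (nat_lit 377) (nat_lit 261)))) (XT.nd (nat_lit 156) (nat_lit 380) (nat_lit 0) (XT.nd (nat_lit 78) (nat_lit 76) (nat_lit 0) (XT.lf (nat_lit 0) (nat_lit 983962805) (nat_lit 0) (nat_lit 1310681183) (nat_lit 152) (nat_lit 630056957) (nat_lit 45) (nat_lit 3) (nat_lit 45) (nat_lit 1) (nat_lit 47) (nat_lit 1) (nat_lit 383) (nat_lit 377) (nat_lit 260)) (XT.lf (nat_lit 76) (nat_lit 10790388) (nat_lit 0) (nat_lit 2544810662) (nat_lit 76) (nat_lit 321950747) (nat_lit 45) (nat_lit 3) (nat_lit 44) (nat_lit 1) (nat_lit 45) (nat_lit 1) (nat_lit 384) (nat_lit 377) (nat_lit 259))) (XT.nd (nat_lit 78) (nat_lit 228) (nat_lit 0) (XT.lf (nat_lit 0) (nat_lit 1243730367) (nat_lit 0) (nat_lit 1531442211) (nat_lit 152) (nat_lit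 55690103) (nat_lit 42) (nat_lit 3) (nat_lit 42) (nat_lit 1) (nat_lit 44) (nat_lit 1) (nat_lit 385) (nat_lit 377) (nat_lit 258)) (XT.lf (nat_lit 152) (nat_lit 2538174006) (nat_lit 0) (nat_lit 227462639) (nat_lit 76) (nat_lit 19568848) (nat_lit 41) (nat_lit 1) (nat_lit 39) (nat_lit 1) (nat_lit 40) (nat_lit 1) (nat_lit 386) (nat_lit 377) (nat_lit 257))))))) (XT.nd (nat_lit 44070) (nat_lit 0) (nat_lit 20140) (XT.nd (nat_lit 43524) (nat_lit 0) (nat_lit 26220) (XT.nd (nat_lit 234) (nat_lit 456) (nat_lit 0) (XT.nd (nat_lit 78) (nat_lit 228) (nat_lit 0) (XT.lf (nat_lit 76) (nat_lit 997626693) (nat_lit 0) (nat_lit 491350565) (nat_lit 76) (nat_lit 1250988949) (nat_lit 39) (nat_lit 3) (nat_lit 38) (nat_lit 1) (nat_lit 39) (nat_lit 1) (nat_lit 387) (nat_lit 377) (nat_lit 256)) (XT.nd (nat_lit 78) (nat_lit 76) (nat_lit 0) (XT.lf (nat_lit 0) (nat_lit 260258801) (nat_lit 0) (nat_lit 494528108) (nat_lit 152) (nat_lit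 1940934963) (nat_lit 36) (nat_lit 3) (nat_lit 36) (nat_lit 1) (nat_lit 38) (nat_lit 1) (nat_lit 388) (nat_lit 377) (nat_lit 255)) (XT.lf (nat_lit 76) (nat_lit 712650196) (nat_lit 0) (nat_lit 1003627293) (nat_lit 76) (nat_lit 935763822) (nat_lit 36) (nat_lit 3) (nat_lit 35) (nat_lit 1) (nat_lit 36) (nat_lit 1) (nat_lit 389) (nat_lit 377) (nat_lit 254)))) (XT.nd (nat_lit 156) (nat_lit 228) (nat_lit 0) (XT.nd (nat_lit 78) (nat_lit 76) (nat_lit 0) (XT.lf (nat_lit 0) (nat_lit 520395189) (nat_lit 0) (nat_lit 726695352) (nat_lit 152) (nat_lit 1362083658) (nat_lit 33) (nat_lit 3) (nat_lit 33) (nat_lit 1) (nat_lit 35) (nat_lit 1) (nat_lit 390) (nat_lit 377) (nat_lit 253)) (XT.lf (nat_lit 76) (nat_lit 444391606) (nat_lit 0) (nat_lit 1481742474) (nat_lit 76) (nat_lit 640867952) (nat_lit 33) (nat_lit 3) (nat_lit 32) (nat_lit 1) (nat_lit 33) (nat_lit 1) (nat_lit 391) (nat_lit 377) (nat_lit 252))) (XT.nd (nat_lit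 78) (nat_lit 76) (nat_lit 0) (XT.lf (nat_lit 0) (nat_lit 762283323) (nat_lit 0) (nat_lit 943953546) (nat_lit 152) (nat_lit 819230606) (nat_lit 30) (nat_lit 3) (nat_lit 30) (nat_lit 1) (nat_lit 32) (nat_lit 1) (nat_lit 392) (nat_lit 377) (nat_lit 251)) (XT.lf (nat_lit 76) (nat_lit 192194281) (nat_lit 0) (nat_lit 1927342064) (nat_lit 76) (nat_lit 365213540) (nat_lit 30) (nat_lit 3) (nat_lit 29) (nat_lit 1) (nat_lit 30) (nat_lit 1) (nat_lit 393) (nat_lit 377) (nat_lit 250))))) (XT.nd (nat_lit 234) (nat_lit 0) (nat_lit 152) (XT.nd (nat_lit 78) (nat_lit 0) (nat_lit 76) (XT.lf (nat_lit 1292) (nat_lit 2381540887) (nat_lit 0) (nat_lit 8193608232) (nat_lit 1292) (nat_lit 2381540887) (nat_lit 391) (nat_lit 1) (nat_lit 374) (nat_lit 0) (nat_lit 391) (nat_lit 0) (nat_lit 264) (nat_lit 378) (nat_lit 378)) (XT.nd (nat_lit 78) (nat_lit 0) (nat_lit 0) (XT.lf (nat_lit 1292) (nat_lit 190932307) (nat_lit 0) (nat_lit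 16156072473) (nat_lit 1216) (nat_lit 8944619158) (nat_lit 392) (nat_lit 1) (nat_lit 375) (nat_lit 1) (nat_lit 391) (nat_lit 1) (nat_lit 265) (nat_lit 378) (nat_lit 377)) (XT.lf (nat_lit 1292) (nat_lit 8400200613) (nat_lit 76) (nat_lit 11881776381) (nat_lit 0) (nat_lit 4406915604) (nat_lit 392) (nat_lit 1) (nat_lit 376) (nat_lit 1) (nat_lit 375) (nat_lit 1) (nat_lit 266) (nat_lit 378) (nat_lit 376)))) (XT.nd (nat_lit 156) (nat_lit 0) (nat_lit 152) (XT.nd (nat_lit 78) (nat_lit 0) (nat_lit 76) (XT.lf (nat_lit 1292) (nat_lit 7384488638) (nat_lit 76) (nat_lit 7777472864) (nat_lit 0) (nat_lit 8943715486) (nat_lit 393) (nat_lit 1) (nat_lit 377) (nat_lit 1) (nat_lit 376) (nat_lit 1) (nat_lit 267) (nat_lit 378) (nat_lit 375)) (XT.lf (nat_lit 1292) (nat_lit 6111161584) (nat_lit 76) (nat_lit 4017470984) (nat_lit 0) (nat_lit 13412688875) (nat_lit 394) (nat_lit 1) (nat_lit 378) (nat_lit 1) (nat_lit 377) (nat_lit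 1) (nat_lit 268) (nat_lit 378) (nat_lit 374))) (XT.nd (nat_lit 78) (nat_lit 0) (nat_lit 76) (XT.lf (nat_lit 1292) (nat_lit 4599855909) (nat_lit 76) (nat_lit 584080859) (nat_lit 0) (nat_lit 17811205730) (nat_lit 395) (nat_lit 1) (nat_lit 379) (nat_lit 1) (nat_lit 378) (nat_lit 1) (nat_lit 269) (nat_lit 378) (nat_lit 373)) (XT.lf (nat_lit 1292) (nat_lit 353934382) (nat_lit 0) (nat_lit 19621807935) (nat_lit 1216) (nat_lit 2490009168) (nat_lit 396) (nat_lit 1) (nat_lit 379) (nat_lit 1) (nat_lit 395) (nat_lit 1) (nat_lit 270) (nat_lit 378) (nat_lit 372)))))) (XT.nd (nat_lit 546) (nat_lit 3344) (nat_lit 0) (XT.nd (nat_lit 234) (nat_lit 1900) (nat_lit 0) (XT.nd (nat_lit 78) (nat_lit 1216) (nat_lit 0) (XT.lf (nat_lit 1292) (nat_lit 838901482) (nat_lit 76) (nat_lit 16644149826) (nat_lit 0) (nat_lit 4468826669) (nat_lit 396) (nat_lit 1) (nat_lit 380) (nat_lit 1) (nat_lit 379) (nat_lit 1) (nat_lit 271) (nat_lit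 378) (nat_lit 371)) (XT.nd (nat_lit 78) (nat_lit 0) (nat_lit 76) (XT.lf (nat_lit 1368) (nat_lit 12260535649) (nat_lit 0) (nat_lit 1325235677) (nat_lit 1292) (nat_lit 7868130582) (nat_lit 381) (nat_lit 1) (nat_lit 363) (nat_lit 1) (nat_lit 380) (nat_lit 1) (nat_lit 272) (nat_lit 378) (nat_lit 370)) (XT.lf (nat_lit 1368) (nat_lit 7156408203) (nat_lit 0) (nat_lit 3636290588) (nat_lit 1292) (nat_lit 10178742921) (nat_lit 382) (nat_lit 1) (nat_lit 364) (nat_lit 1) (nat_lit 381) (nat_lit 1) (nat_lit 273) (nat_lit 378) (nat_lit 369)))) (XT.nd (nat_lit 156) (nat_lit 1216) (nat_lit 0) (XT.nd (nat_lit 78) (nat_lit 836) (nat_lit 0) (XT.lf (nat_lit 76) (nat_lit 2162704524) (nat_lit 0) (nat_lit 6096457003) (nat_lit 1292) (nat_lit 12245019433) (nat_lit 366) (nat_lit 1) (nat_lit 365) (nat_lit 1) (nat_lit 382) (nat_lit 1) (nat_lit 274) (nat_lit 378) (nat_lit 368)) (XT.lf (nat_lit 912) (nat_lit 11331714951) (nat_lit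 0) (nat_lit 5944259530) (nat_lit 836) (nat_lit 2774808379) (nat_lit 366) (nat_lit 1) (nat_lit 354) (nat_lit 1) (nat_lit 365) (nat_lit 1) (nat_lit 275) (nat_lit 378) (nat_lit 367))) (XT.nd (nat_lit 78) (nat_lit 608) (nat_lit 0) (XT.lf (nat_lit 684) (nat_lit 8125902333) (nat_lit 0) (nat_lit 3841932618) (nat_lit 608) (nat_lit 7643093200) (nat_lit 355) (nat_lit 1) (nat_lit 346) (nat_lit 1) (nat_lit 354) (nat_lit 1) (nat_lit 276) (nat_lit 378) (nat_lit 366)) (XT.lf (nat_lit 684) (nat_lit 4823423081) (nat_lit 0) (nat_lit 1961802176) (nat_lit 608) (nat_lit 12399531771) (nat_lit 347) (nat_lit 1) (nat_lit 338) (nat_lit 1) (nat_lit 346) (nat_lit 1) (nat_lit 277) (nat_lit 378) (nat_lit 365))))) (XT.nd (nat_lit 234) (nat_lit 2128) (nat_lit 0) (XT.nd (nat_lit 78) (nat_lit 684) (nat_lit 0) (XT.lf (nat_lit 608) (nat_lit 1434882247) (nat_lit 0) (nat_lit 292214820) (nat_lit 532) (nat_lit 17044695638) (nat_lit 339)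 (nat_lit 1) (nat_lit 331) (nat_lit 1) (nat_lit 338) (nat_lit 1) (nat_lit 278) (nat_lit 378) (nat_lit 364)) (XT.nd (nat_lit 78) (nat_lit 608) (nat_lit 0) (XT.lf (nat_lit 76) (nat_lit 15130224432) (nat_lit 0) (nat_lit 2033245461) (nat_lit 608) (nat_lit 1206228991) (nat_lit 331) (nat_lit 1) (nat_lit 330) (nat_lit 1) (nat_lit 338) (nat_lit 1) (nat_lit 279) (nat_lit 378) (nat_lit 363)) (XT.lf (nat_lit 76) (nat_lit 9879080136) (nat_lit 0) (nat_lit 5555739433) (nat_lit 684) (nat_lit 2544153285) (nat_lit 323) (nat_lit 1) (nat_lit 322) (nat_lit 1) (nat_lit 331) (nat_lit 1) (nat_lit 280) (nat_lit 378) (nat_lit 362)))) (XT.nd (nat_lit 156) (nat_lit 1064) (nat_lit 0) (XT.nd (nat_lit 78) (nat_lit 532) (nat_lit 0) (XT.lf (nat_lit 76) (nat_lit 4761762238) (nat_lit 0) (nat_lit 9132230431) (nat_lit 608) (nat_lit 3706208114) (nat_lit 316) (nat_lit 1) (nat_lit 315) (nat_lit 1) (nat_lit 323) (nat_lit 1) (nat_lit 281)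 (nat_lit 378) (nat_lit 361)) (XT.lf (nat_lit 608) (nat_lit 4475916388) (nat_lit 0) (nat_lit 12528935464) (nat_lit 532) (nat_lit 228056243) (nat_lit 316) (nat_lit 1) (nat_lit 308) (nat_lit 1) (nat_lit 315) (nat_lit 1) (nat_lit 282) (nat_lit 378) (nat_lit 360))) (XT.nd (nat_lit 78) (nat_lit 608) (nat_lit 0) (XT.lf (nat_lit 532) (nat_lit 409571786) (nat_lit 0) (nat_lit 11285787541) (nat_lit 456) (nat_lit 5180045573) (nat_lit 309) (nat_lit 1) (nat_lit 302) (nat_lit 1) (nat_lit 308) (nat_lit 1) (nat_lit 283) (nat_lit 378) (nat_lit 359)) (XT.lf (nat_lit 76) (nat_lit 6562581417) (nat_lit 0) (nat_lit 3604713386) (nat_lit 608) (nat_lit 6360357540) (nat_lit 295) (nat_lit 1) (nat_lit 294) (nat_lit 1) (nat_lit 302) (nat_lit 1) (nat_lit 284) (nat_lit 378) (nat_lit 358))))))))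
noncomputable def ec78 : XT := (XT.nd (nat_lit 2184) (nat_lit 4712) (nat_lit 0) (XT.nd (nat_lit 1092) (nat_lit 3648) (nat_lit 0) (XT.nd (nat_lit 546) (nat_lit 2432) (nat_lit 0) (XT.nd (nat_lit 234) (nat_lit 1672) (nat_lit 0) (XT.nd (nat_lit 78) (nat_lit 912) (nat_lit 0) (XT.lf (nat_lit 76) (nat_lit 1572797922) (nat_lit 0) (nat_lit 7624341282) (nat_lit 532) (nat_lit 6993084417) (nat_lit 289) (nat_lit 1) (nat_lit 288) (nat_lit 1) (nat_lit 295) (nat_lit 1) (nat_lit 285) (nat_lit 378) (nat_lit 357)) (XT.nd (nat_lit 78) (nat_lit 456) (nat_lit 0) (XT.lf (nat_lit 532) (nat_lit 4178008374) (nat_lit 0) (nat_lit 8338168033) (nat_lit 456) (nat_lit 3345745859) (nat_lit 289) (nat_lit 1) (nat_lit 282) (nat_lit 1) (nat_lit 288) (nat_lit 1) (nat_lit 286) (nat_lit 378) (nat_lit 356)) (XT.lf (nat_lit 76) (nat_lit 7386095502) (nat_lit 0) (nat_lit 213019666) (nat_lit 456) (nat_lit 7943775325) (nat_lit 277) (nat_lit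 1) (nat_lit 276) (nat_lit 1) (nat_lit 282) (nat_lit 1) (nat_lit 287) (nat_lit 378) (nat_lit 355)))) (XT.nd (nat_lit 156) (nat_lit 836) (nat_lit 0) (XT.nd (nat_lit 78) (nat_lit 380) (nat_lit 0) (XT.lf (nat_lit 76) (nat_lit 2439554504) (nat_lit 0) (nat_lit 4509836440) (nat_lit 532) (nat_lit 8282736361) (nat_lit 271) (nat_lit 1) (nat_lit 270) (nat_lit 1) (nat_lit 277) (nat_lit 1) (nat_lit 288) (nat_lit 378) (nat_lit 354)) (XT.lf (nat_lit 456) (nat_lit 6116690768) (nat_lit 0) (nat_lit 6399457606) (nat_lit 380) (nat_lit 2413681115) (nat_lit 271) (nat_lit 1) (nat_lit 265) (nat_lit 1) (nat_lit 270) (nat_lit 1) (nat_lit 289) (nat_lit 378) (nat_lit 353))) (XT.nd (nat_lit 78) (nat_lit 456) (nat_lit 0) (XT.lf (nat_lit 456) (nat_lit 1517145289) (nat_lit 0) (nat_lit 5943279278) (nat_lit 380) (nat_lit 7175290793) (nat_lit 266) (nat_lit 1) (nat_lit 260) (nat_lit 1) (nat_lit 265) (nat_lit 1) (nat_lit 290) (nat_lit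 378) (nat_lit 352)) (XT.lf (nat_lit 76) (nat_lit 2579787507) (nat_lit 0) (nat_lit 2989107745) (nat_lit 456) (nat_lit 8780437430) (nat_lit 255) (nat_lit 1) (nat_lit 254) (nat_lit 1) (nat_lit 260) (nat_lit 1) (nat_lit 291) (nat_lit 378) (nat_lit 351))))) (XT.nd (nat_lit 234) (nat_lit 1292) (nat_lit 0) (XT.nd (nat_lit 78) (nat_lit 760) (nat_lit 0) (XT.lf (nat_lit 456) (nat_lit 6619385168) (nat_lit 0) (nat_lit 5264060841) (nat_lit 380) (nat_lit 2186776919) (nat_lit 255) (nat_lit 1) (nat_lit 249) (nat_lit 1) (nat_lit 254) (nat_lit 1) (nat_lit 292) (nat_lit 378) (nat_lit 350)) (XT.nd (nat_lit 78) (nat_lit 456) (nat_lit 0) (XT.lf (nat_lit 380) (nat_lit 1900459611) (nat_lit 0) (nat_lit 5034986117) (nat_lit 304) (nat_lit 6863021295) (nat_lit 250) (nat_lit 1) (nat_lit 245) (nat_lit 1) (nat_lit 249) (nat_lit 1) (nat_lit 293) (nat_lit 378) (nat_lit 349)) (XT.lf (nat_lit 76) (nat_lit 2160282126) (nat_lit 0)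 (nat_lit 2714446994) (nat_lit 456) (nat_lit 8659035616) (nat_lit 240) (nat_lit 1) (nat_lit 239) (nat_lit 1) (nat_lit 245) (nat_lit 1) (nat_lit 294) (nat_lit 378) (nat_lit 348)))) (XT.nd (nat_lit 156) (nat_lit 684) (nat_lit 0) (XT.nd (nat_lit 78) (nat_lit 304) (nat_lit 0) (XT.lf (nat_lit 380) (nat_lit 6009887378) (nat_lit 0) (nat_lit 4762283854) (nat_lit 304) (nat_lit 2503236831) (nat_lit 240) (nat_lit 1) (nat_lit 235) (nat_lit 1) (nat_lit 239) (nat_lit 1) (nat_lit 295) (nat_lit 378) (nat_lit 347)) (XT.lf (nat_lit 380) (nat_lit 1239829135) (nat_lit 0) (nat_lit 4715767623) (nat_lit 304) (nat_lit 7068233591) (nat_lit 236) (nat_lit 1) (nat_lit 231) (nat_lit 1) (nat_lit 235) (nat_lit 1) (nat_lit 296) (nat_lit 378) (nat_lit 346))) (XT.nd (nat_lit 78) (nat_lit 304) (nat_lit 0) (XT.lf (nat_lit 76) (nat_lit 1317569533) (nat_lit 0) (nat_lit 3400215328) (nat_lit 380) (nat_lit 8060647521) (nat_lit 227) (nat_lit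 1) (nat_lit 226) (nat_lit 1) (nat_lit 231) (nat_lit 1) (nat_lit 297) (nat_lit 378) (nat_lit 345)) (XT.lf (nat_lit 380) (nat_lit 4553701357) (nat_lit 0) (nat_lit 4754382083) (nat_lit 304) (nat_lit 3230633525) (nat_lit 227) (nat_lit 1) (nat_lit 222) (nat_lit 1) (nat_lit 226) (nat_lit 1) (nat_lit 298) (nat_lit 378) (nat_lit 344)))))) (XT.nd (nat_lit 546) (nat_lit 1672) (nat_lit 0) (XT.nd (nat_lit 234) (nat_lit 1140) (nat_lit 0) (XT.nd (nat_lit 78) (nat_lit 532) (nat_lit 0) (XT.lf (nat_lit 76) (nat_lit 4642478039) (nat_lit 0) (nat_lit 208881320) (nat_lit 304) (nat_lit 7453987142) (nat_lit 219) (nat_lit 1) (nat_lit 218) (nat_lit 1) (nat_lit 222) (nat_lit 1) (nat_lit 299) (nat_lit 378) (nat_lit 343)) (XT.nd (nat_lit 78) (nat_lit 228) (nat_lit 0) (XT.lf (nat_lit 76) (nat_lit 163016485) (nat_lit 0) (nat_lit 4812466553) (nat_lit 380) (nat_lit 7101782626) (nat_lit 215) (nat_lit 1) (nat_lit 214) (nat_lit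 1) (nat_lit 219) (nat_lit 1) (nat_lit 300) (nat_lit 378) (nat_lit 342)) (XT.lf (nat_lit 304) (nat_lit 2467810855) (nat_lit 0) (nat_lit 5125577375) (nat_lit 228) (nat_lit 4260966281) (nat_lit 215) (nat_lit 1) (nat_lit 211) (nat_lit 1) (nat_lit 214) (nat_lit 1) (nat_lit 301) (nat_lit 378) (nat_lit 341)))) (XT.nd (nat_lit 156) (nat_lit 532) (nat_lit 0) (XT.nd (nat_lit 78) (nat_lit 228) (nat_lit 0) (XT.lf (nat_lit 76) (nat_lit 3108737329) (nat_lit 0) (nat_lit 2208615791) (nat_lit 380) (nat_lit 6319633457) (nat_lit 207) (nat_lit 1) (nat_lit 206) (nat_lit 1) (nat_lit 211) (nat_lit 1) (nat_lit 302) (nat_lit 378) (nat_lit 340)) (XT.lf (nat_lit 304) (nat_lit 4652464633) (nat_lit 0) (nat_lit 5535098953) (nat_lit 228) (nat_lit 1237058203) (nat_lit 207) (nat_lit 1) (nat_lit 203) (nat_lit 1) (nat_lit 206) (nat_lit 1) (nat_lit 303) (nat_lit 378) (nat_lit 339))) (XT.nd (nat_lit 78) (nat_lit 228) (nat_lit 0) (XT.lf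 (nat_lit 76) (nat_lit 5711424466) (nat_lit 0) (nat_lit 69758591) (nat_lit 304) (nat_lit 5436065177) (nat_lit 200) (nat_lit 1) (nat_lit 199) (nat_lit 1) (nat_lit 203) (nat_lit 1) (nat_lit 304) (nat_lit 378) (nat_lit 338)) (XT.lf (nat_lit 76) (nat_lit 1419384522) (nat_lit 0) (nat_lit 4619615177) (nat_lit 304) (nat_lit 4975303200) (nat_lit 197) (nat_lit 1) (nat_lit 196) (nat_lit 1) (nat_lit 200) (nat_lit 1) (nat_lit 305) (nat_lit 378) (nat_lit 337))))) (XT.nd (nat_lit 234) (nat_lit 912) (nat_lit 0) (XT.nd (nat_lit 78) (nat_lit 532) (nat_lit 0) (XT.lf (nat_lit 304) (nat_lit 1700884722) (nat_lit 0) (nat_lit 6323660278) (nat_lit 228) (nat_lit 2791603085) (nat_lit 197) (nat_lit 1) (nat_lit 193) (nat_lit 1) (nat_lit 196) (nat_lit 1) (nat_lit 306) (nat_lit 378) (nat_lit 336)) (XT.nd (nat_lit 78) (nat_lit 228) (nat_lit 0) (XT.lf (nat_lit 76) (nat_lit 3754659131) (nat_lit 0) (nat_lit 2863065963) (nat_lit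 304) (nat_lit 4004474389) (nat_lit 190) (nat_lit 1) (nat_lit 189) (nat_lit 1) (nat_lit 193) (nat_lit 1) (nat_lit 307) (nat_lit 378) (nat_lit 335)) (XT.lf (nat_lit 304) (nat_lit 3120257434) (nat_lit 0) (nat_lit 6941718318) (nat_lit 228) (nat_lit 371004233) (nat_lit 190) (nat_lit 1) (nat_lit 186) (nat_lit 1) (nat_lit 189) (nat_lit 1) (nat_lit 308) (nat_lit 378) (nat_lit 334)))) (XT.nd (nat_lit 156) (nat_lit 456) (nat_lit 0) (XT.nd (nat_lit 78) (nat_lit 228) (nat_lit 0) (XT.lf (nat_lit 76) (nat_lit 5824480654) (nat_lit 0) (nat_lit 1437632855) (nat_lit 228) (nat_lit 2985326107) (nat_lit 184) (nat_lit 1) (nat_lit 183) (nat_lit 1) (nat_lit 186) (nat_lit 1) (nat_lit 309) (nat_lit 378) (nat_lit 333)) (XT.lf (nat_lit 76) (nat_lit 1751299381) (nat_lit 0) (nat_lit 5847191025) (nat_lit 304) (nat_lit 2467586181) (nat_lit 181) (nat_lit 1) (nat_lit 180) (nat_lit 1) (nat_lit 184) (nat_lit 1) (nat_lit 310) (nat_lit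 378) (nat_lit 332))) (XT.nd (nat_lit 78) (nat_lit 228) (nat_lit 0) (XT.lf (nat_lit 76) (nat_lit 7656895781) (nat_lit 0) (nat_lit 296991713) (nat_lit 228) (nat_lit 1935021201) (nat_lit 178) (nat_lit 1) (nat_lit 177) (nat_lit 1) (nat_lit 180) (nat_lit 1) (nat_lit 311) (nat_lit 378) (nat_lit 331)) (XT.lf (nat_lit 76) (nat_lit 3634977069) (nat_lit 0) (nat_lit 4658400865) (nat_lit 304) (nat_lit 1421471365) (nat_lit 175) (nat_lit 1) (nat_lit 174) (nat_lit 1) (nat_lit 178) (nat_lit 1) (nat_lit 312) (nat_lit 378) (nat_lit 330))))))) (XT.nd (nat_lit 1092) (nat_lit 2128) (nat_lit 0) (XT.nd (nat_lit 546) (nat_lit 1140) (nat_lit 0) (XT.nd (nat_lit 234) (nat_lit 760) (nat_lit 0) (XT.nd (nat_lit 78) (nat_lit 532) (nat_lit 0) (XT.lf (nat_lit 228) (nat_lit 611258146) (nat_lit 0) (nat_lit 8671449436) (nat_lit 152) (nat_lit 262709801) (nat_lit 175) (nat_lit 1) (nat_lit 172) (nat_lit 1) (nat_lit 174) (nat_lit 1)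 (nat_lit 313) (nat_lit 378) (nat_lit 329)) (XT.nd (nat_lit 78) (nat_lit 304) (nat_lit 0) (XT.lf (nat_lit 76) (nat_lit 5311204031) (nat_lit 0) (nat_lit 3704224925) (nat_lit 228) (nat_lit 363000564) (nat_lit 170) (nat_lit 1) (nat_lit 169) (nat_lit 1) (nat_lit 172) (nat_lit 1) (nat_lit 314) (nat_lit 378) (nat_lit 328)) (XT.lf (nat_lit 228) (nat_lit 1295615640) (nat_lit 0) (nat_lit 179663410) (nat_lit 152) (nat_lit 7740429221) (nat_lit 168) (nat_lit 1) (nat_lit 165) (nat_lit 1) (nat_lit 167) (nat_lit 1) (nat_lit 315) (nat_lit 378) (nat_lit 327)))) (XT.nd (nat_lit 156) (nat_lit 380) (nat_lit 0) (XT.nd (nat_lit 78) (nat_lit 152) (nat_lit 0) (XT.lf (nat_lit 228) (nat_lit 6097901127) (nat_lit 0) (nat_lit 710207467) (nat_lit 152) (nat_lit 2247614791) (nat_lit 165) (nat_lit 1) (nat_lit 162) (nat_lit 1) (nat_lit 164) (nat_lit 1) (nat_lit 316) (nat_lit 378) (nat_lit 326)) (XT.lf (nat_lit 228) (nat_lit 1788727112)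 (nat_lit 0) (nat_lit 1245729852) (nat_lit 152) (nat_lit 5864768203) (nat_lit 163) (nat_lit 1) (nat_lit 160) (nat_lit 1) (nat_lit 162) (nat_lit 1) (nat_lit 317) (nat_lit 378) (nat_lit 325))) (XT.nd (nat_lit 78) (nat_lit 152) (nat_lit 0) (XT.lf (nat_lit 228) (nat_lit 6359552220) (nat_lit 0) (nat_lit 1781755810) (nat_lit 152) (nat_lit 604711604) (nat_lit 160) (nat_lit 1) (nat_lit 157) (nat_lit 1) (nat_lit 159) (nat_lit 1) (nat_lit 318) (nat_lit 378) (nat_lit 324)) (XT.lf (nat_lit 228) (nat_lit 2129296269) (nat_lit 0) (nat_lit 2300270952) (nat_lit 152) (nat_lit 4165952438) (nat_lit 158) (nat_lit 1) (nat_lit 155) (nat_lit 1) (nat_lit 157) (nat_lit 1) (nat_lit 319) (nat_lit 378) (nat_lit 323))))) (XT.nd (nat_lit 234) (nat_lit 608) (nat_lit 0) (XT.nd (nat_lit 78) (nat_lit 304) (nat_lit 0) (XT.lf (nat_lit 76) (nat_lit 858307156) (nat_lit 0) (nat_lit 1969337286) (nat_lit 228) (nat_lit 5620787582) (nat_lit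 153) (nat_lit 1) (nat_lit 152) (nat_lit 1) (nat_lit 155) (nat_lit 1) (nat_lit 320) (nat_lit 378) (nat_lit 322)) (XT.nd (nat_lit 78) (nat_lit 152) (nat_lit 0) (XT.lf (nat_lit 228) (nat_lit 2341085704) (nat_lit 0) (nat_lit 3335728563) (nat_lit 152) (nat_lit 2627062543) (nat_lit 153) (nat_lit 1) (nat_lit 150) (nat_lit 1) (nat_lit 152) (nat_lit 1) (nat_lit 321) (nat_lit 378) (nat_lit 321)) (XT.lf (nat_lit 76) (nat_lit 2165290896) (nat_lit 0) (nat_lit 1680059632) (nat_lit 152) (nat_lit 4317051170) (nat_lit 149) (nat_lit 1) (nat_lit 148) (nat_lit 1) (nat_lit 150) (nat_lit 1) (nat_lit 322) (nat_lit 378) (nat_lit 320)))) (XT.nd (nat_lit 156) (nat_lit 304) (nat_lit 0) (XT.nd (nat_lit 78) (nat_lit 152) (nat_lit 0) (XT.lf (nat_lit 228) (nat_lit 2444752854) (nat_lit 0) (nat_lit 4345917009) (nat_lit 152) (nat_lit 1232970467) (nat_lit 149) (nat_lit 1) (nat_lit 146) (nat_lit 1) (nat_lit 148) (nat_lit 1) (nat_lit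 323) (nat_lit 378) (nat_lit 319)) (XT.lf (nat_lit 76) (nat_lit 3341802128) (nat_lit 0) (nat_lit 1493514907) (nat_lit 152) (nat_lit 3052157470) (nat_lit 145) (nat_lit 1) (nat_lit 144) (nat_lit 1) (nat_lit 146) (nat_lit 1) (nat_lit 324) (nat_lit 378) (nat_lit 318))) (XT.nd (nat_lit 78) (nat_lit 152) (nat_lit 0) (XT.lf (nat_lit 76) (nat_lit 29280946) (nat_lit 0) (nat_lit 5296260990) (nat_lit 228) (nat_lit 2428655915) (nat_lit 143) (nat_lit 1) (nat_lit 142) (nat_lit 1) (nat_lit 145) (nat_lit 1) (nat_lit 325) (nat_lit 378) (nat_lit 317)) (XT.lf (nat_lit 76) (nat_lit 4400159458) (nat_lit 0) (nat_lit 1392937947) (nat_lit 152) (nat_lit 1829974091) (nat_lit 141) (nat_lit 1) (nat_lit 140) (nat_lit 1) (nat_lit 142) (nat_lit 1) (nat_lit 326) (nat_lit 378) (nat_lit 316)))))) (XT.nd (nat_lit 546) (nat_lit 988) (nat_lit 0) (XT.nd (nat_lit 234) (nat_lit 684) (nat_lit 0) (XT.nd (nat_lit 78) (nat_lit 304) (nat_lit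 0) (XT.lf (nat_lit 76) (nat_lit 1150670494) (nat_lit 0) (nat_lit 5109226307) (nat_lit 228) (nat_lit 1234783356) (nat_lit 139) (nat_lit 1) (nat_lit 138) (nat_lit 1) (nat_lit 141) (nat_lit 1) (nat_lit 327) (nat_lit 378) (nat_lit 315)) (XT.nd (nat_lit 78) (nat_lit 152) (nat_lit 0) (XT.lf (nat_lit 76) (nat_lit 5351400541) (nat_lit 0) (nat_lit 1363791079) (nat_lit 152) (nat_lit 653466635) (nat_lit 137) (nat_lit 1) (nat_lit 136) (nat_lit 1) (nat_lit 138) (nat_lit 1) (nat_lit 328) (nat_lit 378) (nat_lit 314)) (XT.lf (nat_lit 76) (nat_lit 2165926363) (nat_lit 0) (nat_lit 4992063550) (nat_lit 228) (nat_lit 86935472) (nat_lit 135) (nat_lit 1) (nat_lit 134) (nat_lit 1) (nat_lit 137) (nat_lit 1) (nat_lit 329) (nat_lit 378) (nat_lit 313)))) (XT.nd (nat_lit 156) (nat_lit 304) (nat_lit 0) (XT.nd (nat_lit 78) (nat_lit 76) (nat_lit 0) (XT.lf (nat_lit 228) (nat_lit 5725454056) (nat_lit 0) (nat_lit 484630412) (nat_lit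 152) (nat_lit 913516175) (nat_lit 133) (nat_lit 1) (nat_lit 130) (nat_lit 1) (nat_lit 132) (nat_lit 1) (nat_lit 330) (nat_lit 378) (nat_lit 312)) (XT.lf (nat_lit 152) (nat_lit 2061463023) (nat_lit 0) (nat_lit 1033096030) (nat_lit 76) (nat_lit 3909597551) (nat_lit 131) (nat_lit 1) (nat_lit 129) (nat_lit 1) (nat_lit 130) (nat_lit 1) (nat_lit 331) (nat_lit 378) (nat_lit 311))) (XT.nd (nat_lit 78) (nat_lit 76) (nat_lit 0) (XT.lf (nat_lit 76) (nat_lit 97031850) (nat_lit 0) (nat_lit 1487341869) (nat_lit 228) (nat_lit 5303000156) (nat_lit 127) (nat_lit 1) (nat_lit 126) (nat_lit 1) (nat_lit 129) (nat_lit 1) (nat_lit 332) (nat_lit 378) (nat_lit 310)) (XT.lf (nat_lit 152) (nat_lit 1831044718) (nat_lit 0) (nat_lit 2104574279) (nat_lit 76) (nat_lit 2836597264) (nat_lit 127) (nat_lit 1) (nat_lit 125) (nat_lit 1) (nat_lit 126) (nat_lit 1) (nat_lit 333) (nat_lit 378) (nat_lit 309))))) (XT.nd (nat_lit 234) (nat_lit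 456) (nat_lit 0) (XT.nd (nat_lit 78) (nat_lit 304) (nat_lit 0) (XT.lf (nat_lit 76) (nat_lit 1002047038) (nat_lit 0) (nat_lit 1622548841) (nat_lit 228) (nat_lit 4034939632) (nat_lit 123) (nat_lit 1) (nat_lit 122) (nat_lit 1) (nat_lit 125) (nat_lit 1) (nat_lit 334) (nat_lit 378) (nat_lit 308)) (XT.nd (nat_lit 78) (nat_lit 228) (nat_lit 0) (XT.lf (nat_lit 152) (nat_lit 1571038967) (nat_lit 0) (nat_lit 3124958966) (nat_lit 76) (nat_lit 1852719051) (nat_lit 123) (nat_lit 1) (nat_lit 121) (nat_lit 1) (nat_lit 122) (nat_lit 1) (nat_lit 335) (nat_lit 378) (nat_lit 307)) (XT.lf (nat_lit 76) (nat_lit 1826792996) (nat_lit 0) (nat_lit 1786980116) (nat_lit 228) (nat_lit 2826177391) (nat_lit 119) (nat_lit 1) (nat_lit 118) (nat_lit 1) (nat_lit 121) (nat_lit 1) (nat_lit 336) (nat_lit 378) (nat_lit 306)))) (XT.nd (nat_lit 156) (nat_lit 228) (nat_lit 0) (XT.nd (nat_lit 78) (nat_lit 152) (nat_lit 0) (XT.lf (nat_lit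 152) (nat_lit 1288778347) (nat_lit 0) (nat_lit 4093900303) (nat_lit 76) (nat_lit 950595284) (nat_lit 119) (nat_lit 1) (nat_lit 117) (nat_lit 1) (nat_lit 118) (nat_lit 1) (nat_lit 337) (nat_lit 378) (nat_lit 305)) (XT.lf (nat_lit 76) (nat_lit 2577988331) (nat_lit 0) (nat_lit 1973769749) (nat_lit 152) (nat_lit 1676488963) (nat_lit 116) (nat_lit 1) (nat_lit 115) (nat_lit 1) (nat_lit 117) (nat_lit 1) (nat_lit 338) (nat_lit 378) (nat_lit 304))) (XT.nd (nat_lit 78) (nat_lit 152) (nat_lit 0) (XT.lf (nat_lit 152) (nat_lit 990528680) (nat_lit 0) (nat_lit 5011437050) (nat_lit 76) (nat_lit 123561990) (nat_lit 116) (nat_lit 1) (nat_lit 114) (nat_lit 1) (nat_lit 115) (nat_lit 1) (nat_lit 339) (nat_lit 378) (nat_lit 303)) (XT.lf (nat_lit 76) (nat_lit 3261710519) (nat_lit 0) (nat_lit 2177047430) (nat_lit 152) (nat_lit 585319563) (nat_lit 113) (nat_lit 1) (nat_lit 112) (nat_lit 1) (nat_lit 114) (nat_lit 1) (nat_lit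 340) (nat_lit 378) (nat_lit 302))))))))
noncomputable def ec79 : XT := (XT.nd (nat_lit 2184) (nat_lit 2964) (nat_lit 0) (XT.nd (nat_lit 1092) (nat_lit 1748) (nat_lit 0) (XT.nd (nat_lit 546) (nat_lit 836) (nat_lit 0) (XT.nd (nat_lit 234) (nat_lit 532) (nat_lit 0) (XT.nd (nat_lit 78) (nat_lit 304) (nat_lit 0) (XT.lf (nat_lit 0) (nat_lit 622037226) (nat_lit 0) (nat_lit 5249615448) (nat_lit 152) (nat_lit 53306429) (nat_lit 111) (nat_lit 3) (nat_lit 111) (nat_lit 1) (nat_lit 113) (nat_lit 1) (nat_lit 341) (nat_lit 378) (nat_lit 301)) (XT.nd (nat_lit 78) (nat_lit 76) (nat_lit 0) (XT.lf (nat_lit 152) (nat_lit 3430779174) (nat_lit 0) (nat_lit 457079385) (nat_lit 76) (nat_lit 1939125904) (nat_lit 110) (nat_lit 1) (nat_lit 108) (nat_lit 1) (nat_lit 109) (nat_lit 1) (nat_lit 342) (nat_lit 378) (nat_lit 300)) (XT.lf (nat_lit 76) (nat_lit 343846768) (nat_lit 0) (nat_lit 968348715) (nat_lit 76) (nat_lit 4418943721)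 (nat_lit 108) (nat_lit 3) (nat_lit 107) (nat_lit 1) (nat_lit 108) (nat_lit 1) (nat_lit 343) (nat_lit 378) (nat_lit 299)))) (XT.nd (nat_lit 156) (nat_lit 304) (nat_lit 0) (XT.nd (nat_lit 78) (nat_lit 76) (nat_lit 0) (XT.lf (nat_lit 152) (nat_lit 3008850096) (nat_lit 0) (nat_lit 1453365924) (nat_lit 76) (nat_lit 1174422568) (nat_lit 107) (nat_lit 1) (nat_lit 105) (nat_lit 1) (nat_lit 106) (nat_lit 1) (nat_lit 344) (nat_lit 378) (nat_lit 298)) (XT.lf (nat_lit 76) (nat_lit 10641223) (nat_lit 0) (nat_lit 1934227798) (nat_lit 76) (nat_lit 3599217013) (nat_lit 105) (nat_lit 3) (nat_lit 104) (nat_lit 1) (nat_lit 105) (nat_lit 1) (nat_lit 345) (nat_lit 378) (nat_lit 297))) (XT.nd (nat_lit 78) (nat_lit 152) (nat_lit 0) (XT.lf (nat_lit 152) (nat_lit 2590438327) (nat_lit 0) (nat_lit 2393155293) (nat_lit 76) (nat_lit 469330677) (nat_lit 104) (nat_lit 1) (nat_lit 102) (nat_lit 1) (nat_lit 103) (nat_lit 1) (nat_lit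 346) (nat_lit 378) (nat_lit 296)) (XT.lf (nat_lit 76) (nat_lit 2527066913) (nat_lit 0) (nat_lit 314334252) (nat_lit 152) (nat_lit 2522041298) (nat_lit 101) (nat_lit 1) (nat_lit 100) (nat_lit 1) (nat_lit 102) (nat_lit 1) (nat_lit 347) (nat_lit 378) (nat_lit 295))))) (XT.nd (nat_lit 234) (nat_lit 532) (nat_lit 0) (XT.nd (nat_lit 78) (nat_lit 228) (nat_lit 0) (XT.lf (nat_lit 0) (nat_lit 177038851) (nat_lit 0) (nat_lit 3099035922) (nat_lit 152) (nat_lit 1999443644) (nat_lit 99) (nat_lit 3) (nat_lit 99) (nat_lit 1) (nat_lit 101) (nat_lit 1) (nat_lit 348) (nat_lit 378) (nat_lit 294)) (XT.nd (nat_lit 78) (nat_lit 76) (nat_lit 0) (XT.lf (nat_lit 76) (nat_lit 3059822973) (nat_lit 0) (nat_lit 634604301) (nat_lit 152) (nat_lit 1494607621) (nat_lit 98) (nat_lit 1) (nat_lit 97) (nat_lit 1) (nat_lit 99) (nat_lit 1) (nat_lit 349) (nat_lit 378) (nat_lit 293)) (XT.lf (nat_lit 0) (nat_lit 764081259) (nat_lit 0)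 (nat_lit 3337224443) (nat_lit 152) (nat_lit 1002790874) (nat_lit 96) (nat_lit 3) (nat_lit 96) (nat_lit 1) (nat_lit 98) (nat_lit 1) (nat_lit 350) (nat_lit 378) (nat_lit 292)))) (XT.nd (nat_lit 156) (nat_lit 304) (nat_lit 0) (XT.nd (nat_lit 78) (nat_lit 76) (nat_lit 0) (XT.lf (nat_lit 76) (nat_lit 3546719237) (nat_lit 0) (nat_lit 948266365) (nat_lit 152) (nat_lit 525631834) (nat_lit 95) (nat_lit 1) (nat_lit 94) (nat_lit 1) (nat_lit 96) (nat_lit 1) (nat_lit 351) (nat_lit 378) (nat_lit 291)) (XT.lf (nat_lit 0) (nat_lit 1304572437) (nat_lit 0) (nat_lit 3570511000) (nat_lit 152) (nat_lit 63467752) (nat_lit 93) (nat_lit 3) (nat_lit 93) (nat_lit 1) (nat_lit 95) (nat_lit 1) (nat_lit 352) (nat_lit 378) (nat_lit 290))) (XT.nd (nat_lit 78) (nat_lit 76) (nat_lit 0) (XT.lf (nat_lit 152) (nat_lit 3600447390) (nat_lit 0) (nat_lit 394471867) (nat_lit 76) (nat_lit 862921528) (nat_lit 92) (nat_lit 1) (nat_lit 90)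 (nat_lit 1) (nat_lit 91) (nat_lit 1) (nat_lit 353) (nat_lit 378) (nat_lit 289)) (XT.lf (nat_lit 76) (nat_lit 973128802) (nat_lit 0) (nat_lit 836742649) (nat_lit 76) (nat_lit 2968539553) (nat_lit 90) (nat_lit 3) (nat_lit 89) (nat_lit 1) (nat_lit 90) (nat_lit 1) (nat_lit 354) (nat_lit 378) (nat_lit 288)))))) (XT.nd (nat_lit 546) (nat_lit 912) (nat_lit 0) (XT.nd (nat_lit 234) (nat_lit 456) (nat_lit 0) (XT.nd (nat_lit 78) (nat_lit 228) (nat_lit 0) (XT.lf (nat_lit 152) (nat_lit 3139026710) (nat_lit 0) (nat_lit 1269312256) (nat_lit 76) (nat_lit 292118013) (nat_lit 89) (nat_lit 1) (nat_lit 87) (nat_lit 1) (nat_lit 88) (nat_lit 1) (nat_lit 355) (nat_lit 378) (nat_lit 287)) (XT.nd (nat_lit 78) (nat_lit 152) (nat_lit 0) (XT.lf (nat_lit 76) (nat_lit 591438893) (nat_lit 0) (nat_lit 1683637660) (nat_lit 76) (nat_lit 2348619838) (nat_lit 87) (nat_lit 3) (nat_lit 86) (nat_lit 1) (nat_lit 87) (nat_lit 1) (nat_lit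 356) (nat_lit 378) (nat_lit 286)) (XT.lf (nat_lit 0) (nat_lit 231662182) (nat_lit 0) (nat_lit 1856424959) (nat_lit 152) (nat_lit 2460252981) (nat_lit 84) (nat_lit 3) (nat_lit 84) (nat_lit 1) (nat_lit 86) (nat_lit 1) (nat_lit 357) (nat_lit 378) (nat_lit 285)))) (XT.nd (nat_lit 156) (nat_lit 228) (nat_lit 0) (XT.nd (nat_lit 78) (nat_lit 152) (nat_lit 0) (XT.lf (nat_lit 76) (nat_lit 224442028) (nat_lit 0) (nat_lit 2477941311) (nat_lit 76) (nat_lit 1771835149) (nat_lit 84) (nat_lit 3) (nat_lit 83) (nat_lit 1) (nat_lit 84) (nat_lit 1) (nat_lit 358) (nat_lit 378) (nat_lit 284)) (XT.lf (nat_lit 0) (nat_lit 710930667) (nat_lit 0) (nat_lit 2141714876) (nat_lit 152) (nat_lit 1548638175) (nat_lit 81) (nat_lit 3) (nat_lit 81) (nat_lit 1) (nat_lit 83) (nat_lit 1) (nat_lit 359) (nat_lit 378) (nat_lit 283))) (XT.nd (nat_lit 78) (nat_lit 76) (nat_lit 0) (XT.lf (nat_lit 76) (nat_lit 3095611491) (nat_lit 0) (nat_lit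 124776528) (nat_lit 152) (nat_lit 1109355275) (nat_lit 80) (nat_lit 1) (nat_lit 79) (nat_lit 1) (nat_lit 81) (nat_lit 1) (nat_lit 360) (nat_lit 378) (nat_lit 282)) (XT.lf (nat_lit 0) (nat_lit 1153949054) (nat_lit 0) (nat_lit 2413913573) (nat_lit 152) (nat_lit 691316608) (nat_lit 78) (nat_lit 3) (nat_lit 78) (nat_lit 1) (nat_lit 80) (nat_lit 1) (nat_lit 361) (nat_lit 378) (nat_lit 281))))) (XT.nd (nat_lit 234) (nat_lit 456) (nat_lit 0) (XT.nd (nat_lit 78) (nat_lit 304) (nat_lit 0) (XT.lf (nat_lit 76) (nat_lit 3457940191) (nat_lit 0) (nat_lit 454220288) (nat_lit 152) (nat_lit 277899023) (nat_lit 77) (nat_lit 1) (nat_lit 76) (nat_lit 1) (nat_lit 78) (nat_lit 1) (nat_lit 362) (nat_lit 378) (nat_lit 280)) (XT.nd (nat_lit 78) (nat_lit 152) (nat_lit 0) (XT.lf (nat_lit 76) (nat_lit 1448068302) (nat_lit 0) (nat_lit 116134164) (nat_lit 76) (nat_lit 2557607098) (nat_lit 75) (nat_lit 3) (nat_lit 74) (nat_lit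 1) (nat_lit 75) (nat_lit 1) (nat_lit 363) (nat_lit 378) (nat_lit 279)) (XT.lf (nat_lit 152) (nat_lit 3281946065) (nat_lit 0) (nat_lit 512403341) (nat_lit 76) (nat_lit 260555750) (nat_lit 74) (nat_lit 1) (nat_lit 72) (nat_lit 1) (nat_lit 73) (nat_lit 1) (nat_lit 364) (nat_lit 378) (nat_lit 278)))) (XT.nd (nat_lit 156) (nat_lit 228) (nat_lit 0) (XT.nd (nat_lit 78) (nat_lit 152) (nat_lit 0) (XT.lf (nat_lit 76) (nat_lit 1062716468) (nat_lit 0) (nat_lit 886339315) (nat_lit 76) (nat_lit 2039788697) (nat_lit 72) (nat_lit 3) (nat_lit 71) (nat_lit 1) (nat_lit 72) (nat_lit 1) (nat_lit 365) (nat_lit 378) (nat_lit 277)) (XT.lf (nat_lit 0) (nat_lit 176502936) (nat_lit 0) (nat_lit 1079944664) (nat_lit 152) (nat_lit 2667690471) (nat_lit 69) (nat_lit 3) (nat_lit 69) (nat_lit 1) (nat_lit 71) (nat_lit 1) (nat_lit 366) (nat_lit 378) (nat_lit 276))) (XT.nd (nat_lit 78) (nat_lit 152) (nat_lit 0) (XT.lf (nat_lit 76)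 (nat_lit 696112105) (nat_lit 0) (nat_lit 1607674652) (nat_lit 76) (nat_lit 1556532799) (nat_lit 69) (nat_lit 3) (nat_lit 68) (nat_lit 1) (nat_lit 69) (nat_lit 1) (nat_lit 367) (nat_lit 378) (nat_lit 275)) (XT.lf (nat_lit 0) (nat_lit 577381209) (nat_lit 0) (nat_lit 1372962063) (nat_lit 152) (nat_lit 1847318940) (nat_lit 66) (nat_lit 3) (nat_lit 66) (nat_lit 1) (nat_lit 68) (nat_lit 1) (nat_lit 368) (nat_lit 378) (nat_lit 274))))))) (XT.nd (nat_lit 1092) (nat_lit 1292) (nat_lit 0) (XT.nd (nat_lit 546) (nat_lit 760) (nat_lit 0) (XT.nd (nat_lit 234) (nat_lit 608) (nat_lit 0) (XT.nd (nat_lit 78) (nat_lit 228) (nat_lit 0) (XT.lf (nat_lit 76) (nat_lit 348072994) (nat_lit 0) (nat_lit 2282232446) (nat_lit 76) (nat_lit 1105769046) (nat_lit 66) (nat_lit 3) (nat_lit 65) (nat_lit 1) (nat_lit 66) (nat_lit 1) (nat_lit 369) (nat_lit 378) (nat_lit 273)) (XT.nd (nat_lit 78) (nat_lit 76) (nat_lit 0) (XT.lf (nat_lit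 0) (nat_lit 949065692) (nat_lit 0) (nat_lit 1649663059) (nat_lit 152) (nat_lit 1076666899) (nat_lit 63) (nat_lit 3) (nat_lit 63) (nat_lit 1) (nat_lit 65) (nat_lit 1) (nat_lit 370) (nat_lit 378) (nat_lit 272)) (XT.lf (nat_lit 76) (nat_lit 18331165) (nat_lit 0) (nat_lit 2912058027) (nat_lit 76) (nat_lit 685566752) (nat_lit 63) (nat_lit 3) (nat_lit 62) (nat_lit 1) (nat_lit 63) (nat_lit 1) (nat_lit 371) (nat_lit 378) (nat_lit 271)))) (XT.nd (nat_lit 156) (nat_lit 304) (nat_lit 0) (XT.nd (nat_lit 78) (nat_lit 152) (nat_lit 0) (XT.lf (nat_lit 0) (nat_lit 1293330050) (nat_lit 0) (nat_lit 1910283898) (nat_lit 152) (nat_lit 353574132) (nat_lit 60) (nat_lit 3) (nat_lit 60) (nat_lit 1) (nat_lit 62) (nat_lit 1) (nat_lit 372) (nat_lit 378) (nat_lit 270)) (XT.lf (nat_lit 76) (nat_lit 3208514842) (nat_lit 0) (nat_lit 287725629) (nat_lit 152) (nat_lit 3492064) (nat_lit 59) (nat_lit 1) (nat_lit 58) (nat_lit 1)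 (nat_lit 60) (nat_lit 1) (nat_lit 373) (nat_lit 378) (nat_lit 269))) (XT.nd (nat_lit 78) (nat_lit 152) (nat_lit 0) (XT.lf (nat_lit 76) (nat_lit 1284496628) (nat_lit 0) (nat_lit 330510560) (nat_lit 76) (nat_lit 1827793063) (nat_lit 57) (nat_lit 3) (nat_lit 56) (nat_lit 1) (nat_lit 57) (nat_lit 1) (nat_lit 374) (nat_lit 378) (nat_lit 268)) (XT.lf (nat_lit 0) (nat_lit 81039468) (nat_lit 0) (nat_lit 583394007) (nat_lit 152) (nat_lit 2722698901) (nat_lit 54) (nat_lit 3) (nat_lit 54) (nat_lit 1) (nat_lit 56) (nat_lit 1) (nat_lit 375) (nat_lit 378) (nat_lit 267))))) (XT.nd (nat_lit 234) (nat_lit 456) (nat_lit 0) (XT.nd (nat_lit 78) (nat_lit 228) (nat_lit 0) (XT.lf (nat_lit 76) (nat_lit 938156926) (nat_lit 0) (nat_lit 977351559) (nat_lit 76) (nat_lit 1416589821) (nat_lit 54) (nat_lit 3) (nat_lit 53) (nat_lit 1) (nat_lit 54) (nat_lit 1) (nat_lit 376) (nat_lit 378) (nat_lit 266)) (XT.nd (nat_lit 78) (nat_lit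 76) (nat_lit 0) (XT.lf (nat_lit 0) (nat_lit 422063704) (nat_lit 0) (nat_lit 864442709) (nat_lit 152) (nat_lit 1991670083) (nat_lit 51) (nat_lit 3) (nat_lit 51) (nat_lit 1) (nat_lit 53) (nat_lit 1) (nat_lit 377) (nat_lit 378) (nat_lit 265)) (XT.lf (nat_lit 76) (nat_lit 610904860) (nat_lit 0) (nat_lit 1581930295) (nat_lit 76) (nat_lit 1032218198) (nat_lit 51) (nat_lit 3) (nat_lit 50) (nat_lit 1) (nat_lit 51) (nat_lit 1) (nat_lit 378) (nat_lit 378) (nat_lit 264)))) (XT.nd (nat_lit 156) (nat_lit 228) (nat_lit 0) (XT.nd (nat_lit 78) (nat_lit 76) (nat_lit 0) (XT.lf (nat_lit 0) (nat_lit 738976475) (nat_lit 0) (nat_lit 1128540357) (nat_lit 152) (nat_lit 1305302619) (nat_lit 48) (nat_lit 3) (nat_lit 48) (nat_lit 1) (nat_lit 50) (nat_lit 1) (nat_lit 379) (nat_lit 378) (nat_lit 263)) (XT.lf (nat_lit 76) (nat_lit 302162040) (nat_lit 0) (nat_lit 2146200566) (nat_lit 76) (nat_lit 673175261) (nat_lit 48) (nat_lit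 3) (nat_lit 47) (nat_lit 1) (nat_lit 48) (nat_lit 1) (nat_lit 380) (nat_lit 378) (nat_lit 262))) (XT.nd (nat_lit 78) (nat_lit 76) (nat_lit 0) (XT.lf (nat_lit 0) (nat_lit 1033160946) (nat_lit 0) (nat_lit 1376215242) (nat_lit 152) (nat_lit 661559805) (nat_lit 45) (nat_lit 3) (nat_lit 45) (nat_lit 1) (nat_lit 47) (nat_lit 1) (nat_lit 381) (nat_lit 378) (nat_lit 261)) (XT.lf (nat_lit 76) (nat_lit 11329907) (nat_lit 0) (nat_lit 2672051196) (nat_lit 76) (nat_lit 338048285) (nat_lit 45) (nat_lit 3) (nat_lit 44) (nat_lit 1) (nat_lit 45) (nat_lit 1) (nat_lit 382) (nat_lit 378) (nat_lit 260)))))) (XT.nd (nat_lit 546) (nat_lit 380) (nat_lit 0) (XT.nd (nat_lit 234) (nat_lit 456) (nat_lit 0) (XT.nd (nat_lit 78) (nat_lit 304) (nat_lit 0) (XT.lf (nat_lit 0) (nat_lit 1305916885) (nat_lit 0) (nat_lit 1608014321) (nat_lit 152) (nat_lit 58474608) (nat_lit 42) (nat_lit 3) (nat_lit 42) (nat_lit 1) (nat_lit 44) (nat_lit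 1) (nat_lit 383) (nat_lit 378) (nat_lit 259)) (XT.nd (nat_lit 78) (nat_lit 76) (nat_lit 0) (XT.lf (nat_lit 152) (nat_lit 2665082706) (nat_lit 0) (nat_lit 238835771) (nat_lit 76) (nat_lit 20547290) (nat_lit 41) (nat_lit 1) (nat_lit 39) (nat_lit 1) (nat_lit 40) (nat_lit 1) (nat_lit 384) (nat_lit 378) (nat_lit 258)) (XT.lf (nat_lit 76) (nat_lit 1047508028) (nat_lit 0) (nat_lit 515918094) (nat_lit 76) (nat_lit 1313538397) (nat_lit 39) (nat_lit 3) (nat_lit 38) (nat_lit 1) (nat_lit 39) (nat_lit 1) (nat_lit 385) (nat_lit 378) (nat_lit 257)))) (XT.nd (nat_lit 156) (nat_lit 228) (nat_lit 0) (XT.nd (nat_lit 78) (nat_lit 76) (nat_lit 0) (XT.lf (nat_lit 0) (nat_lit 273271741) (nat_lit 0) (nat_lit 519254514) (nat_lit 152) (nat_lit 2037981712) (nat_lit 36) (nat_lit 3) (nat_lit 36) (nat_lit 1) (nat_lit 38) (nat_lit 1) (nat_lit 386) (nat_lit 378) (nat_lit 256)) (XT.lf (nat_lit 76) (nat_lit 748282706) (nat_lit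 0) (nat_lit 1053808658) (nat_lit 76) (nat_lit 982552013) (nat_lit 36) (nat_lit 3) (nat_lit 35) (nat_lit 1) (nat_lit 36) (nat_lit 1) (nat_lit 387) (nat_lit 378) (nat_lit 255))) (XT.nd (nat_lit 78) (nat_lit 76) (nat_lit 0) (XT.lf (nat_lit 0) (nat_lit 546414949) (nat_lit 0) (nat_lit 763030120) (nat_lit 152) (nat_lit 1430187841) (nat_lit 33) (nat_lit 3) (nat_lit 33) (nat_lit 1) (nat_lit 35) (nat_lit 1) (nat_lit 388) (nat_lit 378) (nat_lit 254)) (XT.lf (nat_lit 76) (nat_lit 466611187) (nat_lit 0) (nat_lit 1555829598) (nat_lit 76) (nat_lit 672911350) (nat_lit 33) (nat_lit 3) (nat_lit 32) (nat_lit 1) (nat_lit 33) (nat_lit 1) (nat_lit 389) (nat_lit 378) (nat_lit 253))))) (XT.nd (nat_lit 43134) (nat_lit 0) (nat_lit 26372) (XT.nd (nat_lit 78) (nat_lit 228) (nat_lit 0) (XT.lf (nat_lit 0) (nat_lit 800397490) (nat_lit 0) (nat_lit 991151223) (nat_lit 152) (nat_lit 860192137) (nat_lit 30) (nat_lit 3) (nat_lit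 30) (nat_lit 1) (nat_lit 32) (nat_lit 1) (nat_lit 390) (nat_lit 378) (nat_lit 252)) (XT.nd (nat_lit 78) (nat_lit 152) (nat_lit 0) (XT.lf (nat_lit 76) (nat_lit 201803995) (nat_lit 0) (nat_lit 2023709167) (nat_lit 76) (nat_lit 383474217) (nat_lit 30) (nat_lit 3) (nat_lit 29) (nat_lit 1) (nat_lit 30) (nat_lit 1) (nat_lit 391) (nat_lit 378) (nat_lit 251)) (XT.lf (nat_lit 0) (nat_lit 1036271672) (nat_lit 0) (nat_lit 1204251535) (nat_lit 152) (nat_lit 326206870) (nat_lit 27) (nat_lit 3) (nat_lit 27) (nat_lit 1) (nat_lit 29) (nat_lit 1) (nat_lit 392) (nat_lit 378) (nat_lit 250)))) (XT.nd (nat_lit 156) (nat_lit 0) (nat_lit 76) (XT.nd (nat_lit 78) (nat_lit 0) (nat_lit 76) (XT.lf (nat_lit 1292) (nat_lit 2500617931) (nat_lit 0) (nat_lit 8603288644) (nat_lit 1292) (nat_lit 2500617931) (nat_lit 391) (nat_lit 1) (nat_lit 374) (nat_lit 0) (nat_lit 391) (nat_lit 0) (nat_lit 262) (nat_lit 379) (nat_lit 379)) (XT.lf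 (nat_lit 1292) (nat_lit 200478923) (nat_lit 0) (nat_lit 16963876097) (nat_lit 1216) (nat_lit 9391850116) (nat_lit 392) (nat_lit 1) (nat_lit 375) (nat_lit 1) (nat_lit 391) (nat_lit 1) (nat_lit 263) (nat_lit 379) (nat_lit 378))) (XT.nd (nat_lit 78) (nat_lit 0) (nat_lit 76) (XT.lf (nat_lit 1292) (nat_lit 8820210644) (nat_lit 76) (nat_lit 12475865200) (nat_lit 0) (nat_lit 4627261384) (nat_lit 392) (nat_lit 1) (nat_lit 376) (nat_lit 1) (nat_lit 375) (nat_lit 1) (nat_lit 264) (nat_lit 379) (nat_lit 377)) (XT.lf (nat_lit 1292) (nat_lit 7753713070) (nat_lit 76) (nat_lit 8166346507) (nat_lit 0) (nat_lit 9390901260) (nat_lit 393) (nat_lit 1) (nat_lit 377) (nat_lit 1) (nat_lit 376) (nat_lit 1) (nat_lit 265) (nat_lit 379) (nat_lit 376))))))))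
noncomputable def ec80 : XT := (XT.nd (nat_lit 2106) (nat_lit 6916) (nat_lit 0) (XT.nd (nat_lit 1014) (nat_lit 6308) (nat_lit 0) (XT.nd (nat_lit 468) (nat_lit 3116) (nat_lit 0) (XT.nd (nat_lit 234) (nat_lit 1064) (nat_lit 0) (XT.nd (nat_lit 78) (nat_lit 0) (nat_lit 76) (XT.lf (nat_lit 1292) (nat_lit 6416719663) (nat_lit 76) (nat_lit 4218344533) (nat_lit 0) (nat_lit 14083323319) (nat_lit 394) (nat_lit 1) (nat_lit 378) (nat_lit 1) (nat_lit 377) (nat_lit 1) (nat_lit 266) (nat_lit 379) (nat_lit 375)) (XT.nd (nat_lit 78) (nat_lit 0) (nat_lit 76) (XT.lf (nat_lit 1292) (nat_lit 4829848705) (nat_lit 76) (nat_lit 613284902) (nat_lit 0) (nat_lit 18701766017) (nat_lit 395) (nat_lit 1) (nat_lit 379) (nat_lit 1) (nat_lit 378) (nat_lit 1) (nat_lit 267) (nat_lit 379) (nat_lit 374)) (XT.lf (nat_lit 1292) (nat_lit 371631101) (nat_lit 0) (nat_lit 20602898332) (nat_lit 1216) (nat_lit 2614509626) (nat_lit 396) (nat_lit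 1) (nat_lit 379) (nat_lit 1) (nat_lit 395) (nat_lit 1) (nat_lit 268) (nat_lit 379) (nat_lit 373)))) (XT.nd (nat_lit 78) (nat_lit 1216) (nat_lit 0) (XT.lf (nat_lit 1292) (nat_lit 880846556) (nat_lit 76) (nat_lit 17476357318) (nat_lit 0) (nat_lit 4692268003) (nat_lit 396) (nat_lit 1) (nat_lit 380) (nat_lit 1) (nat_lit 379) (nat_lit 1) (nat_lit 269) (nat_lit 379) (nat_lit 372)) (XT.nd (nat_lit 78) (nat_lit 0) (nat_lit 76) (XT.lf (nat_lit 1368) (nat_lit 12873562431) (nat_lit 0) (nat_lit 1391497460) (nat_lit 1292) (nat_lit 8261537111) (nat_lit 381) (nat_lit 1) (nat_lit 363) (nat_lit 1) (nat_lit 380) (nat_lit 1) (nat_lit 270) (nat_lit 379) (nat_lit 371)) (XT.lf (nat_lit 1368) (nat_lit 7514228613) (nat_lit 0) (nat_lit 3818105117) (nat_lit 1292) (nat_lit 10687680067) (nat_lit 382) (nat_lit 1) (nat_lit 364) (nat_lit 1) (nat_lit 381) (nat_lit 1) (nat_lit 271) (nat_lit 379) (nat_lit 370))))) (XT.nd (nat_lit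 234) (nat_lit 1824) (nat_lit 0) (XT.nd (nat_lit 78) (nat_lit 1444) (nat_lit 0) (XT.lf (nat_lit 76) (nat_lit 2270839750) (nat_lit 0) (nat_lit 6401279853) (nat_lit 1292) (nat_lit 12857270405) (nat_lit 366) (nat_lit 1) (nat_lit 365) (nat_lit 1) (nat_lit 382) (nat_lit 1) (nat_lit 272) (nat_lit 379) (nat_lit 369)) (XT.nd (nat_lit 78) (nat_lit 608) (nat_lit 0) (XT.lf (nat_lit 912) (nat_lit 11898300699) (nat_lit 0) (nat_lit 6241472507) (nat_lit 836) (nat_lit 2913548798) (nat_lit 366) (nat_lit 1) (nat_lit 354) (nat_lit 1) (nat_lit 365) (nat_lit 1) (nat_lit 273) (nat_lit 379) (nat_lit 368)) (XT.lf (nat_lit 684) (nat_lit 8532197450) (nat_lit 0) (nat_lit 4034029249) (nat_lit 608) (nat_lit 8025247860) (nat_lit 355) (nat_lit 1) (nat_lit 346) (nat_lit 1) (nat_lit 354) (nat_lit 1) (nat_lit 274) (nat_lit 379) (nat_lit 367)))) (XT.nd (nat_lit 156) (nat_lit 684) (nat_lit 0) (XT.nd (nat_lit 78) (nat_lit 532) (nat_lit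 0) (XT.lf (nat_lit 684) (nat_lit 5064594235) (nat_lit 0) (nat_lit 2059892285) (nat_lit 608) (nat_lit 13019508360) (nat_lit 347) (nat_lit 1) (nat_lit 338) (nat_lit 1) (nat_lit 346) (nat_lit 1) (nat_lit 275) (nat_lit 379) (nat_lit 366)) (XT.lf (nat_lit 608) (nat_lit 1506626359) (nat_lit 0) (nat_lit 306825561) (nat_lit 532) (nat_lit 17896930420) (nat_lit 339) (nat_lit 1) (nat_lit 331) (nat_lit 1) (nat_lit 338) (nat_lit 1) (nat_lit 276) (nat_lit 379) (nat_lit 365))) (XT.nd (nat_lit 78) (nat_lit 608) (nat_lit 0) (XT.lf (nat_lit 76) (nat_lit 15886735654) (nat_lit 0) (nat_lit 2134907734) (nat_lit 608) (nat_lit 1266540440) (nat_lit 331) (nat_lit 1) (nat_lit 330) (nat_lit 1) (nat_lit 338) (nat_lit 1) (nat_lit 277) (nat_lit 379) (nat_lit 364)) (XT.lf (nat_lit 76) (nat_lit 10373034143) (nat_lit 0) (nat_lit 5833526405) (nat_lit 684) (nat_lit 2671360950) (nat_lit 323) (nat_lit 1) (nat_lit 322) (nat_lit 1) (nat_lit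 331) (nat_lit 1) (nat_lit 278) (nat_lit 379) (nat_lit 363)))))) (XT.nd (nat_lit 546) (nat_lit 2812) (nat_lit 0) (XT.nd (nat_lit 234) (nat_lit 1976) (nat_lit 0) (XT.nd (nat_lit 78) (nat_lit 988) (nat_lit 0) (XT.lf (nat_lit 76) (nat_lit 4999850350) (nat_lit 0) (nat_lit 9588841953) (nat_lit 608) (nat_lit 3891518520) (nat_lit 316) (nat_lit 1) (nat_lit 315) (nat_lit 1) (nat_lit 323) (nat_lit 1) (nat_lit 279) (nat_lit 379) (nat_lit 362)) (XT.nd (nat_lit 78) (nat_lit 456) (nat_lit 0) (XT.lf (nat_lit 608) (nat_lit 4699712207) (nat_lit 0) (nat_lit 13155382237) (nat_lit 532) (nat_lit 239459055) (nat_lit 316) (nat_lit 1) (nat_lit 308) (nat_lit 1) (nat_lit 315) (nat_lit 1) (nat_lit 280) (nat_lit 379) (nat_lit 361)) (XT.lf (nat_lit 532) (nat_lit 430050376) (nat_lit 0) (nat_lit 11850076918) (nat_lit 456) (nat_lit 5439047851) (nat_lit 309) (nat_lit 1) (nat_lit 302) (nat_lit 1) (nat_lit 308) (nat_lit 1) (nat_lit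 281) (nat_lit 379) (nat_lit 360)))) (XT.nd (nat_lit 156) (nat_lit 912) (nat_lit 0) (XT.nd (nat_lit 78) (nat_lit 456) (nat_lit 0) (XT.lf (nat_lit 76) (nat_lit 6890710488) (nat_lit 0) (nat_lit 3784949056) (nat_lit 608) (nat_lit 6678375417) (nat_lit 295) (nat_lit 1) (nat_lit 294) (nat_lit 1) (nat_lit 302) (nat_lit 1) (nat_lit 282) (nat_lit 379) (nat_lit 359)) (XT.lf (nat_lit 76) (nat_lit 1651437818) (nat_lit 0) (nat_lit 8005558346) (nat_lit 532) (nat_lit 7342738638) (nat_lit 289) (nat_lit 1) (nat_lit 288) (nat_lit 1) (nat_lit 295) (nat_lit 1) (nat_lit 283) (nat_lit 379) (nat_lit 358))) (XT.nd (nat_lit 78) (nat_lit 456) (nat_lit 0) (XT.lf (nat_lit 532) (nat_lit 4386908793) (nat_lit 0) (nat_lit 8755076435) (nat_lit 456) (nat_lit 3513033152) (nat_lit 289) (nat_lit 1) (nat_lit 282) (nat_lit 1) (nat_lit 288) (nat_lit 1) (nat_lit 284) (nat_lit 379) (nat_lit 357)) (XT.lf (nat_lit 76) (nat_lit 7755400277)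 (nat_lit 0) (nat_lit 223670649) (nat_lit 456) (nat_lit 8340964092) (nat_lit 277) (nat_lit 1) (nat_lit 276) (nat_lit 1) (nat_lit 282) (nat_lit 1) (nat_lit 285) (nat_lit 379) (nat_lit 356))))) (XT.nd (nat_lit 234) (nat_lit 1596) (nat_lit 0) (XT.nd (nat_lit 78) (nat_lit 760) (nat_lit 0) (XT.lf (nat_lit 76) (nat_lit 2561532229) (nat_lit 0) (nat_lit 4735328262) (nat_lit 532) (nat_lit 8696873179) (nat_lit 271) (nat_lit 1) (nat_lit 270) (nat_lit 1) (nat_lit 277) (nat_lit 1) (nat_lit 286) (nat_lit 379) (nat_lit 355)) (XT.nd (nat_lit 78) (nat_lit 380) (nat_lit 0) (XT.lf (nat_lit 456) (nat_lit 6422525306) (nat_lit 0) (nat_lit 6719430486) (nat_lit 380) (nat_lit 2534365171) (nat_lit 271) (nat_lit 1) (nat_lit 265) (nat_lit 1) (nat_lit 270) (nat_lit 1) (nat_lit 287) (nat_lit 379) (nat_lit 354)) (XT.lf (nat_lit 456) (nat_lit 1593002553) (nat_lit 0) (nat_lit 6240443242) (nat_lit 380) (nat_lit 7534055333) (nat_lit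 266) (nat_lit 1) (nat_lit 260) (nat_lit 1) (nat_lit 265) (nat_lit 1) (nat_lit 288) (nat_lit 379) (nat_lit 353)))) (XT.nd (nat_lit 156) (nat_lit 760) (nat_lit 0) (XT.nd (nat_lit 78) (nat_lit 380) (nat_lit 0) (XT.lf (nat_lit 76) (nat_lit 2708776883) (nat_lit 0) (nat_lit 3138563132) (nat_lit 456) (nat_lit 9219459302) (nat_lit 255) (nat_lit 1) (nat_lit 254) (nat_lit 1) (nat_lit 260) (nat_lit 1) (nat_lit 289) (nat_lit 379) (nat_lit 352)) (XT.lf (nat_lit 456) (nat_lit 6950354426) (nat_lit 0) (nat_lit 5527263883) (nat_lit 380) (nat_lit 2296115764) (nat_lit 255) (nat_lit 1) (nat_lit 249) (nat_lit 1) (nat_lit 254) (nat_lit 1) (nat_lit 290) (nat_lit 379) (nat_lit 351))) (XT.nd (nat_lit 78) (nat_lit 456) (nat_lit 0) (XT.lf (nat_lit 380) (nat_lit 1995482592) (nat_lit 0) (nat_lit 5286735423) (nat_lit 304) (nat_lit 7206172360) (nat_lit 250) (nat_lit 1) (nat_lit 245) (nat_lit 1) (nat_lit 249) (nat_lit 1) (nat_lit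 291) (nat_lit 379) (nat_lit 350)) (XT.lf (nat_lit 76) (nat_lit 2268296233) (nat_lit 0) (nat_lit 2850169344) (nat_lit 456) (nat_lit 9091987396) (nat_lit 240) (nat_lit 1) (nat_lit 239) (nat_lit 1) (nat_lit 245) (nat_lit 1) (nat_lit 292) (nat_lit 379) (nat_lit 349))))))) (XT.nd (nat_lit 1092) (nat_lit 2888) (nat_lit 0) (XT.nd (nat_lit 546) (nat_lit 1900) (nat_lit 0) (XT.nd (nat_lit 234) (nat_lit 1140) (nat_lit 0) (XT.nd (nat_lit 78) (nat_lit 684) (nat_lit 0) (XT.lf (nat_lit 380) (nat_lit 6310381747) (nat_lit 0) (nat_lit 5000398046) (nat_lit 304) (nat_lit 2628398673) (nat_lit 240) (nat_lit 1) (nat_lit 235) (nat_lit 1) (nat_lit 239) (nat_lit 1) (nat_lit 293) (nat_lit 379) (nat_lit 348)) (XT.nd (nat_lit 78) (nat_lit 380) (nat_lit 0) (XT.lf (nat_lit 380) (nat_lit 1301820592) (nat_lit 0) (nat_lit 4951556005) (nat_lit 304) (nat_lit 7421645270) (nat_lit 236) (nat_lit 1) (nat_lit 231) (nat_lit 1) (nat_lit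 235) (nat_lit 1) (nat_lit 294) (nat_lit 379) (nat_lit 347)) (XT.lf (nat_lit 76) (nat_lit 1383448010) (nat_lit 0) (nat_lit 3570226094) (nat_lit 380) (nat_lit 8463679897) (nat_lit 227) (nat_lit 1) (nat_lit 226) (nat_lit 1) (nat_lit 231) (nat_lit 1) (nat_lit 295) (nat_lit 379) (nat_lit 346)))) (XT.nd (nat_lit 156) (nat_lit 532) (nat_lit 0) (XT.nd (nat_lit 78) (nat_lit 304) (nat_lit 0) (XT.lf (nat_lit 380) (nat_lit 4781386425) (nat_lit 0) (nat_lit 4992101187) (nat_lit 304) (nat_lit 3392165201) (nat_lit 227) (nat_lit 1) (nat_lit 222) (nat_lit 1) (nat_lit 226) (nat_lit 1) (nat_lit 296) (nat_lit 379) (nat_lit 345)) (XT.lf (nat_lit 76) (nat_lit 4874601941) (nat_lit 0) (nat_lit 219325387) (nat_lit 304) (nat_lit 7826686499) (nat_lit 219) (nat_lit 1) (nat_lit 218) (nat_lit 1) (nat_lit 222) (nat_lit 1) (nat_lit 297) (nat_lit 379) (nat_lit 344))) (XT.nd (nat_lit 78) (nat_lit 228) (nat_lit 0) (XT.lf (nat_lit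 76) (nat_lit 171167309) (nat_lit 0) (nat_lit 5053089880) (nat_lit 380) (nat_lit 7456871757) (nat_lit 215) (nat_lit 1) (nat_lit 214) (nat_lit 1) (nat_lit 219) (nat_lit 1) (nat_lit 298) (nat_lit 379) (nat_lit 343)) (XT.lf (nat_lit 304) (nat_lit 2591201398) (nat_lit 0) (nat_lit 5381856243) (nat_lit 228) (nat_lit 4474014596) (nat_lit 215) (nat_lit 1) (nat_lit 211) (nat_lit 1) (nat_lit 214) (nat_lit 1) (nat_lit 299) (nat_lit 379) (nat_lit 342))))) (XT.nd (nat_lit 234) (nat_lit 988) (nat_lit 0) (XT.nd (nat_lit 78) (nat_lit 532) (nat_lit 0) (XT.lf (nat_lit 76) (nat_lit 3264174196) (nat_lit 0) (nat_lit 2319046580) (nat_lit 380) (nat_lit 6635615130) (nat_lit 207) (nat_lit 1) (nat_lit 206) (nat_lit 1) (nat_lit 211) (nat_lit 1) (nat_lit 300) (nat_lit 379) (nat_lit 341)) (XT.nd (nat_lit 78) (nat_lit 304) (nat_lit 0) (XT.lf (nat_lit 304) (nat_lit 4885087865) (nat_lit 0) (nat_lit 5811853900) (nat_lit 228) (nat_lit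 1298911113) (nat_lit 207) (nat_lit 1) (nat_lit 203) (nat_lit 1) (nat_lit 206) (nat_lit 1) (nat_lit 301) (nat_lit 379) (nat_lit 340)) (XT.lf (nat_lit 76) (nat_lit 5996995689) (nat_lit 0) (nat_lit 73246520) (nat_lit 304) (nat_lit 5707868436) (nat_lit 200) (nat_lit 1) (nat_lit 199) (nat_lit 1) (nat_lit 203) (nat_lit 1) (nat_lit 302) (nat_lit 379) (nat_lit 339)))) (XT.nd (nat_lit 156) (nat_lit 532) (nat_lit 0) (XT.nd (nat_lit 78) (nat_lit 228) (nat_lit 0) (XT.lf (nat_lit 76) (nat_lit 1490353749) (nat_lit 0) (nat_lit 4850595936) (nat_lit 304) (nat_lit 5224068360) (nat_lit 197) (nat_lit 1) (nat_lit 196) (nat_lit 1) (nat_lit 200) (nat_lit 1) (nat_lit 303) (nat_lit 379) (nat_lit 338)) (XT.lf (nat_lit 304) (nat_lit 1785928958) (nat_lit 0) (nat_lit 6639843292) (nat_lit 228) (nat_lit 2931183239) (nat_lit 197) (nat_lit 1) (nat_lit 193) (nat_lit 1) (nat_lit 196) (nat_lit 1) (nat_lit 304) (nat_lit 379) (nat_lit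 337))) (XT.nd (nat_lit 78) (nat_lit 228) (nat_lit 0) (XT.lf (nat_lit 76) (nat_lit 3942392088) (nat_lit 0) (nat_lit 3006219261) (nat_lit 304) (nat_lit 4204698109) (nat_lit 190) (nat_lit 1) (nat_lit 189) (nat_lit 1) (nat_lit 193) (nat_lit 1) (nat_lit 305) (nat_lit 379) (nat_lit 336)) (XT.lf (nat_lit 304) (nat_lit 3276270306) (nat_lit 0) (nat_lit 7288804234) (nat_lit 228) (nat_lit 389554444) (nat_lit 190) (nat_lit 1) (nat_lit 186) (nat_lit 1) (nat_lit 189) (nat_lit 1) (nat_lit 306) (nat_lit 379) (nat_lit 335)))))) (XT.nd (nat_lit 546) (nat_lit 1292) (nat_lit 0) (XT.nd (nat_lit 234) (nat_lit 912) (nat_lit 0) (XT.nd (nat_lit 78) (nat_lit 456) (nat_lit 0) (XT.lf (nat_lit 76) (nat_lit 6115704687) (nat_lit 0) (nat_lit 1509514498) (nat_lit 228) (nat_lit 3134592412) (nat_lit 184) (nat_lit 1) (nat_lit 183) (nat_lit 1) (nat_lit 186) (nat_lit 1) (nat_lit 307) (nat_lit 379) (nat_lit 334)) (XT.nd (nat_lit 78)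 (nat_lit 228) (nat_lit 0) (XT.lf (nat_lit 76) (nat_lit 1838864350) (nat_lit 0) (nat_lit 6139550577) (nat_lit 304) (nat_lit 2590965490) (nat_lit 181) (nat_lit 1) (nat_lit 180) (nat_lit 1) (nat_lit 184) (nat_lit 1) (nat_lit 308) (nat_lit 379) (nat_lit 333)) (XT.lf (nat_lit 76) (nat_lit 8039740570) (nat_lit 0) (nat_lit 311841299) (nat_lit 228) (nat_lit 2031772261) (nat_lit 178) (nat_lit 1) (nat_lit 177) (nat_lit 1) (nat_lit 180) (nat_lit 1) (nat_lit 309) (nat_lit 379) (nat_lit 332)))) (XT.nd (nat_lit 156) (nat_lit 532) (nat_lit 0) (XT.nd (nat_lit 78) (nat_lit 152) (nat_lit 0) (XT.lf (nat_lit 76) (nat_lit 3816725922) (nat_lit 0) (nat_lit 4891320908) (nat_lit 304) (nat_lit 1492544933) (nat_lit 175) (nat_lit 1) (nat_lit 174) (nat_lit 1) (nat_lit 178) (nat_lit 1) (nat_lit 310) (nat_lit 379) (nat_lit 331)) (XT.lf (nat_lit 228) (nat_lit 641821053) (nat_lit 0) (nat_lit 9105021907) (nat_lit 152) (nat_lit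 275845291) (nat_lit 175) (nat_lit 1) (nat_lit 172) (nat_lit 1) (nat_lit 174) (nat_lit 1) (nat_lit 311) (nat_lit 379) (nat_lit 330))) (XT.nd (nat_lit 78) (nat_lit 304) (nat_lit 0) (XT.lf (nat_lit 76) (nat_lit 5576764232) (nat_lit 0) (nat_lit 3889436171) (nat_lit 228) (nat_lit 381150593) (nat_lit 170) (nat_lit 1) (nat_lit 169) (nat_lit 1) (nat_lit 172) (nat_lit 1) (nat_lit 312) (nat_lit 379) (nat_lit 329)) (XT.lf (nat_lit 228) (nat_lit 1360396422) (nat_lit 0) (nat_lit 188646580) (nat_lit 152) (nat_lit 8127450682) (nat_lit 168) (nat_lit 1) (nat_lit 165) (nat_lit 1) (nat_lit 167) (nat_lit 1) (nat_lit 313) (nat_lit 379) (nat_lit 328))))) (XT.nd (nat_lit 234) (nat_lit 684) (nat_lit 0) (XT.nd (nat_lit 78) (nat_lit 380) (nat_lit 0) (XT.lf (nat_lit 228) (nat_lit 6402796183) (nat_lit 0) (nat_lit 745717840) (nat_lit 152) (nat_lit 2359995530) (nat_lit 165) (nat_lit 1) (nat_lit 162) (nat_lit 1) (nat_lit 164)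 (nat_lit 1) (nat_lit 314) (nat_lit 379) (nat_lit 327)) (XT.nd (nat_lit 78) (nat_lit 228) (nat_lit 0) (XT.lf (nat_lit 228) (nat_lit 1878163468) (nat_lit 0) (nat_lit 1308016344) (nat_lit 152) (nat_lit 6158006613) (nat_lit 163) (nat_lit 1) (nat_lit 160) (nat_lit 1) (nat_lit 162) (nat_lit 1) (nat_lit 315) (nat_lit 379) (nat_lit 326)) (XT.lf (nat_lit 228) (nat_lit 6677529831) (nat_lit 0) (nat_lit 1870843601) (nat_lit 152) (nat_lit 634947185) (nat_lit 160) (nat_lit 1) (nat_lit 157) (nat_lit 1) (nat_lit 159) (nat_lit 1) (nat_lit 316) (nat_lit 379) (nat_lit 325)))) (XT.nd (nat_lit 156) (nat_lit 304) (nat_lit 0) (XT.nd (nat_lit 78) (nat_lit 228) (nat_lit 0) (XT.lf (nat_lit 228) (nat_lit 2235761082) (nat_lit 0) (nat_lit 2415284500) (nat_lit 152) (nat_lit 4374250060) (nat_lit 158) (nat_lit 1) (nat_lit 155) (nat_lit 1) (nat_lit 157) (nat_lit 1) (nat_lit 317) (nat_lit 379) (nat_lit 324)) (XT.lf (nat_lit 76)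 (nat_lit 901222513) (nat_lit 0) (nat_lit 2067804150) (nat_lit 228) (nat_lit 5901826961) (nat_lit 153) (nat_lit 1) (nat_lit 152) (nat_lit 1) (nat_lit 155) (nat_lit 1) (nat_lit 318) (nat_lit 379) (nat_lit 323))) (XT.nd (nat_lit 78) (nat_lit 152) (nat_lit 0) (XT.lf (nat_lit 228) (nat_lit 2458139990) (nat_lit 0) (nat_lit 3502514991) (nat_lit 152) (nat_lit 2758415670) (nat_lit 153) (nat_lit 1) (nat_lit 150) (nat_lit 1) (nat_lit 152) (nat_lit 1) (nat_lit 319) (nat_lit 379) (nat_lit 322)) (XT.lf (nat_lit 76) (nat_lit 2273555441) (nat_lit 0) (nat_lit 1764062614) (nat_lit 152) (nat_lit 4532903729) (nat_lit 149) (nat_lit 1) (nat_lit 148) (nat_lit 1) (nat_lit 150) (nat_lit 1) (nat_lit 320) (nat_lit 379) (nat_lit 321))))))))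
noncomputable def ec81 : XT := (XT.nd (nat_lit 2184) (nat_lit 3496) (nat_lit 0) (XT.nd (nat_lit 1092) (nat_lit 1672) (nat_lit 0) (XT.nd (nat_lit 546) (nat_lit 1216) (nat_lit 0) (XT.nd (nat_lit 234) (nat_lit 608) (nat_lit 0) (XT.nd (nat_lit 78) (nat_lit 304) (nat_lit 0) (XT.lf (nat_lit 228) (nat_lit 2566990496) (nat_lit 0) (nat_lit 4563212859) (nat_lit 152) (nat_lit 1294618991) (nat_lit 149) (nat_lit 1) (nat_lit 146) (nat_lit 1) (nat_lit 148) (nat_lit 1) (nat_lit 321) (nat_lit 379) (nat_lit 320)) (XT.nd (nat_lit 78) (nat_lit 152) (nat_lit 0) (XT.lf (nat_lit 76) (nat_lit 3508892234) (nat_lit 0) (nat_lit 1568190652) (nat_lit 152) (nat_lit 3204765343) (nat_lit 145) (nat_lit 1) (nat_lit 144) (nat_lit 1) (nat_lit 146) (nat_lit 1) (nat_lit 322) (nat_lit 379) (nat_lit 319)) (XT.lf (nat_lit 76) (nat_lit 30744993) (nat_lit 0) (nat_lit 5561074040) (nat_lit 228) (nat_lit 2550088711) (nat_lit 143) (nat_lit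 1) (nat_lit 142) (nat_lit 1) (nat_lit 145) (nat_lit 1) (nat_lit 323) (nat_lit 379) (nat_lit 318)))) (XT.nd (nat_lit 156) (nat_lit 304) (nat_lit 0) (XT.nd (nat_lit 78) (nat_lit 152) (nat_lit 0) (XT.lf (nat_lit 76) (nat_lit 4620167431) (nat_lit 0) (nat_lit 1462584844) (nat_lit 152) (nat_lit 1921472795) (nat_lit 141) (nat_lit 1) (nat_lit 140) (nat_lit 1) (nat_lit 142) (nat_lit 1) (nat_lit 324) (nat_lit 379) (nat_lit 317)) (XT.lf (nat_lit 76) (nat_lit 1208204019) (nat_lit 0) (nat_lit 5364687622) (nat_lit 228) (nat_lit 1296522523) (nat_lit 139) (nat_lit 1) (nat_lit 138) (nat_lit 1) (nat_lit 141) (nat_lit 1) (nat_lit 325) (nat_lit 379) (nat_lit 316))) (XT.nd (nat_lit 78) (nat_lit 152) (nat_lit 0) (XT.lf (nat_lit 76) (nat_lit 5618970568) (nat_lit 0) (nat_lit 1431980633) (nat_lit 152) (nat_lit 686139967) (nat_lit 137) (nat_lit 1) (nat_lit 136) (nat_lit 1) (nat_lit 138) (nat_lit 1) (nat_lit 326) (nat_lit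 379) (nat_lit 315)) (XT.lf (nat_lit 76) (nat_lit 2274222681) (nat_lit 0) (nat_lit 5241666728) (nat_lit 228) (nat_lit 91282246) (nat_lit 135) (nat_lit 1) (nat_lit 134) (nat_lit 1) (nat_lit 137) (nat_lit 1) (nat_lit 327) (nat_lit 379) (nat_lit 314))))) (XT.nd (nat_lit 234) (nat_lit 608) (nat_lit 0) (XT.nd (nat_lit 78) (nat_lit 304) (nat_lit 0) (XT.lf (nat_lit 228) (nat_lit 6011726758) (nat_lit 0) (nat_lit 508861932) (nat_lit 152) (nat_lit 959191984) (nat_lit 133) (nat_lit 1) (nat_lit 130) (nat_lit 1) (nat_lit 132) (nat_lit 1) (nat_lit 328) (nat_lit 379) (nat_lit 313)) (XT.nd (nat_lit 78) (nat_lit 228) (nat_lit 0) (XT.lf (nat_lit 152) (nat_lit 2164536174) (nat_lit 0) (nat_lit 1084750832) (nat_lit 76) (nat_lit 4105077428) (nat_lit 131) (nat_lit 1) (nat_lit 129) (nat_lit 1) (nat_lit 130) (nat_lit 1) (nat_lit 329) (nat_lit 379) (nat_lit 312)) (XT.lf (nat_lit 76) (nat_lit 101883442) (nat_lit 0) (nat_lit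 1561708963) (nat_lit 228) (nat_lit 5568150164) (nat_lit 127) (nat_lit 1) (nat_lit 126) (nat_lit 1) (nat_lit 129) (nat_lit 1) (nat_lit 330) (nat_lit 379) (nat_lit 311)))) (XT.nd (nat_lit 156) (nat_lit 304) (nat_lit 0) (XT.nd (nat_lit 78) (nat_lit 228) (nat_lit 0) (XT.lf (nat_lit 152) (nat_lit 1922596954) (nat_lit 0) (nat_lit 2209802993) (nat_lit 76) (nat_lit 2978427127) (nat_lit 127) (nat_lit 1) (nat_lit 125) (nat_lit 1) (nat_lit 126) (nat_lit 1) (nat_lit 331) (nat_lit 379) (nat_lit 310)) (XT.lf (nat_lit 76) (nat_lit 1052149390) (nat_lit 0) (nat_lit 1703676283) (nat_lit 228) (nat_lit 4236686614) (nat_lit 123) (nat_lit 1) (nat_lit 122) (nat_lit 1) (nat_lit 125) (nat_lit 1) (nat_lit 332) (nat_lit 379) (nat_lit 309))) (XT.nd (nat_lit 78) (nat_lit 228) (nat_lit 0) (XT.lf (nat_lit 152) (nat_lit 1649590915) (nat_lit 0) (nat_lit 3281206914) (nat_lit 76) (nat_lit 1945355004) (nat_lit 123) (nat_lit 1) (nat_lit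 121) (nat_lit 1) (nat_lit 122) (nat_lit 1) (nat_lit 333) (nat_lit 379) (nat_lit 308)) (XT.lf (nat_lit 76) (nat_lit 1918132646) (nat_lit 0) (nat_lit 1876329121) (nat_lit 228) (nat_lit 2967486261) (nat_lit 119) (nat_lit 1) (nat_lit 118) (nat_lit 1) (nat_lit 121) (nat_lit 1) (nat_lit 334) (nat_lit 379) (nat_lit 307)))))) (XT.nd (nat_lit 546) (nat_lit 836) (nat_lit 0) (XT.nd (nat_lit 234) (nat_lit 532) (nat_lit 0) (XT.nd (nat_lit 78) (nat_lit 228) (nat_lit 0) (XT.lf (nat_lit 152) (nat_lit 1353217264) (nat_lit 0) (nat_lit 4298595318) (nat_lit 76) (nat_lit 998125048) (nat_lit 119) (nat_lit 1) (nat_lit 117) (nat_lit 1) (nat_lit 118) (nat_lit 1) (nat_lit 335) (nat_lit 379) (nat_lit 306)) (XT.nd (nat_lit 78) (nat_lit 76) (nat_lit 0) (XT.lf (nat_lit 76) (nat_lit 2706887748) (nat_lit 0) (nat_lit 2072458236) (nat_lit 152) (nat_lit 1760313411) (nat_lit 116) (nat_lit 1) (nat_lit 115) (nat_lit 1) (nat_lit 117)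 (nat_lit 1) (nat_lit 336) (nat_lit 379) (nat_lit 305)) (XT.lf (nat_lit 152) (nat_lit 1040055114) (nat_lit 0) (nat_lit 5262008903) (nat_lit 76) (nat_lit 129740090) (nat_lit 116) (nat_lit 1) (nat_lit 114) (nat_lit 1) (nat_lit 115) (nat_lit 1) (nat_lit 337) (nat_lit 379) (nat_lit 304)))) (XT.nd (nat_lit 156) (nat_lit 304) (nat_lit 0) (XT.nd (nat_lit 78) (nat_lit 76) (nat_lit 0) (XT.lf (nat_lit 76) (nat_lit 3424796045) (nat_lit 0) (nat_lit 2285899801) (nat_lit 152) (nat_lit 614585542) (nat_lit 113) (nat_lit 1) (nat_lit 112) (nat_lit 1) (nat_lit 114) (nat_lit 1) (nat_lit 338) (nat_lit 379) (nat_lit 303)) (XT.lf (nat_lit 0) (nat_lit 653139088) (nat_lit 0) (nat_lit 5512096221) (nat_lit 152) (nat_lit 55971751) (nat_lit 111) (nat_lit 3) (nat_lit 111) (nat_lit 1) (nat_lit 113) (nat_lit 1) (nat_lit 339) (nat_lit 379) (nat_lit 302))) (XT.nd (nat_lit 78) (nat_lit 76) (nat_lit 0) (XT.lf (nat_lit 152) (nat_lit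 3602318133) (nat_lit 0) (nat_lit 479933355) (nat_lit 76) (nat_lit 2036082200) (nat_lit 110) (nat_lit 1) (nat_lit 108) (nat_lit 1) (nat_lit 109) (nat_lit 1) (nat_lit 340) (nat_lit 379) (nat_lit 301)) (XT.lf (nat_lit 76) (nat_lit 361039107) (nat_lit 0) (nat_lit 1016766150) (nat_lit 76) (nat_lit 4639890907) (nat_lit 108) (nat_lit 3) (nat_lit 107) (nat_lit 1) (nat_lit 108) (nat_lit 1) (nat_lit 341) (nat_lit 379) (nat_lit 300))))) (XT.nd (nat_lit 234) (nat_lit 456) (nat_lit 0) (XT.nd (nat_lit 78) (nat_lit 228) (nat_lit 0) (XT.lf (nat_lit 152) (nat_lit 3159292601) (nat_lit 0) (nat_lit 1526034220) (nat_lit 76) (nat_lit 1233143697) (nat_lit 107) (nat_lit 1) (nat_lit 105) (nat_lit 1) (nat_lit 106) (nat_lit 1) (nat_lit 342) (nat_lit 379) (nat_lit 299)) (XT.nd (nat_lit 78) (nat_lit 152) (nat_lit 0) (XT.lf (nat_lit 76) (nat_lit 11173285) (nat_lit 0) (nat_lit 2030939188) (nat_lit 76) (nat_lit 3779177864) (nat_lit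 105) (nat_lit 3) (nat_lit 104) (nat_lit 1) (nat_lit 105) (nat_lit 1) (nat_lit 343) (nat_lit 379) (nat_lit 298)) (XT.lf (nat_lit 152) (nat_lit 2719960243) (nat_lit 0) (nat_lit 2512813058) (nat_lit 76) (nat_lit 492797211) (nat_lit 104) (nat_lit 1) (nat_lit 102) (nat_lit 1) (nat_lit 103) (nat_lit 1) (nat_lit 344) (nat_lit 379) (nat_lit 297)))) (XT.nd (nat_lit 156) (nat_lit 228) (nat_lit 0) (XT.nd (nat_lit 78) (nat_lit 76) (nat_lit 0) (XT.lf (nat_lit 76) (nat_lit 2653420259) (nat_lit 0) (nat_lit 330050965) (nat_lit 152) (nat_lit 2648143363) (nat_lit 101) (nat_lit 1) (nat_lit 100) (nat_lit 1) (nat_lit 102) (nat_lit 1) (nat_lit 345) (nat_lit 379) (nat_lit 296)) (XT.lf (nat_lit 0) (nat_lit 185890794) (nat_lit 0) (nat_lit 3253987719) (nat_lit 152) (nat_lit 2099415827) (nat_lit 99) (nat_lit 3) (nat_lit 99) (nat_lit 1) (nat_lit 101) (nat_lit 1) (nat_lit 346) (nat_lit 379) (nat_lit 295))) (XT.nd (nat_lit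 78) (nat_lit 76) (nat_lit 0) (XT.lf (nat_lit 76) (nat_lit 3212814122) (nat_lit 0) (nat_lit 666334516) (nat_lit 152) (nat_lit 1569338002) (nat_lit 98) (nat_lit 1) (nat_lit 97) (nat_lit 1) (nat_lit 99) (nat_lit 1) (nat_lit 347) (nat_lit 379) (nat_lit 294)) (XT.lf (nat_lit 0) (nat_lit 802285322) (nat_lit 0) (nat_lit 3504085665) (nat_lit 152) (nat_lit 1052930418) (nat_lit 96) (nat_lit 3) (nat_lit 96) (nat_lit 1) (nat_lit 98) (nat_lit 1) (nat_lit 348) (nat_lit 379) (nat_lit 293))))))) (XT.nd (nat_lit 1092) (nat_lit 1672) (nat_lit 0) (XT.nd (nat_lit 546) (nat_lit 912) (nat_lit 0) (XT.nd (nat_lit 234) (nat_lit 456) (nat_lit 0) (XT.nd (nat_lit 78) (nat_lit 304) (nat_lit 0) (XT.lf (nat_lit 76) (nat_lit 3724055199) (nat_lit 0) (nat_lit 995679683) (nat_lit 152) (nat_lit 551913426) (nat_lit 95) (nat_lit 1) (nat_lit 94) (nat_lit 1) (nat_lit 96) (nat_lit 1) (nat_lit 349) (nat_lit 379) (nat_lit 292)) (XT.nd (nat_lit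 78) (nat_lit 228) (nat_lit 0) (XT.lf (nat_lit 0) (nat_lit 1369801059) (nat_lit 0) (nat_lit 3749036550) (nat_lit 152) (nat_lit 66641139) (nat_lit 93) (nat_lit 3) (nat_lit 93) (nat_lit 1) (nat_lit 95) (nat_lit 1) (nat_lit 350) (nat_lit 379) (nat_lit 291)) (XT.lf (nat_lit 152) (nat_lit 3780469759) (nat_lit 0) (nat_lit 414195460) (nat_lit 76) (nat_lit 906067605) (nat_lit 92) (nat_lit 1) (nat_lit 90) (nat_lit 1) (nat_lit 91) (nat_lit 1) (nat_lit 351) (nat_lit 379) (nat_lit 290)))) (XT.nd (nat_lit 156) (nat_lit 228) (nat_lit 0) (XT.nd (nat_lit 78) (nat_lit 152) (nat_lit 0) (XT.lf (nat_lit 76) (nat_lit 1021785243) (nat_lit 0) (nat_lit 878579781) (nat_lit 76) (nat_lit 3116966531) (nat_lit 90) (nat_lit 3) (nat_lit 89) (nat_lit 1) (nat_lit 90) (nat_lit 1) (nat_lit 352) (nat_lit 379) (nat_lit 289)) (XT.lf (nat_lit 152) (nat_lit 3295978046) (nat_lit 0) (nat_lit 1332777869) (nat_lit 76) (nat_lit 306723913)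 (nat_lit 89) (nat_lit 1) (nat_lit 87) (nat_lit 1) (nat_lit 88) (nat_lit 1) (nat_lit 353) (nat_lit 379) (nat_lit 288))) (XT.nd (nat_lit 78) (nat_lit 152) (nat_lit 0) (XT.lf (nat_lit 76) (nat_lit 621010838) (nat_lit 0) (nat_lit 1767819543) (nat_lit 76) (nat_lit 2466050829) (nat_lit 87) (nat_lit 3) (nat_lit 86) (nat_lit 1) (nat_lit 87) (nat_lit 1) (nat_lit 354) (nat_lit 379) (nat_lit 287)) (XT.lf (nat_lit 0) (nat_lit 243245291) (nat_lit 0) (nat_lit 1949246207) (nat_lit 152) (nat_lit 2583265630) (nat_lit 84) (nat_lit 3) (nat_lit 84) (nat_lit 1) (nat_lit 86) (nat_lit 1) (nat_lit 355) (nat_lit 379) (nat_lit 286))))) (XT.nd (nat_lit 234) (nat_lit 532) (nat_lit 0) (XT.nd (nat_lit 78) (nat_lit 304) (nat_lit 0) (XT.lf (nat_lit 76) (nat_lit 235664129) (nat_lit 0) (nat_lit 2601838376) (nat_lit 76) (nat_lit 1860426907) (nat_lit 84) (nat_lit 3) (nat_lit 83) (nat_lit 1) (nat_lit 84) (nat_lit 1) (nat_lit 356)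 (nat_lit 379) (nat_lit 285)) (XT.nd (nat_lit 78) (nat_lit 152) (nat_lit 0) (XT.lf (nat_lit 0) (nat_lit 746477201) (nat_lit 0) (nat_lit 2248800620) (nat_lit 152) (nat_lit 1626070084) (nat_lit 81) (nat_lit 3) (nat_lit 81) (nat_lit 1) (nat_lit 83) (nat_lit 1) (nat_lit 357) (nat_lit 379) (nat_lit 284)) (XT.lf (nat_lit 76) (nat_lit 3250392066) (nat_lit 0) (nat_lit 131015354) (nat_lit 152) (nat_lit 1164823039) (nat_lit 80) (nat_lit 1) (nat_lit 79) (nat_lit 1) (nat_lit 81) (nat_lit 1) (nat_lit 358) (nat_lit 379) (nat_lit 283)))) (XT.nd (nat_lit 156) (nat_lit 304) (nat_lit 0) (XT.nd (nat_lit 78) (nat_lit 152) (nat_lit 0) (XT.lf (nat_lit 0) (nat_lit 1211646507) (nat_lit 0) (nat_lit 2534609252) (nat_lit 152) (nat_lit 725882438) (nat_lit 78) (nat_lit 3) (nat_lit 78) (nat_lit 1) (nat_lit 80) (nat_lit 1) (nat_lit 359) (nat_lit 379) (nat_lit 282)) (XT.lf (nat_lit 76) (nat_lit 3630837200) (nat_lit 0) (nat_lit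 476931302) (nat_lit 152) (nat_lit 291793975) (nat_lit 77) (nat_lit 1) (nat_lit 76) (nat_lit 1) (nat_lit 78) (nat_lit 1) (nat_lit 360) (nat_lit 379) (nat_lit 281))) (XT.nd (nat_lit 78) (nat_lit 152) (nat_lit 0) (XT.lf (nat_lit 76) (nat_lit 1520471717) (nat_lit 0) (nat_lit 121940872) (nat_lit 76) (nat_lit 2685487453) (nat_lit 75) (nat_lit 3) (nat_lit 74) (nat_lit 1) (nat_lit 75) (nat_lit 1) (nat_lit 361) (nat_lit 379) (nat_lit 280)) (XT.lf (nat_lit 152) (nat_lit 3446043368) (nat_lit 0) (nat_lit 538023508) (nat_lit 76) (nat_lit 273583538) (nat_lit 74) (nat_lit 1) (nat_lit 72) (nat_lit 1) (nat_lit 73) (nat_lit 1) (nat_lit 362) (nat_lit 379) (nat_lit 279)))))) (XT.nd (nat_lit 546) (nat_lit 912) (nat_lit 0) (XT.nd (nat_lit 234) (nat_lit 456) (nat_lit 0) (XT.nd (nat_lit 78) (nat_lit 228) (nat_lit 0) (XT.lf (nat_lit 76) (nat_lit 1115852291) (nat_lit 0) (nat_lit 930656281) (nat_lit 76) (nat_lit 2141778132)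 (nat_lit 72) (nat_lit 3) (nat_lit 71) (nat_lit 1) (nat_lit 72) (nat_lit 1) (nat_lit 363) (nat_lit 379) (nat_lit 278)) (XT.nd (nat_lit 78) (nat_lit 76) (nat_lit 0) (XT.lf (nat_lit 0) (nat_lit 185328083) (nat_lit 0) (nat_lit 1133941897) (nat_lit 152) (nat_lit 2801074994) (nat_lit 69) (nat_lit 3) (nat_lit 69) (nat_lit 1) (nat_lit 71) (nat_lit 1) (nat_lit 364) (nat_lit 379) (nat_lit 277)) (XT.lf (nat_lit 76) (nat_lit 730917710) (nat_lit 0) (nat_lit 1688058385) (nat_lit 76) (nat_lit 1634359439) (nat_lit 69) (nat_lit 3) (nat_lit 68) (nat_lit 1) (nat_lit 69) (nat_lit 1) (nat_lit 365) (nat_lit 379) (nat_lit 276)))) (XT.nd (nat_lit 156) (nat_lit 228) (nat_lit 0) (XT.nd (nat_lit 78) (nat_lit 76) (nat_lit 0) (XT.lf (nat_lit 0) (nat_lit 606250270) (nat_lit 0) (nat_lit 1441610166) (nat_lit 152) (nat_lit 1939684887) (nat_lit 66) (nat_lit 3) (nat_lit 66) (nat_lit 1) (nat_lit 68) (nat_lit 1) (nat_lit 366) (nat_lit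 379) (nat_lit 275)) (XT.lf (nat_lit 76) (nat_lit 365476644) (nat_lit 0) (nat_lit 2396344069) (nat_lit 76) (nat_lit 1161057498) (nat_lit 66) (nat_lit 3) (nat_lit 65) (nat_lit 1) (nat_lit 66) (nat_lit 1) (nat_lit 367) (nat_lit 379) (nat_lit 274))) (XT.nd (nat_lit 78) (nat_lit 76) (nat_lit 0) (XT.lf (nat_lit 0) (nat_lit 996518977) (nat_lit 0) (nat_lit 1732146212) (nat_lit 152) (nat_lit 1130500244) (nat_lit 63) (nat_lit 3) (nat_lit 63) (nat_lit 1) (nat_lit 65) (nat_lit 1) (nat_lit 368) (nat_lit 379) (nat_lit 273)) (XT.lf (nat_lit 76) (nat_lit 19247724) (nat_lit 0) (nat_lit 3057660929) (nat_lit 76) (nat_lit 719845090) (nat_lit 63) (nat_lit 3) (nat_lit 62) (nat_lit 1) (nat_lit 63) (nat_lit 1) (nat_lit 369) (nat_lit 379) (nat_lit 272))))) (XT.nd (nat_lit 234) (nat_lit 456) (nat_lit 0) (XT.nd (nat_lit 78) (nat_lit 304) (nat_lit 0) (XT.lf (nat_lit 0) (nat_lit 1357996552) (nat_lit 0) (nat_lit 2005798093)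 (nat_lit 152) (nat_lit 371252839) (nat_lit 60) (nat_lit 3) (nat_lit 60) (nat_lit 1) (nat_lit 62) (nat_lit 1) (nat_lit 370) (nat_lit 379) (nat_lit 271)) (XT.nd (nat_lit 78) (nat_lit 152) (nat_lit 0) (XT.lf (nat_lit 76) (nat_lit 3368940584) (nat_lit 0) (nat_lit 302111911) (nat_lit 152) (nat_lit 3666668) (nat_lit 59) (nat_lit 1) (nat_lit 58) (nat_lit 1) (nat_lit 60) (nat_lit 1) (nat_lit 371) (nat_lit 379) (nat_lit 270)) (XT.lf (nat_lit 76) (nat_lit 1348721460) (nat_lit 0) (nat_lit 347036088) (nat_lit 76) (nat_lit 1919182716) (nat_lit 57) (nat_lit 3) (nat_lit 56) (nat_lit 1) (nat_lit 57) (nat_lit 1) (nat_lit 372) (nat_lit 379) (nat_lit 269)))) (XT.nd (nat_lit 156) (nat_lit 228) (nat_lit 0) (XT.nd (nat_lit 78) (nat_lit 76) (nat_lit 0) (XT.lf (nat_lit 0) (nat_lit 85091441) (nat_lit 0) (nat_lit 612563707) (nat_lit 152) (nat_lit 2858833846) (nat_lit 54) (nat_lit 3) (nat_lit 54) (nat_lit 1) (nat_lit 56)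 (nat_lit 1) (nat_lit 373) (nat_lit 379) (nat_lit 268)) (XT.lf (nat_lit 76) (nat_lit 985064773) (nat_lit 0) (nat_lit 1026219137) (nat_lit 76) (nat_lit 1487419312) (nat_lit 54) (nat_lit 3) (nat_lit 53) (nat_lit 1) (nat_lit 54) (nat_lit 1) (nat_lit 374) (nat_lit 379) (nat_lit 267))) (XT.nd (nat_lit 78) (nat_lit 76) (nat_lit 0) (XT.lf (nat_lit 0) (nat_lit 443166889) (nat_lit 0) (nat_lit 907664845) (nat_lit 152) (nat_lit 2091253588) (nat_lit 51) (nat_lit 3) (nat_lit 51) (nat_lit 1) (nat_lit 53) (nat_lit 1) (nat_lit 375) (nat_lit 379) (nat_lit 266)) (XT.lf (nat_lit 76) (nat_lit 641450103) (nat_lit 0) (nat_lit 1661026810) (nat_lit 76) (nat_lit 1083829108) (nat_lit 51) (nat_lit 3) (nat_lit 50) (nat_lit 1) (nat_lit 51) (nat_lit 1) (nat_lit 376) (nat_lit 379) (nat_lit 265))))))))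
noncomputable def ec82 : XT := (XT.nd (nat_lit 44928) (nat_lit 0) (nat_lit 13680) (XT.nd (nat_lit 1092) (nat_lit 304) (nat_lit 0) (XT.nd (nat_lit 546) (nat_lit 836) (nat_lit 0) (XT.nd (nat_lit 234) (nat_lit 532) (nat_lit 0) (XT.nd (nat_lit 78) (nat_lit 228) (nat_lit 0) (XT.lf (nat_lit 0) (nat_lit 775925299) (nat_lit 0) (nat_lit 1184967375) (nat_lit 152) (nat_lit 1370567750) (nat_lit 48) (nat_lit 3) (nat_lit 48) (nat_lit 1) (nat_lit 50) (nat_lit 1) (nat_lit 377) (nat_lit 379) (nat_lit 264)) (XT.nd (nat_lit 78) (nat_lit 152) (nat_lit 0) (XT.lf (nat_lit 76) (nat_lit 317270142) (nat_lit 0) (nat_lit 2253510594) (nat_lit 76) (nat_lit 706834024) (nat_lit 48) (nat_lit 3) (nat_lit 47) (nat_lit 1) (nat_lit 48) (nat_lit 1) (nat_lit 378) (nat_lit 379) (nat_lit 263)) (XT.lf (nat_lit 0) (nat_lit 1084818993) (nat_lit 0) (nat_lit 1445026004) (nat_lit 152) (nat_lit 694637795) (nat_lit 45) (nat_lit 3) (nat_lit 45)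 (nat_lit 1) (nat_lit 47) (nat_lit 1) (nat_lit 379) (nat_lit 379) (nat_lit 262)))) (XT.nd (nat_lit 156) (nat_lit 304) (nat_lit 0) (XT.nd (nat_lit 78) (nat_lit 152) (nat_lit 0) (XT.lf (nat_lit 76) (nat_lit 11896403) (nat_lit 0) (nat_lit 2805653755) (nat_lit 76) (nat_lit 354950699) (nat_lit 45) (nat_lit 3) (nat_lit 44) (nat_lit 1) (nat_lit 45) (nat_lit 1) (nat_lit 380) (nat_lit 379) (nat_lit 261)) (XT.lf (nat_lit 0) (nat_lit 1371212730) (nat_lit 0) (nat_lit 1688415037) (nat_lit 152) (nat_lit 61398338) (nat_lit 42) (nat_lit 3) (nat_lit 42) (nat_lit 1) (nat_lit 44) (nat_lit 1) (nat_lit 381) (nat_lit 379) (nat_lit 260))) (XT.nd (nat_lit 78) (nat_lit 76) (nat_lit 0) (XT.lf (nat_lit 152) (nat_lit 2798336841) (nat_lit 0) (nat_lit 250777559) (nat_lit 76) (nat_lit 21574654) (nat_lit 41) (nat_lit 1) (nat_lit 39) (nat_lit 1) (nat_lit 40) (nat_lit 1) (nat_lit 382) (nat_lit 379) (nat_lit 259)) (XT.lf (nat_lit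 76) (nat_lit 1099883429) (nat_lit 0) (nat_lit 541713998) (nat_lit 76) (nat_lit 1379215317) (nat_lit 39) (nat_lit 3) (nat_lit 38) (nat_lit 1) (nat_lit 39) (nat_lit 1) (nat_lit 383) (nat_lit 379) (nat_lit 258))))) (XT.nd (nat_lit 234) (nat_lit 456) (nat_lit 0) (XT.nd (nat_lit 78) (nat_lit 228) (nat_lit 0) (XT.lf (nat_lit 0) (nat_lit 286935328) (nat_lit 0) (nat_lit 545217239) (nat_lit 152) (nat_lit 2139880797) (nat_lit 36) (nat_lit 3) (nat_lit 36) (nat_lit 1) (nat_lit 38) (nat_lit 1) (nat_lit 384) (nat_lit 379) (nat_lit 257)) (XT.nd (nat_lit 78) (nat_lit 152) (nat_lit 0) (XT.lf (nat_lit 76) (nat_lit 785696841) (nat_lit 0) (nat_lit 1106499091) (nat_lit 76) (nat_lit 1031679614) (nat_lit 36) (nat_lit 3) (nat_lit 35) (nat_lit 1) (nat_lit 36) (nat_lit 1) (nat_lit 385) (nat_lit 379) (nat_lit 256)) (XT.lf (nat_lit 0) (nat_lit 573735696) (nat_lit 0) (nat_lit 801181626) (nat_lit 152) (nat_lit 1501697233) (nat_lit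 33) (nat_lit 3) (nat_lit 33) (nat_lit 1) (nat_lit 35) (nat_lit 1) (nat_lit 386) (nat_lit 379) (nat_lit 255)))) (XT.nd (nat_lit 156) (nat_lit 228) (nat_lit 0) (XT.nd (nat_lit 78) (nat_lit 152) (nat_lit 0) (XT.lf (nat_lit 76) (nat_lit 489941746) (nat_lit 0) (nat_lit 1633621078) (nat_lit 76) (nat_lit 706556917) (nat_lit 33) (nat_lit 3) (nat_lit 32) (nat_lit 1) (nat_lit 33) (nat_lit 1) (nat_lit 387) (nat_lit 379) (nat_lit 254)) (XT.lf (nat_lit 0) (nat_lit 840417364) (nat_lit 0) (nat_lit 1040708784) (nat_lit 152) (nat_lit 903201744) (nat_lit 30) (nat_lit 3) (nat_lit 30) (nat_lit 1) (nat_lit 32) (nat_lit 1) (nat_lit 388) (nat_lit 379) (nat_lit 253))) (XT.nd (nat_lit 78) (nat_lit 152) (nat_lit 0) (XT.lf (nat_lit 76) (nat_lit 211894195) (nat_lit 0) (nat_lit 2124894626) (nat_lit 76) (nat_lit 402647928) (nat_lit 30) (nat_lit 3) (nat_lit 29) (nat_lit 1) (nat_lit 30) (nat_lit 1) (nat_lit 389) (nat_lit 379)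 (nat_lit 252)) (XT.lf (nat_lit 0) (nat_lit 1088085255) (nat_lit 0) (nat_lit 1264464112) (nat_lit 152) (nat_lit 342517214) (nat_lit 27) (nat_lit 3) (nat_lit 27) (nat_lit 1) (nat_lit 29) (nat_lit 1) (nat_lit 390) (nat_lit 379) (nat_lit 251)))))) (XT.nd (nat_lit 43290) (nat_lit 0) (nat_lit 25156) (XT.nd (nat_lit 42978) (nat_lit 0) (nat_lit 26752) (XT.nd (nat_lit 78) (nat_lit 152) (nat_lit 0) (XT.lf (nat_lit 76) (nat_lit 2533375828) (nat_lit 0) (nat_lit 48201773) (nat_lit 152) (nat_lit 70130263) (nat_lit 26) (nat_lit 1) (nat_lit 25) (nat_lit 1) (nat_lit 27) (nat_lit 1) (nat_lit 391) (nat_lit 379) (nat_lit 250)) (XT.nd (nat_lit 42822) (nat_lit 0) (nat_lit 26676) (XT.lf (nat_lit 76) (nat_lit 1133783567) (nat_lit 0) (nat_lit 185785896) (nat_lit 76) (nat_lit 1289104754) (nat_lit 24) (nat_lit 3) (nat_lit 23) (nat_lit 1) (nat_lit 24) (nat_lit 1) (nat_lit 392) (nat_lit 379) (nat_lit 249)) (XT.lf (nat_lit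 1292) (nat_lit 2625648828) (nat_lit 0) (nat_lit 9033453076) (nat_lit 1292) (nat_lit 2625648828) (nat_lit 391) (nat_lit 1) (nat_lit 374) (nat_lit 0) (nat_lit 391) (nat_lit 0) (nat_lit 260) (nat_lit 380) (nat_lit 380)))) (XT.nd (nat_lit 156) (nat_lit 0) (nat_lit 76) (XT.nd (nat_lit 78) (nat_lit 0) (nat_lit 0) (XT.lf (nat_lit 1292) (nat_lit 210502869) (nat_lit 0) (nat_lit 17812069901) (nat_lit 1216) (nat_lit 9861442622) (nat_lit 392) (nat_lit 1) (nat_lit 375) (nat_lit 1) (nat_lit 391) (nat_lit 1) (nat_lit 261) (nat_lit 380) (nat_lit 379)) (XT.lf (nat_lit 1292) (nat_lit 9261221176) (nat_lit 76) (nat_lit 13099658460) (nat_lit 0) (nat_lit 4858624453) (nat_lit 392) (nat_lit 1) (nat_lit 376) (nat_lit 1) (nat_lit 375) (nat_lit 1) (nat_lit 262) (nat_lit 380) (nat_lit 378))) (XT.nd (nat_lit 78) (nat_lit 0) (nat_lit 76) (XT.lf (nat_lit 1292) (nat_lit 8141398723) (nat_lit 76) (nat_lit 8574663833) (nat_lit 0)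 (nat_lit 9860446323) (nat_lit 393) (nat_lit 1) (nat_lit 377) (nat_lit 1) (nat_lit 376) (nat_lit 1) (nat_lit 263) (nat_lit 380) (nat_lit 377)) (XT.lf (nat_lit 1292) (nat_lit 6737555646) (nat_lit 76) (nat_lit 4429261759) (nat_lit 0) (nat_lit 14787489485) (nat_lit 394) (nat_lit 1) (nat_lit 378) (nat_lit 1) (nat_lit 377) (nat_lit 1) (nat_lit 264) (nat_lit 380) (nat_lit 376))))) (XT.nd (nat_lit 234) (nat_lit 1824) (nat_lit 0) (XT.nd (nat_lit 78) (nat_lit 0) (nat_lit 76) (XT.lf (nat_lit 1292) (nat_lit 5071341140) (nat_lit 76) (nat_lit 643949147) (nat_lit 0) (nat_lit 19636854318) (nat_lit 395) (nat_lit 1) (nat_lit 379) (nat_lit 1) (nat_lit 378) (nat_lit 1) (nat_lit 265) (nat_lit 380) (nat_lit 375)) (XT.nd (nat_lit 78) (nat_lit 0) (nat_lit 0) (XT.lf (nat_lit 1292) (nat_lit 390212656) (nat_lit 0) (nat_lit 21633043249) (nat_lit 1216) (nat_lit 2745235108) (nat_lit 396) (nat_lit 1) (nat_lit 379) (nat_lit 1)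 (nat_lit 395) (nat_lit 1) (nat_lit 266) (nat_lit 380) (nat_lit 374)) (XT.lf (nat_lit 1292) (nat_lit 924888884) (nat_lit 76) (nat_lit 18350175184) (nat_lit 0) (nat_lit 4926881403) (nat_lit 396) (nat_lit 1) (nat_lit 380) (nat_lit 1) (nat_lit 379) (nat_lit 1) (nat_lit 267) (nat_lit 380) (nat_lit 373)))) (XT.nd (nat_lit 156) (nat_lit 684) (nat_lit 0) (XT.nd (nat_lit 78) (nat_lit 0) (nat_lit 76) (XT.lf (nat_lit 1368) (nat_lit 13517240553) (nat_lit 0) (nat_lit 1461072334) (nat_lit 1292) (nat_lit 8674613967) (nat_lit 381) (nat_lit 1) (nat_lit 363) (nat_lit 1) (nat_lit 380) (nat_lit 1) (nat_lit 268) (nat_lit 380) (nat_lit 372)) (XT.lf (nat_lit 1368) (nat_lit 7889940044) (nat_lit 0) (nat_lit 4009010373) (nat_lit 1292) (nat_lit 11222064070) (nat_lit 382) (nat_lit 1) (nat_lit 364) (nat_lit 1) (nat_lit 381) (nat_lit 1) (nat_lit 269) (nat_lit 380) (nat_lit 371))) (XT.nd (nat_lit 78) (nat_lit 836) (nat_lit 0)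 (XT.lf (nat_lit 76) (nat_lit 2384381738) (nat_lit 0) (nat_lit 6721343846) (nat_lit 1292) (nat_lit 13500133925) (nat_lit 366) (nat_lit 1) (nat_lit 365) (nat_lit 1) (nat_lit 382) (nat_lit 1) (nat_lit 270) (nat_lit 380) (nat_lit 370)) (XT.lf (nat_lit 912) (nat_lit 12493215734) (nat_lit 0) (nat_lit 6553546132) (nat_lit 836) (nat_lit 3059226238) (nat_lit 366) (nat_lit 1) (nat_lit 354) (nat_lit 1) (nat_lit 365) (nat_lit 1) (nat_lit 271) (nat_lit 380) (nat_lit 369))))))) (XT.nd (nat_lit 1092) (nat_lit 4712) (nat_lit 0) (XT.nd (nat_lit 546) (nat_lit 3268) (nat_lit 0) (XT.nd (nat_lit 234) (nat_lit 1748) (nat_lit 0) (XT.nd (nat_lit 78) (nat_lit 1140) (nat_lit 0) (XT.lf (nat_lit 684) (nat_lit 8958807322) (nat_lit 0) (nat_lit 4235730711) (nat_lit 608) (nat_lit 8426510253) (nat_lit 355) (nat_lit 1) (nat_lit 346) (nat_lit 1) (nat_lit 354) (nat_lit 1) (nat_lit 272) (nat_lit 380) (nat_lit 368)) (XT.nd (nat_lit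 78) (nat_lit 532) (nat_lit 0) (XT.lf (nat_lit 684) (nat_lit 5317823947) (nat_lit 0) (nat_lit 2162886899) (nat_lit 608) (nat_lit 13670483778) (nat_lit 347) (nat_lit 1) (nat_lit 338) (nat_lit 1) (nat_lit 346) (nat_lit 1) (nat_lit 273) (nat_lit 380) (nat_lit 367)) (XT.lf (nat_lit 608) (nat_lit 1581957677) (nat_lit 0) (nat_lit 322166840) (nat_lit 532) (nat_lit 18791776941) (nat_lit 339) (nat_lit 1) (nat_lit 331) (nat_lit 1) (nat_lit 338) (nat_lit 1) (nat_lit 274) (nat_lit 380) (nat_lit 366)))) (XT.nd (nat_lit 156) (nat_lit 1064) (nat_lit 0) (XT.nd (nat_lit 78) (nat_lit 608) (nat_lit 0) (XT.lf (nat_lit 76) (nat_lit 16681072437) (nat_lit 0) (nat_lit 2241653121) (nat_lit 608) (nat_lit 1329867462) (nat_lit 331) (nat_lit 1) (nat_lit 330) (nat_lit 1) (nat_lit 338) (nat_lit 1) (nat_lit 275) (nat_lit 380) (nat_lit 365)) (XT.lf (nat_lit 76) (nat_lit 10891685850) (nat_lit 0) (nat_lit 6125202725) (nat_lit 684)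 (nat_lit 2804928997) (nat_lit 323) (nat_lit 1) (nat_lit 322) (nat_lit 1) (nat_lit 331) (nat_lit 1) (nat_lit 276) (nat_lit 380) (nat_lit 364))) (XT.nd (nat_lit 78) (nat_lit 532) (nat_lit 0) (XT.lf (nat_lit 76) (nat_lit 5249842867) (nat_lit 0) (nat_lit 10068284050) (nat_lit 608) (nat_lit 4086094446) (nat_lit 316) (nat_lit 1) (nat_lit 315) (nat_lit 1) (nat_lit 323) (nat_lit 1) (nat_lit 277) (nat_lit 380) (nat_lit 363)) (XT.lf (nat_lit 608) (nat_lit 4934697817) (nat_lit 0) (nat_lit 13813151349) (nat_lit 532) (nat_lit 251432008) (nat_lit 316) (nat_lit 1) (nat_lit 308) (nat_lit 1) (nat_lit 315) (nat_lit 1) (nat_lit 278) (nat_lit 380) (nat_lit 362))))) (XT.nd (nat_lit 234) (nat_lit 1748) (nat_lit 0) (XT.nd (nat_lit 78) (nat_lit 1064) (nat_lit 0) (XT.lf (nat_lit 532) (nat_lit 451552895) (nat_lit 0) (nat_lit 12442580764) (nat_lit 456) (nat_lit 5711000244) (nat_lit 309) (nat_lit 1) (nat_lit 302) (nat_lit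 1) (nat_lit 308) (nat_lit 1) (nat_lit 279) (nat_lit 380) (nat_lit 361)) (XT.nd (nat_lit 78) (nat_lit 456) (nat_lit 0) (XT.lf (nat_lit 76) (nat_lit 7235246012) (nat_lit 0) (nat_lit 3974196509) (nat_lit 608) (nat_lit 7012294188) (nat_lit 295) (nat_lit 1) (nat_lit 294) (nat_lit 1) (nat_lit 302) (nat_lit 1) (nat_lit 280) (nat_lit 380) (nat_lit 360)) (XT.lf (nat_lit 76) (nat_lit 1734009709) (nat_lit 0) (nat_lit 8405836264) (nat_lit 532) (nat_lit 7709875570) (nat_lit 289) (nat_lit 1) (nat_lit 288) (nat_lit 1) (nat_lit 295) (nat_lit 1) (nat_lit 281) (nat_lit 380) (nat_lit 359)))) (XT.nd (nat_lit 156) (nat_lit 836) (nat_lit 0) (XT.nd (nat_lit 78) (nat_lit 456) (nat_lit 0) (XT.lf (nat_lit 532) (nat_lit 4606254233) (nat_lit 0) (nat_lit 9192830257) (nat_lit 456) (nat_lit 3688684809) (nat_lit 289) (nat_lit 1) (nat_lit 282) (nat_lit 1) (nat_lit 288) (nat_lit 1) (nat_lit 282) (nat_lit 380) (nat_lit 358)) (XT.lf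 (nat_lit 76) (nat_lit 8143170291) (nat_lit 0) (nat_lit 234854181) (nat_lit 456) (nat_lit 8758012296) (nat_lit 277) (nat_lit 1) (nat_lit 276) (nat_lit 1) (nat_lit 282) (nat_lit 1) (nat_lit 283) (nat_lit 380) (nat_lit 357))) (XT.nd (nat_lit 78) (nat_lit 380) (nat_lit 0) (XT.lf (nat_lit 76) (nat_lit 2689608841) (nat_lit 0) (nat_lit 4972094675) (nat_lit 532) (nat_lit 9131716838) (nat_lit 271) (nat_lit 1) (nat_lit 270) (nat_lit 1) (nat_lit 277) (nat_lit 1) (nat_lit 284) (nat_lit 380) (nat_lit 356)) (XT.lf (nat_lit 456) (nat_lit 6743651572) (nat_lit 0) (nat_lit 7055402010) (nat_lit 380) (nat_lit 2661083430) (nat_lit 271) (nat_lit 1) (nat_lit 265) (nat_lit 1) (nat_lit 270) (nat_lit 1) (nat_lit 285) (nat_lit 380) (nat_lit 355)))))) (XT.nd (nat_lit 546) (nat_lit 2128) (nat_lit 0) (XT.nd (nat_lit 234) (nat_lit 1368) (nat_lit 0) (XT.nd (nat_lit 78) (nat_lit 836) (nat_lit 0) (XT.lf (nat_lit 456) (nat_lit 1672652681)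 (nat_lit 0) (nat_lit 6552465404) (nat_lit 380) (nat_lit 7910758099) (nat_lit 266) (nat_lit 1) (nat_lit 260) (nat_lit 1) (nat_lit 265) (nat_lit 1) (nat_lit 286) (nat_lit 380) (nat_lit 354)) (XT.nd (nat_lit 78) (nat_lit 380) (nat_lit 0) (XT.lf (nat_lit 76) (nat_lit 2844215727) (nat_lit 0) (nat_lit 3295491289) (nat_lit 456) (nat_lit 9680432267) (nat_lit 255) (nat_lit 1) (nat_lit 254) (nat_lit 1) (nat_lit 260) (nat_lit 1) (nat_lit 287) (nat_lit 380) (nat_lit 353)) (XT.lf (nat_lit 456) (nat_lit 7297872148) (nat_lit 0) (nat_lit 5803627077) (nat_lit 380) (nat_lit 2410921553) (nat_lit 255) (nat_lit 1) (nat_lit 249) (nat_lit 1) (nat_lit 254) (nat_lit 1) (nat_lit 288) (nat_lit 380) (nat_lit 352)))) (XT.nd (nat_lit 156) (nat_lit 608) (nat_lit 0) (XT.nd (nat_lit 78) (nat_lit 456) (nat_lit 0) (XT.lf (nat_lit 380) (nat_lit 2095256722) (nat_lit 0) (nat_lit 5551072194) (nat_lit 304) (nat_lit 7566480978) (nat_lit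 250) (nat_lit 1) (nat_lit 245) (nat_lit 1) (nat_lit 249) (nat_lit 1) (nat_lit 289) (nat_lit 380) (nat_lit 351)) (XT.lf (nat_lit 76) (nat_lit 2381711044) (nat_lit 0) (nat_lit 2992677811) (nat_lit 456) (nat_lit 9546586766) (nat_lit 240) (nat_lit 1) (nat_lit 239) (nat_lit 1) (nat_lit 245) (nat_lit 1) (nat_lit 290) (nat_lit 380) (nat_lit 350))) (XT.nd (nat_lit 78) (nat_lit 304) (nat_lit 0) (XT.lf (nat_lit 380) (nat_lit 6625900834) (nat_lit 0) (nat_lit 5250417949) (nat_lit 304) (nat_lit 2759818606) (nat_lit 240) (nat_lit 1) (nat_lit 235) (nat_lit 1) (nat_lit 239) (nat_lit 1) (nat_lit 291) (nat_lit 380) (nat_lit 349)) (XT.lf (nat_lit 380) (nat_lit 1366911622) (nat_lit 0) (nat_lit 5199133805) (nat_lit 304) (nat_lit 7792727534) (nat_lit 236) (nat_lit 1) (nat_lit 231) (nat_lit 1) (nat_lit 235) (nat_lit 1) (nat_lit 292) (nat_lit 380) (nat_lit 348))))) (XT.nd (nat_lit 234) (nat_lit 1140) (nat_lit 0) (XT.nd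 (nat_lit 78) (nat_lit 608) (nat_lit 0) (XT.lf (nat_lit 76) (nat_lit 1452620411) (nat_lit 0) (nat_lit 3748737399) (nat_lit 380) (nat_lit 8886863892) (nat_lit 227) (nat_lit 1) (nat_lit 226) (nat_lit 1) (nat_lit 231) (nat_lit 1) (nat_lit 293) (nat_lit 380) (nat_lit 347)) (XT.nd (nat_lit 78) (nat_lit 304) (nat_lit 0) (XT.lf (nat_lit 380) (nat_lit 5020455746) (nat_lit 0) (nat_lit 5241706246) (nat_lit 304) (nat_lit 3561773461) (nat_lit 227) (nat_lit 1) (nat_lit 222) (nat_lit 1) (nat_lit 226) (nat_lit 1) (nat_lit 294) (nat_lit 380) (nat_lit 346)) (XT.lf (nat_lit 76) (nat_lit 5118332038) (nat_lit 0) (nat_lit 230291656) (nat_lit 304) (nat_lit 8218020824) (nat_lit 219) (nat_lit 1) (nat_lit 218) (nat_lit 1) (nat_lit 222) (nat_lit 1) (nat_lit 295) (nat_lit 380) (nat_lit 345)))) (XT.nd (nat_lit 156) (nat_lit 608) (nat_lit 0) (XT.nd (nat_lit 78) (nat_lit 228) (nat_lit 0) (XT.lf (nat_lit 76) (nat_lit 179725675)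 (nat_lit 0) (nat_lit 5305744374) (nat_lit 380) (nat_lit 7829715345) (nat_lit 215) (nat_lit 1) (nat_lit 214) (nat_lit 1) (nat_lit 219) (nat_lit 1) (nat_lit 296) (nat_lit 380) (nat_lit 344)) (XT.lf (nat_lit 304) (nat_lit 2720761468) (nat_lit 0) (nat_lit 5650949056) (nat_lit 228) (nat_lit 4697715325) (nat_lit 215) (nat_lit 1) (nat_lit 211) (nat_lit 1) (nat_lit 214) (nat_lit 1) (nat_lit 297) (nat_lit 380) (nat_lit 343))) (XT.nd (nat_lit 78) (nat_lit 228) (nat_lit 0) (XT.lf (nat_lit 76) (nat_lit 3427382905) (nat_lit 0) (nat_lit 2434998910) (nat_lit 380) (nat_lit 6967395887) (nat_lit 207) (nat_lit 1) (nat_lit 206) (nat_lit 1) (nat_lit 211) (nat_lit 1) (nat_lit 298) (nat_lit 380) (nat_lit 342)) (XT.lf (nat_lit 304) (nat_lit 5129342258) (nat_lit 0) (nat_lit 6102446596) (nat_lit 228) (nat_lit 1363856669) (nat_lit 207) (nat_lit 1) (nat_lit 203) (nat_lit 1) (nat_lit 206) (nat_lit 1) (nat_lit 299) (nat_lit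 380) (nat_lit 341))))))))
noncomputable def ec83 : XT := (XT.nd (nat_lit 2184) (nat_lit 3648) (nat_lit 0) (XT.nd (nat_lit 1092) (nat_lit 2356) (nat_lit 0) (XT.nd (nat_lit 546) (nat_lit 1520) (nat_lit 0) (XT.nd (nat_lit 234) (nat_lit 988) (nat_lit 0) (XT.nd (nat_lit 78) (nat_lit 456) (nat_lit 0) (XT.lf (nat_lit 76) (nat_lit 6296845474) (nat_lit 0) (nat_lit 76908846) (nat_lit 304) (nat_lit 5993261858) (nat_lit 200) (nat_lit 1) (nat_lit 199) (nat_lit 1) (nat_lit 203) (nat_lit 1) (nat_lit 300) (nat_lit 380) (nat_lit 340)) (XT.nd (nat_lit 78) (nat_lit 228) (nat_lit 0) (XT.lf (nat_lit 76) (nat_lit 1564871436) (nat_lit 0) (nat_lit 5093125733) (nat_lit 304) (nat_lit 5485271778) (nat_lit 197) (nat_lit 1) (nat_lit 196) (nat_lit 1) (nat_lit 200) (nat_lit 1) (nat_lit 301) (nat_lit 380) (nat_lit 339)) (XT.lf (nat_lit 304) (nat_lit 1875225406) (nat_lit 0) (nat_lit 6971835457) (nat_lit 228) (nat_lit 3077742401)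 (nat_lit 197) (nat_lit 1) (nat_lit 193) (nat_lit 1) (nat_lit 196) (nat_lit 1) (nat_lit 302) (nat_lit 380) (nat_lit 338)))) (XT.nd (nat_lit 156) (nat_lit 456) (nat_lit 0) (XT.nd (nat_lit 78) (nat_lit 228) (nat_lit 0) (XT.lf (nat_lit 76) (nat_lit 4139511692) (nat_lit 0) (nat_lit 3156530224) (nat_lit 304) (nat_lit 4414933014) (nat_lit 190) (nat_lit 1) (nat_lit 189) (nat_lit 1) (nat_lit 193) (nat_lit 1) (nat_lit 303) (nat_lit 380) (nat_lit 337)) (XT.lf (nat_lit 304) (nat_lit 3440083821) (nat_lit 0) (nat_lit 7653244446) (nat_lit 228) (nat_lit 409032166) (nat_lit 190) (nat_lit 1) (nat_lit 186) (nat_lit 1) (nat_lit 189) (nat_lit 1) (nat_lit 304) (nat_lit 380) (nat_lit 336))) (XT.nd (nat_lit 78) (nat_lit 228) (nat_lit 0) (XT.lf (nat_lit 76) (nat_lit 6421489921) (nat_lit 0) (nat_lit 1584990223) (nat_lit 228) (nat_lit 3291322033) (nat_lit 184) (nat_lit 1) (nat_lit 183) (nat_lit 1) (nat_lit 186) (nat_lit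 1) (nat_lit 305) (nat_lit 380) (nat_lit 335)) (XT.lf (nat_lit 76) (nat_lit 1930807567) (nat_lit 0) (nat_lit 6446528105) (nat_lit 304) (nat_lit 2720513765) (nat_lit 181) (nat_lit 1) (nat_lit 180) (nat_lit 1) (nat_lit 184) (nat_lit 1) (nat_lit 306) (nat_lit 380) (nat_lit 334))))) (XT.nd (nat_lit 234) (nat_lit 912) (nat_lit 0) (XT.nd (nat_lit 78) (nat_lit 380) (nat_lit 0) (XT.lf (nat_lit 76) (nat_lit 8441727599) (nat_lit 0) (nat_lit 327433364) (nat_lit 228) (nat_lit 2133360874) (nat_lit 178) (nat_lit 1) (nat_lit 177) (nat_lit 1) (nat_lit 180) (nat_lit 1) (nat_lit 307) (nat_lit 380) (nat_lit 333)) (XT.nd (nat_lit 78) (nat_lit 152) (nat_lit 0) (XT.lf (nat_lit 76) (nat_lit 4007562218) (nat_lit 0) (nat_lit 5135886953) (nat_lit 304) (nat_lit 1567172180) (nat_lit 175) (nat_lit 1) (nat_lit 174) (nat_lit 1) (nat_lit 178) (nat_lit 1) (nat_lit 308) (nat_lit 380) (nat_lit 332)) (XT.lf (nat_lit 228) (nat_lit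 673912106) (nat_lit 0) (nat_lit 9560273003) (nat_lit 152) (nat_lit 289637556) (nat_lit 175) (nat_lit 1) (nat_lit 172) (nat_lit 1) (nat_lit 174) (nat_lit 1) (nat_lit 309) (nat_lit 380) (nat_lit 331)))) (XT.nd (nat_lit 156) (nat_lit 380) (nat_lit 0) (XT.nd (nat_lit 78) (nat_lit 304) (nat_lit 0) (XT.lf (nat_lit 76) (nat_lit 5855602444) (nat_lit 0) (nat_lit 4083907980) (nat_lit 228) (nat_lit 400208122) (nat_lit 170) (nat_lit 1) (nat_lit 169) (nat_lit 1) (nat_lit 172) (nat_lit 1) (nat_lit 310) (nat_lit 380) (nat_lit 330)) (XT.lf (nat_lit 228) (nat_lit 1428416243) (nat_lit 0) (nat_lit 198078909) (nat_lit 152) (nat_lit 8533823216) (nat_lit 168) (nat_lit 1) (nat_lit 165) (nat_lit 1) (nat_lit 167) (nat_lit 1) (nat_lit 311) (nat_lit 380) (nat_lit 329))) (XT.nd (nat_lit 78) (nat_lit 152) (nat_lit 0) (XT.lf (nat_lit 228) (nat_lit 6722935992) (nat_lit 0) (nat_lit 783003732) (nat_lit 152) (nat_lit 2477995307)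 (nat_lit 165) (nat_lit 1) (nat_lit 162) (nat_lit 1) (nat_lit 164) (nat_lit 1) (nat_lit 312) (nat_lit 380) (nat_lit 328)) (XT.lf (nat_lit 228) (nat_lit 1972071641) (nat_lit 0) (nat_lit 1373417162) (nat_lit 152) (nat_lit 6465906944) (nat_lit 163) (nat_lit 1) (nat_lit 160) (nat_lit 1) (nat_lit 162) (nat_lit 1) (nat_lit 313) (nat_lit 380) (nat_lit 327)))))) (XT.nd (nat_lit 546) (nat_lit 1140) (nat_lit 0) (XT.nd (nat_lit 234) (nat_lit 608) (nat_lit 0) (XT.nd (nat_lit 78) (nat_lit 380) (nat_lit 0) (XT.lf (nat_lit 228) (nat_lit 7011406323) (nat_lit 0) (nat_lit 1964385781) (nat_lit 152) (nat_lit 666694544) (nat_lit 160) (nat_lit 1) (nat_lit 157) (nat_lit 1) (nat_lit 159) (nat_lit 1) (nat_lit 314) (nat_lit 380) (nat_lit 326)) (XT.nd (nat_lit 78) (nat_lit 228) (nat_lit 0) (XT.lf (nat_lit 228) (nat_lit 2347549136) (nat_lit 0) (nat_lit 2536048725) (nat_lit 152) (nat_lit 4592962563) (nat_lit 158) (nat_lit 1)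 (nat_lit 155) (nat_lit 1) (nat_lit 157) (nat_lit 1) (nat_lit 315) (nat_lit 380) (nat_lit 325)) (XT.lf (nat_lit 76) (nat_lit 946283639) (nat_lit 0) (nat_lit 2171194358) (nat_lit 228) (nat_lit 6196918309) (nat_lit 153) (nat_lit 1) (nat_lit 152) (nat_lit 1) (nat_lit 155) (nat_lit 1) (nat_lit 316) (nat_lit 380) (nat_lit 324)))) (XT.nd (nat_lit 156) (nat_lit 304) (nat_lit 0) (XT.nd (nat_lit 78) (nat_lit 152) (nat_lit 0) (XT.lf (nat_lit 228) (nat_lit 2581046989) (nat_lit 0) (nat_lit 3677640740) (nat_lit 152) (nat_lit 2896336454) (nat_lit 153) (nat_lit 1) (nat_lit 150) (nat_lit 1) (nat_lit 152) (nat_lit 1) (nat_lit 317) (nat_lit 380) (nat_lit 323)) (XT.lf (nat_lit 76) (nat_lit 2387233213) (nat_lit 0) (nat_lit 1852265745) (nat_lit 152) (nat_lit 4759548915) (nat_lit 149) (nat_lit 1) (nat_lit 148) (nat_lit 1) (nat_lit 150) (nat_lit 1) (nat_lit 318) (nat_lit 380) (nat_lit 322))) (XT.nd (nat_lit 78) (nat_lit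 152) (nat_lit 0) (XT.lf (nat_lit 228) (nat_lit 2695340021) (nat_lit 0) (nat_lit 4791373502) (nat_lit 152) (nat_lit 1359349940) (nat_lit 149) (nat_lit 1) (nat_lit 146) (nat_lit 1) (nat_lit 148) (nat_lit 1) (nat_lit 319) (nat_lit 380) (nat_lit 321)) (XT.lf (nat_lit 76) (nat_lit 3684336846) (nat_lit 0) (nat_lit 1646600185) (nat_lit 152) (nat_lit 3365003611) (nat_lit 145) (nat_lit 1) (nat_lit 144) (nat_lit 1) (nat_lit 146) (nat_lit 1) (nat_lit 320) (nat_lit 380) (nat_lit 320))))) (XT.nd (nat_lit 234) (nat_lit 684) (nat_lit 0) (XT.nd (nat_lit 78) (nat_lit 304) (nat_lit 0) (XT.lf (nat_lit 76) (nat_lit 32282243) (nat_lit 0) (nat_lit 5839127742) (nat_lit 228) (nat_lit 2677593147) (nat_lit 143) (nat_lit 1) (nat_lit 142) (nat_lit 1) (nat_lit 145) (nat_lit 1) (nat_lit 321) (nat_lit 380) (nat_lit 319)) (XT.nd (nat_lit 78) (nat_lit 152) (nat_lit 0) (XT.lf (nat_lit 76) (nat_lit 4851175803) (nat_lit 0) (nat_lit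 1535714087) (nat_lit 152) (nat_lit 2017546435) (nat_lit 141) (nat_lit 1) (nat_lit 140) (nat_lit 1) (nat_lit 142) (nat_lit 1) (nat_lit 322) (nat_lit 380) (nat_lit 318)) (XT.lf (nat_lit 76) (nat_lit 1268614220) (nat_lit 0) (nat_lit 5632922003) (nat_lit 228) (nat_lit 1361348650) (nat_lit 139) (nat_lit 1) (nat_lit 138) (nat_lit 1) (nat_lit 141) (nat_lit 1) (nat_lit 323) (nat_lit 380) (nat_lit 317)))) (XT.nd (nat_lit 156) (nat_lit 380) (nat_lit 0) (XT.nd (nat_lit 78) (nat_lit 152) (nat_lit 0) (XT.lf (nat_lit 76) (nat_lit 5899919097) (nat_lit 0) (nat_lit 1503579665) (nat_lit 152) (nat_lit 720446965) (nat_lit 137) (nat_lit 1) (nat_lit 136) (nat_lit 1) (nat_lit 138) (nat_lit 1) (nat_lit 324) (nat_lit 380) (nat_lit 316)) (XT.lf (nat_lit 76) (nat_lit 2387933815) (nat_lit 0) (nat_lit 5503750064) (nat_lit 228) (nat_lit 95846358) (nat_lit 135) (nat_lit 1) (nat_lit 134) (nat_lit 1) (nat_lit 137) (nat_lit 1)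 (nat_lit 325) (nat_lit 380) (nat_lit 315))) (XT.nd (nat_lit 78) (nat_lit 76) (nat_lit 0) (XT.lf (nat_lit 228) (nat_lit 6312313096) (nat_lit 0) (nat_lit 534305029) (nat_lit 152) (nat_lit 1007151583) (nat_lit 133) (nat_lit 1) (nat_lit 130) (nat_lit 1) (nat_lit 132) (nat_lit 1) (nat_lit 326) (nat_lit 380) (nat_lit 314)) (XT.lf (nat_lit 152) (nat_lit 2272762983) (nat_lit 0) (nat_lit 1138988373) (nat_lit 76) (nat_lit 4310331300) (nat_lit 131) (nat_lit 1) (nat_lit 129) (nat_lit 1) (nat_lit 130) (nat_lit 1) (nat_lit 327) (nat_lit 380) (nat_lit 313))))))) (XT.nd (nat_lit 1092) (nat_lit 1748) (nat_lit 0) (XT.nd (nat_lit 546) (nat_lit 836) (nat_lit 0) (XT.nd (nat_lit 234) (nat_lit 532) (nat_lit 0) (XT.nd (nat_lit 78) (nat_lit 304) (nat_lit 0) (XT.lf (nat_lit 76) (nat_lit 106977614) (nat_lit 0) (nat_lit 1639794411) (nat_lit 228) (nat_lit 5846557672) (nat_lit 127) (nat_lit 1) (nat_lit 126) (nat_lit 1) (nat_lit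 129) (nat_lit 1) (nat_lit 328) (nat_lit 380) (nat_lit 312)) (XT.nd (nat_lit 78) (nat_lit 228) (nat_lit 0) (XT.lf (nat_lit 152) (nat_lit 2018726801) (nat_lit 0) (nat_lit 2320293142) (nat_lit 76) (nat_lit 3127348483) (nat_lit 127) (nat_lit 1) (nat_lit 125) (nat_lit 1) (nat_lit 126) (nat_lit 1) (nat_lit 329) (nat_lit 380) (nat_lit 311)) (XT.lf (nat_lit 76) (nat_lit 1104756859) (nat_lit 0) (nat_lit 1788860097) (nat_lit 228) (nat_lit 4448520944) (nat_lit 123) (nat_lit 1) (nat_lit 122) (nat_lit 1) (nat_lit 125) (nat_lit 1) (nat_lit 330) (nat_lit 380) (nat_lit 310)))) (XT.nd (nat_lit 156) (nat_lit 228) (nat_lit 0) (XT.nd (nat_lit 78) (nat_lit 228) (nat_lit 0) (XT.lf (nat_lit 152) (nat_lit 1732070461) (nat_lit 0) (nat_lit 3445267260) (nat_lit 76) (nat_lit 2042622754) (nat_lit 123) (nat_lit 1) (nat_lit 121) (nat_lit 1) (nat_lit 122) (nat_lit 1) (nat_lit 331) (nat_lit 380) (nat_lit 309)) (XT.lf (nat_lit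 76) (nat_lit 2014039279) (nat_lit 0) (nat_lit 1970145578) (nat_lit 228) (nat_lit 3115860574) (nat_lit 119) (nat_lit 1) (nat_lit 118) (nat_lit 1) (nat_lit 121) (nat_lit 1) (nat_lit 332) (nat_lit 380) (nat_lit 308))) (XT.nd (nat_lit 78) (nat_lit 152) (nat_lit 0) (XT.lf (nat_lit 152) (nat_lit 1420878127) (nat_lit 0) (nat_lit 4513525084) (nat_lit 76) (nat_lit 1048031301) (nat_lit 119) (nat_lit 1) (nat_lit 117) (nat_lit 1) (nat_lit 118) (nat_lit 1) (nat_lit 333) (nat_lit 380) (nat_lit 307)) (XT.lf (nat_lit 76) (nat_lit 2842232135) (nat_lit 0) (nat_lit 2176081148) (nat_lit 152) (nat_lit 1848329081) (nat_lit 116) (nat_lit 1) (nat_lit 115) (nat_lit 1) (nat_lit 117) (nat_lit 1) (nat_lit 334) (nat_lit 380) (nat_lit 306))))) (XT.nd (nat_lit 234) (nat_lit 532) (nat_lit 0) (XT.nd (nat_lit 78) (nat_lit 228) (nat_lit 0) (XT.lf (nat_lit 152) (nat_lit 1092057870) (nat_lit 0) (nat_lit 5525109348) (nat_lit 76) (nat_lit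 136227095) (nat_lit 116) (nat_lit 1) (nat_lit 114) (nat_lit 1) (nat_lit 115) (nat_lit 1) (nat_lit 335) (nat_lit 380) (nat_lit 305)) (XT.nd (nat_lit 78) (nat_lit 76) (nat_lit 0) (XT.lf (nat_lit 76) (nat_lit 3596035847) (nat_lit 0) (nat_lit 2400194791) (nat_lit 152) (nat_lit 645314819) (nat_lit 113) (nat_lit 1) (nat_lit 112) (nat_lit 1) (nat_lit 114) (nat_lit 1) (nat_lit 336) (nat_lit 380) (nat_lit 304)) (XT.lf (nat_lit 0) (nat_lit 685796042) (nat_lit 0) (nat_lit 5787701032) (nat_lit 152) (nat_lit 58770338) (nat_lit 111) (nat_lit 3) (nat_lit 111) (nat_lit 1) (nat_lit 113) (nat_lit 1) (nat_lit 337) (nat_lit 380) (nat_lit 303)))) (XT.nd (nat_lit 156) (nat_lit 228) (nat_lit 0) (XT.nd (nat_lit 78) (nat_lit 76) (nat_lit 0) (XT.lf (nat_lit 152) (nat_lit 3782434040) (nat_lit 0) (nat_lit 503930022) (nat_lit 76) (nat_lit 2137886310) (nat_lit 110) (nat_lit 1) (nat_lit 108) (nat_lit 1) (nat_lit 109) (nat_lit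 1) (nat_lit 338) (nat_lit 380) (nat_lit 302)) (XT.lf (nat_lit 76) (nat_lit 379091062) (nat_lit 0) (nat_lit 1067604458) (nat_lit 76) (nat_lit 4871885453) (nat_lit 108) (nat_lit 3) (nat_lit 107) (nat_lit 1) (nat_lit 108) (nat_lit 1) (nat_lit 339) (nat_lit 380) (nat_lit 301))) (XT.nd (nat_lit 78) (nat_lit 76) (nat_lit 0) (XT.lf (nat_lit 152) (nat_lit 3317257231) (nat_lit 0) (nat_lit 1602335931) (nat_lit 76) (nat_lit 1294800882) (nat_lit 107) (nat_lit 1) (nat_lit 105) (nat_lit 1) (nat_lit 106) (nat_lit 1) (nat_lit 340) (nat_lit 380) (nat_lit 300)) (XT.lf (nat_lit 76) (nat_lit 11731949) (nat_lit 0) (nat_lit 2132486148) (nat_lit 76) (nat_lit 3968136757) (nat_lit 105) (nat_lit 3) (nat_lit 104) (nat_lit 1) (nat_lit 105) (nat_lit 1) (nat_lit 341) (nat_lit 380) (nat_lit 299)))))) (XT.nd (nat_lit 546) (nat_lit 912) (nat_lit 0) (XT.nd (nat_lit 234) (nat_lit 456) (nat_lit 0) (XT.nd (nat_lit 78) (nat_lit 228)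 (nat_lit 0) (XT.lf (nat_lit 152) (nat_lit 2855958255) (nat_lit 0) (nat_lit 2638453711) (nat_lit 76) (nat_lit 517437072) (nat_lit 104) (nat_lit 1) (nat_lit 102) (nat_lit 1) (nat_lit 103) (nat_lit 1) (nat_lit 342) (nat_lit 380) (nat_lit 298)) (XT.nd (nat_lit 78) (nat_lit 76) (nat_lit 0) (XT.lf (nat_lit 76) (nat_lit 2786091272) (nat_lit 0) (nat_lit 346553513) (nat_lit 152) (nat_lit 2780550532) (nat_lit 101) (nat_lit 1) (nat_lit 100) (nat_lit 1) (nat_lit 102) (nat_lit 1) (nat_lit 343) (nat_lit 380) (nat_lit 297)) (XT.lf (nat_lit 0) (nat_lit 195185334) (nat_lit 0) (nat_lit 3416687105) (nat_lit 152) (nat_lit 2204386618) (nat_lit 99) (nat_lit 3) (nat_lit 99) (nat_lit 1) (nat_lit 101) (nat_lit 1) (nat_lit 344) (nat_lit 380) (nat_lit 296)))) (XT.nd (nat_lit 156) (nat_lit 228) (nat_lit 0) (XT.nd (nat_lit 78) (nat_lit 76) (nat_lit 0) (XT.lf (nat_lit 76) (nat_lit 3373454828) (nat_lit 0) (nat_lit 699651242)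 (nat_lit 152) (nat_lit 1647804902) (nat_lit 98) (nat_lit 1) (nat_lit 97) (nat_lit 1) (nat_lit 99) (nat_lit 1) (nat_lit 345) (nat_lit 380) (nat_lit 295)) (XT.lf (nat_lit 0) (nat_lit 842399588) (nat_lit 0) (nat_lit 3679289948) (nat_lit 152) (nat_lit 1105576939) (nat_lit 96) (nat_lit 3) (nat_lit 96) (nat_lit 1) (nat_lit 98) (nat_lit 1) (nat_lit 346) (nat_lit 380) (nat_lit 294))) (XT.nd (nat_lit 78) (nat_lit 76) (nat_lit 0) (XT.lf (nat_lit 76) (nat_lit 3910257959) (nat_lit 0) (nat_lit 1045463667) (nat_lit 152) (nat_lit 579509097) (nat_lit 95) (nat_lit 1) (nat_lit 94) (nat_lit 1) (nat_lit 96) (nat_lit 1) (nat_lit 347) (nat_lit 380) (nat_lit 293)) (XT.lf (nat_lit 0) (nat_lit 1438291112) (nat_lit 0) (nat_lit 3936488378) (nat_lit 152) (nat_lit 69973196) (nat_lit 93) (nat_lit 3) (nat_lit 93) (nat_lit 1) (nat_lit 95) (nat_lit 1) (nat_lit 348) (nat_lit 380) (nat_lit 292))))) (XT.nd (nat_lit 234) (nat_lit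 456) (nat_lit 0) (XT.nd (nat_lit 78) (nat_lit 228) (nat_lit 0) (XT.lf (nat_lit 152) (nat_lit 3969493247) (nat_lit 0) (nat_lit 434905233) (nat_lit 76) (nat_lit 951370985) (nat_lit 92) (nat_lit 1) (nat_lit 90) (nat_lit 1) (nat_lit 91) (nat_lit 1) (nat_lit 349) (nat_lit 380) (nat_lit 291)) (XT.nd (nat_lit 78) (nat_lit 152) (nat_lit 0) (XT.lf (nat_lit 76) (nat_lit 1072874505) (nat_lit 0) (nat_lit 922508771) (nat_lit 76) (nat_lit 3272814857) (nat_lit 90) (nat_lit 3) (nat_lit 89) (nat_lit 1) (nat_lit 90) (nat_lit 1) (nat_lit 350) (nat_lit 380) (nat_lit 290)) (XT.lf (nat_lit 152) (nat_lit 3460776948) (nat_lit 0) (nat_lit 1399416762) (nat_lit 76) (nat_lit 322060109) (nat_lit 89) (nat_lit 1) (nat_lit 87) (nat_lit 1) (nat_lit 88) (nat_lit 1) (nat_lit 351) (nat_lit 380) (nat_lit 289)))) (XT.nd (nat_lit 156) (nat_lit 228) (nat_lit 0) (XT.nd (nat_lit 78) (nat_lit 152) (nat_lit 0) (XT.lf (nat_lit 76) (nat_lit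 652061380) (nat_lit 0) (nat_lit 1856210520) (nat_lit 76) (nat_lit 2589353371) (nat_lit 87) (nat_lit 3) (nat_lit 86) (nat_lit 1) (nat_lit 87) (nat_lit 1) (nat_lit 352) (nat_lit 380) (nat_lit 288)) (XT.lf (nat_lit 0) (nat_lit 255407555) (nat_lit 0) (nat_lit 2046708518) (nat_lit 152) (nat_lit 2712428912) (nat_lit 84) (nat_lit 3) (nat_lit 84) (nat_lit 1) (nat_lit 86) (nat_lit 1) (nat_lit 353) (nat_lit 380) (nat_lit 287))) (XT.nd (nat_lit 78) (nat_lit 152) (nat_lit 0) (XT.lf (nat_lit 76) (nat_lit 247447335) (nat_lit 0) (nat_lit 2731930295) (nat_lit 76) (nat_lit 1953448252) (nat_lit 84) (nat_lit 3) (nat_lit 83) (nat_lit 1) (nat_lit 84) (nat_lit 1) (nat_lit 354) (nat_lit 380) (nat_lit 286)) (XT.lf (nat_lit 0) (nat_lit 783801061) (nat_lit 0) (nat_lit 2361240651) (nat_lit 152) (nat_lit 1707373588) (nat_lit 81) (nat_lit 3) (nat_lit 81) (nat_lit 1) (nat_lit 83) (nat_lit 1) (nat_lit 355) (nat_lit 380) (nat_lit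 285))))))))
noncomputable def ec84 : XT := (XT.nd (nat_lit 2184) (nat_lit 1140) (nat_lit 0) (XT.nd (nat_lit 1092) (nat_lit 1748) (nat_lit 0) (XT.nd (nat_lit 546) (nat_lit 836) (nat_lit 0) (XT.nd (nat_lit 234) (nat_lit 532) (nat_lit 0) (XT.nd (nat_lit 78) (nat_lit 228) (nat_lit 0) (XT.lf (nat_lit 76) (nat_lit 3412911669) (nat_lit 0) (nat_lit 137566122) (nat_lit 152) (nat_lit 1223064191) (nat_lit 80) (nat_lit 1) (nat_lit 79) (nat_lit 1) (nat_lit 81) (nat_lit 1) (nat_lit 356) (nat_lit 380) (nat_lit 284)) (XT.nd (nat_lit 78) (nat_lit 152) (nat_lit 0) (XT.lf (nat_lit 0) (nat_lit 1272228833) (nat_lit 0) (nat_lit 2661339715) (nat_lit 152) (nat_lit 762176560) (nat_lit 78) (nat_lit 3) (nat_lit 78) (nat_lit 1) (nat_lit 80) (nat_lit 1) (nat_lit 357) (nat_lit 380) (nat_lit 283)) (XT.lf (nat_lit 76) (nat_lit 3812379060) (nat_lit 0) (nat_lit 500777867) (nat_lit 152) (nat_lit 306383673) (nat_lit 77) (nat_lit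 1) (nat_lit 76) (nat_lit 1) (nat_lit 78) (nat_lit 1) (nat_lit 358) (nat_lit 380) (nat_lit 282)))) (XT.nd (nat_lit 156) (nat_lit 228) (nat_lit 0) (XT.nd (nat_lit 78) (nat_lit 152) (nat_lit 0) (XT.lf (nat_lit 76) (nat_lit 1596495303) (nat_lit 0) (nat_lit 128037916) (nat_lit 76) (nat_lit 2819761826) (nat_lit 75) (nat_lit 3) (nat_lit 74) (nat_lit 1) (nat_lit 75) (nat_lit 1) (nat_lit 359) (nat_lit 380) (nat_lit 281)) (XT.lf (nat_lit 152) (nat_lit 3618345536) (nat_lit 0) (nat_lit 564924684) (nat_lit 76) (nat_lit 287262715) (nat_lit 74) (nat_lit 1) (nat_lit 72) (nat_lit 1) (nat_lit 73) (nat_lit 1) (nat_lit 360) (nat_lit 380) (nat_lit 280))) (XT.nd (nat_lit 78) (nat_lit 152) (nat_lit 0) (XT.lf (nat_lit 76) (nat_lit 1171644906) (nat_lit 0) (nat_lit 977189095) (nat_lit 76) (nat_lit 2248867039) (nat_lit 72) (nat_lit 3) (nat_lit 71) (nat_lit 1) (nat_lit 72) (nat_lit 1) (nat_lit 361) (nat_lit 380) (nat_lit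 279)) (XT.lf (nat_lit 0) (nat_lit 194594487) (nat_lit 0) (nat_lit 1190638992) (nat_lit 152) (nat_lit 2941128744) (nat_lit 69) (nat_lit 3) (nat_lit 69) (nat_lit 1) (nat_lit 71) (nat_lit 1) (nat_lit 362) (nat_lit 380) (nat_lit 278))))) (XT.nd (nat_lit 234) (nat_lit 532) (nat_lit 0) (XT.nd (nat_lit 78) (nat_lit 228) (nat_lit 0) (XT.lf (nat_lit 76) (nat_lit 767463596) (nat_lit 0) (nat_lit 1772461304) (nat_lit 76) (nat_lit 1716077411) (nat_lit 69) (nat_lit 3) (nat_lit 68) (nat_lit 1) (nat_lit 69) (nat_lit 1) (nat_lit 363) (nat_lit 380) (nat_lit 277)) (XT.nd (nat_lit 78) (nat_lit 76) (nat_lit 0) (XT.lf (nat_lit 0) (nat_lit 636562783) (nat_lit 0) (nat_lit 1513690675) (nat_lit 152) (nat_lit 2036669132) (nat_lit 66) (nat_lit 3) (nat_lit 66) (nat_lit 1) (nat_lit 68) (nat_lit 1) (nat_lit 364) (nat_lit 380) (nat_lit 276)) (XT.lf (nat_lit 76) (nat_lit 383750476) (nat_lit 0) (nat_lit 2516161272) (nat_lit 76)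 (nat_lit 1219110373) (nat_lit 66) (nat_lit 3) (nat_lit 65) (nat_lit 1) (nat_lit 66) (nat_lit 1) (nat_lit 365) (nat_lit 380) (nat_lit 275)))) (XT.nd (nat_lit 156) (nat_lit 304) (nat_lit 0) (XT.nd (nat_lit 78) (nat_lit 76) (nat_lit 0) (XT.lf (nat_lit 0) (nat_lit 1046344926) (nat_lit 0) (nat_lit 1818753522) (nat_lit 152) (nat_lit 1187025256) (nat_lit 63) (nat_lit 3) (nat_lit 63) (nat_lit 1) (nat_lit 65) (nat_lit 1) (nat_lit 366) (nat_lit 380) (nat_lit 274)) (XT.lf (nat_lit 76) (nat_lit 20210110) (nat_lit 0) (nat_lit 3210543975) (nat_lit 76) (nat_lit 755837344) (nat_lit 63) (nat_lit 3) (nat_lit 62) (nat_lit 1) (nat_lit 63) (nat_lit 1) (nat_lit 367) (nat_lit 380) (nat_lit 273))) (XT.nd (nat_lit 78) (nat_lit 152) (nat_lit 0) (XT.lf (nat_lit 0) (nat_lit 1425896380) (nat_lit 0) (nat_lit 2106087997) (nat_lit 152) (nat_lit 389815481) (nat_lit 60) (nat_lit 3) (nat_lit 60) (nat_lit 1) (nat_lit 62) (nat_lit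 1) (nat_lit 368) (nat_lit 380) (nat_lit 272)) (XT.lf (nat_lit 76) (nat_lit 3537387613) (nat_lit 0) (nat_lit 317217506) (nat_lit 152) (nat_lit 3850001) (nat_lit 59) (nat_lit 1) (nat_lit 58) (nat_lit 1) (nat_lit 60) (nat_lit 1) (nat_lit 369) (nat_lit 380) (nat_lit 271)))))) (XT.nd (nat_lit 546) (nat_lit 912) (nat_lit 0) (XT.nd (nat_lit 234) (nat_lit 456) (nat_lit 0) (XT.nd (nat_lit 78) (nat_lit 228) (nat_lit 0) (XT.lf (nat_lit 76) (nat_lit 1416157533) (nat_lit 0) (nat_lit 364387893) (nat_lit 76) (nat_lit 2015141852) (nat_lit 57) (nat_lit 3) (nat_lit 56) (nat_lit 1) (nat_lit 57) (nat_lit 1) (nat_lit 370) (nat_lit 380) (nat_lit 270)) (XT.nd (nat_lit 78) (nat_lit 76) (nat_lit 0) (XT.lf (nat_lit 0) (nat_lit 89346013) (nat_lit 0) (nat_lit 643191893) (nat_lit 152) (nat_lit 3001775538) (nat_lit 54) (nat_lit 3) (nat_lit 54) (nat_lit 1) (nat_lit 56) (nat_lit 1) (nat_lit 371) (nat_lit 380) (nat_lit 269)) (XT.lf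 (nat_lit 76) (nat_lit 1034318011) (nat_lit 0) (nat_lit 1077530093) (nat_lit 76) (nat_lit 1561790277) (nat_lit 54) (nat_lit 3) (nat_lit 53) (nat_lit 1) (nat_lit 54) (nat_lit 1) (nat_lit 372) (nat_lit 380) (nat_lit 268)))) (XT.nd (nat_lit 156) (nat_lit 228) (nat_lit 0) (XT.nd (nat_lit 78) (nat_lit 76) (nat_lit 0) (XT.lf (nat_lit 0) (nat_lit 465325234) (nat_lit 0) (nat_lit 953048087) (nat_lit 152) (nat_lit 2195816267) (nat_lit 51) (nat_lit 3) (nat_lit 51) (nat_lit 1) (nat_lit 53) (nat_lit 1) (nat_lit 373) (nat_lit 380) (nat_lit 267)) (XT.lf (nat_lit 76) (nat_lit 673522608) (nat_lit 0) (nat_lit 1744078151) (nat_lit 76) (nat_lit 1138020564) (nat_lit 51) (nat_lit 3) (nat_lit 50) (nat_lit 1) (nat_lit 51) (nat_lit 1) (nat_lit 374) (nat_lit 380) (nat_lit 266))) (XT.nd (nat_lit 78) (nat_lit 76) (nat_lit 0) (XT.lf (nat_lit 0) (nat_lit 814721564) (nat_lit 0) (nat_lit 1244215744) (nat_lit 152) (nat_lit 1439096138)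 (nat_lit 48) (nat_lit 3) (nat_lit 48) (nat_lit 1) (nat_lit 50) (nat_lit 1) (nat_lit 375) (nat_lit 380) (nat_lit 265)) (XT.lf (nat_lit 76) (nat_lit 333133649) (nat_lit 0) (nat_lit 2366186124) (nat_lit 76) (nat_lit 742175726) (nat_lit 48) (nat_lit 3) (nat_lit 47) (nat_lit 1) (nat_lit 48) (nat_lit 1) (nat_lit 376) (nat_lit 380) (nat_lit 264))))) (XT.nd (nat_lit 234) (nat_lit 532) (nat_lit 0) (XT.nd (nat_lit 78) (nat_lit 228) (nat_lit 0) (XT.lf (nat_lit 0) (nat_lit 1139059943) (nat_lit 0) (nat_lit 1517277304) (nat_lit 152) (nat_lit 729369685) (nat_lit 45) (nat_lit 3) (nat_lit 45) (nat_lit 1) (nat_lit 47) (nat_lit 1) (nat_lit 377) (nat_lit 380) (nat_lit 263)) (XT.nd (nat_lit 78) (nat_lit 152) (nat_lit 0) (XT.lf (nat_lit 76) (nat_lit 12491223) (nat_lit 0) (nat_lit 2945936443) (nat_lit 76) (nat_lit 372698234) (nat_lit 45) (nat_lit 3) (nat_lit 44) (nat_lit 1) (nat_lit 45) (nat_lit 1) (nat_lit 378) (nat_lit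 380) (nat_lit 262)) (XT.lf (nat_lit 0) (nat_lit 1439773366) (nat_lit 0) (nat_lit 1772835789) (nat_lit 152) (nat_lit 64468255) (nat_lit 42) (nat_lit 3) (nat_lit 42) (nat_lit 1) (nat_lit 44) (nat_lit 1) (nat_lit 379) (nat_lit 380) (nat_lit 261)))) (XT.nd (nat_lit 156) (nat_lit 228) (nat_lit 0) (XT.nd (nat_lit 78) (nat_lit 76) (nat_lit 0) (XT.lf (nat_lit 152) (nat_lit 2938253684) (nat_lit 0) (nat_lit 263316437) (nat_lit 76) (nat_lit 22653387) (nat_lit 41) (nat_lit 1) (nat_lit 39) (nat_lit 1) (nat_lit 40) (nat_lit 1) (nat_lit 380) (nat_lit 380) (nat_lit 260)) (XT.lf (nat_lit 76) (nat_lit 1154877601) (nat_lit 0) (nat_lit 568799698) (nat_lit 76) (nat_lit 1448176083) (nat_lit 39) (nat_lit 3) (nat_lit 38) (nat_lit 1) (nat_lit 39) (nat_lit 1) (nat_lit 381) (nat_lit 380) (nat_lit 259))) (XT.nd (nat_lit 78) (nat_lit 76) (nat_lit 0) (XT.lf (nat_lit 0) (nat_lit 301282094) (nat_lit 0) (nat_lit 572478101) (nat_lit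 152) (nat_lit 2246874837) (nat_lit 36) (nat_lit 3) (nat_lit 36) (nat_lit 1) (nat_lit 38) (nat_lit 1) (nat_lit 382) (nat_lit 380) (nat_lit 258)) (XT.lf (nat_lit 76) (nat_lit 824981683) (nat_lit 0) (nat_lit 1161824045) (nat_lit 76) (nat_lit 1083263595) (nat_lit 36) (nat_lit 3) (nat_lit 35) (nat_lit 1) (nat_lit 36) (nat_lit 1) (nat_lit 383) (nat_lit 380) (nat_lit 257))))))) (XT.nd (nat_lit 43680) (nat_lit 0) (nat_lit 21888) (XT.nd (nat_lit 546) (nat_lit 228) (nat_lit 0) (XT.nd (nat_lit 234) (nat_lit 532) (nat_lit 0) (XT.nd (nat_lit 78) (nat_lit 228) (nat_lit 0) (XT.lf (nat_lit 0) (nat_lit 602422481) (nat_lit 0) (nat_lit 841240707) (nat_lit 152) (nat_lit 1576782094) (nat_lit 33) (nat_lit 3) (nat_lit 33) (nat_lit 1) (nat_lit 35) (nat_lit 1) (nat_lit 384) (nat_lit 380) (nat_lit 256)) (XT.nd (nat_lit 78) (nat_lit 152) (nat_lit 0) (XT.lf (nat_lit 76) (nat_lit 514438833) (nat_lit 0) (nat_lit 1715302132)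 (nat_lit 76) (nat_lit 741884763) (nat_lit 33) (nat_lit 3) (nat_lit 32) (nat_lit 1) (nat_lit 33) (nat_lit 1) (nat_lit 385) (nat_lit 380) (nat_lit 255)) (XT.lf (nat_lit 0) (nat_lit 882438232) (nat_lit 0) (nat_lit 1092744224) (nat_lit 152) (nat_lit 948361831) (nat_lit 30) (nat_lit 3) (nat_lit 30) (nat_lit 1) (nat_lit 32) (nat_lit 1) (nat_lit 386) (nat_lit 380) (nat_lit 254)))) (XT.nd (nat_lit 156) (nat_lit 304) (nat_lit 0) (XT.nd (nat_lit 78) (nat_lit 152) (nat_lit 0) (XT.lf (nat_lit 76) (nat_lit 222488904) (nat_lit 0) (nat_lit 2231139357) (nat_lit 76) (nat_lit 422780325) (nat_lit 30) (nat_lit 3) (nat_lit 29) (nat_lit 1) (nat_lit 30) (nat_lit 1) (nat_lit 387) (nat_lit 380) (nat_lit 253)) (XT.lf (nat_lit 0) (nat_lit 1142489518) (nat_lit 0) (nat_lit 1327687318) (nat_lit 152) (nat_lit 359643074) (nat_lit 27) (nat_lit 3) (nat_lit 27) (nat_lit 1) (nat_lit 29) (nat_lit 1) (nat_lit 388) (nat_lit 380) (nat_lit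 252))) (XT.nd (nat_lit 78) (nat_lit 152) (nat_lit 0) (XT.lf (nat_lit 76) (nat_lit 2660044620) (nat_lit 0) (nat_lit 50611862) (nat_lit 152) (nat_lit 73636776) (nat_lit 26) (nat_lit 1) (nat_lit 25) (nat_lit 1) (nat_lit 27) (nat_lit 1) (nat_lit 389) (nat_lit 380) (nat_lit 251)) (XT.lf (nat_lit 76) (nat_lit 1190472745) (nat_lit 0) (nat_lit 195075190) (nat_lit 76) (nat_lit 1353559991) (nat_lit 24) (nat_lit 3) (nat_lit 23) (nat_lit 1) (nat_lit 24) (nat_lit 1) (nat_lit 390) (nat_lit 380) (nat_lit 250))))) (XT.nd (nat_lit 42822) (nat_lit 0) (nat_lit 26980) (XT.nd (nat_lit 78) (nat_lit 76) (nat_lit 0) (XT.lf (nat_lit 0) (nat_lit 157852092) (nat_lit 0) (nat_lit 308649361) (nat_lit 152) (nat_lit 2228446833) (nat_lit 21) (nat_lit 3) (nat_lit 21) (nat_lit 1) (nat_lit 23) (nat_lit 1) (nat_lit 391) (nat_lit 380) (nat_lit 249)) (XT.nd (nat_lit 42666) (nat_lit 0) (nat_lit 26904) (XT.lf (nat_lit 76) (nat_lit 893700789)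 (nat_lit 0) (nat_lit 720247380) (nat_lit 76) (nat_lit 1037317236) (nat_lit 21) (nat_lit 3) (nat_lit 20) (nat_lit 1) (nat_lit 21) (nat_lit 1) (nat_lit 392) (nat_lit 380) (nat_lit 248)) (XT.lf (nat_lit 1292) (nat_lit 2756931269) (nat_lit 0) (nat_lit 9485125730) (nat_lit 1292) (nat_lit 2756931269) (nat_lit 391) (nat_lit 1) (nat_lit 374) (nat_lit 0) (nat_lit 391) (nat_lit 0) (nat_lit 258) (nat_lit 381) (nat_lit 381)))) (XT.nd (nat_lit 156) (nat_lit 0) (nat_lit 76) (XT.nd (nat_lit 78) (nat_lit 0) (nat_lit 0) (XT.lf (nat_lit 1292) (nat_lit 221028012) (nat_lit 0) (nat_lit 18702673397) (nat_lit 1216) (nat_lit 10354514753) (nat_lit 392) (nat_lit 1) (nat_lit 375) (nat_lit 1) (nat_lit 391) (nat_lit 1) (nat_lit 259) (nat_lit 381) (nat_lit 380)) (XT.lf (nat_lit 1292) (nat_lit 9724282235) (nat_lit 76) (nat_lit 13754641383) (nat_lit 0) (nat_lit 5101555676) (nat_lit 392) (nat_lit 1) (nat_lit 376) (nat_lit 1) (nat_lit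 375) (nat_lit 1) (nat_lit 260) (nat_lit 381) (nat_lit 379))) (XT.nd (nat_lit 78) (nat_lit 0) (nat_lit 76) (XT.lf (nat_lit 1292) (nat_lit 8548468660) (nat_lit 76) (nat_lit 9003397024) (nat_lit 0) (nat_lit 10353468639) (nat_lit 393) (nat_lit 1) (nat_lit 377) (nat_lit 1) (nat_lit 376) (nat_lit 1) (nat_lit 261) (nat_lit 381) (nat_lit 378)) (XT.lf (nat_lit 1292) (nat_lit 7074433429) (nat_lit 76) (nat_lit 4650724847) (nat_lit 0) (nat_lit 15526863960) (nat_lit 394) (nat_lit 1) (nat_lit 378) (nat_lit 1) (nat_lit 377) (nat_lit 1) (nat_lit 262) (nat_lit 381) (nat_lit 377)))))) (XT.nd (nat_lit 546) (nat_lit 3496) (nat_lit 0) (XT.nd (nat_lit 234) (nat_lit 1824) (nat_lit 0) (XT.nd (nat_lit 78) (nat_lit 0) (nat_lit 76) (XT.lf (nat_lit 1292) (nat_lit 5324908197) (nat_lit 76) (nat_lit 676146605) (nat_lit 0) (nat_lit 20618697034) (nat_lit 395) (nat_lit 1) (nat_lit 379) (nat_lit 1) (nat_lit 378) (nat_lit 1) (nat_lit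 263) (nat_lit 381) (nat_lit 376)) (XT.nd (nat_lit 78) (nat_lit 0) (nat_lit 0) (XT.lf (nat_lit 1292) (nat_lit 409723289) (nat_lit 0) (nat_lit 22714695411) (nat_lit 1216) (nat_lit 2882496863) (nat_lit 396) (nat_lit 1) (nat_lit 379) (nat_lit 1) (nat_lit 395) (nat_lit 1) (nat_lit 264) (nat_lit 381) (nat_lit 375)) (XT.lf (nat_lit 1292) (nat_lit 971133328) (nat_lit 76) (nat_lit 19267683943) (nat_lit 0) (nat_lit 5173225473) (nat_lit 396) (nat_lit 1) (nat_lit 380) (nat_lit 1) (nat_lit 379) (nat_lit 1) (nat_lit 265) (nat_lit 381) (nat_lit 374)))) (XT.nd (nat_lit 156) (nat_lit 684) (nat_lit 0) (XT.nd (nat_lit 78) (nat_lit 0) (nat_lit 76) (XT.lf (nat_lit 1368) (nat_lit 14193102581) (nat_lit 0) (nat_lit 1534125950) (nat_lit 1292) (nat_lit 9108344665) (nat_lit 381) (nat_lit 1) (nat_lit 363) (nat_lit 1) (nat_lit 380) (nat_lit 1) (nat_lit 266) (nat_lit 381) (nat_lit 373)) (XT.lf (nat_lit 1368) (nat_lit 8284437046)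 (nat_lit 0) (nat_lit 4209460892) (nat_lit 1292) (nat_lit 11783167274) (nat_lit 382) (nat_lit 1) (nat_lit 364) (nat_lit 1) (nat_lit 381) (nat_lit 1) (nat_lit 267) (nat_lit 381) (nat_lit 372))) (XT.nd (nat_lit 78) (nat_lit 836) (nat_lit 0) (XT.lf (nat_lit 76) (nat_lit 2503600825) (nat_lit 0) (nat_lit 7057411038) (nat_lit 1292) (nat_lit 14175140621) (nat_lit 366) (nat_lit 1) (nat_lit 365) (nat_lit 1) (nat_lit 382) (nat_lit 1) (nat_lit 268) (nat_lit 381) (nat_lit 371)) (XT.lf (nat_lit 912) (nat_lit 13117876520) (nat_lit 0) (nat_lit 6881223439) (nat_lit 836) (nat_lit 3212187550) (nat_lit 366) (nat_lit 1) (nat_lit 354) (nat_lit 1) (nat_lit 365) (nat_lit 1) (nat_lit 269) (nat_lit 381) (nat_lit 370))))) (XT.nd (nat_lit 234) (nat_lit 1748) (nat_lit 0) (XT.nd (nat_lit 78) (nat_lit 1140) (nat_lit 0) (XT.lf (nat_lit 684) (nat_lit 9406747688) (nat_lit 0) (nat_lit 4447517247) (nat_lit 608) (nat_lit 8847835766)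 (nat_lit 355) (nat_lit 1) (nat_lit 346) (nat_lit 1) (nat_lit 354) (nat_lit 1) (nat_lit 270) (nat_lit 381) (nat_lit 369)) (XT.nd (nat_lit 78) (nat_lit 532) (nat_lit 0) (XT.lf (nat_lit 684) (nat_lit 5583715144) (nat_lit 0) (nat_lit 2271031244) (nat_lit 608) (nat_lit 14354007967) (nat_lit 347) (nat_lit 1) (nat_lit 338) (nat_lit 1) (nat_lit 346) (nat_lit 1) (nat_lit 271) (nat_lit 381) (nat_lit 368)) (XT.lf (nat_lit 608) (nat_lit 1661055561) (nat_lit 0) (nat_lit 338275182) (nat_lit 532) (nat_lit 19731365788) (nat_lit 339) (nat_lit 1) (nat_lit 331) (nat_lit 1) (nat_lit 338) (nat_lit 1) (nat_lit 272) (nat_lit 381) (nat_lit 367)))) (XT.nd (nat_lit 156) (nat_lit 1064) (nat_lit 0) (XT.nd (nat_lit 78) (nat_lit 608) (nat_lit 0) (XT.lf (nat_lit 76) (nat_lit 17515126059) (nat_lit 0) (nat_lit 2353735777) (nat_lit 608) (nat_lit 1396360835) (nat_lit 331) (nat_lit 1) (nat_lit 330) (nat_lit 1) (nat_lit 338) (nat_lit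 1) (nat_lit 273) (nat_lit 381) (nat_lit 366)) (XT.lf (nat_lit 76) (nat_lit 11436270143) (nat_lit 0) (nat_lit 6431462862) (nat_lit 684) (nat_lit 2945175447) (nat_lit 323) (nat_lit 1) (nat_lit 322) (nat_lit 1) (nat_lit 331) (nat_lit 1) (nat_lit 274) (nat_lit 381) (nat_lit 365))) (XT.nd (nat_lit 78) (nat_lit 532) (nat_lit 0) (XT.lf (nat_lit 76) (nat_lit 5512335010) (nat_lit 0) (nat_lit 10571698253) (nat_lit 608) (nat_lit 4290399168) (nat_lit 316) (nat_lit 1) (nat_lit 315) (nat_lit 1) (nat_lit 323) (nat_lit 1) (nat_lit 275) (nat_lit 381) (nat_lit 364)) (XT.lf (nat_lit 608) (nat_lit 5181432708) (nat_lit 0) (nat_lit 14503808916) (nat_lit 532) (nat_lit 264003609) (nat_lit 316) (nat_lit 1) (nat_lit 308) (nat_lit 1) (nat_lit 315) (nat_lit 1) (nat_lit 276) (nat_lit 381) (nat_lit 363))))))))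
noncomputable def ec85 : XT := (XT.nd (nat_lit 2184) (nat_lit 4940) (nat_lit 0) (XT.nd (nat_lit 1092) (nat_lit 3876) (nat_lit 0) (XT.nd (nat_lit 546) (nat_lit 2584) (nat_lit 0) (XT.nd (nat_lit 234) (nat_lit 1748) (nat_lit 0) (XT.nd (nat_lit 78) (nat_lit 1064) (nat_lit 0) (XT.lf (nat_lit 532) (nat_lit 474130539) (nat_lit 0) (nat_lit 13064709802) (nat_lit 456) (nat_lit 5996550256) (nat_lit 309) (nat_lit 1) (nat_lit 302) (nat_lit 1) (nat_lit 308) (nat_lit 1) (nat_lit 277) (nat_lit 381) (nat_lit 362)) (XT.nd (nat_lit 78) (nat_lit 456) (nat_lit 0) (XT.lf (nat_lit 76) (nat_lit 7597008313) (nat_lit 0) (nat_lit 4172906334) (nat_lit 608) (nat_lit 7362908897) (nat_lit 295) (nat_lit 1) (nat_lit 294) (nat_lit 1) (nat_lit 302) (nat_lit 1) (nat_lit 278) (nat_lit 381) (nat_lit 361)) (XT.lf (nat_lit 76) (nat_lit 1820710194) (nat_lit 0) (nat_lit 8826128077) (nat_lit 532) (nat_lit 8095369349) (nat_lit 289) (nat_lit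 1) (nat_lit 288) (nat_lit 1) (nat_lit 295) (nat_lit 1) (nat_lit 279) (nat_lit 381) (nat_lit 360)))) (XT.nd (nat_lit 156) (nat_lit 836) (nat_lit 0) (XT.nd (nat_lit 78) (nat_lit 456) (nat_lit 0) (XT.lf (nat_lit 532) (nat_lit 4836566945) (nat_lit 0) (nat_lit 9652471770) (nat_lit 456) (nat_lit 3873119050) (nat_lit 289) (nat_lit 1) (nat_lit 282) (nat_lit 1) (nat_lit 288) (nat_lit 1) (nat_lit 280) (nat_lit 381) (nat_lit 359)) (XT.lf (nat_lit 76) (nat_lit 8550328806) (nat_lit 0) (nat_lit 246596890) (nat_lit 456) (nat_lit 9195912911) (nat_lit 277) (nat_lit 1) (nat_lit 276) (nat_lit 1) (nat_lit 282) (nat_lit 1) (nat_lit 281) (nat_lit 381) (nat_lit 358))) (XT.nd (nat_lit 78) (nat_lit 380) (nat_lit 0) (XT.lf (nat_lit 76) (nat_lit 2824089283) (nat_lit 0) (nat_lit 5220699409) (nat_lit 532) (nat_lit 9588302680) (nat_lit 271) (nat_lit 1) (nat_lit 270) (nat_lit 1) (nat_lit 277) (nat_lit 1) (nat_lit 282) (nat_lit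 381) (nat_lit 357)) (XT.lf (nat_lit 456) (nat_lit 7080834150) (nat_lit 0) (nat_lit 7408172111) (nat_lit 380) (nat_lit 2794137601) (nat_lit 271) (nat_lit 1) (nat_lit 265) (nat_lit 1) (nat_lit 270) (nat_lit 1) (nat_lit 283) (nat_lit 381) (nat_lit 356))))) (XT.nd (nat_lit 234) (nat_lit 1368) (nat_lit 0) (XT.nd (nat_lit 78) (nat_lit 836) (nat_lit 0) (XT.lf (nat_lit 456) (nat_lit 1756285315) (nat_lit 0) (nat_lit 6880088674) (nat_lit 380) (nat_lit 8306296004) (nat_lit 266) (nat_lit 1) (nat_lit 260) (nat_lit 1) (nat_lit 265) (nat_lit 1) (nat_lit 284) (nat_lit 381) (nat_lit 355)) (XT.nd (nat_lit 78) (nat_lit 380) (nat_lit 0) (XT.lf (nat_lit 76) (nat_lit 2986426513) (nat_lit 0) (nat_lit 3460265853) (nat_lit 456) (nat_lit 10164453880) (nat_lit 255) (nat_lit 1) (nat_lit 254) (nat_lit 1) (nat_lit 260) (nat_lit 1) (nat_lit 285) (nat_lit 381) (nat_lit 354)) (XT.lf (nat_lit 456) (nat_lit 7662765755) (nat_lit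 0) (nat_lit 6093808431) (nat_lit 380) (nat_lit 2531467630) (nat_lit 255) (nat_lit 1) (nat_lit 249) (nat_lit 1) (nat_lit 254) (nat_lit 1) (nat_lit 286) (nat_lit 381) (nat_lit 353)))) (XT.nd (nat_lit 156) (nat_lit 608) (nat_lit 0) (XT.nd (nat_lit 78) (nat_lit 456) (nat_lit 0) (XT.lf (nat_lit 380) (nat_lit 2200019558) (nat_lit 0) (nat_lit 5828625804) (nat_lit 304) (nat_lit 7944805027) (nat_lit 250) (nat_lit 1) (nat_lit 245) (nat_lit 1) (nat_lit 249) (nat_lit 1) (nat_lit 287) (nat_lit 381) (nat_lit 352)) (XT.lf (nat_lit 76) (nat_lit 2500796597) (nat_lit 0) (nat_lit 3142311701) (nat_lit 456) (nat_lit 10023916105) (nat_lit 240) (nat_lit 1) (nat_lit 239) (nat_lit 1) (nat_lit 245) (nat_lit 1) (nat_lit 288) (nat_lit 381) (nat_lit 351))) (XT.nd (nat_lit 78) (nat_lit 304) (nat_lit 0) (XT.lf (nat_lit 380) (nat_lit 6957195876) (nat_lit 0) (nat_lit 5512938846) (nat_lit 304) (nat_lit 2897809537) (nat_lit 240)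 (nat_lit 1) (nat_lit 235) (nat_lit 1) (nat_lit 239) (nat_lit 1) (nat_lit 289) (nat_lit 381) (nat_lit 350)) (XT.lf (nat_lit 380) (nat_lit 1435257203) (nat_lit 0) (nat_lit 5459090495) (nat_lit 304) (nat_lit 8182363910) (nat_lit 236) (nat_lit 1) (nat_lit 231) (nat_lit 1) (nat_lit 235) (nat_lit 1) (nat_lit 290) (nat_lit 381) (nat_lit 349)))))) (XT.nd (nat_lit 546) (nat_lit 1748) (nat_lit 0) (XT.nd (nat_lit 234) (nat_lit 1140) (nat_lit 0) (XT.nd (nat_lit 78) (nat_lit 608) (nat_lit 0) (XT.lf (nat_lit 76) (nat_lit 1525251431) (nat_lit 0) (nat_lit 3936174269) (nat_lit 380) (nat_lit 9331207087) (nat_lit 227) (nat_lit 1) (nat_lit 226) (nat_lit 1) (nat_lit 231) (nat_lit 1) (nat_lit 291) (nat_lit 381) (nat_lit 348)) (XT.nd (nat_lit 78) (nat_lit 304) (nat_lit 0) (XT.lf (nat_lit 380) (nat_lit 5271478534) (nat_lit 0) (nat_lit 5503791559) (nat_lit 304) (nat_lit 3739862134) (nat_lit 227) (nat_lit 1) (nat_lit 222)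 (nat_lit 1) (nat_lit 226) (nat_lit 1) (nat_lit 292) (nat_lit 381) (nat_lit 347)) (XT.lf (nat_lit 76) (nat_lit 5374248640) (nat_lit 0) (nat_lit 241806239) (nat_lit 304) (nat_lit 8628921866) (nat_lit 219) (nat_lit 1) (nat_lit 218) (nat_lit 1) (nat_lit 222) (nat_lit 1) (nat_lit 293) (nat_lit 381) (nat_lit 346)))) (XT.nd (nat_lit 156) (nat_lit 608) (nat_lit 0) (XT.nd (nat_lit 78) (nat_lit 228) (nat_lit 0) (XT.lf (nat_lit 76) (nat_lit 188711958) (nat_lit 0) (nat_lit 5571031593) (nat_lit 380) (nat_lit 8221201112) (nat_lit 215) (nat_lit 1) (nat_lit 214) (nat_lit 1) (nat_lit 219) (nat_lit 1) (nat_lit 294) (nat_lit 381) (nat_lit 345)) (XT.lf (nat_lit 304) (nat_lit 2856799541) (nat_lit 0) (nat_lit 5933496508) (nat_lit 228) (nat_lit 4932601092) (nat_lit 215) (nat_lit 1) (nat_lit 211) (nat_lit 1) (nat_lit 214) (nat_lit 1) (nat_lit 295) (nat_lit 381) (nat_lit 344))) (XT.nd (nat_lit 78) (nat_lit 228) (nat_lit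 0) (XT.lf (nat_lit 76) (nat_lit 3598752051) (nat_lit 0) (nat_lit 2556748855) (nat_lit 380) (nat_lit 7315765681) (nat_lit 207) (nat_lit 1) (nat_lit 206) (nat_lit 1) (nat_lit 211) (nat_lit 1) (nat_lit 296) (nat_lit 381) (nat_lit 343)) (XT.lf (nat_lit 304) (nat_lit 5385809371) (nat_lit 0) (nat_lit 6407568925) (nat_lit 228) (nat_lit 1432049502) (nat_lit 207) (nat_lit 1) (nat_lit 203) (nat_lit 1) (nat_lit 206) (nat_lit 1) (nat_lit 297) (nat_lit 381) (nat_lit 342))))) (XT.nd (nat_lit 234) (nat_lit 988) (nat_lit 0) (XT.nd (nat_lit 78) (nat_lit 456) (nat_lit 0) (XT.lf (nat_lit 76) (nat_lit 6611687747) (nat_lit 0) (nat_lit 80754289) (nat_lit 304) (nat_lit 6292924951) (nat_lit 200) (nat_lit 1) (nat_lit 199) (nat_lit 1) (nat_lit 203) (nat_lit 1) (nat_lit 298) (nat_lit 381) (nat_lit 341)) (XT.nd (nat_lit 78) (nat_lit 228) (nat_lit 0) (XT.lf (nat_lit 76) (nat_lit 1643115008) (nat_lit 0) (nat_lit 5347782019)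 (nat_lit 304) (nat_lit 5759535367) (nat_lit 197) (nat_lit 1) (nat_lit 196) (nat_lit 1) (nat_lit 200) (nat_lit 1) (nat_lit 299) (nat_lit 381) (nat_lit 340)) (XT.lf (nat_lit 304) (nat_lit 1968986676) (nat_lit 0) (nat_lit 7320427230) (nat_lit 228) (nat_lit 3231629521) (nat_lit 197) (nat_lit 1) (nat_lit 193) (nat_lit 1) (nat_lit 196) (nat_lit 1) (nat_lit 300) (nat_lit 381) (nat_lit 339)))) (XT.nd (nat_lit 156) (nat_lit 456) (nat_lit 0) (XT.nd (nat_lit 78) (nat_lit 228) (nat_lit 0) (XT.lf (nat_lit 76) (nat_lit 4346487277) (nat_lit 0) (nat_lit 3314356735) (nat_lit 304) (nat_lit 4635679665) (nat_lit 190) (nat_lit 1) (nat_lit 189) (nat_lit 1) (nat_lit 193) (nat_lit 1) (nat_lit 301) (nat_lit 381) (nat_lit 338)) (XT.lf (nat_lit 304) (nat_lit 3612088012) (nat_lit 0) (nat_lit 8035906668) (nat_lit 228) (nat_lit 429483775) (nat_lit 190) (nat_lit 1) (nat_lit 186) (nat_lit 1) (nat_lit 189) (nat_lit 1) (nat_lit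 302) (nat_lit 381) (nat_lit 337))) (XT.nd (nat_lit 78) (nat_lit 228) (nat_lit 0) (XT.lf (nat_lit 76) (nat_lit 6742564417) (nat_lit 0) (nat_lit 1664239734) (nat_lit 228) (nat_lit 3455888135) (nat_lit 184) (nat_lit 1) (nat_lit 183) (nat_lit 1) (nat_lit 186) (nat_lit 1) (nat_lit 303) (nat_lit 381) (nat_lit 336)) (XT.lf (nat_lit 76) (nat_lit 2027347946) (nat_lit 0) (nat_lit 6768854511) (nat_lit 304) (nat_lit 2856539453) (nat_lit 181) (nat_lit 1) (nat_lit 180) (nat_lit 1) (nat_lit 184) (nat_lit 1) (nat_lit 304) (nat_lit 381) (nat_lit 335))))))) (XT.nd (nat_lit 1092) (nat_lit 2204) (nat_lit 0) (XT.nd (nat_lit 546) (nat_lit 1216) (nat_lit 0) (XT.nd (nat_lit 234) (nat_lit 912) (nat_lit 0) (XT.nd (nat_lit 78) (nat_lit 380) (nat_lit 0) (XT.lf (nat_lit 76) (nat_lit 8863813979) (nat_lit 0) (nat_lit 343805032) (nat_lit 228) (nat_lit 2240028918) (nat_lit 178) (nat_lit 1) (nat_lit 177) (nat_lit 1) (nat_lit 180)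 (nat_lit 1) (nat_lit 305) (nat_lit 381) (nat_lit 334)) (XT.nd (nat_lit 78) (nat_lit 152) (nat_lit 0) (XT.lf (nat_lit 76) (nat_lit 4207940329) (nat_lit 0) (nat_lit 5392681301) (nat_lit 304) (nat_lit 1645530789) (nat_lit 175) (nat_lit 1) (nat_lit 174) (nat_lit 1) (nat_lit 178) (nat_lit 1) (nat_lit 306) (nat_lit 381) (nat_lit 333)) (XT.lf (nat_lit 228) (nat_lit 707607711) (nat_lit 0) (nat_lit 10038286653) (nat_lit 152) (nat_lit 304119434) (nat_lit 175) (nat_lit 1) (nat_lit 172) (nat_lit 1) (nat_lit 174) (nat_lit 1) (nat_lit 307) (nat_lit 381) (nat_lit 332)))) (XT.nd (nat_lit 156) (nat_lit 380) (nat_lit 0) (XT.nd (nat_lit 78) (nat_lit 304) (nat_lit 0) (XT.lf (nat_lit 76) (nat_lit 6148382566) (nat_lit 0) (nat_lit 4288103379) (nat_lit 228) (nat_lit 420218529) (nat_lit 170) (nat_lit 1) (nat_lit 169) (nat_lit 1) (nat_lit 172) (nat_lit 1) (nat_lit 308) (nat_lit 381) (nat_lit 331)) (XT.lf (nat_lit 228) (nat_lit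 1499837055) (nat_lit 0) (nat_lit 207982855) (nat_lit 152) (nat_lit 8960514377) (nat_lit 168) (nat_lit 1) (nat_lit 165) (nat_lit 1) (nat_lit 167) (nat_lit 1) (nat_lit 309) (nat_lit 381) (nat_lit 330))) (XT.nd (nat_lit 78) (nat_lit 152) (nat_lit 0) (XT.lf (nat_lit 228) (nat_lit 7059082792) (nat_lit 0) (nat_lit 822153919) (nat_lit 152) (nat_lit 2601895072) (nat_lit 165) (nat_lit 1) (nat_lit 162) (nat_lit 1) (nat_lit 164) (nat_lit 1) (nat_lit 310) (nat_lit 381) (nat_lit 329)) (XT.lf (nat_lit 228) (nat_lit 2070675223) (nat_lit 0) (nat_lit 1442088020) (nat_lit 152) (nat_lit 6789202291) (nat_lit 163) (nat_lit 1) (nat_lit 160) (nat_lit 1) (nat_lit 162) (nat_lit 1) (nat_lit 311) (nat_lit 381) (nat_lit 328))))) (XT.nd (nat_lit 234) (nat_lit 608) (nat_lit 0) (XT.nd (nat_lit 78) (nat_lit 380) (nat_lit 0) (XT.lf (nat_lit 228) (nat_lit 7361976639) (nat_lit 0) (nat_lit 2062605070) (nat_lit 152) (nat_lit 700029271)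 (nat_lit 160) (nat_lit 1) (nat_lit 157) (nat_lit 1) (nat_lit 159) (nat_lit 1) (nat_lit 312) (nat_lit 381) (nat_lit 327)) (XT.nd (nat_lit 78) (nat_lit 228) (nat_lit 0) (XT.lf (nat_lit 228) (nat_lit 2464926593) (nat_lit 0) (nat_lit 2662851161) (nat_lit 152) (nat_lit 4822610691) (nat_lit 158) (nat_lit 1) (nat_lit 155) (nat_lit 1) (nat_lit 157) (nat_lit 1) (nat_lit 313) (nat_lit 381) (nat_lit 326)) (XT.lf (nat_lit 76) (nat_lit 993597821) (nat_lit 0) (nat_lit 2279754076) (nat_lit 228) (nat_lit 6506764225) (nat_lit 153) (nat_lit 1) (nat_lit 152) (nat_lit 1) (nat_lit 155) (nat_lit 1) (nat_lit 314) (nat_lit 381) (nat_lit 325)))) (XT.nd (nat_lit 156) (nat_lit 304) (nat_lit 0) (XT.nd (nat_lit 78) (nat_lit 152) (nat_lit 0) (XT.lf (nat_lit 228) (nat_lit 2710099339) (nat_lit 0) (nat_lit 3861522777) (nat_lit 152) (nat_lit 3041153276) (nat_lit 153) (nat_lit 1) (nat_lit 150) (nat_lit 1) (nat_lit 152) (nat_lit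 1) (nat_lit 315) (nat_lit 381) (nat_lit 324)) (XT.lf (nat_lit 76) (nat_lit 2506594873) (nat_lit 0) (nat_lit 1944879032) (nat_lit 152) (nat_lit 4997526361) (nat_lit 149) (nat_lit 1) (nat_lit 148) (nat_lit 1) (nat_lit 150) (nat_lit 1) (nat_lit 316) (nat_lit 381) (nat_lit 323))) (XT.nd (nat_lit 78) (nat_lit 152) (nat_lit 0) (XT.lf (nat_lit 228) (nat_lit 2830107022) (nat_lit 0) (nat_lit 5030942177) (nat_lit 152) (nat_lit 1427317437) (nat_lit 149) (nat_lit 1) (nat_lit 146) (nat_lit 1) (nat_lit 148) (nat_lit 1) (nat_lit 317) (nat_lit 381) (nat_lit 322)) (XT.lf (nat_lit 76) (nat_lit 3868553688) (nat_lit 0) (nat_lit 1728930194) (nat_lit 152) (nat_lit 3533253791) (nat_lit 145) (nat_lit 1) (nat_lit 144) (nat_lit 1) (nat_lit 146) (nat_lit 1) (nat_lit 318) (nat_lit 381) (nat_lit 321)))))) (XT.nd (nat_lit 546) (nat_lit 1064) (nat_lit 0) (XT.nd (nat_lit 234) (nat_lit 684) (nat_lit 0) (XT.nd (nat_lit 78) (nat_lit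 304) (nat_lit 0) (XT.lf (nat_lit 76) (nat_lit 33896355) (nat_lit 0) (nat_lit 6131084129) (nat_lit 228) (nat_lit 2811472804) (nat_lit 143) (nat_lit 1) (nat_lit 142) (nat_lit 1) (nat_lit 145) (nat_lit 1) (nat_lit 319) (nat_lit 381) (nat_lit 320)) (XT.nd (nat_lit 78) (nat_lit 152) (nat_lit 0) (XT.lf (nat_lit 76) (nat_lit 5093734593) (nat_lit 0) (nat_lit 1612499791) (nat_lit 152) (nat_lit 2118423757) (nat_lit 141) (nat_lit 1) (nat_lit 140) (nat_lit 1) (nat_lit 142) (nat_lit 1) (nat_lit 320) (nat_lit 381) (nat_lit 319)) (XT.lf (nat_lit 76) (nat_lit 1332044931) (nat_lit 0) (nat_lit 5914568103) (nat_lit 228) (nat_lit 1429416082) (nat_lit 139) (nat_lit 1) (nat_lit 138) (nat_lit 1) (nat_lit 141) (nat_lit 1) (nat_lit 321) (nat_lit 381) (nat_lit 318)))) (XT.nd (nat_lit 156) (nat_lit 380) (nat_lit 0) (XT.nd (nat_lit 78) (nat_lit 152) (nat_lit 0) (XT.lf (nat_lit 76) (nat_lit 6194915052) (nat_lit 0) (nat_lit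 1578758648) (nat_lit 152) (nat_lit 756469313) (nat_lit 137) (nat_lit 1) (nat_lit 136) (nat_lit 1) (nat_lit 138) (nat_lit 1) (nat_lit 322) (nat_lit 381) (nat_lit 317)) (XT.lf (nat_lit 76) (nat_lit 2507330506) (nat_lit 0) (nat_lit 5778937568) (nat_lit 228) (nat_lit 100638676) (nat_lit 135) (nat_lit 1) (nat_lit 134) (nat_lit 1) (nat_lit 137) (nat_lit 1) (nat_lit 323) (nat_lit 381) (nat_lit 316))) (XT.nd (nat_lit 78) (nat_lit 76) (nat_lit 0) (XT.lf (nat_lit 228) (nat_lit 6627928751) (nat_lit 0) (nat_lit 561020280) (nat_lit 152) (nat_lit 1057509162) (nat_lit 133) (nat_lit 1) (nat_lit 130) (nat_lit 1) (nat_lit 132) (nat_lit 1) (nat_lit 324) (nat_lit 381) (nat_lit 315)) (XT.lf (nat_lit 152) (nat_lit 2386401132) (nat_lit 0) (nat_lit 1195937792) (nat_lit 76) (nat_lit 4525847865) (nat_lit 131) (nat_lit 1) (nat_lit 129) (nat_lit 1) (nat_lit 130) (nat_lit 1) (nat_lit 325) (nat_lit 381) (nat_lit 314))))) (XT.nd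 (nat_lit 234) (nat_lit 532) (nat_lit 0) (XT.nd (nat_lit 78) (nat_lit 304) (nat_lit 0) (XT.lf (nat_lit 76) (nat_lit 112326495) (nat_lit 0) (nat_lit 1721784131) (nat_lit 228) (nat_lit 6138885555) (nat_lit 127) (nat_lit 1) (nat_lit 126) (nat_lit 1) (nat_lit 129) (nat_lit 1) (nat_lit 326) (nat_lit 381) (nat_lit 313)) (XT.nd (nat_lit 78) (nat_lit 228) (nat_lit 0) (XT.lf (nat_lit 152) (nat_lit 2119663141) (nat_lit 0) (nat_lit 2436307799) (nat_lit 76) (nat_lit 3283715908) (nat_lit 127) (nat_lit 1) (nat_lit 125) (nat_lit 1) (nat_lit 126) (nat_lit 1) (nat_lit 327) (nat_lit 381) (nat_lit 312)) (XT.lf (nat_lit 76) (nat_lit 1159994702) (nat_lit 0) (nat_lit 1878303102) (nat_lit 228) (nat_lit 4670946992) (nat_lit 123) (nat_lit 1) (nat_lit 122) (nat_lit 1) (nat_lit 125) (nat_lit 1) (nat_lit 328) (nat_lit 381) (nat_lit 311)))) (XT.nd (nat_lit 156) (nat_lit 228) (nat_lit 0) (XT.nd (nat_lit 78) (nat_lit 228) (nat_lit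 0) (XT.lf (nat_lit 152) (nat_lit 1818673984) (nat_lit 0) (nat_lit 3617530623) (nat_lit 76) (nat_lit 2144753892) (nat_lit 123) (nat_lit 1) (nat_lit 121) (nat_lit 1) (nat_lit 122) (nat_lit 1) (nat_lit 329) (nat_lit 381) (nat_lit 310)) (XT.lf (nat_lit 76) (nat_lit 2114741243) (nat_lit 0) (nat_lit 2068652856) (nat_lit 228) (nat_lit 3271653603) (nat_lit 119) (nat_lit 1) (nat_lit 118) (nat_lit 1) (nat_lit 121) (nat_lit 1) (nat_lit 330) (nat_lit 381) (nat_lit 309))) (XT.nd (nat_lit 78) (nat_lit 152) (nat_lit 0) (XT.lf (nat_lit 152) (nat_lit 1491922034) (nat_lit 0) (nat_lit 4739201338) (nat_lit 76) (nat_lit 1100432866) (nat_lit 119) (nat_lit 1) (nat_lit 117) (nat_lit 1) (nat_lit 118) (nat_lit 1) (nat_lit 331) (nat_lit 381) (nat_lit 308)) (XT.lf (nat_lit 76) (nat_lit 2984343742) (nat_lit 0) (nat_lit 2284885205) (nat_lit 152) (nat_lit 1940745535) (nat_lit 116) (nat_lit 1) (nat_lit 115) (nat_lit 1) (nat_lit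 117) (nat_lit 1) (nat_lit 332) (nat_lit 381) (nat_lit 307))))))))
noncomputable def ec86 : XT := (XT.nd (nat_lit 2184) (nat_lit 3496) (nat_lit 0) (XT.nd (nat_lit 1092) (nat_lit 1824) (nat_lit 0) (XT.nd (nat_lit 546) (nat_lit 836) (nat_lit 0) (XT.nd (nat_lit 234) (nat_lit 532) (nat_lit 0) (XT.nd (nat_lit 78) (nat_lit 228) (nat_lit 0) (XT.lf (nat_lit 152) (nat_lit 1146660763) (nat_lit 0) (nat_lit 5801364815) (nat_lit 76) (nat_lit 143038449) (nat_lit 116) (nat_lit 1) (nat_lit 114) (nat_lit 1) (nat_lit 115) (nat_lit 1) (nat_lit 333) (nat_lit 381) (nat_lit 306)) (XT.nd (nat_lit 78) (nat_lit 76) (nat_lit 0) (XT.lf (nat_lit 76) (nat_lit 3775837640) (nat_lit 0) (nat_lit 2520204531) (nat_lit 152) (nat_lit 677580560) (nat_lit 113) (nat_lit 1) (nat_lit 112) (nat_lit 1) (nat_lit 114) (nat_lit 1) (nat_lit 334) (nat_lit 381) (nat_lit 305)) (XT.lf (nat_lit 0) (nat_lit 720085844) (nat_lit 0) (nat_lit 6077086084)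 (nat_lit 152) (nat_lit 61708855) (nat_lit 111) (nat_lit 3) (nat_lit 111) (nat_lit 1) (nat_lit 113) (nat_lit 1) (nat_lit 335) (nat_lit 381) (nat_lit 304)))) (XT.nd (nat_lit 156) (nat_lit 228) (nat_lit 0) (XT.nd (nat_lit 78) (nat_lit 76) (nat_lit 0) (XT.lf (nat_lit 152) (nat_lit 3971555742) (nat_lit 0) (nat_lit 529126524) (nat_lit 76) (nat_lit 2244780625) (nat_lit 110) (nat_lit 1) (nat_lit 108) (nat_lit 1) (nat_lit 109) (nat_lit 1) (nat_lit 336) (nat_lit 381) (nat_lit 303)) (XT.lf (nat_lit 76) (nat_lit 398045615) (nat_lit 0) (nat_lit 1120984681) (nat_lit 76) (nat_lit 5115479725) (nat_lit 108) (nat_lit 3) (nat_lit 107) (nat_lit 1) (nat_lit 108) (nat_lit 1) (nat_lit 337) (nat_lit 381) (nat_lit 302))) (XT.nd (nat_lit 78) (nat_lit 76) (nat_lit 0) (XT.lf (nat_lit 152) (nat_lit 3483120092) (nat_lit 0) (nat_lit 1682452728) (nat_lit 76) (nat_lit 1359540926) (nat_lit 107) (nat_lit 1) (nat_lit 105) (nat_lit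 1) (nat_lit 106) (nat_lit 1) (nat_lit 338) (nat_lit 381) (nat_lit 301)) (XT.lf (nat_lit 76) (nat_lit 12318546) (nat_lit 0) (nat_lit 2239110455) (nat_lit 76) (nat_lit 4166543595) (nat_lit 105) (nat_lit 3) (nat_lit 104) (nat_lit 1) (nat_lit 105) (nat_lit 1) (nat_lit 339) (nat_lit 381) (nat_lit 300))))) (XT.nd (nat_lit 234) (nat_lit 456) (nat_lit 0) (XT.nd (nat_lit 78) (nat_lit 228) (nat_lit 0) (XT.lf (nat_lit 152) (nat_lit 2998756168) (nat_lit 0) (nat_lit 2770376396) (nat_lit 76) (nat_lit 543308925) (nat_lit 104) (nat_lit 1) (nat_lit 102) (nat_lit 1) (nat_lit 103) (nat_lit 1) (nat_lit 340) (nat_lit 381) (nat_lit 299)) (XT.nd (nat_lit 78) (nat_lit 76) (nat_lit 0) (XT.lf (nat_lit 76) (nat_lit 2925395836) (nat_lit 0) (nat_lit 363881189) (nat_lit 152) (nat_lit 2919578058) (nat_lit 101) (nat_lit 1) (nat_lit 100) (nat_lit 1) (nat_lit 102) (nat_lit 1) (nat_lit 341) (nat_lit 381) (nat_lit 298)) (XT.lf (nat_lit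 0) (nat_lit 204944601) (nat_lit 0) (nat_lit 3587521460) (nat_lit 152) (nat_lit 2314605949) (nat_lit 99) (nat_lit 3) (nat_lit 99) (nat_lit 1) (nat_lit 101) (nat_lit 1) (nat_lit 342) (nat_lit 381) (nat_lit 297)))) (XT.nd (nat_lit 156) (nat_lit 228) (nat_lit 0) (XT.nd (nat_lit 78) (nat_lit 76) (nat_lit 0) (XT.lf (nat_lit 76) (nat_lit 3542127569) (nat_lit 0) (nat_lit 734633804) (nat_lit 152) (nat_lit 1730195147) (nat_lit 98) (nat_lit 1) (nat_lit 97) (nat_lit 1) (nat_lit 99) (nat_lit 1) (nat_lit 343) (nat_lit 381) (nat_lit 296)) (XT.lf (nat_lit 0) (nat_lit 884519568) (nat_lit 0) (nat_lit 3863254446) (nat_lit 152) (nat_lit 1160855785) (nat_lit 96) (nat_lit 3) (nat_lit 96) (nat_lit 1) (nat_lit 98) (nat_lit 1) (nat_lit 344) (nat_lit 381) (nat_lit 295))) (XT.nd (nat_lit 78) (nat_lit 76) (nat_lit 0) (XT.lf (nat_lit 76) (nat_lit 4105770857) (nat_lit 0) (nat_lit 1097736850) (nat_lit 152) (nat_lit 608484552)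 (nat_lit 95) (nat_lit 1) (nat_lit 94) (nat_lit 1) (nat_lit 96) (nat_lit 1) (nat_lit 345) (nat_lit 381) (nat_lit 294)) (XT.lf (nat_lit 0) (nat_lit 1510205668) (nat_lit 0) (nat_lit 4133312797) (nat_lit 152) (nat_lit 73471856) (nat_lit 93) (nat_lit 3) (nat_lit 93) (nat_lit 1) (nat_lit 95) (nat_lit 1) (nat_lit 346) (nat_lit 381) (nat_lit 293)))))) (XT.nd (nat_lit 546) (nat_lit 912) (nat_lit 0) (XT.nd (nat_lit 234) (nat_lit 456) (nat_lit 0) (XT.nd (nat_lit 78) (nat_lit 228) (nat_lit 0) (XT.lf (nat_lit 152) (nat_lit 4167967910) (nat_lit 0) (nat_lit 456650495) (nat_lit 76) (nat_lit 998939534) (nat_lit 92) (nat_lit 1) (nat_lit 90) (nat_lit 1) (nat_lit 91) (nat_lit 1) (nat_lit 347) (nat_lit 381) (nat_lit 292)) (XT.nd (nat_lit 78) (nat_lit 152) (nat_lit 0) (XT.lf (nat_lit 76) (nat_lit 1126518230) (nat_lit 0) (nat_lit 968634209) (nat_lit 76) (nat_lit 3436455600) (nat_lit 90) (nat_lit 3) (nat_lit 89) (nat_lit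 1) (nat_lit 90) (nat_lit 1) (nat_lit 348) (nat_lit 381) (nat_lit 291)) (XT.lf (nat_lit 152) (nat_lit 3633815796) (nat_lit 0) (nat_lit 1469387600) (nat_lit 76) (nat_lit 338163115) (nat_lit 89) (nat_lit 1) (nat_lit 87) (nat_lit 1) (nat_lit 88) (nat_lit 1) (nat_lit 349) (nat_lit 381) (nat_lit 290)))) (XT.nd (nat_lit 156) (nat_lit 228) (nat_lit 0) (XT.nd (nat_lit 78) (nat_lit 152) (nat_lit 0) (XT.lf (nat_lit 76) (nat_lit 684664449) (nat_lit 0) (nat_lit 1949021046) (nat_lit 76) (nat_lit 2718821040) (nat_lit 87) (nat_lit 3) (nat_lit 86) (nat_lit 1) (nat_lit 87) (nat_lit 1) (nat_lit 350) (nat_lit 381) (nat_lit 289)) (XT.lf (nat_lit 0) (nat_lit 268177933) (nat_lit 0) (nat_lit 2149043944) (nat_lit 152) (nat_lit 2848050357) (nat_lit 84) (nat_lit 3) (nat_lit 84) (nat_lit 1) (nat_lit 86) (nat_lit 1) (nat_lit 351) (nat_lit 381) (nat_lit 288))) (XT.nd (nat_lit 78) (nat_lit 152) (nat_lit 0) (XT.lf (nat_lit 76)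 (nat_lit 259819702) (nat_lit 0) (nat_lit 2868526810) (nat_lit 76) (nat_lit 2051120665) (nat_lit 84) (nat_lit 3) (nat_lit 83) (nat_lit 1) (nat_lit 84) (nat_lit 1) (nat_lit 352) (nat_lit 381) (nat_lit 287)) (XT.lf (nat_lit 0) (nat_lit 822991114) (nat_lit 0) (nat_lit 2479302684) (nat_lit 152) (nat_lit 1792742267) (nat_lit 81) (nat_lit 3) (nat_lit 81) (nat_lit 1) (nat_lit 83) (nat_lit 1) (nat_lit 353) (nat_lit 381) (nat_lit 286))))) (XT.nd (nat_lit 234) (nat_lit 532) (nat_lit 0) (XT.nd (nat_lit 78) (nat_lit 228) (nat_lit 0) (XT.lf (nat_lit 76) (nat_lit 3583557253) (nat_lit 0) (nat_lit 144444428) (nat_lit 152) (nat_lit 1284217400) (nat_lit 80) (nat_lit 1) (nat_lit 79) (nat_lit 1) (nat_lit 81) (nat_lit 1) (nat_lit 354) (nat_lit 381) (nat_lit 285)) (XT.nd (nat_lit 78) (nat_lit 152) (nat_lit 0) (XT.lf (nat_lit 0) (nat_lit 1335840274) (nat_lit 0) (nat_lit 2794406700) (nat_lit 152) (nat_lit 800285388) (nat_lit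 78) (nat_lit 3) (nat_lit 78) (nat_lit 1) (nat_lit 80) (nat_lit 1) (nat_lit 355) (nat_lit 381) (nat_lit 284)) (XT.lf (nat_lit 76) (nat_lit 4002998013) (nat_lit 0) (nat_lit 525816760) (nat_lit 152) (nat_lit 321702857) (nat_lit 77) (nat_lit 1) (nat_lit 76) (nat_lit 1) (nat_lit 78) (nat_lit 1) (nat_lit 356) (nat_lit 381) (nat_lit 283)))) (XT.nd (nat_lit 156) (nat_lit 228) (nat_lit 0) (XT.nd (nat_lit 78) (nat_lit 152) (nat_lit 0) (XT.lf (nat_lit 76) (nat_lit 1676320068) (nat_lit 0) (nat_lit 134439811) (nat_lit 76) (nat_lit 2960749917) (nat_lit 75) (nat_lit 3) (nat_lit 74) (nat_lit 1) (nat_lit 75) (nat_lit 1) (nat_lit 357) (nat_lit 381) (nat_lit 282)) (XT.lf (nat_lit 152) (nat_lit 3799262813) (nat_lit 0) (nat_lit 593170918) (nat_lit 76) (nat_lit 301625850) (nat_lit 74) (nat_lit 1) (nat_lit 72) (nat_lit 1) (nat_lit 73) (nat_lit 1) (nat_lit 358) (nat_lit 381) (nat_lit 281))) (XT.nd (nat_lit 78) (nat_lit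 152) (nat_lit 0) (XT.lf (nat_lit 76) (nat_lit 1230227151) (nat_lit 0) (nat_lit 1026048550) (nat_lit 76) (nat_lit 2361310390) (nat_lit 72) (nat_lit 3) (nat_lit 71) (nat_lit 1) (nat_lit 72) (nat_lit 1) (nat_lit 359) (nat_lit 381) (nat_lit 280)) (XT.lf (nat_lit 0) (nat_lit 204324211) (nat_lit 0) (nat_lit 1250170942) (nat_lit 152) (nat_lit 3088185181) (nat_lit 69) (nat_lit 3) (nat_lit 69) (nat_lit 1) (nat_lit 71) (nat_lit 1) (nat_lit 360) (nat_lit 381) (nat_lit 279))))))) (XT.nd (nat_lit 1092) (nat_lit 1824) (nat_lit 0) (XT.nd (nat_lit 546) (nat_lit 836) (nat_lit 0) (XT.nd (nat_lit 234) (nat_lit 532) (nat_lit 0) (XT.nd (nat_lit 78) (nat_lit 228) (nat_lit 0) (XT.lf (nat_lit 76) (nat_lit 805836776) (nat_lit 0) (nat_lit 1861084369) (nat_lit 76) (nat_lit 1801881281) (nat_lit 69) (nat_lit 3) (nat_lit 68) (nat_lit 1) (nat_lit 69) (nat_lit 1) (nat_lit 361) (nat_lit 381) (nat_lit 278)) (XT.nd (nat_lit 78)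 (nat_lit 76) (nat_lit 0) (XT.lf (nat_lit 0) (nat_lit 668390922) (nat_lit 0) (nat_lit 1589375209) (nat_lit 152) (nat_lit 2138502588) (nat_lit 66) (nat_lit 3) (nat_lit 66) (nat_lit 1) (nat_lit 68) (nat_lit 1) (nat_lit 362) (nat_lit 381) (nat_lit 277)) (XT.lf (nat_lit 76) (nat_lit 402938000) (nat_lit 0) (nat_lit 2641969336) (nat_lit 76) (nat_lit 1280065891) (nat_lit 66) (nat_lit 3) (nat_lit 65) (nat_lit 1) (nat_lit 66) (nat_lit 1) (nat_lit 363) (nat_lit 381) (nat_lit 276)))) (XT.nd (nat_lit 156) (nat_lit 304) (nat_lit 0) (XT.nd (nat_lit 78) (nat_lit 76) (nat_lit 0) (XT.lf (nat_lit 0) (nat_lit 1098662172) (nat_lit 0) (nat_lit 1909691198) (nat_lit 152) (nat_lit 1246376519) (nat_lit 63) (nat_lit 3) (nat_lit 63) (nat_lit 1) (nat_lit 65) (nat_lit 1) (nat_lit 364) (nat_lit 381) (nat_lit 275)) (XT.lf (nat_lit 76) (nat_lit 21220615) (nat_lit 0) (nat_lit 3371071174) (nat_lit 76) (nat_lit 793629211) (nat_lit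 63) (nat_lit 3) (nat_lit 62) (nat_lit 1) (nat_lit 63) (nat_lit 1) (nat_lit 365) (nat_lit 381) (nat_lit 274))) (XT.nd (nat_lit 78) (nat_lit 152) (nat_lit 0) (XT.lf (nat_lit 0) (nat_lit 1497191199) (nat_lit 0) (nat_lit 2211392397) (nat_lit 152) (nat_lit 409306255) (nat_lit 60) (nat_lit 3) (nat_lit 60) (nat_lit 1) (nat_lit 62) (nat_lit 1) (nat_lit 366) (nat_lit 381) (nat_lit 273)) (XT.lf (nat_lit 76) (nat_lit 3714256994) (nat_lit 0) (nat_lit 333078382) (nat_lit 152) (nat_lit 4042501) (nat_lit 59) (nat_lit 1) (nat_lit 58) (nat_lit 1) (nat_lit 60) (nat_lit 1) (nat_lit 367) (nat_lit 381) (nat_lit 272))))) (XT.nd (nat_lit 234) (nat_lit 456) (nat_lit 0) (XT.nd (nat_lit 78) (nat_lit 228) (nat_lit 0) (XT.lf (nat_lit 76) (nat_lit 1486965410) (nat_lit 0) (nat_lit 382607287) (nat_lit 76) (nat_lit 2115898944) (nat_lit 57) (nat_lit 3) (nat_lit 56) (nat_lit 1) (nat_lit 57) (nat_lit 1) (nat_lit 368) (nat_lit 381)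 (nat_lit 271)) (XT.nd (nat_lit 78) (nat_lit 76) (nat_lit 0) (XT.lf (nat_lit 0) (nat_lit 93813314) (nat_lit 0) (nat_lit 675351488) (nat_lit 152) (nat_lit 3151864315) (nat_lit 54) (nat_lit 3) (nat_lit 54) (nat_lit 1) (nat_lit 56) (nat_lit 1) (nat_lit 369) (nat_lit 381) (nat_lit 270)) (XT.lf (nat_lit 76) (nat_lit 1086033912) (nat_lit 0) (nat_lit 1131406598) (nat_lit 76) (nat_lit 1639879791) (nat_lit 54) (nat_lit 3) (nat_lit 53) (nat_lit 1) (nat_lit 54) (nat_lit 1) (nat_lit 370) (nat_lit 381) (nat_lit 269)))) (XT.nd (nat_lit 156) (nat_lit 228) (nat_lit 0) (XT.nd (nat_lit 78) (nat_lit 76) (nat_lit 0) (XT.lf (nat_lit 0) (nat_lit 488591495) (nat_lit 0) (nat_lit 1000700492) (nat_lit 152) (nat_lit 2305607080) (nat_lit 51) (nat_lit 3) (nat_lit 51) (nat_lit 1) (nat_lit 53) (nat_lit 1) (nat_lit 371) (nat_lit 381) (nat_lit 268)) (XT.lf (nat_lit 76) (nat_lit 707198738) (nat_lit 0) (nat_lit 1831282058) (nat_lit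 76) (nat_lit 1194921592) (nat_lit 51) (nat_lit 3) (nat_lit 50) (nat_lit 1) (nat_lit 51) (nat_lit 1) (nat_lit 372) (nat_lit 381) (nat_lit 267))) (XT.nd (nat_lit 78) (nat_lit 76) (nat_lit 0) (XT.lf (nat_lit 0) (nat_lit 855457642) (nat_lit 0) (nat_lit 1306426531) (nat_lit 152) (nat_lit 1511050945) (nat_lit 48) (nat_lit 3) (nat_lit 48) (nat_lit 1) (nat_lit 50) (nat_lit 1) (nat_lit 373) (nat_lit 381) (nat_lit 266)) (XT.lf (nat_lit 76) (nat_lit 349790332) (nat_lit 0) (nat_lit 2484495430) (nat_lit 76) (nat_lit 779284512) (nat_lit 48) (nat_lit 3) (nat_lit 47) (nat_lit 1) (nat_lit 48) (nat_lit 1) (nat_lit 374) (nat_lit 381) (nat_lit 265)))))) (XT.nd (nat_lit 546) (nat_lit 912) (nat_lit 0) (XT.nd (nat_lit 234) (nat_lit 532) (nat_lit 0) (XT.nd (nat_lit 78) (nat_lit 228) (nat_lit 0) (XT.lf (nat_lit 0) (nat_lit 1196012940) (nat_lit 0) (nat_lit 1593141169) (nat_lit 152) (nat_lit 765838169) (nat_lit 45) (nat_lit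 3) (nat_lit 45) (nat_lit 1) (nat_lit 47) (nat_lit 1) (nat_lit 375) (nat_lit 381) (nat_lit 264)) (XT.nd (nat_lit 78) (nat_lit 152) (nat_lit 0) (XT.lf (nat_lit 76) (nat_lit 13115784) (nat_lit 0) (nat_lit 3093233265) (nat_lit 76) (nat_lit 391333146) (nat_lit 45) (nat_lit 3) (nat_lit 44) (nat_lit 1) (nat_lit 45) (nat_lit 1) (nat_lit 376) (nat_lit 381) (nat_lit 263)) (XT.lf (nat_lit 0) (nat_lit 1511762034) (nat_lit 0) (nat_lit 1861477579) (nat_lit 152) (nat_lit 67691668) (nat_lit 42) (nat_lit 3) (nat_lit 42) (nat_lit 1) (nat_lit 44) (nat_lit 1) (nat_lit 377) (nat_lit 381) (nat_lit 262)))) (XT.nd (nat_lit 156) (nat_lit 228) (nat_lit 0) (XT.nd (nat_lit 78) (nat_lit 76) (nat_lit 0) (XT.lf (nat_lit 152) (nat_lit 3085166368) (nat_lit 0) (nat_lit 276482259) (nat_lit 76) (nat_lit 23786057) (nat_lit 41) (nat_lit 1) (nat_lit 39) (nat_lit 1) (nat_lit 40) (nat_lit 1) (nat_lit 378) (nat_lit 381) (nat_lit 261))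 (XT.lf (nat_lit 76) (nat_lit 1212621481) (nat_lit 0) (nat_lit 597239683) (nat_lit 76) (nat_lit 1520584887) (nat_lit 39) (nat_lit 3) (nat_lit 38) (nat_lit 1) (nat_lit 39) (nat_lit 1) (nat_lit 379) (nat_lit 381) (nat_lit 260))) (XT.nd (nat_lit 78) (nat_lit 76) (nat_lit 0) (XT.lf (nat_lit 0) (nat_lit 316346199) (nat_lit 0) (nat_lit 601102007) (nat_lit 152) (nat_lit 2359218579) (nat_lit 36) (nat_lit 3) (nat_lit 36) (nat_lit 1) (nat_lit 38) (nat_lit 1) (nat_lit 380) (nat_lit 381) (nat_lit 259)) (XT.lf (nat_lit 76) (nat_lit 866230768) (nat_lit 0) (nat_lit 1219915248) (nat_lit 76) (nat_lit 1137426775) (nat_lit 36) (nat_lit 3) (nat_lit 35) (nat_lit 1) (nat_lit 36) (nat_lit 1) (nat_lit 381) (nat_lit 381) (nat_lit 258))))) (XT.nd (nat_lit 234) (nat_lit 532) (nat_lit 0) (XT.nd (nat_lit 78) (nat_lit 228) (nat_lit 0) (XT.lf (nat_lit 0) (nat_lit 632543605) (nat_lit 0) (nat_lit 883302742) (nat_lit 152) (nat_lit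 1655621199) (nat_lit 33) (nat_lit 3) (nat_lit 33) (nat_lit 1) (nat_lit 35) (nat_lit 1) (nat_lit 382) (nat_lit 381) (nat_lit 257)) (XT.nd (nat_lit 78) (nat_lit 152) (nat_lit 0) (XT.lf (nat_lit 76) (nat_lit 540160775) (nat_lit 0) (nat_lit 1801067238) (nat_lit 76) (nat_lit 778979001) (nat_lit 33) (nat_lit 3) (nat_lit 32) (nat_lit 1) (nat_lit 33) (nat_lit 1) (nat_lit 383) (nat_lit 381) (nat_lit 256)) (XT.lf (nat_lit 0) (nat_lit 926560144) (nat_lit 0) (nat_lit 1147381435) (nat_lit 152) (nat_lit 995779922) (nat_lit 30) (nat_lit 3) (nat_lit 30) (nat_lit 1) (nat_lit 32) (nat_lit 1) (nat_lit 384) (nat_lit 381) (nat_lit 255)))) (XT.nd (nat_lit 156) (nat_lit 304) (nat_lit 0) (XT.nd (nat_lit 78) (nat_lit 152) (nat_lit 0) (XT.lf (nat_lit 76) (nat_lit 233613350) (nat_lit 0) (nat_lit 2342696325) (nat_lit 76) (nat_lit 443919341) (nat_lit 30) (nat_lit 3) (nat_lit 29) (nat_lit 1) (nat_lit 30) (nat_lit 1) (nat_lit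 385) (nat_lit 381) (nat_lit 254)) (XT.lf (nat_lit 0) (nat_lit 1199613994) (nat_lit 0) (nat_lit 1394071684) (nat_lit 152) (nat_lit 377625228) (nat_lit 27) (nat_lit 3) (nat_lit 27) (nat_lit 1) (nat_lit 29) (nat_lit 1) (nat_lit 386) (nat_lit 381) (nat_lit 253))) (XT.nd (nat_lit 78) (nat_lit 152) (nat_lit 0) (XT.lf (nat_lit 76) (nat_lit 2793046851) (nat_lit 0) (nat_lit 53142455) (nat_lit 152) (nat_lit 77318615) (nat_lit 26) (nat_lit 1) (nat_lit 25) (nat_lit 1) (nat_lit 27) (nat_lit 1) (nat_lit 387) (nat_lit 381) (nat_lit 252)) (XT.lf (nat_lit 76) (nat_lit 1249996382) (nat_lit 0) (nat_lit 204828950) (nat_lit 76) (nat_lit 1421237991) (nat_lit 24) (nat_lit 3) (nat_lit 23) (nat_lit 1) (nat_lit 24) (nat_lit 1) (nat_lit 388) (nat_lit 381) (nat_lit 251))))))))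
noncomputable def ec87 : XT := (XT.nd (nat_lit 44694) (nat_lit 0) (nat_lit 10944) (XT.nd (nat_lit 43602) (nat_lit 0) (nat_lit 19152) (XT.nd (nat_lit 43056) (nat_lit 0) (nat_lit 26220) (XT.nd (nat_lit 42744) (nat_lit 0) (nat_lit 27056) (XT.nd (nat_lit 78) (nat_lit 228) (nat_lit 0) (XT.lf (nat_lit 0) (nat_lit 165744697) (nat_lit 0) (nat_lit 324081829) (nat_lit 152) (nat_lit 2339869174) (nat_lit 21) (nat_lit 3) (nat_lit 21) (nat_lit 1) (nat_lit 23) (nat_lit 1) (nat_lit 389) (nat_lit 381) (nat_lit 250)) (XT.nd (nat_lit 78) (nat_lit 152) (nat_lit 0) (XT.lf (nat_lit 76) (nat_lit 938385829) (nat_lit 0) (nat_lit 756259749) (nat_lit 76) (nat_lit 1089183097) (nat_lit 21) (nat_lit 3) (nat_lit 20) (nat_lit 1) (nat_lit 21) (nat_lit 1) (nat_lit 390) (nat_lit 381) (nat_lit 249)) (XT.lf (nat_lit 0) (nat_lit 440189385) (nat_lit 0) (nat_lit 579622829) (nat_lit 152) (nat_lit 1719087000) (nat_lit 18) (nat_lit 3) (nat_lit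 18) (nat_lit 1) (nat_lit 20) (nat_lit 1) (nat_lit 391) (nat_lit 381) (nat_lit 248)))) (XT.nd (nat_lit 156) (nat_lit 0) (nat_lit 76) (XT.nd (nat_lit 78) (nat_lit 0) (nat_lit 76) (XT.lf (nat_lit 1292) (nat_lit 2894777832) (nat_lit 0) (nat_lit 9959382016) (nat_lit 1292) (nat_lit 2894777832) (nat_lit 391) (nat_lit 1) (nat_lit 374) (nat_lit 0) (nat_lit 391) (nat_lit 0) (nat_lit 256) (nat_lit 382) (nat_lit 382)) (XT.lf (nat_lit 1292) (nat_lit 232079413) (nat_lit 0) (nat_lit 19637807066) (nat_lit 1216) (nat_lit 10872240491) (nat_lit 392) (nat_lit 1) (nat_lit 375) (nat_lit 1) (nat_lit 391) (nat_lit 1) (nat_lit 257) (nat_lit 382) (nat_lit 381))) (XT.nd (nat_lit 78) (nat_lit 0) (nat_lit 76) (XT.lf (nat_lit 1292) (nat_lit 10210496347) (nat_lit 76) (nat_lit 14442373452) (nat_lit 0) (nat_lit 5356633459) (nat_lit 392) (nat_lit 1) (nat_lit 376) (nat_lit 1) (nat_lit 375) (nat_lit 1) (nat_lit 258) (nat_lit 382)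 (nat_lit 380)) (XT.lf (nat_lit 1292) (nat_lit 8975892093) (nat_lit 76) (nat_lit 9453566876) (nat_lit 0) (nat_lit 10871142071) (nat_lit 393) (nat_lit 1) (nat_lit 377) (nat_lit 1) (nat_lit 376) (nat_lit 1) (nat_lit 259) (nat_lit 382) (nat_lit 379))))) (XT.nd (nat_lit 234) (nat_lit 1064) (nat_lit 0) (XT.nd (nat_lit 78) (nat_lit 0) (nat_lit 76) (XT.lf (nat_lit 1292) (nat_lit 7428155100) (nat_lit 76) (nat_lit 4883261090) (nat_lit 0) (nat_lit 16303207158) (nat_lit 394) (nat_lit 1) (nat_lit 378) (nat_lit 1) (nat_lit 377) (nat_lit 1) (nat_lit 260) (nat_lit 382) (nat_lit 378)) (XT.nd (nat_lit 78) (nat_lit 0) (nat_lit 76) (XT.lf (nat_lit 1292) (nat_lit 5591153607) (nat_lit 76) (nat_lit 709953935) (nat_lit 0) (nat_lit 21649631885) (nat_lit 395) (nat_lit 1) (nat_lit 379) (nat_lit 1) (nat_lit 378) (nat_lit 1) (nat_lit 261) (nat_lit 382) (nat_lit 377)) (XT.lf (nat_lit 1292) (nat_lit 430209453) (nat_lit 0) (nat_lit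 23850430182) (nat_lit 1216) (nat_lit 3026621706) (nat_lit 396) (nat_lit 1) (nat_lit 379) (nat_lit 1) (nat_lit 395) (nat_lit 1) (nat_lit 262) (nat_lit 382) (nat_lit 376)))) (XT.nd (nat_lit 156) (nat_lit 0) (nat_lit 76) (XT.nd (nat_lit 78) (nat_lit 1216) (nat_lit 0) (XT.lf (nat_lit 1292) (nat_lit 1019689994) (nat_lit 76) (nat_lit 20231068140) (nat_lit 0) (nat_lit 5431886746) (nat_lit 396) (nat_lit 1) (nat_lit 380) (nat_lit 1) (nat_lit 379) (nat_lit 1) (nat_lit 263) (nat_lit 382) (nat_lit 375)) (XT.lf (nat_lit 1368) (nat_lit 14902757710) (nat_lit 0) (nat_lit 1610832248) (nat_lit 1292) (nat_lit 9563761899) (nat_lit 381) (nat_lit 1) (nat_lit 363) (nat_lit 1) (nat_lit 380) (nat_lit 1) (nat_lit 264) (nat_lit 382) (nat_lit 374))) (XT.nd (nat_lit 78) (nat_lit 0) (nat_lit 76) (XT.lf (nat_lit 1368) (nat_lit 8698658899) (nat_lit 0) (nat_lit 4419933937) (nat_lit 1292) (nat_lit 12372325638) (nat_lit 382) (nat_lit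 1) (nat_lit 364) (nat_lit 1) (nat_lit 381) (nat_lit 1) (nat_lit 265) (nat_lit 382) (nat_lit 373)) (XT.lf (nat_lit 76) (nat_lit 2628780866) (nat_lit 0) (nat_lit 7410281590) (nat_lit 1292) (nat_lit 14883897652) (nat_lit 366) (nat_lit 1) (nat_lit 365) (nat_lit 1) (nat_lit 382) (nat_lit 1) (nat_lit 266) (nat_lit 382) (nat_lit 372)))))) (XT.nd (nat_lit 546) (nat_lit 3420) (nat_lit 0) (XT.nd (nat_lit 234) (nat_lit 1748) (nat_lit 0) (XT.nd (nat_lit 78) (nat_lit 1216) (nat_lit 0) (XT.lf (nat_lit 912) (nat_lit 13773770346) (nat_lit 0) (nat_lit 7225284611) (nat_lit 836) (nat_lit 3372796928) (nat_lit 366) (nat_lit 1) (nat_lit 354) (nat_lit 1) (nat_lit 365) (nat_lit 1) (nat_lit 267) (nat_lit 382) (nat_lit 371)) (XT.nd (nat_lit 78) (nat_lit 608) (nat_lit 0) (XT.lf (nat_lit 684) (nat_lit 9877085073) (nat_lit 0) (nat_lit 4669893109) (nat_lit 608) (nat_lit 9290227554) (nat_lit 355) (nat_lit 1) (nat_lit 346) (nat_lit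 1) (nat_lit 354) (nat_lit 1) (nat_lit 268) (nat_lit 382) (nat_lit 370)) (XT.lf (nat_lit 684) (nat_lit 5862900901) (nat_lit 0) (nat_lit 2384582806) (nat_lit 608) (nat_lit 15071708365) (nat_lit 347) (nat_lit 1) (nat_lit 338) (nat_lit 1) (nat_lit 346) (nat_lit 1) (nat_lit 269) (nat_lit 382) (nat_lit 369)))) (XT.nd (nat_lit 156) (nat_lit 1140) (nat_lit 0) (XT.nd (nat_lit 78) (nat_lit 76) (nat_lit 0) (XT.lf (nat_lit 608) (nat_lit 1744108339) (nat_lit 0) (nat_lit 355188941) (nat_lit 532) (nat_lit 20717934077) (nat_lit 339) (nat_lit 1) (nat_lit 331) (nat_lit 1) (nat_lit 338) (nat_lit 1) (nat_lit 270) (nat_lit 382) (nat_lit 368)) (XT.lf (nat_lit 76) (nat_lit 18390882362) (nat_lit 0) (nat_lit 2471422566) (nat_lit 608) (nat_lit 1466178877) (nat_lit 331) (nat_lit 1) (nat_lit 330) (nat_lit 1) (nat_lit 338) (nat_lit 1) (nat_lit 271) (nat_lit 382) (nat_lit 367))) (XT.nd (nat_lit 78) (nat_lit 532) (nat_lit 0)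 (XT.lf (nat_lit 76) (nat_lit 12008083650) (nat_lit 0) (nat_lit 6753036005) (nat_lit 684) (nat_lit 3092434219) (nat_lit 323) (nat_lit 1) (nat_lit 322) (nat_lit 1) (nat_lit 331) (nat_lit 1) (nat_lit 272) (nat_lit 382) (nat_lit 366)) (XT.lf (nat_lit 76) (nat_lit 5787951761) (nat_lit 0) (nat_lit 11100283166) (nat_lit 608) (nat_lit 4504919126) (nat_lit 316) (nat_lit 1) (nat_lit 315) (nat_lit 1) (nat_lit 323) (nat_lit 1) (nat_lit 273) (nat_lit 382) (nat_lit 365))))) (XT.nd (nat_lit 234) (nat_lit 1824) (nat_lit 0) (XT.nd (nat_lit 78) (nat_lit 1064) (nat_lit 0) (XT.lf (nat_lit 608) (nat_lit 5440504344) (nat_lit 0) (nat_lit 15228999362) (nat_lit 532) (nat_lit 277203789) (nat_lit 316) (nat_lit 1) (nat_lit 308) (nat_lit 1) (nat_lit 315) (nat_lit 1) (nat_lit 274) (nat_lit 382) (nat_lit 364)) (XT.nd (nat_lit 78) (nat_lit 608) (nat_lit 0) (XT.lf (nat_lit 532) (nat_lit 497837066) (nat_lit 0) (nat_lit 13717945292)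 (nat_lit 456) (nat_lit 6296377769) (nat_lit 309) (nat_lit 1) (nat_lit 302) (nat_lit 1) (nat_lit 308) (nat_lit 1) (nat_lit 275) (nat_lit 382) (nat_lit 363)) (XT.lf (nat_lit 76) (nat_lit 7976858729) (nat_lit 0) (nat_lit 4381551651) (nat_lit 608) (nat_lit 7731054342) (nat_lit 295) (nat_lit 1) (nat_lit 294) (nat_lit 1) (nat_lit 302) (nat_lit 1) (nat_lit 276) (nat_lit 382) (nat_lit 362)))) (XT.nd (nat_lit 156) (nat_lit 912) (nat_lit 0) (XT.nd (nat_lit 78) (nat_lit 456) (nat_lit 0) (XT.lf (nat_lit 76) (nat_lit 1911745704) (nat_lit 0) (nat_lit 9267434481) (nat_lit 532) (nat_lit 8500137816) (nat_lit 289) (nat_lit 1) (nat_lit 288) (nat_lit 1) (nat_lit 295) (nat_lit 1) (nat_lit 277) (nat_lit 382) (nat_lit 361)) (XT.lf (nat_lit 532) (nat_lit 5078395292) (nat_lit 0) (nat_lit 10135095358) (nat_lit 456) (nat_lit 4066775002) (nat_lit 289) (nat_lit 1) (nat_lit 282) (nat_lit 1) (nat_lit 288) (nat_lit 1) (nat_lit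 278) (nat_lit 382) (nat_lit 360))) (XT.nd (nat_lit 78) (nat_lit 456) (nat_lit 0) (XT.lf (nat_lit 76) (nat_lit 8977845246) (nat_lit 0) (nat_lit 258926735) (nat_lit 456) (nat_lit 9655708557) (nat_lit 277) (nat_lit 1) (nat_lit 276) (nat_lit 1) (nat_lit 282) (nat_lit 1) (nat_lit 279) (nat_lit 382) (nat_lit 359)) (XT.lf (nat_lit 76) (nat_lit 2965293747) (nat_lit 0) (nat_lit 5481734380) (nat_lit 532) (nat_lit 10067717814) (nat_lit 271) (nat_lit 1) (nat_lit 270) (nat_lit 1) (nat_lit 277) (nat_lit 1) (nat_lit 280) (nat_lit 382) (nat_lit 358))))))) (XT.nd (nat_lit 1092) (nat_lit 3344) (nat_lit 0) (XT.nd (nat_lit 546) (nat_lit 2204) (nat_lit 0) (XT.nd (nat_lit 234) (nat_lit 1444) (nat_lit 0) (XT.nd (nat_lit 78) (nat_lit 836) (nat_lit 0) (XT.lf (nat_lit 456) (nat_lit 7434875858) (nat_lit 0) (nat_lit 7778580716) (nat_lit 380) (nat_lit 2933844481) (nat_lit 271) (nat_lit 1) (nat_lit 265) (nat_lit 1) (nat_lit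 270) (nat_lit 1) (nat_lit 281) (nat_lit 382) (nat_lit 357)) (XT.nd (nat_lit 78) (nat_lit 456) (nat_lit 0) (XT.lf (nat_lit 456) (nat_lit 1844099581) (nat_lit 0) (nat_lit 7224093108) (nat_lit 380) (nat_lit 8721610804) (nat_lit 266) (nat_lit 1) (nat_lit 260) (nat_lit 1) (nat_lit 265) (nat_lit 1) (nat_lit 282) (nat_lit 382) (nat_lit 356)) (XT.lf (nat_lit 76) (nat_lit 3135747839) (nat_lit 0) (nat_lit 3633279146) (nat_lit 456) (nat_lit 10672676574) (nat_lit 255) (nat_lit 1) (nat_lit 254) (nat_lit 1) (nat_lit 260) (nat_lit 1) (nat_lit 283) (nat_lit 382) (nat_lit 355)))) (XT.nd (nat_lit 156) (nat_lit 760) (nat_lit 0) (XT.nd (nat_lit 78) (nat_lit 304) (nat_lit 0) (XT.lf (nat_lit 456) (nat_lit 8045904043) (nat_lit 0) (nat_lit 6398498853) (nat_lit 380) (nat_lit 2658041012) (nat_lit 255) (nat_lit 1) (nat_lit 249) (nat_lit 1) (nat_lit 254) (nat_lit 1) (nat_lit 284) (nat_lit 382) (nat_lit 354)) (XT.lf (nat_lit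 380) (nat_lit 2310020536) (nat_lit 0) (nat_lit 6120057094) (nat_lit 304) (nat_lit 8342045279) (nat_lit 250) (nat_lit 1) (nat_lit 245) (nat_lit 1) (nat_lit 249) (nat_lit 1) (nat_lit 285) (nat_lit 382) (nat_lit 353))) (XT.nd (nat_lit 78) (nat_lit 304) (nat_lit 0) (XT.lf (nat_lit 76) (nat_lit 2625836427) (nat_lit 0) (nat_lit 3299427287) (nat_lit 456) (nat_lit 10525111910) (nat_lit 240) (nat_lit 1) (nat_lit 239) (nat_lit 1) (nat_lit 245) (nat_lit 1) (nat_lit 286) (nat_lit 382) (nat_lit 352)) (XT.lf (nat_lit 380) (nat_lit 7305055670) (nat_lit 0) (nat_lit 5788585789) (nat_lit 304) (nat_lit 3042700014) (nat_lit 240) (nat_lit 1) (nat_lit 235) (nat_lit 1) (nat_lit 239) (nat_lit 1) (nat_lit 287) (nat_lit 382) (nat_lit 351))))) (XT.nd (nat_lit 234) (nat_lit 1216) (nat_lit 0) (XT.nd (nat_lit 78) (nat_lit 684) (nat_lit 0) (XT.lf (nat_lit 380) (nat_lit 1507020063) (nat_lit 0) (nat_lit 5732045020) (nat_lit 304)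 (nat_lit 8591482106) (nat_lit 236) (nat_lit 1) (nat_lit 231) (nat_lit 1) (nat_lit 235) (nat_lit 1) (nat_lit 288) (nat_lit 382) (nat_lit 350)) (XT.nd (nat_lit 78) (nat_lit 304) (nat_lit 0) (XT.lf (nat_lit 76) (nat_lit 1601514003) (nat_lit 0) (nat_lit 4132982982) (nat_lit 380) (nat_lit 9797767441) (nat_lit 227) (nat_lit 1) (nat_lit 226) (nat_lit 1) (nat_lit 231) (nat_lit 1) (nat_lit 289) (nat_lit 382) (nat_lit 349)) (XT.lf (nat_lit 380) (nat_lit 5535052461) (nat_lit 0) (nat_lit 5778981137) (nat_lit 304) (nat_lit 3926855241) (nat_lit 227) (nat_lit 1) (nat_lit 222) (nat_lit 1) (nat_lit 226) (nat_lit 1) (nat_lit 290) (nat_lit 382) (nat_lit 348)))) (XT.nd (nat_lit 156) (nat_lit 608) (nat_lit 0) (XT.nd (nat_lit 78) (nat_lit 304) (nat_lit 0) (XT.lf (nat_lit 76) (nat_lit 5642961072) (nat_lit 0) (nat_lit 253896551) (nat_lit 304) (nat_lit 9060367959) (nat_lit 219) (nat_lit 1) (nat_lit 218) (nat_lit 1) (nat_lit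 222) (nat_lit 1) (nat_lit 291) (nat_lit 382) (nat_lit 347)) (XT.lf (nat_lit 76) (nat_lit 198147556) (nat_lit 0) (nat_lit 5849583173) (nat_lit 380) (nat_lit 8632261168) (nat_lit 215) (nat_lit 1) (nat_lit 214) (nat_lit 1) (nat_lit 219) (nat_lit 1) (nat_lit 292) (nat_lit 382) (nat_lit 346))) (XT.nd (nat_lit 78) (nat_lit 380) (nat_lit 0) (XT.lf (nat_lit 304) (nat_lit 2999639518) (nat_lit 0) (nat_lit 6230171334) (nat_lit 228) (nat_lit 5179231146) (nat_lit 215) (nat_lit 1) (nat_lit 211) (nat_lit 1) (nat_lit 214) (nat_lit 1) (nat_lit 293) (nat_lit 382) (nat_lit 345)) (XT.lf (nat_lit 76) (nat_lit 3778689653) (nat_lit 0) (nat_lit 2684586298) (nat_lit 380) (nat_lit 7681553965) (nat_lit 207) (nat_lit 1) (nat_lit 206) (nat_lit 1) (nat_lit 211) (nat_lit 1) (nat_lit 294) (nat_lit 382) (nat_lit 344)))))) (XT.nd (nat_lit 546) (nat_lit 1596) (nat_lit 0) (XT.nd (nat_lit 234) (nat_lit 988) (nat_lit 0) (XT.nd (nat_lit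 78) (nat_lit 532) (nat_lit 0) (XT.lf (nat_lit 304) (nat_lit 5655099840) (nat_lit 0) (nat_lit 6727947372) (nat_lit 228) (nat_lit 1503651978) (nat_lit 207) (nat_lit 1) (nat_lit 203) (nat_lit 1) (nat_lit 206) (nat_lit 1) (nat_lit 295) (nat_lit 382) (nat_lit 343)) (XT.nd (nat_lit 78) (nat_lit 228) (nat_lit 0) (XT.lf (nat_lit 76) (nat_lit 6942272135) (nat_lit 0) (nat_lit 84792003) (nat_lit 304) (nat_lit 6607571198) (nat_lit 200) (nat_lit 1) (nat_lit 199) (nat_lit 1) (nat_lit 203) (nat_lit 1) (nat_lit 296) (nat_lit 382) (nat_lit 342)) (XT.lf (nat_lit 76) (nat_lit 1725270758) (nat_lit 0) (nat_lit 5615171120) (nat_lit 304) (nat_lit 6047512135) (nat_lit 197) (nat_lit 1) (nat_lit 196) (nat_lit 1) (nat_lit 200) (nat_lit 1) (nat_lit 297) (nat_lit 382) (nat_lit 341)))) (XT.nd (nat_lit 156) (nat_lit 456) (nat_lit 0) (XT.nd (nat_lit 78) (nat_lit 304) (nat_lit 0) (XT.lf (nat_lit 304) (nat_lit 2067436010) (nat_lit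 0) (nat_lit 7686448591) (nat_lit 228) (nat_lit 3393210997) (nat_lit 197) (nat_lit 1) (nat_lit 193) (nat_lit 1) (nat_lit 196) (nat_lit 1) (nat_lit 298) (nat_lit 382) (nat_lit 340)) (XT.lf (nat_lit 76) (nat_lit 4563811640) (nat_lit 0) (nat_lit 3480074572) (nat_lit 304) (nat_lit 4867463648) (nat_lit 190) (nat_lit 1) (nat_lit 189) (nat_lit 1) (nat_lit 193) (nat_lit 1) (nat_lit 299) (nat_lit 382) (nat_lit 339))) (XT.nd (nat_lit 78) (nat_lit 228) (nat_lit 0) (XT.lf (nat_lit 304) (nat_lit 3792692413) (nat_lit 0) (nat_lit 8437702001) (nat_lit 228) (nat_lit 450957964) (nat_lit 190) (nat_lit 1) (nat_lit 186) (nat_lit 1) (nat_lit 189) (nat_lit 1) (nat_lit 300) (nat_lit 382) (nat_lit 338)) (XT.lf (nat_lit 76) (nat_lit 7079692638) (nat_lit 0) (nat_lit 1747451721) (nat_lit 228) (nat_lit 3628682541) (nat_lit 184) (nat_lit 1) (nat_lit 183) (nat_lit 1) (nat_lit 186) (nat_lit 1) (nat_lit 301) (nat_lit 382) (nat_lit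 337))))) (XT.nd (nat_lit 234) (nat_lit 912) (nat_lit 0) (XT.nd (nat_lit 78) (nat_lit 456) (nat_lit 0) (XT.lf (nat_lit 76) (nat_lit 2128715343) (nat_lit 0) (nat_lit 7107297236) (nat_lit 304) (nat_lit 2999366426) (nat_lit 181) (nat_lit 1) (nat_lit 180) (nat_lit 1) (nat_lit 184) (nat_lit 1) (nat_lit 302) (nat_lit 382) (nat_lit 336)) (XT.nd (nat_lit 78) (nat_lit 228) (nat_lit 0) (XT.lf (nat_lit 76) (nat_lit 9307004678) (nat_lit 0) (nat_lit 360995284) (nat_lit 228) (nat_lit 2352030364) (nat_lit 178) (nat_lit 1) (nat_lit 177) (nat_lit 1) (nat_lit 180) (nat_lit 1) (nat_lit 303) (nat_lit 382) (nat_lit 335)) (XT.lf (nat_lit 76) (nat_lit 4418337346) (nat_lit 0) (nat_lit 5662315366) (nat_lit 304) (nat_lit 1727807329) (nat_lit 175) (nat_lit 1) (nat_lit 174) (nat_lit 1) (nat_lit 178) (nat_lit 1) (nat_lit 304) (nat_lit 382) (nat_lit 334)))) (XT.nd (nat_lit 156) (nat_lit 532) (nat_lit 0) (XT.nd (nat_lit 78) (nat_lit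 228) (nat_lit 0) (XT.lf (nat_lit 228) (nat_lit 742988097) (nat_lit 0) (nat_lit 10540200986) (nat_lit 152) (nat_lit 319325406) (nat_lit 175) (nat_lit 1) (nat_lit 172) (nat_lit 1) (nat_lit 174) (nat_lit 1) (nat_lit 305) (nat_lit 382) (nat_lit 333)) (XT.lf (nat_lit 76) (nat_lit 6455801695) (nat_lit 0) (nat_lit 4502508548) (nat_lit 228) (nat_lit 441229455) (nat_lit 170) (nat_lit 1) (nat_lit 169) (nat_lit 1) (nat_lit 172) (nat_lit 1) (nat_lit 306) (nat_lit 382) (nat_lit 332))) (XT.nd (nat_lit 78) (nat_lit 228) (nat_lit 0) (XT.lf (nat_lit 228) (nat_lit 1574828908) (nat_lit 0) (nat_lit 218381997) (nat_lit 152) (nat_lit 9408540096) (nat_lit 168) (nat_lit 1) (nat_lit 165) (nat_lit 1) (nat_lit 167) (nat_lit 1) (nat_lit 307) (nat_lit 382) (nat_lit 331)) (XT.lf (nat_lit 228) (nat_lit 7412036931) (nat_lit 0) (nat_lit 863261615) (nat_lit 152) (nat_lit 2731989826) (nat_lit 165) (nat_lit 1) (nat_lit 162) (nat_lit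 1) (nat_lit 164) (nat_lit 1) (nat_lit 308) (nat_lit 382) (nat_lit 330))))))))
noncomputable def ec88 : XT := (XT.nd (nat_lit 2184) (nat_lit 3420) (nat_lit 0) (XT.nd (nat_lit 1092) (nat_lit 1900) (nat_lit 0) (XT.nd (nat_lit 546) (nat_lit 1216) (nat_lit 0) (XT.nd (nat_lit 234) (nat_lit 684) (nat_lit 0) (XT.nd (nat_lit 78) (nat_lit 380) (nat_lit 0) (XT.lf (nat_lit 228) (nat_lit 2174208984) (nat_lit 0) (nat_lit 1514192421) (nat_lit 152) (nat_lit 7128662405) (nat_lit 163) (nat_lit 1) (nat_lit 160) (nat_lit 1) (nat_lit 162) (nat_lit 1) (nat_lit 309) (nat_lit 382) (nat_lit 329)) (XT.nd (nat_lit 78) (nat_lit 152) (nat_lit 0) (XT.lf (nat_lit 228) (nat_lit 7730075471) (nat_lit 0) (nat_lit 2165735324) (nat_lit 152) (nat_lit 735030735) (nat_lit 160) (nat_lit 1) (nat_lit 157) (nat_lit 1) (nat_lit 159) (nat_lit 1) (nat_lit 310) (nat_lit 382) (nat_lit 328)) (XT.lf (nat_lit 228) (nat_lit 2588172923) (nat_lit 0)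 (nat_lit 2795993719) (nat_lit 152) (nat_lit 5063741226) (nat_lit 158) (nat_lit 1) (nat_lit 155) (nat_lit 1) (nat_lit 157) (nat_lit 1) (nat_lit 311) (nat_lit 382) (nat_lit 327)))) (XT.nd (nat_lit 156) (nat_lit 304) (nat_lit 0) (XT.nd (nat_lit 78) (nat_lit 152) (nat_lit 0) (XT.lf (nat_lit 76) (nat_lit 1043277712) (nat_lit 0) (nat_lit 2393741779) (nat_lit 228) (nat_lit 6832102436) (nat_lit 153) (nat_lit 1) (nat_lit 152) (nat_lit 1) (nat_lit 155) (nat_lit 1) (nat_lit 312) (nat_lit 382) (nat_lit 326)) (XT.lf (nat_lit 228) (nat_lit 2845604306) (nat_lit 0) (nat_lit 4054598916) (nat_lit 152) (nat_lit 3193210940) (nat_lit 153) (nat_lit 1) (nat_lit 150) (nat_lit 1) (nat_lit 152) (nat_lit 1) (nat_lit 313) (nat_lit 382) (nat_lit 325))) (XT.nd (nat_lit 78) (nat_lit 152) (nat_lit 0) (XT.lf (nat_lit 76) (nat_lit 2631924617) (nat_lit 0) (nat_lit 2042122984) (nat_lit 152) (nat_lit 5247402679) (nat_lit 149) (nat_lit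 1) (nat_lit 148) (nat_lit 1) (nat_lit 150) (nat_lit 1) (nat_lit 314) (nat_lit 382) (nat_lit 324)) (XT.lf (nat_lit 228) (nat_lit 2971612373) (nat_lit 0) (nat_lit 5282489286) (nat_lit 152) (nat_lit 1498683309) (nat_lit 149) (nat_lit 1) (nat_lit 146) (nat_lit 1) (nat_lit 148) (nat_lit 1) (nat_lit 315) (nat_lit 382) (nat_lit 323))))) (XT.nd (nat_lit 234) (nat_lit 760) (nat_lit 0) (XT.nd (nat_lit 78) (nat_lit 304) (nat_lit 0) (XT.lf (nat_lit 76) (nat_lit 4061981372) (nat_lit 0) (nat_lit 1815376704) (nat_lit 152) (nat_lit 3709916481) (nat_lit 145) (nat_lit 1) (nat_lit 144) (nat_lit 1) (nat_lit 146) (nat_lit 1) (nat_lit 316) (nat_lit 382) (nat_lit 322)) (XT.nd (nat_lit 78) (nat_lit 152) (nat_lit 0) (XT.lf (nat_lit 76) (nat_lit 35591173) (nat_lit 0) (nat_lit 6437638336) (nat_lit 228) (nat_lit 2952046444) (nat_lit 143) (nat_lit 1) (nat_lit 142) (nat_lit 1) (nat_lit 145) (nat_lit 1) (nat_lit 317) (nat_lit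 382) (nat_lit 321)) (XT.lf (nat_lit 76) (nat_lit 5348421322) (nat_lit 0) (nat_lit 1693124781) (nat_lit 152) (nat_lit 2224344945) (nat_lit 141) (nat_lit 1) (nat_lit 140) (nat_lit 1) (nat_lit 142) (nat_lit 1) (nat_lit 318) (nat_lit 382) (nat_lit 320)))) (XT.nd (nat_lit 156) (nat_lit 456) (nat_lit 0) (XT.nd (nat_lit 78) (nat_lit 152) (nat_lit 0) (XT.lf (nat_lit 76) (nat_lit 1398647178) (nat_lit 0) (nat_lit 6210296509) (nat_lit 228) (nat_lit 1500886886) (nat_lit 139) (nat_lit 1) (nat_lit 138) (nat_lit 1) (nat_lit 141) (nat_lit 1) (nat_lit 319) (nat_lit 382) (nat_lit 319)) (XT.lf (nat_lit 76) (nat_lit 6504660804) (nat_lit 0) (nat_lit 1657696581) (nat_lit 152) (nat_lit 794292779) (nat_lit 137) (nat_lit 1) (nat_lit 136) (nat_lit 1) (nat_lit 138) (nat_lit 1) (nat_lit 320) (nat_lit 382) (nat_lit 318))) (XT.nd (nat_lit 78) (nat_lit 304) (nat_lit 0) (XT.lf (nat_lit 76) (nat_lit 2632697031) (nat_lit 0) (nat_lit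 6067884446) (nat_lit 228) (nat_lit 105670610) (nat_lit 135) (nat_lit 1) (nat_lit 134) (nat_lit 1) (nat_lit 137) (nat_lit 1) (nat_lit 321) (nat_lit 382) (nat_lit 317)) (XT.lf (nat_lit 228) (nat_lit 6959325189) (nat_lit 0) (nat_lit 589071294) (nat_lit 152) (nat_lit 1110384620) (nat_lit 133) (nat_lit 1) (nat_lit 130) (nat_lit 1) (nat_lit 132) (nat_lit 1) (nat_lit 322) (nat_lit 382) (nat_lit 316)))))) (XT.nd (nat_lit 546) (nat_lit 912) (nat_lit 0) (XT.nd (nat_lit 234) (nat_lit 608) (nat_lit 0) (XT.nd (nat_lit 78) (nat_lit 304) (nat_lit 0) (XT.lf (nat_lit 152) (nat_lit 2505721188) (nat_lit 0) (nat_lit 1255734682) (nat_lit 76) (nat_lit 4752140258) (nat_lit 131) (nat_lit 1) (nat_lit 129) (nat_lit 1) (nat_lit 130) (nat_lit 1) (nat_lit 323) (nat_lit 382) (nat_lit 315)) (XT.nd (nat_lit 78) (nat_lit 76) (nat_lit 0) (XT.lf (nat_lit 76) (nat_lit 117942820) (nat_lit 0) (nat_lit 1807873338) (nat_lit 228) (nat_lit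 6445829833) (nat_lit 127) (nat_lit 1) (nat_lit 126) (nat_lit 1) (nat_lit 129) (nat_lit 1) (nat_lit 324) (nat_lit 382) (nat_lit 314)) (XT.lf (nat_lit 152) (nat_lit 2225646298) (nat_lit 0) (nat_lit 2558123189) (nat_lit 76) (nat_lit 3447901703) (nat_lit 127) (nat_lit 1) (nat_lit 125) (nat_lit 1) (nat_lit 126) (nat_lit 1) (nat_lit 325) (nat_lit 382) (nat_lit 313)))) (XT.nd (nat_lit 156) (nat_lit 304) (nat_lit 0) (XT.nd (nat_lit 78) (nat_lit 76) (nat_lit 0) (XT.lf (nat_lit 76) (nat_lit 1217994438) (nat_lit 0) (nat_lit 1972218257) (nat_lit 228) (nat_lit 4904494341) (nat_lit 123) (nat_lit 1) (nat_lit 122) (nat_lit 1) (nat_lit 125) (nat_lit 1) (nat_lit 326) (nat_lit 382) (nat_lit 312)) (XT.lf (nat_lit 152) (nat_lit 1909607684) (nat_lit 0) (nat_lit 3798407154) (nat_lit 76) (nat_lit 2251991586) (nat_lit 123) (nat_lit 1) (nat_lit 121) (nat_lit 1) (nat_lit 122) (nat_lit 1) (nat_lit 327) (nat_lit 382) (nat_lit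 311))) (XT.nd (nat_lit 78) (nat_lit 76) (nat_lit 0) (XT.lf (nat_lit 76) (nat_lit 2220478305) (nat_lit 0) (nat_lit 2172085499) (nat_lit 228) (nat_lit 3435236283) (nat_lit 119) (nat_lit 1) (nat_lit 118) (nat_lit 1) (nat_lit 121) (nat_lit 1) (nat_lit 328) (nat_lit 382) (nat_lit 310)) (XT.lf (nat_lit 152) (nat_lit 1566518135) (nat_lit 0) (nat_lit 4976161405) (nat_lit 76) (nat_lit 1155454509) (nat_lit 119) (nat_lit 1) (nat_lit 117) (nat_lit 1) (nat_lit 118) (nat_lit 1) (nat_lit 329) (nat_lit 382) (nat_lit 309))))) (XT.nd (nat_lit 234) (nat_lit 532) (nat_lit 0) (XT.nd (nat_lit 78) (nat_lit 228) (nat_lit 0) (XT.lf (nat_lit 76) (nat_lit 3133560929) (nat_lit 0) (nat_lit 2399129466) (nat_lit 152) (nat_lit 2037782812) (nat_lit 116) (nat_lit 1) (nat_lit 115) (nat_lit 1) (nat_lit 117) (nat_lit 1) (nat_lit 330) (nat_lit 382) (nat_lit 308)) (XT.nd (nat_lit 78) (nat_lit 152) (nat_lit 0) (XT.lf (nat_lit 152) (nat_lit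 1203993802) (nat_lit 0) (nat_lit 6091433056) (nat_lit 76) (nat_lit 150190372) (nat_lit 116) (nat_lit 1) (nat_lit 114) (nat_lit 1) (nat_lit 115) (nat_lit 1) (nat_lit 331) (nat_lit 382) (nat_lit 307)) (XT.lf (nat_lit 76) (nat_lit 3964629522) (nat_lit 0) (nat_lit 2646214757) (nat_lit 152) (nat_lit 711459588) (nat_lit 113) (nat_lit 1) (nat_lit 112) (nat_lit 1) (nat_lit 114) (nat_lit 1) (nat_lit 332) (nat_lit 382) (nat_lit 306)))) (XT.nd (nat_lit 156) (nat_lit 228) (nat_lit 0) (XT.nd (nat_lit 78) (nat_lit 228) (nat_lit 0) (XT.lf (nat_lit 0) (nat_lit 756090136) (nat_lit 0) (nat_lit 6380940388) (nat_lit 152) (nat_lit 64794298) (nat_lit 111) (nat_lit 3) (nat_lit 111) (nat_lit 1) (nat_lit 113) (nat_lit 1) (nat_lit 333) (nat_lit 382) (nat_lit 305)) (XT.lf (nat_lit 152) (nat_lit 4170133529) (nat_lit 0) (nat_lit 555582850) (nat_lit 76) (nat_lit 2357019656) (nat_lit 110) (nat_lit 1) (nat_lit 108) (nat_lit 1)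 (nat_lit 109) (nat_lit 1) (nat_lit 334) (nat_lit 382) (nat_lit 304))) (XT.nd (nat_lit 78) (nat_lit 152) (nat_lit 0) (XT.lf (nat_lit 76) (nat_lit 417947896) (nat_lit 0) (nat_lit 1177033915) (nat_lit 76) (nat_lit 5371253712) (nat_lit 108) (nat_lit 3) (nat_lit 107) (nat_lit 1) (nat_lit 108) (nat_lit 1) (nat_lit 335) (nat_lit 382) (nat_lit 303)) (XT.lf (nat_lit 152) (nat_lit 3657276097) (nat_lit 0) (nat_lit 1766575364) (nat_lit 76) (nat_lit 1427517972) (nat_lit 107) (nat_lit 1) (nat_lit 105) (nat_lit 1) (nat_lit 106) (nat_lit 1) (nat_lit 336) (nat_lit 382) (nat_lit 302))))))) (XT.nd (nat_lit 1092) (nat_lit 1748) (nat_lit 0) (XT.nd (nat_lit 546) (nat_lit 836) (nat_lit 0) (XT.nd (nat_lit 234) (nat_lit 456) (nat_lit 0) (XT.nd (nat_lit 78) (nat_lit 304) (nat_lit 0) (XT.lf (nat_lit 76) (nat_lit 12934474) (nat_lit 0) (nat_lit 2351065978) (nat_lit 76) (nat_lit 4374870775) (nat_lit 105) (nat_lit 3) (nat_lit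 104) (nat_lit 1) (nat_lit 105) (nat_lit 1) (nat_lit 337) (nat_lit 382) (nat_lit 301)) (XT.nd (nat_lit 78) (nat_lit 152) (nat_lit 0) (XT.lf (nat_lit 152) (nat_lit 3148693976) (nat_lit 0) (nat_lit 2908895216) (nat_lit 76) (nat_lit 570474372) (nat_lit 104) (nat_lit 1) (nat_lit 102) (nat_lit 1) (nat_lit 103) (nat_lit 1) (nat_lit 338) (nat_lit 382) (nat_lit 300)) (XT.lf (nat_lit 76) (nat_lit 3071665627) (nat_lit 0) (nat_lit 382075248) (nat_lit 152) (nat_lit 3065556961) (nat_lit 101) (nat_lit 1) (nat_lit 100) (nat_lit 1) (nat_lit 102) (nat_lit 1) (nat_lit 339) (nat_lit 382) (nat_lit 299)))) (XT.nd (nat_lit 156) (nat_lit 228) (nat_lit 0) (XT.nd (nat_lit 78) (nat_lit 152) (nat_lit 0) (XT.lf (nat_lit 0) (nat_lit 215191831) (nat_lit 0) (nat_lit 3766897533) (nat_lit 152) (nat_lit 2430336246) (nat_lit 99) (nat_lit 3) (nat_lit 99) (nat_lit 1) (nat_lit 101) (nat_lit 1) (nat_lit 340) (nat_lit 382) (nat_lit 298))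 (XT.lf (nat_lit 76) (nat_lit 3719233948) (nat_lit 0) (nat_lit 771365494) (nat_lit 152) (nat_lit 1816704904) (nat_lit 98) (nat_lit 1) (nat_lit 97) (nat_lit 1) (nat_lit 99) (nat_lit 1) (nat_lit 341) (nat_lit 382) (nat_lit 297))) (XT.nd (nat_lit 78) (nat_lit 152) (nat_lit 0) (XT.lf (nat_lit 0) (nat_lit 928745546) (nat_lit 0) (nat_lit 4056417168) (nat_lit 152) (nat_lit 1218898575) (nat_lit 96) (nat_lit 3) (nat_lit 96) (nat_lit 1) (nat_lit 98) (nat_lit 1) (nat_lit 342) (nat_lit 382) (nat_lit 296)) (XT.lf (nat_lit 76) (nat_lit 4311059400) (nat_lit 0) (nat_lit 1152623693) (nat_lit 152) (nat_lit 638908780) (nat_lit 95) (nat_lit 1) (nat_lit 94) (nat_lit 1) (nat_lit 96) (nat_lit 1) (nat_lit 343) (nat_lit 382) (nat_lit 295))))) (XT.nd (nat_lit 234) (nat_lit 456) (nat_lit 0) (XT.nd (nat_lit 78) (nat_lit 304) (nat_lit 0) (XT.lf (nat_lit 0) (nat_lit 1585715951) (nat_lit 0) (nat_lit 4339978437) (nat_lit 152)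 (nat_lit 77145449) (nat_lit 93) (nat_lit 3) (nat_lit 93) (nat_lit 1) (nat_lit 95) (nat_lit 1) (nat_lit 344) (nat_lit 382) (nat_lit 294)) (XT.nd (nat_lit 78) (nat_lit 76) (nat_lit 0) (XT.lf (nat_lit 152) (nat_lit 4376366305) (nat_lit 0) (nat_lit 479483019) (nat_lit 76) (nat_lit 1048886511) (nat_lit 92) (nat_lit 1) (nat_lit 90) (nat_lit 1) (nat_lit 91) (nat_lit 1) (nat_lit 345) (nat_lit 382) (nat_lit 293)) (XT.lf (nat_lit 76) (nat_lit 1182844142) (nat_lit 0) (nat_lit 1017065920) (nat_lit 76) (nat_lit 3608278380) (nat_lit 90) (nat_lit 3) (nat_lit 89) (nat_lit 1) (nat_lit 90) (nat_lit 1) (nat_lit 346) (nat_lit 382) (nat_lit 292)))) (XT.nd (nat_lit 156) (nat_lit 228) (nat_lit 0) (XT.nd (nat_lit 78) (nat_lit 76) (nat_lit 0) (XT.lf (nat_lit 152) (nat_lit 3815506586) (nat_lit 0) (nat_lit 1542856980) (nat_lit 76) (nat_lit 355071270) (nat_lit 89) (nat_lit 1) (nat_lit 87) (nat_lit 1) (nat_lit 88) (nat_lit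 1) (nat_lit 347) (nat_lit 382) (nat_lit 291)) (XT.lf (nat_lit 76) (nat_lit 718897672) (nat_lit 0) (nat_lit 2046472098) (nat_lit 76) (nat_lit 2854762092) (nat_lit 87) (nat_lit 3) (nat_lit 86) (nat_lit 1) (nat_lit 87) (nat_lit 1) (nat_lit 348) (nat_lit 382) (nat_lit 290))) (XT.nd (nat_lit 78) (nat_lit 76) (nat_lit 0) (XT.lf (nat_lit 0) (nat_lit 281586830) (nat_lit 0) (nat_lit 2256496141) (nat_lit 152) (nat_lit 2990452875) (nat_lit 84) (nat_lit 3) (nat_lit 84) (nat_lit 1) (nat_lit 86) (nat_lit 1) (nat_lit 349) (nat_lit 382) (nat_lit 289)) (XT.lf (nat_lit 76) (nat_lit 272810687) (nat_lit 0) (nat_lit 3011953150) (nat_lit 76) (nat_lit 2153676698) (nat_lit 84) (nat_lit 3) (nat_lit 83) (nat_lit 1) (nat_lit 84) (nat_lit 1) (nat_lit 350) (nat_lit 382) (nat_lit 288)))))) (XT.nd (nat_lit 546) (nat_lit 836) (nat_lit 0) (XT.nd (nat_lit 234) (nat_lit 532) (nat_lit 0) (XT.nd (nat_lit 78) (nat_lit 228) (nat_lit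 0) (XT.lf (nat_lit 0) (nat_lit 864140670) (nat_lit 0) (nat_lit 2603267818) (nat_lit 152) (nat_lit 1882379381) (nat_lit 81) (nat_lit 3) (nat_lit 81) (nat_lit 1) (nat_lit 83) (nat_lit 1) (nat_lit 351) (nat_lit 382) (nat_lit 287)) (XT.nd (nat_lit 78) (nat_lit 76) (nat_lit 0) (XT.lf (nat_lit 76) (nat_lit 3762735115) (nat_lit 0) (nat_lit 151666649) (nat_lit 152) (nat_lit 1348428270) (nat_lit 80) (nat_lit 1) (nat_lit 79) (nat_lit 1) (nat_lit 81) (nat_lit 1) (nat_lit 352) (nat_lit 382) (nat_lit 286)) (XT.lf (nat_lit 0) (nat_lit 1402632288) (nat_lit 0) (nat_lit 2934127035) (nat_lit 152) (nat_lit 840299658) (nat_lit 78) (nat_lit 3) (nat_lit 78) (nat_lit 1) (nat_lit 80) (nat_lit 1) (nat_lit 353) (nat_lit 382) (nat_lit 285)))) (XT.nd (nat_lit 156) (nat_lit 228) (nat_lit 0) (XT.nd (nat_lit 78) (nat_lit 152) (nat_lit 0) (XT.lf (nat_lit 76) (nat_lit 4203147914) (nat_lit 0) (nat_lit 552107598) (nat_lit 152) (nat_lit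 337788000) (nat_lit 77) (nat_lit 1) (nat_lit 76) (nat_lit 1) (nat_lit 78) (nat_lit 1) (nat_lit 354) (nat_lit 382) (nat_lit 284)) (XT.lf (nat_lit 76) (nat_lit 1760136071) (nat_lit 0) (nat_lit 141161802) (nat_lit 76) (nat_lit 3108787413) (nat_lit 75) (nat_lit 3) (nat_lit 74) (nat_lit 1) (nat_lit 75) (nat_lit 1) (nat_lit 355) (nat_lit 382) (nat_lit 283))) (XT.nd (nat_lit 78) (nat_lit 76) (nat_lit 0) (XT.lf (nat_lit 152) (nat_lit 3989225954) (nat_lit 0) (nat_lit 622829464) (nat_lit 76) (nat_lit 316707143) (nat_lit 74) (nat_lit 1) (nat_lit 72) (nat_lit 1) (nat_lit 73) (nat_lit 1) (nat_lit 356) (nat_lit 382) (nat_lit 282)) (XT.lf (nat_lit 76) (nat_lit 1291738509) (nat_lit 0) (nat_lit 1077350977) (nat_lit 76) (nat_lit 2479375910) (nat_lit 72) (nat_lit 3) (nat_lit 71) (nat_lit 1) (nat_lit 72) (nat_lit 1) (nat_lit 357) (nat_lit 382) (nat_lit 281))))) (XT.nd (nat_lit 234) (nat_lit 456) (nat_lit 0) (XT.nd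 (nat_lit 78) (nat_lit 228) (nat_lit 0) (XT.lf (nat_lit 0) (nat_lit 214540422) (nat_lit 0) (nat_lit 1312679489) (nat_lit 152) (nat_lit 3242594440) (nat_lit 69) (nat_lit 3) (nat_lit 69) (nat_lit 1) (nat_lit 71) (nat_lit 1) (nat_lit 358) (nat_lit 382) (nat_lit 280)) (XT.nd (nat_lit 78) (nat_lit 152) (nat_lit 0) (XT.lf (nat_lit 76) (nat_lit 846128615) (nat_lit 0) (nat_lit 1954138588) (nat_lit 76) (nat_lit 1891975345) (nat_lit 69) (nat_lit 3) (nat_lit 68) (nat_lit 1) (nat_lit 69) (nat_lit 1) (nat_lit 359) (nat_lit 382) (nat_lit 279)) (XT.lf (nat_lit 0) (nat_lit 701810469) (nat_lit 0) (nat_lit 1668843969) (nat_lit 152) (nat_lit 2245427718) (nat_lit 66) (nat_lit 3) (nat_lit 66) (nat_lit 1) (nat_lit 68) (nat_lit 1) (nat_lit 360) (nat_lit 382) (nat_lit 278)))) (XT.nd (nat_lit 156) (nat_lit 228) (nat_lit 0) (XT.nd (nat_lit 78) (nat_lit 152) (nat_lit 0) (XT.lf (nat_lit 76) (nat_lit 423084900) (nat_lit 0)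 (nat_lit 2774067803) (nat_lit 76) (nat_lit 1344069186) (nat_lit 66) (nat_lit 3) (nat_lit 65) (nat_lit 1) (nat_lit 66) (nat_lit 1) (nat_lit 361) (nat_lit 382) (nat_lit 277)) (XT.lf (nat_lit 0) (nat_lit 1153595281) (nat_lit 0) (nat_lit 2005175758) (nat_lit 152) (nat_lit 1308695345) (nat_lit 63) (nat_lit 3) (nat_lit 63) (nat_lit 1) (nat_lit 65) (nat_lit 1) (nat_lit 362) (nat_lit 382) (nat_lit 276))) (XT.nd (nat_lit 78) (nat_lit 152) (nat_lit 0) (XT.lf (nat_lit 76) (nat_lit 22281646) (nat_lit 0) (nat_lit 3539624733) (nat_lit 76) (nat_lit 833310672) (nat_lit 63) (nat_lit 3) (nat_lit 62) (nat_lit 1) (nat_lit 63) (nat_lit 1) (nat_lit 363) (nat_lit 382) (nat_lit 275)) (XT.lf (nat_lit 0) (nat_lit 1572050759) (nat_lit 0) (nat_lit 2321962017) (nat_lit 152) (nat_lit 429771568) (nat_lit 60) (nat_lit 3) (nat_lit 60) (nat_lit 1) (nat_lit 62) (nat_lit 1) (nat_lit 364) (nat_lit 382) (nat_lit 274))))))))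
noncomputable def ec89 : XT := (XT.nd (nat_lit 44538) (nat_lit 0) (nat_lit 17784) (XT.nd (nat_lit 1092) (nat_lit 1596) (nat_lit 0) (XT.nd (nat_lit 546) (nat_lit 912) (nat_lit 0) (XT.nd (nat_lit 234) (nat_lit 456) (nat_lit 0) (XT.nd (nat_lit 78) (nat_lit 304) (nat_lit 0) (XT.lf (nat_lit 76) (nat_lit 3899969844) (nat_lit 0) (nat_lit 349732301) (nat_lit 152) (nat_lit 4244626) (nat_lit 59) (nat_lit 1) (nat_lit 58) (nat_lit 1) (nat_lit 60) (nat_lit 1) (nat_lit 365) (nat_lit 382) (nat_lit 273)) (XT.nd (nat_lit 78) (nat_lit 152) (nat_lit 0) (XT.lf (nat_lit 76) (nat_lit 1561313680) (nat_lit 0) (nat_lit 401737652) (nat_lit 76) (nat_lit 2221693891) (nat_lit 57) (nat_lit 3) (nat_lit 56) (nat_lit 1) (nat_lit 57) (nat_lit 1) (nat_lit 366) (nat_lit 382) (nat_lit 272)) (XT.lf (nat_lit 0) (nat_lit 98503980) (nat_lit 0) (nat_lit 709119062) (nat_lit 152) (nat_lit 3309457531) (nat_lit 54) (nat_lit 3) (nat_lit 54)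 (nat_lit 1) (nat_lit 56) (nat_lit 1) (nat_lit 367) (nat_lit 382) (nat_lit 271)))) (XT.nd (nat_lit 156) (nat_lit 228) (nat_lit 0) (XT.nd (nat_lit 78) (nat_lit 152) (nat_lit 0) (XT.lf (nat_lit 76) (nat_lit 1140335607) (nat_lit 0) (nat_lit 1187976928) (nat_lit 76) (nat_lit 1721873781) (nat_lit 54) (nat_lit 3) (nat_lit 53) (nat_lit 1) (nat_lit 54) (nat_lit 1) (nat_lit 368) (nat_lit 382) (nat_lit 270)) (XT.lf (nat_lit 0) (nat_lit 513021070) (nat_lit 0) (nat_lit 1050735516) (nat_lit 152) (nat_lit 2420887434) (nat_lit 51) (nat_lit 3) (nat_lit 51) (nat_lit 1) (nat_lit 53) (nat_lit 1) (nat_lit 369) (nat_lit 382) (nat_lit 269))) (XT.nd (nat_lit 78) (nat_lit 152) (nat_lit 0) (XT.lf (nat_lit 76) (nat_lit 742558675) (nat_lit 0) (nat_lit 1922846161) (nat_lit 76) (nat_lit 1254667671) (nat_lit 51) (nat_lit 3) (nat_lit 50) (nat_lit 1) (nat_lit 51) (nat_lit 1) (nat_lit 370) (nat_lit 382) (nat_lit 268)) (XT.lf (nat_lit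 0) (nat_lit 898230524) (nat_lit 0) (nat_lit 1371747858) (nat_lit 152) (nat_lit 1586603492) (nat_lit 48) (nat_lit 3) (nat_lit 48) (nat_lit 1) (nat_lit 50) (nat_lit 1) (nat_lit 371) (nat_lit 382) (nat_lit 267))))) (XT.nd (nat_lit 234) (nat_lit 608) (nat_lit 0) (XT.nd (nat_lit 78) (nat_lit 228) (nat_lit 0) (XT.lf (nat_lit 76) (nat_lit 367279849) (nat_lit 0) (nat_lit 2608720201) (nat_lit 76) (nat_lit 818248738) (nat_lit 48) (nat_lit 3) (nat_lit 47) (nat_lit 1) (nat_lit 48) (nat_lit 1) (nat_lit 372) (nat_lit 382) (nat_lit 266)) (XT.nd (nat_lit 78) (nat_lit 76) (nat_lit 0) (XT.lf (nat_lit 0) (nat_lit 1255813587) (nat_lit 0) (nat_lit 1672798228) (nat_lit 152) (nat_lit 804130078) (nat_lit 45) (nat_lit 3) (nat_lit 45) (nat_lit 1) (nat_lit 47) (nat_lit 1) (nat_lit 373) (nat_lit 382) (nat_lit 265)) (XT.lf (nat_lit 76) (nat_lit 13771573) (nat_lit 0) (nat_lit 3247894929) (nat_lit 76) (nat_lit 410899803) (nat_lit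 45) (nat_lit 3) (nat_lit 44) (nat_lit 1) (nat_lit 45) (nat_lit 1) (nat_lit 374) (nat_lit 382) (nat_lit 264)))) (XT.nd (nat_lit 156) (nat_lit 228) (nat_lit 0) (XT.nd (nat_lit 78) (nat_lit 228) (nat_lit 0) (XT.lf (nat_lit 0) (nat_lit 1587350136) (nat_lit 0) (nat_lit 1954551458) (nat_lit 152) (nat_lit 71076252) (nat_lit 42) (nat_lit 3) (nat_lit 42) (nat_lit 1) (nat_lit 44) (nat_lit 1) (nat_lit 375) (nat_lit 382) (nat_lit 263)) (XT.lf (nat_lit 152) (nat_lit 3239424686) (nat_lit 0) (nat_lit 290306372) (nat_lit 76) (nat_lit 24975359) (nat_lit 41) (nat_lit 1) (nat_lit 39) (nat_lit 1) (nat_lit 40) (nat_lit 1) (nat_lit 376) (nat_lit 382) (nat_lit 262))) (XT.nd (nat_lit 78) (nat_lit 152) (nat_lit 0) (XT.lf (nat_lit 76) (nat_lit 1273252555) (nat_lit 0) (nat_lit 627101667) (nat_lit 76) (nat_lit 1596614131) (nat_lit 39) (nat_lit 3) (nat_lit 38) (nat_lit 1) (nat_lit 39) (nat_lit 1) (nat_lit 377) (nat_lit 382)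 (nat_lit 261)) (XT.lf (nat_lit 0) (nat_lit 332163509) (nat_lit 0) (nat_lit 631157107) (nat_lit 152) (nat_lit 2477179508) (nat_lit 36) (nat_lit 3) (nat_lit 36) (nat_lit 1) (nat_lit 38) (nat_lit 1) (nat_lit 378) (nat_lit 382) (nat_lit 260)))))) (XT.nd (nat_lit 546) (nat_lit 760) (nat_lit 0) (XT.nd (nat_lit 234) (nat_lit 532) (nat_lit 0) (XT.nd (nat_lit 78) (nat_lit 228) (nat_lit 0) (XT.lf (nat_lit 76) (nat_lit 909542306) (nat_lit 0) (nat_lit 1280911010) (nat_lit 76) (nat_lit 1194298113) (nat_lit 36) (nat_lit 3) (nat_lit 35) (nat_lit 1) (nat_lit 36) (nat_lit 1) (nat_lit 379) (nat_lit 382) (nat_lit 259)) (XT.nd (nat_lit 78) (nat_lit 76) (nat_lit 0) (XT.lf (nat_lit 0) (nat_lit 664170785) (nat_lit 0) (nat_lit 927467880) (nat_lit 152) (nat_lit 1738402259) (nat_lit 33) (nat_lit 3) (nat_lit 33) (nat_lit 1) (nat_lit 35) (nat_lit 1) (nat_lit 380) (nat_lit 382) (nat_lit 258)) (XT.lf (nat_lit 76) (nat_lit 567168814)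 (nat_lit 0) (nat_lit 1891120600) (nat_lit 76) (nat_lit 817927951) (nat_lit 33) (nat_lit 3) (nat_lit 32) (nat_lit 1) (nat_lit 33) (nat_lit 1) (nat_lit 381) (nat_lit 382) (nat_lit 257)))) (XT.nd (nat_lit 156) (nat_lit 304) (nat_lit 0) (XT.nd (nat_lit 78) (nat_lit 76) (nat_lit 0) (XT.lf (nat_lit 0) (nat_lit 972888151) (nat_lit 0) (nat_lit 1204750507) (nat_lit 152) (nat_lit 1045568919) (nat_lit 30) (nat_lit 3) (nat_lit 30) (nat_lit 1) (nat_lit 32) (nat_lit 1) (nat_lit 382) (nat_lit 382) (nat_lit 256)) (XT.lf (nat_lit 76) (nat_lit 245294017) (nat_lit 0) (nat_lit 2459831141) (nat_lit 76) (nat_lit 466115308) (nat_lit 30) (nat_lit 3) (nat_lit 29) (nat_lit 1) (nat_lit 30) (nat_lit 1) (nat_lit 383) (nat_lit 382) (nat_lit 255))) (XT.nd (nat_lit 78) (nat_lit 152) (nat_lit 0) (XT.lf (nat_lit 0) (nat_lit 1259594694) (nat_lit 0) (nat_lit 1463775268) (nat_lit 152) (nat_lit 396506490) (nat_lit 27) (nat_lit 3) (nat_lit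 27) (nat_lit 1) (nat_lit 29) (nat_lit 1) (nat_lit 384) (nat_lit 382) (nat_lit 254)) (XT.lf (nat_lit 76) (nat_lit 2932699193) (nat_lit 0) (nat_lit 55799577) (nat_lit 152) (nat_lit 81184546) (nat_lit 26) (nat_lit 1) (nat_lit 25) (nat_lit 1) (nat_lit 27) (nat_lit 1) (nat_lit 385) (nat_lit 382) (nat_lit 253))))) (XT.nd (nat_lit 234) (nat_lit 380) (nat_lit 0) (XT.nd (nat_lit 78) (nat_lit 228) (nat_lit 0) (XT.lf (nat_lit 76) (nat_lit 1312496202) (nat_lit 0) (nat_lit 215070398) (nat_lit 76) (nat_lit 1492299890) (nat_lit 24) (nat_lit 3) (nat_lit 23) (nat_lit 1) (nat_lit 24) (nat_lit 1) (nat_lit 386) (nat_lit 382) (nat_lit 252)) (XT.nd (nat_lit 78) (nat_lit 76) (nat_lit 0) (XT.lf (nat_lit 0) (nat_lit 174031932) (nat_lit 0) (nat_lit 340285921) (nat_lit 152) (nat_lit 2456862633) (nat_lit 21) (nat_lit 3) (nat_lit 21) (nat_lit 1) (nat_lit 23) (nat_lit 1) (nat_lit 387) (nat_lit 382) (nat_lit 251)) (XT.lf (nat_lit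 76) (nat_lit 985305120) (nat_lit 0) (nat_lit 794072736) (nat_lit 76) (nat_lit 1143642252) (nat_lit 21) (nat_lit 3) (nat_lit 20) (nat_lit 1) (nat_lit 21) (nat_lit 1) (nat_lit 388) (nat_lit 382) (nat_lit 250)))) (XT.nd (nat_lit 156) (nat_lit 152) (nat_lit 0) (XT.nd (nat_lit 78) (nat_lit 76) (nat_lit 0) (XT.lf (nat_lit 0) (nat_lit 462198855) (nat_lit 0) (nat_lit 608603970) (nat_lit 152) (nat_lit 1805041350) (nat_lit 18) (nat_lit 3) (nat_lit 18) (nat_lit 1) (nat_lit 20) (nat_lit 1) (nat_lit 389) (nat_lit 382) (nat_lit 249)) (XT.lf (nat_lit 76) (nat_lit 677667985) (nat_lit 0) (nat_lit 1334573483) (nat_lit 76) (nat_lit 817101428) (nat_lit 18) (nat_lit 3) (nat_lit 17) (nat_lit 1) (nat_lit 18) (nat_lit 1) (nat_lit 390) (nat_lit 382) (nat_lit 248))) (XT.nd (nat_lit 42432) (nat_lit 0) (nat_lit 27284) (XT.lf (nat_lit 0) (nat_lit 730503652) (nat_lit 0) (nat_lit 859429628) (nat_lit 152) (nat_lit 1193695436)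 (nat_lit 15) (nat_lit 3) (nat_lit 15) (nat_lit 1) (nat_lit 17) (nat_lit 1) (nat_lit 391) (nat_lit 382) (nat_lit 247)) (XT.lf (nat_lit 1292) (nat_lit 3039516724) (nat_lit 0) (nat_lit 10457351117) (nat_lit 1292) (nat_lit 3039516724) (nat_lit 391) (nat_lit 1) (nat_lit 374) (nat_lit 0) (nat_lit 391) (nat_lit 0) (nat_lit 254) (nat_lit 383) (nat_lit 383))))))) (XT.nd (nat_lit 1092) (nat_lit 6232) (nat_lit 0) (XT.nd (nat_lit 546) (nat_lit 3344) (nat_lit 0) (XT.nd (nat_lit 234) (nat_lit 0) (nat_lit 152) (XT.nd (nat_lit 78) (nat_lit 0) (nat_lit 0) (XT.lf (nat_lit 1292) (nat_lit 243683384) (nat_lit 0) (nat_lit 20619697420) (nat_lit 1216) (nat_lit 11415852516) (nat_lit 392) (nat_lit 1) (nat_lit 375) (nat_lit 1) (nat_lit 391) (nat_lit 1) (nat_lit 255) (nat_lit 383) (nat_lit 382)) (XT.nd (nat_lit 78) (nat_lit 0) (nat_lit 76) (XT.lf (nat_lit 1292) (nat_lit 10721021164) (nat_lit 76) (nat_lit 15164492125) (nat_lit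 0) (nat_lit 5624465132) (nat_lit 392) (nat_lit 1) (nat_lit 376) (nat_lit 1) (nat_lit 375) (nat_lit 1) (nat_lit 256) (nat_lit 383) (nat_lit 381)) (XT.lf (nat_lit 1292) (nat_lit 9424686697) (nat_lit 76) (nat_lit 9926245220) (nat_lit 0) (nat_lit 11414699175) (nat_lit 393) (nat_lit 1) (nat_lit 377) (nat_lit 1) (nat_lit 376) (nat_lit 1) (nat_lit 257) (nat_lit 383) (nat_lit 380)))) (XT.nd (nat_lit 156) (nat_lit 0) (nat_lit 152) (XT.nd (nat_lit 78) (nat_lit 0) (nat_lit 76) (XT.lf (nat_lit 1292) (nat_lit 7799562855) (nat_lit 76) (nat_lit 5127424144) (nat_lit 0) (nat_lit 17118367515) (nat_lit 394) (nat_lit 1) (nat_lit 378) (nat_lit 1) (nat_lit 377) (nat_lit 1) (nat_lit 258) (nat_lit 383) (nat_lit 379)) (XT.lf (nat_lit 1292) (nat_lit 5870711288) (nat_lit 76) (nat_lit 745451632) (nat_lit 0) (nat_lit 22732113480) (nat_lit 395) (nat_lit 1) (nat_lit 379) (nat_lit 1) (nat_lit 378) (nat_lit 1) (nat_lit 259) (nat_lit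 383) (nat_lit 378))) (XT.nd (nat_lit 78) (nat_lit 0) (nat_lit 0) (XT.lf (nat_lit 1292) (nat_lit 451719926) (nat_lit 0) (nat_lit 25042951691) (nat_lit 1216) (nat_lit 3177952792) (nat_lit 396) (nat_lit 1) (nat_lit 379) (nat_lit 1) (nat_lit 395) (nat_lit 1) (nat_lit 260) (nat_lit 383) (nat_lit 377)) (XT.lf (nat_lit 1292) (nat_lit 1070674494) (nat_lit 76) (nat_lit 21242621547) (nat_lit 0) (nat_lit 5703481084) (nat_lit 396) (nat_lit 1) (nat_lit 380) (nat_lit 1) (nat_lit 379) (nat_lit 1) (nat_lit 261) (nat_lit 383) (nat_lit 376))))) (XT.nd (nat_lit 234) (nat_lit 2432) (nat_lit 0) (XT.nd (nat_lit 78) (nat_lit 0) (nat_lit 76) (XT.lf (nat_lit 1368) (nat_lit 15647895595) (nat_lit 0) (nat_lit 1691373860) (nat_lit 1292) (nat_lit 10041949994) (nat_lit 381) (nat_lit 1) (nat_lit 363) (nat_lit 1) (nat_lit 380) (nat_lit 1) (nat_lit 262) (nat_lit 383) (nat_lit 375)) (XT.nd (nat_lit 78) (nat_lit 0) (nat_lit 76) (XT.lf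 (nat_lit 1368) (nat_lit 9133591844) (nat_lit 0) (nat_lit 4640930633) (nat_lit 1292) (nat_lit 12990941920) (nat_lit 382) (nat_lit 1) (nat_lit 364) (nat_lit 1) (nat_lit 381) (nat_lit 1) (nat_lit 263) (nat_lit 383) (nat_lit 374)) (XT.lf (nat_lit 76) (nat_lit 2760219909) (nat_lit 0) (nat_lit 7780795669) (nat_lit 1292) (nat_lit 15628092535) (nat_lit 366) (nat_lit 1) (nat_lit 365) (nat_lit 1) (nat_lit 382) (nat_lit 1) (nat_lit 264) (nat_lit 383) (nat_lit 373)))) (XT.nd (nat_lit 156) (nat_lit 1140) (nat_lit 0) (XT.nd (nat_lit 78) (nat_lit 608) (nat_lit 0) (XT.lf (nat_lit 912) (nat_lit 14462458864) (nat_lit 0) (nat_lit 7586548841) (nat_lit 836) (nat_lit 3541436774) (nat_lit 366) (nat_lit 1) (nat_lit 354) (nat_lit 1) (nat_lit 365) (nat_lit 1) (nat_lit 265) (nat_lit 383) (nat_lit 372)) (XT.lf (nat_lit 684) (nat_lit 10370939326) (nat_lit 0) (nat_lit 4903387765) (nat_lit 608) (nat_lit 9754738932) (nat_lit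 355) (nat_lit 1) (nat_lit 346) (nat_lit 1) (nat_lit 354) (nat_lit 1) (nat_lit 266) (nat_lit 383) (nat_lit 371))) (XT.nd (nat_lit 78) (nat_lit 532) (nat_lit 0) (XT.lf (nat_lit 684) (nat_lit 6156045947) (nat_lit 0) (nat_lit 2503811946) (nat_lit 608) (nat_lit 15825293783) (nat_lit 347) (nat_lit 1) (nat_lit 338) (nat_lit 1) (nat_lit 346) (nat_lit 1) (nat_lit 267) (nat_lit 383) (nat_lit 370)) (XT.lf (nat_lit 608) (nat_lit 1831313756) (nat_lit 0) (nat_lit 372948388) (nat_lit 532) (nat_lit 21753830781) (nat_lit 339) (nat_lit 1) (nat_lit 331) (nat_lit 1) (nat_lit 338) (nat_lit 1) (nat_lit 268) (nat_lit 383) (nat_lit 369)))))) (XT.nd (nat_lit 546) (nat_lit 2964) (nat_lit 0) (XT.nd (nat_lit 234) (nat_lit 2052) (nat_lit 0) (XT.nd (nat_lit 78) (nat_lit 1140) (nat_lit 0) (XT.lf (nat_lit 76) (nat_lit 19310426480) (nat_lit 0) (nat_lit 2594993694) (nat_lit 608) (nat_lit 1539487821) (nat_lit 331) (nat_lit 1) (nat_lit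 330) (nat_lit 1) (nat_lit 338) (nat_lit 1) (nat_lit 269) (nat_lit 383) (nat_lit 368)) (XT.nd (nat_lit 78) (nat_lit 532) (nat_lit 0) (XT.lf (nat_lit 76) (nat_lit 12608487833) (nat_lit 0) (nat_lit 7090687805) (nat_lit 684) (nat_lit 3247055930) (nat_lit 323) (nat_lit 1) (nat_lit 322) (nat_lit 1) (nat_lit 331) (nat_lit 1) (nat_lit 270) (nat_lit 383) (nat_lit 367)) (XT.lf (nat_lit 76) (nat_lit 6077349349) (nat_lit 0) (nat_lit 11655297324) (nat_lit 608) (nat_lit 4730165083) (nat_lit 316) (nat_lit 1) (nat_lit 315) (nat_lit 1) (nat_lit 323) (nat_lit 1) (nat_lit 271) (nat_lit 383) (nat_lit 366)))) (XT.nd (nat_lit 156) (nat_lit 1064) (nat_lit 0) (XT.nd (nat_lit 78) (nat_lit 456) (nat_lit 0) (XT.lf (nat_lit 608) (nat_lit 5712529561) (nat_lit 0) (nat_lit 15990449330) (nat_lit 532) (nat_lit 291063978) (nat_lit 316) (nat_lit 1) (nat_lit 308) (nat_lit 1) (nat_lit 315) (nat_lit 1) (nat_lit 272) (nat_lit 383) (nat_lit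 365)) (XT.lf (nat_lit 532) (nat_lit 522728920) (nat_lit 0) (nat_lit 14403842556) (nat_lit 456) (nat_lit 6611196657) (nat_lit 309) (nat_lit 1) (nat_lit 302) (nat_lit 1) (nat_lit 308) (nat_lit 1) (nat_lit 273) (nat_lit 383) (nat_lit 364))) (XT.nd (nat_lit 78) (nat_lit 456) (nat_lit 0) (XT.lf (nat_lit 76) (nat_lit 8375701665) (nat_lit 0) (nat_lit 4600629233) (nat_lit 608) (nat_lit 8117607059) (nat_lit 295) (nat_lit 1) (nat_lit 294) (nat_lit 1) (nat_lit 302) (nat_lit 1) (nat_lit 274) (nat_lit 383) (nat_lit 363)) (XT.lf (nat_lit 76) (nat_lit 2007332989) (nat_lit 0) (nat_lit 9730806205) (nat_lit 532) (nat_lit 8925144707) (nat_lit 289) (nat_lit 1) (nat_lit 288) (nat_lit 1) (nat_lit 295) (nat_lit 1) (nat_lit 275) (nat_lit 383) (nat_lit 362))))) (XT.nd (nat_lit 234) (nat_lit 1596) (nat_lit 0) (XT.nd (nat_lit 78) (nat_lit 912) (nat_lit 0) (XT.lf (nat_lit 532) (nat_lit 5332315056) (nat_lit 0) (nat_lit 10641850126)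 (nat_lit 456) (nat_lit 4270113752) (nat_lit 289) (nat_lit 1) (nat_lit 282) (nat_lit 1) (nat_lit 288) (nat_lit 1) (nat_lit 276) (nat_lit 383) (nat_lit 361)) (XT.nd (nat_lit 78) (nat_lit 456) (nat_lit 0) (XT.lf (nat_lit 76) (nat_lit 9426737509) (nat_lit 0) (nat_lit 271873072) (nat_lit 456) (nat_lit 10138493984) (nat_lit 277) (nat_lit 1) (nat_lit 276) (nat_lit 1) (nat_lit 282) (nat_lit 1) (nat_lit 277) (nat_lit 383) (nat_lit 360)) (XT.lf (nat_lit 76) (nat_lit 3113558434) (nat_lit 0) (nat_lit 5755821099) (nat_lit 532) (nat_lit 10571103704) (nat_lit 271) (nat_lit 1) (nat_lit 270) (nat_lit 1) (nat_lit 277) (nat_lit 1) (nat_lit 278) (nat_lit 383) (nat_lit 359)))) (XT.nd (nat_lit 156) (nat_lit 836) (nat_lit 0) (XT.nd (nat_lit 78) (nat_lit 380) (nat_lit 0) (XT.lf (nat_lit 456) (nat_lit 7806619651) (nat_lit 0) (nat_lit 8167509752) (nat_lit 380) (nat_lit 3080536705) (nat_lit 271) (nat_lit 1) (nat_lit 265)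 (nat_lit 1) (nat_lit 270) (nat_lit 1) (nat_lit 279) (nat_lit 383) (nat_lit 358)) (XT.lf (nat_lit 456) (nat_lit 1936304560) (nat_lit 0) (nat_lit 7585297764) (nat_lit 380) (nat_lit 9157691345) (nat_lit 266) (nat_lit 1) (nat_lit 260) (nat_lit 1) (nat_lit 265) (nat_lit 1) (nat_lit 280) (nat_lit 383) (nat_lit 357))) (XT.nd (nat_lit 78) (nat_lit 380) (nat_lit 0) (XT.lf (nat_lit 76) (nat_lit 3292535231) (nat_lit 0) (nat_lit 3814943104) (nat_lit 456) (nat_lit 11206310403) (nat_lit 255) (nat_lit 1) (nat_lit 254) (nat_lit 1) (nat_lit 260) (nat_lit 1) (nat_lit 281) (nat_lit 383) (nat_lit 356)) (XT.lf (nat_lit 456) (nat_lit 8448199245) (nat_lit 0) (nat_lit 6718423796) (nat_lit 380) (nat_lit 2790943063) (nat_lit 255) (nat_lit 1) (nat_lit 249) (nat_lit 1) (nat_lit 254) (nat_lit 1) (nat_lit 282) (nat_lit 383) (nat_lit 355))))))))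
noncomputable def ec90 : XT := (XT.nd (nat_lit 2184) (nat_lit 4028) (nat_lit 0) (XT.nd (nat_lit 1092) (nat_lit 3116) (nat_lit 0) (XT.nd (nat_lit 546) (nat_lit 1900) (nat_lit 0) (XT.nd (nat_lit 234) (nat_lit 1292) (nat_lit 0) (XT.nd (nat_lit 78) (nat_lit 760) (nat_lit 0) (XT.lf (nat_lit 380) (nat_lit 2425521563) (nat_lit 0) (nat_lit 6426059949) (nat_lit 304) (nat_lit 8759147543) (nat_lit 250) (nat_lit 1) (nat_lit 245) (nat_lit 1) (nat_lit 249) (nat_lit 1) (nat_lit 283) (nat_lit 383) (nat_lit 354)) (XT.nd (nat_lit 78) (nat_lit 304) (nat_lit 0) (XT.lf (nat_lit 76) (nat_lit 2757128248) (nat_lit 0) (nat_lit 3464398651) (nat_lit 456) (nat_lit 11051367505) (nat_lit 240) (nat_lit 1) (nat_lit 239) (nat_lit 1) (nat_lit 245) (nat_lit 1) (nat_lit 284) (nat_lit 383) (nat_lit 353)) (XT.lf (nat_lit 380) (nat_lit 7670308453) (nat_lit 0) (nat_lit 6078015078) (nat_lit 304) (nat_lit 3194835014) (nat_lit 240) (nat_lit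 1) (nat_lit 235) (nat_lit 1) (nat_lit 239) (nat_lit 1) (nat_lit 285) (nat_lit 383) (nat_lit 352)))) (XT.nd (nat_lit 156) (nat_lit 608) (nat_lit 0) (XT.nd (nat_lit 78) (nat_lit 380) (nat_lit 0) (XT.lf (nat_lit 380) (nat_lit 1582371066) (nat_lit 0) (nat_lit 6018647271) (nat_lit 304) (nat_lit 9021056211) (nat_lit 236) (nat_lit 1) (nat_lit 231) (nat_lit 1) (nat_lit 235) (nat_lit 1) (nat_lit 286) (nat_lit 383) (nat_lit 351)) (XT.lf (nat_lit 76) (nat_lit 1681589703) (nat_lit 0) (nat_lit 4339632131) (nat_lit 380) (nat_lit 10287655813) (nat_lit 227) (nat_lit 1) (nat_lit 226) (nat_lit 1) (nat_lit 231) (nat_lit 1) (nat_lit 287) (nat_lit 383) (nat_lit 350))) (XT.nd (nat_lit 78) (nat_lit 304) (nat_lit 0) (XT.lf (nat_lit 380) (nat_lit 5811805084) (nat_lit 0) (nat_lit 6067930193) (nat_lit 304) (nat_lit 4123198003) (nat_lit 227) (nat_lit 1) (nat_lit 222) (nat_lit 1) (nat_lit 226) (nat_lit 1) (nat_lit 288) (nat_lit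 383) (nat_lit 349)) (XT.lf (nat_lit 76) (nat_lit 5925109125) (nat_lit 0) (nat_lit 266591378) (nat_lit 304) (nat_lit 9513386357) (nat_lit 219) (nat_lit 1) (nat_lit 218) (nat_lit 1) (nat_lit 222) (nat_lit 1) (nat_lit 289) (nat_lit 383) (nat_lit 348))))) (XT.nd (nat_lit 234) (nat_lit 988) (nat_lit 0) (XT.nd (nat_lit 78) (nat_lit 608) (nat_lit 0) (XT.lf (nat_lit 76) (nat_lit 208054934) (nat_lit 0) (nat_lit 6142062331) (nat_lit 380) (nat_lit 9063874226) (nat_lit 215) (nat_lit 1) (nat_lit 214) (nat_lit 1) (nat_lit 219) (nat_lit 1) (nat_lit 290) (nat_lit 383) (nat_lit 347)) (XT.nd (nat_lit 78) (nat_lit 380) (nat_lit 0) (XT.lf (nat_lit 304) (nat_lit 3149621494) (nat_lit 0) (nat_lit 6541679901) (nat_lit 228) (nat_lit 5438192704) (nat_lit 215) (nat_lit 1) (nat_lit 211) (nat_lit 1) (nat_lit 214) (nat_lit 1) (nat_lit 291) (nat_lit 383) (nat_lit 346)) (XT.lf (nat_lit 76) (nat_lit 3967624136) (nat_lit 0) (nat_lit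 2818815613) (nat_lit 380) (nat_lit 8065631663) (nat_lit 207) (nat_lit 1) (nat_lit 206) (nat_lit 1) (nat_lit 211) (nat_lit 1) (nat_lit 292) (nat_lit 383) (nat_lit 345)))) (XT.nd (nat_lit 156) (nat_lit 456) (nat_lit 0) (XT.nd (nat_lit 78) (nat_lit 304) (nat_lit 0) (XT.lf (nat_lit 304) (nat_lit 5937854832) (nat_lit 0) (nat_lit 7064344740) (nat_lit 228) (nat_lit 1578834577) (nat_lit 207) (nat_lit 1) (nat_lit 203) (nat_lit 1) (nat_lit 206) (nat_lit 1) (nat_lit 293) (nat_lit 383) (nat_lit 344)) (XT.lf (nat_lit 76) (nat_lit 7289385742) (nat_lit 0) (nat_lit 89031603) (nat_lit 304) (nat_lit 6937949758) (nat_lit 200) (nat_lit 1) (nat_lit 199) (nat_lit 1) (nat_lit 203) (nat_lit 1) (nat_lit 294) (nat_lit 383) (nat_lit 343))) (XT.nd (nat_lit 78) (nat_lit 228) (nat_lit 0) (XT.lf (nat_lit 76) (nat_lit 1811534296) (nat_lit 0) (nat_lit 5895929676) (nat_lit 304) (nat_lit 6349887742) (nat_lit 197) (nat_lit 1) (nat_lit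 196) (nat_lit 1) (nat_lit 200) (nat_lit 1) (nat_lit 295) (nat_lit 383) (nat_lit 342)) (XT.lf (nat_lit 304) (nat_lit 2170807811) (nat_lit 0) (nat_lit 8070771021) (nat_lit 228) (nat_lit 3562871547) (nat_lit 197) (nat_lit 1) (nat_lit 193) (nat_lit 1) (nat_lit 196) (nat_lit 1) (nat_lit 296) (nat_lit 383) (nat_lit 341)))))) (XT.nd (nat_lit 546) (nat_lit 1520) (nat_lit 0) (XT.nd (nat_lit 234) (nat_lit 836) (nat_lit 0) (XT.nd (nat_lit 78) (nat_lit 456) (nat_lit 0) (XT.lf (nat_lit 76) (nat_lit 4792002223) (nat_lit 0) (nat_lit 3654078301) (nat_lit 304) (nat_lit 5110836831) (nat_lit 190) (nat_lit 1) (nat_lit 189) (nat_lit 1) (nat_lit 193) (nat_lit 1) (nat_lit 297) (nat_lit 383) (nat_lit 340)) (XT.nd (nat_lit 78) (nat_lit 228) (nat_lit 0) (XT.lf (nat_lit 304) (nat_lit 3982327033) (nat_lit 0) (nat_lit 8859587102) (nat_lit 228) (nat_lit 473505862) (nat_lit 190) (nat_lit 1) (nat_lit 186) (nat_lit 1) (nat_lit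 189) (nat_lit 1) (nat_lit 298) (nat_lit 383) (nat_lit 339)) (XT.lf (nat_lit 76) (nat_lit 7433677270) (nat_lit 0) (nat_lit 1834824307) (nat_lit 228) (nat_lit 3810116668) (nat_lit 184) (nat_lit 1) (nat_lit 183) (nat_lit 1) (nat_lit 186) (nat_lit 1) (nat_lit 299) (nat_lit 383) (nat_lit 338)))) (XT.nd (nat_lit 156) (nat_lit 380) (nat_lit 0) (XT.nd (nat_lit 78) (nat_lit 228) (nat_lit 0) (XT.lf (nat_lit 76) (nat_lit 2235151110) (nat_lit 0) (nat_lit 7462662098) (nat_lit 304) (nat_lit 3149334747) (nat_lit 181) (nat_lit 1) (nat_lit 180) (nat_lit 1) (nat_lit 184) (nat_lit 1) (nat_lit 300) (nat_lit 383) (nat_lit 337)) (XT.lf (nat_lit 76) (nat_lit 9772354912) (nat_lit 0) (nat_lit 379045048) (nat_lit 228) (nat_lit 2469631882) (nat_lit 178) (nat_lit 1) (nat_lit 177) (nat_lit 1) (nat_lit 180) (nat_lit 1) (nat_lit 301) (nat_lit 383) (nat_lit 336))) (XT.nd (nat_lit 78) (nat_lit 152) (nat_lit 0) (XT.lf (nat_lit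 76) (nat_lit 4639254213) (nat_lit 0) (nat_lit 5945431135) (nat_lit 304) (nat_lit 1814197695) (nat_lit 175) (nat_lit 1) (nat_lit 174) (nat_lit 1) (nat_lit 178) (nat_lit 1) (nat_lit 302) (nat_lit 383) (nat_lit 335)) (XT.lf (nat_lit 228) (nat_lit 780137502) (nat_lit 0) (nat_lit 11067211035) (nat_lit 152) (nat_lit 335291676) (nat_lit 175) (nat_lit 1) (nat_lit 172) (nat_lit 1) (nat_lit 174) (nat_lit 1) (nat_lit 303) (nat_lit 383) (nat_lit 334))))) (XT.nd (nat_lit 234) (nat_lit 760) (nat_lit 0) (XT.nd (nat_lit 78) (nat_lit 532) (nat_lit 0) (XT.lf (nat_lit 76) (nat_lit 6778591779) (nat_lit 0) (nat_lit 4727633975) (nat_lit 228) (nat_lit 463290928) (nat_lit 170) (nat_lit 1) (nat_lit 169) (nat_lit 1) (nat_lit 172) (nat_lit 1) (nat_lit 304) (nat_lit 383) (nat_lit 333)) (XT.nd (nat_lit 78) (nat_lit 228) (nat_lit 0) (XT.lf (nat_lit 228) (nat_lit 1653570353) (nat_lit 0) (nat_lit 229301097) (nat_lit 152) (nat_lit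 9878967100) (nat_lit 168) (nat_lit 1) (nat_lit 165) (nat_lit 1) (nat_lit 167) (nat_lit 1) (nat_lit 305) (nat_lit 383) (nat_lit 332)) (XT.lf (nat_lit 228) (nat_lit 7782638778) (nat_lit 0) (nat_lit 906424696) (nat_lit 152) (nat_lit 2868589317) (nat_lit 165) (nat_lit 1) (nat_lit 162) (nat_lit 1) (nat_lit 164) (nat_lit 1) (nat_lit 306) (nat_lit 383) (nat_lit 331)))) (XT.nd (nat_lit 156) (nat_lit 380) (nat_lit 0) (XT.nd (nat_lit 78) (nat_lit 228) (nat_lit 0) (XT.lf (nat_lit 228) (nat_lit 2282919434) (nat_lit 0) (nat_lit 1589902042) (nat_lit 152) (nat_lit 7485095526) (nat_lit 163) (nat_lit 1) (nat_lit 160) (nat_lit 1) (nat_lit 162) (nat_lit 1) (nat_lit 307) (nat_lit 383) (nat_lit 330)) (XT.lf (nat_lit 228) (nat_lit 8116579244) (nat_lit 0) (nat_lit 2274022090) (nat_lit 152) (nat_lit 771782271) (nat_lit 160) (nat_lit 1) (nat_lit 157) (nat_lit 1) (nat_lit 159) (nat_lit 1) (nat_lit 308) (nat_lit 383) (nat_lit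 329))) (XT.nd (nat_lit 78) (nat_lit 228) (nat_lit 0) (XT.lf (nat_lit 228) (nat_lit 2717581569) (nat_lit 0) (nat_lit 2935793405) (nat_lit 152) (nat_lit 5316928287) (nat_lit 158) (nat_lit 1) (nat_lit 155) (nat_lit 1) (nat_lit 157) (nat_lit 1) (nat_lit 309) (nat_lit 383) (nat_lit 328)) (XT.lf (nat_lit 76) (nat_lit 1095441598) (nat_lit 0) (nat_lit 2513428868) (nat_lit 228) (nat_lit 7173707558) (nat_lit 153) (nat_lit 1) (nat_lit 152) (nat_lit 1) (nat_lit 155) (nat_lit 1) (nat_lit 310) (nat_lit 383) (nat_lit 327))))))) (XT.nd (nat_lit 1092) (nat_lit 1748) (nat_lit 0) (XT.nd (nat_lit 546) (nat_lit 1216) (nat_lit 0) (XT.nd (nat_lit 234) (nat_lit 608) (nat_lit 0) (XT.nd (nat_lit 78) (nat_lit 304) (nat_lit 0) (XT.lf (nat_lit 228) (nat_lit 2987884521) (nat_lit 0) (nat_lit 4257328862) (nat_lit 152) (nat_lit 3352871487) (nat_lit 153) (nat_lit 1) (nat_lit 150) (nat_lit 1) (nat_lit 152) (nat_lit 1) (nat_lit 311)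 (nat_lit 383) (nat_lit 326)) (XT.nd (nat_lit 78) (nat_lit 152) (nat_lit 0) (XT.lf (nat_lit 76) (nat_lit 2763520848) (nat_lit 0) (nat_lit 2144229133) (nat_lit 152) (nat_lit 5509772813) (nat_lit 149) (nat_lit 1) (nat_lit 148) (nat_lit 1) (nat_lit 150) (nat_lit 1) (nat_lit 312) (nat_lit 383) (nat_lit 325)) (XT.lf (nat_lit 228) (nat_lit 3120192992) (nat_lit 0) (nat_lit 5546613750) (nat_lit 152) (nat_lit 1573617474) (nat_lit 149) (nat_lit 1) (nat_lit 146) (nat_lit 1) (nat_lit 148) (nat_lit 1) (nat_lit 313) (nat_lit 383) (nat_lit 324)))) (XT.nd (nat_lit 156) (nat_lit 304) (nat_lit 0) (XT.nd (nat_lit 78) (nat_lit 152) (nat_lit 0) (XT.lf (nat_lit 76) (nat_lit 4265080441) (nat_lit 0) (nat_lit 1906145539) (nat_lit 152) (nat_lit 3895412305) (nat_lit 145) (nat_lit 1) (nat_lit 144) (nat_lit 1) (nat_lit 146) (nat_lit 1) (nat_lit 314) (nat_lit 383) (nat_lit 323)) (XT.lf (nat_lit 76) (nat_lit 37370731) (nat_lit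 0) (nat_lit 6759520252) (nat_lit 228) (nat_lit 3099648766) (nat_lit 143) (nat_lit 1) (nat_lit 142) (nat_lit 1) (nat_lit 145) (nat_lit 1) (nat_lit 315) (nat_lit 383) (nat_lit 322))) (XT.nd (nat_lit 78) (nat_lit 152) (nat_lit 0) (XT.lf (nat_lit 76) (nat_lit 5615842389) (nat_lit 0) (nat_lit 1777781020) (nat_lit 152) (nat_lit 2335562192) (nat_lit 141) (nat_lit 1) (nat_lit 140) (nat_lit 1) (nat_lit 142) (nat_lit 1) (nat_lit 316) (nat_lit 383) (nat_lit 321)) (XT.lf (nat_lit 76) (nat_lit 1468579537) (nat_lit 0) (nat_lit 6520811334) (nat_lit 228) (nat_lit 1575931231) (nat_lit 139) (nat_lit 1) (nat_lit 138) (nat_lit 1) (nat_lit 141) (nat_lit 1) (nat_lit 317) (nat_lit 383) (nat_lit 320))))) (XT.nd (nat_lit 234) (nat_lit 608) (nat_lit 0) (XT.nd (nat_lit 78) (nat_lit 456) (nat_lit 0) (XT.lf (nat_lit 76) (nat_lit 6829893844) (nat_lit 0) (nat_lit 1740581410) (nat_lit 152) (nat_lit 834007418) (nat_lit 137) (nat_lit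 1) (nat_lit 136) (nat_lit 1) (nat_lit 138) (nat_lit 1) (nat_lit 318) (nat_lit 383) (nat_lit 319)) (XT.nd (nat_lit 78) (nat_lit 304) (nat_lit 0) (XT.lf (nat_lit 76) (nat_lit 2764331883) (nat_lit 0) (nat_lit 6371278668) (nat_lit 228) (nat_lit 110954140) (nat_lit 135) (nat_lit 1) (nat_lit 134) (nat_lit 1) (nat_lit 137) (nat_lit 1) (nat_lit 319) (nat_lit 383) (nat_lit 318)) (XT.lf (nat_lit 228) (nat_lit 7307291448) (nat_lit 0) (nat_lit 618524859) (nat_lit 152) (nat_lit 1165903851) (nat_lit 133) (nat_lit 1) (nat_lit 130) (nat_lit 1) (nat_lit 132) (nat_lit 1) (nat_lit 320) (nat_lit 383) (nat_lit 317)))) (XT.nd (nat_lit 156) (nat_lit 304) (nat_lit 0) (XT.nd (nat_lit 78) (nat_lit 228) (nat_lit 0) (XT.lf (nat_lit 152) (nat_lit 2631007248) (nat_lit 0) (nat_lit 1318521416) (nat_lit 76) (nat_lit 4989747271) (nat_lit 131) (nat_lit 1) (nat_lit 129) (nat_lit 1) (nat_lit 130) (nat_lit 1) (nat_lit 321) (nat_lit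 383) (nat_lit 316)) (XT.lf (nat_lit 76) (nat_lit 123839961) (nat_lit 0) (nat_lit 1898267005) (nat_lit 228) (nat_lit 6768121325) (nat_lit 127) (nat_lit 1) (nat_lit 126) (nat_lit 1) (nat_lit 129) (nat_lit 1) (nat_lit 322) (nat_lit 383) (nat_lit 315))) (XT.nd (nat_lit 78) (nat_lit 228) (nat_lit 0) (XT.lf (nat_lit 152) (nat_lit 2336928613) (nat_lit 0) (nat_lit 2686029349) (nat_lit 76) (nat_lit 3620296788) (nat_lit 127) (nat_lit 1) (nat_lit 125) (nat_lit 1) (nat_lit 126) (nat_lit 1) (nat_lit 323) (nat_lit 383) (nat_lit 314)) (XT.lf (nat_lit 76) (nat_lit 1278894160) (nat_lit 0) (nat_lit 2070829170) (nat_lit 228) (nat_lit 5149719058) (nat_lit 123) (nat_lit 1) (nat_lit 122) (nat_lit 1) (nat_lit 125) (nat_lit 1) (nat_lit 324) (nat_lit 383) (nat_lit 313)))))) (XT.nd (nat_lit 546) (nat_lit 912) (nat_lit 0) (XT.nd (nat_lit 234) (nat_lit 456) (nat_lit 0) (XT.nd (nat_lit 78) (nat_lit 304) (nat_lit 0) (XT.lf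 (nat_lit 152) (nat_lit 2005088068) (nat_lit 0) (nat_lit 3988327512) (nat_lit 76) (nat_lit 2364591166) (nat_lit 123) (nat_lit 1) (nat_lit 121) (nat_lit 1) (nat_lit 122) (nat_lit 1) (nat_lit 325) (nat_lit 383) (nat_lit 312)) (XT.nd (nat_lit 78) (nat_lit 76) (nat_lit 0) (XT.lf (nat_lit 76) (nat_lit 2331502220) (nat_lit 0) (nat_lit 2280689774) (nat_lit 228) (nat_lit 3606998097) (nat_lit 119) (nat_lit 1) (nat_lit 118) (nat_lit 1) (nat_lit 121) (nat_lit 1) (nat_lit 326) (nat_lit 383) (nat_lit 311)) (XT.lf (nat_lit 152) (nat_lit 1644844042) (nat_lit 0) (nat_lit 5224969476) (nat_lit 76) (nat_lit 1213227235) (nat_lit 119) (nat_lit 1) (nat_lit 117) (nat_lit 1) (nat_lit 118) (nat_lit 1) (nat_lit 327) (nat_lit 383) (nat_lit 310)))) (XT.nd (nat_lit 156) (nat_lit 228) (nat_lit 0) (XT.nd (nat_lit 78) (nat_lit 76) (nat_lit 0) (XT.lf (nat_lit 76) (nat_lit 3290238976) (nat_lit 0) (nat_lit 2519085939) (nat_lit 152)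 (nat_lit 2139671953) (nat_lit 116) (nat_lit 1) (nat_lit 115) (nat_lit 1) (nat_lit 117) (nat_lit 1) (nat_lit 328) (nat_lit 383) (nat_lit 309)) (XT.lf (nat_lit 152) (nat_lit 1264193492) (nat_lit 0) (nat_lit 6396004709) (nat_lit 76) (nat_lit 157699890) (nat_lit 116) (nat_lit 1) (nat_lit 114) (nat_lit 1) (nat_lit 115) (nat_lit 1) (nat_lit 329) (nat_lit 383) (nat_lit 308))) (XT.nd (nat_lit 78) (nat_lit 76) (nat_lit 0) (XT.lf (nat_lit 76) (nat_lit 4162860998) (nat_lit 0) (nat_lit 2778525495) (nat_lit 152) (nat_lit 747032567) (nat_lit 113) (nat_lit 1) (nat_lit 112) (nat_lit 1) (nat_lit 114) (nat_lit 1) (nat_lit 330) (nat_lit 383) (nat_lit 307)) (XT.lf (nat_lit 0) (nat_lit 793894643) (nat_lit 0) (nat_lit 6699987407) (nat_lit 152) (nat_lit 68034013) (nat_lit 111) (nat_lit 3) (nat_lit 111) (nat_lit 1) (nat_lit 113) (nat_lit 1) (nat_lit 331) (nat_lit 383) (nat_lit 306))))) (XT.nd (nat_lit 234) (nat_lit 456)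 (nat_lit 0) (XT.nd (nat_lit 78) (nat_lit 228) (nat_lit 0) (XT.lf (nat_lit 152) (nat_lit 4378640206) (nat_lit 0) (nat_lit 583361992) (nat_lit 76) (nat_lit 2474870639) (nat_lit 110) (nat_lit 1) (nat_lit 108) (nat_lit 1) (nat_lit 109) (nat_lit 1) (nat_lit 332) (nat_lit 383) (nat_lit 305)) (XT.nd (nat_lit 78) (nat_lit 152) (nat_lit 0) (XT.lf (nat_lit 76) (nat_lit 438845291) (nat_lit 0) (nat_lit 1235885611) (nat_lit 76) (nat_lit 5639816397) (nat_lit 108) (nat_lit 3) (nat_lit 107) (nat_lit 1) (nat_lit 108) (nat_lit 1) (nat_lit 333) (nat_lit 383) (nat_lit 304)) (XT.lf (nat_lit 152) (nat_lit 3840139902) (nat_lit 0) (nat_lit 1854904133) (nat_lit 76) (nat_lit 1498893871) (nat_lit 107) (nat_lit 1) (nat_lit 105) (nat_lit 1) (nat_lit 106) (nat_lit 1) (nat_lit 334) (nat_lit 383) (nat_lit 303)))) (XT.nd (nat_lit 156) (nat_lit 228) (nat_lit 0) (XT.nd (nat_lit 78) (nat_lit 152) (nat_lit 0) (XT.lf (nat_lit 76) (nat_lit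 13581197) (nat_lit 0) (nat_lit 2468619277) (nat_lit 76) (nat_lit 4593614314) (nat_lit 105) (nat_lit 3) (nat_lit 104) (nat_lit 1) (nat_lit 105) (nat_lit 1) (nat_lit 335) (nat_lit 383) (nat_lit 302)) (XT.lf (nat_lit 152) (nat_lit 3306128675) (nat_lit 0) (nat_lit 3054339977) (nat_lit 76) (nat_lit 598998090) (nat_lit 104) (nat_lit 1) (nat_lit 102) (nat_lit 1) (nat_lit 103) (nat_lit 1) (nat_lit 336) (nat_lit 383) (nat_lit 301))) (XT.nd (nat_lit 78) (nat_lit 76) (nat_lit 0) (XT.lf (nat_lit 76) (nat_lit 3225248909) (nat_lit 0) (nat_lit 401179011) (nat_lit 152) (nat_lit 3218834809) (nat_lit 101) (nat_lit 1) (nat_lit 100) (nat_lit 1) (nat_lit 102) (nat_lit 1) (nat_lit 337) (nat_lit 383) (nat_lit 300)) (XT.lf (nat_lit 0) (nat_lit 225951422) (nat_lit 0) (nat_lit 3955242409) (nat_lit 152) (nat_lit 2551853059) (nat_lit 99) (nat_lit 3) (nat_lit 99) (nat_lit 1) (nat_lit 101) (nat_lit 1) (nat_lit 338) (nat_lit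 383) (nat_lit 299))))))))
noncomputable def ec91 : XT := (XT.nd (nat_lit 2184) (nat_lit 2964) (nat_lit 0) (XT.nd (nat_lit 1092) (nat_lit 1748) (nat_lit 0) (XT.nd (nat_lit 546) (nat_lit 836) (nat_lit 0) (XT.nd (nat_lit 234) (nat_lit 532) (nat_lit 0) (XT.nd (nat_lit 78) (nat_lit 228) (nat_lit 0) (XT.lf (nat_lit 76) (nat_lit 3905195645) (nat_lit 0) (nat_lit 809933769) (nat_lit 152) (nat_lit 1907540149) (nat_lit 98) (nat_lit 1) (nat_lit 97) (nat_lit 1) (nat_lit 99) (nat_lit 1) (nat_lit 339) (nat_lit 383) (nat_lit 298)) (XT.nd (nat_lit 78) (nat_lit 152) (nat_lit 0) (XT.lf (nat_lit 0) (nat_lit 975182823) (nat_lit 0) (nat_lit 4259238026) (nat_lit 152) (nat_lit 1279843504) (nat_lit 96) (nat_lit 3) (nat_lit 96) (nat_lit 1) (nat_lit 98) (nat_lit 1) (nat_lit 340) (nat_lit 383) (nat_lit 297)) (XT.lf (nat_lit 76) (nat_lit 4526612370) (nat_lit 0) (nat_lit 1210254878) (nat_lit 152) (nat_lit 670854219) (nat_lit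 95) (nat_lit 1) (nat_lit 94) (nat_lit 1) (nat_lit 96) (nat_lit 1) (nat_lit 341) (nat_lit 383) (nat_lit 296)))) (XT.nd (nat_lit 156) (nat_lit 228) (nat_lit 0) (XT.nd (nat_lit 78) (nat_lit 228) (nat_lit 0) (XT.lf (nat_lit 0) (nat_lit 1665001749) (nat_lit 0) (nat_lit 4556977359) (nat_lit 152) (nat_lit 81002722) (nat_lit 93) (nat_lit 3) (nat_lit 93) (nat_lit 1) (nat_lit 95) (nat_lit 1) (nat_lit 342) (nat_lit 383) (nat_lit 295)) (XT.lf (nat_lit 152) (nat_lit 4595184621) (nat_lit 0) (nat_lit 503457170) (nat_lit 76) (nat_lit 1101330837) (nat_lit 92) (nat_lit 1) (nat_lit 90) (nat_lit 1) (nat_lit 91) (nat_lit 1) (nat_lit 343) (nat_lit 383) (nat_lit 294))) (XT.nd (nat_lit 78) (nat_lit 152) (nat_lit 0) (XT.lf (nat_lit 76) (nat_lit 1241986349) (nat_lit 0) (nat_lit 1067919216) (nat_lit 76) (nat_lit 3788692299) (nat_lit 90) (nat_lit 3) (nat_lit 89) (nat_lit 1) (nat_lit 90) (nat_lit 1) (nat_lit 344) (nat_lit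 383) (nat_lit 293)) (XT.lf (nat_lit 152) (nat_lit 4006281915) (nat_lit 0) (nat_lit 1619999829) (nat_lit 76) (nat_lit 372824834) (nat_lit 89) (nat_lit 1) (nat_lit 87) (nat_lit 1) (nat_lit 88) (nat_lit 1) (nat_lit 345) (nat_lit 383) (nat_lit 292))))) (XT.nd (nat_lit 234) (nat_lit 532) (nat_lit 0) (XT.nd (nat_lit 78) (nat_lit 228) (nat_lit 0) (XT.lf (nat_lit 76) (nat_lit 754842555) (nat_lit 0) (nat_lit 2148795703) (nat_lit 76) (nat_lit 2997500196) (nat_lit 87) (nat_lit 3) (nat_lit 86) (nat_lit 1) (nat_lit 87) (nat_lit 1) (nat_lit 346) (nat_lit 383) (nat_lit 291)) (XT.nd (nat_lit 78) (nat_lit 76) (nat_lit 0) (XT.lf (nat_lit 0) (nat_lit 295666171) (nat_lit 0) (nat_lit 2369320948) (nat_lit 152) (nat_lit 3139975519) (nat_lit 84) (nat_lit 3) (nat_lit 84) (nat_lit 1) (nat_lit 86) (nat_lit 1) (nat_lit 347) (nat_lit 383) (nat_lit 290)) (XT.lf (nat_lit 76) (nat_lit 286451222) (nat_lit 0) (nat_lit 3162550808)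 (nat_lit 76) (nat_lit 2261360533) (nat_lit 84) (nat_lit 3) (nat_lit 83) (nat_lit 1) (nat_lit 84) (nat_lit 1) (nat_lit 348) (nat_lit 383) (nat_lit 289)))) (XT.nd (nat_lit 156) (nat_lit 228) (nat_lit 0) (XT.nd (nat_lit 78) (nat_lit 152) (nat_lit 0) (XT.lf (nat_lit 0) (nat_lit 907347703) (nat_lit 0) (nat_lit 2733431209) (nat_lit 152) (nat_lit 1976498350) (nat_lit 81) (nat_lit 3) (nat_lit 81) (nat_lit 1) (nat_lit 83) (nat_lit 1) (nat_lit 349) (nat_lit 383) (nat_lit 288)) (XT.lf (nat_lit 76) (nat_lit 3950871871) (nat_lit 0) (nat_lit 159249982) (nat_lit 152) (nat_lit 1415849684) (nat_lit 80) (nat_lit 1) (nat_lit 79) (nat_lit 1) (nat_lit 81) (nat_lit 1) (nat_lit 350) (nat_lit 383) (nat_lit 287))) (XT.nd (nat_lit 78) (nat_lit 152) (nat_lit 0) (XT.lf (nat_lit 0) (nat_lit 1472763902) (nat_lit 0) (nat_lit 3080833387) (nat_lit 152) (nat_lit 882314641) (nat_lit 78) (nat_lit 3) (nat_lit 78) (nat_lit 1) (nat_lit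 80) (nat_lit 1) (nat_lit 351) (nat_lit 383) (nat_lit 286)) (XT.lf (nat_lit 76) (nat_lit 4413305310) (nat_lit 0) (nat_lit 579712978) (nat_lit 152) (nat_lit 354677400) (nat_lit 77) (nat_lit 1) (nat_lit 76) (nat_lit 1) (nat_lit 78) (nat_lit 1) (nat_lit 352) (nat_lit 383) (nat_lit 285)))))) (XT.nd (nat_lit 546) (nat_lit 912) (nat_lit 0) (XT.nd (nat_lit 234) (nat_lit 456) (nat_lit 0) (XT.nd (nat_lit 78) (nat_lit 228) (nat_lit 0) (XT.lf (nat_lit 76) (nat_lit 1848142875) (nat_lit 0) (nat_lit 148219892) (nat_lit 76) (nat_lit 3264226784) (nat_lit 75) (nat_lit 3) (nat_lit 74) (nat_lit 1) (nat_lit 75) (nat_lit 1) (nat_lit 353) (nat_lit 383) (nat_lit 284)) (XT.nd (nat_lit 78) (nat_lit 76) (nat_lit 0) (XT.lf (nat_lit 152) (nat_lit 4188687251) (nat_lit 0) (nat_lit 653970937) (nat_lit 76) (nat_lit 332542500) (nat_lit 74) (nat_lit 1) (nat_lit 72) (nat_lit 1) (nat_lit 73) (nat_lit 1) (nat_lit 354) (nat_lit 383)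 (nat_lit 283)) (XT.lf (nat_lit 76) (nat_lit 1356325434) (nat_lit 0) (nat_lit 1131218526) (nat_lit 76) (nat_lit 2603344706) (nat_lit 72) (nat_lit 3) (nat_lit 71) (nat_lit 1) (nat_lit 72) (nat_lit 1) (nat_lit 355) (nat_lit 383) (nat_lit 282)))) (XT.nd (nat_lit 156) (nat_lit 228) (nat_lit 0) (XT.nd (nat_lit 78) (nat_lit 76) (nat_lit 0) (XT.lf (nat_lit 0) (nat_lit 225267443) (nat_lit 0) (nat_lit 1378313463) (nat_lit 152) (nat_lit 3404724162) (nat_lit 69) (nat_lit 3) (nat_lit 69) (nat_lit 1) (nat_lit 71) (nat_lit 1) (nat_lit 356) (nat_lit 383) (nat_lit 281)) (XT.lf (nat_lit 76) (nat_lit 888435045) (nat_lit 0) (nat_lit 2051845517) (nat_lit 76) (nat_lit 1986574113) (nat_lit 69) (nat_lit 3) (nat_lit 68) (nat_lit 1) (nat_lit 69) (nat_lit 1) (nat_lit 357) (nat_lit 383) (nat_lit 280))) (XT.nd (nat_lit 78) (nat_lit 76) (nat_lit 0) (XT.lf (nat_lit 0) (nat_lit 736900992) (nat_lit 0) (nat_lit 1752286168) (nat_lit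 152) (nat_lit 2357699104) (nat_lit 66) (nat_lit 3) (nat_lit 66) (nat_lit 1) (nat_lit 68) (nat_lit 1) (nat_lit 358) (nat_lit 383) (nat_lit 279)) (XT.lf (nat_lit 76) (nat_lit 444239145) (nat_lit 0) (nat_lit 2912771193) (nat_lit 76) (nat_lit 1411272645) (nat_lit 66) (nat_lit 3) (nat_lit 65) (nat_lit 1) (nat_lit 66) (nat_lit 1) (nat_lit 359) (nat_lit 383) (nat_lit 278))))) (XT.nd (nat_lit 234) (nat_lit 532) (nat_lit 0) (XT.nd (nat_lit 78) (nat_lit 228) (nat_lit 0) (XT.lf (nat_lit 0) (nat_lit 1211275045) (nat_lit 0) (nat_lit 2105434546) (nat_lit 152) (nat_lit 1374130112) (nat_lit 63) (nat_lit 3) (nat_lit 63) (nat_lit 1) (nat_lit 65) (nat_lit 1) (nat_lit 360) (nat_lit 383) (nat_lit 277)) (XT.nd (nat_lit 78) (nat_lit 152) (nat_lit 0) (XT.lf (nat_lit 76) (nat_lit 23395728) (nat_lit 0) (nat_lit 3716605969) (nat_lit 76) (nat_lit 874976206) (nat_lit 63) (nat_lit 3) (nat_lit 62) (nat_lit 1) (nat_lit 63) (nat_lit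 1) (nat_lit 361) (nat_lit 383) (nat_lit 276)) (XT.lf (nat_lit 0) (nat_lit 1650653297) (nat_lit 0) (nat_lit 2438060118) (nat_lit 152) (nat_lit 451260146) (nat_lit 60) (nat_lit 3) (nat_lit 60) (nat_lit 1) (nat_lit 62) (nat_lit 1) (nat_lit 362) (nat_lit 383) (nat_lit 275)))) (XT.nd (nat_lit 156) (nat_lit 228) (nat_lit 0) (XT.nd (nat_lit 78) (nat_lit 152) (nat_lit 0) (XT.lf (nat_lit 76) (nat_lit 4094968336) (nat_lit 0) (nat_lit 367218916) (nat_lit 152) (nat_lit 4456858) (nat_lit 59) (nat_lit 1) (nat_lit 58) (nat_lit 1) (nat_lit 60) (nat_lit 1) (nat_lit 363) (nat_lit 383) (nat_lit 274)) (XT.lf (nat_lit 76) (nat_lit 1639379364) (nat_lit 0) (nat_lit 421824534) (nat_lit 76) (nat_lit 2332778586) (nat_lit 57) (nat_lit 3) (nat_lit 56) (nat_lit 1) (nat_lit 57) (nat_lit 1) (nat_lit 364) (nat_lit 383) (nat_lit 273))) (XT.nd (nat_lit 78) (nat_lit 76) (nat_lit 0) (XT.lf (nat_lit 0) (nat_lit 103429179) (nat_lit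 0) (nat_lit 744575015) (nat_lit 152) (nat_lit 3474930408) (nat_lit 54) (nat_lit 3) (nat_lit 54) (nat_lit 1) (nat_lit 56) (nat_lit 1) (nat_lit 365) (nat_lit 383) (nat_lit 272)) (XT.lf (nat_lit 76) (nat_lit 1197352388) (nat_lit 0) (nat_lit 1247375775) (nat_lit 76) (nat_lit 1807967470) (nat_lit 54) (nat_lit 3) (nat_lit 53) (nat_lit 1) (nat_lit 54) (nat_lit 1) (nat_lit 366) (nat_lit 383) (nat_lit 271))))))) (XT.nd (nat_lit 1092) (nat_lit 1216) (nat_lit 0) (XT.nd (nat_lit 546) (nat_lit 912) (nat_lit 0) (XT.nd (nat_lit 234) (nat_lit 456) (nat_lit 0) (XT.nd (nat_lit 78) (nat_lit 228) (nat_lit 0) (XT.lf (nat_lit 0) (nat_lit 538672124) (nat_lit 0) (nat_lit 1103272292) (nat_lit 152) (nat_lit 2541931806) (nat_lit 51) (nat_lit 3) (nat_lit 51) (nat_lit 1) (nat_lit 53) (nat_lit 1) (nat_lit 367) (nat_lit 383) (nat_lit 270)) (XT.nd (nat_lit 78) (nat_lit 152) (nat_lit 0) (XT.lf (nat_lit 76) (nat_lit 779686609)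 (nat_lit 0) (nat_lit 2018988469) (nat_lit 76) (nat_lit 1317401055) (nat_lit 51) (nat_lit 3) (nat_lit 50) (nat_lit 1) (nat_lit 51) (nat_lit 1) (nat_lit 368) (nat_lit 383) (nat_lit 269)) (XT.lf (nat_lit 0) (nat_lit 943142050) (nat_lit 0) (nat_lit 1440335250) (nat_lit 152) (nat_lit 1665933666) (nat_lit 48) (nat_lit 3) (nat_lit 48) (nat_lit 1) (nat_lit 50) (nat_lit 1) (nat_lit 369) (nat_lit 383) (nat_lit 268)))) (XT.nd (nat_lit 156) (nat_lit 228) (nat_lit 0) (XT.nd (nat_lit 78) (nat_lit 152) (nat_lit 0) (XT.lf (nat_lit 76) (nat_lit 385643841) (nat_lit 0) (nat_lit 2739156211) (nat_lit 76) (nat_lit 859161175) (nat_lit 48) (nat_lit 3) (nat_lit 47) (nat_lit 1) (nat_lit 48) (nat_lit 1) (nat_lit 370) (nat_lit 383) (nat_lit 267)) (XT.lf (nat_lit 0) (nat_lit 1318604266) (nat_lit 0) (nat_lit 1756438139) (nat_lit 152) (nat_lit 844336582) (nat_lit 45) (nat_lit 3) (nat_lit 45) (nat_lit 1) (nat_lit 47) (nat_lit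 1) (nat_lit 371) (nat_lit 383) (nat_lit 266))) (XT.nd (nat_lit 78) (nat_lit 152) (nat_lit 0) (XT.lf (nat_lit 76) (nat_lit 14460152) (nat_lit 0) (nat_lit 3410289675) (nat_lit 76) (nat_lit 431444793) (nat_lit 45) (nat_lit 3) (nat_lit 44) (nat_lit 1) (nat_lit 45) (nat_lit 1) (nat_lit 372) (nat_lit 383) (nat_lit 265)) (XT.lf (nat_lit 0) (nat_lit 1666717643) (nat_lit 0) (nat_lit 2052279031) (nat_lit 152) (nat_lit 74630064) (nat_lit 42) (nat_lit 3) (nat_lit 42) (nat_lit 1) (nat_lit 44) (nat_lit 1) (nat_lit 373) (nat_lit 383) (nat_lit 264))))) (XT.nd (nat_lit 234) (nat_lit 456) (nat_lit 0) (XT.nd (nat_lit 78) (nat_lit 228) (nat_lit 0) (XT.lf (nat_lit 152) (nat_lit 3401395920) (nat_lit 0) (nat_lit 304821691) (nat_lit 76) (nat_lit 26224127) (nat_lit 41) (nat_lit 1) (nat_lit 39) (nat_lit 1) (nat_lit 40) (nat_lit 1) (nat_lit 374) (nat_lit 383) (nat_lit 263)) (XT.nd (nat_lit 78) (nat_lit 152) (nat_lit 0) (XT.lf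 (nat_lit 76) (nat_lit 1336915183) (nat_lit 0) (nat_lit 658456751) (nat_lit 76) (nat_lit 1676444838) (nat_lit 39) (nat_lit 3) (nat_lit 38) (nat_lit 1) (nat_lit 39) (nat_lit 1) (nat_lit 375) (nat_lit 383) (nat_lit 262)) (XT.lf (nat_lit 0) (nat_lit 348771685) (nat_lit 0) (nat_lit 662714962) (nat_lit 152) (nat_lit 2601038483) (nat_lit 36) (nat_lit 3) (nat_lit 36) (nat_lit 1) (nat_lit 38) (nat_lit 1) (nat_lit 376) (nat_lit 383) (nat_lit 261)))) (XT.nd (nat_lit 156) (nat_lit 228) (nat_lit 0) (XT.nd (nat_lit 78) (nat_lit 152) (nat_lit 0) (XT.lf (nat_lit 76) (nat_lit 955019421) (nat_lit 0) (nat_lit 1344956561) (nat_lit 76) (nat_lit 1254013019) (nat_lit 36) (nat_lit 3) (nat_lit 35) (nat_lit 1) (nat_lit 36) (nat_lit 1) (nat_lit 377) (nat_lit 383) (nat_lit 260)) (XT.lf (nat_lit 0) (nat_lit 697379325) (nat_lit 0) (nat_lit 973841274) (nat_lit 152) (nat_lit 1825322372) (nat_lit 33) (nat_lit 3) (nat_lit 33) (nat_lit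 1) (nat_lit 35) (nat_lit 1) (nat_lit 378) (nat_lit 383) (nat_lit 259))) (XT.nd (nat_lit 78) (nat_lit 152) (nat_lit 0) (XT.lf (nat_lit 76) (nat_lit 595527255) (nat_lit 0) (nat_lit 1985676630) (nat_lit 76) (nat_lit 858824349) (nat_lit 33) (nat_lit 3) (nat_lit 32) (nat_lit 1) (nat_lit 33) (nat_lit 1) (nat_lit 379) (nat_lit 383) (nat_lit 258)) (XT.lf (nat_lit 0) (nat_lit 1021532559) (nat_lit 0) (nat_lit 1264988032) (nat_lit 152) (nat_lit 1097847365) (nat_lit 30) (nat_lit 3) (nat_lit 30) (nat_lit 1) (nat_lit 32) (nat_lit 1) (nat_lit 380) (nat_lit 383) (nat_lit 257)))))) (XT.nd (nat_lit 546) (nat_lit 304) (nat_lit 0) (XT.nd (nat_lit 234) (nat_lit 532) (nat_lit 0) (XT.nd (nat_lit 78) (nat_lit 304) (nat_lit 0) (XT.lf (nat_lit 76) (nat_lit 257558718) (nat_lit 0) (nat_lit 2582822698) (nat_lit 76) (nat_lit 489421073) (nat_lit 30) (nat_lit 3) (nat_lit 29) (nat_lit 1) (nat_lit 30) (nat_lit 1) (nat_lit 381)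 (nat_lit 383) (nat_lit 256)) (XT.nd (nat_lit 78) (nat_lit 152) (nat_lit 0) (XT.lf (nat_lit 0) (nat_lit 1322574429) (nat_lit 0) (nat_lit 1536964031) (nat_lit 152) (nat_lit 416331814) (nat_lit 27) (nat_lit 3) (nat_lit 27) (nat_lit 1) (nat_lit 29) (nat_lit 1) (nat_lit 382) (nat_lit 383) (nat_lit 255)) (XT.lf (nat_lit 76) (nat_lit 3079334153) (nat_lit 0) (nat_lit 58589556) (nat_lit 152) (nat_lit 85243773) (nat_lit 26) (nat_lit 1) (nat_lit 25) (nat_lit 1) (nat_lit 27) (nat_lit 1) (nat_lit 383) (nat_lit 383) (nat_lit 254)))) (XT.nd (nat_lit 156) (nat_lit 228) (nat_lit 0) (XT.nd (nat_lit 78) (nat_lit 152) (nat_lit 0) (XT.lf (nat_lit 76) (nat_lit 1378121012) (nat_lit 0) (nat_lit 225823917) (nat_lit 76) (nat_lit 1566914885) (nat_lit 24) (nat_lit 3) (nat_lit 23) (nat_lit 1) (nat_lit 24) (nat_lit 1) (nat_lit 384) (nat_lit 383) (nat_lit 253)) (XT.lf (nat_lit 0) (nat_lit 182733529) (nat_lit 0) (nat_lit 357300217)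 (nat_lit 152) (nat_lit 2579705765) (nat_lit 21) (nat_lit 3) (nat_lit 21) (nat_lit 1) (nat_lit 23) (nat_lit 1) (nat_lit 385) (nat_lit 383) (nat_lit 252))) (XT.nd (nat_lit 78) (nat_lit 152) (nat_lit 0) (XT.lf (nat_lit 76) (nat_lit 1034570376) (nat_lit 0) (nat_lit 833776373) (nat_lit 76) (nat_lit 1200824365) (nat_lit 21) (nat_lit 3) (nat_lit 20) (nat_lit 1) (nat_lit 21) (nat_lit 1) (nat_lit 386) (nat_lit 383) (nat_lit 251)) (XT.lf (nat_lit 0) (nat_lit 485308797) (nat_lit 0) (nat_lit 639034169) (nat_lit 152) (nat_lit 1895293417) (nat_lit 18) (nat_lit 3) (nat_lit 18) (nat_lit 1) (nat_lit 20) (nat_lit 1) (nat_lit 387) (nat_lit 383) (nat_lit 250))))) (XT.nd (nat_lit 42510) (nat_lit 0) (nat_lit 27360) (XT.nd (nat_lit 78) (nat_lit 228) (nat_lit 0) (XT.lf (nat_lit 76) (nat_lit 711551384) (nat_lit 0) (nat_lit 1401302157) (nat_lit 76) (nat_lit 857956499) (nat_lit 18) (nat_lit 3) (nat_lit 17) (nat_lit 1) (nat_lit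 18) (nat_lit 1) (nat_lit 388) (nat_lit 383) (nat_lit 249)) (XT.nd (nat_lit 78) (nat_lit 76) (nat_lit 0) (XT.lf (nat_lit 0) (nat_lit 767028834) (nat_lit 0) (nat_lit 902401109) (nat_lit 152) (nat_lit 1253380208) (nat_lit 15) (nat_lit 3) (nat_lit 15) (nat_lit 1) (nat_lit 17) (nat_lit 1) (nat_lit 389) (nat_lit 383) (nat_lit 248)) (XT.lf (nat_lit 76) (nat_lit 408179092) (nat_lit 0) (nat_lit 1930380081) (nat_lit 76) (nat_lit 537105068) (nat_lit 15) (nat_lit 3) (nat_lit 14) (nat_lit 1) (nat_lit 15) (nat_lit 1) (nat_lit 390) (nat_lit 383) (nat_lit 247)))) (XT.nd (nat_lit 156) (nat_lit 0) (nat_lit 76) (XT.nd (nat_lit 78) (nat_lit 0) (nat_lit 76) (XT.lf (nat_lit 1292) (nat_lit 3191492560) (nat_lit 0) (nat_lit 10980218673) (nat_lit 1292) (nat_lit 3191492560) (nat_lit 391) (nat_lit 1) (nat_lit 374) (nat_lit 0) (nat_lit 391) (nat_lit 0) (nat_lit 252) (nat_lit 384) (nat_lit 384)) (XT.lf (nat_lit 1292) (nat_lit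 255867553) (nat_lit 0) (nat_lit 21650682291) (nat_lit 1216) (nat_lit 11986645141) (nat_lit 392) (nat_lit 1) (nat_lit 375) (nat_lit 1) (nat_lit 391) (nat_lit 1) (nat_lit 253) (nat_lit 384) (nat_lit 383))) (XT.nd (nat_lit 78) (nat_lit 0) (nat_lit 76) (XT.lf (nat_lit 1292) (nat_lit 11257072223) (nat_lit 76) (nat_lit 15922716731) (nat_lit 0) (nat_lit 5905688389) (nat_lit 392) (nat_lit 1) (nat_lit 376) (nat_lit 1) (nat_lit 375) (nat_lit 1) (nat_lit 254) (nat_lit 384) (nat_lit 382)) (XT.lf (nat_lit 1292) (nat_lit 9895921032) (nat_lit 76) (nat_lit 10422557481) (nat_lit 0) (nat_lit 11985434133) (nat_lit 393) (nat_lit 1) (nat_lit 377) (nat_lit 1) (nat_lit 376) (nat_lit 1) (nat_lit 255) (nat_lit 384) (nat_lit 381))))))))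
noncomputable def ec92 : XT := (XT.nd (nat_lit 2184) (nat_lit 6764) (nat_lit 0) (XT.nd (nat_lit 1092) (nat_lit 6080) (nat_lit 0) (XT.nd (nat_lit 546) (nat_lit 3648) (nat_lit 0) (XT.nd (nat_lit 234) (nat_lit 1064) (nat_lit 0) (XT.nd (nat_lit 78) (nat_lit 0) (nat_lit 76) (XT.lf (nat_lit 1292) (nat_lit 8189540998) (nat_lit 76) (nat_lit 5383795352) (nat_lit 0) (nat_lit 17974285891) (nat_lit 394) (nat_lit 1) (nat_lit 378) (nat_lit 1) (nat_lit 377) (nat_lit 1) (nat_lit 256) (nat_lit 384) (nat_lit 380)) (XT.nd (nat_lit 78) (nat_lit 0) (nat_lit 76) (XT.lf (nat_lit 1292) (nat_lit 6164246852) (nat_lit 76) (nat_lit 782724213) (nat_lit 0) (nat_lit 23868719154) (nat_lit 395) (nat_lit 1) (nat_lit 379) (nat_lit 1) (nat_lit 378) (nat_lit 1) (nat_lit 257) (nat_lit 384) (nat_lit 379)) (XT.lf (nat_lit 1292) (nat_lit 474305922) (nat_lit 0) (nat_lit 26295099276) (nat_lit 1216) (nat_lit 3336850431) (nat_lit 396) (nat_lit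 1) (nat_lit 379) (nat_lit 1) (nat_lit 395) (nat_lit 1) (nat_lit 258) (nat_lit 384) (nat_lit 378)))) (XT.nd (nat_lit 156) (nat_lit 0) (nat_lit 76) (XT.nd (nat_lit 78) (nat_lit 1216) (nat_lit 0) (XT.lf (nat_lit 1292) (nat_lit 1124208219) (nat_lit 76) (nat_lit 22304752624) (nat_lit 0) (nat_lit 5988655138) (nat_lit 396) (nat_lit 1) (nat_lit 380) (nat_lit 1) (nat_lit 379) (nat_lit 1) (nat_lit 259) (nat_lit 384) (nat_lit 377)) (XT.lf (nat_lit 1368) (nat_lit 16430290375) (nat_lit 0) (nat_lit 1775942553) (nat_lit 1292) (nat_lit 10544047493) (nat_lit 381) (nat_lit 1) (nat_lit 363) (nat_lit 1) (nat_lit 380) (nat_lit 1) (nat_lit 260) (nat_lit 384) (nat_lit 376))) (XT.nd (nat_lit 78) (nat_lit 0) (nat_lit 76) (XT.lf (nat_lit 1368) (nat_lit 9590271436) (nat_lit 0) (nat_lit 4872977165) (nat_lit 1292) (nat_lit 13640489016) (nat_lit 382) (nat_lit 1) (nat_lit 364) (nat_lit 1) (nat_lit 381) (nat_lit 1) (nat_lit 261)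 (nat_lit 384) (nat_lit 375)) (XT.lf (nat_lit 76) (nat_lit 2898230905) (nat_lit 0) (nat_lit 8169835453) (nat_lit 1292) (nat_lit 16409497162) (nat_lit 366) (nat_lit 1) (nat_lit 365) (nat_lit 1) (nat_lit 382) (nat_lit 1) (nat_lit 262) (nat_lit 384) (nat_lit 374))))) (XT.nd (nat_lit 234) (nat_lit 1748) (nat_lit 0) (XT.nd (nat_lit 78) (nat_lit 1216) (nat_lit 0) (XT.lf (nat_lit 912) (nat_lit 15185581807) (nat_lit 0) (nat_lit 7965876284) (nat_lit 836) (nat_lit 3718508613) (nat_lit 366) (nat_lit 1) (nat_lit 354) (nat_lit 1) (nat_lit 365) (nat_lit 1) (nat_lit 263) (nat_lit 384) (nat_lit 373)) (XT.nd (nat_lit 78) (nat_lit 608) (nat_lit 0) (XT.lf (nat_lit 684) (nat_lit 10889486293) (nat_lit 0) (nat_lit 5148557153) (nat_lit 608) (nat_lit 10242475878) (nat_lit 355) (nat_lit 1) (nat_lit 346) (nat_lit 1) (nat_lit 354) (nat_lit 1) (nat_lit 264) (nat_lit 384) (nat_lit 372)) (XT.lf (nat_lit 684) (nat_lit 6463848244)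 (nat_lit 0) (nat_lit 2629002544) (nat_lit 608) (nat_lit 16616558473) (nat_lit 347) (nat_lit 1) (nat_lit 338) (nat_lit 1) (nat_lit 346) (nat_lit 1) (nat_lit 265) (nat_lit 384) (nat_lit 371)))) (XT.nd (nat_lit 156) (nat_lit 1140) (nat_lit 0) (XT.nd (nat_lit 78) (nat_lit 76) (nat_lit 0) (XT.lf (nat_lit 608) (nat_lit 1922879444) (nat_lit 0) (nat_lit 391595807) (nat_lit 532) (nat_lit 22841522320) (nat_lit 339) (nat_lit 1) (nat_lit 331) (nat_lit 1) (nat_lit 338) (nat_lit 1) (nat_lit 266) (nat_lit 384) (nat_lit 370)) (XT.lf (nat_lit 76) (nat_lit 20275947804) (nat_lit 0) (nat_lit 2724743379) (nat_lit 608) (nat_lit 1616462212) (nat_lit 331) (nat_lit 1) (nat_lit 330) (nat_lit 1) (nat_lit 338) (nat_lit 1) (nat_lit 267) (nat_lit 384) (nat_lit 369))) (XT.nd (nat_lit 78) (nat_lit 532) (nat_lit 0) (XT.lf (nat_lit 76) (nat_lit 13238912224) (nat_lit 0) (nat_lit 7445222195) (nat_lit 684) (nat_lit 3409408727) (nat_lit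 323) (nat_lit 1) (nat_lit 322) (nat_lit 1) (nat_lit 331) (nat_lit 1) (nat_lit 268) (nat_lit 384) (nat_lit 368)) (XT.lf (nat_lit 76) (nat_lit 6381216816) (nat_lit 0) (nat_lit 12238062190) (nat_lit 608) (nat_lit 4966673337) (nat_lit 316) (nat_lit 1) (nat_lit 315) (nat_lit 1) (nat_lit 323) (nat_lit 1) (nat_lit 269) (nat_lit 384) (nat_lit 367)))))) (XT.nd (nat_lit 546) (nat_lit 2660) (nat_lit 0) (XT.nd (nat_lit 234) (nat_lit 1824) (nat_lit 0) (XT.nd (nat_lit 78) (nat_lit 1064) (nat_lit 0) (XT.lf (nat_lit 608) (nat_lit 5998156039) (nat_lit 0) (nat_lit 16789971797) (nat_lit 532) (nat_lit 305617177) (nat_lit 316) (nat_lit 1) (nat_lit 308) (nat_lit 1) (nat_lit 315) (nat_lit 1) (nat_lit 270) (nat_lit 384) (nat_lit 366)) (XT.nd (nat_lit 78) (nat_lit 608) (nat_lit 0) (XT.lf (nat_lit 532) (nat_lit 548865366) (nat_lit 0) (nat_lit 15124034684) (nat_lit 456) (nat_lit 6941756490) (nat_lit 309) (nat_lit 1) (nat_lit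 302) (nat_lit 1) (nat_lit 308) (nat_lit 1) (nat_lit 271) (nat_lit 384) (nat_lit 365)) (XT.lf (nat_lit 76) (nat_lit 8794486748) (nat_lit 0) (nat_lit 4830660695) (nat_lit 608) (nat_lit 8523487412) (nat_lit 295) (nat_lit 1) (nat_lit 294) (nat_lit 1) (nat_lit 302) (nat_lit 1) (nat_lit 272) (nat_lit 384) (nat_lit 364)))) (XT.nd (nat_lit 156) (nat_lit 912) (nat_lit 0) (XT.nd (nat_lit 78) (nat_lit 456) (nat_lit 0) (XT.lf (nat_lit 76) (nat_lit 2107699639) (nat_lit 0) (nat_lit 10217346515) (nat_lit 532) (nat_lit 9371401942) (nat_lit 289) (nat_lit 1) (nat_lit 288) (nat_lit 1) (nat_lit 295) (nat_lit 1) (nat_lit 273) (nat_lit 384) (nat_lit 363)) (XT.lf (nat_lit 532) (nat_lit 5598930809) (nat_lit 0) (nat_lit 11173942633) (nat_lit 456) (nat_lit 4483619440) (nat_lit 289) (nat_lit 1) (nat_lit 282) (nat_lit 1) (nat_lit 288) (nat_lit 1) (nat_lit 274) (nat_lit 384) (nat_lit 362))) (XT.nd (nat_lit 78) (nat_lit 456)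 (nat_lit 0) (XT.lf (nat_lit 76) (nat_lit 9898074384) (nat_lit 0) (nat_lit 285466725) (nat_lit 456) (nat_lit 10645418684) (nat_lit 277) (nat_lit 1) (nat_lit 276) (nat_lit 1) (nat_lit 282) (nat_lit 1) (nat_lit 275) (nat_lit 384) (nat_lit 361)) (XT.lf (nat_lit 76) (nat_lit 3269236356) (nat_lit 0) (nat_lit 6043612154) (nat_lit 532) (nat_lit 11099658890) (nat_lit 271) (nat_lit 1) (nat_lit 270) (nat_lit 1) (nat_lit 277) (nat_lit 1) (nat_lit 276) (nat_lit 384) (nat_lit 360))))) (XT.nd (nat_lit 234) (nat_lit 1444) (nat_lit 0) (XT.nd (nat_lit 78) (nat_lit 836) (nat_lit 0) (XT.lf (nat_lit 456) (nat_lit 8196950633) (nat_lit 0) (nat_lit 8575885240) (nat_lit 380) (nat_lit 3234563540) (nat_lit 271) (nat_lit 1) (nat_lit 265) (nat_lit 1) (nat_lit 270) (nat_lit 1) (nat_lit 277) (nat_lit 384) (nat_lit 359)) (XT.nd (nat_lit 78) (nat_lit 456) (nat_lit 0) (XT.lf (nat_lit 456) (nat_lit 2033119788) (nat_lit 0) (nat_lit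 7964562652) (nat_lit 380) (nat_lit 9615575912) (nat_lit 266) (nat_lit 1) (nat_lit 260) (nat_lit 1) (nat_lit 265) (nat_lit 1) (nat_lit 278) (nat_lit 384) (nat_lit 358)) (XT.lf (nat_lit 76) (nat_lit 3457161992) (nat_lit 0) (nat_lit 4005690259) (nat_lit 456) (nat_lit 11766625923) (nat_lit 255) (nat_lit 1) (nat_lit 254) (nat_lit 1) (nat_lit 260) (nat_lit 1) (nat_lit 279) (nat_lit 384) (nat_lit 357)))) (XT.nd (nat_lit 156) (nat_lit 760) (nat_lit 0) (XT.nd (nat_lit 78) (nat_lit 304) (nat_lit 0) (XT.lf (nat_lit 456) (nat_lit 8870609207) (nat_lit 0) (nat_lit 7054344985) (nat_lit 380) (nat_lit 2930490216) (nat_lit 255) (nat_lit 1) (nat_lit 249) (nat_lit 1) (nat_lit 254) (nat_lit 1) (nat_lit 280) (nat_lit 384) (nat_lit 356)) (XT.lf (nat_lit 380) (nat_lit 2546797641) (nat_lit 0) (nat_lit 6747362946) (nat_lit 304) (nat_lit 9197104920) (nat_lit 250) (nat_lit 1) (nat_lit 245) (nat_lit 1) (nat_lit 249) (nat_lit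 1) (nat_lit 281) (nat_lit 384) (nat_lit 355))) (XT.nd (nat_lit 78) (nat_lit 304) (nat_lit 0) (XT.lf (nat_lit 76) (nat_lit 2894984660) (nat_lit 0) (nat_lit 3637618583) (nat_lit 456) (nat_lit 11603935881) (nat_lit 240) (nat_lit 1) (nat_lit 239) (nat_lit 1) (nat_lit 245) (nat_lit 1) (nat_lit 282) (nat_lit 384) (nat_lit 354)) (XT.lf (nat_lit 380) (nat_lit 8053823876) (nat_lit 0) (nat_lit 6381915832) (nat_lit 304) (nat_lit 3354576765) (nat_lit 240) (nat_lit 1) (nat_lit 235) (nat_lit 1) (nat_lit 239) (nat_lit 1) (nat_lit 283) (nat_lit 384) (nat_lit 353))))))) (XT.nd (nat_lit 1092) (nat_lit 2812) (nat_lit 0) (XT.nd (nat_lit 546) (nat_lit 1748) (nat_lit 0) (XT.nd (nat_lit 234) (nat_lit 1216) (nat_lit 0) (XT.nd (nat_lit 78) (nat_lit 684) (nat_lit 0) (XT.lf (nat_lit 380) (nat_lit 1661489620) (nat_lit 0) (nat_lit 6319579634) (nat_lit 304) (nat_lit 9472109022) (nat_lit 236) (nat_lit 1) (nat_lit 231) (nat_lit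 1) (nat_lit 235) (nat_lit 1) (nat_lit 284) (nat_lit 384) (nat_lit 352)) (XT.nd (nat_lit 78) (nat_lit 304) (nat_lit 0) (XT.lf (nat_lit 76) (nat_lit 1765669188) (nat_lit 0) (nat_lit 4556613738) (nat_lit 380) (nat_lit 10802038604) (nat_lit 227) (nat_lit 1) (nat_lit 226) (nat_lit 1) (nat_lit 231) (nat_lit 1) (nat_lit 285) (nat_lit 384) (nat_lit 351)) (XT.lf (nat_lit 380) (nat_lit 6102395338) (nat_lit 0) (nat_lit 6371326703) (nat_lit 304) (nat_lit 4329357903) (nat_lit 227) (nat_lit 1) (nat_lit 222) (nat_lit 1) (nat_lit 226) (nat_lit 1) (nat_lit 286) (nat_lit 384) (nat_lit 350)))) (XT.nd (nat_lit 156) (nat_lit 608) (nat_lit 0) (XT.nd (nat_lit 78) (nat_lit 304) (nat_lit 0) (XT.lf (nat_lit 76) (nat_lit 6221364582) (nat_lit 0) (nat_lit 279920947) (nat_lit 304) (nat_lit 9989055675) (nat_lit 219) (nat_lit 1) (nat_lit 218) (nat_lit 1) (nat_lit 222) (nat_lit 1) (nat_lit 287) (nat_lit 384) (nat_lit 349)) (XT.lf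 (nat_lit 76) (nat_lit 218457681) (nat_lit 0) (nat_lit 6449165448) (nat_lit 380) (nat_lit 9517067938) (nat_lit 215) (nat_lit 1) (nat_lit 214) (nat_lit 1) (nat_lit 219) (nat_lit 1) (nat_lit 288) (nat_lit 384) (nat_lit 348))) (XT.nd (nat_lit 78) (nat_lit 380) (nat_lit 0) (XT.lf (nat_lit 304) (nat_lit 3307102569) (nat_lit 0) (nat_lit 6868763896) (nat_lit 228) (nat_lit 5710102339) (nat_lit 215) (nat_lit 1) (nat_lit 211) (nat_lit 1) (nat_lit 214) (nat_lit 1) (nat_lit 289) (nat_lit 384) (nat_lit 347)) (XT.lf (nat_lit 76) (nat_lit 4166005343) (nat_lit 0) (nat_lit 2959756393) (nat_lit 380) (nat_lit 8468913246) (nat_lit 207) (nat_lit 1) (nat_lit 206) (nat_lit 1) (nat_lit 211) (nat_lit 1) (nat_lit 290) (nat_lit 384) (nat_lit 346))))) (XT.nd (nat_lit 234) (nat_lit 988) (nat_lit 0) (XT.nd (nat_lit 78) (nat_lit 532) (nat_lit 0) (XT.lf (nat_lit 304) (nat_lit 6234747574) (nat_lit 0) (nat_lit 7417561977) (nat_lit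 228) (nat_lit 1657776305) (nat_lit 207) (nat_lit 1) (nat_lit 203) (nat_lit 1) (nat_lit 206) (nat_lit 1) (nat_lit 291) (nat_lit 384) (nat_lit 345)) (XT.nd (nat_lit 78) (nat_lit 228) (nat_lit 0) (XT.lf (nat_lit 76) (nat_lit 7653855029) (nat_lit 0) (nat_lit 93483184) (nat_lit 304) (nat_lit 7284847246) (nat_lit 200) (nat_lit 1) (nat_lit 199) (nat_lit 1) (nat_lit 203) (nat_lit 1) (nat_lit 292) (nat_lit 384) (nat_lit 344)) (XT.lf (nat_lit 76) (nat_lit 1902111011) (nat_lit 0) (nat_lit 6190726160) (nat_lit 304) (nat_lit 6667382129) (nat_lit 197) (nat_lit 1) (nat_lit 196) (nat_lit 1) (nat_lit 200) (nat_lit 1) (nat_lit 293) (nat_lit 384) (nat_lit 343)))) (XT.nd (nat_lit 156) (nat_lit 456) (nat_lit 0) (XT.nd (nat_lit 78) (nat_lit 304) (nat_lit 0) (XT.lf (nat_lit 304) (nat_lit 2279348201) (nat_lit 0) (nat_lit 8474309572) (nat_lit 228) (nat_lit 3741015124) (nat_lit 197) (nat_lit 1) (nat_lit 193) (nat_lit 1)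 (nat_lit 196) (nat_lit 1) (nat_lit 294) (nat_lit 384) (nat_lit 342)) (XT.lf (nat_lit 76) (nat_lit 5031602334) (nat_lit 0) (nat_lit 3836782216) (nat_lit 304) (nat_lit 5366378672) (nat_lit 190) (nat_lit 1) (nat_lit 189) (nat_lit 1) (nat_lit 193) (nat_lit 1) (nat_lit 295) (nat_lit 384) (nat_lit 341))) (XT.nd (nat_lit 78) (nat_lit 228) (nat_lit 0) (XT.lf (nat_lit 304) (nat_lit 4181443385) (nat_lit 0) (nat_lit 9302566457) (nat_lit 228) (nat_lit 497181155) (nat_lit 190) (nat_lit 1) (nat_lit 186) (nat_lit 1) (nat_lit 189) (nat_lit 1) (nat_lit 296) (nat_lit 384) (nat_lit 340)) (XT.lf (nat_lit 76) (nat_lit 7805361134) (nat_lit 0) (nat_lit 1926565522) (nat_lit 228) (nat_lit 4000622502) (nat_lit 184) (nat_lit 1) (nat_lit 183) (nat_lit 1) (nat_lit 186) (nat_lit 1) (nat_lit 297) (nat_lit 384) (nat_lit 339)))))) (XT.nd (nat_lit 546) (nat_lit 1216) (nat_lit 0) (XT.nd (nat_lit 234) (nat_lit 912) (nat_lit 0) (XT.nd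 (nat_lit 78) (nat_lit 456) (nat_lit 0) (XT.lf (nat_lit 76) (nat_lit 2346908666) (nat_lit 0) (nat_lit 7835795203) (nat_lit 304) (nat_lit 3306801484) (nat_lit 181) (nat_lit 1) (nat_lit 180) (nat_lit 1) (nat_lit 184) (nat_lit 1) (nat_lit 298) (nat_lit 384) (nat_lit 338)) (XT.nd (nat_lit 78) (nat_lit 228) (nat_lit 0) (XT.lf (nat_lit 76) (nat_lit 10260972657) (nat_lit 0) (nat_lit 397997301) (nat_lit 228) (nat_lit 2593113476) (nat_lit 178) (nat_lit 1) (nat_lit 177) (nat_lit 1) (nat_lit 180) (nat_lit 1) (nat_lit 299) (nat_lit 384) (nat_lit 337)) (XT.lf (nat_lit 76) (nat_lit 4871216923) (nat_lit 0) (nat_lit 6242702691) (nat_lit 304) (nat_lit 1904907580) (nat_lit 175) (nat_lit 1) (nat_lit 174) (nat_lit 1) (nat_lit 178) (nat_lit 1) (nat_lit 300) (nat_lit 384) (nat_lit 336)))) (XT.nd (nat_lit 156) (nat_lit 532) (nat_lit 0) (XT.nd (nat_lit 78) (nat_lit 228) (nat_lit 0) (XT.lf (nat_lit 228) (nat_lit 819144377)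 (nat_lit 0) (nat_lit 11620571587) (nat_lit 152) (nat_lit 352056260) (nat_lit 175) (nat_lit 1) (nat_lit 172) (nat_lit 1) (nat_lit 174) (nat_lit 1) (nat_lit 301) (nat_lit 384) (nat_lit 335)) (XT.lf (nat_lit 76) (nat_lit 7117521368) (nat_lit 0) (nat_lit 4964015674) (nat_lit 228) (nat_lit 486455474) (nat_lit 170) (nat_lit 1) (nat_lit 169) (nat_lit 1) (nat_lit 172) (nat_lit 1) (nat_lit 302) (nat_lit 384) (nat_lit 334))) (XT.nd (nat_lit 78) (nat_lit 228) (nat_lit 0) (XT.lf (nat_lit 228) (nat_lit 1736248871) (nat_lit 0) (nat_lit 240766152) (nat_lit 152) (nat_lit 10372915456) (nat_lit 168) (nat_lit 1) (nat_lit 165) (nat_lit 1) (nat_lit 167) (nat_lit 1) (nat_lit 303) (nat_lit 384) (nat_lit 333)) (XT.lf (nat_lit 228) (nat_lit 8171770717) (nat_lit 0) (nat_lit 951745931) (nat_lit 152) (nat_lit 3012018783) (nat_lit 165) (nat_lit 1) (nat_lit 162) (nat_lit 1) (nat_lit 164) (nat_lit 1) (nat_lit 304) (nat_lit 384)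 (nat_lit 332))))) (XT.nd (nat_lit 234) (nat_lit 684) (nat_lit 0) (XT.nd (nat_lit 78) (nat_lit 380) (nat_lit 0) (XT.lf (nat_lit 228) (nat_lit 2397065405) (nat_lit 0) (nat_lit 1669397144) (nat_lit 152) (nat_lit 7859350302) (nat_lit 163) (nat_lit 1) (nat_lit 160) (nat_lit 1) (nat_lit 162) (nat_lit 1) (nat_lit 305) (nat_lit 384) (nat_lit 331)) (XT.nd (nat_lit 78) (nat_lit 152) (nat_lit 0) (XT.lf (nat_lit 228) (nat_lit 8522408207) (nat_lit 0) (nat_lit 2387723194) (nat_lit 152) (nat_lit 810371385) (nat_lit 160) (nat_lit 1) (nat_lit 157) (nat_lit 1) (nat_lit 159) (nat_lit 1) (nat_lit 306) (nat_lit 384) (nat_lit 330)) (XT.lf (nat_lit 228) (nat_lit 2853460648) (nat_lit 0) (nat_lit 3082583075) (nat_lit 152) (nat_lit 5582774701) (nat_lit 158) (nat_lit 1) (nat_lit 155) (nat_lit 1) (nat_lit 157) (nat_lit 1) (nat_lit 307) (nat_lit 384) (nat_lit 329)))) (XT.nd (nat_lit 156) (nat_lit 304) (nat_lit 0) (XT.nd (nat_lit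 78) (nat_lit 152) (nat_lit 0) (XT.lf (nat_lit 76) (nat_lit 1150213678) (nat_lit 0) (nat_lit 2639100312) (nat_lit 228) (nat_lit 7532392936) (nat_lit 153) (nat_lit 1) (nat_lit 152) (nat_lit 1) (nat_lit 155) (nat_lit 1) (nat_lit 308) (nat_lit 384) (nat_lit 328)) (XT.lf (nat_lit 228) (nat_lit 3137278747) (nat_lit 0) (nat_lit 4470195305) (nat_lit 152) (nat_lit 3520515062) (nat_lit 153) (nat_lit 1) (nat_lit 150) (nat_lit 1) (nat_lit 152) (nat_lit 1) (nat_lit 309) (nat_lit 384) (nat_lit 327))) (XT.nd (nat_lit 78) (nat_lit 152) (nat_lit 0) (XT.lf (nat_lit 76) (nat_lit 2901696890) (nat_lit 0) (nat_lit 2251440590) (nat_lit 152) (nat_lit 5785261454) (nat_lit 149) (nat_lit 1) (nat_lit 148) (nat_lit 1) (nat_lit 150) (nat_lit 1) (nat_lit 310) (nat_lit 384) (nat_lit 326)) (XT.lf (nat_lit 228) (nat_lit 3276202642) (nat_lit 0) (nat_lit 5823944438) (nat_lit 152) (nat_lit 1652298348) (nat_lit 149) (nat_lit 1) (nat_lit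 146) (nat_lit 1) (nat_lit 148) (nat_lit 1) (nat_lit 311) (nat_lit 384) (nat_lit 325))))))))
noncomputable def ec93 : XT := (XT.nd (nat_lit 2184) (nat_lit 3496) (nat_lit 0) (XT.nd (nat_lit 1092) (nat_lit 1748) (nat_lit 0) (XT.nd (nat_lit 546) (nat_lit 988) (nat_lit 0) (XT.nd (nat_lit 234) (nat_lit 760) (nat_lit 0) (XT.nd (nat_lit 78) (nat_lit 304) (nat_lit 0) (XT.lf (nat_lit 76) (nat_lit 4478334463) (nat_lit 0) (nat_lit 2001452816) (nat_lit 152) (nat_lit 4090182920) (nat_lit 145) (nat_lit 1) (nat_lit 144) (nat_lit 1) (nat_lit 146) (nat_lit 1) (nat_lit 312) (nat_lit 384) (nat_lit 324)) (XT.nd (nat_lit 78) (nat_lit 152) (nat_lit 0) (XT.lf (nat_lit 76) (nat_lit 39239268) (nat_lit 0) (nat_lit 7097496265) (nat_lit 228) (nat_lit 3254631205) (nat_lit 143) (nat_lit 1) (nat_lit 142) (nat_lit 1) (nat_lit 145) (nat_lit 1) (nat_lit 313) (nat_lit 384) (nat_lit 323)) (XT.lf (nat_lit 76) (nat_lit 5896634508) (nat_lit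 0) (nat_lit 1866670071) (nat_lit 152) (nat_lit 2452340302) (nat_lit 141) (nat_lit 1) (nat_lit 140) (nat_lit 1) (nat_lit 142) (nat_lit 1) (nat_lit 314) (nat_lit 384) (nat_lit 322)))) (XT.nd (nat_lit 156) (nat_lit 456) (nat_lit 0) (XT.nd (nat_lit 78) (nat_lit 152) (nat_lit 0) (XT.lf (nat_lit 76) (nat_lit 1542008513) (nat_lit 0) (nat_lit 6846851901) (nat_lit 228) (nat_lit 1654727792) (nat_lit 139) (nat_lit 1) (nat_lit 138) (nat_lit 1) (nat_lit 141) (nat_lit 1) (nat_lit 315) (nat_lit 384) (nat_lit 321)) (XT.lf (nat_lit 76) (nat_lit 7171388537) (nat_lit 0) (nat_lit 1827610480) (nat_lit 152) (nat_lit 875707789) (nat_lit 137) (nat_lit 1) (nat_lit 136) (nat_lit 1) (nat_lit 138) (nat_lit 1) (nat_lit 316) (nat_lit 384) (nat_lit 320))) (XT.nd (nat_lit 78) (nat_lit 304) (nat_lit 0) (XT.lf (nat_lit 76) (nat_lit 2902548477) (nat_lit 0) (nat_lit 6689842602) (nat_lit 228) (nat_lit 116501847) (nat_lit 135) (nat_lit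 1) (nat_lit 134) (nat_lit 1) (nat_lit 137) (nat_lit 1) (nat_lit 317) (nat_lit 384) (nat_lit 319)) (XT.lf (nat_lit 228) (nat_lit 7672656021) (nat_lit 0) (nat_lit 649451102) (nat_lit 152) (nat_lit 1224199044) (nat_lit 133) (nat_lit 1) (nat_lit 130) (nat_lit 1) (nat_lit 132) (nat_lit 1) (nat_lit 318) (nat_lit 384) (nat_lit 318))))) (XT.nd (nat_lit 234) (nat_lit 608) (nat_lit 0) (XT.nd (nat_lit 78) (nat_lit 304) (nat_lit 0) (XT.lf (nat_lit 152) (nat_lit 2762557610) (nat_lit 0) (nat_lit 1384447486) (nat_lit 76) (nat_lit 5239234634) (nat_lit 131) (nat_lit 1) (nat_lit 129) (nat_lit 1) (nat_lit 130) (nat_lit 1) (nat_lit 319) (nat_lit 384) (nat_lit 317)) (XT.nd (nat_lit 78) (nat_lit 76) (nat_lit 0) (XT.lf (nat_lit 76) (nat_lit 130031959) (nat_lit 0) (nat_lit 1993180355) (nat_lit 228) (nat_lit 7106527391) (nat_lit 127) (nat_lit 1) (nat_lit 126) (nat_lit 1) (nat_lit 129) (nat_lit 1) (nat_lit 320) (nat_lit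 384) (nat_lit 316)) (XT.lf (nat_lit 152) (nat_lit 2453775044) (nat_lit 0) (nat_lit 2820330816) (nat_lit 76) (nat_lit 3801311628) (nat_lit 127) (nat_lit 1) (nat_lit 125) (nat_lit 1) (nat_lit 126) (nat_lit 1) (nat_lit 321) (nat_lit 384) (nat_lit 315)))) (XT.nd (nat_lit 156) (nat_lit 304) (nat_lit 0) (XT.nd (nat_lit 78) (nat_lit 76) (nat_lit 0) (XT.lf (nat_lit 76) (nat_lit 1342838868) (nat_lit 0) (nat_lit 2174370629) (nat_lit 228) (nat_lit 5407205011) (nat_lit 123) (nat_lit 1) (nat_lit 122) (nat_lit 1) (nat_lit 125) (nat_lit 1) (nat_lit 322) (nat_lit 384) (nat_lit 314)) (XT.lf (nat_lit 152) (nat_lit 2105342471) (nat_lit 0) (nat_lit 4187743888) (nat_lit 76) (nat_lit 2482820724) (nat_lit 123) (nat_lit 1) (nat_lit 121) (nat_lit 1) (nat_lit 122) (nat_lit 1) (nat_lit 323) (nat_lit 384) (nat_lit 313))) (XT.nd (nat_lit 78) (nat_lit 76) (nat_lit 0) (XT.lf (nat_lit 76) (nat_lit 2448077331) (nat_lit 0) (nat_lit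 2394724263) (nat_lit 228) (nat_lit 3787348002) (nat_lit 119) (nat_lit 1) (nat_lit 118) (nat_lit 1) (nat_lit 121) (nat_lit 1) (nat_lit 324) (nat_lit 384) (nat_lit 312)) (XT.lf (nat_lit 152) (nat_lit 1727086244) (nat_lit 0) (nat_lit 5486217949) (nat_lit 76) (nat_lit 1273888597) (nat_lit 119) (nat_lit 1) (nat_lit 117) (nat_lit 1) (nat_lit 118) (nat_lit 1) (nat_lit 325) (nat_lit 384) (nat_lit 311)))))) (XT.nd (nat_lit 546) (nat_lit 836) (nat_lit 0) (XT.nd (nat_lit 234) (nat_lit 532) (nat_lit 0) (XT.nd (nat_lit 78) (nat_lit 228) (nat_lit 0) (XT.lf (nat_lit 76) (nat_lit 3454750925) (nat_lit 0) (nat_lit 2645040236) (nat_lit 152) (nat_lit 2246655550) (nat_lit 116) (nat_lit 1) (nat_lit 115) (nat_lit 1) (nat_lit 117) (nat_lit 1) (nat_lit 326) (nat_lit 384) (nat_lit 310)) (XT.nd (nat_lit 78) (nat_lit 152) (nat_lit 0) (XT.lf (nat_lit 152) (nat_lit 1327403166) (nat_lit 0) (nat_lit 6715804944) (nat_lit 76) (nat_lit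 165584885) (nat_lit 116) (nat_lit 1) (nat_lit 114) (nat_lit 1) (nat_lit 115) (nat_lit 1) (nat_lit 327) (nat_lit 384) (nat_lit 309)) (XT.lf (nat_lit 76) (nat_lit 4371004048) (nat_lit 0) (nat_lit 2917451770) (nat_lit 152) (nat_lit 784384195) (nat_lit 113) (nat_lit 1) (nat_lit 112) (nat_lit 1) (nat_lit 114) (nat_lit 1) (nat_lit 328) (nat_lit 384) (nat_lit 308)))) (XT.nd (nat_lit 156) (nat_lit 228) (nat_lit 0) (XT.nd (nat_lit 78) (nat_lit 228) (nat_lit 0) (XT.lf (nat_lit 0) (nat_lit 833589376) (nat_lit 0) (nat_lit 7034986778) (nat_lit 152) (nat_lit 71435714) (nat_lit 111) (nat_lit 3) (nat_lit 111) (nat_lit 1) (nat_lit 113) (nat_lit 1) (nat_lit 329) (nat_lit 384) (nat_lit 307)) (XT.lf (nat_lit 152) (nat_lit 4597572216) (nat_lit 0) (nat_lit 612530092) (nat_lit 76) (nat_lit 2598614171) (nat_lit 110) (nat_lit 1) (nat_lit 108) (nat_lit 1) (nat_lit 109) (nat_lit 1) (nat_lit 330) (nat_lit 384) (nat_lit 306)))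 (XT.nd (nat_lit 78) (nat_lit 152) (nat_lit 0) (XT.lf (nat_lit 76) (nat_lit 460787556) (nat_lit 0) (nat_lit 1297679891) (nat_lit 76) (nat_lit 5921807217) (nat_lit 108) (nat_lit 3) (nat_lit 107) (nat_lit 1) (nat_lit 108) (nat_lit 1) (nat_lit 331) (nat_lit 384) (nat_lit 305)) (XT.lf (nat_lit 152) (nat_lit 4032146897) (nat_lit 0) (nat_lit 1947649339) (nat_lit 76) (nat_lit 1573838564) (nat_lit 107) (nat_lit 1) (nat_lit 105) (nat_lit 1) (nat_lit 106) (nat_lit 1) (nat_lit 332) (nat_lit 384) (nat_lit 304))))) (XT.nd (nat_lit 234) (nat_lit 456) (nat_lit 0) (XT.nd (nat_lit 78) (nat_lit 304) (nat_lit 0) (XT.lf (nat_lit 76) (nat_lit 14260257) (nat_lit 0) (nat_lit 2592050241) (nat_lit 76) (nat_lit 4823295029) (nat_lit 105) (nat_lit 3) (nat_lit 104) (nat_lit 1) (nat_lit 105) (nat_lit 1) (nat_lit 333) (nat_lit 384) (nat_lit 303)) (XT.nd (nat_lit 78) (nat_lit 152) (nat_lit 0) (XT.lf (nat_lit 152) (nat_lit 3471435109)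 (nat_lit 0) (nat_lit 3207056976) (nat_lit 76) (nat_lit 628947995) (nat_lit 104) (nat_lit 1) (nat_lit 102) (nat_lit 1) (nat_lit 103) (nat_lit 1) (nat_lit 334) (nat_lit 384) (nat_lit 302)) (XT.lf (nat_lit 76) (nat_lit 3386511354) (nat_lit 0) (nat_lit 421237962) (nat_lit 152) (nat_lit 3379776550) (nat_lit 101) (nat_lit 1) (nat_lit 100) (nat_lit 1) (nat_lit 102) (nat_lit 1) (nat_lit 335) (nat_lit 384) (nat_lit 301)))) (XT.nd (nat_lit 156) (nat_lit 228) (nat_lit 0) (XT.nd (nat_lit 78) (nat_lit 152) (nat_lit 0) (XT.lf (nat_lit 0) (nat_lit 237248993) (nat_lit 0) (nat_lit 4153004530) (nat_lit 152) (nat_lit 2679445712) (nat_lit 99) (nat_lit 3) (nat_lit 99) (nat_lit 1) (nat_lit 101) (nat_lit 1) (nat_lit 336) (nat_lit 384) (nat_lit 300)) (XT.lf (nat_lit 76) (nat_lit 4100455428) (nat_lit 0) (nat_lit 850430458) (nat_lit 152) (nat_lit 2002917157) (nat_lit 98) (nat_lit 1) (nat_lit 97) (nat_lit 1) (nat_lit 99)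 (nat_lit 1) (nat_lit 337) (nat_lit 384) (nat_lit 299))) (XT.nd (nat_lit 78) (nat_lit 152) (nat_lit 0) (XT.lf (nat_lit 0) (nat_lit 1023941964) (nat_lit 0) (nat_lit 4472199928) (nat_lit 152) (nat_lit 1343835679) (nat_lit 96) (nat_lit 3) (nat_lit 96) (nat_lit 1) (nat_lit 98) (nat_lit 1) (nat_lit 338) (nat_lit 384) (nat_lit 298)) (XT.lf (nat_lit 76) (nat_lit 4752942989) (nat_lit 0) (nat_lit 1270767622) (nat_lit 152) (nat_lit 704396930) (nat_lit 95) (nat_lit 1) (nat_lit 94) (nat_lit 1) (nat_lit 96) (nat_lit 1) (nat_lit 339) (nat_lit 384) (nat_lit 297))))))) (XT.nd (nat_lit 1092) (nat_lit 1748) (nat_lit 0) (XT.nd (nat_lit 546) (nat_lit 912) (nat_lit 0) (XT.nd (nat_lit 234) (nat_lit 456) (nat_lit 0) (XT.nd (nat_lit 78) (nat_lit 304) (nat_lit 0) (XT.lf (nat_lit 0) (nat_lit 1748251836) (nat_lit 0) (nat_lit 4784826227) (nat_lit 152) (nat_lit 85052858) (nat_lit 93) (nat_lit 3) (nat_lit 93) (nat_lit 1) (nat_lit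 95) (nat_lit 1) (nat_lit 340) (nat_lit 384) (nat_lit 296)) (XT.nd (nat_lit 78) (nat_lit 76) (nat_lit 0) (XT.lf (nat_lit 152) (nat_lit 4824943852) (nat_lit 0) (nat_lit 528630029) (nat_lit 76) (nat_lit 1156397379) (nat_lit 92) (nat_lit 1) (nat_lit 90) (nat_lit 1) (nat_lit 91) (nat_lit 1) (nat_lit 341) (nat_lit 384) (nat_lit 295)) (XT.lf (nat_lit 76) (nat_lit 1304085666) (nat_lit 0) (nat_lit 1121315176) (nat_lit 76) (nat_lit 3978126914) (nat_lit 90) (nat_lit 3) (nat_lit 89) (nat_lit 1) (nat_lit 90) (nat_lit 1) (nat_lit 342) (nat_lit 384) (nat_lit 294)))) (XT.nd (nat_lit 156) (nat_lit 228) (nat_lit 0) (XT.nd (nat_lit 78) (nat_lit 76) (nat_lit 0) (XT.lf (nat_lit 152) (nat_lit 4206596011) (nat_lit 0) (nat_lit 1700999821) (nat_lit 76) (nat_lit 391466076) (nat_lit 89) (nat_lit 1) (nat_lit 87) (nat_lit 1) (nat_lit 88) (nat_lit 1) (nat_lit 343) (nat_lit 384) (nat_lit 293)) (XT.lf (nat_lit 76) (nat_lit 792584683)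 (nat_lit 0) (nat_lit 2256235488) (nat_lit 76) (nat_lit 3147375206) (nat_lit 87) (nat_lit 3) (nat_lit 86) (nat_lit 1) (nat_lit 87) (nat_lit 1) (nat_lit 344) (nat_lit 384) (nat_lit 292))) (XT.nd (nat_lit 78) (nat_lit 76) (nat_lit 0) (XT.lf (nat_lit 0) (nat_lit 310449480) (nat_lit 0) (nat_lit 2487786996) (nat_lit 152) (nat_lit 3296974295) (nat_lit 84) (nat_lit 3) (nat_lit 84) (nat_lit 1) (nat_lit 86) (nat_lit 1) (nat_lit 345) (nat_lit 384) (nat_lit 291)) (XT.lf (nat_lit 76) (nat_lit 300773783) (nat_lit 0) (nat_lit 3320678348) (nat_lit 76) (nat_lit 2374428560) (nat_lit 84) (nat_lit 3) (nat_lit 83) (nat_lit 1) (nat_lit 84) (nat_lit 1) (nat_lit 346) (nat_lit 384) (nat_lit 290))))) (XT.nd (nat_lit 234) (nat_lit 532) (nat_lit 0) (XT.nd (nat_lit 78) (nat_lit 228) (nat_lit 0) (XT.lf (nat_lit 0) (nat_lit 952715088) (nat_lit 0) (nat_lit 2870102769) (nat_lit 152) (nat_lit 2075323267) (nat_lit 81) (nat_lit 3)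 (nat_lit 81) (nat_lit 1) (nat_lit 83) (nat_lit 1) (nat_lit 347) (nat_lit 384) (nat_lit 289)) (XT.nd (nat_lit 78) (nat_lit 76) (nat_lit 0) (XT.lf (nat_lit 76) (nat_lit 4148415465) (nat_lit 0) (nat_lit 167212481) (nat_lit 152) (nat_lit 1486642168) (nat_lit 80) (nat_lit 1) (nat_lit 79) (nat_lit 1) (nat_lit 81) (nat_lit 1) (nat_lit 348) (nat_lit 384) (nat_lit 288)) (XT.lf (nat_lit 0) (nat_lit 1546402097) (nat_lit 0) (nat_lit 3234875057) (nat_lit 152) (nat_lit 926430373) (nat_lit 78) (nat_lit 3) (nat_lit 78) (nat_lit 1) (nat_lit 80) (nat_lit 1) (nat_lit 349) (nat_lit 384) (nat_lit 287)))) (XT.nd (nat_lit 156) (nat_lit 228) (nat_lit 0) (XT.nd (nat_lit 78) (nat_lit 152) (nat_lit 0) (XT.lf (nat_lit 76) (nat_lit 4633970575) (nat_lit 0) (nat_lit 608698627) (nat_lit 152) (nat_lit 372411270) (nat_lit 77) (nat_lit 1) (nat_lit 76) (nat_lit 1) (nat_lit 78) (nat_lit 1) (nat_lit 350) (nat_lit 384) (nat_lit 286))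 (XT.lf (nat_lit 76) (nat_lit 1940550019) (nat_lit 0) (nat_lit 155630887) (nat_lit 76) (nat_lit 3427438123) (nat_lit 75) (nat_lit 3) (nat_lit 74) (nat_lit 1) (nat_lit 75) (nat_lit 1) (nat_lit 351) (nat_lit 384) (nat_lit 285))) (XT.nd (nat_lit 78) (nat_lit 76) (nat_lit 0) (XT.lf (nat_lit 152) (nat_lit 4398121614) (nat_lit 0) (nat_lit 686669484) (nat_lit 76) (nat_lit 349169625) (nat_lit 74) (nat_lit 1) (nat_lit 72) (nat_lit 1) (nat_lit 73) (nat_lit 1) (nat_lit 352) (nat_lit 384) (nat_lit 284)) (XT.lf (nat_lit 76) (nat_lit 1424141706) (nat_lit 0) (nat_lit 1187779452) (nat_lit 76) (nat_lit 2733511941) (nat_lit 72) (nat_lit 3) (nat_lit 71) (nat_lit 1) (nat_lit 72) (nat_lit 1) (nat_lit 353) (nat_lit 384) (nat_lit 283)))))) (XT.nd (nat_lit 546) (nat_lit 912) (nat_lit 0) (XT.nd (nat_lit 234) (nat_lit 456) (nat_lit 0) (XT.nd (nat_lit 78) (nat_lit 228) (nat_lit 0) (XT.lf (nat_lit 0) (nat_lit 236530815) (nat_lit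 0) (nat_lit 1447229137) (nat_lit 152) (nat_lit 3574960370) (nat_lit 69) (nat_lit 3) (nat_lit 69) (nat_lit 1) (nat_lit 71) (nat_lit 1) (nat_lit 354) (nat_lit 384) (nat_lit 282)) (XT.nd (nat_lit 78) (nat_lit 152) (nat_lit 0) (XT.lf (nat_lit 76) (nat_lit 932856798) (nat_lit 0) (nat_lit 2154437793) (nat_lit 76) (nat_lit 2085902818) (nat_lit 69) (nat_lit 3) (nat_lit 68) (nat_lit 1) (nat_lit 69) (nat_lit 1) (nat_lit 355) (nat_lit 384) (nat_lit 281)) (XT.lf (nat_lit 0) (nat_lit 773746042) (nat_lit 0) (nat_lit 1839900476) (nat_lit 152) (nat_lit 2475584059) (nat_lit 66) (nat_lit 3) (nat_lit 66) (nat_lit 1) (nat_lit 68) (nat_lit 1) (nat_lit 356) (nat_lit 384) (nat_lit 280)))) (XT.nd (nat_lit 156) (nat_lit 228) (nat_lit 0) (XT.nd (nat_lit 78) (nat_lit 152) (nat_lit 0) (XT.lf (nat_lit 76) (nat_lit 466451102) (nat_lit 0) (nat_lit 3058409752) (nat_lit 76) (nat_lit 1481836278) (nat_lit 66) (nat_lit 3) (nat_lit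 65) (nat_lit 1) (nat_lit 66) (nat_lit 1) (nat_lit 357) (nat_lit 384) (nat_lit 279)) (XT.lf (nat_lit 0) (nat_lit 1271838797) (nat_lit 0) (nat_lit 2210706273) (nat_lit 152) (nat_lit 1442836617) (nat_lit 63) (nat_lit 3) (nat_lit 63) (nat_lit 1) (nat_lit 65) (nat_lit 1) (nat_lit 358) (nat_lit 384) (nat_lit 278))) (XT.nd (nat_lit 78) (nat_lit 152) (nat_lit 0) (XT.lf (nat_lit 76) (nat_lit 24565515) (nat_lit 0) (nat_lit 3902436268) (nat_lit 76) (nat_lit 918725016) (nat_lit 63) (nat_lit 3) (nat_lit 62) (nat_lit 1) (nat_lit 63) (nat_lit 1) (nat_lit 359) (nat_lit 384) (nat_lit 277)) (XT.lf (nat_lit 0) (nat_lit 1733185961) (nat_lit 0) (nat_lit 2559963124) (nat_lit 152) (nat_lit 473823153) (nat_lit 60) (nat_lit 3) (nat_lit 60) (nat_lit 1) (nat_lit 62) (nat_lit 1) (nat_lit 360) (nat_lit 384) (nat_lit 276))))) (XT.nd (nat_lit 234) (nat_lit 456) (nat_lit 0) (XT.nd (nat_lit 78) (nat_lit 304) (nat_lit 0) (XT.lf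 (nat_lit 76) (nat_lit 4299716753) (nat_lit 0) (nat_lit 385579862) (nat_lit 152) (nat_lit 4679700) (nat_lit 59) (nat_lit 1) (nat_lit 58) (nat_lit 1) (nat_lit 60) (nat_lit 1) (nat_lit 361) (nat_lit 384) (nat_lit 275)) (XT.nd (nat_lit 78) (nat_lit 152) (nat_lit 0) (XT.lf (nat_lit 76) (nat_lit 1721348332) (nat_lit 0) (nat_lit 442915761) (nat_lit 76) (nat_lit 2449417515) (nat_lit 57) (nat_lit 3) (nat_lit 56) (nat_lit 1) (nat_lit 57) (nat_lit 1) (nat_lit 362) (nat_lit 384) (nat_lit 274)) (XT.lf (nat_lit 0) (nat_lit 108600638) (nat_lit 0) (nat_lit 781803766) (nat_lit 152) (nat_lit 3648676928) (nat_lit 54) (nat_lit 3) (nat_lit 54) (nat_lit 1) (nat_lit 56) (nat_lit 1) (nat_lit 363) (nat_lit 384) (nat_lit 273)))) (XT.nd (nat_lit 156) (nat_lit 228) (nat_lit 0) (XT.nd (nat_lit 78) (nat_lit 152) (nat_lit 0) (XT.lf (nat_lit 76) (nat_lit 1257220007) (nat_lit 0) (nat_lit 1309744563) (nat_lit 76) (nat_lit 1898365843)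 (nat_lit 54) (nat_lit 3) (nat_lit 53) (nat_lit 1) (nat_lit 54) (nat_lit 1) (nat_lit 364) (nat_lit 384) (nat_lit 272)) (XT.lf (nat_lit 0) (nat_lit 565605730) (nat_lit 0) (nat_lit 1158435907) (nat_lit 152) (nat_lit 2669028397) (nat_lit 51) (nat_lit 3) (nat_lit 51) (nat_lit 1) (nat_lit 53) (nat_lit 1) (nat_lit 365) (nat_lit 384) (nat_lit 271))) (XT.nd (nat_lit 78) (nat_lit 152) (nat_lit 0) (XT.lf (nat_lit 76) (nat_lit 818670939) (nat_lit 0) (nat_lit 2119937893) (nat_lit 76) (nat_lit 1383271108) (nat_lit 51) (nat_lit 3) (nat_lit 50) (nat_lit 1) (nat_lit 51) (nat_lit 1) (nat_lit 366) (nat_lit 384) (nat_lit 270)) (XT.lf (nat_lit 0) (nat_lit 990299153) (nat_lit 0) (nat_lit 1512352013) (nat_lit 152) (nat_lit 1749230350) (nat_lit 48) (nat_lit 3) (nat_lit 48) (nat_lit 1) (nat_lit 50) (nat_lit 1) (nat_lit 367) (nat_lit 384) (nat_lit 269))))))))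
noncomputable def ec94 : XT := (XT.nd (nat_lit 44304) (nat_lit 0) (nat_lit 16720) (XT.nd (nat_lit 1092) (nat_lit 1064) (nat_lit 0) (XT.nd (nat_lit 546) (nat_lit 836) (nat_lit 0) (XT.nd (nat_lit 234) (nat_lit 608) (nat_lit 0) (XT.nd (nat_lit 78) (nat_lit 228) (nat_lit 0) (XT.lf (nat_lit 76) (nat_lit 404926033) (nat_lit 0) (nat_lit 2876114022) (nat_lit 76) (nat_lit 902119233) (nat_lit 48) (nat_lit 3) (nat_lit 47) (nat_lit 1) (nat_lit 48) (nat_lit 1) (nat_lit 368) (nat_lit 384) (nat_lit 268)) (XT.nd (nat_lit 78) (nat_lit 76) (nat_lit 0) (XT.lf (nat_lit 0) (nat_lit 1384534480) (nat_lit 0) (nat_lit 1844260046) (nat_lit 152) (nat_lit 886553411) (nat_lit 45) (nat_lit 3) (nat_lit 45) (nat_lit 1) (nat_lit 47) (nat_lit 1) (nat_lit 369) (nat_lit 384) (nat_lit 267)) (XT.lf (nat_lit 76) (nat_lit 15183160) (nat_lit 0) (nat_lit 3580804159) (nat_lit 76) (nat_lit 453017033) (nat_lit 45) (nat_lit 3) (nat_lit 44)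 (nat_lit 1) (nat_lit 45) (nat_lit 1) (nat_lit 370) (nat_lit 384) (nat_lit 266)))) (XT.nd (nat_lit 156) (nat_lit 228) (nat_lit 0) (XT.nd (nat_lit 78) (nat_lit 228) (nat_lit 0) (XT.lf (nat_lit 0) (nat_lit 1750053525) (nat_lit 0) (nat_lit 2154892982) (nat_lit 152) (nat_lit 78361567) (nat_lit 42) (nat_lit 3) (nat_lit 42) (nat_lit 1) (nat_lit 44) (nat_lit 1) (nat_lit 371) (nat_lit 384) (nat_lit 265)) (XT.lf (nat_lit 152) (nat_lit 3571465717) (nat_lit 0) (nat_lit 320062775) (nat_lit 76) (nat_lit 27535334) (nat_lit 41) (nat_lit 1) (nat_lit 39) (nat_lit 1) (nat_lit 40) (nat_lit 1) (nat_lit 372) (nat_lit 384) (nat_lit 264))) (XT.nd (nat_lit 78) (nat_lit 152) (nat_lit 0) (XT.lf (nat_lit 76) (nat_lit 1403760942) (nat_lit 0) (nat_lit 691379588) (nat_lit 76) (nat_lit 1760267080) (nat_lit 39) (nat_lit 3) (nat_lit 38) (nat_lit 1) (nat_lit 39) (nat_lit 1) (nat_lit 373) (nat_lit 384) (nat_lit 263)) (XT.lf (nat_lit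 0) (nat_lit 366210269) (nat_lit 0) (nat_lit 695850710) (nat_lit 152) (nat_lit 2731090408) (nat_lit 36) (nat_lit 3) (nat_lit 36) (nat_lit 1) (nat_lit 38) (nat_lit 1) (nat_lit 374) (nat_lit 384) (nat_lit 262))))) (XT.nd (nat_lit 234) (nat_lit 532) (nat_lit 0) (XT.nd (nat_lit 78) (nat_lit 228) (nat_lit 0) (XT.lf (nat_lit 76) (nat_lit 1002770392) (nat_lit 0) (nat_lit 1412204389) (nat_lit 76) (nat_lit 1316713670) (nat_lit 36) (nat_lit 3) (nat_lit 35) (nat_lit 1) (nat_lit 36) (nat_lit 1) (nat_lit 375) (nat_lit 384) (nat_lit 261)) (XT.nd (nat_lit 78) (nat_lit 76) (nat_lit 0) (XT.lf (nat_lit 0) (nat_lit 732248291) (nat_lit 0) (nat_lit 1022533337) (nat_lit 152) (nat_lit 1916588491) (nat_lit 33) (nat_lit 3) (nat_lit 33) (nat_lit 1) (nat_lit 35) (nat_lit 1) (nat_lit 376) (nat_lit 384) (nat_lit 260)) (XT.lf (nat_lit 76) (nat_lit 625303617) (nat_lit 0) (nat_lit 2084960462) (nat_lit 76) (nat_lit 901765566) (nat_lit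 33) (nat_lit 3) (nat_lit 32) (nat_lit 1) (nat_lit 33) (nat_lit 1) (nat_lit 377) (nat_lit 384) (nat_lit 259)))) (XT.nd (nat_lit 156) (nat_lit 304) (nat_lit 0) (XT.nd (nat_lit 78) (nat_lit 76) (nat_lit 0) (XT.lf (nat_lit 0) (nat_lit 1072609187) (nat_lit 0) (nat_lit 1328237434) (nat_lit 152) (nat_lit 1152739733) (nat_lit 30) (nat_lit 3) (nat_lit 30) (nat_lit 1) (nat_lit 32) (nat_lit 1) (nat_lit 378) (nat_lit 384) (nat_lit 258)) (XT.lf (nat_lit 76) (nat_lit 270436654) (nat_lit 0) (nat_lit 2711963833) (nat_lit 76) (nat_lit 513892127) (nat_lit 30) (nat_lit 3) (nat_lit 29) (nat_lit 1) (nat_lit 30) (nat_lit 1) (nat_lit 379) (nat_lit 384) (nat_lit 257))) (XT.nd (nat_lit 78) (nat_lit 152) (nat_lit 0) (XT.lf (nat_lit 0) (nat_lit 1388703150) (nat_lit 0) (nat_lit 1613812233) (nat_lit 152) (nat_lit 437148405) (nat_lit 27) (nat_lit 3) (nat_lit 27) (nat_lit 1) (nat_lit 29) (nat_lit 1) (nat_lit 380) (nat_lit 384)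 (nat_lit 256)) (XT.lf (nat_lit 76) (nat_lit 3233300860) (nat_lit 0) (nat_lit 61519034) (nat_lit 152) (nat_lit 89505962) (nat_lit 26) (nat_lit 1) (nat_lit 25) (nat_lit 1) (nat_lit 27) (nat_lit 1) (nat_lit 381) (nat_lit 384) (nat_lit 255)))))) (XT.nd (nat_lit 546) (nat_lit 228) (nat_lit 0) (XT.nd (nat_lit 234) (nat_lit 456) (nat_lit 0) (XT.nd (nat_lit 78) (nat_lit 228) (nat_lit 0) (XT.lf (nat_lit 76) (nat_lit 1447027062) (nat_lit 0) (nat_lit 237115113) (nat_lit 76) (nat_lit 1645260629) (nat_lit 24) (nat_lit 3) (nat_lit 23) (nat_lit 1) (nat_lit 24) (nat_lit 1) (nat_lit 382) (nat_lit 384) (nat_lit 254)) (XT.nd (nat_lit 78) (nat_lit 76) (nat_lit 0) (XT.lf (nat_lit 0) (nat_lit 191870205) (nat_lit 0) (nat_lit 375165228) (nat_lit 152) (nat_lit 2708691053) (nat_lit 21) (nat_lit 3) (nat_lit 21) (nat_lit 1) (nat_lit 23) (nat_lit 1) (nat_lit 383) (nat_lit 384) (nat_lit 253)) (XT.lf (nat_lit 76) (nat_lit 1086298895)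 (nat_lit 0) (nat_lit 875465192) (nat_lit 76) (nat_lit 1260865583) (nat_lit 21) (nat_lit 3) (nat_lit 20) (nat_lit 1) (nat_lit 21) (nat_lit 1) (nat_lit 384) (nat_lit 384) (nat_lit 252)))) (XT.nd (nat_lit 156) (nat_lit 228) (nat_lit 0) (XT.nd (nat_lit 78) (nat_lit 76) (nat_lit 0) (XT.lf (nat_lit 0) (nat_lit 509574237) (nat_lit 0) (nat_lit 670985877) (nat_lit 152) (nat_lit 1990058088) (nat_lit 18) (nat_lit 3) (nat_lit 18) (nat_lit 1) (nat_lit 20) (nat_lit 1) (nat_lit 385) (nat_lit 384) (nat_lit 251)) (XT.lf (nat_lit 76) (nat_lit 747128953) (nat_lit 0) (nat_lit 1471367265) (nat_lit 76) (nat_lit 900854324) (nat_lit 18) (nat_lit 3) (nat_lit 17) (nat_lit 1) (nat_lit 18) (nat_lit 1) (nat_lit 386) (nat_lit 384) (nat_lit 250))) (XT.nd (nat_lit 78) (nat_lit 76) (nat_lit 0) (XT.lf (nat_lit 0) (nat_lit 805380276) (nat_lit 0) (nat_lit 947521165) (nat_lit 152) (nat_lit 1316049218) (nat_lit 15) (nat_lit 3) (nat_lit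 15) (nat_lit 1) (nat_lit 17) (nat_lit 1) (nat_lit 387) (nat_lit 384) (nat_lit 249)) (XT.lf (nat_lit 76) (nat_lit 428588047) (nat_lit 0) (nat_lit 2026899085) (nat_lit 76) (nat_lit 563960321) (nat_lit 15) (nat_lit 3) (nat_lit 14) (nat_lit 1) (nat_lit 15) (nat_lit 1) (nat_lit 388) (nat_lit 384) (nat_lit 248))))) (XT.nd (nat_lit 42354) (nat_lit 0) (nat_lit 27664) (XT.nd (nat_lit 78) (nat_lit 76) (nat_lit 0) (XT.lf (nat_lit 0) (nat_lit 1080456465) (nat_lit 0) (nat_lit 1205627316) (nat_lit 152) (nat_lit 684523949) (nat_lit 12) (nat_lit 3) (nat_lit 12) (nat_lit 1) (nat_lit 14) (nat_lit 1) (nat_lit 389) (nat_lit 384) (nat_lit 247)) (XT.nd (nat_lit 42198) (nat_lit 0) (nat_lit 27588) (XT.lf (nat_lit 76) (nat_lit 129771600) (nat_lit 0) (nat_lit 2544053149) (nat_lit 76) (nat_lit 248981934) (nat_lit 12) (nat_lit 3) (nat_lit 11) (nat_lit 1) (nat_lit 12) (nat_lit 1) (nat_lit 390) (nat_lit 384) (nat_lit 246))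 (XT.lf (nat_lit 1292) (nat_lit 3351067188) (nat_lit 0) (nat_lit 11529229607) (nat_lit 1292) (nat_lit 3351067188) (nat_lit 391) (nat_lit 1) (nat_lit 374) (nat_lit 0) (nat_lit 391) (nat_lit 0) (nat_lit 250) (nat_lit 385) (nat_lit 385)))) (XT.nd (nat_lit 156) (nat_lit 0) (nat_lit 76) (XT.nd (nat_lit 78) (nat_lit 0) (nat_lit 0) (XT.lf (nat_lit 1292) (nat_lit 268660930) (nat_lit 0) (nat_lit 22733216405) (nat_lit 1216) (nat_lit 12585977398) (nat_lit 392) (nat_lit 1) (nat_lit 375) (nat_lit 1) (nat_lit 391) (nat_lit 1) (nat_lit 251) (nat_lit 385) (nat_lit 384)) (XT.lf (nat_lit 1292) (nat_lit 11819925834) (nat_lit 76) (nat_lit 16718852568) (nat_lit 0) (nat_lit 6200972809) (nat_lit 392) (nat_lit 1) (nat_lit 376) (nat_lit 1) (nat_lit 375) (nat_lit 1) (nat_lit 252) (nat_lit 385) (nat_lit 383))) (XT.nd (nat_lit 78) (nat_lit 0) (nat_lit 76) (XT.lf (nat_lit 1292) (nat_lit 10390717084) (nat_lit 76) (nat_lit 10943685355)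 (nat_lit 0) (nat_lit 12584705840) (nat_lit 393) (nat_lit 1) (nat_lit 377) (nat_lit 1) (nat_lit 376) (nat_lit 1) (nat_lit 253) (nat_lit 385) (nat_lit 382)) (XT.lf (nat_lit 1292) (nat_lit 8599018048) (nat_lit 76) (nat_lit 5652985119) (nat_lit 0) (nat_lit 18873000186) (nat_lit 394) (nat_lit 1) (nat_lit 378) (nat_lit 1) (nat_lit 377) (nat_lit 1) (nat_lit 254) (nat_lit 385) (nat_lit 381))))))) (XT.nd (nat_lit 1092) (nat_lit 5852) (nat_lit 0) (XT.nd (nat_lit 546) (nat_lit 3496) (nat_lit 0) (XT.nd (nat_lit 234) (nat_lit 1824) (nat_lit 0) (XT.nd (nat_lit 78) (nat_lit 0) (nat_lit 76) (XT.lf (nat_lit 1292) (nat_lit 6472459195) (nat_lit 76) (nat_lit 821860424) (nat_lit 0) (nat_lit 25062155111) (nat_lit 395) (nat_lit 1) (nat_lit 379) (nat_lit 1) (nat_lit 378) (nat_lit 1) (nat_lit 255) (nat_lit 385) (nat_lit 380)) (XT.nd (nat_lit 78) (nat_lit 0) (nat_lit 0) (XT.lf (nat_lit 1292) (nat_lit 498021218) (nat_lit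 0) (nat_lit 27609854239) (nat_lit 1216) (nat_lit 3503692953) (nat_lit 396) (nat_lit 1) (nat_lit 379) (nat_lit 1) (nat_lit 395) (nat_lit 1) (nat_lit 256) (nat_lit 385) (nat_lit 379)) (XT.lf (nat_lit 1292) (nat_lit 1180418630) (nat_lit 76) (nat_lit 23419990256) (nat_lit 0) (nat_lit 6288087895) (nat_lit 396) (nat_lit 1) (nat_lit 380) (nat_lit 1) (nat_lit 379) (nat_lit 1) (nat_lit 257) (nat_lit 385) (nat_lit 378)))) (XT.nd (nat_lit 156) (nat_lit 684) (nat_lit 0) (XT.nd (nat_lit 78) (nat_lit 0) (nat_lit 76) (XT.lf (nat_lit 1368) (nat_lit 17251804894) (nat_lit 0) (nat_lit 1864739681) (nat_lit 1292) (nat_lit 11071249868) (nat_lit 381) (nat_lit 1) (nat_lit 363) (nat_lit 1) (nat_lit 380) (nat_lit 1) (nat_lit 258) (nat_lit 385) (nat_lit 377)) (XT.lf (nat_lit 1368) (nat_lit 10069785008) (nat_lit 0) (nat_lit 5116626023) (nat_lit 1292) (nat_lit 14322513466) (nat_lit 382) (nat_lit 1) (nat_lit 364) (nat_lit 1)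 (nat_lit 381) (nat_lit 1) (nat_lit 259) (nat_lit 385) (nat_lit 376))) (XT.nd (nat_lit 78) (nat_lit 836) (nat_lit 0) (XT.lf (nat_lit 76) (nat_lit 3043142450) (nat_lit 0) (nat_lit 8578327225) (nat_lit 1292) (nat_lit 17229972020) (nat_lit 366) (nat_lit 1) (nat_lit 365) (nat_lit 1) (nat_lit 382) (nat_lit 1) (nat_lit 260) (nat_lit 385) (nat_lit 375)) (XT.lf (nat_lit 912) (nat_lit 15944860897) (nat_lit 0) (nat_lit 8364170098) (nat_lit 836) (nat_lit 3904434044) (nat_lit 366) (nat_lit 1) (nat_lit 354) (nat_lit 1) (nat_lit 365) (nat_lit 1) (nat_lit 261) (nat_lit 385) (nat_lit 374))))) (XT.nd (nat_lit 234) (nat_lit 1748) (nat_lit 0) (XT.nd (nat_lit 78) (nat_lit 1140) (nat_lit 0) (XT.lf (nat_lit 684) (nat_lit 11433960607) (nat_lit 0) (nat_lit 5405985011) (nat_lit 608) (nat_lit 10754599672) (nat_lit 355) (nat_lit 1) (nat_lit 346) (nat_lit 1) (nat_lit 354) (nat_lit 1) (nat_lit 262) (nat_lit 385) (nat_lit 373))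 (XT.nd (nat_lit 78) (nat_lit 532) (nat_lit 0) (XT.lf (nat_lit 684) (nat_lit 6787040656) (nat_lit 0) (nat_lit 2760452671) (nat_lit 608) (nat_lit 17447386396) (nat_lit 347) (nat_lit 1) (nat_lit 338) (nat_lit 1) (nat_lit 346) (nat_lit 1) (nat_lit 263) (nat_lit 385) (nat_lit 372)) (XT.lf (nat_lit 608) (nat_lit 2019023416) (nat_lit 0) (nat_lit 411175598) (nat_lit 532) (nat_lit 23983598436) (nat_lit 339) (nat_lit 1) (nat_lit 331) (nat_lit 1) (nat_lit 338) (nat_lit 1) (nat_lit 264) (nat_lit 385) (nat_lit 371)))) (XT.nd (nat_lit 156) (nat_lit 1064) (nat_lit 0) (XT.nd (nat_lit 78) (nat_lit 608) (nat_lit 0) (XT.lf (nat_lit 76) (nat_lit 21289745194) (nat_lit 0) (nat_lit 2860980548) (nat_lit 608) (nat_lit 1697285323) (nat_lit 331) (nat_lit 1) (nat_lit 330) (nat_lit 1) (nat_lit 338) (nat_lit 1) (nat_lit 265) (nat_lit 385) (nat_lit 370)) (XT.lf (nat_lit 76) (nat_lit 13900857836) (nat_lit 0) (nat_lit 7817483305)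 (nat_lit 684) (nat_lit 3579879163) (nat_lit 323) (nat_lit 1) (nat_lit 322) (nat_lit 1) (nat_lit 331) (nat_lit 1) (nat_lit 266) (nat_lit 385) (nat_lit 369))) (XT.nd (nat_lit 78) (nat_lit 532) (nat_lit 0) (XT.lf (nat_lit 76) (nat_lit 6700277657) (nat_lit 0) (nat_lit 12849965300) (nat_lit 608) (nat_lit 5215007004) (nat_lit 316) (nat_lit 1) (nat_lit 315) (nat_lit 1) (nat_lit 323) (nat_lit 1) (nat_lit 267) (nat_lit 385) (nat_lit 368)) (XT.lf (nat_lit 608) (nat_lit 6298063841) (nat_lit 0) (nat_lit 17629470387) (nat_lit 532) (nat_lit 320898036) (nat_lit 316) (nat_lit 1) (nat_lit 308) (nat_lit 1) (nat_lit 315) (nat_lit 1) (nat_lit 268) (nat_lit 385) (nat_lit 367)))))) (XT.nd (nat_lit 546) (nat_lit 2584) (nat_lit 0) (XT.nd (nat_lit 234) (nat_lit 1748) (nat_lit 0) (XT.nd (nat_lit 78) (nat_lit 1064) (nat_lit 0) (XT.lf (nat_lit 532) (nat_lit 576308634) (nat_lit 0) (nat_lit 15880236419) (nat_lit 456) (nat_lit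 7288844315) (nat_lit 309) (nat_lit 1) (nat_lit 302) (nat_lit 1) (nat_lit 308) (nat_lit 1) (nat_lit 269) (nat_lit 385) (nat_lit 366)) (XT.nd (nat_lit 78) (nat_lit 456) (nat_lit 0) (XT.lf (nat_lit 76) (nat_lit 9234211086) (nat_lit 0) (nat_lit 5072193730) (nat_lit 608) (nat_lit 8949661783) (nat_lit 295) (nat_lit 1) (nat_lit 294) (nat_lit 1) (nat_lit 302) (nat_lit 1) (nat_lit 270) (nat_lit 385) (nat_lit 365)) (XT.lf (nat_lit 76) (nat_lit 2213084621) (nat_lit 0) (nat_lit 10728213841) (nat_lit 532) (nat_lit 9839972039) (nat_lit 289) (nat_lit 1) (nat_lit 288) (nat_lit 1) (nat_lit 295) (nat_lit 1) (nat_lit 271) (nat_lit 385) (nat_lit 364)))) (XT.nd (nat_lit 156) (nat_lit 836) (nat_lit 0) (XT.nd (nat_lit 78) (nat_lit 456) (nat_lit 0) (XT.lf (nat_lit 532) (nat_lit 5878877350) (nat_lit 0) (nat_lit 11732639764) (nat_lit 456) (nat_lit 4707800412) (nat_lit 289) (nat_lit 1) (nat_lit 282) (nat_lit 1) (nat_lit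 288) (nat_lit 1) (nat_lit 272) (nat_lit 385) (nat_lit 363)) (XT.lf (nat_lit 76) (nat_lit 10392978103) (nat_lit 0) (nat_lit 299740062) (nat_lit 456) (nat_lit 11177689618) (nat_lit 277) (nat_lit 1) (nat_lit 276) (nat_lit 1) (nat_lit 282) (nat_lit 1) (nat_lit 273) (nat_lit 385) (nat_lit 362))) (XT.nd (nat_lit 78) (nat_lit 380) (nat_lit 0) (XT.lf (nat_lit 76) (nat_lit 3432698174) (nat_lit 0) (nat_lit 6345792761) (nat_lit 532) (nat_lit 11654641834) (nat_lit 271) (nat_lit 1) (nat_lit 270) (nat_lit 1) (nat_lit 277) (nat_lit 1) (nat_lit 274) (nat_lit 385) (nat_lit 361)) (XT.lf (nat_lit 456) (nat_lit 8606798165) (nat_lit 0) (nat_lit 9004679502) (nat_lit 380) (nat_lit 3396291718) (nat_lit 271) (nat_lit 1) (nat_lit 265) (nat_lit 1) (nat_lit 270) (nat_lit 1) (nat_lit 275) (nat_lit 385) (nat_lit 360))))) (XT.nd (nat_lit 234) (nat_lit 1368) (nat_lit 0) (XT.nd (nat_lit 78) (nat_lit 836) (nat_lit 0) (XT.lf (nat_lit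 456) (nat_lit 2134775777) (nat_lit 0) (nat_lit 8362790784) (nat_lit 380) (nat_lit 10096354708) (nat_lit 266) (nat_lit 1) (nat_lit 260) (nat_lit 1) (nat_lit 265) (nat_lit 1) (nat_lit 276) (nat_lit 385) (nat_lit 359)) (XT.nd (nat_lit 78) (nat_lit 380) (nat_lit 0) (XT.lf (nat_lit 76) (nat_lit 3630020092) (nat_lit 0) (nat_lit 4205974772) (nat_lit 456) (nat_lit 12354957219) (nat_lit 255) (nat_lit 1) (nat_lit 254) (nat_lit 1) (nat_lit 260) (nat_lit 1) (nat_lit 277) (nat_lit 385) (nat_lit 358)) (XT.lf (nat_lit 456) (nat_lit 9314139668) (nat_lit 0) (nat_lit 7407062235) (nat_lit 380) (nat_lit 3077014727) (nat_lit 255) (nat_lit 1) (nat_lit 249) (nat_lit 1) (nat_lit 254) (nat_lit 1) (nat_lit 278) (nat_lit 385) (nat_lit 357)))) (XT.nd (nat_lit 156) (nat_lit 608) (nat_lit 0) (XT.nd (nat_lit 78) (nat_lit 456) (nat_lit 0) (XT.lf (nat_lit 380) (nat_lit 2674137523) (nat_lit 0) (nat_lit 7084731093) (nat_lit 304)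 (nat_lit 9656960166) (nat_lit 250) (nat_lit 1) (nat_lit 245) (nat_lit 1) (nat_lit 249) (nat_lit 1) (nat_lit 279) (nat_lit 385) (nat_lit 356)) (XT.lf (nat_lit 76) (nat_lit 3039733893) (nat_lit 0) (nat_lit 3819499513) (nat_lit 456) (nat_lit 12184132675) (nat_lit 240) (nat_lit 1) (nat_lit 239) (nat_lit 1) (nat_lit 245) (nat_lit 1) (nat_lit 280) (nat_lit 385) (nat_lit 355))) (XT.nd (nat_lit 78) (nat_lit 304) (nat_lit 0) (XT.lf (nat_lit 380) (nat_lit 8456515070) (nat_lit 0) (nat_lit 6701011624) (nat_lit 304) (nat_lit 3522305603) (nat_lit 240) (nat_lit 1) (nat_lit 235) (nat_lit 1) (nat_lit 239) (nat_lit 1) (nat_lit 281) (nat_lit 385) (nat_lit 354)) (XT.lf (nat_lit 380) (nat_lit 1744564101) (nat_lit 0) (nat_lit 6635558616) (nat_lit 304) (nat_lit 9945714473) (nat_lit 236) (nat_lit 1) (nat_lit 231) (nat_lit 1) (nat_lit 235) (nat_lit 1) (nat_lit 282) (nat_lit 385) (nat_lit 353))))))))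
noncomputable def ec95 : XT := (XT.nd (nat_lit 2184) (nat_lit 3876) (nat_lit 0) (XT.nd (nat_lit 1092) (nat_lit 2736) (nat_lit 0) (XT.nd (nat_lit 546) (nat_lit 1748) (nat_lit 0) (XT.nd (nat_lit 234) (nat_lit 1140) (nat_lit 0) (XT.nd (nat_lit 78) (nat_lit 608) (nat_lit 0) (XT.lf (nat_lit 76) (nat_lit 1853952648) (nat_lit 0) (nat_lit 4784444425) (nat_lit 380) (nat_lit 11342140534) (nat_lit 227) (nat_lit 1) (nat_lit 226) (nat_lit 1) (nat_lit 231) (nat_lit 1) (nat_lit 283) (nat_lit 385) (nat_lit 352)) (XT.nd (nat_lit 78) (nat_lit 304) (nat_lit 0) (XT.lf (nat_lit 380) (nat_lit 6407515105) (nat_lit 0) (nat_lit 6689893038) (nat_lit 304) (nat_lit 4545825798) (nat_lit 227) (nat_lit 1) (nat_lit 222) (nat_lit 1) (nat_lit 226) (nat_lit 1) (nat_lit 284) (nat_lit 385) (nat_lit 351)) (XT.lf (nat_lit 76) (nat_lit 6532432811) (nat_lit 0) (nat_lit 293916995) (nat_lit 304) (nat_lit 10488508459) (nat_lit 219) (nat_lit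 1) (nat_lit 218) (nat_lit 1) (nat_lit 222) (nat_lit 1) (nat_lit 285) (nat_lit 385) (nat_lit 350)))) (XT.nd (nat_lit 156) (nat_lit 608) (nat_lit 0) (XT.nd (nat_lit 78) (nat_lit 228) (nat_lit 0) (XT.lf (nat_lit 76) (nat_lit 229380565) (nat_lit 0) (nat_lit 6771623721) (nat_lit 380) (nat_lit 9992921335) (nat_lit 215) (nat_lit 1) (nat_lit 214) (nat_lit 1) (nat_lit 219) (nat_lit 1) (nat_lit 286) (nat_lit 385) (nat_lit 349)) (XT.lf (nat_lit 304) (nat_lit 3472457697) (nat_lit 0) (nat_lit 7212202090) (nat_lit 228) (nat_lit 5995607456) (nat_lit 215) (nat_lit 1) (nat_lit 211) (nat_lit 1) (nat_lit 214) (nat_lit 1) (nat_lit 287) (nat_lit 385) (nat_lit 348))) (XT.nd (nat_lit 78) (nat_lit 228) (nat_lit 0) (XT.lf (nat_lit 76) (nat_lit 4374305610) (nat_lit 0) (nat_lit 3107744213) (nat_lit 380) (nat_lit 8892358909) (nat_lit 207) (nat_lit 1) (nat_lit 206) (nat_lit 1) (nat_lit 211) (nat_lit 1) (nat_lit 288) (nat_lit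 385) (nat_lit 347)) (XT.lf (nat_lit 304) (nat_lit 6546484952) (nat_lit 0) (nat_lit 7788440076) (nat_lit 228) (nat_lit 1740665121) (nat_lit 207) (nat_lit 1) (nat_lit 203) (nat_lit 1) (nat_lit 206) (nat_lit 1) (nat_lit 289) (nat_lit 385) (nat_lit 346))))) (XT.nd (nat_lit 234) (nat_lit 988) (nat_lit 0) (XT.nd (nat_lit 78) (nat_lit 456) (nat_lit 0) (XT.lf (nat_lit 76) (nat_lit 8036547780) (nat_lit 0) (nat_lit 98157343) (nat_lit 304) (nat_lit 7649089609) (nat_lit 200) (nat_lit 1) (nat_lit 199) (nat_lit 1) (nat_lit 203) (nat_lit 1) (nat_lit 290) (nat_lit 385) (nat_lit 345)) (XT.nd (nat_lit 78) (nat_lit 228) (nat_lit 0) (XT.lf (nat_lit 76) (nat_lit 1997216562) (nat_lit 0) (nat_lit 6500262468) (nat_lit 304) (nat_lit 7000751235) (nat_lit 197) (nat_lit 1) (nat_lit 196) (nat_lit 1) (nat_lit 200) (nat_lit 1) (nat_lit 291) (nat_lit 385) (nat_lit 344)) (XT.lf (nat_lit 304) (nat_lit 2393315611) (nat_lit 0) (nat_lit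 8898025050) (nat_lit 228) (nat_lit 3928065880) (nat_lit 197) (nat_lit 1) (nat_lit 193) (nat_lit 1) (nat_lit 196) (nat_lit 1) (nat_lit 292) (nat_lit 385) (nat_lit 343)))) (XT.nd (nat_lit 156) (nat_lit 456) (nat_lit 0) (XT.nd (nat_lit 78) (nat_lit 228) (nat_lit 0) (XT.lf (nat_lit 76) (nat_lit 5283182450) (nat_lit 0) (nat_lit 4028621327) (nat_lit 304) (nat_lit 5634697606) (nat_lit 190) (nat_lit 1) (nat_lit 189) (nat_lit 1) (nat_lit 193) (nat_lit 1) (nat_lit 293) (nat_lit 385) (nat_lit 342)) (XT.lf (nat_lit 304) (nat_lit 4390515554) (nat_lit 0) (nat_lit 9767694780) (nat_lit 228) (nat_lit 522040213) (nat_lit 190) (nat_lit 1) (nat_lit 186) (nat_lit 1) (nat_lit 189) (nat_lit 1) (nat_lit 294) (nat_lit 385) (nat_lit 341))) (XT.nd (nat_lit 78) (nat_lit 228) (nat_lit 0) (XT.lf (nat_lit 76) (nat_lit 8195629190) (nat_lit 0) (nat_lit 2022893799) (nat_lit 228) (nat_lit 4200653627) (nat_lit 184) (nat_lit 1) (nat_lit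 183) (nat_lit 1) (nat_lit 186) (nat_lit 1) (nat_lit 295) (nat_lit 385) (nat_lit 340)) (XT.lf (nat_lit 76) (nat_lit 2464254099) (nat_lit 0) (nat_lit 8227584963) (nat_lit 304) (nat_lit 3472141559) (nat_lit 181) (nat_lit 1) (nat_lit 180) (nat_lit 1) (nat_lit 184) (nat_lit 1) (nat_lit 296) (nat_lit 385) (nat_lit 339)))))) (XT.nd (nat_lit 546) (nat_lit 1216) (nat_lit 0) (XT.nd (nat_lit 234) (nat_lit 912) (nat_lit 0) (XT.nd (nat_lit 78) (nat_lit 380) (nat_lit 0) (XT.lf (nat_lit 76) (nat_lit 10774021290) (nat_lit 0) (nat_lit 417897166) (nat_lit 228) (nat_lit 2722769150) (nat_lit 178) (nat_lit 1) (nat_lit 177) (nat_lit 1) (nat_lit 180) (nat_lit 1) (nat_lit 297) (nat_lit 385) (nat_lit 338)) (XT.nd (nat_lit 78) (nat_lit 152) (nat_lit 0) (XT.lf (nat_lit 76) (nat_lit 5114777770) (nat_lit 0) (nat_lit 6554837826) (nat_lit 304) (nat_lit 2000152959) (nat_lit 175) (nat_lit 1) (nat_lit 174) (nat_lit 1) (nat_lit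 178) (nat_lit 1) (nat_lit 298) (nat_lit 385) (nat_lit 337)) (XT.lf (nat_lit 228) (nat_lit 860101596) (nat_lit 0) (nat_lit 12201600166) (nat_lit 152) (nat_lit 369659073) (nat_lit 175) (nat_lit 1) (nat_lit 172) (nat_lit 1) (nat_lit 174) (nat_lit 1) (nat_lit 299) (nat_lit 385) (nat_lit 336)))) (XT.nd (nat_lit 156) (nat_lit 380) (nat_lit 0) (XT.nd (nat_lit 78) (nat_lit 304) (nat_lit 0) (XT.lf (nat_lit 76) (nat_lit 7473397437) (nat_lit 0) (nat_lit 5212216458) (nat_lit 228) (nat_lit 510778248) (nat_lit 170) (nat_lit 1) (nat_lit 169) (nat_lit 1) (nat_lit 172) (nat_lit 1) (nat_lit 300) (nat_lit 385) (nat_lit 335)) (XT.lf (nat_lit 228) (nat_lit 1823061315) (nat_lit 0) (nat_lit 252804460) (nat_lit 152) (nat_lit 10891561228) (nat_lit 168) (nat_lit 1) (nat_lit 165) (nat_lit 1) (nat_lit 167) (nat_lit 1) (nat_lit 301) (nat_lit 385) (nat_lit 334))) (XT.nd (nat_lit 78) (nat_lit 152) (nat_lit 0) (XT.lf (nat_lit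 228) (nat_lit 8580359253) (nat_lit 0) (nat_lit 999333227) (nat_lit 152) (nat_lit 3162619722) (nat_lit 165) (nat_lit 1) (nat_lit 162) (nat_lit 1) (nat_lit 164) (nat_lit 1) (nat_lit 302) (nat_lit 385) (nat_lit 333)) (XT.lf (nat_lit 228) (nat_lit 2516918676) (nat_lit 0) (nat_lit 1752867001) (nat_lit 152) (nat_lit 8252317817) (nat_lit 163) (nat_lit 1) (nat_lit 160) (nat_lit 1) (nat_lit 162) (nat_lit 1) (nat_lit 303) (nat_lit 385) (nat_lit 332))))) (XT.nd (nat_lit 234) (nat_lit 608) (nat_lit 0) (XT.nd (nat_lit 78) (nat_lit 380) (nat_lit 0) (XT.lf (nat_lit 228) (nat_lit 8948528617) (nat_lit 0) (nat_lit 2507109354) (nat_lit 152) (nat_lit 850889954) (nat_lit 160) (nat_lit 1) (nat_lit 157) (nat_lit 1) (nat_lit 159) (nat_lit 1) (nat_lit 304) (nat_lit 385) (nat_lit 331)) (XT.nd (nat_lit 78) (nat_lit 228) (nat_lit 0) (XT.lf (nat_lit 228) (nat_lit 2996133680) (nat_lit 0) (nat_lit 3236712229) (nat_lit 152) (nat_lit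 5861913436) (nat_lit 158) (nat_lit 1) (nat_lit 155) (nat_lit 1) (nat_lit 157) (nat_lit 1) (nat_lit 305) (nat_lit 385) (nat_lit 330)) (XT.lf (nat_lit 76) (nat_lit 1207724362) (nat_lit 0) (nat_lit 2771055328) (nat_lit 228) (nat_lit 7909012582) (nat_lit 153) (nat_lit 1) (nat_lit 152) (nat_lit 1) (nat_lit 155) (nat_lit 1) (nat_lit 306) (nat_lit 385) (nat_lit 329)))) (XT.nd (nat_lit 156) (nat_lit 304) (nat_lit 0) (XT.nd (nat_lit 78) (nat_lit 152) (nat_lit 0) (XT.lf (nat_lit 228) (nat_lit 3294142684) (nat_lit 0) (nat_lit 4693705071) (nat_lit 152) (nat_lit 3696540815) (nat_lit 153) (nat_lit 1) (nat_lit 150) (nat_lit 1) (nat_lit 152) (nat_lit 1) (nat_lit 307) (nat_lit 385) (nat_lit 328)) (XT.lf (nat_lit 76) (nat_lit 3046781735) (nat_lit 0) (nat_lit 2364012619) (nat_lit 152) (nat_lit 6074524526) (nat_lit 149) (nat_lit 1) (nat_lit 148) (nat_lit 1) (nat_lit 150) (nat_lit 1) (nat_lit 308) (nat_lit 385) (nat_lit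 327))) (XT.nd (nat_lit 78) (nat_lit 152) (nat_lit 0) (XT.lf (nat_lit 228) (nat_lit 3440012774) (nat_lit 0) (nat_lit 6115141660) (nat_lit 152) (nat_lit 1734913266) (nat_lit 149) (nat_lit 1) (nat_lit 146) (nat_lit 1) (nat_lit 148) (nat_lit 1) (nat_lit 309) (nat_lit 385) (nat_lit 326)) (XT.lf (nat_lit 76) (nat_lit 4702251186) (nat_lit 0) (nat_lit 2101525457) (nat_lit 152) (nat_lit 4294692066) (nat_lit 145) (nat_lit 1) (nat_lit 144) (nat_lit 1) (nat_lit 146) (nat_lit 1) (nat_lit 310) (nat_lit 385) (nat_lit 325))))))) (XT.nd (nat_lit 1092) (nat_lit 1672) (nat_lit 0) (XT.nd (nat_lit 546) (nat_lit 1064) (nat_lit 0) (XT.nd (nat_lit 234) (nat_lit 684) (nat_lit 0) (XT.nd (nat_lit 78) (nat_lit 304) (nat_lit 0) (XT.lf (nat_lit 76) (nat_lit 41201231) (nat_lit 0) (nat_lit 7452371078) (nat_lit 228) (nat_lit 3417362765) (nat_lit 143) (nat_lit 1) (nat_lit 142) (nat_lit 1) (nat_lit 145) (nat_lit 1) (nat_lit 311)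 (nat_lit 385) (nat_lit 324)) (XT.nd (nat_lit 78) (nat_lit 152) (nat_lit 0) (XT.lf (nat_lit 76) (nat_lit 6191466233) (nat_lit 0) (nat_lit 1960003574) (nat_lit 152) (nat_lit 2574957317) (nat_lit 141) (nat_lit 1) (nat_lit 140) (nat_lit 1) (nat_lit 142) (nat_lit 1) (nat_lit 312) (nat_lit 385) (nat_lit 323)) (XT.lf (nat_lit 76) (nat_lit 1619108939) (nat_lit 0) (nat_lit 7189194496) (nat_lit 228) (nat_lit 1737464182) (nat_lit 139) (nat_lit 1) (nat_lit 138) (nat_lit 1) (nat_lit 141) (nat_lit 1) (nat_lit 313) (nat_lit 385) (nat_lit 322)))) (XT.nd (nat_lit 156) (nat_lit 380) (nat_lit 0) (XT.nd (nat_lit 78) (nat_lit 152) (nat_lit 0) (XT.lf (nat_lit 76) (nat_lit 7529957964) (nat_lit 0) (nat_lit 1918991004) (nat_lit 152) (nat_lit 919493178) (nat_lit 137) (nat_lit 1) (nat_lit 136) (nat_lit 1) (nat_lit 138) (nat_lit 1) (nat_lit 314) (nat_lit 385) (nat_lit 321)) (XT.lf (nat_lit 76) (nat_lit 3047675901) (nat_lit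 0) (nat_lit 7024334732) (nat_lit 228) (nat_lit 122326939) (nat_lit 135) (nat_lit 1) (nat_lit 134) (nat_lit 1) (nat_lit 137) (nat_lit 1) (nat_lit 315) (nat_lit 385) (nat_lit 320))) (XT.nd (nat_lit 78) (nat_lit 76) (nat_lit 0) (XT.lf (nat_lit 228) (nat_lit 8056288822) (nat_lit 0) (nat_lit 681923657) (nat_lit 152) (nat_lit 1285408996) (nat_lit 133) (nat_lit 1) (nat_lit 130) (nat_lit 1) (nat_lit 132) (nat_lit 1) (nat_lit 316) (nat_lit 385) (nat_lit 319)) (XT.lf (nat_lit 152) (nat_lit 2900685491) (nat_lit 0) (nat_lit 1453669861) (nat_lit 76) (nat_lit 5501196366) (nat_lit 131) (nat_lit 1) (nat_lit 129) (nat_lit 1) (nat_lit 130) (nat_lit 1) (nat_lit 317) (nat_lit 385) (nat_lit 318))))) (XT.nd (nat_lit 234) (nat_lit 532) (nat_lit 0) (XT.nd (nat_lit 78) (nat_lit 304) (nat_lit 0) (XT.lf (nat_lit 76) (nat_lit 136533557) (nat_lit 0) (nat_lit 2092839373) (nat_lit 228) (nat_lit 7461853761) (nat_lit 127) (nat_lit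 1) (nat_lit 126) (nat_lit 1) (nat_lit 129) (nat_lit 1) (nat_lit 318) (nat_lit 385) (nat_lit 317)) (XT.nd (nat_lit 78) (nat_lit 228) (nat_lit 0) (XT.lf (nat_lit 152) (nat_lit 2576463796) (nat_lit 0) (nat_lit 2961347357) (nat_lit 76) (nat_lit 3991377209) (nat_lit 127) (nat_lit 1) (nat_lit 125) (nat_lit 1) (nat_lit 126) (nat_lit 1) (nat_lit 319) (nat_lit 385) (nat_lit 316)) (XT.lf (nat_lit 76) (nat_lit 1409980811) (nat_lit 0) (nat_lit 2283089160) (nat_lit 228) (nat_lit 5677565262) (nat_lit 123) (nat_lit 1) (nat_lit 122) (nat_lit 1) (nat_lit 125) (nat_lit 1) (nat_lit 320) (nat_lit 385) (nat_lit 315)))) (XT.nd (nat_lit 156) (nat_lit 228) (nat_lit 0) (XT.nd (nat_lit 78) (nat_lit 228) (nat_lit 0) (XT.lf (nat_lit 152) (nat_lit 2210609595) (nat_lit 0) (nat_lit 4397131082) (nat_lit 76) (nat_lit 2606961760) (nat_lit 123) (nat_lit 1) (nat_lit 121) (nat_lit 1) (nat_lit 122) (nat_lit 1) (nat_lit 321) (nat_lit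 385) (nat_lit 314)) (XT.lf (nat_lit 76) (nat_lit 2570481198) (nat_lit 0) (nat_lit 2514460476) (nat_lit 228) (nat_lit 3976715402) (nat_lit 119) (nat_lit 1) (nat_lit 118) (nat_lit 1) (nat_lit 121) (nat_lit 1) (nat_lit 322) (nat_lit 385) (nat_lit 313))) (XT.nd (nat_lit 78) (nat_lit 152) (nat_lit 0) (XT.lf (nat_lit 152) (nat_lit 1813440556) (nat_lit 0) (nat_lit 5760528847) (nat_lit 76) (nat_lit 1337583026) (nat_lit 119) (nat_lit 1) (nat_lit 117) (nat_lit 1) (nat_lit 118) (nat_lit 1) (nat_lit 323) (nat_lit 385) (nat_lit 312)) (XT.lf (nat_lit 76) (nat_lit 3627488471) (nat_lit 0) (nat_lit 2777292248) (nat_lit 152) (nat_lit 2358988328) (nat_lit 116) (nat_lit 1) (nat_lit 115) (nat_lit 1) (nat_lit 117) (nat_lit 1) (nat_lit 324) (nat_lit 385) (nat_lit 311)))))) (XT.nd (nat_lit 546) (nat_lit 836) (nat_lit 0) (XT.nd (nat_lit 234) (nat_lit 532) (nat_lit 0) (XT.nd (nat_lit 78) (nat_lit 228) (nat_lit 0) (XT.lf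 (nat_lit 152) (nat_lit 1393773325) (nat_lit 0) (nat_lit 7051595192) (nat_lit 76) (nat_lit 173864129) (nat_lit 116) (nat_lit 1) (nat_lit 114) (nat_lit 1) (nat_lit 115) (nat_lit 1) (nat_lit 325) (nat_lit 385) (nat_lit 310)) (XT.nd (nat_lit 78) (nat_lit 76) (nat_lit 0) (XT.lf (nat_lit 76) (nat_lit 4589554250) (nat_lit 0) (nat_lit 3063324359) (nat_lit 152) (nat_lit 823603405) (nat_lit 113) (nat_lit 1) (nat_lit 112) (nat_lit 1) (nat_lit 114) (nat_lit 1) (nat_lit 326) (nat_lit 385) (nat_lit 309)) (XT.lf (nat_lit 0) (nat_lit 875268844) (nat_lit 0) (nat_lit 7386736117) (nat_lit 152) (nat_lit 75007500) (nat_lit 111) (nat_lit 3) (nat_lit 111) (nat_lit 1) (nat_lit 113) (nat_lit 1) (nat_lit 327) (nat_lit 385) (nat_lit 308)))) (XT.nd (nat_lit 156) (nat_lit 228) (nat_lit 0) (XT.nd (nat_lit 78) (nat_lit 76) (nat_lit 0) (XT.lf (nat_lit 152) (nat_lit 4827450827) (nat_lit 0) (nat_lit 643156597) (nat_lit 76) (nat_lit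 2728544880) (nat_lit 110) (nat_lit 1) (nat_lit 108) (nat_lit 1) (nat_lit 109) (nat_lit 1) (nat_lit 328) (nat_lit 385) (nat_lit 307)) (XT.lf (nat_lit 76) (nat_lit 483826933) (nat_lit 0) (nat_lit 1362563886) (nat_lit 76) (nat_lit 6217897578) (nat_lit 108) (nat_lit 3) (nat_lit 107) (nat_lit 1) (nat_lit 108) (nat_lit 1) (nat_lit 329) (nat_lit 385) (nat_lit 306))) (XT.nd (nat_lit 78) (nat_lit 76) (nat_lit 0) (XT.lf (nat_lit 152) (nat_lit 4233754242) (nat_lit 0) (nat_lit 2045031806) (nat_lit 76) (nat_lit 1652530492) (nat_lit 107) (nat_lit 1) (nat_lit 105) (nat_lit 1) (nat_lit 106) (nat_lit 1) (nat_lit 330) (nat_lit 385) (nat_lit 305)) (XT.lf (nat_lit 76) (nat_lit 14973270) (nat_lit 0) (nat_lit 2721652753) (nat_lit 76) (nat_lit 5064459781) (nat_lit 105) (nat_lit 3) (nat_lit 104) (nat_lit 1) (nat_lit 105) (nat_lit 1) (nat_lit 331) (nat_lit 385) (nat_lit 304))))) (XT.nd (nat_lit 234) (nat_lit 456) (nat_lit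 0) (XT.nd (nat_lit 78) (nat_lit 228) (nat_lit 0) (XT.lf (nat_lit 152) (nat_lit 3645006864) (nat_lit 0) (nat_lit 3367409825) (nat_lit 76) (nat_lit 660395395) (nat_lit 104) (nat_lit 1) (nat_lit 102) (nat_lit 1) (nat_lit 103) (nat_lit 1) (nat_lit 332) (nat_lit 385) (nat_lit 303)) (XT.nd (nat_lit 78) (nat_lit 76) (nat_lit 0) (XT.lf (nat_lit 76) (nat_lit 3555836922) (nat_lit 0) (nat_lit 442299860) (nat_lit 152) (nat_lit 3548765377) (nat_lit 101) (nat_lit 1) (nat_lit 100) (nat_lit 1) (nat_lit 102) (nat_lit 1) (nat_lit 333) (nat_lit 385) (nat_lit 302)) (XT.lf (nat_lit 0) (nat_lit 249111443) (nat_lit 0) (nat_lit 4360654757) (nat_lit 152) (nat_lit 2813417997) (nat_lit 99) (nat_lit 3) (nat_lit 99) (nat_lit 1) (nat_lit 101) (nat_lit 1) (nat_lit 334) (nat_lit 385) (nat_lit 301)))) (XT.nd (nat_lit 156) (nat_lit 228) (nat_lit 0) (XT.nd (nat_lit 78) (nat_lit 76) (nat_lit 0) (XT.lf (nat_lit 76) (nat_lit 4305478199)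 (nat_lit 0) (nat_lit 892951981) (nat_lit 152) (nat_lit 2103063015) (nat_lit 98) (nat_lit 1) (nat_lit 97) (nat_lit 1) (nat_lit 99) (nat_lit 1) (nat_lit 335) (nat_lit 385) (nat_lit 300)) (XT.lf (nat_lit 0) (nat_lit 1075139063) (nat_lit 0) (nat_lit 4695809924) (nat_lit 152) (nat_lit 1411027463) (nat_lit 96) (nat_lit 3) (nat_lit 96) (nat_lit 1) (nat_lit 98) (nat_lit 1) (nat_lit 336) (nat_lit 385) (nat_lit 299))) (XT.nd (nat_lit 78) (nat_lit 76) (nat_lit 0) (XT.lf (nat_lit 76) (nat_lit 4990590138) (nat_lit 0) (nat_lit 1334306003) (nat_lit 152) (nat_lit 739616776) (nat_lit 95) (nat_lit 1) (nat_lit 94) (nat_lit 1) (nat_lit 96) (nat_lit 1) (nat_lit 337) (nat_lit 385) (nat_lit 298)) (XT.lf (nat_lit 0) (nat_lit 1835664428) (nat_lit 0) (nat_lit 5024067538) (nat_lit 152) (nat_lit 89305501) (nat_lit 93) (nat_lit 3) (nat_lit 93) (nat_lit 1) (nat_lit 95) (nat_lit 1) (nat_lit 338) (nat_lit 385) (nat_lit 297))))))))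
noncomputable def ec96 : XT := (XT.nd (nat_lit 2106) (nat_lit 2964) (nat_lit 0) (XT.nd (nat_lit 1014) (nat_lit 1748) (nat_lit 0) (XT.nd (nat_lit 468) (nat_lit 912) (nat_lit 0) (XT.nd (nat_lit 234) (nat_lit 304) (nat_lit 0) (XT.nd (nat_lit 78) (nat_lit 228) (nat_lit 0) (XT.lf (nat_lit 152) (nat_lit 5066191044) (nat_lit 0) (nat_lit 555061530) (nat_lit 76) (nat_lit 1214217248) (nat_lit 92) (nat_lit 1) (nat_lit 90) (nat_lit 1) (nat_lit 91) (nat_lit 1) (nat_lit 339) (nat_lit 385) (nat_lit 296)) (XT.nd (nat_lit 78) (nat_lit 152) (nat_lit 0) (XT.lf (nat_lit 76) (nat_lit 1369289949) (nat_lit 0) (nat_lit 1177380935) (nat_lit 76) (nat_lit 4177033260) (nat_lit 90) (nat_lit 3) (nat_lit 89) (nat_lit 1) (nat_lit 90) (nat_lit 1) (nat_lit 340) (nat_lit 385) (nat_lit 295)) (XT.lf (nat_lit 152) (nat_lit 4416925811) (nat_lit 0) (nat_lit 1786049812) (nat_lit 76) (nat_lit 411039380) (nat_lit 89) (nat_lit 1) (nat_lit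 87) (nat_lit 1) (nat_lit 88) (nat_lit 1) (nat_lit 341) (nat_lit 385) (nat_lit 294)))) (XT.nd (nat_lit 78) (nat_lit 228) (nat_lit 0) (XT.lf (nat_lit 76) (nat_lit 832213917) (nat_lit 0) (nat_lit 2369047263) (nat_lit 76) (nat_lit 3304743966) (nat_lit 87) (nat_lit 3) (nat_lit 86) (nat_lit 1) (nat_lit 87) (nat_lit 1) (nat_lit 342) (nat_lit 385) (nat_lit 293)) (XT.nd (nat_lit 78) (nat_lit 76) (nat_lit 0) (XT.lf (nat_lit 0) (nat_lit 325971954) (nat_lit 0) (nat_lit 2612176345) (nat_lit 152) (nat_lit 3461823010) (nat_lit 84) (nat_lit 3) (nat_lit 84) (nat_lit 1) (nat_lit 86) (nat_lit 1) (nat_lit 343) (nat_lit 385) (nat_lit 292)) (XT.lf (nat_lit 76) (nat_lit 315812472) (nat_lit 0) (nat_lit 3486712266) (nat_lit 76) (nat_lit 2493149988) (nat_lit 84) (nat_lit 3) (nat_lit 83) (nat_lit 1) (nat_lit 84) (nat_lit 1) (nat_lit 344) (nat_lit 385) (nat_lit 291))))) (XT.nd (nat_lit 234) (nat_lit 532) (nat_lit 0) (XT.nd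 (nat_lit 78) (nat_lit 228) (nat_lit 0) (XT.lf (nat_lit 0) (nat_lit 1000350843) (nat_lit 0) (nat_lit 3013607908) (nat_lit 152) (nat_lit 2179089431) (nat_lit 81) (nat_lit 3) (nat_lit 81) (nat_lit 1) (nat_lit 83) (nat_lit 1) (nat_lit 345) (nat_lit 385) (nat_lit 290)) (XT.nd (nat_lit 78) (nat_lit 76) (nat_lit 0) (XT.lf (nat_lit 76) (nat_lit 4355836238) (nat_lit 0) (nat_lit 175573105) (nat_lit 152) (nat_lit 1560974276) (nat_lit 80) (nat_lit 1) (nat_lit 79) (nat_lit 1) (nat_lit 81) (nat_lit 1) (nat_lit 346) (nat_lit 385) (nat_lit 289)) (XT.lf (nat_lit 0) (nat_lit 1623722202) (nat_lit 0) (nat_lit 3396618810) (nat_lit 152) (nat_lit 972751891) (nat_lit 78) (nat_lit 3) (nat_lit 78) (nat_lit 1) (nat_lit 80) (nat_lit 1) (nat_lit 347) (nat_lit 385) (nat_lit 288)))) (XT.nd (nat_lit 156) (nat_lit 228) (nat_lit 0) (XT.nd (nat_lit 78) (nat_lit 152) (nat_lit 0) (XT.lf (nat_lit 76) (nat_lit 4865669104) (nat_lit 0)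 (nat_lit 639133559) (nat_lit 152) (nat_lit 391031833) (nat_lit 77) (nat_lit 1) (nat_lit 76) (nat_lit 1) (nat_lit 78) (nat_lit 1) (nat_lit 348) (nat_lit 385) (nat_lit 287)) (XT.lf (nat_lit 76) (nat_lit 2037577520) (nat_lit 0) (nat_lit 163412431) (nat_lit 76) (nat_lit 3598810029) (nat_lit 75) (nat_lit 3) (nat_lit 74) (nat_lit 1) (nat_lit 75) (nat_lit 1) (nat_lit 349) (nat_lit 385) (nat_lit 286))) (XT.nd (nat_lit 78) (nat_lit 76) (nat_lit 0) (XT.lf (nat_lit 152) (nat_lit 4618027695) (nat_lit 0) (nat_lit 721002958) (nat_lit 76) (nat_lit 366628106) (nat_lit 74) (nat_lit 1) (nat_lit 72) (nat_lit 1) (nat_lit 73) (nat_lit 1) (nat_lit 350) (nat_lit 385) (nat_lit 285)) (XT.lf (nat_lit 76) (nat_lit 1495348791) (nat_lit 0) (nat_lit 1247168425) (nat_lit 76) (nat_lit 2870187538) (nat_lit 72) (nat_lit 3) (nat_lit 71) (nat_lit 1) (nat_lit 72) (nat_lit 1) (nat_lit 351) (nat_lit 385) (nat_lit 284)))))) (XT.nd (nat_lit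 546) (nat_lit 912) (nat_lit 0) (XT.nd (nat_lit 234) (nat_lit 456) (nat_lit 0) (XT.nd (nat_lit 78) (nat_lit 228) (nat_lit 0) (XT.lf (nat_lit 0) (nat_lit 248357356) (nat_lit 0) (nat_lit 1519590594) (nat_lit 152) (nat_lit 3753708389) (nat_lit 69) (nat_lit 3) (nat_lit 69) (nat_lit 1) (nat_lit 71) (nat_lit 1) (nat_lit 352) (nat_lit 385) (nat_lit 283)) (XT.nd (nat_lit 78) (nat_lit 152) (nat_lit 0) (XT.lf (nat_lit 76) (nat_lit 979499638) (nat_lit 0) (nat_lit 2262159683) (nat_lit 76) (nat_lit 2190197959) (nat_lit 69) (nat_lit 3) (nat_lit 68) (nat_lit 1) (nat_lit 69) (nat_lit 1) (nat_lit 353) (nat_lit 385) (nat_lit 282)) (XT.lf (nat_lit 0) (nat_lit 812433344) (nat_lit 0) (nat_lit 1931895500) (nat_lit 152) (nat_lit 2599363262) (nat_lit 66) (nat_lit 3) (nat_lit 66) (nat_lit 1) (nat_lit 68) (nat_lit 1) (nat_lit 354) (nat_lit 385) (nat_lit 281)))) (XT.nd (nat_lit 156) (nat_lit 228) (nat_lit 0) (XT.nd (nat_lit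 78) (nat_lit 152) (nat_lit 0) (XT.lf (nat_lit 76) (nat_lit 489773657) (nat_lit 0) (nat_lit 3211330240) (nat_lit 76) (nat_lit 1555928092) (nat_lit 66) (nat_lit 3) (nat_lit 65) (nat_lit 1) (nat_lit 66) (nat_lit 1) (nat_lit 355) (nat_lit 385) (nat_lit 280)) (XT.lf (nat_lit 0) (nat_lit 1335430737) (nat_lit 0) (nat_lit 2321241587) (nat_lit 152) (nat_lit 1514978448) (nat_lit 63) (nat_lit 3) (nat_lit 63) (nat_lit 1) (nat_lit 65) (nat_lit 1) (nat_lit 356) (nat_lit 385) (nat_lit 279))) (XT.nd (nat_lit 78) (nat_lit 152) (nat_lit 0) (XT.lf (nat_lit 76) (nat_lit 25793791) (nat_lit 0) (nat_lit 4097558081) (nat_lit 76) (nat_lit 964661267) (nat_lit 63) (nat_lit 3) (nat_lit 62) (nat_lit 1) (nat_lit 63) (nat_lit 1) (nat_lit 357) (nat_lit 385) (nat_lit 278)) (XT.lf (nat_lit 0) (nat_lit 1819845260) (nat_lit 0) (nat_lit 2687961280) (nat_lit 152) (nat_lit 497514311) (nat_lit 60) (nat_lit 3) (nat_lit 60) (nat_lit 1)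 (nat_lit 62) (nat_lit 1) (nat_lit 358) (nat_lit 385) (nat_lit 277))))) (XT.nd (nat_lit 234) (nat_lit 456) (nat_lit 0) (XT.nd (nat_lit 78) (nat_lit 304) (nat_lit 0) (XT.lf (nat_lit 76) (nat_lit 4514702590) (nat_lit 0) (nat_lit 404858855) (nat_lit 152) (nat_lit 4913686) (nat_lit 59) (nat_lit 1) (nat_lit 58) (nat_lit 1) (nat_lit 60) (nat_lit 1) (nat_lit 359) (nat_lit 385) (nat_lit 276)) (XT.nd (nat_lit 78) (nat_lit 152) (nat_lit 0) (XT.lf (nat_lit 76) (nat_lit 1807415749) (nat_lit 0) (nat_lit 465061549) (nat_lit 76) (nat_lit 2571888391) (nat_lit 57) (nat_lit 3) (nat_lit 56) (nat_lit 1) (nat_lit 57) (nat_lit 1) (nat_lit 360) (nat_lit 385) (nat_lit 275)) (XT.lf (nat_lit 0) (nat_lit 114030670) (nat_lit 0) (nat_lit 820893954) (nat_lit 152) (nat_lit 3831110775) (nat_lit 54) (nat_lit 3) (nat_lit 54) (nat_lit 1) (nat_lit 56) (nat_lit 1) (nat_lit 361) (nat_lit 385) (nat_lit 274)))) (XT.nd (nat_lit 156) (nat_lit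 228) (nat_lit 0) (XT.nd (nat_lit 78) (nat_lit 152) (nat_lit 0) (XT.lf (nat_lit 76) (nat_lit 1320081008) (nat_lit 0) (nat_lit 1375231791) (nat_lit 76) (nat_lit 1993284136) (nat_lit 54) (nat_lit 3) (nat_lit 53) (nat_lit 1) (nat_lit 54) (nat_lit 1) (nat_lit 362) (nat_lit 385) (nat_lit 273)) (XT.lf (nat_lit 0) (nat_lit 593886016) (nat_lit 0) (nat_lit 1216357702) (nat_lit 152) (nat_lit 2802479816) (nat_lit 51) (nat_lit 3) (nat_lit 51) (nat_lit 1) (nat_lit 53) (nat_lit 1) (nat_lit 363) (nat_lit 385) (nat_lit 272))) (XT.nd (nat_lit 78) (nat_lit 152) (nat_lit 0) (XT.lf (nat_lit 76) (nat_lit 859604486) (nat_lit 0) (nat_lit 2225934787) (nat_lit 76) (nat_lit 1452434663) (nat_lit 51) (nat_lit 3) (nat_lit 50) (nat_lit 1) (nat_lit 51) (nat_lit 1) (nat_lit 364) (nat_lit 385) (nat_lit 271)) (XT.lf (nat_lit 0) (nat_lit 1039814110) (nat_lit 0) (nat_lit 1587969614) (nat_lit 152) (nat_lit 1836691867) (nat_lit 48)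 (nat_lit 3) (nat_lit 48) (nat_lit 1) (nat_lit 50) (nat_lit 1) (nat_lit 365) (nat_lit 385) (nat_lit 270))))))) (XT.nd (nat_lit 1092) (nat_lit 1216) (nat_lit 0) (XT.nd (nat_lit 546) (nat_lit 836) (nat_lit 0) (XT.nd (nat_lit 234) (nat_lit 608) (nat_lit 0) (XT.nd (nat_lit 78) (nat_lit 228) (nat_lit 0) (XT.lf (nat_lit 76) (nat_lit 425172335) (nat_lit 0) (nat_lit 3019919723) (nat_lit 76) (nat_lit 947225195) (nat_lit 48) (nat_lit 3) (nat_lit 47) (nat_lit 1) (nat_lit 48) (nat_lit 1) (nat_lit 366) (nat_lit 385) (nat_lit 269)) (XT.nd (nat_lit 78) (nat_lit 76) (nat_lit 0) (XT.lf (nat_lit 0) (nat_lit 1453761204) (nat_lit 0) (nat_lit 1936473049) (nat_lit 152) (nat_lit 930881081) (nat_lit 45) (nat_lit 3) (nat_lit 45) (nat_lit 1) (nat_lit 47) (nat_lit 1) (nat_lit 367) (nat_lit 385) (nat_lit 268)) (XT.lf (nat_lit 76) (nat_lit 15942318) (nat_lit 0) (nat_lit 3759844367) (nat_lit 76) (nat_lit 475667884) (nat_lit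 45) (nat_lit 3) (nat_lit 44) (nat_lit 1) (nat_lit 45) (nat_lit 1) (nat_lit 368) (nat_lit 385) (nat_lit 267)))) (XT.nd (nat_lit 156) (nat_lit 228) (nat_lit 0) (XT.nd (nat_lit 78) (nat_lit 228) (nat_lit 0) (XT.lf (nat_lit 0) (nat_lit 1837556201) (nat_lit 0) (nat_lit 2262637631) (nat_lit 152) (nat_lit 82279646) (nat_lit 42) (nat_lit 3) (nat_lit 42) (nat_lit 1) (nat_lit 44) (nat_lit 1) (nat_lit 369) (nat_lit 385) (nat_lit 266)) (XT.lf (nat_lit 152) (nat_lit 3750039002) (nat_lit 0) (nat_lit 336065914) (nat_lit 76) (nat_lit 28912101) (nat_lit 41) (nat_lit 1) (nat_lit 39) (nat_lit 1) (nat_lit 40) (nat_lit 1) (nat_lit 370) (nat_lit 385) (nat_lit 265))) (XT.nd (nat_lit 78) (nat_lit 152) (nat_lit 0) (XT.lf (nat_lit 76) (nat_lit 1473948989) (nat_lit 0) (nat_lit 725948568) (nat_lit 76) (nat_lit 1848280434) (nat_lit 39) (nat_lit 3) (nat_lit 38) (nat_lit 1) (nat_lit 39) (nat_lit 1) (nat_lit 371) (nat_lit 385)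 (nat_lit 264)) (XT.lf (nat_lit 0) (nat_lit 384520782) (nat_lit 0) (nat_lit 730643246) (nat_lit 152) (nat_lit 2867644928) (nat_lit 36) (nat_lit 3) (nat_lit 36) (nat_lit 1) (nat_lit 38) (nat_lit 1) (nat_lit 372) (nat_lit 385) (nat_lit 263))))) (XT.nd (nat_lit 234) (nat_lit 532) (nat_lit 0) (XT.nd (nat_lit 78) (nat_lit 228) (nat_lit 0) (XT.lf (nat_lit 76) (nat_lit 1052908912) (nat_lit 0) (nat_lit 1482814608) (nat_lit 76) (nat_lit 1382549354) (nat_lit 36) (nat_lit 3) (nat_lit 35) (nat_lit 1) (nat_lit 36) (nat_lit 1) (nat_lit 373) (nat_lit 385) (nat_lit 262)) (XT.nd (nat_lit 78) (nat_lit 76) (nat_lit 0) (XT.lf (nat_lit 0) (nat_lit 768860705) (nat_lit 0) (nat_lit 1073660004) (nat_lit 152) (nat_lit 2012417915) (nat_lit 33) (nat_lit 3) (nat_lit 33) (nat_lit 1) (nat_lit 35) (nat_lit 1) (nat_lit 374) (nat_lit 385) (nat_lit 261)) (XT.lf (nat_lit 76) (nat_lit 656568798) (nat_lit 0) (nat_lit 2189208485) (nat_lit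 76) (nat_lit 946853845) (nat_lit 33) (nat_lit 3) (nat_lit 32) (nat_lit 1) (nat_lit 33) (nat_lit 1) (nat_lit 375) (nat_lit 385) (nat_lit 260)))) (XT.nd (nat_lit 156) (nat_lit 304) (nat_lit 0) (XT.nd (nat_lit 78) (nat_lit 76) (nat_lit 0) (XT.lf (nat_lit 0) (nat_lit 1126239646) (nat_lit 0) (nat_lit 1394649305) (nat_lit 152) (nat_lit 1210376719) (nat_lit 30) (nat_lit 3) (nat_lit 30) (nat_lit 1) (nat_lit 32) (nat_lit 1) (nat_lit 376) (nat_lit 385) (nat_lit 259)) (XT.lf (nat_lit 76) (nat_lit 283958487) (nat_lit 0) (nat_lit 2847562025) (nat_lit 76) (nat_lit 539586734) (nat_lit 30) (nat_lit 3) (nat_lit 29) (nat_lit 1) (nat_lit 30) (nat_lit 1) (nat_lit 377) (nat_lit 385) (nat_lit 258))) (XT.nd (nat_lit 78) (nat_lit 152) (nat_lit 0) (XT.lf (nat_lit 0) (nat_lit 1458138308) (nat_lit 0) (nat_lit 1694502845) (nat_lit 152) (nat_lit 459005825) (nat_lit 27) (nat_lit 3) (nat_lit 27) (nat_lit 1) (nat_lit 29) (nat_lit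 1) (nat_lit 378) (nat_lit 385) (nat_lit 257)) (XT.lf (nat_lit 76) (nat_lit 3394965903) (nat_lit 0) (nat_lit 64594986) (nat_lit 152) (nat_lit 93981260) (nat_lit 26) (nat_lit 1) (nat_lit 25) (nat_lit 1) (nat_lit 27) (nat_lit 1) (nat_lit 379) (nat_lit 385) (nat_lit 256)))))) (XT.nd (nat_lit 546) (nat_lit 380) (nat_lit 0) (XT.nd (nat_lit 234) (nat_lit 456) (nat_lit 0) (XT.nd (nat_lit 78) (nat_lit 228) (nat_lit 0) (XT.lf (nat_lit 76) (nat_lit 1519378415) (nat_lit 0) (nat_lit 248970869) (nat_lit 76) (nat_lit 1727523661) (nat_lit 24) (nat_lit 3) (nat_lit 23) (nat_lit 1) (nat_lit 24) (nat_lit 1) (nat_lit 380) (nat_lit 385) (nat_lit 255)) (XT.nd (nat_lit 78) (nat_lit 76) (nat_lit 0) (XT.lf (nat_lit 0) (nat_lit 201463715) (nat_lit 0) (nat_lit 393923489) (nat_lit 152) (nat_lit 2844125606) (nat_lit 21) (nat_lit 3) (nat_lit 21) (nat_lit 1) (nat_lit 23) (nat_lit 1) (nat_lit 381) (nat_lit 385) (nat_lit 254))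 (XT.lf (nat_lit 76) (nat_lit 1140613840) (nat_lit 0) (nat_lit 919238451) (nat_lit 76) (nat_lit 1323908862) (nat_lit 21) (nat_lit 3) (nat_lit 20) (nat_lit 1) (nat_lit 21) (nat_lit 1) (nat_lit 382) (nat_lit 385) (nat_lit 253)))) (XT.nd (nat_lit 156) (nat_lit 228) (nat_lit 0) (XT.nd (nat_lit 78) (nat_lit 76) (nat_lit 0) (XT.lf (nat_lit 0) (nat_lit 535052949) (nat_lit 0) (nat_lit 704535171) (nat_lit 152) (nat_lit 2089560992) (nat_lit 18) (nat_lit 3) (nat_lit 18) (nat_lit 1) (nat_lit 20) (nat_lit 1) (nat_lit 383) (nat_lit 385) (nat_lit 252)) (XT.lf (nat_lit 76) (nat_lit 784485401) (nat_lit 0) (nat_lit 1544935628) (nat_lit 76) (nat_lit 945897041) (nat_lit 18) (nat_lit 3) (nat_lit 17) (nat_lit 1) (nat_lit 18) (nat_lit 1) (nat_lit 384) (nat_lit 385) (nat_lit 251))) (XT.nd (nat_lit 78) (nat_lit 76) (nat_lit 0) (XT.lf (nat_lit 0) (nat_lit 845649290) (nat_lit 0) (nat_lit 994897223) (nat_lit 152) (nat_lit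 1381851679) (nat_lit 15) (nat_lit 3) (nat_lit 15) (nat_lit 1) (nat_lit 17) (nat_lit 1) (nat_lit 385) (nat_lit 385) (nat_lit 250)) (XT.lf (nat_lit 76) (nat_lit 450017449) (nat_lit 0) (nat_lit 2128244040) (nat_lit 76) (nat_lit 592158338) (nat_lit 15) (nat_lit 3) (nat_lit 14) (nat_lit 1) (nat_lit 15) (nat_lit 1) (nat_lit 386) (nat_lit 385) (nat_lit 249))))) (XT.nd (nat_lit 42276) (nat_lit 0) (nat_lit 27740) (XT.nd (nat_lit 78) (nat_lit 228) (nat_lit 0) (XT.lf (nat_lit 0) (nat_lit 1134479289) (nat_lit 0) (nat_lit 1265908682) (nat_lit 152) (nat_lit 718750147) (nat_lit 12) (nat_lit 3) (nat_lit 12) (nat_lit 1) (nat_lit 14) (nat_lit 1) (nat_lit 387) (nat_lit 385) (nat_lit 248)) (XT.nd (nat_lit 78) (nat_lit 152) (nat_lit 0) (XT.lf (nat_lit 76) (nat_lit 136260180) (nat_lit 0) (nat_lit 2671255806) (nat_lit 76) (nat_lit 261431030) (nat_lit 12) (nat_lit 3) (nat_lit 11) (nat_lit 1) (nat_lit 12) (nat_lit 1) (nat_lit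 388) (nat_lit 385) (nat_lit 247)) (XT.lf (nat_lit 0) (nat_lit 1402706088) (nat_lit 0) (nat_lit 1518444276) (nat_lit 152) (nat_lit 98100974) (nat_lit 9) (nat_lit 3) (nat_lit 9) (nat_lit 1) (nat_lit 11) (nat_lit 1) (nat_lit 389) (nat_lit 385) (nat_lit 246)))) (XT.nd (nat_lit 156) (nat_lit 0) (nat_lit 76) (XT.nd (nat_lit 78) (nat_lit 0) (nat_lit 76) (XT.lf (nat_lit 1292) (nat_lit 3518620548) (nat_lit 0) (nat_lit 12105691087) (nat_lit 1292) (nat_lit 3518620548) (nat_lit 391) (nat_lit 1) (nat_lit 374) (nat_lit 0) (nat_lit 391) (nat_lit 0) (nat_lit 248) (nat_lit 386) (nat_lit 386)) (XT.lf (nat_lit 1292) (nat_lit 282093977) (nat_lit 0) (nat_lit 23869877226) (nat_lit 1216) (nat_lit 13215276268) (nat_lit 392) (nat_lit 1) (nat_lit 375) (nat_lit 1) (nat_lit 391) (nat_lit 1) (nat_lit 249) (nat_lit 386) (nat_lit 385))) (XT.nd (nat_lit 78) (nat_lit 0) (nat_lit 76) (XT.lf (nat_lit 1292) (nat_lit 12410922126)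 (nat_lit 76) (nat_lit 17554795196) (nat_lit 0) (nat_lit 6511021449) (nat_lit 392) (nat_lit 1) (nat_lit 376) (nat_lit 1) (nat_lit 375) (nat_lit 1) (nat_lit 250) (nat_lit 386) (nat_lit 384)) (XT.lf (nat_lit 1292) (nat_lit 10910252938) (nat_lit 76) (nat_lit 11490869622) (nat_lit 0) (nat_lit 13213941132) (nat_lit 393) (nat_lit 1) (nat_lit 377) (nat_lit 1) (nat_lit 376) (nat_lit 1) (nat_lit 251) (nat_lit 386) (nat_lit 383))))))))
noncomputable def ec97 : XT := (XT.nd (nat_lit 2184) (nat_lit 6764) (nat_lit 0) (XT.nd (nat_lit 1092) (nat_lit 6080) (nat_lit 0) (XT.nd (nat_lit 546) (nat_lit 3648) (nat_lit 0) (XT.nd (nat_lit 234) (nat_lit 1064) (nat_lit 0) (XT.nd (nat_lit 78) (nat_lit 0) (nat_lit 76) (XT.lf (nat_lit 1292) (nat_lit 9028968950) (nat_lit 76) (nat_lit 5935634375) (nat_lit 0) (nat_lit 19816650195) (nat_lit 394) (nat_lit 1) (nat_lit 378) (nat_lit 1) (nat_lit 377) (nat_lit 1) (nat_lit 252) (nat_lit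 386) (nat_lit 382)) (XT.nd (nat_lit 78) (nat_lit 0) (nat_lit 76) (XT.lf (nat_lit 1292) (nat_lit 6796082154) (nat_lit 76) (nat_lit 862953445) (nat_lit 0) (nat_lit 26315262867) (nat_lit 395) (nat_lit 1) (nat_lit 379) (nat_lit 1) (nat_lit 378) (nat_lit 1) (nat_lit 253) (nat_lit 386) (nat_lit 381)) (XT.lf (nat_lit 1292) (nat_lit 522922279) (nat_lit 0) (nat_lit 28990346951) (nat_lit 1216) (nat_lit 3678877601) (nat_lit 396) (nat_lit 1) (nat_lit 379) (nat_lit 1) (nat_lit 395) (nat_lit 1) (nat_lit 254) (nat_lit 386) (nat_lit 380)))) (XT.nd (nat_lit 156) (nat_lit 0) (nat_lit 76) (XT.nd (nat_lit 78) (nat_lit 1216) (nat_lit 0) (XT.lf (nat_lit 1292) (nat_lit 1239439561) (nat_lit 76) (nat_lit 24590989769) (nat_lit 0) (nat_lit 6602492290) (nat_lit 396) (nat_lit 1) (nat_lit 380) (nat_lit 1) (nat_lit 379) (nat_lit 1) (nat_lit 255) (nat_lit 386) (nat_lit 379)) (XT.lf (nat_lit 1368) (nat_lit 18114395138) (nat_lit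 0) (nat_lit 1957976665) (nat_lit 1292) (nat_lit 11624812361) (nat_lit 381) (nat_lit 1) (nat_lit 363) (nat_lit 1) (nat_lit 380) (nat_lit 1) (nat_lit 256) (nat_lit 386) (nat_lit 378))) (XT.nd (nat_lit 78) (nat_lit 0) (nat_lit 76) (XT.lf (nat_lit 1368) (nat_lit 10573274258) (nat_lit 0) (nat_lit 5372457325) (nat_lit 1292) (nat_lit 15038639140) (nat_lit 382) (nat_lit 1) (nat_lit 364) (nat_lit 1) (nat_lit 381) (nat_lit 1) (nat_lit 257) (nat_lit 386) (nat_lit 377)) (XT.lf (nat_lit 76) (nat_lit 3195299573) (nat_lit 0) (nat_lit 9007243587) (nat_lit 1292) (nat_lit 18091470621) (nat_lit 366) (nat_lit 1) (nat_lit 365) (nat_lit 1) (nat_lit 382) (nat_lit 1) (nat_lit 258) (nat_lit 386) (nat_lit 376))))) (XT.nd (nat_lit 234) (nat_lit 1748) (nat_lit 0) (XT.nd (nat_lit 78) (nat_lit 1216) (nat_lit 0) (XT.lf (nat_lit 912) (nat_lit 16742103942) (nat_lit 0) (nat_lit 8782378603) (nat_lit 836) (nat_lit 4099655746) (nat_lit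 366) (nat_lit 1) (nat_lit 354) (nat_lit 1) (nat_lit 365) (nat_lit 1) (nat_lit 259) (nat_lit 386) (nat_lit 375)) (XT.nd (nat_lit 78) (nat_lit 608) (nat_lit 0) (XT.lf (nat_lit 684) (nat_lit 12005658638) (nat_lit 0) (nat_lit 5676284261) (nat_lit 608) (nat_lit 11292329656) (nat_lit 355) (nat_lit 1) (nat_lit 346) (nat_lit 1) (nat_lit 354) (nat_lit 1) (nat_lit 260) (nat_lit 386) (nat_lit 374)) (XT.lf (nat_lit 684) (nat_lit 7126392689) (nat_lit 0) (nat_lit 2898475304) (nat_lit 608) (nat_lit 18319755716) (nat_lit 347) (nat_lit 1) (nat_lit 338) (nat_lit 1) (nat_lit 346) (nat_lit 1) (nat_lit 261) (nat_lit 386) (nat_lit 373)))) (XT.nd (nat_lit 156) (nat_lit 1140) (nat_lit 0) (XT.nd (nat_lit 78) (nat_lit 76) (nat_lit 0) (XT.lf (nat_lit 608) (nat_lit 2119974587) (nat_lit 0) (nat_lit 431734377) (nat_lit 532) (nat_lit 25182778358) (nat_lit 339) (nat_lit 1) (nat_lit 331) (nat_lit 1) (nat_lit 338) (nat_lit 1) (nat_lit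 262) (nat_lit 386) (nat_lit 372)) (XT.lf (nat_lit 76) (nat_lit 22354232454) (nat_lit 0) (nat_lit 3004029575) (nat_lit 608) (nat_lit 1782149589) (nat_lit 331) (nat_lit 1) (nat_lit 330) (nat_lit 1) (nat_lit 338) (nat_lit 1) (nat_lit 263) (nat_lit 386) (nat_lit 371))) (XT.nd (nat_lit 78) (nat_lit 532) (nat_lit 0) (XT.lf (nat_lit 76) (nat_lit 14595900727) (nat_lit 0) (nat_lit 8208357470) (nat_lit 684) (nat_lit 3758873122) (nat_lit 323) (nat_lit 1) (nat_lit 322) (nat_lit 1) (nat_lit 331) (nat_lit 1) (nat_lit 264) (nat_lit 386) (nat_lit 370)) (XT.lf (nat_lit 76) (nat_lit 7035291540) (nat_lit 0) (nat_lit 13492463565) (nat_lit 608) (nat_lit 5475757354) (nat_lit 316) (nat_lit 1) (nat_lit 315) (nat_lit 1) (nat_lit 323) (nat_lit 1) (nat_lit 265) (nat_lit 386) (nat_lit 369)))))) (XT.nd (nat_lit 546) (nat_lit 2660) (nat_lit 0) (XT.nd (nat_lit 234) (nat_lit 1824) (nat_lit 0) (XT.nd (nat_lit 78) (nat_lit 1064)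 (nat_lit 0) (XT.lf (nat_lit 608) (nat_lit 6612967033) (nat_lit 0) (nat_lit 18510943906) (nat_lit 532) (nat_lit 336942938) (nat_lit 316) (nat_lit 1) (nat_lit 308) (nat_lit 1) (nat_lit 315) (nat_lit 1) (nat_lit 266) (nat_lit 386) (nat_lit 368)) (XT.nd (nat_lit 78) (nat_lit 608) (nat_lit 0) (XT.lf (nat_lit 532) (nat_lit 605124066) (nat_lit 0) (nat_lit 16674248240) (nat_lit 456) (nat_lit 7653286530) (nat_lit 309) (nat_lit 1) (nat_lit 302) (nat_lit 1) (nat_lit 308) (nat_lit 1) (nat_lit 267) (nat_lit 386) (nat_lit 367)) (XT.lf (nat_lit 76) (nat_lit 9695921640) (nat_lit 0) (nat_lit 5325803416) (nat_lit 608) (nat_lit 9397144872) (nat_lit 295) (nat_lit 1) (nat_lit 294) (nat_lit 1) (nat_lit 302) (nat_lit 1) (nat_lit 268) (nat_lit 386) (nat_lit 366)))) (XT.nd (nat_lit 156) (nat_lit 912) (nat_lit 0) (XT.nd (nat_lit 78) (nat_lit 456) (nat_lit 0) (XT.lf (nat_lit 76) (nat_lit 2323738852) (nat_lit 0) (nat_lit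 11264624533) (nat_lit 532) (nat_lit 10331970641) (nat_lit 289) (nat_lit 1) (nat_lit 288) (nat_lit 1) (nat_lit 295) (nat_lit 1) (nat_lit 269) (nat_lit 386) (nat_lit 365)) (XT.lf (nat_lit 532) (nat_lit 6172821217) (nat_lit 0) (nat_lit 12319271752) (nat_lit 456) (nat_lit 4943190433) (nat_lit 289) (nat_lit 1) (nat_lit 282) (nat_lit 1) (nat_lit 288) (nat_lit 1) (nat_lit 270) (nat_lit 386) (nat_lit 364))) (XT.nd (nat_lit 78) (nat_lit 456) (nat_lit 0) (XT.lf (nat_lit 76) (nat_lit 10912627008) (nat_lit 0) (nat_lit 314727065) (nat_lit 456) (nat_lit 11736574099) (nat_lit 277) (nat_lit 1) (nat_lit 276) (nat_lit 1) (nat_lit 282) (nat_lit 1) (nat_lit 271) (nat_lit 386) (nat_lit 363)) (XT.lf (nat_lit 76) (nat_lit 3604333082) (nat_lit 0) (nat_lit 6663082399) (nat_lit 532) (nat_lit 12237373926) (nat_lit 271) (nat_lit 1) (nat_lit 270) (nat_lit 1) (nat_lit 277) (nat_lit 1) (nat_lit 272) (nat_lit 386) (nat_lit 362)))))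 (XT.nd (nat_lit 234) (nat_lit 1444) (nat_lit 0) (XT.nd (nat_lit 78) (nat_lit 836) (nat_lit 0) (XT.lf (nat_lit 456) (nat_lit 9037138073) (nat_lit 0) (nat_lit 9454913477) (nat_lit 380) (nat_lit 3566106303) (nat_lit 271) (nat_lit 1) (nat_lit 265) (nat_lit 1) (nat_lit 270) (nat_lit 1) (nat_lit 273) (nat_lit 386) (nat_lit 361)) (XT.nd (nat_lit 78) (nat_lit 456) (nat_lit 0) (XT.lf (nat_lit 456) (nat_lit 2241514566) (nat_lit 0) (nat_lit 8780930324) (nat_lit 380) (nat_lit 10601172443) (nat_lit 266) (nat_lit 1) (nat_lit 260) (nat_lit 1) (nat_lit 265) (nat_lit 1) (nat_lit 274) (nat_lit 386) (nat_lit 360)) (XT.lf (nat_lit 76) (nat_lit 3811521097) (nat_lit 0) (nat_lit 4416273510) (nat_lit 456) (nat_lit 12972705080) (nat_lit 255) (nat_lit 1) (nat_lit 254) (nat_lit 1) (nat_lit 260) (nat_lit 1) (nat_lit 275) (nat_lit 386) (nat_lit 359)))) (XT.nd (nat_lit 156) (nat_lit 760) (nat_lit 0) (XT.nd (nat_lit 78) (nat_lit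 304) (nat_lit 0) (XT.lf (nat_lit 456) (nat_lit 9779846651) (nat_lit 0) (nat_lit 7777415346) (nat_lit 380) (nat_lit 3230865463) (nat_lit 255) (nat_lit 1) (nat_lit 249) (nat_lit 1) (nat_lit 254) (nat_lit 1) (nat_lit 276) (nat_lit 386) (nat_lit 358)) (XT.lf (nat_lit 380) (nat_lit 2807844399) (nat_lit 0) (nat_lit 7438967648) (nat_lit 304) (nat_lit 10139808174) (nat_lit 250) (nat_lit 1) (nat_lit 245) (nat_lit 1) (nat_lit 249) (nat_lit 1) (nat_lit 277) (nat_lit 386) (nat_lit 357))) (XT.nd (nat_lit 78) (nat_lit 304) (nat_lit 0) (XT.lf (nat_lit 76) (nat_lit 3191720588) (nat_lit 0) (nat_lit 4010474488) (nat_lit 456) (nat_lit 12793339308) (nat_lit 240) (nat_lit 1) (nat_lit 239) (nat_lit 1) (nat_lit 245) (nat_lit 1) (nat_lit 278) (nat_lit 386) (nat_lit 356)) (XT.lf (nat_lit 380) (nat_lit 8879340823) (nat_lit 0) (nat_lit 7036062205) (nat_lit 304) (nat_lit 3698420884) (nat_lit 240) (nat_lit 1) (nat_lit 235)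 (nat_lit 1) (nat_lit 239) (nat_lit 1) (nat_lit 279) (nat_lit 386) (nat_lit 355))))))) (XT.nd (nat_lit 1092) (nat_lit 2812) (nat_lit 0) (XT.nd (nat_lit 546) (nat_lit 1748) (nat_lit 0) (XT.nd (nat_lit 234) (nat_lit 1216) (nat_lit 0) (XT.nd (nat_lit 78) (nat_lit 684) (nat_lit 0) (XT.lf (nat_lit 380) (nat_lit 1831792306) (nat_lit 0) (nat_lit 6967336547) (nat_lit 304) (nat_lit 10443000197) (nat_lit 236) (nat_lit 1) (nat_lit 231) (nat_lit 1) (nat_lit 235) (nat_lit 1) (nat_lit 280) (nat_lit 386) (nat_lit 354)) (XT.nd (nat_lit 78) (nat_lit 304) (nat_lit 0) (XT.lf (nat_lit 76) (nat_lit 1946650280) (nat_lit 0) (nat_lit 5023666646) (nat_lit 380) (nat_lit 11909247561) (nat_lit 227) (nat_lit 1) (nat_lit 226) (nat_lit 1) (nat_lit 231) (nat_lit 1) (nat_lit 281) (nat_lit 386) (nat_lit 353)) (XT.lf (nat_lit 380) (nat_lit 6727890860) (nat_lit 0) (nat_lit 7024387690) (nat_lit 304) (nat_lit 4773117088) (nat_lit 227)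 (nat_lit 1) (nat_lit 222) (nat_lit 1) (nat_lit 226) (nat_lit 1) (nat_lit 282) (nat_lit 386) (nat_lit 352)))) (XT.nd (nat_lit 156) (nat_lit 608) (nat_lit 0) (XT.nd (nat_lit 78) (nat_lit 304) (nat_lit 0) (XT.lf (nat_lit 76) (nat_lit 6859054451) (nat_lit 0) (nat_lit 308612844) (nat_lit 304) (nat_lit 11012933882) (nat_lit 219) (nat_lit 1) (nat_lit 218) (nat_lit 1) (nat_lit 222) (nat_lit 1) (nat_lit 283) (nat_lit 386) (nat_lit 351)) (XT.lf (nat_lit 76) (nat_lit 240849593) (nat_lit 0) (nat_lit 7110204907) (nat_lit 380) (nat_lit 10492567401) (nat_lit 215) (nat_lit 1) (nat_lit 214) (nat_lit 1) (nat_lit 219) (nat_lit 1) (nat_lit 284) (nat_lit 386) (nat_lit 350))) (XT.nd (nat_lit 78) (nat_lit 380) (nat_lit 0) (XT.lf (nat_lit 304) (nat_lit 3646080582) (nat_lit 0) (nat_lit 7572812195) (nat_lit 228) (nat_lit 6295387829) (nat_lit 215) (nat_lit 1) (nat_lit 211) (nat_lit 1) (nat_lit 214) (nat_lit 1) (nat_lit 285)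 (nat_lit 386) (nat_lit 349)) (XT.lf (nat_lit 76) (nat_lit 4593020890) (nat_lit 0) (nat_lit 3263131424) (nat_lit 380) (nat_lit 9336976854) (nat_lit 207) (nat_lit 1) (nat_lit 206) (nat_lit 1) (nat_lit 211) (nat_lit 1) (nat_lit 286) (nat_lit 386) (nat_lit 348))))) (XT.nd (nat_lit 234) (nat_lit 988) (nat_lit 0) (XT.nd (nat_lit 78) (nat_lit 532) (nat_lit 0) (XT.lf (nat_lit 304) (nat_lit 6873809200) (nat_lit 0) (nat_lit 8177862080) (nat_lit 228) (nat_lit 1827698377) (nat_lit 207) (nat_lit 1) (nat_lit 203) (nat_lit 1) (nat_lit 206) (nat_lit 1) (nat_lit 287) (nat_lit 386) (nat_lit 347)) (XT.nd (nat_lit 78) (nat_lit 228) (nat_lit 0) (XT.lf (nat_lit 76) (nat_lit 8438375169) (nat_lit 0) (nat_lit 103065210) (nat_lit 304) (nat_lit 8031544089) (nat_lit 200) (nat_lit 1) (nat_lit 199) (nat_lit 1) (nat_lit 203) (nat_lit 1) (nat_lit 288) (nat_lit 386) (nat_lit 346)) (XT.lf (nat_lit 76) (nat_lit 2097077390) (nat_lit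 0) (nat_lit 6825275592) (nat_lit 304) (nat_lit 7350788797) (nat_lit 197) (nat_lit 1) (nat_lit 196) (nat_lit 1) (nat_lit 200) (nat_lit 1) (nat_lit 289) (nat_lit 386) (nat_lit 345)))) (XT.nd (nat_lit 156) (nat_lit 456) (nat_lit 0) (XT.nd (nat_lit 78) (nat_lit 304) (nat_lit 0) (XT.lf (nat_lit 304) (nat_lit 2512981392) (nat_lit 0) (nat_lit 9342926303) (nat_lit 228) (nat_lit 4124469174) (nat_lit 197) (nat_lit 1) (nat_lit 193) (nat_lit 1) (nat_lit 196) (nat_lit 1) (nat_lit 290) (nat_lit 386) (nat_lit 344)) (XT.lf (nat_lit 76) (nat_lit 5547341573) (nat_lit 0) (nat_lit 4230052393) (nat_lit 304) (nat_lit 5916432486) (nat_lit 190) (nat_lit 1) (nat_lit 189) (nat_lit 1) (nat_lit 193) (nat_lit 1) (nat_lit 291) (nat_lit 386) (nat_lit 343))) (XT.nd (nat_lit 78) (nat_lit 228) (nat_lit 0) (XT.lf (nat_lit 304) (nat_lit 4610041332) (nat_lit 0) (nat_lit 10256079519) (nat_lit 228) (nat_lit 548142223) (nat_lit 190)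 (nat_lit 1) (nat_lit 186) (nat_lit 1) (nat_lit 189) (nat_lit 1) (nat_lit 292) (nat_lit 386) (nat_lit 342)) (XT.lf (nat_lit 76) (nat_lit 8605410650) (nat_lit 0) (nat_lit 2124038488) (nat_lit 228) (nat_lit 4410686308) (nat_lit 184) (nat_lit 1) (nat_lit 183) (nat_lit 1) (nat_lit 186) (nat_lit 1) (nat_lit 293) (nat_lit 386) (nat_lit 341)))))) (XT.nd (nat_lit 546) (nat_lit 1216) (nat_lit 0) (XT.nd (nat_lit 234) (nat_lit 912) (nat_lit 0) (XT.nd (nat_lit 78) (nat_lit 456) (nat_lit 0) (XT.lf (nat_lit 76) (nat_lit 2587466804) (nat_lit 0) (nat_lit 8638964211) (nat_lit 304) (nat_lit 3645748637) (nat_lit 181) (nat_lit 1) (nat_lit 180) (nat_lit 1) (nat_lit 184) (nat_lit 1) (nat_lit 294) (nat_lit 386) (nat_lit 340)) (XT.nd (nat_lit 78) (nat_lit 228) (nat_lit 0) (XT.lf (nat_lit 76) (nat_lit 11312722355) (nat_lit 0) (nat_lit 438792024) (nat_lit 228) (nat_lit 2858907607) (nat_lit 178) (nat_lit 1) (nat_lit 177)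 (nat_lit 1) (nat_lit 180) (nat_lit 1) (nat_lit 295) (nat_lit 386) (nat_lit 339)) (XT.lf (nat_lit 76) (nat_lit 5370516658) (nat_lit 0) (nat_lit 6882579717) (nat_lit 304) (nat_lit 2100160607) (nat_lit 175) (nat_lit 1) (nat_lit 174) (nat_lit 1) (nat_lit 178) (nat_lit 1) (nat_lit 296) (nat_lit 386) (nat_lit 338)))) (XT.nd (nat_lit 156) (nat_lit 532) (nat_lit 0) (XT.nd (nat_lit 78) (nat_lit 228) (nat_lit 0) (XT.lf (nat_lit 228) (nat_lit 903106676) (nat_lit 0) (nat_lit 12811680174) (nat_lit 152) (nat_lit 388142026) (nat_lit 175) (nat_lit 1) (nat_lit 172) (nat_lit 1) (nat_lit 174) (nat_lit 1) (nat_lit 297) (nat_lit 386) (nat_lit 337)) (XT.lf (nat_lit 76) (nat_lit 7847067309) (nat_lit 0) (nat_lit 5472827281) (nat_lit 228) (nat_lit 536317160) (nat_lit 170) (nat_lit 1) (nat_lit 169) (nat_lit 1) (nat_lit 172) (nat_lit 1) (nat_lit 298) (nat_lit 386) (nat_lit 336))) (XT.nd (nat_lit 78) (nat_lit 228) (nat_lit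 0) (XT.lf (nat_lit 228) (nat_lit 1914214380) (nat_lit 0) (nat_lit 265444683) (nat_lit 152) (nat_lit 11436139290) (nat_lit 168) (nat_lit 1) (nat_lit 165) (nat_lit 1) (nat_lit 167) (nat_lit 1) (nat_lit 299) (nat_lit 386) (nat_lit 335)) (XT.lf (nat_lit 228) (nat_lit 9009377215) (nat_lit 0) (nat_lit 1049299888) (nat_lit 152) (nat_lit 3320750708) (nat_lit 165) (nat_lit 1) (nat_lit 162) (nat_lit 1) (nat_lit 164) (nat_lit 1) (nat_lit 300) (nat_lit 386) (nat_lit 334))))) (XT.nd (nat_lit 234) (nat_lit 684) (nat_lit 0) (XT.nd (nat_lit 78) (nat_lit 380) (nat_lit 0) (XT.lf (nat_lit 228) (nat_lit 2642764609) (nat_lit 0) (nat_lit 1840510351) (nat_lit 152) (nat_lit 8664933708) (nat_lit 163) (nat_lit 1) (nat_lit 160) (nat_lit 1) (nat_lit 162) (nat_lit 1) (nat_lit 301) (nat_lit 386) (nat_lit 333)) (XT.nd (nat_lit 78) (nat_lit 152) (nat_lit 0) (XT.lf (nat_lit 228) (nat_lit 9395955048) (nat_lit 0) (nat_lit 2632464822)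 (nat_lit 152) (nat_lit 893434452) (nat_lit 160) (nat_lit 1) (nat_lit 157) (nat_lit 1) (nat_lit 159) (nat_lit 1) (nat_lit 302) (nat_lit 386) (nat_lit 332)) (XT.lf (nat_lit 228) (nat_lit 3145940364) (nat_lit 0) (nat_lit 3398547840) (nat_lit 152) (nat_lit 6155009108) (nat_lit 158) (nat_lit 1) (nat_lit 155) (nat_lit 1) (nat_lit 157) (nat_lit 1) (nat_lit 303) (nat_lit 386) (nat_lit 331)))) (XT.nd (nat_lit 156) (nat_lit 304) (nat_lit 0) (XT.nd (nat_lit 78) (nat_lit 152) (nat_lit 0) (XT.lf (nat_lit 76) (nat_lit 1268110580) (nat_lit 0) (nat_lit 2909608094) (nat_lit 228) (nat_lit 8304463212) (nat_lit 153) (nat_lit 1) (nat_lit 152) (nat_lit 1) (nat_lit 155) (nat_lit 1) (nat_lit 304) (nat_lit 386) (nat_lit 330)) (XT.lf (nat_lit 228) (nat_lit 3458849819) (nat_lit 0) (nat_lit 4928390324) (nat_lit 152) (nat_lit 3881367856) (nat_lit 153) (nat_lit 1) (nat_lit 150) (nat_lit 1) (nat_lit 152) (nat_lit 1) (nat_lit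 305) (nat_lit 386) (nat_lit 329))) (XT.nd (nat_lit 78) (nat_lit 152) (nat_lit 0) (XT.lf (nat_lit 76) (nat_lit 3199120822) (nat_lit 0) (nat_lit 2482213250) (nat_lit 152) (nat_lit 6378250753) (nat_lit 149) (nat_lit 1) (nat_lit 148) (nat_lit 1) (nat_lit 150) (nat_lit 1) (nat_lit 306) (nat_lit 386) (nat_lit 328)) (XT.lf (nat_lit 228) (nat_lit 3612013413) (nat_lit 0) (nat_lit 6420898743) (nat_lit 152) (nat_lit 1821658929) (nat_lit 149) (nat_lit 1) (nat_lit 146) (nat_lit 1) (nat_lit 148) (nat_lit 1) (nat_lit 307) (nat_lit 386) (nat_lit 327))))))))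
noncomputable def ec98 : XT := (XT.nd (nat_lit 2184) (nat_lit 3496) (nat_lit 0) (XT.nd (nat_lit 1092) (nat_lit 1748) (nat_lit 0) (XT.nd (nat_lit 546) (nat_lit 988) (nat_lit 0) (XT.nd (nat_lit 234) (nat_lit 760) (nat_lit 0) (XT.nd (nat_lit 78) (nat_lit 304) (nat_lit 0) (XT.lf (nat_lit 76) (nat_lit 4937363746) (nat_lit 0) (nat_lit 2206601730) (nat_lit 152) (nat_lit 4509426669) (nat_lit 145) (nat_lit 1) (nat_lit 144) (nat_lit 1) (nat_lit 146) (nat_lit 1) (nat_lit 308) (nat_lit 386) (nat_lit 326)) (XT.nd (nat_lit 78) (nat_lit 152) (nat_lit 0) (XT.lf (nat_lit 76) (nat_lit 43261293) (nat_lit 0) (nat_lit 7824989632) (nat_lit 228) (nat_lit 3588230903) (nat_lit 143) (nat_lit 1) (nat_lit 142) (nat_lit 1) (nat_lit 145) (nat_lit 1) (nat_lit 309) (nat_lit 386) (nat_lit 325)) (XT.lf (nat_lit 76) (nat_lit 6501039545) (nat_lit 0) (nat_lit 2058003753) (nat_lit 152) (nat_lit 2703705183) (nat_lit 141) (nat_lit 1)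 (nat_lit 140) (nat_lit 1) (nat_lit 142) (nat_lit 1) (nat_lit 310) (nat_lit 386) (nat_lit 324)))) (XT.nd (nat_lit 156) (nat_lit 456) (nat_lit 0) (XT.nd (nat_lit 78) (nat_lit 152) (nat_lit 0) (XT.lf (nat_lit 76) (nat_lit 1700064386) (nat_lit 0) (nat_lit 7548654221) (nat_lit 228) (nat_lit 1824337391) (nat_lit 139) (nat_lit 1) (nat_lit 138) (nat_lit 1) (nat_lit 141) (nat_lit 1) (nat_lit 311) (nat_lit 386) (nat_lit 323)) (XT.lf (nat_lit 76) (nat_lit 7906455862) (nat_lit 0) (nat_lit 2014940554) (nat_lit 152) (nat_lit 965467837) (nat_lit 137) (nat_lit 1) (nat_lit 136) (nat_lit 1) (nat_lit 138) (nat_lit 1) (nat_lit 312) (nat_lit 386) (nat_lit 322))) (XT.nd (nat_lit 78) (nat_lit 304) (nat_lit 0) (XT.lf (nat_lit 76) (nat_lit 3200059696) (nat_lit 0) (nat_lit 7375551469) (nat_lit 228) (nat_lit 128443286) (nat_lit 135) (nat_lit 1) (nat_lit 134) (nat_lit 1) (nat_lit 137) (nat_lit 1) (nat_lit 313) (nat_lit 386)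 (nat_lit 321)) (XT.lf (nat_lit 228) (nat_lit 8459103263) (nat_lit 0) (nat_lit 716019840) (nat_lit 152) (nat_lit 1349679446) (nat_lit 133) (nat_lit 1) (nat_lit 130) (nat_lit 1) (nat_lit 132) (nat_lit 1) (nat_lit 314) (nat_lit 386) (nat_lit 320))))) (XT.nd (nat_lit 234) (nat_lit 608) (nat_lit 0) (XT.nd (nat_lit 78) (nat_lit 304) (nat_lit 0) (XT.lf (nat_lit 152) (nat_lit 3045719765) (nat_lit 0) (nat_lit 1526353354) (nat_lit 76) (nat_lit 5776256184) (nat_lit 131) (nat_lit 1) (nat_lit 129) (nat_lit 1) (nat_lit 130) (nat_lit 1) (nat_lit 315) (nat_lit 386) (nat_lit 319)) (XT.nd (nat_lit 78) (nat_lit 76) (nat_lit 0) (XT.lf (nat_lit 76) (nat_lit 143360235) (nat_lit 0) (nat_lit 2197481342) (nat_lit 228) (nat_lit 7834946449) (nat_lit 127) (nat_lit 1) (nat_lit 126) (nat_lit 1) (nat_lit 129) (nat_lit 1) (nat_lit 316) (nat_lit 386) (nat_lit 318)) (XT.lf (nat_lit 152) (nat_lit 2705286986) (nat_lit 0) (nat_lit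 3109414725) (nat_lit 76) (nat_lit 4190946069) (nat_lit 127) (nat_lit 1) (nat_lit 125) (nat_lit 1) (nat_lit 126) (nat_lit 1) (nat_lit 317) (nat_lit 386) (nat_lit 317)))) (XT.nd (nat_lit 156) (nat_lit 304) (nat_lit 0) (XT.nd (nat_lit 78) (nat_lit 76) (nat_lit 0) (XT.lf (nat_lit 76) (nat_lit 1480479852) (nat_lit 0) (nat_lit 2397243618) (nat_lit 228) (nat_lit 5961443525) (nat_lit 123) (nat_lit 1) (nat_lit 122) (nat_lit 1) (nat_lit 125) (nat_lit 1) (nat_lit 318) (nat_lit 386) (nat_lit 316)) (XT.lf (nat_lit 152) (nat_lit 2321140074) (nat_lit 0) (nat_lit 4616987636) (nat_lit 76) (nat_lit 2737309848) (nat_lit 123) (nat_lit 1) (nat_lit 121) (nat_lit 1) (nat_lit 122) (nat_lit 1) (nat_lit 319) (nat_lit 386) (nat_lit 315))) (XT.nd (nat_lit 78) (nat_lit 76) (nat_lit 0) (XT.lf (nat_lit 76) (nat_lit 2699005258) (nat_lit 0) (nat_lit 2640183500) (nat_lit 228) (nat_lit 4175551172) (nat_lit 119) (nat_lit 1) (nat_lit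 118) (nat_lit 1) (nat_lit 121) (nat_lit 1) (nat_lit 320) (nat_lit 386) (nat_lit 314)) (XT.lf (nat_lit 152) (nat_lit 1904112584) (nat_lit 0) (nat_lit 6048555289) (nat_lit 76) (nat_lit 1404462178) (nat_lit 119) (nat_lit 1) (nat_lit 117) (nat_lit 1) (nat_lit 118) (nat_lit 1) (nat_lit 321) (nat_lit 386) (nat_lit 313)))))) (XT.nd (nat_lit 546) (nat_lit 836) (nat_lit 0) (XT.nd (nat_lit 234) (nat_lit 532) (nat_lit 0) (XT.nd (nat_lit 78) (nat_lit 228) (nat_lit 0) (XT.lf (nat_lit 76) (nat_lit 3808862894) (nat_lit 0) (nat_lit 2916156860) (nat_lit 152) (nat_lit 2476937744) (nat_lit 116) (nat_lit 1) (nat_lit 115) (nat_lit 1) (nat_lit 117) (nat_lit 1) (nat_lit 322) (nat_lit 386) (nat_lit 312)) (XT.nd (nat_lit 78) (nat_lit 152) (nat_lit 0) (XT.lf (nat_lit 152) (nat_lit 1463461991) (nat_lit 0) (nat_lit 7404174951) (nat_lit 76) (nat_lit 182557336) (nat_lit 116) (nat_lit 1) (nat_lit 114) (nat_lit 1) (nat_lit 115)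 (nat_lit 1) (nat_lit 323) (nat_lit 386) (nat_lit 311)) (XT.lf (nat_lit 76) (nat_lit 4819031963) (nat_lit 0) (nat_lit 3216490577) (nat_lit 152) (nat_lit 864783576) (nat_lit 113) (nat_lit 1) (nat_lit 112) (nat_lit 1) (nat_lit 114) (nat_lit 1) (nat_lit 324) (nat_lit 386) (nat_lit 310)))) (XT.nd (nat_lit 156) (nat_lit 228) (nat_lit 0) (XT.nd (nat_lit 78) (nat_lit 228) (nat_lit 0) (XT.lf (nat_lit 0) (nat_lit 919032287) (nat_lit 0) (nat_lit 7756072922) (nat_lit 152) (nat_lit 78757875) (nat_lit 111) (nat_lit 3) (nat_lit 111) (nat_lit 1) (nat_lit 113) (nat_lit 1) (nat_lit 325) (nat_lit 386) (nat_lit 309)) (XT.lf (nat_lit 152) (nat_lit 5068823368) (nat_lit 0) (nat_lit 675314426) (nat_lit 76) (nat_lit 2864972124) (nat_lit 110) (nat_lit 1) (nat_lit 108) (nat_lit 1) (nat_lit 109) (nat_lit 1) (nat_lit 326) (nat_lit 386) (nat_lit 308))) (XT.nd (nat_lit 78) (nat_lit 152) (nat_lit 0) (XT.lf (nat_lit 76) (nat_lit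 508018280) (nat_lit 0) (nat_lit 1430692080) (nat_lit 76) (nat_lit 6528792457) (nat_lit 108) (nat_lit 3) (nat_lit 107) (nat_lit 1) (nat_lit 108) (nat_lit 1) (nat_lit 327) (nat_lit 386) (nat_lit 307)) (XT.lf (nat_lit 152) (nat_lit 4445441954) (nat_lit 0) (nat_lit 2147283397) (nat_lit 76) (nat_lit 1735157017) (nat_lit 107) (nat_lit 1) (nat_lit 105) (nat_lit 1) (nat_lit 106) (nat_lit 1) (nat_lit 328) (nat_lit 386) (nat_lit 306))))) (XT.nd (nat_lit 234) (nat_lit 456) (nat_lit 0) (XT.nd (nat_lit 78) (nat_lit 304) (nat_lit 0) (XT.lf (nat_lit 76) (nat_lit 15721934) (nat_lit 0) (nat_lit 2857735390) (nat_lit 76) (nat_lit 5317682770) (nat_lit 105) (nat_lit 3) (nat_lit 104) (nat_lit 1) (nat_lit 105) (nat_lit 1) (nat_lit 329) (nat_lit 386) (nat_lit 305)) (XT.nd (nat_lit 78) (nat_lit 152) (nat_lit 0) (XT.lf (nat_lit 152) (nat_lit 3827257208) (nat_lit 0) (nat_lit 3535780316) (nat_lit 76) (nat_lit 693415164) (nat_lit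 104) (nat_lit 1) (nat_lit 102) (nat_lit 1) (nat_lit 103) (nat_lit 1) (nat_lit 330) (nat_lit 386) (nat_lit 304)) (XT.lf (nat_lit 76) (nat_lit 3733628768) (nat_lit 0) (nat_lit 464414853) (nat_lit 152) (nat_lit 3726203646) (nat_lit 101) (nat_lit 1) (nat_lit 100) (nat_lit 1) (nat_lit 102) (nat_lit 1) (nat_lit 331) (nat_lit 386) (nat_lit 303)))) (XT.nd (nat_lit 156) (nat_lit 228) (nat_lit 0) (XT.nd (nat_lit 78) (nat_lit 152) (nat_lit 0) (XT.lf (nat_lit 0) (nat_lit 261567015) (nat_lit 0) (nat_lit 4578687494) (nat_lit 152) (nat_lit 2954088897) (nat_lit 99) (nat_lit 3) (nat_lit 99) (nat_lit 1) (nat_lit 101) (nat_lit 1) (nat_lit 332) (nat_lit 386) (nat_lit 302)) (XT.lf (nat_lit 76) (nat_lit 4520752109) (nat_lit 0) (nat_lit 937599580) (nat_lit 152) (nat_lit 2208216166) (nat_lit 98) (nat_lit 1) (nat_lit 97) (nat_lit 1) (nat_lit 99) (nat_lit 1) (nat_lit 333) (nat_lit 386) (nat_lit 301))) (XT.nd (nat_lit 78)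 (nat_lit 152) (nat_lit 0) (XT.lf (nat_lit 0) (nat_lit 1128896016) (nat_lit 0) (nat_lit 4930600420) (nat_lit 152) (nat_lit 1481578836) (nat_lit 96) (nat_lit 3) (nat_lit 96) (nat_lit 1) (nat_lit 98) (nat_lit 1) (nat_lit 334) (nat_lit 386) (nat_lit 300)) (XT.lf (nat_lit 76) (nat_lit 5240119645) (nat_lit 0) (nat_lit 1401021303) (nat_lit 152) (nat_lit 776597615) (nat_lit 95) (nat_lit 1) (nat_lit 94) (nat_lit 1) (nat_lit 96) (nat_lit 1) (nat_lit 335) (nat_lit 386) (nat_lit 299))))))) (XT.nd (nat_lit 1092) (nat_lit 1748) (nat_lit 0) (XT.nd (nat_lit 546) (nat_lit 912) (nat_lit 0) (XT.nd (nat_lit 234) (nat_lit 456) (nat_lit 0) (XT.nd (nat_lit 78) (nat_lit 304) (nat_lit 0) (XT.lf (nat_lit 0) (nat_lit 1927447649) (nat_lit 0) (nat_lit 5275270915) (nat_lit 152) (nat_lit 93770776) (nat_lit 93) (nat_lit 3) (nat_lit 93) (nat_lit 1) (nat_lit 95) (nat_lit 1) (nat_lit 336) (nat_lit 386) (nat_lit 298)) (XT.nd (nat_lit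 78) (nat_lit 76) (nat_lit 0) (XT.lf (nat_lit 152) (nat_lit 5319500596) (nat_lit 0) (nat_lit 582814607) (nat_lit 76) (nat_lit 1274928110) (nat_lit 92) (nat_lit 1) (nat_lit 90) (nat_lit 1) (nat_lit 91) (nat_lit 1) (nat_lit 337) (nat_lit 386) (nat_lit 297)) (XT.lf (nat_lit 76) (nat_lit 1437754447) (nat_lit 0) (nat_lit 1236249982) (nat_lit 76) (nat_lit 4385884923) (nat_lit 90) (nat_lit 3) (nat_lit 89) (nat_lit 1) (nat_lit 90) (nat_lit 1) (nat_lit 338) (nat_lit 386) (nat_lit 296)))) (XT.nd (nat_lit 156) (nat_lit 228) (nat_lit 0) (XT.nd (nat_lit 78) (nat_lit 76) (nat_lit 0) (XT.lf (nat_lit 152) (nat_lit 4637772102) (nat_lit 0) (nat_lit 1875352302) (nat_lit 76) (nat_lit 431591349) (nat_lit 89) (nat_lit 1) (nat_lit 87) (nat_lit 1) (nat_lit 88) (nat_lit 1) (nat_lit 339) (nat_lit 386) (nat_lit 295)) (XT.lf (nat_lit 76) (nat_lit 873824613) (nat_lit 0) (nat_lit 2487499626) (nat_lit 76) (nat_lit 3469981165)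 (nat_lit 87) (nat_lit 3) (nat_lit 86) (nat_lit 1) (nat_lit 87) (nat_lit 1) (nat_lit 340) (nat_lit 386) (nat_lit 294))) (XT.nd (nat_lit 78) (nat_lit 76) (nat_lit 0) (XT.lf (nat_lit 0) (nat_lit 342270552) (nat_lit 0) (nat_lit 2742785163) (nat_lit 152) (nat_lit 3634914160) (nat_lit 84) (nat_lit 3) (nat_lit 84) (nat_lit 1) (nat_lit 86) (nat_lit 1) (nat_lit 341) (nat_lit 386) (nat_lit 293)) (XT.lf (nat_lit 76) (nat_lit 331603096) (nat_lit 0) (nat_lit 3661047879) (nat_lit 76) (nat_lit 2617807487) (nat_lit 84) (nat_lit 3) (nat_lit 83) (nat_lit 1) (nat_lit 84) (nat_lit 1) (nat_lit 342) (nat_lit 386) (nat_lit 292))))) (XT.nd (nat_lit 234) (nat_lit 532) (nat_lit 0) (XT.nd (nat_lit 78) (nat_lit 228) (nat_lit 0) (XT.lf (nat_lit 0) (nat_lit 1050368385) (nat_lit 0) (nat_lit 3164288303) (nat_lit 152) (nat_lit 2288043902) (nat_lit 81) (nat_lit 3) (nat_lit 81) (nat_lit 1) (nat_lit 83) (nat_lit 1) (nat_lit 343)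 (nat_lit 386) (nat_lit 291)) (XT.nd (nat_lit 78) (nat_lit 76) (nat_lit 0) (XT.lf (nat_lit 76) (nat_lit 4573628050) (nat_lit 0) (nat_lit 184351760) (nat_lit 152) (nat_lit 1639022990) (nat_lit 80) (nat_lit 1) (nat_lit 79) (nat_lit 1) (nat_lit 81) (nat_lit 1) (nat_lit 344) (nat_lit 386) (nat_lit 290)) (XT.lf (nat_lit 0) (nat_lit 1704908312) (nat_lit 0) (nat_lit 3566449750) (nat_lit 152) (nat_lit 1021389486) (nat_lit 78) (nat_lit 3) (nat_lit 78) (nat_lit 1) (nat_lit 80) (nat_lit 1) (nat_lit 345) (nat_lit 386) (nat_lit 289)))) (XT.nd (nat_lit 156) (nat_lit 228) (nat_lit 0) (XT.nd (nat_lit 78) (nat_lit 152) (nat_lit 0) (XT.lf (nat_lit 76) (nat_lit 5108952559) (nat_lit 0) (nat_lit 671090237) (nat_lit 152) (nat_lit 410583425) (nat_lit 77) (nat_lit 1) (nat_lit 76) (nat_lit 1) (nat_lit 78) (nat_lit 1) (nat_lit 346) (nat_lit 386) (nat_lit 288)) (XT.lf (nat_lit 76) (nat_lit 2139456396) (nat_lit 0) (nat_lit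 171583053) (nat_lit 76) (nat_lit 3778750531) (nat_lit 75) (nat_lit 3) (nat_lit 74) (nat_lit 1) (nat_lit 75) (nat_lit 1) (nat_lit 347) (nat_lit 386) (nat_lit 287))) (XT.nd (nat_lit 78) (nat_lit 76) (nat_lit 0) (XT.lf (nat_lit 152) (nat_lit 4848929080) (nat_lit 0) (nat_lit 757053106) (nat_lit 76) (nat_lit 384959512) (nat_lit 74) (nat_lit 1) (nat_lit 72) (nat_lit 1) (nat_lit 73) (nat_lit 1) (nat_lit 348) (nat_lit 386) (nat_lit 286)) (XT.lf (nat_lit 76) (nat_lit 1570116231) (nat_lit 0) (nat_lit 1309526846) (nat_lit 76) (nat_lit 3013696915) (nat_lit 72) (nat_lit 3) (nat_lit 71) (nat_lit 1) (nat_lit 72) (nat_lit 1) (nat_lit 349) (nat_lit 386) (nat_lit 285)))))) (XT.nd (nat_lit 546) (nat_lit 912) (nat_lit 0) (XT.nd (nat_lit 234) (nat_lit 456) (nat_lit 0) (XT.nd (nat_lit 78) (nat_lit 228) (nat_lit 0) (XT.lf (nat_lit 0) (nat_lit 260775224) (nat_lit 0) (nat_lit 1595570123) (nat_lit 152) (nat_lit 3941393808)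 (nat_lit 69) (nat_lit 3) (nat_lit 69) (nat_lit 1) (nat_lit 71) (nat_lit 1) (nat_lit 350) (nat_lit 386) (nat_lit 284)) (XT.nd (nat_lit 78) (nat_lit 152) (nat_lit 0) (XT.lf (nat_lit 76) (nat_lit 1028474619) (nat_lit 0) (nat_lit 2375267667) (nat_lit 76) (nat_lit 2299707857) (nat_lit 69) (nat_lit 3) (nat_lit 68) (nat_lit 1) (nat_lit 69) (nat_lit 1) (nat_lit 351) (nat_lit 386) (nat_lit 283)) (XT.lf (nat_lit 0) (nat_lit 853055011) (nat_lit 0) (nat_lit 2028490275) (nat_lit 152) (nat_lit 2729331425) (nat_lit 66) (nat_lit 3) (nat_lit 66) (nat_lit 1) (nat_lit 68) (nat_lit 1) (nat_lit 352) (nat_lit 386) (nat_lit 282)))) (XT.nd (nat_lit 156) (nat_lit 228) (nat_lit 0) (XT.nd (nat_lit 78) (nat_lit 152) (nat_lit 0) (XT.lf (nat_lit 76) (nat_lit 514262340) (nat_lit 0) (nat_lit 3371896752) (nat_lit 76) (nat_lit 1633724496) (nat_lit 66) (nat_lit 3) (nat_lit 65) (nat_lit 1) (nat_lit 66) (nat_lit 1) (nat_lit 353) (nat_lit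 386) (nat_lit 281)) (XT.lf (nat_lit 0) (nat_lit 1402202274) (nat_lit 0) (nat_lit 2437303667) (nat_lit 152) (nat_lit 1590727371) (nat_lit 63) (nat_lit 3) (nat_lit 63) (nat_lit 1) (nat_lit 65) (nat_lit 1) (nat_lit 354) (nat_lit 386) (nat_lit 280))) (XT.nd (nat_lit 78) (nat_lit 152) (nat_lit 0) (XT.lf (nat_lit 76) (nat_lit 27083480) (nat_lit 0) (nat_lit 4302435985) (nat_lit 76) (nat_lit 1012894330) (nat_lit 63) (nat_lit 3) (nat_lit 62) (nat_lit 1) (nat_lit 63) (nat_lit 1) (nat_lit 355) (nat_lit 386) (nat_lit 279)) (XT.lf (nat_lit 0) (nat_lit 1910837523) (nat_lit 0) (nat_lit 2822359344) (nat_lit 152) (nat_lit 522390027) (nat_lit 60) (nat_lit 3) (nat_lit 60) (nat_lit 1) (nat_lit 62) (nat_lit 1) (nat_lit 356) (nat_lit 386) (nat_lit 278))))) (XT.nd (nat_lit 234) (nat_lit 456) (nat_lit 0) (XT.nd (nat_lit 78) (nat_lit 304) (nat_lit 0) (XT.lf (nat_lit 76) (nat_lit 4740437720) (nat_lit 0) (nat_lit 425101798)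 (nat_lit 152) (nat_lit 5159370) (nat_lit 59) (nat_lit 1) (nat_lit 58) (nat_lit 1) (nat_lit 60) (nat_lit 1) (nat_lit 357) (nat_lit 386) (nat_lit 277)) (XT.nd (nat_lit 78) (nat_lit 152) (nat_lit 0) (XT.lf (nat_lit 76) (nat_lit 1897786537) (nat_lit 0) (nat_lit 488314627) (nat_lit 76) (nat_lit 2700482811) (nat_lit 57) (nat_lit 3) (nat_lit 56) (nat_lit 1) (nat_lit 57) (nat_lit 1) (nat_lit 358) (nat_lit 386) (nat_lit 276)) (XT.lf (nat_lit 0) (nat_lit 119732203) (nat_lit 0) (nat_lit 861938652) (nat_lit 152) (nat_lit 4022666313) (nat_lit 54) (nat_lit 3) (nat_lit 54) (nat_lit 1) (nat_lit 56) (nat_lit 1) (nat_lit 359) (nat_lit 386) (nat_lit 275)))) (XT.nd (nat_lit 156) (nat_lit 228) (nat_lit 0) (XT.nd (nat_lit 78) (nat_lit 152) (nat_lit 0) (XT.lf (nat_lit 76) (nat_lit 1386085058) (nat_lit 0) (nat_lit 1443993381) (nat_lit 76) (nat_lit 2092948342) (nat_lit 54) (nat_lit 3) (nat_lit 53) (nat_lit 1) (nat_lit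 54) (nat_lit 1) (nat_lit 360) (nat_lit 386) (nat_lit 274)) (XT.lf (nat_lit 0) (nat_lit 623580317) (nat_lit 0) (nat_lit 1277175587) (nat_lit 152) (nat_lit 2942603807) (nat_lit 51) (nat_lit 3) (nat_lit 51) (nat_lit 1) (nat_lit 53) (nat_lit 1) (nat_lit 361) (nat_lit 386) (nat_lit 273))) (XT.nd (nat_lit 78) (nat_lit 152) (nat_lit 0) (XT.lf (nat_lit 76) (nat_lit 902584711) (nat_lit 0) (nat_lit 2337231527) (nat_lit 76) (nat_lit 1525056396) (nat_lit 51) (nat_lit 3) (nat_lit 50) (nat_lit 1) (nat_lit 51) (nat_lit 1) (nat_lit 362) (nat_lit 386) (nat_lit 272)) (XT.lf (nat_lit 0) (nat_lit 1091804816) (nat_lit 0) (nat_lit 1667368094) (nat_lit 152) (nat_lit 1928526461) (nat_lit 48) (nat_lit 3) (nat_lit 48) (nat_lit 1) (nat_lit 50) (nat_lit 1) (nat_lit 363) (nat_lit 386) (nat_lit 271))))))))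
noncomputable def ec99 : XT := (XT.nd (nat_lit 44148) (nat_lit 0) (nat_lit 17708) (XT.nd (nat_lit 1092) (nat_lit 1444) (nat_lit 0) (XT.nd (nat_lit 546) (nat_lit 836) (nat_lit 0) (XT.nd (nat_lit 234) (nat_lit 608) (nat_lit 0) (XT.nd (nat_lit 78) (nat_lit 228) (nat_lit 0) (XT.lf (nat_lit 76) (nat_lit 446430952) (nat_lit 0) (nat_lit 3170915709) (nat_lit 76) (nat_lit 994586455) (nat_lit 48) (nat_lit 3) (nat_lit 47) (nat_lit 1) (nat_lit 48) (nat_lit 1) (nat_lit 364) (nat_lit 386) (nat_lit 270)) (XT.nd (nat_lit 78) (nat_lit 76) (nat_lit 0) (XT.lf (nat_lit 0) (nat_lit 1526449264) (nat_lit 0) (nat_lit 2033296701) (nat_lit 152) (nat_lit 977425135) (nat_lit 45) (nat_lit 3) (nat_lit 45) (nat_lit 1) (nat_lit 47) (nat_lit 1) (nat_lit 365) (nat_lit 386) (nat_lit 269)) (XT.lf (nat_lit 76) (nat_lit 16739434) (nat_lit 0) (nat_lit 3947836585) (nat_lit 76) (nat_lit 499451279) (nat_lit 45) (nat_lit 3) (nat_lit 44)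 (nat_lit 1) (nat_lit 45) (nat_lit 1) (nat_lit 366) (nat_lit 386) (nat_lit 268)))) (XT.nd (nat_lit 156) (nat_lit 228) (nat_lit 0) (XT.nd (nat_lit 78) (nat_lit 228) (nat_lit 0) (XT.lf (nat_lit 0) (nat_lit 1929434011) (nat_lit 0) (nat_lit 2375769513) (nat_lit 152) (nat_lit 86393628) (nat_lit 42) (nat_lit 3) (nat_lit 42) (nat_lit 1) (nat_lit 44) (nat_lit 1) (nat_lit 367) (nat_lit 386) (nat_lit 267)) (XT.lf (nat_lit 152) (nat_lit 3937540953) (nat_lit 0) (nat_lit 352869210) (nat_lit 76) (nat_lit 30357706) (nat_lit 41) (nat_lit 1) (nat_lit 39) (nat_lit 1) (nat_lit 40) (nat_lit 1) (nat_lit 368) (nat_lit 386) (nat_lit 266))) (XT.nd (nat_lit 78) (nat_lit 152) (nat_lit 0) (XT.lf (nat_lit 76) (nat_lit 1547646439) (nat_lit 0) (nat_lit 762245996) (nat_lit 76) (nat_lit 1940694455) (nat_lit 39) (nat_lit 3) (nat_lit 38) (nat_lit 1) (nat_lit 39) (nat_lit 1) (nat_lit 369) (nat_lit 386) (nat_lit 265)) (XT.lf (nat_lit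 0) (nat_lit 403746821) (nat_lit 0) (nat_lit 767175408) (nat_lit 152) (nat_lit 3011027174) (nat_lit 36) (nat_lit 3) (nat_lit 36) (nat_lit 1) (nat_lit 38) (nat_lit 1) (nat_lit 370) (nat_lit 386) (nat_lit 264))))) (XT.nd (nat_lit 234) (nat_lit 532) (nat_lit 0) (XT.nd (nat_lit 78) (nat_lit 228) (nat_lit 0) (XT.lf (nat_lit 76) (nat_lit 1105554358) (nat_lit 0) (nat_lit 1556955339) (nat_lit 76) (nat_lit 1451676821) (nat_lit 36) (nat_lit 3) (nat_lit 35) (nat_lit 1) (nat_lit 36) (nat_lit 1) (nat_lit 371) (nat_lit 386) (nat_lit 263)) (XT.nd (nat_lit 78) (nat_lit 76) (nat_lit 0) (XT.lf (nat_lit 0) (nat_lit 807303741) (nat_lit 0) (nat_lit 1127343004) (nat_lit 152) (nat_lit 2113038811) (nat_lit 33) (nat_lit 3) (nat_lit 33) (nat_lit 1) (nat_lit 35) (nat_lit 1) (nat_lit 372) (nat_lit 386) (nat_lit 262)) (XT.lf (nat_lit 76) (nat_lit 689397238) (nat_lit 0) (nat_lit 2298668909) (nat_lit 76) (nat_lit 994196537) (nat_lit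 33) (nat_lit 3) (nat_lit 32) (nat_lit 1) (nat_lit 33) (nat_lit 1) (nat_lit 373) (nat_lit 386) (nat_lit 261)))) (XT.nd (nat_lit 156) (nat_lit 304) (nat_lit 0) (XT.nd (nat_lit 78) (nat_lit 76) (nat_lit 0) (XT.lf (nat_lit 0) (nat_lit 1182551628) (nat_lit 0) (nat_lit 1464381771) (nat_lit 152) (nat_lit 1270895555) (nat_lit 30) (nat_lit 3) (nat_lit 30) (nat_lit 1) (nat_lit 32) (nat_lit 1) (nat_lit 374) (nat_lit 386) (nat_lit 260)) (XT.lf (nat_lit 76) (nat_lit 298156411) (nat_lit 0) (nat_lit 2989940126) (nat_lit 76) (nat_lit 566566070) (nat_lit 30) (nat_lit 3) (nat_lit 29) (nat_lit 1) (nat_lit 30) (nat_lit 1) (nat_lit 375) (nat_lit 386) (nat_lit 259))) (XT.nd (nat_lit 78) (nat_lit 152) (nat_lit 0) (XT.lf (nat_lit 0) (nat_lit 1531045223) (nat_lit 0) (nat_lit 1779227987) (nat_lit 152) (nat_lit 481956116) (nat_lit 27) (nat_lit 3) (nat_lit 27) (nat_lit 1) (nat_lit 29) (nat_lit 1) (nat_lit 376) (nat_lit 386)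 (nat_lit 258)) (XT.lf (nat_lit 76) (nat_lit 3564714199) (nat_lit 0) (nat_lit 67824735) (nat_lit 152) (nat_lit 98680323) (nat_lit 26) (nat_lit 1) (nat_lit 25) (nat_lit 1) (nat_lit 27) (nat_lit 1) (nat_lit 377) (nat_lit 386) (nat_lit 257)))))) (XT.nd (nat_lit 546) (nat_lit 608) (nat_lit 0) (XT.nd (nat_lit 234) (nat_lit 456) (nat_lit 0) (XT.nd (nat_lit 78) (nat_lit 228) (nat_lit 0) (XT.lf (nat_lit 76) (nat_lit 1595347336) (nat_lit 0) (nat_lit 261419413) (nat_lit 76) (nat_lit 1813899844) (nat_lit 24) (nat_lit 3) (nat_lit 23) (nat_lit 1) (nat_lit 24) (nat_lit 1) (nat_lit 378) (nat_lit 386) (nat_lit 256)) (XT.nd (nat_lit 78) (nat_lit 76) (nat_lit 0) (XT.lf (nat_lit 0) (nat_lit 211536901) (nat_lit 0) (nat_lit 413619664) (nat_lit 152) (nat_lit 2986331886) (nat_lit 21) (nat_lit 3) (nat_lit 21) (nat_lit 1) (nat_lit 23) (nat_lit 1) (nat_lit 379) (nat_lit 386) (nat_lit 255)) (XT.lf (nat_lit 76) (nat_lit 1197644532)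 (nat_lit 0) (nat_lit 965200374) (nat_lit 76) (nat_lit 1390104305) (nat_lit 21) (nat_lit 3) (nat_lit 20) (nat_lit 1) (nat_lit 21) (nat_lit 1) (nat_lit 380) (nat_lit 386) (nat_lit 254)))) (XT.nd (nat_lit 156) (nat_lit 228) (nat_lit 0) (XT.nd (nat_lit 78) (nat_lit 76) (nat_lit 0) (XT.lf (nat_lit 0) (nat_lit 561805597) (nat_lit 0) (nat_lit 739761929) (nat_lit 152) (nat_lit 2194039042) (nat_lit 18) (nat_lit 3) (nat_lit 18) (nat_lit 1) (nat_lit 20) (nat_lit 1) (nat_lit 381) (nat_lit 386) (nat_lit 253)) (XT.lf (nat_lit 76) (nat_lit 823709671) (nat_lit 0) (nat_lit 1622182410) (nat_lit 76) (nat_lit 993191893) (nat_lit 18) (nat_lit 3) (nat_lit 17) (nat_lit 1) (nat_lit 18) (nat_lit 1) (nat_lit 382) (nat_lit 386) (nat_lit 252))) (XT.nd (nat_lit 78) (nat_lit 76) (nat_lit 0) (XT.lf (nat_lit 0) (nat_lit 887931754) (nat_lit 0) (nat_lit 1044642084) (nat_lit 152) (nat_lit 1450944263) (nat_lit 15) (nat_lit 3) (nat_lit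 15) (nat_lit 1) (nat_lit 17) (nat_lit 1) (nat_lit 383) (nat_lit 386) (nat_lit 251)) (XT.lf (nat_lit 76) (nat_lit 472518321) (nat_lit 0) (nat_lit 2234656242) (nat_lit 76) (nat_lit 621766254) (nat_lit 15) (nat_lit 3) (nat_lit 14) (nat_lit 1) (nat_lit 15) (nat_lit 1) (nat_lit 384) (nat_lit 386) (nat_lit 250))))) (XT.nd (nat_lit 234) (nat_lit 228) (nat_lit 0) (XT.nd (nat_lit 78) (nat_lit 228) (nat_lit 0) (XT.lf (nat_lit 0) (nat_lit 1191203253) (nat_lit 0) (nat_lit 1329204116) (nat_lit 152) (nat_lit 754687654) (nat_lit 12) (nat_lit 3) (nat_lit 12) (nat_lit 1) (nat_lit 14) (nat_lit 1) (nat_lit 385) (nat_lit 386) (nat_lit 249)) (XT.nd (nat_lit 78) (nat_lit 152) (nat_lit 0) (XT.lf (nat_lit 76) (nat_lit 143073189) (nat_lit 0) (nat_lit 2804818596) (nat_lit 76) (nat_lit 274502582) (nat_lit 12) (nat_lit 3) (nat_lit 11) (nat_lit 1) (nat_lit 12) (nat_lit 1) (nat_lit 386) (nat_lit 386) (nat_lit 248)) (XT.lf (nat_lit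 0) (nat_lit 1472841392) (nat_lit 0) (nat_lit 1594366490) (nat_lit 152) (nat_lit 103006023) (nat_lit 9) (nat_lit 3) (nat_lit 9) (nat_lit 1) (nat_lit 11) (nat_lit 1) (nat_lit 387) (nat_lit 386) (nat_lit 247)))) (XT.nd (nat_lit 42120) (nat_lit 0) (nat_lit 28044) (XT.nd (nat_lit 42042) (nat_lit 0) (nat_lit 27968) (XT.lf (nat_lit 0) (nat_lit 52608660) (nat_lit 0) (nat_lit 164975833) (nat_lit 152) (nat_lit 2901613116) (nat_lit 6) (nat_lit 3) (nat_lit 6) (nat_lit 1) (nat_lit 8) (nat_lit 1) (nat_lit 388) (nat_lit 386) (nat_lit 246)) (XT.lf (nat_lit 1292) (nat_lit 3694551575) (nat_lit 0) (nat_lit 12710975641) (nat_lit 1292) (nat_lit 3694551575) (nat_lit 391) (nat_lit 1) (nat_lit 374) (nat_lit 0) (nat_lit 391) (nat_lit 0) (nat_lit 246) (nat_lit 387) (nat_lit 387))) (XT.nd (nat_lit 78) (nat_lit 0) (nat_lit 0) (XT.lf (nat_lit 1292) (nat_lit 296198676) (nat_lit 0) (nat_lit 25063371087) (nat_lit 1216) (nat_lit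 13876040082) (nat_lit 392) (nat_lit 1) (nat_lit 375) (nat_lit 1) (nat_lit 391) (nat_lit 1) (nat_lit 247) (nat_lit 387) (nat_lit 386)) (XT.lf (nat_lit 1292) (nat_lit 13031468232) (nat_lit 76) (nat_lit 18432534956) (nat_lit 0) (nat_lit 6836572522) (nat_lit 392) (nat_lit 1) (nat_lit 376) (nat_lit 1) (nat_lit 375) (nat_lit 1) (nat_lit 248) (nat_lit 387) (nat_lit 385))))))) (XT.nd (nat_lit 1092) (nat_lit 6308) (nat_lit 0) (XT.nd (nat_lit 546) (nat_lit 3116) (nat_lit 0) (XT.nd (nat_lit 234) (nat_lit 988) (nat_lit 0) (XT.nd (nat_lit 78) (nat_lit 0) (nat_lit 76) (XT.lf (nat_lit 1292) (nat_lit 11455765585) (nat_lit 76) (nat_lit 12065413103) (nat_lit 0) (nat_lit 13874638189) (nat_lit 393) (nat_lit 1) (nat_lit 377) (nat_lit 1) (nat_lit 376) (nat_lit 1) (nat_lit 249) (nat_lit 387) (nat_lit 384)) (XT.nd (nat_lit 78) (nat_lit 0) (nat_lit 76) (XT.lf (nat_lit 1292) (nat_lit 9480417398) (nat_lit 76) (nat_lit 6232416094)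 (nat_lit 0) (nat_lit 20807482705) (nat_lit 394) (nat_lit 1) (nat_lit 378) (nat_lit 1) (nat_lit 377) (nat_lit 1) (nat_lit 250) (nat_lit 387) (nat_lit 383)) (XT.lf (nat_lit 1292) (nat_lit 7135886262) (nat_lit 76) (nat_lit 906101117) (nat_lit 0) (nat_lit 27631026010) (nat_lit 395) (nat_lit 1) (nat_lit 379) (nat_lit 1) (nat_lit 378) (nat_lit 1) (nat_lit 251) (nat_lit 387) (nat_lit 382)))) (XT.nd (nat_lit 156) (nat_lit 1216) (nat_lit 0) (XT.nd (nat_lit 78) (nat_lit 0) (nat_lit 0) (XT.lf (nat_lit 1292) (nat_lit 549068393) (nat_lit 0) (nat_lit 30439864299) (nat_lit 1216) (nat_lit 3862821481) (nat_lit 396) (nat_lit 1) (nat_lit 379) (nat_lit 1) (nat_lit 395) (nat_lit 1) (nat_lit 252) (nat_lit 387) (nat_lit 381)) (XT.lf (nat_lit 1292) (nat_lit 1301411539) (nat_lit 76) (nat_lit 25820539257) (nat_lit 0) (nat_lit 6932616904) (nat_lit 396) (nat_lit 1) (nat_lit 380) (nat_lit 1) (nat_lit 379) (nat_lit 1) (nat_lit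 253) (nat_lit 387) (nat_lit 380))) (XT.nd (nat_lit 78) (nat_lit 0) (nat_lit 76) (XT.lf (nat_lit 1368) (nat_lit 19020114895) (nat_lit 0) (nat_lit 2055875498) (nat_lit 1292) (nat_lit 12206052980) (nat_lit 381) (nat_lit 1) (nat_lit 363) (nat_lit 1) (nat_lit 380) (nat_lit 1) (nat_lit 254) (nat_lit 387) (nat_lit 379)) (XT.lf (nat_lit 1368) (nat_lit 11101937971) (nat_lit 0) (nat_lit 5641080191) (nat_lit 1292) (nat_lit 15790571097) (nat_lit 382) (nat_lit 1) (nat_lit 364) (nat_lit 1) (nat_lit 381) (nat_lit 1) (nat_lit 255) (nat_lit 387) (nat_lit 378))))) (XT.nd (nat_lit 234) (nat_lit 1824) (nat_lit 0) (XT.nd (nat_lit 78) (nat_lit 1444) (nat_lit 0) (XT.lf (nat_lit 76) (nat_lit 3355064551) (nat_lit 0) (nat_lit 9457605766) (nat_lit 1292) (nat_lit 18996044152) (nat_lit 366) (nat_lit 1) (nat_lit 365) (nat_lit 1) (nat_lit 382) (nat_lit 1) (nat_lit 256) (nat_lit 387) (nat_lit 377)) (XT.nd (nat_lit 78) (nat_lit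 608) (nat_lit 0) (XT.lf (nat_lit 912) (nat_lit 17579209139) (nat_lit 0) (nat_lit 9221497533) (nat_lit 836) (nat_lit 4304638533) (nat_lit 366) (nat_lit 1) (nat_lit 354) (nat_lit 1) (nat_lit 365) (nat_lit 1) (nat_lit 257) (nat_lit 387) (nat_lit 376)) (XT.lf (nat_lit 684) (nat_lit 12605941570) (nat_lit 0) (nat_lit 5960098475) (nat_lit 608) (nat_lit 11856946139) (nat_lit 355) (nat_lit 1) (nat_lit 346) (nat_lit 1) (nat_lit 354) (nat_lit 1) (nat_lit 258) (nat_lit 387) (nat_lit 375)))) (XT.nd (nat_lit 156) (nat_lit 684) (nat_lit 0) (XT.nd (nat_lit 78) (nat_lit 532) (nat_lit 0) (XT.lf (nat_lit 684) (nat_lit 7482712323) (nat_lit 0) (nat_lit 3043399070) (nat_lit 608) (nat_lit 19235743502) (nat_lit 347) (nat_lit 1) (nat_lit 338) (nat_lit 1) (nat_lit 346) (nat_lit 1) (nat_lit 259) (nat_lit 387) (nat_lit 374)) (XT.lf (nat_lit 608) (nat_lit 2225973317) (nat_lit 0) (nat_lit 453321096) (nat_lit 532) (nat_lit 26441917276)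 (nat_lit 339) (nat_lit 1) (nat_lit 331) (nat_lit 1) (nat_lit 338) (nat_lit 1) (nat_lit 260) (nat_lit 387) (nat_lit 373))) (XT.nd (nat_lit 78) (nat_lit 608) (nat_lit 0) (XT.lf (nat_lit 76) (nat_lit 23471944076) (nat_lit 0) (nat_lit 3154231054) (nat_lit 608) (nat_lit 1871257068) (nat_lit 331) (nat_lit 1) (nat_lit 330) (nat_lit 1) (nat_lit 338) (nat_lit 1) (nat_lit 261) (nat_lit 387) (nat_lit 372)) (XT.lf (nat_lit 76) (nat_lit 15325695764) (nat_lit 0) (nat_lit 8618775344) (nat_lit 684) (nat_lit 3946816778) (nat_lit 323) (nat_lit 1) (nat_lit 322) (nat_lit 1) (nat_lit 331) (nat_lit 1) (nat_lit 262) (nat_lit 387) (nat_lit 371)))))) (XT.nd (nat_lit 546) (nat_lit 2812) (nat_lit 0) (XT.nd (nat_lit 234) (nat_lit 1976) (nat_lit 0) (XT.nd (nat_lit 78) (nat_lit 988) (nat_lit 0) (XT.lf (nat_lit 76) (nat_lit 7387056117) (nat_lit 0) (nat_lit 14167086743) (nat_lit 608) (nat_lit 5749545222) (nat_lit 316) (nat_lit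 1) (nat_lit 315) (nat_lit 1) (nat_lit 323) (nat_lit 1) (nat_lit 263) (nat_lit 387) (nat_lit 370)) (XT.nd (nat_lit 78) (nat_lit 456) (nat_lit 0) (XT.lf (nat_lit 608) (nat_lit 6943615385) (nat_lit 0) (nat_lit 19436491101) (nat_lit 532) (nat_lit 353790085) (nat_lit 316) (nat_lit 1) (nat_lit 308) (nat_lit 1) (nat_lit 315) (nat_lit 1) (nat_lit 264) (nat_lit 387) (nat_lit 369)) (XT.lf (nat_lit 532) (nat_lit 635380269) (nat_lit 0) (nat_lit 17507960652) (nat_lit 456) (nat_lit 8035950857) (nat_lit 309) (nat_lit 1) (nat_lit 302) (nat_lit 1) (nat_lit 308) (nat_lit 1) (nat_lit 265) (nat_lit 387) (nat_lit 368)))) (XT.nd (nat_lit 156) (nat_lit 912) (nat_lit 0) (XT.nd (nat_lit 78) (nat_lit 456) (nat_lit 0) (XT.lf (nat_lit 76) (nat_lit 10180717722) (nat_lit 0) (nat_lit 5592093587) (nat_lit 608) (nat_lit 9867002116) (nat_lit 295) (nat_lit 1) (nat_lit 294) (nat_lit 1) (nat_lit 302) (nat_lit 1) (nat_lit 266) (nat_lit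 387) (nat_lit 367)) (XT.lf (nat_lit 76) (nat_lit 2439925795) (nat_lit 0) (nat_lit 11827855759) (nat_lit 532) (nat_lit 10848569174) (nat_lit 289) (nat_lit 1) (nat_lit 288) (nat_lit 1) (nat_lit 295) (nat_lit 1) (nat_lit 267) (nat_lit 387) (nat_lit 366))) (XT.nd (nat_lit 78) (nat_lit 456) (nat_lit 0) (XT.lf (nat_lit 532) (nat_lit 6481462278) (nat_lit 0) (nat_lit 12935235340) (nat_lit 456) (nat_lit 5190349954) (nat_lit 289) (nat_lit 1) (nat_lit 282) (nat_lit 1) (nat_lit 288) (nat_lit 1) (nat_lit 268) (nat_lit 387) (nat_lit 365)) (XT.lf (nat_lit 76) (nat_lit 11458258359) (nat_lit 0) (nat_lit 330463418) (nat_lit 456) (nat_lit 12323402804) (nat_lit 277) (nat_lit 1) (nat_lit 276) (nat_lit 1) (nat_lit 282) (nat_lit 1) (nat_lit 269) (nat_lit 387) (nat_lit 364))))) (XT.nd (nat_lit 234) (nat_lit 1596) (nat_lit 0) (XT.nd (nat_lit 78) (nat_lit 760) (nat_lit 0) (XT.lf (nat_lit 76) (nat_lit 3784549737) (nat_lit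 0) (nat_lit 6996236519) (nat_lit 532) (nat_lit 12849242622) (nat_lit 271) (nat_lit 1) (nat_lit 270) (nat_lit 1) (nat_lit 277) (nat_lit 1) (nat_lit 270) (nat_lit 387) (nat_lit 363)) (XT.nd (nat_lit 78) (nat_lit 380) (nat_lit 0) (XT.lf (nat_lit 456) (nat_lit 9488994977) (nat_lit 0) (nat_lit 9927659151) (nat_lit 380) (nat_lit 3744411619) (nat_lit 271) (nat_lit 1) (nat_lit 265) (nat_lit 1) (nat_lit 270) (nat_lit 1) (nat_lit 271) (nat_lit 387) (nat_lit 362)) (XT.lf (nat_lit 456) (nat_lit 2353590295) (nat_lit 0) (nat_lit 9219976840) (nat_lit 380) (nat_lit 11131231065) (nat_lit 266) (nat_lit 1) (nat_lit 260) (nat_lit 1) (nat_lit 265) (nat_lit 1) (nat_lit 272) (nat_lit 387) (nat_lit 361)))) (XT.nd (nat_lit 156) (nat_lit 760) (nat_lit 0) (XT.nd (nat_lit 78) (nat_lit 380) (nat_lit 0) (XT.lf (nat_lit 76) (nat_lit 4002097151) (nat_lit 0) (nat_lit 4637087186) (nat_lit 456) (nat_lit 13621340334) (nat_lit 255)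 (nat_lit 1) (nat_lit 254) (nat_lit 1) (nat_lit 260) (nat_lit 1) (nat_lit 273) (nat_lit 387) (nat_lit 360)) (XT.lf (nat_lit 456) (nat_lit 10268838984) (nat_lit 0) (nat_lit 8166286114) (nat_lit 380) (nat_lit 3392408736) (nat_lit 255) (nat_lit 1) (nat_lit 249) (nat_lit 1) (nat_lit 254) (nat_lit 1) (nat_lit 274) (nat_lit 387) (nat_lit 359))) (XT.nd (nat_lit 78) (nat_lit 456) (nat_lit 0) (XT.lf (nat_lit 380) (nat_lit 2948236619) (nat_lit 0) (nat_lit 7810916031) (nat_lit 304) (nat_lit 10646798583) (nat_lit 250) (nat_lit 1) (nat_lit 245) (nat_lit 1) (nat_lit 249) (nat_lit 1) (nat_lit 275) (nat_lit 387) (nat_lit 358)) (XT.lf (nat_lit 76) (nat_lit 3351306617) (nat_lit 0) (nat_lit 4210998213) (nat_lit 456) (nat_lit 13433006274) (nat_lit 240) (nat_lit 1) (nat_lit 239) (nat_lit 1) (nat_lit 245) (nat_lit 1) (nat_lit 276) (nat_lit 387) (nat_lit 357))))))))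
noncomputable def ec100 : XT := (XT.nd (nat_lit 2184) (nat_lit 3952) (nat_lit 0) (XT.nd (nat_lit 1092) (nat_lit 2888) (nat_lit 0) (XT.nd (nat_lit 546) (nat_lit 1900) (nat_lit 0) (XT.nd (nat_lit 234) (nat_lit 1140) (nat_lit 0) (XT.nd (nat_lit 78) (nat_lit 684) (nat_lit 0) (XT.lf (nat_lit 380) (nat_lit 9323307864) (nat_lit 0) (nat_lit 7387865315) (nat_lit 304) (nat_lit 3883341928) (nat_lit 240) (nat_lit 1) (nat_lit 235) (nat_lit 1) (nat_lit 239) (nat_lit 1) (nat_lit 277) (nat_lit 387) (nat_lit 356)) (XT.nd (nat_lit 78) (nat_lit 380) (nat_lit 0) (XT.lf (nat_lit 380) (nat_lit 1923381921) (nat_lit 0) (nat_lit 7315703374) (nat_lit 304) (nat_lit 10965150207) (nat_lit 236) (nat_lit 1) (nat_lit 231) (nat_lit 1) (nat_lit 235) (nat_lit 1) (nat_lit 278) (nat_lit 387) (nat_lit 355)) (XT.lf (nat_lit 76) (nat_lit 2043982794) (nat_lit 0) (nat_lit 5274849978) (nat_lit 380) (nat_lit 12504709939) (nat_lit 227) (nat_lit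 1) (nat_lit 226) (nat_lit 1) (nat_lit 231) (nat_lit 1) (nat_lit 279) (nat_lit 387) (nat_lit 354)))) (XT.nd (nat_lit 156) (nat_lit 532) (nat_lit 0) (XT.nd (nat_lit 78) (nat_lit 304) (nat_lit 0) (XT.lf (nat_lit 380) (nat_lit 7064285403) (nat_lit 0) (nat_lit 7375607075) (nat_lit 304) (nat_lit 5011772943) (nat_lit 227) (nat_lit 1) (nat_lit 222) (nat_lit 1) (nat_lit 226) (nat_lit 1) (nat_lit 280) (nat_lit 387) (nat_lit 353)) (XT.lf (nat_lit 76) (nat_lit 7202007174) (nat_lit 0) (nat_lit 324043487) (nat_lit 304) (nat_lit 11563580576) (nat_lit 219) (nat_lit 1) (nat_lit 218) (nat_lit 1) (nat_lit 222) (nat_lit 1) (nat_lit 281) (nat_lit 387) (nat_lit 352))) (XT.nd (nat_lit 78) (nat_lit 228) (nat_lit 0) (XT.lf (nat_lit 76) (nat_lit 252892073) (nat_lit 0) (nat_lit 7465715152) (nat_lit 380) (nat_lit 11017195771) (nat_lit 215) (nat_lit 1) (nat_lit 214) (nat_lit 1) (nat_lit 219) (nat_lit 1) (nat_lit 282) (nat_lit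 387) (nat_lit 351)) (XT.lf (nat_lit 304) (nat_lit 3828384611) (nat_lit 0) (nat_lit 7951452805) (nat_lit 228) (nat_lit 6610157220) (nat_lit 215) (nat_lit 1) (nat_lit 211) (nat_lit 1) (nat_lit 214) (nat_lit 1) (nat_lit 283) (nat_lit 387) (nat_lit 350))))) (XT.nd (nat_lit 234) (nat_lit 988) (nat_lit 0) (XT.nd (nat_lit 78) (nat_lit 532) (nat_lit 0) (XT.lf (nat_lit 76) (nat_lit 4822671935) (nat_lit 0) (nat_lit 3426287995) (nat_lit 380) (nat_lit 9803825697) (nat_lit 207) (nat_lit 1) (nat_lit 206) (nat_lit 1) (nat_lit 211) (nat_lit 1) (nat_lit 284) (nat_lit 387) (nat_lit 349)) (XT.nd (nat_lit 78) (nat_lit 304) (nat_lit 0) (XT.lf (nat_lit 304) (nat_lit 7217499660) (nat_lit 0) (nat_lit 8586755184) (nat_lit 228) (nat_lit 1919083296) (nat_lit 207) (nat_lit 1) (nat_lit 203) (nat_lit 1) (nat_lit 206) (nat_lit 1) (nat_lit 285) (nat_lit 387) (nat_lit 348)) (XT.lf (nat_lit 76) (nat_lit 8860293928) (nat_lit 0)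 (nat_lit 108218471) (nat_lit 304) (nat_lit 8433121293) (nat_lit 200) (nat_lit 1) (nat_lit 199) (nat_lit 1) (nat_lit 203) (nat_lit 1) (nat_lit 286) (nat_lit 387) (nat_lit 347)))) (XT.nd (nat_lit 156) (nat_lit 532) (nat_lit 0) (XT.nd (nat_lit 78) (nat_lit 228) (nat_lit 0) (XT.lf (nat_lit 76) (nat_lit 2201931259) (nat_lit 0) (nat_lit 7166539371) (nat_lit 304) (nat_lit 7718328237) (nat_lit 197) (nat_lit 1) (nat_lit 196) (nat_lit 1) (nat_lit 200) (nat_lit 1) (nat_lit 287) (nat_lit 387) (nat_lit 346)) (XT.lf (nat_lit 304) (nat_lit 2638630462) (nat_lit 0) (nat_lit 9810072618) (nat_lit 228) (nat_lit 4330692633) (nat_lit 197) (nat_lit 1) (nat_lit 193) (nat_lit 1) (nat_lit 196) (nat_lit 1) (nat_lit 288) (nat_lit 387) (nat_lit 345))) (XT.nd (nat_lit 78) (nat_lit 228) (nat_lit 0) (XT.lf (nat_lit 76) (nat_lit 5824708652) (nat_lit 0) (nat_lit 4441555013) (nat_lit 304) (nat_lit 6212254110) (nat_lit 190) (nat_lit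 1) (nat_lit 189) (nat_lit 1) (nat_lit 193) (nat_lit 1) (nat_lit 289) (nat_lit 387) (nat_lit 344)) (XT.lf (nat_lit 304) (nat_lit 4840543398) (nat_lit 0) (nat_lit 10768883495) (nat_lit 228) (nat_lit 575549335) (nat_lit 190) (nat_lit 1) (nat_lit 186) (nat_lit 1) (nat_lit 189) (nat_lit 1) (nat_lit 290) (nat_lit 387) (nat_lit 343)))))) (XT.nd (nat_lit 546) (nat_lit 1292) (nat_lit 0) (XT.nd (nat_lit 234) (nat_lit 912) (nat_lit 0) (XT.nd (nat_lit 78) (nat_lit 456) (nat_lit 0) (XT.lf (nat_lit 76) (nat_lit 9035681182) (nat_lit 0) (nat_lit 2230240413) (nat_lit 228) (nat_lit 4631220624) (nat_lit 184) (nat_lit 1) (nat_lit 183) (nat_lit 1) (nat_lit 186) (nat_lit 1) (nat_lit 291) (nat_lit 387) (nat_lit 342)) (XT.nd (nat_lit 78) (nat_lit 228) (nat_lit 0) (XT.lf (nat_lit 76) (nat_lit 2716840144) (nat_lit 0) (nat_lit 9070912422) (nat_lit 304) (nat_lit 3828036069) (nat_lit 181) (nat_lit 1) (nat_lit 180) (nat_lit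 1) (nat_lit 184) (nat_lit 1) (nat_lit 292) (nat_lit 387) (nat_lit 341)) (XT.lf (nat_lit 76) (nat_lit 11878358472) (nat_lit 0) (nat_lit 460731625) (nat_lit 228) (nat_lit 3001852988) (nat_lit 178) (nat_lit 1) (nat_lit 177) (nat_lit 1) (nat_lit 180) (nat_lit 1) (nat_lit 293) (nat_lit 387) (nat_lit 340)))) (XT.nd (nat_lit 156) (nat_lit 532) (nat_lit 0) (XT.nd (nat_lit 78) (nat_lit 152) (nat_lit 0) (XT.lf (nat_lit 76) (nat_lit 5639042491) (nat_lit 0) (nat_lit 7226708703) (nat_lit 304) (nat_lit 2205168637) (nat_lit 175) (nat_lit 1) (nat_lit 174) (nat_lit 1) (nat_lit 178) (nat_lit 1) (nat_lit 294) (nat_lit 387) (nat_lit 339)) (XT.lf (nat_lit 228) (nat_lit 948262010) (nat_lit 0) (nat_lit 13452264183) (nat_lit 152) (nat_lit 407549128) (nat_lit 175) (nat_lit 1) (nat_lit 172) (nat_lit 1) (nat_lit 174) (nat_lit 1) (nat_lit 295) (nat_lit 387) (nat_lit 338))) (XT.nd (nat_lit 78) (nat_lit 304) (nat_lit 0) (XT.lf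 (nat_lit 76) (nat_lit 8239420674) (nat_lit 0) (nat_lit 5746468645) (nat_lit 228) (nat_lit 563133018) (nat_lit 170) (nat_lit 1) (nat_lit 169) (nat_lit 1) (nat_lit 172) (nat_lit 1) (nat_lit 296) (nat_lit 387) (nat_lit 337)) (XT.lf (nat_lit 228) (nat_lit 2009925099) (nat_lit 0) (nat_lit 278716917) (nat_lit 152) (nat_lit 12007946254) (nat_lit 168) (nat_lit 1) (nat_lit 165) (nat_lit 1) (nat_lit 167) (nat_lit 1) (nat_lit 297) (nat_lit 387) (nat_lit 336))))) (XT.nd (nat_lit 234) (nat_lit 684) (nat_lit 0) (XT.nd (nat_lit 78) (nat_lit 380) (nat_lit 0) (XT.lf (nat_lit 228) (nat_lit 9459846076) (nat_lit 0) (nat_lit 1101764883) (nat_lit 152) (nat_lit 3486788244) (nat_lit 165) (nat_lit 1) (nat_lit 162) (nat_lit 1) (nat_lit 164) (nat_lit 1) (nat_lit 298) (nat_lit 387) (nat_lit 335)) (XT.nd (nat_lit 78) (nat_lit 228) (nat_lit 0) (XT.lf (nat_lit 228) (nat_lit 2774902840) (nat_lit 0) (nat_lit 1932535869) (nat_lit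 152) (nat_lit 9098180394) (nat_lit 163) (nat_lit 1) (nat_lit 160) (nat_lit 1) (nat_lit 162) (nat_lit 1) (nat_lit 299) (nat_lit 387) (nat_lit 334)) (XT.lf (nat_lit 228) (nat_lit 9865752800) (nat_lit 0) (nat_lit 2764088063) (nat_lit 152) (nat_lit 938106174) (nat_lit 160) (nat_lit 1) (nat_lit 157) (nat_lit 1) (nat_lit 159) (nat_lit 1) (nat_lit 300) (nat_lit 387) (nat_lit 333)))) (XT.nd (nat_lit 156) (nat_lit 304) (nat_lit 0) (XT.nd (nat_lit 78) (nat_lit 228) (nat_lit 0) (XT.lf (nat_lit 228) (nat_lit 3303237382) (nat_lit 0) (nat_lit 3568475232) (nat_lit 152) (nat_lit 6462759564) (nat_lit 158) (nat_lit 1) (nat_lit 155) (nat_lit 1) (nat_lit 157) (nat_lit 1) (nat_lit 301) (nat_lit 387) (nat_lit 332)) (XT.lf (nat_lit 76) (nat_lit 1331516109) (nat_lit 0) (nat_lit 3055088499) (nat_lit 228) (nat_lit 8719686372) (nat_lit 153) (nat_lit 1) (nat_lit 152) (nat_lit 1) (nat_lit 155) (nat_lit 1) (nat_lit 302) (nat_lit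 387) (nat_lit 331))) (XT.nd (nat_lit 78) (nat_lit 152) (nat_lit 0) (XT.lf (nat_lit 228) (nat_lit 3631792310) (nat_lit 0) (nat_lit 5174809840) (nat_lit 152) (nat_lit 4075436248) (nat_lit 153) (nat_lit 1) (nat_lit 150) (nat_lit 1) (nat_lit 152) (nat_lit 1) (nat_lit 303) (nat_lit 387) (nat_lit 330)) (XT.lf (nat_lit 76) (nat_lit 3359076863) (nat_lit 0) (nat_lit 2606323913) (nat_lit 152) (nat_lit 6697163290) (nat_lit 149) (nat_lit 1) (nat_lit 148) (nat_lit 1) (nat_lit 150) (nat_lit 1) (nat_lit 304) (nat_lit 387) (nat_lit 329))))))) (XT.nd (nat_lit 1092) (nat_lit 1672) (nat_lit 0) (XT.nd (nat_lit 546) (nat_lit 1216) (nat_lit 0) (XT.nd (nat_lit 234) (nat_lit 608) (nat_lit 0) (XT.nd (nat_lit 78) (nat_lit 304) (nat_lit 0) (XT.lf (nat_lit 228) (nat_lit 3792614083) (nat_lit 0) (nat_lit 6741943680) (nat_lit 152) (nat_lit 1912741875) (nat_lit 149) (nat_lit 1) (nat_lit 146) (nat_lit 1) (nat_lit 148) (nat_lit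 1) (nat_lit 305) (nat_lit 387) (nat_lit 328)) (XT.nd (nat_lit 78) (nat_lit 152) (nat_lit 0) (XT.lf (nat_lit 76) (nat_lit 5184231933) (nat_lit 0) (nat_lit 2316931816) (nat_lit 152) (nat_lit 4734898003) (nat_lit 145) (nat_lit 1) (nat_lit 144) (nat_lit 1) (nat_lit 146) (nat_lit 1) (nat_lit 306) (nat_lit 387) (nat_lit 327)) (XT.lf (nat_lit 76) (nat_lit 45424358) (nat_lit 0) (nat_lit 8216239114) (nat_lit 228) (nat_lit 3767642448) (nat_lit 143) (nat_lit 1) (nat_lit 142) (nat_lit 1) (nat_lit 145) (nat_lit 1) (nat_lit 307) (nat_lit 387) (nat_lit 326)))) (XT.nd (nat_lit 156) (nat_lit 304) (nat_lit 0) (XT.nd (nat_lit 78) (nat_lit 152) (nat_lit 0) (XT.lf (nat_lit 76) (nat_lit 6826091522) (nat_lit 0) (nat_lit 2160903941) (nat_lit 152) (nat_lit 2838890442) (nat_lit 141) (nat_lit 1) (nat_lit 140) (nat_lit 1) (nat_lit 142) (nat_lit 1) (nat_lit 308) (nat_lit 387) (nat_lit 325)) (XT.lf (nat_lit 76) (nat_lit 1785067605)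 (nat_lit 0) (nat_lit 7926086932) (nat_lit 228) (nat_lit 1915554260) (nat_lit 139) (nat_lit 1) (nat_lit 138) (nat_lit 1) (nat_lit 141) (nat_lit 1) (nat_lit 309) (nat_lit 387) (nat_lit 324))) (XT.nd (nat_lit 78) (nat_lit 152) (nat_lit 0) (XT.lf (nat_lit 76) (nat_lit 8301778655) (nat_lit 0) (nat_lit 2115687582) (nat_lit 152) (nat_lit 1013741229) (nat_lit 137) (nat_lit 1) (nat_lit 136) (nat_lit 1) (nat_lit 138) (nat_lit 1) (nat_lit 310) (nat_lit 387) (nat_lit 323)) (XT.lf (nat_lit 76) (nat_lit 3360062681) (nat_lit 0) (nat_lit 7744329042) (nat_lit 228) (nat_lit 134865451) (nat_lit 135) (nat_lit 1) (nat_lit 134) (nat_lit 1) (nat_lit 137) (nat_lit 1) (nat_lit 311) (nat_lit 387) (nat_lit 322))))) (XT.nd (nat_lit 234) (nat_lit 608) (nat_lit 0) (XT.nd (nat_lit 78) (nat_lit 304) (nat_lit 0) (XT.lf (nat_lit 228) (nat_lit 8882058426) (nat_lit 0) (nat_lit 751820832) (nat_lit 152) (nat_lit 1417163418) (nat_lit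 133) (nat_lit 1) (nat_lit 130) (nat_lit 1) (nat_lit 132) (nat_lit 1) (nat_lit 312) (nat_lit 387) (nat_lit 321)) (XT.nd (nat_lit 78) (nat_lit 228) (nat_lit 0) (XT.lf (nat_lit 152) (nat_lit 3198005754) (nat_lit 0) (nat_lit 1602671022) (nat_lit 76) (nat_lit 6065068994) (nat_lit 131) (nat_lit 1) (nat_lit 129) (nat_lit 1) (nat_lit 130) (nat_lit 1) (nat_lit 313) (nat_lit 387) (nat_lit 320)) (XT.lf (nat_lit 76) (nat_lit 150528246) (nat_lit 0) (nat_lit 2307355409) (nat_lit 228) (nat_lit 8226693771) (nat_lit 127) (nat_lit 1) (nat_lit 126) (nat_lit 1) (nat_lit 129) (nat_lit 1) (nat_lit 314) (nat_lit 387) (nat_lit 319)))) (XT.nd (nat_lit 156) (nat_lit 304) (nat_lit 0) (XT.nd (nat_lit 78) (nat_lit 228) (nat_lit 0) (XT.lf (nat_lit 152) (nat_lit 2840551335) (nat_lit 0) (nat_lit 3264885461) (nat_lit 76) (nat_lit 4400493373) (nat_lit 127) (nat_lit 1) (nat_lit 125) (nat_lit 1) (nat_lit 126) (nat_lit 1) (nat_lit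 315) (nat_lit 387) (nat_lit 318)) (XT.lf (nat_lit 76) (nat_lit 1554503844) (nat_lit 0) (nat_lit 2517105799) (nat_lit 228) (nat_lit 6259515701) (nat_lit 123) (nat_lit 1) (nat_lit 122) (nat_lit 1) (nat_lit 125) (nat_lit 1) (nat_lit 316) (nat_lit 387) (nat_lit 317))) (XT.nd (nat_lit 78) (nat_lit 228) (nat_lit 0) (XT.lf (nat_lit 152) (nat_lit 2437197078) (nat_lit 0) (nat_lit 4847837018) (nat_lit 76) (nat_lit 2874175341) (nat_lit 123) (nat_lit 1) (nat_lit 121) (nat_lit 1) (nat_lit 122) (nat_lit 1) (nat_lit 317) (nat_lit 387) (nat_lit 316)) (XT.lf (nat_lit 76) (nat_lit 2833955520) (nat_lit 0) (nat_lit 2772192675) (nat_lit 228) (nat_lit 4384328731) (nat_lit 119) (nat_lit 1) (nat_lit 118) (nat_lit 1) (nat_lit 121) (nat_lit 1) (nat_lit 318) (nat_lit 387) (nat_lit 315)))))) (XT.nd (nat_lit 546) (nat_lit 836) (nat_lit 0) (XT.nd (nat_lit 234) (nat_lit 532) (nat_lit 0) (XT.nd (nat_lit 78) (nat_lit 228) (nat_lit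 0) (XT.lf (nat_lit 152) (nat_lit 1999318214) (nat_lit 0) (nat_lit 6350983054) (nat_lit 76) (nat_lit 1474685287) (nat_lit 119) (nat_lit 1) (nat_lit 117) (nat_lit 1) (nat_lit 118) (nat_lit 1) (nat_lit 319) (nat_lit 387) (nat_lit 314)) (XT.nd (nat_lit 78) (nat_lit 76) (nat_lit 0) (XT.lf (nat_lit 76) (nat_lit 3999306039) (nat_lit 0) (nat_lit 3061964703) (nat_lit 152) (nat_lit 2600784632) (nat_lit 116) (nat_lit 1) (nat_lit 115) (nat_lit 1) (nat_lit 117) (nat_lit 1) (nat_lit 320) (nat_lit 387) (nat_lit 313)) (XT.lf (nat_lit 152) (nat_lit 1536635090) (nat_lit 0) (nat_lit 7774383699) (nat_lit 76) (nat_lit 191685203) (nat_lit 116) (nat_lit 1) (nat_lit 114) (nat_lit 1) (nat_lit 115) (nat_lit 1) (nat_lit 321) (nat_lit 387) (nat_lit 312)))) (XT.nd (nat_lit 156) (nat_lit 304) (nat_lit 0) (XT.nd (nat_lit 78) (nat_lit 76) (nat_lit 0) (XT.lf (nat_lit 76) (nat_lit 5059983561) (nat_lit 0) (nat_lit 3377315106) (nat_lit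 152) (nat_lit 908022754) (nat_lit 113) (nat_lit 1) (nat_lit 112) (nat_lit 1) (nat_lit 114) (nat_lit 1) (nat_lit 322) (nat_lit 387) (nat_lit 311)) (XT.lf (nat_lit 0) (nat_lit 964983901) (nat_lit 0) (nat_lit 8143876569) (nat_lit 152) (nat_lit 82695768) (nat_lit 111) (nat_lit 3) (nat_lit 111) (nat_lit 1) (nat_lit 113) (nat_lit 1) (nat_lit 323) (nat_lit 387) (nat_lit 310))) (XT.nd (nat_lit 78) (nat_lit 76) (nat_lit 0) (XT.lf (nat_lit 152) (nat_lit 5322264536) (nat_lit 0) (nat_lit 709080148) (nat_lit 76) (nat_lit 3008220730) (nat_lit 110) (nat_lit 1) (nat_lit 108) (nat_lit 1) (nat_lit 109) (nat_lit 1) (nat_lit 324) (nat_lit 387) (nat_lit 309)) (XT.lf (nat_lit 76) (nat_lit 533419194) (nat_lit 0) (nat_lit 1502226684) (nat_lit 76) (nat_lit 6855232080) (nat_lit 108) (nat_lit 3) (nat_lit 107) (nat_lit 1) (nat_lit 108) (nat_lit 1) (nat_lit 325) (nat_lit 387) (nat_lit 308))))) (XT.nd (nat_lit 234) (nat_lit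 456) (nat_lit 0) (XT.nd (nat_lit 78) (nat_lit 228) (nat_lit 0) (XT.lf (nat_lit 152) (nat_lit 4667714052) (nat_lit 0) (nat_lit 2254647566) (nat_lit 76) (nat_lit 1821914868) (nat_lit 107) (nat_lit 1) (nat_lit 105) (nat_lit 1) (nat_lit 106) (nat_lit 1) (nat_lit 326) (nat_lit 387) (nat_lit 307)) (XT.nd (nat_lit 78) (nat_lit 152) (nat_lit 0) (XT.lf (nat_lit 76) (nat_lit 16508030) (nat_lit 0) (nat_lit 3000622160) (nat_lit 76) (nat_lit 5583566909) (nat_lit 105) (nat_lit 3) (nat_lit 104) (nat_lit 1) (nat_lit 105) (nat_lit 1) (nat_lit 327) (nat_lit 387) (nat_lit 306)) (XT.lf (nat_lit 152) (nat_lit 4018620068) (nat_lit 0) (nat_lit 3712569332) (nat_lit 76) (nat_lit 728085923) (nat_lit 104) (nat_lit 1) (nat_lit 102) (nat_lit 1) (nat_lit 103) (nat_lit 1) (nat_lit 328) (nat_lit 387) (nat_lit 305)))) (XT.nd (nat_lit 156) (nat_lit 228) (nat_lit 0) (XT.nd (nat_lit 78) (nat_lit 76) (nat_lit 0) (XT.lf (nat_lit 76)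 (nat_lit 3920310207) (nat_lit 0) (nat_lit 487635595) (nat_lit 152) (nat_lit 3912513828) (nat_lit 101) (nat_lit 1) (nat_lit 100) (nat_lit 1) (nat_lit 102) (nat_lit 1) (nat_lit 329) (nat_lit 387) (nat_lit 304)) (XT.lf (nat_lit 0) (nat_lit 274645366) (nat_lit 0) (nat_lit 4807621869) (nat_lit 152) (nat_lit 3101793342) (nat_lit 99) (nat_lit 3) (nat_lit 99) (nat_lit 1) (nat_lit 101) (nat_lit 1) (nat_lit 330) (nat_lit 387) (nat_lit 303))) (XT.nd (nat_lit 78) (nat_lit 76) (nat_lit 0) (XT.lf (nat_lit 76) (nat_lit 4746789714) (nat_lit 0) (nat_lit 984479559) (nat_lit 152) (nat_lit 2318626974) (nat_lit 98) (nat_lit 1) (nat_lit 97) (nat_lit 1) (nat_lit 99) (nat_lit 1) (nat_lit 331) (nat_lit 387) (nat_lit 302)) (XT.lf (nat_lit 0) (nat_lit 1185340817) (nat_lit 0) (nat_lit 5177130441) (nat_lit 152) (nat_lit 1555657778) (nat_lit 96) (nat_lit 3) (nat_lit 96) (nat_lit 1) (nat_lit 98) (nat_lit 1) (nat_lit 332) (nat_lit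 387) (nat_lit 301))))))))
noncomputable def ec101 : XT := (XT.nd (nat_lit 2184) (nat_lit 3572) (nat_lit 0) (XT.nd (nat_lit 1092) (nat_lit 1672) (nat_lit 0) (XT.nd (nat_lit 546) (nat_lit 912) (nat_lit 0) (XT.nd (nat_lit 234) (nat_lit 456) (nat_lit 0) (XT.nd (nat_lit 78) (nat_lit 304) (nat_lit 0) (XT.lf (nat_lit 76) (nat_lit 5502125627) (nat_lit 0) (nat_lit 1471072368) (nat_lit 152) (nat_lit 815427496) (nat_lit 95) (nat_lit 1) (nat_lit 94) (nat_lit 1) (nat_lit 96) (nat_lit 1) (nat_lit 333) (nat_lit 387) (nat_lit 300)) (XT.nd (nat_lit 78) (nat_lit 228) (nat_lit 0) (XT.lf (nat_lit 0) (nat_lit 2023820032) (nat_lit 0) (nat_lit 5539034461) (nat_lit 152) (nat_lit 98459315) (nat_lit 93) (nat_lit 3) (nat_lit 93) (nat_lit 1) (nat_lit 95) (nat_lit 1) (nat_lit 334) (nat_lit 387) (nat_lit 299)) (XT.lf (nat_lit 152) (nat_lit 5585475626) (nat_lit 0) (nat_lit 611955337) (nat_lit 76) (nat_lit 1338674515) (nat_lit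 92) (nat_lit 1) (nat_lit 90) (nat_lit 1) (nat_lit 91) (nat_lit 1) (nat_lit 335) (nat_lit 387) (nat_lit 298)))) (XT.nd (nat_lit 156) (nat_lit 228) (nat_lit 0) (XT.nd (nat_lit 78) (nat_lit 152) (nat_lit 0) (XT.lf (nat_lit 76) (nat_lit 1509642169) (nat_lit 0) (nat_lit 1298062481) (nat_lit 76) (nat_lit 4605179169) (nat_lit 90) (nat_lit 3) (nat_lit 89) (nat_lit 1) (nat_lit 90) (nat_lit 1) (nat_lit 336) (nat_lit 387) (nat_lit 297)) (XT.lf (nat_lit 152) (nat_lit 4869660707) (nat_lit 0) (nat_lit 1969119918) (nat_lit 76) (nat_lit 453170916) (nat_lit 89) (nat_lit 1) (nat_lit 87) (nat_lit 1) (nat_lit 88) (nat_lit 1) (nat_lit 337) (nat_lit 387) (nat_lit 296))) (XT.nd (nat_lit 78) (nat_lit 152) (nat_lit 0) (XT.lf (nat_lit 76) (nat_lit 917515844) (nat_lit 0) (nat_lit 2611874607) (nat_lit 76) (nat_lit 3643480223) (nat_lit 87) (nat_lit 3) (nat_lit 86) (nat_lit 1) (nat_lit 87) (nat_lit 1) (nat_lit 338) (nat_lit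 387) (nat_lit 295)) (XT.lf (nat_lit 0) (nat_lit 359384079) (nat_lit 0) (nat_lit 2879924421) (nat_lit 152) (nat_lit 3816659868) (nat_lit 84) (nat_lit 3) (nat_lit 84) (nat_lit 1) (nat_lit 86) (nat_lit 1) (nat_lit 339) (nat_lit 387) (nat_lit 294))))) (XT.nd (nat_lit 234) (nat_lit 532) (nat_lit 0) (XT.nd (nat_lit 78) (nat_lit 304) (nat_lit 0) (XT.lf (nat_lit 76) (nat_lit 348183251) (nat_lit 0) (nat_lit 3844100273) (nat_lit 76) (nat_lit 2748697861) (nat_lit 84) (nat_lit 3) (nat_lit 83) (nat_lit 1) (nat_lit 84) (nat_lit 1) (nat_lit 340) (nat_lit 387) (nat_lit 293)) (XT.nd (nat_lit 78) (nat_lit 152) (nat_lit 0) (XT.lf (nat_lit 0) (nat_lit 1102886804) (nat_lit 0) (nat_lit 3322502718) (nat_lit 152) (nat_lit 2402446097) (nat_lit 81) (nat_lit 3) (nat_lit 81) (nat_lit 1) (nat_lit 83) (nat_lit 1) (nat_lit 341) (nat_lit 387) (nat_lit 292)) (XT.lf (nat_lit 76) (nat_lit 4802309453) (nat_lit 0) (nat_lit 193569348)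 (nat_lit 152) (nat_lit 1720974140) (nat_lit 80) (nat_lit 1) (nat_lit 79) (nat_lit 1) (nat_lit 81) (nat_lit 1) (nat_lit 342) (nat_lit 387) (nat_lit 291)))) (XT.nd (nat_lit 156) (nat_lit 304) (nat_lit 0) (XT.nd (nat_lit 78) (nat_lit 152) (nat_lit 0) (XT.lf (nat_lit 0) (nat_lit 1790153728) (nat_lit 0) (nat_lit 3744772238) (nat_lit 152) (nat_lit 1072458960) (nat_lit 78) (nat_lit 3) (nat_lit 78) (nat_lit 1) (nat_lit 80) (nat_lit 1) (nat_lit 343) (nat_lit 387) (nat_lit 290)) (XT.lf (nat_lit 76) (nat_lit 5364400187) (nat_lit 0) (nat_lit 704644749) (nat_lit 152) (nat_lit 431112596) (nat_lit 77) (nat_lit 1) (nat_lit 76) (nat_lit 1) (nat_lit 78) (nat_lit 1) (nat_lit 344) (nat_lit 387) (nat_lit 289))) (XT.nd (nat_lit 78) (nat_lit 152) (nat_lit 0) (XT.lf (nat_lit 76) (nat_lit 2246429216) (nat_lit 0) (nat_lit 180162205) (nat_lit 76) (nat_lit 3967688057) (nat_lit 75) (nat_lit 3) (nat_lit 74) (nat_lit 1) (nat_lit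 75) (nat_lit 1) (nat_lit 345) (nat_lit 387) (nat_lit 288)) (XT.lf (nat_lit 152) (nat_lit 5091375534) (nat_lit 0) (nat_lit 794905761) (nat_lit 76) (nat_lit 404207487) (nat_lit 74) (nat_lit 1) (nat_lit 72) (nat_lit 1) (nat_lit 73) (nat_lit 1) (nat_lit 346) (nat_lit 387) (nat_lit 287)))))) (XT.nd (nat_lit 546) (nat_lit 912) (nat_lit 0) (XT.nd (nat_lit 234) (nat_lit 456) (nat_lit 0) (XT.nd (nat_lit 78) (nat_lit 228) (nat_lit 0) (XT.lf (nat_lit 76) (nat_lit 1648622042) (nat_lit 0) (nat_lit 1375003189) (nat_lit 76) (nat_lit 3164381761) (nat_lit 72) (nat_lit 3) (nat_lit 71) (nat_lit 1) (nat_lit 72) (nat_lit 1) (nat_lit 347) (nat_lit 387) (nat_lit 286)) (XT.nd (nat_lit 78) (nat_lit 76) (nat_lit 0) (XT.lf (nat_lit 0) (nat_lit 273813985) (nat_lit 0) (nat_lit 1675348629) (nat_lit 152) (nat_lit 4138463499) (nat_lit 69) (nat_lit 3) (nat_lit 69) (nat_lit 1) (nat_lit 71) (nat_lit 1) (nat_lit 348) (nat_lit 387)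 (nat_lit 285)) (XT.lf (nat_lit 76) (nat_lit 1079898350) (nat_lit 0) (nat_lit 2494031050) (nat_lit 76) (nat_lit 2414693250) (nat_lit 69) (nat_lit 3) (nat_lit 68) (nat_lit 1) (nat_lit 69) (nat_lit 1) (nat_lit 349) (nat_lit 387) (nat_lit 284)))) (XT.nd (nat_lit 156) (nat_lit 228) (nat_lit 0) (XT.nd (nat_lit 78) (nat_lit 76) (nat_lit 0) (XT.lf (nat_lit 0) (nat_lit 895707762) (nat_lit 0) (nat_lit 2129914789) (nat_lit 152) (nat_lit 2865797996) (nat_lit 66) (nat_lit 3) (nat_lit 66) (nat_lit 1) (nat_lit 68) (nat_lit 1) (nat_lit 350) (nat_lit 387) (nat_lit 283)) (XT.lf (nat_lit 76) (nat_lit 539975457) (nat_lit 0) (nat_lit 3540491590) (nat_lit 76) (nat_lit 1715410721) (nat_lit 66) (nat_lit 3) (nat_lit 65) (nat_lit 1) (nat_lit 66) (nat_lit 1) (nat_lit 351) (nat_lit 387) (nat_lit 282))) (XT.nd (nat_lit 78) (nat_lit 76) (nat_lit 0) (XT.lf (nat_lit 0) (nat_lit 1472312388) (nat_lit 0) (nat_lit 2559168850) (nat_lit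 152) (nat_lit 1670263739) (nat_lit 63) (nat_lit 3) (nat_lit 63) (nat_lit 1) (nat_lit 65) (nat_lit 1) (nat_lit 352) (nat_lit 387) (nat_lit 281)) (XT.lf (nat_lit 76) (nat_lit 28437654) (nat_lit 0) (nat_lit 4517557785) (nat_lit 76) (nat_lit 1063539047) (nat_lit 63) (nat_lit 3) (nat_lit 62) (nat_lit 1) (nat_lit 63) (nat_lit 1) (nat_lit 353) (nat_lit 387) (nat_lit 280))))) (XT.nd (nat_lit 234) (nat_lit 456) (nat_lit 0) (XT.nd (nat_lit 78) (nat_lit 304) (nat_lit 0) (XT.lf (nat_lit 0) (nat_lit 2006379399) (nat_lit 0) (nat_lit 2963477311) (nat_lit 152) (nat_lit 548509528) (nat_lit 60) (nat_lit 3) (nat_lit 60) (nat_lit 1) (nat_lit 62) (nat_lit 1) (nat_lit 354) (nat_lit 387) (nat_lit 279)) (XT.nd (nat_lit 78) (nat_lit 152) (nat_lit 0) (XT.lf (nat_lit 76) (nat_lit 4977459606) (nat_lit 0) (nat_lit 446356888) (nat_lit 152) (nat_lit 5417338) (nat_lit 59) (nat_lit 1) (nat_lit 58) (nat_lit 1) (nat_lit 60) (nat_lit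 1) (nat_lit 355) (nat_lit 387) (nat_lit 278)) (XT.lf (nat_lit 76) (nat_lit 1992675863) (nat_lit 0) (nat_lit 512730358) (nat_lit 76) (nat_lit 2835506951) (nat_lit 57) (nat_lit 3) (nat_lit 56) (nat_lit 1) (nat_lit 57) (nat_lit 1) (nat_lit 356) (nat_lit 387) (nat_lit 277)))) (XT.nd (nat_lit 156) (nat_lit 228) (nat_lit 0) (XT.nd (nat_lit 78) (nat_lit 76) (nat_lit 0) (XT.lf (nat_lit 0) (nat_lit 125718813) (nat_lit 0) (nat_lit 905035584) (nat_lit 152) (nat_lit 4223799629) (nat_lit 54) (nat_lit 3) (nat_lit 54) (nat_lit 1) (nat_lit 56) (nat_lit 1) (nat_lit 357) (nat_lit 387) (nat_lit 276)) (XT.lf (nat_lit 76) (nat_lit 1455389311) (nat_lit 0) (nat_lit 1516193050) (nat_lit 76) (nat_lit 2197595760) (nat_lit 54) (nat_lit 3) (nat_lit 53) (nat_lit 1) (nat_lit 54) (nat_lit 1) (nat_lit 358) (nat_lit 387) (nat_lit 275))) (XT.nd (nat_lit 78) (nat_lit 76) (nat_lit 0) (XT.lf (nat_lit 0) (nat_lit 654759333) (nat_lit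 0) (nat_lit 1341034366) (nat_lit 152) (nat_lit 3089733998) (nat_lit 51) (nat_lit 3) (nat_lit 51) (nat_lit 1) (nat_lit 53) (nat_lit 1) (nat_lit 359) (nat_lit 387) (nat_lit 274)) (XT.lf (nat_lit 76) (nat_lit 947713946) (nat_lit 0) (nat_lit 2454093103) (nat_lit 76) (nat_lit 1601309216) (nat_lit 51) (nat_lit 3) (nat_lit 50) (nat_lit 1) (nat_lit 51) (nat_lit 1) (nat_lit 360) (nat_lit 387) (nat_lit 273))))))) (XT.nd (nat_lit 1092) (nat_lit 1824) (nat_lit 0) (XT.nd (nat_lit 546) (nat_lit 836) (nat_lit 0) (XT.nd (nat_lit 234) (nat_lit 532) (nat_lit 0) (XT.nd (nat_lit 78) (nat_lit 228) (nat_lit 0) (XT.lf (nat_lit 0) (nat_lit 1146395057) (nat_lit 0) (nat_lit 1750736499) (nat_lit 152) (nat_lit 2024952784) (nat_lit 48) (nat_lit 3) (nat_lit 48) (nat_lit 1) (nat_lit 50) (nat_lit 1) (nat_lit 361) (nat_lit 387) (nat_lit 272)) (XT.nd (nat_lit 78) (nat_lit 152) (nat_lit 0) (XT.lf (nat_lit 76) (nat_lit 468752499)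 (nat_lit 0) (nat_lit 3329461495) (nat_lit 76) (nat_lit 1044315778) (nat_lit 48) (nat_lit 3) (nat_lit 47) (nat_lit 1) (nat_lit 48) (nat_lit 1) (nat_lit 362) (nat_lit 387) (nat_lit 271)) (XT.lf (nat_lit 0) (nat_lit 1602771727) (nat_lit 0) (nat_lit 2134961536) (nat_lit 152) (nat_lit 1026296392) (nat_lit 45) (nat_lit 3) (nat_lit 45) (nat_lit 1) (nat_lit 47) (nat_lit 1) (nat_lit 363) (nat_lit 387) (nat_lit 270)))) (XT.nd (nat_lit 156) (nat_lit 304) (nat_lit 0) (XT.nd (nat_lit 78) (nat_lit 152) (nat_lit 0) (XT.lf (nat_lit 76) (nat_lit 17576405) (nat_lit 0) (nat_lit 4145228415) (nat_lit 76) (nat_lit 524423842) (nat_lit 45) (nat_lit 3) (nat_lit 44) (nat_lit 1) (nat_lit 45) (nat_lit 1) (nat_lit 364) (nat_lit 387) (nat_lit 269)) (XT.lf (nat_lit 0) (nat_lit 2025905712) (nat_lit 0) (nat_lit 2494557989) (nat_lit 152) (nat_lit 90713309) (nat_lit 42) (nat_lit 3) (nat_lit 42) (nat_lit 1) (nat_lit 44) (nat_lit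 1) (nat_lit 365) (nat_lit 387) (nat_lit 268))) (XT.nd (nat_lit 78) (nat_lit 76) (nat_lit 0) (XT.lf (nat_lit 152) (nat_lit 4134418000) (nat_lit 0) (nat_lit 370512670) (nat_lit 76) (nat_lit 31875591) (nat_lit 41) (nat_lit 1) (nat_lit 39) (nat_lit 1) (nat_lit 40) (nat_lit 1) (nat_lit 366) (nat_lit 387) (nat_lit 267)) (XT.lf (nat_lit 76) (nat_lit 1625028761) (nat_lit 0) (nat_lit 800358296) (nat_lit 76) (nat_lit 2037729178) (nat_lit 39) (nat_lit 3) (nat_lit 38) (nat_lit 1) (nat_lit 39) (nat_lit 1) (nat_lit 367) (nat_lit 387) (nat_lit 266))))) (XT.nd (nat_lit 234) (nat_lit 456) (nat_lit 0) (XT.nd (nat_lit 78) (nat_lit 228) (nat_lit 0) (XT.lf (nat_lit 0) (nat_lit 423934163) (nat_lit 0) (nat_lit 805534179) (nat_lit 152) (nat_lit 3161578533) (nat_lit 36) (nat_lit 3) (nat_lit 36) (nat_lit 1) (nat_lit 38) (nat_lit 1) (nat_lit 368) (nat_lit 387) (nat_lit 265)) (XT.nd (nat_lit 78) (nat_lit 152) (nat_lit 0)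 (XT.lf (nat_lit 76) (nat_lit 1160832076) (nat_lit 0) (nat_lit 1634803106) (nat_lit 76) (nat_lit 1524260662) (nat_lit 36) (nat_lit 3) (nat_lit 35) (nat_lit 1) (nat_lit 36) (nat_lit 1) (nat_lit 369) (nat_lit 387) (nat_lit 264)) (XT.lf (nat_lit 0) (nat_lit 847668928) (nat_lit 0) (nat_lit 1183710155) (nat_lit 152) (nat_lit 2218690752) (nat_lit 33) (nat_lit 3) (nat_lit 33) (nat_lit 1) (nat_lit 35) (nat_lit 1) (nat_lit 370) (nat_lit 387) (nat_lit 263)))) (XT.nd (nat_lit 156) (nat_lit 228) (nat_lit 0) (XT.nd (nat_lit 78) (nat_lit 152) (nat_lit 0) (XT.lf (nat_lit 76) (nat_lit 723867100) (nat_lit 0) (nat_lit 2413602355) (nat_lit 76) (nat_lit 1043906364) (nat_lit 33) (nat_lit 3) (nat_lit 32) (nat_lit 1) (nat_lit 33) (nat_lit 1) (nat_lit 371) (nat_lit 387) (nat_lit 262)) (XT.lf (nat_lit 0) (nat_lit 1241679210) (nat_lit 0) (nat_lit 1537600859) (nat_lit 152) (nat_lit 1334440333) (nat_lit 30) (nat_lit 3) (nat_lit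 30) (nat_lit 1) (nat_lit 32) (nat_lit 1) (nat_lit 372) (nat_lit 387) (nat_lit 261))) (XT.nd (nat_lit 78) (nat_lit 152) (nat_lit 0) (XT.lf (nat_lit 76) (nat_lit 313064232) (nat_lit 0) (nat_lit 3139437132) (nat_lit 76) (nat_lit 594894374) (nat_lit 30) (nat_lit 3) (nat_lit 29) (nat_lit 1) (nat_lit 30) (nat_lit 1) (nat_lit 373) (nat_lit 387) (nat_lit 260)) (XT.lf (nat_lit 0) (nat_lit 1607597484) (nat_lit 0) (nat_lit 1868189386) (nat_lit 152) (nat_lit 506053922) (nat_lit 27) (nat_lit 3) (nat_lit 27) (nat_lit 1) (nat_lit 29) (nat_lit 1) (nat_lit 374) (nat_lit 387) (nat_lit 259)))))) (XT.nd (nat_lit 546) (nat_lit 912) (nat_lit 0) (XT.nd (nat_lit 234) (nat_lit 456) (nat_lit 0) (XT.nd (nat_lit 78) (nat_lit 304) (nat_lit 0) (XT.lf (nat_lit 76) (nat_lit 3742949909) (nat_lit 0) (nat_lit 71215972) (nat_lit 152) (nat_lit 103614339) (nat_lit 26) (nat_lit 1) (nat_lit 25) (nat_lit 1) (nat_lit 27) (nat_lit 1) (nat_lit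 375) (nat_lit 387) (nat_lit 258)) (XT.nd (nat_lit 78) (nat_lit 152) (nat_lit 0) (XT.lf (nat_lit 76) (nat_lit 1675114703) (nat_lit 0) (nat_lit 274490383) (nat_lit 76) (nat_lit 1904594836) (nat_lit 24) (nat_lit 3) (nat_lit 23) (nat_lit 1) (nat_lit 24) (nat_lit 1) (nat_lit 376) (nat_lit 387) (nat_lit 257)) (XT.lf (nat_lit 0) (nat_lit 222113746) (nat_lit 0) (nat_lit 434300647) (nat_lit 152) (nat_lit 3135648481) (nat_lit 21) (nat_lit 3) (nat_lit 21) (nat_lit 1) (nat_lit 23) (nat_lit 1) (nat_lit 377) (nat_lit 387) (nat_lit 256)))) (XT.nd (nat_lit 156) (nat_lit 228) (nat_lit 0) (XT.nd (nat_lit 78) (nat_lit 152) (nat_lit 0) (XT.lf (nat_lit 76) (nat_lit 1257526758) (nat_lit 0) (nat_lit 1013460393) (nat_lit 76) (nat_lit 1459609521) (nat_lit 21) (nat_lit 3) (nat_lit 20) (nat_lit 1) (nat_lit 21) (nat_lit 1) (nat_lit 378) (nat_lit 387) (nat_lit 255)) (XT.lf (nat_lit 0) (nat_lit 589895877) (nat_lit 0) (nat_lit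 776750026) (nat_lit 152) (nat_lit 2303740994) (nat_lit 18) (nat_lit 3) (nat_lit 18) (nat_lit 1) (nat_lit 20) (nat_lit 1) (nat_lit 379) (nat_lit 387) (nat_lit 254))) (XT.nd (nat_lit 78) (nat_lit 152) (nat_lit 0) (XT.lf (nat_lit 76) (nat_lit 864895155) (nat_lit 0) (nat_lit 1703291530) (nat_lit 76) (nat_lit 1042851487) (nat_lit 18) (nat_lit 3) (nat_lit 17) (nat_lit 1) (nat_lit 18) (nat_lit 1) (nat_lit 380) (nat_lit 387) (nat_lit 253)) (XT.lf (nat_lit 0) (nat_lit 932328342) (nat_lit 0) (nat_lit 1096874188) (nat_lit 152) (nat_lit 1523491476) (nat_lit 15) (nat_lit 3) (nat_lit 15) (nat_lit 1) (nat_lit 17) (nat_lit 1) (nat_lit 381) (nat_lit 387) (nat_lit 252))))) (XT.nd (nat_lit 234) (nat_lit 608) (nat_lit 0) (XT.nd (nat_lit 78) (nat_lit 228) (nat_lit 0) (XT.lf (nat_lit 76) (nat_lit 496144237) (nat_lit 0) (nat_lit 2346389054) (nat_lit 76) (nat_lit 652854567) (nat_lit 15) (nat_lit 3) (nat_lit 14) (nat_lit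 1) (nat_lit 15) (nat_lit 1) (nat_lit 382) (nat_lit 387) (nat_lit 251)) (XT.nd (nat_lit 78) (nat_lit 76) (nat_lit 0) (XT.lf (nat_lit 0) (nat_lit 1250763416) (nat_lit 0) (nat_lit 1395664322) (nat_lit 152) (nat_lit 792422037) (nat_lit 12) (nat_lit 3) (nat_lit 12) (nat_lit 1) (nat_lit 14) (nat_lit 1) (nat_lit 383) (nat_lit 387) (nat_lit 250)) (XT.lf (nat_lit 76) (nat_lit 150226848) (nat_lit 0) (nat_lit 2945059526) (nat_lit 76) (nat_lit 288227711) (nat_lit 12) (nat_lit 3) (nat_lit 11) (nat_lit 1) (nat_lit 12) (nat_lit 1) (nat_lit 384) (nat_lit 387) (nat_lit 249)))) (XT.nd (nat_lit 156) (nat_lit 228) (nat_lit 0) (XT.nd (nat_lit 78) (nat_lit 228) (nat_lit 0) (XT.lf (nat_lit 0) (nat_lit 1546483462) (nat_lit 0) (nat_lit 1674084814) (nat_lit 152) (nat_lit 108156324) (nat_lit 9) (nat_lit 3) (nat_lit 9) (nat_lit 1) (nat_lit 11) (nat_lit 1) (nat_lit 385) (nat_lit 387) (nat_lit 248)) (XT.lf (nat_lit 0) (nat_lit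 55239093) (nat_lit 0) (nat_lit 173224625) (nat_lit 152) (nat_lit 3046693772) (nat_lit 6) (nat_lit 3) (nat_lit 6) (nat_lit 1) (nat_lit 8) (nat_lit 1) (nat_lit 386) (nat_lit 387) (nat_lit 247))) (XT.nd (nat_lit 78) (nat_lit 152) (nat_lit 0) (XT.lf (nat_lit 76) (nat_lit 1283753387) (nat_lit 0) (nat_lit 542163218) (nat_lit 76) (nat_lit 1396120560) (nat_lit 6) (nat_lit 3) (nat_lit 5) (nat_lit 1) (nat_lit 6) (nat_lit 1) (nat_lit 387) (nat_lit 387) (nat_lit 246)) (XT.lf (nat_lit 0) (nat_lit 375883295) (nat_lit 0) (nat_lit 479782669) (nat_lit 152) (nat_lit 2314430997) (nat_lit 3) (nat_lit 3) (nat_lit 3) (nat_lit 1) (nat_lit 5) (nat_lit 1) (nat_lit 388) (nat_lit 387) (nat_lit 245))))))))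
noncomputable def ec102 : XT := (XT.nd (nat_lit 2184) (nat_lit 7372) (nat_lit 0) (XT.nd (nat_lit 1092) (nat_lit 6232) (nat_lit 0) (XT.nd (nat_lit 546) (nat_lit 3344) (nat_lit 0) (XT.nd (nat_lit 234) (nat_lit 0) (nat_lit 152) (XT.nd (nat_lit 78) (nat_lit 0) (nat_lit 0) (XT.lf (nat_lit 1292) (nat_lit 311008610) (nat_lit 0) (nat_lit 26316539641) (nat_lit 1216) (nat_lit 14569842086) (nat_lit 392) (nat_lit 1) (nat_lit 375) (nat_lit 1) (nat_lit 391) (nat_lit 1) (nat_lit 245) (nat_lit 388) (nat_lit 387)) (XT.nd (nat_lit 78) (nat_lit 0) (nat_lit 76) (XT.lf (nat_lit 1292) (nat_lit 13683041643) (nat_lit 76) (nat_lit 19354161704) (nat_lit 0) (nat_lit 7178401148) (nat_lit 392) (nat_lit 1) (nat_lit 376) (nat_lit 1) (nat_lit 375) (nat_lit 1) (nat_lit 246) (nat_lit 388) (nat_lit 386)) (XT.lf (nat_lit 1292) (nat_lit 12028553864) (nat_lit 76) (nat_lit 12668683759) (nat_lit 0) (nat_lit 14568370098) (nat_lit 393)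 (nat_lit 1) (nat_lit 377) (nat_lit 1) (nat_lit 376) (nat_lit 1) (nat_lit 247) (nat_lit 388) (nat_lit 385)))) (XT.nd (nat_lit 156) (nat_lit 0) (nat_lit 152) (XT.nd (nat_lit 78) (nat_lit 0) (nat_lit 76) (XT.lf (nat_lit 1292) (nat_lit 9954438268) (nat_lit 76) (nat_lit 6544036899) (nat_lit 0) (nat_lit 21847856840) (nat_lit 394) (nat_lit 1) (nat_lit 378) (nat_lit 1) (nat_lit 377) (nat_lit 1) (nat_lit 248) (nat_lit 388) (nat_lit 384)) (XT.lf (nat_lit 1292) (nat_lit 7492680575) (nat_lit 76) (nat_lit 951406173) (nat_lit 0) (nat_lit 29012577311) (nat_lit 395) (nat_lit 1) (nat_lit 379) (nat_lit 1) (nat_lit 378) (nat_lit 1) (nat_lit 249) (nat_lit 388) (nat_lit 383))) (XT.nd (nat_lit 78) (nat_lit 0) (nat_lit 0) (XT.lf (nat_lit 1292) (nat_lit 576521813) (nat_lit 0) (nat_lit 31961857514) (nat_lit 1216) (nat_lit 4055962555) (nat_lit 396) (nat_lit 1) (nat_lit 379) (nat_lit 1) (nat_lit 395) (nat_lit 1) (nat_lit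 250) (nat_lit 388) (nat_lit 382)) (XT.lf (nat_lit 1292) (nat_lit 1366482116) (nat_lit 76) (nat_lit 27111566220) (nat_lit 0) (nat_lit 7279247750) (nat_lit 396) (nat_lit 1) (nat_lit 380) (nat_lit 1) (nat_lit 379) (nat_lit 1) (nat_lit 251) (nat_lit 388) (nat_lit 381))))) (XT.nd (nat_lit 234) (nat_lit 2432) (nat_lit 0) (XT.nd (nat_lit 78) (nat_lit 0) (nat_lit 76) (XT.lf (nat_lit 1368) (nat_lit 19971120640) (nat_lit 0) (nat_lit 2158669273) (nat_lit 1292) (nat_lit 12816355629) (nat_lit 381) (nat_lit 1) (nat_lit 363) (nat_lit 1) (nat_lit 380) (nat_lit 1) (nat_lit 252) (nat_lit 388) (nat_lit 380)) (XT.nd (nat_lit 78) (nat_lit 0) (nat_lit 76) (XT.lf (nat_lit 1368) (nat_lit 11657034870) (nat_lit 0) (nat_lit 5923134200) (nat_lit 1292) (nat_lit 16580099652) (nat_lit 382) (nat_lit 1) (nat_lit 364) (nat_lit 1) (nat_lit 381) (nat_lit 1) (nat_lit 253) (nat_lit 388) (nat_lit 379)) (XT.lf (nat_lit 76) (nat_lit 3522817779)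 (nat_lit 0) (nat_lit 9930486054) (nat_lit 1292) (nat_lit 19945846359) (nat_lit 366) (nat_lit 1) (nat_lit 365) (nat_lit 1) (nat_lit 382) (nat_lit 1) (nat_lit 254) (nat_lit 388) (nat_lit 378)))) (XT.nd (nat_lit 156) (nat_lit 1140) (nat_lit 0) (XT.nd (nat_lit 78) (nat_lit 608) (nat_lit 0) (XT.lf (nat_lit 912) (nat_lit 18458169596) (nat_lit 0) (nat_lit 9682572409) (nat_lit 836) (nat_lit 4519870460) (nat_lit 366) (nat_lit 1) (nat_lit 354) (nat_lit 1) (nat_lit 365) (nat_lit 1) (nat_lit 255) (nat_lit 388) (nat_lit 377)) (XT.lf (nat_lit 684) (nat_lit 13236238648) (nat_lit 0) (nat_lit 6258103398) (nat_lit 608) (nat_lit 12449793446) (nat_lit 355) (nat_lit 1) (nat_lit 346) (nat_lit 1) (nat_lit 354) (nat_lit 1) (nat_lit 256) (nat_lit 388) (nat_lit 376))) (XT.nd (nat_lit 78) (nat_lit 532) (nat_lit 0) (XT.lf (nat_lit 684) (nat_lit 7856847940) (nat_lit 0) (nat_lit 3195569023) (nat_lit 608) (nat_lit 20197530677)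 (nat_lit 347) (nat_lit 1) (nat_lit 338) (nat_lit 1) (nat_lit 346) (nat_lit 1) (nat_lit 257) (nat_lit 388) (nat_lit 375)) (XT.lf (nat_lit 608) (nat_lit 2337271982) (nat_lit 0) (nat_lit 475987151) (nat_lit 532) (nat_lit 27764013140) (nat_lit 339) (nat_lit 1) (nat_lit 331) (nat_lit 1) (nat_lit 338) (nat_lit 1) (nat_lit 258) (nat_lit 388) (nat_lit 374)))))) (XT.nd (nat_lit 546) (nat_lit 2964) (nat_lit 0) (XT.nd (nat_lit 234) (nat_lit 2052) (nat_lit 0) (XT.nd (nat_lit 78) (nat_lit 1140) (nat_lit 0) (XT.lf (nat_lit 76) (nat_lit 24645541280) (nat_lit 0) (nat_lit 3311942607) (nat_lit 608) (nat_lit 1964819922) (nat_lit 331) (nat_lit 1) (nat_lit 330) (nat_lit 1) (nat_lit 338) (nat_lit 1) (nat_lit 259) (nat_lit 388) (nat_lit 373)) (XT.nd (nat_lit 78) (nat_lit 532) (nat_lit 0) (XT.lf (nat_lit 76) (nat_lit 16091980552) (nat_lit 0) (nat_lit 9049714111) (nat_lit 684) (nat_lit 4144157617) (nat_lit 323) (nat_lit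 1) (nat_lit 322) (nat_lit 1) (nat_lit 331) (nat_lit 1) (nat_lit 260) (nat_lit 388) (nat_lit 372)) (XT.lf (nat_lit 76) (nat_lit 7756408923) (nat_lit 0) (nat_lit 14875441080) (nat_lit 608) (nat_lit 6037022483) (nat_lit 316) (nat_lit 1) (nat_lit 315) (nat_lit 1) (nat_lit 323) (nat_lit 1) (nat_lit 261) (nat_lit 388) (nat_lit 371)))) (XT.nd (nat_lit 156) (nat_lit 1064) (nat_lit 0) (XT.nd (nat_lit 78) (nat_lit 456) (nat_lit 0) (XT.lf (nat_lit 608) (nat_lit 7290796154) (nat_lit 0) (nat_lit 20408315656) (nat_lit 532) (nat_lit 371479589) (nat_lit 316) (nat_lit 1) (nat_lit 308) (nat_lit 1) (nat_lit 315) (nat_lit 1) (nat_lit 262) (nat_lit 388) (nat_lit 370)) (XT.lf (nat_lit 532) (nat_lit 667149283) (nat_lit 0) (nat_lit 18383358684) (nat_lit 456) (nat_lit 8437748400) (nat_lit 309) (nat_lit 1) (nat_lit 302) (nat_lit 1) (nat_lit 308) (nat_lit 1) (nat_lit 263) (nat_lit 388) (nat_lit 369))) (XT.nd (nat_lit 78)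 (nat_lit 456) (nat_lit 0) (XT.lf (nat_lit 76) (nat_lit 10689753608) (nat_lit 0) (nat_lit 5871698267) (nat_lit 608) (nat_lit 10360352221) (nat_lit 295) (nat_lit 1) (nat_lit 294) (nat_lit 1) (nat_lit 302) (nat_lit 1) (nat_lit 264) (nat_lit 388) (nat_lit 368)) (XT.lf (nat_lit 76) (nat_lit 2561922084) (nat_lit 0) (nat_lit 12419248547) (nat_lit 532) (nat_lit 11390997632) (nat_lit 289) (nat_lit 1) (nat_lit 288) (nat_lit 1) (nat_lit 295) (nat_lit 1) (nat_lit 265) (nat_lit 388) (nat_lit 367))))) (XT.nd (nat_lit 234) (nat_lit 1596) (nat_lit 0) (XT.nd (nat_lit 78) (nat_lit 912) (nat_lit 0) (XT.lf (nat_lit 532) (nat_lit 6805535392) (nat_lit 0) (nat_lit 13581997107) (nat_lit 456) (nat_lit 5449867452) (nat_lit 289) (nat_lit 1) (nat_lit 282) (nat_lit 1) (nat_lit 288) (nat_lit 1) (nat_lit 266) (nat_lit 388) (nat_lit 366)) (XT.nd (nat_lit 78) (nat_lit 456) (nat_lit 0) (XT.lf (nat_lit 76) (nat_lit 12031171277)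 (nat_lit 0) (nat_lit 346986589) (nat_lit 456) (nat_lit 12939572944) (nat_lit 277) (nat_lit 1) (nat_lit 276) (nat_lit 1) (nat_lit 282) (nat_lit 1) (nat_lit 267) (nat_lit 388) (nat_lit 365)) (XT.lf (nat_lit 76) (nat_lit 3973777223) (nat_lit 0) (nat_lit 7346048345) (nat_lit 532) (nat_lit 13491704753) (nat_lit 271) (nat_lit 1) (nat_lit 270) (nat_lit 1) (nat_lit 277) (nat_lit 1) (nat_lit 268) (nat_lit 388) (nat_lit 364)))) (XT.nd (nat_lit 156) (nat_lit 836) (nat_lit 0) (XT.nd (nat_lit 78) (nat_lit 380) (nat_lit 0) (XT.lf (nat_lit 456) (nat_lit 9963444726) (nat_lit 0) (nat_lit 10424042109) (nat_lit 380) (nat_lit 3931632200) (nat_lit 271) (nat_lit 1) (nat_lit 265) (nat_lit 1) (nat_lit 270) (nat_lit 1) (nat_lit 269) (nat_lit 388) (nat_lit 363)) (XT.lf (nat_lit 456) (nat_lit 2471269809) (nat_lit 0) (nat_lit 9680975682) (nat_lit 380) (nat_lit 11687792618) (nat_lit 266) (nat_lit 1) (nat_lit 260) (nat_lit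 1) (nat_lit 265) (nat_lit 1) (nat_lit 270) (nat_lit 388) (nat_lit 362))) (XT.nd (nat_lit 78) (nat_lit 380) (nat_lit 0) (XT.lf (nat_lit 76) (nat_lit 4202202009) (nat_lit 0) (nat_lit 4868941545) (nat_lit 456) (nat_lit 14302407351) (nat_lit 255) (nat_lit 1) (nat_lit 254) (nat_lit 1) (nat_lit 260) (nat_lit 1) (nat_lit 271) (nat_lit 388) (nat_lit 361)) (XT.lf (nat_lit 456) (nat_lit 10782280933) (nat_lit 0) (nat_lit 8574600419) (nat_lit 380) (nat_lit 3562029173) (nat_lit 255) (nat_lit 1) (nat_lit 249) (nat_lit 1) (nat_lit 254) (nat_lit 1) (nat_lit 272) (nat_lit 388) (nat_lit 360))))))) (XT.nd (nat_lit 1092) (nat_lit 3116) (nat_lit 0) (XT.nd (nat_lit 546) (nat_lit 1900) (nat_lit 0) (XT.nd (nat_lit 234) (nat_lit 1292) (nat_lit 0) (XT.nd (nat_lit 78) (nat_lit 760) (nat_lit 0) (XT.lf (nat_lit 380) (nat_lit 3095648450) (nat_lit 0) (nat_lit 8201461832) (nat_lit 304) (nat_lit 11179138512) (nat_lit 250) (nat_lit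 1) (nat_lit 245) (nat_lit 1) (nat_lit 249) (nat_lit 1) (nat_lit 273) (nat_lit 388) (nat_lit 359)) (XT.nd (nat_lit 78) (nat_lit 304) (nat_lit 0) (XT.lf (nat_lit 76) (nat_lit 3518871948) (nat_lit 0) (nat_lit 4421548123) (nat_lit 456) (nat_lit 14104656588) (nat_lit 240) (nat_lit 1) (nat_lit 239) (nat_lit 1) (nat_lit 245) (nat_lit 1) (nat_lit 274) (nat_lit 388) (nat_lit 358)) (XT.lf (nat_lit 380) (nat_lit 9789473258) (nat_lit 0) (nat_lit 7757258581) (nat_lit 304) (nat_lit 4077509024) (nat_lit 240) (nat_lit 1) (nat_lit 235) (nat_lit 1) (nat_lit 239) (nat_lit 1) (nat_lit 275) (nat_lit 388) (nat_lit 357)))) (XT.nd (nat_lit 156) (nat_lit 608) (nat_lit 0) (XT.nd (nat_lit 78) (nat_lit 380) (nat_lit 0) (XT.lf (nat_lit 380) (nat_lit 2019551017) (nat_lit 0) (nat_lit 7681488543) (nat_lit 304) (nat_lit 11513407717) (nat_lit 236) (nat_lit 1) (nat_lit 231) (nat_lit 1) (nat_lit 235) (nat_lit 1) (nat_lit 276) (nat_lit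 388) (nat_lit 356)) (XT.lf (nat_lit 76) (nat_lit 2146181934) (nat_lit 0) (nat_lit 5538592477) (nat_lit 380) (nat_lit 13129945436) (nat_lit 227) (nat_lit 1) (nat_lit 226) (nat_lit 1) (nat_lit 231) (nat_lit 1) (nat_lit 277) (nat_lit 388) (nat_lit 355))) (XT.nd (nat_lit 78) (nat_lit 304) (nat_lit 0) (XT.lf (nat_lit 380) (nat_lit 7417499673) (nat_lit 0) (nat_lit 7744387429) (nat_lit 304) (nat_lit 5262361590) (nat_lit 227) (nat_lit 1) (nat_lit 222) (nat_lit 1) (nat_lit 226) (nat_lit 1) (nat_lit 278) (nat_lit 388) (nat_lit 354)) (XT.lf (nat_lit 76) (nat_lit 7562107533) (nat_lit 0) (nat_lit 340245661) (nat_lit 304) (nat_lit 12141759604) (nat_lit 219) (nat_lit 1) (nat_lit 218) (nat_lit 1) (nat_lit 222) (nat_lit 1) (nat_lit 279) (nat_lit 388) (nat_lit 353))))) (XT.nd (nat_lit 234) (nat_lit 988) (nat_lit 0) (XT.nd (nat_lit 78) (nat_lit 608) (nat_lit 0) (XT.lf (nat_lit 76) (nat_lit 265536677) (nat_lit 0)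 (nat_lit 7839000910) (nat_lit 380) (nat_lit 11568055560) (nat_lit 215) (nat_lit 1) (nat_lit 214) (nat_lit 1) (nat_lit 219) (nat_lit 1) (nat_lit 280) (nat_lit 388) (nat_lit 352)) (XT.nd (nat_lit 78) (nat_lit 380) (nat_lit 0) (XT.lf (nat_lit 304) (nat_lit 4019803842) (nat_lit 0) (nat_lit 8349025445) (nat_lit 228) (nat_lit 6940665081) (nat_lit 215) (nat_lit 1) (nat_lit 211) (nat_lit 1) (nat_lit 214) (nat_lit 1) (nat_lit 281) (nat_lit 388) (nat_lit 351)) (XT.lf (nat_lit 76) (nat_lit 5063805532) (nat_lit 0) (nat_lit 3597602395) (nat_lit 380) (nat_lit 10294016982) (nat_lit 207) (nat_lit 1) (nat_lit 206) (nat_lit 1) (nat_lit 211) (nat_lit 1) (nat_lit 282) (nat_lit 388) (nat_lit 350)))) (XT.nd (nat_lit 156) (nat_lit 456) (nat_lit 0) (XT.nd (nat_lit 78) (nat_lit 304) (nat_lit 0) (XT.lf (nat_lit 304) (nat_lit 7578374643) (nat_lit 0) (nat_lit 9016092943) (nat_lit 228) (nat_lit 2015037460) (nat_lit 207) (nat_lit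 1) (nat_lit 203) (nat_lit 1) (nat_lit 206) (nat_lit 1) (nat_lit 283) (nat_lit 388) (nat_lit 349)) (XT.lf (nat_lit 76) (nat_lit 9303308624) (nat_lit 0) (nat_lit 113629394) (nat_lit 304) (nat_lit 8854777358) (nat_lit 200) (nat_lit 1) (nat_lit 199) (nat_lit 1) (nat_lit 203) (nat_lit 1) (nat_lit 284) (nat_lit 388) (nat_lit 348))) (XT.nd (nat_lit 78) (nat_lit 228) (nat_lit 0) (XT.lf (nat_lit 76) (nat_lit 2312027822) (nat_lit 0) (nat_lit 7524866340) (nat_lit 304) (nat_lit 8104244649) (nat_lit 197) (nat_lit 1) (nat_lit 196) (nat_lit 1) (nat_lit 200) (nat_lit 1) (nat_lit 285) (nat_lit 388) (nat_lit 347)) (XT.lf (nat_lit 304) (nat_lit 2770561985) (nat_lit 0) (nat_lit 10300576249) (nat_lit 228) (nat_lit 4547227265) (nat_lit 197) (nat_lit 1) (nat_lit 193) (nat_lit 1) (nat_lit 196) (nat_lit 1) (nat_lit 286) (nat_lit 388) (nat_lit 346)))))) (XT.nd (nat_lit 546) (nat_lit 1520) (nat_lit 0) (XT.nd (nat_lit 234)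 (nat_lit 836) (nat_lit 0) (XT.nd (nat_lit 78) (nat_lit 456) (nat_lit 0) (XT.lf (nat_lit 76) (nat_lit 6115944084) (nat_lit 0) (nat_lit 4663632763) (nat_lit 304) (nat_lit 6522866816) (nat_lit 190) (nat_lit 1) (nat_lit 189) (nat_lit 1) (nat_lit 193) (nat_lit 1) (nat_lit 287) (nat_lit 388) (nat_lit 345)) (XT.nd (nat_lit 78) (nat_lit 228) (nat_lit 0) (XT.lf (nat_lit 304) (nat_lit 5082570568) (nat_lit 0) (nat_lit 11307327669) (nat_lit 228) (nat_lit 604326801) (nat_lit 190) (nat_lit 1) (nat_lit 186) (nat_lit 1) (nat_lit 189) (nat_lit 1) (nat_lit 288) (nat_lit 388) (nat_lit 344)) (XT.lf (nat_lit 76) (nat_lit 9487465241) (nat_lit 0) (nat_lit 2341752434) (nat_lit 228) (nat_lit 4862781655) (nat_lit 184) (nat_lit 1) (nat_lit 183) (nat_lit 1) (nat_lit 186) (nat_lit 1) (nat_lit 289) (nat_lit 388) (nat_lit 343)))) (XT.nd (nat_lit 156) (nat_lit 380) (nat_lit 0) (XT.nd (nat_lit 78) (nat_lit 228) (nat_lit 0) (XT.lf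 (nat_lit 76) (nat_lit 2852682152) (nat_lit 0) (nat_lit 9524458043) (nat_lit 304) (nat_lit 4019437872) (nat_lit 181) (nat_lit 1) (nat_lit 180) (nat_lit 1) (nat_lit 184) (nat_lit 1) (nat_lit 290) (nat_lit 388) (nat_lit 342)) (XT.lf (nat_lit 76) (nat_lit 12472276396) (nat_lit 0) (nat_lit 483768206) (nat_lit 228) (nat_lit 3151945637) (nat_lit 178) (nat_lit 1) (nat_lit 177) (nat_lit 1) (nat_lit 180) (nat_lit 1) (nat_lit 291) (nat_lit 388) (nat_lit 341))) (XT.nd (nat_lit 78) (nat_lit 152) (nat_lit 0) (XT.lf (nat_lit 76) (nat_lit 5920994616) (nat_lit 0) (nat_lit 7588044138) (nat_lit 304) (nat_lit 2315427069) (nat_lit 175) (nat_lit 1) (nat_lit 174) (nat_lit 1) (nat_lit 178) (nat_lit 1) (nat_lit 292) (nat_lit 388) (nat_lit 340)) (XT.lf (nat_lit 228) (nat_lit 995675110) (nat_lit 0) (nat_lit 14124877392) (nat_lit 152) (nat_lit 427926584) (nat_lit 175) (nat_lit 1) (nat_lit 172) (nat_lit 1) (nat_lit 174) (nat_lit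 1) (nat_lit 293) (nat_lit 388) (nat_lit 339))))) (XT.nd (nat_lit 234) (nat_lit 760) (nat_lit 0) (XT.nd (nat_lit 78) (nat_lit 532) (nat_lit 0) (XT.lf (nat_lit 76) (nat_lit 8651391708) (nat_lit 0) (nat_lit 6033792077) (nat_lit 228) (nat_lit 591289669) (nat_lit 170) (nat_lit 1) (nat_lit 169) (nat_lit 1) (nat_lit 172) (nat_lit 1) (nat_lit 294) (nat_lit 388) (nat_lit 338)) (XT.nd (nat_lit 78) (nat_lit 228) (nat_lit 0) (XT.lf (nat_lit 228) (nat_lit 2110421354) (nat_lit 0) (nat_lit 292652763) (nat_lit 152) (nat_lit 12608343567) (nat_lit 168) (nat_lit 1) (nat_lit 165) (nat_lit 1) (nat_lit 167) (nat_lit 1) (nat_lit 295) (nat_lit 388) (nat_lit 337)) (XT.lf (nat_lit 228) (nat_lit 9932838380) (nat_lit 0) (nat_lit 1156853127) (nat_lit 152) (nat_lit 3661127656) (nat_lit 165) (nat_lit 1) (nat_lit 162) (nat_lit 1) (nat_lit 164) (nat_lit 1) (nat_lit 296) (nat_lit 388) (nat_lit 336)))) (XT.nd (nat_lit 156) (nat_lit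 380) (nat_lit 0) (XT.nd (nat_lit 78) (nat_lit 228) (nat_lit 0) (XT.lf (nat_lit 228) (nat_lit 2913647982) (nat_lit 0) (nat_lit 2029162662) (nat_lit 152) (nat_lit 9553089413) (nat_lit 163) (nat_lit 1) (nat_lit 160) (nat_lit 1) (nat_lit 162) (nat_lit 1) (nat_lit 297) (nat_lit 388) (nat_lit 335)) (XT.lf (nat_lit 228) (nat_lit 10359040440) (nat_lit 0) (nat_lit 2902292466) (nat_lit 152) (nat_lit 985011483) (nat_lit 160) (nat_lit 1) (nat_lit 157) (nat_lit 1) (nat_lit 159) (nat_lit 1) (nat_lit 298) (nat_lit 388) (nat_lit 334))) (XT.nd (nat_lit 78) (nat_lit 228) (nat_lit 0) (XT.lf (nat_lit 228) (nat_lit 3468399251) (nat_lit 0) (nat_lit 3746898994) (nat_lit 152) (nat_lit 6785897542) (nat_lit 158) (nat_lit 1) (nat_lit 155) (nat_lit 1) (nat_lit 157) (nat_lit 1) (nat_lit 299) (nat_lit 388) (nat_lit 333)) (XT.lf (nat_lit 76) (nat_lit 1398091914) (nat_lit 0) (nat_lit 3207842924) (nat_lit 228) (nat_lit 9155670691)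 (nat_lit 153) (nat_lit 1) (nat_lit 152) (nat_lit 1) (nat_lit 155) (nat_lit 1) (nat_lit 300) (nat_lit 388) (nat_lit 332))))))))
noncomputable def ec103 : XT := (XT.nd (nat_lit 2184) (nat_lit 3496) (nat_lit 0) (XT.nd (nat_lit 1092) (nat_lit 1748) (nat_lit 0) (XT.nd (nat_lit 546) (nat_lit 1216) (nat_lit 0) (XT.nd (nat_lit 234) (nat_lit 608) (nat_lit 0) (XT.nd (nat_lit 78) (nat_lit 304) (nat_lit 0) (XT.lf (nat_lit 228) (nat_lit 3813381925) (nat_lit 0) (nat_lit 5433550332) (nat_lit 152) (nat_lit 4279208061) (nat_lit 153) (nat_lit 1) (nat_lit 150) (nat_lit 1) (nat_lit 152) (nat_lit 1) (nat_lit 301) (nat_lit 388) (nat_lit 331)) (XT.nd (nat_lit 78) (nat_lit 152) (nat_lit 0) (XT.lf (nat_lit 76) (nat_lit 3527030706) (nat_lit 0) (nat_lit 2736640108) (nat_lit 152) (nat_lit 7032021455) (nat_lit 149) (nat_lit 1) (nat_lit 148) (nat_lit 1) (nat_lit 150) (nat_lit 1) (nat_lit 302) (nat_lit 388) (nat_lit 330)) (XT.lf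 (nat_lit 228) (nat_lit 3982244788) (nat_lit 0) (nat_lit 7079040864) (nat_lit 152) (nat_lit 2008378969) (nat_lit 149) (nat_lit 1) (nat_lit 146) (nat_lit 1) (nat_lit 148) (nat_lit 1) (nat_lit 303) (nat_lit 388) (nat_lit 329)))) (XT.nd (nat_lit 156) (nat_lit 304) (nat_lit 0) (XT.nd (nat_lit 78) (nat_lit 152) (nat_lit 0) (XT.lf (nat_lit 76) (nat_lit 5443443530) (nat_lit 0) (nat_lit 2432778407) (nat_lit 152) (nat_lit 4971642903) (nat_lit 145) (nat_lit 1) (nat_lit 144) (nat_lit 1) (nat_lit 146) (nat_lit 1) (nat_lit 304) (nat_lit 388) (nat_lit 328)) (XT.lf (nat_lit 76) (nat_lit 47695575) (nat_lit 0) (nat_lit 8627051070) (nat_lit 228) (nat_lit 3956024571) (nat_lit 143) (nat_lit 1) (nat_lit 142) (nat_lit 1) (nat_lit 145) (nat_lit 1) (nat_lit 305) (nat_lit 388) (nat_lit 327))) (XT.nd (nat_lit 78) (nat_lit 152) (nat_lit 0) (XT.lf (nat_lit 76) (nat_lit 7167396099) (nat_lit 0) (nat_lit 2268949138) (nat_lit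 152) (nat_lit 2980834964) (nat_lit 141) (nat_lit 1) (nat_lit 140) (nat_lit 1) (nat_lit 142) (nat_lit 1) (nat_lit 306) (nat_lit 388) (nat_lit 326)) (XT.lf (nat_lit 76) (nat_lit 1874320986) (nat_lit 0) (nat_lit 8322391278) (nat_lit 228) (nat_lit 2011331973) (nat_lit 139) (nat_lit 1) (nat_lit 138) (nat_lit 1) (nat_lit 141) (nat_lit 1) (nat_lit 307) (nat_lit 388) (nat_lit 325))))) (XT.nd (nat_lit 234) (nat_lit 608) (nat_lit 0) (XT.nd (nat_lit 78) (nat_lit 456) (nat_lit 0) (XT.lf (nat_lit 76) (nat_lit 8716867588) (nat_lit 0) (nat_lit 2221471961) (nat_lit 152) (nat_lit 1064428291) (nat_lit 137) (nat_lit 1) (nat_lit 136) (nat_lit 1) (nat_lit 138) (nat_lit 1) (nat_lit 308) (nat_lit 388) (nat_lit 324)) (XT.nd (nat_lit 78) (nat_lit 304) (nat_lit 0) (XT.lf (nat_lit 76) (nat_lit 3528065815) (nat_lit 0) (nat_lit 8131545494) (nat_lit 228) (nat_lit 141608723) (nat_lit 135) (nat_lit 1) (nat_lit 134) (nat_lit 1)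 (nat_lit 137) (nat_lit 1) (nat_lit 309) (nat_lit 388) (nat_lit 323)) (XT.lf (nat_lit 228) (nat_lit 9326161347) (nat_lit 0) (nat_lit 789411874) (nat_lit 152) (nat_lit 1488021589) (nat_lit 133) (nat_lit 1) (nat_lit 130) (nat_lit 1) (nat_lit 132) (nat_lit 1) (nat_lit 310) (nat_lit 388) (nat_lit 322)))) (XT.nd (nat_lit 156) (nat_lit 304) (nat_lit 0) (XT.nd (nat_lit 78) (nat_lit 228) (nat_lit 0) (XT.lf (nat_lit 152) (nat_lit 3357906041) (nat_lit 0) (nat_lit 1682804573) (nat_lit 76) (nat_lit 6368322443) (nat_lit 131) (nat_lit 1) (nat_lit 129) (nat_lit 1) (nat_lit 130) (nat_lit 1) (nat_lit 311) (nat_lit 388) (nat_lit 321)) (XT.lf (nat_lit 76) (nat_lit 158054659) (nat_lit 0) (nat_lit 2422723179) (nat_lit 228) (nat_lit 8638028460) (nat_lit 127) (nat_lit 1) (nat_lit 126) (nat_lit 1) (nat_lit 129) (nat_lit 1) (nat_lit 312) (nat_lit 388) (nat_lit 320))) (XT.nd (nat_lit 78) (nat_lit 228) (nat_lit 0) (XT.lf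 (nat_lit 152) (nat_lit 2982578902) (nat_lit 0) (nat_lit 3428129734) (nat_lit 76) (nat_lit 4620518042) (nat_lit 127) (nat_lit 1) (nat_lit 125) (nat_lit 1) (nat_lit 126) (nat_lit 1) (nat_lit 313) (nat_lit 388) (nat_lit 319)) (XT.lf (nat_lit 76) (nat_lit 1632229036) (nat_lit 0) (nat_lit 2642961089) (nat_lit 228) (nat_lit 6572491486) (nat_lit 123) (nat_lit 1) (nat_lit 122) (nat_lit 1) (nat_lit 125) (nat_lit 1) (nat_lit 314) (nat_lit 388) (nat_lit 318)))))) (XT.nd (nat_lit 546) (nat_lit 912) (nat_lit 0) (XT.nd (nat_lit 234) (nat_lit 456) (nat_lit 0) (XT.nd (nat_lit 78) (nat_lit 304) (nat_lit 0) (XT.lf (nat_lit 152) (nat_lit 2559056932) (nat_lit 0) (nat_lit 5090228869) (nat_lit 76) (nat_lit 3017884108) (nat_lit 123) (nat_lit 1) (nat_lit 121) (nat_lit 1) (nat_lit 122) (nat_lit 1) (nat_lit 315) (nat_lit 388) (nat_lit 317)) (XT.nd (nat_lit 78) (nat_lit 76) (nat_lit 0) (XT.lf (nat_lit 76) (nat_lit 2975653297)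 (nat_lit 0) (nat_lit 2910802309) (nat_lit 228) (nat_lit 4603545168) (nat_lit 119) (nat_lit 1) (nat_lit 118) (nat_lit 1) (nat_lit 121) (nat_lit 1) (nat_lit 316) (nat_lit 388) (nat_lit 316)) (XT.lf (nat_lit 152) (nat_lit 2099284124) (nat_lit 0) (nat_lit 6668532207) (nat_lit 76) (nat_lit 1548419551) (nat_lit 119) (nat_lit 1) (nat_lit 117) (nat_lit 1) (nat_lit 118) (nat_lit 1) (nat_lit 317) (nat_lit 388) (nat_lit 315)))) (XT.nd (nat_lit 156) (nat_lit 228) (nat_lit 0) (XT.nd (nat_lit 78) (nat_lit 76) (nat_lit 0) (XT.lf (nat_lit 76) (nat_lit 4199271341) (nat_lit 0) (nat_lit 3215062938) (nat_lit 152) (nat_lit 2730823863) (nat_lit 116) (nat_lit 1) (nat_lit 115) (nat_lit 1) (nat_lit 117) (nat_lit 1) (nat_lit 318) (nat_lit 388) (nat_lit 314)) (XT.lf (nat_lit 152) (nat_lit 1613466845) (nat_lit 0) (nat_lit 8163102884) (nat_lit 76) (nat_lit 201269463) (nat_lit 116) (nat_lit 1) (nat_lit 114) (nat_lit 1) (nat_lit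 115) (nat_lit 1) (nat_lit 319) (nat_lit 388) (nat_lit 313))) (XT.nd (nat_lit 78) (nat_lit 76) (nat_lit 0) (XT.lf (nat_lit 76) (nat_lit 5312982739) (nat_lit 0) (nat_lit 3546180861) (nat_lit 152) (nat_lit 953423892) (nat_lit 113) (nat_lit 1) (nat_lit 112) (nat_lit 1) (nat_lit 114) (nat_lit 1) (nat_lit 320) (nat_lit 388) (nat_lit 312)) (XT.lf (nat_lit 0) (nat_lit 1013233096) (nat_lit 0) (nat_lit 8551070397) (nat_lit 152) (nat_lit 86830557) (nat_lit 111) (nat_lit 3) (nat_lit 111) (nat_lit 1) (nat_lit 113) (nat_lit 1) (nat_lit 321) (nat_lit 388) (nat_lit 311))))) (XT.nd (nat_lit 234) (nat_lit 456) (nat_lit 0) (XT.nd (nat_lit 78) (nat_lit 228) (nat_lit 0) (XT.lf (nat_lit 152) (nat_lit 5588377763) (nat_lit 0) (nat_lit 744534155) (nat_lit 76) (nat_lit 3158631767) (nat_lit 110) (nat_lit 1) (nat_lit 108) (nat_lit 1) (nat_lit 109) (nat_lit 1) (nat_lit 322) (nat_lit 388) (nat_lit 310)) (XT.nd (nat_lit 78)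 (nat_lit 152) (nat_lit 0) (XT.lf (nat_lit 76) (nat_lit 560090154) (nat_lit 0) (nat_lit 1577338018) (nat_lit 76) (nat_lit 7197993684) (nat_lit 108) (nat_lit 3) (nat_lit 107) (nat_lit 1) (nat_lit 108) (nat_lit 1) (nat_lit 323) (nat_lit 388) (nat_lit 309)) (XT.lf (nat_lit 152) (nat_lit 4901099754) (nat_lit 0) (nat_lit 2367379945) (nat_lit 76) (nat_lit 1913010611) (nat_lit 107) (nat_lit 1) (nat_lit 105) (nat_lit 1) (nat_lit 106) (nat_lit 1) (nat_lit 324) (nat_lit 388) (nat_lit 308)))) (XT.nd (nat_lit 156) (nat_lit 228) (nat_lit 0) (XT.nd (nat_lit 78) (nat_lit 152) (nat_lit 0) (XT.lf (nat_lit 76) (nat_lit 17333432) (nat_lit 0) (nat_lit 3150653268) (nat_lit 76) (nat_lit 5862745254) (nat_lit 105) (nat_lit 3) (nat_lit 104) (nat_lit 1) (nat_lit 105) (nat_lit 1) (nat_lit 325) (nat_lit 388) (nat_lit 307)) (XT.lf (nat_lit 152) (nat_lit 4219551071) (nat_lit 0) (nat_lit 3898197798) (nat_lit 76) (nat_lit 764490219)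 (nat_lit 104) (nat_lit 1) (nat_lit 102) (nat_lit 1) (nat_lit 103) (nat_lit 1) (nat_lit 326) (nat_lit 388) (nat_lit 306))) (XT.nd (nat_lit 78) (nat_lit 76) (nat_lit 0) (XT.lf (nat_lit 76) (nat_lit 4116325717) (nat_lit 0) (nat_lit 512017375) (nat_lit 152) (nat_lit 4108139520) (nat_lit 101) (nat_lit 1) (nat_lit 100) (nat_lit 1) (nat_lit 102) (nat_lit 1) (nat_lit 327) (nat_lit 388) (nat_lit 305)) (XT.lf (nat_lit 0) (nat_lit 288377634) (nat_lit 0) (nat_lit 5048002963) (nat_lit 152) (nat_lit 3256883009) (nat_lit 99) (nat_lit 3) (nat_lit 99) (nat_lit 1) (nat_lit 101) (nat_lit 1) (nat_lit 328) (nat_lit 388) (nat_lit 304))))))) (XT.nd (nat_lit 1092) (nat_lit 1748) (nat_lit 0) (XT.nd (nat_lit 546) (nat_lit 836) (nat_lit 0) (XT.nd (nat_lit 234) (nat_lit 532) (nat_lit 0) (XT.nd (nat_lit 78) (nat_lit 228) (nat_lit 0) (XT.lf (nat_lit 76) (nat_lit 4984129200) (nat_lit 0) (nat_lit 1033703537) (nat_lit 152) (nat_lit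 2434558323) (nat_lit 98) (nat_lit 1) (nat_lit 97) (nat_lit 1) (nat_lit 99) (nat_lit 1) (nat_lit 329) (nat_lit 388) (nat_lit 303)) (XT.nd (nat_lit 78) (nat_lit 152) (nat_lit 0) (XT.lf (nat_lit 0) (nat_lit 1244607858) (nat_lit 0) (nat_lit 5435986964) (nat_lit 152) (nat_lit 1633440667) (nat_lit 96) (nat_lit 3) (nat_lit 96) (nat_lit 1) (nat_lit 98) (nat_lit 1) (nat_lit 330) (nat_lit 388) (nat_lit 302)) (XT.lf (nat_lit 76) (nat_lit 5777231909) (nat_lit 0) (nat_lit 1544625986) (nat_lit 152) (nat_lit 856198871) (nat_lit 95) (nat_lit 1) (nat_lit 94) (nat_lit 1) (nat_lit 96) (nat_lit 1) (nat_lit 331) (nat_lit 388) (nat_lit 301)))) (XT.nd (nat_lit 156) (nat_lit 228) (nat_lit 0) (XT.nd (nat_lit 78) (nat_lit 228) (nat_lit 0) (XT.lf (nat_lit 0) (nat_lit 2125011034) (nat_lit 0) (nat_lit 5815986184) (nat_lit 152) (nat_lit 103382280) (nat_lit 93) (nat_lit 3) (nat_lit 93) (nat_lit 1) (nat_lit 95) (nat_lit 1) (nat_lit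 332) (nat_lit 388) (nat_lit 300)) (XT.lf (nat_lit 152) (nat_lit 5864749408) (nat_lit 0) (nat_lit 642553104) (nat_lit 76) (nat_lit 1405608241) (nat_lit 92) (nat_lit 1) (nat_lit 90) (nat_lit 1) (nat_lit 91) (nat_lit 1) (nat_lit 333) (nat_lit 388) (nat_lit 299))) (XT.nd (nat_lit 78) (nat_lit 152) (nat_lit 0) (XT.lf (nat_lit 76) (nat_lit 1585124278) (nat_lit 0) (nat_lit 1362965605) (nat_lit 76) (nat_lit 4835438128) (nat_lit 90) (nat_lit 3) (nat_lit 89) (nat_lit 1) (nat_lit 90) (nat_lit 1) (nat_lit 334) (nat_lit 388) (nat_lit 298)) (XT.lf (nat_lit 152) (nat_lit 5113143742) (nat_lit 0) (nat_lit 2067575914) (nat_lit 76) (nat_lit 475829462) (nat_lit 89) (nat_lit 1) (nat_lit 87) (nat_lit 1) (nat_lit 88) (nat_lit 1) (nat_lit 335) (nat_lit 388) (nat_lit 297))))) (XT.nd (nat_lit 234) (nat_lit 532) (nat_lit 0) (XT.nd (nat_lit 78) (nat_lit 228) (nat_lit 0) (XT.lf (nat_lit 76) (nat_lit 963391636) (nat_lit 0)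 (nat_lit 2742468338) (nat_lit 76) (nat_lit 3825654234) (nat_lit 87) (nat_lit 3) (nat_lit 86) (nat_lit 1) (nat_lit 87) (nat_lit 1) (nat_lit 336) (nat_lit 388) (nat_lit 296)) (XT.nd (nat_lit 78) (nat_lit 76) (nat_lit 0) (XT.lf (nat_lit 0) (nat_lit 377353283) (nat_lit 0) (nat_lit 3023920642) (nat_lit 152) (nat_lit 4007492862) (nat_lit 84) (nat_lit 3) (nat_lit 84) (nat_lit 1) (nat_lit 86) (nat_lit 1) (nat_lit 337) (nat_lit 388) (nat_lit 295)) (XT.lf (nat_lit 76) (nat_lit 365592413) (nat_lit 0) (nat_lit 4036305287) (nat_lit 76) (nat_lit 2886132754) (nat_lit 84) (nat_lit 3) (nat_lit 83) (nat_lit 1) (nat_lit 84) (nat_lit 1) (nat_lit 338) (nat_lit 388) (nat_lit 294)))) (XT.nd (nat_lit 156) (nat_lit 228) (nat_lit 0) (XT.nd (nat_lit 78) (nat_lit 152) (nat_lit 0) (XT.lf (nat_lit 0) (nat_lit 1158031145) (nat_lit 0) (nat_lit 3488627854) (nat_lit 152) (nat_lit 2522568402) (nat_lit 81) (nat_lit 3) (nat_lit 81)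 (nat_lit 1) (nat_lit 83) (nat_lit 1) (nat_lit 339) (nat_lit 388) (nat_lit 293)) (XT.lf (nat_lit 76) (nat_lit 5042424925) (nat_lit 0) (nat_lit 203247816) (nat_lit 152) (nat_lit 1807022847) (nat_lit 80) (nat_lit 1) (nat_lit 79) (nat_lit 1) (nat_lit 81) (nat_lit 1) (nat_lit 340) (nat_lit 388) (nat_lit 292))) (XT.nd (nat_lit 78) (nat_lit 152) (nat_lit 0) (XT.lf (nat_lit 0) (nat_lit 1879661415) (nat_lit 0) (nat_lit 3932010849) (nat_lit 152) (nat_lit 1126081908) (nat_lit 78) (nat_lit 3) (nat_lit 78) (nat_lit 1) (nat_lit 80) (nat_lit 1) (nat_lit 341) (nat_lit 388) (nat_lit 291)) (XT.lf (nat_lit 76) (nat_lit 5632620197) (nat_lit 0) (nat_lit 739876986) (nat_lit 152) (nat_lit 452668226) (nat_lit 77) (nat_lit 1) (nat_lit 76) (nat_lit 1) (nat_lit 78) (nat_lit 1) (nat_lit 342) (nat_lit 388) (nat_lit 290)))))) (XT.nd (nat_lit 546) (nat_lit 912) (nat_lit 0) (XT.nd (nat_lit 234) (nat_lit 456) (nat_lit 0) (XT.nd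 (nat_lit 78) (nat_lit 228) (nat_lit 0) (XT.lf (nat_lit 76) (nat_lit 2358750676) (nat_lit 0) (nat_lit 189170316) (nat_lit 76) (nat_lit 4166072460) (nat_lit 75) (nat_lit 3) (nat_lit 74) (nat_lit 1) (nat_lit 75) (nat_lit 1) (nat_lit 343) (nat_lit 388) (nat_lit 289)) (XT.nd (nat_lit 78) (nat_lit 76) (nat_lit 0) (XT.lf (nat_lit 152) (nat_lit 5345944310) (nat_lit 0) (nat_lit 834651049) (nat_lit 76) (nat_lit 424417862) (nat_lit 74) (nat_lit 1) (nat_lit 72) (nat_lit 1) (nat_lit 73) (nat_lit 1) (nat_lit 344) (nat_lit 388) (nat_lit 288)) (XT.lf (nat_lit 76) (nat_lit 1731053145) (nat_lit 0) (nat_lit 1443753348) (nat_lit 76) (nat_lit 3322600849) (nat_lit 72) (nat_lit 3) (nat_lit 71) (nat_lit 1) (nat_lit 72) (nat_lit 1) (nat_lit 345) (nat_lit 388) (nat_lit 287)))) (XT.nd (nat_lit 156) (nat_lit 228) (nat_lit 0) (XT.nd (nat_lit 78) (nat_lit 76) (nat_lit 0) (XT.lf (nat_lit 0) (nat_lit 287504684) (nat_lit 0) (nat_lit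 1759116061) (nat_lit 152) (nat_lit 4345386674) (nat_lit 69) (nat_lit 3) (nat_lit 69) (nat_lit 1) (nat_lit 71) (nat_lit 1) (nat_lit 346) (nat_lit 388) (nat_lit 286)) (XT.lf (nat_lit 76) (nat_lit 1133893268) (nat_lit 0) (nat_lit 2618732603) (nat_lit 76) (nat_lit 2535427913) (nat_lit 69) (nat_lit 3) (nat_lit 68) (nat_lit 1) (nat_lit 69) (nat_lit 1) (nat_lit 347) (nat_lit 388) (nat_lit 285))) (XT.nd (nat_lit 78) (nat_lit 76) (nat_lit 0) (XT.lf (nat_lit 0) (nat_lit 940493150) (nat_lit 0) (nat_lit 2236410528) (nat_lit 152) (nat_lit 3009087896) (nat_lit 66) (nat_lit 3) (nat_lit 66) (nat_lit 1) (nat_lit 68) (nat_lit 1) (nat_lit 348) (nat_lit 388) (nat_lit 284)) (XT.lf (nat_lit 76) (nat_lit 566974230) (nat_lit 0) (nat_lit 3717516169) (nat_lit 76) (nat_lit 1801181257) (nat_lit 66) (nat_lit 3) (nat_lit 65) (nat_lit 1) (nat_lit 66) (nat_lit 1) (nat_lit 349) (nat_lit 388) (nat_lit 283))))) (XT.nd (nat_lit 234)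 (nat_lit 532) (nat_lit 0) (XT.nd (nat_lit 78) (nat_lit 228) (nat_lit 0) (XT.lf (nat_lit 0) (nat_lit 1545928007) (nat_lit 0) (nat_lit 2687127292) (nat_lit 152) (nat_lit 1753776926) (nat_lit 63) (nat_lit 3) (nat_lit 63) (nat_lit 1) (nat_lit 65) (nat_lit 1) (nat_lit 350) (nat_lit 388) (nat_lit 282)) (XT.nd (nat_lit 78) (nat_lit 152) (nat_lit 0) (XT.lf (nat_lit 76) (nat_lit 29859537) (nat_lit 0) (nat_lit 4743435674) (nat_lit 76) (nat_lit 1116715999) (nat_lit 63) (nat_lit 3) (nat_lit 62) (nat_lit 1) (nat_lit 63) (nat_lit 1) (nat_lit 351) (nat_lit 388) (nat_lit 281)) (XT.lf (nat_lit 0) (nat_lit 2106698369) (nat_lit 0) (nat_lit 3111651177) (nat_lit 152) (nat_lit 575935005) (nat_lit 60) (nat_lit 3) (nat_lit 60) (nat_lit 1) (nat_lit 62) (nat_lit 1) (nat_lit 352) (nat_lit 388) (nat_lit 280)))) (XT.nd (nat_lit 156) (nat_lit 228) (nat_lit 0) (XT.nd (nat_lit 78) (nat_lit 152) (nat_lit 0) (XT.lf (nat_lit 76)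 (nat_lit 5226332586) (nat_lit 0) (nat_lit 468674732) (nat_lit 152) (nat_lit 5688205) (nat_lit 59) (nat_lit 1) (nat_lit 58) (nat_lit 1) (nat_lit 60) (nat_lit 1) (nat_lit 353) (nat_lit 388) (nat_lit 279)) (XT.lf (nat_lit 76) (nat_lit 2092309657) (nat_lit 0) (nat_lit 538366876) (nat_lit 76) (nat_lit 2977282299) (nat_lit 57) (nat_lit 3) (nat_lit 56) (nat_lit 1) (nat_lit 57) (nat_lit 1) (nat_lit 354) (nat_lit 388) (nat_lit 278))) (XT.nd (nat_lit 78) (nat_lit 76) (nat_lit 0) (XT.lf (nat_lit 0) (nat_lit 132004754) (nat_lit 0) (nat_lit 950287364) (nat_lit 152) (nat_lit 4434989611) (nat_lit 54) (nat_lit 3) (nat_lit 54) (nat_lit 1) (nat_lit 56) (nat_lit 1) (nat_lit 355) (nat_lit 388) (nat_lit 277)) (XT.lf (nat_lit 76) (nat_lit 1528158777) (nat_lit 0) (nat_lit 1592002703) (nat_lit 76) (nat_lit 2307475548) (nat_lit 54) (nat_lit 3) (nat_lit 53) (nat_lit 1) (nat_lit 54) (nat_lit 1) (nat_lit 356) (nat_lit 388)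 (nat_lit 276))))))))
noncomputable def ec104 : XT := (XT.nd (nat_lit 2184) (nat_lit 304) (nat_lit 0) (XT.nd (nat_lit 1092) (nat_lit 1824) (nat_lit 0) (XT.nd (nat_lit 546) (nat_lit 912) (nat_lit 0) (XT.nd (nat_lit 234) (nat_lit 456) (nat_lit 0) (XT.nd (nat_lit 78) (nat_lit 228) (nat_lit 0) (XT.lf (nat_lit 0) (nat_lit 687497300) (nat_lit 0) (nat_lit 1408086085) (nat_lit 152) (nat_lit 3244220698) (nat_lit 51) (nat_lit 3) (nat_lit 51) (nat_lit 1) (nat_lit 53) (nat_lit 1) (nat_lit 357) (nat_lit 388) (nat_lit 275)) (XT.nd (nat_lit 78) (nat_lit 152) (nat_lit 0) (XT.lf (nat_lit 76) (nat_lit 995099644) (nat_lit 0) (nat_lit 2576797758) (nat_lit 76) (nat_lit 1681374677) (nat_lit 51) (nat_lit 3) (nat_lit 50) (nat_lit 1) (nat_lit 51) (nat_lit 1) (nat_lit 358) (nat_lit 388) (nat_lit 274)) (XT.lf (nat_lit 0) (nat_lit 1203714810) (nat_lit 0) (nat_lit 1838273324) (nat_lit 152) (nat_lit 2126200423) (nat_lit 48)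 (nat_lit 3) (nat_lit 48) (nat_lit 1) (nat_lit 50) (nat_lit 1) (nat_lit 359) (nat_lit 388) (nat_lit 273)))) (XT.nd (nat_lit 156) (nat_lit 228) (nat_lit 0) (XT.nd (nat_lit 78) (nat_lit 152) (nat_lit 0) (XT.lf (nat_lit 76) (nat_lit 492190124) (nat_lit 0) (nat_lit 3495934570) (nat_lit 76) (nat_lit 1096531566) (nat_lit 48) (nat_lit 3) (nat_lit 47) (nat_lit 1) (nat_lit 48) (nat_lit 1) (nat_lit 360) (nat_lit 388) (nat_lit 272)) (XT.lf (nat_lit 0) (nat_lit 1682910313) (nat_lit 0) (nat_lit 2241709613) (nat_lit 152) (nat_lit 1077611212) (nat_lit 45) (nat_lit 3) (nat_lit 45) (nat_lit 1) (nat_lit 47) (nat_lit 1) (nat_lit 361) (nat_lit 388) (nat_lit 271))) (XT.nd (nat_lit 78) (nat_lit 152) (nat_lit 0) (XT.lf (nat_lit 76) (nat_lit 18455226) (nat_lit 0) (nat_lit 4352489835) (nat_lit 76) (nat_lit 550645035) (nat_lit 45) (nat_lit 3) (nat_lit 44) (nat_lit 1) (nat_lit 45) (nat_lit 1) (nat_lit 362) (nat_lit 388) (nat_lit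 270)) (XT.lf (nat_lit 0) (nat_lit 2127200998) (nat_lit 0) (nat_lit 2619285888) (nat_lit 152) (nat_lit 95248975) (nat_lit 42) (nat_lit 3) (nat_lit 42) (nat_lit 1) (nat_lit 44) (nat_lit 1) (nat_lit 363) (nat_lit 388) (nat_lit 269))))) (XT.nd (nat_lit 234) (nat_lit 456) (nat_lit 0) (XT.nd (nat_lit 78) (nat_lit 228) (nat_lit 0) (XT.lf (nat_lit 152) (nat_lit 4341138900) (nat_lit 0) (nat_lit 389038304) (nat_lit 76) (nat_lit 33469370) (nat_lit 41) (nat_lit 1) (nat_lit 39) (nat_lit 1) (nat_lit 40) (nat_lit 1) (nat_lit 364) (nat_lit 388) (nat_lit 268)) (XT.nd (nat_lit 78) (nat_lit 152) (nat_lit 0) (XT.lf (nat_lit 76) (nat_lit 1706280199) (nat_lit 0) (nat_lit 840376211) (nat_lit 76) (nat_lit 2139615637) (nat_lit 39) (nat_lit 3) (nat_lit 38) (nat_lit 1) (nat_lit 39) (nat_lit 1) (nat_lit 365) (nat_lit 388) (nat_lit 267)) (XT.lf (nat_lit 0) (nat_lit 445130871) (nat_lit 0) (nat_lit 845810888) (nat_lit 152) (nat_lit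 3319657460) (nat_lit 36) (nat_lit 3) (nat_lit 36) (nat_lit 1) (nat_lit 38) (nat_lit 1) (nat_lit 366) (nat_lit 388) (nat_lit 266)))) (XT.nd (nat_lit 156) (nat_lit 228) (nat_lit 0) (XT.nd (nat_lit 78) (nat_lit 152) (nat_lit 0) (XT.lf (nat_lit 76) (nat_lit 1218873679) (nat_lit 0) (nat_lit 1716543261) (nat_lit 76) (nat_lit 1600473696) (nat_lit 36) (nat_lit 3) (nat_lit 35) (nat_lit 1) (nat_lit 36) (nat_lit 1) (nat_lit 367) (nat_lit 388) (nat_lit 265)) (XT.lf (nat_lit 0) (nat_lit 890052374) (nat_lit 0) (nat_lit 1242895662) (nat_lit 152) (nat_lit 2329625289) (nat_lit 33) (nat_lit 3) (nat_lit 33) (nat_lit 1) (nat_lit 35) (nat_lit 1) (nat_lit 368) (nat_lit 388) (nat_lit 264))) (XT.nd (nat_lit 78) (nat_lit 152) (nat_lit 0) (XT.lf (nat_lit 76) (nat_lit 760060455) (nat_lit 0) (nat_lit 2534282472) (nat_lit 76) (nat_lit 1096101682) (nat_lit 33) (nat_lit 3) (nat_lit 32) (nat_lit 1) (nat_lit 33) (nat_lit 1) (nat_lit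 369) (nat_lit 388) (nat_lit 263)) (XT.lf (nat_lit 0) (nat_lit 1303763170) (nat_lit 0) (nat_lit 1614480902) (nat_lit 152) (nat_lit 1401162350) (nat_lit 30) (nat_lit 3) (nat_lit 30) (nat_lit 1) (nat_lit 32) (nat_lit 1) (nat_lit 370) (nat_lit 388) (nat_lit 262)))))) (XT.nd (nat_lit 546) (nat_lit 912) (nat_lit 0) (XT.nd (nat_lit 234) (nat_lit 532) (nat_lit 0) (XT.nd (nat_lit 78) (nat_lit 304) (nat_lit 0) (XT.lf (nat_lit 76) (nat_lit 328717443) (nat_lit 0) (nat_lit 3296408989) (nat_lit 76) (nat_lit 624639092) (nat_lit 30) (nat_lit 3) (nat_lit 29) (nat_lit 1) (nat_lit 30) (nat_lit 1) (nat_lit 371) (nat_lit 388) (nat_lit 261)) (XT.nd (nat_lit 78) (nat_lit 152) (nat_lit 0) (XT.lf (nat_lit 0) (nat_lit 1687977358) (nat_lit 0) (nat_lit 1961598856) (nat_lit 152) (nat_lit 531356618) (nat_lit 27) (nat_lit 3) (nat_lit 27) (nat_lit 1) (nat_lit 29) (nat_lit 1) (nat_lit 372) (nat_lit 388) (nat_lit 260)) (XT.lf (nat_lit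 76) (nat_lit 3930097404) (nat_lit 0) (nat_lit 74776771) (nat_lit 152) (nat_lit 108795056) (nat_lit 26) (nat_lit 1) (nat_lit 25) (nat_lit 1) (nat_lit 27) (nat_lit 1) (nat_lit 373) (nat_lit 388) (nat_lit 259)))) (XT.nd (nat_lit 156) (nat_lit 228) (nat_lit 0) (XT.nd (nat_lit 78) (nat_lit 152) (nat_lit 0) (XT.lf (nat_lit 76) (nat_lit 1758870438) (nat_lit 0) (nat_lit 288214902) (nat_lit 76) (nat_lit 1999824578) (nat_lit 24) (nat_lit 3) (nat_lit 23) (nat_lit 1) (nat_lit 24) (nat_lit 1) (nat_lit 374) (nat_lit 388) (nat_lit 258)) (XT.lf (nat_lit 0) (nat_lit 233219434) (nat_lit 0) (nat_lit 456015679) (nat_lit 152) (nat_lit 3292430905) (nat_lit 21) (nat_lit 3) (nat_lit 21) (nat_lit 1) (nat_lit 23) (nat_lit 1) (nat_lit 375) (nat_lit 388) (nat_lit 257))) (XT.nd (nat_lit 78) (nat_lit 152) (nat_lit 0) (XT.lf (nat_lit 76) (nat_lit 1320403096) (nat_lit 0) (nat_lit 1064133412) (nat_lit 76) (nat_lit 1532589997)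 (nat_lit 21) (nat_lit 3) (nat_lit 20) (nat_lit 1) (nat_lit 21) (nat_lit 1) (nat_lit 376) (nat_lit 388) (nat_lit 256)) (XT.lf (nat_lit 0) (nat_lit 619390670) (nat_lit 0) (nat_lit 815587527) (nat_lit 152) (nat_lit 2418928044) (nat_lit 18) (nat_lit 3) (nat_lit 18) (nat_lit 1) (nat_lit 20) (nat_lit 1) (nat_lit 377) (nat_lit 388) (nat_lit 255))))) (XT.nd (nat_lit 234) (nat_lit 608) (nat_lit 0) (XT.nd (nat_lit 78) (nat_lit 228) (nat_lit 0) (XT.lf (nat_lit 76) (nat_lit 908139912) (nat_lit 0) (nat_lit 1788456107) (nat_lit 76) (nat_lit 1094994062) (nat_lit 18) (nat_lit 3) (nat_lit 17) (nat_lit 1) (nat_lit 18) (nat_lit 1) (nat_lit 378) (nat_lit 388) (nat_lit 254)) (XT.nd (nat_lit 78) (nat_lit 76) (nat_lit 0) (XT.lf (nat_lit 0) (nat_lit 978944759) (nat_lit 0) (nat_lit 1151717898) (nat_lit 152) (nat_lit 1599666050) (nat_lit 15) (nat_lit 3) (nat_lit 15) (nat_lit 1) (nat_lit 17) (nat_lit 1) (nat_lit 379) (nat_lit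 388) (nat_lit 253)) (XT.lf (nat_lit 76) (nat_lit 520951449) (nat_lit 0) (nat_lit 2463708506) (nat_lit 76) (nat_lit 685497296) (nat_lit 15) (nat_lit 3) (nat_lit 14) (nat_lit 1) (nat_lit 15) (nat_lit 1) (nat_lit 380) (nat_lit 388) (nat_lit 252)))) (XT.nd (nat_lit 156) (nat_lit 380) (nat_lit 0) (XT.nd (nat_lit 78) (nat_lit 76) (nat_lit 0) (XT.lf (nat_lit 0) (nat_lit 1313301587) (nat_lit 0) (nat_lit 1465447538) (nat_lit 152) (nat_lit 832043139) (nat_lit 12) (nat_lit 3) (nat_lit 12) (nat_lit 1) (nat_lit 14) (nat_lit 1) (nat_lit 381) (nat_lit 388) (nat_lit 251)) (XT.lf (nat_lit 76) (nat_lit 157738191) (nat_lit 0) (nat_lit 3092312503) (nat_lit 76) (nat_lit 302639097) (nat_lit 12) (nat_lit 3) (nat_lit 11) (nat_lit 1) (nat_lit 12) (nat_lit 1) (nat_lit 382) (nat_lit 388) (nat_lit 250))) (XT.nd (nat_lit 78) (nat_lit 228) (nat_lit 0) (XT.lf (nat_lit 0) (nat_lit 1623807635) (nat_lit 0) (nat_lit 1757789055)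 (nat_lit 152) (nat_lit 113564140) (nat_lit 9) (nat_lit 3) (nat_lit 9) (nat_lit 1) (nat_lit 11) (nat_lit 1) (nat_lit 383) (nat_lit 388) (nat_lit 249)) (XT.lf (nat_lit 0) (nat_lit 58001048) (nat_lit 0) (nat_lit 181885856) (nat_lit 152) (nat_lit 3199028461) (nat_lit 6) (nat_lit 3) (nat_lit 6) (nat_lit 1) (nat_lit 8) (nat_lit 1) (nat_lit 384) (nat_lit 388) (nat_lit 248))))))) (XT.nd (nat_lit 43134) (nat_lit 0) (nat_lit 18772) (XT.nd (nat_lit 42588) (nat_lit 0) (nat_lit 25004) (XT.nd (nat_lit 42276) (nat_lit 0) (nat_lit 28500) (XT.nd (nat_lit 78) (nat_lit 228) (nat_lit 0) (XT.lf (nat_lit 76) (nat_lit 1347941056) (nat_lit 0) (nat_lit 569271379) (nat_lit 76) (nat_lit 1465926588) (nat_lit 6) (nat_lit 3) (nat_lit 5) (nat_lit 1) (nat_lit 6) (nat_lit 1) (nat_lit 385) (nat_lit 388) (nat_lit 247)) (XT.nd (nat_lit 78) (nat_lit 76) (nat_lit 0) (XT.lf (nat_lit 0) (nat_lit 394677460) (nat_lit 0) (nat_lit 503771803)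 (nat_lit 152) (nat_lit 2430152546) (nat_lit 3) (nat_lit 3) (nat_lit 3) (nat_lit 1) (nat_lit 5) (nat_lit 1) (nat_lit 386) (nat_lit 388) (nat_lit 246)) (XT.lf (nat_lit 76) (nat_lit 980911291) (nat_lit 0) (nat_lit 1209022173) (nat_lit 76) (nat_lit 1084810665) (nat_lit 3) (nat_lit 3) (nat_lit 2) (nat_lit 1) (nat_lit 3) (nat_lit 1) (nat_lit 387) (nat_lit 388) (nat_lit 245)))) (XT.nd (nat_lit 156) (nat_lit 0) (nat_lit 152) (XT.nd (nat_lit 78) (nat_lit 0) (nat_lit 76) (XT.lf (nat_lit 1292) (nat_lit 10452160181) (nat_lit 76) (nat_lit 6871238744) (nat_lit 0) (nat_lit 22940249682) (nat_lit 394) (nat_lit 1) (nat_lit 378) (nat_lit 1) (nat_lit 377) (nat_lit 1) (nat_lit 246) (nat_lit 389) (nat_lit 385)) (XT.lf (nat_lit 1292) (nat_lit 7867314604) (nat_lit 76) (nat_lit 998976482) (nat_lit 0) (nat_lit 30463206176) (nat_lit 395) (nat_lit 1) (nat_lit 379) (nat_lit 1) (nat_lit 378) (nat_lit 1) (nat_lit 247) (nat_lit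 389) (nat_lit 384))) (XT.nd (nat_lit 78) (nat_lit 0) (nat_lit 0) (XT.lf (nat_lit 1292) (nat_lit 605347903) (nat_lit 0) (nat_lit 33559950390) (nat_lit 1216) (nat_lit 4258760683) (nat_lit 396) (nat_lit 1) (nat_lit 379) (nat_lit 1) (nat_lit 395) (nat_lit 1) (nat_lit 248) (nat_lit 389) (nat_lit 383)) (XT.lf (nat_lit 1292) (nat_lit 1434806222) (nat_lit 76) (nat_lit 28467144531) (nat_lit 0) (nat_lit 7643210137) (nat_lit 396) (nat_lit 1) (nat_lit 380) (nat_lit 1) (nat_lit 379) (nat_lit 1) (nat_lit 249) (nat_lit 389) (nat_lit 382))))) (XT.nd (nat_lit 234) (nat_lit 2432) (nat_lit 0) (XT.nd (nat_lit 78) (nat_lit 0) (nat_lit 76) (XT.lf (nat_lit 1368) (nat_lit 20969676672) (nat_lit 0) (nat_lit 2266602737) (nat_lit 1292) (nat_lit 13457173410) (nat_lit 381) (nat_lit 1) (nat_lit 363) (nat_lit 1) (nat_lit 380) (nat_lit 1) (nat_lit 250) (nat_lit 389) (nat_lit 381)) (XT.nd (nat_lit 78) (nat_lit 0) (nat_lit 76) (XT.lf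 (nat_lit 1368) (nat_lit 12239886613) (nat_lit 0) (nat_lit 6219290910) (nat_lit 1292) (nat_lit 17409104634) (nat_lit 382) (nat_lit 1) (nat_lit 364) (nat_lit 1) (nat_lit 381) (nat_lit 1) (nat_lit 251) (nat_lit 389) (nat_lit 380)) (XT.lf (nat_lit 76) (nat_lit 3698958668) (nat_lit 0) (nat_lit 10427010357) (nat_lit 1292) (nat_lit 20943138677) (nat_lit 366) (nat_lit 1) (nat_lit 365) (nat_lit 1) (nat_lit 382) (nat_lit 1) (nat_lit 252) (nat_lit 389) (nat_lit 379)))) (XT.nd (nat_lit 156) (nat_lit 1140) (nat_lit 0) (XT.nd (nat_lit 78) (nat_lit 608) (nat_lit 0) (XT.lf (nat_lit 912) (nat_lit 19381078076) (nat_lit 0) (nat_lit 10166701030) (nat_lit 836) (nat_lit 4745863983) (nat_lit 366) (nat_lit 1) (nat_lit 354) (nat_lit 1) (nat_lit 365) (nat_lit 1) (nat_lit 253) (nat_lit 389) (nat_lit 378)) (XT.lf (nat_lit 684) (nat_lit 13898050580) (nat_lit 0) (nat_lit 6571008568) (nat_lit 608) (nat_lit 13072283118) (nat_lit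 355) (nat_lit 1) (nat_lit 346) (nat_lit 1) (nat_lit 354) (nat_lit 1) (nat_lit 254) (nat_lit 389) (nat_lit 377))) (XT.nd (nat_lit 78) (nat_lit 532) (nat_lit 0) (XT.lf (nat_lit 684) (nat_lit 8249690337) (nat_lit 0) (nat_lit 3355347474) (nat_lit 608) (nat_lit 21207407211) (nat_lit 347) (nat_lit 1) (nat_lit 338) (nat_lit 1) (nat_lit 346) (nat_lit 1) (nat_lit 255) (nat_lit 389) (nat_lit 376)) (XT.lf (nat_lit 608) (nat_lit 2454135582) (nat_lit 0) (nat_lit 499786509) (nat_lit 532) (nat_lit 29152213797) (nat_lit 339) (nat_lit 1) (nat_lit 331) (nat_lit 1) (nat_lit 338) (nat_lit 1) (nat_lit 256) (nat_lit 389) (nat_lit 375)))))) (XT.nd (nat_lit 546) (nat_lit 2964) (nat_lit 0) (XT.nd (nat_lit 234) (nat_lit 2052) (nat_lit 0) (XT.nd (nat_lit 78) (nat_lit 1140) (nat_lit 0) (XT.lf (nat_lit 76) (nat_lit 25877818344) (nat_lit 0) (nat_lit 3477539737) (nat_lit 608) (nat_lit 2063060918) (nat_lit 331) (nat_lit 1) (nat_lit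 330) (nat_lit 1) (nat_lit 338) (nat_lit 1) (nat_lit 257) (nat_lit 389) (nat_lit 374)) (XT.nd (nat_lit 78) (nat_lit 532) (nat_lit 0) (XT.lf (nat_lit 76) (nat_lit 16896579580) (nat_lit 0) (nat_lit 9502199817) (nat_lit 684) (nat_lit 4351365497) (nat_lit 323) (nat_lit 1) (nat_lit 322) (nat_lit 1) (nat_lit 331) (nat_lit 1) (nat_lit 258) (nat_lit 389) (nat_lit 373)) (XT.lf (nat_lit 76) (nat_lit 8144229369) (nat_lit 0) (nat_lit 15619213134) (nat_lit 608) (nat_lit 6338873607) (nat_lit 316) (nat_lit 1) (nat_lit 315) (nat_lit 1) (nat_lit 323) (nat_lit 1) (nat_lit 259) (nat_lit 389) (nat_lit 372)))) (XT.nd (nat_lit 156) (nat_lit 1064) (nat_lit 0) (XT.nd (nat_lit 78) (nat_lit 456) (nat_lit 0) (XT.lf (nat_lit 608) (nat_lit 7655335962) (nat_lit 0) (nat_lit 21428731439) (nat_lit 532) (nat_lit 390053569) (nat_lit 316) (nat_lit 1) (nat_lit 308) (nat_lit 1) (nat_lit 315) (nat_lit 1) (nat_lit 260) (nat_lit 389) (nat_lit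 371)) (XT.lf (nat_lit 532) (nat_lit 700506747) (nat_lit 0) (nat_lit 19302526618) (nat_lit 456) (nat_lit 8859635820) (nat_lit 309) (nat_lit 1) (nat_lit 302) (nat_lit 1) (nat_lit 308) (nat_lit 1) (nat_lit 261) (nat_lit 389) (nat_lit 370))) (XT.nd (nat_lit 78) (nat_lit 456) (nat_lit 0) (XT.lf (nat_lit 76) (nat_lit 11224241289) (nat_lit 0) (nat_lit 6165283180) (nat_lit 608) (nat_lit 10878369832) (nat_lit 295) (nat_lit 1) (nat_lit 294) (nat_lit 1) (nat_lit 302) (nat_lit 1) (nat_lit 262) (nat_lit 389) (nat_lit 369)) (XT.lf (nat_lit 76) (nat_lit 2690018189) (nat_lit 0) (nat_lit 13040210975) (nat_lit 532) (nat_lit 11960547514) (nat_lit 289) (nat_lit 1) (nat_lit 288) (nat_lit 1) (nat_lit 295) (nat_lit 1) (nat_lit 263) (nat_lit 389) (nat_lit 368))))) (XT.nd (nat_lit 234) (nat_lit 1596) (nat_lit 0) (XT.nd (nat_lit 78) (nat_lit 912) (nat_lit 0) (XT.lf (nat_lit 532) (nat_lit 7145812162) (nat_lit 0) (nat_lit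 14261096963) (nat_lit 456) (nat_lit 5722360825) (nat_lit 289) (nat_lit 1) (nat_lit 282) (nat_lit 1) (nat_lit 288) (nat_lit 1) (nat_lit 264) (nat_lit 389) (nat_lit 367)) (XT.nd (nat_lit 78) (nat_lit 456) (nat_lit 0) (XT.lf (nat_lit 76) (nat_lit 12632729841) (nat_lit 0) (nat_lit 364335918) (nat_lit 456) (nat_lit 13586551591) (nat_lit 277) (nat_lit 1) (nat_lit 276) (nat_lit 1) (nat_lit 282) (nat_lit 1) (nat_lit 265) (nat_lit 389) (nat_lit 366)) (XT.lf (nat_lit 76) (nat_lit 4172466085) (nat_lit 0) (nat_lit 7713350763) (nat_lit 532) (nat_lit 14166289991) (nat_lit 271) (nat_lit 1) (nat_lit 270) (nat_lit 1) (nat_lit 277) (nat_lit 1) (nat_lit 266) (nat_lit 389) (nat_lit 365)))) (XT.nd (nat_lit 156) (nat_lit 836) (nat_lit 0) (XT.nd (nat_lit 78) (nat_lit 380) (nat_lit 0) (XT.lf (nat_lit 456) (nat_lit 10461616962) (nat_lit 0) (nat_lit 10945244214) (nat_lit 380) (nat_lit 4128213810) (nat_lit 271) (nat_lit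 1) (nat_lit 265) (nat_lit 1) (nat_lit 270) (nat_lit 1) (nat_lit 267) (nat_lit 389) (nat_lit 364)) (XT.lf (nat_lit 456) (nat_lit 2594833300) (nat_lit 0) (nat_lit 10165024466) (nat_lit 380) (nat_lit 12272182249) (nat_lit 266) (nat_lit 1) (nat_lit 260) (nat_lit 1) (nat_lit 265) (nat_lit 1) (nat_lit 268) (nat_lit 389) (nat_lit 363))) (XT.nd (nat_lit 78) (nat_lit 380) (nat_lit 0) (XT.lf (nat_lit 76) (nat_lit 4412312109) (nat_lit 0) (nat_lit 5112388622) (nat_lit 456) (nat_lit 15017527719) (nat_lit 255) (nat_lit 1) (nat_lit 254) (nat_lit 1) (nat_lit 260) (nat_lit 1) (nat_lit 269) (nat_lit 389) (nat_lit 362)) (XT.lf (nat_lit 456) (nat_lit 11321394979) (nat_lit 0) (nat_lit 9003330440) (nat_lit 380) (nat_lit 3740130632) (nat_lit 255) (nat_lit 1) (nat_lit 249) (nat_lit 1) (nat_lit 254) (nat_lit 1) (nat_lit 270) (nat_lit 389) (nat_lit 361))))))))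
noncomputable def ec105 : XT := (XT.nd (nat_lit 2184) (nat_lit 4028) (nat_lit 0) (XT.nd (nat_lit 1092) (nat_lit 3116) (nat_lit 0) (XT.nd (nat_lit 546) (nat_lit 1900) (nat_lit 0) (XT.nd (nat_lit 234) (nat_lit 1292) (nat_lit 0) (XT.nd (nat_lit 78) (nat_lit 760) (nat_lit 0) (XT.lf (nat_lit 380) (nat_lit 3250430872) (nat_lit 0) (nat_lit 8611534924) (nat_lit 304) (nat_lit 11738095438) (nat_lit 250) (nat_lit 1) (nat_lit 245) (nat_lit 1) (nat_lit 249) (nat_lit 1) (nat_lit 271) (nat_lit 389) (nat_lit 360)) (XT.nd (nat_lit 78) (nat_lit 304) (nat_lit 0) (XT.lf (nat_lit 76) (nat_lit 3694815546) (nat_lit 0) (nat_lit 4642625530) (nat_lit 456) (nat_lit 14809889417) (nat_lit 240) (nat_lit 1) (nat_lit 239) (nat_lit 1) (nat_lit 245) (nat_lit 1) (nat_lit 272) (nat_lit 389) (nat_lit 359)) (XT.lf (nat_lit 380) (nat_lit 10278946921) (nat_lit 0) (nat_lit 8145121510) (nat_lit 304) (nat_lit 4281384475) (nat_lit 240) (nat_lit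 1) (nat_lit 235) (nat_lit 1) (nat_lit 239) (nat_lit 1) (nat_lit 273) (nat_lit 389) (nat_lit 358)))) (XT.nd (nat_lit 156) (nat_lit 608) (nat_lit 0) (XT.nd (nat_lit 78) (nat_lit 380) (nat_lit 0) (XT.lf (nat_lit 380) (nat_lit 2120528568) (nat_lit 0) (nat_lit 8065562970) (nat_lit 304) (nat_lit 12089078103) (nat_lit 236) (nat_lit 1) (nat_lit 231) (nat_lit 1) (nat_lit 235) (nat_lit 1) (nat_lit 274) (nat_lit 389) (nat_lit 357)) (XT.lf (nat_lit 76) (nat_lit 2253491030) (nat_lit 0) (nat_lit 5815522101) (nat_lit 380) (nat_lit 13786442707) (nat_lit 227) (nat_lit 1) (nat_lit 226) (nat_lit 1) (nat_lit 231) (nat_lit 1) (nat_lit 275) (nat_lit 389) (nat_lit 356))) (XT.nd (nat_lit 78) (nat_lit 304) (nat_lit 0) (XT.lf (nat_lit 380) (nat_lit 7788374657) (nat_lit 0) (nat_lit 8131606800) (nat_lit 304) (nat_lit 5525479669) (nat_lit 227) (nat_lit 1) (nat_lit 222) (nat_lit 1) (nat_lit 226) (nat_lit 1) (nat_lit 276) (nat_lit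 389) (nat_lit 355)) (XT.lf (nat_lit 76) (nat_lit 7940212909) (nat_lit 0) (nat_lit 357257944) (nat_lit 304) (nat_lit 12748847585) (nat_lit 219) (nat_lit 1) (nat_lit 218) (nat_lit 1) (nat_lit 222) (nat_lit 1) (nat_lit 277) (nat_lit 389) (nat_lit 354))))) (XT.nd (nat_lit 234) (nat_lit 988) (nat_lit 0) (XT.nd (nat_lit 78) (nat_lit 608) (nat_lit 0) (XT.lf (nat_lit 76) (nat_lit 278813511) (nat_lit 0) (nat_lit 8230950955) (nat_lit 380) (nat_lit 12146458338) (nat_lit 215) (nat_lit 1) (nat_lit 214) (nat_lit 1) (nat_lit 219) (nat_lit 1) (nat_lit 278) (nat_lit 389) (nat_lit 353)) (XT.nd (nat_lit 78) (nat_lit 380) (nat_lit 0) (XT.lf (nat_lit 304) (nat_lit 4220794034) (nat_lit 0) (nat_lit 8766476717) (nat_lit 228) (nat_lit 7287698335) (nat_lit 215) (nat_lit 1) (nat_lit 211) (nat_lit 1) (nat_lit 214) (nat_lit 1) (nat_lit 279) (nat_lit 389) (nat_lit 352)) (XT.lf (nat_lit 76) (nat_lit 5316995808) (nat_lit 0) (nat_lit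 3777482514) (nat_lit 380) (nat_lit 10808717831) (nat_lit 207) (nat_lit 1) (nat_lit 206) (nat_lit 1) (nat_lit 211) (nat_lit 1) (nat_lit 280) (nat_lit 389) (nat_lit 351)))) (XT.nd (nat_lit 156) (nat_lit 456) (nat_lit 0) (XT.nd (nat_lit 78) (nat_lit 304) (nat_lit 0) (XT.lf (nat_lit 304) (nat_lit 7957293375) (nat_lit 0) (nat_lit 9466897590) (nat_lit 228) (nat_lit 2115789333) (nat_lit 207) (nat_lit 1) (nat_lit 203) (nat_lit 1) (nat_lit 206) (nat_lit 1) (nat_lit 281) (nat_lit 389) (nat_lit 350)) (XT.lf (nat_lit 76) (nat_lit 9768474055) (nat_lit 0) (nat_lit 119310864) (nat_lit 304) (nat_lit 9297516226) (nat_lit 200) (nat_lit 1) (nat_lit 199) (nat_lit 1) (nat_lit 203) (nat_lit 1) (nat_lit 282) (nat_lit 389) (nat_lit 349))) (XT.nd (nat_lit 78) (nat_lit 228) (nat_lit 0) (XT.lf (nat_lit 76) (nat_lit 2427629213) (nat_lit 0) (nat_lit 7901109657) (nat_lit 304) (nat_lit 8509456881) (nat_lit 197) (nat_lit 1) (nat_lit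 196) (nat_lit 1) (nat_lit 200) (nat_lit 1) (nat_lit 283) (nat_lit 389) (nat_lit 348)) (XT.lf (nat_lit 304) (nat_lit 2909090084) (nat_lit 0) (nat_lit 10815605062) (nat_lit 228) (nat_lit 4774588628) (nat_lit 197) (nat_lit 1) (nat_lit 193) (nat_lit 1) (nat_lit 196) (nat_lit 1) (nat_lit 284) (nat_lit 389) (nat_lit 347)))))) (XT.nd (nat_lit 546) (nat_lit 1520) (nat_lit 0) (XT.nd (nat_lit 234) (nat_lit 836) (nat_lit 0) (XT.nd (nat_lit 78) (nat_lit 456) (nat_lit 0) (XT.lf (nat_lit 76) (nat_lit 6421741288) (nat_lit 0) (nat_lit 4896814402) (nat_lit 304) (nat_lit 6849010157) (nat_lit 190) (nat_lit 1) (nat_lit 189) (nat_lit 1) (nat_lit 193) (nat_lit 1) (nat_lit 285) (nat_lit 389) (nat_lit 346)) (XT.nd (nat_lit 78) (nat_lit 228) (nat_lit 0) (XT.lf (nat_lit 304) (nat_lit 5336699097) (nat_lit 0) (nat_lit 11872694053) (nat_lit 228) (nat_lit 634543141) (nat_lit 190) (nat_lit 1) (nat_lit 186) (nat_lit 1) (nat_lit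 189) (nat_lit 1) (nat_lit 286) (nat_lit 389) (nat_lit 345)) (XT.lf (nat_lit 76) (nat_lit 9961838504) (nat_lit 0) (nat_lit 2458840055) (nat_lit 228) (nat_lit 5105920738) (nat_lit 184) (nat_lit 1) (nat_lit 183) (nat_lit 1) (nat_lit 186) (nat_lit 1) (nat_lit 287) (nat_lit 389) (nat_lit 344)))) (XT.nd (nat_lit 156) (nat_lit 380) (nat_lit 0) (XT.nd (nat_lit 78) (nat_lit 228) (nat_lit 0) (XT.lf (nat_lit 76) (nat_lit 2995316259) (nat_lit 0) (nat_lit 10000680945) (nat_lit 304) (nat_lit 4220409766) (nat_lit 181) (nat_lit 1) (nat_lit 180) (nat_lit 1) (nat_lit 184) (nat_lit 1) (nat_lit 288) (nat_lit 389) (nat_lit 343)) (XT.lf (nat_lit 76) (nat_lit 13095890216) (nat_lit 0) (nat_lit 507956617) (nat_lit 228) (nat_lit 3309542919) (nat_lit 178) (nat_lit 1) (nat_lit 177) (nat_lit 1) (nat_lit 180) (nat_lit 1) (nat_lit 289) (nat_lit 389) (nat_lit 342))) (XT.nd (nat_lit 78) (nat_lit 152) (nat_lit 0) (XT.lf (nat_lit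 76) (nat_lit 6217044347) (nat_lit 0) (nat_lit 7967446345) (nat_lit 304) (nat_lit 2431198423) (nat_lit 175) (nat_lit 1) (nat_lit 174) (nat_lit 1) (nat_lit 178) (nat_lit 1) (nat_lit 290) (nat_lit 389) (nat_lit 341)) (XT.lf (nat_lit 228) (nat_lit 1045458866) (nat_lit 0) (nat_lit 14831121262) (nat_lit 152) (nat_lit 449322913) (nat_lit 175) (nat_lit 1) (nat_lit 172) (nat_lit 1) (nat_lit 174) (nat_lit 1) (nat_lit 291) (nat_lit 389) (nat_lit 340))))) (XT.nd (nat_lit 234) (nat_lit 760) (nat_lit 0) (XT.nd (nat_lit 78) (nat_lit 532) (nat_lit 0) (XT.lf (nat_lit 76) (nat_lit 9083961293) (nat_lit 0) (nat_lit 6335481681) (nat_lit 228) (nat_lit 620854153) (nat_lit 170) (nat_lit 1) (nat_lit 169) (nat_lit 1) (nat_lit 172) (nat_lit 1) (nat_lit 292) (nat_lit 389) (nat_lit 339)) (XT.nd (nat_lit 78) (nat_lit 228) (nat_lit 0) (XT.lf (nat_lit 228) (nat_lit 2215942422) (nat_lit 0) (nat_lit 307285401) (nat_lit 152) (nat_lit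 13238760745) (nat_lit 168) (nat_lit 1) (nat_lit 165) (nat_lit 1) (nat_lit 167) (nat_lit 1) (nat_lit 293) (nat_lit 389) (nat_lit 338)) (XT.lf (nat_lit 228) (nat_lit 10429480299) (nat_lit 0) (nat_lit 1214695783) (nat_lit 152) (nat_lit 3844184039) (nat_lit 165) (nat_lit 1) (nat_lit 162) (nat_lit 1) (nat_lit 164) (nat_lit 1) (nat_lit 294) (nat_lit 389) (nat_lit 337)))) (XT.nd (nat_lit 156) (nat_lit 380) (nat_lit 0) (XT.nd (nat_lit 78) (nat_lit 228) (nat_lit 0) (XT.lf (nat_lit 228) (nat_lit 3059330381) (nat_lit 0) (nat_lit 2130620795) (nat_lit 152) (nat_lit 10030743884) (nat_lit 163) (nat_lit 1) (nat_lit 160) (nat_lit 1) (nat_lit 162) (nat_lit 1) (nat_lit 295) (nat_lit 389) (nat_lit 336)) (XT.lf (nat_lit 228) (nat_lit 10876992462) (nat_lit 0) (nat_lit 3047407089) (nat_lit 152) (nat_lit 1034262057) (nat_lit 160) (nat_lit 1) (nat_lit 157) (nat_lit 1) (nat_lit 159) (nat_lit 1) (nat_lit 296) (nat_lit 389)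 (nat_lit 335))) (XT.nd (nat_lit 78) (nat_lit 228) (nat_lit 0) (XT.lf (nat_lit 228) (nat_lit 3641819214) (nat_lit 0) (nat_lit 3934243944) (nat_lit 152) (nat_lit 7125192419) (nat_lit 158) (nat_lit 1) (nat_lit 155) (nat_lit 1) (nat_lit 157) (nat_lit 1) (nat_lit 297) (nat_lit 389) (nat_lit 334)) (XT.lf (nat_lit 76) (nat_lit 1467996510) (nat_lit 0) (nat_lit 3368235070) (nat_lit 228) (nat_lit 9613454225) (nat_lit 153) (nat_lit 1) (nat_lit 152) (nat_lit 1) (nat_lit 155) (nat_lit 1) (nat_lit 298) (nat_lit 389) (nat_lit 333))))))) (XT.nd (nat_lit 1092) (nat_lit 1748) (nat_lit 0) (XT.nd (nat_lit 546) (nat_lit 1216) (nat_lit 0) (XT.nd (nat_lit 234) (nat_lit 608) (nat_lit 0) (XT.nd (nat_lit 78) (nat_lit 304) (nat_lit 0) (XT.lf (nat_lit 228) (nat_lit 4004051021) (nat_lit 0) (nat_lit 5705227849) (nat_lit 152) (nat_lit 4493168464) (nat_lit 153) (nat_lit 1) (nat_lit 150) (nat_lit 1) (nat_lit 152) (nat_lit 1) (nat_lit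 299) (nat_lit 389) (nat_lit 332)) (XT.nd (nat_lit 78) (nat_lit 152) (nat_lit 0) (XT.lf (nat_lit 76) (nat_lit 3703382241) (nat_lit 0) (nat_lit 2873472114) (nat_lit 152) (nat_lit 7383622528) (nat_lit 149) (nat_lit 1) (nat_lit 148) (nat_lit 1) (nat_lit 150) (nat_lit 1) (nat_lit 300) (nat_lit 389) (nat_lit 331)) (XT.lf (nat_lit 228) (nat_lit 4181357027) (nat_lit 0) (nat_lit 7432992907) (nat_lit 152) (nat_lit 2108797918) (nat_lit 149) (nat_lit 1) (nat_lit 146) (nat_lit 1) (nat_lit 148) (nat_lit 1) (nat_lit 301) (nat_lit 389) (nat_lit 330)))) (XT.nd (nat_lit 156) (nat_lit 304) (nat_lit 0) (XT.nd (nat_lit 78) (nat_lit 152) (nat_lit 0) (XT.lf (nat_lit 76) (nat_lit 5715615706) (nat_lit 0) (nat_lit 2554417328) (nat_lit 152) (nat_lit 5220225048) (nat_lit 145) (nat_lit 1) (nat_lit 144) (nat_lit 1) (nat_lit 146) (nat_lit 1) (nat_lit 302) (nat_lit 389) (nat_lit 329)) (XT.lf (nat_lit 76) (nat_lit 50080354) (nat_lit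 0) (nat_lit 9058403623) (nat_lit 228) (nat_lit 4153825800) (nat_lit 143) (nat_lit 1) (nat_lit 142) (nat_lit 1) (nat_lit 145) (nat_lit 1) (nat_lit 303) (nat_lit 389) (nat_lit 328))) (XT.nd (nat_lit 78) (nat_lit 152) (nat_lit 0) (XT.lf (nat_lit 76) (nat_lit 7525765904) (nat_lit 0) (nat_lit 2382396595) (nat_lit 152) (nat_lit 3129876712) (nat_lit 141) (nat_lit 1) (nat_lit 140) (nat_lit 1) (nat_lit 142) (nat_lit 1) (nat_lit 304) (nat_lit 389) (nat_lit 327)) (XT.lf (nat_lit 76) (nat_lit 1968037035) (nat_lit 0) (nat_lit 8738510842) (nat_lit 228) (nat_lit 2111898572) (nat_lit 139) (nat_lit 1) (nat_lit 138) (nat_lit 1) (nat_lit 141) (nat_lit 1) (nat_lit 305) (nat_lit 389) (nat_lit 326))))) (XT.nd (nat_lit 234) (nat_lit 608) (nat_lit 0) (XT.nd (nat_lit 78) (nat_lit 456) (nat_lit 0) (XT.lf (nat_lit 76) (nat_lit 9152710967) (nat_lit 0) (nat_lit 2332545559) (nat_lit 152) (nat_lit 1117649705) (nat_lit 137) (nat_lit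 1) (nat_lit 136) (nat_lit 1) (nat_lit 138) (nat_lit 1) (nat_lit 306) (nat_lit 389) (nat_lit 325)) (XT.nd (nat_lit 78) (nat_lit 304) (nat_lit 0) (XT.lf (nat_lit 76) (nat_lit 3704469106) (nat_lit 0) (nat_lit 8538122769) (nat_lit 228) (nat_lit 148689160) (nat_lit 135) (nat_lit 1) (nat_lit 134) (nat_lit 1) (nat_lit 137) (nat_lit 1) (nat_lit 307) (nat_lit 389) (nat_lit 324)) (XT.lf (nat_lit 228) (nat_lit 9792469415) (nat_lit 0) (nat_lit 828882467) (nat_lit 152) (nat_lit 1562422669) (nat_lit 133) (nat_lit 1) (nat_lit 130) (nat_lit 1) (nat_lit 132) (nat_lit 1) (nat_lit 308) (nat_lit 389) (nat_lit 323)))) (XT.nd (nat_lit 156) (nat_lit 304) (nat_lit 0) (XT.nd (nat_lit 78) (nat_lit 228) (nat_lit 0) (XT.lf (nat_lit 152) (nat_lit 3525801343) (nat_lit 0) (nat_lit 1766944801) (nat_lit 76) (nat_lit 6686738565) (nat_lit 131) (nat_lit 1) (nat_lit 129) (nat_lit 1) (nat_lit 130) (nat_lit 1) (nat_lit 309) (nat_lit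 389) (nat_lit 322)) (XT.lf (nat_lit 76) (nat_lit 165957392) (nat_lit 0) (nat_lit 2543859338) (nat_lit 228) (nat_lit 9069929883) (nat_lit 127) (nat_lit 1) (nat_lit 126) (nat_lit 1) (nat_lit 129) (nat_lit 1) (nat_lit 310) (nat_lit 389) (nat_lit 321))) (XT.nd (nat_lit 78) (nat_lit 228) (nat_lit 0) (XT.lf (nat_lit 152) (nat_lit 3131707847) (nat_lit 0) (nat_lit 3599536221) (nat_lit 76) (nat_lit 4851543944) (nat_lit 127) (nat_lit 1) (nat_lit 125) (nat_lit 1) (nat_lit 126) (nat_lit 1) (nat_lit 311) (nat_lit 389) (nat_lit 320)) (XT.lf (nat_lit 76) (nat_lit 1713840488) (nat_lit 0) (nat_lit 2775109144) (nat_lit 228) (nat_lit 6901116061) (nat_lit 123) (nat_lit 1) (nat_lit 122) (nat_lit 1) (nat_lit 125) (nat_lit 1) (nat_lit 312) (nat_lit 389) (nat_lit 319)))))) (XT.nd (nat_lit 546) (nat_lit 912) (nat_lit 0) (XT.nd (nat_lit 234) (nat_lit 456) (nat_lit 0) (XT.nd (nat_lit 78) (nat_lit 304) (nat_lit 0) (XT.lf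 (nat_lit 152) (nat_lit 2687009779) (nat_lit 0) (nat_lit 5344740313) (nat_lit 76) (nat_lit 3168778313) (nat_lit 123) (nat_lit 1) (nat_lit 121) (nat_lit 1) (nat_lit 122) (nat_lit 1) (nat_lit 313) (nat_lit 389) (nat_lit 318)) (XT.nd (nat_lit 78) (nat_lit 76) (nat_lit 0) (XT.lf (nat_lit 76) (nat_lit 3124435961) (nat_lit 0) (nat_lit 3056342424) (nat_lit 228) (nat_lit 4833722426) (nat_lit 119) (nat_lit 1) (nat_lit 118) (nat_lit 1) (nat_lit 121) (nat_lit 1) (nat_lit 314) (nat_lit 389) (nat_lit 317)) (XT.lf (nat_lit 152) (nat_lit 2204248331) (nat_lit 0) (nat_lit 7001958817) (nat_lit 76) (nat_lit 1625840529) (nat_lit 119) (nat_lit 1) (nat_lit 117) (nat_lit 1) (nat_lit 118) (nat_lit 1) (nat_lit 315) (nat_lit 389) (nat_lit 316)))) (XT.nd (nat_lit 156) (nat_lit 228) (nat_lit 0) (XT.nd (nat_lit 78) (nat_lit 76) (nat_lit 0) (XT.lf (nat_lit 76) (nat_lit 4409234908) (nat_lit 0) (nat_lit 3375816085) (nat_lit 152)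 (nat_lit 2867365056) (nat_lit 116) (nat_lit 1) (nat_lit 115) (nat_lit 1) (nat_lit 117) (nat_lit 1) (nat_lit 316) (nat_lit 389) (nat_lit 315)) (XT.lf (nat_lit 152) (nat_lit 1694140187) (nat_lit 0) (nat_lit 8571258028) (nat_lit 76) (nat_lit 211332936) (nat_lit 116) (nat_lit 1) (nat_lit 114) (nat_lit 1) (nat_lit 115) (nat_lit 1) (nat_lit 317) (nat_lit 389) (nat_lit 314))) (XT.nd (nat_lit 78) (nat_lit 76) (nat_lit 0) (XT.lf (nat_lit 76) (nat_lit 5578631876) (nat_lit 0) (nat_lit 3723489904) (nat_lit 152) (nat_lit 1001095087) (nat_lit 113) (nat_lit 1) (nat_lit 112) (nat_lit 1) (nat_lit 114) (nat_lit 1) (nat_lit 318) (nat_lit 389) (nat_lit 313)) (XT.lf (nat_lit 0) (nat_lit 1063894751) (nat_lit 0) (nat_lit 8978623917) (nat_lit 152) (nat_lit 91172085) (nat_lit 111) (nat_lit 3) (nat_lit 111) (nat_lit 1) (nat_lit 113) (nat_lit 1) (nat_lit 319) (nat_lit 389) (nat_lit 312))))) (XT.nd (nat_lit 234) (nat_lit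 456) (nat_lit 0) (XT.nd (nat_lit 78) (nat_lit 228) (nat_lit 0) (XT.lf (nat_lit 152) (nat_lit 5867796651) (nat_lit 0) (nat_lit 781760863) (nat_lit 76) (nat_lit 3316563355) (nat_lit 110) (nat_lit 1) (nat_lit 108) (nat_lit 1) (nat_lit 109) (nat_lit 1) (nat_lit 320) (nat_lit 389) (nat_lit 311)) (XT.nd (nat_lit 78) (nat_lit 152) (nat_lit 0) (XT.lf (nat_lit 76) (nat_lit 588094662) (nat_lit 0) (nat_lit 1656204919) (nat_lit 76) (nat_lit 7557893368) (nat_lit 108) (nat_lit 3) (nat_lit 107) (nat_lit 1) (nat_lit 108) (nat_lit 1) (nat_lit 321) (nat_lit 389) (nat_lit 310)) (XT.lf (nat_lit 152) (nat_lit 5146154742) (nat_lit 0) (nat_lit 2485748942) (nat_lit 76) (nat_lit 2008661142) (nat_lit 107) (nat_lit 1) (nat_lit 105) (nat_lit 1) (nat_lit 106) (nat_lit 1) (nat_lit 322) (nat_lit 389) (nat_lit 309)))) (XT.nd (nat_lit 156) (nat_lit 228) (nat_lit 0) (XT.nd (nat_lit 78) (nat_lit 152) (nat_lit 0) (XT.lf (nat_lit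 76) (nat_lit 18200104) (nat_lit 0) (nat_lit 3308185931) (nat_lit 76) (nat_lit 6155882517) (nat_lit 105) (nat_lit 3) (nat_lit 104) (nat_lit 1) (nat_lit 105) (nat_lit 1) (nat_lit 323) (nat_lit 389) (nat_lit 308)) (XT.lf (nat_lit 152) (nat_lit 4430528625) (nat_lit 0) (nat_lit 4093107688) (nat_lit 76) (nat_lit 802714730) (nat_lit 104) (nat_lit 1) (nat_lit 102) (nat_lit 1) (nat_lit 103) (nat_lit 1) (nat_lit 324) (nat_lit 389) (nat_lit 307))) (XT.nd (nat_lit 78) (nat_lit 76) (nat_lit 0) (XT.lf (nat_lit 76) (nat_lit 4322142003) (nat_lit 0) (nat_lit 537618244) (nat_lit 152) (nat_lit 4313546496) (nat_lit 101) (nat_lit 1) (nat_lit 100) (nat_lit 1) (nat_lit 102) (nat_lit 1) (nat_lit 325) (nat_lit 389) (nat_lit 306)) (XT.lf (nat_lit 0) (nat_lit 302796516) (nat_lit 0) (nat_lit 5300403111) (nat_lit 152) (nat_lit 3419727160) (nat_lit 99) (nat_lit 3) (nat_lit 99) (nat_lit 1) (nat_lit 101) (nat_lit 1) (nat_lit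 326) (nat_lit 389) (nat_lit 305))))))))
noncomputable def ec106 : XT := (XT.nd (nat_lit 2184) (nat_lit 3572) (nat_lit 0) (XT.nd (nat_lit 1092) (nat_lit 1748) (nat_lit 0) (XT.nd (nat_lit 546) (nat_lit 836) (nat_lit 0) (XT.nd (nat_lit 234) (nat_lit 532) (nat_lit 0) (XT.nd (nat_lit 78) (nat_lit 228) (nat_lit 0) (XT.lf (nat_lit 76) (nat_lit 5233335660) (nat_lit 0) (nat_lit 1085388713) (nat_lit 152) (nat_lit 2556286239) (nat_lit 98) (nat_lit 1) (nat_lit 97) (nat_lit 1) (nat_lit 99) (nat_lit 1) (nat_lit 327) (nat_lit 389) (nat_lit 304)) (XT.nd (nat_lit 78) (nat_lit 152) (nat_lit 0) (XT.lf (nat_lit 0) (nat_lit 1306838250) (nat_lit 0) (nat_lit 5707786312) (nat_lit 152) (nat_lit 1715112700) (nat_lit 96) (nat_lit 3) (nat_lit 96) (nat_lit 1) (nat_lit 98) (nat_lit 1) (nat_lit 328) (nat_lit 389) (nat_lit 303)) (XT.lf (nat_lit 76) (nat_lit 6066093504) (nat_lit 0) (nat_lit 1621857286) (nat_lit 152) (nat_lit 899008814)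 (nat_lit 95) (nat_lit 1) (nat_lit 94) (nat_lit 1) (nat_lit 96) (nat_lit 1) (nat_lit 329) (nat_lit 389) (nat_lit 302)))) (XT.nd (nat_lit 156) (nat_lit 228) (nat_lit 0) (XT.nd (nat_lit 78) (nat_lit 228) (nat_lit 0) (XT.lf (nat_lit 0) (nat_lit 2231261585) (nat_lit 0) (nat_lit 6106785493) (nat_lit 152) (nat_lit 108551394) (nat_lit 93) (nat_lit 3) (nat_lit 93) (nat_lit 1) (nat_lit 95) (nat_lit 1) (nat_lit 330) (nat_lit 389) (nat_lit 301)) (XT.lf (nat_lit 152) (nat_lit 6157986878) (nat_lit 0) (nat_lit 674680759) (nat_lit 76) (nat_lit 1475888653) (nat_lit 92) (nat_lit 1) (nat_lit 90) (nat_lit 1) (nat_lit 91) (nat_lit 1) (nat_lit 331) (nat_lit 389) (nat_lit 300))) (XT.nd (nat_lit 78) (nat_lit 152) (nat_lit 0) (XT.lf (nat_lit 76) (nat_lit 1664380492) (nat_lit 0) (nat_lit 1431113885) (nat_lit 76) (nat_lit 5077210034) (nat_lit 90) (nat_lit 3) (nat_lit 89) (nat_lit 1) (nat_lit 90) (nat_lit 1) (nat_lit 332)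 (nat_lit 389) (nat_lit 299)) (XT.lf (nat_lit 152) (nat_lit 5368800929) (nat_lit 0) (nat_lit 2170954709) (nat_lit 76) (nat_lit 499620935) (nat_lit 89) (nat_lit 1) (nat_lit 87) (nat_lit 1) (nat_lit 88) (nat_lit 1) (nat_lit 333) (nat_lit 389) (nat_lit 298))))) (XT.nd (nat_lit 234) (nat_lit 532) (nat_lit 0) (XT.nd (nat_lit 78) (nat_lit 228) (nat_lit 0) (XT.lf (nat_lit 76) (nat_lit 1011561218) (nat_lit 0) (nat_lit 2879591755) (nat_lit 76) (nat_lit 4016936946) (nat_lit 87) (nat_lit 3) (nat_lit 86) (nat_lit 1) (nat_lit 87) (nat_lit 1) (nat_lit 334) (nat_lit 389) (nat_lit 297)) (XT.nd (nat_lit 78) (nat_lit 76) (nat_lit 0) (XT.lf (nat_lit 0) (nat_lit 396220948) (nat_lit 0) (nat_lit 3175116674) (nat_lit 152) (nat_lit 4207867505) (nat_lit 84) (nat_lit 3) (nat_lit 84) (nat_lit 1) (nat_lit 86) (nat_lit 1) (nat_lit 335) (nat_lit 389) (nat_lit 296)) (XT.lf (nat_lit 76) (nat_lit 383872034) (nat_lit 0) (nat_lit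 4238120551) (nat_lit 76) (nat_lit 3030439392) (nat_lit 84) (nat_lit 3) (nat_lit 83) (nat_lit 1) (nat_lit 84) (nat_lit 1) (nat_lit 336) (nat_lit 389) (nat_lit 295)))) (XT.nd (nat_lit 156) (nat_lit 228) (nat_lit 0) (XT.nd (nat_lit 78) (nat_lit 152) (nat_lit 0) (XT.lf (nat_lit 0) (nat_lit 1215932702) (nat_lit 0) (nat_lit 3663059247) (nat_lit 152) (nat_lit 2648696822) (nat_lit 81) (nat_lit 3) (nat_lit 81) (nat_lit 1) (nat_lit 83) (nat_lit 1) (nat_lit 337) (nat_lit 389) (nat_lit 294)) (XT.lf (nat_lit 76) (nat_lit 5294546172) (nat_lit 0) (nat_lit 213410206) (nat_lit 152) (nat_lit 1897373989) (nat_lit 80) (nat_lit 1) (nat_lit 79) (nat_lit 1) (nat_lit 81) (nat_lit 1) (nat_lit 338) (nat_lit 389) (nat_lit 293))) (XT.nd (nat_lit 78) (nat_lit 152) (nat_lit 0) (XT.lf (nat_lit 0) (nat_lit 1973644485) (nat_lit 0) (nat_lit 4128611392) (nat_lit 152) (nat_lit 1182386004) (nat_lit 78) (nat_lit 3) (nat_lit 78) (nat_lit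 1) (nat_lit 80) (nat_lit 1) (nat_lit 339) (nat_lit 389) (nat_lit 292)) (XT.lf (nat_lit 76) (nat_lit 5914251207) (nat_lit 0) (nat_lit 776870835) (nat_lit 152) (nat_lit 475301638) (nat_lit 77) (nat_lit 1) (nat_lit 76) (nat_lit 1) (nat_lit 78) (nat_lit 1) (nat_lit 340) (nat_lit 389) (nat_lit 291)))))) (XT.nd (nat_lit 546) (nat_lit 912) (nat_lit 0) (XT.nd (nat_lit 234) (nat_lit 456) (nat_lit 0) (XT.nd (nat_lit 78) (nat_lit 228) (nat_lit 0) (XT.lf (nat_lit 76) (nat_lit 2476688210) (nat_lit 0) (nat_lit 198628832) (nat_lit 76) (nat_lit 4374376083) (nat_lit 75) (nat_lit 3) (nat_lit 74) (nat_lit 1) (nat_lit 75) (nat_lit 1) (nat_lit 341) (nat_lit 389) (nat_lit 290)) (XT.nd (nat_lit 78) (nat_lit 76) (nat_lit 0) (XT.lf (nat_lit 152) (nat_lit 5613241526) (nat_lit 0) (nat_lit 876383602) (nat_lit 76) (nat_lit 445638755) (nat_lit 74) (nat_lit 1) (nat_lit 72) (nat_lit 1) (nat_lit 73) (nat_lit 1) (nat_lit 342) (nat_lit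 389) (nat_lit 289)) (XT.lf (nat_lit 76) (nat_lit 1817605802) (nat_lit 0) (nat_lit 1515941016) (nat_lit 76) (nat_lit 3488730891) (nat_lit 72) (nat_lit 3) (nat_lit 71) (nat_lit 1) (nat_lit 72) (nat_lit 1) (nat_lit 343) (nat_lit 389) (nat_lit 288)))) (XT.nd (nat_lit 156) (nat_lit 228) (nat_lit 0) (XT.nd (nat_lit 78) (nat_lit 76) (nat_lit 0) (XT.lf (nat_lit 0) (nat_lit 301879918) (nat_lit 0) (nat_lit 1847071864) (nat_lit 152) (nat_lit 4562656008) (nat_lit 69) (nat_lit 3) (nat_lit 69) (nat_lit 1) (nat_lit 71) (nat_lit 1) (nat_lit 344) (nat_lit 389) (nat_lit 287)) (XT.lf (nat_lit 76) (nat_lit 1190587931) (nat_lit 0) (nat_lit 2749669233) (nat_lit 76) (nat_lit 2662199308) (nat_lit 69) (nat_lit 3) (nat_lit 68) (nat_lit 1) (nat_lit 69) (nat_lit 1) (nat_lit 345) (nat_lit 389) (nat_lit 286))) (XT.nd (nat_lit 78) (nat_lit 76) (nat_lit 0) (XT.lf (nat_lit 0) (nat_lit 987517807) (nat_lit 0) (nat_lit 2348231054)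 (nat_lit 152) (nat_lit 3159542291) (nat_lit 66) (nat_lit 3) (nat_lit 66) (nat_lit 1) (nat_lit 68) (nat_lit 1) (nat_lit 346) (nat_lit 389) (nat_lit 285)) (XT.lf (nat_lit 76) (nat_lit 595322942) (nat_lit 0) (nat_lit 3903391978) (nat_lit 76) (nat_lit 1891240320) (nat_lit 66) (nat_lit 3) (nat_lit 65) (nat_lit 1) (nat_lit 66) (nat_lit 1) (nat_lit 347) (nat_lit 389) (nat_lit 284))))) (XT.nd (nat_lit 234) (nat_lit 532) (nat_lit 0) (XT.nd (nat_lit 78) (nat_lit 228) (nat_lit 0) (XT.lf (nat_lit 0) (nat_lit 1623224408) (nat_lit 0) (nat_lit 2821483657) (nat_lit 152) (nat_lit 1841465773) (nat_lit 63) (nat_lit 3) (nat_lit 63) (nat_lit 1) (nat_lit 65) (nat_lit 1) (nat_lit 348) (nat_lit 389) (nat_lit 283)) (XT.nd (nat_lit 78) (nat_lit 152) (nat_lit 0) (XT.lf (nat_lit 76) (nat_lit 31352514) (nat_lit 0) (nat_lit 4980607457) (nat_lit 76) (nat_lit 1172551799) (nat_lit 63) (nat_lit 3) (nat_lit 62) (nat_lit 1) (nat_lit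 63) (nat_lit 1) (nat_lit 349) (nat_lit 389) (nat_lit 282)) (XT.lf (nat_lit 0) (nat_lit 2212033287) (nat_lit 0) (nat_lit 3267233736) (nat_lit 152) (nat_lit 604731755) (nat_lit 60) (nat_lit 3) (nat_lit 60) (nat_lit 1) (nat_lit 62) (nat_lit 1) (nat_lit 350) (nat_lit 389) (nat_lit 281)))) (XT.nd (nat_lit 156) (nat_lit 228) (nat_lit 0) (XT.nd (nat_lit 78) (nat_lit 152) (nat_lit 0) (XT.lf (nat_lit 76) (nat_lit 5487649216) (nat_lit 0) (nat_lit 492108469) (nat_lit 152) (nat_lit 5972616) (nat_lit 59) (nat_lit 1) (nat_lit 58) (nat_lit 1) (nat_lit 60) (nat_lit 1) (nat_lit 351) (nat_lit 389) (nat_lit 280)) (XT.lf (nat_lit 76) (nat_lit 2196925139) (nat_lit 0) (nat_lit 565285220) (nat_lit 76) (nat_lit 3126146414) (nat_lit 57) (nat_lit 3) (nat_lit 56) (nat_lit 1) (nat_lit 57) (nat_lit 1) (nat_lit 352) (nat_lit 389) (nat_lit 279))) (XT.nd (nat_lit 78) (nat_lit 76) (nat_lit 0) (XT.lf (nat_lit 0) (nat_lit 138604992)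 (nat_lit 0) (nat_lit 997801732) (nat_lit 152) (nat_lit 4656739091) (nat_lit 54) (nat_lit 3) (nat_lit 54) (nat_lit 1) (nat_lit 56) (nat_lit 1) (nat_lit 353) (nat_lit 389) (nat_lit 278)) (XT.lf (nat_lit 76) (nat_lit 1604566715) (nat_lit 0) (nat_lit 1671602838) (nat_lit 76) (nat_lit 2422849325) (nat_lit 54) (nat_lit 3) (nat_lit 53) (nat_lit 1) (nat_lit 54) (nat_lit 1) (nat_lit 354) (nat_lit 389) (nat_lit 277))))))) (XT.nd (nat_lit 1092) (nat_lit 1824) (nat_lit 0) (XT.nd (nat_lit 546) (nat_lit 912) (nat_lit 0) (XT.nd (nat_lit 234) (nat_lit 456) (nat_lit 0) (XT.nd (nat_lit 78) (nat_lit 228) (nat_lit 0) (XT.lf (nat_lit 0) (nat_lit 721872165) (nat_lit 0) (nat_lit 1478490389) (nat_lit 152) (nat_lit 3406431732) (nat_lit 51) (nat_lit 3) (nat_lit 51) (nat_lit 1) (nat_lit 53) (nat_lit 1) (nat_lit 355) (nat_lit 389) (nat_lit 276)) (XT.nd (nat_lit 78) (nat_lit 152) (nat_lit 0) (XT.lf (nat_lit 76) (nat_lit 1044854626)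 (nat_lit 0) (nat_lit 2705637646) (nat_lit 76) (nat_lit 1765443411) (nat_lit 51) (nat_lit 3) (nat_lit 50) (nat_lit 1) (nat_lit 51) (nat_lit 1) (nat_lit 356) (nat_lit 389) (nat_lit 275)) (XT.lf (nat_lit 0) (nat_lit 1263900550) (nat_lit 0) (nat_lit 1930186990) (nat_lit 152) (nat_lit 2232510444) (nat_lit 48) (nat_lit 3) (nat_lit 48) (nat_lit 1) (nat_lit 50) (nat_lit 1) (nat_lit 357) (nat_lit 389) (nat_lit 274)))) (XT.nd (nat_lit 156) (nat_lit 228) (nat_lit 0) (XT.nd (nat_lit 78) (nat_lit 152) (nat_lit 0) (XT.lf (nat_lit 76) (nat_lit 516799630) (nat_lit 0) (nat_lit 3670731298) (nat_lit 76) (nat_lit 1151358145) (nat_lit 48) (nat_lit 3) (nat_lit 47) (nat_lit 1) (nat_lit 48) (nat_lit 1) (nat_lit 358) (nat_lit 389) (nat_lit 273)) (XT.lf (nat_lit 0) (nat_lit 1767055829) (nat_lit 0) (nat_lit 2353795094) (nat_lit 152) (nat_lit 1131491772) (nat_lit 45) (nat_lit 3) (nat_lit 45) (nat_lit 1) (nat_lit 47) (nat_lit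 1) (nat_lit 359) (nat_lit 389) (nat_lit 272))) (XT.nd (nat_lit 78) (nat_lit 152) (nat_lit 0) (XT.lf (nat_lit 76) (nat_lit 19377987) (nat_lit 0) (nat_lit 4570114327) (nat_lit 76) (nat_lit 578177286) (nat_lit 45) (nat_lit 3) (nat_lit 44) (nat_lit 1) (nat_lit 45) (nat_lit 1) (nat_lit 360) (nat_lit 389) (nat_lit 271)) (XT.lf (nat_lit 0) (nat_lit 2233561048) (nat_lit 0) (nat_lit 2750250183) (nat_lit 152) (nat_lit 100011424) (nat_lit 42) (nat_lit 3) (nat_lit 42) (nat_lit 1) (nat_lit 44) (nat_lit 1) (nat_lit 361) (nat_lit 389) (nat_lit 270))))) (XT.nd (nat_lit 234) (nat_lit 456) (nat_lit 0) (XT.nd (nat_lit 78) (nat_lit 228) (nat_lit 0) (XT.lf (nat_lit 152) (nat_lit 4558195845) (nat_lit 0) (nat_lit 408490219) (nat_lit 76) (nat_lit 35142839) (nat_lit 41) (nat_lit 1) (nat_lit 39) (nat_lit 1) (nat_lit 40) (nat_lit 1) (nat_lit 362) (nat_lit 389) (nat_lit 269)) (XT.nd (nat_lit 78) (nat_lit 152) (nat_lit 0)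 (XT.lf (nat_lit 76) (nat_lit 1791594209) (nat_lit 0) (nat_lit 882395021) (nat_lit 76) (nat_lit 2246596419) (nat_lit 39) (nat_lit 3) (nat_lit 38) (nat_lit 1) (nat_lit 39) (nat_lit 1) (nat_lit 363) (nat_lit 389) (nat_lit 268)) (XT.lf (nat_lit 0) (nat_lit 467387414) (nat_lit 0) (nat_lit 888101432) (nat_lit 152) (nat_lit 3485640333) (nat_lit 36) (nat_lit 3) (nat_lit 36) (nat_lit 1) (nat_lit 38) (nat_lit 1) (nat_lit 364) (nat_lit 389) (nat_lit 267)))) (XT.nd (nat_lit 156) (nat_lit 228) (nat_lit 0) (XT.nd (nat_lit 78) (nat_lit 152) (nat_lit 0) (XT.lf (nat_lit 76) (nat_lit 1279817363) (nat_lit 0) (nat_lit 1802370424) (nat_lit 76) (nat_lit 1680497380) (nat_lit 36) (nat_lit 3) (nat_lit 35) (nat_lit 1) (nat_lit 36) (nat_lit 1) (nat_lit 365) (nat_lit 389) (nat_lit 266)) (XT.lf (nat_lit 0) (nat_lit 934554993) (nat_lit 0) (nat_lit 1305040446) (nat_lit 152) (nat_lit 2446106554) (nat_lit 33) (nat_lit 3) (nat_lit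 33) (nat_lit 1) (nat_lit 35) (nat_lit 1) (nat_lit 366) (nat_lit 389) (nat_lit 265))) (XT.nd (nat_lit 78) (nat_lit 152) (nat_lit 0) (XT.lf (nat_lit 76) (nat_lit 798063478) (nat_lit 0) (nat_lit 2660996596) (nat_lit 76) (nat_lit 1150906766) (nat_lit 33) (nat_lit 3) (nat_lit 32) (nat_lit 1) (nat_lit 33) (nat_lit 1) (nat_lit 367) (nat_lit 389) (nat_lit 264)) (XT.lf (nat_lit 0) (nat_lit 1368951329) (nat_lit 0) (nat_lit 1695204947) (nat_lit 152) (nat_lit 1471220467) (nat_lit 30) (nat_lit 3) (nat_lit 30) (nat_lit 1) (nat_lit 32) (nat_lit 1) (nat_lit 368) (nat_lit 389) (nat_lit 263)))))) (XT.nd (nat_lit 546) (nat_lit 912) (nat_lit 0) (XT.nd (nat_lit 234) (nat_lit 532) (nat_lit 0) (XT.nd (nat_lit 78) (nat_lit 304) (nat_lit 0) (XT.lf (nat_lit 76) (nat_lit 345153315) (nat_lit 0) (nat_lit 3461229438) (nat_lit 76) (nat_lit 655871047) (nat_lit 30) (nat_lit 3) (nat_lit 29) (nat_lit 1) (nat_lit 30) (nat_lit 1)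 (nat_lit 369) (nat_lit 389) (nat_lit 262)) (XT.nd (nat_lit 78) (nat_lit 152) (nat_lit 0) (XT.lf (nat_lit 0) (nat_lit 1772376226) (nat_lit 0) (nat_lit 2059678798) (nat_lit 152) (nat_lit 557924449) (nat_lit 27) (nat_lit 3) (nat_lit 27) (nat_lit 1) (nat_lit 29) (nat_lit 1) (nat_lit 370) (nat_lit 389) (nat_lit 261)) (XT.lf (nat_lit 76) (nat_lit 4126602274) (nat_lit 0) (nat_lit 78515609) (nat_lit 152) (nat_lit 114234809) (nat_lit 26) (nat_lit 1) (nat_lit 25) (nat_lit 1) (nat_lit 27) (nat_lit 1) (nat_lit 371) (nat_lit 389) (nat_lit 260)))) (XT.nd (nat_lit 156) (nat_lit 228) (nat_lit 0) (XT.nd (nat_lit 78) (nat_lit 152) (nat_lit 0) (XT.lf (nat_lit 76) (nat_lit 1846813960) (nat_lit 0) (nat_lit 302625647) (nat_lit 76) (nat_lit 2099815807) (nat_lit 24) (nat_lit 3) (nat_lit 23) (nat_lit 1) (nat_lit 24) (nat_lit 1) (nat_lit 372) (nat_lit 389) (nat_lit 259)) (XT.lf (nat_lit 0) (nat_lit 244880405) (nat_lit 0)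 (nat_lit 478816463) (nat_lit 152) (nat_lit 3457052450) (nat_lit 21) (nat_lit 3) (nat_lit 21) (nat_lit 1) (nat_lit 23) (nat_lit 1) (nat_lit 373) (nat_lit 389) (nat_lit 258))) (XT.nd (nat_lit 78) (nat_lit 152) (nat_lit 0) (XT.lf (nat_lit 76) (nat_lit 1386423251) (nat_lit 0) (nat_lit 1117340083) (nat_lit 76) (nat_lit 1609219497) (nat_lit 21) (nat_lit 3) (nat_lit 20) (nat_lit 1) (nat_lit 21) (nat_lit 1) (nat_lit 374) (nat_lit 389) (nat_lit 257)) (XT.lf (nat_lit 0) (nat_lit 650360204) (nat_lit 0) (nat_lit 856366904) (nat_lit 152) (nat_lit 2539874446) (nat_lit 18) (nat_lit 3) (nat_lit 18) (nat_lit 1) (nat_lit 20) (nat_lit 1) (nat_lit 375) (nat_lit 389) (nat_lit 256))))) (XT.nd (nat_lit 234) (nat_lit 608) (nat_lit 0) (XT.nd (nat_lit 78) (nat_lit 228) (nat_lit 0) (XT.lf (nat_lit 76) (nat_lit 953546908) (nat_lit 0) (nat_lit 1877878912) (nat_lit 76) (nat_lit 1149743765) (nat_lit 18) (nat_lit 3) (nat_lit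 17) (nat_lit 1) (nat_lit 18) (nat_lit 1) (nat_lit 376) (nat_lit 389) (nat_lit 255)) (XT.nd (nat_lit 78) (nat_lit 76) (nat_lit 0) (XT.lf (nat_lit 0) (nat_lit 1027891997) (nat_lit 0) (nat_lit 1209303793) (nat_lit 152) (nat_lit 1679649353) (nat_lit 15) (nat_lit 3) (nat_lit 15) (nat_lit 1) (nat_lit 17) (nat_lit 1) (nat_lit 377) (nat_lit 389) (nat_lit 254)) (XT.lf (nat_lit 76) (nat_lit 546999022) (nat_lit 0) (nat_lit 2586893932) (nat_lit 76) (nat_lit 719772160) (nat_lit 15) (nat_lit 3) (nat_lit 14) (nat_lit 1) (nat_lit 15) (nat_lit 1) (nat_lit 378) (nat_lit 389) (nat_lit 253)))) (XT.nd (nat_lit 156) (nat_lit 380) (nat_lit 0) (XT.nd (nat_lit 78) (nat_lit 76) (nat_lit 0) (XT.lf (nat_lit 0) (nat_lit 1378966666) (nat_lit 0) (nat_lit 1538719915) (nat_lit 152) (nat_lit 873645296) (nat_lit 12) (nat_lit 3) (nat_lit 12) (nat_lit 1) (nat_lit 14) (nat_lit 1) (nat_lit 379) (nat_lit 389) (nat_lit 252)) (XT.lf (nat_lit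 76) (nat_lit 165625100) (nat_lit 0) (nat_lit 3246928128) (nat_lit 76) (nat_lit 317771051) (nat_lit 12) (nat_lit 3) (nat_lit 11) (nat_lit 1) (nat_lit 12) (nat_lit 1) (nat_lit 380) (nat_lit 389) (nat_lit 251))) (XT.nd (nat_lit 78) (nat_lit 228) (nat_lit 0) (XT.lf (nat_lit 0) (nat_lit 1704998017) (nat_lit 0) (nat_lit 1845678508) (nat_lit 152) (nat_lit 119242347) (nat_lit 9) (nat_lit 3) (nat_lit 9) (nat_lit 1) (nat_lit 11) (nat_lit 1) (nat_lit 381) (nat_lit 389) (nat_lit 250)) (XT.lf (nat_lit 0) (nat_lit 60901101) (nat_lit 0) (nat_lit 190980149) (nat_lit 152) (nat_lit 3358979884) (nat_lit 6) (nat_lit 3) (nat_lit 6) (nat_lit 1) (nat_lit 8) (nat_lit 1) (nat_lit 382) (nat_lit 389) (nat_lit 249))))))))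
noncomputable def ec107 : XT := (XT.nd (nat_lit 44382) (nat_lit 0) (nat_lit 11096) (XT.nd (nat_lit 43290) (nat_lit 0) (nat_lit 18012) (XT.nd (nat_lit 42744) (nat_lit 0) (nat_lit 24320) (XT.nd (nat_lit 42432) (nat_lit 0) (nat_lit 27436) (XT.nd (nat_lit 78) (nat_lit 228) (nat_lit 0) (XT.lf (nat_lit 76) (nat_lit 1415338109) (nat_lit 0) (nat_lit 597734948) (nat_lit 76) (nat_lit 1539222918) (nat_lit 6) (nat_lit 3) (nat_lit 5) (nat_lit 1) (nat_lit 6) (nat_lit 1) (nat_lit 383) (nat_lit 389) (nat_lit 248)) (XT.nd (nat_lit 78) (nat_lit 76) (nat_lit 0) (XT.lf (nat_lit 0) (nat_lit 414411333) (nat_lit 0) (nat_lit 528960393) (nat_lit 152) (nat_lit 2551660174) (nat_lit 3) (nat_lit 3) (nat_lit 3) (nat_lit 1) (nat_lit 5) (nat_lit 1) (nat_lit 384) (nat_lit 389) (nat_lit 247)) (XT.lf (nat_lit 76) (nat_lit 1029956855) (nat_lit 0) (nat_lit 1269473282) (nat_lit 76) (nat_lit 1139051198) (nat_lit 3) (nat_lit 3) (nat_lit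 2) (nat_lit 1) (nat_lit 3) (nat_lit 1) (nat_lit 385) (nat_lit 389) (nat_lit 246)))) (XT.nd (nat_lit 156) (nat_lit 1216) (nat_lit 0) (XT.nd (nat_lit 78) (nat_lit 0) (nat_lit 0) (XT.lf (nat_lit 1292) (nat_lit 635615299) (nat_lit 0) (nat_lit 35237947909) (nat_lit 1216) (nat_lit 4471698717) (nat_lit 396) (nat_lit 1) (nat_lit 379) (nat_lit 1) (nat_lit 395) (nat_lit 1) (nat_lit 246) (nat_lit 390) (nat_lit 384)) (XT.lf (nat_lit 1292) (nat_lit 1506546533) (nat_lit 76) (nat_lit 29890501757) (nat_lit 0) (nat_lit 8025370644) (nat_lit 396) (nat_lit 1) (nat_lit 380) (nat_lit 1) (nat_lit 379) (nat_lit 1) (nat_lit 247) (nat_lit 390) (nat_lit 383))) (XT.nd (nat_lit 78) (nat_lit 0) (nat_lit 76) (XT.lf (nat_lit 1368) (nat_lit 22018160506) (nat_lit 0) (nat_lit 2379932874) (nat_lit 1292) (nat_lit 14130032081) (nat_lit 381) (nat_lit 1) (nat_lit 363) (nat_lit 1) (nat_lit 380) (nat_lit 1) (nat_lit 248) (nat_lit 390)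 (nat_lit 382)) (XT.lf (nat_lit 1368) (nat_lit 12851880944) (nat_lit 0) (nat_lit 6530255456) (nat_lit 1292) (nat_lit 18279559866) (nat_lit 382) (nat_lit 1) (nat_lit 364) (nat_lit 1) (nat_lit 381) (nat_lit 1) (nat_lit 249) (nat_lit 390) (nat_lit 381))))) (XT.nd (nat_lit 234) (nat_lit 1824) (nat_lit 0) (XT.nd (nat_lit 78) (nat_lit 1444) (nat_lit 0) (XT.lf (nat_lit 76) (nat_lit 3883906601) (nat_lit 0) (nat_lit 10948360875) (nat_lit 1292) (nat_lit 21990295611) (nat_lit 366) (nat_lit 1) (nat_lit 365) (nat_lit 1) (nat_lit 382) (nat_lit 1) (nat_lit 250) (nat_lit 390) (nat_lit 380)) (XT.nd (nat_lit 78) (nat_lit 608) (nat_lit 0) (XT.lf (nat_lit 912) (nat_lit 20350131980) (nat_lit 0) (nat_lit 10675036081) (nat_lit 836) (nat_lit 4983157182) (nat_lit 366) (nat_lit 1) (nat_lit 354) (nat_lit 1) (nat_lit 365) (nat_lit 1) (nat_lit 251) (nat_lit 390) (nat_lit 379)) (XT.lf (nat_lit 684) (nat_lit 14592953110) (nat_lit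 0) (nat_lit 6899558997) (nat_lit 608) (nat_lit 13725897274) (nat_lit 355) (nat_lit 1) (nat_lit 346) (nat_lit 1) (nat_lit 354) (nat_lit 1) (nat_lit 252) (nat_lit 390) (nat_lit 378)))) (XT.nd (nat_lit 156) (nat_lit 684) (nat_lit 0) (XT.nd (nat_lit 78) (nat_lit 532) (nat_lit 0) (XT.lf (nat_lit 684) (nat_lit 8662174854) (nat_lit 0) (nat_lit 3523114848) (nat_lit 608) (nat_lit 22267777572) (nat_lit 347) (nat_lit 1) (nat_lit 338) (nat_lit 1) (nat_lit 346) (nat_lit 1) (nat_lit 253) (nat_lit 390) (nat_lit 377)) (XT.lf (nat_lit 608) (nat_lit 2576842361) (nat_lit 0) (nat_lit 524775834) (nat_lit 532) (nat_lit 30609824487) (nat_lit 339) (nat_lit 1) (nat_lit 331) (nat_lit 1) (nat_lit 338) (nat_lit 1) (nat_lit 254) (nat_lit 390) (nat_lit 376))) (XT.nd (nat_lit 78) (nat_lit 608) (nat_lit 0) (XT.lf (nat_lit 76) (nat_lit 27171709261) (nat_lit 0) (nat_lit 3651416724) (nat_lit 608) (nat_lit 2166213964) (nat_lit 331)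 (nat_lit 1) (nat_lit 330) (nat_lit 1) (nat_lit 338) (nat_lit 1) (nat_lit 255) (nat_lit 390) (nat_lit 375)) (XT.lf (nat_lit 76) (nat_lit 17741408559) (nat_lit 0) (nat_lit 9977309808) (nat_lit 684) (nat_lit 4568933772) (nat_lit 323) (nat_lit 1) (nat_lit 322) (nat_lit 1) (nat_lit 331) (nat_lit 1) (nat_lit 256) (nat_lit 390) (nat_lit 374)))))) (XT.nd (nat_lit 546) (nat_lit 2812) (nat_lit 0) (XT.nd (nat_lit 234) (nat_lit 1976) (nat_lit 0) (XT.nd (nat_lit 78) (nat_lit 988) (nat_lit 0) (XT.lf (nat_lit 76) (nat_lit 8551440838) (nat_lit 0) (nat_lit 16400173791) (nat_lit 608) (nat_lit 6655817287) (nat_lit 316) (nat_lit 1) (nat_lit 315) (nat_lit 1) (nat_lit 323) (nat_lit 1) (nat_lit 257) (nat_lit 390) (nat_lit 373)) (XT.nd (nat_lit 78) (nat_lit 456) (nat_lit 0) (XT.lf (nat_lit 608) (nat_lit 8038102760) (nat_lit 0) (nat_lit 22500168011) (nat_lit 532) (nat_lit 409556247) (nat_lit 316) (nat_lit 1) (nat_lit 308)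 (nat_lit 1) (nat_lit 315) (nat_lit 1) (nat_lit 258) (nat_lit 390) (nat_lit 372)) (XT.lf (nat_lit 532) (nat_lit 735532084) (nat_lit 0) (nat_lit 20267652949) (nat_lit 456) (nat_lit 9302617611) (nat_lit 309) (nat_lit 1) (nat_lit 302) (nat_lit 1) (nat_lit 308) (nat_lit 1) (nat_lit 259) (nat_lit 390) (nat_lit 371)))) (XT.nd (nat_lit 156) (nat_lit 912) (nat_lit 0) (XT.nd (nat_lit 78) (nat_lit 456) (nat_lit 0) (XT.lf (nat_lit 76) (nat_lit 11785453353) (nat_lit 0) (nat_lit 6473547339) (nat_lit 608) (nat_lit 11422288324) (nat_lit 295) (nat_lit 1) (nat_lit 294) (nat_lit 1) (nat_lit 302) (nat_lit 1) (nat_lit 260) (nat_lit 390) (nat_lit 370)) (XT.lf (nat_lit 76) (nat_lit 2824519098) (nat_lit 0) (nat_lit 13692221524) (nat_lit 532) (nat_lit 12558574890) (nat_lit 289) (nat_lit 1) (nat_lit 288) (nat_lit 1) (nat_lit 295) (nat_lit 1) (nat_lit 261) (nat_lit 390) (nat_lit 369))) (XT.nd (nat_lit 78) (nat_lit 456) (nat_lit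 0) (XT.lf (nat_lit 532) (nat_lit 7503102770) (nat_lit 0) (nat_lit 14974151811) (nat_lit 456) (nat_lit 6008478866) (nat_lit 289) (nat_lit 1) (nat_lit 282) (nat_lit 1) (nat_lit 288) (nat_lit 1) (nat_lit 262) (nat_lit 390) (nat_lit 368)) (XT.lf (nat_lit 76) (nat_lit 13264366333) (nat_lit 0) (nat_lit 382552714) (nat_lit 456) (nat_lit 14265879171) (nat_lit 277) (nat_lit 1) (nat_lit 276) (nat_lit 1) (nat_lit 282) (nat_lit 1) (nat_lit 263) (nat_lit 390) (nat_lit 367))))) (XT.nd (nat_lit 234) (nat_lit 1596) (nat_lit 0) (XT.nd (nat_lit 78) (nat_lit 760) (nat_lit 0) (XT.lf (nat_lit 76) (nat_lit 4381089389) (nat_lit 0) (nat_lit 8099018301) (nat_lit 532) (nat_lit 14874604491) (nat_lit 271) (nat_lit 1) (nat_lit 270) (nat_lit 1) (nat_lit 277) (nat_lit 1) (nat_lit 264) (nat_lit 390) (nat_lit 366)) (XT.nd (nat_lit 78) (nat_lit 380) (nat_lit 0) (XT.lf (nat_lit 456) (nat_lit 10984697810) (nat_lit 0) (nat_lit 11492506425)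 (nat_lit 380) (nat_lit 4334624500) (nat_lit 271) (nat_lit 1) (nat_lit 265) (nat_lit 1) (nat_lit 270) (nat_lit 1) (nat_lit 265) (nat_lit 390) (nat_lit 365)) (XT.lf (nat_lit 456) (nat_lit 2724574965) (nat_lit 0) (nat_lit 10673275689) (nat_lit 380) (nat_lit 12885791362) (nat_lit 266) (nat_lit 1) (nat_lit 260) (nat_lit 1) (nat_lit 265) (nat_lit 1) (nat_lit 266) (nat_lit 390) (nat_lit 364)))) (XT.nd (nat_lit 156) (nat_lit 760) (nat_lit 0) (XT.nd (nat_lit 78) (nat_lit 380) (nat_lit 0) (XT.lf (nat_lit 76) (nat_lit 4632927715) (nat_lit 0) (nat_lit 5368008054) (nat_lit 456) (nat_lit 15768404105) (nat_lit 255) (nat_lit 1) (nat_lit 254) (nat_lit 1) (nat_lit 260) (nat_lit 1) (nat_lit 267) (nat_lit 390) (nat_lit 363)) (XT.lf (nat_lit 456) (nat_lit 11887464728) (nat_lit 0) (nat_lit 9453496962) (nat_lit 380) (nat_lit 3927137163) (nat_lit 255) (nat_lit 1) (nat_lit 249) (nat_lit 1) (nat_lit 254) (nat_lit 1) (nat_lit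 268) (nat_lit 390) (nat_lit 362))) (XT.nd (nat_lit 78) (nat_lit 456) (nat_lit 0) (XT.lf (nat_lit 380) (nat_lit 3412952416) (nat_lit 0) (nat_lit 9042111670) (nat_lit 304) (nat_lit 12325000210) (nat_lit 250) (nat_lit 1) (nat_lit 245) (nat_lit 1) (nat_lit 249) (nat_lit 1) (nat_lit 269) (nat_lit 390) (nat_lit 361)) (XT.lf (nat_lit 76) (nat_lit 3879556323) (nat_lit 0) (nat_lit 4874756806) (nat_lit 456) (nat_lit 15550383888) (nat_lit 240) (nat_lit 1) (nat_lit 239) (nat_lit 1) (nat_lit 245) (nat_lit 1) (nat_lit 270) (nat_lit 390) (nat_lit 360))))))) (XT.nd (nat_lit 1092) (nat_lit 2888) (nat_lit 0) (XT.nd (nat_lit 546) (nat_lit 1900) (nat_lit 0) (XT.nd (nat_lit 234) (nat_lit 1140) (nat_lit 0) (XT.nd (nat_lit 78) (nat_lit 684) (nat_lit 0) (XT.lf (nat_lit 380) (nat_lit 10792894267) (nat_lit 0) (nat_lit 8552377585) (nat_lit 304) (nat_lit 4495453699) (nat_lit 240) (nat_lit 1) (nat_lit 235) (nat_lit 1) (nat_lit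 239) (nat_lit 1) (nat_lit 271) (nat_lit 390) (nat_lit 359)) (XT.nd (nat_lit 78) (nat_lit 380) (nat_lit 0) (XT.lf (nat_lit 380) (nat_lit 2226554996) (nat_lit 0) (nat_lit 8468841119) (nat_lit 304) (nat_lit 12693532008) (nat_lit 236) (nat_lit 1) (nat_lit 231) (nat_lit 1) (nat_lit 235) (nat_lit 1) (nat_lit 272) (nat_lit 390) (nat_lit 358)) (XT.lf (nat_lit 76) (nat_lit 2366165582) (nat_lit 0) (nat_lit 6106298206) (nat_lit 380) (nat_lit 14475764843) (nat_lit 227) (nat_lit 1) (nat_lit 226) (nat_lit 1) (nat_lit 231) (nat_lit 1) (nat_lit 273) (nat_lit 390) (nat_lit 357)))) (XT.nd (nat_lit 156) (nat_lit 532) (nat_lit 0) (XT.nd (nat_lit 78) (nat_lit 304) (nat_lit 0) (XT.lf (nat_lit 380) (nat_lit 8177793390) (nat_lit 0) (nat_lit 8538187140) (nat_lit 304) (nat_lit 5801753653) (nat_lit 227) (nat_lit 1) (nat_lit 222) (nat_lit 1) (nat_lit 226) (nat_lit 1) (nat_lit 274) (nat_lit 390) (nat_lit 356)) (XT.lf (nat_lit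 76) (nat_lit 8337223555) (nat_lit 0) (nat_lit 375120841) (nat_lit 304) (nat_lit 13386289964) (nat_lit 219) (nat_lit 1) (nat_lit 218) (nat_lit 1) (nat_lit 222) (nat_lit 1) (nat_lit 275) (nat_lit 390) (nat_lit 355))) (XT.nd (nat_lit 78) (nat_lit 228) (nat_lit 0) (XT.lf (nat_lit 76) (nat_lit 292754186) (nat_lit 0) (nat_lit 8642498503) (nat_lit 380) (nat_lit 12753781255) (nat_lit 215) (nat_lit 1) (nat_lit 214) (nat_lit 1) (nat_lit 219) (nat_lit 1) (nat_lit 276) (nat_lit 390) (nat_lit 354)) (XT.lf (nat_lit 304) (nat_lit 4431833736) (nat_lit 0) (nat_lit 9204800553) (nat_lit 228) (nat_lit 7652083252) (nat_lit 215) (nat_lit 1) (nat_lit 211) (nat_lit 1) (nat_lit 214) (nat_lit 1) (nat_lit 277) (nat_lit 390) (nat_lit 353))))) (XT.nd (nat_lit 234) (nat_lit 988) (nat_lit 0) (XT.nd (nat_lit 78) (nat_lit 532) (nat_lit 0) (XT.lf (nat_lit 76) (nat_lit 5582845599) (nat_lit 0) (nat_lit 3966356640) (nat_lit 380) (nat_lit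 11349153723) (nat_lit 207) (nat_lit 1) (nat_lit 206) (nat_lit 1) (nat_lit 211) (nat_lit 1) (nat_lit 278) (nat_lit 390) (nat_lit 352)) (XT.nd (nat_lit 78) (nat_lit 304) (nat_lit 0) (XT.lf (nat_lit 304) (nat_lit 8355158044) (nat_lit 0) (nat_lit 9940242470) (nat_lit 228) (nat_lit 2221578800) (nat_lit 207) (nat_lit 1) (nat_lit 203) (nat_lit 1) (nat_lit 206) (nat_lit 1) (nat_lit 279) (nat_lit 390) (nat_lit 351)) (XT.lf (nat_lit 76) (nat_lit 10256897758) (nat_lit 0) (nat_lit 125276407) (nat_lit 304) (nat_lit 9762392037) (nat_lit 200) (nat_lit 1) (nat_lit 199) (nat_lit 1) (nat_lit 203) (nat_lit 1) (nat_lit 280) (nat_lit 390) (nat_lit 350)))) (XT.nd (nat_lit 156) (nat_lit 532) (nat_lit 0) (XT.nd (nat_lit 78) (nat_lit 228) (nat_lit 0) (XT.lf (nat_lit 76) (nat_lit 2549010674) (nat_lit 0) (nat_lit 8296165140) (nat_lit 304) (nat_lit 8934929725) (nat_lit 197) (nat_lit 1) (nat_lit 196) (nat_lit 1) (nat_lit 200)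 (nat_lit 1) (nat_lit 281) (nat_lit 390) (nat_lit 349)) (XT.lf (nat_lit 304) (nat_lit 3054544588) (nat_lit 0) (nat_lit 11356385315) (nat_lit 228) (nat_lit 5013318060) (nat_lit 197) (nat_lit 1) (nat_lit 193) (nat_lit 1) (nat_lit 196) (nat_lit 1) (nat_lit 282) (nat_lit 390) (nat_lit 348))) (XT.nd (nat_lit 78) (nat_lit 228) (nat_lit 0) (XT.lf (nat_lit 76) (nat_lit 6742828353) (nat_lit 0) (nat_lit 5141655122) (nat_lit 304) (nat_lit 7191460665) (nat_lit 190) (nat_lit 1) (nat_lit 189) (nat_lit 1) (nat_lit 193) (nat_lit 1) (nat_lit 283) (nat_lit 390) (nat_lit 347)) (XT.lf (nat_lit 304) (nat_lit 5603534052) (nat_lit 0) (nat_lit 12466328755) (nat_lit 228) (nat_lit 666270298) (nat_lit 190) (nat_lit 1) (nat_lit 186) (nat_lit 1) (nat_lit 189) (nat_lit 1) (nat_lit 284) (nat_lit 390) (nat_lit 346)))))) (XT.nd (nat_lit 546) (nat_lit 1292) (nat_lit 0) (XT.nd (nat_lit 234) (nat_lit 912) (nat_lit 0) (XT.nd (nat_lit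 78) (nat_lit 456) (nat_lit 0) (XT.lf (nat_lit 76) (nat_lit 10459930429) (nat_lit 0) (nat_lit 2581782058) (nat_lit 228) (nat_lit 5361216775) (nat_lit 184) (nat_lit 1) (nat_lit 183) (nat_lit 1) (nat_lit 186) (nat_lit 1) (nat_lit 285) (nat_lit 390) (nat_lit 345)) (XT.nd (nat_lit 78) (nat_lit 228) (nat_lit 0) (XT.lf (nat_lit 76) (nat_lit 3145082072) (nat_lit 0) (nat_lit 10500714993) (nat_lit 304) (nat_lit 4431430254) (nat_lit 181) (nat_lit 1) (nat_lit 180) (nat_lit 1) (nat_lit 184) (nat_lit 1) (nat_lit 286) (nat_lit 390) (nat_lit 344)) (XT.lf (nat_lit 76) (nat_lit 13750684727) (nat_lit 0) (nat_lit 533354448) (nat_lit 228) (nat_lit 3475020065) (nat_lit 178) (nat_lit 1) (nat_lit 177) (nat_lit 1) (nat_lit 180) (nat_lit 1) (nat_lit 287) (nat_lit 390) (nat_lit 343)))) (XT.nd (nat_lit 156) (nat_lit 532) (nat_lit 0) (XT.nd (nat_lit 78) (nat_lit 152) (nat_lit 0) (XT.lf (nat_lit 76) (nat_lit 6527896564) (nat_lit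 0) (nat_lit 8365818663) (nat_lit 304) (nat_lit 2552758344) (nat_lit 175) (nat_lit 1) (nat_lit 174) (nat_lit 1) (nat_lit 178) (nat_lit 1) (nat_lit 288) (nat_lit 390) (nat_lit 342)) (XT.lf (nat_lit 228) (nat_lit 1097731809) (nat_lit 0) (nat_lit 15572677325) (nat_lit 152) (nat_lit 471789059) (nat_lit 175) (nat_lit 1) (nat_lit 172) (nat_lit 1) (nat_lit 174) (nat_lit 1) (nat_lit 289) (nat_lit 390) (nat_lit 341))) (XT.nd (nat_lit 78) (nat_lit 304) (nat_lit 0) (XT.lf (nat_lit 76) (nat_lit 9538159358) (nat_lit 0) (nat_lit 6652255765) (nat_lit 228) (nat_lit 651896860) (nat_lit 170) (nat_lit 1) (nat_lit 169) (nat_lit 1) (nat_lit 172) (nat_lit 1) (nat_lit 290) (nat_lit 390) (nat_lit 340)) (XT.lf (nat_lit 228) (nat_lit 2326739543) (nat_lit 0) (nat_lit 322649671) (nat_lit 152) (nat_lit 13900698783) (nat_lit 168) (nat_lit 1) (nat_lit 165) (nat_lit 1) (nat_lit 167) (nat_lit 1) (nat_lit 291) (nat_lit 390) (nat_lit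 339))))) (XT.nd (nat_lit 234) (nat_lit 684) (nat_lit 0) (XT.nd (nat_lit 78) (nat_lit 380) (nat_lit 0) (XT.lf (nat_lit 228) (nat_lit 10950954314) (nat_lit 0) (nat_lit 1275430573) (nat_lit 152) (nat_lit 4036393241) (nat_lit 165) (nat_lit 1) (nat_lit 162) (nat_lit 1) (nat_lit 164) (nat_lit 1) (nat_lit 292) (nat_lit 390) (nat_lit 338)) (XT.nd (nat_lit 78) (nat_lit 228) (nat_lit 0) (XT.lf (nat_lit 228) (nat_lit 3212296900) (nat_lit 0) (nat_lit 2237151835) (nat_lit 152) (nat_lit 10532281078) (nat_lit 163) (nat_lit 1) (nat_lit 160) (nat_lit 1) (nat_lit 162) (nat_lit 1) (nat_lit 293) (nat_lit 390) (nat_lit 337)) (XT.lf (nat_lit 228) (nat_lit 11420842085) (nat_lit 0) (nat_lit 3199777444) (nat_lit 152) (nat_lit 1085975160) (nat_lit 160) (nat_lit 1) (nat_lit 157) (nat_lit 1) (nat_lit 159) (nat_lit 1) (nat_lit 294) (nat_lit 390) (nat_lit 336)))) (XT.nd (nat_lit 156) (nat_lit 304) (nat_lit 0) (XT.nd (nat_lit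 78) (nat_lit 228) (nat_lit 0) (XT.lf (nat_lit 228) (nat_lit 3823910175) (nat_lit 0) (nat_lit 4130956141) (nat_lit 152) (nat_lit 7481452040) (nat_lit 158) (nat_lit 1) (nat_lit 155) (nat_lit 1) (nat_lit 157) (nat_lit 1) (nat_lit 295) (nat_lit 390) (nat_lit 335)) (XT.lf (nat_lit 76) (nat_lit 1541396335) (nat_lit 0) (nat_lit 3536646823) (nat_lit 228) (nat_lit 10094126937) (nat_lit 153) (nat_lit 1) (nat_lit 152) (nat_lit 1) (nat_lit 155) (nat_lit 1) (nat_lit 296) (nat_lit 390) (nat_lit 334))) (XT.nd (nat_lit 78) (nat_lit 152) (nat_lit 0) (XT.lf (nat_lit 228) (nat_lit 4204253573) (nat_lit 0) (nat_lit 5990489241) (nat_lit 152) (nat_lit 4717826887) (nat_lit 153) (nat_lit 1) (nat_lit 150) (nat_lit 1) (nat_lit 152) (nat_lit 1) (nat_lit 297) (nat_lit 390) (nat_lit 333)) (XT.lf (nat_lit 76) (nat_lit 3888551353) (nat_lit 0) (nat_lit 3017145719) (nat_lit 152) (nat_lit 7752803654) (nat_lit 149) (nat_lit 1) (nat_lit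 148) (nat_lit 1) (nat_lit 150) (nat_lit 1) (nat_lit 298) (nat_lit 390) (nat_lit 332))))))))
noncomputable def ec108 : XT := (XT.nd (nat_lit 2184) (nat_lit 3496) (nat_lit 0) (XT.nd (nat_lit 1092) (nat_lit 1672) (nat_lit 0) (XT.nd (nat_lit 546) (nat_lit 1216) (nat_lit 0) (XT.nd (nat_lit 234) (nat_lit 608) (nat_lit 0) (XT.nd (nat_lit 78) (nat_lit 304) (nat_lit 0) (XT.lf (nat_lit 228) (nat_lit 4390424878) (nat_lit 0) (nat_lit 7804642553) (nat_lit 152) (nat_lit 2214237814) (nat_lit 149) (nat_lit 1) (nat_lit 146) (nat_lit 1) (nat_lit 148) (nat_lit 1) (nat_lit 299) (nat_lit 390) (nat_lit 331)) (XT.nd (nat_lit 78) (nat_lit 152) (nat_lit 0) (XT.lf (nat_lit 76) (nat_lit 6001396492) (nat_lit 0) (nat_lit 2682138194) (nat_lit 152) (nat_lit 5481236301) (nat_lit 145) (nat_lit 1) (nat_lit 144) (nat_lit 1) (nat_lit 146) (nat_lit 1) (nat_lit 300) (nat_lit 390) (nat_lit 330)) (XT.lf (nat_lit 76) (nat_lit 52584372)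 (nat_lit 0) (nat_lit 9511323804) (nat_lit 228) (nat_lit 4361517090) (nat_lit 143) (nat_lit 1) (nat_lit 142) (nat_lit 1) (nat_lit 145) (nat_lit 1) (nat_lit 301) (nat_lit 390) (nat_lit 329)))) (XT.nd (nat_lit 156) (nat_lit 304) (nat_lit 0) (XT.nd (nat_lit 78) (nat_lit 152) (nat_lit 0) (XT.lf (nat_lit 76) (nat_lit 7902054199) (nat_lit 0) (nat_lit 2501516424) (nat_lit 152) (nat_lit 3286370548) (nat_lit 141) (nat_lit 1) (nat_lit 140) (nat_lit 1) (nat_lit 142) (nat_lit 1) (nat_lit 302) (nat_lit 390) (nat_lit 328)) (XT.lf (nat_lit 76) (nat_lit 2066438887) (nat_lit 0) (nat_lit 9175436385) (nat_lit 228) (nat_lit 2217493501) (nat_lit 139) (nat_lit 1) (nat_lit 138) (nat_lit 1) (nat_lit 141) (nat_lit 1) (nat_lit 303) (nat_lit 390) (nat_lit 327))) (XT.nd (nat_lit 78) (nat_lit 152) (nat_lit 0) (XT.lf (nat_lit 76) (nat_lit 9610346515) (nat_lit 0) (nat_lit 2449172837) (nat_lit 152) (nat_lit 1173532191) (nat_lit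 137) (nat_lit 1) (nat_lit 136) (nat_lit 1) (nat_lit 138) (nat_lit 1) (nat_lit 304) (nat_lit 390) (nat_lit 326)) (XT.lf (nat_lit 76) (nat_lit 3889692561) (nat_lit 0) (nat_lit 8965028907) (nat_lit 228) (nat_lit 156123618) (nat_lit 135) (nat_lit 1) (nat_lit 134) (nat_lit 1) (nat_lit 137) (nat_lit 1) (nat_lit 305) (nat_lit 390) (nat_lit 325))))) (XT.nd (nat_lit 234) (nat_lit 608) (nat_lit 0) (XT.nd (nat_lit 78) (nat_lit 304) (nat_lit 0) (XT.lf (nat_lit 228) (nat_lit 10282092886) (nat_lit 0) (nat_lit 870326591) (nat_lit 152) (nat_lit 1640543802) (nat_lit 133) (nat_lit 1) (nat_lit 130) (nat_lit 1) (nat_lit 132) (nat_lit 1) (nat_lit 306) (nat_lit 390) (nat_lit 324)) (XT.nd (nat_lit 78) (nat_lit 228) (nat_lit 0) (XT.lf (nat_lit 152) (nat_lit 3702091411) (nat_lit 0) (nat_lit 1855292041) (nat_lit 76) (nat_lit 7021075494) (nat_lit 131) (nat_lit 1) (nat_lit 129) (nat_lit 1) (nat_lit 130) (nat_lit 1) (nat_lit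 307) (nat_lit 390) (nat_lit 323)) (XT.lf (nat_lit 76) (nat_lit 174255261) (nat_lit 0) (nat_lit 2671052305) (nat_lit 228) (nat_lit 9523426377) (nat_lit 127) (nat_lit 1) (nat_lit 126) (nat_lit 1) (nat_lit 129) (nat_lit 1) (nat_lit 308) (nat_lit 390) (nat_lit 322)))) (XT.nd (nat_lit 156) (nat_lit 304) (nat_lit 0) (XT.nd (nat_lit 78) (nat_lit 228) (nat_lit 0) (XT.lf (nat_lit 152) (nat_lit 3288293240) (nat_lit 0) (nat_lit 3779513032) (nat_lit 76) (nat_lit 5094121141) (nat_lit 127) (nat_lit 1) (nat_lit 125) (nat_lit 1) (nat_lit 126) (nat_lit 1) (nat_lit 309) (nat_lit 390) (nat_lit 321)) (XT.lf (nat_lit 76) (nat_lit 1799532513) (nat_lit 0) (nat_lit 2913864601) (nat_lit 228) (nat_lit 7246171864) (nat_lit 123) (nat_lit 1) (nat_lit 122) (nat_lit 1) (nat_lit 125) (nat_lit 1) (nat_lit 310) (nat_lit 390) (nat_lit 320))) (XT.nd (nat_lit 78) (nat_lit 228) (nat_lit 0) (XT.lf (nat_lit 152) (nat_lit 2821360268)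 (nat_lit 0) (nat_lit 5611977328) (nat_lit 76) (nat_lit 3327217229) (nat_lit 123) (nat_lit 1) (nat_lit 121) (nat_lit 1) (nat_lit 122) (nat_lit 1) (nat_lit 311) (nat_lit 390) (nat_lit 319)) (XT.lf (nat_lit 76) (nat_lit 3280657759) (nat_lit 0) (nat_lit 3209159545) (nat_lit 228) (nat_lit 5075408547) (nat_lit 119) (nat_lit 1) (nat_lit 118) (nat_lit 1) (nat_lit 121) (nat_lit 1) (nat_lit 312) (nat_lit 390) (nat_lit 318)))))) (XT.nd (nat_lit 546) (nat_lit 836) (nat_lit 0) (XT.nd (nat_lit 234) (nat_lit 532) (nat_lit 0) (XT.nd (nat_lit 78) (nat_lit 228) (nat_lit 0) (XT.lf (nat_lit 152) (nat_lit 2314460747) (nat_lit 0) (nat_lit 7352056758) (nat_lit 76) (nat_lit 1707132555) (nat_lit 119) (nat_lit 1) (nat_lit 117) (nat_lit 1) (nat_lit 118) (nat_lit 1) (nat_lit 313) (nat_lit 390) (nat_lit 317)) (XT.nd (nat_lit 78) (nat_lit 76) (nat_lit 0) (XT.lf (nat_lit 76) (nat_lit 4629696654) (nat_lit 0) (nat_lit 3544606890)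 (nat_lit 152) (nat_lit 3010733309) (nat_lit 116) (nat_lit 1) (nat_lit 115) (nat_lit 1) (nat_lit 117) (nat_lit 1) (nat_lit 314) (nat_lit 390) (nat_lit 316)) (XT.lf (nat_lit 152) (nat_lit 1778847197) (nat_lit 0) (nat_lit 8999820929) (nat_lit 76) (nat_lit 221899583) (nat_lit 116) (nat_lit 1) (nat_lit 114) (nat_lit 1) (nat_lit 115) (nat_lit 1) (nat_lit 315) (nat_lit 390) (nat_lit 315)))) (XT.nd (nat_lit 156) (nat_lit 304) (nat_lit 0) (XT.nd (nat_lit 78) (nat_lit 76) (nat_lit 0) (XT.lf (nat_lit 76) (nat_lit 5857563470) (nat_lit 0) (nat_lit 3909664399) (nat_lit 152) (nat_lit 1051149841) (nat_lit 113) (nat_lit 1) (nat_lit 112) (nat_lit 1) (nat_lit 114) (nat_lit 1) (nat_lit 316) (nat_lit 390) (nat_lit 314)) (XT.lf (nat_lit 0) (nat_lit 1117089488) (nat_lit 0) (nat_lit 9427555113) (nat_lit 152) (nat_lit 95730689) (nat_lit 111) (nat_lit 3) (nat_lit 111) (nat_lit 1) (nat_lit 113) (nat_lit 1) (nat_lit 317)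 (nat_lit 390) (nat_lit 313))) (XT.nd (nat_lit 78) (nat_lit 76) (nat_lit 0) (XT.lf (nat_lit 152) (nat_lit 6161186484) (nat_lit 0) (nat_lit 820848906) (nat_lit 76) (nat_lit 3482391523) (nat_lit 110) (nat_lit 1) (nat_lit 108) (nat_lit 1) (nat_lit 109) (nat_lit 1) (nat_lit 318) (nat_lit 390) (nat_lit 312)) (XT.lf (nat_lit 76) (nat_lit 617499395) (nat_lit 0) (nat_lit 1739015165) (nat_lit 76) (nat_lit 7935788037) (nat_lit 108) (nat_lit 3) (nat_lit 107) (nat_lit 1) (nat_lit 108) (nat_lit 1) (nat_lit 319) (nat_lit 390) (nat_lit 311))))) (XT.nd (nat_lit 234) (nat_lit 456) (nat_lit 0) (XT.nd (nat_lit 78) (nat_lit 228) (nat_lit 0) (XT.lf (nat_lit 152) (nat_lit 5403462479) (nat_lit 0) (nat_lit 2610036389) (nat_lit 76) (nat_lit 2109094199) (nat_lit 107) (nat_lit 1) (nat_lit 105) (nat_lit 1) (nat_lit 106) (nat_lit 1) (nat_lit 320) (nat_lit 390) (nat_lit 310)) (XT.nd (nat_lit 78) (nat_lit 152) (nat_lit 0) (XT.lf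 (nat_lit 76) (nat_lit 19110109) (nat_lit 0) (nat_lit 3473595228) (nat_lit 76) (nat_lit 6463676643) (nat_lit 105) (nat_lit 3) (nat_lit 104) (nat_lit 1) (nat_lit 105) (nat_lit 1) (nat_lit 321) (nat_lit 390) (nat_lit 309)) (XT.lf (nat_lit 152) (nat_lit 4652055056) (nat_lit 0) (nat_lit 4297763073) (nat_lit 76) (nat_lit 842850466) (nat_lit 104) (nat_lit 1) (nat_lit 102) (nat_lit 1) (nat_lit 103) (nat_lit 1) (nat_lit 322) (nat_lit 390) (nat_lit 308)))) (XT.nd (nat_lit 156) (nat_lit 228) (nat_lit 0) (XT.nd (nat_lit 78) (nat_lit 76) (nat_lit 0) (XT.lf (nat_lit 76) (nat_lit 4538249103) (nat_lit 0) (nat_lit 564499156) (nat_lit 152) (nat_lit 4529223821) (nat_lit 101) (nat_lit 1) (nat_lit 100) (nat_lit 1) (nat_lit 102) (nat_lit 1) (nat_lit 323) (nat_lit 390) (nat_lit 307)) (XT.lf (nat_lit 0) (nat_lit 317936342) (nat_lit 0) (nat_lit 5565423266) (nat_lit 152) (nat_lit 3590713518) (nat_lit 99) (nat_lit 3) (nat_lit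 99) (nat_lit 1) (nat_lit 101) (nat_lit 1) (nat_lit 324) (nat_lit 390) (nat_lit 306))) (XT.nd (nat_lit 78) (nat_lit 76) (nat_lit 0) (XT.lf (nat_lit 76) (nat_lit 5495002443) (nat_lit 0) (nat_lit 1139658149) (nat_lit 152) (nat_lit 2684100551) (nat_lit 98) (nat_lit 1) (nat_lit 97) (nat_lit 1) (nat_lit 99) (nat_lit 1) (nat_lit 325) (nat_lit 390) (nat_lit 305)) (XT.lf (nat_lit 0) (nat_lit 1372180163) (nat_lit 0) (nat_lit 5993175627) (nat_lit 152) (nat_lit 1800868335) (nat_lit 96) (nat_lit 3) (nat_lit 96) (nat_lit 1) (nat_lit 98) (nat_lit 1) (nat_lit 326) (nat_lit 390) (nat_lit 304))))))) (XT.nd (nat_lit 1092) (nat_lit 1672) (nat_lit 0) (XT.nd (nat_lit 546) (nat_lit 912) (nat_lit 0) (XT.nd (nat_lit 234) (nat_lit 456) (nat_lit 0) (XT.nd (nat_lit 78) (nat_lit 304) (nat_lit 0) (XT.lf (nat_lit 76) (nat_lit 6369398180) (nat_lit 0) (nat_lit 1702950150) (nat_lit 152) (nat_lit 943959255) (nat_lit 95) (nat_lit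 1) (nat_lit 94) (nat_lit 1) (nat_lit 96) (nat_lit 1) (nat_lit 327) (nat_lit 390) (nat_lit 303)) (XT.nd (nat_lit 78) (nat_lit 228) (nat_lit 0) (XT.lf (nat_lit 0) (nat_lit 2342824665) (nat_lit 0) (nat_lit 6412124768) (nat_lit 152) (nat_lit 113978964) (nat_lit 93) (nat_lit 3) (nat_lit 93) (nat_lit 1) (nat_lit 95) (nat_lit 1) (nat_lit 328) (nat_lit 390) (nat_lit 302)) (XT.lf (nat_lit 152) (nat_lit 6465886222) (nat_lit 0) (nat_lit 708414797) (nat_lit 76) (nat_lit 1549683086) (nat_lit 92) (nat_lit 1) (nat_lit 90) (nat_lit 1) (nat_lit 91) (nat_lit 1) (nat_lit 329) (nat_lit 390) (nat_lit 301)))) (XT.nd (nat_lit 156) (nat_lit 228) (nat_lit 0) (XT.nd (nat_lit 78) (nat_lit 152) (nat_lit 0) (XT.lf (nat_lit 76) (nat_lit 1747599516) (nat_lit 0) (nat_lit 1502669580) (nat_lit 76) (nat_lit 5331070536) (nat_lit 90) (nat_lit 3) (nat_lit 89) (nat_lit 1) (nat_lit 90) (nat_lit 1) (nat_lit 330) (nat_lit 390) (nat_lit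 300)) (XT.lf (nat_lit 152) (nat_lit 5637240976) (nat_lit 0) (nat_lit 2279502445) (nat_lit 76) (nat_lit 524601982) (nat_lit 89) (nat_lit 1) (nat_lit 87) (nat_lit 1) (nat_lit 88) (nat_lit 1) (nat_lit 331) (nat_lit 390) (nat_lit 299))) (XT.nd (nat_lit 78) (nat_lit 152) (nat_lit 0) (XT.lf (nat_lit 76) (nat_lit 1062139279) (nat_lit 0) (nat_lit 3023571342) (nat_lit 76) (nat_lit 4217783793) (nat_lit 87) (nat_lit 3) (nat_lit 86) (nat_lit 1) (nat_lit 87) (nat_lit 1) (nat_lit 332) (nat_lit 390) (nat_lit 298)) (XT.lf (nat_lit 0) (nat_lit 416031995) (nat_lit 0) (nat_lit 3333872508) (nat_lit 152) (nat_lit 4418260880) (nat_lit 84) (nat_lit 3) (nat_lit 84) (nat_lit 1) (nat_lit 86) (nat_lit 1) (nat_lit 333) (nat_lit 390) (nat_lit 297))))) (XT.nd (nat_lit 234) (nat_lit 532) (nat_lit 0) (XT.nd (nat_lit 78) (nat_lit 304) (nat_lit 0) (XT.lf (nat_lit 76) (nat_lit 403065635) (nat_lit 0) (nat_lit 4450026579) (nat_lit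 76) (nat_lit 3181961362) (nat_lit 84) (nat_lit 3) (nat_lit 83) (nat_lit 1) (nat_lit 84) (nat_lit 1) (nat_lit 334) (nat_lit 390) (nat_lit 296)) (XT.nd (nat_lit 78) (nat_lit 152) (nat_lit 0) (XT.lf (nat_lit 0) (nat_lit 1276729337) (nat_lit 0) (nat_lit 3846212209) (nat_lit 152) (nat_lit 2781131664) (nat_lit 81) (nat_lit 3) (nat_lit 81) (nat_lit 1) (nat_lit 83) (nat_lit 1) (nat_lit 335) (nat_lit 390) (nat_lit 295)) (XT.lf (nat_lit 76) (nat_lit 5559273480) (nat_lit 0) (nat_lit 224080717) (nat_lit 152) (nat_lit 1992242689) (nat_lit 80) (nat_lit 1) (nat_lit 79) (nat_lit 1) (nat_lit 81) (nat_lit 1) (nat_lit 336) (nat_lit 390) (nat_lit 294)))) (XT.nd (nat_lit 156) (nat_lit 304) (nat_lit 0) (XT.nd (nat_lit 78) (nat_lit 152) (nat_lit 0) (XT.lf (nat_lit 0) (nat_lit 2072326710) (nat_lit 0) (nat_lit 4335041962) (nat_lit 152) (nat_lit 1241505304) (nat_lit 78) (nat_lit 3) (nat_lit 78) (nat_lit 1) (nat_lit 80)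 (nat_lit 1) (nat_lit 337) (nat_lit 390) (nat_lit 293)) (XT.lf (nat_lit 76) (nat_lit 6209963767) (nat_lit 0) (nat_lit 815714377) (nat_lit 152) (nat_lit 499066719) (nat_lit 77) (nat_lit 1) (nat_lit 76) (nat_lit 1) (nat_lit 78) (nat_lit 1) (nat_lit 338) (nat_lit 390) (nat_lit 292))) (XT.nd (nat_lit 78) (nat_lit 152) (nat_lit 0) (XT.lf (nat_lit 76) (nat_lit 2600522621) (nat_lit 0) (nat_lit 208560273) (nat_lit 76) (nat_lit 4593094888) (nat_lit 75) (nat_lit 3) (nat_lit 74) (nat_lit 1) (nat_lit 75) (nat_lit 1) (nat_lit 339) (nat_lit 390) (nat_lit 291)) (XT.lf (nat_lit 152) (nat_lit 5893903602) (nat_lit 0) (nat_lit 920202782) (nat_lit 76) (nat_lit 467920693) (nat_lit 74) (nat_lit 1) (nat_lit 72) (nat_lit 1) (nat_lit 73) (nat_lit 1) (nat_lit 340) (nat_lit 390) (nat_lit 290)))))) (XT.nd (nat_lit 546) (nat_lit 912) (nat_lit 0) (XT.nd (nat_lit 234) (nat_lit 456) (nat_lit 0) (XT.nd (nat_lit 78) (nat_lit 228)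 (nat_lit 0) (XT.lf (nat_lit 76) (nat_lit 1908486092) (nat_lit 0) (nat_lit 1591738066) (nat_lit 76) (nat_lit 3663167436) (nat_lit 72) (nat_lit 3) (nat_lit 71) (nat_lit 1) (nat_lit 72) (nat_lit 1) (nat_lit 341) (nat_lit 390) (nat_lit 289)) (XT.nd (nat_lit 78) (nat_lit 76) (nat_lit 0) (XT.lf (nat_lit 0) (nat_lit 316973914) (nat_lit 0) (nat_lit 1939425457) (nat_lit 152) (nat_lit 4790788808) (nat_lit 69) (nat_lit 3) (nat_lit 69) (nat_lit 1) (nat_lit 71) (nat_lit 1) (nat_lit 342) (nat_lit 390) (nat_lit 288)) (XT.lf (nat_lit 76) (nat_lit 1250117328) (nat_lit 0) (nat_lit 2887152694) (nat_lit 76) (nat_lit 2795309274) (nat_lit 69) (nat_lit 3) (nat_lit 68) (nat_lit 1) (nat_lit 69) (nat_lit 1) (nat_lit 343) (nat_lit 390) (nat_lit 287)))) (XT.nd (nat_lit 156) (nat_lit 228) (nat_lit 0) (XT.nd (nat_lit 78) (nat_lit 76) (nat_lit 0) (XT.lf (nat_lit 0) (nat_lit 1036893698) (nat_lit 0) (nat_lit 2465642607) (nat_lit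 152) (nat_lit 3317519405) (nat_lit 66) (nat_lit 3) (nat_lit 66) (nat_lit 1) (nat_lit 68) (nat_lit 1) (nat_lit 344) (nat_lit 390) (nat_lit 286)) (XT.lf (nat_lit 76) (nat_lit 625089089) (nat_lit 0) (nat_lit 4098561577) (nat_lit 76) (nat_lit 1985802336) (nat_lit 66) (nat_lit 3) (nat_lit 65) (nat_lit 1) (nat_lit 66) (nat_lit 1) (nat_lit 345) (nat_lit 390) (nat_lit 285))) (XT.nd (nat_lit 78) (nat_lit 76) (nat_lit 0) (XT.lf (nat_lit 0) (nat_lit 1704385628) (nat_lit 0) (nat_lit 2962557840) (nat_lit 152) (nat_lit 1933539061) (nat_lit 63) (nat_lit 3) (nat_lit 63) (nat_lit 1) (nat_lit 65) (nat_lit 1) (nat_lit 346) (nat_lit 390) (nat_lit 284)) (XT.lf (nat_lit 76) (nat_lit 32920140) (nat_lit 0) (nat_lit 5229637830) (nat_lit 76) (nat_lit 1231179389) (nat_lit 63) (nat_lit 3) (nat_lit 62) (nat_lit 1) (nat_lit 63) (nat_lit 1) (nat_lit 347) (nat_lit 390) (nat_lit 283))))) (XT.nd (nat_lit 234) (nat_lit 456) (nat_lit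 0) (XT.nd (nat_lit 78) (nat_lit 304) (nat_lit 0) (XT.lf (nat_lit 0) (nat_lit 2322634951) (nat_lit 0) (nat_lit 3430595423) (nat_lit 152) (nat_lit 634968343) (nat_lit 60) (nat_lit 3) (nat_lit 60) (nat_lit 1) (nat_lit 62) (nat_lit 1) (nat_lit 348) (nat_lit 390) (nat_lit 282)) (XT.nd (nat_lit 78) (nat_lit 152) (nat_lit 0) (XT.lf (nat_lit 76) (nat_lit 5762031676) (nat_lit 0) (nat_lit 516713892) (nat_lit 152) (nat_lit 6271246) (nat_lit 59) (nat_lit 1) (nat_lit 58) (nat_lit 1) (nat_lit 60) (nat_lit 1) (nat_lit 349) (nat_lit 390) (nat_lit 281)) (XT.lf (nat_lit 76) (nat_lit 2306771396) (nat_lit 0) (nat_lit 593549481) (nat_lit 76) (nat_lit 3282453734) (nat_lit 57) (nat_lit 3) (nat_lit 56) (nat_lit 1) (nat_lit 57) (nat_lit 1) (nat_lit 350) (nat_lit 390) (nat_lit 280)))) (XT.nd (nat_lit 156) (nat_lit 228) (nat_lit 0) (XT.nd (nat_lit 78) (nat_lit 76) (nat_lit 0) (XT.lf (nat_lit 0) (nat_lit 145535242) (nat_lit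 0) (nat_lit 1047691819) (nat_lit 152) (nat_lit 4889576046) (nat_lit 54) (nat_lit 3) (nat_lit 54) (nat_lit 1) (nat_lit 56) (nat_lit 1) (nat_lit 351) (nat_lit 390) (nat_lit 279)) (XT.lf (nat_lit 76) (nat_lit 1684795051) (nat_lit 0) (nat_lit 1755182980) (nat_lit 76) (nat_lit 2543991791) (nat_lit 54) (nat_lit 3) (nat_lit 53) (nat_lit 1) (nat_lit 54) (nat_lit 1) (nat_lit 352) (nat_lit 390) (nat_lit 278))) (XT.nd (nat_lit 78) (nat_lit 76) (nat_lit 0) (XT.lf (nat_lit 0) (nat_lit 757965773) (nat_lit 0) (nat_lit 1552414908) (nat_lit 152) (nat_lit 3576753319) (nat_lit 51) (nat_lit 3) (nat_lit 51) (nat_lit 1) (nat_lit 53) (nat_lit 1) (nat_lit 353) (nat_lit 390) (nat_lit 277)) (XT.lf (nat_lit 76) (nat_lit 1097097357) (nat_lit 0) (nat_lit 2840919528) (nat_lit 76) (nat_lit 1853715581) (nat_lit 51) (nat_lit 3) (nat_lit 50) (nat_lit 1) (nat_lit 51) (nat_lit 1) (nat_lit 354) (nat_lit 390) (nat_lit 276))))))))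
noncomputable def ec109 : XT := (XT.nd (nat_lit 2184) (nat_lit 152) (nat_lit 0) (XT.nd (nat_lit 1092) (nat_lit 1824) (nat_lit 0) (XT.nd (nat_lit 546) (nat_lit 836) (nat_lit 0) (XT.nd (nat_lit 234) (nat_lit 532) (nat_lit 0) (XT.nd (nat_lit 78) (nat_lit 228) (nat_lit 0) (XT.lf (nat_lit 0) (nat_lit 1327095578) (nat_lit 0) (nat_lit 2026696340) (nat_lit 152) (nat_lit 2344135966) (nat_lit 48) (nat_lit 3) (nat_lit 48) (nat_lit 1) (nat_lit 50) (nat_lit 1) (nat_lit 355) (nat_lit 390) (nat_lit 275)) (XT.nd (nat_lit 78) (nat_lit 152) (nat_lit 0) (XT.lf (nat_lit 76) (nat_lit 542639612) (nat_lit 0) (nat_lit 3854267863) (nat_lit 76) (nat_lit 1208926052) (nat_lit 48) (nat_lit 3) (nat_lit 47) (nat_lit 1) (nat_lit 48) (nat_lit 1) (nat_lit 356) (nat_lit 390) (nat_lit 274)) (XT.lf (nat_lit 0) (nat_lit 1855408621) (nat_lit 0) (nat_lit 2471484848) (nat_lit 152) (nat_lit 1188066361) (nat_lit 45) (nat_lit 3) (nat_lit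 45) (nat_lit 1) (nat_lit 47) (nat_lit 1) (nat_lit 357) (nat_lit 390) (nat_lit 273)))) (XT.nd (nat_lit 156) (nat_lit 304) (nat_lit 0) (XT.nd (nat_lit 78) (nat_lit 152) (nat_lit 0) (XT.lf (nat_lit 76) (nat_lit 20346886) (nat_lit 0) (nat_lit 4798620043) (nat_lit 76) (nat_lit 607086151) (nat_lit 45) (nat_lit 3) (nat_lit 44) (nat_lit 1) (nat_lit 45) (nat_lit 1) (nat_lit 358) (nat_lit 390) (nat_lit 272)) (XT.lf (nat_lit 0) (nat_lit 2345239100) (nat_lit 0) (nat_lit 2887762692) (nat_lit 152) (nat_lit 105011995) (nat_lit 42) (nat_lit 3) (nat_lit 42) (nat_lit 1) (nat_lit 44) (nat_lit 1) (nat_lit 359) (nat_lit 390) (nat_lit 271))) (XT.nd (nat_lit 78) (nat_lit 76) (nat_lit 0) (XT.lf (nat_lit 152) (nat_lit 4786105638) (nat_lit 0) (nat_lit 428914730) (nat_lit 76) (nat_lit 36899981) (nat_lit 41) (nat_lit 1) (nat_lit 39) (nat_lit 1) (nat_lit 40) (nat_lit 1) (nat_lit 360) (nat_lit 390) (nat_lit 270)) (XT.lf (nat_lit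 76) (nat_lit 1881173919) (nat_lit 0) (nat_lit 926514772) (nat_lit 76) (nat_lit 2358926240) (nat_lit 39) (nat_lit 3) (nat_lit 38) (nat_lit 1) (nat_lit 39) (nat_lit 1) (nat_lit 361) (nat_lit 390) (nat_lit 269))))) (XT.nd (nat_lit 234) (nat_lit 456) (nat_lit 0) (XT.nd (nat_lit 78) (nat_lit 228) (nat_lit 0) (XT.lf (nat_lit 0) (nat_lit 490756785) (nat_lit 0) (nat_lit 932506504) (nat_lit 152) (nat_lit 3659922349) (nat_lit 36) (nat_lit 3) (nat_lit 36) (nat_lit 1) (nat_lit 38) (nat_lit 1) (nat_lit 362) (nat_lit 390) (nat_lit 268)) (XT.nd (nat_lit 78) (nat_lit 152) (nat_lit 0) (XT.lf (nat_lit 76) (nat_lit 1343808232) (nat_lit 0) (nat_lit 1892488945) (nat_lit 76) (nat_lit 1764522249) (nat_lit 36) (nat_lit 3) (nat_lit 35) (nat_lit 1) (nat_lit 36) (nat_lit 1) (nat_lit 363) (nat_lit 390) (nat_lit 267)) (XT.lf (nat_lit 0) (nat_lit 981282743) (nat_lit 0) (nat_lit 1370292468) (nat_lit 152) (nat_lit 2568411882)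 (nat_lit 33) (nat_lit 3) (nat_lit 33) (nat_lit 1) (nat_lit 35) (nat_lit 1) (nat_lit 364) (nat_lit 390) (nat_lit 266)))) (XT.nd (nat_lit 156) (nat_lit 228) (nat_lit 0) (XT.nd (nat_lit 78) (nat_lit 152) (nat_lit 0) (XT.lf (nat_lit 76) (nat_lit 837966652) (nat_lit 0) (nat_lit 2794046426) (nat_lit 76) (nat_lit 1208452104) (nat_lit 33) (nat_lit 3) (nat_lit 32) (nat_lit 1) (nat_lit 33) (nat_lit 1) (nat_lit 365) (nat_lit 390) (nat_lit 265)) (XT.lf (nat_lit 0) (nat_lit 1437398895) (nat_lit 0) (nat_lit 1779965195) (nat_lit 152) (nat_lit 1544781491) (nat_lit 30) (nat_lit 3) (nat_lit 30) (nat_lit 1) (nat_lit 32) (nat_lit 1) (nat_lit 366) (nat_lit 390) (nat_lit 264))) (XT.nd (nat_lit 78) (nat_lit 152) (nat_lit 0) (XT.lf (nat_lit 76) (nat_lit 362410981) (nat_lit 0) (nat_lit 3634290910) (nat_lit 76) (nat_lit 688664600) (nat_lit 30) (nat_lit 3) (nat_lit 29) (nat_lit 1) (nat_lit 30) (nat_lit 1) (nat_lit 367) (nat_lit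 390) (nat_lit 263)) (XT.lf (nat_lit 0) (nat_lit 1860995038) (nat_lit 0) (nat_lit 2162662738) (nat_lit 152) (nat_lit 585820672) (nat_lit 27) (nat_lit 3) (nat_lit 27) (nat_lit 1) (nat_lit 29) (nat_lit 1) (nat_lit 368) (nat_lit 390) (nat_lit 262)))))) (XT.nd (nat_lit 546) (nat_lit 912) (nat_lit 0) (XT.nd (nat_lit 234) (nat_lit 456) (nat_lit 0) (XT.nd (nat_lit 78) (nat_lit 304) (nat_lit 0) (XT.lf (nat_lit 76) (nat_lit 4332932388) (nat_lit 0) (nat_lit 82441390) (nat_lit 152) (nat_lit 119946549) (nat_lit 26) (nat_lit 1) (nat_lit 25) (nat_lit 1) (nat_lit 27) (nat_lit 1) (nat_lit 369) (nat_lit 390) (nat_lit 261)) (XT.nd (nat_lit 78) (nat_lit 152) (nat_lit 0) (XT.lf (nat_lit 76) (nat_lit 1939154658) (nat_lit 0) (nat_lit 317756930) (nat_lit 76) (nat_lit 2204806597) (nat_lit 24) (nat_lit 3) (nat_lit 23) (nat_lit 1) (nat_lit 24) (nat_lit 1) (nat_lit 370) (nat_lit 390) (nat_lit 260)) (XT.lf (nat_lit 0) (nat_lit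 257124426) (nat_lit 0) (nat_lit 502757286) (nat_lit 152) (nat_lit 3629905072) (nat_lit 21) (nat_lit 3) (nat_lit 21) (nat_lit 1) (nat_lit 23) (nat_lit 1) (nat_lit 371) (nat_lit 390) (nat_lit 259)))) (XT.nd (nat_lit 156) (nat_lit 228) (nat_lit 0) (XT.nd (nat_lit 78) (nat_lit 152) (nat_lit 0) (XT.lf (nat_lit 76) (nat_lit 1455744414) (nat_lit 0) (nat_lit 1173207087) (nat_lit 76) (nat_lit 1689680472) (nat_lit 21) (nat_lit 3) (nat_lit 20) (nat_lit 1) (nat_lit 21) (nat_lit 1) (nat_lit 372) (nat_lit 390) (nat_lit 258)) (XT.lf (nat_lit 0) (nat_lit 682878214) (nat_lit 0) (nat_lit 899185249) (nat_lit 152) (nat_lit 2666868168) (nat_lit 18) (nat_lit 3) (nat_lit 18) (nat_lit 1) (nat_lit 20) (nat_lit 1) (nat_lit 373) (nat_lit 390) (nat_lit 257))) (XT.nd (nat_lit 78) (nat_lit 152) (nat_lit 0) (XT.lf (nat_lit 76) (nat_lit 1001224253) (nat_lit 0) (nat_lit 1971772858) (nat_lit 76) (nat_lit 1207230953) (nat_lit 18)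 (nat_lit 3) (nat_lit 17) (nat_lit 1) (nat_lit 18) (nat_lit 1) (nat_lit 374) (nat_lit 390) (nat_lit 256)) (XT.lf (nat_lit 0) (nat_lit 1079286597) (nat_lit 0) (nat_lit 1269768982) (nat_lit 152) (nat_lit 1763631820) (nat_lit 15) (nat_lit 3) (nat_lit 15) (nat_lit 1) (nat_lit 17) (nat_lit 1) (nat_lit 375) (nat_lit 390) (nat_lit 255))))) (XT.nd (nat_lit 234) (nat_lit 608) (nat_lit 0) (XT.nd (nat_lit 78) (nat_lit 228) (nat_lit 0) (XT.lf (nat_lit 76) (nat_lit 574348973) (nat_lit 0) (nat_lit 2716238628) (nat_lit 76) (nat_lit 755760768) (nat_lit 15) (nat_lit 3) (nat_lit 14) (nat_lit 1) (nat_lit 15) (nat_lit 1) (nat_lit 376) (nat_lit 390) (nat_lit 254)) (XT.nd (nat_lit 78) (nat_lit 76) (nat_lit 0) (XT.lf (nat_lit 0) (nat_lit 1447914999) (nat_lit 0) (nat_lit 1615655911) (nat_lit 152) (nat_lit 917327560) (nat_lit 12) (nat_lit 3) (nat_lit 12) (nat_lit 1) (nat_lit 14) (nat_lit 1) (nat_lit 377) (nat_lit 390) (nat_lit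 253)) (XT.lf (nat_lit 76) (nat_lit 173906355) (nat_lit 0) (nat_lit 3409274534) (nat_lit 76) (nat_lit 333659604) (nat_lit 12) (nat_lit 3) (nat_lit 11) (nat_lit 1) (nat_lit 12) (nat_lit 1) (nat_lit 378) (nat_lit 390) (nat_lit 252)))) (XT.nd (nat_lit 156) (nat_lit 228) (nat_lit 0) (XT.nd (nat_lit 78) (nat_lit 228) (nat_lit 0) (XT.lf (nat_lit 0) (nat_lit 1790247917) (nat_lit 0) (nat_lit 1937962433) (nat_lit 152) (nat_lit 125204464) (nat_lit 9) (nat_lit 3) (nat_lit 9) (nat_lit 1) (nat_lit 11) (nat_lit 1) (nat_lit 379) (nat_lit 390) (nat_lit 251)) (XT.lf (nat_lit 0) (nat_lit 63946156) (nat_lit 0) (nat_lit 200529157) (nat_lit 152) (nat_lit 3526928878) (nat_lit 6) (nat_lit 3) (nat_lit 6) (nat_lit 1) (nat_lit 8) (nat_lit 1) (nat_lit 380) (nat_lit 390) (nat_lit 250))) (XT.nd (nat_lit 78) (nat_lit 152) (nat_lit 0) (XT.lf (nat_lit 76) (nat_lit 1486105015) (nat_lit 0) (nat_lit 627621696) (nat_lit 76) (nat_lit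 1616184064) (nat_lit 6) (nat_lit 3) (nat_lit 5) (nat_lit 1) (nat_lit 6) (nat_lit 1) (nat_lit 381) (nat_lit 390) (nat_lit 249)) (XT.lf (nat_lit 0) (nat_lit 435131900) (nat_lit 0) (nat_lit 555408413) (nat_lit 152) (nat_lit 2679243182) (nat_lit 3) (nat_lit 3) (nat_lit 3) (nat_lit 1) (nat_lit 5) (nat_lit 1) (nat_lit 382) (nat_lit 390) (nat_lit 248))))))) (XT.nd (nat_lit 43446) (nat_lit 0) (nat_lit 16796) (XT.nd (nat_lit 42900) (nat_lit 0) (nat_lit 22268) (XT.nd (nat_lit 42588) (nat_lit 0) (nat_lit 25612) (XT.nd (nat_lit 78) (nat_lit 76) (nat_lit 0) (XT.lf (nat_lit 76) (nat_lit 1081454698) (nat_lit 0) (nat_lit 1332946946) (nat_lit 76) (nat_lit 1196003758) (nat_lit 3) (nat_lit 3) (nat_lit 2) (nat_lit 1) (nat_lit 3) (nat_lit 1) (nat_lit 383) (nat_lit 390) (nat_lit 247)) (XT.nd (nat_lit 42432) (nat_lit 0) (nat_lit 27588) (XT.lf (nat_lit 0) (nat_lit 781098152) (nat_lit 0) (nat_lit 887014990) (nat_lit 76)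 (nat_lit 1884024255) (nat_lit 1) (nat_lit 3) (nat_lit 1) (nat_lit 1) (nat_lit 2) (nat_lit 1) (nat_lit 384) (nat_lit 390) (nat_lit 246)) (XT.lf (nat_lit 1368) (nat_lit 13494474991) (nat_lit 0) (nat_lit 6856768229) (nat_lit 1292) (nat_lit 19193537859) (nat_lit 382) (nat_lit 1) (nat_lit 364) (nat_lit 1) (nat_lit 381) (nat_lit 1) (nat_lit 247) (nat_lit 391) (nat_lit 382)))) (XT.nd (nat_lit 156) (nat_lit 1216) (nat_lit 0) (XT.nd (nat_lit 78) (nat_lit 836) (nat_lit 0) (XT.lf (nat_lit 76) (nat_lit 4078101931) (nat_lit 0) (nat_lit 11495778919) (nat_lit 1292) (nat_lit 23089810392) (nat_lit 366) (nat_lit 1) (nat_lit 365) (nat_lit 1) (nat_lit 382) (nat_lit 1) (nat_lit 248) (nat_lit 391) (nat_lit 381)) (XT.lf (nat_lit 912) (nat_lit 21367638579) (nat_lit 0) (nat_lit 11208787886) (nat_lit 836) (nat_lit 5232315041) (nat_lit 366) (nat_lit 1) (nat_lit 354) (nat_lit 1) (nat_lit 365) (nat_lit 1) (nat_lit 249) (nat_lit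 391) (nat_lit 380))) (XT.nd (nat_lit 78) (nat_lit 608) (nat_lit 0) (XT.lf (nat_lit 684) (nat_lit 15322600765) (nat_lit 0) (nat_lit 7244536947) (nat_lit 608) (nat_lit 14412192138) (nat_lit 355) (nat_lit 1) (nat_lit 346) (nat_lit 1) (nat_lit 354) (nat_lit 1) (nat_lit 250) (nat_lit 391) (nat_lit 379)) (XT.lf (nat_lit 684) (nat_lit 9095283596) (nat_lit 0) (nat_lit 3699270590) (nat_lit 608) (nat_lit 23381166450) (nat_lit 347) (nat_lit 1) (nat_lit 338) (nat_lit 1) (nat_lit 346) (nat_lit 1) (nat_lit 251) (nat_lit 391) (nat_lit 378))))) (XT.nd (nat_lit 234) (nat_lit 2128) (nat_lit 0) (XT.nd (nat_lit 78) (nat_lit 684) (nat_lit 0) (XT.lf (nat_lit 608) (nat_lit 2705684479) (nat_lit 0) (nat_lit 551014626) (nat_lit 532) (nat_lit 32140315711) (nat_lit 339) (nat_lit 1) (nat_lit 331) (nat_lit 1) (nat_lit 338) (nat_lit 1) (nat_lit 252) (nat_lit 391) (nat_lit 377)) (XT.nd (nat_lit 78) (nat_lit 608) (nat_lit 0) (XT.lf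 (nat_lit 76) (nat_lit 28530294725) (nat_lit 0) (nat_lit 3833987560) (nat_lit 608) (nat_lit 2274524662) (nat_lit 331) (nat_lit 1) (nat_lit 330) (nat_lit 1) (nat_lit 338) (nat_lit 1) (nat_lit 253) (nat_lit 391) (nat_lit 376)) (XT.lf (nat_lit 76) (nat_lit 18628478987) (nat_lit 0) (nat_lit 10476175298) (nat_lit 684) (nat_lit 4797380461) (nat_lit 323) (nat_lit 1) (nat_lit 322) (nat_lit 1) (nat_lit 331) (nat_lit 1) (nat_lit 254) (nat_lit 391) (nat_lit 375)))) (XT.nd (nat_lit 156) (nat_lit 1064) (nat_lit 0) (XT.nd (nat_lit 78) (nat_lit 532) (nat_lit 0) (XT.lf (nat_lit 76) (nat_lit 8979012880) (nat_lit 0) (nat_lit 17220182480) (nat_lit 608) (nat_lit 6988608152) (nat_lit 316) (nat_lit 1) (nat_lit 315) (nat_lit 1) (nat_lit 323) (nat_lit 1) (nat_lit 255) (nat_lit 391) (nat_lit 374)) (XT.lf (nat_lit 608) (nat_lit 8440007898) (nat_lit 0) (nat_lit 23625176412) (nat_lit 532) (nat_lit 430034060) (nat_lit 316)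 (nat_lit 1) (nat_lit 308) (nat_lit 1) (nat_lit 315) (nat_lit 1) (nat_lit 256) (nat_lit 391) (nat_lit 373))) (XT.nd (nat_lit 78) (nat_lit 608) (nat_lit 0) (XT.lf (nat_lit 532) (nat_lit 772308688) (nat_lit 0) (nat_lit 21281035597) (nat_lit 456) (nat_lit 9767748491) (nat_lit 309) (nat_lit 1) (nat_lit 302) (nat_lit 1) (nat_lit 308) (nat_lit 1) (nat_lit 257) (nat_lit 391) (nat_lit 372)) (XT.lf (nat_lit 76) (nat_lit 12374726021) (nat_lit 0) (nat_lit 6797224706) (nat_lit 608) (nat_lit 11993402740) (nat_lit 295) (nat_lit 1) (nat_lit 294) (nat_lit 1) (nat_lit 302) (nat_lit 1) (nat_lit 258) (nat_lit 391) (nat_lit 371)))))) (XT.nd (nat_lit 546) (nat_lit 2432) (nat_lit 0) (XT.nd (nat_lit 234) (nat_lit 1672) (nat_lit 0) (XT.nd (nat_lit 78) (nat_lit 912) (nat_lit 0) (XT.lf (nat_lit 76) (nat_lit 2965745053) (nat_lit 0) (nat_lit 14376832600) (nat_lit 532) (nat_lit 13186503634) (nat_lit 289) (nat_lit 1) (nat_lit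 288) (nat_lit 1) (nat_lit 295) (nat_lit 1) (nat_lit 259) (nat_lit 391) (nat_lit 370)) (XT.nd (nat_lit 78) (nat_lit 456) (nat_lit 0) (XT.lf (nat_lit 532) (nat_lit 7878257908) (nat_lit 0) (nat_lit 15722859401) (nat_lit 456) (nat_lit 6308902809) (nat_lit 289) (nat_lit 1) (nat_lit 282) (nat_lit 1) (nat_lit 288) (nat_lit 1) (nat_lit 260) (nat_lit 391) (nat_lit 369)) (XT.lf (nat_lit 76) (nat_lit 13927584649) (nat_lit 0) (nat_lit 401680350) (nat_lit 456) (nat_lit 14979173129) (nat_lit 277) (nat_lit 1) (nat_lit 276) (nat_lit 1) (nat_lit 282) (nat_lit 1) (nat_lit 261) (nat_lit 391) (nat_lit 368)))) (XT.nd (nat_lit 156) (nat_lit 836) (nat_lit 0) (XT.nd (nat_lit 78) (nat_lit 380) (nat_lit 0) (XT.lf (nat_lit 76) (nat_lit 4600143858) (nat_lit 0) (nat_lit 8503969216) (nat_lit 532) (nat_lit 15618334715) (nat_lit 271) (nat_lit 1) (nat_lit 270) (nat_lit 1) (nat_lit 277) (nat_lit 1) (nat_lit 262) (nat_lit 391) (nat_lit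 367)) (XT.lf (nat_lit 456) (nat_lit 11533932701) (nat_lit 0) (nat_lit 12067131746) (nat_lit 380) (nat_lit 4551355725) (nat_lit 271) (nat_lit 1) (nat_lit 265) (nat_lit 1) (nat_lit 270) (nat_lit 1) (nat_lit 263) (nat_lit 391) (nat_lit 366))) (XT.nd (nat_lit 78) (nat_lit 456) (nat_lit 0) (XT.lf (nat_lit 456) (nat_lit 2860803713) (nat_lit 0) (nat_lit 11206939474) (nat_lit 380) (nat_lit 13530080930) (nat_lit 266) (nat_lit 1) (nat_lit 260) (nat_lit 1) (nat_lit 265) (nat_lit 1) (nat_lit 264) (nat_lit 391) (nat_lit 365)) (XT.lf (nat_lit 76) (nat_lit 4864574101) (nat_lit 0) (nat_lit 5636408456) (nat_lit 456) (nat_lit 16556824310) (nat_lit 255) (nat_lit 1) (nat_lit 254) (nat_lit 1) (nat_lit 260) (nat_lit 1) (nat_lit 265) (nat_lit 391) (nat_lit 364))))) (XT.nd (nat_lit 234) (nat_lit 1292) (nat_lit 0) (XT.nd (nat_lit 78) (nat_lit 760) (nat_lit 0) (XT.lf (nat_lit 456) (nat_lit 12481837965) (nat_lit 0) (nat_lit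 9926171811) (nat_lit 380) (nat_lit 4123494021) (nat_lit 255) (nat_lit 1) (nat_lit 249) (nat_lit 1) (nat_lit 254) (nat_lit 1) (nat_lit 266) (nat_lit 391) (nat_lit 363)) (XT.nd (nat_lit 78) (nat_lit 456) (nat_lit 0) (XT.lf (nat_lit 380) (nat_lit 3583600037) (nat_lit 0) (nat_lit 9494217254) (nat_lit 304) (nat_lit 12941250220) (nat_lit 250) (nat_lit 1) (nat_lit 245) (nat_lit 1) (nat_lit 249) (nat_lit 1) (nat_lit 267) (nat_lit 391) (nat_lit 362)) (XT.lf (nat_lit 76) (nat_lit 4073534139) (nat_lit 0) (nat_lit 5118494646) (nat_lit 456) (nat_lit 16327903082) (nat_lit 240) (nat_lit 1) (nat_lit 239) (nat_lit 1) (nat_lit 245) (nat_lit 1) (nat_lit 268) (nat_lit 391) (nat_lit 361)))) (XT.nd (nat_lit 156) (nat_lit 684) (nat_lit 0) (XT.nd (nat_lit 78) (nat_lit 304) (nat_lit 0) (XT.lf (nat_lit 380) (nat_lit 11332538980) (nat_lit 0) (nat_lit 8979996465) (nat_lit 304) (nat_lit 4720226384) (nat_lit 240) (nat_lit 1)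 (nat_lit 235) (nat_lit 1) (nat_lit 239) (nat_lit 1) (nat_lit 269) (nat_lit 391) (nat_lit 360)) (XT.lf (nat_lit 380) (nat_lit 2337882746) (nat_lit 0) (nat_lit 8892283175) (nat_lit 304) (nat_lit 13328208608) (nat_lit 236) (nat_lit 1) (nat_lit 231) (nat_lit 1) (nat_lit 235) (nat_lit 1) (nat_lit 270) (nat_lit 391) (nat_lit 359))) (XT.nd (nat_lit 78) (nat_lit 304) (nat_lit 0) (XT.lf (nat_lit 76) (nat_lit 2484473861) (nat_lit 0) (nat_lit 6411613117) (nat_lit 380) (nat_lit 15199553085) (nat_lit 227) (nat_lit 1) (nat_lit 226) (nat_lit 1) (nat_lit 231) (nat_lit 1) (nat_lit 271) (nat_lit 391) (nat_lit 358)) (XT.lf (nat_lit 380) (nat_lit 8586683059) (nat_lit 0) (nat_lit 8965096497) (nat_lit 304) (nat_lit 6091841336) (nat_lit 227) (nat_lit 1) (nat_lit 222) (nat_lit 1) (nat_lit 226) (nat_lit 1) (nat_lit 272) (nat_lit 391) (nat_lit 357))))))))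
noncomputable def ec110 : XT := (XT.nd (nat_lit 2184) (nat_lit 3876) (nat_lit 0) (XT.nd (nat_lit 1092) (nat_lit 2584) (nat_lit 0) (XT.nd (nat_lit 546) (nat_lit 1672) (nat_lit 0) (XT.nd (nat_lit 234) (nat_lit 1140) (nat_lit 0) (XT.nd (nat_lit 78) (nat_lit 532) (nat_lit 0) (XT.lf (nat_lit 76) (nat_lit 8754084733) (nat_lit 0) (nat_lit 393876883) (nat_lit 304) (nat_lit 14055604462) (nat_lit 219) (nat_lit 1) (nat_lit 218) (nat_lit 1) (nat_lit 222) (nat_lit 1) (nat_lit 273) (nat_lit 391) (nat_lit 356)) (XT.nd (nat_lit 78) (nat_lit 228) (nat_lit 0) (XT.lf (nat_lit 76) (nat_lit 307391895) (nat_lit 0) (nat_lit 9074623428) (nat_lit 380) (nat_lit 13391470318) (nat_lit 215) (nat_lit 1) (nat_lit 214) (nat_lit 1) (nat_lit 219) (nat_lit 1) (nat_lit 274) (nat_lit 391) (nat_lit 355)) (XT.lf (nat_lit 304) (nat_lit 4653425423) (nat_lit 0) (nat_lit 9665040581) (nat_lit 228) (nat_lit 8034687414) (nat_lit 215) (nat_lit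 1) (nat_lit 211) (nat_lit 1) (nat_lit 214) (nat_lit 1) (nat_lit 275) (nat_lit 391) (nat_lit 354)))) (XT.nd (nat_lit 156) (nat_lit 532) (nat_lit 0) (XT.nd (nat_lit 78) (nat_lit 228) (nat_lit 0) (XT.lf (nat_lit 76) (nat_lit 5861987879) (nat_lit 0) (nat_lit 4164674472) (nat_lit 380) (nat_lit 11916611409) (nat_lit 207) (nat_lit 1) (nat_lit 206) (nat_lit 1) (nat_lit 211) (nat_lit 1) (nat_lit 276) (nat_lit 391) (nat_lit 353)) (XT.lf (nat_lit 304) (nat_lit 8772915946) (nat_lit 0) (nat_lit 10437254593) (nat_lit 228) (nat_lit 2332657740) (nat_lit 207) (nat_lit 1) (nat_lit 203) (nat_lit 1) (nat_lit 206) (nat_lit 1) (nat_lit 277) (nat_lit 391) (nat_lit 352))) (XT.nd (nat_lit 78) (nat_lit 228) (nat_lit 0) (XT.lf (nat_lit 76) (nat_lit 10769742646) (nat_lit 0) (nat_lit 131540227) (nat_lit 304) (nat_lit 10250511639) (nat_lit 200) (nat_lit 1) (nat_lit 199) (nat_lit 1) (nat_lit 203) (nat_lit 1) (nat_lit 278) (nat_lit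 391) (nat_lit 351)) (XT.lf (nat_lit 76) (nat_lit 2676461208) (nat_lit 0) (nat_lit 8710973397) (nat_lit 304) (nat_lit 9381676212) (nat_lit 197) (nat_lit 1) (nat_lit 196) (nat_lit 1) (nat_lit 200) (nat_lit 1) (nat_lit 279) (nat_lit 391) (nat_lit 350))))) (XT.nd (nat_lit 234) (nat_lit 912) (nat_lit 0) (XT.nd (nat_lit 78) (nat_lit 532) (nat_lit 0) (XT.lf (nat_lit 304) (nat_lit 3207271818) (nat_lit 0) (nat_lit 11924204580) (nat_lit 228) (nat_lit 5263983963) (nat_lit 197) (nat_lit 1) (nat_lit 193) (nat_lit 1) (nat_lit 196) (nat_lit 1) (nat_lit 280) (nat_lit 391) (nat_lit 349)) (XT.nd (nat_lit 78) (nat_lit 228) (nat_lit 0) (XT.lf (nat_lit 76) (nat_lit 7079969771) (nat_lit 0) (nat_lit 5398737878) (nat_lit 304) (nat_lit 7551033698) (nat_lit 190) (nat_lit 1) (nat_lit 189) (nat_lit 1) (nat_lit 193) (nat_lit 1) (nat_lit 281) (nat_lit 391) (nat_lit 348)) (XT.lf (nat_lit 304) (nat_lit 5883710754) (nat_lit 0)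 (nat_lit 13089645193) (nat_lit 228) (nat_lit 699583813) (nat_lit 190) (nat_lit 1) (nat_lit 186) (nat_lit 1) (nat_lit 189) (nat_lit 1) (nat_lit 282) (nat_lit 391) (nat_lit 347)))) (XT.nd (nat_lit 156) (nat_lit 456) (nat_lit 0) (XT.nd (nat_lit 78) (nat_lit 228) (nat_lit 0) (XT.lf (nat_lit 76) (nat_lit 10982926950) (nat_lit 0) (nat_lit 2710871161) (nat_lit 228) (nat_lit 5629277614) (nat_lit 184) (nat_lit 1) (nat_lit 183) (nat_lit 1) (nat_lit 186) (nat_lit 1) (nat_lit 283) (nat_lit 391) (nat_lit 346)) (XT.lf (nat_lit 76) (nat_lit 3302336176) (nat_lit 0) (nat_lit 11025750742) (nat_lit 304) (nat_lit 4653001767) (nat_lit 181) (nat_lit 1) (nat_lit 180) (nat_lit 1) (nat_lit 184) (nat_lit 1) (nat_lit 284) (nat_lit 391) (nat_lit 345))) (XT.nd (nat_lit 78) (nat_lit 228) (nat_lit 0) (XT.lf (nat_lit 76) (nat_lit 14438218963) (nat_lit 0) (nat_lit 560022170) (nat_lit 228) (nat_lit 3648771068) (nat_lit 178) (nat_lit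 1) (nat_lit 177) (nat_lit 1) (nat_lit 180) (nat_lit 1) (nat_lit 285) (nat_lit 391) (nat_lit 344)) (XT.lf (nat_lit 76) (nat_lit 6854291392) (nat_lit 0) (nat_lit 8784109596) (nat_lit 304) (nat_lit 2680396261) (nat_lit 175) (nat_lit 1) (nat_lit 174) (nat_lit 1) (nat_lit 178) (nat_lit 1) (nat_lit 286) (nat_lit 391) (nat_lit 343)))))) (XT.nd (nat_lit 546) (nat_lit 1140) (nat_lit 0) (XT.nd (nat_lit 234) (nat_lit 760) (nat_lit 0) (XT.nd (nat_lit 78) (nat_lit 532) (nat_lit 0) (XT.lf (nat_lit 228) (nat_lit 1152618399) (nat_lit 0) (nat_lit 16351311191) (nat_lit 152) (nat_lit 495378512) (nat_lit 175) (nat_lit 1) (nat_lit 172) (nat_lit 1) (nat_lit 174) (nat_lit 1) (nat_lit 287) (nat_lit 391) (nat_lit 342)) (XT.nd (nat_lit 78) (nat_lit 304) (nat_lit 0) (XT.lf (nat_lit 76) (nat_lit 10015067326) (nat_lit 0) (nat_lit 6984868553) (nat_lit 228) (nat_lit 684491703) (nat_lit 170) (nat_lit 1) (nat_lit 169) (nat_lit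 1) (nat_lit 172) (nat_lit 1) (nat_lit 288) (nat_lit 391) (nat_lit 341)) (XT.lf (nat_lit 228) (nat_lit 2443076521) (nat_lit 0) (nat_lit 338782155) (nat_lit 152) (nat_lit 14595733722) (nat_lit 168) (nat_lit 1) (nat_lit 165) (nat_lit 1) (nat_lit 167) (nat_lit 1) (nat_lit 289) (nat_lit 391) (nat_lit 340)))) (XT.nd (nat_lit 156) (nat_lit 380) (nat_lit 0) (XT.nd (nat_lit 78) (nat_lit 152) (nat_lit 0) (XT.lf (nat_lit 228) (nat_lit 11498502030) (nat_lit 0) (nat_lit 1339202101) (nat_lit 152) (nat_lit 4238212903) (nat_lit 165) (nat_lit 1) (nat_lit 162) (nat_lit 1) (nat_lit 164) (nat_lit 1) (nat_lit 290) (nat_lit 391) (nat_lit 339)) (XT.lf (nat_lit 228) (nat_lit 3372911745) (nat_lit 0) (nat_lit 2349009427) (nat_lit 152) (nat_lit 11058895132) (nat_lit 163) (nat_lit 1) (nat_lit 160) (nat_lit 1) (nat_lit 162) (nat_lit 1) (nat_lit 291) (nat_lit 391) (nat_lit 338))) (XT.nd (nat_lit 78) (nat_lit 152) (nat_lit 0)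 (XT.lf (nat_lit 228) (nat_lit 11991884190) (nat_lit 0) (nat_lit 3359766316) (nat_lit 152) (nat_lit 1140273918) (nat_lit 160) (nat_lit 1) (nat_lit 157) (nat_lit 1) (nat_lit 159) (nat_lit 1) (nat_lit 292) (nat_lit 391) (nat_lit 337)) (XT.lf (nat_lit 228) (nat_lit 4015105683) (nat_lit 0) (nat_lit 4337503948) (nat_lit 152) (nat_lit 7855524642) (nat_lit 158) (nat_lit 1) (nat_lit 155) (nat_lit 1) (nat_lit 157) (nat_lit 1) (nat_lit 293) (nat_lit 391) (nat_lit 336))))) (XT.nd (nat_lit 234) (nat_lit 608) (nat_lit 0) (XT.nd (nat_lit 78) (nat_lit 304) (nat_lit 0) (XT.lf (nat_lit 76) (nat_lit 1618466152) (nat_lit 0) (nat_lit 3713479164) (nat_lit 228) (nat_lit 10598833284) (nat_lit 153) (nat_lit 1) (nat_lit 152) (nat_lit 1) (nat_lit 155) (nat_lit 1) (nat_lit 294) (nat_lit 391) (nat_lit 335)) (XT.nd (nat_lit 78) (nat_lit 152) (nat_lit 0) (XT.lf (nat_lit 228) (nat_lit 4414466251) (nat_lit 0) (nat_lit 6290013704)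 (nat_lit 152) (nat_lit 4953718231) (nat_lit 153) (nat_lit 1) (nat_lit 150) (nat_lit 1) (nat_lit 152) (nat_lit 1) (nat_lit 295) (nat_lit 391) (nat_lit 334)) (XT.lf (nat_lit 76) (nat_lit 4082978921) (nat_lit 0) (nat_lit 3168003005) (nat_lit 152) (nat_lit 8140443837) (nat_lit 149) (nat_lit 1) (nat_lit 148) (nat_lit 1) (nat_lit 150) (nat_lit 1) (nat_lit 296) (nat_lit 391) (nat_lit 333)))) (XT.nd (nat_lit 156) (nat_lit 304) (nat_lit 0) (XT.nd (nat_lit 78) (nat_lit 152) (nat_lit 0) (XT.lf (nat_lit 228) (nat_lit 4609946122) (nat_lit 0) (nat_lit 8194874680) (nat_lit 152) (nat_lit 2324949704) (nat_lit 149) (nat_lit 1) (nat_lit 146) (nat_lit 1) (nat_lit 148) (nat_lit 1) (nat_lit 297) (nat_lit 391) (nat_lit 332)) (XT.lf (nat_lit 76) (nat_lit 6301466316) (nat_lit 0) (nat_lit 2816245104) (nat_lit 152) (nat_lit 5755298116) (nat_lit 145) (nat_lit 1) (nat_lit 144) (nat_lit 1) (nat_lit 146) (nat_lit 1) (nat_lit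 298) (nat_lit 391) (nat_lit 331))) (XT.nd (nat_lit 78) (nat_lit 152) (nat_lit 0) (XT.lf (nat_lit 76) (nat_lit 55213591) (nat_lit 0) (nat_lit 9986889995) (nat_lit 228) (nat_lit 4579592944) (nat_lit 143) (nat_lit 1) (nat_lit 142) (nat_lit 1) (nat_lit 145) (nat_lit 1) (nat_lit 299) (nat_lit 391) (nat_lit 330)) (XT.lf (nat_lit 76) (nat_lit 8297156909) (nat_lit 0) (nat_lit 2626592246) (nat_lit 152) (nat_lit 3450689075) (nat_lit 141) (nat_lit 1) (nat_lit 140) (nat_lit 1) (nat_lit 142) (nat_lit 1) (nat_lit 300) (nat_lit 391) (nat_lit 329))))))) (XT.nd (nat_lit 1092) (nat_lit 1748) (nat_lit 0) (XT.nd (nat_lit 546) (nat_lit 988) (nat_lit 0) (XT.nd (nat_lit 234) (nat_lit 684) (nat_lit 0) (XT.nd (nat_lit 78) (nat_lit 304) (nat_lit 0) (XT.lf (nat_lit 76) (nat_lit 2169760831) (nat_lit 0) (nat_lit 9634208204) (nat_lit 228) (nat_lit 2328368176) (nat_lit 139) (nat_lit 1) (nat_lit 138) (nat_lit 1) (nat_lit 141)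 (nat_lit 1) (nat_lit 301) (nat_lit 391) (nat_lit 328)) (XT.nd (nat_lit 78) (nat_lit 152) (nat_lit 0) (XT.lf (nat_lit 76) (nat_lit 10090863841) (nat_lit 0) (nat_lit 2571631479) (nat_lit 152) (nat_lit 1232208800) (nat_lit 137) (nat_lit 1) (nat_lit 136) (nat_lit 1) (nat_lit 138) (nat_lit 1) (nat_lit 302) (nat_lit 391) (nat_lit 327)) (XT.lf (nat_lit 76) (nat_lit 4084177189) (nat_lit 0) (nat_lit 9413280353) (nat_lit 228) (nat_lit 163929799) (nat_lit 135) (nat_lit 1) (nat_lit 134) (nat_lit 1) (nat_lit 137) (nat_lit 1) (nat_lit 303) (nat_lit 391) (nat_lit 326)))) (XT.nd (nat_lit 156) (nat_lit 304) (nat_lit 0) (XT.nd (nat_lit 78) (nat_lit 76) (nat_lit 0) (XT.lf (nat_lit 228) (nat_lit 10796197530) (nat_lit 0) (nat_lit 913842920) (nat_lit 152) (nat_lit 1722570992) (nat_lit 133) (nat_lit 1) (nat_lit 130) (nat_lit 1) (nat_lit 132) (nat_lit 1) (nat_lit 304) (nat_lit 391) (nat_lit 325)) (XT.lf (nat_lit 152)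 (nat_lit 3887195981) (nat_lit 0) (nat_lit 1948056644) (nat_lit 76) (nat_lit 7372129268) (nat_lit 131) (nat_lit 1) (nat_lit 129) (nat_lit 1) (nat_lit 130) (nat_lit 1) (nat_lit 305) (nat_lit 391) (nat_lit 324))) (XT.nd (nat_lit 78) (nat_lit 76) (nat_lit 0) (XT.lf (nat_lit 76) (nat_lit 182968024) (nat_lit 0) (nat_lit 2804604920) (nat_lit 228) (nat_lit 9999597696) (nat_lit 127) (nat_lit 1) (nat_lit 126) (nat_lit 1) (nat_lit 129) (nat_lit 1) (nat_lit 306) (nat_lit 391) (nat_lit 323)) (XT.lf (nat_lit 152) (nat_lit 3452707902) (nat_lit 0) (nat_lit 3968488684) (nat_lit 76) (nat_lit 5348827198) (nat_lit 127) (nat_lit 1) (nat_lit 125) (nat_lit 1) (nat_lit 126) (nat_lit 1) (nat_lit 307) (nat_lit 391) (nat_lit 322))))) (XT.nd (nat_lit 234) (nat_lit 456) (nat_lit 0) (XT.nd (nat_lit 78) (nat_lit 304) (nat_lit 0) (XT.lf (nat_lit 76) (nat_lit 1889509138) (nat_lit 0) (nat_lit 3059557831) (nat_lit 228) (nat_lit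 7608480457) (nat_lit 123) (nat_lit 1) (nat_lit 122) (nat_lit 1) (nat_lit 125) (nat_lit 1) (nat_lit 308) (nat_lit 391) (nat_lit 321)) (XT.nd (nat_lit 78) (nat_lit 228) (nat_lit 0) (XT.lf (nat_lit 152) (nat_lit 2962428281) (nat_lit 0) (nat_lit 5892576195) (nat_lit 76) (nat_lit 3493578090) (nat_lit 123) (nat_lit 1) (nat_lit 121) (nat_lit 1) (nat_lit 122) (nat_lit 1) (nat_lit 309) (nat_lit 391) (nat_lit 320)) (XT.lf (nat_lit 76) (nat_lit 3444690647) (nat_lit 0) (nat_lit 3369617523) (nat_lit 228) (nat_lit 5329178975) (nat_lit 119) (nat_lit 1) (nat_lit 118) (nat_lit 1) (nat_lit 121) (nat_lit 1) (nat_lit 310) (nat_lit 391) (nat_lit 319)))) (XT.nd (nat_lit 156) (nat_lit 228) (nat_lit 0) (XT.nd (nat_lit 78) (nat_lit 152) (nat_lit 0) (XT.lf (nat_lit 152) (nat_lit 2430183784) (nat_lit 0) (nat_lit 7719659596) (nat_lit 76) (nat_lit 1792489183) (nat_lit 119) (nat_lit 1) (nat_lit 117) (nat_lit 1) (nat_lit 118)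 (nat_lit 1) (nat_lit 311) (nat_lit 391) (nat_lit 318)) (XT.lf (nat_lit 76) (nat_lit 4861181486) (nat_lit 0) (nat_lit 3721837234) (nat_lit 152) (nat_lit 3161269975) (nat_lit 116) (nat_lit 1) (nat_lit 115) (nat_lit 1) (nat_lit 117) (nat_lit 1) (nat_lit 312) (nat_lit 391) (nat_lit 317))) (XT.nd (nat_lit 78) (nat_lit 152) (nat_lit 0) (XT.lf (nat_lit 152) (nat_lit 1867789557) (nat_lit 0) (nat_lit 9449811976) (nat_lit 76) (nat_lit 232994562) (nat_lit 116) (nat_lit 1) (nat_lit 114) (nat_lit 1) (nat_lit 115) (nat_lit 1) (nat_lit 313) (nat_lit 391) (nat_lit 316)) (XT.lf (nat_lit 76) (nat_lit 6150441643) (nat_lit 0) (nat_lit 4105147619) (nat_lit 152) (nat_lit 1103707333) (nat_lit 113) (nat_lit 1) (nat_lit 112) (nat_lit 1) (nat_lit 114) (nat_lit 1) (nat_lit 314) (nat_lit 391) (nat_lit 315)))))) (XT.nd (nat_lit 546) (nat_lit 836) (nat_lit 0) (XT.nd (nat_lit 234) (nat_lit 532) (nat_lit 0) (XT.nd (nat_lit 78)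 (nat_lit 304) (nat_lit 0) (XT.lf (nat_lit 0) (nat_lit 1172943963) (nat_lit 0) (nat_lit 9898932868) (nat_lit 152) (nat_lit 100517223) (nat_lit 111) (nat_lit 3) (nat_lit 111) (nat_lit 1) (nat_lit 113) (nat_lit 1) (nat_lit 315) (nat_lit 391) (nat_lit 314)) (XT.nd (nat_lit 78) (nat_lit 76) (nat_lit 0) (XT.lf (nat_lit 152) (nat_lit 6469245808) (nat_lit 0) (nat_lit 861891351) (nat_lit 76) (nat_lit 3656511099) (nat_lit 110) (nat_lit 1) (nat_lit 108) (nat_lit 1) (nat_lit 109) (nat_lit 1) (nat_lit 316) (nat_lit 391) (nat_lit 313)) (XT.lf (nat_lit 76) (nat_lit 648374365) (nat_lit 0) (nat_lit 1825965924) (nat_lit 76) (nat_lit 8332577438) (nat_lit 108) (nat_lit 3) (nat_lit 107) (nat_lit 1) (nat_lit 108) (nat_lit 1) (nat_lit 317) (nat_lit 391) (nat_lit 312)))) (XT.nd (nat_lit 156) (nat_lit 304) (nat_lit 0) (XT.nd (nat_lit 78) (nat_lit 76) (nat_lit 0) (XT.lf (nat_lit 152) (nat_lit 5673635603) (nat_lit 0) (nat_lit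 2740538209) (nat_lit 76) (nat_lit 2214548909) (nat_lit 107) (nat_lit 1) (nat_lit 105) (nat_lit 1) (nat_lit 106) (nat_lit 1) (nat_lit 318) (nat_lit 391) (nat_lit 311)) (XT.lf (nat_lit 76) (nat_lit 20065614) (nat_lit 0) (nat_lit 3647274989) (nat_lit 76) (nat_lit 6786860475) (nat_lit 105) (nat_lit 3) (nat_lit 104) (nat_lit 1) (nat_lit 105) (nat_lit 1) (nat_lit 319) (nat_lit 391) (nat_lit 310))) (XT.nd (nat_lit 78) (nat_lit 152) (nat_lit 0) (XT.lf (nat_lit 152) (nat_lit 4884657809) (nat_lit 0) (nat_lit 4512651226) (nat_lit 76) (nat_lit 884992990) (nat_lit 104) (nat_lit 1) (nat_lit 102) (nat_lit 1) (nat_lit 103) (nat_lit 1) (nat_lit 320) (nat_lit 391) (nat_lit 309)) (XT.lf (nat_lit 76) (nat_lit 4765161558) (nat_lit 0) (nat_lit 592724114) (nat_lit 152) (nat_lit 4755685012) (nat_lit 101) (nat_lit 1) (nat_lit 100) (nat_lit 1) (nat_lit 102) (nat_lit 1) (nat_lit 321) (nat_lit 391) (nat_lit 308))))) (XT.nd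 (nat_lit 234) (nat_lit 532) (nat_lit 0) (XT.nd (nat_lit 78) (nat_lit 228) (nat_lit 0) (XT.lf (nat_lit 0) (nat_lit 333833159) (nat_lit 0) (nat_lit 5843694430) (nat_lit 152) (nat_lit 3770249194) (nat_lit 99) (nat_lit 3) (nat_lit 99) (nat_lit 1) (nat_lit 101) (nat_lit 1) (nat_lit 322) (nat_lit 391) (nat_lit 307)) (XT.nd (nat_lit 78) (nat_lit 76) (nat_lit 0) (XT.lf (nat_lit 76) (nat_lit 5769752565) (nat_lit 0) (nat_lit 1196641057) (nat_lit 152) (nat_lit 2818305578) (nat_lit 98) (nat_lit 1) (nat_lit 97) (nat_lit 1) (nat_lit 99) (nat_lit 1) (nat_lit 323) (nat_lit 391) (nat_lit 306)) (XT.lf (nat_lit 0) (nat_lit 1440789171) (nat_lit 0) (nat_lit 6292834409) (nat_lit 152) (nat_lit 1890911752) (nat_lit 96) (nat_lit 3) (nat_lit 96) (nat_lit 1) (nat_lit 98) (nat_lit 1) (nat_lit 324) (nat_lit 391) (nat_lit 305)))) (XT.nd (nat_lit 156) (nat_lit 304) (nat_lit 0) (XT.nd (nat_lit 78) (nat_lit 76) (nat_lit 0) (XT.lf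 (nat_lit 76) (nat_lit 6687868089) (nat_lit 0) (nat_lit 1788097658) (nat_lit 152) (nat_lit 991157218) (nat_lit 95) (nat_lit 1) (nat_lit 94) (nat_lit 1) (nat_lit 96) (nat_lit 1) (nat_lit 325) (nat_lit 391) (nat_lit 304)) (XT.lf (nat_lit 0) (nat_lit 2459965898) (nat_lit 0) (nat_lit 6732731006) (nat_lit 152) (nat_lit 119677912) (nat_lit 93) (nat_lit 3) (nat_lit 93) (nat_lit 1) (nat_lit 95) (nat_lit 1) (nat_lit 326) (nat_lit 391) (nat_lit 303))) (XT.nd (nat_lit 78) (nat_lit 76) (nat_lit 0) (XT.lf (nat_lit 152) (nat_lit 6789180533) (nat_lit 0) (nat_lit 743835537) (nat_lit 76) (nat_lit 1627167240) (nat_lit 92) (nat_lit 1) (nat_lit 90) (nat_lit 1) (nat_lit 91) (nat_lit 1) (nat_lit 327) (nat_lit 391) (nat_lit 302)) (XT.lf (nat_lit 76) (nat_lit 1834979492) (nat_lit 0) (nat_lit 1577803059) (nat_lit 76) (nat_lit 5597624063) (nat_lit 90) (nat_lit 3) (nat_lit 89) (nat_lit 1) (nat_lit 90) (nat_lit 1) (nat_lit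 328) (nat_lit 391) (nat_lit 301))))))))
noncomputable def ec111 : XT := (XT.nd (nat_lit 2184) (nat_lit 3268) (nat_lit 0) (XT.nd (nat_lit 1092) (nat_lit 1672) (nat_lit 0) (XT.nd (nat_lit 546) (nat_lit 912) (nat_lit 0) (XT.nd (nat_lit 234) (nat_lit 456) (nat_lit 0) (XT.nd (nat_lit 78) (nat_lit 228) (nat_lit 0) (XT.lf (nat_lit 152) (nat_lit 5919103025) (nat_lit 0) (nat_lit 2393477567) (nat_lit 76) (nat_lit 550832081) (nat_lit 89) (nat_lit 1) (nat_lit 87) (nat_lit 1) (nat_lit 88) (nat_lit 1) (nat_lit 329) (nat_lit 391) (nat_lit 300)) (XT.nd (nat_lit 78) (nat_lit 152) (nat_lit 0) (XT.lf (nat_lit 76) (nat_lit 1115246243) (nat_lit 0) (nat_lit 3174749910) (nat_lit 76) (nat_lit 4428672983) (nat_lit 87) (nat_lit 3) (nat_lit 86) (nat_lit 1) (nat_lit 87) (nat_lit 1) (nat_lit 330) (nat_lit 391) (nat_lit 299)) (XT.lf (nat_lit 0) (nat_lit 436833595) (nat_lit 0) (nat_lit 3500566133) (nat_lit 152) (nat_lit 4639173924)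 (nat_lit 84) (nat_lit 3) (nat_lit 84) (nat_lit 1) (nat_lit 86) (nat_lit 1) (nat_lit 331) (nat_lit 391) (nat_lit 298)))) (XT.nd (nat_lit 156) (nat_lit 228) (nat_lit 0) (XT.nd (nat_lit 78) (nat_lit 152) (nat_lit 0) (XT.lf (nat_lit 76) (nat_lit 423218917) (nat_lit 0) (nat_lit 4672527908) (nat_lit 76) (nat_lit 3341059430) (nat_lit 84) (nat_lit 3) (nat_lit 83) (nat_lit 1) (nat_lit 84) (nat_lit 1) (nat_lit 332) (nat_lit 391) (nat_lit 297)) (XT.lf (nat_lit 0) (nat_lit 1340565804) (nat_lit 0) (nat_lit 4038522820) (nat_lit 152) (nat_lit 2920188247) (nat_lit 81) (nat_lit 3) (nat_lit 81) (nat_lit 1) (nat_lit 83) (nat_lit 1) (nat_lit 333) (nat_lit 391) (nat_lit 296))) (XT.nd (nat_lit 78) (nat_lit 76) (nat_lit 0) (XT.lf (nat_lit 76) (nat_lit 5837237154) (nat_lit 0) (nat_lit 235284753) (nat_lit 152) (nat_lit 2091854823) (nat_lit 80) (nat_lit 1) (nat_lit 79) (nat_lit 1) (nat_lit 81) (nat_lit 1) (nat_lit 334)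 (nat_lit 391) (nat_lit 295)) (XT.lf (nat_lit 0) (nat_lit 2175943045) (nat_lit 0) (nat_lit 4551794060) (nat_lit 152) (nat_lit 1303580569) (nat_lit 78) (nat_lit 3) (nat_lit 78) (nat_lit 1) (nat_lit 80) (nat_lit 1) (nat_lit 335) (nat_lit 391) (nat_lit 294))))) (XT.nd (nat_lit 234) (nat_lit 456) (nat_lit 0) (XT.nd (nat_lit 78) (nat_lit 304) (nat_lit 0) (XT.lf (nat_lit 76) (nat_lit 6520461955) (nat_lit 0) (nat_lit 856500096) (nat_lit 152) (nat_lit 524020055) (nat_lit 77) (nat_lit 1) (nat_lit 76) (nat_lit 1) (nat_lit 78) (nat_lit 1) (nat_lit 336) (nat_lit 391) (nat_lit 293)) (XT.nd (nat_lit 78) (nat_lit 152) (nat_lit 0) (XT.lf (nat_lit 76) (nat_lit 2730548752) (nat_lit 0) (nat_lit 218988287) (nat_lit 76) (nat_lit 4822749632) (nat_lit 75) (nat_lit 3) (nat_lit 74) (nat_lit 1) (nat_lit 75) (nat_lit 1) (nat_lit 337) (nat_lit 391) (nat_lit 292)) (XT.lf (nat_lit 152) (nat_lit 6188598782) (nat_lit 0) (nat_lit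 966212921) (nat_lit 76) (nat_lit 491316727) (nat_lit 74) (nat_lit 1) (nat_lit 72) (nat_lit 1) (nat_lit 73) (nat_lit 1) (nat_lit 338) (nat_lit 391) (nat_lit 291)))) (XT.nd (nat_lit 156) (nat_lit 228) (nat_lit 0) (XT.nd (nat_lit 78) (nat_lit 152) (nat_lit 0) (XT.lf (nat_lit 76) (nat_lit 2003910397) (nat_lit 0) (nat_lit 1671324970) (nat_lit 76) (nat_lit 3846325807) (nat_lit 72) (nat_lit 3) (nat_lit 71) (nat_lit 1) (nat_lit 72) (nat_lit 1) (nat_lit 339) (nat_lit 391) (nat_lit 290)) (XT.lf (nat_lit 0) (nat_lit 332822610) (nat_lit 0) (nat_lit 2036396730) (nat_lit 152) (nat_lit 5030328248) (nat_lit 69) (nat_lit 3) (nat_lit 69) (nat_lit 1) (nat_lit 71) (nat_lit 1) (nat_lit 340) (nat_lit 391) (nat_lit 289))) (XT.nd (nat_lit 78) (nat_lit 152) (nat_lit 0) (XT.lf (nat_lit 76) (nat_lit 1312623194) (nat_lit 0) (nat_lit 3031510329) (nat_lit 76) (nat_lit 2935074737) (nat_lit 69) (nat_lit 3) (nat_lit 68) (nat_lit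 1) (nat_lit 69) (nat_lit 1) (nat_lit 341) (nat_lit 391) (nat_lit 288)) (XT.lf (nat_lit 0) (nat_lit 1088738382) (nat_lit 0) (nat_lit 2588924738) (nat_lit 152) (nat_lit 3483395376) (nat_lit 66) (nat_lit 3) (nat_lit 66) (nat_lit 1) (nat_lit 68) (nat_lit 1) (nat_lit 342) (nat_lit 391) (nat_lit 287)))))) (XT.nd (nat_lit 546) (nat_lit 760) (nat_lit 0) (XT.nd (nat_lit 234) (nat_lit 608) (nat_lit 0) (XT.nd (nat_lit 78) (nat_lit 228) (nat_lit 0) (XT.lf (nat_lit 76) (nat_lit 656343543) (nat_lit 0) (nat_lit 4303489655) (nat_lit 76) (nat_lit 2085092453) (nat_lit 66) (nat_lit 3) (nat_lit 65) (nat_lit 1) (nat_lit 66) (nat_lit 1) (nat_lit 343) (nat_lit 391) (nat_lit 286)) (XT.nd (nat_lit 78) (nat_lit 76) (nat_lit 0) (XT.lf (nat_lit 0) (nat_lit 1789604909) (nat_lit 0) (nat_lit 3110685732) (nat_lit 152) (nat_lit 2030216014) (nat_lit 63) (nat_lit 3) (nat_lit 63) (nat_lit 1) (nat_lit 65) (nat_lit 1) (nat_lit 344)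 (nat_lit 391) (nat_lit 285)) (XT.lf (nat_lit 76) (nat_lit 34566147) (nat_lit 0) (nat_lit 5491119722) (nat_lit 76) (nat_lit 1292738359) (nat_lit 63) (nat_lit 3) (nat_lit 62) (nat_lit 1) (nat_lit 63) (nat_lit 1) (nat_lit 345) (nat_lit 391) (nat_lit 284)))) (XT.nd (nat_lit 156) (nat_lit 304) (nat_lit 0) (XT.nd (nat_lit 78) (nat_lit 152) (nat_lit 0) (XT.lf (nat_lit 0) (nat_lit 2438766699) (nat_lit 0) (nat_lit 3602125194) (nat_lit 152) (nat_lit 666716760) (nat_lit 60) (nat_lit 3) (nat_lit 60) (nat_lit 1) (nat_lit 62) (nat_lit 1) (nat_lit 346) (nat_lit 391) (nat_lit 283)) (XT.lf (nat_lit 76) (nat_lit 6050133260) (nat_lit 0) (nat_lit 542549587) (nat_lit 152) (nat_lit 6584809) (nat_lit 59) (nat_lit 1) (nat_lit 58) (nat_lit 1) (nat_lit 60) (nat_lit 1) (nat_lit 347) (nat_lit 391) (nat_lit 282))) (XT.nd (nat_lit 78) (nat_lit 152) (nat_lit 0) (XT.lf (nat_lit 76) (nat_lit 2422109966) (nat_lit 0) (nat_lit 623226955)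 (nat_lit 76) (nat_lit 3446576421) (nat_lit 57) (nat_lit 3) (nat_lit 56) (nat_lit 1) (nat_lit 57) (nat_lit 1) (nat_lit 348) (nat_lit 391) (nat_lit 281)) (XT.lf (nat_lit 0) (nat_lit 152812004) (nat_lit 0) (nat_lit 1100076410) (nat_lit 152) (nat_lit 5134054848) (nat_lit 54) (nat_lit 3) (nat_lit 54) (nat_lit 1) (nat_lit 56) (nat_lit 1) (nat_lit 349) (nat_lit 391) (nat_lit 280))))) (XT.nd (nat_lit 234) (nat_lit 456) (nat_lit 0) (XT.nd (nat_lit 78) (nat_lit 228) (nat_lit 0) (XT.lf (nat_lit 76) (nat_lit 1769034804) (nat_lit 0) (nat_lit 1842942129) (nat_lit 76) (nat_lit 2671191381) (nat_lit 54) (nat_lit 3) (nat_lit 53) (nat_lit 1) (nat_lit 54) (nat_lit 1) (nat_lit 350) (nat_lit 391) (nat_lit 279)) (XT.nd (nat_lit 78) (nat_lit 76) (nat_lit 0) (XT.lf (nat_lit 0) (nat_lit 795864062) (nat_lit 0) (nat_lit 1630035654) (nat_lit 152) (nat_lit 3755590985) (nat_lit 51) (nat_lit 3) (nat_lit 51) (nat_lit 1) (nat_lit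 53) (nat_lit 1) (nat_lit 351) (nat_lit 391) (nat_lit 278)) (XT.lf (nat_lit 76) (nat_lit 1151952225) (nat_lit 0) (nat_lit 2982965505) (nat_lit 76) (nat_lit 1946401361) (nat_lit 51) (nat_lit 3) (nat_lit 50) (nat_lit 1) (nat_lit 51) (nat_lit 1) (nat_lit 352) (nat_lit 391) (nat_lit 277)))) (XT.nd (nat_lit 156) (nat_lit 228) (nat_lit 0) (XT.nd (nat_lit 78) (nat_lit 76) (nat_lit 0) (XT.lf (nat_lit 0) (nat_lit 1393450357) (nat_lit 0) (nat_lit 2128031157) (nat_lit 152) (nat_lit 2461342765) (nat_lit 48) (nat_lit 3) (nat_lit 48) (nat_lit 1) (nat_lit 50) (nat_lit 1) (nat_lit 353) (nat_lit 391) (nat_lit 276)) (XT.lf (nat_lit 76) (nat_lit 569771593) (nat_lit 0) (nat_lit 4046981256) (nat_lit 76) (nat_lit 1269372355) (nat_lit 48) (nat_lit 3) (nat_lit 47) (nat_lit 1) (nat_lit 48) (nat_lit 1) (nat_lit 354) (nat_lit 391) (nat_lit 275))) (XT.nd (nat_lit 78) (nat_lit 76) (nat_lit 0) (XT.lf (nat_lit 0) (nat_lit 1948179052)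 (nat_lit 0) (nat_lit 2595059091) (nat_lit 152) (nat_lit 1247469679) (nat_lit 45) (nat_lit 3) (nat_lit 45) (nat_lit 1) (nat_lit 47) (nat_lit 1) (nat_lit 355) (nat_lit 391) (nat_lit 274)) (XT.lf (nat_lit 76) (nat_lit 21364231) (nat_lit 0) (nat_lit 5038551046) (nat_lit 76) (nat_lit 637440458) (nat_lit 45) (nat_lit 3) (nat_lit 44) (nat_lit 1) (nat_lit 45) (nat_lit 1) (nat_lit 356) (nat_lit 391) (nat_lit 273))))))) (XT.nd (nat_lit 1092) (nat_lit 1444) (nat_lit 0) (XT.nd (nat_lit 546) (nat_lit 912) (nat_lit 0) (XT.nd (nat_lit 234) (nat_lit 456) (nat_lit 0) (XT.nd (nat_lit 78) (nat_lit 304) (nat_lit 0) (XT.lf (nat_lit 0) (nat_lit 2462501055) (nat_lit 0) (nat_lit 3032150826) (nat_lit 152) (nat_lit 110262595) (nat_lit 42) (nat_lit 3) (nat_lit 42) (nat_lit 1) (nat_lit 44) (nat_lit 1) (nat_lit 357) (nat_lit 391) (nat_lit 272)) (XT.nd (nat_lit 78) (nat_lit 76) (nat_lit 0) (XT.lf (nat_lit 152) (nat_lit 5025410919)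 (nat_lit 0) (nat_lit 450360467) (nat_lit 76) (nat_lit 38744980) (nat_lit 41) (nat_lit 1) (nat_lit 39) (nat_lit 1) (nat_lit 40) (nat_lit 1) (nat_lit 358) (nat_lit 391) (nat_lit 271)) (XT.lf (nat_lit 76) (nat_lit 1975232615) (nat_lit 0) (nat_lit 972840511) (nat_lit 76) (nat_lit 2476872552) (nat_lit 39) (nat_lit 3) (nat_lit 38) (nat_lit 1) (nat_lit 39) (nat_lit 1) (nat_lit 359) (nat_lit 391) (nat_lit 270)))) (XT.nd (nat_lit 156) (nat_lit 228) (nat_lit 0) (XT.nd (nat_lit 78) (nat_lit 76) (nat_lit 0) (XT.lf (nat_lit 0) (nat_lit 515294624) (nat_lit 0) (nat_lit 979131829) (nat_lit 152) (nat_lit 3842918467) (nat_lit 36) (nat_lit 3) (nat_lit 36) (nat_lit 1) (nat_lit 38) (nat_lit 1) (nat_lit 360) (nat_lit 391) (nat_lit 269)) (XT.lf (nat_lit 76) (nat_lit 1410998643) (nat_lit 0) (nat_lit 1987113393) (nat_lit 76) (nat_lit 1852748362) (nat_lit 36) (nat_lit 3) (nat_lit 35) (nat_lit 1) (nat_lit 36) (nat_lit 1)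 (nat_lit 361) (nat_lit 391) (nat_lit 268))) (XT.nd (nat_lit 78) (nat_lit 76) (nat_lit 0) (XT.lf (nat_lit 0) (nat_lit 1030346880) (nat_lit 0) (nat_lit 1438807091) (nat_lit 152) (nat_lit 2696832476) (nat_lit 33) (nat_lit 3) (nat_lit 33) (nat_lit 1) (nat_lit 35) (nat_lit 1) (nat_lit 362) (nat_lit 391) (nat_lit 267)) (XT.lf (nat_lit 76) (nat_lit 879864984) (nat_lit 0) (nat_lit 2933748747) (nat_lit 76) (nat_lit 1268874710) (nat_lit 33) (nat_lit 3) (nat_lit 32) (nat_lit 1) (nat_lit 33) (nat_lit 1) (nat_lit 363) (nat_lit 391) (nat_lit 266))))) (XT.nd (nat_lit 234) (nat_lit 532) (nat_lit 0) (XT.nd (nat_lit 78) (nat_lit 228) (nat_lit 0) (XT.lf (nat_lit 0) (nat_lit 1509268840) (nat_lit 0) (nat_lit 1868963454) (nat_lit 152) (nat_lit 1622020565) (nat_lit 30) (nat_lit 3) (nat_lit 30) (nat_lit 1) (nat_lit 32) (nat_lit 1) (nat_lit 364) (nat_lit 391) (nat_lit 265)) (XT.nd (nat_lit 78) (nat_lit 152) (nat_lit 0)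 (XT.lf (nat_lit 76) (nat_lit 380531530) (nat_lit 0) (nat_lit 3816005456) (nat_lit 76) (nat_lit 723097830) (nat_lit 30) (nat_lit 3) (nat_lit 29) (nat_lit 1) (nat_lit 30) (nat_lit 1) (nat_lit 365) (nat_lit 391) (nat_lit 264)) (XT.lf (nat_lit 0) (nat_lit 1954044790) (nat_lit 0) (nat_lit 2270795875) (nat_lit 152) (nat_lit 615111705) (nat_lit 27) (nat_lit 3) (nat_lit 27) (nat_lit 1) (nat_lit 29) (nat_lit 1) (nat_lit 366) (nat_lit 391) (nat_lit 263)))) (XT.nd (nat_lit 156) (nat_lit 228) (nat_lit 0) (XT.nd (nat_lit 78) (nat_lit 152) (nat_lit 0) (XT.lf (nat_lit 76) (nat_lit 4549579007) (nat_lit 0) (nat_lit 86563459) (nat_lit 152) (nat_lit 125943877) (nat_lit 26) (nat_lit 1) (nat_lit 25) (nat_lit 1) (nat_lit 27) (nat_lit 1) (nat_lit 367) (nat_lit 391) (nat_lit 262)) (XT.lf (nat_lit 76) (nat_lit 2036112391) (nat_lit 0) (nat_lit 333644776) (nat_lit 76) (nat_lit 2315046927) (nat_lit 24) (nat_lit 3) (nat_lit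 23) (nat_lit 1) (nat_lit 24) (nat_lit 1) (nat_lit 368) (nat_lit 391) (nat_lit 261))) (XT.nd (nat_lit 78) (nat_lit 76) (nat_lit 0) (XT.lf (nat_lit 0) (nat_lit 269980647) (nat_lit 0) (nat_lit 527895151) (nat_lit 152) (nat_lit 3811400326) (nat_lit 21) (nat_lit 3) (nat_lit 21) (nat_lit 1) (nat_lit 23) (nat_lit 1) (nat_lit 369) (nat_lit 391) (nat_lit 260)) (XT.lf (nat_lit 76) (nat_lit 1528531634) (nat_lit 0) (nat_lit 1231867441) (nat_lit 76) (nat_lit 1774164495) (nat_lit 21) (nat_lit 3) (nat_lit 20) (nat_lit 1) (nat_lit 21) (nat_lit 1) (nat_lit 370) (nat_lit 391) (nat_lit 259)))))) (XT.nd (nat_lit 546) (nat_lit 608) (nat_lit 0) (XT.nd (nat_lit 234) (nat_lit 456) (nat_lit 0) (XT.nd (nat_lit 78) (nat_lit 228) (nat_lit 0) (XT.lf (nat_lit 0) (nat_lit 717022125) (nat_lit 0) (nat_lit 944144511) (nat_lit 152) (nat_lit 2800211577) (nat_lit 18) (nat_lit 3) (nat_lit 18) (nat_lit 1) (nat_lit 20) (nat_lit 1) (nat_lit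 371) (nat_lit 391) (nat_lit 258)) (XT.nd (nat_lit 78) (nat_lit 152) (nat_lit 0) (XT.lf (nat_lit 76) (nat_lit 1051285466) (nat_lit 0) (nat_lit 2070361501) (nat_lit 76) (nat_lit 1267592501) (nat_lit 18) (nat_lit 3) (nat_lit 17) (nat_lit 1) (nat_lit 18) (nat_lit 1) (nat_lit 372) (nat_lit 391) (nat_lit 257)) (XT.lf (nat_lit 0) (nat_lit 1133250927) (nat_lit 0) (nat_lit 1333257432) (nat_lit 152) (nat_lit 1851813411) (nat_lit 15) (nat_lit 3) (nat_lit 15) (nat_lit 1) (nat_lit 17) (nat_lit 1) (nat_lit 373) (nat_lit 391) (nat_lit 256)))) (XT.nd (nat_lit 156) (nat_lit 228) (nat_lit 0) (XT.nd (nat_lit 78) (nat_lit 152) (nat_lit 0) (XT.lf (nat_lit 76) (nat_lit 603066422) (nat_lit 0) (nat_lit 2852050560) (nat_lit 76) (nat_lit 793548807) (nat_lit 15) (nat_lit 3) (nat_lit 14) (nat_lit 1) (nat_lit 15) (nat_lit 1) (nat_lit 374) (nat_lit 391) (nat_lit 255)) (XT.lf (nat_lit 0) (nat_lit 1520310749) (nat_lit 0) (nat_lit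 1696438706) (nat_lit 152) (nat_lit 963193938) (nat_lit 12) (nat_lit 3) (nat_lit 12) (nat_lit 1) (nat_lit 14) (nat_lit 1) (nat_lit 375) (nat_lit 391) (nat_lit 254))) (XT.nd (nat_lit 78) (nat_lit 152) (nat_lit 0) (XT.lf (nat_lit 76) (nat_lit 182601673) (nat_lit 0) (nat_lit 3579738261) (nat_lit 76) (nat_lit 350342584) (nat_lit 12) (nat_lit 3) (nat_lit 11) (nat_lit 1) (nat_lit 12) (nat_lit 1) (nat_lit 376) (nat_lit 391) (nat_lit 253)) (XT.lf (nat_lit 0) (nat_lit 1879760313) (nat_lit 0) (nat_lit 2034860555) (nat_lit 152) (nat_lit 131464688) (nat_lit 9) (nat_lit 3) (nat_lit 9) (nat_lit 1) (nat_lit 11) (nat_lit 1) (nat_lit 377) (nat_lit 391) (nat_lit 252))))) (XT.nd (nat_lit 234) (nat_lit 152) (nat_lit 0) (XT.nd (nat_lit 78) (nat_lit 228) (nat_lit 0) (XT.lf (nat_lit 0) (nat_lit 67143463) (nat_lit 0) (nat_lit 210555615) (nat_lit 152) (nat_lit 3703275322) (nat_lit 6) (nat_lit 3) (nat_lit 6) (nat_lit 1)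 (nat_lit 8) (nat_lit 1) (nat_lit 378) (nat_lit 391) (nat_lit 251)) (XT.nd (nat_lit 78) (nat_lit 152) (nat_lit 0) (XT.lf (nat_lit 76) (nat_lit 1560410266) (nat_lit 0) (nat_lit 659002780) (nat_lit 76) (nat_lit 1696993267) (nat_lit 6) (nat_lit 3) (nat_lit 5) (nat_lit 1) (nat_lit 6) (nat_lit 1) (nat_lit 379) (nat_lit 391) (nat_lit 250)) (XT.lf (nat_lit 0) (nat_lit 456888495) (nat_lit 0) (nat_lit 583178833) (nat_lit 152) (nat_lit 2813205342) (nat_lit 3) (nat_lit 3) (nat_lit 3) (nat_lit 1) (nat_lit 5) (nat_lit 1) (nat_lit 380) (nat_lit 391) (nat_lit 249)))) (XT.nd (nat_lit 42744) (nat_lit 0) (nat_lit 25612) (XT.nd (nat_lit 78) (nat_lit 76) (nat_lit 0) (XT.lf (nat_lit 76) (nat_lit 1135527433) (nat_lit 0) (nat_lit 1399594293) (nat_lit 76) (nat_lit 1255803946) (nat_lit 3) (nat_lit 3) (nat_lit 2) (nat_lit 1) (nat_lit 3) (nat_lit 1) (nat_lit 381) (nat_lit 391) (nat_lit 248)) (XT.lf (nat_lit 0) (nat_lit 820153060)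 (nat_lit 0) (nat_lit 931365739) (nat_lit 76) (nat_lit 1978225467) (nat_lit 1) (nat_lit 3) (nat_lit 1) (nat_lit 1) (nat_lit 2) (nat_lit 1) (nat_lit 382) (nat_lit 391) (nat_lit 247))) (XT.nd (nat_lit 78) (nat_lit 608) (nat_lit 0) (XT.lf (nat_lit 684) (nat_lit 16088730803) (nat_lit 0) (nat_lit 7606763794) (nat_lit 608) (nat_lit 15132801744) (nat_lit 355) (nat_lit 1) (nat_lit 346) (nat_lit 1) (nat_lit 354) (nat_lit 1) (nat_lit 248) (nat_lit 392) (nat_lit 380)) (XT.lf (nat_lit 684) (nat_lit 9550047776) (nat_lit 0) (nat_lit 3884234120) (nat_lit 608) (nat_lit 24550224773) (nat_lit 347) (nat_lit 1) (nat_lit 338) (nat_lit 1) (nat_lit 346) (nat_lit 1) (nat_lit 249) (nat_lit 392) (nat_lit 379))))))))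
noncomputable def ec112 : XT := (XT.nd (nat_lit 2106) (nat_lit 5548) (nat_lit 0) (XT.nd (nat_lit 1014) (nat_lit 4636) (nat_lit 0) (XT.nd (nat_lit 468) (nat_lit 3192) (nat_lit 0) (XT.nd (nat_lit 234) (nat_lit 1520) (nat_lit 0) (XT.nd (nat_lit 78) (nat_lit 684) (nat_lit 0) (XT.lf (nat_lit 608) (nat_lit 2840968703) (nat_lit 0) (nat_lit 578565357) (nat_lit 532) (nat_lit 33747331497) (nat_lit 339) (nat_lit 1) (nat_lit 331) (nat_lit 1) (nat_lit 338) (nat_lit 1) (nat_lit 250) (nat_lit 392) (nat_lit 378)) (XT.nd (nat_lit 78) (nat_lit 608) (nat_lit 0) (XT.lf (nat_lit 76) (nat_lit 29956809461) (nat_lit 0) (nat_lit 4025686938) (nat_lit 608) (nat_lit 2388250895) (nat_lit 331) (nat_lit 1) (nat_lit 330) (nat_lit 1) (nat_lit 338) (nat_lit 1) (nat_lit 251) (nat_lit 392) (nat_lit 377)) (XT.lf (nat_lit 76) (nat_lit 19559902936) (nat_lit 0) (nat_lit 10999984063) (nat_lit 684) (nat_lit 5037249484) (nat_lit 323) (nat_lit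 1) (nat_lit 322) (nat_lit 1) (nat_lit 331) (nat_lit 1) (nat_lit 252) (nat_lit 392) (nat_lit 376)))) (XT.nd (nat_lit 78) (nat_lit 988) (nat_lit 0) (XT.lf (nat_lit 76) (nat_lit 9427963524) (nat_lit 0) (nat_lit 18081191605) (nat_lit 608) (nat_lit 7338038559) (nat_lit 316) (nat_lit 1) (nat_lit 315) (nat_lit 1) (nat_lit 323) (nat_lit 1) (nat_lit 253) (nat_lit 392) (nat_lit 375)) (XT.nd (nat_lit 78) (nat_lit 456) (nat_lit 0) (XT.lf (nat_lit 608) (nat_lit 8862008293) (nat_lit 0) (nat_lit 24806435232) (nat_lit 532) (nat_lit 451535763) (nat_lit 316) (nat_lit 1) (nat_lit 308) (nat_lit 1) (nat_lit 315) (nat_lit 1) (nat_lit 254) (nat_lit 392) (nat_lit 374)) (XT.lf (nat_lit 532) (nat_lit 810924123) (nat_lit 0) (nat_lit 22345087377) (nat_lit 456) (nat_lit 10256135916) (nat_lit 309) (nat_lit 1) (nat_lit 302) (nat_lit 1) (nat_lit 308) (nat_lit 1) (nat_lit 255) (nat_lit 392) (nat_lit 373))))) (XT.nd (nat_lit 234)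 (nat_lit 1672) (nat_lit 0) (XT.nd (nat_lit 78) (nat_lit 912) (nat_lit 0) (XT.lf (nat_lit 76) (nat_lit 12993462322) (nat_lit 0) (nat_lit 7137085941) (nat_lit 608) (nat_lit 12593072877) (nat_lit 295) (nat_lit 1) (nat_lit 294) (nat_lit 1) (nat_lit 302) (nat_lit 1) (nat_lit 256) (nat_lit 392) (nat_lit 372)) (XT.nd (nat_lit 78) (nat_lit 456) (nat_lit 0) (XT.lf (nat_lit 76) (nat_lit 3114032306) (nat_lit 0) (nat_lit 15095674230) (nat_lit 532) (nat_lit 13845828816) (nat_lit 289) (nat_lit 1) (nat_lit 288) (nat_lit 1) (nat_lit 295) (nat_lit 1) (nat_lit 257) (nat_lit 392) (nat_lit 371)) (XT.lf (nat_lit 532) (nat_lit 8272170804) (nat_lit 0) (nat_lit 16509002371) (nat_lit 456) (nat_lit 6624347950) (nat_lit 289) (nat_lit 1) (nat_lit 282) (nat_lit 1) (nat_lit 288) (nat_lit 1) (nat_lit 258) (nat_lit 392) (nat_lit 370)))) (XT.nd (nat_lit 156) (nat_lit 760) (nat_lit 0) (XT.nd (nat_lit 78) (nat_lit 456) (nat_lit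 0) (XT.lf (nat_lit 76) (nat_lit 14623963882) (nat_lit 0) (nat_lit 421764368) (nat_lit 456) (nat_lit 15728131786) (nat_lit 277) (nat_lit 1) (nat_lit 276) (nat_lit 1) (nat_lit 282) (nat_lit 1) (nat_lit 259) (nat_lit 392) (nat_lit 369)) (XT.lf (nat_lit 76) (nat_lit 4830151051) (nat_lit 0) (nat_lit 8929167677) (nat_lit 532) (nat_lit 16399251451) (nat_lit 271) (nat_lit 1) (nat_lit 270) (nat_lit 1) (nat_lit 277) (nat_lit 1) (nat_lit 260) (nat_lit 392) (nat_lit 368))) (XT.nd (nat_lit 78) (nat_lit 380) (nat_lit 0) (XT.lf (nat_lit 456) (nat_lit 12110629336) (nat_lit 0) (nat_lit 12670488333) (nat_lit 380) (nat_lit 4778923511) (nat_lit 271) (nat_lit 1) (nat_lit 265) (nat_lit 1) (nat_lit 270) (nat_lit 1) (nat_lit 261) (nat_lit 392) (nat_lit 367)) (XT.lf (nat_lit 456) (nat_lit 3003843899) (nat_lit 0) (nat_lit 11767286448) (nat_lit 380) (nat_lit 14206584977) (nat_lit 266) (nat_lit 1) (nat_lit 260) (nat_lit 1)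 (nat_lit 265) (nat_lit 1) (nat_lit 262) (nat_lit 392) (nat_lit 366)))))) (XT.nd (nat_lit 546) (nat_lit 2052) (nat_lit 0) (XT.nd (nat_lit 234) (nat_lit 1444) (nat_lit 0) (XT.nd (nat_lit 78) (nat_lit 684) (nat_lit 0) (XT.lf (nat_lit 76) (nat_lit 5107802806) (nat_lit 0) (nat_lit 5918228879) (nat_lit 456) (nat_lit 17384665526) (nat_lit 255) (nat_lit 1) (nat_lit 254) (nat_lit 1) (nat_lit 260) (nat_lit 1) (nat_lit 263) (nat_lit 392) (nat_lit 365)) (XT.nd (nat_lit 78) (nat_lit 304) (nat_lit 0) (XT.lf (nat_lit 456) (nat_lit 13105929863) (nat_lit 0) (nat_lit 10422480401) (nat_lit 380) (nat_lit 4329668722) (nat_lit 255) (nat_lit 1) (nat_lit 249) (nat_lit 1) (nat_lit 254) (nat_lit 1) (nat_lit 264) (nat_lit 392) (nat_lit 364)) (XT.lf (nat_lit 380) (nat_lit 3762780039) (nat_lit 0) (nat_lit 9968928116) (nat_lit 304) (nat_lit 13588312731) (nat_lit 250) (nat_lit 1) (nat_lit 245) (nat_lit 1) (nat_lit 249) (nat_lit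 1) (nat_lit 265) (nat_lit 392) (nat_lit 363)))) (XT.nd (nat_lit 156) (nat_lit 684) (nat_lit 0) (XT.nd (nat_lit 78) (nat_lit 304) (nat_lit 0) (XT.lf (nat_lit 76) (nat_lit 4277210846) (nat_lit 0) (nat_lit 5374419379) (nat_lit 456) (nat_lit 17144298237) (nat_lit 240) (nat_lit 1) (nat_lit 239) (nat_lit 1) (nat_lit 245) (nat_lit 1) (nat_lit 266) (nat_lit 392) (nat_lit 362)) (XT.lf (nat_lit 380) (nat_lit 11899165929) (nat_lit 0) (nat_lit 9428996288) (nat_lit 304) (nat_lit 4956237703) (nat_lit 240) (nat_lit 1) (nat_lit 235) (nat_lit 1) (nat_lit 239) (nat_lit 1) (nat_lit 267) (nat_lit 392) (nat_lit 361))) (XT.nd (nat_lit 78) (nat_lit 380) (nat_lit 0) (XT.lf (nat_lit 380) (nat_lit 2454776883) (nat_lit 0) (nat_lit 9336897334) (nat_lit 304) (nat_lit 13994619039) (nat_lit 236) (nat_lit 1) (nat_lit 231) (nat_lit 1) (nat_lit 235) (nat_lit 1) (nat_lit 268) (nat_lit 392) (nat_lit 360)) (XT.lf (nat_lit 76) (nat_lit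 2608697554) (nat_lit 0) (nat_lit 6732193773) (nat_lit 380) (nat_lit 15959530739) (nat_lit 227) (nat_lit 1) (nat_lit 226) (nat_lit 1) (nat_lit 231) (nat_lit 1) (nat_lit 269) (nat_lit 392) (nat_lit 359))))) (XT.nd (nat_lit 234) (nat_lit 1140) (nat_lit 0) (XT.nd (nat_lit 78) (nat_lit 608) (nat_lit 0) (XT.lf (nat_lit 380) (nat_lit 9016017212) (nat_lit 0) (nat_lit 9413351322) (nat_lit 304) (nat_lit 6396433402) (nat_lit 227) (nat_lit 1) (nat_lit 222) (nat_lit 1) (nat_lit 226) (nat_lit 1) (nat_lit 270) (nat_lit 392) (nat_lit 358)) (XT.nd (nat_lit 78) (nat_lit 304) (nat_lit 0) (XT.lf (nat_lit 76) (nat_lit 9191788969) (nat_lit 0) (nat_lit 413570727) (nat_lit 304) (nat_lit 14758384685) (nat_lit 219) (nat_lit 1) (nat_lit 218) (nat_lit 1) (nat_lit 222) (nat_lit 1) (nat_lit 271) (nat_lit 392) (nat_lit 357)) (XT.lf (nat_lit 76) (nat_lit 322761490) (nat_lit 0) (nat_lit 9528354599) (nat_lit 380) (nat_lit 14061043834)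 (nat_lit 215) (nat_lit 1) (nat_lit 214) (nat_lit 1) (nat_lit 219) (nat_lit 1) (nat_lit 272) (nat_lit 392) (nat_lit 356)))) (XT.nd (nat_lit 156) (nat_lit 532) (nat_lit 0) (XT.nd (nat_lit 78) (nat_lit 380) (nat_lit 0) (XT.lf (nat_lit 304) (nat_lit 4886096694) (nat_lit 0) (nat_lit 10148292610) (nat_lit 228) (nat_lit 8436421785) (nat_lit 215) (nat_lit 1) (nat_lit 211) (nat_lit 1) (nat_lit 214) (nat_lit 1) (nat_lit 273) (nat_lit 392) (nat_lit 355)) (XT.lf (nat_lit 76) (nat_lit 6155087273) (nat_lit 0) (nat_lit 4372908196) (nat_lit 380) (nat_lit 12512441979) (nat_lit 207) (nat_lit 1) (nat_lit 206) (nat_lit 1) (nat_lit 211) (nat_lit 1) (nat_lit 274) (nat_lit 392) (nat_lit 354))) (XT.nd (nat_lit 78) (nat_lit 304) (nat_lit 0) (XT.lf (nat_lit 304) (nat_lit 9211561744) (nat_lit 0) (nat_lit 10959117323) (nat_lit 228) (nat_lit 2449290627) (nat_lit 207) (nat_lit 1) (nat_lit 203) (nat_lit 1) (nat_lit 206) (nat_lit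 1) (nat_lit 275) (nat_lit 392) (nat_lit 353)) (XT.lf (nat_lit 76) (nat_lit 11308229778) (nat_lit 0) (nat_lit 138117239) (nat_lit 304) (nat_lit 10763037221) (nat_lit 200) (nat_lit 1) (nat_lit 199) (nat_lit 1) (nat_lit 203) (nat_lit 1) (nat_lit 276) (nat_lit 392) (nat_lit 352))))))) (XT.nd (nat_lit 1092) (nat_lit 2356) (nat_lit 0) (XT.nd (nat_lit 546) (nat_lit 1520) (nat_lit 0) (XT.nd (nat_lit 234) (nat_lit 912) (nat_lit 0) (XT.nd (nat_lit 78) (nat_lit 532) (nat_lit 0) (XT.lf (nat_lit 76) (nat_lit 2810284268) (nat_lit 0) (nat_lit 9146522067) (nat_lit 304) (nat_lit 9850760022) (nat_lit 197) (nat_lit 1) (nat_lit 196) (nat_lit 1) (nat_lit 200) (nat_lit 1) (nat_lit 277) (nat_lit 392) (nat_lit 351)) (XT.nd (nat_lit 78) (nat_lit 304) (nat_lit 0) (XT.lf (nat_lit 304) (nat_lit 3367635409) (nat_lit 0) (nat_lit 12520414810) (nat_lit 228) (nat_lit 5527183161) (nat_lit 197) (nat_lit 1) (nat_lit 193) (nat_lit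 1) (nat_lit 196) (nat_lit 1) (nat_lit 278) (nat_lit 392) (nat_lit 350)) (XT.lf (nat_lit 76) (nat_lit 7433968259) (nat_lit 0) (nat_lit 5668674772) (nat_lit 304) (nat_lit 7928585383) (nat_lit 190) (nat_lit 1) (nat_lit 189) (nat_lit 1) (nat_lit 193) (nat_lit 1) (nat_lit 279) (nat_lit 392) (nat_lit 349)))) (XT.nd (nat_lit 156) (nat_lit 456) (nat_lit 0) (XT.nd (nat_lit 78) (nat_lit 228) (nat_lit 0) (XT.lf (nat_lit 304) (nat_lit 6177896292) (nat_lit 0) (nat_lit 13744127453) (nat_lit 228) (nat_lit 734563004) (nat_lit 190) (nat_lit 1) (nat_lit 186) (nat_lit 1) (nat_lit 189) (nat_lit 1) (nat_lit 280) (nat_lit 392) (nat_lit 348)) (XT.lf (nat_lit 76) (nat_lit 11532073298) (nat_lit 0) (nat_lit 2846414719) (nat_lit 228) (nat_lit 5910741494) (nat_lit 184) (nat_lit 1) (nat_lit 183) (nat_lit 1) (nat_lit 186) (nat_lit 1) (nat_lit 281) (nat_lit 392) (nat_lit 347))) (XT.nd (nat_lit 78) (nat_lit 228) (nat_lit 0) (XT.lf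 (nat_lit 76) (nat_lit 3467452985) (nat_lit 0) (nat_lit 11577038279) (nat_lit 304) (nat_lit 4885651855) (nat_lit 181) (nat_lit 1) (nat_lit 180) (nat_lit 1) (nat_lit 184) (nat_lit 1) (nat_lit 282) (nat_lit 392) (nat_lit 346)) (XT.lf (nat_lit 76) (nat_lit 15160129911) (nat_lit 0) (nat_lit 588023279) (nat_lit 228) (nat_lit 3831209622) (nat_lit 178) (nat_lit 1) (nat_lit 177) (nat_lit 1) (nat_lit 180) (nat_lit 1) (nat_lit 283) (nat_lit 392) (nat_lit 345))))) (XT.nd (nat_lit 234) (nat_lit 912) (nat_lit 0) (XT.nd (nat_lit 78) (nat_lit 380) (nat_lit 0) (XT.lf (nat_lit 76) (nat_lit 7197005962) (nat_lit 0) (nat_lit 9223315075) (nat_lit 304) (nat_lit 2814416074) (nat_lit 175) (nat_lit 1) (nat_lit 174) (nat_lit 1) (nat_lit 178) (nat_lit 1) (nat_lit 284) (nat_lit 392) (nat_lit 344)) (XT.nd (nat_lit 78) (nat_lit 228) (nat_lit 0) (XT.lf (nat_lit 228) (nat_lit 1210249319) (nat_lit 0) (nat_lit 17168876751) (nat_lit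 152) (nat_lit 520147438) (nat_lit 175) (nat_lit 1) (nat_lit 172) (nat_lit 1) (nat_lit 174) (nat_lit 1) (nat_lit 285) (nat_lit 392) (nat_lit 343)) (XT.lf (nat_lit 76) (nat_lit 10515820692) (nat_lit 0) (nat_lit 7334111981) (nat_lit 228) (nat_lit 718716289) (nat_lit 170) (nat_lit 1) (nat_lit 169) (nat_lit 1) (nat_lit 172) (nat_lit 1) (nat_lit 286) (nat_lit 392) (nat_lit 342)))) (XT.nd (nat_lit 156) (nat_lit 380) (nat_lit 0) (XT.nd (nat_lit 78) (nat_lit 228) (nat_lit 0) (XT.lf (nat_lit 228) (nat_lit 2565230347) (nat_lit 0) (nat_lit 355721263) (nat_lit 152) (nat_lit 15325520408) (nat_lit 168) (nat_lit 1) (nat_lit 165) (nat_lit 1) (nat_lit 167) (nat_lit 1) (nat_lit 287) (nat_lit 392) (nat_lit 341)) (XT.lf (nat_lit 228) (nat_lit 12073427131) (nat_lit 0) (nat_lit 1406162206) (nat_lit 152) (nat_lit 4450123548) (nat_lit 165) (nat_lit 1) (nat_lit 162) (nat_lit 1) (nat_lit 164) (nat_lit 1) (nat_lit 288) (nat_lit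 392) (nat_lit 340))) (XT.nd (nat_lit 78) (nat_lit 228) (nat_lit 0) (XT.lf (nat_lit 228) (nat_lit 3541557332) (nat_lit 0) (nat_lit 2466459898) (nat_lit 152) (nat_lit 11611839889) (nat_lit 163) (nat_lit 1) (nat_lit 160) (nat_lit 1) (nat_lit 162) (nat_lit 1) (nat_lit 289) (nat_lit 392) (nat_lit 339)) (XT.lf (nat_lit 228) (nat_lit 12591478399) (nat_lit 0) (nat_lit 3527754632) (nat_lit 152) (nat_lit 1197287614) (nat_lit 160) (nat_lit 1) (nat_lit 157) (nat_lit 1) (nat_lit 159) (nat_lit 1) (nat_lit 290) (nat_lit 392) (nat_lit 338)))))) (XT.nd (nat_lit 546) (nat_lit 1216) (nat_lit 0) (XT.nd (nat_lit 234) (nat_lit 608) (nat_lit 0) (XT.nd (nat_lit 78) (nat_lit 380) (nat_lit 0) (XT.lf (nat_lit 228) (nat_lit 4215860968) (nat_lit 0) (nat_lit 4554379145) (nat_lit 152) (nat_lit 8248300874) (nat_lit 158) (nat_lit 1) (nat_lit 155) (nat_lit 1) (nat_lit 157) (nat_lit 1) (nat_lit 291) (nat_lit 392) (nat_lit 337))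 (XT.nd (nat_lit 78) (nat_lit 152) (nat_lit 0) (XT.lf (nat_lit 76) (nat_lit 1699389460) (nat_lit 0) (nat_lit 3899153123) (nat_lit 228) (nat_lit 11128774948) (nat_lit 153) (nat_lit 1) (nat_lit 152) (nat_lit 1) (nat_lit 155) (nat_lit 1) (nat_lit 292) (nat_lit 392) (nat_lit 336)) (XT.lf (nat_lit 228) (nat_lit 4635189564) (nat_lit 0) (nat_lit 6604514389) (nat_lit 152) (nat_lit 5201404143) (nat_lit 153) (nat_lit 1) (nat_lit 150) (nat_lit 1) (nat_lit 152) (nat_lit 1) (nat_lit 293) (nat_lit 392) (nat_lit 335)))) (XT.nd (nat_lit 156) (nat_lit 304) (nat_lit 0) (XT.nd (nat_lit 78) (nat_lit 152) (nat_lit 0) (XT.lf (nat_lit 76) (nat_lit 4287127867) (nat_lit 0) (nat_lit 3326403156) (nat_lit 152) (nat_lit 8547466029) (nat_lit 149) (nat_lit 1) (nat_lit 148) (nat_lit 1) (nat_lit 150) (nat_lit 1) (nat_lit 294) (nat_lit 392) (nat_lit 334)) (XT.lf (nat_lit 228) (nat_lit 4840443428) (nat_lit 0) (nat_lit 8604618414)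 (nat_lit 152) (nat_lit 2441197190) (nat_lit 149) (nat_lit 1) (nat_lit 146) (nat_lit 1) (nat_lit 148) (nat_lit 1) (nat_lit 295) (nat_lit 392) (nat_lit 333))) (XT.nd (nat_lit 78) (nat_lit 152) (nat_lit 0) (XT.lf (nat_lit 76) (nat_lit 6616539632) (nat_lit 0) (nat_lit 2957057359) (nat_lit 152) (nat_lit 6043063021) (nat_lit 145) (nat_lit 1) (nat_lit 144) (nat_lit 1) (nat_lit 146) (nat_lit 1) (nat_lit 296) (nat_lit 392) (nat_lit 332)) (XT.lf (nat_lit 76) (nat_lit 57974270) (nat_lit 0) (nat_lit 10486234494) (nat_lit 228) (nat_lit 4808572591) (nat_lit 143) (nat_lit 1) (nat_lit 142) (nat_lit 1) (nat_lit 145) (nat_lit 1) (nat_lit 297) (nat_lit 392) (nat_lit 331))))) (XT.nd (nat_lit 234) (nat_lit 760) (nat_lit 0) (XT.nd (nat_lit 78) (nat_lit 304) (nat_lit 0) (XT.lf (nat_lit 76) (nat_lit 8712014754) (nat_lit 0) (nat_lit 2757921858) (nat_lit 152) (nat_lit 3623223529) (nat_lit 141) (nat_lit 1) (nat_lit 140)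 (nat_lit 1) (nat_lit 142) (nat_lit 1) (nat_lit 298) (nat_lit 392) (nat_lit 330)) (XT.nd (nat_lit 78) (nat_lit 152) (nat_lit 0) (XT.lf (nat_lit 76) (nat_lit 2278248873) (nat_lit 0) (nat_lit 10115918614) (nat_lit 228) (nat_lit 2444786585) (nat_lit 139) (nat_lit 1) (nat_lit 138) (nat_lit 1) (nat_lit 141) (nat_lit 1) (nat_lit 299) (nat_lit 392) (nat_lit 329)) (XT.lf (nat_lit 76) (nat_lit 10595407033) (nat_lit 0) (nat_lit 2700213053) (nat_lit 152) (nat_lit 1293819240) (nat_lit 137) (nat_lit 1) (nat_lit 136) (nat_lit 1) (nat_lit 138) (nat_lit 1) (nat_lit 300) (nat_lit 392) (nat_lit 328)))) (XT.nd (nat_lit 156) (nat_lit 304) (nat_lit 0) (XT.nd (nat_lit 78) (nat_lit 304) (nat_lit 0) (XT.lf (nat_lit 76) (nat_lit 4288386049) (nat_lit 0) (nat_lit 9883944371) (nat_lit 228) (nat_lit 172126288) (nat_lit 135) (nat_lit 1) (nat_lit 134) (nat_lit 1) (nat_lit 137) (nat_lit 1) (nat_lit 301) (nat_lit 392) (nat_lit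 327)) (XT.lf (nat_lit 228) (nat_lit 11336007406) (nat_lit 0) (nat_lit 959535066) (nat_lit 152) (nat_lit 1808699542) (nat_lit 133) (nat_lit 1) (nat_lit 130) (nat_lit 1) (nat_lit 132) (nat_lit 1) (nat_lit 302) (nat_lit 392) (nat_lit 326))) (XT.nd (nat_lit 78) (nat_lit 228) (nat_lit 0) (XT.lf (nat_lit 152) (nat_lit 4081555780) (nat_lit 0) (nat_lit 2045459476) (nat_lit 76) (nat_lit 7740735732) (nat_lit 131) (nat_lit 1) (nat_lit 129) (nat_lit 1) (nat_lit 130) (nat_lit 1) (nat_lit 303) (nat_lit 392) (nat_lit 325)) (XT.lf (nat_lit 76) (nat_lit 192116426) (nat_lit 0) (nat_lit 2944835167) (nat_lit 228) (nat_lit 10499577581) (nat_lit 127) (nat_lit 1) (nat_lit 126) (nat_lit 1) (nat_lit 129) (nat_lit 1) (nat_lit 304) (nat_lit 392) (nat_lit 324))))))))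
noncomputable def ec113 : XT := (XT.nd (nat_lit 2184) (nat_lit 3496) (nat_lit 0) (XT.nd (nat_lit 1092) (nat_lit 1748) (nat_lit 0) (XT.nd (nat_lit 546) (nat_lit 912) (nat_lit 0) (XT.nd (nat_lit 234) (nat_lit 532) (nat_lit 0) (XT.nd (nat_lit 78) (nat_lit 304) (nat_lit 0) (XT.lf (nat_lit 152) (nat_lit 3625343297) (nat_lit 0) (nat_lit 4166913118) (nat_lit 76) (nat_lit 5616268558) (nat_lit 127) (nat_lit 1) (nat_lit 125) (nat_lit 1) (nat_lit 126) (nat_lit 1) (nat_lit 305) (nat_lit 392) (nat_lit 323)) (XT.nd (nat_lit 78) (nat_lit 76) (nat_lit 0) (XT.lf (nat_lit 76) (nat_lit 1983984595) (nat_lit 0) (nat_lit 3212535723) (nat_lit 228) (nat_lit 7988904480) (nat_lit 123) (nat_lit 1) (nat_lit 122) (nat_lit 1) (nat_lit 125) (nat_lit 1) (nat_lit 306) (nat_lit 392) (nat_lit 322)) (XT.lf (nat_lit 152) (nat_lit 3110549695) (nat_lit 0) (nat_lit 6187205004) (nat_lit 76) (nat_lit 3668256995) (nat_lit 123) (nat_lit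 1) (nat_lit 121) (nat_lit 1) (nat_lit 122) (nat_lit 1) (nat_lit 307) (nat_lit 392) (nat_lit 321)))) (XT.nd (nat_lit 156) (nat_lit 228) (nat_lit 0) (XT.nd (nat_lit 78) (nat_lit 76) (nat_lit 0) (XT.lf (nat_lit 76) (nat_lit 3616925180) (nat_lit 0) (nat_lit 3538098399) (nat_lit 228) (nat_lit 5595637923) (nat_lit 119) (nat_lit 1) (nat_lit 118) (nat_lit 1) (nat_lit 121) (nat_lit 1) (nat_lit 308) (nat_lit 392) (nat_lit 320)) (XT.lf (nat_lit 152) (nat_lit 2551692974) (nat_lit 0) (nat_lit 8105642575) (nat_lit 76) (nat_lit 1882113642) (nat_lit 119) (nat_lit 1) (nat_lit 117) (nat_lit 1) (nat_lit 118) (nat_lit 1) (nat_lit 309) (nat_lit 392) (nat_lit 319))) (XT.nd (nat_lit 78) (nat_lit 76) (nat_lit 0) (XT.lf (nat_lit 76) (nat_lit 5104240561) (nat_lit 0) (nat_lit 3907929096) (nat_lit 152) (nat_lit 3319333474) (nat_lit 116) (nat_lit 1) (nat_lit 115) (nat_lit 1) (nat_lit 117) (nat_lit 1) (nat_lit 310) (nat_lit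 392) (nat_lit 318)) (XT.lf (nat_lit 152) (nat_lit 1961179034) (nat_lit 0) (nat_lit 9922302575) (nat_lit 76) (nat_lit 244644290) (nat_lit 116) (nat_lit 1) (nat_lit 114) (nat_lit 1) (nat_lit 115) (nat_lit 1) (nat_lit 311) (nat_lit 392) (nat_lit 317))))) (XT.nd (nat_lit 234) (nat_lit 456) (nat_lit 0) (XT.nd (nat_lit 78) (nat_lit 304) (nat_lit 0) (XT.lf (nat_lit 76) (nat_lit 6457963725) (nat_lit 0) (nat_lit 4310405000) (nat_lit 152) (nat_lit 1158892700) (nat_lit 113) (nat_lit 1) (nat_lit 112) (nat_lit 1) (nat_lit 114) (nat_lit 1) (nat_lit 312) (nat_lit 392) (nat_lit 316)) (XT.nd (nat_lit 78) (nat_lit 228) (nat_lit 0) (XT.lf (nat_lit 0) (nat_lit 1231591161) (nat_lit 0) (nat_lit 10393879512) (nat_lit 152) (nat_lit 105543085) (nat_lit 111) (nat_lit 3) (nat_lit 111) (nat_lit 1) (nat_lit 113) (nat_lit 1) (nat_lit 313) (nat_lit 392) (nat_lit 315)) (XT.lf (nat_lit 152) (nat_lit 6792708099) (nat_lit 0) (nat_lit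 904985919) (nat_lit 76) (nat_lit 3839336654) (nat_lit 110) (nat_lit 1) (nat_lit 108) (nat_lit 1) (nat_lit 109) (nat_lit 1) (nat_lit 314) (nat_lit 392) (nat_lit 314)))) (XT.nd (nat_lit 156) (nat_lit 228) (nat_lit 0) (XT.nd (nat_lit 78) (nat_lit 152) (nat_lit 0) (XT.lf (nat_lit 76) (nat_lit 680793083) (nat_lit 0) (nat_lit 1917264220) (nat_lit 76) (nat_lit 8749206310) (nat_lit 108) (nat_lit 3) (nat_lit 107) (nat_lit 1) (nat_lit 108) (nat_lit 1) (nat_lit 315) (nat_lit 392) (nat_lit 313)) (XT.lf (nat_lit 152) (nat_lit 5957317384) (nat_lit 0) (nat_lit 2877565119) (nat_lit 76) (nat_lit 2325276355) (nat_lit 107) (nat_lit 1) (nat_lit 105) (nat_lit 1) (nat_lit 106) (nat_lit 1) (nat_lit 316) (nat_lit 392) (nat_lit 312))) (XT.nd (nat_lit 78) (nat_lit 152) (nat_lit 0) (XT.lf (nat_lit 76) (nat_lit 21068895) (nat_lit 0) (nat_lit 3829638739) (nat_lit 76) (nat_lit 7126203499) (nat_lit 105) (nat_lit 3) (nat_lit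 104) (nat_lit 1) (nat_lit 105) (nat_lit 1) (nat_lit 317) (nat_lit 392) (nat_lit 311)) (XT.lf (nat_lit 152) (nat_lit 5128890700) (nat_lit 0) (nat_lit 4738283788) (nat_lit 76) (nat_lit 929242639) (nat_lit 104) (nat_lit 1) (nat_lit 102) (nat_lit 1) (nat_lit 103) (nat_lit 1) (nat_lit 318) (nat_lit 392) (nat_lit 310)))))) (XT.nd (nat_lit 546) (nat_lit 836) (nat_lit 0) (XT.nd (nat_lit 234) (nat_lit 532) (nat_lit 0) (XT.nd (nat_lit 78) (nat_lit 228) (nat_lit 0) (XT.lf (nat_lit 76) (nat_lit 5003419636) (nat_lit 0) (nat_lit 622360320) (nat_lit 152) (nat_lit 4993469262) (nat_lit 101) (nat_lit 1) (nat_lit 100) (nat_lit 1) (nat_lit 102) (nat_lit 1) (nat_lit 319) (nat_lit 392) (nat_lit 309)) (XT.nd (nat_lit 78) (nat_lit 152) (nat_lit 0) (XT.lf (nat_lit 0) (nat_lit 350524817) (nat_lit 0) (nat_lit 6135879151) (nat_lit 152) (nat_lit 3958761653) (nat_lit 99) (nat_lit 3) (nat_lit 99) (nat_lit 1) (nat_lit 101) (nat_lit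 1) (nat_lit 320) (nat_lit 392) (nat_lit 308)) (XT.lf (nat_lit 76) (nat_lit 6058240194) (nat_lit 0) (nat_lit 1256473109) (nat_lit 152) (nat_lit 2959220857) (nat_lit 98) (nat_lit 1) (nat_lit 97) (nat_lit 1) (nat_lit 99) (nat_lit 1) (nat_lit 321) (nat_lit 392) (nat_lit 307)))) (XT.nd (nat_lit 156) (nat_lit 304) (nat_lit 0) (XT.nd (nat_lit 78) (nat_lit 152) (nat_lit 0) (XT.lf (nat_lit 0) (nat_lit 1512828630) (nat_lit 0) (nat_lit 6607476129) (nat_lit 152) (nat_lit 1985457339) (nat_lit 96) (nat_lit 3) (nat_lit 96) (nat_lit 1) (nat_lit 98) (nat_lit 1) (nat_lit 322) (nat_lit 392) (nat_lit 306)) (XT.lf (nat_lit 76) (nat_lit 7022261493) (nat_lit 0) (nat_lit 1877502541) (nat_lit 152) (nat_lit 1040715079) (nat_lit 95) (nat_lit 1) (nat_lit 94) (nat_lit 1) (nat_lit 96) (nat_lit 1) (nat_lit 323) (nat_lit 392) (nat_lit 305))) (XT.nd (nat_lit 78) (nat_lit 228) (nat_lit 0) (XT.lf (nat_lit 0) (nat_lit 2582964193)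 (nat_lit 0) (nat_lit 7069367556) (nat_lit 152) (nat_lit 125661808) (nat_lit 93) (nat_lit 3) (nat_lit 93) (nat_lit 1) (nat_lit 95) (nat_lit 1) (nat_lit 324) (nat_lit 392) (nat_lit 304)) (XT.lf (nat_lit 152) (nat_lit 7128639560) (nat_lit 0) (nat_lit 781027314) (nat_lit 76) (nat_lit 1708525602) (nat_lit 92) (nat_lit 1) (nat_lit 90) (nat_lit 1) (nat_lit 91) (nat_lit 1) (nat_lit 325) (nat_lit 392) (nat_lit 303))))) (XT.nd (nat_lit 234) (nat_lit 532) (nat_lit 0) (XT.nd (nat_lit 78) (nat_lit 228) (nat_lit 0) (XT.lf (nat_lit 76) (nat_lit 1926728467) (nat_lit 0) (nat_lit 1656693212) (nat_lit 76) (nat_lit 5877505266) (nat_lit 90) (nat_lit 3) (nat_lit 89) (nat_lit 1) (nat_lit 90) (nat_lit 1) (nat_lit 326) (nat_lit 392) (nat_lit 302)) (XT.nd (nat_lit 78) (nat_lit 76) (nat_lit 0) (XT.lf (nat_lit 152) (nat_lit 6215058176) (nat_lit 0) (nat_lit 2513151445) (nat_lit 76) (nat_lit 578373685) (nat_lit 89) (nat_lit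 1) (nat_lit 87) (nat_lit 1) (nat_lit 88) (nat_lit 1) (nat_lit 327) (nat_lit 392) (nat_lit 301)) (XT.lf (nat_lit 76) (nat_lit 1171008555) (nat_lit 0) (nat_lit 3333487405) (nat_lit 76) (nat_lit 4650106632) (nat_lit 87) (nat_lit 3) (nat_lit 86) (nat_lit 1) (nat_lit 87) (nat_lit 1) (nat_lit 328) (nat_lit 392) (nat_lit 300)))) (XT.nd (nat_lit 156) (nat_lit 304) (nat_lit 0) (XT.nd (nat_lit 78) (nat_lit 76) (nat_lit 0) (XT.lf (nat_lit 0) (nat_lit 458675275) (nat_lit 0) (nat_lit 3675594440) (nat_lit 152) (nat_lit 4871132620) (nat_lit 84) (nat_lit 3) (nat_lit 84) (nat_lit 1) (nat_lit 86) (nat_lit 1) (nat_lit 329) (nat_lit 392) (nat_lit 299)) (XT.lf (nat_lit 76) (nat_lit 444379863) (nat_lit 0) (nat_lit 4906154303) (nat_lit 76) (nat_lit 3508112401) (nat_lit 84) (nat_lit 3) (nat_lit 83) (nat_lit 1) (nat_lit 84) (nat_lit 1) (nat_lit 330) (nat_lit 392) (nat_lit 298))) (XT.nd (nat_lit 78) (nat_lit 152) (nat_lit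 0) (XT.lf (nat_lit 0) (nat_lit 1407594094) (nat_lit 0) (nat_lit 4240448961) (nat_lit 152) (nat_lit 3066197659) (nat_lit 81) (nat_lit 3) (nat_lit 81) (nat_lit 1) (nat_lit 83) (nat_lit 1) (nat_lit 331) (nat_lit 392) (nat_lit 297)) (XT.lf (nat_lit 76) (nat_lit 6129099012) (nat_lit 0) (nat_lit 247048990) (nat_lit 152) (nat_lit 2196447564) (nat_lit 80) (nat_lit 1) (nat_lit 79) (nat_lit 1) (nat_lit 81) (nat_lit 1) (nat_lit 332) (nat_lit 392) (nat_lit 296))))))) (XT.nd (nat_lit 1092) (nat_lit 1748) (nat_lit 0) (XT.nd (nat_lit 546) (nat_lit 912) (nat_lit 0) (XT.nd (nat_lit 234) (nat_lit 456) (nat_lit 0) (XT.nd (nat_lit 78) (nat_lit 304) (nat_lit 0) (XT.lf (nat_lit 0) (nat_lit 2284740197) (nat_lit 0) (nat_lit 4779383763) (nat_lit 152) (nat_lit 1368759598) (nat_lit 78) (nat_lit 3) (nat_lit 78) (nat_lit 1) (nat_lit 80) (nat_lit 1) (nat_lit 333) (nat_lit 392) (nat_lit 295)) (XT.nd (nat_lit 78) (nat_lit 152)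 (nat_lit 0) (XT.lf (nat_lit 76) (nat_lit 6846485053) (nat_lit 0) (nat_lit 899325101) (nat_lit 152) (nat_lit 550221058) (nat_lit 77) (nat_lit 1) (nat_lit 76) (nat_lit 1) (nat_lit 78) (nat_lit 1) (nat_lit 334) (nat_lit 392) (nat_lit 294)) (XT.lf (nat_lit 76) (nat_lit 2867076189) (nat_lit 0) (nat_lit 229937701) (nat_lit 76) (nat_lit 5063887114) (nat_lit 75) (nat_lit 3) (nat_lit 74) (nat_lit 1) (nat_lit 75) (nat_lit 1) (nat_lit 335) (nat_lit 392) (nat_lit 293)))) (XT.nd (nat_lit 156) (nat_lit 228) (nat_lit 0) (XT.nd (nat_lit 78) (nat_lit 76) (nat_lit 0) (XT.lf (nat_lit 152) (nat_lit 6498028721) (nat_lit 0) (nat_lit 1014523567) (nat_lit 76) (nat_lit 515882564) (nat_lit 74) (nat_lit 1) (nat_lit 72) (nat_lit 1) (nat_lit 73) (nat_lit 1) (nat_lit 336) (nat_lit 392) (nat_lit 292)) (XT.lf (nat_lit 76) (nat_lit 2104105916) (nat_lit 0) (nat_lit 1754891218) (nat_lit 76) (nat_lit 4038642098) (nat_lit 72) (nat_lit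 3) (nat_lit 71) (nat_lit 1) (nat_lit 72) (nat_lit 1) (nat_lit 337) (nat_lit 392) (nat_lit 291))) (XT.nd (nat_lit 78) (nat_lit 76) (nat_lit 0) (XT.lf (nat_lit 0) (nat_lit 349463740) (nat_lit 0) (nat_lit 2138216567) (nat_lit 152) (nat_lit 5281844661) (nat_lit 69) (nat_lit 3) (nat_lit 69) (nat_lit 1) (nat_lit 71) (nat_lit 1) (nat_lit 338) (nat_lit 392) (nat_lit 290)) (XT.lf (nat_lit 76) (nat_lit 1378254354) (nat_lit 0) (nat_lit 3183085846) (nat_lit 76) (nat_lit 3081828474) (nat_lit 69) (nat_lit 3) (nat_lit 68) (nat_lit 1) (nat_lit 69) (nat_lit 1) (nat_lit 339) (nat_lit 392) (nat_lit 289))))) (XT.nd (nat_lit 234) (nat_lit 532) (nat_lit 0) (XT.nd (nat_lit 78) (nat_lit 228) (nat_lit 0) (XT.lf (nat_lit 0) (nat_lit 1143175302) (nat_lit 0) (nat_lit 2718370974) (nat_lit 152) (nat_lit 3657565145) (nat_lit 66) (nat_lit 3) (nat_lit 66) (nat_lit 1) (nat_lit 68) (nat_lit 1) (nat_lit 340) (nat_lit 392) (nat_lit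 288)) (XT.nd (nat_lit 78) (nat_lit 152) (nat_lit 0) (XT.lf (nat_lit 76) (nat_lit 689160720) (nat_lit 0) (nat_lit 4518664138) (nat_lit 76) (nat_lit 2189347075) (nat_lit 66) (nat_lit 3) (nat_lit 65) (nat_lit 1) (nat_lit 66) (nat_lit 1) (nat_lit 341) (nat_lit 392) (nat_lit 287)) (XT.lf (nat_lit 0) (nat_lit 1879085155) (nat_lit 0) (nat_lit 3266220019) (nat_lit 152) (nat_lit 2131726815) (nat_lit 63) (nat_lit 3) (nat_lit 63) (nat_lit 1) (nat_lit 65) (nat_lit 1) (nat_lit 342) (nat_lit 392) (nat_lit 286)))) (XT.nd (nat_lit 156) (nat_lit 304) (nat_lit 0) (XT.nd (nat_lit 78) (nat_lit 152) (nat_lit 0) (XT.lf (nat_lit 76) (nat_lit 36294454) (nat_lit 0) (nat_lit 5765675708) (nat_lit 76) (nat_lit 1357375276) (nat_lit 63) (nat_lit 3) (nat_lit 62) (nat_lit 1) (nat_lit 63) (nat_lit 1) (nat_lit 343) (nat_lit 392) (nat_lit 285)) (XT.lf (nat_lit 0) (nat_lit 2560705034) (nat_lit 0) (nat_lit 3782231453) (nat_lit 152)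 (nat_lit 700052598) (nat_lit 60) (nat_lit 3) (nat_lit 60) (nat_lit 1) (nat_lit 62) (nat_lit 1) (nat_lit 344) (nat_lit 392) (nat_lit 284))) (XT.nd (nat_lit 78) (nat_lit 152) (nat_lit 0) (XT.lf (nat_lit 76) (nat_lit 6352639923) (nat_lit 0) (nat_lit 569677066) (nat_lit 152) (nat_lit 6914049) (nat_lit 59) (nat_lit 1) (nat_lit 58) (nat_lit 1) (nat_lit 60) (nat_lit 1) (nat_lit 345) (nat_lit 392) (nat_lit 283)) (XT.lf (nat_lit 76) (nat_lit 2543215465) (nat_lit 0) (nat_lit 654388303) (nat_lit 76) (nat_lit 3618905242) (nat_lit 57) (nat_lit 3) (nat_lit 56) (nat_lit 1) (nat_lit 57) (nat_lit 1) (nat_lit 346) (nat_lit 392) (nat_lit 282)))))) (XT.nd (nat_lit 546) (nat_lit 912) (nat_lit 0) (XT.nd (nat_lit 234) (nat_lit 456) (nat_lit 0) (XT.nd (nat_lit 78) (nat_lit 228) (nat_lit 0) (XT.lf (nat_lit 0) (nat_lit 160452604) (nat_lit 0) (nat_lit 1155080230) (nat_lit 152) (nat_lit 5390757590) (nat_lit 54) (nat_lit 3)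 (nat_lit 54) (nat_lit 1) (nat_lit 56) (nat_lit 1) (nat_lit 347) (nat_lit 392) (nat_lit 281)) (XT.nd (nat_lit 78) (nat_lit 152) (nat_lit 0) (XT.lf (nat_lit 76) (nat_lit 1857486544) (nat_lit 0) (nat_lit 1935089235) (nat_lit 76) (nat_lit 2804750950) (nat_lit 54) (nat_lit 3) (nat_lit 53) (nat_lit 1) (nat_lit 54) (nat_lit 1) (nat_lit 348) (nat_lit 392) (nat_lit 280)) (XT.lf (nat_lit 0) (nat_lit 835657265) (nat_lit 0) (nat_lit 1711537437) (nat_lit 152) (nat_lit 3943370534) (nat_lit 51) (nat_lit 3) (nat_lit 51) (nat_lit 1) (nat_lit 53) (nat_lit 1) (nat_lit 349) (nat_lit 392) (nat_lit 279)))) (XT.nd (nat_lit 156) (nat_lit 228) (nat_lit 0) (XT.nd (nat_lit 78) (nat_lit 152) (nat_lit 0) (XT.lf (nat_lit 76) (nat_lit 1209549836) (nat_lit 0) (nat_lit 3132113780) (nat_lit 76) (nat_lit 2043721429) (nat_lit 51) (nat_lit 3) (nat_lit 50) (nat_lit 1) (nat_lit 51) (nat_lit 1) (nat_lit 350) (nat_lit 392) (nat_lit 278))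 (XT.lf (nat_lit 0) (nat_lit 1463122874) (nat_lit 0) (nat_lit 2234432715) (nat_lit 152) (nat_lit 2584409903) (nat_lit 48) (nat_lit 3) (nat_lit 48) (nat_lit 1) (nat_lit 50) (nat_lit 1) (nat_lit 351) (nat_lit 392) (nat_lit 277))) (XT.nd (nat_lit 78) (nat_lit 152) (nat_lit 0) (XT.lf (nat_lit 76) (nat_lit 598260172) (nat_lit 0) (nat_lit 4249330319) (nat_lit 76) (nat_lit 1332840972) (nat_lit 48) (nat_lit 3) (nat_lit 47) (nat_lit 1) (nat_lit 48) (nat_lit 1) (nat_lit 352) (nat_lit 392) (nat_lit 276)) (XT.lf (nat_lit 0) (nat_lit 2045588004) (nat_lit 0) (nat_lit 2724812045) (nat_lit 152) (nat_lit 1309843163) (nat_lit 45) (nat_lit 3) (nat_lit 45) (nat_lit 1) (nat_lit 47) (nat_lit 1) (nat_lit 353) (nat_lit 392) (nat_lit 275))))) (XT.nd (nat_lit 234) (nat_lit 456) (nat_lit 0) (XT.nd (nat_lit 78) (nat_lit 380) (nat_lit 0) (XT.lf (nat_lit 76) (nat_lit 22432442) (nat_lit 0) (nat_lit 5290478598) (nat_lit 76) (nat_lit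 669312481) (nat_lit 45) (nat_lit 3) (nat_lit 44) (nat_lit 1) (nat_lit 45) (nat_lit 1) (nat_lit 354) (nat_lit 392) (nat_lit 274)) (XT.nd (nat_lit 78) (nat_lit 228) (nat_lit 0) (XT.lf (nat_lit 0) (nat_lit 2585626108) (nat_lit 0) (nat_lit 3183758368) (nat_lit 152) (nat_lit 115775724) (nat_lit 42) (nat_lit 3) (nat_lit 42) (nat_lit 1) (nat_lit 44) (nat_lit 1) (nat_lit 355) (nat_lit 392) (nat_lit 273)) (XT.lf (nat_lit 152) (nat_lit 5276681465) (nat_lit 0) (nat_lit 472878490) (nat_lit 76) (nat_lit 40682229) (nat_lit 41) (nat_lit 1) (nat_lit 39) (nat_lit 1) (nat_lit 40) (nat_lit 1) (nat_lit 356) (nat_lit 392) (nat_lit 272)))) (XT.nd (nat_lit 156) (nat_lit 228) (nat_lit 0) (XT.nd (nat_lit 78) (nat_lit 152) (nat_lit 0) (XT.lf (nat_lit 76) (nat_lit 2073994246) (nat_lit 0) (nat_lit 1021482537) (nat_lit 76) (nat_lit 2600716179) (nat_lit 39) (nat_lit 3) (nat_lit 38) (nat_lit 1) (nat_lit 39) (nat_lit 1) (nat_lit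 357) (nat_lit 392) (nat_lit 271)) (XT.lf (nat_lit 0) (nat_lit 541059355) (nat_lit 0) (nat_lit 1028088420) (nat_lit 152) (nat_lit 4035064390) (nat_lit 36) (nat_lit 3) (nat_lit 36) (nat_lit 1) (nat_lit 38) (nat_lit 1) (nat_lit 358) (nat_lit 392) (nat_lit 270))) (XT.nd (nat_lit 78) (nat_lit 152) (nat_lit 0) (XT.lf (nat_lit 76) (nat_lit 1481548575) (nat_lit 0) (nat_lit 2086469062) (nat_lit 76) (nat_lit 1945385780) (nat_lit 36) (nat_lit 3) (nat_lit 35) (nat_lit 1) (nat_lit 36) (nat_lit 1) (nat_lit 359) (nat_lit 392) (nat_lit 269)) (XT.lf (nat_lit 0) (nat_lit 1081864224) (nat_lit 0) (nat_lit 1510747446) (nat_lit 152) (nat_lit 2831674099) (nat_lit 33) (nat_lit 3) (nat_lit 33) (nat_lit 1) (nat_lit 35) (nat_lit 1) (nat_lit 360) (nat_lit 392) (nat_lit 268))))))))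
noncomputable def ec114 : XT := (XT.nd (nat_lit 45084) (nat_lit 0) (nat_lit 12464) (XT.nd (nat_lit 1092) (nat_lit 760) (nat_lit 0) (XT.nd (nat_lit 546) (nat_lit 760) (nat_lit 0) (XT.nd (nat_lit 234) (nat_lit 608) (nat_lit 0) (XT.nd (nat_lit 78) (nat_lit 228) (nat_lit 0) (XT.lf (nat_lit 76) (nat_lit 923858234) (nat_lit 0) (nat_lit 3080436184) (nat_lit 76) (nat_lit 1332318445) (nat_lit 33) (nat_lit 3) (nat_lit 32) (nat_lit 1) (nat_lit 33) (nat_lit 1) (nat_lit 361) (nat_lit 392) (nat_lit 267)) (XT.nd (nat_lit 78) (nat_lit 76) (nat_lit 0) (XT.lf (nat_lit 0) (nat_lit 1584732282) (nat_lit 0) (nat_lit 1962411627) (nat_lit 152) (nat_lit 1703121594) (nat_lit 30) (nat_lit 3) (nat_lit 30) (nat_lit 1) (nat_lit 32) (nat_lit 1) (nat_lit 362) (nat_lit 392) (nat_lit 266)) (XT.lf (nat_lit 76) (nat_lit 399558107) (nat_lit 0) (nat_lit 4006805729) (nat_lit 76) (nat_lit 759252721) (nat_lit 30) (nat_lit 3) (nat_lit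 29) (nat_lit 1) (nat_lit 30) (nat_lit 1) (nat_lit 363) (nat_lit 392) (nat_lit 265)))) (XT.nd (nat_lit 156) (nat_lit 304) (nat_lit 0) (XT.nd (nat_lit 78) (nat_lit 152) (nat_lit 0) (XT.lf (nat_lit 0) (nat_lit 2051747029) (nat_lit 0) (nat_lit 2384335669) (nat_lit 152) (nat_lit 645867291) (nat_lit 27) (nat_lit 3) (nat_lit 27) (nat_lit 1) (nat_lit 29) (nat_lit 1) (nat_lit 364) (nat_lit 392) (nat_lit 264)) (XT.lf (nat_lit 76) (nat_lit 4777057958) (nat_lit 0) (nat_lit 90891632) (nat_lit 152) (nat_lit 132241071) (nat_lit 26) (nat_lit 1) (nat_lit 25) (nat_lit 1) (nat_lit 27) (nat_lit 1) (nat_lit 365) (nat_lit 392) (nat_lit 263))) (XT.nd (nat_lit 78) (nat_lit 152) (nat_lit 0) (XT.lf (nat_lit 76) (nat_lit 2137918011) (nat_lit 0) (nat_lit 350327015) (nat_lit 76) (nat_lit 2430799273) (nat_lit 24) (nat_lit 3) (nat_lit 23) (nat_lit 1) (nat_lit 24) (nat_lit 1) (nat_lit 366) (nat_lit 392) (nat_lit 262)) (XT.lf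 (nat_lit 0) (nat_lit 283479679) (nat_lit 0) (nat_lit 554289908) (nat_lit 152) (nat_lit 4001970342) (nat_lit 21) (nat_lit 3) (nat_lit 21) (nat_lit 1) (nat_lit 23) (nat_lit 1) (nat_lit 367) (nat_lit 392) (nat_lit 261))))) (XT.nd (nat_lit 234) (nat_lit 456) (nat_lit 0) (XT.nd (nat_lit 78) (nat_lit 228) (nat_lit 0) (XT.lf (nat_lit 76) (nat_lit 1604958216) (nat_lit 0) (nat_lit 1293460814) (nat_lit 76) (nat_lit 1862872720) (nat_lit 21) (nat_lit 3) (nat_lit 20) (nat_lit 1) (nat_lit 21) (nat_lit 1) (nat_lit 368) (nat_lit 392) (nat_lit 260)) (XT.nd (nat_lit 78) (nat_lit 76) (nat_lit 0) (XT.lf (nat_lit 0) (nat_lit 752873231) (nat_lit 0) (nat_lit 991351737) (nat_lit 152) (nat_lit 2940222156) (nat_lit 18) (nat_lit 3) (nat_lit 18) (nat_lit 1) (nat_lit 20) (nat_lit 1) (nat_lit 369) (nat_lit 392) (nat_lit 259)) (XT.lf (nat_lit 76) (nat_lit 1103849739) (nat_lit 0) (nat_lit 2173879576) (nat_lit 76) (nat_lit 1330972126)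 (nat_lit 18) (nat_lit 3) (nat_lit 17) (nat_lit 1) (nat_lit 18) (nat_lit 1) (nat_lit 370) (nat_lit 392) (nat_lit 258)))) (XT.nd (nat_lit 156) (nat_lit 228) (nat_lit 0) (XT.nd (nat_lit 78) (nat_lit 76) (nat_lit 0) (XT.lf (nat_lit 0) (nat_lit 1189913473) (nat_lit 0) (nat_lit 1399920303) (nat_lit 152) (nat_lit 1944404082) (nat_lit 15) (nat_lit 3) (nat_lit 15) (nat_lit 1) (nat_lit 17) (nat_lit 1) (nat_lit 371) (nat_lit 392) (nat_lit 257)) (XT.lf (nat_lit 76) (nat_lit 633219743) (nat_lit 0) (nat_lit 2994653088) (nat_lit 76) (nat_lit 833226247) (nat_lit 15) (nat_lit 3) (nat_lit 14) (nat_lit 1) (nat_lit 15) (nat_lit 1) (nat_lit 372) (nat_lit 392) (nat_lit 256))) (XT.nd (nat_lit 78) (nat_lit 76) (nat_lit 0) (XT.lf (nat_lit 0) (nat_lit 1596326287) (nat_lit 0) (nat_lit 1781260641) (nat_lit 152) (nat_lit 1011353635) (nat_lit 12) (nat_lit 3) (nat_lit 12) (nat_lit 1) (nat_lit 14) (nat_lit 1) (nat_lit 373) (nat_lit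 392) (nat_lit 255)) (XT.lf (nat_lit 76) (nat_lit 191731757) (nat_lit 0) (nat_lit 3758725174) (nat_lit 76) (nat_lit 367859714) (nat_lit 12) (nat_lit 3) (nat_lit 11) (nat_lit 1) (nat_lit 12) (nat_lit 1) (nat_lit 374) (nat_lit 392) (nat_lit 254)))))) (XT.nd (nat_lit 43446) (nat_lit 0) (nat_lit 20900) (XT.nd (nat_lit 234) (nat_lit 304) (nat_lit 0) (XT.nd (nat_lit 78) (nat_lit 304) (nat_lit 0) (XT.lf (nat_lit 0) (nat_lit 1973748329) (nat_lit 0) (nat_lit 2136603583) (nat_lit 152) (nat_lit 138037922) (nat_lit 9) (nat_lit 3) (nat_lit 9) (nat_lit 1) (nat_lit 11) (nat_lit 1) (nat_lit 375) (nat_lit 392) (nat_lit 253)) (XT.nd (nat_lit 78) (nat_lit 76) (nat_lit 0) (XT.lf (nat_lit 0) (nat_lit 70500637) (nat_lit 0) (nat_lit 221083395) (nat_lit 152) (nat_lit 3888439088) (nat_lit 6) (nat_lit 3) (nat_lit 6) (nat_lit 1) (nat_lit 8) (nat_lit 1) (nat_lit 376) (nat_lit 392) (nat_lit 252)) (XT.lf (nat_lit 76) (nat_lit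 1638430779) (nat_lit 0) (nat_lit 691952919) (nat_lit 76) (nat_lit 1781842930) (nat_lit 6) (nat_lit 3) (nat_lit 5) (nat_lit 1) (nat_lit 6) (nat_lit 1) (nat_lit 377) (nat_lit 392) (nat_lit 251)))) (XT.nd (nat_lit 156) (nat_lit 76) (nat_lit 0) (XT.nd (nat_lit 78) (nat_lit 76) (nat_lit 0) (XT.lf (nat_lit 0) (nat_lit 479732919) (nat_lit 0) (nat_lit 612337775) (nat_lit 152) (nat_lit 2953865609) (nat_lit 3) (nat_lit 3) (nat_lit 3) (nat_lit 1) (nat_lit 5) (nat_lit 1) (nat_lit 378) (nat_lit 392) (nat_lit 250)) (XT.lf (nat_lit 76) (nat_lit 1192303805) (nat_lit 0) (nat_lit 1469574008) (nat_lit 76) (nat_lit 1318594143) (nat_lit 3) (nat_lit 3) (nat_lit 2) (nat_lit 1) (nat_lit 3) (nat_lit 1) (nat_lit 379) (nat_lit 392) (nat_lit 249))) (XT.nd (nat_lit 42978) (nat_lit 0) (nat_lit 24396) (XT.lf (nat_lit 0) (nat_lit 861160713) (nat_lit 0) (nat_lit 977934026) (nat_lit 76) (nat_lit 2077136741) (nat_lit 1) (nat_lit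 3) (nat_lit 1) (nat_lit 1) (nat_lit 2) (nat_lit 1) (nat_lit 380) (nat_lit 392) (nat_lit 248)) (XT.lf (nat_lit 76) (nat_lit 20537898083) (nat_lit 0) (nat_lit 11549983266) (nat_lit 684) (nat_lit 5289111958) (nat_lit 323) (nat_lit 1) (nat_lit 322) (nat_lit 1) (nat_lit 331) (nat_lit 1) (nat_lit 250) (nat_lit 393) (nat_lit 377))))) (XT.nd (nat_lit 234) (nat_lit 1976) (nat_lit 0) (XT.nd (nat_lit 78) (nat_lit 988) (nat_lit 0) (XT.lf (nat_lit 76) (nat_lit 9899361700) (nat_lit 0) (nat_lit 18985251185) (nat_lit 608) (nat_lit 7704940487) (nat_lit 316) (nat_lit 1) (nat_lit 315) (nat_lit 1) (nat_lit 323) (nat_lit 1) (nat_lit 251) (nat_lit 393) (nat_lit 376)) (XT.nd (nat_lit 78) (nat_lit 456) (nat_lit 0) (XT.lf (nat_lit 608) (nat_lit 9305108707) (nat_lit 0) (nat_lit 26046756994) (nat_lit 532) (nat_lit 474112551) (nat_lit 316) (nat_lit 1) (nat_lit 308) (nat_lit 1) (nat_lit 315) (nat_lit 1) (nat_lit 252) (nat_lit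 393) (nat_lit 375)) (XT.lf (nat_lit 532) (nat_lit 851470329) (nat_lit 0) (nat_lit 23462341746) (nat_lit 456) (nat_lit 10768942712) (nat_lit 309) (nat_lit 1) (nat_lit 302) (nat_lit 1) (nat_lit 308) (nat_lit 1) (nat_lit 253) (nat_lit 393) (nat_lit 374)))) (XT.nd (nat_lit 156) (nat_lit 912) (nat_lit 0) (XT.nd (nat_lit 78) (nat_lit 456) (nat_lit 0) (XT.lf (nat_lit 76) (nat_lit 13643135438) (nat_lit 0) (nat_lit 7493940238) (nat_lit 608) (nat_lit 13222726521) (nat_lit 295) (nat_lit 1) (nat_lit 294) (nat_lit 1) (nat_lit 302) (nat_lit 1) (nat_lit 254) (nat_lit 393) (nat_lit 373)) (XT.lf (nat_lit 76) (nat_lit 3269733921) (nat_lit 0) (nat_lit 15850457941) (nat_lit 532) (nat_lit 14538120257) (nat_lit 289) (nat_lit 1) (nat_lit 288) (nat_lit 1) (nat_lit 295) (nat_lit 1) (nat_lit 255) (nat_lit 393) (nat_lit 372))) (XT.nd (nat_lit 78) (nat_lit 456) (nat_lit 0) (XT.lf (nat_lit 532) (nat_lit 8685779344) (nat_lit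 0) (nat_lit 17334452490) (nat_lit 456) (nat_lit 6955565347) (nat_lit 289) (nat_lit 1) (nat_lit 282) (nat_lit 1) (nat_lit 288) (nat_lit 1) (nat_lit 256) (nat_lit 393) (nat_lit 371)) (XT.lf (nat_lit 76) (nat_lit 15355162076) (nat_lit 0) (nat_lit 442852586) (nat_lit 456) (nat_lit 16514538375) (nat_lit 277) (nat_lit 1) (nat_lit 276) (nat_lit 1) (nat_lit 282) (nat_lit 1) (nat_lit 257) (nat_lit 393) (nat_lit 370))))))) (XT.nd (nat_lit 1092) (nat_lit 3496) (nat_lit 0) (XT.nd (nat_lit 546) (nat_lit 2128) (nat_lit 0) (XT.nd (nat_lit 234) (nat_lit 1596) (nat_lit 0) (XT.nd (nat_lit 78) (nat_lit 760) (nat_lit 0) (XT.lf (nat_lit 76) (nat_lit 5071658604) (nat_lit 0) (nat_lit 9375626061) (nat_lit 532) (nat_lit 17219214024) (nat_lit 271) (nat_lit 1) (nat_lit 270) (nat_lit 1) (nat_lit 277) (nat_lit 1) (nat_lit 258) (nat_lit 393) (nat_lit 369)) (XT.nd (nat_lit 78) (nat_lit 380) (nat_lit 0) (XT.lf (nat_lit 456) (nat_lit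 12716160803) (nat_lit 0) (nat_lit 13304012750) (nat_lit 380) (nat_lit 5017869687) (nat_lit 271) (nat_lit 1) (nat_lit 265) (nat_lit 1) (nat_lit 270) (nat_lit 1) (nat_lit 259) (nat_lit 393) (nat_lit 368)) (XT.lf (nat_lit 456) (nat_lit 3154036094) (nat_lit 0) (nat_lit 12355650770) (nat_lit 380) (nat_lit 14916914225) (nat_lit 266) (nat_lit 1) (nat_lit 260) (nat_lit 1) (nat_lit 265) (nat_lit 1) (nat_lit 260) (nat_lit 393) (nat_lit 367)))) (XT.nd (nat_lit 156) (nat_lit 760) (nat_lit 0) (XT.nd (nat_lit 78) (nat_lit 380) (nat_lit 0) (XT.lf (nat_lit 76) (nat_lit 5363192946) (nat_lit 0) (nat_lit 6214140323) (nat_lit 456) (nat_lit 18253898802) (nat_lit 255) (nat_lit 1) (nat_lit 254) (nat_lit 1) (nat_lit 260) (nat_lit 1) (nat_lit 261) (nat_lit 393) (nat_lit 366)) (XT.lf (nat_lit 456) (nat_lit 13761226356) (nat_lit 0) (nat_lit 10943604421) (nat_lit 380) (nat_lit 4546152159) (nat_lit 255) (nat_lit 1) (nat_lit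 249) (nat_lit 1) (nat_lit 254) (nat_lit 1) (nat_lit 262) (nat_lit 393) (nat_lit 365))) (XT.nd (nat_lit 78) (nat_lit 456) (nat_lit 0) (XT.lf (nat_lit 380) (nat_lit 3950919041) (nat_lit 0) (nat_lit 10467374522) (nat_lit 304) (nat_lit 14267728368) (nat_lit 250) (nat_lit 1) (nat_lit 245) (nat_lit 1) (nat_lit 249) (nat_lit 1) (nat_lit 263) (nat_lit 393) (nat_lit 364)) (XT.lf (nat_lit 76) (nat_lit 4491071389) (nat_lit 0) (nat_lit 5643140348) (nat_lit 456) (nat_lit 18001513148) (nat_lit 240) (nat_lit 1) (nat_lit 239) (nat_lit 1) (nat_lit 245) (nat_lit 1) (nat_lit 264) (nat_lit 393) (nat_lit 363))))) (XT.nd (nat_lit 234) (nat_lit 1140) (nat_lit 0) (XT.nd (nat_lit 78) (nat_lit 684) (nat_lit 0) (XT.lf (nat_lit 380) (nat_lit 12494124226) (nat_lit 0) (nat_lit 9900446102) (nat_lit 304) (nat_lit 5204049589) (nat_lit 240) (nat_lit 1) (nat_lit 235) (nat_lit 1) (nat_lit 239) (nat_lit 1) (nat_lit 265) (nat_lit 393)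 (nat_lit 362)) (XT.nd (nat_lit 78) (nat_lit 380) (nat_lit 0) (XT.lf (nat_lit 380) (nat_lit 2577515728) (nat_lit 0) (nat_lit 9803742200) (nat_lit 304) (nat_lit 14694349991) (nat_lit 236) (nat_lit 1) (nat_lit 231) (nat_lit 1) (nat_lit 235) (nat_lit 1) (nat_lit 266) (nat_lit 393) (nat_lit 361)) (XT.lf (nat_lit 76) (nat_lit 2739132432) (nat_lit 0) (nat_lit 7068803461) (nat_lit 380) (nat_lit 16757507276) (nat_lit 227) (nat_lit 1) (nat_lit 226) (nat_lit 1) (nat_lit 231) (nat_lit 1) (nat_lit 267) (nat_lit 393) (nat_lit 360)))) (XT.nd (nat_lit 156) (nat_lit 532) (nat_lit 0) (XT.nd (nat_lit 78) (nat_lit 304) (nat_lit 0) (XT.lf (nat_lit 380) (nat_lit 9466818073) (nat_lit 0) (nat_lit 9884018888) (nat_lit 304) (nat_lit 6716255073) (nat_lit 227) (nat_lit 1) (nat_lit 222) (nat_lit 1) (nat_lit 226) (nat_lit 1) (nat_lit 268) (nat_lit 393) (nat_lit 359)) (XT.lf (nat_lit 76) (nat_lit 9651378418) (nat_lit 0) (nat_lit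 434249264) (nat_lit 304) (nat_lit 15496303920) (nat_lit 219) (nat_lit 1) (nat_lit 218) (nat_lit 1) (nat_lit 222) (nat_lit 1) (nat_lit 269) (nat_lit 393) (nat_lit 358))) (XT.nd (nat_lit 78) (nat_lit 228) (nat_lit 0) (XT.lf (nat_lit 76) (nat_lit 338899565) (nat_lit 0) (nat_lit 10004772329) (nat_lit 380) (nat_lit 14764096025) (nat_lit 215) (nat_lit 1) (nat_lit 214) (nat_lit 1) (nat_lit 219) (nat_lit 1) (nat_lit 270) (nat_lit 393) (nat_lit 357)) (XT.lf (nat_lit 304) (nat_lit 5130401528) (nat_lit 0) (nat_lit 10655707240) (nat_lit 228) (nat_lit 8858242874) (nat_lit 215) (nat_lit 1) (nat_lit 211) (nat_lit 1) (nat_lit 214) (nat_lit 1) (nat_lit 271) (nat_lit 393) (nat_lit 356)))))) (XT.nd (nat_lit 546) (nat_lit 1596) (nat_lit 0) (XT.nd (nat_lit 234) (nat_lit 988) (nat_lit 0) (XT.nd (nat_lit 78) (nat_lit 532) (nat_lit 0) (XT.lf (nat_lit 76) (nat_lit 6462841636) (nat_lit 0) (nat_lit 4591553606) (nat_lit 380)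 (nat_lit 13138064078) (nat_lit 207) (nat_lit 1) (nat_lit 206) (nat_lit 1) (nat_lit 211) (nat_lit 1) (nat_lit 272) (nat_lit 393) (nat_lit 355)) (XT.nd (nat_lit 78) (nat_lit 304) (nat_lit 0) (XT.lf (nat_lit 304) (nat_lit 9672139831) (nat_lit 0) (nat_lit 11507073189) (nat_lit 228) (nat_lit 2571755159) (nat_lit 207) (nat_lit 1) (nat_lit 203) (nat_lit 1) (nat_lit 206) (nat_lit 1) (nat_lit 273) (nat_lit 393) (nat_lit 354)) (XT.lf (nat_lit 76) (nat_lit 11873641267) (nat_lit 0) (nat_lit 145023101) (nat_lit 304) (nat_lit 11301189082) (nat_lit 200) (nat_lit 1) (nat_lit 199) (nat_lit 1) (nat_lit 203) (nat_lit 1) (nat_lit 274) (nat_lit 393) (nat_lit 353)))) (XT.nd (nat_lit 156) (nat_lit 532) (nat_lit 0) (XT.nd (nat_lit 78) (nat_lit 228) (nat_lit 0) (XT.lf (nat_lit 76) (nat_lit 2950798482) (nat_lit 0) (nat_lit 9603848170) (nat_lit 304) (nat_lit 10343298023) (nat_lit 197) (nat_lit 1) (nat_lit 196) (nat_lit 1)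 (nat_lit 200) (nat_lit 1) (nat_lit 275) (nat_lit 393) (nat_lit 352)) (XT.lf (nat_lit 304) (nat_lit 3536017179) (nat_lit 0) (nat_lit 13146435550) (nat_lit 228) (nat_lit 5803542319) (nat_lit 197) (nat_lit 1) (nat_lit 193) (nat_lit 1) (nat_lit 196) (nat_lit 1) (nat_lit 276) (nat_lit 393) (nat_lit 351))) (XT.nd (nat_lit 78) (nat_lit 228) (nat_lit 0) (XT.lf (nat_lit 76) (nat_lit 7805666672) (nat_lit 0) (nat_lit 5952108510) (nat_lit 304) (nat_lit 8325014652) (nat_lit 190) (nat_lit 1) (nat_lit 189) (nat_lit 1) (nat_lit 193) (nat_lit 1) (nat_lit 277) (nat_lit 393) (nat_lit 350)) (XT.lf (nat_lit 304) (nat_lit 6486791107) (nat_lit 0) (nat_lit 14431333826) (nat_lit 228) (nat_lit 771291154) (nat_lit 190) (nat_lit 1) (nat_lit 186) (nat_lit 1) (nat_lit 189) (nat_lit 1) (nat_lit 278) (nat_lit 393) (nat_lit 349))))) (XT.nd (nat_lit 234) (nat_lit 912) (nat_lit 0) (XT.nd (nat_lit 78) (nat_lit 456) (nat_lit 0) (XT.lf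 (nat_lit 76) (nat_lit 12108676963) (nat_lit 0) (nat_lit 2988735455) (nat_lit 228) (nat_lit 6206278569) (nat_lit 184) (nat_lit 1) (nat_lit 183) (nat_lit 1) (nat_lit 186) (nat_lit 1) (nat_lit 279) (nat_lit 393) (nat_lit 348)) (XT.nd (nat_lit 78) (nat_lit 228) (nat_lit 0) (XT.lf (nat_lit 76) (nat_lit 3640825634) (nat_lit 0) (nat_lit 12155890193) (nat_lit 304) (nat_lit 5129934448) (nat_lit 181) (nat_lit 1) (nat_lit 180) (nat_lit 1) (nat_lit 184) (nat_lit 1) (nat_lit 280) (nat_lit 393) (nat_lit 347)) (XT.lf (nat_lit 76) (nat_lit 15918136407) (nat_lit 0) (nat_lit 617424442) (nat_lit 228) (nat_lit 4022770103) (nat_lit 178) (nat_lit 1) (nat_lit 177) (nat_lit 1) (nat_lit 180) (nat_lit 1) (nat_lit 281) (nat_lit 393) (nat_lit 346)))) (XT.nd (nat_lit 156) (nat_lit 532) (nat_lit 0) (XT.nd (nat_lit 78) (nat_lit 152) (nat_lit 0) (XT.lf (nat_lit 76) (nat_lit 7556856260) (nat_lit 0) (nat_lit 9684480829) (nat_lit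 304) (nat_lit 2955136878) (nat_lit 175) (nat_lit 1) (nat_lit 174) (nat_lit 1) (nat_lit 178) (nat_lit 1) (nat_lit 282) (nat_lit 393) (nat_lit 345)) (XT.lf (nat_lit 228) (nat_lit 1270761785) (nat_lit 0) (nat_lit 18027320588) (nat_lit 152) (nat_lit 546154810) (nat_lit 175) (nat_lit 1) (nat_lit 172) (nat_lit 1) (nat_lit 174) (nat_lit 1) (nat_lit 283) (nat_lit 393) (nat_lit 344))) (XT.nd (nat_lit 78) (nat_lit 304) (nat_lit 0) (XT.lf (nat_lit 76) (nat_lit 11041611727) (nat_lit 0) (nat_lit 7700817580) (nat_lit 228) (nat_lit 754652103) (nat_lit 170) (nat_lit 1) (nat_lit 169) (nat_lit 1) (nat_lit 172) (nat_lit 1) (nat_lit 284) (nat_lit 393) (nat_lit 343)) (XT.lf (nat_lit 228) (nat_lit 2693491864) (nat_lit 0) (nat_lit 373507326) (nat_lit 152) (nat_lit 16091796428) (nat_lit 168) (nat_lit 1) (nat_lit 165) (nat_lit 1) (nat_lit 167) (nat_lit 1) (nat_lit 285) (nat_lit 393) (nat_lit 342))))))))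
noncomputable def ec115 : XT := (XT.nd (nat_lit 2184) (nat_lit 3420) (nat_lit 0) (XT.nd (nat_lit 1092) (nat_lit 2052) (nat_lit 0) (XT.nd (nat_lit 546) (nat_lit 1064) (nat_lit 0) (XT.nd (nat_lit 234) (nat_lit 684) (nat_lit 0) (XT.nd (nat_lit 78) (nat_lit 380) (nat_lit 0) (XT.lf (nat_lit 228) (nat_lit 12677098488) (nat_lit 0) (nat_lit 1476470317) (nat_lit 152) (nat_lit 4672629725) (nat_lit 165) (nat_lit 1) (nat_lit 162) (nat_lit 1) (nat_lit 164) (nat_lit 1) (nat_lit 286) (nat_lit 393) (nat_lit 341)) (XT.nd (nat_lit 78) (nat_lit 228) (nat_lit 0) (XT.lf (nat_lit 228) (nat_lit 3718635199) (nat_lit 0) (nat_lit 2589782893) (nat_lit 152) (nat_lit 12192431883) (nat_lit 163) (nat_lit 1) (nat_lit 160) (nat_lit 1) (nat_lit 162) (nat_lit 1) (nat_lit 287) (nat_lit 393) (nat_lit 340)) (XT.lf (nat_lit 228) (nat_lit 13221052319) (nat_lit 0) (nat_lit 3704142363) (nat_lit 152) (nat_lit 1257151995) (nat_lit 160) (nat_lit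 1) (nat_lit 157) (nat_lit 1) (nat_lit 159) (nat_lit 1) (nat_lit 288) (nat_lit 393) (nat_lit 339)))) (XT.nd (nat_lit 156) (nat_lit 304) (nat_lit 0) (XT.nd (nat_lit 78) (nat_lit 228) (nat_lit 0) (XT.lf (nat_lit 228) (nat_lit 4426654016) (nat_lit 0) (nat_lit 4782098103) (nat_lit 152) (nat_lit 8660715918) (nat_lit 158) (nat_lit 1) (nat_lit 155) (nat_lit 1) (nat_lit 157) (nat_lit 1) (nat_lit 289) (nat_lit 393) (nat_lit 338)) (XT.lf (nat_lit 76) (nat_lit 1784358933) (nat_lit 0) (nat_lit 4094110779) (nat_lit 228) (nat_lit 11685213695) (nat_lit 153) (nat_lit 1) (nat_lit 152) (nat_lit 1) (nat_lit 155) (nat_lit 1) (nat_lit 290) (nat_lit 393) (nat_lit 337))) (XT.nd (nat_lit 78) (nat_lit 152) (nat_lit 0) (XT.lf (nat_lit 228) (nat_lit 4866949042) (nat_lit 0) (nat_lit 6934740108) (nat_lit 152) (nat_lit 5461474350) (nat_lit 153) (nat_lit 1) (nat_lit 150) (nat_lit 1) (nat_lit 152) (nat_lit 1) (nat_lit 291) (nat_lit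 393) (nat_lit 336)) (XT.lf (nat_lit 76) (nat_lit 4501484260) (nat_lit 0) (nat_lit 3492723313) (nat_lit 152) (nat_lit 8974839330) (nat_lit 149) (nat_lit 1) (nat_lit 148) (nat_lit 1) (nat_lit 150) (nat_lit 1) (nat_lit 292) (nat_lit 393) (nat_lit 335))))) (XT.nd (nat_lit 234) (nat_lit 608) (nat_lit 0) (XT.nd (nat_lit 78) (nat_lit 304) (nat_lit 0) (XT.lf (nat_lit 228) (nat_lit 5082465600) (nat_lit 0) (nat_lit 9034849335) (nat_lit 152) (nat_lit 2563257049) (nat_lit 149) (nat_lit 1) (nat_lit 146) (nat_lit 1) (nat_lit 148) (nat_lit 1) (nat_lit 293) (nat_lit 393) (nat_lit 334)) (XT.nd (nat_lit 78) (nat_lit 152) (nat_lit 0) (XT.lf (nat_lit 76) (nat_lit 6947366614) (nat_lit 0) (nat_lit 3104910227) (nat_lit 152) (nat_lit 6345216173) (nat_lit 145) (nat_lit 1) (nat_lit 144) (nat_lit 1) (nat_lit 146) (nat_lit 1) (nat_lit 294) (nat_lit 393) (nat_lit 333)) (XT.lf (nat_lit 76) (nat_lit 60872984) (nat_lit 0) (nat_lit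 11010546219) (nat_lit 228) (nat_lit 5049001221) (nat_lit 143) (nat_lit 1) (nat_lit 142) (nat_lit 1) (nat_lit 145) (nat_lit 1) (nat_lit 295) (nat_lit 393) (nat_lit 332)))) (XT.nd (nat_lit 156) (nat_lit 304) (nat_lit 0) (XT.nd (nat_lit 78) (nat_lit 152) (nat_lit 0) (XT.lf (nat_lit 76) (nat_lit 9147615492) (nat_lit 0) (nat_lit 2895817951) (nat_lit 152) (nat_lit 3804384706) (nat_lit 141) (nat_lit 1) (nat_lit 140) (nat_lit 1) (nat_lit 142) (nat_lit 1) (nat_lit 296) (nat_lit 393) (nat_lit 331)) (XT.lf (nat_lit 76) (nat_lit 2392161316) (nat_lit 0) (nat_lit 10621714545) (nat_lit 228) (nat_lit 2567025914) (nat_lit 139) (nat_lit 1) (nat_lit 138) (nat_lit 1) (nat_lit 141) (nat_lit 1) (nat_lit 297) (nat_lit 393) (nat_lit 330))) (XT.nd (nat_lit 78) (nat_lit 152) (nat_lit 0) (XT.lf (nat_lit 76) (nat_lit 11125177385) (nat_lit 0) (nat_lit 2835223706) (nat_lit 152) (nat_lit 1358510202) (nat_lit 137) (nat_lit 1)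 (nat_lit 136) (nat_lit 1) (nat_lit 138) (nat_lit 1) (nat_lit 298) (nat_lit 393) (nat_lit 329)) (XT.lf (nat_lit 76) (nat_lit 4502805351) (nat_lit 0) (nat_lit 10378141589) (nat_lit 228) (nat_lit 180732603) (nat_lit 135) (nat_lit 1) (nat_lit 134) (nat_lit 1) (nat_lit 137) (nat_lit 1) (nat_lit 299) (nat_lit 393) (nat_lit 328)))))) (XT.nd (nat_lit 546) (nat_lit 836) (nat_lit 0) (XT.nd (nat_lit 234) (nat_lit 608) (nat_lit 0) (XT.nd (nat_lit 78) (nat_lit 304) (nat_lit 0) (XT.lf (nat_lit 228) (nat_lit 11902807777) (nat_lit 0) (nat_lit 1007511820) (nat_lit 152) (nat_lit 1899134519) (nat_lit 133) (nat_lit 1) (nat_lit 130) (nat_lit 1) (nat_lit 132) (nat_lit 1) (nat_lit 300) (nat_lit 393) (nat_lit 327)) (XT.nd (nat_lit 78) (nat_lit 228) (nat_lit 0) (XT.lf (nat_lit 152) (nat_lit 4285633569) (nat_lit 0) (nat_lit 2147732450) (nat_lit 76) (nat_lit 8127772519) (nat_lit 131) (nat_lit 1) (nat_lit 129) (nat_lit 1)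 (nat_lit 130) (nat_lit 1) (nat_lit 301) (nat_lit 393) (nat_lit 326)) (XT.lf (nat_lit 76) (nat_lit 201722247) (nat_lit 0) (nat_lit 3092076925) (nat_lit 228) (nat_lit 11024556460) (nat_lit 127) (nat_lit 1) (nat_lit 126) (nat_lit 1) (nat_lit 129) (nat_lit 1) (nat_lit 302) (nat_lit 393) (nat_lit 325)))) (XT.nd (nat_lit 156) (nat_lit 304) (nat_lit 0) (XT.nd (nat_lit 78) (nat_lit 228) (nat_lit 0) (XT.lf (nat_lit 152) (nat_lit 3806610462) (nat_lit 0) (nat_lit 4375258774) (nat_lit 76) (nat_lit 5897081986) (nat_lit 127) (nat_lit 1) (nat_lit 125) (nat_lit 1) (nat_lit 126) (nat_lit 1) (nat_lit 303) (nat_lit 393) (nat_lit 324)) (XT.lf (nat_lit 76) (nat_lit 2083183825) (nat_lit 0) (nat_lit 3373162509) (nat_lit 228) (nat_lit 8388349704) (nat_lit 123) (nat_lit 1) (nat_lit 122) (nat_lit 1) (nat_lit 125) (nat_lit 1) (nat_lit 304) (nat_lit 393) (nat_lit 323))) (XT.nd (nat_lit 78) (nat_lit 228) (nat_lit 0) (XT.lf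 (nat_lit 152) (nat_lit 3266077180) (nat_lit 0) (nat_lit 6496565255) (nat_lit 76) (nat_lit 3851669844) (nat_lit 123) (nat_lit 1) (nat_lit 121) (nat_lit 1) (nat_lit 122) (nat_lit 1) (nat_lit 305) (nat_lit 393) (nat_lit 322)) (XT.lf (nat_lit 76) (nat_lit 3797771439) (nat_lit 0) (nat_lit 3715003319) (nat_lit 228) (nat_lit 5875419820) (nat_lit 119) (nat_lit 1) (nat_lit 118) (nat_lit 1) (nat_lit 121) (nat_lit 1) (nat_lit 306) (nat_lit 393) (nat_lit 321))))) (XT.nd (nat_lit 234) (nat_lit 532) (nat_lit 0) (XT.nd (nat_lit 78) (nat_lit 228) (nat_lit 0) (XT.lf (nat_lit 152) (nat_lit 2679277622) (nat_lit 0) (nat_lit 8510924704) (nat_lit 76) (nat_lit 1976219324) (nat_lit 119) (nat_lit 1) (nat_lit 117) (nat_lit 1) (nat_lit 118) (nat_lit 1) (nat_lit 307) (nat_lit 393) (nat_lit 320)) (XT.nd (nat_lit 78) (nat_lit 76) (nat_lit 0) (XT.lf (nat_lit 76) (nat_lit 5359452589) (nat_lit 0) (nat_lit 4103325551) (nat_lit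 152) (nat_lit 3485300147) (nat_lit 116) (nat_lit 1) (nat_lit 115) (nat_lit 1) (nat_lit 117) (nat_lit 1) (nat_lit 308) (nat_lit 393) (nat_lit 319)) (XT.lf (nat_lit 152) (nat_lit 2059237986) (nat_lit 0) (nat_lit 10418417703) (nat_lit 76) (nat_lit 256876504) (nat_lit 116) (nat_lit 1) (nat_lit 114) (nat_lit 1) (nat_lit 115) (nat_lit 1) (nat_lit 309) (nat_lit 393) (nat_lit 318)))) (XT.nd (nat_lit 156) (nat_lit 304) (nat_lit 0) (XT.nd (nat_lit 78) (nat_lit 76) (nat_lit 0) (XT.lf (nat_lit 76) (nat_lit 6780861912) (nat_lit 0) (nat_lit 4525925250) (nat_lit 152) (nat_lit 1216837335) (nat_lit 113) (nat_lit 1) (nat_lit 112) (nat_lit 1) (nat_lit 114) (nat_lit 1) (nat_lit 310) (nat_lit 393) (nat_lit 317)) (XT.lf (nat_lit 0) (nat_lit 1293170719) (nat_lit 0) (nat_lit 10913573487) (nat_lit 152) (nat_lit 110820239) (nat_lit 111) (nat_lit 3) (nat_lit 111) (nat_lit 1) (nat_lit 113) (nat_lit 1) (nat_lit 311) (nat_lit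 393) (nat_lit 316))) (XT.nd (nat_lit 78) (nat_lit 76) (nat_lit 0) (XT.lf (nat_lit 152) (nat_lit 7132343504) (nat_lit 0) (nat_lit 950235215) (nat_lit 76) (nat_lit 4031303487) (nat_lit 110) (nat_lit 1) (nat_lit 108) (nat_lit 1) (nat_lit 109) (nat_lit 1) (nat_lit 312) (nat_lit 393) (nat_lit 315)) (XT.lf (nat_lit 76) (nat_lit 714832737) (nat_lit 0) (nat_lit 2013127431) (nat_lit 76) (nat_lit 9186666626) (nat_lit 108) (nat_lit 3) (nat_lit 107) (nat_lit 1) (nat_lit 108) (nat_lit 1) (nat_lit 313) (nat_lit 393) (nat_lit 314))))))) (XT.nd (nat_lit 1092) (nat_lit 1672) (nat_lit 0) (XT.nd (nat_lit 546) (nat_lit 912) (nat_lit 0) (XT.nd (nat_lit 234) (nat_lit 456) (nat_lit 0) (XT.nd (nat_lit 78) (nat_lit 228) (nat_lit 0) (XT.lf (nat_lit 152) (nat_lit 6255183253) (nat_lit 0) (nat_lit 3021443375) (nat_lit 76) (nat_lit 2441540172) (nat_lit 107) (nat_lit 1) (nat_lit 105) (nat_lit 1) (nat_lit 106) (nat_lit 1) (nat_lit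 314) (nat_lit 393) (nat_lit 313)) (XT.nd (nat_lit 78) (nat_lit 152) (nat_lit 0) (XT.lf (nat_lit 76) (nat_lit 22122340) (nat_lit 0) (nat_lit 4021120676) (nat_lit 76) (nat_lit 7482513674) (nat_lit 105) (nat_lit 3) (nat_lit 104) (nat_lit 1) (nat_lit 105) (nat_lit 1) (nat_lit 315) (nat_lit 393) (nat_lit 312)) (XT.lf (nat_lit 152) (nat_lit 5385335235) (nat_lit 0) (nat_lit 4975197977) (nat_lit 76) (nat_lit 975704771) (nat_lit 104) (nat_lit 1) (nat_lit 102) (nat_lit 1) (nat_lit 103) (nat_lit 1) (nat_lit 316) (nat_lit 393) (nat_lit 311)))) (XT.nd (nat_lit 156) (nat_lit 228) (nat_lit 0) (XT.nd (nat_lit 78) (nat_lit 76) (nat_lit 0) (XT.lf (nat_lit 76) (nat_lit 5253590618) (nat_lit 0) (nat_lit 653478336) (nat_lit 152) (nat_lit 5243142725) (nat_lit 101) (nat_lit 1) (nat_lit 100) (nat_lit 1) (nat_lit 102) (nat_lit 1) (nat_lit 317) (nat_lit 393) (nat_lit 310)) (XT.lf (nat_lit 0) (nat_lit 368051058) (nat_lit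 0) (nat_lit 6442673109) (nat_lit 152) (nat_lit 4156699736) (nat_lit 99) (nat_lit 3) (nat_lit 99) (nat_lit 1) (nat_lit 101) (nat_lit 1) (nat_lit 318) (nat_lit 393) (nat_lit 309))) (XT.nd (nat_lit 78) (nat_lit 76) (nat_lit 0) (XT.lf (nat_lit 76) (nat_lit 6361152203) (nat_lit 0) (nat_lit 1319296765) (nat_lit 152) (nat_lit 3107181900) (nat_lit 98) (nat_lit 1) (nat_lit 97) (nat_lit 1) (nat_lit 99) (nat_lit 1) (nat_lit 319) (nat_lit 393) (nat_lit 308)) (XT.lf (nat_lit 0) (nat_lit 1588470061) (nat_lit 0) (nat_lit 6937849936) (nat_lit 152) (nat_lit 2084730206) (nat_lit 96) (nat_lit 3) (nat_lit 96) (nat_lit 1) (nat_lit 98) (nat_lit 1) (nat_lit 320) (nat_lit 393) (nat_lit 307))))) (XT.nd (nat_lit 234) (nat_lit 456) (nat_lit 0) (XT.nd (nat_lit 78) (nat_lit 304) (nat_lit 0) (XT.lf (nat_lit 76) (nat_lit 7373374568) (nat_lit 0) (nat_lit 1971377668) (nat_lit 152) (nat_lit 1092750833) (nat_lit 95) (nat_lit 1)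 (nat_lit 94) (nat_lit 1) (nat_lit 96) (nat_lit 1) (nat_lit 321) (nat_lit 393) (nat_lit 306)) (XT.nd (nat_lit 78) (nat_lit 228) (nat_lit 0) (XT.lf (nat_lit 0) (nat_lit 2712112402) (nat_lit 0) (nat_lit 7422835934) (nat_lit 152) (nat_lit 131944898) (nat_lit 93) (nat_lit 3) (nat_lit 93) (nat_lit 1) (nat_lit 95) (nat_lit 1) (nat_lit 322) (nat_lit 393) (nat_lit 305)) (XT.lf (nat_lit 152) (nat_lit 7485071538) (nat_lit 0) (nat_lit 820078680) (nat_lit 76) (nat_lit 1793951883) (nat_lit 92) (nat_lit 1) (nat_lit 90) (nat_lit 1) (nat_lit 91) (nat_lit 1) (nat_lit 323) (nat_lit 393) (nat_lit 304)))) (XT.nd (nat_lit 156) (nat_lit 228) (nat_lit 0) (XT.nd (nat_lit 78) (nat_lit 152) (nat_lit 0) (XT.lf (nat_lit 76) (nat_lit 2023064890) (nat_lit 0) (nat_lit 1739527872) (nat_lit 76) (nat_lit 6171380529) (nat_lit 90) (nat_lit 3) (nat_lit 89) (nat_lit 1) (nat_lit 90) (nat_lit 1) (nat_lit 324) (nat_lit 393) (nat_lit 303))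 (XT.lf (nat_lit 152) (nat_lit 6525811085) (nat_lit 0) (nat_lit 2638809018) (nat_lit 76) (nat_lit 607292369) (nat_lit 89) (nat_lit 1) (nat_lit 87) (nat_lit 1) (nat_lit 88) (nat_lit 1) (nat_lit 325) (nat_lit 393) (nat_lit 302))) (XT.nd (nat_lit 78) (nat_lit 152) (nat_lit 0) (XT.lf (nat_lit 76) (nat_lit 1229558983) (nat_lit 0) (nat_lit 3500161775) (nat_lit 76) (nat_lit 4882611964) (nat_lit 87) (nat_lit 3) (nat_lit 86) (nat_lit 1) (nat_lit 87) (nat_lit 1) (nat_lit 326) (nat_lit 393) (nat_lit 301)) (XT.lf (nat_lit 0) (nat_lit 481609038) (nat_lit 0) (nat_lit 3859374162) (nat_lit 152) (nat_lit 5114689251) (nat_lit 84) (nat_lit 3) (nat_lit 84) (nat_lit 1) (nat_lit 86) (nat_lit 1) (nat_lit 327) (nat_lit 393) (nat_lit 300)))))) (XT.nd (nat_lit 546) (nat_lit 760) (nat_lit 0) (XT.nd (nat_lit 234) (nat_lit 532) (nat_lit 0) (XT.nd (nat_lit 78) (nat_lit 304) (nat_lit 0) (XT.lf (nat_lit 76) (nat_lit 466598856)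 (nat_lit 0) (nat_lit 5151462018) (nat_lit 76) (nat_lit 3683518022) (nat_lit 84) (nat_lit 3) (nat_lit 83) (nat_lit 1) (nat_lit 84) (nat_lit 1) (nat_lit 328) (nat_lit 393) (nat_lit 299)) (XT.nd (nat_lit 78) (nat_lit 152) (nat_lit 0) (XT.lf (nat_lit 0) (nat_lit 1477973799) (nat_lit 0) (nat_lit 4452471409) (nat_lit 152) (nat_lit 3219507542) (nat_lit 81) (nat_lit 3) (nat_lit 81) (nat_lit 1) (nat_lit 83) (nat_lit 1) (nat_lit 329) (nat_lit 393) (nat_lit 298)) (XT.lf (nat_lit 76) (nat_lit 6435553962) (nat_lit 0) (nat_lit 259401440) (nat_lit 152) (nat_lit 2306269943) (nat_lit 80) (nat_lit 1) (nat_lit 79) (nat_lit 1) (nat_lit 81) (nat_lit 1) (nat_lit 330) (nat_lit 393) (nat_lit 297)))) (XT.nd (nat_lit 156) (nat_lit 304) (nat_lit 0) (XT.nd (nat_lit 78) (nat_lit 152) (nat_lit 0) (XT.lf (nat_lit 0) (nat_lit 2398977207) (nat_lit 0) (nat_lit 5018352951) (nat_lit 152) (nat_lit 1437197578) (nat_lit 78) (nat_lit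 3) (nat_lit 78) (nat_lit 1) (nat_lit 80) (nat_lit 1) (nat_lit 331) (nat_lit 393) (nat_lit 296)) (XT.lf (nat_lit 76) (nat_lit 7188809306) (nat_lit 0) (nat_lit 944291356) (nat_lit 152) (nat_lit 577732111) (nat_lit 77) (nat_lit 1) (nat_lit 76) (nat_lit 1) (nat_lit 78) (nat_lit 1) (nat_lit 332) (nat_lit 393) (nat_lit 295))) (XT.nd (nat_lit 78) (nat_lit 152) (nat_lit 0) (XT.lf (nat_lit 76) (nat_lit 3010429999) (nat_lit 0) (nat_lit 241434586) (nat_lit 76) (nat_lit 5317081469) (nat_lit 75) (nat_lit 3) (nat_lit 74) (nat_lit 1) (nat_lit 75) (nat_lit 1) (nat_lit 333) (nat_lit 393) (nat_lit 294)) (XT.lf (nat_lit 152) (nat_lit 6822930157) (nat_lit 0) (nat_lit 1065249746) (nat_lit 76) (nat_lit 541676692) (nat_lit 74) (nat_lit 1) (nat_lit 72) (nat_lit 1) (nat_lit 73) (nat_lit 1) (nat_lit 334) (nat_lit 393) (nat_lit 293))))) (XT.nd (nat_lit 234) (nat_lit 456) (nat_lit 0) (XT.nd (nat_lit 78) (nat_lit 228) (nat_lit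 0) (XT.lf (nat_lit 76) (nat_lit 2209311212) (nat_lit 0) (nat_lit 1842635779) (nat_lit 76) (nat_lit 4240574203) (nat_lit 72) (nat_lit 3) (nat_lit 71) (nat_lit 1) (nat_lit 72) (nat_lit 1) (nat_lit 335) (nat_lit 393) (nat_lit 292)) (XT.nd (nat_lit 78) (nat_lit 76) (nat_lit 0) (XT.lf (nat_lit 0) (nat_lit 366936928) (nat_lit 0) (nat_lit 2245127395) (nat_lit 152) (nat_lit 5545936894) (nat_lit 69) (nat_lit 3) (nat_lit 69) (nat_lit 1) (nat_lit 71) (nat_lit 1) (nat_lit 336) (nat_lit 393) (nat_lit 291)) (XT.lf (nat_lit 76) (nat_lit 1447167072) (nat_lit 0) (nat_lit 3342240138) (nat_lit 76) (nat_lit 3235919898) (nat_lit 69) (nat_lit 3) (nat_lit 68) (nat_lit 1) (nat_lit 69) (nat_lit 1) (nat_lit 337) (nat_lit 393) (nat_lit 290)))) (XT.nd (nat_lit 156) (nat_lit 228) (nat_lit 0) (XT.nd (nat_lit 78) (nat_lit 76) (nat_lit 0) (XT.lf (nat_lit 0) (nat_lit 1200334067) (nat_lit 0) (nat_lit 2854289523) (nat_lit 152) (nat_lit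 3840443402) (nat_lit 66) (nat_lit 3) (nat_lit 66) (nat_lit 1) (nat_lit 68) (nat_lit 1) (nat_lit 338) (nat_lit 393) (nat_lit 289)) (XT.lf (nat_lit 76) (nat_lit 723618756) (nat_lit 0) (nat_lit 4744597345) (nat_lit 76) (nat_lit 2298814429) (nat_lit 66) (nat_lit 3) (nat_lit 65) (nat_lit 1) (nat_lit 66) (nat_lit 1) (nat_lit 339) (nat_lit 393) (nat_lit 288))) (XT.nd (nat_lit 78) (nat_lit 76) (nat_lit 0) (XT.lf (nat_lit 0) (nat_lit 1973039413) (nat_lit 0) (nat_lit 3429531020) (nat_lit 152) (nat_lit 2238313156) (nat_lit 63) (nat_lit 3) (nat_lit 63) (nat_lit 1) (nat_lit 65) (nat_lit 1) (nat_lit 340) (nat_lit 393) (nat_lit 287)) (XT.lf (nat_lit 76) (nat_lit 38109177) (nat_lit 0) (nat_lit 6053959493) (nat_lit 76) (nat_lit 1425244040) (nat_lit 63) (nat_lit 3) (nat_lit 62) (nat_lit 1) (nat_lit 63) (nat_lit 1) (nat_lit 341) (nat_lit 393) (nat_lit 286))))))))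
noncomputable def ec116 : XT := (XT.nd (nat_lit 2184) (nat_lit 988) (nat_lit 0) (XT.nd (nat_lit 1092) (nat_lit 1748) (nat_lit 0) (XT.nd (nat_lit 546) (nat_lit 912) (nat_lit 0) (XT.nd (nat_lit 234) (nat_lit 456) (nat_lit 0) (XT.nd (nat_lit 78) (nat_lit 304) (nat_lit 0) (XT.lf (nat_lit 0) (nat_lit 2688740286) (nat_lit 0) (nat_lit 3971343026) (nat_lit 152) (nat_lit 735055228) (nat_lit 60) (nat_lit 3) (nat_lit 60) (nat_lit 1) (nat_lit 62) (nat_lit 1) (nat_lit 342) (nat_lit 393) (nat_lit 285)) (XT.nd (nat_lit 78) (nat_lit 152) (nat_lit 0) (XT.lf (nat_lit 76) (nat_lit 6670271920) (nat_lit 0) (nat_lit 598160919) (nat_lit 152) (nat_lit 7259752) (nat_lit 59) (nat_lit 1) (nat_lit 58) (nat_lit 1) (nat_lit 60) (nat_lit 1) (nat_lit 343) (nat_lit 393) (nat_lit 284)) (XT.lf (nat_lit 76) (nat_lit 2670376238) (nat_lit 0) (nat_lit 687107718) (nat_lit 76) (nat_lit 3799850504) (nat_lit 57) (nat_lit 3) (nat_lit 56)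 (nat_lit 1) (nat_lit 57) (nat_lit 1) (nat_lit 344) (nat_lit 393) (nat_lit 283)))) (XT.nd (nat_lit 156) (nat_lit 228) (nat_lit 0) (XT.nd (nat_lit 78) (nat_lit 76) (nat_lit 0) (XT.lf (nat_lit 0) (nat_lit 168475234) (nat_lit 0) (nat_lit 1212834242) (nat_lit 152) (nat_lit 5660295470) (nat_lit 54) (nat_lit 3) (nat_lit 54) (nat_lit 1) (nat_lit 56) (nat_lit 1) (nat_lit 345) (nat_lit 393) (nat_lit 282)) (XT.lf (nat_lit 76) (nat_lit 1950360871) (nat_lit 0) (nat_lit 2031843697) (nat_lit 76) (nat_lit 2944988497) (nat_lit 54) (nat_lit 3) (nat_lit 53) (nat_lit 1) (nat_lit 54) (nat_lit 1) (nat_lit 346) (nat_lit 393) (nat_lit 281))) (XT.nd (nat_lit 78) (nat_lit 76) (nat_lit 0) (XT.lf (nat_lit 0) (nat_lit 877440128) (nat_lit 0) (nat_lit 1797114309) (nat_lit 152) (nat_lit 4140539061) (nat_lit 51) (nat_lit 3) (nat_lit 51) (nat_lit 1) (nat_lit 53) (nat_lit 1) (nat_lit 347) (nat_lit 393) (nat_lit 280)) (XT.lf (nat_lit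 76) (nat_lit 1270027328) (nat_lit 0) (nat_lit 3288719469) (nat_lit 76) (nat_lit 2145907500) (nat_lit 51) (nat_lit 3) (nat_lit 50) (nat_lit 1) (nat_lit 51) (nat_lit 1) (nat_lit 348) (nat_lit 393) (nat_lit 279))))) (XT.nd (nat_lit 234) (nat_lit 532) (nat_lit 0) (XT.nd (nat_lit 78) (nat_lit 228) (nat_lit 0) (XT.lf (nat_lit 0) (nat_lit 1536279018) (nat_lit 0) (nat_lit 2346154351) (nat_lit 152) (nat_lit 2713630398) (nat_lit 48) (nat_lit 3) (nat_lit 48) (nat_lit 1) (nat_lit 50) (nat_lit 1) (nat_lit 349) (nat_lit 393) (nat_lit 278)) (XT.nd (nat_lit 78) (nat_lit 152) (nat_lit 0) (XT.lf (nat_lit 76) (nat_lit 628173181) (nat_lit 0) (nat_lit 4461796835) (nat_lit 76) (nat_lit 1399483021) (nat_lit 48) (nat_lit 3) (nat_lit 47) (nat_lit 1) (nat_lit 48) (nat_lit 1) (nat_lit 350) (nat_lit 393) (nat_lit 277)) (XT.lf (nat_lit 0) (nat_lit 2147867405) (nat_lit 0) (nat_lit 2861052648) (nat_lit 152) (nat_lit 1375335321)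 (nat_lit 45) (nat_lit 3) (nat_lit 45) (nat_lit 1) (nat_lit 47) (nat_lit 1) (nat_lit 351) (nat_lit 393) (nat_lit 276)))) (XT.nd (nat_lit 156) (nat_lit 304) (nat_lit 0) (XT.nd (nat_lit 78) (nat_lit 152) (nat_lit 0) (XT.lf (nat_lit 76) (nat_lit 23554064) (nat_lit 0) (nat_lit 5555002528) (nat_lit 76) (nat_lit 702778105) (nat_lit 45) (nat_lit 3) (nat_lit 44) (nat_lit 1) (nat_lit 45) (nat_lit 1) (nat_lit 352) (nat_lit 393) (nat_lit 275)) (XT.lf (nat_lit 0) (nat_lit 2714907413) (nat_lit 0) (nat_lit 3342946286) (nat_lit 152) (nat_lit 121564511) (nat_lit 42) (nat_lit 3) (nat_lit 42) (nat_lit 1) (nat_lit 44) (nat_lit 1) (nat_lit 353) (nat_lit 393) (nat_lit 274))) (XT.nd (nat_lit 78) (nat_lit 76) (nat_lit 0) (XT.lf (nat_lit 152) (nat_lit 5540515539) (nat_lit 0) (nat_lit 496522414) (nat_lit 76) (nat_lit 42716341) (nat_lit 41) (nat_lit 1) (nat_lit 39) (nat_lit 1) (nat_lit 40) (nat_lit 1) (nat_lit 354) (nat_lit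 393) (nat_lit 273)) (XT.lf (nat_lit 76) (nat_lit 2177693958) (nat_lit 0) (nat_lit 1072556663) (nat_lit 76) (nat_lit 2730751988) (nat_lit 39) (nat_lit 3) (nat_lit 38) (nat_lit 1) (nat_lit 39) (nat_lit 1) (nat_lit 355) (nat_lit 393) (nat_lit 272)))))) (XT.nd (nat_lit 546) (nat_lit 912) (nat_lit 0) (XT.nd (nat_lit 234) (nat_lit 456) (nat_lit 0) (XT.nd (nat_lit 78) (nat_lit 228) (nat_lit 0) (XT.lf (nat_lit 0) (nat_lit 568112323) (nat_lit 0) (nat_lit 1079492841) (nat_lit 152) (nat_lit 4236817610) (nat_lit 36) (nat_lit 3) (nat_lit 36) (nat_lit 1) (nat_lit 38) (nat_lit 1) (nat_lit 356) (nat_lit 393) (nat_lit 271)) (XT.nd (nat_lit 78) (nat_lit 152) (nat_lit 0) (XT.lf (nat_lit 76) (nat_lit 1555626004) (nat_lit 0) (nat_lit 2190792515) (nat_lit 76) (nat_lit 2042655069) (nat_lit 36) (nat_lit 3) (nat_lit 35) (nat_lit 1) (nat_lit 36) (nat_lit 1) (nat_lit 357) (nat_lit 393) (nat_lit 270)) (XT.lf (nat_lit 0) (nat_lit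 1135957435) (nat_lit 0) (nat_lit 1586284818) (nat_lit 152) (nat_lit 2973257804) (nat_lit 33) (nat_lit 3) (nat_lit 33) (nat_lit 1) (nat_lit 35) (nat_lit 1) (nat_lit 358) (nat_lit 393) (nat_lit 269)))) (XT.nd (nat_lit 156) (nat_lit 228) (nat_lit 0) (XT.nd (nat_lit 78) (nat_lit 152) (nat_lit 0) (XT.lf (nat_lit 76) (nat_lit 970051145) (nat_lit 0) (nat_lit 3234457994) (nat_lit 76) (nat_lit 1398934367) (nat_lit 33) (nat_lit 3) (nat_lit 32) (nat_lit 1) (nat_lit 33) (nat_lit 1) (nat_lit 359) (nat_lit 393) (nat_lit 268)) (XT.lf (nat_lit 0) (nat_lit 1663968896) (nat_lit 0) (nat_lit 2060532209) (nat_lit 152) (nat_lit 1788277673) (nat_lit 30) (nat_lit 3) (nat_lit 30) (nat_lit 1) (nat_lit 32) (nat_lit 1) (nat_lit 360) (nat_lit 393) (nat_lit 267))) (XT.nd (nat_lit 78) (nat_lit 152) (nat_lit 0) (XT.lf (nat_lit 76) (nat_lit 419536012) (nat_lit 0) (nat_lit 4207146015) (nat_lit 76) (nat_lit 797215357) (nat_lit 30)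 (nat_lit 3) (nat_lit 29) (nat_lit 1) (nat_lit 30) (nat_lit 1) (nat_lit 361) (nat_lit 393) (nat_lit 266)) (XT.lf (nat_lit 0) (nat_lit 2154334381) (nat_lit 0) (nat_lit 2503552453) (nat_lit 152) (nat_lit 678160655) (nat_lit 27) (nat_lit 3) (nat_lit 27) (nat_lit 1) (nat_lit 29) (nat_lit 1) (nat_lit 362) (nat_lit 393) (nat_lit 265))))) (XT.nd (nat_lit 234) (nat_lit 456) (nat_lit 0) (XT.nd (nat_lit 78) (nat_lit 304) (nat_lit 0) (XT.lf (nat_lit 76) (nat_lit 5015910856) (nat_lit 0) (nat_lit 95436214) (nat_lit 152) (nat_lit 138853124) (nat_lit 26) (nat_lit 1) (nat_lit 25) (nat_lit 1) (nat_lit 27) (nat_lit 1) (nat_lit 363) (nat_lit 393) (nat_lit 264)) (XT.nd (nat_lit 78) (nat_lit 152) (nat_lit 0) (XT.lf (nat_lit 76) (nat_lit 2244813911) (nat_lit 0) (nat_lit 367843366) (nat_lit 76) (nat_lit 2552339237) (nat_lit 24) (nat_lit 3) (nat_lit 23) (nat_lit 1) (nat_lit 24) (nat_lit 1) (nat_lit 364) (nat_lit 393) (nat_lit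 263)) (XT.lf (nat_lit 0) (nat_lit 297653663) (nat_lit 0) (nat_lit 582004404) (nat_lit 152) (nat_lit 4202068859) (nat_lit 21) (nat_lit 3) (nat_lit 21) (nat_lit 1) (nat_lit 23) (nat_lit 1) (nat_lit 365) (nat_lit 393) (nat_lit 262)))) (XT.nd (nat_lit 156) (nat_lit 228) (nat_lit 0) (XT.nd (nat_lit 78) (nat_lit 152) (nat_lit 0) (XT.lf (nat_lit 76) (nat_lit 1685206127) (nat_lit 0) (nat_lit 1358133854) (nat_lit 76) (nat_lit 1956016356) (nat_lit 21) (nat_lit 3) (nat_lit 20) (nat_lit 1) (nat_lit 21) (nat_lit 1) (nat_lit 366) (nat_lit 393) (nat_lit 261)) (XT.lf (nat_lit 0) (nat_lit 790516893) (nat_lit 0) (nat_lit 1040919324) (nat_lit 152) (nat_lit 3087233263) (nat_lit 18) (nat_lit 3) (nat_lit 18) (nat_lit 1) (nat_lit 20) (nat_lit 1) (nat_lit 367) (nat_lit 393) (nat_lit 260))) (XT.nd (nat_lit 78) (nat_lit 152) (nat_lit 0) (XT.lf (nat_lit 76) (nat_lit 1159042226) (nat_lit 0) (nat_lit 2282573555) (nat_lit 76)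 (nat_lit 1397520732) (nat_lit 18) (nat_lit 3) (nat_lit 17) (nat_lit 1) (nat_lit 18) (nat_lit 1) (nat_lit 368) (nat_lit 393) (nat_lit 259)) (XT.lf (nat_lit 0) (nat_lit 1249409147) (nat_lit 0) (nat_lit 1469916318) (nat_lit 152) (nat_lit 2041624286) (nat_lit 15) (nat_lit 3) (nat_lit 15) (nat_lit 1) (nat_lit 17) (nat_lit 1) (nat_lit 369) (nat_lit 393) (nat_lit 258))))))) (XT.nd (nat_lit 44382) (nat_lit 0) (nat_lit 15276) (XT.nd (nat_lit 546) (nat_lit 76) (nat_lit 0) (XT.nd (nat_lit 234) (nat_lit 608) (nat_lit 0) (XT.nd (nat_lit 78) (nat_lit 228) (nat_lit 0) (XT.lf (nat_lit 76) (nat_lit 664880730) (nat_lit 0) (nat_lit 3144385742) (nat_lit 76) (nat_lit 874887560) (nat_lit 15) (nat_lit 3) (nat_lit 14) (nat_lit 1) (nat_lit 15) (nat_lit 1) (nat_lit 370) (nat_lit 393) (nat_lit 257)) (XT.nd (nat_lit 78) (nat_lit 76) (nat_lit 0) (XT.lf (nat_lit 0) (nat_lit 1676142601) (nat_lit 0) (nat_lit 1870323674) (nat_lit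 152) (nat_lit 1061921317) (nat_lit 12) (nat_lit 3) (nat_lit 12) (nat_lit 1) (nat_lit 14) (nat_lit 1) (nat_lit 371) (nat_lit 393) (nat_lit 256)) (XT.lf (nat_lit 76) (nat_lit 201318345) (nat_lit 0) (nat_lit 3946661433) (nat_lit 76) (nat_lit 386252699) (nat_lit 12) (nat_lit 3) (nat_lit 11) (nat_lit 1) (nat_lit 12) (nat_lit 1) (nat_lit 372) (nat_lit 393) (nat_lit 255)))) (XT.nd (nat_lit 156) (nat_lit 228) (nat_lit 0) (XT.nd (nat_lit 78) (nat_lit 228) (nat_lit 0) (XT.lf (nat_lit 0) (nat_lit 2072435746) (nat_lit 0) (nat_lit 2243433762) (nat_lit 152) (nat_lit 144939818) (nat_lit 9) (nat_lit 3) (nat_lit 9) (nat_lit 1) (nat_lit 11) (nat_lit 1) (nat_lit 373) (nat_lit 393) (nat_lit 254)) (XT.lf (nat_lit 0) (nat_lit 74025669) (nat_lit 0) (nat_lit 232137565) (nat_lit 152) (nat_lit 4082861043) (nat_lit 6) (nat_lit 3) (nat_lit 6) (nat_lit 1) (nat_lit 8) (nat_lit 1) (nat_lit 374) (nat_lit 393) (nat_lit 253)))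 (XT.nd (nat_lit 78) (nat_lit 152) (nat_lit 0) (XT.lf (nat_lit 76) (nat_lit 1720352318) (nat_lit 0) (nat_lit 726550565) (nat_lit 76) (nat_lit 1870935077) (nat_lit 6) (nat_lit 3) (nat_lit 5) (nat_lit 1) (nat_lit 6) (nat_lit 1) (nat_lit 375) (nat_lit 393) (nat_lit 252)) (XT.lf (nat_lit 0) (nat_lit 503719565) (nat_lit 0) (nat_lit 642954664) (nat_lit 152) (nat_lit 3101558889) (nat_lit 3) (nat_lit 3) (nat_lit 3) (nat_lit 1) (nat_lit 5) (nat_lit 1) (nat_lit 376) (nat_lit 393) (nat_lit 251))))) (XT.nd (nat_lit 43524) (nat_lit 0) (nat_lit 19988) (XT.nd (nat_lit 43368) (nat_lit 0) (nat_lit 21736) (XT.lf (nat_lit 76) (nat_lit 1251918995) (nat_lit 0) (nat_lit 1543052709) (nat_lit 76) (nat_lit 1384523850) (nat_lit 3) (nat_lit 3) (nat_lit 2) (nat_lit 1) (nat_lit 3) (nat_lit 1) (nat_lit 377) (nat_lit 393) (nat_lit 250)) (XT.nd (nat_lit 78) (nat_lit 456) (nat_lit 0) (XT.lf (nat_lit 76) (nat_lit 14325292210) (nat_lit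 0) (nat_lit 7868637250) (nat_lit 608) (nat_lit 13883862847) (nat_lit 295) (nat_lit 1) (nat_lit 294) (nat_lit 1) (nat_lit 302) (nat_lit 1) (nat_lit 252) (nat_lit 394) (nat_lit 374)) (XT.lf (nat_lit 76) (nat_lit 3433220617) (nat_lit 0) (nat_lit 16642980838) (nat_lit 532) (nat_lit 15265026270) (nat_lit 289) (nat_lit 1) (nat_lit 288) (nat_lit 1) (nat_lit 295) (nat_lit 1) (nat_lit 253) (nat_lit 394) (nat_lit 373)))) (XT.nd (nat_lit 156) (nat_lit 836) (nat_lit 0) (XT.nd (nat_lit 78) (nat_lit 456) (nat_lit 0) (XT.lf (nat_lit 532) (nat_lit 9120068311) (nat_lit 0) (nat_lit 18201175114) (nat_lit 456) (nat_lit 7303343615) (nat_lit 289) (nat_lit 1) (nat_lit 282) (nat_lit 1) (nat_lit 288) (nat_lit 1) (nat_lit 254) (nat_lit 394) (nat_lit 372)) (XT.lf (nat_lit 76) (nat_lit 16122920180) (nat_lit 0) (nat_lit 464995215) (nat_lit 456) (nat_lit 17340265294) (nat_lit 277) (nat_lit 1) (nat_lit 276) (nat_lit 1) (nat_lit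 282) (nat_lit 1) (nat_lit 255) (nat_lit 394) (nat_lit 371))) (XT.nd (nat_lit 78) (nat_lit 380) (nat_lit 0) (XT.lf (nat_lit 76) (nat_lit 5325241534) (nat_lit 0) (nat_lit 9844407364) (nat_lit 532) (nat_lit 18080174725) (nat_lit 271) (nat_lit 1) (nat_lit 270) (nat_lit 1) (nat_lit 277) (nat_lit 1) (nat_lit 256) (nat_lit 394) (nat_lit 370)) (XT.lf (nat_lit 456) (nat_lit 13351968843) (nat_lit 0) (nat_lit 13969213388) (nat_lit 380) (nat_lit 5268763171) (nat_lit 271) (nat_lit 1) (nat_lit 265) (nat_lit 1) (nat_lit 270) (nat_lit 1) (nat_lit 257) (nat_lit 394) (nat_lit 369)))))) (XT.nd (nat_lit 546) (nat_lit 2128) (nat_lit 0) (XT.nd (nat_lit 234) (nat_lit 1368) (nat_lit 0) (XT.nd (nat_lit 78) (nat_lit 836) (nat_lit 0) (XT.lf (nat_lit 456) (nat_lit 3311737899) (nat_lit 0) (nat_lit 12973433308) (nat_lit 380) (nat_lit 15662759937) (nat_lit 266) (nat_lit 1) (nat_lit 260) (nat_lit 1) (nat_lit 265) (nat_lit 1)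 (nat_lit 258) (nat_lit 394) (nat_lit 368)) (XT.nd (nat_lit 78) (nat_lit 380) (nat_lit 0) (XT.lf (nat_lit 76) (nat_lit 5631352593) (nat_lit 0) (nat_lit 6524847339) (nat_lit 456) (nat_lit 19166593742) (nat_lit 255) (nat_lit 1) (nat_lit 254) (nat_lit 1) (nat_lit 260) (nat_lit 1) (nat_lit 259) (nat_lit 394) (nat_lit 367)) (XT.lf (nat_lit 456) (nat_lit 14449287674) (nat_lit 0) (nat_lit 11490784642) (nat_lit 380) (nat_lit 4773459767) (nat_lit 255) (nat_lit 1) (nat_lit 249) (nat_lit 1) (nat_lit 254) (nat_lit 1) (nat_lit 260) (nat_lit 394) (nat_lit 366)))) (XT.nd (nat_lit 156) (nat_lit 608) (nat_lit 0) (XT.nd (nat_lit 78) (nat_lit 456) (nat_lit 0) (XT.lf (nat_lit 380) (nat_lit 4148464993) (nat_lit 0) (nat_lit 10990743248) (nat_lit 304) (nat_lit 14981114786) (nat_lit 250) (nat_lit 1) (nat_lit 245) (nat_lit 1) (nat_lit 249) (nat_lit 1) (nat_lit 261) (nat_lit 394) (nat_lit 365)) (XT.lf (nat_lit 76) (nat_lit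 4715624958) (nat_lit 0) (nat_lit 5925297365) (nat_lit 456) (nat_lit 18901588806) (nat_lit 240) (nat_lit 1) (nat_lit 239) (nat_lit 1) (nat_lit 245) (nat_lit 1) (nat_lit 262) (nat_lit 394) (nat_lit 364))) (XT.nd (nat_lit 78) (nat_lit 304) (nat_lit 0) (XT.lf (nat_lit 380) (nat_lit 13118830437) (nat_lit 0) (nat_lit 10395468407) (nat_lit 304) (nat_lit 5464252068) (nat_lit 240) (nat_lit 1) (nat_lit 235) (nat_lit 1) (nat_lit 239) (nat_lit 1) (nat_lit 263) (nat_lit 394) (nat_lit 363)) (XT.lf (nat_lit 380) (nat_lit 2706391514) (nat_lit 0) (nat_lit 10293929310) (nat_lit 304) (nat_lit 15429067490) (nat_lit 236) (nat_lit 1) (nat_lit 231) (nat_lit 1) (nat_lit 235) (nat_lit 1) (nat_lit 264) (nat_lit 394) (nat_lit 362))))) (XT.nd (nat_lit 234) (nat_lit 1140) (nat_lit 0) (XT.nd (nat_lit 78) (nat_lit 608) (nat_lit 0) (XT.lf (nat_lit 76) (nat_lit 2876089054) (nat_lit 0) (nat_lit 7422243634) (nat_lit 380) (nat_lit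 17595382640) (nat_lit 227) (nat_lit 1) (nat_lit 226) (nat_lit 1) (nat_lit 231) (nat_lit 1) (nat_lit 265) (nat_lit 394) (nat_lit 361)) (XT.nd (nat_lit 78) (nat_lit 304) (nat_lit 0) (XT.lf (nat_lit 380) (nat_lit 9940158976) (nat_lit 0) (nat_lit 10378219833) (nat_lit 304) (nat_lit 7052067826) (nat_lit 227) (nat_lit 1) (nat_lit 222) (nat_lit 1) (nat_lit 226) (nat_lit 1) (nat_lit 266) (nat_lit 394) (nat_lit 360)) (XT.lf (nat_lit 76) (nat_lit 10133947339) (nat_lit 0) (nat_lit 455961727) (nat_lit 304) (nat_lit 16271119116) (nat_lit 219) (nat_lit 1) (nat_lit 218) (nat_lit 1) (nat_lit 222) (nat_lit 1) (nat_lit 267) (nat_lit 394) (nat_lit 359)))) (XT.nd (nat_lit 156) (nat_lit 608) (nat_lit 0) (XT.nd (nat_lit 78) (nat_lit 228) (nat_lit 0) (XT.lf (nat_lit 76) (nat_lit 355844543) (nat_lit 0) (nat_lit 10505010946) (nat_lit 380) (nat_lit 15502300827) (nat_lit 215) (nat_lit 1) (nat_lit 214) (nat_lit 1) (nat_lit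 219) (nat_lit 1) (nat_lit 268) (nat_lit 394) (nat_lit 358)) (XT.lf (nat_lit 304) (nat_lit 5386921605) (nat_lit 0) (nat_lit 11188492603) (nat_lit 228) (nat_lit 9301155018) (nat_lit 215) (nat_lit 1) (nat_lit 211) (nat_lit 1) (nat_lit 214) (nat_lit 1) (nat_lit 269) (nat_lit 394) (nat_lit 357))) (XT.nd (nat_lit 78) (nat_lit 228) (nat_lit 0) (XT.lf (nat_lit 76) (nat_lit 6785983718) (nat_lit 0) (nat_lit 4821131286) (nat_lit 380) (nat_lit 13794967282) (nat_lit 207) (nat_lit 1) (nat_lit 206) (nat_lit 1) (nat_lit 211) (nat_lit 1) (nat_lit 270) (nat_lit 394) (nat_lit 356)) (XT.lf (nat_lit 304) (nat_lit 10155746822) (nat_lit 0) (nat_lit 12082426849) (nat_lit 228) (nat_lit 2700342917) (nat_lit 207) (nat_lit 1) (nat_lit 203) (nat_lit 1) (nat_lit 206) (nat_lit 1) (nat_lit 271) (nat_lit 394) (nat_lit 355))))))))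
noncomputable def ec117 : XT := (XT.nd (nat_lit 2184) (nat_lit 3648) (nat_lit 0) (XT.nd (nat_lit 1092) (nat_lit 2356) (nat_lit 0) (XT.nd (nat_lit 546) (nat_lit 1520) (nat_lit 0) (XT.nd (nat_lit 234) (nat_lit 988) (nat_lit 0) (XT.nd (nat_lit 78) (nat_lit 456) (nat_lit 0) (XT.lf (nat_lit 76) (nat_lit 12467323331) (nat_lit 0) (nat_lit 152274256) (nat_lit 304) (nat_lit 11866248537) (nat_lit 200) (nat_lit 1) (nat_lit 199) (nat_lit 1) (nat_lit 203) (nat_lit 1) (nat_lit 272) (nat_lit 394) (nat_lit 354)) (XT.nd (nat_lit 78) (nat_lit 228) (nat_lit 0) (XT.lf (nat_lit 76) (nat_lit 3098338406) (nat_lit 0) (nat_lit 10084040579) (nat_lit 304) (nat_lit 10860462925) (nat_lit 197) (nat_lit 1) (nat_lit 196) (nat_lit 1) (nat_lit 200) (nat_lit 1) (nat_lit 273) (nat_lit 394) (nat_lit 353)) (XT.lf (nat_lit 304) (nat_lit 3712818038) (nat_lit 0) (nat_lit 13803757328) (nat_lit 228) (nat_lit 6093719435) (nat_lit 197) (nat_lit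 1) (nat_lit 193) (nat_lit 1) (nat_lit 196) (nat_lit 1) (nat_lit 274) (nat_lit 394) (nat_lit 352)))) (XT.nd (nat_lit 156) (nat_lit 456) (nat_lit 0) (XT.nd (nat_lit 78) (nat_lit 228) (nat_lit 0) (XT.lf (nat_lit 76) (nat_lit 8195950006) (nat_lit 0) (nat_lit 6249713936) (nat_lit 304) (nat_lit 8741265385) (nat_lit 190) (nat_lit 1) (nat_lit 189) (nat_lit 1) (nat_lit 193) (nat_lit 1) (nat_lit 275) (nat_lit 394) (nat_lit 351)) (XT.lf (nat_lit 304) (nat_lit 6811130662) (nat_lit 0) (nat_lit 15152900517) (nat_lit 228) (nat_lit 809855712) (nat_lit 190) (nat_lit 1) (nat_lit 186) (nat_lit 1) (nat_lit 189) (nat_lit 1) (nat_lit 276) (nat_lit 394) (nat_lit 350))) (XT.nd (nat_lit 78) (nat_lit 228) (nat_lit 0) (XT.lf (nat_lit 76) (nat_lit 12714110811) (nat_lit 0) (nat_lit 3138172228) (nat_lit 228) (nat_lit 6516592497) (nat_lit 184) (nat_lit 1) (nat_lit 183) (nat_lit 1) (nat_lit 186) (nat_lit 1) (nat_lit 277) (nat_lit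 394) (nat_lit 349)) (XT.lf (nat_lit 76) (nat_lit 3822866916) (nat_lit 0) (nat_lit 12763684703) (nat_lit 304) (nat_lit 5386431170) (nat_lit 181) (nat_lit 1) (nat_lit 180) (nat_lit 1) (nat_lit 184) (nat_lit 1) (nat_lit 278) (nat_lit 394) (nat_lit 348))))) (XT.nd (nat_lit 234) (nat_lit 912) (nat_lit 0) (XT.nd (nat_lit 78) (nat_lit 380) (nat_lit 0) (XT.lf (nat_lit 76) (nat_lit 16714043227) (nat_lit 0) (nat_lit 648295665) (nat_lit 228) (nat_lit 4223908608) (nat_lit 178) (nat_lit 1) (nat_lit 177) (nat_lit 1) (nat_lit 180) (nat_lit 1) (nat_lit 279) (nat_lit 394) (nat_lit 347)) (XT.nd (nat_lit 78) (nat_lit 152) (nat_lit 0) (XT.lf (nat_lit 76) (nat_lit 7934699073) (nat_lit 0) (nat_lit 10168704871) (nat_lit 304) (nat_lit 3102893722) (nat_lit 175) (nat_lit 1) (nat_lit 174) (nat_lit 1) (nat_lit 178) (nat_lit 1) (nat_lit 280) (nat_lit 394) (nat_lit 346)) (XT.lf (nat_lit 228) (nat_lit 1334299875) (nat_lit 0)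 (nat_lit 18928686618) (nat_lit 152) (nat_lit 573462550) (nat_lit 175) (nat_lit 1) (nat_lit 172) (nat_lit 1) (nat_lit 174) (nat_lit 1) (nat_lit 281) (nat_lit 394) (nat_lit 345)))) (XT.nd (nat_lit 156) (nat_lit 380) (nat_lit 0) (XT.nd (nat_lit 78) (nat_lit 304) (nat_lit 0) (XT.lf (nat_lit 76) (nat_lit 11593692313) (nat_lit 0) (nat_lit 8085858459) (nat_lit 228) (nat_lit 792384708) (nat_lit 170) (nat_lit 1) (nat_lit 169) (nat_lit 1) (nat_lit 172) (nat_lit 1) (nat_lit 282) (nat_lit 394) (nat_lit 344)) (XT.lf (nat_lit 228) (nat_lit 2828166457) (nat_lit 0) (nat_lit 392182692) (nat_lit 152) (nat_lit 16896386250) (nat_lit 168) (nat_lit 1) (nat_lit 165) (nat_lit 1) (nat_lit 167) (nat_lit 1) (nat_lit 283) (nat_lit 394) (nat_lit 343))) (XT.nd (nat_lit 78) (nat_lit 152) (nat_lit 0) (XT.lf (nat_lit 228) (nat_lit 13310953412) (nat_lit 0) (nat_lit 1550293833) (nat_lit 152) (nat_lit 4906261211) (nat_lit 165) (nat_lit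 1) (nat_lit 162) (nat_lit 1) (nat_lit 164) (nat_lit 1) (nat_lit 284) (nat_lit 394) (nat_lit 342)) (XT.lf (nat_lit 228) (nat_lit 3904566959) (nat_lit 0) (nat_lit 2719272038) (nat_lit 152) (nat_lit 12802053477) (nat_lit 163) (nat_lit 1) (nat_lit 160) (nat_lit 1) (nat_lit 162) (nat_lit 1) (nat_lit 285) (nat_lit 394) (nat_lit 341)))))) (XT.nd (nat_lit 546) (nat_lit 1140) (nat_lit 0) (XT.nd (nat_lit 234) (nat_lit 608) (nat_lit 0) (XT.nd (nat_lit 78) (nat_lit 380) (nat_lit 0) (XT.lf (nat_lit 228) (nat_lit 13882104935) (nat_lit 0) (nat_lit 3889349482) (nat_lit 152) (nat_lit 1320009595) (nat_lit 160) (nat_lit 1) (nat_lit 157) (nat_lit 1) (nat_lit 159) (nat_lit 1) (nat_lit 286) (nat_lit 394) (nat_lit 340)) (XT.nd (nat_lit 78) (nat_lit 228) (nat_lit 0) (XT.lf (nat_lit 228) (nat_lit 4647986717) (nat_lit 0) (nat_lit 5021203008) (nat_lit 152) (nat_lit 9093751714) (nat_lit 158) (nat_lit 1) (nat_lit 155) (nat_lit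 1) (nat_lit 157) (nat_lit 1) (nat_lit 287) (nat_lit 394) (nat_lit 339)) (XT.lf (nat_lit 76) (nat_lit 1873576880) (nat_lit 0) (nat_lit 4298816318) (nat_lit 228) (nat_lit 12269474380) (nat_lit 153) (nat_lit 1) (nat_lit 152) (nat_lit 1) (nat_lit 155) (nat_lit 1) (nat_lit 288) (nat_lit 394) (nat_lit 338)))) (XT.nd (nat_lit 156) (nat_lit 304) (nat_lit 0) (XT.nd (nat_lit 78) (nat_lit 152) (nat_lit 0) (XT.lf (nat_lit 228) (nat_lit 5110296494) (nat_lit 0) (nat_lit 7281477114) (nat_lit 152) (nat_lit 5734548068) (nat_lit 153) (nat_lit 1) (nat_lit 150) (nat_lit 1) (nat_lit 152) (nat_lit 1) (nat_lit 289) (nat_lit 394) (nat_lit 337)) (XT.lf (nat_lit 76) (nat_lit 4726558473) (nat_lit 0) (nat_lit 3667359479) (nat_lit 152) (nat_lit 9423581297) (nat_lit 149) (nat_lit 1) (nat_lit 148) (nat_lit 1) (nat_lit 150) (nat_lit 1) (nat_lit 290) (nat_lit 394) (nat_lit 336))) (XT.nd (nat_lit 78) (nat_lit 152) (nat_lit 0) (XT.lf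 (nat_lit 228) (nat_lit 5336588880) (nat_lit 0) (nat_lit 9486591802) (nat_lit 152) (nat_lit 2691419902) (nat_lit 149) (nat_lit 1) (nat_lit 146) (nat_lit 1) (nat_lit 148) (nat_lit 1) (nat_lit 291) (nat_lit 394) (nat_lit 335)) (XT.lf (nat_lit 76) (nat_lit 7294734944) (nat_lit 0) (nat_lit 3260155738) (nat_lit 152) (nat_lit 6662476981) (nat_lit 145) (nat_lit 1) (nat_lit 144) (nat_lit 1) (nat_lit 146) (nat_lit 1) (nat_lit 292) (nat_lit 394) (nat_lit 334))))) (XT.nd (nat_lit 234) (nat_lit 684) (nat_lit 0) (XT.nd (nat_lit 78) (nat_lit 304) (nat_lit 0) (XT.lf (nat_lit 76) (nat_lit 63916633) (nat_lit 0) (nat_lit 11561073530) (nat_lit 228) (nat_lit 5301451282) (nat_lit 143) (nat_lit 1) (nat_lit 142) (nat_lit 1) (nat_lit 145) (nat_lit 1) (nat_lit 293) (nat_lit 394) (nat_lit 333)) (XT.nd (nat_lit 78) (nat_lit 152) (nat_lit 0) (XT.lf (nat_lit 76) (nat_lit 9604996266) (nat_lit 0) (nat_lit 3040608848) (nat_lit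 152) (nat_lit 3994603941) (nat_lit 141) (nat_lit 1) (nat_lit 140) (nat_lit 1) (nat_lit 142) (nat_lit 1) (nat_lit 294) (nat_lit 394) (nat_lit 332)) (XT.lf (nat_lit 76) (nat_lit 2511769382) (nat_lit 0) (nat_lit 11152800272) (nat_lit 228) (nat_lit 2695377210) (nat_lit 139) (nat_lit 1) (nat_lit 138) (nat_lit 1) (nat_lit 141) (nat_lit 1) (nat_lit 295) (nat_lit 394) (nat_lit 331)))) (XT.nd (nat_lit 156) (nat_lit 380) (nat_lit 0) (XT.nd (nat_lit 78) (nat_lit 152) (nat_lit 0) (XT.lf (nat_lit 76) (nat_lit 11681436254) (nat_lit 0) (nat_lit 2976984891) (nat_lit 152) (nat_lit 1426435712) (nat_lit 137) (nat_lit 1) (nat_lit 136) (nat_lit 1) (nat_lit 138) (nat_lit 1) (nat_lit 296) (nat_lit 394) (nat_lit 330)) (XT.lf (nat_lit 76) (nat_lit 4727945619) (nat_lit 0) (nat_lit 10897048669) (nat_lit 228) (nat_lit 189769233) (nat_lit 135) (nat_lit 1) (nat_lit 134) (nat_lit 1) (nat_lit 137) (nat_lit 1) (nat_lit 297) (nat_lit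 394) (nat_lit 329))) (XT.nd (nat_lit 78) (nat_lit 76) (nat_lit 0) (XT.lf (nat_lit 228) (nat_lit 12497948166) (nat_lit 0) (nat_lit 1057887411) (nat_lit 152) (nat_lit 1994091245) (nat_lit 133) (nat_lit 1) (nat_lit 130) (nat_lit 1) (nat_lit 132) (nat_lit 1) (nat_lit 298) (nat_lit 394) (nat_lit 328)) (XT.lf (nat_lit 152) (nat_lit 4499915248) (nat_lit 0) (nat_lit 2255119072) (nat_lit 76) (nat_lit 8534161144) (nat_lit 131) (nat_lit 1) (nat_lit 129) (nat_lit 1) (nat_lit 130) (nat_lit 1) (nat_lit 299) (nat_lit 394) (nat_lit 327))))))) (XT.nd (nat_lit 1092) (nat_lit 1748) (nat_lit 0) (XT.nd (nat_lit 546) (nat_lit 836) (nat_lit 0) (XT.nd (nat_lit 234) (nat_lit 532) (nat_lit 0) (XT.nd (nat_lit 78) (nat_lit 304) (nat_lit 0) (XT.lf (nat_lit 76) (nat_lit 211808359) (nat_lit 0) (nat_lit 3246680771) (nat_lit 228) (nat_lit 11575784283) (nat_lit 127) (nat_lit 1) (nat_lit 126) (nat_lit 1) (nat_lit 129) (nat_lit 1)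 (nat_lit 300) (nat_lit 394) (nat_lit 326)) (XT.nd (nat_lit 78) (nat_lit 228) (nat_lit 0) (XT.lf (nat_lit 152) (nat_lit 3996940985) (nat_lit 0) (nat_lit 4594021713) (nat_lit 76) (nat_lit 6191936085) (nat_lit 127) (nat_lit 1) (nat_lit 125) (nat_lit 1) (nat_lit 126) (nat_lit 1) (nat_lit 301) (nat_lit 394) (nat_lit 325)) (XT.lf (nat_lit 76) (nat_lit 2187343016) (nat_lit 0) (nat_lit 3541820634) (nat_lit 228) (nat_lit 8807767189) (nat_lit 123) (nat_lit 1) (nat_lit 122) (nat_lit 1) (nat_lit 125) (nat_lit 1) (nat_lit 302) (nat_lit 394) (nat_lit 324)))) (XT.nd (nat_lit 156) (nat_lit 228) (nat_lit 0) (XT.nd (nat_lit 78) (nat_lit 228) (nat_lit 0) (XT.lf (nat_lit 152) (nat_lit 3429381039) (nat_lit 0) (nat_lit 6821393517) (nat_lit 76) (nat_lit 4044253337) (nat_lit 123) (nat_lit 1) (nat_lit 121) (nat_lit 1) (nat_lit 122) (nat_lit 1) (nat_lit 303) (nat_lit 394) (nat_lit 323)) (XT.lf (nat_lit 76) (nat_lit 3987660011)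 (nat_lit 0) (nat_lit 3900753485) (nat_lit 228) (nat_lit 6169190811) (nat_lit 119) (nat_lit 1) (nat_lit 118) (nat_lit 1) (nat_lit 121) (nat_lit 1) (nat_lit 304) (nat_lit 394) (nat_lit 322))) (XT.nd (nat_lit 78) (nat_lit 152) (nat_lit 0) (XT.lf (nat_lit 152) (nat_lit 2813241504) (nat_lit 0) (nat_lit 8936470940) (nat_lit 76) (nat_lit 2075030290) (nat_lit 119) (nat_lit 1) (nat_lit 117) (nat_lit 1) (nat_lit 118) (nat_lit 1) (nat_lit 305) (nat_lit 394) (nat_lit 321)) (XT.lf (nat_lit 76) (nat_lit 5627425218) (nat_lit 0) (nat_lit 4308491828) (nat_lit 152) (nat_lit 3659565155) (nat_lit 116) (nat_lit 1) (nat_lit 115) (nat_lit 1) (nat_lit 117) (nat_lit 1) (nat_lit 306) (nat_lit 394) (nat_lit 320))))) (XT.nd (nat_lit 234) (nat_lit 532) (nat_lit 0) (XT.nd (nat_lit 78) (nat_lit 228) (nat_lit 0) (XT.lf (nat_lit 152) (nat_lit 2162199885) (nat_lit 0) (nat_lit 10939338589) (nat_lit 76) (nat_lit 269720330) (nat_lit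 116) (nat_lit 1) (nat_lit 114) (nat_lit 1) (nat_lit 115) (nat_lit 1) (nat_lit 307) (nat_lit 394) (nat_lit 319)) (XT.nd (nat_lit 78) (nat_lit 76) (nat_lit 0) (XT.lf (nat_lit 76) (nat_lit 7119905007) (nat_lit 0) (nat_lit 4752221513) (nat_lit 152) (nat_lit 1277679202) (nat_lit 113) (nat_lit 1) (nat_lit 112) (nat_lit 1) (nat_lit 114) (nat_lit 1) (nat_lit 308) (nat_lit 394) (nat_lit 318)) (XT.lf (nat_lit 0) (nat_lit 1357829255) (nat_lit 0) (nat_lit 11459252162) (nat_lit 152) (nat_lit 116361251) (nat_lit 111) (nat_lit 3) (nat_lit 111) (nat_lit 1) (nat_lit 113) (nat_lit 1) (nat_lit 309) (nat_lit 394) (nat_lit 317)))) (XT.nd (nat_lit 156) (nat_lit 228) (nat_lit 0) (XT.nd (nat_lit 78) (nat_lit 76) (nat_lit 0) (XT.lf (nat_lit 152) (nat_lit 7488960679) (nat_lit 0) (nat_lit 997746976) (nat_lit 76) (nat_lit 4232868661) (nat_lit 110) (nat_lit 1) (nat_lit 108) (nat_lit 1) (nat_lit 109) (nat_lit 1) (nat_lit 310)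 (nat_lit 394) (nat_lit 316)) (XT.lf (nat_lit 76) (nat_lit 750574374) (nat_lit 0) (nat_lit 2113783803) (nat_lit 76) (nat_lit 9645999957) (nat_lit 108) (nat_lit 3) (nat_lit 107) (nat_lit 1) (nat_lit 108) (nat_lit 1) (nat_lit 311) (nat_lit 394) (nat_lit 315))) (XT.nd (nat_lit 78) (nat_lit 76) (nat_lit 0) (XT.lf (nat_lit 152) (nat_lit 6567942415) (nat_lit 0) (nat_lit 3172515544) (nat_lit 76) (nat_lit 2563617181) (nat_lit 107) (nat_lit 1) (nat_lit 105) (nat_lit 1) (nat_lit 106) (nat_lit 1) (nat_lit 312) (nat_lit 394) (nat_lit 314)) (XT.lf (nat_lit 76) (nat_lit 23228457) (nat_lit 0) (nat_lit 4222176710) (nat_lit 76) (nat_lit 7856639357) (nat_lit 105) (nat_lit 3) (nat_lit 104) (nat_lit 1) (nat_lit 105) (nat_lit 1) (nat_lit 313) (nat_lit 394) (nat_lit 313)))))) (XT.nd (nat_lit 546) (nat_lit 912) (nat_lit 0) (XT.nd (nat_lit 234) (nat_lit 456) (nat_lit 0) (XT.nd (nat_lit 78) (nat_lit 228) (nat_lit 0) (XT.lf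 (nat_lit 152) (nat_lit 5654601996) (nat_lit 0) (nat_lit 5223957876) (nat_lit 76) (nat_lit 1024490010) (nat_lit 104) (nat_lit 1) (nat_lit 102) (nat_lit 1) (nat_lit 103) (nat_lit 1) (nat_lit 314) (nat_lit 394) (nat_lit 312)) (XT.nd (nat_lit 78) (nat_lit 76) (nat_lit 0) (XT.lf (nat_lit 76) (nat_lit 5516270149) (nat_lit 0) (nat_lit 686152252) (nat_lit 152) (nat_lit 5505299862) (nat_lit 101) (nat_lit 1) (nat_lit 100) (nat_lit 1) (nat_lit 102) (nat_lit 1) (nat_lit 315) (nat_lit 394) (nat_lit 311)) (XT.lf (nat_lit 0) (nat_lit 386453611) (nat_lit 0) (nat_lit 6764806764) (nat_lit 152) (nat_lit 4364534723) (nat_lit 99) (nat_lit 3) (nat_lit 99) (nat_lit 1) (nat_lit 101) (nat_lit 1) (nat_lit 316) (nat_lit 394) (nat_lit 310)))) (XT.nd (nat_lit 156) (nat_lit 228) (nat_lit 0) (XT.nd (nat_lit 78) (nat_lit 76) (nat_lit 0) (XT.lf (nat_lit 76) (nat_lit 6679209814) (nat_lit 0) (nat_lit 1385261603) (nat_lit 152) (nat_lit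 3262540995) (nat_lit 98) (nat_lit 1) (nat_lit 97) (nat_lit 1) (nat_lit 99) (nat_lit 1) (nat_lit 317) (nat_lit 394) (nat_lit 309)) (XT.lf (nat_lit 0) (nat_lit 1667893564) (nat_lit 0) (nat_lit 7284742433) (nat_lit 152) (nat_lit 2188966717) (nat_lit 96) (nat_lit 3) (nat_lit 96) (nat_lit 1) (nat_lit 98) (nat_lit 1) (nat_lit 318) (nat_lit 394) (nat_lit 308))) (XT.nd (nat_lit 78) (nat_lit 76) (nat_lit 0) (XT.lf (nat_lit 76) (nat_lit 7742043296) (nat_lit 0) (nat_lit 2069946551) (nat_lit 152) (nat_lit 1147388374) (nat_lit 95) (nat_lit 1) (nat_lit 94) (nat_lit 1) (nat_lit 96) (nat_lit 1) (nat_lit 319) (nat_lit 394) (nat_lit 307)) (XT.lf (nat_lit 0) (nat_lit 2847718023) (nat_lit 0) (nat_lit 7793977731) (nat_lit 152) (nat_lit 138542143) (nat_lit 93) (nat_lit 3) (nat_lit 93) (nat_lit 1) (nat_lit 95) (nat_lit 1) (nat_lit 320) (nat_lit 394) (nat_lit 306))))) (XT.nd (nat_lit 234) (nat_lit 456) (nat_lit 0) (XT.nd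 (nat_lit 78) (nat_lit 228) (nat_lit 0) (XT.lf (nat_lit 152) (nat_lit 7859325115) (nat_lit 0) (nat_lit 861082614) (nat_lit 76) (nat_lit 1883649477) (nat_lit 92) (nat_lit 1) (nat_lit 90) (nat_lit 1) (nat_lit 91) (nat_lit 1) (nat_lit 321) (nat_lit 394) (nat_lit 305)) (XT.nd (nat_lit 78) (nat_lit 152) (nat_lit 0) (XT.lf (nat_lit 76) (nat_lit 2124218135) (nat_lit 0) (nat_lit 1826504266) (nat_lit 76) (nat_lit 6479949556) (nat_lit 90) (nat_lit 3) (nat_lit 89) (nat_lit 1) (nat_lit 90) (nat_lit 1) (nat_lit 322) (nat_lit 394) (nat_lit 304)) (XT.lf (nat_lit 152) (nat_lit 6852101639) (nat_lit 0) (nat_lit 2770749469) (nat_lit 76) (nat_lit 637656988) (nat_lit 89) (nat_lit 1) (nat_lit 87) (nat_lit 1) (nat_lit 88) (nat_lit 1) (nat_lit 323) (nat_lit 394) (nat_lit 303)))) (XT.nd (nat_lit 156) (nat_lit 228) (nat_lit 0) (XT.nd (nat_lit 78) (nat_lit 152) (nat_lit 0) (XT.lf (nat_lit 76) (nat_lit 1291036932) (nat_lit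 0) (nat_lit 3675169864) (nat_lit 76) (nat_lit 5126742562) (nat_lit 87) (nat_lit 3) (nat_lit 86) (nat_lit 1) (nat_lit 87) (nat_lit 1) (nat_lit 324) (nat_lit 394) (nat_lit 302)) (XT.lf (nat_lit 0) (nat_lit 505689490) (nat_lit 0) (nat_lit 4052342870) (nat_lit 152) (nat_lit 5370423714) (nat_lit 84) (nat_lit 3) (nat_lit 84) (nat_lit 1) (nat_lit 86) (nat_lit 1) (nat_lit 325) (nat_lit 394) (nat_lit 301))) (XT.nd (nat_lit 78) (nat_lit 152) (nat_lit 0) (XT.lf (nat_lit 76) (nat_lit 489928799) (nat_lit 0) (nat_lit 5409035119) (nat_lit 76) (nat_lit 3867693923) (nat_lit 84) (nat_lit 3) (nat_lit 83) (nat_lit 1) (nat_lit 84) (nat_lit 1) (nat_lit 326) (nat_lit 394) (nat_lit 300)) (XT.lf (nat_lit 0) (nat_lit 1551872489) (nat_lit 0) (nat_lit 4675094979) (nat_lit 152) (nat_lit 3380482919) (nat_lit 81) (nat_lit 3) (nat_lit 81) (nat_lit 1) (nat_lit 83) (nat_lit 1) (nat_lit 327) (nat_lit 394) (nat_lit 299))))))))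
noncomputable def ec118 : XT := (XT.nd (nat_lit 2184) (nat_lit 2432) (nat_lit 0) (XT.nd (nat_lit 1092) (nat_lit 1748) (nat_lit 0) (XT.nd (nat_lit 546) (nat_lit 836) (nat_lit 0) (XT.nd (nat_lit 234) (nat_lit 532) (nat_lit 0) (XT.nd (nat_lit 78) (nat_lit 228) (nat_lit 0) (XT.lf (nat_lit 76) (nat_lit 6757331661) (nat_lit 0) (nat_lit 272371512) (nat_lit 152) (nat_lit 2421583440) (nat_lit 80) (nat_lit 1) (nat_lit 79) (nat_lit 1) (nat_lit 81) (nat_lit 1) (nat_lit 328) (nat_lit 394) (nat_lit 298)) (XT.nd (nat_lit 78) (nat_lit 152) (nat_lit 0) (XT.lf (nat_lit 0) (nat_lit 2518926068) (nat_lit 0) (nat_lit 5269270598) (nat_lit 152) (nat_lit 1509057457) (nat_lit 78) (nat_lit 3) (nat_lit 78) (nat_lit 1) (nat_lit 80) (nat_lit 1) (nat_lit 329) (nat_lit 394) (nat_lit 297)) (XT.lf (nat_lit 76) (nat_lit 7548249771) (nat_lit 0) (nat_lit 991505924) (nat_lit 152) (nat_lit 606618717) (nat_lit 77) (nat_lit 1) (nat_lit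 76) (nat_lit 1) (nat_lit 78) (nat_lit 1) (nat_lit 330) (nat_lit 394) (nat_lit 296)))) (XT.nd (nat_lit 156) (nat_lit 228) (nat_lit 0) (XT.nd (nat_lit 78) (nat_lit 152) (nat_lit 0) (XT.lf (nat_lit 76) (nat_lit 3160951499) (nat_lit 0) (nat_lit 253506316) (nat_lit 76) (nat_lit 5582935543) (nat_lit 75) (nat_lit 3) (nat_lit 74) (nat_lit 1) (nat_lit 75) (nat_lit 1) (nat_lit 331) (nat_lit 394) (nat_lit 295)) (XT.lf (nat_lit 152) (nat_lit 7164076665) (nat_lit 0) (nat_lit 1118512233) (nat_lit 76) (nat_lit 568760527) (nat_lit 74) (nat_lit 1) (nat_lit 72) (nat_lit 1) (nat_lit 73) (nat_lit 1) (nat_lit 332) (nat_lit 394) (nat_lit 294))) (XT.nd (nat_lit 78) (nat_lit 152) (nat_lit 0) (XT.lf (nat_lit 76) (nat_lit 2319776773) (nat_lit 0) (nat_lit 1934767568) (nat_lit 76) (nat_lit 4452602913) (nat_lit 72) (nat_lit 3) (nat_lit 71) (nat_lit 1) (nat_lit 72) (nat_lit 1) (nat_lit 333) (nat_lit 394) (nat_lit 293)) (XT.lf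 (nat_lit 0) (nat_lit 385283774) (nat_lit 0) (nat_lit 2357383765) (nat_lit 152) (nat_lit 5823233739) (nat_lit 69) (nat_lit 3) (nat_lit 69) (nat_lit 1) (nat_lit 71) (nat_lit 1) (nat_lit 334) (nat_lit 394) (nat_lit 292))))) (XT.nd (nat_lit 234) (nat_lit 532) (nat_lit 0) (XT.nd (nat_lit 78) (nat_lit 228) (nat_lit 0) (XT.lf (nat_lit 76) (nat_lit 1519525426) (nat_lit 0) (nat_lit 3509352145) (nat_lit 76) (nat_lit 3397715893) (nat_lit 69) (nat_lit 3) (nat_lit 68) (nat_lit 1) (nat_lit 69) (nat_lit 1) (nat_lit 335) (nat_lit 394) (nat_lit 291)) (XT.nd (nat_lit 78) (nat_lit 76) (nat_lit 0) (XT.lf (nat_lit 0) (nat_lit 1260350770) (nat_lit 0) (nat_lit 2997003999) (nat_lit 152) (nat_lit 4032465572) (nat_lit 66) (nat_lit 3) (nat_lit 66) (nat_lit 1) (nat_lit 68) (nat_lit 1) (nat_lit 336) (nat_lit 394) (nat_lit 290)) (XT.lf (nat_lit 76) (nat_lit 759799694) (nat_lit 0) (nat_lit 4981827212) (nat_lit 76) (nat_lit 2413755151)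 (nat_lit 66) (nat_lit 3) (nat_lit 65) (nat_lit 1) (nat_lit 66) (nat_lit 1) (nat_lit 337) (nat_lit 394) (nat_lit 289)))) (XT.nd (nat_lit 156) (nat_lit 304) (nat_lit 0) (XT.nd (nat_lit 78) (nat_lit 76) (nat_lit 0) (XT.lf (nat_lit 0) (nat_lit 2071691383) (nat_lit 0) (nat_lit 3601007571) (nat_lit 152) (nat_lit 2350228814) (nat_lit 63) (nat_lit 3) (nat_lit 63) (nat_lit 1) (nat_lit 65) (nat_lit 1) (nat_lit 338) (nat_lit 394) (nat_lit 288)) (XT.lf (nat_lit 76) (nat_lit 40014636) (nat_lit 0) (nat_lit 6356657468) (nat_lit 76) (nat_lit 1496506242) (nat_lit 63) (nat_lit 3) (nat_lit 62) (nat_lit 1) (nat_lit 63) (nat_lit 1) (nat_lit 339) (nat_lit 394) (nat_lit 287))) (XT.nd (nat_lit 78) (nat_lit 152) (nat_lit 0) (XT.lf (nat_lit 0) (nat_lit 2823177300) (nat_lit 0) (nat_lit 4169910177) (nat_lit 152) (nat_lit 771807989) (nat_lit 60) (nat_lit 3) (nat_lit 60) (nat_lit 1) (nat_lit 62) (nat_lit 1) (nat_lit 340) (nat_lit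 394) (nat_lit 286)) (XT.lf (nat_lit 76) (nat_lit 7003785516) (nat_lit 0) (nat_lit 628068965) (nat_lit 152) (nat_lit 7622739) (nat_lit 59) (nat_lit 1) (nat_lit 58) (nat_lit 1) (nat_lit 60) (nat_lit 1) (nat_lit 341) (nat_lit 394) (nat_lit 285)))))) (XT.nd (nat_lit 546) (nat_lit 912) (nat_lit 0) (XT.nd (nat_lit 234) (nat_lit 456) (nat_lit 0) (XT.nd (nat_lit 78) (nat_lit 228) (nat_lit 0) (XT.lf (nat_lit 76) (nat_lit 2803895050) (nat_lit 0) (nat_lit 721463104) (nat_lit 76) (nat_lit 3989843030) (nat_lit 57) (nat_lit 3) (nat_lit 56) (nat_lit 1) (nat_lit 57) (nat_lit 1) (nat_lit 342) (nat_lit 394) (nat_lit 284)) (XT.nd (nat_lit 78) (nat_lit 76) (nat_lit 0) (XT.lf (nat_lit 0) (nat_lit 176898996) (nat_lit 0) (nat_lit 1273475954) (nat_lit 152) (nat_lit 5943310244) (nat_lit 54) (nat_lit 3) (nat_lit 54) (nat_lit 1) (nat_lit 56) (nat_lit 1) (nat_lit 343) (nat_lit 394) (nat_lit 283)) (XT.lf (nat_lit 76) (nat_lit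 2047878915) (nat_lit 0) (nat_lit 2133435882) (nat_lit 76) (nat_lit 3092237922) (nat_lit 54) (nat_lit 3) (nat_lit 53) (nat_lit 1) (nat_lit 54) (nat_lit 1) (nat_lit 344) (nat_lit 394) (nat_lit 282)))) (XT.nd (nat_lit 156) (nat_lit 228) (nat_lit 0) (XT.nd (nat_lit 78) (nat_lit 76) (nat_lit 0) (XT.lf (nat_lit 0) (nat_lit 921312134) (nat_lit 0) (nat_lit 1886970024) (nat_lit 152) (nat_lit 4347566014) (nat_lit 51) (nat_lit 3) (nat_lit 51) (nat_lit 1) (nat_lit 53) (nat_lit 1) (nat_lit 345) (nat_lit 394) (nat_lit 281)) (XT.lf (nat_lit 76) (nat_lit 1333528695) (nat_lit 0) (nat_lit 3453155443) (nat_lit 76) (nat_lit 2253202875) (nat_lit 51) (nat_lit 3) (nat_lit 50) (nat_lit 1) (nat_lit 51) (nat_lit 1) (nat_lit 346) (nat_lit 394) (nat_lit 280))) (XT.nd (nat_lit 78) (nat_lit 76) (nat_lit 0) (XT.lf (nat_lit 0) (nat_lit 1613092969) (nat_lit 0) (nat_lit 2463462068) (nat_lit 152) (nat_lit 2849311918) (nat_lit 48)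 (nat_lit 3) (nat_lit 48) (nat_lit 1) (nat_lit 50) (nat_lit 1) (nat_lit 347) (nat_lit 394) (nat_lit 279)) (XT.lf (nat_lit 76) (nat_lit 659581840) (nat_lit 0) (nat_lit 4684886677) (nat_lit 76) (nat_lit 1469457172) (nat_lit 48) (nat_lit 3) (nat_lit 47) (nat_lit 1) (nat_lit 48) (nat_lit 1) (nat_lit 348) (nat_lit 394) (nat_lit 278))))) (XT.nd (nat_lit 234) (nat_lit 532) (nat_lit 0) (XT.nd (nat_lit 78) (nat_lit 228) (nat_lit 0) (XT.lf (nat_lit 0) (nat_lit 2255260775) (nat_lit 0) (nat_lit 3004105280) (nat_lit 152) (nat_lit 1444102087) (nat_lit 45) (nat_lit 3) (nat_lit 45) (nat_lit 1) (nat_lit 47) (nat_lit 1) (nat_lit 349) (nat_lit 394) (nat_lit 277)) (XT.nd (nat_lit 78) (nat_lit 152) (nat_lit 0) (XT.lf (nat_lit 76) (nat_lit 24731768) (nat_lit 0) (nat_lit 5832752654) (nat_lit 76) (nat_lit 737917011) (nat_lit 45) (nat_lit 3) (nat_lit 44) (nat_lit 1) (nat_lit 45) (nat_lit 1) (nat_lit 350) (nat_lit 394) (nat_lit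 276)) (XT.lf (nat_lit 0) (nat_lit 2850652784) (nat_lit 0) (nat_lit 3510093600) (nat_lit 152) (nat_lit 127642736) (nat_lit 42) (nat_lit 3) (nat_lit 42) (nat_lit 1) (nat_lit 44) (nat_lit 1) (nat_lit 351) (nat_lit 394) (nat_lit 275)))) (XT.nd (nat_lit 156) (nat_lit 228) (nat_lit 0) (XT.nd (nat_lit 78) (nat_lit 76) (nat_lit 0) (XT.lf (nat_lit 152) (nat_lit 5817541316) (nat_lit 0) (nat_lit 521348535) (nat_lit 76) (nat_lit 44852158) (nat_lit 41) (nat_lit 1) (nat_lit 39) (nat_lit 1) (nat_lit 40) (nat_lit 1) (nat_lit 352) (nat_lit 394) (nat_lit 274)) (XT.lf (nat_lit 76) (nat_lit 2286578656) (nat_lit 0) (nat_lit 1126184497) (nat_lit 76) (nat_lit 2867289588) (nat_lit 39) (nat_lit 3) (nat_lit 38) (nat_lit 1) (nat_lit 39) (nat_lit 1) (nat_lit 353) (nat_lit 394) (nat_lit 273))) (XT.nd (nat_lit 78) (nat_lit 76) (nat_lit 0) (XT.lf (nat_lit 0) (nat_lit 596517939) (nat_lit 0) (nat_lit 1133467483) (nat_lit 152)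 (nat_lit 4448658490) (nat_lit 36) (nat_lit 3) (nat_lit 36) (nat_lit 1) (nat_lit 38) (nat_lit 1) (nat_lit 354) (nat_lit 394) (nat_lit 272)) (XT.lf (nat_lit 76) (nat_lit 1633407304) (nat_lit 0) (nat_lit 2300332141) (nat_lit 76) (nat_lit 2144787823) (nat_lit 36) (nat_lit 3) (nat_lit 35) (nat_lit 1) (nat_lit 36) (nat_lit 1) (nat_lit 355) (nat_lit 394) (nat_lit 271))))))) (XT.nd (nat_lit 1092) (nat_lit 684) (nat_lit 0) (XT.nd (nat_lit 546) (nat_lit 836) (nat_lit 0) (XT.nd (nat_lit 234) (nat_lit 532) (nat_lit 0) (XT.nd (nat_lit 78) (nat_lit 228) (nat_lit 0) (XT.lf (nat_lit 0) (nat_lit 1192755307) (nat_lit 0) (nat_lit 1665599059) (nat_lit 152) (nat_lit 3121920695) (nat_lit 33) (nat_lit 3) (nat_lit 33) (nat_lit 1) (nat_lit 35) (nat_lit 1) (nat_lit 356) (nat_lit 394) (nat_lit 270)) (XT.nd (nat_lit 78) (nat_lit 152) (nat_lit 0) (XT.lf (nat_lit 76) (nat_lit 1018553703) (nat_lit 0) (nat_lit 3396180893) (nat_lit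 76) (nat_lit 1468881086) (nat_lit 33) (nat_lit 3) (nat_lit 32) (nat_lit 1) (nat_lit 33) (nat_lit 1) (nat_lit 357) (nat_lit 394) (nat_lit 269)) (XT.lf (nat_lit 0) (nat_lit 1747167341) (nat_lit 0) (nat_lit 2163558819) (nat_lit 152) (nat_lit 1877691557) (nat_lit 30) (nat_lit 3) (nat_lit 30) (nat_lit 1) (nat_lit 32) (nat_lit 1) (nat_lit 358) (nat_lit 394) (nat_lit 268)))) (XT.nd (nat_lit 156) (nat_lit 304) (nat_lit 0) (XT.nd (nat_lit 78) (nat_lit 152) (nat_lit 0) (XT.lf (nat_lit 76) (nat_lit 440512813) (nat_lit 0) (nat_lit 4417503316) (nat_lit 76) (nat_lit 837076125) (nat_lit 30) (nat_lit 3) (nat_lit 29) (nat_lit 1) (nat_lit 30) (nat_lit 1) (nat_lit 359) (nat_lit 394) (nat_lit 267)) (XT.lf (nat_lit 0) (nat_lit 2262051100) (nat_lit 0) (nat_lit 2628730075) (nat_lit 152) (nat_lit 712068688) (nat_lit 27) (nat_lit 3) (nat_lit 27) (nat_lit 1) (nat_lit 29) (nat_lit 1) (nat_lit 360) (nat_lit 394) (nat_lit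 266))) (XT.nd (nat_lit 78) (nat_lit 152) (nat_lit 0) (XT.lf (nat_lit 76) (nat_lit 5266706399) (nat_lit 0) (nat_lit 100208025) (nat_lit 152) (nat_lit 145795781) (nat_lit 26) (nat_lit 1) (nat_lit 25) (nat_lit 1) (nat_lit 27) (nat_lit 1) (nat_lit 361) (nat_lit 394) (nat_lit 265)) (XT.lf (nat_lit 76) (nat_lit 2357054607) (nat_lit 0) (nat_lit 386235534) (nat_lit 76) (nat_lit 2679956199) (nat_lit 24) (nat_lit 3) (nat_lit 23) (nat_lit 1) (nat_lit 24) (nat_lit 1) (nat_lit 362) (nat_lit 394) (nat_lit 264))))) (XT.nd (nat_lit 234) (nat_lit 456) (nat_lit 0) (XT.nd (nat_lit 78) (nat_lit 228) (nat_lit 0) (XT.lf (nat_lit 0) (nat_lit 312536346) (nat_lit 0) (nat_lit 611104624) (nat_lit 152) (nat_lit 4412172302) (nat_lit 21) (nat_lit 3) (nat_lit 21) (nat_lit 1) (nat_lit 23) (nat_lit 1) (nat_lit 363) (nat_lit 394) (nat_lit 263)) (XT.nd (nat_lit 78) (nat_lit 152) (nat_lit 0) (XT.lf (nat_lit 76) (nat_lit 1769466433)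 (nat_lit 0) (nat_lit 1426040547) (nat_lit 76) (nat_lit 2053817174) (nat_lit 21) (nat_lit 3) (nat_lit 20) (nat_lit 1) (nat_lit 21) (nat_lit 1) (nat_lit 364) (nat_lit 394) (nat_lit 262)) (XT.lf (nat_lit 0) (nat_lit 830042737) (nat_lit 0) (nat_lit 1092965290) (nat_lit 152) (nat_lit 3241594927) (nat_lit 18) (nat_lit 3) (nat_lit 18) (nat_lit 1) (nat_lit 20) (nat_lit 1) (nat_lit 365) (nat_lit 394) (nat_lit 261)))) (XT.nd (nat_lit 156) (nat_lit 228) (nat_lit 0) (XT.nd (nat_lit 78) (nat_lit 152) (nat_lit 0) (XT.lf (nat_lit 76) (nat_lit 1216994338) (nat_lit 0) (nat_lit 2396702233) (nat_lit 76) (nat_lit 1467396769) (nat_lit 18) (nat_lit 3) (nat_lit 17) (nat_lit 1) (nat_lit 18) (nat_lit 1) (nat_lit 366) (nat_lit 394) (nat_lit 260)) (XT.lf (nat_lit 0) (nat_lit 1311879604) (nat_lit 0) (nat_lit 1543412134) (nat_lit 152) (nat_lit 2143705500) (nat_lit 15) (nat_lit 3) (nat_lit 15) (nat_lit 1) (nat_lit 17) (nat_lit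 1) (nat_lit 367) (nat_lit 394) (nat_lit 259))) (XT.nd (nat_lit 78) (nat_lit 152) (nat_lit 0) (XT.lf (nat_lit 76) (nat_lit 698124766) (nat_lit 0) (nat_lit 3301605029) (nat_lit 76) (nat_lit 918631938) (nat_lit 15) (nat_lit 3) (nat_lit 14) (nat_lit 1) (nat_lit 15) (nat_lit 1) (nat_lit 368) (nat_lit 394) (nat_lit 258)) (XT.lf (nat_lit 0) (nat_lit 1759949731) (nat_lit 0) (nat_lit 1963839857) (nat_lit 152) (nat_lit 1115017383) (nat_lit 12) (nat_lit 3) (nat_lit 12) (nat_lit 1) (nat_lit 14) (nat_lit 1) (nat_lit 369) (nat_lit 394) (nat_lit 257)))))) (XT.nd (nat_lit 44304) (nat_lit 0) (nat_lit 16948) (XT.nd (nat_lit 234) (nat_lit 228) (nat_lit 0) (XT.nd (nat_lit 78) (nat_lit 380) (nat_lit 0) (XT.lf (nat_lit 76) (nat_lit 211384262) (nat_lit 0) (nat_lit 4143994504) (nat_lit 76) (nat_lit 405565334) (nat_lit 12) (nat_lit 3) (nat_lit 11) (nat_lit 1) (nat_lit 12) (nat_lit 1) (nat_lit 370) (nat_lit 394) (nat_lit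 256)) (XT.nd (nat_lit 78) (nat_lit 228) (nat_lit 0) (XT.lf (nat_lit 0) (nat_lit 2176057533) (nat_lit 0) (nat_lit 2355605450) (nat_lit 152) (nat_lit 152186809) (nat_lit 9) (nat_lit 3) (nat_lit 9) (nat_lit 1) (nat_lit 11) (nat_lit 1) (nat_lit 371) (nat_lit 394) (nat_lit 255)) (XT.lf (nat_lit 0) (nat_lit 77726952) (nat_lit 0) (nat_lit 243744444) (nat_lit 152) (nat_lit 4287004095) (nat_lit 6) (nat_lit 3) (nat_lit 6) (nat_lit 1) (nat_lit 8) (nat_lit 1) (nat_lit 372) (nat_lit 394) (nat_lit 254)))) (XT.nd (nat_lit 43914) (nat_lit 0) (nat_lit 19532) (XT.nd (nat_lit 78) (nat_lit 152) (nat_lit 0) (XT.lf (nat_lit 76) (nat_lit 1806369934) (nat_lit 0) (nat_lit 762878094) (nat_lit 76) (nat_lit 1964481830) (nat_lit 6) (nat_lit 3) (nat_lit 5) (nat_lit 1) (nat_lit 6) (nat_lit 1) (nat_lit 373) (nat_lit 394) (nat_lit 253)) (XT.lf (nat_lit 0) (nat_lit 528905544) (nat_lit 0) (nat_lit 675102397) (nat_lit 152) (nat_lit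 3256636834) (nat_lit 3) (nat_lit 3) (nat_lit 3) (nat_lit 1) (nat_lit 5) (nat_lit 1) (nat_lit 374) (nat_lit 394) (nat_lit 252))) (XT.nd (nat_lit 78) (nat_lit 380) (nat_lit 0) (XT.lf (nat_lit 456) (nat_lit 14019567285) (nat_lit 0) (nat_lit 14667674057) (nat_lit 380) (nat_lit 5532201330) (nat_lit 271) (nat_lit 1) (nat_lit 265) (nat_lit 1) (nat_lit 270) (nat_lit 1) (nat_lit 255) (nat_lit 395) (nat_lit 370)) (XT.lf (nat_lit 456) (nat_lit 3477324794) (nat_lit 0) (nat_lit 13622104974) (nat_lit 380) (nat_lit 16445897934) (nat_lit 266) (nat_lit 1) (nat_lit 260) (nat_lit 1) (nat_lit 265) (nat_lit 1) (nat_lit 256) (nat_lit 395) (nat_lit 369))))) (XT.nd (nat_lit 234) (nat_lit 1444) (nat_lit 0) (XT.nd (nat_lit 78) (nat_lit 684) (nat_lit 0) (XT.lf (nat_lit 76) (nat_lit 5912920223) (nat_lit 0) (nat_lit 6851089706) (nat_lit 456) (nat_lit 20124923429) (nat_lit 255) (nat_lit 1) (nat_lit 254) (nat_lit 1) (nat_lit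 260) (nat_lit 1) (nat_lit 257) (nat_lit 395) (nat_lit 368)) (XT.nd (nat_lit 78) (nat_lit 304) (nat_lit 0) (XT.lf (nat_lit 456) (nat_lit 15171752058) (nat_lit 0) (nat_lit 12065323874) (nat_lit 380) (nat_lit 5012132755) (nat_lit 255) (nat_lit 1) (nat_lit 249) (nat_lit 1) (nat_lit 254) (nat_lit 1) (nat_lit 258) (nat_lit 395) (nat_lit 367)) (XT.lf (nat_lit 380) (nat_lit 4355888242) (nat_lit 0) (nat_lit 11540280411) (nat_lit 304) (nat_lit 15730170525) (nat_lit 250) (nat_lit 1) (nat_lit 245) (nat_lit 1) (nat_lit 249) (nat_lit 1) (nat_lit 259) (nat_lit 395) (nat_lit 366)))) (XT.nd (nat_lit 156) (nat_lit 684) (nat_lit 0) (XT.nd (nat_lit 78) (nat_lit 304) (nat_lit 0) (XT.lf (nat_lit 76) (nat_lit 4951406206) (nat_lit 0) (nat_lit 6221562233) (nat_lit 456) (nat_lit 19846668246) (nat_lit 240) (nat_lit 1) (nat_lit 239) (nat_lit 1) (nat_lit 245) (nat_lit 1) (nat_lit 260) (nat_lit 395) (nat_lit 365)) (XT.lf (nat_lit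 380) (nat_lit 13774771959) (nat_lit 0) (nat_lit 10915241828) (nat_lit 304) (nat_lit 5737464672) (nat_lit 240) (nat_lit 1) (nat_lit 235) (nat_lit 1) (nat_lit 239) (nat_lit 1) (nat_lit 261) (nat_lit 395) (nat_lit 364))) (XT.nd (nat_lit 78) (nat_lit 380) (nat_lit 0) (XT.lf (nat_lit 380) (nat_lit 2841711090) (nat_lit 0) (nat_lit 10808625776) (nat_lit 304) (nat_lit 16200520865) (nat_lit 236) (nat_lit 1) (nat_lit 231) (nat_lit 1) (nat_lit 235) (nat_lit 1) (nat_lit 262) (nat_lit 395) (nat_lit 363)) (XT.lf (nat_lit 76) (nat_lit 3019893506) (nat_lit 0) (nat_lit 7793355816) (nat_lit 380) (nat_lit 18475151772) (nat_lit 227) (nat_lit 1) (nat_lit 226) (nat_lit 1) (nat_lit 231) (nat_lit 1) (nat_lit 263) (nat_lit 395) (nat_lit 362))))))))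
noncomputable def ec119 : XT := (XT.nd (nat_lit 2184) (nat_lit 3952) (nat_lit 0) (XT.nd (nat_lit 1092) (nat_lit 2660) (nat_lit 0) (XT.nd (nat_lit 546) (nat_lit 1672) (nat_lit 0) (XT.nd (nat_lit 234) (nat_lit 1140) (nat_lit 0) (XT.nd (nat_lit 78) (nat_lit 608) (nat_lit 0) (XT.lf (nat_lit 380) (nat_lit 10437166925) (nat_lit 0) (nat_lit 10897130824) (nat_lit 304) (nat_lit 7404671218) (nat_lit 227) (nat_lit 1) (nat_lit 222) (nat_lit 1) (nat_lit 226) (nat_lit 1) (nat_lit 264) (nat_lit 395) (nat_lit 361)) (XT.nd (nat_lit 78) (nat_lit 304) (nat_lit 0) (XT.lf (nat_lit 76) (nat_lit 10640644706) (nat_lit 0) (nat_lit 478759813) (nat_lit 304) (nat_lit 17084675071) (nat_lit 219) (nat_lit 1) (nat_lit 218) (nat_lit 1) (nat_lit 222) (nat_lit 1) (nat_lit 265) (nat_lit 395) (nat_lit 360)) (XT.lf (nat_lit 76) (nat_lit 373636770) (nat_lit 0) (nat_lit 11030261493) (nat_lit 380) (nat_lit 16277415868) (nat_lit 215) (nat_lit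 1) (nat_lit 214) (nat_lit 1) (nat_lit 219) (nat_lit 1) (nat_lit 266) (nat_lit 395) (nat_lit 359)))) (XT.nd (nat_lit 156) (nat_lit 532) (nat_lit 0) (XT.nd (nat_lit 78) (nat_lit 380) (nat_lit 0) (XT.lf (nat_lit 304) (nat_lit 5656267685) (nat_lit 0) (nat_lit 11747917233) (nat_lit 228) (nat_lit 9766212769) (nat_lit 215) (nat_lit 1) (nat_lit 211) (nat_lit 1) (nat_lit 214) (nat_lit 1) (nat_lit 267) (nat_lit 395) (nat_lit 358)) (XT.lf (nat_lit 76) (nat_lit 7125282904) (nat_lit 0) (nat_lit 5062187850) (nat_lit 380) (nat_lit 14484715646) (nat_lit 207) (nat_lit 1) (nat_lit 206) (nat_lit 1) (nat_lit 211) (nat_lit 1) (nat_lit 268) (nat_lit 395) (nat_lit 357))) (XT.nd (nat_lit 78) (nat_lit 304) (nat_lit 0) (XT.lf (nat_lit 304) (nat_lit 10663534163) (nat_lit 0) (nat_lit 12686548191) (nat_lit 228) (nat_lit 2835360062) (nat_lit 207) (nat_lit 1) (nat_lit 203) (nat_lit 1) (nat_lit 206) (nat_lit 1) (nat_lit 269)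 (nat_lit 395) (nat_lit 356)) (XT.lf (nat_lit 76) (nat_lit 13090689497) (nat_lit 0) (nat_lit 159887969) (nat_lit 304) (nat_lit 12459560963) (nat_lit 200) (nat_lit 1) (nat_lit 199) (nat_lit 1) (nat_lit 203) (nat_lit 1) (nat_lit 270) (nat_lit 395) (nat_lit 355))))) (XT.nd (nat_lit 234) (nat_lit 912) (nat_lit 0) (XT.nd (nat_lit 78) (nat_lit 532) (nat_lit 0) (XT.lf (nat_lit 76) (nat_lit 3253255326) (nat_lit 0) (nat_lit 10588242608) (nat_lit 304) (nat_lit 11403486071) (nat_lit 197) (nat_lit 1) (nat_lit 196) (nat_lit 1) (nat_lit 200) (nat_lit 1) (nat_lit 271) (nat_lit 395) (nat_lit 354)) (XT.nd (nat_lit 78) (nat_lit 304) (nat_lit 0) (XT.lf (nat_lit 304) (nat_lit 3898458940) (nat_lit 0) (nat_lit 14493945194) (nat_lit 228) (nat_lit 6398405406) (nat_lit 197) (nat_lit 1) (nat_lit 193) (nat_lit 1) (nat_lit 196) (nat_lit 1) (nat_lit 272) (nat_lit 395) (nat_lit 353)) (XT.lf (nat_lit 76) (nat_lit 8605747506)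 (nat_lit 0) (nat_lit 6562199633) (nat_lit 304) (nat_lit 9178328654) (nat_lit 190) (nat_lit 1) (nat_lit 189) (nat_lit 1) (nat_lit 193) (nat_lit 1) (nat_lit 273) (nat_lit 395) (nat_lit 352)))) (XT.nd (nat_lit 156) (nat_lit 456) (nat_lit 0) (XT.nd (nat_lit 78) (nat_lit 228) (nat_lit 0) (XT.lf (nat_lit 304) (nat_lit 7151687195) (nat_lit 0) (nat_lit 15910545543) (nat_lit 228) (nat_lit 850348498) (nat_lit 190) (nat_lit 1) (nat_lit 186) (nat_lit 1) (nat_lit 189) (nat_lit 1) (nat_lit 274) (nat_lit 395) (nat_lit 351)) (XT.lf (nat_lit 76) (nat_lit 13349816351) (nat_lit 0) (nat_lit 3295080839) (nat_lit 228) (nat_lit 6842422122) (nat_lit 184) (nat_lit 1) (nat_lit 183) (nat_lit 1) (nat_lit 186) (nat_lit 1) (nat_lit 275) (nat_lit 395) (nat_lit 350))) (XT.nd (nat_lit 78) (nat_lit 228) (nat_lit 0) (XT.lf (nat_lit 76) (nat_lit 4014010262) (nat_lit 0) (nat_lit 13401868938) (nat_lit 304) (nat_lit 5655752729) (nat_lit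 181) (nat_lit 1) (nat_lit 180) (nat_lit 1) (nat_lit 184) (nat_lit 1) (nat_lit 276) (nat_lit 395) (nat_lit 349)) (XT.lf (nat_lit 76) (nat_lit 17549745388) (nat_lit 0) (nat_lit 680710448) (nat_lit 228) (nat_lit 4435104039) (nat_lit 178) (nat_lit 1) (nat_lit 177) (nat_lit 1) (nat_lit 180) (nat_lit 1) (nat_lit 277) (nat_lit 395) (nat_lit 348)))))) (XT.nd (nat_lit 546) (nat_lit 1140) (nat_lit 0) (XT.nd (nat_lit 234) (nat_lit 912) (nat_lit 0) (XT.nd (nat_lit 78) (nat_lit 380) (nat_lit 0) (XT.lf (nat_lit 76) (nat_lit 8331434026) (nat_lit 0) (nat_lit 10677140114) (nat_lit 304) (nat_lit 3258038408) (nat_lit 175) (nat_lit 1) (nat_lit 174) (nat_lit 1) (nat_lit 178) (nat_lit 1) (nat_lit 278) (nat_lit 395) (nat_lit 347)) (XT.nd (nat_lit 78) (nat_lit 228) (nat_lit 0) (XT.lf (nat_lit 228) (nat_lit 1401014868) (nat_lit 0) (nat_lit 19875120949) (nat_lit 152) (nat_lit 602135678) (nat_lit 175) (nat_lit 1) (nat_lit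 172) (nat_lit 1) (nat_lit 174) (nat_lit 1) (nat_lit 279) (nat_lit 395) (nat_lit 346)) (XT.lf (nat_lit 76) (nat_lit 12173376929) (nat_lit 0) (nat_lit 8490151382) (nat_lit 228) (nat_lit 832003944) (nat_lit 170) (nat_lit 1) (nat_lit 169) (nat_lit 1) (nat_lit 172) (nat_lit 1) (nat_lit 280) (nat_lit 395) (nat_lit 345)))) (XT.nd (nat_lit 156) (nat_lit 380) (nat_lit 0) (XT.nd (nat_lit 78) (nat_lit 228) (nat_lit 0) (XT.lf (nat_lit 228) (nat_lit 2969574780) (nat_lit 0) (nat_lit 411791827) (nat_lit 152) (nat_lit 17741205562) (nat_lit 168) (nat_lit 1) (nat_lit 165) (nat_lit 1) (nat_lit 167) (nat_lit 1) (nat_lit 281) (nat_lit 395) (nat_lit 344)) (XT.lf (nat_lit 228) (nat_lit 13976501083) (nat_lit 0) (nat_lit 1627808524) (nat_lit 152) (nat_lit 5151574272) (nat_lit 165) (nat_lit 1) (nat_lit 162) (nat_lit 1) (nat_lit 164) (nat_lit 1) (nat_lit 282) (nat_lit 395) (nat_lit 343))) (XT.nd (nat_lit 78) (nat_lit 228)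 (nat_lit 0) (XT.lf (nat_lit 228) (nat_lit 4099795307) (nat_lit 0) (nat_lit 2855235640) (nat_lit 152) (nat_lit 13442156151) (nat_lit 163) (nat_lit 1) (nat_lit 160) (nat_lit 1) (nat_lit 162) (nat_lit 1) (nat_lit 283) (nat_lit 395) (nat_lit 342)) (XT.lf (nat_lit 228) (nat_lit 14576210182) (nat_lit 0) (nat_lit 4083816956) (nat_lit 152) (nat_lit 1386010075) (nat_lit 160) (nat_lit 1) (nat_lit 157) (nat_lit 1) (nat_lit 159) (nat_lit 1) (nat_lit 284) (nat_lit 395) (nat_lit 341))))) (XT.nd (nat_lit 234) (nat_lit 608) (nat_lit 0) (XT.nd (nat_lit 78) (nat_lit 380) (nat_lit 0) (XT.lf (nat_lit 228) (nat_lit 4880386053) (nat_lit 0) (nat_lit 5272263158) (nat_lit 152) (nat_lit 9548439300) (nat_lit 158) (nat_lit 1) (nat_lit 155) (nat_lit 1) (nat_lit 157) (nat_lit 1) (nat_lit 285) (nat_lit 395) (nat_lit 340)) (XT.nd (nat_lit 78) (nat_lit 152) (nat_lit 0) (XT.lf (nat_lit 76) (nat_lit 1967255724) (nat_lit 0) (nat_lit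 4513757134) (nat_lit 228) (nat_lit 12882948099) (nat_lit 153) (nat_lit 1) (nat_lit 152) (nat_lit 1) (nat_lit 155) (nat_lit 1) (nat_lit 286) (nat_lit 395) (nat_lit 339)) (XT.lf (nat_lit 228) (nat_lit 5365811319) (nat_lit 0) (nat_lit 7645550969) (nat_lit 152) (nat_lit 6021275471) (nat_lit 153) (nat_lit 1) (nat_lit 150) (nat_lit 1) (nat_lit 152) (nat_lit 1) (nat_lit 287) (nat_lit 395) (nat_lit 338)))) (XT.nd (nat_lit 156) (nat_lit 304) (nat_lit 0) (XT.nd (nat_lit 78) (nat_lit 152) (nat_lit 0) (XT.lf (nat_lit 76) (nat_lit 4962886397) (nat_lit 0) (nat_lit 3850727453) (nat_lit 152) (nat_lit 9894760362) (nat_lit 149) (nat_lit 1) (nat_lit 148) (nat_lit 1) (nat_lit 150) (nat_lit 1) (nat_lit 288) (nat_lit 395) (nat_lit 337)) (XT.lf (nat_lit 228) (nat_lit 5603418324) (nat_lit 0) (nat_lit 9960921392) (nat_lit 152) (nat_lit 2825990897) (nat_lit 149) (nat_lit 1) (nat_lit 146) (nat_lit 1) (nat_lit 148) (nat_lit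 1) (nat_lit 289) (nat_lit 395) (nat_lit 336))) (XT.nd (nat_lit 78) (nat_lit 152) (nat_lit 0) (XT.lf (nat_lit 76) (nat_lit 7659471692) (nat_lit 0) (nat_lit 3423163525) (nat_lit 152) (nat_lit 6995600830) (nat_lit 145) (nat_lit 1) (nat_lit 144) (nat_lit 1) (nat_lit 146) (nat_lit 1) (nat_lit 290) (nat_lit 395) (nat_lit 335)) (XT.lf (nat_lit 76) (nat_lit 67112465) (nat_lit 0) (nat_lit 12139127207) (nat_lit 228) (nat_lit 5566523846) (nat_lit 143) (nat_lit 1) (nat_lit 142) (nat_lit 1) (nat_lit 145) (nat_lit 1) (nat_lit 291) (nat_lit 395) (nat_lit 334))))))) (XT.nd (nat_lit 1092) (nat_lit 1824) (nat_lit 0) (XT.nd (nat_lit 546) (nat_lit 912) (nat_lit 0) (XT.nd (nat_lit 234) (nat_lit 760) (nat_lit 0) (XT.nd (nat_lit 78) (nat_lit 304) (nat_lit 0) (XT.lf (nat_lit 76) (nat_lit 10085246080) (nat_lit 0) (nat_lit 3192639291) (nat_lit 152) (nat_lit 4194334138) (nat_lit 141) (nat_lit 1) (nat_lit 140) (nat_lit 1)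 (nat_lit 142) (nat_lit 1) (nat_lit 292) (nat_lit 395) (nat_lit 333)) (XT.nd (nat_lit 78) (nat_lit 152) (nat_lit 0) (XT.lf (nat_lit 76) (nat_lit 2637357851) (nat_lit 0) (nat_lit 11710440286) (nat_lit 228) (nat_lit 2830146070) (nat_lit 139) (nat_lit 1) (nat_lit 138) (nat_lit 1) (nat_lit 141) (nat_lit 1) (nat_lit 293) (nat_lit 395) (nat_lit 332)) (XT.lf (nat_lit 76) (nat_lit 12265508067) (nat_lit 0) (nat_lit 3125834136) (nat_lit 152) (nat_lit 1497757498) (nat_lit 137) (nat_lit 1) (nat_lit 136) (nat_lit 1) (nat_lit 138) (nat_lit 1) (nat_lit 294) (nat_lit 395) (nat_lit 331)))) (XT.nd (nat_lit 156) (nat_lit 304) (nat_lit 0) (XT.nd (nat_lit 78) (nat_lit 304) (nat_lit 0) (XT.lf (nat_lit 76) (nat_lit 4964342899) (nat_lit 0) (nat_lit 11441901102) (nat_lit 228) (nat_lit 199257695) (nat_lit 135) (nat_lit 1) (nat_lit 134) (nat_lit 1) (nat_lit 137) (nat_lit 1) (nat_lit 295) (nat_lit 395) (nat_lit 330)) (XT.lf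 (nat_lit 228) (nat_lit 13122845574) (nat_lit 0) (nat_lit 1110781781) (nat_lit 152) (nat_lit 2093795807) (nat_lit 133) (nat_lit 1) (nat_lit 130) (nat_lit 1) (nat_lit 132) (nat_lit 1) (nat_lit 296) (nat_lit 395) (nat_lit 329))) (XT.nd (nat_lit 78) (nat_lit 228) (nat_lit 0) (XT.lf (nat_lit 152) (nat_lit 4724911010) (nat_lit 0) (nat_lit 2367875026) (nat_lit 76) (nat_lit 8960869202) (nat_lit 131) (nat_lit 1) (nat_lit 129) (nat_lit 1) (nat_lit 130) (nat_lit 1) (nat_lit 297) (nat_lit 395) (nat_lit 328)) (XT.lf (nat_lit 76) (nat_lit 222398777) (nat_lit 0) (nat_lit 3409014810) (nat_lit 228) (nat_lit 12154573497) (nat_lit 127) (nat_lit 1) (nat_lit 126) (nat_lit 1) (nat_lit 129) (nat_lit 1) (nat_lit 298) (nat_lit 395) (nat_lit 327))))) (XT.nd (nat_lit 234) (nat_lit 532) (nat_lit 0) (XT.nd (nat_lit 78) (nat_lit 304) (nat_lit 0) (XT.lf (nat_lit 152) (nat_lit 4196788034) (nat_lit 0) (nat_lit 4823722799) (nat_lit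 76) (nat_lit 6501532889) (nat_lit 127) (nat_lit 1) (nat_lit 125) (nat_lit 1) (nat_lit 126) (nat_lit 1) (nat_lit 299) (nat_lit 395) (nat_lit 326)) (XT.nd (nat_lit 78) (nat_lit 76) (nat_lit 0) (XT.lf (nat_lit 76) (nat_lit 2296710167) (nat_lit 0) (nat_lit 3718911666) (nat_lit 228) (nat_lit 9248155548) (nat_lit 123) (nat_lit 1) (nat_lit 122) (nat_lit 1) (nat_lit 125) (nat_lit 1) (nat_lit 300) (nat_lit 395) (nat_lit 325)) (XT.lf (nat_lit 152) (nat_lit 3600850091) (nat_lit 0) (nat_lit 7162463193) (nat_lit 76) (nat_lit 4246466004) (nat_lit 123) (nat_lit 1) (nat_lit 121) (nat_lit 1) (nat_lit 122) (nat_lit 1) (nat_lit 301) (nat_lit 395) (nat_lit 324)))) (XT.nd (nat_lit 156) (nat_lit 228) (nat_lit 0) (XT.nd (nat_lit 78) (nat_lit 76) (nat_lit 0) (XT.lf (nat_lit 76) (nat_lit 4187043011) (nat_lit 0) (nat_lit 4095791159) (nat_lit 228) (nat_lit 6477650351) (nat_lit 119) (nat_lit 1) (nat_lit 118) (nat_lit 1) (nat_lit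 121) (nat_lit 1) (nat_lit 302) (nat_lit 395) (nat_lit 323)) (XT.lf (nat_lit 152) (nat_lit 2953903579) (nat_lit 0) (nat_lit 9383294487) (nat_lit 76) (nat_lit 2178781805) (nat_lit 119) (nat_lit 1) (nat_lit 117) (nat_lit 1) (nat_lit 118) (nat_lit 1) (nat_lit 303) (nat_lit 395) (nat_lit 322))) (XT.nd (nat_lit 78) (nat_lit 76) (nat_lit 0) (XT.lf (nat_lit 76) (nat_lit 5908796479) (nat_lit 0) (nat_lit 4523916420) (nat_lit 152) (nat_lit 3842543412) (nat_lit 116) (nat_lit 1) (nat_lit 115) (nat_lit 1) (nat_lit 117) (nat_lit 1) (nat_lit 304) (nat_lit 395) (nat_lit 321)) (XT.lf (nat_lit 152) (nat_lit 2270309880) (nat_lit 0) (nat_lit 11486305518) (nat_lit 76) (nat_lit 283206346) (nat_lit 116) (nat_lit 1) (nat_lit 114) (nat_lit 1) (nat_lit 115) (nat_lit 1) (nat_lit 305) (nat_lit 395) (nat_lit 320)))))) (XT.nd (nat_lit 546) (nat_lit 912) (nat_lit 0) (XT.nd (nat_lit 234) (nat_lit 456) (nat_lit 0) (XT.nd (nat_lit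 78) (nat_lit 304) (nat_lit 0) (XT.lf (nat_lit 76) (nat_lit 7475900258) (nat_lit 0) (nat_lit 4989832588) (nat_lit 152) (nat_lit 1341563162) (nat_lit 113) (nat_lit 1) (nat_lit 112) (nat_lit 1) (nat_lit 114) (nat_lit 1) (nat_lit 306) (nat_lit 395) (nat_lit 319)) (XT.nd (nat_lit 78) (nat_lit 228) (nat_lit 0) (XT.lf (nat_lit 0) (nat_lit 1425720718) (nat_lit 0) (nat_lit 12032214770) (nat_lit 152) (nat_lit 122179313) (nat_lit 111) (nat_lit 3) (nat_lit 111) (nat_lit 1) (nat_lit 113) (nat_lit 1) (nat_lit 307) (nat_lit 395) (nat_lit 318)) (XT.lf (nat_lit 152) (nat_lit 7863408713) (nat_lit 0) (nat_lit 1047634325) (nat_lit 76) (nat_lit 4444512094) (nat_lit 110) (nat_lit 1) (nat_lit 108) (nat_lit 1) (nat_lit 109) (nat_lit 1) (nat_lit 308) (nat_lit 395) (nat_lit 317)))) (XT.nd (nat_lit 156) (nat_lit 228) (nat_lit 0) (XT.nd (nat_lit 78) (nat_lit 152) (nat_lit 0) (XT.lf (nat_lit 76) (nat_lit 788103093) (nat_lit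 0) (nat_lit 2219472993) (nat_lit 76) (nat_lit 10128299955) (nat_lit 108) (nat_lit 3) (nat_lit 107) (nat_lit 1) (nat_lit 108) (nat_lit 1) (nat_lit 309) (nat_lit 395) (nat_lit 316)) (XT.lf (nat_lit 152) (nat_lit 6896339536) (nat_lit 0) (nat_lit 3331141321) (nat_lit 76) (nat_lit 2691798040) (nat_lit 107) (nat_lit 1) (nat_lit 105) (nat_lit 1) (nat_lit 106) (nat_lit 1) (nat_lit 310) (nat_lit 395) (nat_lit 315))) (XT.nd (nat_lit 78) (nat_lit 152) (nat_lit 0) (XT.lf (nat_lit 76) (nat_lit 24389880) (nat_lit 0) (nat_lit 4433285545) (nat_lit 76) (nat_lit 8249471325) (nat_lit 105) (nat_lit 3) (nat_lit 104) (nat_lit 1) (nat_lit 105) (nat_lit 1) (nat_lit 311) (nat_lit 395) (nat_lit 314)) (XT.lf (nat_lit 152) (nat_lit 5937332096) (nat_lit 0) (nat_lit 5485155770) (nat_lit 76) (nat_lit 1075714510) (nat_lit 104) (nat_lit 1) (nat_lit 102) (nat_lit 1) (nat_lit 103) (nat_lit 1) (nat_lit 312) (nat_lit 395) (nat_lit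 313))))) (XT.nd (nat_lit 234) (nat_lit 532) (nat_lit 0) (XT.nd (nat_lit 78) (nat_lit 228) (nat_lit 0) (XT.lf (nat_lit 76) (nat_lit 5792083656) (nat_lit 0) (nat_lit 720459865) (nat_lit 152) (nat_lit 5780564855) (nat_lit 101) (nat_lit 1) (nat_lit 100) (nat_lit 1) (nat_lit 102) (nat_lit 1) (nat_lit 313) (nat_lit 395) (nat_lit 312)) (XT.nd (nat_lit 78) (nat_lit 152) (nat_lit 0) (XT.lf (nat_lit 0) (nat_lit 405776291) (nat_lit 0) (nat_lit 7103047102) (nat_lit 152) (nat_lit 4582761459) (nat_lit 99) (nat_lit 3) (nat_lit 99) (nat_lit 1) (nat_lit 101) (nat_lit 1) (nat_lit 314) (nat_lit 395) (nat_lit 311)) (XT.lf (nat_lit 76) (nat_lit 7013170304) (nat_lit 0) (nat_lit 1454524683) (nat_lit 152) (nat_lit 3425668045) (nat_lit 98) (nat_lit 1) (nat_lit 97) (nat_lit 1) (nat_lit 99) (nat_lit 1) (nat_lit 315) (nat_lit 395) (nat_lit 310)))) (XT.nd (nat_lit 156) (nat_lit 304) (nat_lit 0) (XT.nd (nat_lit 78) (nat_lit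 152) (nat_lit 0) (XT.lf (nat_lit 0) (nat_lit 1751288243) (nat_lit 0) (nat_lit 7648979554) (nat_lit 152) (nat_lit 2298415053) (nat_lit 96) (nat_lit 3) (nat_lit 96) (nat_lit 1) (nat_lit 98) (nat_lit 1) (nat_lit 316) (nat_lit 395) (nat_lit 309)) (XT.lf (nat_lit 76) (nat_lit 8129145461) (nat_lit 0) (nat_lit 2173443879) (nat_lit 152) (nat_lit 1204757793) (nat_lit 95) (nat_lit 1) (nat_lit 94) (nat_lit 1) (nat_lit 96) (nat_lit 1) (nat_lit 317) (nat_lit 395) (nat_lit 308))) (XT.nd (nat_lit 78) (nat_lit 228) (nat_lit 0) (XT.lf (nat_lit 0) (nat_lit 2990103924) (nat_lit 0) (nat_lit 8183676617) (nat_lit 152) (nat_lit 145469250) (nat_lit 93) (nat_lit 3) (nat_lit 93) (nat_lit 1) (nat_lit 95) (nat_lit 1) (nat_lit 318) (nat_lit 395) (nat_lit 307)) (XT.lf (nat_lit 152) (nat_lit 8252291371) (nat_lit 0) (nat_lit 904136745) (nat_lit 76) (nat_lit 1977831951) (nat_lit 92) (nat_lit 1) (nat_lit 90) (nat_lit 1) (nat_lit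 91) (nat_lit 1) (nat_lit 319) (nat_lit 395) (nat_lit 306))))))))
noncomputable def ec120 : XT := (XT.nd (nat_lit 2184) (nat_lit 2964) (nat_lit 0) (XT.nd (nat_lit 1092) (nat_lit 1748) (nat_lit 0) (XT.nd (nat_lit 546) (nat_lit 836) (nat_lit 0) (XT.nd (nat_lit 234) (nat_lit 532) (nat_lit 0) (XT.nd (nat_lit 78) (nat_lit 228) (nat_lit 0) (XT.lf (nat_lit 76) (nat_lit 2230429042) (nat_lit 0) (nat_lit 1917829479) (nat_lit 76) (nat_lit 6803947033) (nat_lit 90) (nat_lit 3) (nat_lit 89) (nat_lit 1) (nat_lit 90) (nat_lit 1) (nat_lit 320) (nat_lit 395) (nat_lit 305)) (XT.nd (nat_lit 78) (nat_lit 76) (nat_lit 0) (XT.lf (nat_lit 152) (nat_lit 7194706721) (nat_lit 0) (nat_lit 2909286942) (nat_lit 76) (nat_lit 669539837) (nat_lit 89) (nat_lit 1) (nat_lit 87) (nat_lit 1) (nat_lit 88) (nat_lit 1) (nat_lit 321) (nat_lit 395) (nat_lit 304)) (XT.lf (nat_lit 76) (nat_lit 1355588778) (nat_lit 0) (nat_lit 3858928357) (nat_lit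 76) (nat_lit 5383079690) (nat_lit 87) (nat_lit 3) (nat_lit 86) (nat_lit 1) (nat_lit 87) (nat_lit 1) (nat_lit 322) (nat_lit 395) (nat_lit 303)))) (XT.nd (nat_lit 156) (nat_lit 304) (nat_lit 0) (XT.nd (nat_lit 78) (nat_lit 76) (nat_lit 0) (XT.lf (nat_lit 0) (nat_lit 530973965) (nat_lit 0) (nat_lit 4254960013) (nat_lit 152) (nat_lit 5638944900) (nat_lit 84) (nat_lit 3) (nat_lit 84) (nat_lit 1) (nat_lit 86) (nat_lit 1) (nat_lit 323) (nat_lit 395) (nat_lit 302)) (XT.lf (nat_lit 76) (nat_lit 514425239) (nat_lit 0) (nat_lit 5679486875) (nat_lit 76) (nat_lit 4061078619) (nat_lit 84) (nat_lit 3) (nat_lit 83) (nat_lit 1) (nat_lit 84) (nat_lit 1) (nat_lit 324) (nat_lit 395) (nat_lit 301))) (XT.nd (nat_lit 78) (nat_lit 152) (nat_lit 0) (XT.lf (nat_lit 0) (nat_lit 1629466113) (nat_lit 0) (nat_lit 4908849728) (nat_lit 152) (nat_lit 3549507065) (nat_lit 81) (nat_lit 3) (nat_lit 81) (nat_lit 1) (nat_lit 83) (nat_lit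 1) (nat_lit 325) (nat_lit 395) (nat_lit 300)) (XT.lf (nat_lit 76) (nat_lit 7095198244) (nat_lit 0) (nat_lit 285990087) (nat_lit 152) (nat_lit 2542662612) (nat_lit 80) (nat_lit 1) (nat_lit 79) (nat_lit 1) (nat_lit 81) (nat_lit 1) (nat_lit 326) (nat_lit 395) (nat_lit 299))))) (XT.nd (nat_lit 234) (nat_lit 456) (nat_lit 0) (XT.nd (nat_lit 78) (nat_lit 304) (nat_lit 0) (XT.lf (nat_lit 0) (nat_lit 2644872371) (nat_lit 0) (nat_lit 5532734128) (nat_lit 152) (nat_lit 1584510329) (nat_lit 78) (nat_lit 3) (nat_lit 78) (nat_lit 1) (nat_lit 80) (nat_lit 1) (nat_lit 327) (nat_lit 395) (nat_lit 298)) (XT.nd (nat_lit 78) (nat_lit 152) (nat_lit 0) (XT.lf (nat_lit 76) (nat_lit 7925662260) (nat_lit 0) (nat_lit 1041081220) (nat_lit 152) (nat_lit 636949653) (nat_lit 77) (nat_lit 1) (nat_lit 76) (nat_lit 1) (nat_lit 78) (nat_lit 1) (nat_lit 328) (nat_lit 395) (nat_lit 297)) (XT.lf (nat_lit 76) (nat_lit 3318999074)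 (nat_lit 0) (nat_lit 266181631) (nat_lit 76) (nat_lit 5862082320) (nat_lit 75) (nat_lit 3) (nat_lit 74) (nat_lit 1) (nat_lit 75) (nat_lit 1) (nat_lit 329) (nat_lit 395) (nat_lit 296)))) (XT.nd (nat_lit 156) (nat_lit 228) (nat_lit 0) (XT.nd (nat_lit 78) (nat_lit 76) (nat_lit 0) (XT.lf (nat_lit 152) (nat_lit 7522280499) (nat_lit 0) (nat_lit 1174437845) (nat_lit 76) (nat_lit 597198553) (nat_lit 74) (nat_lit 1) (nat_lit 72) (nat_lit 1) (nat_lit 73) (nat_lit 1) (nat_lit 330) (nat_lit 395) (nat_lit 295)) (XT.lf (nat_lit 76) (nat_lit 2435765612) (nat_lit 0) (nat_lit 2031505947) (nat_lit 76) (nat_lit 4675233059) (nat_lit 72) (nat_lit 3) (nat_lit 71) (nat_lit 1) (nat_lit 72) (nat_lit 1) (nat_lit 331) (nat_lit 395) (nat_lit 294))) (XT.nd (nat_lit 78) (nat_lit 76) (nat_lit 0) (XT.lf (nat_lit 0) (nat_lit 404547963) (nat_lit 0) (nat_lit 2475252953) (nat_lit 152) (nat_lit 6114395426) (nat_lit 69) (nat_lit 3)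 (nat_lit 69) (nat_lit 1) (nat_lit 71) (nat_lit 1) (nat_lit 332) (nat_lit 395) (nat_lit 293)) (XT.lf (nat_lit 76) (nat_lit 1595501697) (nat_lit 0) (nat_lit 3684819752) (nat_lit 76) (nat_lit 3567601688) (nat_lit 69) (nat_lit 3) (nat_lit 68) (nat_lit 1) (nat_lit 69) (nat_lit 1) (nat_lit 333) (nat_lit 395) (nat_lit 292)))))) (XT.nd (nat_lit 546) (nat_lit 836) (nat_lit 0) (XT.nd (nat_lit 234) (nat_lit 532) (nat_lit 0) (XT.nd (nat_lit 78) (nat_lit 228) (nat_lit 0) (XT.lf (nat_lit 0) (nat_lit 1323368309) (nat_lit 0) (nat_lit 3146854199) (nat_lit 152) (nat_lit 4234088851) (nat_lit 66) (nat_lit 3) (nat_lit 66) (nat_lit 1) (nat_lit 68) (nat_lit 1) (nat_lit 334) (nat_lit 395) (nat_lit 291)) (XT.nd (nat_lit 78) (nat_lit 152) (nat_lit 0) (XT.lf (nat_lit 76) (nat_lit 797789679) (nat_lit 0) (nat_lit 5230918573) (nat_lit 76) (nat_lit 2534442908) (nat_lit 66) (nat_lit 3) (nat_lit 65) (nat_lit 1) (nat_lit 66) (nat_lit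 1) (nat_lit 335) (nat_lit 395) (nat_lit 290)) (XT.lf (nat_lit 0) (nat_lit 2175275953) (nat_lit 0) (nat_lit 3781057949) (nat_lit 152) (nat_lit 2467740255) (nat_lit 63) (nat_lit 3) (nat_lit 63) (nat_lit 1) (nat_lit 65) (nat_lit 1) (nat_lit 336) (nat_lit 395) (nat_lit 289)))) (XT.nd (nat_lit 156) (nat_lit 304) (nat_lit 0) (XT.nd (nat_lit 78) (nat_lit 152) (nat_lit 0) (XT.lf (nat_lit 76) (nat_lit 42015367) (nat_lit 0) (nat_lit 6674490342) (nat_lit 76) (nat_lit 1571331555) (nat_lit 63) (nat_lit 3) (nat_lit 62) (nat_lit 1) (nat_lit 63) (nat_lit 1) (nat_lit 337) (nat_lit 395) (nat_lit 288)) (XT.lf (nat_lit 0) (nat_lit 2964336165) (nat_lit 0) (nat_lit 4378405686) (nat_lit 152) (nat_lit 810398389) (nat_lit 60) (nat_lit 3) (nat_lit 60) (nat_lit 1) (nat_lit 62) (nat_lit 1) (nat_lit 338) (nat_lit 395) (nat_lit 287))) (XT.nd (nat_lit 78) (nat_lit 152) (nat_lit 0) (XT.lf (nat_lit 76) (nat_lit 7353974791) (nat_lit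 0) (nat_lit 659472414) (nat_lit 152) (nat_lit 8003876) (nat_lit 59) (nat_lit 1) (nat_lit 58) (nat_lit 1) (nat_lit 60) (nat_lit 1) (nat_lit 339) (nat_lit 395) (nat_lit 286)) (XT.lf (nat_lit 76) (nat_lit 2944089802) (nat_lit 0) (nat_lit 757536259) (nat_lit 76) (nat_lit 4189335181) (nat_lit 57) (nat_lit 3) (nat_lit 56) (nat_lit 1) (nat_lit 57) (nat_lit 1) (nat_lit 340) (nat_lit 395) (nat_lit 285))))) (XT.nd (nat_lit 234) (nat_lit 456) (nat_lit 0) (XT.nd (nat_lit 78) (nat_lit 228) (nat_lit 0) (XT.lf (nat_lit 0) (nat_lit 185743946) (nat_lit 0) (nat_lit 1337149751) (nat_lit 152) (nat_lit 6240475756) (nat_lit 54) (nat_lit 3) (nat_lit 54) (nat_lit 1) (nat_lit 56) (nat_lit 1) (nat_lit 341) (nat_lit 395) (nat_lit 284)) (XT.nd (nat_lit 78) (nat_lit 152) (nat_lit 0) (XT.lf (nat_lit 76) (nat_lit 2150272861) (nat_lit 0) (nat_lit 2240107676) (nat_lit 76) (nat_lit 3246849818) (nat_lit 54) (nat_lit 3) (nat_lit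 53) (nat_lit 1) (nat_lit 54) (nat_lit 1) (nat_lit 342) (nat_lit 395) (nat_lit 283)) (XT.lf (nat_lit 0) (nat_lit 967377741) (nat_lit 0) (nat_lit 1981318525) (nat_lit 152) (nat_lit 4564944315) (nat_lit 51) (nat_lit 3) (nat_lit 51) (nat_lit 1) (nat_lit 53) (nat_lit 1) (nat_lit 343) (nat_lit 395) (nat_lit 282)))) (XT.nd (nat_lit 156) (nat_lit 228) (nat_lit 0) (XT.nd (nat_lit 78) (nat_lit 152) (nat_lit 0) (XT.lf (nat_lit 76) (nat_lit 1400205129) (nat_lit 0) (nat_lit 3625813215) (nat_lit 76) (nat_lit 2365863019) (nat_lit 51) (nat_lit 3) (nat_lit 50) (nat_lit 1) (nat_lit 51) (nat_lit 1) (nat_lit 344) (nat_lit 395) (nat_lit 281)) (XT.lf (nat_lit 0) (nat_lit 1693747618) (nat_lit 0) (nat_lit 2586635171) (nat_lit 152) (nat_lit 2991777514) (nat_lit 48) (nat_lit 3) (nat_lit 48) (nat_lit 1) (nat_lit 50) (nat_lit 1) (nat_lit 345) (nat_lit 395) (nat_lit 280))) (XT.nd (nat_lit 78) (nat_lit 152) (nat_lit 0) (XT.lf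 (nat_lit 76) (nat_lit 692560932) (nat_lit 0) (nat_lit 4919131011) (nat_lit 76) (nat_lit 1542930031) (nat_lit 48) (nat_lit 3) (nat_lit 47) (nat_lit 1) (nat_lit 48) (nat_lit 1) (nat_lit 346) (nat_lit 395) (nat_lit 279)) (XT.lf (nat_lit 0) (nat_lit 2368023814) (nat_lit 0) (nat_lit 3154310544) (nat_lit 152) (nat_lit 1516307192) (nat_lit 45) (nat_lit 3) (nat_lit 45) (nat_lit 1) (nat_lit 47) (nat_lit 1) (nat_lit 347) (nat_lit 395) (nat_lit 278))))))) (XT.nd (nat_lit 1092) (nat_lit 1140) (nat_lit 0) (XT.nd (nat_lit 546) (nat_lit 912) (nat_lit 0) (XT.nd (nat_lit 234) (nat_lit 456) (nat_lit 0) (XT.nd (nat_lit 78) (nat_lit 380) (nat_lit 0) (XT.lf (nat_lit 76) (nat_lit 25968356) (nat_lit 0) (nat_lit 6124390287) (nat_lit 76) (nat_lit 774812861) (nat_lit 45) (nat_lit 3) (nat_lit 44) (nat_lit 1) (nat_lit 45) (nat_lit 1) (nat_lit 348) (nat_lit 395) (nat_lit 277)) (XT.nd (nat_lit 78) (nat_lit 228) (nat_lit 0)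 (XT.lf (nat_lit 0) (nat_lit 2993185423) (nat_lit 0) (nat_lit 3685598280) (nat_lit 152) (nat_lit 134024873) (nat_lit 42) (nat_lit 3) (nat_lit 42) (nat_lit 1) (nat_lit 44) (nat_lit 1) (nat_lit 349) (nat_lit 395) (nat_lit 276)) (XT.lf (nat_lit 152) (nat_lit 6108418382) (nat_lit 0) (nat_lit 547415962) (nat_lit 76) (nat_lit 47094766) (nat_lit 41) (nat_lit 1) (nat_lit 39) (nat_lit 1) (nat_lit 40) (nat_lit 1) (nat_lit 350) (nat_lit 395) (nat_lit 275)))) (XT.nd (nat_lit 156) (nat_lit 228) (nat_lit 0) (XT.nd (nat_lit 78) (nat_lit 152) (nat_lit 0) (XT.lf (nat_lit 76) (nat_lit 2400907589) (nat_lit 0) (nat_lit 1182493722) (nat_lit 76) (nat_lit 3010654067) (nat_lit 39) (nat_lit 3) (nat_lit 38) (nat_lit 1) (nat_lit 39) (nat_lit 1) (nat_lit 351) (nat_lit 395) (nat_lit 274)) (XT.lf (nat_lit 0) (nat_lit 626343836) (nat_lit 0) (nat_lit 1190140858) (nat_lit 152) (nat_lit 4671091415) (nat_lit 36) (nat_lit 3) (nat_lit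 36) (nat_lit 1) (nat_lit 38) (nat_lit 1) (nat_lit 352) (nat_lit 395) (nat_lit 273))) (XT.nd (nat_lit 78) (nat_lit 152) (nat_lit 0) (XT.lf (nat_lit 76) (nat_lit 1715077670) (nat_lit 0) (nat_lit 2415348748) (nat_lit 76) (nat_lit 2252027214) (nat_lit 36) (nat_lit 3) (nat_lit 35) (nat_lit 1) (nat_lit 36) (nat_lit 1) (nat_lit 353) (nat_lit 395) (nat_lit 272)) (XT.lf (nat_lit 0) (nat_lit 1252393072) (nat_lit 0) (nat_lit 1748879012) (nat_lit 152) (nat_lit 3278016729) (nat_lit 33) (nat_lit 3) (nat_lit 33) (nat_lit 1) (nat_lit 35) (nat_lit 1) (nat_lit 354) (nat_lit 395) (nat_lit 271))))) (XT.nd (nat_lit 234) (nat_lit 608) (nat_lit 0) (XT.nd (nat_lit 78) (nat_lit 228) (nat_lit 0) (XT.lf (nat_lit 76) (nat_lit 1069481388) (nat_lit 0) (nat_lit 3565989938) (nat_lit 76) (nat_lit 1542325140) (nat_lit 33) (nat_lit 3) (nat_lit 32) (nat_lit 1) (nat_lit 33) (nat_lit 1) (nat_lit 355) (nat_lit 395) (nat_lit 270)) (XT.nd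 (nat_lit 78) (nat_lit 76) (nat_lit 0) (XT.lf (nat_lit 0) (nat_lit 1834525708) (nat_lit 0) (nat_lit 2271736760) (nat_lit 152) (nat_lit 1971576135) (nat_lit 30) (nat_lit 3) (nat_lit 30) (nat_lit 1) (nat_lit 32) (nat_lit 1) (nat_lit 356) (nat_lit 395) (nat_lit 269)) (XT.lf (nat_lit 76) (nat_lit 462538454) (nat_lit 0) (nat_lit 4638378482) (nat_lit 76) (nat_lit 878929931) (nat_lit 30) (nat_lit 3) (nat_lit 29) (nat_lit 1) (nat_lit 30) (nat_lit 1) (nat_lit 357) (nat_lit 395) (nat_lit 268)))) (XT.nd (nat_lit 156) (nat_lit 304) (nat_lit 0) (XT.nd (nat_lit 78) (nat_lit 152) (nat_lit 0) (XT.lf (nat_lit 0) (nat_lit 2375153655) (nat_lit 0) (nat_lit 2760166579) (nat_lit 152) (nat_lit 747672122) (nat_lit 27) (nat_lit 3) (nat_lit 27) (nat_lit 1) (nat_lit 29) (nat_lit 1) (nat_lit 358) (nat_lit 395) (nat_lit 267)) (XT.lf (nat_lit 76) (nat_lit 5530041719) (nat_lit 0) (nat_lit 105218426) (nat_lit 152) (nat_lit 153085570)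 (nat_lit 26) (nat_lit 1) (nat_lit 25) (nat_lit 1) (nat_lit 27) (nat_lit 1) (nat_lit 359) (nat_lit 395) (nat_lit 266))) (XT.nd (nat_lit 78) (nat_lit 152) (nat_lit 0) (XT.lf (nat_lit 76) (nat_lit 2474907337) (nat_lit 0) (nat_lit 405547311) (nat_lit 76) (nat_lit 2813954009) (nat_lit 24) (nat_lit 3) (nat_lit 23) (nat_lit 1) (nat_lit 24) (nat_lit 1) (nat_lit 360) (nat_lit 395) (nat_lit 265)) (XT.lf (nat_lit 0) (nat_lit 328163164) (nat_lit 0) (nat_lit 641659855) (nat_lit 152) (nat_lit 4632780918) (nat_lit 21) (nat_lit 3) (nat_lit 21) (nat_lit 1) (nat_lit 23) (nat_lit 1) (nat_lit 361) (nat_lit 395) (nat_lit 264)))))) (XT.nd (nat_lit 546) (nat_lit 380) (nat_lit 0) (XT.nd (nat_lit 234) (nat_lit 456) (nat_lit 0) (XT.nd (nat_lit 78) (nat_lit 228) (nat_lit 0) (XT.lf (nat_lit 76) (nat_lit 1857939755) (nat_lit 0) (nat_lit 1497342574) (nat_lit 76) (nat_lit 2156508032) (nat_lit 21) (nat_lit 3) (nat_lit 20) (nat_lit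 1) (nat_lit 21) (nat_lit 1) (nat_lit 362) (nat_lit 395) (nat_lit 263)) (XT.nd (nat_lit 78) (nat_lit 76) (nat_lit 0) (XT.lf (nat_lit 0) (nat_lit 871544874) (nat_lit 0) (nat_lit 1147613555) (nat_lit 152) (nat_lit 3403674673) (nat_lit 18) (nat_lit 3) (nat_lit 18) (nat_lit 1) (nat_lit 20) (nat_lit 1) (nat_lit 363) (nat_lit 395) (nat_lit 262)) (XT.lf (nat_lit 76) (nat_lit 1277844055) (nat_lit 0) (nat_lit 2516537344) (nat_lit 76) (nat_lit 1540766607) (nat_lit 18) (nat_lit 3) (nat_lit 17) (nat_lit 1) (nat_lit 18) (nat_lit 1) (nat_lit 364) (nat_lit 395) (nat_lit 261)))) (XT.nd (nat_lit 156) (nat_lit 228) (nat_lit 0) (XT.nd (nat_lit 78) (nat_lit 76) (nat_lit 0) (XT.lf (nat_lit 0) (nat_lit 1377473585) (nat_lit 0) (nat_lit 1620582741) (nat_lit 152) (nat_lit 2250890776) (nat_lit 15) (nat_lit 3) (nat_lit 15) (nat_lit 1) (nat_lit 17) (nat_lit 1) (nat_lit 365) (nat_lit 395) (nat_lit 260)) (XT.lf (nat_lit 76)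 (nat_lit 733031005) (nat_lit 0) (nat_lit 3466685281) (nat_lit 76) (nat_lit 964563535) (nat_lit 15) (nat_lit 3) (nat_lit 14) (nat_lit 1) (nat_lit 15) (nat_lit 1) (nat_lit 366) (nat_lit 395) (nat_lit 259))) (XT.nd (nat_lit 78) (nat_lit 76) (nat_lit 0) (XT.lf (nat_lit 0) (nat_lit 1847947218) (nat_lit 0) (nat_lit 2062031850) (nat_lit 152) (nat_lit 1170768252) (nat_lit 12) (nat_lit 3) (nat_lit 12) (nat_lit 1) (nat_lit 14) (nat_lit 1) (nat_lit 367) (nat_lit 395) (nat_lit 258)) (XT.lf (nat_lit 76) (nat_lit 221953475) (nat_lit 0) (nat_lit 4351194230) (nat_lit 76) (nat_lit 425843601) (nat_lit 12) (nat_lit 3) (nat_lit 11) (nat_lit 1) (nat_lit 12) (nat_lit 1) (nat_lit 368) (nat_lit 395) (nat_lit 257))))) (XT.nd (nat_lit 44616) (nat_lit 0) (nat_lit 16112) (XT.nd (nat_lit 78) (nat_lit 228) (nat_lit 0) (XT.lf (nat_lit 0) (nat_lit 2284860409) (nat_lit 0) (nat_lit 2473385722) (nat_lit 152) (nat_lit 159796150)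 (nat_lit 9) (nat_lit 3) (nat_lit 9) (nat_lit 1) (nat_lit 11) (nat_lit 1) (nat_lit 369) (nat_lit 395) (nat_lit 256)) (XT.nd (nat_lit 44460) (nat_lit 0) (nat_lit 17404) (XT.lf (nat_lit 0) (nat_lit 81613300) (nat_lit 0) (nat_lit 255931666) (nat_lit 152) (nat_lit 4501354300) (nat_lit 6) (nat_lit 3) (nat_lit 6) (nat_lit 1) (nat_lit 8) (nat_lit 1) (nat_lit 370) (nat_lit 395) (nat_lit 255)) (XT.lf (nat_lit 380) (nat_lit 14463510557) (nat_lit 0) (nat_lit 11461003919) (nat_lit 304) (nat_lit 6024337905) (nat_lit 240) (nat_lit 1) (nat_lit 235) (nat_lit 1) (nat_lit 239) (nat_lit 1) (nat_lit 259) (nat_lit 396) (nat_lit 365)))) (XT.nd (nat_lit 156) (nat_lit 608) (nat_lit 0) (XT.nd (nat_lit 78) (nat_lit 380) (nat_lit 0) (XT.lf (nat_lit 380) (nat_lit 2983796644) (nat_lit 0) (nat_lit 11349057065) (nat_lit 304) (nat_lit 17010546908) (nat_lit 236) (nat_lit 1) (nat_lit 231) (nat_lit 1) (nat_lit 235) (nat_lit 1) (nat_lit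 260) (nat_lit 396) (nat_lit 364)) (XT.lf (nat_lit 76) (nat_lit 3170888182) (nat_lit 0) (nat_lit 8183023607) (nat_lit 380) (nat_lit 19398909361) (nat_lit 227) (nat_lit 1) (nat_lit 226) (nat_lit 1) (nat_lit 231) (nat_lit 1) (nat_lit 261) (nat_lit 396) (nat_lit 363))) (XT.nd (nat_lit 78) (nat_lit 304) (nat_lit 0) (XT.lf (nat_lit 380) (nat_lit 10959025272) (nat_lit 0) (nat_lit 11441987365) (nat_lit 304) (nat_lit 7774904778) (nat_lit 227) (nat_lit 1) (nat_lit 222) (nat_lit 1) (nat_lit 226) (nat_lit 1) (nat_lit 262) (nat_lit 396) (nat_lit 362)) (XT.lf (nat_lit 76) (nat_lit 11172676941) (nat_lit 0) (nat_lit 502697804) (nat_lit 304) (nat_lit 17938908825) (nat_lit 219) (nat_lit 1) (nat_lit 218) (nat_lit 1) (nat_lit 222) (nat_lit 1) (nat_lit 263) (nat_lit 396) (nat_lit 361))))))))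
noncomputable def ec121 : XT := (XT.nd (nat_lit 2184) (nat_lit 3876) (nat_lit 0) (XT.nd (nat_lit 1092) (nat_lit 2584) (nat_lit 0) (XT.nd (nat_lit 546) (nat_lit 1596) (nat_lit 0) (XT.nd (nat_lit 234) (nat_lit 988) (nat_lit 0) (XT.nd (nat_lit 78) (nat_lit 608) (nat_lit 0) (XT.lf (nat_lit 76) (nat_lit 392318609) (nat_lit 0) (nat_lit 11581774568) (nat_lit 380) (nat_lit 17091286661) (nat_lit 215) (nat_lit 1) (nat_lit 214) (nat_lit 1) (nat_lit 219) (nat_lit 1) (nat_lit 264) (nat_lit 396) (nat_lit 360)) (XT.nd (nat_lit 78) (nat_lit 380) (nat_lit 0) (XT.lf (nat_lit 304) (nat_lit 5939081069) (nat_lit 0) (nat_lit 12335313094) (nat_lit 228) (nat_lit 10254523408) (nat_lit 215) (nat_lit 1) (nat_lit 211) (nat_lit 1) (nat_lit 214) (nat_lit 1) (nat_lit 265) (nat_lit 396) (nat_lit 359)) (XT.lf (nat_lit 76) (nat_lit 7481547049) (nat_lit 0) (nat_lit 5315297243) (nat_lit 380) (nat_lit 15208951428) (nat_lit 207) (nat_lit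 1) (nat_lit 206) (nat_lit 1) (nat_lit 211) (nat_lit 1) (nat_lit 266) (nat_lit 396) (nat_lit 358)))) (XT.nd (nat_lit 156) (nat_lit 456) (nat_lit 0) (XT.nd (nat_lit 78) (nat_lit 304) (nat_lit 0) (XT.lf (nat_lit 304) (nat_lit 11196710872) (nat_lit 0) (nat_lit 13320875601) (nat_lit 228) (nat_lit 2977128066) (nat_lit 207) (nat_lit 1) (nat_lit 203) (nat_lit 1) (nat_lit 206) (nat_lit 1) (nat_lit 267) (nat_lit 396) (nat_lit 357)) (XT.lf (nat_lit 76) (nat_lit 13745223972) (nat_lit 0) (nat_lit 167882367) (nat_lit 304) (nat_lit 13082539012) (nat_lit 200) (nat_lit 1) (nat_lit 199) (nat_lit 1) (nat_lit 203) (nat_lit 1) (nat_lit 268) (nat_lit 396) (nat_lit 356))) (XT.nd (nat_lit 78) (nat_lit 228) (nat_lit 0) (XT.lf (nat_lit 76) (nat_lit 3415918092) (nat_lit 0) (nat_lit 11117654738) (nat_lit 304) (nat_lit 11973660374) (nat_lit 197) (nat_lit 1) (nat_lit 196) (nat_lit 1) (nat_lit 200) (nat_lit 1) (nat_lit 269)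 (nat_lit 396) (nat_lit 355)) (XT.lf (nat_lit 304) (nat_lit 4093381887) (nat_lit 0) (nat_lit 15218642454) (nat_lit 228) (nat_lit 6718325677) (nat_lit 197) (nat_lit 1) (nat_lit 193) (nat_lit 1) (nat_lit 196) (nat_lit 1) (nat_lit 270) (nat_lit 396) (nat_lit 354))))) (XT.nd (nat_lit 234) (nat_lit 836) (nat_lit 0) (XT.nd (nat_lit 78) (nat_lit 456) (nat_lit 0) (XT.lf (nat_lit 76) (nat_lit 9036034881) (nat_lit 0) (nat_lit 6890309614) (nat_lit 304) (nat_lit 9637245087) (nat_lit 190) (nat_lit 1) (nat_lit 189) (nat_lit 1) (nat_lit 193) (nat_lit 1) (nat_lit 271) (nat_lit 396) (nat_lit 353)) (XT.nd (nat_lit 78) (nat_lit 228) (nat_lit 0) (XT.lf (nat_lit 304) (nat_lit 7509271555) (nat_lit 0) (nat_lit 16706072820) (nat_lit 228) (nat_lit 892865923) (nat_lit 190) (nat_lit 1) (nat_lit 186) (nat_lit 1) (nat_lit 189) (nat_lit 1) (nat_lit 272) (nat_lit 396) (nat_lit 352)) (XT.lf (nat_lit 76) (nat_lit 14017307169) (nat_lit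 0) (nat_lit 3459834881) (nat_lit 228) (nat_lit 7184543229) (nat_lit 184) (nat_lit 1) (nat_lit 183) (nat_lit 1) (nat_lit 186) (nat_lit 1) (nat_lit 273) (nat_lit 396) (nat_lit 351)))) (XT.nd (nat_lit 156) (nat_lit 380) (nat_lit 0) (XT.nd (nat_lit 78) (nat_lit 228) (nat_lit 0) (XT.lf (nat_lit 76) (nat_lit 4214710775) (nat_lit 0) (nat_lit 14071962385) (nat_lit 304) (nat_lit 5938540365) (nat_lit 181) (nat_lit 1) (nat_lit 180) (nat_lit 1) (nat_lit 184) (nat_lit 1) (nat_lit 274) (nat_lit 396) (nat_lit 350)) (XT.lf (nat_lit 76) (nat_lit 18427232658) (nat_lit 0) (nat_lit 714745970) (nat_lit 228) (nat_lit 4656859240) (nat_lit 178) (nat_lit 1) (nat_lit 177) (nat_lit 1) (nat_lit 180) (nat_lit 1) (nat_lit 275) (nat_lit 396) (nat_lit 349))) (XT.nd (nat_lit 78) (nat_lit 152) (nat_lit 0) (XT.lf (nat_lit 76) (nat_lit 8748005728) (nat_lit 0) (nat_lit 11210997120) (nat_lit 304) (nat_lit 3420940328) (nat_lit 175)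 (nat_lit 1) (nat_lit 174) (nat_lit 1) (nat_lit 178) (nat_lit 1) (nat_lit 276) (nat_lit 396) (nat_lit 348)) (XT.lf (nat_lit 228) (nat_lit 1471065612) (nat_lit 0) (nat_lit 20868876996) (nat_lit 152) (nat_lit 632242462) (nat_lit 175) (nat_lit 1) (nat_lit 172) (nat_lit 1) (nat_lit 174) (nat_lit 1) (nat_lit 277) (nat_lit 396) (nat_lit 347)))))) (XT.nd (nat_lit 546) (nat_lit 1064) (nat_lit 0) (XT.nd (nat_lit 234) (nat_lit 760) (nat_lit 0) (XT.nd (nat_lit 78) (nat_lit 532) (nat_lit 0) (XT.lf (nat_lit 76) (nat_lit 12782045775) (nat_lit 0) (nat_lit 8914658951) (nat_lit 228) (nat_lit 873604141) (nat_lit 170) (nat_lit 1) (nat_lit 169) (nat_lit 1) (nat_lit 172) (nat_lit 1) (nat_lit 278) (nat_lit 396) (nat_lit 346)) (XT.nd (nat_lit 78) (nat_lit 228) (nat_lit 0) (XT.lf (nat_lit 228) (nat_lit 3118053519) (nat_lit 0) (nat_lit 432381418) (nat_lit 152) (nat_lit 18628265841) (nat_lit 168) (nat_lit 1) (nat_lit 165)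 (nat_lit 1) (nat_lit 167) (nat_lit 1) (nat_lit 279) (nat_lit 396) (nat_lit 345)) (XT.lf (nat_lit 228) (nat_lit 14675326137) (nat_lit 0) (nat_lit 1709198951) (nat_lit 152) (nat_lit 5409152986) (nat_lit 165) (nat_lit 1) (nat_lit 162) (nat_lit 1) (nat_lit 164) (nat_lit 1) (nat_lit 280) (nat_lit 396) (nat_lit 344)))) (XT.nd (nat_lit 156) (nat_lit 380) (nat_lit 0) (XT.nd (nat_lit 78) (nat_lit 228) (nat_lit 0) (XT.lf (nat_lit 228) (nat_lit 4304785072) (nat_lit 0) (nat_lit 2997997422) (nat_lit 152) (nat_lit 14114263959) (nat_lit 163) (nat_lit 1) (nat_lit 160) (nat_lit 1) (nat_lit 162) (nat_lit 1) (nat_lit 281) (nat_lit 396) (nat_lit 343)) (XT.lf (nat_lit 228) (nat_lit 15305020691) (nat_lit 0) (nat_lit 4288007804) (nat_lit 152) (nat_lit 1455310578) (nat_lit 160) (nat_lit 1) (nat_lit 157) (nat_lit 1) (nat_lit 159) (nat_lit 1) (nat_lit 282) (nat_lit 396) (nat_lit 342))) (XT.nd (nat_lit 78) (nat_lit 228)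 (nat_lit 0) (XT.lf (nat_lit 228) (nat_lit 5124405355) (nat_lit 0) (nat_lit 5535876316) (nat_lit 152) (nat_lit 10025861265) (nat_lit 158) (nat_lit 1) (nat_lit 155) (nat_lit 1) (nat_lit 157) (nat_lit 1) (nat_lit 283) (nat_lit 396) (nat_lit 341)) (XT.lf (nat_lit 76) (nat_lit 2065618510) (nat_lit 0) (nat_lit 4739444991) (nat_lit 228) (nat_lit 13527095504) (nat_lit 153) (nat_lit 1) (nat_lit 152) (nat_lit 1) (nat_lit 155) (nat_lit 1) (nat_lit 284) (nat_lit 396) (nat_lit 340))))) (XT.nd (nat_lit 234) (nat_lit 608) (nat_lit 0) (XT.nd (nat_lit 78) (nat_lit 304) (nat_lit 0) (XT.lf (nat_lit 228) (nat_lit 5634101885) (nat_lit 0) (nat_lit 8027828518) (nat_lit 152) (nat_lit 6322339245) (nat_lit 153) (nat_lit 1) (nat_lit 150) (nat_lit 1) (nat_lit 152) (nat_lit 1) (nat_lit 285) (nat_lit 396) (nat_lit 339)) (XT.nd (nat_lit 78) (nat_lit 152) (nat_lit 0) (XT.lf (nat_lit 76) (nat_lit 5211030717) (nat_lit 0) (nat_lit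 4043263826) (nat_lit 152) (nat_lit 10389498380) (nat_lit 149) (nat_lit 1) (nat_lit 148) (nat_lit 1) (nat_lit 150) (nat_lit 1) (nat_lit 286) (nat_lit 396) (nat_lit 338)) (XT.lf (nat_lit 228) (nat_lit 5883589240) (nat_lit 0) (nat_lit 10458967462) (nat_lit 152) (nat_lit 2967290441) (nat_lit 149) (nat_lit 1) (nat_lit 146) (nat_lit 1) (nat_lit 148) (nat_lit 1) (nat_lit 287) (nat_lit 396) (nat_lit 337)))) (XT.nd (nat_lit 156) (nat_lit 304) (nat_lit 0) (XT.nd (nat_lit 78) (nat_lit 152) (nat_lit 0) (XT.lf (nat_lit 76) (nat_lit 8042445276) (nat_lit 0) (nat_lit 3594321702) (nat_lit 152) (nat_lit 7345380872) (nat_lit 145) (nat_lit 1) (nat_lit 144) (nat_lit 1) (nat_lit 146) (nat_lit 1) (nat_lit 288) (nat_lit 396) (nat_lit 336)) (XT.lf (nat_lit 76) (nat_lit 70468088) (nat_lit 0) (nat_lit 12746083567) (nat_lit 228) (nat_lit 5844850038) (nat_lit 143) (nat_lit 1) (nat_lit 142) (nat_lit 1) (nat_lit 145) (nat_lit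 1) (nat_lit 289) (nat_lit 396) (nat_lit 335))) (XT.nd (nat_lit 78) (nat_lit 152) (nat_lit 0) (XT.lf (nat_lit 76) (nat_lit 10589508384) (nat_lit 0) (nat_lit 3352271255) (nat_lit 152) (nat_lit 4404050845) (nat_lit 141) (nat_lit 1) (nat_lit 140) (nat_lit 1) (nat_lit 142) (nat_lit 1) (nat_lit 290) (nat_lit 396) (nat_lit 334)) (XT.lf (nat_lit 76) (nat_lit 2769225744) (nat_lit 0) (nat_lit 12295962300) (nat_lit 228) (nat_lit 2971653374) (nat_lit 139) (nat_lit 1) (nat_lit 138) (nat_lit 1) (nat_lit 141) (nat_lit 1) (nat_lit 291) (nat_lit 396) (nat_lit 333))))))) (XT.nd (nat_lit 1092) (nat_lit 1824) (nat_lit 0) (XT.nd (nat_lit 546) (nat_lit 836) (nat_lit 0) (XT.nd (nat_lit 234) (nat_lit 608) (nat_lit 0) (XT.nd (nat_lit 78) (nat_lit 456) (nat_lit 0) (XT.lf (nat_lit 76) (nat_lit 12878783470) (nat_lit 0) (nat_lit 3282125843) (nat_lit 152) (nat_lit 1572645373) (nat_lit 137) (nat_lit 1) (nat_lit 136) (nat_lit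 1) (nat_lit 138) (nat_lit 1) (nat_lit 292) (nat_lit 396) (nat_lit 332)) (XT.nd (nat_lit 78) (nat_lit 304) (nat_lit 0) (XT.lf (nat_lit 76) (nat_lit 5212560044) (nat_lit 0) (nat_lit 12013996157) (nat_lit 228) (nat_lit 209220580) (nat_lit 135) (nat_lit 1) (nat_lit 134) (nat_lit 1) (nat_lit 137) (nat_lit 1) (nat_lit 293) (nat_lit 396) (nat_lit 331)) (XT.lf (nat_lit 228) (nat_lit 13778987853) (nat_lit 0) (nat_lit 1166320870) (nat_lit 152) (nat_lit 2198485598) (nat_lit 133) (nat_lit 1) (nat_lit 130) (nat_lit 1) (nat_lit 132) (nat_lit 1) (nat_lit 294) (nat_lit 396) (nat_lit 330)))) (XT.nd (nat_lit 156) (nat_lit 304) (nat_lit 0) (XT.nd (nat_lit 78) (nat_lit 228) (nat_lit 0) (XT.lf (nat_lit 152) (nat_lit 4961156561) (nat_lit 0) (nat_lit 2486268777) (nat_lit 76) (nat_lit 9408912662) (nat_lit 131) (nat_lit 1) (nat_lit 129) (nat_lit 1) (nat_lit 130) (nat_lit 1) (nat_lit 295) (nat_lit 396) (nat_lit 329)) (XT.lf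 (nat_lit 76) (nat_lit 233518716) (nat_lit 0) (nat_lit 3579465550) (nat_lit 228) (nat_lit 12762302172) (nat_lit 127) (nat_lit 1) (nat_lit 126) (nat_lit 1) (nat_lit 129) (nat_lit 1) (nat_lit 296) (nat_lit 396) (nat_lit 328))) (XT.nd (nat_lit 78) (nat_lit 228) (nat_lit 0) (XT.lf (nat_lit 152) (nat_lit 4406627436) (nat_lit 0) (nat_lit 5064908938) (nat_lit 76) (nat_lit 6826609534) (nat_lit 127) (nat_lit 1) (nat_lit 125) (nat_lit 1) (nat_lit 126) (nat_lit 1) (nat_lit 297) (nat_lit 396) (nat_lit 327)) (XT.lf (nat_lit 76) (nat_lit 2411545676) (nat_lit 0) (nat_lit 3904857249) (nat_lit 228) (nat_lit 9710563326) (nat_lit 123) (nat_lit 1) (nat_lit 122) (nat_lit 1) (nat_lit 125) (nat_lit 1) (nat_lit 298) (nat_lit 396) (nat_lit 326))))) (XT.nd (nat_lit 234) (nat_lit 456) (nat_lit 0) (XT.nd (nat_lit 78) (nat_lit 304) (nat_lit 0) (XT.lf (nat_lit 152) (nat_lit 3780892596) (nat_lit 0) (nat_lit 7520586353) (nat_lit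 76) (nat_lit 4458789304) (nat_lit 123) (nat_lit 1) (nat_lit 121) (nat_lit 1) (nat_lit 122) (nat_lit 1) (nat_lit 299) (nat_lit 396) (nat_lit 325)) (XT.nd (nat_lit 78) (nat_lit 76) (nat_lit 0) (XT.lf (nat_lit 76) (nat_lit 4396395162) (nat_lit 0) (nat_lit 4300580717) (nat_lit 228) (nat_lit 6801532869) (nat_lit 119) (nat_lit 1) (nat_lit 118) (nat_lit 1) (nat_lit 121) (nat_lit 1) (nat_lit 300) (nat_lit 396) (nat_lit 324)) (XT.lf (nat_lit 152) (nat_lit 3101598758) (nat_lit 0) (nat_lit 9852459211) (nat_lit 76) (nat_lit 2287720895) (nat_lit 119) (nat_lit 1) (nat_lit 117) (nat_lit 1) (nat_lit 118) (nat_lit 1) (nat_lit 301) (nat_lit 396) (nat_lit 323)))) (XT.nd (nat_lit 156) (nat_lit 228) (nat_lit 0) (XT.nd (nat_lit 78) (nat_lit 76) (nat_lit 0) (XT.lf (nat_lit 76) (nat_lit 6204236303) (nat_lit 0) (nat_lit 4750112241) (nat_lit 152) (nat_lit 4034670583) (nat_lit 116) (nat_lit 1) (nat_lit 115) (nat_lit 1) (nat_lit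 117) (nat_lit 1) (nat_lit 302) (nat_lit 396) (nat_lit 322)) (XT.lf (nat_lit 152) (nat_lit 2383825374) (nat_lit 0) (nat_lit 12060620794) (nat_lit 76) (nat_lit 297366664) (nat_lit 116) (nat_lit 1) (nat_lit 114) (nat_lit 1) (nat_lit 115) (nat_lit 1) (nat_lit 303) (nat_lit 396) (nat_lit 321))) (XT.nd (nat_lit 78) (nat_lit 76) (nat_lit 0) (XT.lf (nat_lit 76) (nat_lit 7849695271) (nat_lit 0) (nat_lit 5239324218) (nat_lit 152) (nat_lit 1408641320) (nat_lit 113) (nat_lit 1) (nat_lit 112) (nat_lit 1) (nat_lit 114) (nat_lit 1) (nat_lit 304) (nat_lit 396) (nat_lit 320)) (XT.lf (nat_lit 0) (nat_lit 1497006754) (nat_lit 0) (nat_lit 12633825509) (nat_lit 152) (nat_lit 128288279) (nat_lit 111) (nat_lit 3) (nat_lit 111) (nat_lit 1) (nat_lit 113) (nat_lit 1) (nat_lit 305) (nat_lit 396) (nat_lit 319)))))) (XT.nd (nat_lit 546) (nat_lit 912) (nat_lit 0) (XT.nd (nat_lit 234) (nat_lit 456) (nat_lit 0) (XT.nd (nat_lit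 78) (nat_lit 228) (nat_lit 0) (XT.lf (nat_lit 152) (nat_lit 8256579149) (nat_lit 0) (nat_lit 1100016041) (nat_lit 76) (nat_lit 4666737699) (nat_lit 110) (nat_lit 1) (nat_lit 108) (nat_lit 1) (nat_lit 109) (nat_lit 1) (nat_lit 306) (nat_lit 396) (nat_lit 318)) (XT.nd (nat_lit 78) (nat_lit 152) (nat_lit 0) (XT.lf (nat_lit 76) (nat_lit 827508247) (nat_lit 0) (nat_lit 2330446642) (nat_lit 76) (nat_lit 10634714953) (nat_lit 108) (nat_lit 3) (nat_lit 107) (nat_lit 1) (nat_lit 108) (nat_lit 1) (nat_lit 307) (nat_lit 396) (nat_lit 317)) (XT.lf (nat_lit 152) (nat_lit 7241156513) (nat_lit 0) (nat_lit 3497698387) (nat_lit 76) (nat_lit 2826387942) (nat_lit 107) (nat_lit 1) (nat_lit 105) (nat_lit 1) (nat_lit 106) (nat_lit 1) (nat_lit 308) (nat_lit 396) (nat_lit 316)))) (XT.nd (nat_lit 156) (nat_lit 228) (nat_lit 0) (XT.nd (nat_lit 78) (nat_lit 152) (nat_lit 0) (XT.lf (nat_lit 76) (nat_lit 25609374) (nat_lit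 0) (nat_lit 4654949822) (nat_lit 76) (nat_lit 8661944891) (nat_lit 105) (nat_lit 3) (nat_lit 104) (nat_lit 1) (nat_lit 105) (nat_lit 1) (nat_lit 309) (nat_lit 396) (nat_lit 315)) (XT.lf (nat_lit 152) (nat_lit 6234198701) (nat_lit 0) (nat_lit 5759413558) (nat_lit 76) (nat_lit 1129500236) (nat_lit 104) (nat_lit 1) (nat_lit 102) (nat_lit 1) (nat_lit 103) (nat_lit 1) (nat_lit 310) (nat_lit 396) (nat_lit 314))) (XT.nd (nat_lit 78) (nat_lit 76) (nat_lit 0) (XT.lf (nat_lit 76) (nat_lit 6081687839) (nat_lit 0) (nat_lit 756482858) (nat_lit 152) (nat_lit 6069593098) (nat_lit 101) (nat_lit 1) (nat_lit 100) (nat_lit 1) (nat_lit 102) (nat_lit 1) (nat_lit 311) (nat_lit 396) (nat_lit 313)) (XT.lf (nat_lit 0) (nat_lit 426065106) (nat_lit 0) (nat_lit 7458199458) (nat_lit 152) (nat_lit 4811899532) (nat_lit 99) (nat_lit 3) (nat_lit 99) (nat_lit 1) (nat_lit 101) (nat_lit 1) (nat_lit 312) (nat_lit 396) (nat_lit 312)))))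 (XT.nd (nat_lit 234) (nat_lit 532) (nat_lit 0) (XT.nd (nat_lit 78) (nat_lit 228) (nat_lit 0) (XT.lf (nat_lit 76) (nat_lit 7363828819) (nat_lit 0) (nat_lit 1527250918) (nat_lit 152) (nat_lit 3596951447) (nat_lit 98) (nat_lit 1) (nat_lit 97) (nat_lit 1) (nat_lit 99) (nat_lit 1) (nat_lit 313) (nat_lit 396) (nat_lit 311)) (XT.nd (nat_lit 78) (nat_lit 152) (nat_lit 0) (XT.lf (nat_lit 0) (nat_lit 1838852655) (nat_lit 0) (nat_lit 8031428532) (nat_lit 152) (nat_lit 2413335805) (nat_lit 96) (nat_lit 3) (nat_lit 96) (nat_lit 1) (nat_lit 98) (nat_lit 1) (nat_lit 314) (nat_lit 396) (nat_lit 310)) (XT.lf (nat_lit 76) (nat_lit 8535602734) (nat_lit 0) (nat_lit 2282116073) (nat_lit 152) (nat_lit 1264995683) (nat_lit 95) (nat_lit 1) (nat_lit 94) (nat_lit 1) (nat_lit 96) (nat_lit 1) (nat_lit 315) (nat_lit 396) (nat_lit 309)))) (XT.nd (nat_lit 156) (nat_lit 228) (nat_lit 0) (XT.nd (nat_lit 78) (nat_lit 228) (nat_lit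 0) (XT.lf (nat_lit 0) (nat_lit 3139609120) (nat_lit 0) (nat_lit 8592860448) (nat_lit 152) (nat_lit 152742713) (nat_lit 93) (nat_lit 3) (nat_lit 93) (nat_lit 1) (nat_lit 95) (nat_lit 1) (nat_lit 316) (nat_lit 396) (nat_lit 308)) (XT.lf (nat_lit 152) (nat_lit 8664905939) (nat_lit 0) (nat_lit 949343582) (nat_lit 76) (nat_lit 2076723548) (nat_lit 92) (nat_lit 1) (nat_lit 90) (nat_lit 1) (nat_lit 91) (nat_lit 1) (nat_lit 317) (nat_lit 396) (nat_lit 307))) (XT.nd (nat_lit 78) (nat_lit 152) (nat_lit 0) (XT.lf (nat_lit 76) (nat_lit 2341950494) (nat_lit 0) (nat_lit 2013720953) (nat_lit 76) (nat_lit 7144144385) (nat_lit 90) (nat_lit 3) (nat_lit 89) (nat_lit 1) (nat_lit 90) (nat_lit 1) (nat_lit 318) (nat_lit 396) (nat_lit 306)) (XT.lf (nat_lit 152) (nat_lit 7554442057) (nat_lit 0) (nat_lit 3054751289) (nat_lit 76) (nat_lit 703016829) (nat_lit 89) (nat_lit 1) (nat_lit 87) (nat_lit 1) (nat_lit 88) (nat_lit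 1) (nat_lit 319) (nat_lit 396) (nat_lit 305))))))))
noncomputable def ec122 : XT := (XT.nd (nat_lit 2184) (nat_lit 2280) (nat_lit 0) (XT.nd (nat_lit 1092) (nat_lit 1748) (nat_lit 0) (XT.nd (nat_lit 546) (nat_lit 836) (nat_lit 0) (XT.nd (nat_lit 234) (nat_lit 532) (nat_lit 0) (XT.nd (nat_lit 78) (nat_lit 228) (nat_lit 0) (XT.lf (nat_lit 76) (nat_lit 1423368217) (nat_lit 0) (nat_lit 4051874775) (nat_lit 76) (nat_lit 5652233674) (nat_lit 87) (nat_lit 3) (nat_lit 86) (nat_lit 1) (nat_lit 87) (nat_lit 1) (nat_lit 320) (nat_lit 396) (nat_lit 304)) (XT.nd (nat_lit 78) (nat_lit 76) (nat_lit 0) (XT.lf (nat_lit 0) (nat_lit 557522663) (nat_lit 0) (nat_lit 4467708014) (nat_lit 152) (nat_lit 5920892145) (nat_lit 84) (nat_lit 3) (nat_lit 84) (nat_lit 1) (nat_lit 86) (nat_lit 1) (nat_lit 321) (nat_lit 396) (nat_lit 303)) (XT.lf (nat_lit 76) (nat_lit 540146501) (nat_lit 0) (nat_lit 5963461219) (nat_lit 76) (nat_lit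 4264132550) (nat_lit 84) (nat_lit 3) (nat_lit 83) (nat_lit 1) (nat_lit 84) (nat_lit 1) (nat_lit 322) (nat_lit 396) (nat_lit 302)))) (XT.nd (nat_lit 156) (nat_lit 228) (nat_lit 0) (XT.nd (nat_lit 78) (nat_lit 152) (nat_lit 0) (XT.lf (nat_lit 0) (nat_lit 1710939419) (nat_lit 0) (nat_lit 5154292215) (nat_lit 152) (nat_lit 3726982419) (nat_lit 81) (nat_lit 3) (nat_lit 81) (nat_lit 1) (nat_lit 83) (nat_lit 1) (nat_lit 323) (nat_lit 396) (nat_lit 301)) (XT.lf (nat_lit 76) (nat_lit 7449958156) (nat_lit 0) (nat_lit 300289592) (nat_lit 152) (nat_lit 2669795742) (nat_lit 80) (nat_lit 1) (nat_lit 79) (nat_lit 1) (nat_lit 81) (nat_lit 1) (nat_lit 324) (nat_lit 396) (nat_lit 300))) (XT.nd (nat_lit 78) (nat_lit 152) (nat_lit 0) (XT.lf (nat_lit 0) (nat_lit 2777115990) (nat_lit 0) (nat_lit 5809370835) (nat_lit 152) (nat_lit 1663735846) (nat_lit 78) (nat_lit 3) (nat_lit 78) (nat_lit 1) (nat_lit 80) (nat_lit 1)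 (nat_lit 325) (nat_lit 396) (nat_lit 299)) (XT.lf (nat_lit 76) (nat_lit 8321945373) (nat_lit 0) (nat_lit 1093135281) (nat_lit 152) (nat_lit 668797135) (nat_lit 77) (nat_lit 1) (nat_lit 76) (nat_lit 1) (nat_lit 78) (nat_lit 1) (nat_lit 326) (nat_lit 396) (nat_lit 298))))) (XT.nd (nat_lit 234) (nat_lit 456) (nat_lit 0) (XT.nd (nat_lit 78) (nat_lit 228) (nat_lit 0) (XT.lf (nat_lit 76) (nat_lit 3484949028) (nat_lit 0) (nat_lit 279490713) (nat_lit 76) (nat_lit 6155186436) (nat_lit 75) (nat_lit 3) (nat_lit 74) (nat_lit 1) (nat_lit 75) (nat_lit 1) (nat_lit 327) (nat_lit 396) (nat_lit 297)) (XT.nd (nat_lit 78) (nat_lit 76) (nat_lit 0) (XT.lf (nat_lit 152) (nat_lit 7898394524) (nat_lit 0) (nat_lit 1233159737) (nat_lit 76) (nat_lit 627058481) (nat_lit 74) (nat_lit 1) (nat_lit 72) (nat_lit 1) (nat_lit 73) (nat_lit 1) (nat_lit 328) (nat_lit 396) (nat_lit 296)) (XT.lf (nat_lit 76) (nat_lit 2557553892) (nat_lit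 0) (nat_lit 2133081244) (nat_lit 76) (nat_lit 4908994712) (nat_lit 72) (nat_lit 3) (nat_lit 71) (nat_lit 1) (nat_lit 72) (nat_lit 1) (nat_lit 329) (nat_lit 396) (nat_lit 295)))) (XT.nd (nat_lit 156) (nat_lit 228) (nat_lit 0) (XT.nd (nat_lit 78) (nat_lit 76) (nat_lit 0) (XT.lf (nat_lit 0) (nat_lit 424775361) (nat_lit 0) (nat_lit 2599015601) (nat_lit 152) (nat_lit 6420115197) (nat_lit 69) (nat_lit 3) (nat_lit 69) (nat_lit 1) (nat_lit 71) (nat_lit 1) (nat_lit 330) (nat_lit 396) (nat_lit 294)) (XT.lf (nat_lit 76) (nat_lit 1675276782) (nat_lit 0) (nat_lit 3869060740) (nat_lit 76) (nat_lit 3745981772) (nat_lit 69) (nat_lit 3) (nat_lit 68) (nat_lit 1) (nat_lit 69) (nat_lit 1) (nat_lit 331) (nat_lit 396) (nat_lit 293))) (XT.nd (nat_lit 78) (nat_lit 76) (nat_lit 0) (XT.lf (nat_lit 0) (nat_lit 1389536724) (nat_lit 0) (nat_lit 3304196909) (nat_lit 152) (nat_lit 4445793293) (nat_lit 66) (nat_lit 3) (nat_lit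 66) (nat_lit 1) (nat_lit 68) (nat_lit 1) (nat_lit 332) (nat_lit 396) (nat_lit 292)) (XT.lf (nat_lit 76) (nat_lit 837679163) (nat_lit 0) (nat_lit 5492464502) (nat_lit 76) (nat_lit 2661165054) (nat_lit 66) (nat_lit 3) (nat_lit 65) (nat_lit 1) (nat_lit 66) (nat_lit 1) (nat_lit 333) (nat_lit 396) (nat_lit 291)))))) (XT.nd (nat_lit 546) (nat_lit 836) (nat_lit 0) (XT.nd (nat_lit 234) (nat_lit 532) (nat_lit 0) (XT.nd (nat_lit 78) (nat_lit 228) (nat_lit 0) (XT.lf (nat_lit 0) (nat_lit 2284039750) (nat_lit 0) (nat_lit 3970110847) (nat_lit 152) (nat_lit 2591127267) (nat_lit 63) (nat_lit 3) (nat_lit 63) (nat_lit 1) (nat_lit 65) (nat_lit 1) (nat_lit 334) (nat_lit 396) (nat_lit 290)) (XT.nd (nat_lit 78) (nat_lit 152) (nat_lit 0) (XT.lf (nat_lit 76) (nat_lit 44116136) (nat_lit 0) (nat_lit 7008214859) (nat_lit 76) (nat_lit 1649898132) (nat_lit 63) (nat_lit 3) (nat_lit 62) (nat_lit 1) (nat_lit 63) (nat_lit 1) (nat_lit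 335) (nat_lit 396) (nat_lit 289)) (XT.lf (nat_lit 0) (nat_lit 3112552973) (nat_lit 0) (nat_lit 4597325971) (nat_lit 152) (nat_lit 850918308) (nat_lit 60) (nat_lit 3) (nat_lit 60) (nat_lit 1) (nat_lit 62) (nat_lit 1) (nat_lit 336) (nat_lit 396) (nat_lit 288)))) (XT.nd (nat_lit 156) (nat_lit 228) (nat_lit 0) (XT.nd (nat_lit 78) (nat_lit 152) (nat_lit 0) (XT.lf (nat_lit 76) (nat_lit 7721673531) (nat_lit 0) (nat_lit 692446034) (nat_lit 152) (nat_lit 8404070) (nat_lit 59) (nat_lit 1) (nat_lit 58) (nat_lit 1) (nat_lit 60) (nat_lit 1) (nat_lit 337) (nat_lit 396) (nat_lit 287)) (XT.lf (nat_lit 76) (nat_lit 3091294292) (nat_lit 0) (nat_lit 795413072) (nat_lit 76) (nat_lit 4398801940) (nat_lit 57) (nat_lit 3) (nat_lit 56) (nat_lit 1) (nat_lit 57) (nat_lit 1) (nat_lit 338) (nat_lit 396) (nat_lit 286))) (XT.nd (nat_lit 78) (nat_lit 76) (nat_lit 0) (XT.lf (nat_lit 0) (nat_lit 195031143) (nat_lit 0) (nat_lit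 1404007239) (nat_lit 152) (nat_lit 6552499544) (nat_lit 54) (nat_lit 3) (nat_lit 54) (nat_lit 1) (nat_lit 56) (nat_lit 1) (nat_lit 339) (nat_lit 396) (nat_lit 285)) (XT.lf (nat_lit 76) (nat_lit 2257786504) (nat_lit 0) (nat_lit 2352113060) (nat_lit 76) (nat_lit 3409192309) (nat_lit 54) (nat_lit 3) (nat_lit 53) (nat_lit 1) (nat_lit 54) (nat_lit 1) (nat_lit 340) (nat_lit 396) (nat_lit 284))))) (XT.nd (nat_lit 234) (nat_lit 456) (nat_lit 0) (XT.nd (nat_lit 78) (nat_lit 228) (nat_lit 0) (XT.lf (nat_lit 0) (nat_lit 1015746628) (nat_lit 0) (nat_lit 2080384451) (nat_lit 152) (nat_lit 4793191531) (nat_lit 51) (nat_lit 3) (nat_lit 51) (nat_lit 1) (nat_lit 53) (nat_lit 1) (nat_lit 341) (nat_lit 396) (nat_lit 283)) (XT.nd (nat_lit 78) (nat_lit 152) (nat_lit 0) (XT.lf (nat_lit 76) (nat_lit 1470215386) (nat_lit 0) (nat_lit 3807103876) (nat_lit 76) (nat_lit 2484156170) (nat_lit 51) (nat_lit 3) (nat_lit 50) (nat_lit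 1) (nat_lit 51) (nat_lit 1) (nat_lit 342) (nat_lit 396) (nat_lit 282)) (XT.lf (nat_lit 0) (nat_lit 1778434999) (nat_lit 0) (nat_lit 2715966930) (nat_lit 152) (nat_lit 3141366390) (nat_lit 48) (nat_lit 3) (nat_lit 48) (nat_lit 1) (nat_lit 50) (nat_lit 1) (nat_lit 343) (nat_lit 396) (nat_lit 281)))) (XT.nd (nat_lit 156) (nat_lit 228) (nat_lit 0) (XT.nd (nat_lit 78) (nat_lit 152) (nat_lit 0) (XT.lf (nat_lit 76) (nat_lit 727188978) (nat_lit 0) (nat_lit 5165087561) (nat_lit 76) (nat_lit 1620076532) (nat_lit 48) (nat_lit 3) (nat_lit 47) (nat_lit 1) (nat_lit 48) (nat_lit 1) (nat_lit 344) (nat_lit 396) (nat_lit 280)) (XT.lf (nat_lit 0) (nat_lit 2486425004) (nat_lit 0) (nat_lit 3312026071) (nat_lit 152) (nat_lit 1592122551) (nat_lit 45) (nat_lit 3) (nat_lit 45) (nat_lit 1) (nat_lit 47) (nat_lit 1) (nat_lit 345) (nat_lit 396) (nat_lit 279))) (XT.nd (nat_lit 78) (nat_lit 152) (nat_lit 0) (XT.lf (nat_lit 76)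 (nat_lit 27266774) (nat_lit 0) (nat_lit 6430609801) (nat_lit 76) (nat_lit 813553504) (nat_lit 45) (nat_lit 3) (nat_lit 44) (nat_lit 1) (nat_lit 45) (nat_lit 1) (nat_lit 346) (nat_lit 396) (nat_lit 278)) (XT.lf (nat_lit 0) (nat_lit 3142844694) (nat_lit 0) (nat_lit 3869878194) (nat_lit 152) (nat_lit 140726117) (nat_lit 42) (nat_lit 3) (nat_lit 42) (nat_lit 1) (nat_lit 44) (nat_lit 1) (nat_lit 347) (nat_lit 396) (nat_lit 277))))))) (XT.nd (nat_lit 1092) (nat_lit 456) (nat_lit 0) (XT.nd (nat_lit 546) (nat_lit 912) (nat_lit 0) (XT.nd (nat_lit 234) (nat_lit 456) (nat_lit 0) (XT.nd (nat_lit 78) (nat_lit 228) (nat_lit 0) (XT.lf (nat_lit 152) (nat_lit 6413839301) (nat_lit 0) (nat_lit 574786760) (nat_lit 76) (nat_lit 49449504) (nat_lit 41) (nat_lit 1) (nat_lit 39) (nat_lit 1) (nat_lit 40) (nat_lit 1) (nat_lit 348) (nat_lit 396) (nat_lit 276)) (XT.nd (nat_lit 78) (nat_lit 152) (nat_lit 0) (XT.lf (nat_lit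 76) (nat_lit 2520952968) (nat_lit 0) (nat_lit 1241618408) (nat_lit 76) (nat_lit 3161186771) (nat_lit 39) (nat_lit 3) (nat_lit 38) (nat_lit 1) (nat_lit 39) (nat_lit 1) (nat_lit 349) (nat_lit 396) (nat_lit 275)) (XT.lf (nat_lit 0) (nat_lit 657661028) (nat_lit 0) (nat_lit 1249647901) (nat_lit 152) (nat_lit 4904645986) (nat_lit 36) (nat_lit 3) (nat_lit 36) (nat_lit 1) (nat_lit 38) (nat_lit 1) (nat_lit 350) (nat_lit 396) (nat_lit 274)))) (XT.nd (nat_lit 156) (nat_lit 228) (nat_lit 0) (XT.nd (nat_lit 78) (nat_lit 152) (nat_lit 0) (XT.lf (nat_lit 76) (nat_lit 1800831553) (nat_lit 0) (nat_lit 2536116186) (nat_lit 76) (nat_lit 2364628574) (nat_lit 36) (nat_lit 3) (nat_lit 35) (nat_lit 1) (nat_lit 36) (nat_lit 1) (nat_lit 351) (nat_lit 396) (nat_lit 273)) (XT.lf (nat_lit 0) (nat_lit 1315012726) (nat_lit 0) (nat_lit 1836322963) (nat_lit 152) (nat_lit 3441917566) (nat_lit 33) (nat_lit 3) (nat_lit 33) (nat_lit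 1) (nat_lit 35) (nat_lit 1) (nat_lit 352) (nat_lit 396) (nat_lit 272))) (XT.nd (nat_lit 78) (nat_lit 152) (nat_lit 0) (XT.lf (nat_lit 76) (nat_lit 1122955457) (nat_lit 0) (nat_lit 3744289435) (nat_lit 76) (nat_lit 1619441397) (nat_lit 33) (nat_lit 3) (nat_lit 32) (nat_lit 1) (nat_lit 33) (nat_lit 1) (nat_lit 353) (nat_lit 396) (nat_lit 271)) (XT.lf (nat_lit 0) (nat_lit 1926251994) (nat_lit 0) (nat_lit 2385323598) (nat_lit 152) (nat_lit 2070154942) (nat_lit 30) (nat_lit 3) (nat_lit 30) (nat_lit 1) (nat_lit 32) (nat_lit 1) (nat_lit 354) (nat_lit 396) (nat_lit 270))))) (XT.nd (nat_lit 234) (nat_lit 532) (nat_lit 0) (XT.nd (nat_lit 78) (nat_lit 304) (nat_lit 0) (XT.lf (nat_lit 76) (nat_lit 485665376) (nat_lit 0) (nat_lit 4870297406) (nat_lit 76) (nat_lit 922876428) (nat_lit 30) (nat_lit 3) (nat_lit 29) (nat_lit 1) (nat_lit 30) (nat_lit 1) (nat_lit 355) (nat_lit 396) (nat_lit 269)) (XT.nd (nat_lit 78)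 (nat_lit 152) (nat_lit 0) (XT.lf (nat_lit 0) (nat_lit 2493911337) (nat_lit 0) (nat_lit 2898174908) (nat_lit 152) (nat_lit 785055728) (nat_lit 27) (nat_lit 3) (nat_lit 27) (nat_lit 1) (nat_lit 29) (nat_lit 1) (nat_lit 356) (nat_lit 396) (nat_lit 268)) (XT.lf (nat_lit 76) (nat_lit 5806543804) (nat_lit 0) (nat_lit 110479347) (nat_lit 152) (nat_lit 160739848) (nat_lit 26) (nat_lit 1) (nat_lit 25) (nat_lit 1) (nat_lit 27) (nat_lit 1) (nat_lit 357) (nat_lit 396) (nat_lit 267)))) (XT.nd (nat_lit 156) (nat_lit 228) (nat_lit 0) (XT.nd (nat_lit 78) (nat_lit 152) (nat_lit 0) (XT.lf (nat_lit 76) (nat_lit 2598652704) (nat_lit 0) (nat_lit 425824677) (nat_lit 76) (nat_lit 2954651709) (nat_lit 24) (nat_lit 3) (nat_lit 23) (nat_lit 1) (nat_lit 24) (nat_lit 1) (nat_lit 358) (nat_lit 396) (nat_lit 266)) (XT.lf (nat_lit 0) (nat_lit 344571322) (nat_lit 0) (nat_lit 673742848) (nat_lit 152) (nat_lit 4864419964) (nat_lit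 21) (nat_lit 3) (nat_lit 21) (nat_lit 1) (nat_lit 23) (nat_lit 1) (nat_lit 359) (nat_lit 396) (nat_lit 265))) (XT.nd (nat_lit 78) (nat_lit 152) (nat_lit 0) (XT.lf (nat_lit 76) (nat_lit 1950836743) (nat_lit 0) (nat_lit 1572209703) (nat_lit 76) (nat_lit 2264333434) (nat_lit 21) (nat_lit 3) (nat_lit 20) (nat_lit 1) (nat_lit 21) (nat_lit 1) (nat_lit 360) (nat_lit 396) (nat_lit 264)) (XT.lf (nat_lit 0) (nat_lit 915122118) (nat_lit 0) (nat_lit 1204994232) (nat_lit 152) (nat_lit 3573858407) (nat_lit 18) (nat_lit 3) (nat_lit 18) (nat_lit 1) (nat_lit 20) (nat_lit 1) (nat_lit 361) (nat_lit 396) (nat_lit 263)))))) (XT.nd (nat_lit 45708) (nat_lit 0) (nat_lit 12540) (XT.nd (nat_lit 234) (nat_lit 152) (nat_lit 0) (XT.nd (nat_lit 78) (nat_lit 228) (nat_lit 0) (XT.lf (nat_lit 76) (nat_lit 1341736257) (nat_lit 0) (nat_lit 2642364211) (nat_lit 76) (nat_lit 1617804938) (nat_lit 18) (nat_lit 3) (nat_lit 17) (nat_lit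 1) (nat_lit 18) (nat_lit 1) (nat_lit 362) (nat_lit 396) (nat_lit 262)) (XT.nd (nat_lit 78) (nat_lit 76) (nat_lit 0) (XT.lf (nat_lit 0) (nat_lit 1446347264) (nat_lit 0) (nat_lit 1701611878) (nat_lit 152) (nat_lit 2363435314) (nat_lit 15) (nat_lit 3) (nat_lit 15) (nat_lit 1) (nat_lit 17) (nat_lit 1) (nat_lit 363) (nat_lit 396) (nat_lit 261)) (XT.lf (nat_lit 76) (nat_lit 769682555) (nat_lit 0) (nat_lit 3640019545) (nat_lit 76) (nat_lit 1012791711) (nat_lit 15) (nat_lit 3) (nat_lit 14) (nat_lit 1) (nat_lit 15) (nat_lit 1) (nat_lit 364) (nat_lit 396) (nat_lit 260)))) (XT.nd (nat_lit 45318) (nat_lit 0) (nat_lit 14212) (XT.nd (nat_lit 45240) (nat_lit 0) (nat_lit 14744) (XT.lf (nat_lit 0) (nat_lit 1940344579) (nat_lit 0) (nat_lit 2165133443) (nat_lit 152) (nat_lit 1229306665) (nat_lit 12) (nat_lit 3) (nat_lit 12) (nat_lit 1) (nat_lit 14) (nat_lit 1) (nat_lit 365) (nat_lit 396) (nat_lit 259)) (XT.lf (nat_lit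 76) (nat_lit 7855624402) (nat_lit 0) (nat_lit 5581062105) (nat_lit 380) (nat_lit 15969399000) (nat_lit 207) (nat_lit 1) (nat_lit 206) (nat_lit 1) (nat_lit 211) (nat_lit 1) (nat_lit 264) (nat_lit 397) (nat_lit 359))) (XT.nd (nat_lit 78) (nat_lit 304) (nat_lit 0) (XT.lf (nat_lit 304) (nat_lit 11756546415) (nat_lit 0) (nat_lit 13986919381) (nat_lit 228) (nat_lit 3125984469) (nat_lit 207) (nat_lit 1) (nat_lit 203) (nat_lit 1) (nat_lit 206) (nat_lit 1) (nat_lit 265) (nat_lit 397) (nat_lit 358)) (XT.lf (nat_lit 76) (nat_lit 14432485171) (nat_lit 0) (nat_lit 176276486) (nat_lit 304) (nat_lit 13736665962) (nat_lit 200) (nat_lit 1) (nat_lit 199) (nat_lit 1) (nat_lit 203) (nat_lit 1) (nat_lit 266) (nat_lit 397) (nat_lit 357))))) (XT.nd (nat_lit 234) (nat_lit 912) (nat_lit 0) (XT.nd (nat_lit 78) (nat_lit 532) (nat_lit 0) (XT.lf (nat_lit 76) (nat_lit 3586713997) (nat_lit 0) (nat_lit 11673537475) (nat_lit 304)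 (nat_lit 12572343393) (nat_lit 197) (nat_lit 1) (nat_lit 196) (nat_lit 1) (nat_lit 200) (nat_lit 1) (nat_lit 267) (nat_lit 397) (nat_lit 356)) (XT.nd (nat_lit 78) (nat_lit 304) (nat_lit 0) (XT.lf (nat_lit 304) (nat_lit 4298050981) (nat_lit 0) (nat_lit 15979574576) (nat_lit 228) (nat_lit 7054241961) (nat_lit 197) (nat_lit 1) (nat_lit 193) (nat_lit 1) (nat_lit 196) (nat_lit 1) (nat_lit 268) (nat_lit 397) (nat_lit 355)) (XT.lf (nat_lit 76) (nat_lit 9487836625) (nat_lit 0) (nat_lit 7234825095) (nat_lit 304) (nat_lit 10119107341) (nat_lit 190) (nat_lit 1) (nat_lit 189) (nat_lit 1) (nat_lit 193) (nat_lit 1) (nat_lit 269) (nat_lit 397) (nat_lit 354)))) (XT.nd (nat_lit 156) (nat_lit 456) (nat_lit 0) (XT.nd (nat_lit 78) (nat_lit 228) (nat_lit 0) (XT.lf (nat_lit 304) (nat_lit 7884735133) (nat_lit 0) (nat_lit 17541376461) (nat_lit 228) (nat_lit 937509219) (nat_lit 190) (nat_lit 1) (nat_lit 186) (nat_lit 1)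 (nat_lit 189) (nat_lit 1) (nat_lit 270) (nat_lit 397) (nat_lit 353)) (XT.lf (nat_lit 76) (nat_lit 14718172527) (nat_lit 0) (nat_lit 3632826625) (nat_lit 228) (nat_lit 7543770390) (nat_lit 184) (nat_lit 1) (nat_lit 183) (nat_lit 1) (nat_lit 186) (nat_lit 1) (nat_lit 271) (nat_lit 397) (nat_lit 352))) (XT.nd (nat_lit 78) (nat_lit 228) (nat_lit 0) (XT.lf (nat_lit 76) (nat_lit 4425446313) (nat_lit 0) (nat_lit 14775560505) (nat_lit 304) (nat_lit 6235467383) (nat_lit 181) (nat_lit 1) (nat_lit 180) (nat_lit 1) (nat_lit 184) (nat_lit 1) (nat_lit 272) (nat_lit 397) (nat_lit 351)) (XT.lf (nat_lit 76) (nat_lit 19348594291) (nat_lit 0) (nat_lit 750483269) (nat_lit 228) (nat_lit 4889702203) (nat_lit 178) (nat_lit 1) (nat_lit 177) (nat_lit 1) (nat_lit 180) (nat_lit 1) (nat_lit 273) (nat_lit 397) (nat_lit 350))))))))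
noncomputable def ec123 : XT := (XT.nd (nat_lit 2184) (nat_lit 3496) (nat_lit 0) (XT.nd (nat_lit 1092) (nat_lit 2128) (nat_lit 0) (XT.nd (nat_lit 546) (nat_lit 1140) (nat_lit 0) (XT.nd (nat_lit 234) (nat_lit 912) (nat_lit 0) (XT.nd (nat_lit 78) (nat_lit 380) (nat_lit 0) (XT.lf (nat_lit 76) (nat_lit 9185406014) (nat_lit 0) (nat_lit 11771546976) (nat_lit 304) (nat_lit 3591987345) (nat_lit 175) (nat_lit 1) (nat_lit 174) (nat_lit 1) (nat_lit 178) (nat_lit 1) (nat_lit 274) (nat_lit 397) (nat_lit 349)) (XT.nd (nat_lit 78) (nat_lit 228) (nat_lit 0) (XT.lf (nat_lit 228) (nat_lit 1544618892) (nat_lit 0) (nat_lit 21912320846) (nat_lit 152) (nat_lit 663854585) (nat_lit 175) (nat_lit 1) (nat_lit 172) (nat_lit 1) (nat_lit 174) (nat_lit 1) (nat_lit 275) (nat_lit 397) (nat_lit 348)) (XT.lf (nat_lit 76) (nat_lit 13421148064) (nat_lit 0) (nat_lit 9360391899) (nat_lit 228) (nat_lit 917284348) (nat_lit 170) (nat_lit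 1) (nat_lit 169) (nat_lit 1) (nat_lit 172) (nat_lit 1) (nat_lit 276) (nat_lit 397) (nat_lit 347)))) (XT.nd (nat_lit 156) (nat_lit 380) (nat_lit 0) (XT.nd (nat_lit 78) (nat_lit 228) (nat_lit 0) (XT.lf (nat_lit 228) (nat_lit 3273956195) (nat_lit 0) (nat_lit 454000489) (nat_lit 152) (nat_lit 19559679133) (nat_lit 168) (nat_lit 1) (nat_lit 165) (nat_lit 1) (nat_lit 167) (nat_lit 1) (nat_lit 277) (nat_lit 397) (nat_lit 346)) (XT.lf (nat_lit 228) (nat_lit 15409092444) (nat_lit 0) (nat_lit 1794658898) (nat_lit 152) (nat_lit 5679610635) (nat_lit 165) (nat_lit 1) (nat_lit 162) (nat_lit 1) (nat_lit 164) (nat_lit 1) (nat_lit 278) (nat_lit 397) (nat_lit 345))) (XT.nd (nat_lit 78) (nat_lit 228) (nat_lit 0) (XT.lf (nat_lit 228) (nat_lit 4520024326) (nat_lit 0) (nat_lit 3147897293) (nat_lit 152) (nat_lit 14819977157) (nat_lit 163) (nat_lit 1) (nat_lit 160) (nat_lit 1) (nat_lit 162) (nat_lit 1) (nat_lit 279) (nat_lit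 397) (nat_lit 344)) (XT.lf (nat_lit 228) (nat_lit 16070271726) (nat_lit 0) (nat_lit 4502408194) (nat_lit 152) (nat_lit 1528076107) (nat_lit 160) (nat_lit 1) (nat_lit 157) (nat_lit 1) (nat_lit 159) (nat_lit 1) (nat_lit 280) (nat_lit 397) (nat_lit 343))))) (XT.nd (nat_lit 234) (nat_lit 608) (nat_lit 0) (XT.nd (nat_lit 78) (nat_lit 380) (nat_lit 0) (XT.lf (nat_lit 228) (nat_lit 5380625623) (nat_lit 0) (nat_lit 5812670132) (nat_lit 152) (nat_lit 10527154328) (nat_lit 158) (nat_lit 1) (nat_lit 155) (nat_lit 1) (nat_lit 157) (nat_lit 1) (nat_lit 281) (nat_lit 397) (nat_lit 342)) (XT.nd (nat_lit 78) (nat_lit 152) (nat_lit 0) (XT.lf (nat_lit 76) (nat_lit 2168899435) (nat_lit 0) (nat_lit 4976417240) (nat_lit 228) (nat_lit 14203450279) (nat_lit 153) (nat_lit 1) (nat_lit 152) (nat_lit 1) (nat_lit 155) (nat_lit 1) (nat_lit 282) (nat_lit 397) (nat_lit 341)) (XT.lf (nat_lit 228) (nat_lit 5915806979) (nat_lit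 0) (nat_lit 8429219944) (nat_lit 152) (nat_lit 6638456207) (nat_lit 153) (nat_lit 1) (nat_lit 150) (nat_lit 1) (nat_lit 152) (nat_lit 1) (nat_lit 283) (nat_lit 397) (nat_lit 340)))) (XT.nd (nat_lit 156) (nat_lit 304) (nat_lit 0) (XT.nd (nat_lit 78) (nat_lit 152) (nat_lit 0) (XT.lf (nat_lit 76) (nat_lit 5471582253) (nat_lit 0) (nat_lit 4245427017) (nat_lit 152) (nat_lit 10908973299) (nat_lit 149) (nat_lit 1) (nat_lit 148) (nat_lit 1) (nat_lit 150) (nat_lit 1) (nat_lit 284) (nat_lit 397) (nat_lit 339)) (XT.lf (nat_lit 228) (nat_lit 6177768702) (nat_lit 0) (nat_lit 10981915835) (nat_lit 152) (nat_lit 3115654964) (nat_lit 149) (nat_lit 1) (nat_lit 146) (nat_lit 1) (nat_lit 148) (nat_lit 1) (nat_lit 285) (nat_lit 397) (nat_lit 338))) (XT.nd (nat_lit 78) (nat_lit 152) (nat_lit 0) (XT.lf (nat_lit 76) (nat_lit 8444567540) (nat_lit 0) (nat_lit 3774037787) (nat_lit 152) (nat_lit 7712649915) (nat_lit 145)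 (nat_lit 1) (nat_lit 144) (nat_lit 1) (nat_lit 146) (nat_lit 1) (nat_lit 286) (nat_lit 397) (nat_lit 337)) (XT.lf (nat_lit 76) (nat_lit 73991492) (nat_lit 0) (nat_lit 13383387745) (nat_lit 228) (nat_lit 6137092540) (nat_lit 143) (nat_lit 1) (nat_lit 142) (nat_lit 1) (nat_lit 145) (nat_lit 1) (nat_lit 287) (nat_lit 397) (nat_lit 336)))))) (XT.nd (nat_lit 546) (nat_lit 912) (nat_lit 0) (XT.nd (nat_lit 234) (nat_lit 760) (nat_lit 0) (XT.nd (nat_lit 78) (nat_lit 304) (nat_lit 0) (XT.lf (nat_lit 76) (nat_lit 11118983803) (nat_lit 0) (nat_lit 3519884818) (nat_lit 152) (nat_lit 4624253387) (nat_lit 141) (nat_lit 1) (nat_lit 140) (nat_lit 1) (nat_lit 142) (nat_lit 1) (nat_lit 288) (nat_lit 397) (nat_lit 335)) (XT.nd (nat_lit 78) (nat_lit 152) (nat_lit 0) (XT.lf (nat_lit 76) (nat_lit 2907687031) (nat_lit 0) (nat_lit 12910760415) (nat_lit 228) (nat_lit 3120236042) (nat_lit 139) (nat_lit 1) (nat_lit 138)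 (nat_lit 1) (nat_lit 141) (nat_lit 1) (nat_lit 289) (nat_lit 397) (nat_lit 334)) (XT.lf (nat_lit 76) (nat_lit 13522722644) (nat_lit 0) (nat_lit 3446232135) (nat_lit 152) (nat_lit 1651277642) (nat_lit 137) (nat_lit 1) (nat_lit 136) (nat_lit 1) (nat_lit 138) (nat_lit 1) (nat_lit 290) (nat_lit 397) (nat_lit 333)))) (XT.nd (nat_lit 156) (nat_lit 304) (nat_lit 0) (XT.nd (nat_lit 78) (nat_lit 304) (nat_lit 0) (XT.lf (nat_lit 76) (nat_lit 5473188047) (nat_lit 0) (nat_lit 12614695965) (nat_lit 228) (nat_lit 219681609) (nat_lit 135) (nat_lit 1) (nat_lit 134) (nat_lit 1) (nat_lit 137) (nat_lit 1) (nat_lit 291) (nat_lit 397) (nat_lit 332)) (XT.lf (nat_lit 228) (nat_lit 14467937245) (nat_lit 0) (nat_lit 1224636914) (nat_lit 152) (nat_lit 2308409878) (nat_lit 133) (nat_lit 1) (nat_lit 130) (nat_lit 1) (nat_lit 132) (nat_lit 1) (nat_lit 292) (nat_lit 397) (nat_lit 331))) (XT.nd (nat_lit 78) (nat_lit 228) (nat_lit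 0) (XT.lf (nat_lit 152) (nat_lit 5209214389) (nat_lit 0) (nat_lit 2610582216) (nat_lit 76) (nat_lit 9879358295) (nat_lit 131) (nat_lit 1) (nat_lit 129) (nat_lit 1) (nat_lit 130) (nat_lit 1) (nat_lit 293) (nat_lit 397) (nat_lit 330)) (XT.lf (nat_lit 76) (nat_lit 245194652) (nat_lit 0) (nat_lit 3758438828) (nat_lit 228) (nat_lit 13400417280) (nat_lit 127) (nat_lit 1) (nat_lit 126) (nat_lit 1) (nat_lit 129) (nat_lit 1) (nat_lit 294) (nat_lit 397) (nat_lit 329))))) (XT.nd (nat_lit 234) (nat_lit 532) (nat_lit 0) (XT.nd (nat_lit 78) (nat_lit 304) (nat_lit 0) (XT.lf (nat_lit 152) (nat_lit 4626958808) (nat_lit 0) (nat_lit 5318154385) (nat_lit 76) (nat_lit 7167940011) (nat_lit 127) (nat_lit 1) (nat_lit 125) (nat_lit 1) (nat_lit 126) (nat_lit 1) (nat_lit 295) (nat_lit 397) (nat_lit 328)) (XT.nd (nat_lit 78) (nat_lit 76) (nat_lit 0) (XT.lf (nat_lit 76) (nat_lit 2532122959) (nat_lit 0) (nat_lit 4100100112)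 (nat_lit 228) (nat_lit 10196091492) (nat_lit 123) (nat_lit 1) (nat_lit 122) (nat_lit 1) (nat_lit 125) (nat_lit 1) (nat_lit 296) (nat_lit 397) (nat_lit 327)) (XT.lf (nat_lit 152) (nat_lit 3969937225) (nat_lit 0) (nat_lit 7896615671) (nat_lit 76) (nat_lit 4681728769) (nat_lit 123) (nat_lit 1) (nat_lit 121) (nat_lit 1) (nat_lit 122) (nat_lit 1) (nat_lit 297) (nat_lit 397) (nat_lit 326)))) (XT.nd (nat_lit 156) (nat_lit 228) (nat_lit 0) (XT.nd (nat_lit 78) (nat_lit 76) (nat_lit 0) (XT.lf (nat_lit 76) (nat_lit 4616214920) (nat_lit 0) (nat_lit 4515609753) (nat_lit 228) (nat_lit 7141609512) (nat_lit 119) (nat_lit 1) (nat_lit 118) (nat_lit 1) (nat_lit 121) (nat_lit 1) (nat_lit 298) (nat_lit 397) (nat_lit 325)) (XT.lf (nat_lit 152) (nat_lit 3256678696) (nat_lit 0) (nat_lit 10345082171) (nat_lit 76) (nat_lit 2402106940) (nat_lit 119) (nat_lit 1) (nat_lit 117) (nat_lit 1) (nat_lit 118) (nat_lit 1) (nat_lit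 299) (nat_lit 397) (nat_lit 324))) (XT.nd (nat_lit 78) (nat_lit 76) (nat_lit 0) (XT.lf (nat_lit 76) (nat_lit 6514448118) (nat_lit 0) (nat_lit 4987617853) (nat_lit 152) (nat_lit 4236404112) (nat_lit 116) (nat_lit 1) (nat_lit 115) (nat_lit 1) (nat_lit 117) (nat_lit 1) (nat_lit 300) (nat_lit 397) (nat_lit 323)) (XT.lf (nat_lit 152) (nat_lit 2503016643) (nat_lit 0) (nat_lit 12663651834) (nat_lit 76) (nat_lit 312234997) (nat_lit 116) (nat_lit 1) (nat_lit 114) (nat_lit 1) (nat_lit 115) (nat_lit 1) (nat_lit 301) (nat_lit 397) (nat_lit 322))))))) (XT.nd (nat_lit 1092) (nat_lit 1672) (nat_lit 0) (XT.nd (nat_lit 546) (nat_lit 912) (nat_lit 0) (XT.nd (nat_lit 234) (nat_lit 456) (nat_lit 0) (XT.nd (nat_lit 78) (nat_lit 304) (nat_lit 0) (XT.lf (nat_lit 76) (nat_lit 8242180034) (nat_lit 0) (nat_lit 5501290429) (nat_lit 152) (nat_lit 1479073386) (nat_lit 113) (nat_lit 1) (nat_lit 112) (nat_lit 1) (nat_lit 114)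 (nat_lit 1) (nat_lit 302) (nat_lit 397) (nat_lit 321)) (XT.nd (nat_lit 78) (nat_lit 228) (nat_lit 0) (XT.lf (nat_lit 0) (nat_lit 1571857091) (nat_lit 0) (nat_lit 13265516784) (nat_lit 152) (nat_lit 134702693) (nat_lit 111) (nat_lit 3) (nat_lit 111) (nat_lit 1) (nat_lit 113) (nat_lit 1) (nat_lit 303) (nat_lit 397) (nat_lit 320)) (XT.lf (nat_lit 152) (nat_lit 8669408106) (nat_lit 0) (nat_lit 1155016843) (nat_lit 76) (nat_lit 4900074584) (nat_lit 110) (nat_lit 1) (nat_lit 108) (nat_lit 1) (nat_lit 109) (nat_lit 1) (nat_lit 304) (nat_lit 397) (nat_lit 319)))) (XT.nd (nat_lit 156) (nat_lit 228) (nat_lit 0) (XT.nd (nat_lit 78) (nat_lit 152) (nat_lit 0) (XT.lf (nat_lit 76) (nat_lit 868883660) (nat_lit 0) (nat_lit 2446968974) (nat_lit 76) (nat_lit 11166450701) (nat_lit 108) (nat_lit 3) (nat_lit 107) (nat_lit 1) (nat_lit 108) (nat_lit 1) (nat_lit 305) (nat_lit 397) (nat_lit 318)) (XT.lf (nat_lit 152) (nat_lit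 7603214339) (nat_lit 0) (nat_lit 3672583306) (nat_lit 76) (nat_lit 2967707339) (nat_lit 107) (nat_lit 1) (nat_lit 105) (nat_lit 1) (nat_lit 106) (nat_lit 1) (nat_lit 306) (nat_lit 397) (nat_lit 317))) (XT.nd (nat_lit 78) (nat_lit 152) (nat_lit 0) (XT.lf (nat_lit 76) (nat_lit 26889842) (nat_lit 0) (nat_lit 4887697313) (nat_lit 76) (nat_lit 9095042136) (nat_lit 105) (nat_lit 3) (nat_lit 104) (nat_lit 1) (nat_lit 105) (nat_lit 1) (nat_lit 307) (nat_lit 397) (nat_lit 316)) (XT.lf (nat_lit 152) (nat_lit 6545908636) (nat_lit 0) (nat_lit 6047384236) (nat_lit 76) (nat_lit 1185975248) (nat_lit 104) (nat_lit 1) (nat_lit 102) (nat_lit 1) (nat_lit 103) (nat_lit 1) (nat_lit 308) (nat_lit 397) (nat_lit 315))))) (XT.nd (nat_lit 234) (nat_lit 532) (nat_lit 0) (XT.nd (nat_lit 78) (nat_lit 228) (nat_lit 0) (XT.lf (nat_lit 76) (nat_lit 6385772231) (nat_lit 0) (nat_lit 794307001) (nat_lit 152) (nat_lit 6373072752)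 (nat_lit 101) (nat_lit 1) (nat_lit 100) (nat_lit 1) (nat_lit 102) (nat_lit 1) (nat_lit 309) (nat_lit 397) (nat_lit 314)) (XT.nd (nat_lit 78) (nat_lit 152) (nat_lit 0) (XT.lf (nat_lit 0) (nat_lit 447368361) (nat_lit 0) (nat_lit 7831109430) (nat_lit 152) (nat_lit 5052494509) (nat_lit 99) (nat_lit 3) (nat_lit 99) (nat_lit 1) (nat_lit 101) (nat_lit 1) (nat_lit 310) (nat_lit 397) (nat_lit 313)) (XT.lf (nat_lit 76) (nat_lit 7732020260) (nat_lit 0) (nat_lit 1603613463) (nat_lit 152) (nat_lit 3776799020) (nat_lit 98) (nat_lit 1) (nat_lit 97) (nat_lit 1) (nat_lit 99) (nat_lit 1) (nat_lit 311) (nat_lit 397) (nat_lit 312)))) (XT.nd (nat_lit 156) (nat_lit 304) (nat_lit 0) (XT.nd (nat_lit 78) (nat_lit 152) (nat_lit 0) (XT.lf (nat_lit 0) (nat_lit 1930795287) (nat_lit 0) (nat_lit 8432999959) (nat_lit 152) (nat_lit 2534002595) (nat_lit 96) (nat_lit 3) (nat_lit 96) (nat_lit 1) (nat_lit 98) (nat_lit 1) (nat_lit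 312) (nat_lit 397) (nat_lit 311)) (XT.lf (nat_lit 76) (nat_lit 8962382871) (nat_lit 0) (nat_lit 2396221876) (nat_lit 152) (nat_lit 1328245467) (nat_lit 95) (nat_lit 1) (nat_lit 94) (nat_lit 1) (nat_lit 96) (nat_lit 1) (nat_lit 313) (nat_lit 397) (nat_lit 310))) (XT.nd (nat_lit 78) (nat_lit 228) (nat_lit 0) (XT.lf (nat_lit 0) (nat_lit 3296589576) (nat_lit 0) (nat_lit 9022503471) (nat_lit 152) (nat_lit 160379849) (nat_lit 93) (nat_lit 3) (nat_lit 93) (nat_lit 1) (nat_lit 95) (nat_lit 1) (nat_lit 314) (nat_lit 397) (nat_lit 309)) (XT.lf (nat_lit 152) (nat_lit 9098151236) (nat_lit 0) (nat_lit 996810761) (nat_lit 76) (nat_lit 2180559726) (nat_lit 92) (nat_lit 1) (nat_lit 90) (nat_lit 1) (nat_lit 91) (nat_lit 1) (nat_lit 315) (nat_lit 397) (nat_lit 308)))))) (XT.nd (nat_lit 546) (nat_lit 836) (nat_lit 0) (XT.nd (nat_lit 234) (nat_lit 532) (nat_lit 0) (XT.nd (nat_lit 78) (nat_lit 228) (nat_lit 0) (XT.lf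 (nat_lit 76) (nat_lit 2459048018) (nat_lit 0) (nat_lit 2114407001) (nat_lit 76) (nat_lit 7501351604) (nat_lit 90) (nat_lit 3) (nat_lit 89) (nat_lit 1) (nat_lit 90) (nat_lit 1) (nat_lit 316) (nat_lit 397) (nat_lit 307)) (XT.nd (nat_lit 78) (nat_lit 76) (nat_lit 0) (XT.lf (nat_lit 152) (nat_lit 7932164160) (nat_lit 0) (nat_lit 3207488854) (nat_lit 76) (nat_lit 738167670) (nat_lit 89) (nat_lit 1) (nat_lit 87) (nat_lit 1) (nat_lit 88) (nat_lit 1) (nat_lit 317) (nat_lit 397) (nat_lit 306)) (XT.lf (nat_lit 76) (nat_lit 1494536628) (nat_lit 0) (nat_lit 4254468514) (nat_lit 76) (nat_lit 5934845358) (nat_lit 87) (nat_lit 3) (nat_lit 86) (nat_lit 1) (nat_lit 87) (nat_lit 1) (nat_lit 318) (nat_lit 397) (nat_lit 305)))) (XT.nd (nat_lit 156) (nat_lit 304) (nat_lit 0) (XT.nd (nat_lit 78) (nat_lit 76) (nat_lit 0) (XT.lf (nat_lit 0) (nat_lit 585398796) (nat_lit 0) (nat_lit 4691093415) (nat_lit 152) (nat_lit 6216936752)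 (nat_lit 84) (nat_lit 3) (nat_lit 84) (nat_lit 1) (nat_lit 86) (nat_lit 1) (nat_lit 319) (nat_lit 397) (nat_lit 304)) (XT.lf (nat_lit 76) (nat_lit 567153826) (nat_lit 0) (nat_lit 6261634280) (nat_lit 76) (nat_lit 4477339177) (nat_lit 84) (nat_lit 3) (nat_lit 83) (nat_lit 1) (nat_lit 84) (nat_lit 1) (nat_lit 320) (nat_lit 397) (nat_lit 303))) (XT.nd (nat_lit 78) (nat_lit 152) (nat_lit 0) (XT.lf (nat_lit 0) (nat_lit 1796486390) (nat_lit 0) (nat_lit 5412006825) (nat_lit 152) (nat_lit 3913331540) (nat_lit 81) (nat_lit 3) (nat_lit 81) (nat_lit 1) (nat_lit 83) (nat_lit 1) (nat_lit 321) (nat_lit 397) (nat_lit 302)) (XT.lf (nat_lit 76) (nat_lit 7822456064) (nat_lit 0) (nat_lit 315304071) (nat_lit 152) (nat_lit 2803285529) (nat_lit 80) (nat_lit 1) (nat_lit 79) (nat_lit 1) (nat_lit 81) (nat_lit 1) (nat_lit 322) (nat_lit 397) (nat_lit 301))))) (XT.nd (nat_lit 234) (nat_lit 456) (nat_lit 0) (XT.nd (nat_lit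 78) (nat_lit 304) (nat_lit 0) (XT.lf (nat_lit 0) (nat_lit 2915971789) (nat_lit 0) (nat_lit 6099839377) (nat_lit 152) (nat_lit 1746922638) (nat_lit 78) (nat_lit 3) (nat_lit 78) (nat_lit 1) (nat_lit 80) (nat_lit 1) (nat_lit 323) (nat_lit 397) (nat_lit 300)) (XT.nd (nat_lit 78) (nat_lit 152) (nat_lit 0) (XT.lf (nat_lit 76) (nat_lit 8738042641) (nat_lit 0) (nat_lit 1147792045) (nat_lit 152) (nat_lit 702236992) (nat_lit 77) (nat_lit 1) (nat_lit 76) (nat_lit 1) (nat_lit 78) (nat_lit 1) (nat_lit 324) (nat_lit 397) (nat_lit 299)) (XT.lf (nat_lit 76) (nat_lit 3659196479) (nat_lit 0) (nat_lit 293465249) (nat_lit 76) (nat_lit 6462945758) (nat_lit 75) (nat_lit 3) (nat_lit 74) (nat_lit 1) (nat_lit 75) (nat_lit 1) (nat_lit 325) (nat_lit 397) (nat_lit 298)))) (XT.nd (nat_lit 156) (nat_lit 228) (nat_lit 0) (XT.nd (nat_lit 78) (nat_lit 76) (nat_lit 0) (XT.lf (nat_lit 152) (nat_lit 8293314250) (nat_lit 0) (nat_lit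 1294817724) (nat_lit 76) (nat_lit 658411405) (nat_lit 74) (nat_lit 1) (nat_lit 72) (nat_lit 1) (nat_lit 73) (nat_lit 1) (nat_lit 326) (nat_lit 397) (nat_lit 297)) (XT.lf (nat_lit 76) (nat_lit 2685431587) (nat_lit 0) (nat_lit 2239735306) (nat_lit 76) (nat_lit 5154444447) (nat_lit 72) (nat_lit 3) (nat_lit 71) (nat_lit 1) (nat_lit 72) (nat_lit 1) (nat_lit 327) (nat_lit 397) (nat_lit 296))) (XT.nd (nat_lit 78) (nat_lit 76) (nat_lit 0) (XT.lf (nat_lit 0) (nat_lit 446014129) (nat_lit 0) (nat_lit 2728966381) (nat_lit 152) (nat_lit 6741120957) (nat_lit 69) (nat_lit 3) (nat_lit 69) (nat_lit 1) (nat_lit 71) (nat_lit 1) (nat_lit 328) (nat_lit 397) (nat_lit 295)) (XT.lf (nat_lit 76) (nat_lit 1759040621) (nat_lit 0) (nat_lit 4062513777) (nat_lit 76) (nat_lit 3933280861) (nat_lit 69) (nat_lit 3) (nat_lit 68) (nat_lit 1) (nat_lit 69) (nat_lit 1) (nat_lit 329) (nat_lit 397) (nat_lit 294))))))))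
noncomputable def ec124 : XT := (XT.nd (nat_lit 2184) (nat_lit 228) (nat_lit 0) (XT.nd (nat_lit 1092) (nat_lit 1824) (nat_lit 0) (XT.nd (nat_lit 546) (nat_lit 836) (nat_lit 0) (XT.nd (nat_lit 234) (nat_lit 532) (nat_lit 0) (XT.nd (nat_lit 78) (nat_lit 228) (nat_lit 0) (XT.lf (nat_lit 0) (nat_lit 1459013560) (nat_lit 0) (nat_lit 3469406755) (nat_lit 152) (nat_lit 4668082958) (nat_lit 66) (nat_lit 3) (nat_lit 66) (nat_lit 1) (nat_lit 68) (nat_lit 1) (nat_lit 330) (nat_lit 397) (nat_lit 293)) (XT.nd (nat_lit 78) (nat_lit 152) (nat_lit 0) (XT.lf (nat_lit 76) (nat_lit 879563121) (nat_lit 0) (nat_lit 5767087727) (nat_lit 76) (nat_lit 2794223306) (nat_lit 66) (nat_lit 3) (nat_lit 65) (nat_lit 1) (nat_lit 66) (nat_lit 1) (nat_lit 331) (nat_lit 397) (nat_lit 292)) (XT.lf (nat_lit 0) (nat_lit 2398241738) (nat_lit 0) (nat_lit 4168616389) (nat_lit 152) (nat_lit 2720683631) (nat_lit 63) (nat_lit 3) (nat_lit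 63) (nat_lit 1) (nat_lit 65) (nat_lit 1) (nat_lit 332) (nat_lit 397) (nat_lit 291)))) (XT.nd (nat_lit 156) (nat_lit 304) (nat_lit 0) (XT.nd (nat_lit 78) (nat_lit 152) (nat_lit 0) (XT.lf (nat_lit 76) (nat_lit 46321943) (nat_lit 0) (nat_lit 7358625602) (nat_lit 76) (nat_lit 1732393039) (nat_lit 63) (nat_lit 3) (nat_lit 62) (nat_lit 1) (nat_lit 63) (nat_lit 1) (nat_lit 333) (nat_lit 397) (nat_lit 290)) (XT.lf (nat_lit 0) (nat_lit 3268180622) (nat_lit 0) (nat_lit 4827192269) (nat_lit 152) (nat_lit 893464223) (nat_lit 60) (nat_lit 3) (nat_lit 60) (nat_lit 1) (nat_lit 62) (nat_lit 1) (nat_lit 334) (nat_lit 397) (nat_lit 289))) (XT.nd (nat_lit 78) (nat_lit 152) (nat_lit 0) (XT.lf (nat_lit 76) (nat_lit 8107757208) (nat_lit 0) (nat_lit 727068336) (nat_lit 152) (nat_lit 8824274) (nat_lit 59) (nat_lit 1) (nat_lit 58) (nat_lit 1) (nat_lit 60) (nat_lit 1) (nat_lit 335) (nat_lit 397) (nat_lit 288)) (XT.lf (nat_lit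 76) (nat_lit 3245859007) (nat_lit 0) (nat_lit 835183725) (nat_lit 76) (nat_lit 4618742037) (nat_lit 57) (nat_lit 3) (nat_lit 56) (nat_lit 1) (nat_lit 57) (nat_lit 1) (nat_lit 336) (nat_lit 397) (nat_lit 287))))) (XT.nd (nat_lit 234) (nat_lit 456) (nat_lit 0) (XT.nd (nat_lit 78) (nat_lit 228) (nat_lit 0) (XT.lf (nat_lit 0) (nat_lit 204782700) (nat_lit 0) (nat_lit 1474207601) (nat_lit 152) (nat_lit 6880124521) (nat_lit 54) (nat_lit 3) (nat_lit 54) (nat_lit 1) (nat_lit 56) (nat_lit 1) (nat_lit 337) (nat_lit 397) (nat_lit 286)) (XT.nd (nat_lit 78) (nat_lit 152) (nat_lit 0) (XT.lf (nat_lit 76) (nat_lit 2370675829) (nat_lit 0) (nat_lit 2469718713) (nat_lit 76) (nat_lit 3579651925) (nat_lit 54) (nat_lit 3) (nat_lit 53) (nat_lit 1) (nat_lit 54) (nat_lit 1) (nat_lit 338) (nat_lit 397) (nat_lit 285)) (XT.lf (nat_lit 0) (nat_lit 1066533960) (nat_lit 0) (nat_lit 2184403674) (nat_lit 152) (nat_lit 5032851107)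 (nat_lit 51) (nat_lit 3) (nat_lit 51) (nat_lit 1) (nat_lit 53) (nat_lit 1) (nat_lit 339) (nat_lit 397) (nat_lit 284)))) (XT.nd (nat_lit 156) (nat_lit 228) (nat_lit 0) (XT.nd (nat_lit 78) (nat_lit 152) (nat_lit 0) (XT.lf (nat_lit 76) (nat_lit 1543726155) (nat_lit 0) (nat_lit 3997459069) (nat_lit 76) (nat_lit 2608363978) (nat_lit 51) (nat_lit 3) (nat_lit 50) (nat_lit 1) (nat_lit 51) (nat_lit 1) (nat_lit 340) (nat_lit 397) (nat_lit 283)) (XT.lf (nat_lit 0) (nat_lit 1867356748) (nat_lit 0) (nat_lit 2851765277) (nat_lit 152) (nat_lit 3298434709) (nat_lit 48) (nat_lit 3) (nat_lit 48) (nat_lit 1) (nat_lit 50) (nat_lit 1) (nat_lit 341) (nat_lit 397) (nat_lit 282))) (XT.nd (nat_lit 78) (nat_lit 152) (nat_lit 0) (XT.lf (nat_lit 76) (nat_lit 763548427) (nat_lit 0) (nat_lit 5423341939) (nat_lit 76) (nat_lit 1701080359) (nat_lit 48) (nat_lit 3) (nat_lit 47) (nat_lit 1) (nat_lit 48) (nat_lit 1) (nat_lit 342)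 (nat_lit 397) (nat_lit 281)) (XT.lf (nat_lit 0) (nat_lit 2610746254) (nat_lit 0) (nat_lit 3477627375) (nat_lit 152) (nat_lit 1671728679) (nat_lit 45) (nat_lit 3) (nat_lit 45) (nat_lit 1) (nat_lit 47) (nat_lit 1) (nat_lit 343) (nat_lit 397) (nat_lit 280)))))) (XT.nd (nat_lit 546) (nat_lit 912) (nat_lit 0) (XT.nd (nat_lit 234) (nat_lit 456) (nat_lit 0) (XT.nd (nat_lit 78) (nat_lit 380) (nat_lit 0) (XT.lf (nat_lit 76) (nat_lit 28630113) (nat_lit 0) (nat_lit 6752140292) (nat_lit 76) (nat_lit 854231180) (nat_lit 45) (nat_lit 3) (nat_lit 44) (nat_lit 1) (nat_lit 45) (nat_lit 1) (nat_lit 344) (nat_lit 397) (nat_lit 279)) (XT.nd (nat_lit 78) (nat_lit 228) (nat_lit 0) (XT.lf (nat_lit 0) (nat_lit 3299986929) (nat_lit 0) (nat_lit 4063372104) (nat_lit 152) (nat_lit 147762423) (nat_lit 42) (nat_lit 3) (nat_lit 42) (nat_lit 1) (nat_lit 44) (nat_lit 1) (nat_lit 345) (nat_lit 397) (nat_lit 278)) (XT.lf (nat_lit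 152) (nat_lit 6734531266) (nat_lit 0) (nat_lit 603526098) (nat_lit 76) (nat_lit 51921979) (nat_lit 41) (nat_lit 1) (nat_lit 39) (nat_lit 1) (nat_lit 40) (nat_lit 1) (nat_lit 346) (nat_lit 397) (nat_lit 277)))) (XT.nd (nat_lit 156) (nat_lit 228) (nat_lit 0) (XT.nd (nat_lit 78) (nat_lit 152) (nat_lit 0) (XT.lf (nat_lit 76) (nat_lit 2647000617) (nat_lit 0) (nat_lit 1303699328) (nat_lit 76) (nat_lit 3319246109) (nat_lit 39) (nat_lit 3) (nat_lit 38) (nat_lit 1) (nat_lit 39) (nat_lit 1) (nat_lit 347) (nat_lit 397) (nat_lit 276)) (XT.lf (nat_lit 0) (nat_lit 690544080) (nat_lit 0) (nat_lit 1312130296) (nat_lit 152) (nat_lit 5149878285) (nat_lit 36) (nat_lit 3) (nat_lit 36) (nat_lit 1) (nat_lit 38) (nat_lit 1) (nat_lit 348) (nat_lit 397) (nat_lit 275))) (XT.nd (nat_lit 78) (nat_lit 152) (nat_lit 0) (XT.lf (nat_lit 76) (nat_lit 1890873131) (nat_lit 0) (nat_lit 2662921995) (nat_lit 76) (nat_lit 2482860003)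 (nat_lit 36) (nat_lit 3) (nat_lit 35) (nat_lit 1) (nat_lit 36) (nat_lit 1) (nat_lit 349) (nat_lit 397) (nat_lit 274)) (XT.lf (nat_lit 0) (nat_lit 1380763362) (nat_lit 0) (nat_lit 1928139111) (nat_lit 152) (nat_lit 3614013444) (nat_lit 33) (nat_lit 3) (nat_lit 33) (nat_lit 1) (nat_lit 35) (nat_lit 1) (nat_lit 350) (nat_lit 397) (nat_lit 273))))) (XT.nd (nat_lit 234) (nat_lit 608) (nat_lit 0) (XT.nd (nat_lit 78) (nat_lit 228) (nat_lit 0) (XT.lf (nat_lit 76) (nat_lit 1179103230) (nat_lit 0) (nat_lit 3931503907) (nat_lit 76) (nat_lit 1700413467) (nat_lit 33) (nat_lit 3) (nat_lit 32) (nat_lit 1) (nat_lit 33) (nat_lit 1) (nat_lit 351) (nat_lit 397) (nat_lit 272)) (XT.nd (nat_lit 78) (nat_lit 76) (nat_lit 0) (XT.lf (nat_lit 0) (nat_lit 2022564594) (nat_lit 0) (nat_lit 2504589778) (nat_lit 152) (nat_lit 2173662689) (nat_lit 30) (nat_lit 3) (nat_lit 30) (nat_lit 1) (nat_lit 32) (nat_lit 1) (nat_lit 352)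 (nat_lit 397) (nat_lit 271)) (XT.lf (nat_lit 76) (nat_lit 509948645) (nat_lit 0) (nat_lit 5113812276) (nat_lit 76) (nat_lit 969020249) (nat_lit 30) (nat_lit 3) (nat_lit 29) (nat_lit 1) (nat_lit 30) (nat_lit 1) (nat_lit 353) (nat_lit 397) (nat_lit 270)))) (XT.nd (nat_lit 156) (nat_lit 304) (nat_lit 0) (XT.nd (nat_lit 78) (nat_lit 152) (nat_lit 0) (XT.lf (nat_lit 0) (nat_lit 2618606904) (nat_lit 0) (nat_lit 3043083653) (nat_lit 152) (nat_lit 824308515) (nat_lit 27) (nat_lit 3) (nat_lit 27) (nat_lit 1) (nat_lit 29) (nat_lit 1) (nat_lit 354) (nat_lit 397) (nat_lit 269)) (XT.lf (nat_lit 76) (nat_lit 6096870995) (nat_lit 0) (nat_lit 116003315) (nat_lit 152) (nat_lit 168776841) (nat_lit 26) (nat_lit 1) (nat_lit 25) (nat_lit 1) (nat_lit 27) (nat_lit 1) (nat_lit 355) (nat_lit 397) (nat_lit 268))) (XT.nd (nat_lit 78) (nat_lit 152) (nat_lit 0) (XT.lf (nat_lit 76) (nat_lit 2728585339) (nat_lit 0) (nat_lit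 447115911) (nat_lit 76) (nat_lit 3102384295) (nat_lit 24) (nat_lit 3) (nat_lit 23) (nat_lit 1) (nat_lit 24) (nat_lit 1) (nat_lit 356) (nat_lit 397) (nat_lit 267)) (XT.lf (nat_lit 0) (nat_lit 361799888) (nat_lit 0) (nat_lit 707429991) (nat_lit 152) (nat_lit 5107640962) (nat_lit 21) (nat_lit 3) (nat_lit 21) (nat_lit 1) (nat_lit 23) (nat_lit 1) (nat_lit 357) (nat_lit 397) (nat_lit 266))))))) (XT.nd (nat_lit 47112) (nat_lit 0) (nat_lit 7904) (XT.nd (nat_lit 46566) (nat_lit 0) (nat_lit 10184) (XT.nd (nat_lit 46254) (nat_lit 0) (nat_lit 11704) (XT.nd (nat_lit 78) (nat_lit 152) (nat_lit 0) (XT.lf (nat_lit 76) (nat_lit 2048378580) (nat_lit 0) (nat_lit 1650820188) (nat_lit 76) (nat_lit 2377550106) (nat_lit 21) (nat_lit 3) (nat_lit 20) (nat_lit 1) (nat_lit 21) (nat_lit 1) (nat_lit 358) (nat_lit 397) (nat_lit 265)) (XT.nd (nat_lit 46098) (nat_lit 0) (nat_lit 12540) (XT.lf (nat_lit 0) (nat_lit 960878224) (nat_lit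 0) (nat_lit 1265243944) (nat_lit 152) (nat_lit 3752551327) (nat_lit 18) (nat_lit 3) (nat_lit 18) (nat_lit 1) (nat_lit 20) (nat_lit 1) (nat_lit 359) (nat_lit 397) (nat_lit 264)) (XT.lf (nat_lit 76) (nat_lit 15454081154) (nat_lit 0) (nat_lit 3814467957) (nat_lit 228) (nat_lit 7920958910) (nat_lit 184) (nat_lit 1) (nat_lit 183) (nat_lit 1) (nat_lit 186) (nat_lit 1) (nat_lit 269) (nat_lit 398) (nat_lit 353)))) (XT.nd (nat_lit 156) (nat_lit 380) (nat_lit 0) (XT.nd (nat_lit 78) (nat_lit 228) (nat_lit 0) (XT.lf (nat_lit 76) (nat_lit 4646718629) (nat_lit 0) (nat_lit 15514338530) (nat_lit 304) (nat_lit 6547240753) (nat_lit 181) (nat_lit 1) (nat_lit 180) (nat_lit 1) (nat_lit 184) (nat_lit 1) (nat_lit 270) (nat_lit 398) (nat_lit 352)) (XT.lf (nat_lit 76) (nat_lit 20316024005) (nat_lit 0) (nat_lit 788007432) (nat_lit 228) (nat_lit 5134187313) (nat_lit 178) (nat_lit 1) (nat_lit 177) (nat_lit 1) (nat_lit 180)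 (nat_lit 1) (nat_lit 271) (nat_lit 398) (nat_lit 351))) (XT.nd (nat_lit 78) (nat_lit 152) (nat_lit 0) (XT.lf (nat_lit 76) (nat_lit 9644676315) (nat_lit 0) (nat_lit 12360124325) (nat_lit 304) (nat_lit 3771586712) (nat_lit 175) (nat_lit 1) (nat_lit 174) (nat_lit 1) (nat_lit 178) (nat_lit 1) (nat_lit 272) (nat_lit 398) (nat_lit 350)) (XT.lf (nat_lit 228) (nat_lit 1621849837) (nat_lit 0) (nat_lit 23007936888) (nat_lit 152) (nat_lit 697047314) (nat_lit 175) (nat_lit 1) (nat_lit 172) (nat_lit 1) (nat_lit 174) (nat_lit 1) (nat_lit 273) (nat_lit 398) (nat_lit 349))))) (XT.nd (nat_lit 234) (nat_lit 760) (nat_lit 0) (XT.nd (nat_lit 78) (nat_lit 532) (nat_lit 0) (XT.lf (nat_lit 76) (nat_lit 14092205467) (nat_lit 0) (nat_lit 9828411494) (nat_lit 228) (nat_lit 963148565) (nat_lit 170) (nat_lit 1) (nat_lit 169) (nat_lit 1) (nat_lit 172) (nat_lit 1) (nat_lit 274) (nat_lit 398) (nat_lit 348)) (XT.nd (nat_lit 78)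 (nat_lit 228) (nat_lit 0) (XT.lf (nat_lit 228) (nat_lit 3437654005) (nat_lit 0) (nat_lit 476700513) (nat_lit 152) (nat_lit 20537663089) (nat_lit 168) (nat_lit 1) (nat_lit 165) (nat_lit 1) (nat_lit 167) (nat_lit 1) (nat_lit 275) (nat_lit 398) (nat_lit 347)) (XT.lf (nat_lit 228) (nat_lit 16179547066) (nat_lit 0) (nat_lit 1884391843) (nat_lit 152) (nat_lit 5963591167) (nat_lit 165) (nat_lit 1) (nat_lit 162) (nat_lit 1) (nat_lit 164) (nat_lit 1) (nat_lit 276) (nat_lit 398) (nat_lit 346)))) (XT.nd (nat_lit 156) (nat_lit 380) (nat_lit 0) (XT.nd (nat_lit 78) (nat_lit 228) (nat_lit 0) (XT.lf (nat_lit 228) (nat_lit 4746025542) (nat_lit 0) (nat_lit 3305292158) (nat_lit 152) (nat_lit 15560976015) (nat_lit 163) (nat_lit 1) (nat_lit 160) (nat_lit 1) (nat_lit 162) (nat_lit 1) (nat_lit 277) (nat_lit 398) (nat_lit 345)) (XT.lf (nat_lit 228) (nat_lit 16873785312) (nat_lit 0) (nat_lit 4727528603) (nat_lit 152) (nat_lit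 1604479913) (nat_lit 160) (nat_lit 1) (nat_lit 157) (nat_lit 1) (nat_lit 159) (nat_lit 1) (nat_lit 278) (nat_lit 398) (nat_lit 344))) (XT.nd (nat_lit 78) (nat_lit 228) (nat_lit 0) (XT.lf (nat_lit 228) (nat_lit 5649656904) (nat_lit 0) (nat_lit 6103303639) (nat_lit 152) (nat_lit 11053512044) (nat_lit 158) (nat_lit 1) (nat_lit 155) (nat_lit 1) (nat_lit 157) (nat_lit 1) (nat_lit 279) (nat_lit 398) (nat_lit 343)) (XT.lf (nat_lit 76) (nat_lit 2277344407) (nat_lit 0) (nat_lit 5225238102) (nat_lit 228) (nat_lit 14913622793) (nat_lit 153) (nat_lit 1) (nat_lit 152) (nat_lit 1) (nat_lit 155) (nat_lit 1) (nat_lit 280) (nat_lit 398) (nat_lit 342)))))) (XT.nd (nat_lit 546) (nat_lit 1216) (nat_lit 0) (XT.nd (nat_lit 234) (nat_lit 608) (nat_lit 0) (XT.nd (nat_lit 78) (nat_lit 304) (nat_lit 0) (XT.lf (nat_lit 228) (nat_lit 6211597328) (nat_lit 0) (nat_lit 8850680941) (nat_lit 152) (nat_lit 6970379017) (nat_lit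 153) (nat_lit 1) (nat_lit 150) (nat_lit 1) (nat_lit 152) (nat_lit 1) (nat_lit 281) (nat_lit 398) (nat_lit 341)) (XT.nd (nat_lit 78) (nat_lit 152) (nat_lit 0) (XT.lf (nat_lit 76) (nat_lit 5745161366) (nat_lit 0) (nat_lit 4457698368) (nat_lit 152) (nat_lit 11454421964) (nat_lit 149) (nat_lit 1) (nat_lit 148) (nat_lit 1) (nat_lit 150) (nat_lit 1) (nat_lit 282) (nat_lit 398) (nat_lit 340)) (XT.lf (nat_lit 228) (nat_lit 6486657137) (nat_lit 0) (nat_lit 11531011626) (nat_lit 152) (nat_lit 3271437712) (nat_lit 149) (nat_lit 1) (nat_lit 146) (nat_lit 1) (nat_lit 148) (nat_lit 1) (nat_lit 283) (nat_lit 398) (nat_lit 339)))) (XT.nd (nat_lit 156) (nat_lit 304) (nat_lit 0) (XT.nd (nat_lit 78) (nat_lit 152) (nat_lit 0) (XT.lf (nat_lit 76) (nat_lit 8866795917) (nat_lit 0) (nat_lit 3962739676) (nat_lit 152) (nat_lit 8098282411) (nat_lit 145) (nat_lit 1) (nat_lit 144) (nat_lit 1) (nat_lit 146) (nat_lit 1) (nat_lit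 284) (nat_lit 398) (nat_lit 338)) (XT.lf (nat_lit 76) (nat_lit 77691067) (nat_lit 0) (nat_lit 14052557133) (nat_lit 228) (nat_lit 6443947167) (nat_lit 143) (nat_lit 1) (nat_lit 142) (nat_lit 1) (nat_lit 145) (nat_lit 1) (nat_lit 285) (nat_lit 398) (nat_lit 337))) (XT.nd (nat_lit 78) (nat_lit 152) (nat_lit 0) (XT.lf (nat_lit 76) (nat_lit 11674932993) (nat_lit 0) (nat_lit 3695879059) (nat_lit 152) (nat_lit 4855466057) (nat_lit 141) (nat_lit 1) (nat_lit 140) (nat_lit 1) (nat_lit 142) (nat_lit 1) (nat_lit 286) (nat_lit 398) (nat_lit 336)) (XT.lf (nat_lit 76) (nat_lit 3053071383) (nat_lit 0) (nat_lit 13556298436) (nat_lit 228) (nat_lit 3276247845) (nat_lit 139) (nat_lit 1) (nat_lit 138) (nat_lit 1) (nat_lit 141) (nat_lit 1) (nat_lit 287) (nat_lit 398) (nat_lit 335))))) (XT.nd (nat_lit 234) (nat_lit 608) (nat_lit 0) (XT.nd (nat_lit 78) (nat_lit 456) (nat_lit 0) (XT.lf (nat_lit 76) (nat_lit 14198858776)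 (nat_lit 0) (nat_lit 3618543742) (nat_lit 152) (nat_lit 1733841524) (nat_lit 137) (nat_lit 1) (nat_lit 136) (nat_lit 1) (nat_lit 138) (nat_lit 1) (nat_lit 288) (nat_lit 398) (nat_lit 334)) (XT.nd (nat_lit 78) (nat_lit 304) (nat_lit 0) (XT.lf (nat_lit 76) (nat_lit 5746847449) (nat_lit 0) (nat_lit 13245430763) (nat_lit 228) (nat_lit 230665689) (nat_lit 135) (nat_lit 1) (nat_lit 134) (nat_lit 1) (nat_lit 137) (nat_lit 1) (nat_lit 289) (nat_lit 398) (nat_lit 333)) (XT.lf (nat_lit 228) (nat_lit 15191334108) (nat_lit 0) (nat_lit 1285868760) (nat_lit 152) (nat_lit 2423830372) (nat_lit 133) (nat_lit 1) (nat_lit 130) (nat_lit 1) (nat_lit 132) (nat_lit 1) (nat_lit 290) (nat_lit 398) (nat_lit 332)))) (XT.nd (nat_lit 156) (nat_lit 304) (nat_lit 0) (XT.nd (nat_lit 78) (nat_lit 228) (nat_lit 0) (XT.lf (nat_lit 152) (nat_lit 5469675108) (nat_lit 0) (nat_lit 2741111327) (nat_lit 76) (nat_lit 10373326210) (nat_lit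 131) (nat_lit 1) (nat_lit 129) (nat_lit 1) (nat_lit 130) (nat_lit 1) (nat_lit 291) (nat_lit 398) (nat_lit 331)) (XT.lf (nat_lit 76) (nat_lit 257454385) (nat_lit 0) (nat_lit 3946360769) (nat_lit 228) (nat_lit 14070438144) (nat_lit 127) (nat_lit 1) (nat_lit 126) (nat_lit 1) (nat_lit 129) (nat_lit 1) (nat_lit 292) (nat_lit 398) (nat_lit 330))) (XT.nd (nat_lit 78) (nat_lit 228) (nat_lit 0) (XT.lf (nat_lit 152) (nat_lit 4858306748) (nat_lit 0) (nat_lit 5584062105) (nat_lit 76) (nat_lit 7526337011) (nat_lit 127) (nat_lit 1) (nat_lit 125) (nat_lit 1) (nat_lit 126) (nat_lit 1) (nat_lit 293) (nat_lit 398) (nat_lit 329)) (XT.lf (nat_lit 76) (nat_lit 2658729107) (nat_lit 0) (nat_lit 4305105117) (nat_lit 228) (nat_lit 10705896067) (nat_lit 123) (nat_lit 1) (nat_lit 122) (nat_lit 1) (nat_lit 125) (nat_lit 1) (nat_lit 294) (nat_lit 398) (nat_lit 328))))))))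
noncomputable def ec125 : XT := (XT.nd (nat_lit 2184) (nat_lit 3496) (nat_lit 0) (XT.nd (nat_lit 1092) (nat_lit 1748) (nat_lit 0) (XT.nd (nat_lit 546) (nat_lit 912) (nat_lit 0) (XT.nd (nat_lit 234) (nat_lit 456) (nat_lit 0) (XT.nd (nat_lit 78) (nat_lit 304) (nat_lit 0) (XT.lf (nat_lit 152) (nat_lit 4168434087) (nat_lit 0) (nat_lit 8291446454) (nat_lit 76) (nat_lit 4915815207) (nat_lit 123) (nat_lit 1) (nat_lit 121) (nat_lit 1) (nat_lit 122) (nat_lit 1) (nat_lit 295) (nat_lit 398) (nat_lit 327)) (XT.nd (nat_lit 78) (nat_lit 76) (nat_lit 0) (XT.lf (nat_lit 76) (nat_lit 4847025666) (nat_lit 0) (nat_lit 4741390241) (nat_lit 228) (nat_lit 7498689988) (nat_lit 119) (nat_lit 1) (nat_lit 118) (nat_lit 1) (nat_lit 121) (nat_lit 1) (nat_lit 296) (nat_lit 398) (nat_lit 326)) (XT.lf (nat_lit 152) (nat_lit 3419512630) (nat_lit 0) (nat_lit 10862336280) (nat_lit 76) (nat_lit 2522212287) (nat_lit 119) (nat_lit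 1) (nat_lit 117) (nat_lit 1) (nat_lit 118) (nat_lit 1) (nat_lit 297) (nat_lit 398) (nat_lit 325)))) (XT.nd (nat_lit 156) (nat_lit 228) (nat_lit 0) (XT.nd (nat_lit 78) (nat_lit 76) (nat_lit 0) (XT.lf (nat_lit 76) (nat_lit 6840170524) (nat_lit 0) (nat_lit 5236998746) (nat_lit 152) (nat_lit 4448224318) (nat_lit 116) (nat_lit 1) (nat_lit 115) (nat_lit 1) (nat_lit 117) (nat_lit 1) (nat_lit 298) (nat_lit 398) (nat_lit 324)) (XT.lf (nat_lit 152) (nat_lit 2628167475) (nat_lit 0) (nat_lit 13296834425) (nat_lit 76) (nat_lit 327846747) (nat_lit 116) (nat_lit 1) (nat_lit 114) (nat_lit 1) (nat_lit 115) (nat_lit 1) (nat_lit 299) (nat_lit 398) (nat_lit 323))) (XT.nd (nat_lit 78) (nat_lit 76) (nat_lit 0) (XT.lf (nat_lit 76) (nat_lit 8654289036) (nat_lit 0) (nat_lit 5776354950) (nat_lit 152) (nat_lit 1553027055) (nat_lit 113) (nat_lit 1) (nat_lit 112) (nat_lit 1) (nat_lit 114) (nat_lit 1) (nat_lit 300) (nat_lit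 398) (nat_lit 322)) (XT.lf (nat_lit 0) (nat_lit 1650449946) (nat_lit 0) (nat_lit 13928792623) (nat_lit 152) (nat_lit 141437828) (nat_lit 111) (nat_lit 3) (nat_lit 111) (nat_lit 1) (nat_lit 113) (nat_lit 1) (nat_lit 301) (nat_lit 398) (nat_lit 321))))) (XT.nd (nat_lit 234) (nat_lit 456) (nat_lit 0) (XT.nd (nat_lit 78) (nat_lit 228) (nat_lit 0) (XT.lf (nat_lit 152) (nat_lit 9102878511) (nat_lit 0) (nat_lit 1212767685) (nat_lit 76) (nat_lit 5145078313) (nat_lit 110) (nat_lit 1) (nat_lit 108) (nat_lit 1) (nat_lit 109) (nat_lit 1) (nat_lit 302) (nat_lit 398) (nat_lit 320)) (XT.nd (nat_lit 78) (nat_lit 152) (nat_lit 0) (XT.lf (nat_lit 76) (nat_lit 912327843) (nat_lit 0) (nat_lit 2569317423) (nat_lit 76) (nat_lit 11724773236) (nat_lit 108) (nat_lit 3) (nat_lit 107) (nat_lit 1) (nat_lit 108) (nat_lit 1) (nat_lit 303) (nat_lit 398) (nat_lit 319)) (XT.lf (nat_lit 152) (nat_lit 7983375056) (nat_lit 0) (nat_lit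 3856212472) (nat_lit 76) (nat_lit 3116092706) (nat_lit 107) (nat_lit 1) (nat_lit 105) (nat_lit 1) (nat_lit 106) (nat_lit 1) (nat_lit 304) (nat_lit 398) (nat_lit 318)))) (XT.nd (nat_lit 156) (nat_lit 228) (nat_lit 0) (XT.nd (nat_lit 78) (nat_lit 152) (nat_lit 0) (XT.lf (nat_lit 76) (nat_lit 28234334) (nat_lit 0) (nat_lit 5132082179) (nat_lit 76) (nat_lit 9549794243) (nat_lit 105) (nat_lit 3) (nat_lit 104) (nat_lit 1) (nat_lit 105) (nat_lit 1) (nat_lit 305) (nat_lit 398) (nat_lit 317)) (XT.lf (nat_lit 152) (nat_lit 6873204068) (nat_lit 0) (nat_lit 6349753448) (nat_lit 76) (nat_lit 1245274010) (nat_lit 104) (nat_lit 1) (nat_lit 102) (nat_lit 1) (nat_lit 103) (nat_lit 1) (nat_lit 306) (nat_lit 398) (nat_lit 316))) (XT.nd (nat_lit 78) (nat_lit 76) (nat_lit 0) (XT.lf (nat_lit 76) (nat_lit 6705060843) (nat_lit 0) (nat_lit 834022351) (nat_lit 152) (nat_lit 6691726390) (nat_lit 101) (nat_lit 1) (nat_lit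 100) (nat_lit 1) (nat_lit 102) (nat_lit 1) (nat_lit 307) (nat_lit 398) (nat_lit 315)) (XT.lf (nat_lit 0) (nat_lit 469736779) (nat_lit 0) (nat_lit 8222664902) (nat_lit 152) (nat_lit 5305119234) (nat_lit 99) (nat_lit 3) (nat_lit 99) (nat_lit 1) (nat_lit 101) (nat_lit 1) (nat_lit 308) (nat_lit 398) (nat_lit 314)))))) (XT.nd (nat_lit 546) (nat_lit 836) (nat_lit 0) (XT.nd (nat_lit 234) (nat_lit 532) (nat_lit 0) (XT.nd (nat_lit 78) (nat_lit 228) (nat_lit 0) (XT.lf (nat_lit 76) (nat_lit 8118621274) (nat_lit 0) (nat_lit 1683794137) (nat_lit 152) (nat_lit 3965638971) (nat_lit 98) (nat_lit 1) (nat_lit 97) (nat_lit 1) (nat_lit 99) (nat_lit 1) (nat_lit 309) (nat_lit 398) (nat_lit 313)) (XT.nd (nat_lit 78) (nat_lit 152) (nat_lit 0) (XT.lf (nat_lit 0) (nat_lit 2027335052) (nat_lit 0) (nat_lit 8854649957) (nat_lit 152) (nat_lit 2660702725) (nat_lit 96) (nat_lit 3) (nat_lit 96) (nat_lit 1) (nat_lit 98) (nat_lit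 1) (nat_lit 310) (nat_lit 398) (nat_lit 312)) (XT.lf (nat_lit 76) (nat_lit 9410502014) (nat_lit 0) (nat_lit 2516032970) (nat_lit 152) (nat_lit 1394657740) (nat_lit 95) (nat_lit 1) (nat_lit 94) (nat_lit 1) (nat_lit 96) (nat_lit 1) (nat_lit 311) (nat_lit 398) (nat_lit 311)))) (XT.nd (nat_lit 156) (nat_lit 228) (nat_lit 0) (XT.nd (nat_lit 78) (nat_lit 228) (nat_lit 0) (XT.lf (nat_lit 0) (nat_lit 3461419055) (nat_lit 0) (nat_lit 9473628644) (nat_lit 152) (nat_lit 168398841) (nat_lit 93) (nat_lit 3) (nat_lit 93) (nat_lit 1) (nat_lit 95) (nat_lit 1) (nat_lit 312) (nat_lit 398) (nat_lit 310)) (XT.lf (nat_lit 152) (nat_lit 9553058798) (nat_lit 0) (nat_lit 1046651299) (nat_lit 76) (nat_lit 2289587712) (nat_lit 92) (nat_lit 1) (nat_lit 90) (nat_lit 1) (nat_lit 91) (nat_lit 1) (nat_lit 313) (nat_lit 398) (nat_lit 309))) (XT.nd (nat_lit 78) (nat_lit 152) (nat_lit 0) (XT.lf (nat_lit 76) (nat_lit 2582000419)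 (nat_lit 0) (nat_lit 2220127351) (nat_lit 76) (nat_lit 7876419185) (nat_lit 90) (nat_lit 3) (nat_lit 89) (nat_lit 1) (nat_lit 90) (nat_lit 1) (nat_lit 314) (nat_lit 398) (nat_lit 308)) (XT.lf (nat_lit 152) (nat_lit 8328772368) (nat_lit 0) (nat_lit 3367863296) (nat_lit 76) (nat_lit 775076054) (nat_lit 89) (nat_lit 1) (nat_lit 87) (nat_lit 1) (nat_lit 88) (nat_lit 1) (nat_lit 315) (nat_lit 398) (nat_lit 307))))) (XT.nd (nat_lit 234) (nat_lit 532) (nat_lit 0) (XT.nd (nat_lit 78) (nat_lit 228) (nat_lit 0) (XT.lf (nat_lit 76) (nat_lit 1569263460) (nat_lit 0) (nat_lit 4467191940) (nat_lit 76) (nat_lit 6231587626) (nat_lit 87) (nat_lit 3) (nat_lit 86) (nat_lit 1) (nat_lit 87) (nat_lit 1) (nat_lit 316) (nat_lit 398) (nat_lit 306)) (XT.nd (nat_lit 78) (nat_lit 76) (nat_lit 0) (XT.lf (nat_lit 0) (nat_lit 614668736) (nat_lit 0) (nat_lit 4925648086) (nat_lit 152) (nat_lit 6527783590) (nat_lit 84) (nat_lit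 3) (nat_lit 84) (nat_lit 1) (nat_lit 86) (nat_lit 1) (nat_lit 317) (nat_lit 398) (nat_lit 305)) (XT.lf (nat_lit 76) (nat_lit 595511518) (nat_lit 0) (nat_lit 6574715994) (nat_lit 76) (nat_lit 4701206136) (nat_lit 84) (nat_lit 3) (nat_lit 83) (nat_lit 1) (nat_lit 84) (nat_lit 1) (nat_lit 318) (nat_lit 398) (nat_lit 304)))) (XT.nd (nat_lit 156) (nat_lit 228) (nat_lit 0) (XT.nd (nat_lit 78) (nat_lit 152) (nat_lit 0) (XT.lf (nat_lit 0) (nat_lit 1886310709) (nat_lit 0) (nat_lit 5682607167) (nat_lit 152) (nat_lit 4108998117) (nat_lit 81) (nat_lit 3) (nat_lit 81) (nat_lit 1) (nat_lit 83) (nat_lit 1) (nat_lit 319) (nat_lit 398) (nat_lit 303)) (XT.lf (nat_lit 76) (nat_lit 8213578867) (nat_lit 0) (nat_lit 331069275) (nat_lit 152) (nat_lit 2943449806) (nat_lit 80) (nat_lit 1) (nat_lit 79) (nat_lit 1) (nat_lit 81) (nat_lit 1) (nat_lit 320) (nat_lit 398) (nat_lit 302))) (XT.nd (nat_lit 78) (nat_lit 152) (nat_lit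 0) (XT.lf (nat_lit 0) (nat_lit 3061770379) (nat_lit 0) (nat_lit 6404831345) (nat_lit 152) (nat_lit 1834268770) (nat_lit 78) (nat_lit 3) (nat_lit 78) (nat_lit 1) (nat_lit 80) (nat_lit 1) (nat_lit 321) (nat_lit 398) (nat_lit 301)) (XT.lf (nat_lit 76) (nat_lit 9174944773) (nat_lit 0) (nat_lit 1205181647) (nat_lit 152) (nat_lit 737348842) (nat_lit 77) (nat_lit 1) (nat_lit 76) (nat_lit 1) (nat_lit 78) (nat_lit 1) (nat_lit 322) (nat_lit 398) (nat_lit 300))))))) (XT.nd (nat_lit 1092) (nat_lit 1748) (nat_lit 0) (XT.nd (nat_lit 546) (nat_lit 912) (nat_lit 0) (XT.nd (nat_lit 234) (nat_lit 456) (nat_lit 0) (XT.nd (nat_lit 78) (nat_lit 228) (nat_lit 0) (XT.lf (nat_lit 76) (nat_lit 3842156303) (nat_lit 0) (nat_lit 308138511) (nat_lit 76) (nat_lit 6786093046) (nat_lit 75) (nat_lit 3) (nat_lit 74) (nat_lit 1) (nat_lit 75) (nat_lit 1) (nat_lit 323) (nat_lit 398) (nat_lit 299)) (XT.nd (nat_lit 78) (nat_lit 76)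 (nat_lit 0) (XT.lf (nat_lit 152) (nat_lit 8707979962) (nat_lit 0) (nat_lit 1359558610) (nat_lit 76) (nat_lit 691331975) (nat_lit 74) (nat_lit 1) (nat_lit 72) (nat_lit 1) (nat_lit 73) (nat_lit 1) (nat_lit 324) (nat_lit 398) (nat_lit 298)) (XT.lf (nat_lit 76) (nat_lit 2819703166) (nat_lit 0) (nat_lit 2351722072) (nat_lit 76) (nat_lit 5412166670) (nat_lit 72) (nat_lit 3) (nat_lit 71) (nat_lit 1) (nat_lit 72) (nat_lit 1) (nat_lit 325) (nat_lit 398) (nat_lit 297)))) (XT.nd (nat_lit 156) (nat_lit 228) (nat_lit 0) (XT.nd (nat_lit 78) (nat_lit 76) (nat_lit 0) (XT.lf (nat_lit 0) (nat_lit 468314835) (nat_lit 0) (nat_lit 2865414700) (nat_lit 152) (nat_lit 7078177005) (nat_lit 69) (nat_lit 3) (nat_lit 69) (nat_lit 1) (nat_lit 71) (nat_lit 1) (nat_lit 326) (nat_lit 398) (nat_lit 296)) (XT.lf (nat_lit 76) (nat_lit 1846992652) (nat_lit 0) (nat_lit 4265639466) (nat_lit 76) (nat_lit 4129944904) (nat_lit 69) (nat_lit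 3) (nat_lit 68) (nat_lit 1) (nat_lit 69) (nat_lit 1) (nat_lit 327) (nat_lit 398) (nat_lit 295))) (XT.nd (nat_lit 78) (nat_lit 76) (nat_lit 0) (XT.lf (nat_lit 0) (nat_lit 1531964238) (nat_lit 0) (nat_lit 3642877093) (nat_lit 152) (nat_lit 4901487106) (nat_lit 66) (nat_lit 3) (nat_lit 66) (nat_lit 1) (nat_lit 68) (nat_lit 1) (nat_lit 328) (nat_lit 398) (nat_lit 294)) (XT.lf (nat_lit 76) (nat_lit 923541277) (nat_lit 0) (nat_lit 6055442113) (nat_lit 76) (nat_lit 2933934472) (nat_lit 66) (nat_lit 3) (nat_lit 65) (nat_lit 1) (nat_lit 66) (nat_lit 1) (nat_lit 329) (nat_lit 398) (nat_lit 293))))) (XT.nd (nat_lit 234) (nat_lit 532) (nat_lit 0) (XT.nd (nat_lit 78) (nat_lit 228) (nat_lit 0) (XT.lf (nat_lit 0) (nat_lit 2518153825) (nat_lit 0) (nat_lit 4377047208) (nat_lit 152) (nat_lit 2856717812) (nat_lit 63) (nat_lit 3) (nat_lit 63) (nat_lit 1) (nat_lit 65) (nat_lit 1) (nat_lit 330) (nat_lit 398) (nat_lit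 292)) (XT.nd (nat_lit 78) (nat_lit 152) (nat_lit 0) (XT.lf (nat_lit 76) (nat_lit 48638040) (nat_lit 0) (nat_lit 7726556882) (nat_lit 76) (nat_lit 1819012691) (nat_lit 63) (nat_lit 3) (nat_lit 62) (nat_lit 1) (nat_lit 63) (nat_lit 1) (nat_lit 331) (nat_lit 398) (nat_lit 291)) (XT.lf (nat_lit 0) (nat_lit 3431589653) (nat_lit 0) (nat_lit 5068551883) (nat_lit 152) (nat_lit 938137435) (nat_lit 60) (nat_lit 3) (nat_lit 60) (nat_lit 1) (nat_lit 62) (nat_lit 1) (nat_lit 332) (nat_lit 398) (nat_lit 290)))) (XT.nd (nat_lit 156) (nat_lit 228) (nat_lit 0) (XT.nd (nat_lit 78) (nat_lit 152) (nat_lit 0) (XT.lf (nat_lit 76) (nat_lit 8513145068) (nat_lit 0) (nat_lit 763421753) (nat_lit 152) (nat_lit 9265487) (nat_lit 59) (nat_lit 1) (nat_lit 58) (nat_lit 1) (nat_lit 60) (nat_lit 1) (nat_lit 333) (nat_lit 398) (nat_lit 289)) (XT.lf (nat_lit 76) (nat_lit 3408151957) (nat_lit 0) (nat_lit 876942912) (nat_lit 76) (nat_lit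 4849679139) (nat_lit 57) (nat_lit 3) (nat_lit 56) (nat_lit 1) (nat_lit 57) (nat_lit 1) (nat_lit 334) (nat_lit 398) (nat_lit 288))) (XT.nd (nat_lit 78) (nat_lit 76) (nat_lit 0) (XT.lf (nat_lit 0) (nat_lit 215021835) (nat_lit 0) (nat_lit 1547917981) (nat_lit 152) (nat_lit 7224130747) (nat_lit 54) (nat_lit 3) (nat_lit 54) (nat_lit 1) (nat_lit 56) (nat_lit 1) (nat_lit 335) (nat_lit 398) (nat_lit 287)) (XT.lf (nat_lit 76) (nat_lit 2489209620) (nat_lit 0) (nat_lit 2593204649) (nat_lit 76) (nat_lit 3758634521) (nat_lit 54) (nat_lit 3) (nat_lit 53) (nat_lit 1) (nat_lit 54) (nat_lit 1) (nat_lit 336) (nat_lit 398) (nat_lit 286)))))) (XT.nd (nat_lit 546) (nat_lit 912) (nat_lit 0) (XT.nd (nat_lit 234) (nat_lit 456) (nat_lit 0) (XT.nd (nat_lit 78) (nat_lit 228) (nat_lit 0) (XT.lf (nat_lit 0) (nat_lit 1119860658) (nat_lit 0) (nat_lit 2293623858) (nat_lit 152) (nat_lit 5284493663) (nat_lit 51) (nat_lit 3) (nat_lit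 51) (nat_lit 1) (nat_lit 53) (nat_lit 1) (nat_lit 337) (nat_lit 398) (nat_lit 285)) (XT.nd (nat_lit 78) (nat_lit 152) (nat_lit 0) (XT.lf (nat_lit 76) (nat_lit 1620912463) (nat_lit 0) (nat_lit 4197332023) (nat_lit 76) (nat_lit 2738782177) (nat_lit 51) (nat_lit 3) (nat_lit 50) (nat_lit 1) (nat_lit 51) (nat_lit 1) (nat_lit 338) (nat_lit 398) (nat_lit 284)) (XT.lf (nat_lit 0) (nat_lit 1960724586) (nat_lit 0) (nat_lit 2994353540) (nat_lit 152) (nat_lit 3463356445) (nat_lit 48) (nat_lit 3) (nat_lit 48) (nat_lit 1) (nat_lit 50) (nat_lit 1) (nat_lit 339) (nat_lit 398) (nat_lit 283)))) (XT.nd (nat_lit 156) (nat_lit 228) (nat_lit 0) (XT.nd (nat_lit 78) (nat_lit 152) (nat_lit 0) (XT.lf (nat_lit 76) (nat_lit 801725849) (nat_lit 0) (nat_lit 5694509036) (nat_lit 76) (nat_lit 1786134377) (nat_lit 48) (nat_lit 3) (nat_lit 47) (nat_lit 1) (nat_lit 48) (nat_lit 1) (nat_lit 340) (nat_lit 398) (nat_lit 282)) (XT.lf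 (nat_lit 0) (nat_lit 2741283567) (nat_lit 0) (nat_lit 3651508744) (nat_lit 152) (nat_lit 1755315113) (nat_lit 45) (nat_lit 3) (nat_lit 45) (nat_lit 1) (nat_lit 47) (nat_lit 1) (nat_lit 341) (nat_lit 398) (nat_lit 281))) (XT.nd (nat_lit 78) (nat_lit 152) (nat_lit 0) (XT.lf (nat_lit 76) (nat_lit 30061618) (nat_lit 0) (nat_lit 7089747306) (nat_lit 76) (nat_lit 896942739) (nat_lit 45) (nat_lit 3) (nat_lit 44) (nat_lit 1) (nat_lit 45) (nat_lit 1) (nat_lit 342) (nat_lit 398) (nat_lit 280)) (XT.lf (nat_lit 0) (nat_lit 3464986276) (nat_lit 0) (nat_lit 4266540709) (nat_lit 152) (nat_lit 155150544) (nat_lit 42) (nat_lit 3) (nat_lit 42) (nat_lit 1) (nat_lit 44) (nat_lit 1) (nat_lit 343) (nat_lit 398) (nat_lit 279))))) (XT.nd (nat_lit 234) (nat_lit 456) (nat_lit 0) (XT.nd (nat_lit 78) (nat_lit 228) (nat_lit 0) (XT.lf (nat_lit 152) (nat_lit 7071257829) (nat_lit 0) (nat_lit 633702403) (nat_lit 76) (nat_lit 54518078)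 (nat_lit 41) (nat_lit 1) (nat_lit 39) (nat_lit 1) (nat_lit 40) (nat_lit 1) (nat_lit 344) (nat_lit 398) (nat_lit 278)) (XT.nd (nat_lit 78) (nat_lit 152) (nat_lit 0) (XT.lf (nat_lit 76) (nat_lit 2779350648) (nat_lit 0) (nat_lit 1368884294) (nat_lit 76) (nat_lit 3485208415) (nat_lit 39) (nat_lit 3) (nat_lit 38) (nat_lit 1) (nat_lit 39) (nat_lit 1) (nat_lit 345) (nat_lit 398) (nat_lit 277)) (XT.lf (nat_lit 0) (nat_lit 725071284) (nat_lit 0) (nat_lit 1377736810) (nat_lit 152) (nat_lit 5407372199) (nat_lit 36) (nat_lit 3) (nat_lit 36) (nat_lit 1) (nat_lit 38) (nat_lit 1) (nat_lit 346) (nat_lit 398) (nat_lit 276)))) (XT.nd (nat_lit 156) (nat_lit 228) (nat_lit 0) (XT.nd (nat_lit 78) (nat_lit 152) (nat_lit 0) (XT.lf (nat_lit 76) (nat_lit 1985416787) (nat_lit 0) (nat_lit 2796068095) (nat_lit 76) (nat_lit 2607003003) (nat_lit 36) (nat_lit 3) (nat_lit 35) (nat_lit 1) (nat_lit 36) (nat_lit 1) (nat_lit 347)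 (nat_lit 398) (nat_lit 275)) (XT.lf (nat_lit 0) (nat_lit 1449801530) (nat_lit 0) (nat_lit 2024546066) (nat_lit 152) (nat_lit 3794714116) (nat_lit 33) (nat_lit 3) (nat_lit 33) (nat_lit 1) (nat_lit 35) (nat_lit 1) (nat_lit 348) (nat_lit 398) (nat_lit 274))) (XT.nd (nat_lit 78) (nat_lit 152) (nat_lit 0) (XT.lf (nat_lit 76) (nat_lit 1238058392) (nat_lit 0) (nat_lit 4128079102) (nat_lit 76) (nat_lit 1785434140) (nat_lit 33) (nat_lit 3) (nat_lit 32) (nat_lit 1) (nat_lit 33) (nat_lit 1) (nat_lit 349) (nat_lit 398) (nat_lit 273)) (XT.lf (nat_lit 0) (nat_lit 2123692823) (nat_lit 0) (nat_lit 2629819267) (nat_lit 152) (nat_lit 2282345823) (nat_lit 30) (nat_lit 3) (nat_lit 30) (nat_lit 1) (nat_lit 32) (nat_lit 1) (nat_lit 350) (nat_lit 398) (nat_lit 272))))))))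
noncomputable def ec126 : XT := (XT.nd (nat_lit 49296) (nat_lit 0) (nat_lit 2812) (XT.nd (nat_lit 48204) (nat_lit 0) (nat_lit 6232) (XT.nd (nat_lit 47658) (nat_lit 0) (nat_lit 8284) (XT.nd (nat_lit 47346) (nat_lit 0) (nat_lit 9348) (XT.nd (nat_lit 78) (nat_lit 304) (nat_lit 0) (XT.lf (nat_lit 76) (nat_lit 535446077) (nat_lit 0) (nat_lit 5369502890) (nat_lit 76) (nat_lit 1017471262) (nat_lit 30) (nat_lit 3) (nat_lit 29) (nat_lit 1) (nat_lit 30) (nat_lit 1) (nat_lit 351) (nat_lit 398) (nat_lit 271)) (XT.nd (nat_lit 78) (nat_lit 152) (nat_lit 0) (XT.lf (nat_lit 0) (nat_lit 2749537249) (nat_lit 0) (nat_lit 3195237836) (nat_lit 152) (nat_lit 865523941) (nat_lit 27) (nat_lit 3) (nat_lit 27) (nat_lit 1) (nat_lit 29) (nat_lit 1) (nat_lit 352) (nat_lit 398) (nat_lit 270)) (XT.lf (nat_lit 76) (nat_lit 6401714544) (nat_lit 0) (nat_lit 121803480) (nat_lit 152) (nat_lit 177215683) (nat_lit 26) (nat_lit 1) (nat_lit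 25) (nat_lit 1) (nat_lit 27) (nat_lit 1) (nat_lit 353) (nat_lit 398) (nat_lit 269)))) (XT.nd (nat_lit 156) (nat_lit 304) (nat_lit 0) (XT.nd (nat_lit 78) (nat_lit 228) (nat_lit 0) (XT.lf (nat_lit 228) (nat_lit 5932139750) (nat_lit 0) (nat_lit 6408468821) (nat_lit 152) (nat_lit 11606187646) (nat_lit 158) (nat_lit 1) (nat_lit 155) (nat_lit 1) (nat_lit 157) (nat_lit 1) (nat_lit 277) (nat_lit 399) (nat_lit 344)) (XT.lf (nat_lit 76) (nat_lit 2391211627) (nat_lit 0) (nat_lit 5486500007) (nat_lit 228) (nat_lit 15659303933) (nat_lit 153) (nat_lit 1) (nat_lit 152) (nat_lit 1) (nat_lit 155) (nat_lit 1) (nat_lit 278) (nat_lit 399) (nat_lit 343))) (XT.nd (nat_lit 78) (nat_lit 152) (nat_lit 0) (XT.lf (nat_lit 228) (nat_lit 6522177194) (nat_lit 0) (nat_lit 9293214988) (nat_lit 152) (nat_lit 7318897968) (nat_lit 153) (nat_lit 1) (nat_lit 150) (nat_lit 1) (nat_lit 152) (nat_lit 1) (nat_lit 279) (nat_lit 399) (nat_lit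 342)) (XT.lf (nat_lit 76) (nat_lit 6032419434) (nat_lit 0) (nat_lit 4680583286) (nat_lit 152) (nat_lit 12027143062) (nat_lit 149) (nat_lit 1) (nat_lit 148) (nat_lit 1) (nat_lit 150) (nat_lit 1) (nat_lit 280) (nat_lit 399) (nat_lit 341))))) (XT.nd (nat_lit 234) (nat_lit 608) (nat_lit 0) (XT.nd (nat_lit 78) (nat_lit 304) (nat_lit 0) (XT.lf (nat_lit 228) (nat_lit 6810989994) (nat_lit 0) (nat_lit 12107562208) (nat_lit 152) (nat_lit 3435009597) (nat_lit 149) (nat_lit 1) (nat_lit 146) (nat_lit 1) (nat_lit 148) (nat_lit 1) (nat_lit 281) (nat_lit 399) (nat_lit 340)) (XT.nd (nat_lit 78) (nat_lit 152) (nat_lit 0) (XT.lf (nat_lit 76) (nat_lit 9310135713) (nat_lit 0) (nat_lit 4160876660) (nat_lit 152) (nat_lit 8503196532) (nat_lit 145) (nat_lit 1) (nat_lit 144) (nat_lit 1) (nat_lit 146) (nat_lit 1) (nat_lit 282) (nat_lit 399) (nat_lit 339)) (XT.lf (nat_lit 76) (nat_lit 81575620) (nat_lit 0) (nat_lit 14755184989)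 (nat_lit 228) (nat_lit 6766144526) (nat_lit 143) (nat_lit 1) (nat_lit 142) (nat_lit 1) (nat_lit 145) (nat_lit 1) (nat_lit 283) (nat_lit 399) (nat_lit 338)))) (XT.nd (nat_lit 156) (nat_lit 304) (nat_lit 0) (XT.nd (nat_lit 78) (nat_lit 152) (nat_lit 0) (XT.lf (nat_lit 76) (nat_lit 12258679643) (nat_lit 0) (nat_lit 3880673012) (nat_lit 152) (nat_lit 5098239360) (nat_lit 141) (nat_lit 1) (nat_lit 140) (nat_lit 1) (nat_lit 142) (nat_lit 1) (nat_lit 284) (nat_lit 399) (nat_lit 337)) (XT.lf (nat_lit 76) (nat_lit 3205724952) (nat_lit 0) (nat_lit 14234113358) (nat_lit 228) (nat_lit 3440060237) (nat_lit 139) (nat_lit 1) (nat_lit 138) (nat_lit 1) (nat_lit 141) (nat_lit 1) (nat_lit 285) (nat_lit 399) (nat_lit 336))) (XT.nd (nat_lit 78) (nat_lit 152) (nat_lit 0) (XT.lf (nat_lit 76) (nat_lit 14908801715) (nat_lit 0) (nat_lit 3799470929) (nat_lit 152) (nat_lit 1820533600) (nat_lit 137) (nat_lit 1) (nat_lit 136)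 (nat_lit 1) (nat_lit 138) (nat_lit 1) (nat_lit 286) (nat_lit 399) (nat_lit 335)) (XT.lf (nat_lit 76) (nat_lit 6034189822) (nat_lit 0) (nat_lit 13907702301) (nat_lit 228) (nat_lit 242198973) (nat_lit 135) (nat_lit 1) (nat_lit 134) (nat_lit 1) (nat_lit 137) (nat_lit 1) (nat_lit 287) (nat_lit 399) (nat_lit 334)))))) (XT.nd (nat_lit 546) (nat_lit 836) (nat_lit 0) (XT.nd (nat_lit 234) (nat_lit 608) (nat_lit 0) (XT.nd (nat_lit 78) (nat_lit 304) (nat_lit 0) (XT.lf (nat_lit 228) (nat_lit 15950900813) (nat_lit 0) (nat_lit 1350162198) (nat_lit 152) (nat_lit 2545021890) (nat_lit 133) (nat_lit 1) (nat_lit 130) (nat_lit 1) (nat_lit 132) (nat_lit 1) (nat_lit 288) (nat_lit 399) (nat_lit 333)) (XT.nd (nat_lit 78) (nat_lit 228) (nat_lit 0) (XT.lf (nat_lit 152) (nat_lit 5743158864) (nat_lit 0) (nat_lit 2878166893) (nat_lit 76) (nat_lit 10891992520) (nat_lit 131) (nat_lit 1) (nat_lit 129) (nat_lit 1) (nat_lit 130)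 (nat_lit 1) (nat_lit 289) (nat_lit 399) (nat_lit 332)) (XT.lf (nat_lit 76) (nat_lit 270327104) (nat_lit 0) (nat_lit 4143678808) (nat_lit 228) (nat_lit 14773960052) (nat_lit 127) (nat_lit 1) (nat_lit 126) (nat_lit 1) (nat_lit 129) (nat_lit 1) (nat_lit 290) (nat_lit 399) (nat_lit 331)))) (XT.nd (nat_lit 156) (nat_lit 304) (nat_lit 0) (XT.nd (nat_lit 78) (nat_lit 228) (nat_lit 0) (XT.lf (nat_lit 152) (nat_lit 5101222086) (nat_lit 0) (nat_lit 5863265210) (nat_lit 76) (nat_lit 7902653862) (nat_lit 127) (nat_lit 1) (nat_lit 125) (nat_lit 1) (nat_lit 126) (nat_lit 1) (nat_lit 291) (nat_lit 399) (nat_lit 330)) (XT.lf (nat_lit 76) (nat_lit 2791665563) (nat_lit 0) (nat_lit 4520360373) (nat_lit 228) (nat_lit 11241190870) (nat_lit 123) (nat_lit 1) (nat_lit 122) (nat_lit 1) (nat_lit 125) (nat_lit 1) (nat_lit 292) (nat_lit 399) (nat_lit 329))) (XT.nd (nat_lit 78) (nat_lit 228) (nat_lit 0) (XT.lf (nat_lit 152)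 (nat_lit 4376855791) (nat_lit 0) (nat_lit 8706018777) (nat_lit 76) (nat_lit 5161605968) (nat_lit 123) (nat_lit 1) (nat_lit 121) (nat_lit 1) (nat_lit 122) (nat_lit 1) (nat_lit 293) (nat_lit 399) (nat_lit 328)) (XT.lf (nat_lit 76) (nat_lit 5089376949) (nat_lit 0) (nat_lit 4978459753) (nat_lit 228) (nat_lit 7873624487) (nat_lit 119) (nat_lit 1) (nat_lit 118) (nat_lit 1) (nat_lit 121) (nat_lit 1) (nat_lit 294) (nat_lit 399) (nat_lit 327))))) (XT.nd (nat_lit 234) (nat_lit 532) (nat_lit 0) (XT.nd (nat_lit 78) (nat_lit 228) (nat_lit 0) (XT.lf (nat_lit 152) (nat_lit 3590488262) (nat_lit 0) (nat_lit 11405453094) (nat_lit 76) (nat_lit 2648322901) (nat_lit 119) (nat_lit 1) (nat_lit 117) (nat_lit 1) (nat_lit 118) (nat_lit 1) (nat_lit 295) (nat_lit 399) (nat_lit 326)) (XT.nd (nat_lit 78) (nat_lit 76) (nat_lit 0) (XT.lf (nat_lit 76) (nat_lit 7182179051) (nat_lit 0) (nat_lit 5498848683) (nat_lit 152) (nat_lit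 4670635534) (nat_lit 116) (nat_lit 1) (nat_lit 115) (nat_lit 1) (nat_lit 117) (nat_lit 1) (nat_lit 296) (nat_lit 399) (nat_lit 325)) (XT.lf (nat_lit 152) (nat_lit 2759575848) (nat_lit 0) (nat_lit 13961676147) (nat_lit 76) (nat_lit 344239084) (nat_lit 116) (nat_lit 1) (nat_lit 114) (nat_lit 1) (nat_lit 115) (nat_lit 1) (nat_lit 297) (nat_lit 399) (nat_lit 324)))) (XT.nd (nat_lit 156) (nat_lit 304) (nat_lit 0) (XT.nd (nat_lit 78) (nat_lit 76) (nat_lit 0) (XT.lf (nat_lit 76) (nat_lit 9087003488) (nat_lit 0) (nat_lit 6065172698) (nat_lit 152) (nat_lit 1630678408) (nat_lit 113) (nat_lit 1) (nat_lit 112) (nat_lit 1) (nat_lit 114) (nat_lit 1) (nat_lit 298) (nat_lit 399) (nat_lit 323)) (XT.lf (nat_lit 0) (nat_lit 1732972443) (nat_lit 0) (nat_lit 14625232254) (nat_lit 152) (nat_lit 148509719) (nat_lit 111) (nat_lit 3) (nat_lit 111) (nat_lit 1) (nat_lit 113) (nat_lit 1) (nat_lit 299) (nat_lit 399) (nat_lit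 322))) (XT.nd (nat_lit 78) (nat_lit 76) (nat_lit 0) (XT.lf (nat_lit 152) (nat_lit 9558022437) (nat_lit 0) (nat_lit 1273406069) (nat_lit 76) (nat_lit 5402332229) (nat_lit 110) (nat_lit 1) (nat_lit 108) (nat_lit 1) (nat_lit 109) (nat_lit 1) (nat_lit 300) (nat_lit 399) (nat_lit 321)) (XT.lf (nat_lit 76) (nat_lit 957944235) (nat_lit 0) (nat_lit 2697783294) (nat_lit 76) (nat_lit 12311011897) (nat_lit 108) (nat_lit 3) (nat_lit 107) (nat_lit 1) (nat_lit 108) (nat_lit 1) (nat_lit 301) (nat_lit 399) (nat_lit 320))))))) (XT.nd (nat_lit 1092) (nat_lit 1672) (nat_lit 0) (XT.nd (nat_lit 546) (nat_lit 912) (nat_lit 0) (XT.nd (nat_lit 234) (nat_lit 456) (nat_lit 0) (XT.nd (nat_lit 78) (nat_lit 228) (nat_lit 0) (XT.lf (nat_lit 152) (nat_lit 8382543808) (nat_lit 0) (nat_lit 4049023095) (nat_lit 76) (nat_lit 3271897341) (nat_lit 107) (nat_lit 1) (nat_lit 105) (nat_lit 1) (nat_lit 106) (nat_lit 1) (nat_lit 302) (nat_lit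 399) (nat_lit 319)) (XT.nd (nat_lit 78) (nat_lit 152) (nat_lit 0) (XT.lf (nat_lit 76) (nat_lit 29646051) (nat_lit 0) (nat_lit 5388686288) (nat_lit 76) (nat_lit 10027283955) (nat_lit 105) (nat_lit 3) (nat_lit 104) (nat_lit 1) (nat_lit 105) (nat_lit 1) (nat_lit 303) (nat_lit 399) (nat_lit 318)) (XT.lf (nat_lit 152) (nat_lit 7216864271) (nat_lit 0) (nat_lit 6667241121) (nat_lit 76) (nat_lit 1307537711) (nat_lit 104) (nat_lit 1) (nat_lit 102) (nat_lit 1) (nat_lit 103) (nat_lit 1) (nat_lit 304) (nat_lit 399) (nat_lit 317)))) (XT.nd (nat_lit 156) (nat_lit 228) (nat_lit 0) (XT.nd (nat_lit 78) (nat_lit 76) (nat_lit 0) (XT.lf (nat_lit 76) (nat_lit 7040313885) (nat_lit 0) (nat_lit 875723469) (nat_lit 152) (nat_lit 7026312710) (nat_lit 101) (nat_lit 1) (nat_lit 100) (nat_lit 1) (nat_lit 102) (nat_lit 1) (nat_lit 305) (nat_lit 399) (nat_lit 316)) (XT.lf (nat_lit 0) (nat_lit 493223618) (nat_lit 0) (nat_lit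 8633798147) (nat_lit 152) (nat_lit 5570375196) (nat_lit 99) (nat_lit 3) (nat_lit 99) (nat_lit 1) (nat_lit 101) (nat_lit 1) (nat_lit 306) (nat_lit 399) (nat_lit 315))) (XT.nd (nat_lit 78) (nat_lit 76) (nat_lit 0) (XT.lf (nat_lit 76) (nat_lit 8524552337) (nat_lit 0) (nat_lit 1767983843) (nat_lit 152) (nat_lit 4163920919) (nat_lit 98) (nat_lit 1) (nat_lit 97) (nat_lit 1) (nat_lit 99) (nat_lit 1) (nat_lit 307) (nat_lit 399) (nat_lit 314)) (XT.lf (nat_lit 0) (nat_lit 2128701805) (nat_lit 0) (nat_lit 9297382454) (nat_lit 152) (nat_lit 2793737862) (nat_lit 96) (nat_lit 3) (nat_lit 96) (nat_lit 1) (nat_lit 98) (nat_lit 1) (nat_lit 308) (nat_lit 399) (nat_lit 313))))) (XT.nd (nat_lit 234) (nat_lit 456) (nat_lit 0) (XT.nd (nat_lit 78) (nat_lit 304) (nat_lit 0) (XT.lf (nat_lit 76) (nat_lit 9881027115) (nat_lit 0) (nat_lit 2641834619) (nat_lit 152) (nat_lit 1464390628) (nat_lit 95) (nat_lit 1) (nat_lit 94)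 (nat_lit 1) (nat_lit 96) (nat_lit 1) (nat_lit 309) (nat_lit 399) (nat_lit 312)) (XT.nd (nat_lit 78) (nat_lit 228) (nat_lit 0) (XT.lf (nat_lit 0) (nat_lit 3634490008) (nat_lit 0) (nat_lit 9947310077) (nat_lit 152) (nat_lit 176818783) (nat_lit 93) (nat_lit 3) (nat_lit 93) (nat_lit 1) (nat_lit 95) (nat_lit 1) (nat_lit 310) (nat_lit 399) (nat_lit 311)) (XT.lf (nat_lit 152) (nat_lit 10030711738) (nat_lit 0) (nat_lit 1098983864) (nat_lit 76) (nat_lit 2404067097) (nat_lit 92) (nat_lit 1) (nat_lit 90) (nat_lit 1) (nat_lit 91) (nat_lit 1) (nat_lit 311) (nat_lit 399) (nat_lit 310)))) (XT.nd (nat_lit 156) (nat_lit 228) (nat_lit 0) (XT.nd (nat_lit 78) (nat_lit 152) (nat_lit 0) (XT.lf (nat_lit 76) (nat_lit 2711100440) (nat_lit 0) (nat_lit 2331133719) (nat_lit 76) (nat_lit 8270240144) (nat_lit 90) (nat_lit 3) (nat_lit 89) (nat_lit 1) (nat_lit 90) (nat_lit 1) (nat_lit 312) (nat_lit 399) (nat_lit 309)) (XT.lf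 (nat_lit 152) (nat_lit 8745210986) (nat_lit 0) (nat_lit 3536256461) (nat_lit 76) (nat_lit 813829857) (nat_lit 89) (nat_lit 1) (nat_lit 87) (nat_lit 1) (nat_lit 88) (nat_lit 1) (nat_lit 313) (nat_lit 399) (nat_lit 308))) (XT.nd (nat_lit 78) (nat_lit 152) (nat_lit 0) (XT.lf (nat_lit 76) (nat_lit 1647726633) (nat_lit 0) (nat_lit 4690551537) (nat_lit 76) (nat_lit 6543167007) (nat_lit 87) (nat_lit 3) (nat_lit 86) (nat_lit 1) (nat_lit 87) (nat_lit 1) (nat_lit 314) (nat_lit 399) (nat_lit 307)) (XT.lf (nat_lit 0) (nat_lit 645402173) (nat_lit 0) (nat_lit 5171930490) (nat_lit 152) (nat_lit 6854172769) (nat_lit 84) (nat_lit 3) (nat_lit 84) (nat_lit 1) (nat_lit 86) (nat_lit 1) (nat_lit 315) (nat_lit 399) (nat_lit 306)))))) (XT.nd (nat_lit 546) (nat_lit 760) (nat_lit 0) (XT.nd (nat_lit 234) (nat_lit 532) (nat_lit 0) (XT.nd (nat_lit 78) (nat_lit 304) (nat_lit 0) (XT.lf (nat_lit 76) (nat_lit 625287093) (nat_lit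 0) (nat_lit 6903451794) (nat_lit 76) (nat_lit 4936266443) (nat_lit 84) (nat_lit 3) (nat_lit 83) (nat_lit 1) (nat_lit 84) (nat_lit 1) (nat_lit 316) (nat_lit 399) (nat_lit 305)) (XT.nd (nat_lit 78) (nat_lit 152) (nat_lit 0) (XT.lf (nat_lit 0) (nat_lit 1980626245) (nat_lit 0) (nat_lit 5966737525) (nat_lit 152) (nat_lit 4314448022) (nat_lit 81) (nat_lit 3) (nat_lit 81) (nat_lit 1) (nat_lit 83) (nat_lit 1) (nat_lit 317) (nat_lit 399) (nat_lit 304)) (XT.lf (nat_lit 76) (nat_lit 8624257810) (nat_lit 0) (nat_lit 347622739) (nat_lit 152) (nat_lit 3090622296) (nat_lit 80) (nat_lit 1) (nat_lit 79) (nat_lit 1) (nat_lit 81) (nat_lit 1) (nat_lit 318) (nat_lit 399) (nat_lit 303)))) (XT.nd (nat_lit 156) (nat_lit 304) (nat_lit 0) (XT.nd (nat_lit 78) (nat_lit 152) (nat_lit 0) (XT.lf (nat_lit 0) (nat_lit 3214858898) (nat_lit 0) (nat_lit 6725072913) (nat_lit 152) (nat_lit 1925982209) (nat_lit 78) (nat_lit 3) (nat_lit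 78) (nat_lit 1) (nat_lit 80) (nat_lit 1) (nat_lit 319) (nat_lit 399) (nat_lit 302)) (XT.lf (nat_lit 76) (nat_lit 9633692012) (nat_lit 0) (nat_lit 1265440730) (nat_lit 152) (nat_lit 774216284) (nat_lit 77) (nat_lit 1) (nat_lit 76) (nat_lit 1) (nat_lit 78) (nat_lit 1) (nat_lit 320) (nat_lit 399) (nat_lit 301))) (XT.nd (nat_lit 78) (nat_lit 152) (nat_lit 0) (XT.lf (nat_lit 76) (nat_lit 4034264118) (nat_lit 0) (nat_lit 323545437) (nat_lit 76) (nat_lit 7125397698) (nat_lit 75) (nat_lit 3) (nat_lit 74) (nat_lit 1) (nat_lit 75) (nat_lit 1) (nat_lit 321) (nat_lit 399) (nat_lit 300)) (XT.lf (nat_lit 152) (nat_lit 9143378961) (nat_lit 0) (nat_lit 1427536540) (nat_lit 76) (nat_lit 725898574) (nat_lit 74) (nat_lit 1) (nat_lit 72) (nat_lit 1) (nat_lit 73) (nat_lit 1) (nat_lit 322) (nat_lit 399) (nat_lit 299))))) (XT.nd (nat_lit 234) (nat_lit 456) (nat_lit 0) (XT.nd (nat_lit 78) (nat_lit 228) (nat_lit 0) (XT.lf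 (nat_lit 76) (nat_lit 2960688325) (nat_lit 0) (nat_lit 2469308175) (nat_lit 76) (nat_lit 5682775003) (nat_lit 72) (nat_lit 3) (nat_lit 71) (nat_lit 1) (nat_lit 72) (nat_lit 1) (nat_lit 323) (nat_lit 399) (nat_lit 298)) (XT.nd (nat_lit 78) (nat_lit 76) (nat_lit 0) (XT.lf (nat_lit 0) (nat_lit 491730577) (nat_lit 0) (nat_lit 3008685435) (nat_lit 152) (nat_lit 7432085855) (nat_lit 69) (nat_lit 3) (nat_lit 69) (nat_lit 1) (nat_lit 71) (nat_lit 1) (nat_lit 324) (nat_lit 399) (nat_lit 297)) (XT.lf (nat_lit 76) (nat_lit 1939342285) (nat_lit 0) (nat_lit 4478921439) (nat_lit 76) (nat_lit 4336442149) (nat_lit 69) (nat_lit 3) (nat_lit 68) (nat_lit 1) (nat_lit 69) (nat_lit 1) (nat_lit 325) (nat_lit 399) (nat_lit 296)))) (XT.nd (nat_lit 156) (nat_lit 228) (nat_lit 0) (XT.nd (nat_lit 78) (nat_lit 76) (nat_lit 0) (XT.lf (nat_lit 0) (nat_lit 1608562450) (nat_lit 0) (nat_lit 3825020947) (nat_lit 152) (nat_lit 5146561461)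 (nat_lit 66) (nat_lit 3) (nat_lit 66) (nat_lit 1) (nat_lit 68) (nat_lit 1) (nat_lit 326) (nat_lit 399) (nat_lit 295)) (XT.lf (nat_lit 76) (nat_lit 969718341) (nat_lit 0) (nat_lit 6358214219) (nat_lit 76) (nat_lit 3080631195) (nat_lit 66) (nat_lit 3) (nat_lit 65) (nat_lit 1) (nat_lit 66) (nat_lit 1) (nat_lit 327) (nat_lit 399) (nat_lit 294))) (XT.nd (nat_lit 78) (nat_lit 76) (nat_lit 0) (XT.lf (nat_lit 0) (nat_lit 2644061516) (nat_lit 0) (nat_lit 4595899569) (nat_lit 152) (nat_lit 2999553703) (nat_lit 63) (nat_lit 3) (nat_lit 63) (nat_lit 1) (nat_lit 65) (nat_lit 1) (nat_lit 328) (nat_lit 399) (nat_lit 293)) (XT.lf (nat_lit 76) (nat_lit 51069942) (nat_lit 0) (nat_lit 8112884726) (nat_lit 76) (nat_lit 1909963325) (nat_lit 63) (nat_lit 3) (nat_lit 62) (nat_lit 1) (nat_lit 63) (nat_lit 1) (nat_lit 329) (nat_lit 399) (nat_lit 292))))))))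
noncomputable def ec127 : XT := (XT.nd (nat_lit 51012) (nat_lit 0) (nat_lit 1520) (XT.nd (nat_lit 1092) (nat_lit 152) (nat_lit 0) (XT.nd (nat_lit 546) (nat_lit 912) (nat_lit 0) (XT.nd (nat_lit 234) (nat_lit 456) (nat_lit 0) (XT.nd (nat_lit 78) (nat_lit 304) (nat_lit 0) (XT.lf (nat_lit 0) (nat_lit 3603169136) (nat_lit 0) (nat_lit 5321979477) (nat_lit 152) (nat_lit 985044306) (nat_lit 60) (nat_lit 3) (nat_lit 60) (nat_lit 1) (nat_lit 62) (nat_lit 1) (nat_lit 330) (nat_lit 399) (nat_lit 291)) (XT.nd (nat_lit 78) (nat_lit 152) (nat_lit 0) (XT.lf (nat_lit 76) (nat_lit 8938802321) (nat_lit 0) (nat_lit 801592840) (nat_lit 152) (nat_lit 9728762) (nat_lit 59) (nat_lit 1) (nat_lit 58) (nat_lit 1) (nat_lit 60) (nat_lit 1) (nat_lit 331) (nat_lit 399) (nat_lit 290)) (XT.lf (nat_lit 76) (nat_lit 3578559555) (nat_lit 0) (nat_lit 920790057) (nat_lit 76) (nat_lit 5092163096) (nat_lit 57) (nat_lit 3) (nat_lit 56)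 (nat_lit 1) (nat_lit 57) (nat_lit 1) (nat_lit 332) (nat_lit 399) (nat_lit 289)))) (XT.nd (nat_lit 156) (nat_lit 228) (nat_lit 0) (XT.nd (nat_lit 78) (nat_lit 76) (nat_lit 0) (XT.lf (nat_lit 0) (nat_lit 225772927) (nat_lit 0) (nat_lit 1625313880) (nat_lit 152) (nat_lit 7585337284) (nat_lit 54) (nat_lit 3) (nat_lit 54) (nat_lit 1) (nat_lit 56) (nat_lit 1) (nat_lit 333) (nat_lit 399) (nat_lit 288)) (XT.lf (nat_lit 76) (nat_lit 2613670101) (nat_lit 0) (nat_lit 2722864881) (nat_lit 76) (nat_lit 3946566247) (nat_lit 54) (nat_lit 3) (nat_lit 53) (nat_lit 1) (nat_lit 54) (nat_lit 1) (nat_lit 334) (nat_lit 399) (nat_lit 287))) (XT.nd (nat_lit 78) (nat_lit 76) (nat_lit 0) (XT.lf (nat_lit 0) (nat_lit 1175853691) (nat_lit 0) (nat_lit 2408305051) (nat_lit 152) (nat_lit 5548718346) (nat_lit 51) (nat_lit 3) (nat_lit 51) (nat_lit 1) (nat_lit 53) (nat_lit 1) (nat_lit 335) (nat_lit 399) (nat_lit 286)) (XT.lf (nat_lit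 76) (nat_lit 1701958086) (nat_lit 0) (nat_lit 4407198624) (nat_lit 76) (nat_lit 2875721286) (nat_lit 51) (nat_lit 3) (nat_lit 50) (nat_lit 1) (nat_lit 51) (nat_lit 1) (nat_lit 336) (nat_lit 399) (nat_lit 285))))) (XT.nd (nat_lit 234) (nat_lit 532) (nat_lit 0) (XT.nd (nat_lit 78) (nat_lit 228) (nat_lit 0) (XT.lf (nat_lit 0) (nat_lit 2058760815) (nat_lit 0) (nat_lit 3144071218) (nat_lit 152) (nat_lit 3636524267) (nat_lit 48) (nat_lit 3) (nat_lit 48) (nat_lit 1) (nat_lit 50) (nat_lit 1) (nat_lit 337) (nat_lit 399) (nat_lit 284)) (XT.nd (nat_lit 78) (nat_lit 152) (nat_lit 0) (XT.lf (nat_lit 76) (nat_lit 841812141) (nat_lit 0) (nat_lit 5979234488) (nat_lit 76) (nat_lit 1875441096) (nat_lit 48) (nat_lit 3) (nat_lit 47) (nat_lit 1) (nat_lit 48) (nat_lit 1) (nat_lit 338) (nat_lit 399) (nat_lit 283)) (XT.lf (nat_lit 0) (nat_lit 2878347746) (nat_lit 0) (nat_lit 3834084181) (nat_lit 152) (nat_lit 1843080869)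 (nat_lit 45) (nat_lit 3) (nat_lit 45) (nat_lit 1) (nat_lit 47) (nat_lit 1) (nat_lit 339) (nat_lit 399) (nat_lit 282)))) (XT.nd (nat_lit 156) (nat_lit 304) (nat_lit 0) (XT.nd (nat_lit 78) (nat_lit 152) (nat_lit 0) (XT.lf (nat_lit 76) (nat_lit 31564699) (nat_lit 0) (nat_lit 7444234672) (nat_lit 76) (nat_lit 941789875) (nat_lit 45) (nat_lit 3) (nat_lit 44) (nat_lit 1) (nat_lit 45) (nat_lit 1) (nat_lit 340) (nat_lit 399) (nat_lit 281)) (XT.lf (nat_lit 0) (nat_lit 3638235589) (nat_lit 0) (nat_lit 4479867745) (nat_lit 152) (nat_lit 162908071) (nat_lit 42) (nat_lit 3) (nat_lit 42) (nat_lit 1) (nat_lit 44) (nat_lit 1) (nat_lit 341) (nat_lit 399) (nat_lit 280))) (XT.nd (nat_lit 78) (nat_lit 76) (nat_lit 0) (XT.lf (nat_lit 152) (nat_lit 7424820720) (nat_lit 0) (nat_lit 665387523) (nat_lit 76) (nat_lit 57243982) (nat_lit 41) (nat_lit 1) (nat_lit 39) (nat_lit 1) (nat_lit 40) (nat_lit 1) (nat_lit 342) (nat_lit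 399) (nat_lit 279)) (XT.lf (nat_lit 76) (nat_lit 2918318180) (nat_lit 0) (nat_lit 1437328509) (nat_lit 76) (nat_lit 3659468835) (nat_lit 39) (nat_lit 3) (nat_lit 38) (nat_lit 1) (nat_lit 39) (nat_lit 1) (nat_lit 343) (nat_lit 399) (nat_lit 278)))))) (XT.nd (nat_lit 49374) (nat_lit 0) (nat_lit 5016) (XT.nd (nat_lit 49062) (nat_lit 0) (nat_lit 5928) (XT.nd (nat_lit 48906) (nat_lit 0) (nat_lit 6460) (XT.lf (nat_lit 0) (nat_lit 761324848) (nat_lit 0) (nat_lit 1446623651) (nat_lit 152) (nat_lit 5677740809) (nat_lit 36) (nat_lit 3) (nat_lit 36) (nat_lit 1) (nat_lit 38) (nat_lit 1) (nat_lit 344) (nat_lit 399) (nat_lit 277)) (XT.nd (nat_lit 78) (nat_lit 76) (nat_lit 0) (XT.lf (nat_lit 76) (nat_lit 2931248841) (nat_lit 0) (nat_lit 4746378392) (nat_lit 228) (nat_lit 11803250414) (nat_lit 123) (nat_lit 1) (nat_lit 122) (nat_lit 1) (nat_lit 125) (nat_lit 1) (nat_lit 290) (nat_lit 400) (nat_lit 330)) (XT.lf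 (nat_lit 152) (nat_lit 4595698581) (nat_lit 0) (nat_lit 9141319716) (nat_lit 76) (nat_lit 5419686266) (nat_lit 123) (nat_lit 1) (nat_lit 121) (nat_lit 1) (nat_lit 122) (nat_lit 1) (nat_lit 291) (nat_lit 400) (nat_lit 329)))) (XT.nd (nat_lit 156) (nat_lit 228) (nat_lit 0) (XT.nd (nat_lit 78) (nat_lit 76) (nat_lit 0) (XT.lf (nat_lit 76) (nat_lit 5343845797) (nat_lit 0) (nat_lit 5227382740) (nat_lit 228) (nat_lit 8267305712) (nat_lit 119) (nat_lit 1) (nat_lit 118) (nat_lit 1) (nat_lit 121) (nat_lit 1) (nat_lit 292) (nat_lit 400) (nat_lit 328)) (XT.lf (nat_lit 152) (nat_lit 3770012675) (nat_lit 0) (nat_lit 11975725749) (nat_lit 76) (nat_lit 2780739046) (nat_lit 119) (nat_lit 1) (nat_lit 117) (nat_lit 1) (nat_lit 118) (nat_lit 1) (nat_lit 293) (nat_lit 400) (nat_lit 327))) (XT.nd (nat_lit 78) (nat_lit 76) (nat_lit 0) (XT.lf (nat_lit 76) (nat_lit 7541288003) (nat_lit 0) (nat_lit 5773791117) (nat_lit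 152) (nat_lit 4904167311) (nat_lit 116) (nat_lit 1) (nat_lit 115) (nat_lit 1) (nat_lit 117) (nat_lit 1) (nat_lit 294) (nat_lit 400) (nat_lit 326)) (XT.lf (nat_lit 152) (nat_lit 2897554641) (nat_lit 0) (nat_lit 14659759954) (nat_lit 76) (nat_lit 361451038) (nat_lit 116) (nat_lit 1) (nat_lit 114) (nat_lit 1) (nat_lit 115) (nat_lit 1) (nat_lit 295) (nat_lit 400) (nat_lit 325))))) (XT.nd (nat_lit 234) (nat_lit 456) (nat_lit 0) (XT.nd (nat_lit 78) (nat_lit 304) (nat_lit 0) (XT.lf (nat_lit 76) (nat_lit 9541353662) (nat_lit 0) (nat_lit 6368431333) (nat_lit 152) (nat_lit 1712212328) (nat_lit 113) (nat_lit 1) (nat_lit 112) (nat_lit 1) (nat_lit 114) (nat_lit 1) (nat_lit 296) (nat_lit 400) (nat_lit 324)) (XT.nd (nat_lit 78) (nat_lit 228) (nat_lit 0) (XT.lf (nat_lit 0) (nat_lit 1819621066) (nat_lit 0) (nat_lit 15356493867) (nat_lit 152) (nat_lit 155935205) (nat_lit 111) (nat_lit 3) (nat_lit 111) (nat_lit 1)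 (nat_lit 113) (nat_lit 1) (nat_lit 297) (nat_lit 400) (nat_lit 323)) (XT.lf (nat_lit 152) (nat_lit 10035923559) (nat_lit 0) (nat_lit 1337076373) (nat_lit 76) (nat_lit 5672448840) (nat_lit 110) (nat_lit 1) (nat_lit 108) (nat_lit 1) (nat_lit 109) (nat_lit 1) (nat_lit 298) (nat_lit 400) (nat_lit 322)))) (XT.nd (nat_lit 156) (nat_lit 228) (nat_lit 0) (XT.nd (nat_lit 78) (nat_lit 152) (nat_lit 0) (XT.lf (nat_lit 76) (nat_lit 1005841447) (nat_lit 0) (nat_lit 2832672459) (nat_lit 76) (nat_lit 12926562492) (nat_lit 108) (nat_lit 3) (nat_lit 107) (nat_lit 1) (nat_lit 108) (nat_lit 1) (nat_lit 299) (nat_lit 400) (nat_lit 321)) (XT.lf (nat_lit 152) (nat_lit 8801670999) (nat_lit 0) (nat_lit 4251474250) (nat_lit 76) (nat_lit 3435492209) (nat_lit 107) (nat_lit 1) (nat_lit 105) (nat_lit 1) (nat_lit 106) (nat_lit 1) (nat_lit 300) (nat_lit 400) (nat_lit 320))) (XT.nd (nat_lit 78) (nat_lit 152) (nat_lit 0) (XT.lf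 (nat_lit 76) (nat_lit 31128354) (nat_lit 0) (nat_lit 5658120603) (nat_lit 76) (nat_lit 10528648153) (nat_lit 105) (nat_lit 3) (nat_lit 104) (nat_lit 1) (nat_lit 105) (nat_lit 1) (nat_lit 301) (nat_lit 400) (nat_lit 319)) (XT.lf (nat_lit 152) (nat_lit 7577707485) (nat_lit 0) (nat_lit 7000603177) (nat_lit 76) (nat_lit 1372914596) (nat_lit 104) (nat_lit 1) (nat_lit 102) (nat_lit 1) (nat_lit 103) (nat_lit 1) (nat_lit 302) (nat_lit 400) (nat_lit 318))))))) (XT.nd (nat_lit 1092) (nat_lit 1748) (nat_lit 0) (XT.nd (nat_lit 546) (nat_lit 836) (nat_lit 0) (XT.nd (nat_lit 234) (nat_lit 532) (nat_lit 0) (XT.nd (nat_lit 78) (nat_lit 228) (nat_lit 0) (XT.lf (nat_lit 76) (nat_lit 7392329579) (nat_lit 0) (nat_lit 919509642) (nat_lit 152) (nat_lit 7377628345) (nat_lit 101) (nat_lit 1) (nat_lit 100) (nat_lit 1) (nat_lit 102) (nat_lit 1) (nat_lit 303) (nat_lit 400) (nat_lit 317)) (XT.nd (nat_lit 78) (nat_lit 152)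 (nat_lit 0) (XT.lf (nat_lit 0) (nat_lit 517884799) (nat_lit 0) (nat_lit 9065488055) (nat_lit 152) (nat_lit 5848893956) (nat_lit 99) (nat_lit 3) (nat_lit 99) (nat_lit 1) (nat_lit 101) (nat_lit 1) (nat_lit 304) (nat_lit 400) (nat_lit 316)) (XT.lf (nat_lit 76) (nat_lit 8950779954) (nat_lit 0) (nat_lit 1856383036) (nat_lit 152) (nat_lit 4372116965) (nat_lit 98) (nat_lit 1) (nat_lit 97) (nat_lit 1) (nat_lit 99) (nat_lit 1) (nat_lit 305) (nat_lit 400) (nat_lit 315)))) (XT.nd (nat_lit 156) (nat_lit 304) (nat_lit 0) (XT.nd (nat_lit 78) (nat_lit 152) (nat_lit 0) (XT.lf (nat_lit 0) (nat_lit 2235136895) (nat_lit 0) (nat_lit 9762251577) (nat_lit 152) (nat_lit 2933424755) (nat_lit 96) (nat_lit 3) (nat_lit 96) (nat_lit 1) (nat_lit 98) (nat_lit 1) (nat_lit 306) (nat_lit 400) (nat_lit 314)) (XT.lf (nat_lit 76) (nat_lit 10375078471) (nat_lit 0) (nat_lit 2773926349) (nat_lit 152) (nat_lit 1537610159) (nat_lit 95)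 (nat_lit 1) (nat_lit 94) (nat_lit 1) (nat_lit 96) (nat_lit 1) (nat_lit 307) (nat_lit 400) (nat_lit 313))) (XT.nd (nat_lit 78) (nat_lit 228) (nat_lit 0) (XT.lf (nat_lit 0) (nat_lit 3816214508) (nat_lit 0) (nat_lit 10444675580) (nat_lit 152) (nat_lit 185659722) (nat_lit 93) (nat_lit 3) (nat_lit 93) (nat_lit 1) (nat_lit 95) (nat_lit 1) (nat_lit 308) (nat_lit 400) (nat_lit 312)) (XT.lf (nat_lit 152) (nat_lit 10532247325) (nat_lit 0) (nat_lit 1153933057) (nat_lit 76) (nat_lit 2524270452) (nat_lit 92) (nat_lit 1) (nat_lit 90) (nat_lit 1) (nat_lit 91) (nat_lit 1) (nat_lit 309) (nat_lit 400) (nat_lit 311))))) (XT.nd (nat_lit 234) (nat_lit 532) (nat_lit 0) (XT.nd (nat_lit 78) (nat_lit 228) (nat_lit 0) (XT.lf (nat_lit 76) (nat_lit 2846655462) (nat_lit 0) (nat_lit 2447690405) (nat_lit 76) (nat_lit 8683752151) (nat_lit 90) (nat_lit 3) (nat_lit 89) (nat_lit 1) (nat_lit 90) (nat_lit 1) (nat_lit 310) (nat_lit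 400) (nat_lit 310)) (XT.nd (nat_lit 78) (nat_lit 76) (nat_lit 0) (XT.lf (nat_lit 152) (nat_lit 9182471536) (nat_lit 0) (nat_lit 3713069284) (nat_lit 76) (nat_lit 854521349) (nat_lit 89) (nat_lit 1) (nat_lit 87) (nat_lit 1) (nat_lit 88) (nat_lit 1) (nat_lit 311) (nat_lit 400) (nat_lit 309)) (XT.lf (nat_lit 76) (nat_lit 1730112964) (nat_lit 0) (nat_lit 4925079114) (nat_lit 76) (nat_lit 6870325358) (nat_lit 87) (nat_lit 3) (nat_lit 86) (nat_lit 1) (nat_lit 87) (nat_lit 1) (nat_lit 312) (nat_lit 400) (nat_lit 308)))) (XT.nd (nat_lit 156) (nat_lit 304) (nat_lit 0) (XT.nd (nat_lit 78) (nat_lit 76) (nat_lit 0) (XT.lf (nat_lit 0) (nat_lit 677672282) (nat_lit 0) (nat_lit 5430527014) (nat_lit 152) (nat_lit 7196881407) (nat_lit 84) (nat_lit 3) (nat_lit 84) (nat_lit 1) (nat_lit 86) (nat_lit 1) (nat_lit 313) (nat_lit 400) (nat_lit 307)) (XT.lf (nat_lit 76) (nat_lit 656551448) (nat_lit 0) (nat_lit 7248624384)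 (nat_lit 76) (nat_lit 5183079765) (nat_lit 84) (nat_lit 3) (nat_lit 83) (nat_lit 1) (nat_lit 84) (nat_lit 1) (nat_lit 314) (nat_lit 400) (nat_lit 306))) (XT.nd (nat_lit 78) (nat_lit 152) (nat_lit 0) (XT.lf (nat_lit 0) (nat_lit 2079657557) (nat_lit 0) (nat_lit 6265074401) (nat_lit 152) (nat_lit 4530170424) (nat_lit 81) (nat_lit 3) (nat_lit 81) (nat_lit 1) (nat_lit 83) (nat_lit 1) (nat_lit 315) (nat_lit 400) (nat_lit 305)) (XT.lf (nat_lit 76) (nat_lit 9055470701) (nat_lit 0) (nat_lit 365003876) (nat_lit 152) (nat_lit 3245153411) (nat_lit 80) (nat_lit 1) (nat_lit 79) (nat_lit 1) (nat_lit 81) (nat_lit 1) (nat_lit 316) (nat_lit 400) (nat_lit 304)))))) (XT.nd (nat_lit 546) (nat_lit 912) (nat_lit 0) (XT.nd (nat_lit 234) (nat_lit 456) (nat_lit 0) (XT.nd (nat_lit 78) (nat_lit 304) (nat_lit 0) (XT.lf (nat_lit 0) (nat_lit 3375601843) (nat_lit 0) (nat_lit 7061326558) (nat_lit 152) (nat_lit 2022281319) (nat_lit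 78) (nat_lit 3) (nat_lit 78) (nat_lit 1) (nat_lit 80) (nat_lit 1) (nat_lit 317) (nat_lit 400) (nat_lit 303)) (XT.nd (nat_lit 78) (nat_lit 152) (nat_lit 0) (XT.lf (nat_lit 76) (nat_lit 10115376613) (nat_lit 0) (nat_lit 1328712766) (nat_lit 152) (nat_lit 812927098) (nat_lit 77) (nat_lit 1) (nat_lit 76) (nat_lit 1) (nat_lit 78) (nat_lit 1) (nat_lit 318) (nat_lit 400) (nat_lit 302)) (XT.lf (nat_lit 76) (nat_lit 4235977324) (nat_lit 0) (nat_lit 339722709) (nat_lit 76) (nat_lit 7481667583) (nat_lit 75) (nat_lit 3) (nat_lit 74) (nat_lit 1) (nat_lit 75) (nat_lit 1) (nat_lit 319) (nat_lit 400) (nat_lit 301)))) (XT.nd (nat_lit 156) (nat_lit 228) (nat_lit 0) (XT.nd (nat_lit 78) (nat_lit 76) (nat_lit 0) (XT.lf (nat_lit 152) (nat_lit 9600547909) (nat_lit 0) (nat_lit 1498913367) (nat_lit 76) (nat_lit 762193502) (nat_lit 74) (nat_lit 1) (nat_lit 72) (nat_lit 1) (nat_lit 73) (nat_lit 1) (nat_lit 320) (nat_lit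 400) (nat_lit 300)) (XT.lf (nat_lit 76) (nat_lit 3108722741) (nat_lit 0) (nat_lit 2592773584) (nat_lit 76) (nat_lit 5966913753) (nat_lit 72) (nat_lit 3) (nat_lit 71) (nat_lit 1) (nat_lit 72) (nat_lit 1) (nat_lit 321) (nat_lit 400) (nat_lit 299))) (XT.nd (nat_lit 78) (nat_lit 76) (nat_lit 0) (XT.lf (nat_lit 0) (nat_lit 516317106) (nat_lit 0) (nat_lit 3159119707) (nat_lit 152) (nat_lit 7803690148) (nat_lit 69) (nat_lit 3) (nat_lit 69) (nat_lit 1) (nat_lit 71) (nat_lit 1) (nat_lit 322) (nat_lit 400) (nat_lit 298)) (XT.lf (nat_lit 76) (nat_lit 2036309399) (nat_lit 0) (nat_lit 4702867511) (nat_lit 76) (nat_lit 4553264256) (nat_lit 69) (nat_lit 3) (nat_lit 68) (nat_lit 1) (nat_lit 69) (nat_lit 1) (nat_lit 323) (nat_lit 400) (nat_lit 297))))) (XT.nd (nat_lit 234) (nat_lit 532) (nat_lit 0) (XT.nd (nat_lit 78) (nat_lit 228) (nat_lit 0) (XT.lf (nat_lit 0) (nat_lit 1688990573) (nat_lit 0) (nat_lit 4016271995)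 (nat_lit 152) (nat_lit 5403889534) (nat_lit 66) (nat_lit 3) (nat_lit 66) (nat_lit 1) (nat_lit 68) (nat_lit 1) (nat_lit 324) (nat_lit 400) (nat_lit 296)) (XT.nd (nat_lit 78) (nat_lit 152) (nat_lit 0) (XT.lf (nat_lit 76) (nat_lit 1018204258) (nat_lit 0) (nat_lit 6676124930) (nat_lit 76) (nat_lit 3234662755) (nat_lit 66) (nat_lit 3) (nat_lit 65) (nat_lit 1) (nat_lit 66) (nat_lit 1) (nat_lit 325) (nat_lit 400) (nat_lit 295)) (XT.lf (nat_lit 0) (nat_lit 2776264592) (nat_lit 0) (nat_lit 4825694547) (nat_lit 152) (nat_lit 3149531388) (nat_lit 63) (nat_lit 3) (nat_lit 63) (nat_lit 1) (nat_lit 65) (nat_lit 1) (nat_lit 326) (nat_lit 400) (nat_lit 294)))) (XT.nd (nat_lit 156) (nat_lit 304) (nat_lit 0) (XT.nd (nat_lit 78) (nat_lit 152) (nat_lit 0) (XT.lf (nat_lit 76) (nat_lit 53623439) (nat_lit 0) (nat_lit 8518528962) (nat_lit 76) (nat_lit 2005461492) (nat_lit 63) (nat_lit 3) (nat_lit 62) (nat_lit 1) (nat_lit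 63) (nat_lit 1) (nat_lit 327) (nat_lit 400) (nat_lit 293)) (XT.lf (nat_lit 0) (nat_lit 3783327593) (nat_lit 0) (nat_lit 5588078451) (nat_lit 152) (nat_lit 1034296522) (nat_lit 60) (nat_lit 3) (nat_lit 60) (nat_lit 1) (nat_lit 62) (nat_lit 1) (nat_lit 328) (nat_lit 400) (nat_lit 292))) (XT.nd (nat_lit 78) (nat_lit 152) (nat_lit 0) (XT.lf (nat_lit 76) (nat_lit 9385742437) (nat_lit 0) (nat_lit 841672483) (nat_lit 152) (nat_lit 10215200) (nat_lit 59) (nat_lit 1) (nat_lit 58) (nat_lit 1) (nat_lit 60) (nat_lit 1) (nat_lit 329) (nat_lit 400) (nat_lit 291)) (XT.lf (nat_lit 76) (nat_lit 3757487533) (nat_lit 0) (nat_lit 966829560) (nat_lit 76) (nat_lit 5346771251) (nat_lit 57) (nat_lit 3) (nat_lit 56) (nat_lit 1) (nat_lit 57) (nat_lit 1) (nat_lit 330) (nat_lit 400) (nat_lit 290))))))))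

set_option maxRecDepth 10000000 in
noncomputable def Tp : PT := (PT.nd (nat_lit 9361326) (PT.nd (nat_lit 8512452) (PT.nd (nat_lit 7238634) (PT.nd (nat_lit 5752344) (PT.nd (nat_lit 4903080) pc0 pc1) (PT.nd (nat_lit 796302) pc2 pc3)) (PT.nd (nat_lit 796380) (PT.nd (nat_lit 477750) pc4 pc5) (PT.nd (nat_lit 265356) pc6 pc7))) (PT.nd (nat_lit 530634) (PT.nd (nat_lit 318084) (PT.nd (nat_lit 159354) pc8 pc9) (PT.nd (nat_lit 106470) pc10 pc11)) (PT.nd (nat_lit 159666) (PT.nd (nat_lit 105456) pc12 pc13) (PT.nd (nat_lit 104832) pc14 pc15)))) (PT.nd (nat_lit 586014) (PT.nd (nat_lit 213252) (PT.nd (nat_lit 106938) (PT.nd (nat_lit 53508) pc16 pc17) (PT.nd (nat_lit 53196) pc18 pc19)) (PT.nd (nat_lit 157404) (PT.nd (nat_lit 53664) pc20 pc21) (PT.nd (nat_lit 105690) pc22 pc23))) (PT.nd (nat_lit 745056) (PT.nd (nat_lit 319488) (PT.nd (nat_lit 155298) pc24 pc25) (PT.nd (nat_lit 212784) pc26 pc27)) (PT.nd (nat_lit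 425490) (PT.nd (nat_lit 212706) pc28 pc29) (PT.nd (nat_lit 255684) pc30 pc31)))))

set_option maxRecDepth 10000000 in
noncomputable def Tx : XT := (XT.nd (nat_lit 15438618) (nat_lit 0) (nat_lit 836) XT.nil (XT.nd (nat_lit 6903858) (nat_lit 0) (nat_lit 0) (XT.nd (nat_lit 3131154) (nat_lit 0) (nat_lit 5928) (XT.nd (nat_lit 2172534) (nat_lit 0) (nat_lit 3648) (XT.nd (nat_lit 1486758) (nat_lit 0) (nat_lit 2128) (XT.nd (nat_lit 1060020) (nat_lit 0) (nat_lit 1140) (XT.nd (nat_lit 741858) (nat_lit 0) (nat_lit 684) (XT.nd (nat_lit 477984) (nat_lit 0) (nat_lit 304) (XT.nd (nat_lit 318630) (nat_lit 0) (nat_lit 228) xc0 xc1) (XT.nd (nat_lit 157950) (nat_lit 0) (nat_lit 152) xc2 xc3)) (XT.nd (nat_lit 159744) (nat_lit 0) (nat_lit 228) (XT.nd (nat_lit 54756) (nat_lit 0) (nat_lit 0) xc4 xc5) (XT.nd (nat_lit 54366) (nat_lit 0) (nat_lit 76) xc6 xc7))) (XT.nd (nat_lit 214578) (nat_lit 0) (nat_lit 456) (XT.nd (nat_lit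 107562) (nat_lit 0) (nat_lit 228) (XT.nd (nat_lit 53820) (nat_lit 0) (nat_lit 76) xc8 xc9) (XT.nd (nat_lit 53586) (nat_lit 0) (nat_lit 76) xc10 xc11)) (XT.nd (nat_lit 106392) (nat_lit 0) (nat_lit 152) (XT.nd (nat_lit 53274) (nat_lit 0) (nat_lit 76) xc12 xc13) (XT.nd (nat_lit 52962) (nat_lit 0) (nat_lit 152) xc14 xc15)))) (XT.nd (nat_lit 369954) (nat_lit 0) (nat_lit 836) (XT.nd (nat_lit 209898) (nat_lit 0) (nat_lit 456) (XT.nd (nat_lit 105222) (nat_lit 0) (nat_lit 228) (XT.nd (nat_lit 52650) (nat_lit 0) (nat_lit 152) xc16 xc17) (XT.nd (nat_lit 52416) (nat_lit 0) (nat_lit 76) xc18 xc19)) (XT.nd (nat_lit 104052) (nat_lit 0) (nat_lit 228) (XT.nd (nat_lit 52104) (nat_lit 0) (nat_lit 76) xc20 xc21) (XT.nd (nat_lit 4212) (nat_lit 1824) (nat_lit 0) xc22 xc23))) (XT.nd (nat_lit 158574) (nat_lit 0) (nat_lit 304) (XT.nd (nat_lit 103038) (nat_lit 0) (nat_lit 228) (XT.nd (nat_lit 51558) (nat_lit 0) (nat_lit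 76) xc24 xc25) (XT.nd (nat_lit 4212) (nat_lit 2280) (nat_lit 0) xc26 xc27)) (XT.nd (nat_lit 55380) (nat_lit 0) (nat_lit 152) (XT.nd (nat_lit 51168) (nat_lit 0) (nat_lit 1596) xc28 xc29) (XT.nd (nat_lit 51012) (nat_lit 0) (nat_lit 76) xc30 xc31))))) (XT.nd (nat_lit 480012) (nat_lit 0) (nat_lit 1216) (XT.nd (nat_lit 264420) (nat_lit 0) (nat_lit 532) (XT.nd (nat_lit 109590) (nat_lit 0) (nat_lit 228) (XT.nd (nat_lit 54834) (nat_lit 0) (nat_lit 76) (XT.nd (nat_lit 4134) (nat_lit 1900) (nat_lit 0) xc32 xc33) (XT.nd (nat_lit 50544) (nat_lit 0) (nat_lit 3344) xc34 xc35)) (XT.nd (nat_lit 54522) (nat_lit 0) (nat_lit 76) (XT.nd (nat_lit 50310) (nat_lit 0) (nat_lit 988) xc36 xc37) (XT.nd (nat_lit 50232) (nat_lit 0) (nat_lit 152) xc38 xc39))) (XT.nd (nat_lit 108030) (nat_lit 0) (nat_lit 228) (XT.nd (nat_lit 54054) (nat_lit 0) (nat_lit 152) (XT.nd (nat_lit 4134) (nat_lit 3876) (nat_lit 0) xc40 xc41) (XT.nd (nat_lit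 4212) (nat_lit 2128) (nat_lit 0) xc42 xc43)) (XT.nd (nat_lit 53820) (nat_lit 0) (nat_lit 304) (XT.nd (nat_lit 4212) (nat_lit 836) (nat_lit 0) xc44 xc45) (XT.nd (nat_lit 49530) (nat_lit 0) (nat_lit 6080) xc46 xc47)))) (XT.nd (nat_lit 215670) (nat_lit 0) (nat_lit 456) (XT.nd (nat_lit 107640) (nat_lit 0) (nat_lit 228) (XT.nd (nat_lit 53742) (nat_lit 0) (nat_lit 76) (XT.nd (nat_lit 49530) (nat_lit 0) (nat_lit 4712) xc48 xc49) (XT.nd (nat_lit 49686) (nat_lit 0) (nat_lit 3116) xc50 xc51)) (XT.nd (nat_lit 53976) (nat_lit 0) (nat_lit 152) (XT.nd (nat_lit 49764) (nat_lit 0) (nat_lit 1748) xc52 xc53) (XT.nd (nat_lit 49842) (nat_lit 0) (nat_lit 228) xc54 xc55))) (XT.nd (nat_lit 154128) (nat_lit 0) (nat_lit 380) (XT.nd (nat_lit 99840) (nat_lit 0) (nat_lit 228) (XT.nd (nat_lit 49842) (nat_lit 0) (nat_lit 152) xc56 xc57) (XT.nd (nat_lit 4212) (nat_lit 4028) (nat_lit 0) xc58 xc59)) (XT.nd (nat_lit 54366) (nat_lit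 0) (nat_lit 76) (XT.nd (nat_lit 4212) (nat_lit 1748) (nat_lit 0) xc60 xc61) (XT.nd (nat_lit 50232) (nat_lit 0) (nat_lit 5320) xc62 xc63)))))) (XT.nd (nat_lit 1169220) (nat_lit 0) (nat_lit 3116) (XT.nd (nat_lit 532116) (nat_lit 0) (nat_lit 1368) (XT.nd (nat_lit 264888) (nat_lit 0) (nat_lit 760) (XT.nd (nat_lit 155298) (nat_lit 0) (nat_lit 380) (XT.nd (nat_lit 54444) (nat_lit 0) (nat_lit 76) (XT.nd (nat_lit 50232) (nat_lit 0) (nat_lit 2432) xc64 xc65) (XT.nd (nat_lit 50388) (nat_lit 0) (nat_lit 228) xc66 xc67)) (XT.nd (nat_lit 54678) (nat_lit 0) (nat_lit 228) (XT.nd (nat_lit 4134) (nat_lit 5168) (nat_lit 0) xc68 xc69) (XT.nd (nat_lit 4212) (nat_lit 1520) (nat_lit 0) xc70 xc71))) (XT.nd (nat_lit 156702) (nat_lit 0) (nat_lit 380) (XT.nd (nat_lit 54912) (nat_lit 0) (nat_lit 76) (XT.nd (nat_lit 50700) (nat_lit 0) (nat_lit 2964) xc72 xc73) (XT.nd (nat_lit 50856) (nat_lit 0) (nat_lit 152) xc74 xc75)) (XT.nd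 (nat_lit 55224) (nat_lit 0) (nat_lit 76) (XT.nd (nat_lit 4212) (nat_lit 3344) (nat_lit 0) xc76 xc77) (XT.nd (nat_lit 51090) (nat_lit 0) (nat_lit 3420) xc78 xc79)))) (XT.nd (nat_lit 316836) (nat_lit 0) (nat_lit 836) (XT.nd (nat_lit 157872) (nat_lit 0) (nat_lit 380) (XT.nd (nat_lit 102336) (nat_lit 0) (nat_lit 304) (XT.nd (nat_lit 51090) (nat_lit 0) (nat_lit 76) xc80 xc81) (XT.nd (nat_lit 4212) (nat_lit 2660) (nat_lit 0) xc82 xc83)) (XT.nd (nat_lit 55692) (nat_lit 0) (nat_lit 152) (XT.nd (nat_lit 51480) (nat_lit 0) (nat_lit 1292) xc84 xc85) (XT.nd (nat_lit 51558) (nat_lit 0) (nat_lit 228) xc86 xc87))) (XT.nd (nat_lit 159744) (nat_lit 0) (nat_lit 532) (XT.nd (nat_lit 55926) (nat_lit 0) (nat_lit 228) (XT.nd (nat_lit 51714) (nat_lit 0) (nat_lit 1672) xc88 xc89) (XT.nd (nat_lit 51870) (nat_lit 0) (nat_lit 76) xc90 xc91)) (XT.nd (nat_lit 104130) (nat_lit 0) (nat_lit 304) (XT.nd (nat_lit 52026) (nat_lit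 0) (nat_lit 76) xc92 xc93) (XT.nd (nat_lit 4212) (nat_lit 2128) (nat_lit 0) xc94 xc95))))) (XT.nd (nat_lit 798252) (nat_lit 0) (nat_lit 3800) (XT.nd (nat_lit 371982) (nat_lit 0) (nat_lit 1368) (XT.nd (nat_lit 209664) (nat_lit 0) (nat_lit 912) (XT.nd (nat_lit 104598) (nat_lit 0) (nat_lit 608) (XT.nd (nat_lit 52260) (nat_lit 0) (nat_lit 304) xc96 xc97) (XT.nd (nat_lit 52494) (nat_lit 0) (nat_lit 152) xc98 xc99)) (XT.nd (nat_lit 56784) (nat_lit 0) (nat_lit 152) (XT.nd (nat_lit 4134) (nat_lit 1140) (nat_lit 0) xc100 xc101) (XT.nd (nat_lit 52728) (nat_lit 0) (nat_lit 152) xc102 xc103))) (XT.nd (nat_lit 212316) (nat_lit 0) (nat_lit 1292) (XT.nd (nat_lit 105846) (nat_lit 0) (nat_lit 912) (XT.nd (nat_lit 52806) (nat_lit 0) (nat_lit 152) xc104 xc105) (XT.nd (nat_lit 53196) (nat_lit 0) (nat_lit 152) xc106 xc107)) (XT.nd (nat_lit 106782) (nat_lit 0) (nat_lit 532) (XT.nd (nat_lit 53352) (nat_lit 0) (nat_lit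 304) xc108 xc109) (XT.nd (nat_lit 53508) (nat_lit 0) (nat_lit 380) xc110 xc111)))) (XT.nd (nat_lit 583284) (nat_lit 0) (nat_lit 3496) (XT.nd (nat_lit 265200) (nat_lit 0) (nat_lit 1444) (XT.nd (nat_lit 157170) (nat_lit 0) (nat_lit 684) (XT.nd (nat_lit 103272) (nat_lit 0) (nat_lit 456) xc112 xc113) (XT.nd (nat_lit 53976) (nat_lit 0) (nat_lit 304) xc114 xc115)) (XT.nd (nat_lit 158652) (nat_lit 0) (nat_lit 912) (XT.nd (nat_lit 104286) (nat_lit 0) (nat_lit 532) xc116 xc117) (XT.nd (nat_lit 104754) (nat_lit 0) (nat_lit 836) xc118 xc119))) (XT.nd (nat_lit 372528) (nat_lit 0) (nat_lit 3344) (XT.nd (nat_lit 211068) (nat_lit 0) (nat_lit 1748) (XT.nd (nat_lit 105300) (nat_lit 0) (nat_lit 684) xc120 xc121) (XT.nd (nat_lit 55146) (nat_lit 0) (nat_lit 380) xc122 xc123)) (XT.nd (nat_lit 317304) (nat_lit 0) (nat_lit 3952) (XT.nd (nat_lit 158184) (nat_lit 0) (nat_lit 1824) xc124 xc125) (XT.nd (nat_lit 160134) (nat_lit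 0) (nat_lit 1824) xc126 xc127))))))) XT.nil))

set_option maxRecDepth 10000000 in
noncomputable def Te : XT := (XT.nd (nat_lit 16656744) (nat_lit 0) (nat_lit 76) XT.nil (XT.nd (nat_lit 4616274) (nat_lit 0) (nat_lit 0) (XT.nd (nat_lit 3079284) (nat_lit 3572) (nat_lit 0) (XT.nd (nat_lit 2173392) (nat_lit 3876) (nat_lit 0) (XT.nd (nat_lit 1535898) (nat_lit 3724) (nat_lit 0) (XT.nd (nat_lit 1060410) (nat_lit 3876) (nat_lit 0) (XT.nd (nat_lit 742014) (nat_lit 3800) (nat_lit 0) (XT.nd (nat_lit 529542) (nat_lit 3420) (nat_lit 0) (XT.nd (nat_lit 370656) (nat_lit 3344) (nat_lit 0) ec0 ec1) (XT.nd (nat_lit 106548) (nat_lit 1596) (nat_lit 0) ec2 ec3)) (XT.nd (nat_lit 159900) (nat_lit 1748) (nat_lit 0) (XT.nd (nat_lit 105300) (nat_lit 684) (nat_lit 0) ec4 ec5) (XT.nd (nat_lit 104364) (nat_lit 532) (nat_lit 0) ec6 ec7))) (XT.nd (nat_lit 263796) (nat_lit 1292) (nat_lit 0) (XT.nd (nat_lit 107874) (nat_lit 1824)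 (nat_lit 0) (XT.nd (nat_lit 53976) (nat_lit 532) (nat_lit 0) ec8 ec9) (XT.nd (nat_lit 53586) (nat_lit 684) (nat_lit 0) ec10 ec11)) (XT.nd (nat_lit 106080) (nat_lit 532) (nat_lit 0) (XT.nd (nat_lit 53118) (nat_lit 380) (nat_lit 0) ec12 ec13) (XT.nd (nat_lit 52884) (nat_lit 304) (nat_lit 0) ec14 ec15)))) (XT.nd (nat_lit 321750) (nat_lit 1748) (nat_lit 0) (XT.nd (nat_lit 161538) (nat_lit 1064) (nat_lit 0) (XT.nd (nat_lit 56862) (nat_lit 608) (nat_lit 0) (XT.nd (nat_lit 4290) (nat_lit 836) (nat_lit 0) ec16 ec17) (XT.nd (nat_lit 52416) (nat_lit 304) (nat_lit 0) ec18 ec19)) (XT.nd (nat_lit 104052) (nat_lit 304) (nat_lit 0) (XT.nd (nat_lit 52104) (nat_lit 304) (nat_lit 0) ec20 ec21) (XT.nd (nat_lit 4368) (nat_lit 608) (nat_lit 0) ec22 ec23))) (XT.nd (nat_lit 158808) (nat_lit 988) (nat_lit 0) (XT.nd (nat_lit 103116) (nat_lit 228) (nat_lit 0) (XT.nd (nat_lit 51636) (nat_lit 228) (nat_lit 0) ec24 ec25) (XT.nd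 (nat_lit 4368) (nat_lit 684) (nat_lit 0) ec26 ec27)) (XT.nd (nat_lit 55380) (nat_lit 380) (nat_lit 0) (XT.nd (nat_lit 51012) (nat_lit 76) (nat_lit 0) ec28 ec29) (XT.nd (nat_lit 50856) (nat_lit 228) (nat_lit 0) ec30 ec31))))) (XT.nd (nat_lit 480636) (nat_lit 1824) (nat_lit 0) (XT.nd (nat_lit 264576) (nat_lit 912) (nat_lit 0) (XT.nd (nat_lit 109746) (nat_lit 760) (nat_lit 0) (XT.nd (nat_lit 54912) (nat_lit 228) (nat_lit 0) (XT.nd (nat_lit 4290) (nat_lit 608) (nat_lit 0) ec32 ec33) (XT.nd (nat_lit 50466) (nat_lit 0) (nat_lit 1596) ec34 ec35)) (XT.nd (nat_lit 100464) (nat_lit 228) (nat_lit 0) (XT.nd (nat_lit 50310) (nat_lit 228) (nat_lit 0) ec36 ec37) (XT.nd (nat_lit 4368) (nat_lit 4560) (nat_lit 0) ec38 ec39))) (XT.nd (nat_lit 108264) (nat_lit 532) (nat_lit 0) (XT.nd (nat_lit 54132) (nat_lit 152) (nat_lit 0) (XT.nd (nat_lit 4290) (nat_lit 2280) (nat_lit 0) ec40 ec41) (XT.nd (nat_lit 4368) (nat_lit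 380) (nat_lit 0) ec42 ec43)) (XT.nd (nat_lit 53976) (nat_lit 304) (nat_lit 0) (XT.nd (nat_lit 49608) (nat_lit 0) (nat_lit 4408) ec44 ec45) (XT.nd (nat_lit 49452) (nat_lit 0) (nat_lit 3040) ec46 ec47)))) (XT.nd (nat_lit 213720) (nat_lit 1064) (nat_lit 0) (XT.nd (nat_lit 107094) (nat_lit 304) (nat_lit 0) (XT.nd (nat_lit 53586) (nat_lit 228) (nat_lit 0) (XT.nd (nat_lit 49218) (nat_lit 0) (nat_lit 2280) ec48 ec49) (XT.nd (nat_lit 49140) (nat_lit 0) (nat_lit 1596) ec50 ec51)) (XT.nd (nat_lit 53352) (nat_lit 76) (nat_lit 0) (XT.nd (nat_lit 48984) (nat_lit 0) (nat_lit 1216) ec52 ec53) (XT.nd (nat_lit 48906) (nat_lit 0) (nat_lit 760) ec54 ec55))) (XT.nd (nat_lit 106080) (nat_lit 456) (nat_lit 0) (XT.nd (nat_lit 53118) (nat_lit 304) (nat_lit 0) (XT.nd (nat_lit 48750) (nat_lit 0) (nat_lit 836) ec56 ec57) (XT.nd (nat_lit 48594) (nat_lit 0) (nat_lit 1140) ec58 ec59)) (XT.nd (nat_lit 52806) (nat_lit 228) (nat_lit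 0) (XT.nd (nat_lit 48438) (nat_lit 0) (nat_lit 1596) ec60 ec61) (XT.nd (nat_lit 48282) (nat_lit 0) (nat_lit 2356) ec62 ec63)))))) (XT.nd (nat_lit 740844) (nat_lit 760) (nat_lit 0) (XT.nd (nat_lit 416442) (nat_lit 1216) (nat_lit 0) (XT.nd (nat_lit 209274) (nat_lit 684) (nat_lit 0) (XT.nd (nat_lit 104910) (nat_lit 608) (nat_lit 0) (XT.nd (nat_lit 52494) (nat_lit 228) (nat_lit 0) (XT.nd (nat_lit 48126) (nat_lit 0) (nat_lit 3192) ec64 ec65) (XT.nd (nat_lit 48048) (nat_lit 0) (nat_lit 4256) ec66 ec67)) (XT.nd (nat_lit 52260) (nat_lit 228) (nat_lit 0) (XT.nd (nat_lit 47892) (nat_lit 0) (nat_lit 5776) ec68 ec69) (XT.nd (nat_lit 47736) (nat_lit 0) (nat_lit 7752) ec70 ec71))) (XT.nd (nat_lit 103818) (nat_lit 380) (nat_lit 0) (XT.nd (nat_lit 51948) (nat_lit 228) (nat_lit 0) (XT.nd (nat_lit 4290) (nat_lit 684) (nat_lit 0) ec72 ec73) (XT.nd (nat_lit 4368) (nat_lit 2356) (nat_lit 0) ec74 ec75)) (XT.nd (nat_lit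 51714) (nat_lit 152) (nat_lit 0) (XT.nd (nat_lit 4368) (nat_lit 4332) (nat_lit 0) ec76 ec77) (XT.nd (nat_lit 4368) (nat_lit 6460) (nat_lit 0) ec78 ec79)))) (XT.nd (nat_lit 162708) (nat_lit 532) (nat_lit 0) (XT.nd (nat_lit 60138) (nat_lit 380) (nat_lit 0) (XT.nd (nat_lit 8658) (nat_lit 2052) (nat_lit 0) (XT.nd (nat_lit 4290) (nat_lit 7448) (nat_lit 0) ec80 ec81) (XT.nd (nat_lit 47112) (nat_lit 0) (nat_lit 4408) ec82 ec83)) (XT.nd (nat_lit 51324) (nat_lit 152) (nat_lit 0) (XT.nd (nat_lit 46956) (nat_lit 0) (nat_lit 7220) ec84 ec85) (XT.nd (nat_lit 4368) (nat_lit 380) (nat_lit 0) ec86 ec87))) (XT.nd (nat_lit 102102) (nat_lit 228) (nat_lit 0) (XT.nd (nat_lit 51090) (nat_lit 76) (nat_lit 0) (XT.nd (nat_lit 4368) (nat_lit 3420) (nat_lit 0) ec88 ec89) (XT.nd (nat_lit 4368) (nat_lit 6460) (nat_lit 0) ec90 ec91)) (XT.nd (nat_lit 8736) (nat_lit 2812) (nat_lit 0) (XT.nd (nat_lit 4368) (nat_lit 7448) (nat_lit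 0) ec92 ec93) (XT.nd (nat_lit 46488) (nat_lit 0) (nat_lit 6232) ec94 ec95))))) (XT.nd (nat_lit 364884) (nat_lit 0) (nat_lit 0) (XT.nd (nat_lit 160758) (nat_lit 152) (nat_lit 0) (XT.nd (nat_lit 101400) (nat_lit 228) (nat_lit 0) (XT.nd (nat_lit 50700) (nat_lit 228) (nat_lit 0) (XT.nd (nat_lit 46332) (nat_lit 0) (nat_lit 10412) ec96 ec97) (XT.nd (nat_lit 4368) (nat_lit 3192) (nat_lit 0) ec98 ec99)) (XT.nd (nat_lit 50622) (nat_lit 0) (nat_lit 3800) (XT.nd (nat_lit 4368) (nat_lit 7068) (nat_lit 0) ec100 ec101) (XT.nd (nat_lit 4368) (nat_lit 7524) (nat_lit 0) ec102 ec103))) (XT.nd (nat_lit 101712) (nat_lit 76) (nat_lit 0) (XT.nd (nat_lit 50778) (nat_lit 0) (nat_lit 0) (XT.nd (nat_lit 46410) (nat_lit 0) (nat_lit 7372) ec104 ec105) (XT.nd (nat_lit 4368) (nat_lit 304) (nat_lit 0) ec106 ec107)) (XT.nd (nat_lit 51090) (nat_lit 0) (nat_lit 0) (XT.nd (nat_lit 4368) (nat_lit 3724) (nat_lit 0) ec108 ec109) (XT.nd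 (nat_lit 4368) (nat_lit 6688) (nat_lit 0) ec110 ec111)))) (XT.nd (nat_lit 164814) (nat_lit 0) (nat_lit 380) (XT.nd (nat_lit 60294) (nat_lit 0) (nat_lit 76) (XT.nd (nat_lit 8658) (nat_lit 2432) (nat_lit 0) (XT.nd (nat_lit 4290) (nat_lit 7068) (nat_lit 0) ec112 ec113) (XT.nd (nat_lit 47268) (nat_lit 0) (nat_lit 4636) ec114 ec115)) (XT.nd (nat_lit 52026) (nat_lit 0) (nat_lit 76) (XT.nd (nat_lit 47658) (nat_lit 0) (nat_lit 6004) ec116 ec117) (XT.nd (nat_lit 48126) (nat_lit 0) (nat_lit 6612) ec118 ec119))) (XT.nd (nat_lit 107016) (nat_lit 0) (nat_lit 912) (XT.nd (nat_lit 53118) (nat_lit 0) (nat_lit 456) (XT.nd (nat_lit 48750) (nat_lit 0) (nat_lit 6156) ec120 ec121) (XT.nd (nat_lit 49530) (nat_lit 0) (nat_lit 4256) ec122 ec123)) (XT.nd (nat_lit 54756) (nat_lit 0) (nat_lit 532) (XT.nd (nat_lit 50388) (nat_lit 0) (nat_lit 912) ec124 ec125) (XT.nd (nat_lit 51480) (nat_lit 0) (nat_lit 836) ec126 ec127)))))))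 XT.nil))

set_option maxRecDepth 10000000 in
noncomputable def Tz : ZL := (ZL.cons (nat_lit 8056) (nat_lit 3) (nat_lit 423212656158221467293) (ZL.cons (nat_lit 8132) (nat_lit 6) (nat_lit 826293036406550757850) (ZL.cons (nat_lit 8284) (nat_lit 3) (nat_lit 403080730943531295199) (ZL.cons (nat_lit 8360) (nat_lit 6) (nat_lit 786989971623592554712) (ZL.cons (nat_lit 8512) (nat_lit 3) (nat_lit 383909627321521469630) (ZL.cons (nat_lit 8588) (nat_lit 6) (nat_lit 749563014177268262220) (ZL.cons (nat_lit 8740) (nat_lit 3) (nat_lit 365653813127956674245) (ZL.cons (nat_lit 8816) (nat_lit 6) (nat_lit 713923290237350135910) (ZL.cons (nat_lit 8968) (nat_lit 3) (nat_lit 348269947074504856189) (ZL.cons (nat_lit 9044) (nat_lit 6) (nat_lit 679986205683737455136) (ZL.cons (nat_lit 9196) (nat_lit 3) (nat_lit 331716776745767911410) (ZL.cons (nat_lit 9272) (nat_lit 6) (nat_lit 647671247192090954094) (ZL.cons (nat_lit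 9424) (nat_lit 3) (nat_lit 315955041691853224674) (ZL.cons (nat_lit 9500) (nat_lit 6) (nat_lit 616901793291918762418) (ZL.cons (nat_lit 9652) (nat_lit 3) (nat_lit 300947381398262563389) (ZL.cons (nat_lit 9728) (nat_lit 6) (nat_lit 587604934973519945594) (ZL.cons (nat_lit 9804) (nat_lit 6) (nat_lit 573998286423324635106) (ZL.cons (nat_lit 9880) (nat_lit 3) (nat_lit 286658247927769602979) (ZL.cons (nat_lit 9956) (nat_lit 6) (nat_lit 559711305445619559092) (ZL.cons (nat_lit 10032) (nat_lit 6) (nat_lit 546756970433261196314) (ZL.cons (nat_lit 10108) (nat_lit 3) (nat_lit 273053823041494679515) (ZL.cons (nat_lit 10184) (nat_lit 6) (nat_lit 533154918670284915398) (ZL.cons (nat_lit 10260) (nat_lit 6) (nat_lit 520822283380333122376) (ZL.cons (nat_lit 10336) (nat_lit 3) (nat_lit 260101939618608543434) (ZL.cons (nat_lit 10412) (nat_lit 6) (nat_lit 507873016325883739702) (ZL.cons (nat_lit 10488) (nat_lit 6)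 (nat_lit 496132970738876937360) (ZL.cons (nat_lit 10564) (nat_lit 3) (nat_lit 247772007206049880343) (ZL.cons (nat_lit 10640) (nat_lit 6) (nat_lit 483805922872519794902) (ZL.cons (nat_lit 10716) (nat_lit 6) (nat_lit 472630793870144842432) (ZL.cons (nat_lit 10792) (nat_lit 3) (nat_lit 236034941541369003752) (ZL.cons (nat_lit 10868) (nat_lit 6) (nat_lit 460896908417651142338) (ZL.cons (nat_lit 10944) (nat_lit 6) (nat_lit 450260396556628040200) (ZL.cons (nat_lit 11020) (nat_lit 3) (nat_lit 224863097903358384420) (ZL.cons (nat_lit 11096) (nat_lit 6) (nat_lit 439092059102553782958) (ZL.cons (nat_lit 11172) (nat_lit 6) (nat_lit 428969178932057034722) (ZL.cons (nat_lit 11248) (nat_lit 3) (nat_lit 214230208156546959570) (ZL.cons (nat_lit 11324) (nat_lit 6) (nat_lit 418340154753035449074) (ZL.cons (nat_lit 11400) (nat_lit 6) (nat_lit 408707178561521090686) (ZL.cons (nat_lit 11476) (nat_lit 3) (nat_lit 204111321366968585543)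 (ZL.cons (nat_lit 11552) (nat_lit 6) (nat_lit 398592553560431014380) (ZL.cons (nat_lit 11628) (nat_lit 6) (nat_lit 389426958448770535726) (ZL.cons (nat_lit 11704) (nat_lit 3) (nat_lit 194482747877916734719) (ZL.cons (nat_lit 11780) (nat_lit 6) (nat_lit 379803083581527033140) (ZL.cons (nat_lit 11856) (nat_lit 6) (nat_lit 371083501770430023488) (ZL.cons (nat_lit 11932) (nat_lit 3) (nat_lit 185322006745721170656) (ZL.cons (nat_lit 12008) (nat_lit 6) (nat_lit 361927940868778163356) (ZL.cons (nat_lit 12084) (nat_lit 6) (nat_lit 353634113159671013136) (ZL.cons (nat_lit 12160) (nat_lit 3) (nat_lit 176607776446984229340) (ZL.cons (nat_lit 12236) (nat_lit 6) (nat_lit 344925594065108505402) (ZL.cons (nat_lit 12312) (nat_lit 6) (nat_lit 337038326384986732208) (ZL.cons (nat_lit 12388) (nat_lit 3) (nat_lit 168319848780254054459) (ZL.cons (nat_lit 12464) (nat_lit 6) (nat_lit 328756695320858870354) (ZL.cons (nat_lit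 12540) (nat_lit 6) (nat_lit 321257818293209243906) (ZL.cons (nat_lit 12616) (nat_lit 3) (nat_lit 160439085896852896576) (ZL.cons (nat_lit 12692) (nat_lit 6) (nat_lit 313383997414177136134) (ZL.cons (nat_lit 12768) (nat_lit 6) (nat_lit 306256328909940688210) (ZL.cons (nat_lit 12844) (nat_lit 3) (nat_lit 152947380407587748509) (ZL.cons (nat_lit 12920) (nat_lit 6) (nat_lit 298772276980492417892) (ZL.cons (nat_lit 12996) (nat_lit 6) (nat_lit 291999587615283415234) (ZL.cons (nat_lit 13072) (nat_lit 3) (nat_lit 145827618524420188001) (ZL.cons (nat_lit 13148) (nat_lit 6) (nat_lit 284888263781813962442) (ZL.cons (nat_lit 13224) (nat_lit 6) (nat_lit 278455245338301209562) (ZL.cons (nat_lit 13300) (nat_lit 3) (nat_lit 139063646208939633718) (ZL.cons (nat_lit 13376) (nat_lit 6) (nat_lit 271700575972612819038) (ZL.cons (nat_lit 13452) (nat_lit 6) (nat_lit 265592812740192554274) (ZL.cons (nat_lit 13528) (nat_lit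 3) (nat_lit 132640238312752495173) (ZL.cons (nat_lit 13604) (nat_lit 6) (nat_lit 259179661346151276272) (ZL.cons (nat_lit 13680) (nat_lit 6) (nat_lit 253383604383886548926) (ZL.cons (nat_lit 13756) (nat_lit 3) (nat_lit 126543070708758720211) (ZL.cons (nat_lit 13832) (nat_lit 6) (nat_lit 247297744573508585214) (ZL.cons (nat_lit 13908) (nat_lit 6) (nat_lit 241800688916877070514) (ZL.cons (nat_lit 13984) (nat_lit 3) (nat_lit 120758695426834197874) (ZL.cons (nat_lit 14060) (nat_lit 6) (nat_lit 236028780477413980080) (ZL.cons (nat_lit 14136) (nat_lit 6) (nat_lit 230818845324801875310) (ZL.cons (nat_lit 14212) (nat_lit 3) (nat_lit 115274518822777759196) (ZL.cons (nat_lit 14288) (nat_lit 6) (nat_lit 225348413414559165306) (ZL.cons (nat_lit 14364) (nat_lit 6) (nat_lit 220414525345779691406) (ZL.cons (nat_lit 14440) (nat_lit 3) (nat_lit 110078782825629675741) (ZL.cons (nat_lit 14516) (nat_lit 6) (nat_lit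 215233942873561243812) (ZL.cons (nat_lit 14592) (nat_lit 6) (nat_lit 210565822170089370610) (ZL.cons (nat_lit 14668) (nat_lit 3) (nat_lit 105160549325749285341) (ZL.cons (nat_lit 14744) (nat_lit 6) (nat_lit 206142088967740227412) (ZL.cons (nat_lit 14820) (nat_lit 6) (nat_lit 205664295431443903746) (ZL.cons (nat_lit 14896) (nat_lit 6) (nat_lit 201252445586682827128) (ZL.cons (nat_lit 14972) (nat_lit 3) (nat_lit 100509687784488651695) (ZL.cons (nat_lit 15048) (nat_lit 6) (nat_lit 197075044712823052554) (ZL.cons (nat_lit 15124) (nat_lit 6) (nat_lit 196620003249683696682) (ZL.cons (nat_lit 15200) (nat_lit 6) (nat_lit 192455703777564765512) (ZL.cons (nat_lit 15276) (nat_lit 3) (nat_lit 96116866166065466689) (ZL.cons (nat_lit 15352) (nat_lit 6) (nat_lit 188516562153877369568) (ZL.cons (nat_lit 15428) (nat_lit 6) (nat_lit 188083189331839887782) (ZL.cons (nat_lit 15504) (nat_lit 6) (nat_lit 184158492003571771692)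 (ZL.cons (nat_lit 15580) (nat_lit 3) (nat_lit 91973545313484061020) (ZL.cons (nat_lit 15656) (nat_lit 6) (nat_lit 180450295829878327688) (ZL.cons (nat_lit 15732) (nat_lit 6) (nat_lit 180037559808890249798) (ZL.cons (nat_lit 15808) (nat_lit 6) (nat_lit 176345288470896561830) (ZL.cons (nat_lit 15884) (nat_lit 3) (nat_lit 88071976913256066796) (ZL.cons (nat_lit 15960) (nat_lit 6) (nat_lit 172861485490753739836) (ZL.cons (nat_lit 16036) (nat_lit 6) (nat_lit 172468403566003189466) (ZL.cons (nat_lit 16112) (nat_lit 6) (nat_lit 169002157717219348504) (ZL.cons (nat_lit 16188) (nat_lit 3) (nat_lit 84405205218426613186) (ZL.cons (nat_lit 16264) (nat_lit 6) (nat_lit 165736963313853982514) (ZL.cons (nat_lit 16340) (nat_lit 6) (nat_lit 165362599575996315494) (ZL.cons (nat_lit 16416) (nat_lit 6) (nat_lit 162665046083518126338) (ZL.cons (nat_lit 16492) (nat_lit 6) (nat_lit 162116761909954226092) (ZL.cons (nat_lit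 16568) (nat_lit 3) (nat_lit 80967072726231340602) (ZL.cons (nat_lit 16644) (nat_lit 6) (nat_lit 159065169253807810334) (ZL.cons (nat_lit 16720) (nat_lit 6) (nat_lit 158708632360610032220) (ZL.cons (nat_lit 16796) (nat_lit 6) (nat_lit 156200555910756719614) (ZL.cons (nat_lit 16872) (nat_lit 6) (nat_lit 155678380507362528902) (ZL.cons (nat_lit 16948) (nat_lit 3) (nat_lit 77752230035828147838) (ZL.cons (nat_lit 17024) (nat_lit 6) (nat_lit 152836175007355296240) (ZL.cons (nat_lit 17100) (nat_lit 6) (nat_lit 152496616061452650416) (ZL.cons (nat_lit 17176) (nat_lit 6) (nat_lit 150175248704635936062) (ZL.cons (nat_lit 17252) (nat_lit 6) (nat_lit 149677938796641468720) (ZL.cons (nat_lit 17328) (nat_lit 3) (nat_lit 74756150143222528061) (ZL.cons (nat_lit 17404) (nat_lit 6) (nat_lit 147689266060388449892) (ZL.cons (nat_lit 17480) (nat_lit 6) (nat_lit 147041717140877962052) (ZL.cons (nat_lit 17556) (nat_lit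 6) (nat_lit 146718327668589727936) (ZL.cons (nat_lit 17632) (nat_lit 6) (nat_lit 144581674375934122070) (ZL.cons (nat_lit 17708) (nat_lit 6) (nat_lit 144108045892129867456) (ZL.cons (nat_lit 17784) (nat_lit 3) (nat_lit 71975147465019022969) (ZL.cons (nat_lit 17860) (nat_lit 6) (nat_lit 142291953257131511056) (ZL.cons (nat_lit 17936) (nat_lit 6) (nat_lit 141675240000454855970) (ZL.cons (nat_lit 18012) (nat_lit 6) (nat_lit 141367250026847013954) (ZL.cons (nat_lit 18088) (nat_lit 6) (nat_lit 140167102067520598986) (ZL.cons (nat_lit 18164) (nat_lit 6) (nat_lit 139414117598584514880) (ZL.cons (nat_lit 18240) (nat_lit 6) (nat_lit 138963042852104272392) (ZL.cons (nat_lit 18316) (nat_lit 3) (nat_lit 69406401920294125947) (ZL.cons (nat_lit 18392) (nat_lit 6) (nat_lit 137319295061752486226) (ZL.cons (nat_lit 18468) (nat_lit 6) (nat_lit 136731949103012814718) (ZL.cons (nat_lit 18544) (nat_lit 6) (nat_lit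 136438625318624393748) (ZL.cons (nat_lit 18620) (nat_lit 6) (nat_lit 135385784717252027086) (ZL.cons (nat_lit 18696) (nat_lit 6) (nat_lit 134668656651598613652) (ZL.cons (nat_lit 18772) (nat_lit 6) (nat_lit 134239061654950763662) (ZL.cons (nat_lit 18848) (nat_lit 3) (nat_lit 67047988441039181595) (ZL.cons (nat_lit 18924) (nat_lit 6) (nat_lit 133608982969024803034) (ZL.cons (nat_lit 19000) (nat_lit 6) (nat_lit 132768252896786873480) (ZL.cons (nat_lit 19076) (nat_lit 6) (nat_lit 132208875793225281564) (ZL.cons (nat_lit 19152) (nat_lit 6) (nat_lit 131929519808093452072) (ZL.cons (nat_lit 19228) (nat_lit 6) (nat_lit 131026213067732804344) (ZL.cons (nat_lit 19304) (nat_lit 6) (nat_lit 130343233957586696308) (ZL.cons (nat_lit 19380) (nat_lit 6) (nat_lit 129934095865541124890) (ZL.cons (nat_lit 19456) (nat_lit 3) (nat_lit 64898912326640847935) (ZL.cons (nat_lit 19532) (nat_lit 6) (nat_lit 129438389450557706076)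 (ZL.cons (nat_lit 19608) (nat_lit 6) (nat_lit 128637694143664439834) (ZL.cons (nat_lit 19684) (nat_lit 6) (nat_lit 128104954045034352296) (ZL.cons (nat_lit 19760) (nat_lit 6) (nat_lit 127838900725861181350) (ZL.cons (nat_lit 19836) (nat_lit 6) (nat_lit 128001001512839733208) (ZL.cons (nat_lit 19912) (nat_lit 6) (nat_lit 127088195542377744862) (ZL.cons (nat_lit 19988) (nat_lit 6) (nat_lit 126437739247000499118) (ZL.cons (nat_lit 20064) (nat_lit 6) (nat_lit 126048083921242812052) (ZL.cons (nat_lit 20140) (nat_lit 3) (nat_lit 62959150907164535063) (ZL.cons (nat_lit 20216) (nat_lit 6) (nat_lit 125691048871342595454) (ZL.cons (nat_lit 20292) (nat_lit 6) (nat_lit 124928481912396627606) (ZL.cons (nat_lit 20368) (nat_lit 6) (nat_lit 124421110389891782334) (ZL.cons (nat_lit 20444) (nat_lit 6) (nat_lit 124167726276393524288) (ZL.cons (nat_lit 20520) (nat_lit 6) (nat_lit 124442927590866050780) (ZL.cons (nat_lit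 20596) (nat_lit 6) (nat_lit 123573588571378442832) (ZL.cons (nat_lit 20672) (nat_lit 6) (nat_lit 122954106385304875456) (ZL.cons (nat_lit 20748) (nat_lit 6) (nat_lit 122583006075059459204) (ZL.cons (nat_lit 20824) (nat_lit 3) (nat_lit 61229702034237471542) (ZL.cons (nat_lit 20900) (nat_lit 6) (nat_lit 123340859983613642870) (ZL.cons (nat_lit 20976) (nat_lit 6) (nat_lit 122369833287419711020) (ZL.cons (nat_lit 21052) (nat_lit 6) (nat_lit 121643579040804503544) (ZL.cons (nat_lit 21128) (nat_lit 6) (nat_lit 121160368066990365188) (ZL.cons (nat_lit 21204) (nat_lit 6) (nat_lit 120919049863658690862) (ZL.cons (nat_lit 21280) (nat_lit 6) (nat_lit 122382222079091913616) (ZL.cons (nat_lit 21356) (nat_lit 6) (nat_lit 121314349976511006620) (ZL.cons (nat_lit 21432) (nat_lit 6) (nat_lit 120486408053189475242) (ZL.cons (nat_lit 21508) (nat_lit 6) (nat_lit 119896425018833696786) (ZL.cons (nat_lit 21584) (nat_lit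 6) (nat_lit 119542996151933300356) (ZL.cons (nat_lit 21660) (nat_lit 3) (nat_lit 59712639977593071075) (ZL.cons (nat_lit 21736) (nat_lit 6) (nat_lit 121564731406099620804) (ZL.cons (nat_lit 21812) (nat_lit 6) (nat_lit 120404625583150166048) (ZL.cons (nat_lit 21888) (nat_lit 6) (nat_lit 119479838253441659524) (ZL.cons (nat_lit 21964) (nat_lit 6) (nat_lit 118788167542379557166) (ZL.cons (nat_lit 22040) (nat_lit 6) (nat_lit 118327966614937520636) (ZL.cons (nat_lit 22116) (nat_lit 6) (nat_lit 118098139754621640326) (ZL.cons (nat_lit 22192) (nat_lit 3) (nat_lit 58954815639000919652) (ZL.cons (nat_lit 22268) (nat_lit 6) (nat_lit 117978457500229926972) (ZL.cons (nat_lit 22344) (nat_lit 6) (nat_lit 118185100038871875900) (ZL.cons (nat_lit 22420) (nat_lit 6) (nat_lit 118530050899972071678) (ZL.cons (nat_lit 22496) (nat_lit 6) (nat_lit 119014131395104562392) (ZL.cons (nat_lit 22572) (nat_lit 6) (nat_lit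 119638494096876806356) (ZL.cons (nat_lit 22648) (nat_lit 6) (nat_lit 118621473046799752072) (ZL.cons (nat_lit 22724) (nat_lit 6) (nat_lit 117832956929350674568) (ZL.cons (nat_lit 22800) (nat_lit 6) (nat_lit 117271068325202314136) (ZL.cons (nat_lit 22876) (nat_lit 6) (nat_lit 116934469404344793726) (ZL.cons (nat_lit 22952) (nat_lit 3) (nat_lit 58411179370388035811) (ZL.cons (nat_lit 23028) (nat_lit 6) (nat_lit 116493286487343670884) (ZL.cons (nat_lit 23104) (nat_lit 6) (nat_lit 116634380242911250604) (ZL.cons (nat_lit 23180) (nat_lit 6) (nat_lit 116916903691559666186) (ZL.cons (nat_lit 23256) (nat_lit 6) (nat_lit 117341529508166651950) (ZL.cons (nat_lit 23332) (nat_lit 6) (nat_lit 117909268706581272150) (ZL.cons (nat_lit 23408) (nat_lit 6) (nat_lit 117028518868763646886) (ZL.cons (nat_lit 23484) (nat_lit 6) (nat_lit 116369784858228311308) (ZL.cons (nat_lit 23560) (nat_lit 6) (nat_lit 115931498260664466996)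 (ZL.cons (nat_lit 23636) (nat_lit 6) (nat_lit 115712615536554104792) (ZL.cons (nat_lit 23712) (nat_lit 3) (nat_lit 57606606454472465742) (ZL.cons (nat_lit 23788) (nat_lit 6) (nat_lit 115285480442284423536) (ZL.cons (nat_lit 23864) (nat_lit 6) (nat_lit 115502455107858469910) (ZL.cons (nat_lit 23940) (nat_lit 6) (nat_lit 115864653512013675478) (ZL.cons (nat_lit 24016) (nat_lit 6) (nat_lit 116372938031902790728) (ZL.cons (nat_lit 24092) (nat_lit 6) (nat_lit 115621970300998907390) (ZL.cons (nat_lit 24168) (nat_lit 6) (nat_lit 115086838297048087932) (ZL.cons (nat_lit 24244) (nat_lit 6) (nat_lit 114766267896231401826) (ZL.cons (nat_lit 24320) (nat_lit 3) (nat_lit 57329747917844880863) (ZL.cons (nat_lit 24396) (nat_lit 6) (nat_lit 114135188970799426062) (ZL.cons (nat_lit 24472) (nat_lit 6) (nat_lit 114283337414145384768) (ZL.cons (nat_lit 24548) (nat_lit 6) (nat_lit 114579987035226221128) (ZL.cons (nat_lit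 24624) (nat_lit 6) (nat_lit 115025844142663556182) (ZL.cons (nat_lit 24700) (nat_lit 6) (nat_lit 114398478418344188964) (ZL.cons (nat_lit 24776) (nat_lit 6) (nat_lit 113981062611140527712) (ZL.cons (nat_lit 24852) (nat_lit 6) (nat_lit 113772602873892563710) (ZL.cons (nat_lit 24928) (nat_lit 3) (nat_lit 56590383519619218380) (ZL.cons (nat_lit 25004) (nat_lit 6) (nat_lit 113256647949244903414) (ZL.cons (nat_lit 25080) (nat_lit 6) (nat_lit 113484471348097652106) (ZL.cons (nat_lit 25156) (nat_lit 6) (nat_lit 113864779672460617952) (ZL.cons (nat_lit 25232) (nat_lit 6) (nat_lit 113355130144888408940) (ZL.cons (nat_lit 25308) (nat_lit 6) (nat_lit 113049825001253469792) (ZL.cons (nat_lit 25384) (nat_lit 3) (nat_lit 56474068662273572945) (ZL.cons (nat_lit 25460) (nat_lit 6) (nat_lit 112419942214431072318) (ZL.cons (nat_lit 25536) (nat_lit 6) (nat_lit 112575498079944328958) (ZL.cons (nat_lit 25612) (nat_lit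 6) (nat_lit 112886980182079207136) (ZL.cons (nat_lit 25688) (nat_lit 6) (nat_lit 112489441318075720228) (ZL.cons (nat_lit 25764) (nat_lit 6) (nat_lit 112290908234982421180) (ZL.cons (nat_lit 25840) (nat_lit 3) (nat_lit 55885614026596214990) (ZL.cons (nat_lit 25916) (nat_lit 6) (nat_lit 111850903008699219966) (ZL.cons (nat_lit 25992) (nat_lit 6) (nat_lit 112090117577494606092) (ZL.cons (nat_lit 26068) (nat_lit 6) (nat_lit 111799350774032759284) (ZL.cons (nat_lit 26144) (nat_lit 3) (nat_lit 55851252683822892069) (ZL.cons (nat_lit 26220) (nat_lit 6) (nat_lit 111308960908002217728) (ZL.cons (nat_lit 26296) (nat_lit 6) (nat_lit 111472294566791137200) (ZL.cons (nat_lit 26372) (nat_lit 6) (nat_lit 111283215440035614294) (ZL.cons (nat_lit 26448) (nat_lit 3) (nat_lit 55474190719759164689) (ZL.cons (nat_lit 26524) (nat_lit 6) (nat_lit 111032040142800458864) (ZL.cons (nat_lit 26600) (nat_lit 3) (nat_lit 55469903211215955552)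 (ZL.cons (nat_lit 26676) (nat_lit 6) (nat_lit 110768306080703545660) (ZL.cons (nat_lit 26752) (nat_lit 1) (nat_lit 18446744073709551617) ZL.nil))))))))))))))))))))))))))))))))))))))))))))))))))))))))))))))))))))))))))))))))))))))))))))))))))))))))))))))))))))))))))))))))))))))))))))))))))))))))))))))))))))))))))))))))))))))))))))))))))))))))))))))))))))))))))))))))))))))))))))))))

noncomputable def vl : XL := ⟨(nat_lit 0), (nat_lit 0), (nat_lit 536870912), (nat_lit 0), (nat_lit 0), (nat_lit 0), (nat_lit 0), (nat_lit 0), (nat_lit 0), (nat_lit 1), (nat_lit 0), (nat_lit 1), (nat_lit 0), (nat_lit 0), (nat_lit 0), (nat_lit 0)⟩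

noncomputable def cp0 : Nat := (nat_lit 1003007034801352213157463278901884652030057775371801438612513408674915006205274418809854760849448875139632595512602669286304746582761972585470850727474717053756301118739790237910326888876629853690389192660184937832269373347574328289429329808486632842844380127012957288734794621332404231844303610193508077985112853491895270840444897890382318373250160682634853373739061827476793970525701746362537861321786499741568575486825264760555796002473270893052494081582869761142331628567694891423947672351080322642447663950248972779561056402643903563705009478750657965314292187285247186133369127910015098756840006592394985326094965727780327057384775252317751720585547836126918291003272075353351064186173382845558330282049856637448296771466863852582827941014731621860676959826289364779835412413454748137320856683615900126878369357818613486181984724547352956462454116930250639896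5052344494916234236998113981565500354978518935015237198826211702382995451376245652097964463493171463466242786777710999751972956748778231832822928273817896317737112544640153303056405359502408614533448724892323840728431371649230592268093847079501035720846061418010394895425336429965667901413542266755885567849917222613644740617524424825000354028569796153846400076902337064762669757140979231082625555134034658077803645392281360705285700933116823091957802804755457829023163847214248395011645218384679106929092627950933159683383027063602180894057468490519975004337416339277097259689278296976489237561190027485349772419012509381350835146439886052169602992579527313575486239174669544238155718507007815257459536755004279259069174188136066554190899872339445347093805639080174212955814882285887805051264437003451498424554872497884374943201319111988476646679041778363280326749451901281419663204088417758102898631160117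3993628167834590578046283828941252477175817415014841147807887283963850714997683479324594630184449196509906413104250649417522668806864338391269648891035484894225431316396490382883718047946503375067776144107389356650889745911559578739820385154948117929974857250755264845080359338209789127136693247835179589928129568697092559901517478666993965364810686673980520986745186546378965778533438287120270128265551800186222485683901572269643619025347361596091299270129679722778302963212269077849877253079870084039175277630564698196127141253562807296429517330448178540903449374452415317888991699141190934660982277574017962711226044275265432637220551419864003667431432058073503943483348103163357969031388711887322098223536783706686362768708511525345674753381796137402789372734907276833998690501176355585754620112041069215669395764801030983310514485017236906867257454447653903975625389938287315698338039903666028544073749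9023487229437199362150388230770848661527661366514102552034870120360410377039504268764487232576522949218198213494066504115709862460193595589492892838892703761678891274966400936888771938823705665840840923523825435993987731560122039780382626159297471638441527148229198457697568055296825940194972348870992816278305326229951098751811669209729848364403385358571015382598638874367917182466429183184514597101713354035117211468732530948265942045889388816861760713123435363774927234466297788445282694848719883223556937931495559820220606268747503842247911802415866485046868123353194447662054861046795388652002913822705141165996901954703467039038634936805287161073839164340961964833279566907400305150841010387627789480103055664520415609255644995746505062291567997960127652462778449908184362538427941105435490888266366143107454413690928161700074807483428878074188235654217874791372181675422998221383741243253753109975094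0844570347891968391263283317637081520469179164697941232320515971371242186372007979656214642209140684457707950423842502583880092154574008299119144516051272258815107472935334045668333217375054980383104846908851631497145682751863911133405091596509048844356898373004465497535969826697439424289856722539996766087222875760895588511853989794680795370547823843031207744523595193422744665238984099525199094142142320915145344809804667947705879341236404432603939053729972399638320739251025492947220602745089891398954107802826509906353982238800126302429026434747840754331530951255239913991246649805037133184833152845448251957046919207538100186226772356609521289304880704820717464977111316797674824534215067131861639506808411241309565793883139381281943962559510042048562527341154824433998341617543172357259682439145488520126394446775265543905362382058670829606824520235948625279695679185447360188584971083721972972574432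8934873940254215393866323826476819951118903740216109138545824595485796672673189495120979847406958703244298129171839641921428466752519330017490634656482380012900395342509090407558523997626034011062458715753213804230199605459877668779405151652258464983405556923471434112741404975189338348958758536342888527984721452940601867830583540919313681765550680843344841927647285361925067562781978590281214687217650160204271113936546127053847281614495480810434475355848764448890020635788004134655151833171905409978143305212777345086981677431590595600914585661659345308876199596327986060693797943354744021814891508201604008786499645617066046978365211501937706463623406979944037285085220238888018942919964618107838996406017072998329670561691203126949234874583195234497152460258929929828057051540950009515686422862809137140205830763643803220261018611177186878119897964067670197416529121831572462725050225888829251554946201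3951462080745633714861329574413054498545870284079085608855688632106121125490953483624203843629487179901957311415924406300910097116441823754274961414445482545041364219512544534703798399405060603033305493599491042469513934431189668010417272473856970667240543014651411892576200169312333844873253310399978026692677253683397759451550378139357191331292588308046077795439903795553541312277504152177934999787955492326584440522056182024744906546286100697834913025911299334869228008629365803062345672469678186976446028537380490129189384269547477737498225106471749883274574125496564342848435466430643106835243107514697635307320066032600361495845255345934809848840240098724098235500672116220627603150537515562290005916286483670709266760802028755718406954472506526675838904036059712070500241007167576848835356765311315513447391448960600190772323019476247773405555588896388423326747545654583202521515137770430930731275312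7512303985924305373879420425019959568246610130018187735598058605586781535032160913340074435381365178851204176109291929289243596954513308656918224898108888463262023751845518792100842036674968652829020660545589770031847353652798171542186234985978841318567687655796784524817214823390686355360679484781037825130087146203132666818963539319318639335326560292629508352571537171288917438943301898569023250608941008358625726643412787232213473148483820728532232195304248584260468725157719408741079584288735354651396145221061551096285025932987955831601526786956283317552839061984463433150035591113863790914101999752914500659363923326360994737955809291949038302324364888342002575018590974369907748809947578914354196712216313135041405354376031935670916890918551943217929397194501989480972192507700717928704111260921072850241947448859072985612376301292739266970901499602318696903227111281333585724940281158031756877259921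5070540950165835819397206089661421181812287161131737641572379146856403016482004729455525086599761806329893754374290986094932481503485654815228916628681348834011842995331016076077320931945220448617206024048063760351464532189069331970887085388822339855624363301347042962225956889301313609902318501714381589413186062580326318061856272427534443583505193776862336750416417117166771951334355547401462368566352956174359717183000638547310837484777114336612569888618744979827633341981883072814142910597300305626817879023130608762187545500225776255721542806925622235404799129779569203308820022253221709016889704898598812810278831398058098147489352511133934846230710867724542944918677622362305510761123404119229777330457766640804338921278874105960703679304118054171733423846196648004132805280421179481313655512032289404322823473400642982194978141441657878316289594753024)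

noncomputable def cp1 : Nat := (nat_lit 5716218807202445844317531732457513361314251421031430581964167049371586660675842890977157191066989229103711341543391950577225521823886591754343624434912515128167169509654365233864767330319755682945656218772626275224556735278731955181406751735398612749364258121958837945696117661502458700416576414017030951428009614469392640724201248502961601745763035043608510004843879398257473405598471358171256565756074898787328584624235071191152649155810720122643167882911325280341615533475107366070525758976815957199346618087872895377543239691356977134945082758984121632222508945873398262047836073566863158567204764984997700958645983050033688169370611732824675809384781457655108517619646554585235606983305372057254239395718120392560479815461345788916436902518075479124699035219166617454803654914398577767554380701665157062342287641900954686587800606692891702931592872483117786491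2357631882396683931793031500083772166848888856308362444753221451983036486757740143342446343104440125782813167245049082593905950579729092729654828751584041756422982283477692113207650691905242106881350443760972600654453049335356840856643891640673184358468812958082545387939322664650258009076378760809816380530670413150704935844605570638535016774598594750747134556906451674971663111415378311342898292459136210735803414722466400198917360270079833058717559739630000736394441346499949492246639588803567771210327906073588757577793107670264233858096721812570092236854580080729935125836432862564848284143894234185216723704206565442098731770117600538525432413208368054925679795678534611299412353970597273427777136490562855687210149291588009191918503195081870409981306784457225085858337693416946791652038042156437945127128051277344641711392836209496311485837685281886109097137879105206771351193084777770018207643155739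0794005735713537362731684135362089339517770568985774823842780774005578353581282220914944683800777333866434567756647537631775207955009994718535300844882115140921860188457627897709601988502472837603391700672274834052799766909818171057067659229615453480978285915537693906923875164238270245925609231706978017667735363014886916775969488096963499698388341714558079977168867433429406737947137385435402191727774161650846045500504977552002083665838952960854385210659536958539589144871846301701806206478539652627366317066660569181694909183988962427895502816176367743916267026591975283290739977136854612647563277515685131817050060066568400808617479581824614582433910751642622285597109139354542125219706991098746349111508783605191674630280615675963517914192009862590057038227220714596903685539147360034908985070281100591731411876468272230945119870082071573743094615561237634794647304360733099402638431011596965104493620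4437443206581214880477896665955010758354890412972984334376011618809645680773775911793071708205386714908371245015671963223377090376378613779218005909320952431370958073417706463812132662343097230205298748526788387147571816794876772559709449031433565902265464417260580369107158680670469087406939990207956865358446265571801982443861110095242324112502650658336998623355718592851331468740054482825070343417668919914833713254774901242759223187937653893939980797509209420164142985356780268445518920421019074342760814857979704981014190581884572335999696506053413770174474748889904903906709248188301359766065078739851044485650600708963854510882157424476494711091872913296006954122284011935791965188067605486584876998928667634040763356657953748534469275512743425359381608668379930096214122622597041287825203921379465145241185833613376762247066996652322489532422739137264063797192358256912756833083112509399274943468406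6154502687894246247479751018990154274891309591837970969330421497222956081854139330192582637895931126957950379172523551411370973234731079190703808650385414288791062912019345115978843427833136896850277310890112591032692349389130952357114156821526321872143703867067611241990572301315005135802139527524303415993192991105457846495078412380562397903805819104043931955329823765977241272893690992394175945097454472859565630385551783996105918279830138179910939876991210394793323750075114803699085371337230465269821299811692633815098030433179873125989790919033458493752202688474588832795791286553451180613863384559483093624999323560070846825115106081611202024496549156765791778159146372171328542035158601924773021075232978067794204543538920728723666274408742010523928615144408905702162699870312983803706427755791497621673606096434677410673876115125243695280500961346969581115275854523834160071354120840670404548685536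3081424490731573147651812534870961097225941648927176079213405043471128242072891413761563072180395061390365536821068065285210540553097227636595561039446524388069963540361325539872079604417136565363002134598178221561445327400338506020771223847652885499933618946215650272548306365065413555084418927016643098899459630597306810705572769986189183786675967938010452281028413537466669047520356888941067405821885270976411970751831090278542944417810184330880324137691749460165973664603496877168647447534859659725157114424363695048744203447907807274655277799975284005667589311676180523605182224268527802327146215308174084633781464594077207798661347694866507341442117904901177568758937725373847222175981824899570833561516363316179700262744787036796074237201241461172412036181511730946550785272087946332171052117518289360337994131455632587385376952857457616309833237520664493739585346806408926433400313088019935122246608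1963743565895781907833401820341828382012106382219637355478694602925583997699536746837973005272391112192113961199472836062649158999867160387755868030261086583668769421991769338192327853856629512367946990277038371204540498702316304006380934353732702831463638486284492102703141627405349487747103281436641006260658311078306963485607109196704636720505820091897845321881954413192469317857411219165397610404176679850105582416985450856251256003163691583737820978615114146681499873097206206832285204623463435483938509875219594006097549673624120239291854665932817349543103632142767879087191261516977892653698064374084793116682917408170829926614064625353828979568024622126610758861027914597632856646355148602240182580714461837707166126597993577809796161688187261575844396786050217227875400881267143603670297400303245167953129273198268568205092075639350411989348855798608777663331017471857010585275634800406259393223939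2890809774955175773306059894123680825061083879897133262696897494801904792200911033185584455655006175509949053870460920528014395543693182610242418441661513425916758162424013447838222210433053169316581473510260244776553385074873392978036329526497090231427614384342037639141582653210482988670562352009264623872603179705152287751187261610858902612705321461957642536567924215142325713014703165828901498841645452014394300826173096089773188534256147389104348049137617584364840180854208899081953749555197321469923060142800592171570783215509420890227188064300877996017790283828199374119054422378025506135043490734091692922502648909085966863745966980365031510723356210392887707079469841845196621763002669823198037977518585032898602097664893876092927707509979462396881838429557431290414009513515778358237456835164551814880669259913846424386005339707449724593450011288041249273359034691021893093699919195953922414265426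4919129405949598091192587392434320704261515739135153709790841650869658222507758778041814029820663031806113037042186882294091046758764011750870566501778689362936658727556561801285564320265543263518034924094365507518018779932846032482531738783833028875125630431976760628907706509950624439798776657249300191410219461923893428149662684250403692278017051916023794796182497845889994809851524133476158624751364573043150331347995295078692642718711329603186440584076896467661752153439556196091253585454883579967612690918484263481235547845433465986011166575666058109965948208493295752333147084408093249416454387746744181463580395820290314205098952206741133913429962125309163207035430756521263389220048749142337890863527911976756119843312392938273089119666943044536622705520762298481131110142545943008056171037216250708487138750645945860155250405526474076760241199507898860950964136205345642777792091568412146570841829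5960606269085176905934116912142479471187975528716065849336995443520634988627705975359656753531458291831897373713761222183928113557504980410625685210632056489424171412202953786381548213727300128392954171793717060796990792485241558665777701890864243322402611973744710152922952231221328129891286391882181677960470763606261912990271725674750070746627689653330889666512818940746898012994273246221753430680196994642858831931938215230548346417068184683372043661256818218110275518126802743183192988230399720250131564979362440525157974309167160718664028095370199704307813610440712980547839993293056474665285179007080426342264359379186496391670396609698517808058339861110974287823386580272966045569746461732489159671767541424795697084484465651628062994114401764485970989068176430139720987992492344711661819854845125977940577796376256850584327342577758176595302581993302111302404540093520050941467646784146615135524407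5354462144509745538063682743517886902920809813317839755470675058539272448236364265356667847505713059552695742903997960032210321296210379115412091875210301001283292430460449579133015951197566247315148694291494646922625862784690076637272694456402829477980149624957617426970744749479634677718610698815413395246775827934467247057972601305049894533412800261080185352842288441509260984713630947079704261766931283964269204038484221280351290744554481707879703798404216260190988034022626868761959792141918967643131845594878217453200234641899060289024047812312874457375602898678940579750150580061698400458431310191558982482499942292599193758981723234798556171306324057837919398075397659785463954400133925267542852814458645534279395787200321680166623802754913139097226343613238555555600167041193022864472230959518770088199726640884654710073543261268257044176250696891681716168768301258035856697212167222562444797959355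2161099332672194512367757764563466460421309389035662277012263093235907804883176304843270999583015834795200285296776503061408688856990916906244076055631236644437438268939082918535434339514605557513864556402473081868080238115073764563086631388885117059624333288270695707623138208083000256570160314500734738392403591774005380968826820198505902479552536904709559593963545953785206335361944527534892053046688257667350696100016563065615822519762776789157011822024221643860430974448548404524179894760724467039458980557724616084961367556487808615856710239813635107842391704915662431750879690431360392482308957970815581669936186248197057195592154847291595519706267234605774061568500883640267970451180401513978604408042634790422440358228160221986449379005501380196153618424945436243199202829083678084907134627105195086031555649339022808551287676084292050036970807360613412785934139466965285519016660643234311405192406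30577080681802523270977418448054955497115200600514445082189198695488348031408769366476196872881250606954211823786125969882187713908140449952632878421454965364194875221464894953375314979705138938184403225439193479240412937142695681120284497842327026270555550045619866680830417407910144044976927655507545802127488122101988153260856066294530487662042369459758013696953942042323136733595556314170826040587079072262446243958162093870977897734712985935369411808780526283160020611849476602734413715751316267676576422036982658997818485665769208041666567345024503171338318214618013498617864711487833266099878247321814711989171196063773276625053658072118080450857769660531627358954533723378292658758555252655712580227807099306799932689215644922628398712392147826219534833917600434096349733117875977388221036328341875547630765922823017912172519940834830443081797303874294709744682058524293627548910217177874108423525682639709409728669281695368626359275767821213520983007712165685027975611234772605403639521714084090002850512429704795914240)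

noncomputable def rc0 : Nat := (nat_lit 5716218807202445844317531732457513361314251421031430581964167049371586660675842890977157191066989229103711341543391950577225521823886591754343624434912515128167169509654365233864767330319755682945656218772626275224556735278731955181406751735398612749364258121958837945696117661502458700416576414017030951428009614469392640724201248502961601745763035043608510004843879398257473405598471358171256565756074898787328584624235071191152649155810720122643167882911325280341615533475107366070525758976815957199346618087872895377543239691356977134945082758984121632222508945873398262047836073566863158567204764984997700958645983050033688169370611732824675809384781457655108517619646554585235606983305372057254239395718120392560479815461345788916436902518075479124699035219166617454803654914398577767554380701665157062342287641900954686587800606692891702931592872483117786491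2357631882396683931793031500083772166848888856308362444753221451983036486757740143342446343104440125782813167245049082593905950579729092729654828751584041756422982283477692113207650691905242106881350443760972600654453049335356840856643891640673184358468812958082545387939322664650258009076378760809816380530670413150704935844605570638535016774598594750747134556906451674971663111415378311342898292459136210735803414722466400198917360270079833058717559739630000736394441346499949492246639588803567771210327906073588757577793107670264233858096721812570092236854580080729935125836432862564848284143894234185216723704206565442098731770117600538525432413208368054925679795678534611299412353970597273427777136490562855687210149291588009191918503195081870409981306784457225085858337693416946791652038042156437945127128051277344641711392836209496311485837685281886109097137879105206771351193084777770018207643155739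0794005735713537362731684135362089339517770568985774823842780774005578353581282220914944683800777333866434567756647537631775207955009994718535300844882115140921860188457627897709601988502472837603391700672274834052799766909818171057067659229615453480978285915537693906923875164238270245925609231706978017667735363014886916775969488096963499698388341714558079977168867433429406737947137385435402191727774161650846045500504977552002083665838952960854385210659536958539589144871846301701806206478539652627366317066660569181694909183988962427895502816176367743916267026591975283290739977136854612647563277515685131817050060066568400808617479581824614582433910751642622285597109139354542125219706991098746349111508783605191674630280615675963517914192009862590057038227220714596903685539147360034908985070281100591731411876468272230945119870082071573743094615561237634794647304360733099402638431011596965104493620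4437443206581214880477896665955010758354890412972984334376011618809645680773775911793071708205386714908371245015671963223377090376378613779218005909320952431370958073417706463812132662343097230205298748526788387147571816794876772559709449031433565902265464417260580369107158680670469087406939990207956865358446265571801982443861110095242324112502650658336998623355718592851331468740054482825070343417668919914833713254774901242759223187937653893939980797509209420164142985356780268445518920421019074342760814857979704981014190581884572335999696506053413770174474748889904903906709248188301359766065078739851044485650600708963854510882157424476494711091872913296006954122284011935791965188067605486584876998928667634040763356657953748534469275512743425359381608668379930096214122622597041287825203921379465145241185833613376762247066996652322489532422739137264063797192358256912756833083112509399274943468406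6154502687894246247479751018990154274891309591837970969330421497222956081854139330192582637895931126957950379172523551411370973234731079190703808650385414288791062912019345115978843427833136896850277310890112591032692349389130952357114156821526321872143703867067611241990572301315005135802139527524303415993192991105457846495078412380562397903805819104043931955329823765977241272893690992394175945097454472859565630385551783996105918279830138179910939876991210394793323750075114803699085371337230465269821299811692633815098030433179873125989790919033458493752202688474588832795791286553451180613863384559483093624999323560070846825115106081611202024496549156765791778159146372171328542035158601924773021075232978067794204543538920728723666274408742010523928615144408905702162699870312983803706427755791497621673606096434677410673876115125243695280500961346969581115275854523834160071354120840670404548685536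3081424490731573147651812534870961097225941648927176079213405043471128242072891413761563072180395061390365536821068065285210540553097227636595561039446524388069963540361325539872079604417136565363002134598178221561445327400338506020771223847652885499933618946215650272548306365065413555084418927016643098899459630597306810705572769986189183786675967938010452281028413537466669047520356888941067405821885270976411970751831090278542944417810184330880324137691749460165973664603496877168647447534859659725157114424363695048744203447907807274655277799975284005667589311676180523605182224268527802327146215308174084633781464594077207798661347694866507341442117904901177568758937725373847222175981824899570833561516363316179700262744787036796074237201241461172412036181511730946550785272087946332171052117518289360337994131455632587385376952857457616309833237520664493739585346806408926433400313088019935122246608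1963743565895781907833401820341828382012106382219637355478694602925583997699536746837973005272391112192113961199472836062649158999867160387755868030261086583668769421991769338192327853856629512367946990277038371204540498702316304006380934353732702831463638486284492102703141627405349487747103281436641006260658311078306963485607109196704636720505820091897845321881954413192469317857411219165397610404176679850105582416985450856251256003163691583737820978615114146681499873097206206832285204623463435483938509875219594006097549673624120239291854665932817349543103632142767879087191261516977892653698064374084793116682917408170829926614064625353828979568024622126610758861027914597632856646355148602240182580714461837707166126597993577809796161688187261575844396786050217227875400881267143603670297400303245167953129273198268568205092075639350411989348855798608777663331017471857010585275634800406259393223939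2890809774955175773306059894123680825061083879897133262696897494801904792200911033185584455655006175509949053870460920528014395543693182610242418441661513425916758162424013447838222210433053169316581473510260244776553385074873392978036329526497090231427614384342037639141582653210482988670562352009264623872603179705152287751187261610858902612705321461957642536567924215142325713014703165828901498841645452014394300826173096089773188534256147389104348049137617584364840180854208899081953749555197321469923060142800592171570783215509420890227188064300877996017790283828199374119054422378025506135043490734091692922502648909085966863745966980365031510723356210392887707079469841845196621763002669823198037977518585032898602097664893876092927707509979462396881838429557431290414009513515778358237456835164551814880669259913846424386005339707449724593450011288041249273359034691021893093699919195953922414265426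4919129405949598091192587392434320704261515739135153709790841650869658222507758778041814029820663031806113037042186882294091046758764011750870566501778689362936658727556561801285564320265543263518034924094365507518018779932846032482531738783833028875125630431976760628907706509950624439798776657249300191410219461923893428149662684250403692278017051916023794796182497845889994809851524133476158624751364573043150331347995295078692642718711329603186440584076896467661752153439556196091253585454883579967612690918484263481235547845433465986011166575666058109965948208493295752333147084408093249416454387746744181463580395820290314205098952206741133913429962125309163207035430756521263389220048749142337890863527911976756119843312392938273089119666943044536622705520762298481131110142545943008056171037216250708487138750645945860155250405526474076760241199507898860950964136205345642777792091568412146570841829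5960606269085176905934116912142479471187975528716065849336995443520634988627705975359656753531458291831897373713761222183928113557504980410625685210632056489424171412202953786381548213727300128392954171793717060796990792485241558665777701890864243322402611973744710152922952231221328129891286391882181677960470763606261912990271725674750070746627689653330889666512818940746898012994273246221753430680196994642858831931938215230548346417068184683372043661256818218110275518126802743183192988230399720250131564979362440525157974309167160718664028095370199704307813610440712980547839993293056474665285179007080426342264359379186496391670396609698517808058339861110974287823386580272966045569746461732489159671767541424795697084484465651628062994114401764485970989068176430139720987992492344711661819854845125977940577796376256850584327342577758176595302581993302111302404540093520050941467646784146615135524407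5354462144509745538063682743517886902920809813317839755470675058539272448236364265356667847505713059552695742903997960032210321296210379115412091875210301001283292430460449579133015951197566247315148694291494646922625862784690076637272694456402829477980149624957617426970744749479634677718610698815413395246775827934467247057972601305049894533412800261080185352842288441509260984713630947079704261766931283964269204038484221280351290744554481707879703798404216260190988034022626868761959792141918967643131845594878217453200234641899060289024047812312874457375602898678940579750150580061698400458431310191558982482499942292599193758981723234798556171306324057837919398075397659785463954400133925267542852814458645534279395787200321680166623802754913139097226343613238555555600167041193022864472230959518770088199726640884654710073543261268257044176250696891681716168768301258035856697212167222562444797959355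2161099332672194512367757764563466460421309389035662277012263093235907804883176304843270999583015834795200285296776503061408688856990916906244076055631236644437438268939082918535434339514605557513864556402473081868080238115073764563086631388885117059624333288270695707623138208083000256570160314500734738392403591774005380968826820198505902479552536904709559593963545953785206335361944527534892053046688257667350696100016563065615822519762776789157011822024221643860430974448548404524179894760724467039458980557724616084961367556487808615856710239813635107842391704915662431750879690431360392482308957970815581669936186248197057195592154847291595519706267234605774061568500883640267970451180401513978604408042634790422440358228160221986449379005501380196153618424945436243199202829083678084907134627105195086031555649339022808551287676084292050036970807360613412785934139466965285519016660643234311405192406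30577080681802523270977418448054955497115200600514445082189198695488348031408769366476196872881250606954211823786125969882187713908140449952632878421454965364194875221464894953375314979705138938184403225439193479240412937142695681120284497842327026270555550045619866680830417407910144044976927655507545802127488122101988153260856066294530487662042369459758013696953942042323136733595556314170826040587079072262446243958162093870977897734712985935369411808780526283160020611849476602734413715751316267676576422036982658997818485665769208041666567345024503171338318214618013498617864711487833266099878247321814711989171196063773276625053658072118080450857769660531627358954533723378292658758555252655712580227807099306799932689215644922628398712392147826219534833917600434096349733117875977388221036328341875547630765922823017912172519940834830443081797303874294709744682058524293627548910217177874108423525682639709409728669281695368626359275767821213520983007712165685027975611234772605403639521714084090002850512429704795914240)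

end Vale.Agent.Lib.P154.PChain.BA.S5
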