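import Vale.Agent.Lib.P154.PChain.BA.R6_1

set_option linter.all false

namespace Vale.Agent.Lib.P154.PChain.BA.S7

open Vale.Agent.Lib.P154.Chain

noncomputable def pc0 : PT := (PT.nd (nat_lit 4956276) (PT.nd (nat_lit 4796922) (PT.nd (nat_lit 4690842) (PT.nd (nat_lit 4637802) (PT.nd (nat_lit 4637724) (PT.nd (nat_lit 4584684) PT.nil (PT.lf (nat_lit 8588) (nat_lit 3) (nat_lit 113) (nat_lit 1) (nat_lit 212) (nat_lit 86) (nat_lit 212))) (PT.lf (nat_lit 8664) (nat_lit 6) (nat_lit 114) (nat_lit 3) (nat_lit 211) (nat_lit 87) (nat_lit 212))) (PT.nd (nat_lit 52962) (PT.lf (nat_lit 8664) (nat_lit 6) (nat_lit 114) (nat_lit 1) (nat_lit 212) (nat_lit 87) (nat_lit 211)) (PT.lf (nat_lit 8740) (nat_lit 6) (nat_lit 115) (nat_lit 3) (nat_lit 210) (nat_lit 88) (nat_lit 212)))) (PT.nd (nat_lit 53040) (PT.nd (nat_lit 78) (PT.lf (nat_lit 8816) (nat_lit 3) (nat_lit 116) (nat_lit 1) (nat_lit 211) (nat_lit 88) (nat_lit 211))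 (PT.lf (nat_lit 8740) (nat_lit 6) (nat_lit 115) (nat_lit 1) (nat_lit 212) (nat_lit 88) (nat_lit 210))) (PT.nd (nat_lit 78) (PT.lf (nat_lit 8892) (nat_lit 6) (nat_lit 117) (nat_lit 3) (nat_lit 210) (nat_lit 89) (nat_lit 211)) (PT.lf (nat_lit 8892) (nat_lit 6) (nat_lit 117) (nat_lit 1) (nat_lit 211) (nat_lit 89) (nat_lit 210))))) (PT.nd (nat_lit 53196) (PT.nd (nat_lit 156) (PT.nd (nat_lit 78) (PT.lf (nat_lit 8968) (nat_lit 6) (nat_lit 118) (nat_lit 3) (nat_lit 209) (nat_lit 90) (nat_lit 211)) (PT.lf (nat_lit 9044) (nat_lit 3) (nat_lit 119) (nat_lit 1) (nat_lit 210) (nat_lit 90) (nat_lit 210))) (PT.nd (nat_lit 52962) (PT.lf (nat_lit 8968) (nat_lit 6) (nat_lit 118) (nat_lit 1) (nat_lit 211) (nat_lit 90) (nat_lit 209)) (PT.lf (nat_lit 9196) (nat_lit 6) (nat_lit 121) (nat_lit 3) (nat_lit 209) (nat_lit 91) (nat_lit 210)))) (PT.nd (nat_lit 53040) (PT.nd (nat_lit 52962) (PT.lf (nat_lit 9196) (nat_lit 6) (nat_lit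 121) (nat_lit 1) (nat_lit 210) (nat_lit 91) (nat_lit 209)) (PT.lf (nat_lit 9272) (nat_lit 6) (nat_lit 122) (nat_lit 3) (nat_lit 208) (nat_lit 92) (nat_lit 210))) (PT.nd (nat_lit 78) (PT.lf (nat_lit 9348) (nat_lit 3) (nat_lit 123) (nat_lit 1) (nat_lit 209) (nat_lit 92) (nat_lit 209)) (PT.nd (nat_lit 52962) (PT.lf (nat_lit 9272) (nat_lit 6) (nat_lit 122) (nat_lit 1) (nat_lit 210) (nat_lit 92) (nat_lit 208)) (PT.lf (nat_lit 9500) (nat_lit 6) (nat_lit 125) (nat_lit 3) (nat_lit 208) (nat_lit 93) (nat_lit 209))))))) (PT.nd (nat_lit 159198) (PT.nd (nat_lit 106002) (PT.nd (nat_lit 53040) (PT.nd (nat_lit 52962) (PT.lf (nat_lit 9500) (nat_lit 6) (nat_lit 125) (nat_lit 1) (nat_lit 209) (nat_lit 93) (nat_lit 208)) (PT.lf (nat_lit 9576) (nat_lit 6) (nat_lit 126) (nat_lit 3) (nat_lit 207) (nat_lit 94) (nat_lit 209))) (PT.nd (nat_lit 78) (PT.lf (nat_lit 9652) (nat_lit 3) (nat_lit 127) (nat_lit 1) (nat_lit 208) (nat_lit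 94) (nat_lit 208)) (PT.lf (nat_lit 9576) (nat_lit 6) (nat_lit 126) (nat_lit 1) (nat_lit 209) (nat_lit 94) (nat_lit 207)))) (PT.nd (nat_lit 156) (PT.nd (nat_lit 78) (PT.lf (nat_lit 9728) (nat_lit 6) (nat_lit 128) (nat_lit 3) (nat_lit 206) (nat_lit 95) (nat_lit 209)) (PT.lf (nat_lit 9804) (nat_lit 6) (nat_lit 129) (nat_lit 3) (nat_lit 207) (nat_lit 95) (nat_lit 208))) (PT.nd (nat_lit 78) (PT.lf (nat_lit 9804) (nat_lit 6) (nat_lit 129) (nat_lit 1) (nat_lit 208) (nat_lit 95) (nat_lit 207)) (PT.nd (nat_lit 52884) (PT.lf (nat_lit 9728) (nat_lit 6) (nat_lit 128) (nat_lit 1) (nat_lit 209) (nat_lit 95) (nat_lit 206)) (PT.lf (nat_lit 9880) (nat_lit 6) (nat_lit 130) (nat_lit 3) (nat_lit 206) (nat_lit 96) (nat_lit 208)))))) (PT.nd (nat_lit 53118) (PT.nd (nat_lit 52962) (PT.nd (nat_lit 78) (PT.lf (nat_lit 9956) (nat_lit 3) (nat_lit 131) (nat_lit 1) (nat_lit 207) (nat_lit 96) (nat_lit 207)) (PT.lf (nat_lit 9880) (nat_lit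 6) (nat_lit 130) (nat_lit 1) (nat_lit 208) (nat_lit 96) (nat_lit 206))) (PT.nd (nat_lit 78) (PT.lf (nat_lit 10032) (nat_lit 6) (nat_lit 132) (nat_lit 3) (nat_lit 205) (nat_lit 97) (nat_lit 208)) (PT.lf (nat_lit 10108) (nat_lit 6) (nat_lit 133) (nat_lit 3) (nat_lit 206) (nat_lit 97) (nat_lit 207)))) (PT.nd (nat_lit 52962) (PT.nd (nat_lit 78) (PT.lf (nat_lit 10108) (nat_lit 6) (nat_lit 133) (nat_lit 1) (nat_lit 207) (nat_lit 97) (nat_lit 206)) (PT.lf (nat_lit 10032) (nat_lit 6) (nat_lit 132) (nat_lit 1) (nat_lit 208) (nat_lit 97) (nat_lit 205))) (PT.nd (nat_lit 78) (PT.lf (nat_lit 10184) (nat_lit 6) (nat_lit 134) (nat_lit 3) (nat_lit 205) (nat_lit 98) (nat_lit 207)) (PT.nd (nat_lit 78) (PT.lf (nat_lit 10260) (nat_lit 3) (nat_lit 135) (nat_lit 1) (nat_lit 206) (nat_lit 98) (nat_lit 206)) (PT.lf (nat_lit 10184) (nat_lit 6) (nat_lit 134) (nat_lit 1) (nat_lit 207) (nat_lit 98) (nat_lit 205))))))))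
noncomputable def pc1 : PT := (PT.nd (nat_lit 212550) (PT.nd (nat_lit 106236) (PT.nd (nat_lit 53118) (PT.nd (nat_lit 156) (PT.nd (nat_lit 78) (PT.lf (nat_lit 10336) (nat_lit 6) (nat_lit 136) (nat_lit 3) (nat_lit 204) (nat_lit 99) (nat_lit 207)) (PT.lf (nat_lit 10412) (nat_lit 6) (nat_lit 137) (nat_lit 3) (nat_lit 205) (nat_lit 99) (nat_lit 206))) (PT.nd (nat_lit 78) (PT.lf (nat_lit 10412) (nat_lit 6) (nat_lit 137) (nat_lit 1) (nat_lit 206) (nat_lit 99) (nat_lit 205)) (PT.lf (nat_lit 10336) (nat_lit 6) (nat_lit 136) (nat_lit 1) (nat_lit 207) (nat_lit 99) (nat_lit 204)))) (PT.nd (nat_lit 156) (PT.nd (nat_lit 78) (PT.lf (nat_lit 10488) (nat_lit 6) (nat_lit 138) (nat_lit 3) (nat_lit 204) (nat_lit 100) (nat_lit 206)) (PT.lf (nat_lit 10564) (nat_lit 3) (nat_lit 139) (nat_lit 1) (nat_lit 205) (nat_lit 100) (nat_lit 205))) (PT.nd (nat_lit 52884) (PT.lf (nat_lit 10488) (nat_lit 6) (nat_lit 138) (nat_lit 1) (nat_lit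 206) (nat_lit 100) (nat_lit 204)) (PT.lf (nat_lit 10640) (nat_lit 6) (nat_lit 140) (nat_lit 3) (nat_lit 203) (nat_lit 101) (nat_lit 206))))) (PT.nd (nat_lit 53118) (PT.nd (nat_lit 156) (PT.nd (nat_lit 78) (PT.lf (nat_lit 10716) (nat_lit 6) (nat_lit 141) (nat_lit 3) (nat_lit 204) (nat_lit 101) (nat_lit 205)) (PT.lf (nat_lit 10716) (nat_lit 6) (nat_lit 141) (nat_lit 1) (nat_lit 205) (nat_lit 101) (nat_lit 204))) (PT.nd (nat_lit 52884) (PT.lf (nat_lit 10640) (nat_lit 6) (nat_lit 140) (nat_lit 1) (nat_lit 206) (nat_lit 101) (nat_lit 203)) (PT.lf (nat_lit 10792) (nat_lit 6) (nat_lit 142) (nat_lit 3) (nat_lit 203) (nat_lit 102) (nat_lit 205)))) (PT.nd (nat_lit 52962) (PT.nd (nat_lit 78) (PT.lf (nat_lit 10868) (nat_lit 3) (nat_lit 143) (nat_lit 1) (nat_lit 204) (nat_lit 102) (nat_lit 204)) (PT.lf (nat_lit 10792) (nat_lit 6) (nat_lit 142) (nat_lit 1) (nat_lit 205) (nat_lit 102) (nat_lit 203))) (PT.nd (nat_lit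 78) (PT.lf (nat_lit 10944) (nat_lit 6) (nat_lit 144) (nat_lit 3) (nat_lit 202) (nat_lit 103) (nat_lit 205)) (PT.nd (nat_lit 78) (PT.lf (nat_lit 11020) (nat_lit 6) (nat_lit 145) (nat_lit 3) (nat_lit 203) (nat_lit 103) (nat_lit 204)) (PT.lf (nat_lit 11020) (nat_lit 6) (nat_lit 145) (nat_lit 1) (nat_lit 204) (nat_lit 103) (nat_lit 203))))))) (PT.nd (nat_lit 159120) (PT.nd (nat_lit 105924) (PT.nd (nat_lit 52962) (PT.nd (nat_lit 52884) (PT.lf (nat_lit 10944) (nat_lit 6) (nat_lit 144) (nat_lit 1) (nat_lit 205) (nat_lit 103) (nat_lit 202)) (PT.lf (nat_lit 11096) (nat_lit 6) (nat_lit 146) (nat_lit 3) (nat_lit 202) (nat_lit 104) (nat_lit 204))) (PT.nd (nat_lit 78) (PT.lf (nat_lit 11172) (nat_lit 3) (nat_lit 147) (nat_lit 1) (nat_lit 203) (nat_lit 104) (nat_lit 203)) (PT.lf (nat_lit 11096) (nat_lit 6) (nat_lit 146) (nat_lit 1) (nat_lit 204) (nat_lit 104) (nat_lit 202)))) (PT.nd (nat_lit 156) (PT.nd (nat_lit 78)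 (PT.lf (nat_lit 11248) (nat_lit 6) (nat_lit 148) (nat_lit 3) (nat_lit 201) (nat_lit 105) (nat_lit 204)) (PT.lf (nat_lit 11324) (nat_lit 6) (nat_lit 149) (nat_lit 3) (nat_lit 202) (nat_lit 105) (nat_lit 203))) (PT.nd (nat_lit 78) (PT.lf (nat_lit 11324) (nat_lit 6) (nat_lit 149) (nat_lit 1) (nat_lit 203) (nat_lit 105) (nat_lit 202)) (PT.nd (nat_lit 52884) (PT.lf (nat_lit 11248) (nat_lit 6) (nat_lit 148) (nat_lit 1) (nat_lit 204) (nat_lit 105) (nat_lit 201)) (PT.lf (nat_lit 11400) (nat_lit 6) (nat_lit 150) (nat_lit 3) (nat_lit 201) (nat_lit 106) (nat_lit 203)))))) (PT.nd (nat_lit 53118) (PT.nd (nat_lit 52962) (PT.nd (nat_lit 78) (PT.lf (nat_lit 11476) (nat_lit 3) (nat_lit 151) (nat_lit 1) (nat_lit 202) (nat_lit 106) (nat_lit 202)) (PT.lf (nat_lit 11400) (nat_lit 6) (nat_lit 150) (nat_lit 1) (nat_lit 203) (nat_lit 106) (nat_lit 201))) (PT.nd (nat_lit 78) (PT.lf (nat_lit 11552) (nat_lit 6) (nat_lit 152) (nat_lit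 3) (nat_lit 200) (nat_lit 107) (nat_lit 203)) (PT.lf (nat_lit 11628) (nat_lit 6) (nat_lit 153) (nat_lit 3) (nat_lit 201) (nat_lit 107) (nat_lit 202)))) (PT.nd (nat_lit 52884) (PT.nd (nat_lit 78) (PT.lf (nat_lit 11628) (nat_lit 6) (nat_lit 153) (nat_lit 1) (nat_lit 202) (nat_lit 107) (nat_lit 201)) (PT.lf (nat_lit 11552) (nat_lit 6) (nat_lit 152) (nat_lit 1) (nat_lit 203) (nat_lit 107) (nat_lit 200))) (PT.nd (nat_lit 78) (PT.lf (nat_lit 11704) (nat_lit 6) (nat_lit 154) (nat_lit 3) (nat_lit 199) (nat_lit 108) (nat_lit 203)) (PT.nd (nat_lit 78) (PT.lf (nat_lit 11780) (nat_lit 6) (nat_lit 155) (nat_lit 3) (nat_lit 200) (nat_lit 108) (nat_lit 202)) (PT.lf (nat_lit 11856) (nat_lit 3) (nat_lit 156) (nat_lit 1) (nat_lit 201) (nat_lit 108) (nat_lit 201))))))))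
noncomputable def pc2 : PT := (PT.nd (nat_lit 212238) (PT.nd (nat_lit 106080) (PT.nd (nat_lit 53040) (PT.nd (nat_lit 52884) (PT.nd (nat_lit 78) (PT.lf (nat_lit 11780) (nat_lit 6) (nat_lit 155) (nat_lit 1) (nat_lit 202) (nat_lit 108) (nat_lit 200)) (PT.lf (nat_lit 11704) (nat_lit 6) (nat_lit 154) (nat_lit 1) (nat_lit 203) (nat_lit 108) (nat_lit 199))) (PT.nd (nat_lit 78) (PT.lf (nat_lit 11932) (nat_lit 6) (nat_lit 157) (nat_lit 3) (nat_lit 199) (nat_lit 109) (nat_lit 202)) (PT.lf (nat_lit 12008) (nat_lit 6) (nat_lit 158) (nat_lit 3) (nat_lit 200) (nat_lit 109) (nat_lit 201)))) (PT.nd (nat_lit 52884) (PT.nd (nat_lit 78) (PT.lf (nat_lit 12008) (nat_lit 6) (nat_lit 158) (nat_lit 1) (nat_lit 201) (nat_lit 109) (nat_lit 200)) (PT.lf (nat_lit 11932) (nat_lit 6) (nat_lit 157) (nat_lit 1) (nat_lit 202) (nat_lit 109) (nat_lit 199))) (PT.nd (nat_lit 78) (PT.lf (nat_lit 12084) (nat_lit 6) (nat_lit 159) (nat_lit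 3) (nat_lit 198) (nat_lit 110) (nat_lit 202)) (PT.lf (nat_lit 12160) (nat_lit 6) (nat_lit 160) (nat_lit 3) (nat_lit 199) (nat_lit 110) (nat_lit 201))))) (PT.nd (nat_lit 53040) (PT.nd (nat_lit 156) (PT.nd (nat_lit 78) (PT.lf (nat_lit 12236) (nat_lit 3) (nat_lit 161) (nat_lit 1) (nat_lit 200) (nat_lit 110) (nat_lit 200)) (PT.lf (nat_lit 12160) (nat_lit 6) (nat_lit 160) (nat_lit 1) (nat_lit 201) (nat_lit 110) (nat_lit 199))) (PT.nd (nat_lit 52806) (PT.lf (nat_lit 12084) (nat_lit 6) (nat_lit 159) (nat_lit 1) (nat_lit 202) (nat_lit 110) (nat_lit 198)) (PT.lf (nat_lit 12312) (nat_lit 6) (nat_lit 162) (nat_lit 3) (nat_lit 198) (nat_lit 111) (nat_lit 201)))) (PT.nd (nat_lit 156) (PT.nd (nat_lit 78) (PT.lf (nat_lit 12388) (nat_lit 6) (nat_lit 163) (nat_lit 3) (nat_lit 199) (nat_lit 111) (nat_lit 200)) (PT.lf (nat_lit 12388) (nat_lit 6) (nat_lit 163) (nat_lit 1) (nat_lit 200) (nat_lit 111) (nat_lit 199))) (PT.nd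 (nat_lit 52806) (PT.lf (nat_lit 12312) (nat_lit 6) (nat_lit 162) (nat_lit 1) (nat_lit 201) (nat_lit 111) (nat_lit 198)) (PT.nd (nat_lit 78) (PT.lf (nat_lit 12464) (nat_lit 6) (nat_lit 164) (nat_lit 3) (nat_lit 197) (nat_lit 112) (nat_lit 201)) (PT.lf (nat_lit 12540) (nat_lit 6) (nat_lit 165) (nat_lit 3) (nat_lit 198) (nat_lit 112) (nat_lit 200))))))) (PT.nd (nat_lit 106158) (PT.nd (nat_lit 53040) (PT.nd (nat_lit 156) (PT.nd (nat_lit 78) (PT.lf (nat_lit 12616) (nat_lit 3) (nat_lit 166) (nat_lit 1) (nat_lit 199) (nat_lit 112) (nat_lit 199)) (PT.lf (nat_lit 12540) (nat_lit 6) (nat_lit 165) (nat_lit 1) (nat_lit 200) (nat_lit 112) (nat_lit 198))) (PT.nd (nat_lit 52806) (PT.lf (nat_lit 12464) (nat_lit 6) (nat_lit 164) (nat_lit 1) (nat_lit 201) (nat_lit 112) (nat_lit 197)) (PT.lf (nat_lit 12692) (nat_lit 6) (nat_lit 167) (nat_lit 3) (nat_lit 197) (nat_lit 113) (nat_lit 200)))) (PT.nd (nat_lit 156) (PT.nd (nat_lit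 78) (PT.lf (nat_lit 12768) (nat_lit 6) (nat_lit 168) (nat_lit 3) (nat_lit 198) (nat_lit 113) (nat_lit 199)) (PT.lf (nat_lit 12768) (nat_lit 6) (nat_lit 168) (nat_lit 1) (nat_lit 199) (nat_lit 113) (nat_lit 198))) (PT.nd (nat_lit 52806) (PT.lf (nat_lit 12692) (nat_lit 6) (nat_lit 167) (nat_lit 1) (nat_lit 200) (nat_lit 113) (nat_lit 197)) (PT.nd (nat_lit 78) (PT.lf (nat_lit 12844) (nat_lit 6) (nat_lit 169) (nat_lit 3) (nat_lit 196) (nat_lit 114) (nat_lit 200)) (PT.lf (nat_lit 12920) (nat_lit 6) (nat_lit 170) (nat_lit 3) (nat_lit 197) (nat_lit 114) (nat_lit 199)))))) (PT.nd (nat_lit 53040) (PT.nd (nat_lit 156) (PT.nd (nat_lit 78) (PT.lf (nat_lit 12996) (nat_lit 3) (nat_lit 171) (nat_lit 1) (nat_lit 198) (nat_lit 114) (nat_lit 198)) (PT.lf (nat_lit 12920) (nat_lit 6) (nat_lit 170) (nat_lit 1) (nat_lit 199) (nat_lit 114) (nat_lit 197))) (PT.nd (nat_lit 52806) (PT.lf (nat_lit 12844) (nat_lit 6) (nat_lit 169)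 (nat_lit 1) (nat_lit 200) (nat_lit 114) (nat_lit 196)) (PT.lf (nat_lit 13072) (nat_lit 6) (nat_lit 172) (nat_lit 3) (nat_lit 196) (nat_lit 115) (nat_lit 199)))) (PT.nd (nat_lit 156) (PT.nd (nat_lit 78) (PT.lf (nat_lit 13148) (nat_lit 6) (nat_lit 173) (nat_lit 3) (nat_lit 197) (nat_lit 115) (nat_lit 198)) (PT.lf (nat_lit 13148) (nat_lit 6) (nat_lit 173) (nat_lit 1) (nat_lit 198) (nat_lit 115) (nat_lit 197))) (PT.nd (nat_lit 52806) (PT.lf (nat_lit 13072) (nat_lit 6) (nat_lit 172) (nat_lit 1) (nat_lit 199) (nat_lit 115) (nat_lit 196)) (PT.nd (nat_lit 78) (PT.lf (nat_lit 13224) (nat_lit 6) (nat_lit 174) (nat_lit 3) (nat_lit 195) (nat_lit 116) (nat_lit 199)) (PT.lf (nat_lit 13300) (nat_lit 6) (nat_lit 175) (nat_lit 3) (nat_lit 196) (nat_lit 116) (nat_lit 198))))))))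
noncomputable def pc3 : PT := (PT.nd (nat_lit 159354) (PT.nd (nat_lit 106002) (PT.nd (nat_lit 52962) (PT.nd (nat_lit 156) (PT.nd (nat_lit 78) (PT.lf (nat_lit 13376) (nat_lit 3) (nat_lit 176) (nat_lit 1) (nat_lit 197) (nat_lit 116) (nat_lit 197)) (PT.lf (nat_lit 13300) (nat_lit 6) (nat_lit 175) (nat_lit 1) (nat_lit 198) (nat_lit 116) (nat_lit 196))) (PT.nd (nat_lit 52728) (PT.lf (nat_lit 13224) (nat_lit 6) (nat_lit 174) (nat_lit 1) (nat_lit 199) (nat_lit 116) (nat_lit 195)) (PT.lf (nat_lit 13452) (nat_lit 6) (nat_lit 177) (nat_lit 3) (nat_lit 194) (nat_lit 117) (nat_lit 199)))) (PT.nd (nat_lit 156) (PT.nd (nat_lit 78) (PT.lf (nat_lit 13528) (nat_lit 6) (nat_lit 178) (nat_lit 3) (nat_lit 195) (nat_lit 117) (nat_lit 198)) (PT.lf (nat_lit 13604) (nat_lit 6) (nat_lit 179) (nat_lit 3) (nat_lit 196) (nat_lit 117) (nat_lit 197))) (PT.nd (nat_lit 78) (PT.lf (nat_lit 13604) (nat_lit 6) (nat_lit 179) (nat_lit 1)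 (nat_lit 197) (nat_lit 117) (nat_lit 196)) (PT.nd (nat_lit 78) (PT.lf (nat_lit 13528) (nat_lit 6) (nat_lit 178) (nat_lit 1) (nat_lit 198) (nat_lit 117) (nat_lit 195)) (PT.lf (nat_lit 13452) (nat_lit 6) (nat_lit 177) (nat_lit 1) (nat_lit 199) (nat_lit 117) (nat_lit 194)))))) (PT.nd (nat_lit 312) (PT.nd (nat_lit 156) (PT.nd (nat_lit 78) (PT.lf (nat_lit 13680) (nat_lit 6) (nat_lit 180) (nat_lit 3) (nat_lit 194) (nat_lit 118) (nat_lit 198)) (PT.lf (nat_lit 13756) (nat_lit 6) (nat_lit 181) (nat_lit 3) (nat_lit 195) (nat_lit 118) (nat_lit 197))) (PT.nd (nat_lit 78) (PT.lf (nat_lit 13832) (nat_lit 3) (nat_lit 182) (nat_lit 1) (nat_lit 196) (nat_lit 118) (nat_lit 196)) (PT.lf (nat_lit 13756) (nat_lit 6) (nat_lit 181) (nat_lit 1) (nat_lit 197) (nat_lit 118) (nat_lit 195)))) (PT.nd (nat_lit 52806) (PT.nd (nat_lit 52728) (PT.lf (nat_lit 13680) (nat_lit 6) (nat_lit 180) (nat_lit 1) (nat_lit 198) (nat_lit 118) (nat_lit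 194)) (PT.lf (nat_lit 13908) (nat_lit 6) (nat_lit 183) (nat_lit 3) (nat_lit 193) (nat_lit 119) (nat_lit 198))) (PT.nd (nat_lit 78) (PT.lf (nat_lit 13984) (nat_lit 6) (nat_lit 184) (nat_lit 3) (nat_lit 194) (nat_lit 119) (nat_lit 197)) (PT.nd (nat_lit 78) (PT.lf (nat_lit 14060) (nat_lit 6) (nat_lit 185) (nat_lit 3) (nat_lit 195) (nat_lit 119) (nat_lit 196)) (PT.lf (nat_lit 14060) (nat_lit 6) (nat_lit 185) (nat_lit 1) (nat_lit 196) (nat_lit 119) (nat_lit 195))))))) (PT.nd (nat_lit 106002) (PT.nd (nat_lit 52962) (PT.nd (nat_lit 52806) (PT.nd (nat_lit 78) (PT.lf (nat_lit 13984) (nat_lit 6) (nat_lit 184) (nat_lit 1) (nat_lit 197) (nat_lit 119) (nat_lit 194)) (PT.lf (nat_lit 13908) (nat_lit 6) (nat_lit 183) (nat_lit 1) (nat_lit 198) (nat_lit 119) (nat_lit 193))) (PT.nd (nat_lit 78) (PT.lf (nat_lit 14136) (nat_lit 6) (nat_lit 186) (nat_lit 3) (nat_lit 193) (nat_lit 120) (nat_lit 197)) (PT.lf (nat_lit 14212)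 (nat_lit 6) (nat_lit 187) (nat_lit 3) (nat_lit 194) (nat_lit 120) (nat_lit 196)))) (PT.nd (nat_lit 156) (PT.nd (nat_lit 78) (PT.lf (nat_lit 14288) (nat_lit 3) (nat_lit 188) (nat_lit 1) (nat_lit 195) (nat_lit 120) (nat_lit 195)) (PT.lf (nat_lit 14212) (nat_lit 6) (nat_lit 187) (nat_lit 1) (nat_lit 196) (nat_lit 120) (nat_lit 194))) (PT.nd (nat_lit 52728) (PT.lf (nat_lit 14136) (nat_lit 6) (nat_lit 186) (nat_lit 1) (nat_lit 197) (nat_lit 120) (nat_lit 193)) (PT.nd (nat_lit 78) (PT.lf (nat_lit 14364) (nat_lit 6) (nat_lit 189) (nat_lit 3) (nat_lit 192) (nat_lit 121) (nat_lit 197)) (PT.lf (nat_lit 14440) (nat_lit 6) (nat_lit 190) (nat_lit 3) (nat_lit 193) (nat_lit 121) (nat_lit 196)))))) (PT.nd (nat_lit 52884) (PT.nd (nat_lit 156) (PT.nd (nat_lit 78) (PT.lf (nat_lit 14516) (nat_lit 6) (nat_lit 191) (nat_lit 3) (nat_lit 194) (nat_lit 121) (nat_lit 195)) (PT.lf (nat_lit 14516) (nat_lit 6) (nat_lit 191) (nat_lit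 1) (nat_lit 195) (nat_lit 121) (nat_lit 194))) (PT.nd (nat_lit 78) (PT.lf (nat_lit 14440) (nat_lit 6) (nat_lit 190) (nat_lit 1) (nat_lit 196) (nat_lit 121) (nat_lit 193)) (PT.lf (nat_lit 14364) (nat_lit 6) (nat_lit 189) (nat_lit 1) (nat_lit 197) (nat_lit 121) (nat_lit 192)))) (PT.nd (nat_lit 156) (PT.nd (nat_lit 78) (PT.lf (nat_lit 14592) (nat_lit 6) (nat_lit 192) (nat_lit 3) (nat_lit 191) (nat_lit 122) (nat_lit 197)) (PT.lf (nat_lit 14668) (nat_lit 6) (nat_lit 193) (nat_lit 3) (nat_lit 192) (nat_lit 122) (nat_lit 196))) (PT.nd (nat_lit 78) (PT.lf (nat_lit 14744) (nat_lit 6) (nat_lit 194) (nat_lit 3) (nat_lit 193) (nat_lit 122) (nat_lit 195)) (PT.nd (nat_lit 78) (PT.lf (nat_lit 14820) (nat_lit 3) (nat_lit 195) (nat_lit 1) (nat_lit 194) (nat_lit 122) (nat_lit 194)) (PT.lf (nat_lit 14744) (nat_lit 6) (nat_lit 194) (nat_lit 1) (nat_lit 195) (nat_lit 122) (nat_lit 193))))))))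
noncomputable def pc4 : PT := (PT.nd (nat_lit 159042) (PT.nd (nat_lit 105768) (PT.nd (nat_lit 52884) (PT.nd (nat_lit 52728) (PT.nd (nat_lit 78) (PT.lf (nat_lit 14668) (nat_lit 6) (nat_lit 193) (nat_lit 1) (nat_lit 196) (nat_lit 122) (nat_lit 192)) (PT.lf (nat_lit 14592) (nat_lit 6) (nat_lit 192) (nat_lit 1) (nat_lit 197) (nat_lit 122) (nat_lit 191))) (PT.nd (nat_lit 78) (PT.lf (nat_lit 14896) (nat_lit 6) (nat_lit 196) (nat_lit 3) (nat_lit 191) (nat_lit 123) (nat_lit 196)) (PT.lf (nat_lit 14972) (nat_lit 6) (nat_lit 197) (nat_lit 3) (nat_lit 192) (nat_lit 123) (nat_lit 195)))) (PT.nd (nat_lit 156) (PT.nd (nat_lit 78) (PT.lf (nat_lit 15048) (nat_lit 6) (nat_lit 198) (nat_lit 3) (nat_lit 193) (nat_lit 123) (nat_lit 194)) (PT.lf (nat_lit 15048) (nat_lit 6) (nat_lit 198) (nat_lit 1) (nat_lit 194) (nat_lit 123) (nat_lit 193))) (PT.nd (nat_lit 78) (PT.lf (nat_lit 14972) (nat_lit 6) (nat_lit 197) (nat_lit 1)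 (nat_lit 195) (nat_lit 123) (nat_lit 192)) (PT.lf (nat_lit 14896) (nat_lit 6) (nat_lit 196) (nat_lit 1) (nat_lit 196) (nat_lit 123) (nat_lit 191))))) (PT.nd (nat_lit 312) (PT.nd (nat_lit 156) (PT.nd (nat_lit 78) (PT.lf (nat_lit 15124) (nat_lit 6) (nat_lit 199) (nat_lit 3) (nat_lit 190) (nat_lit 124) (nat_lit 196)) (PT.lf (nat_lit 15200) (nat_lit 6) (nat_lit 200) (nat_lit 3) (nat_lit 191) (nat_lit 124) (nat_lit 195))) (PT.nd (nat_lit 78) (PT.lf (nat_lit 15276) (nat_lit 6) (nat_lit 201) (nat_lit 3) (nat_lit 192) (nat_lit 124) (nat_lit 194)) (PT.lf (nat_lit 15352) (nat_lit 3) (nat_lit 202) (nat_lit 1) (nat_lit 193) (nat_lit 124) (nat_lit 193)))) (PT.nd (nat_lit 156) (PT.nd (nat_lit 78) (PT.lf (nat_lit 15276) (nat_lit 6) (nat_lit 201) (nat_lit 1) (nat_lit 194) (nat_lit 124) (nat_lit 192)) (PT.lf (nat_lit 15200) (nat_lit 6) (nat_lit 200) (nat_lit 1) (nat_lit 195) (nat_lit 124) (nat_lit 191))) (PT.nd (nat_lit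 52650) (PT.lf (nat_lit 15124) (nat_lit 6) (nat_lit 199) (nat_lit 1) (nat_lit 196) (nat_lit 124) (nat_lit 190)) (PT.nd (nat_lit 78) (PT.lf (nat_lit 15428) (nat_lit 6) (nat_lit 203) (nat_lit 3) (nat_lit 190) (nat_lit 125) (nat_lit 195)) (PT.lf (nat_lit 15504) (nat_lit 6) (nat_lit 204) (nat_lit 3) (nat_lit 191) (nat_lit 125) (nat_lit 194))))))) (PT.nd (nat_lit 53274) (PT.nd (nat_lit 52884) (PT.nd (nat_lit 156) (PT.nd (nat_lit 78) (PT.lf (nat_lit 15580) (nat_lit 6) (nat_lit 205) (nat_lit 3) (nat_lit 192) (nat_lit 125) (nat_lit 193)) (PT.lf (nat_lit 15580) (nat_lit 6) (nat_lit 205) (nat_lit 1) (nat_lit 193) (nat_lit 125) (nat_lit 192))) (PT.nd (nat_lit 78) (PT.lf (nat_lit 15504) (nat_lit 6) (nat_lit 204) (nat_lit 1) (nat_lit 194) (nat_lit 125) (nat_lit 191)) (PT.lf (nat_lit 15428) (nat_lit 6) (nat_lit 203) (nat_lit 1) (nat_lit 195) (nat_lit 125) (nat_lit 190)))) (PT.nd (nat_lit 156) (PT.nd (nat_lit 78) (PT.lf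 (nat_lit 15656) (nat_lit 6) (nat_lit 206) (nat_lit 3) (nat_lit 189) (nat_lit 126) (nat_lit 195)) (PT.lf (nat_lit 15732) (nat_lit 6) (nat_lit 207) (nat_lit 3) (nat_lit 190) (nat_lit 126) (nat_lit 194))) (PT.nd (nat_lit 78) (PT.lf (nat_lit 15808) (nat_lit 6) (nat_lit 208) (nat_lit 3) (nat_lit 191) (nat_lit 126) (nat_lit 193)) (PT.nd (nat_lit 78) (PT.lf (nat_lit 15884) (nat_lit 3) (nat_lit 209) (nat_lit 1) (nat_lit 192) (nat_lit 126) (nat_lit 192)) (PT.lf (nat_lit 15808) (nat_lit 6) (nat_lit 208) (nat_lit 1) (nat_lit 193) (nat_lit 126) (nat_lit 191)))))) (PT.nd (nat_lit 52806) (PT.nd (nat_lit 52650) (PT.nd (nat_lit 78) (PT.lf (nat_lit 15732) (nat_lit 6) (nat_lit 207) (nat_lit 1) (nat_lit 194) (nat_lit 126) (nat_lit 190)) (PT.lf (nat_lit 15656) (nat_lit 6) (nat_lit 206) (nat_lit 1) (nat_lit 195) (nat_lit 126) (nat_lit 189))) (PT.nd (nat_lit 78) (PT.lf (nat_lit 15960) (nat_lit 6) (nat_lit 210) (nat_lit 3)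 (nat_lit 188) (nat_lit 127) (nat_lit 195)) (PT.lf (nat_lit 16036) (nat_lit 6) (nat_lit 211) (nat_lit 3) (nat_lit 189) (nat_lit 127) (nat_lit 194)))) (PT.nd (nat_lit 156) (PT.nd (nat_lit 78) (PT.lf (nat_lit 16112) (nat_lit 6) (nat_lit 212) (nat_lit 3) (nat_lit 190) (nat_lit 127) (nat_lit 193)) (PT.lf (nat_lit 16188) (nat_lit 6) (nat_lit 213) (nat_lit 3) (nat_lit 191) (nat_lit 127) (nat_lit 192))) (PT.nd (nat_lit 78) (PT.lf (nat_lit 16188) (nat_lit 6) (nat_lit 213) (nat_lit 1) (nat_lit 192) (nat_lit 127) (nat_lit 191)) (PT.nd (nat_lit 78) (PT.lf (nat_lit 16112) (nat_lit 6) (nat_lit 212) (nat_lit 1) (nat_lit 193) (nat_lit 127) (nat_lit 190)) (PT.lf (nat_lit 16036) (nat_lit 6) (nat_lit 211) (nat_lit 1) (nat_lit 194) (nat_lit 127) (nat_lit 189))))))))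
noncomputable def pc5 : PT := (PT.nd (nat_lit 158886) (PT.nd (nat_lit 105690) (PT.nd (nat_lit 52806) (PT.nd (nat_lit 52650) (PT.nd (nat_lit 52572) (PT.lf (nat_lit 15960) (nat_lit 6) (nat_lit 210) (nat_lit 1) (nat_lit 195) (nat_lit 127) (nat_lit 188)) (PT.lf (nat_lit 16264) (nat_lit 6) (nat_lit 214) (nat_lit 3) (nat_lit 188) (nat_lit 128) (nat_lit 194))) (PT.nd (nat_lit 78) (PT.lf (nat_lit 16340) (nat_lit 6) (nat_lit 215) (nat_lit 3) (nat_lit 189) (nat_lit 128) (nat_lit 193)) (PT.lf (nat_lit 16416) (nat_lit 6) (nat_lit 216) (nat_lit 3) (nat_lit 190) (nat_lit 128) (nat_lit 192)))) (PT.nd (nat_lit 156) (PT.nd (nat_lit 78) (PT.lf (nat_lit 16492) (nat_lit 3) (nat_lit 217) (nat_lit 1) (nat_lit 191) (nat_lit 128) (nat_lit 191)) (PT.lf (nat_lit 16416) (nat_lit 6) (nat_lit 216) (nat_lit 1) (nat_lit 192) (nat_lit 128) (nat_lit 190))) (PT.nd (nat_lit 78) (PT.lf (nat_lit 16340) (nat_lit 6) (nat_lit 215) (nat_lit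 1) (nat_lit 193) (nat_lit 128) (nat_lit 189)) (PT.nd (nat_lit 52572) (PT.lf (nat_lit 16264) (nat_lit 6) (nat_lit 214) (nat_lit 1) (nat_lit 194) (nat_lit 128) (nat_lit 188)) (PT.lf (nat_lit 16568) (nat_lit 6) (nat_lit 218) (nat_lit 3) (nat_lit 187) (nat_lit 129) (nat_lit 194)))))) (PT.nd (nat_lit 312) (PT.nd (nat_lit 156) (PT.nd (nat_lit 78) (PT.lf (nat_lit 16644) (nat_lit 6) (nat_lit 219) (nat_lit 3) (nat_lit 188) (nat_lit 129) (nat_lit 193)) (PT.lf (nat_lit 16720) (nat_lit 6) (nat_lit 220) (nat_lit 3) (nat_lit 189) (nat_lit 129) (nat_lit 192))) (PT.nd (nat_lit 78) (PT.lf (nat_lit 16796) (nat_lit 6) (nat_lit 221) (nat_lit 3) (nat_lit 190) (nat_lit 129) (nat_lit 191)) (PT.lf (nat_lit 16796) (nat_lit 6) (nat_lit 221) (nat_lit 1) (nat_lit 191) (nat_lit 129) (nat_lit 190)))) (PT.nd (nat_lit 156) (PT.nd (nat_lit 78) (PT.lf (nat_lit 16720) (nat_lit 6) (nat_lit 220) (nat_lit 1) (nat_lit 192) (nat_lit 129) (nat_lit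 189)) (PT.lf (nat_lit 16644) (nat_lit 6) (nat_lit 219) (nat_lit 1) (nat_lit 193) (nat_lit 129) (nat_lit 188))) (PT.nd (nat_lit 52572) (PT.lf (nat_lit 16568) (nat_lit 6) (nat_lit 218) (nat_lit 1) (nat_lit 194) (nat_lit 129) (nat_lit 187)) (PT.nd (nat_lit 78) (PT.lf (nat_lit 16872) (nat_lit 6) (nat_lit 222) (nat_lit 3) (nat_lit 187) (nat_lit 130) (nat_lit 193)) (PT.lf (nat_lit 16948) (nat_lit 6) (nat_lit 223) (nat_lit 3) (nat_lit 188) (nat_lit 130) (nat_lit 192))))))) (PT.nd (nat_lit 53196) (PT.nd (nat_lit 312) (PT.nd (nat_lit 156) (PT.nd (nat_lit 78) (PT.lf (nat_lit 17024) (nat_lit 6) (nat_lit 224) (nat_lit 3) (nat_lit 189) (nat_lit 130) (nat_lit 191)) (PT.lf (nat_lit 17100) (nat_lit 3) (nat_lit 225) (nat_lit 1) (nat_lit 190) (nat_lit 130) (nat_lit 190))) (PT.nd (nat_lit 78) (PT.lf (nat_lit 17024) (nat_lit 6) (nat_lit 224) (nat_lit 1) (nat_lit 191) (nat_lit 130) (nat_lit 189)) (PT.lf (nat_lit 16948) (nat_lit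 6) (nat_lit 223) (nat_lit 1) (nat_lit 192) (nat_lit 130) (nat_lit 188)))) (PT.nd (nat_lit 52650) (PT.nd (nat_lit 52572) (PT.lf (nat_lit 16872) (nat_lit 6) (nat_lit 222) (nat_lit 1) (nat_lit 193) (nat_lit 130) (nat_lit 187)) (PT.lf (nat_lit 17176) (nat_lit 6) (nat_lit 226) (nat_lit 3) (nat_lit 186) (nat_lit 131) (nat_lit 193))) (PT.nd (nat_lit 78) (PT.lf (nat_lit 17252) (nat_lit 6) (nat_lit 227) (nat_lit 3) (nat_lit 187) (nat_lit 131) (nat_lit 192)) (PT.nd (nat_lit 78) (PT.lf (nat_lit 17328) (nat_lit 6) (nat_lit 228) (nat_lit 3) (nat_lit 188) (nat_lit 131) (nat_lit 191)) (PT.lf (nat_lit 17404) (nat_lit 6) (nat_lit 229) (nat_lit 3) (nat_lit 189) (nat_lit 131) (nat_lit 190)))))) (PT.nd (nat_lit 52728) (PT.nd (nat_lit 156) (PT.nd (nat_lit 78) (PT.lf (nat_lit 17404) (nat_lit 6) (nat_lit 229) (nat_lit 1) (nat_lit 190) (nat_lit 131) (nat_lit 189)) (PT.lf (nat_lit 17328) (nat_lit 6) (nat_lit 228) (nat_lit 1)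 (nat_lit 191) (nat_lit 131) (nat_lit 188))) (PT.nd (nat_lit 78) (PT.lf (nat_lit 17252) (nat_lit 6) (nat_lit 227) (nat_lit 1) (nat_lit 192) (nat_lit 131) (nat_lit 187)) (PT.lf (nat_lit 17176) (nat_lit 6) (nat_lit 226) (nat_lit 1) (nat_lit 193) (nat_lit 131) (nat_lit 186)))) (PT.nd (nat_lit 156) (PT.nd (nat_lit 78) (PT.lf (nat_lit 17480) (nat_lit 6) (nat_lit 230) (nat_lit 3) (nat_lit 185) (nat_lit 132) (nat_lit 193)) (PT.lf (nat_lit 17556) (nat_lit 6) (nat_lit 231) (nat_lit 3) (nat_lit 186) (nat_lit 132) (nat_lit 192))) (PT.nd (nat_lit 78) (PT.lf (nat_lit 17632) (nat_lit 6) (nat_lit 232) (nat_lit 3) (nat_lit 187) (nat_lit 132) (nat_lit 191)) (PT.nd (nat_lit 78) (PT.lf (nat_lit 17708) (nat_lit 6) (nat_lit 233) (nat_lit 3) (nat_lit 188) (nat_lit 132) (nat_lit 190)) (PT.lf (nat_lit 17784) (nat_lit 3) (nat_lit 234) (nat_lit 1) (nat_lit 189) (nat_lit 132) (nat_lit 189))))))))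
noncomputable def pc6 : PT := (PT.nd (nat_lit 106158) (PT.nd (nat_lit 53040) (PT.nd (nat_lit 52728) (PT.nd (nat_lit 156) (PT.nd (nat_lit 78) (PT.lf (nat_lit 17708) (nat_lit 6) (nat_lit 233) (nat_lit 1) (nat_lit 190) (nat_lit 132) (nat_lit 188)) (PT.lf (nat_lit 17632) (nat_lit 6) (nat_lit 232) (nat_lit 1) (nat_lit 191) (nat_lit 132) (nat_lit 187))) (PT.nd (nat_lit 78) (PT.lf (nat_lit 17556) (nat_lit 6) (nat_lit 231) (nat_lit 1) (nat_lit 192) (nat_lit 132) (nat_lit 186)) (PT.lf (nat_lit 17480) (nat_lit 6) (nat_lit 230) (nat_lit 1) (nat_lit 193) (nat_lit 132) (nat_lit 185)))) (PT.nd (nat_lit 156) (PT.nd (nat_lit 78) (PT.lf (nat_lit 17860) (nat_lit 6) (nat_lit 235) (nat_lit 3) (nat_lit 185) (nat_lit 133) (nat_lit 192)) (PT.lf (nat_lit 17936) (nat_lit 6) (nat_lit 236) (nat_lit 3) (nat_lit 186) (nat_lit 133) (nat_lit 191))) (PT.nd (nat_lit 78) (PT.lf (nat_lit 18012) (nat_lit 6) (nat_lit 237) (nat_lit 3) (nat_lit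 187) (nat_lit 133) (nat_lit 190)) (PT.lf (nat_lit 18088) (nat_lit 6) (nat_lit 238) (nat_lit 3) (nat_lit 188) (nat_lit 133) (nat_lit 189))))) (PT.nd (nat_lit 52728) (PT.nd (nat_lit 156) (PT.nd (nat_lit 78) (PT.lf (nat_lit 18088) (nat_lit 6) (nat_lit 238) (nat_lit 1) (nat_lit 189) (nat_lit 133) (nat_lit 188)) (PT.lf (nat_lit 18012) (nat_lit 6) (nat_lit 237) (nat_lit 1) (nat_lit 190) (nat_lit 133) (nat_lit 187))) (PT.nd (nat_lit 78) (PT.lf (nat_lit 17936) (nat_lit 6) (nat_lit 236) (nat_lit 1) (nat_lit 191) (nat_lit 133) (nat_lit 186)) (PT.lf (nat_lit 17860) (nat_lit 6) (nat_lit 235) (nat_lit 1) (nat_lit 192) (nat_lit 133) (nat_lit 185)))) (PT.nd (nat_lit 156) (PT.nd (nat_lit 78) (PT.lf (nat_lit 18164) (nat_lit 6) (nat_lit 239) (nat_lit 3) (nat_lit 184) (nat_lit 134) (nat_lit 192)) (PT.lf (nat_lit 18240) (nat_lit 6) (nat_lit 240) (nat_lit 3) (nat_lit 185) (nat_lit 134) (nat_lit 191))) (PT.nd (nat_lit 78)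 (PT.lf (nat_lit 18316) (nat_lit 6) (nat_lit 241) (nat_lit 3) (nat_lit 186) (nat_lit 134) (nat_lit 190)) (PT.nd (nat_lit 78) (PT.lf (nat_lit 18392) (nat_lit 6) (nat_lit 242) (nat_lit 3) (nat_lit 187) (nat_lit 134) (nat_lit 189)) (PT.lf (nat_lit 18468) (nat_lit 3) (nat_lit 243) (nat_lit 1) (nat_lit 188) (nat_lit 134) (nat_lit 188))))))) (PT.nd (nat_lit 53040) (PT.nd (nat_lit 52650) (PT.nd (nat_lit 156) (PT.nd (nat_lit 78) (PT.lf (nat_lit 18392) (nat_lit 6) (nat_lit 242) (nat_lit 1) (nat_lit 189) (nat_lit 134) (nat_lit 187)) (PT.lf (nat_lit 18316) (nat_lit 6) (nat_lit 241) (nat_lit 1) (nat_lit 190) (nat_lit 134) (nat_lit 186))) (PT.nd (nat_lit 78) (PT.lf (nat_lit 18240) (nat_lit 6) (nat_lit 240) (nat_lit 1) (nat_lit 191) (nat_lit 134) (nat_lit 185)) (PT.lf (nat_lit 18164) (nat_lit 6) (nat_lit 239) (nat_lit 1) (nat_lit 192) (nat_lit 134) (nat_lit 184)))) (PT.nd (nat_lit 156) (PT.nd (nat_lit 78) (PT.lf (nat_lit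 18544) (nat_lit 6) (nat_lit 244) (nat_lit 3) (nat_lit 183) (nat_lit 135) (nat_lit 192)) (PT.lf (nat_lit 18620) (nat_lit 6) (nat_lit 245) (nat_lit 3) (nat_lit 184) (nat_lit 135) (nat_lit 191))) (PT.nd (nat_lit 78) (PT.lf (nat_lit 18696) (nat_lit 6) (nat_lit 246) (nat_lit 3) (nat_lit 185) (nat_lit 135) (nat_lit 190)) (PT.nd (nat_lit 78) (PT.lf (nat_lit 18772) (nat_lit 6) (nat_lit 247) (nat_lit 3) (nat_lit 186) (nat_lit 135) (nat_lit 189)) (PT.lf (nat_lit 18848) (nat_lit 6) (nat_lit 248) (nat_lit 3) (nat_lit 187) (nat_lit 135) (nat_lit 188)))))) (PT.nd (nat_lit 312) (PT.nd (nat_lit 156) (PT.nd (nat_lit 78) (PT.lf (nat_lit 18848) (nat_lit 6) (nat_lit 248) (nat_lit 1) (nat_lit 188) (nat_lit 135) (nat_lit 187)) (PT.lf (nat_lit 18772) (nat_lit 6) (nat_lit 247) (nat_lit 1) (nat_lit 189) (nat_lit 135) (nat_lit 186))) (PT.nd (nat_lit 78) (PT.lf (nat_lit 18696) (nat_lit 6) (nat_lit 246) (nat_lit 1) (nat_lit 190)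 (nat_lit 135) (nat_lit 185)) (PT.lf (nat_lit 18620) (nat_lit 6) (nat_lit 245) (nat_lit 1) (nat_lit 191) (nat_lit 135) (nat_lit 184)))) (PT.nd (nat_lit 52494) (PT.nd (nat_lit 52416) (PT.lf (nat_lit 18544) (nat_lit 6) (nat_lit 244) (nat_lit 1) (nat_lit 192) (nat_lit 135) (nat_lit 183)) (PT.lf (nat_lit 18924) (nat_lit 6) (nat_lit 249) (nat_lit 3) (nat_lit 183) (nat_lit 136) (nat_lit 191))) (PT.nd (nat_lit 78) (PT.lf (nat_lit 19000) (nat_lit 6) (nat_lit 250) (nat_lit 3) (nat_lit 184) (nat_lit 136) (nat_lit 190)) (PT.nd (nat_lit 78) (PT.lf (nat_lit 19076) (nat_lit 6) (nat_lit 251) (nat_lit 3) (nat_lit 185) (nat_lit 136) (nat_lit 189)) (PT.lf (nat_lit 19152) (nat_lit 6) (nat_lit 252) (nat_lit 3) (nat_lit 186) (nat_lit 136) (nat_lit 188))))))))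
noncomputable def pc7 : PT := (PT.nd (nat_lit 106002) (PT.nd (nat_lit 53040) (PT.nd (nat_lit 312) (PT.nd (nat_lit 156) (PT.nd (nat_lit 78) (PT.lf (nat_lit 19228) (nat_lit 3) (nat_lit 253) (nat_lit 1) (nat_lit 187) (nat_lit 136) (nat_lit 187)) (PT.lf (nat_lit 19152) (nat_lit 6) (nat_lit 252) (nat_lit 1) (nat_lit 188) (nat_lit 136) (nat_lit 186))) (PT.nd (nat_lit 78) (PT.lf (nat_lit 19076) (nat_lit 6) (nat_lit 251) (nat_lit 1) (nat_lit 189) (nat_lit 136) (nat_lit 185)) (PT.lf (nat_lit 19000) (nat_lit 6) (nat_lit 250) (nat_lit 1) (nat_lit 190) (nat_lit 136) (nat_lit 184)))) (PT.nd (nat_lit 52494) (PT.nd (nat_lit 52416) (PT.lf (nat_lit 18924) (nat_lit 6) (nat_lit 249) (nat_lit 1) (nat_lit 191) (nat_lit 136) (nat_lit 183)) (PT.lf (nat_lit 19304) (nat_lit 6) (nat_lit 254) (nat_lit 3) (nat_lit 182) (nat_lit 137) (nat_lit 191))) (PT.nd (nat_lit 78) (PT.lf (nat_lit 19380) (nat_lit 6) (nat_lit 255) (nat_lit 3)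 (nat_lit 183) (nat_lit 137) (nat_lit 190)) (PT.nd (nat_lit 78) (PT.lf (nat_lit 19456) (nat_lit 6) (nat_lit 256) (nat_lit 3) (nat_lit 184) (nat_lit 137) (nat_lit 189)) (PT.lf (nat_lit 19532) (nat_lit 6) (nat_lit 257) (nat_lit 3) (nat_lit 185) (nat_lit 137) (nat_lit 188)))))) (PT.nd (nat_lit 312) (PT.nd (nat_lit 156) (PT.nd (nat_lit 78) (PT.lf (nat_lit 19608) (nat_lit 6) (nat_lit 258) (nat_lit 3) (nat_lit 186) (nat_lit 137) (nat_lit 187)) (PT.lf (nat_lit 19608) (nat_lit 6) (nat_lit 258) (nat_lit 1) (nat_lit 187) (nat_lit 137) (nat_lit 186))) (PT.nd (nat_lit 78) (PT.lf (nat_lit 19532) (nat_lit 6) (nat_lit 257) (nat_lit 1) (nat_lit 188) (nat_lit 137) (nat_lit 185)) (PT.lf (nat_lit 19456) (nat_lit 6) (nat_lit 256) (nat_lit 1) (nat_lit 189) (nat_lit 137) (nat_lit 184)))) (PT.nd (nat_lit 52416) (PT.nd (nat_lit 78) (PT.lf (nat_lit 19380) (nat_lit 6) (nat_lit 255) (nat_lit 1) (nat_lit 190) (nat_lit 137) (nat_lit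 183)) (PT.lf (nat_lit 19304) (nat_lit 6) (nat_lit 254) (nat_lit 1) (nat_lit 191) (nat_lit 137) (nat_lit 182))) (PT.nd (nat_lit 78) (PT.lf (nat_lit 19684) (nat_lit 6) (nat_lit 259) (nat_lit 3) (nat_lit 181) (nat_lit 138) (nat_lit 191)) (PT.nd (nat_lit 78) (PT.lf (nat_lit 19760) (nat_lit 6) (nat_lit 260) (nat_lit 3) (nat_lit 182) (nat_lit 138) (nat_lit 190)) (PT.lf (nat_lit 19836) (nat_lit 6) (nat_lit 261) (nat_lit 3) (nat_lit 183) (nat_lit 138) (nat_lit 189))))))) (PT.nd (nat_lit 52962) (PT.nd (nat_lit 312) (PT.nd (nat_lit 156) (PT.nd (nat_lit 78) (PT.lf (nat_lit 19912) (nat_lit 6) (nat_lit 262) (nat_lit 3) (nat_lit 184) (nat_lit 138) (nat_lit 188)) (PT.lf (nat_lit 19988) (nat_lit 6) (nat_lit 263) (nat_lit 3) (nat_lit 185) (nat_lit 138) (nat_lit 187))) (PT.nd (nat_lit 78) (PT.lf (nat_lit 20064) (nat_lit 3) (nat_lit 264) (nat_lit 1) (nat_lit 186) (nat_lit 138) (nat_lit 186)) (PT.lf (nat_lit 19988) (nat_lit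 6) (nat_lit 263) (nat_lit 1) (nat_lit 187) (nat_lit 138) (nat_lit 185)))) (PT.nd (nat_lit 156) (PT.nd (nat_lit 78) (PT.lf (nat_lit 19912) (nat_lit 6) (nat_lit 262) (nat_lit 1) (nat_lit 188) (nat_lit 138) (nat_lit 184)) (PT.lf (nat_lit 19836) (nat_lit 6) (nat_lit 261) (nat_lit 1) (nat_lit 189) (nat_lit 138) (nat_lit 183))) (PT.nd (nat_lit 78) (PT.lf (nat_lit 19760) (nat_lit 6) (nat_lit 260) (nat_lit 1) (nat_lit 190) (nat_lit 138) (nat_lit 182)) (PT.nd (nat_lit 52338) (PT.lf (nat_lit 19684) (nat_lit 6) (nat_lit 259) (nat_lit 1) (nat_lit 191) (nat_lit 138) (nat_lit 181)) (PT.lf (nat_lit 20140) (nat_lit 6) (nat_lit 265) (nat_lit 3) (nat_lit 181) (nat_lit 139) (nat_lit 190)))))) (PT.nd (nat_lit 312) (PT.nd (nat_lit 156) (PT.nd (nat_lit 78) (PT.lf (nat_lit 20216) (nat_lit 6) (nat_lit 266) (nat_lit 3) (nat_lit 182) (nat_lit 139) (nat_lit 189)) (PT.lf (nat_lit 20292) (nat_lit 6) (nat_lit 267) (nat_lit 3) (nat_lit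 183) (nat_lit 139) (nat_lit 188))) (PT.nd (nat_lit 78) (PT.lf (nat_lit 20368) (nat_lit 6) (nat_lit 268) (nat_lit 3) (nat_lit 184) (nat_lit 139) (nat_lit 187)) (PT.lf (nat_lit 20444) (nat_lit 6) (nat_lit 269) (nat_lit 3) (nat_lit 185) (nat_lit 139) (nat_lit 186)))) (PT.nd (nat_lit 156) (PT.nd (nat_lit 78) (PT.lf (nat_lit 20444) (nat_lit 6) (nat_lit 269) (nat_lit 1) (nat_lit 186) (nat_lit 139) (nat_lit 185)) (PT.lf (nat_lit 20368) (nat_lit 6) (nat_lit 268) (nat_lit 1) (nat_lit 187) (nat_lit 139) (nat_lit 184))) (PT.nd (nat_lit 78) (PT.lf (nat_lit 20292) (nat_lit 6) (nat_lit 267) (nat_lit 1) (nat_lit 188) (nat_lit 139) (nat_lit 183)) (PT.nd (nat_lit 78) (PT.lf (nat_lit 20216) (nat_lit 6) (nat_lit 266) (nat_lit 1) (nat_lit 189) (nat_lit 139) (nat_lit 182)) (PT.lf (nat_lit 20140) (nat_lit 6) (nat_lit 265) (nat_lit 1) (nat_lit 190) (nat_lit 139) (nat_lit 181))))))))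
noncomputable def pc8 : PT := (PT.nd (nat_lit 53508) (PT.nd (nat_lit 624) (PT.nd (nat_lit 312) (PT.nd (nat_lit 156) (PT.nd (nat_lit 78) (PT.lf (nat_lit 20520) (nat_lit 6) (nat_lit 270) (nat_lit 3) (nat_lit 180) (nat_lit 140) (nat_lit 190)) (PT.lf (nat_lit 20596) (nat_lit 6) (nat_lit 271) (nat_lit 3) (nat_lit 181) (nat_lit 140) (nat_lit 189))) (PT.nd (nat_lit 78) (PT.lf (nat_lit 20672) (nat_lit 6) (nat_lit 272) (nat_lit 3) (nat_lit 182) (nat_lit 140) (nat_lit 188)) (PT.lf (nat_lit 20748) (nat_lit 6) (nat_lit 273) (nat_lit 3) (nat_lit 183) (nat_lit 140) (nat_lit 187)))) (PT.nd (nat_lit 156) (PT.nd (nat_lit 78) (PT.lf (nat_lit 20824) (nat_lit 6) (nat_lit 274) (nat_lit 3) (nat_lit 184) (nat_lit 140) (nat_lit 186)) (PT.lf (nat_lit 20900) (nat_lit 3) (nat_lit 275) (nat_lit 1) (nat_lit 185) (nat_lit 140) (nat_lit 185))) (PT.nd (nat_lit 78) (PT.lf (nat_lit 20824) (nat_lit 6) (nat_lit 274) (nat_lit 1) (nat_lit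 186) (nat_lit 140) (nat_lit 184)) (PT.lf (nat_lit 20748) (nat_lit 6) (nat_lit 273) (nat_lit 1) (nat_lit 187) (nat_lit 140) (nat_lit 183))))) (PT.nd (nat_lit 52494) (PT.nd (nat_lit 156) (PT.nd (nat_lit 78) (PT.lf (nat_lit 20672) (nat_lit 6) (nat_lit 272) (nat_lit 1) (nat_lit 188) (nat_lit 140) (nat_lit 182)) (PT.lf (nat_lit 20596) (nat_lit 6) (nat_lit 271) (nat_lit 1) (nat_lit 189) (nat_lit 140) (nat_lit 181))) (PT.nd (nat_lit 52260) (PT.lf (nat_lit 20520) (nat_lit 6) (nat_lit 270) (nat_lit 1) (nat_lit 190) (nat_lit 140) (nat_lit 180)) (PT.lf (nat_lit 20976) (nat_lit 6) (nat_lit 276) (nat_lit 3) (nat_lit 179) (nat_lit 141) (nat_lit 190)))) (PT.nd (nat_lit 156) (PT.nd (nat_lit 78) (PT.lf (nat_lit 21052) (nat_lit 6) (nat_lit 277) (nat_lit 3) (nat_lit 180) (nat_lit 141) (nat_lit 189)) (PT.lf (nat_lit 21128) (nat_lit 6) (nat_lit 278) (nat_lit 3) (nat_lit 181) (nat_lit 141) (nat_lit 188))) (PT.nd (nat_lit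 78) (PT.lf (nat_lit 21204) (nat_lit 6) (nat_lit 279) (nat_lit 3) (nat_lit 182) (nat_lit 141) (nat_lit 187)) (PT.nd (nat_lit 78) (PT.lf (nat_lit 21280) (nat_lit 6) (nat_lit 280) (nat_lit 3) (nat_lit 183) (nat_lit 141) (nat_lit 186)) (PT.lf (nat_lit 21356) (nat_lit 6) (nat_lit 281) (nat_lit 3) (nat_lit 184) (nat_lit 141) (nat_lit 185))))))) (PT.nd (nat_lit 52884) (PT.nd (nat_lit 312) (PT.nd (nat_lit 156) (PT.nd (nat_lit 78) (PT.lf (nat_lit 21356) (nat_lit 6) (nat_lit 281) (nat_lit 1) (nat_lit 185) (nat_lit 141) (nat_lit 184)) (PT.lf (nat_lit 21280) (nat_lit 6) (nat_lit 280) (nat_lit 1) (nat_lit 186) (nat_lit 141) (nat_lit 183))) (PT.nd (nat_lit 78) (PT.lf (nat_lit 21204) (nat_lit 6) (nat_lit 279) (nat_lit 1) (nat_lit 187) (nat_lit 141) (nat_lit 182)) (PT.lf (nat_lit 21128) (nat_lit 6) (nat_lit 278) (nat_lit 1) (nat_lit 188) (nat_lit 141) (nat_lit 181)))) (PT.nd (nat_lit 52338) (PT.nd (nat_lit 78) (PT.lf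 (nat_lit 21052) (nat_lit 6) (nat_lit 277) (nat_lit 1) (nat_lit 189) (nat_lit 141) (nat_lit 180)) (PT.lf (nat_lit 20976) (nat_lit 6) (nat_lit 276) (nat_lit 1) (nat_lit 190) (nat_lit 141) (nat_lit 179))) (PT.nd (nat_lit 78) (PT.lf (nat_lit 21432) (nat_lit 6) (nat_lit 282) (nat_lit 3) (nat_lit 179) (nat_lit 142) (nat_lit 189)) (PT.nd (nat_lit 78) (PT.lf (nat_lit 21508) (nat_lit 6) (nat_lit 283) (nat_lit 3) (nat_lit 180) (nat_lit 142) (nat_lit 188)) (PT.lf (nat_lit 21584) (nat_lit 6) (nat_lit 284) (nat_lit 3) (nat_lit 181) (nat_lit 142) (nat_lit 187)))))) (PT.nd (nat_lit 312) (PT.nd (nat_lit 156) (PT.nd (nat_lit 78) (PT.lf (nat_lit 21660) (nat_lit 6) (nat_lit 285) (nat_lit 3) (nat_lit 182) (nat_lit 142) (nat_lit 186)) (PT.lf (nat_lit 21736) (nat_lit 6) (nat_lit 286) (nat_lit 3) (nat_lit 183) (nat_lit 142) (nat_lit 185))) (PT.nd (nat_lit 78) (PT.lf (nat_lit 21812) (nat_lit 3) (nat_lit 287) (nat_lit 1) (nat_lit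 184) (nat_lit 142) (nat_lit 184)) (PT.lf (nat_lit 21736) (nat_lit 6) (nat_lit 286) (nat_lit 1) (nat_lit 185) (nat_lit 142) (nat_lit 183)))) (PT.nd (nat_lit 156) (PT.nd (nat_lit 78) (PT.lf (nat_lit 21660) (nat_lit 6) (nat_lit 285) (nat_lit 1) (nat_lit 186) (nat_lit 142) (nat_lit 182)) (PT.lf (nat_lit 21584) (nat_lit 6) (nat_lit 284) (nat_lit 1) (nat_lit 187) (nat_lit 142) (nat_lit 181))) (PT.nd (nat_lit 78) (PT.lf (nat_lit 21508) (nat_lit 6) (nat_lit 283) (nat_lit 1) (nat_lit 188) (nat_lit 142) (nat_lit 180)) (PT.nd (nat_lit 52260) (PT.lf (nat_lit 21432) (nat_lit 6) (nat_lit 282) (nat_lit 1) (nat_lit 189) (nat_lit 142) (nat_lit 179)) (PT.lf (nat_lit 21888) (nat_lit 6) (nat_lit 288) (nat_lit 3) (nat_lit 178) (nat_lit 143) (nat_lit 189))))))))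
noncomputable def pc9 : PT := (PT.nd (nat_lit 53508) (PT.nd (nat_lit 702) (PT.nd (nat_lit 312) (PT.nd (nat_lit 156) (PT.nd (nat_lit 78) (PT.lf (nat_lit 21964) (nat_lit 6) (nat_lit 289) (nat_lit 3) (nat_lit 179) (nat_lit 143) (nat_lit 188)) (PT.lf (nat_lit 22040) (nat_lit 6) (nat_lit 290) (nat_lit 3) (nat_lit 180) (nat_lit 143) (nat_lit 187))) (PT.nd (nat_lit 78) (PT.lf (nat_lit 22116) (nat_lit 6) (nat_lit 291) (nat_lit 3) (nat_lit 181) (nat_lit 143) (nat_lit 186)) (PT.lf (nat_lit 22192) (nat_lit 6) (nat_lit 292) (nat_lit 3) (nat_lit 182) (nat_lit 143) (nat_lit 185)))) (PT.nd (nat_lit 156) (PT.nd (nat_lit 78) (PT.lf (nat_lit 22268) (nat_lit 6) (nat_lit 293) (nat_lit 3) (nat_lit 183) (nat_lit 143) (nat_lit 184)) (PT.lf (nat_lit 22268) (nat_lit 6) (nat_lit 293) (nat_lit 1) (nat_lit 184) (nat_lit 143) (nat_lit 183))) (PT.nd (nat_lit 78) (PT.lf (nat_lit 22192) (nat_lit 6) (nat_lit 292) (nat_lit 1) (nat_lit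 185) (nat_lit 143) (nat_lit 182)) (PT.nd (nat_lit 78) (PT.lf (nat_lit 22116) (nat_lit 6) (nat_lit 291) (nat_lit 1) (nat_lit 186) (nat_lit 143) (nat_lit 181)) (PT.lf (nat_lit 22040) (nat_lit 6) (nat_lit 290) (nat_lit 1) (nat_lit 187) (nat_lit 143) (nat_lit 180)))))) (PT.nd (nat_lit 52416) (PT.nd (nat_lit 52260) (PT.nd (nat_lit 78) (PT.lf (nat_lit 21964) (nat_lit 6) (nat_lit 289) (nat_lit 1) (nat_lit 188) (nat_lit 143) (nat_lit 179)) (PT.lf (nat_lit 21888) (nat_lit 6) (nat_lit 288) (nat_lit 1) (nat_lit 189) (nat_lit 143) (nat_lit 178))) (PT.nd (nat_lit 78) (PT.lf (nat_lit 22344) (nat_lit 6) (nat_lit 294) (nat_lit 3) (nat_lit 177) (nat_lit 144) (nat_lit 189)) (PT.lf (nat_lit 22420) (nat_lit 6) (nat_lit 295) (nat_lit 3) (nat_lit 178) (nat_lit 144) (nat_lit 188)))) (PT.nd (nat_lit 156) (PT.nd (nat_lit 78) (PT.lf (nat_lit 22496) (nat_lit 6) (nat_lit 296) (nat_lit 3) (nat_lit 179) (nat_lit 144) (nat_lit 187))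 (PT.lf (nat_lit 22572) (nat_lit 6) (nat_lit 297) (nat_lit 3) (nat_lit 180) (nat_lit 144) (nat_lit 186))) (PT.nd (nat_lit 78) (PT.lf (nat_lit 22648) (nat_lit 6) (nat_lit 298) (nat_lit 3) (nat_lit 181) (nat_lit 144) (nat_lit 185)) (PT.nd (nat_lit 78) (PT.lf (nat_lit 22724) (nat_lit 6) (nat_lit 299) (nat_lit 3) (nat_lit 182) (nat_lit 144) (nat_lit 184)) (PT.lf (nat_lit 22800) (nat_lit 3) (nat_lit 300) (nat_lit 1) (nat_lit 183) (nat_lit 144) (nat_lit 183))))))) (PT.nd (nat_lit 52728) (PT.nd (nat_lit 312) (PT.nd (nat_lit 156) (PT.nd (nat_lit 78) (PT.lf (nat_lit 22724) (nat_lit 6) (nat_lit 299) (nat_lit 1) (nat_lit 184) (nat_lit 144) (nat_lit 182)) (PT.lf (nat_lit 22648) (nat_lit 6) (nat_lit 298) (nat_lit 1) (nat_lit 185) (nat_lit 144) (nat_lit 181))) (PT.nd (nat_lit 78) (PT.lf (nat_lit 22572) (nat_lit 6) (nat_lit 297) (nat_lit 1) (nat_lit 186) (nat_lit 144) (nat_lit 180)) (PT.lf (nat_lit 22496) (nat_lit 6)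 (nat_lit 296) (nat_lit 1) (nat_lit 187) (nat_lit 144) (nat_lit 179)))) (PT.nd (nat_lit 52182) (PT.nd (nat_lit 78) (PT.lf (nat_lit 22420) (nat_lit 6) (nat_lit 295) (nat_lit 1) (nat_lit 188) (nat_lit 144) (nat_lit 178)) (PT.lf (nat_lit 22344) (nat_lit 6) (nat_lit 294) (nat_lit 1) (nat_lit 189) (nat_lit 144) (nat_lit 177))) (PT.nd (nat_lit 78) (PT.lf (nat_lit 22876) (nat_lit 6) (nat_lit 301) (nat_lit 3) (nat_lit 176) (nat_lit 145) (nat_lit 189)) (PT.nd (nat_lit 78) (PT.lf (nat_lit 22952) (nat_lit 6) (nat_lit 302) (nat_lit 3) (nat_lit 177) (nat_lit 145) (nat_lit 188)) (PT.lf (nat_lit 23028) (nat_lit 6) (nat_lit 303) (nat_lit 3) (nat_lit 178) (nat_lit 145) (nat_lit 187)))))) (PT.nd (nat_lit 312) (PT.nd (nat_lit 156) (PT.nd (nat_lit 78) (PT.lf (nat_lit 23104) (nat_lit 6) (nat_lit 304) (nat_lit 3) (nat_lit 179) (nat_lit 145) (nat_lit 186)) (PT.lf (nat_lit 23180) (nat_lit 6) (nat_lit 305) (nat_lit 3) (nat_lit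 180) (nat_lit 145) (nat_lit 185))) (PT.nd (nat_lit 78) (PT.lf (nat_lit 23256) (nat_lit 6) (nat_lit 306) (nat_lit 3) (nat_lit 181) (nat_lit 145) (nat_lit 184)) (PT.lf (nat_lit 23332) (nat_lit 6) (nat_lit 307) (nat_lit 3) (nat_lit 182) (nat_lit 145) (nat_lit 183)))) (PT.nd (nat_lit 156) (PT.nd (nat_lit 78) (PT.lf (nat_lit 23332) (nat_lit 6) (nat_lit 307) (nat_lit 1) (nat_lit 183) (nat_lit 145) (nat_lit 182)) (PT.lf (nat_lit 23256) (nat_lit 6) (nat_lit 306) (nat_lit 1) (nat_lit 184) (nat_lit 145) (nat_lit 181))) (PT.nd (nat_lit 78) (PT.lf (nat_lit 23180) (nat_lit 6) (nat_lit 305) (nat_lit 1) (nat_lit 185) (nat_lit 145) (nat_lit 180)) (PT.nd (nat_lit 78) (PT.lf (nat_lit 23104) (nat_lit 6) (nat_lit 304) (nat_lit 1) (nat_lit 186) (nat_lit 145) (nat_lit 179)) (PT.lf (nat_lit 23028) (nat_lit 6) (nat_lit 303) (nat_lit 1) (nat_lit 187) (nat_lit 145) (nat_lit 178))))))))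
noncomputable def pc10 : PT := (PT.nd (nat_lit 105378) (PT.nd (nat_lit 52650) (PT.nd (nat_lit 52338) (PT.nd (nat_lit 52182) (PT.nd (nat_lit 78) (PT.lf (nat_lit 22952) (nat_lit 6) (nat_lit 302) (nat_lit 1) (nat_lit 188) (nat_lit 145) (nat_lit 177)) (PT.lf (nat_lit 22876) (nat_lit 6) (nat_lit 301) (nat_lit 1) (nat_lit 189) (nat_lit 145) (nat_lit 176))) (PT.nd (nat_lit 78) (PT.lf (nat_lit 23408) (nat_lit 6) (nat_lit 308) (nat_lit 3) (nat_lit 176) (nat_lit 146) (nat_lit 188)) (PT.lf (nat_lit 23484) (nat_lit 6) (nat_lit 309) (nat_lit 3) (nat_lit 177) (nat_lit 146) (nat_lit 187)))) (PT.nd (nat_lit 156) (PT.nd (nat_lit 78) (PT.lf (nat_lit 23560) (nat_lit 6) (nat_lit 310) (nat_lit 3) (nat_lit 178) (nat_lit 146) (nat_lit 186)) (PT.lf (nat_lit 23636) (nat_lit 6) (nat_lit 311) (nat_lit 3) (nat_lit 179) (nat_lit 146) (nat_lit 185))) (PT.nd (nat_lit 78) (PT.lf (nat_lit 23712) (nat_lit 6) (nat_lit 312) (nat_lit 3)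 (nat_lit 180) (nat_lit 146) (nat_lit 184)) (PT.lf (nat_lit 23788) (nat_lit 6) (nat_lit 313) (nat_lit 3) (nat_lit 181) (nat_lit 146) (nat_lit 183))))) (PT.nd (nat_lit 312) (PT.nd (nat_lit 156) (PT.nd (nat_lit 78) (PT.lf (nat_lit 23864) (nat_lit 3) (nat_lit 314) (nat_lit 1) (nat_lit 182) (nat_lit 146) (nat_lit 182)) (PT.lf (nat_lit 23788) (nat_lit 6) (nat_lit 313) (nat_lit 1) (nat_lit 183) (nat_lit 146) (nat_lit 181))) (PT.nd (nat_lit 78) (PT.lf (nat_lit 23712) (nat_lit 6) (nat_lit 312) (nat_lit 1) (nat_lit 184) (nat_lit 146) (nat_lit 180)) (PT.lf (nat_lit 23636) (nat_lit 6) (nat_lit 311) (nat_lit 1) (nat_lit 185) (nat_lit 146) (nat_lit 179)))) (PT.nd (nat_lit 156) (PT.nd (nat_lit 78) (PT.lf (nat_lit 23560) (nat_lit 6) (nat_lit 310) (nat_lit 1) (nat_lit 186) (nat_lit 146) (nat_lit 178)) (PT.lf (nat_lit 23484) (nat_lit 6) (nat_lit 309) (nat_lit 1) (nat_lit 187) (nat_lit 146) (nat_lit 177))) (PT.nd (nat_lit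 52104) (PT.lf (nat_lit 23408) (nat_lit 6) (nat_lit 308) (nat_lit 1) (nat_lit 188) (nat_lit 146) (nat_lit 176)) (PT.nd (nat_lit 78) (PT.lf (nat_lit 23940) (nat_lit 6) (nat_lit 315) (nat_lit 3) (nat_lit 175) (nat_lit 147) (nat_lit 188)) (PT.lf (nat_lit 24016) (nat_lit 6) (nat_lit 316) (nat_lit 3) (nat_lit 176) (nat_lit 147) (nat_lit 187))))))) (PT.nd (nat_lit 702) (PT.nd (nat_lit 312) (PT.nd (nat_lit 156) (PT.nd (nat_lit 78) (PT.lf (nat_lit 24092) (nat_lit 6) (nat_lit 317) (nat_lit 3) (nat_lit 177) (nat_lit 147) (nat_lit 186)) (PT.lf (nat_lit 24168) (nat_lit 6) (nat_lit 318) (nat_lit 3) (nat_lit 178) (nat_lit 147) (nat_lit 185))) (PT.nd (nat_lit 78) (PT.lf (nat_lit 24244) (nat_lit 6) (nat_lit 319) (nat_lit 3) (nat_lit 179) (nat_lit 147) (nat_lit 184)) (PT.lf (nat_lit 24320) (nat_lit 6) (nat_lit 320) (nat_lit 3) (nat_lit 180) (nat_lit 147) (nat_lit 183)))) (PT.nd (nat_lit 156) (PT.nd (nat_lit 78) (PT.lf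 (nat_lit 24396) (nat_lit 6) (nat_lit 321) (nat_lit 3) (nat_lit 181) (nat_lit 147) (nat_lit 182)) (PT.lf (nat_lit 24396) (nat_lit 6) (nat_lit 321) (nat_lit 1) (nat_lit 182) (nat_lit 147) (nat_lit 181))) (PT.nd (nat_lit 78) (PT.lf (nat_lit 24320) (nat_lit 6) (nat_lit 320) (nat_lit 1) (nat_lit 183) (nat_lit 147) (nat_lit 180)) (PT.nd (nat_lit 78) (PT.lf (nat_lit 24244) (nat_lit 6) (nat_lit 319) (nat_lit 1) (nat_lit 184) (nat_lit 147) (nat_lit 179)) (PT.lf (nat_lit 24168) (nat_lit 6) (nat_lit 318) (nat_lit 1) (nat_lit 185) (nat_lit 147) (nat_lit 178)))))) (PT.nd (nat_lit 52260) (PT.nd (nat_lit 156) (PT.nd (nat_lit 78) (PT.lf (nat_lit 24092) (nat_lit 6) (nat_lit 317) (nat_lit 1) (nat_lit 186) (nat_lit 147) (nat_lit 177)) (PT.lf (nat_lit 24016) (nat_lit 6) (nat_lit 316) (nat_lit 1) (nat_lit 187) (nat_lit 147) (nat_lit 176))) (PT.nd (nat_lit 52026) (PT.lf (nat_lit 23940) (nat_lit 6) (nat_lit 315) (nat_lit 1)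 (nat_lit 188) (nat_lit 147) (nat_lit 175)) (PT.lf (nat_lit 24472) (nat_lit 6) (nat_lit 322) (nat_lit 3) (nat_lit 174) (nat_lit 148) (nat_lit 188)))) (PT.nd (nat_lit 156) (PT.nd (nat_lit 78) (PT.lf (nat_lit 24548) (nat_lit 6) (nat_lit 323) (nat_lit 3) (nat_lit 175) (nat_lit 148) (nat_lit 187)) (PT.lf (nat_lit 24624) (nat_lit 6) (nat_lit 324) (nat_lit 3) (nat_lit 176) (nat_lit 148) (nat_lit 186))) (PT.nd (nat_lit 78) (PT.lf (nat_lit 24700) (nat_lit 6) (nat_lit 325) (nat_lit 3) (nat_lit 177) (nat_lit 148) (nat_lit 185)) (PT.nd (nat_lit 78) (PT.lf (nat_lit 24776) (nat_lit 6) (nat_lit 326) (nat_lit 3) (nat_lit 178) (nat_lit 148) (nat_lit 184)) (PT.lf (nat_lit 24852) (nat_lit 6) (nat_lit 327) (nat_lit 3) (nat_lit 179) (nat_lit 148) (nat_lit 183))))))))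
noncomputable def pc11 : PT := (PT.nd (nat_lit 53274) (PT.nd (nat_lit 52572) (PT.nd (nat_lit 312) (PT.nd (nat_lit 156) (PT.nd (nat_lit 78) (PT.lf (nat_lit 24928) (nat_lit 6) (nat_lit 328) (nat_lit 3) (nat_lit 180) (nat_lit 148) (nat_lit 182)) (PT.lf (nat_lit 25004) (nat_lit 3) (nat_lit 329) (nat_lit 1) (nat_lit 181) (nat_lit 148) (nat_lit 181))) (PT.nd (nat_lit 78) (PT.lf (nat_lit 24928) (nat_lit 6) (nat_lit 328) (nat_lit 1) (nat_lit 182) (nat_lit 148) (nat_lit 180)) (PT.lf (nat_lit 24852) (nat_lit 6) (nat_lit 327) (nat_lit 1) (nat_lit 183) (nat_lit 148) (nat_lit 179)))) (PT.nd (nat_lit 156) (PT.nd (nat_lit 78) (PT.lf (nat_lit 24776) (nat_lit 6) (nat_lit 326) (nat_lit 1) (nat_lit 184) (nat_lit 148) (nat_lit 178)) (PT.lf (nat_lit 24700) (nat_lit 6) (nat_lit 325) (nat_lit 1) (nat_lit 185) (nat_lit 148) (nat_lit 177))) (PT.nd (nat_lit 78) (PT.lf (nat_lit 24624) (nat_lit 6) (nat_lit 324) (nat_lit 1) (nat_lit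 186) (nat_lit 148) (nat_lit 176)) (PT.nd (nat_lit 78) (PT.lf (nat_lit 24548) (nat_lit 6) (nat_lit 323) (nat_lit 1) (nat_lit 187) (nat_lit 148) (nat_lit 175)) (PT.lf (nat_lit 24472) (nat_lit 6) (nat_lit 322) (nat_lit 1) (nat_lit 188) (nat_lit 148) (nat_lit 174)))))) (PT.nd (nat_lit 312) (PT.nd (nat_lit 156) (PT.nd (nat_lit 78) (PT.lf (nat_lit 25080) (nat_lit 6) (nat_lit 330) (nat_lit 3) (nat_lit 173) (nat_lit 149) (nat_lit 188)) (PT.lf (nat_lit 25156) (nat_lit 6) (nat_lit 331) (nat_lit 3) (nat_lit 174) (nat_lit 149) (nat_lit 187))) (PT.nd (nat_lit 78) (PT.lf (nat_lit 25232) (nat_lit 6) (nat_lit 332) (nat_lit 3) (nat_lit 175) (nat_lit 149) (nat_lit 186)) (PT.lf (nat_lit 25308) (nat_lit 6) (nat_lit 333) (nat_lit 3) (nat_lit 176) (nat_lit 149) (nat_lit 185)))) (PT.nd (nat_lit 156) (PT.nd (nat_lit 78) (PT.lf (nat_lit 25384) (nat_lit 6) (nat_lit 334) (nat_lit 3) (nat_lit 177) (nat_lit 149) (nat_lit 184)) (PT.lf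 (nat_lit 25460) (nat_lit 6) (nat_lit 335) (nat_lit 3) (nat_lit 178) (nat_lit 149) (nat_lit 183))) (PT.nd (nat_lit 78) (PT.lf (nat_lit 25536) (nat_lit 6) (nat_lit 336) (nat_lit 3) (nat_lit 179) (nat_lit 149) (nat_lit 182)) (PT.nd (nat_lit 78) (PT.lf (nat_lit 25612) (nat_lit 6) (nat_lit 337) (nat_lit 3) (nat_lit 180) (nat_lit 149) (nat_lit 181)) (PT.lf (nat_lit 25612) (nat_lit 6) (nat_lit 337) (nat_lit 1) (nat_lit 181) (nat_lit 149) (nat_lit 180))))))) (PT.nd (nat_lit 52572) (PT.nd (nat_lit 312) (PT.nd (nat_lit 156) (PT.nd (nat_lit 78) (PT.lf (nat_lit 25536) (nat_lit 6) (nat_lit 336) (nat_lit 1) (nat_lit 182) (nat_lit 149) (nat_lit 179)) (PT.lf (nat_lit 25460) (nat_lit 6) (nat_lit 335) (nat_lit 1) (nat_lit 183) (nat_lit 149) (nat_lit 178))) (PT.nd (nat_lit 78) (PT.lf (nat_lit 25384) (nat_lit 6) (nat_lit 334) (nat_lit 1) (nat_lit 184) (nat_lit 149) (nat_lit 177)) (PT.lf (nat_lit 25308) (nat_lit 6) (nat_lit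 333) (nat_lit 1) (nat_lit 185) (nat_lit 149) (nat_lit 176)))) (PT.nd (nat_lit 156) (PT.nd (nat_lit 78) (PT.lf (nat_lit 25232) (nat_lit 6) (nat_lit 332) (nat_lit 1) (nat_lit 186) (nat_lit 149) (nat_lit 175)) (PT.lf (nat_lit 25156) (nat_lit 6) (nat_lit 331) (nat_lit 1) (nat_lit 187) (nat_lit 149) (nat_lit 174))) (PT.nd (nat_lit 51948) (PT.lf (nat_lit 25080) (nat_lit 6) (nat_lit 330) (nat_lit 1) (nat_lit 188) (nat_lit 149) (nat_lit 173)) (PT.nd (nat_lit 78) (PT.lf (nat_lit 25688) (nat_lit 6) (nat_lit 338) (nat_lit 3) (nat_lit 173) (nat_lit 150) (nat_lit 187)) (PT.lf (nat_lit 25764) (nat_lit 6) (nat_lit 339) (nat_lit 3) (nat_lit 174) (nat_lit 150) (nat_lit 186)))))) (PT.nd (nat_lit 312) (PT.nd (nat_lit 156) (PT.nd (nat_lit 78) (PT.lf (nat_lit 25840) (nat_lit 6) (nat_lit 340) (nat_lit 3) (nat_lit 175) (nat_lit 150) (nat_lit 185)) (PT.lf (nat_lit 25916) (nat_lit 6) (nat_lit 341) (nat_lit 3) (nat_lit 176) (nat_lit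 150) (nat_lit 184))) (PT.nd (nat_lit 78) (PT.lf (nat_lit 25992) (nat_lit 6) (nat_lit 342) (nat_lit 3) (nat_lit 177) (nat_lit 150) (nat_lit 183)) (PT.lf (nat_lit 26068) (nat_lit 6) (nat_lit 343) (nat_lit 3) (nat_lit 178) (nat_lit 150) (nat_lit 182)))) (PT.nd (nat_lit 156) (PT.nd (nat_lit 78) (PT.lf (nat_lit 26144) (nat_lit 6) (nat_lit 344) (nat_lit 3) (nat_lit 179) (nat_lit 150) (nat_lit 181)) (PT.lf (nat_lit 26220) (nat_lit 3) (nat_lit 345) (nat_lit 1) (nat_lit 180) (nat_lit 150) (nat_lit 180))) (PT.nd (nat_lit 78) (PT.lf (nat_lit 26144) (nat_lit 6) (nat_lit 344) (nat_lit 1) (nat_lit 181) (nat_lit 150) (nat_lit 179)) (PT.nd (nat_lit 78) (PT.lf (nat_lit 26068) (nat_lit 6) (nat_lit 343) (nat_lit 1) (nat_lit 182) (nat_lit 150) (nat_lit 178)) (PT.lf (nat_lit 25992) (nat_lit 6) (nat_lit 342) (nat_lit 1) (nat_lit 183) (nat_lit 150) (nat_lit 177))))))))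
noncomputable def pc12 : PT := (PT.nd (nat_lit 53196) (PT.nd (nat_lit 52494) (PT.nd (nat_lit 52182) (PT.nd (nat_lit 156) (PT.nd (nat_lit 78) (PT.lf (nat_lit 25916) (nat_lit 6) (nat_lit 341) (nat_lit 1) (nat_lit 184) (nat_lit 150) (nat_lit 176)) (PT.lf (nat_lit 25840) (nat_lit 6) (nat_lit 340) (nat_lit 1) (nat_lit 185) (nat_lit 150) (nat_lit 175))) (PT.nd (nat_lit 78) (PT.lf (nat_lit 25764) (nat_lit 6) (nat_lit 339) (nat_lit 1) (nat_lit 186) (nat_lit 150) (nat_lit 174)) (PT.lf (nat_lit 25688) (nat_lit 6) (nat_lit 338) (nat_lit 1) (nat_lit 187) (nat_lit 150) (nat_lit 173)))) (PT.nd (nat_lit 156) (PT.nd (nat_lit 78) (PT.lf (nat_lit 26296) (nat_lit 6) (nat_lit 346) (nat_lit 3) (nat_lit 172) (nat_lit 151) (nat_lit 187)) (PT.lf (nat_lit 26372) (nat_lit 6) (nat_lit 347) (nat_lit 3) (nat_lit 173) (nat_lit 151) (nat_lit 186))) (PT.nd (nat_lit 78) (PT.lf (nat_lit 26448) (nat_lit 6) (nat_lit 348) (nat_lit 3) (nat_lit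 174) (nat_lit 151) (nat_lit 185)) (PT.lf (nat_lit 26524) (nat_lit 6) (nat_lit 349) (nat_lit 3) (nat_lit 175) (nat_lit 151) (nat_lit 184))))) (PT.nd (nat_lit 312) (PT.nd (nat_lit 156) (PT.nd (nat_lit 78) (PT.lf (nat_lit 26600) (nat_lit 6) (nat_lit 350) (nat_lit 3) (nat_lit 176) (nat_lit 151) (nat_lit 183)) (PT.lf (nat_lit 26676) (nat_lit 6) (nat_lit 351) (nat_lit 3) (nat_lit 177) (nat_lit 151) (nat_lit 182))) (PT.nd (nat_lit 78) (PT.lf (nat_lit 26752) (nat_lit 6) (nat_lit 352) (nat_lit 3) (nat_lit 178) (nat_lit 151) (nat_lit 181)) (PT.lf (nat_lit 26828) (nat_lit 6) (nat_lit 353) (nat_lit 3) (nat_lit 179) (nat_lit 151) (nat_lit 180)))) (PT.nd (nat_lit 156) (PT.nd (nat_lit 78) (PT.lf (nat_lit 26828) (nat_lit 6) (nat_lit 353) (nat_lit 1) (nat_lit 180) (nat_lit 151) (nat_lit 179)) (PT.lf (nat_lit 26752) (nat_lit 6) (nat_lit 352) (nat_lit 1) (nat_lit 181) (nat_lit 151) (nat_lit 178))) (PT.nd (nat_lit 78) (PT.lf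 (nat_lit 26676) (nat_lit 6) (nat_lit 351) (nat_lit 1) (nat_lit 182) (nat_lit 151) (nat_lit 177)) (PT.nd (nat_lit 78) (PT.lf (nat_lit 26600) (nat_lit 6) (nat_lit 350) (nat_lit 1) (nat_lit 183) (nat_lit 151) (nat_lit 176)) (PT.lf (nat_lit 26524) (nat_lit 6) (nat_lit 349) (nat_lit 1) (nat_lit 184) (nat_lit 151) (nat_lit 175))))))) (PT.nd (nat_lit 52494) (PT.nd (nat_lit 52104) (PT.nd (nat_lit 156) (PT.nd (nat_lit 78) (PT.lf (nat_lit 26448) (nat_lit 6) (nat_lit 348) (nat_lit 1) (nat_lit 185) (nat_lit 151) (nat_lit 174)) (PT.lf (nat_lit 26372) (nat_lit 6) (nat_lit 347) (nat_lit 1) (nat_lit 186) (nat_lit 151) (nat_lit 173))) (PT.nd (nat_lit 51870) (PT.lf (nat_lit 26296) (nat_lit 6) (nat_lit 346) (nat_lit 1) (nat_lit 187) (nat_lit 151) (nat_lit 172)) (PT.lf (nat_lit 26904) (nat_lit 6) (nat_lit 354) (nat_lit 3) (nat_lit 171) (nat_lit 152) (nat_lit 187)))) (PT.nd (nat_lit 156) (PT.nd (nat_lit 78) (PT.lf (nat_lit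 26980) (nat_lit 6) (nat_lit 355) (nat_lit 3) (nat_lit 172) (nat_lit 152) (nat_lit 186)) (PT.lf (nat_lit 27056) (nat_lit 6) (nat_lit 356) (nat_lit 3) (nat_lit 173) (nat_lit 152) (nat_lit 185))) (PT.nd (nat_lit 78) (PT.lf (nat_lit 27132) (nat_lit 6) (nat_lit 357) (nat_lit 3) (nat_lit 174) (nat_lit 152) (nat_lit 184)) (PT.nd (nat_lit 78) (PT.lf (nat_lit 27208) (nat_lit 6) (nat_lit 358) (nat_lit 3) (nat_lit 175) (nat_lit 152) (nat_lit 183)) (PT.lf (nat_lit 27284) (nat_lit 6) (nat_lit 359) (nat_lit 3) (nat_lit 176) (nat_lit 152) (nat_lit 182)))))) (PT.nd (nat_lit 312) (PT.nd (nat_lit 156) (PT.nd (nat_lit 78) (PT.lf (nat_lit 27360) (nat_lit 6) (nat_lit 360) (nat_lit 3) (nat_lit 177) (nat_lit 152) (nat_lit 181)) (PT.lf (nat_lit 27436) (nat_lit 6) (nat_lit 361) (nat_lit 3) (nat_lit 178) (nat_lit 152) (nat_lit 180))) (PT.nd (nat_lit 78) (PT.lf (nat_lit 27512) (nat_lit 3) (nat_lit 362) (nat_lit 1) (nat_lit 179)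 (nat_lit 152) (nat_lit 179)) (PT.lf (nat_lit 27436) (nat_lit 6) (nat_lit 361) (nat_lit 1) (nat_lit 180) (nat_lit 152) (nat_lit 178)))) (PT.nd (nat_lit 156) (PT.nd (nat_lit 78) (PT.lf (nat_lit 27360) (nat_lit 6) (nat_lit 360) (nat_lit 1) (nat_lit 181) (nat_lit 152) (nat_lit 177)) (PT.lf (nat_lit 27284) (nat_lit 6) (nat_lit 359) (nat_lit 1) (nat_lit 182) (nat_lit 152) (nat_lit 176))) (PT.nd (nat_lit 78) (PT.lf (nat_lit 27208) (nat_lit 6) (nat_lit 358) (nat_lit 1) (nat_lit 183) (nat_lit 152) (nat_lit 175)) (PT.nd (nat_lit 78) (PT.lf (nat_lit 27132) (nat_lit 6) (nat_lit 357) (nat_lit 1) (nat_lit 184) (nat_lit 152) (nat_lit 174)) (PT.lf (nat_lit 27056) (nat_lit 6) (nat_lit 356) (nat_lit 1) (nat_lit 185) (nat_lit 152) (nat_lit 173))))))))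
noncomputable def pc13 : PT := (PT.nd (nat_lit 53118) (PT.nd (nat_lit 52416) (PT.nd (nat_lit 52026) (PT.nd (nat_lit 51870) (PT.nd (nat_lit 78) (PT.lf (nat_lit 26980) (nat_lit 6) (nat_lit 355) (nat_lit 1) (nat_lit 186) (nat_lit 152) (nat_lit 172)) (PT.lf (nat_lit 26904) (nat_lit 6) (nat_lit 354) (nat_lit 1) (nat_lit 187) (nat_lit 152) (nat_lit 171))) (PT.nd (nat_lit 78) (PT.lf (nat_lit 27740) (nat_lit 6) (nat_lit 365) (nat_lit 3) (nat_lit 170) (nat_lit 153) (nat_lit 187)) (PT.lf (nat_lit 27816) (nat_lit 6) (nat_lit 366) (nat_lit 3) (nat_lit 171) (nat_lit 153) (nat_lit 186)))) (PT.nd (nat_lit 156) (PT.nd (nat_lit 78) (PT.lf (nat_lit 27892) (nat_lit 6) (nat_lit 367) (nat_lit 3) (nat_lit 172) (nat_lit 153) (nat_lit 185)) (PT.lf (nat_lit 27968) (nat_lit 6) (nat_lit 368) (nat_lit 3) (nat_lit 173) (nat_lit 153) (nat_lit 184))) (PT.nd (nat_lit 78) (PT.lf (nat_lit 28044) (nat_lit 6) (nat_lit 369) (nat_lit 3)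 (nat_lit 174) (nat_lit 153) (nat_lit 183)) (PT.nd (nat_lit 78) (PT.lf (nat_lit 28120) (nat_lit 6) (nat_lit 370) (nat_lit 3) (nat_lit 175) (nat_lit 153) (nat_lit 182)) (PT.lf (nat_lit 28196) (nat_lit 6) (nat_lit 371) (nat_lit 3) (nat_lit 176) (nat_lit 153) (nat_lit 181)))))) (PT.nd (nat_lit 312) (PT.nd (nat_lit 156) (PT.nd (nat_lit 78) (PT.lf (nat_lit 28272) (nat_lit 6) (nat_lit 372) (nat_lit 3) (nat_lit 177) (nat_lit 153) (nat_lit 180)) (PT.lf (nat_lit 28348) (nat_lit 6) (nat_lit 373) (nat_lit 3) (nat_lit 178) (nat_lit 153) (nat_lit 179))) (PT.nd (nat_lit 78) (PT.lf (nat_lit 28348) (nat_lit 6) (nat_lit 373) (nat_lit 1) (nat_lit 179) (nat_lit 153) (nat_lit 178)) (PT.lf (nat_lit 28272) (nat_lit 6) (nat_lit 372) (nat_lit 1) (nat_lit 180) (nat_lit 153) (nat_lit 177)))) (PT.nd (nat_lit 156) (PT.nd (nat_lit 78) (PT.lf (nat_lit 28196) (nat_lit 6) (nat_lit 371) (nat_lit 1) (nat_lit 181) (nat_lit 153) (nat_lit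 176)) (PT.lf (nat_lit 28120) (nat_lit 6) (nat_lit 370) (nat_lit 1) (nat_lit 182) (nat_lit 153) (nat_lit 175))) (PT.nd (nat_lit 78) (PT.lf (nat_lit 28044) (nat_lit 6) (nat_lit 369) (nat_lit 1) (nat_lit 183) (nat_lit 153) (nat_lit 174)) (PT.nd (nat_lit 78) (PT.lf (nat_lit 27968) (nat_lit 6) (nat_lit 368) (nat_lit 1) (nat_lit 184) (nat_lit 153) (nat_lit 173)) (PT.lf (nat_lit 27892) (nat_lit 6) (nat_lit 367) (nat_lit 1) (nat_lit 185) (nat_lit 153) (nat_lit 172))))))) (PT.nd (nat_lit 52338) (PT.nd (nat_lit 51948) (PT.nd (nat_lit 51792) (PT.nd (nat_lit 78) (PT.lf (nat_lit 27816) (nat_lit 6) (nat_lit 366) (nat_lit 1) (nat_lit 186) (nat_lit 153) (nat_lit 171)) (PT.lf (nat_lit 27740) (nat_lit 6) (nat_lit 365) (nat_lit 1) (nat_lit 187) (nat_lit 153) (nat_lit 170))) (PT.nd (nat_lit 78) (PT.lf (nat_lit 27664) (nat_lit 6) (nat_lit 364) (nat_lit 3) (nat_lit 169) (nat_lit 154) (nat_lit 187)) (PT.lf (nat_lit 29032)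 (nat_lit 6) (nat_lit 382) (nat_lit 3) (nat_lit 170) (nat_lit 154) (nat_lit 186)))) (PT.nd (nat_lit 156) (PT.nd (nat_lit 78) (PT.lf (nat_lit 29108) (nat_lit 6) (nat_lit 383) (nat_lit 3) (nat_lit 171) (nat_lit 154) (nat_lit 185)) (PT.lf (nat_lit 29184) (nat_lit 6) (nat_lit 384) (nat_lit 3) (nat_lit 172) (nat_lit 154) (nat_lit 184))) (PT.nd (nat_lit 78) (PT.lf (nat_lit 29260) (nat_lit 6) (nat_lit 385) (nat_lit 3) (nat_lit 173) (nat_lit 154) (nat_lit 183)) (PT.nd (nat_lit 78) (PT.lf (nat_lit 29336) (nat_lit 6) (nat_lit 386) (nat_lit 3) (nat_lit 174) (nat_lit 154) (nat_lit 182)) (PT.lf (nat_lit 29412) (nat_lit 6) (nat_lit 387) (nat_lit 3) (nat_lit 175) (nat_lit 154) (nat_lit 181)))))) (PT.nd (nat_lit 312) (PT.nd (nat_lit 156) (PT.nd (nat_lit 78) (PT.lf (nat_lit 29488) (nat_lit 6) (nat_lit 388) (nat_lit 3) (nat_lit 176) (nat_lit 154) (nat_lit 180)) (PT.lf (nat_lit 29564) (nat_lit 6) (nat_lit 389) (nat_lit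 3) (nat_lit 177) (nat_lit 154) (nat_lit 179))) (PT.nd (nat_lit 78) (PT.lf (nat_lit 29640) (nat_lit 3) (nat_lit 390) (nat_lit 1) (nat_lit 178) (nat_lit 154) (nat_lit 178)) (PT.lf (nat_lit 29564) (nat_lit 6) (nat_lit 389) (nat_lit 1) (nat_lit 179) (nat_lit 154) (nat_lit 177)))) (PT.nd (nat_lit 156) (PT.nd (nat_lit 78) (PT.lf (nat_lit 29488) (nat_lit 6) (nat_lit 388) (nat_lit 1) (nat_lit 180) (nat_lit 154) (nat_lit 176)) (PT.lf (nat_lit 29412) (nat_lit 6) (nat_lit 387) (nat_lit 1) (nat_lit 181) (nat_lit 154) (nat_lit 175))) (PT.nd (nat_lit 78) (PT.lf (nat_lit 29336) (nat_lit 6) (nat_lit 386) (nat_lit 1) (nat_lit 182) (nat_lit 154) (nat_lit 174)) (PT.nd (nat_lit 78) (PT.lf (nat_lit 29260) (nat_lit 6) (nat_lit 385) (nat_lit 1) (nat_lit 183) (nat_lit 154) (nat_lit 173)) (PT.lf (nat_lit 29184) (nat_lit 6) (nat_lit 384) (nat_lit 1) (nat_lit 184) (nat_lit 154) (nat_lit 172))))))))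
noncomputable def pc14 : PT := (PT.nd (nat_lit 52884) (PT.nd (nat_lit 52182) (PT.nd (nat_lit 51870) (PT.nd (nat_lit 156) (PT.nd (nat_lit 78) (PT.lf (nat_lit 29108) (nat_lit 6) (nat_lit 383) (nat_lit 1) (nat_lit 185) (nat_lit 154) (nat_lit 171)) (PT.lf (nat_lit 29032) (nat_lit 6) (nat_lit 382) (nat_lit 1) (nat_lit 186) (nat_lit 154) (nat_lit 170))) (PT.nd (nat_lit 51636) (PT.lf (nat_lit 27664) (nat_lit 6) (nat_lit 364) (nat_lit 1) (nat_lit 187) (nat_lit 154) (nat_lit 169)) (PT.lf (nat_lit 27588) (nat_lit 6) (nat_lit 363) (nat_lit 3) (nat_lit 168) (nat_lit 155) (nat_lit 187)))) (PT.nd (nat_lit 156) (PT.nd (nat_lit 78) (PT.lf (nat_lit 28956) (nat_lit 6) (nat_lit 381) (nat_lit 3) (nat_lit 169) (nat_lit 155) (nat_lit 186)) (PT.lf (nat_lit 30248) (nat_lit 6) (nat_lit 398) (nat_lit 3) (nat_lit 170) (nat_lit 155) (nat_lit 185))) (PT.nd (nat_lit 78) (PT.lf (nat_lit 30324) (nat_lit 6) (nat_lit 399) (nat_lit 3)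 (nat_lit 171) (nat_lit 155) (nat_lit 184)) (PT.lf (nat_lit 30400) (nat_lit 6) (nat_lit 400) (nat_lit 3) (nat_lit 172) (nat_lit 155) (nat_lit 183))))) (PT.nd (nat_lit 312) (PT.nd (nat_lit 156) (PT.nd (nat_lit 78) (PT.lf (nat_lit 30476) (nat_lit 6) (nat_lit 401) (nat_lit 3) (nat_lit 173) (nat_lit 155) (nat_lit 182)) (PT.lf (nat_lit 30552) (nat_lit 6) (nat_lit 402) (nat_lit 3) (nat_lit 174) (nat_lit 155) (nat_lit 181))) (PT.nd (nat_lit 78) (PT.lf (nat_lit 30628) (nat_lit 6) (nat_lit 403) (nat_lit 3) (nat_lit 175) (nat_lit 155) (nat_lit 180)) (PT.lf (nat_lit 30704) (nat_lit 6) (nat_lit 404) (nat_lit 3) (nat_lit 176) (nat_lit 155) (nat_lit 179)))) (PT.nd (nat_lit 156) (PT.nd (nat_lit 78) (PT.lf (nat_lit 30780) (nat_lit 6) (nat_lit 405) (nat_lit 3) (nat_lit 177) (nat_lit 155) (nat_lit 178)) (PT.lf (nat_lit 30780) (nat_lit 6) (nat_lit 405) (nat_lit 1) (nat_lit 178) (nat_lit 155) (nat_lit 177))) (PT.nd (nat_lit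 78) (PT.lf (nat_lit 30704) (nat_lit 6) (nat_lit 404) (nat_lit 1) (nat_lit 179) (nat_lit 155) (nat_lit 176)) (PT.nd (nat_lit 78) (PT.lf (nat_lit 30628) (nat_lit 6) (nat_lit 403) (nat_lit 1) (nat_lit 180) (nat_lit 155) (nat_lit 175)) (PT.lf (nat_lit 30552) (nat_lit 6) (nat_lit 402) (nat_lit 1) (nat_lit 181) (nat_lit 155) (nat_lit 174))))))) (PT.nd (nat_lit 52260) (PT.nd (nat_lit 312) (PT.nd (nat_lit 156) (PT.nd (nat_lit 78) (PT.lf (nat_lit 30476) (nat_lit 6) (nat_lit 401) (nat_lit 1) (nat_lit 182) (nat_lit 155) (nat_lit 173)) (PT.lf (nat_lit 30400) (nat_lit 6) (nat_lit 400) (nat_lit 1) (nat_lit 183) (nat_lit 155) (nat_lit 172))) (PT.nd (nat_lit 78) (PT.lf (nat_lit 30324) (nat_lit 6) (nat_lit 399) (nat_lit 1) (nat_lit 184) (nat_lit 155) (nat_lit 171)) (PT.lf (nat_lit 30248) (nat_lit 6) (nat_lit 398) (nat_lit 1) (nat_lit 185) (nat_lit 155) (nat_lit 170)))) (PT.nd (nat_lit 51714) (PT.nd (nat_lit 78) (PT.lf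 (nat_lit 28956) (nat_lit 6) (nat_lit 381) (nat_lit 1) (nat_lit 186) (nat_lit 155) (nat_lit 169)) (PT.lf (nat_lit 27588) (nat_lit 6) (nat_lit 363) (nat_lit 1) (nat_lit 187) (nat_lit 155) (nat_lit 168))) (PT.nd (nat_lit 78) (PT.lf (nat_lit 28880) (nat_lit 6) (nat_lit 380) (nat_lit 3) (nat_lit 168) (nat_lit 156) (nat_lit 186)) (PT.nd (nat_lit 78) (PT.lf (nat_lit 30172) (nat_lit 6) (nat_lit 397) (nat_lit 3) (nat_lit 169) (nat_lit 156) (nat_lit 185)) (PT.lf (nat_lit 31388) (nat_lit 6) (nat_lit 413) (nat_lit 3) (nat_lit 170) (nat_lit 156) (nat_lit 184)))))) (PT.nd (nat_lit 312) (PT.nd (nat_lit 156) (PT.nd (nat_lit 78) (PT.lf (nat_lit 31464) (nat_lit 6) (nat_lit 414) (nat_lit 3) (nat_lit 171) (nat_lit 156) (nat_lit 183)) (PT.lf (nat_lit 31540) (nat_lit 6) (nat_lit 415) (nat_lit 3) (nat_lit 172) (nat_lit 156) (nat_lit 182))) (PT.nd (nat_lit 78) (PT.lf (nat_lit 31616) (nat_lit 6) (nat_lit 416) (nat_lit 3) (nat_lit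 173) (nat_lit 156) (nat_lit 181)) (PT.lf (nat_lit 31692) (nat_lit 6) (nat_lit 417) (nat_lit 3) (nat_lit 174) (nat_lit 156) (nat_lit 180)))) (PT.nd (nat_lit 156) (PT.nd (nat_lit 78) (PT.lf (nat_lit 31768) (nat_lit 6) (nat_lit 418) (nat_lit 3) (nat_lit 175) (nat_lit 156) (nat_lit 179)) (PT.lf (nat_lit 31844) (nat_lit 6) (nat_lit 419) (nat_lit 3) (nat_lit 176) (nat_lit 156) (nat_lit 178))) (PT.nd (nat_lit 78) (PT.lf (nat_lit 31920) (nat_lit 3) (nat_lit 420) (nat_lit 1) (nat_lit 177) (nat_lit 156) (nat_lit 177)) (PT.nd (nat_lit 78) (PT.lf (nat_lit 31844) (nat_lit 6) (nat_lit 419) (nat_lit 1) (nat_lit 178) (nat_lit 156) (nat_lit 176)) (PT.lf (nat_lit 31768) (nat_lit 6) (nat_lit 418) (nat_lit 1) (nat_lit 179) (nat_lit 156) (nat_lit 175))))))))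
noncomputable def pc15 : PT := (PT.nd (nat_lit 52962) (PT.nd (nat_lit 52260) (PT.nd (nat_lit 312) (PT.nd (nat_lit 156) (PT.nd (nat_lit 78) (PT.lf (nat_lit 31692) (nat_lit 6) (nat_lit 417) (nat_lit 1) (nat_lit 180) (nat_lit 156) (nat_lit 174)) (PT.lf (nat_lit 31616) (nat_lit 6) (nat_lit 416) (nat_lit 1) (nat_lit 181) (nat_lit 156) (nat_lit 173))) (PT.nd (nat_lit 78) (PT.lf (nat_lit 31540) (nat_lit 6) (nat_lit 415) (nat_lit 1) (nat_lit 182) (nat_lit 156) (nat_lit 172)) (PT.lf (nat_lit 31464) (nat_lit 6) (nat_lit 414) (nat_lit 1) (nat_lit 183) (nat_lit 156) (nat_lit 171)))) (PT.nd (nat_lit 156) (PT.nd (nat_lit 78) (PT.lf (nat_lit 31388) (nat_lit 6) (nat_lit 413) (nat_lit 1) (nat_lit 184) (nat_lit 156) (nat_lit 170)) (PT.lf (nat_lit 30172) (nat_lit 6) (nat_lit 397) (nat_lit 1) (nat_lit 185) (nat_lit 156) (nat_lit 169))) (PT.nd (nat_lit 51636) (PT.lf (nat_lit 28880) (nat_lit 6) (nat_lit 380) (nat_lit 1) (nat_lit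 186) (nat_lit 156) (nat_lit 168)) (PT.nd (nat_lit 78) (PT.lf (nat_lit 28804) (nat_lit 6) (nat_lit 379) (nat_lit 3) (nat_lit 167) (nat_lit 157) (nat_lit 186)) (PT.lf (nat_lit 30096) (nat_lit 6) (nat_lit 396) (nat_lit 3) (nat_lit 168) (nat_lit 157) (nat_lit 185)))))) (PT.nd (nat_lit 312) (PT.nd (nat_lit 156) (PT.nd (nat_lit 78) (PT.lf (nat_lit 31312) (nat_lit 6) (nat_lit 412) (nat_lit 3) (nat_lit 169) (nat_lit 157) (nat_lit 184)) (PT.lf (nat_lit 32452) (nat_lit 6) (nat_lit 427) (nat_lit 3) (nat_lit 170) (nat_lit 157) (nat_lit 183))) (PT.nd (nat_lit 78) (PT.lf (nat_lit 32528) (nat_lit 6) (nat_lit 428) (nat_lit 3) (nat_lit 171) (nat_lit 157) (nat_lit 182)) (PT.lf (nat_lit 32604) (nat_lit 6) (nat_lit 429) (nat_lit 3) (nat_lit 172) (nat_lit 157) (nat_lit 181)))) (PT.nd (nat_lit 156) (PT.nd (nat_lit 78) (PT.lf (nat_lit 32680) (nat_lit 6) (nat_lit 430) (nat_lit 3) (nat_lit 173) (nat_lit 157) (nat_lit 180)) (PT.lf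 (nat_lit 32756) (nat_lit 6) (nat_lit 431) (nat_lit 3) (nat_lit 174) (nat_lit 157) (nat_lit 179))) (PT.nd (nat_lit 78) (PT.lf (nat_lit 32832) (nat_lit 6) (nat_lit 432) (nat_lit 3) (nat_lit 175) (nat_lit 157) (nat_lit 178)) (PT.nd (nat_lit 78) (PT.lf (nat_lit 32908) (nat_lit 6) (nat_lit 433) (nat_lit 3) (nat_lit 176) (nat_lit 157) (nat_lit 177)) (PT.lf (nat_lit 32908) (nat_lit 6) (nat_lit 433) (nat_lit 1) (nat_lit 177) (nat_lit 157) (nat_lit 176))))))) (PT.nd (nat_lit 52182) (PT.nd (nat_lit 312) (PT.nd (nat_lit 156) (PT.nd (nat_lit 78) (PT.lf (nat_lit 32832) (nat_lit 6) (nat_lit 432) (nat_lit 1) (nat_lit 178) (nat_lit 157) (nat_lit 175)) (PT.lf (nat_lit 32756) (nat_lit 6) (nat_lit 431) (nat_lit 1) (nat_lit 179) (nat_lit 157) (nat_lit 174))) (PT.nd (nat_lit 78) (PT.lf (nat_lit 32680) (nat_lit 6) (nat_lit 430) (nat_lit 1) (nat_lit 180) (nat_lit 157) (nat_lit 173)) (PT.lf (nat_lit 32604) (nat_lit 6) (nat_lit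 429) (nat_lit 1) (nat_lit 181) (nat_lit 157) (nat_lit 172)))) (PT.nd (nat_lit 156) (PT.nd (nat_lit 78) (PT.lf (nat_lit 32528) (nat_lit 6) (nat_lit 428) (nat_lit 1) (nat_lit 182) (nat_lit 157) (nat_lit 171)) (PT.lf (nat_lit 32452) (nat_lit 6) (nat_lit 427) (nat_lit 1) (nat_lit 183) (nat_lit 157) (nat_lit 170))) (PT.nd (nat_lit 78) (PT.lf (nat_lit 31312) (nat_lit 6) (nat_lit 412) (nat_lit 1) (nat_lit 184) (nat_lit 157) (nat_lit 169)) (PT.nd (nat_lit 78) (PT.lf (nat_lit 30096) (nat_lit 6) (nat_lit 396) (nat_lit 1) (nat_lit 185) (nat_lit 157) (nat_lit 168)) (PT.lf (nat_lit 28804) (nat_lit 6) (nat_lit 379) (nat_lit 1) (nat_lit 186) (nat_lit 157) (nat_lit 167)))))) (PT.nd (nat_lit 312) (PT.nd (nat_lit 156) (PT.nd (nat_lit 78) (PT.lf (nat_lit 28728) (nat_lit 6) (nat_lit 378) (nat_lit 3) (nat_lit 166) (nat_lit 158) (nat_lit 186)) (PT.lf (nat_lit 30020) (nat_lit 6) (nat_lit 395) (nat_lit 3) (nat_lit 167) (nat_lit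 158) (nat_lit 185))) (PT.nd (nat_lit 78) (PT.lf (nat_lit 31236) (nat_lit 6) (nat_lit 411) (nat_lit 3) (nat_lit 168) (nat_lit 158) (nat_lit 184)) (PT.lf (nat_lit 32376) (nat_lit 6) (nat_lit 426) (nat_lit 3) (nat_lit 169) (nat_lit 158) (nat_lit 183)))) (PT.nd (nat_lit 156) (PT.nd (nat_lit 78) (PT.lf (nat_lit 33440) (nat_lit 6) (nat_lit 440) (nat_lit 3) (nat_lit 170) (nat_lit 158) (nat_lit 182)) (PT.lf (nat_lit 33516) (nat_lit 6) (nat_lit 441) (nat_lit 3) (nat_lit 171) (nat_lit 158) (nat_lit 181))) (PT.nd (nat_lit 78) (PT.lf (nat_lit 33592) (nat_lit 6) (nat_lit 442) (nat_lit 3) (nat_lit 172) (nat_lit 158) (nat_lit 180)) (PT.nd (nat_lit 78) (PT.lf (nat_lit 33668) (nat_lit 6) (nat_lit 443) (nat_lit 3) (nat_lit 173) (nat_lit 158) (nat_lit 179)) (PT.lf (nat_lit 33744) (nat_lit 6) (nat_lit 444) (nat_lit 3) (nat_lit 174) (nat_lit 158) (nat_lit 178))))))))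
noncomputable def pc16 : PT := (PT.nd (nat_lit 52728) (PT.nd (nat_lit 624) (PT.nd (nat_lit 312) (PT.nd (nat_lit 156) (PT.nd (nat_lit 78) (PT.lf (nat_lit 33820) (nat_lit 6) (nat_lit 445) (nat_lit 3) (nat_lit 175) (nat_lit 158) (nat_lit 177)) (PT.lf (nat_lit 33896) (nat_lit 3) (nat_lit 446) (nat_lit 1) (nat_lit 176) (nat_lit 158) (nat_lit 176))) (PT.nd (nat_lit 78) (PT.lf (nat_lit 33820) (nat_lit 6) (nat_lit 445) (nat_lit 1) (nat_lit 177) (nat_lit 158) (nat_lit 175)) (PT.lf (nat_lit 33744) (nat_lit 6) (nat_lit 444) (nat_lit 1) (nat_lit 178) (nat_lit 158) (nat_lit 174)))) (PT.nd (nat_lit 156) (PT.nd (nat_lit 78) (PT.lf (nat_lit 33668) (nat_lit 6) (nat_lit 443) (nat_lit 1) (nat_lit 179) (nat_lit 158) (nat_lit 173)) (PT.lf (nat_lit 33592) (nat_lit 6) (nat_lit 442) (nat_lit 1) (nat_lit 180) (nat_lit 158) (nat_lit 172))) (PT.nd (nat_lit 78) (PT.lf (nat_lit 33516) (nat_lit 6) (nat_lit 441) (nat_lit 1) (nat_lit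 181) (nat_lit 158) (nat_lit 171)) (PT.lf (nat_lit 33440) (nat_lit 6) (nat_lit 440) (nat_lit 1) (nat_lit 182) (nat_lit 158) (nat_lit 170))))) (PT.nd (nat_lit 51714) (PT.nd (nat_lit 156) (PT.nd (nat_lit 78) (PT.lf (nat_lit 32376) (nat_lit 6) (nat_lit 426) (nat_lit 1) (nat_lit 183) (nat_lit 158) (nat_lit 169)) (PT.lf (nat_lit 31236) (nat_lit 6) (nat_lit 411) (nat_lit 1) (nat_lit 184) (nat_lit 158) (nat_lit 168))) (PT.nd (nat_lit 78) (PT.lf (nat_lit 30020) (nat_lit 6) (nat_lit 395) (nat_lit 1) (nat_lit 185) (nat_lit 158) (nat_lit 167)) (PT.lf (nat_lit 28728) (nat_lit 6) (nat_lit 378) (nat_lit 1) (nat_lit 186) (nat_lit 158) (nat_lit 166)))) (PT.nd (nat_lit 156) (PT.nd (nat_lit 78) (PT.lf (nat_lit 28652) (nat_lit 6) (nat_lit 377) (nat_lit 3) (nat_lit 165) (nat_lit 159) (nat_lit 186)) (PT.lf (nat_lit 29944) (nat_lit 6) (nat_lit 394) (nat_lit 3) (nat_lit 166) (nat_lit 159) (nat_lit 185))) (PT.nd (nat_lit 78)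 (PT.lf (nat_lit 31160) (nat_lit 6) (nat_lit 410) (nat_lit 3) (nat_lit 167) (nat_lit 159) (nat_lit 184)) (PT.nd (nat_lit 78) (PT.lf (nat_lit 32300) (nat_lit 6) (nat_lit 425) (nat_lit 3) (nat_lit 168) (nat_lit 159) (nat_lit 183)) (PT.lf (nat_lit 33364) (nat_lit 6) (nat_lit 439) (nat_lit 3) (nat_lit 169) (nat_lit 159) (nat_lit 182))))))) (PT.nd (nat_lit 702) (PT.nd (nat_lit 312) (PT.nd (nat_lit 156) (PT.nd (nat_lit 78) (PT.lf (nat_lit 34352) (nat_lit 6) (nat_lit 452) (nat_lit 3) (nat_lit 170) (nat_lit 159) (nat_lit 181)) (PT.lf (nat_lit 34428) (nat_lit 6) (nat_lit 453) (nat_lit 3) (nat_lit 171) (nat_lit 159) (nat_lit 180))) (PT.nd (nat_lit 78) (PT.lf (nat_lit 34504) (nat_lit 6) (nat_lit 454) (nat_lit 3) (nat_lit 172) (nat_lit 159) (nat_lit 179)) (PT.lf (nat_lit 34580) (nat_lit 6) (nat_lit 455) (nat_lit 3) (nat_lit 173) (nat_lit 159) (nat_lit 178)))) (PT.nd (nat_lit 156) (PT.nd (nat_lit 78) (PT.lf (nat_lit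 34656) (nat_lit 6) (nat_lit 456) (nat_lit 3) (nat_lit 174) (nat_lit 159) (nat_lit 177)) (PT.lf (nat_lit 34732) (nat_lit 6) (nat_lit 457) (nat_lit 3) (nat_lit 175) (nat_lit 159) (nat_lit 176))) (PT.nd (nat_lit 78) (PT.lf (nat_lit 34732) (nat_lit 6) (nat_lit 457) (nat_lit 1) (nat_lit 176) (nat_lit 159) (nat_lit 175)) (PT.nd (nat_lit 78) (PT.lf (nat_lit 34656) (nat_lit 6) (nat_lit 456) (nat_lit 1) (nat_lit 177) (nat_lit 159) (nat_lit 174)) (PT.lf (nat_lit 34580) (nat_lit 6) (nat_lit 455) (nat_lit 1) (nat_lit 178) (nat_lit 159) (nat_lit 173)))))) (PT.nd (nat_lit 312) (PT.nd (nat_lit 156) (PT.nd (nat_lit 78) (PT.lf (nat_lit 34504) (nat_lit 6) (nat_lit 454) (nat_lit 1) (nat_lit 179) (nat_lit 159) (nat_lit 172)) (PT.lf (nat_lit 34428) (nat_lit 6) (nat_lit 453) (nat_lit 1) (nat_lit 180) (nat_lit 159) (nat_lit 171))) (PT.nd (nat_lit 78) (PT.lf (nat_lit 34352) (nat_lit 6) (nat_lit 452) (nat_lit 1) (nat_lit 181)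 (nat_lit 159) (nat_lit 170)) (PT.lf (nat_lit 33364) (nat_lit 6) (nat_lit 439) (nat_lit 1) (nat_lit 182) (nat_lit 159) (nat_lit 169)))) (PT.nd (nat_lit 156) (PT.nd (nat_lit 78) (PT.lf (nat_lit 32300) (nat_lit 6) (nat_lit 425) (nat_lit 1) (nat_lit 183) (nat_lit 159) (nat_lit 168)) (PT.lf (nat_lit 31160) (nat_lit 6) (nat_lit 410) (nat_lit 1) (nat_lit 184) (nat_lit 159) (nat_lit 167))) (PT.nd (nat_lit 78) (PT.lf (nat_lit 29944) (nat_lit 6) (nat_lit 394) (nat_lit 1) (nat_lit 185) (nat_lit 159) (nat_lit 166)) (PT.nd (nat_lit 51402) (PT.lf (nat_lit 28652) (nat_lit 6) (nat_lit 377) (nat_lit 1) (nat_lit 186) (nat_lit 159) (nat_lit 165)) (PT.lf (nat_lit 28576) (nat_lit 6) (nat_lit 376) (nat_lit 3) (nat_lit 164) (nat_lit 160) (nat_lit 186))))))))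
noncomputable def pc17 : PT := (PT.nd (nat_lit 1326) (PT.nd (nat_lit 624) (PT.nd (nat_lit 312) (PT.nd (nat_lit 156) (PT.nd (nat_lit 78) (PT.lf (nat_lit 29868) (nat_lit 6) (nat_lit 393) (nat_lit 3) (nat_lit 165) (nat_lit 160) (nat_lit 185)) (PT.lf (nat_lit 31084) (nat_lit 6) (nat_lit 409) (nat_lit 3) (nat_lit 166) (nat_lit 160) (nat_lit 184))) (PT.nd (nat_lit 78) (PT.lf (nat_lit 32224) (nat_lit 6) (nat_lit 424) (nat_lit 3) (nat_lit 167) (nat_lit 160) (nat_lit 183)) (PT.lf (nat_lit 33288) (nat_lit 6) (nat_lit 438) (nat_lit 3) (nat_lit 168) (nat_lit 160) (nat_lit 182)))) (PT.nd (nat_lit 156) (PT.nd (nat_lit 78) (PT.lf (nat_lit 34276) (nat_lit 6) (nat_lit 451) (nat_lit 3) (nat_lit 169) (nat_lit 160) (nat_lit 181)) (PT.lf (nat_lit 35188) (nat_lit 6) (nat_lit 463) (nat_lit 3) (nat_lit 170) (nat_lit 160) (nat_lit 180))) (PT.nd (nat_lit 78) (PT.lf (nat_lit 35264) (nat_lit 6) (nat_lit 464) (nat_lit 3) (nat_lit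 171) (nat_lit 160) (nat_lit 179)) (PT.lf (nat_lit 35340) (nat_lit 6) (nat_lit 465) (nat_lit 3) (nat_lit 172) (nat_lit 160) (nat_lit 178))))) (PT.nd (nat_lit 312) (PT.nd (nat_lit 156) (PT.nd (nat_lit 78) (PT.lf (nat_lit 35416) (nat_lit 6) (nat_lit 466) (nat_lit 3) (nat_lit 173) (nat_lit 160) (nat_lit 177)) (PT.lf (nat_lit 35492) (nat_lit 6) (nat_lit 467) (nat_lit 3) (nat_lit 174) (nat_lit 160) (nat_lit 176))) (PT.nd (nat_lit 78) (PT.lf (nat_lit 35568) (nat_lit 3) (nat_lit 468) (nat_lit 1) (nat_lit 175) (nat_lit 160) (nat_lit 175)) (PT.lf (nat_lit 35492) (nat_lit 6) (nat_lit 467) (nat_lit 1) (nat_lit 176) (nat_lit 160) (nat_lit 174)))) (PT.nd (nat_lit 156) (PT.nd (nat_lit 78) (PT.lf (nat_lit 35416) (nat_lit 6) (nat_lit 466) (nat_lit 1) (nat_lit 177) (nat_lit 160) (nat_lit 173)) (PT.lf (nat_lit 35340) (nat_lit 6) (nat_lit 465) (nat_lit 1) (nat_lit 178) (nat_lit 160) (nat_lit 172))) (PT.nd (nat_lit 78) (PT.lf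 (nat_lit 35264) (nat_lit 6) (nat_lit 464) (nat_lit 1) (nat_lit 179) (nat_lit 160) (nat_lit 171)) (PT.nd (nat_lit 78) (PT.lf (nat_lit 35188) (nat_lit 6) (nat_lit 463) (nat_lit 1) (nat_lit 180) (nat_lit 160) (nat_lit 170)) (PT.lf (nat_lit 34276) (nat_lit 6) (nat_lit 451) (nat_lit 1) (nat_lit 181) (nat_lit 160) (nat_lit 169))))))) (PT.nd (nat_lit 51948) (PT.nd (nat_lit 312) (PT.nd (nat_lit 156) (PT.nd (nat_lit 78) (PT.lf (nat_lit 33288) (nat_lit 6) (nat_lit 438) (nat_lit 1) (nat_lit 182) (nat_lit 160) (nat_lit 168)) (PT.lf (nat_lit 32224) (nat_lit 6) (nat_lit 424) (nat_lit 1) (nat_lit 183) (nat_lit 160) (nat_lit 167))) (PT.nd (nat_lit 78) (PT.lf (nat_lit 31084) (nat_lit 6) (nat_lit 409) (nat_lit 1) (nat_lit 184) (nat_lit 160) (nat_lit 166)) (PT.lf (nat_lit 29868) (nat_lit 6) (nat_lit 393) (nat_lit 1) (nat_lit 185) (nat_lit 160) (nat_lit 165)))) (PT.nd (nat_lit 51402) (PT.nd (nat_lit 51324) (PT.lf (nat_lit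 28576) (nat_lit 6) (nat_lit 376) (nat_lit 1) (nat_lit 186) (nat_lit 160) (nat_lit 164)) (PT.lf (nat_lit 28500) (nat_lit 6) (nat_lit 375) (nat_lit 3) (nat_lit 163) (nat_lit 161) (nat_lit 186))) (PT.nd (nat_lit 78) (PT.lf (nat_lit 29792) (nat_lit 6) (nat_lit 392) (nat_lit 3) (nat_lit 164) (nat_lit 161) (nat_lit 185)) (PT.nd (nat_lit 78) (PT.lf (nat_lit 31008) (nat_lit 6) (nat_lit 408) (nat_lit 3) (nat_lit 165) (nat_lit 161) (nat_lit 184)) (PT.lf (nat_lit 32148) (nat_lit 6) (nat_lit 423) (nat_lit 3) (nat_lit 166) (nat_lit 161) (nat_lit 183)))))) (PT.nd (nat_lit 312) (PT.nd (nat_lit 156) (PT.nd (nat_lit 78) (PT.lf (nat_lit 33212) (nat_lit 6) (nat_lit 437) (nat_lit 3) (nat_lit 167) (nat_lit 161) (nat_lit 182)) (PT.lf (nat_lit 34200) (nat_lit 6) (nat_lit 450) (nat_lit 3) (nat_lit 168) (nat_lit 161) (nat_lit 181))) (PT.nd (nat_lit 78) (PT.lf (nat_lit 35112) (nat_lit 6) (nat_lit 462) (nat_lit 3) (nat_lit 169)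 (nat_lit 161) (nat_lit 180)) (PT.lf (nat_lit 35948) (nat_lit 6) (nat_lit 473) (nat_lit 3) (nat_lit 170) (nat_lit 161) (nat_lit 179)))) (PT.nd (nat_lit 156) (PT.nd (nat_lit 78) (PT.lf (nat_lit 36024) (nat_lit 6) (nat_lit 474) (nat_lit 3) (nat_lit 171) (nat_lit 161) (nat_lit 178)) (PT.lf (nat_lit 36100) (nat_lit 6) (nat_lit 475) (nat_lit 3) (nat_lit 172) (nat_lit 161) (nat_lit 177))) (PT.nd (nat_lit 78) (PT.lf (nat_lit 36176) (nat_lit 6) (nat_lit 476) (nat_lit 3) (nat_lit 173) (nat_lit 161) (nat_lit 176)) (PT.nd (nat_lit 78) (PT.lf (nat_lit 36252) (nat_lit 6) (nat_lit 477) (nat_lit 3) (nat_lit 174) (nat_lit 161) (nat_lit 175)) (PT.lf (nat_lit 36252) (nat_lit 6) (nat_lit 477) (nat_lit 1) (nat_lit 175) (nat_lit 161) (nat_lit 174))))))))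
noncomputable def pc18 : PT := (PT.nd (nat_lit 52494) (PT.nd (nat_lit 624) (PT.nd (nat_lit 312) (PT.nd (nat_lit 156) (PT.nd (nat_lit 78) (PT.lf (nat_lit 36176) (nat_lit 6) (nat_lit 476) (nat_lit 1) (nat_lit 176) (nat_lit 161) (nat_lit 173)) (PT.lf (nat_lit 36100) (nat_lit 6) (nat_lit 475) (nat_lit 1) (nat_lit 177) (nat_lit 161) (nat_lit 172))) (PT.nd (nat_lit 78) (PT.lf (nat_lit 36024) (nat_lit 6) (nat_lit 474) (nat_lit 1) (nat_lit 178) (nat_lit 161) (nat_lit 171)) (PT.lf (nat_lit 35948) (nat_lit 6) (nat_lit 473) (nat_lit 1) (nat_lit 179) (nat_lit 161) (nat_lit 170)))) (PT.nd (nat_lit 156) (PT.nd (nat_lit 78) (PT.lf (nat_lit 35112) (nat_lit 6) (nat_lit 462) (nat_lit 1) (nat_lit 180) (nat_lit 161) (nat_lit 169)) (PT.lf (nat_lit 34200) (nat_lit 6) (nat_lit 450) (nat_lit 1) (nat_lit 181) (nat_lit 161) (nat_lit 168))) (PT.nd (nat_lit 78) (PT.lf (nat_lit 33212) (nat_lit 6) (nat_lit 437) (nat_lit 1) (nat_lit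 182) (nat_lit 161) (nat_lit 167)) (PT.lf (nat_lit 32148) (nat_lit 6) (nat_lit 423) (nat_lit 1) (nat_lit 183) (nat_lit 161) (nat_lit 166))))) (PT.nd (nat_lit 51480) (PT.nd (nat_lit 156) (PT.nd (nat_lit 78) (PT.lf (nat_lit 31008) (nat_lit 6) (nat_lit 408) (nat_lit 1) (nat_lit 184) (nat_lit 161) (nat_lit 165)) (PT.lf (nat_lit 29792) (nat_lit 6) (nat_lit 392) (nat_lit 1) (nat_lit 185) (nat_lit 161) (nat_lit 164))) (PT.nd (nat_lit 51246) (PT.lf (nat_lit 28500) (nat_lit 6) (nat_lit 375) (nat_lit 1) (nat_lit 186) (nat_lit 161) (nat_lit 163)) (PT.lf (nat_lit 28424) (nat_lit 3) (nat_lit 374) (nat_lit 3) (nat_lit 162) (nat_lit 162) (nat_lit 186)))) (PT.nd (nat_lit 156) (PT.nd (nat_lit 78) (PT.lf (nat_lit 29716) (nat_lit 6) (nat_lit 391) (nat_lit 3) (nat_lit 163) (nat_lit 162) (nat_lit 185)) (PT.lf (nat_lit 30932) (nat_lit 6) (nat_lit 407) (nat_lit 3) (nat_lit 164) (nat_lit 162) (nat_lit 184))) (PT.nd (nat_lit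 78) (PT.lf (nat_lit 32072) (nat_lit 6) (nat_lit 422) (nat_lit 3) (nat_lit 165) (nat_lit 162) (nat_lit 183)) (PT.nd (nat_lit 78) (PT.lf (nat_lit 33136) (nat_lit 6) (nat_lit 436) (nat_lit 3) (nat_lit 166) (nat_lit 162) (nat_lit 182)) (PT.lf (nat_lit 34124) (nat_lit 6) (nat_lit 449) (nat_lit 3) (nat_lit 167) (nat_lit 162) (nat_lit 181))))))) (PT.nd (nat_lit 702) (PT.nd (nat_lit 312) (PT.nd (nat_lit 156) (PT.nd (nat_lit 78) (PT.lf (nat_lit 35036) (nat_lit 6) (nat_lit 461) (nat_lit 3) (nat_lit 168) (nat_lit 162) (nat_lit 180)) (PT.lf (nat_lit 35872) (nat_lit 6) (nat_lit 472) (nat_lit 3) (nat_lit 169) (nat_lit 162) (nat_lit 179))) (PT.nd (nat_lit 78) (PT.lf (nat_lit 36632) (nat_lit 6) (nat_lit 482) (nat_lit 3) (nat_lit 170) (nat_lit 162) (nat_lit 178)) (PT.lf (nat_lit 36708) (nat_lit 6) (nat_lit 483) (nat_lit 3) (nat_lit 171) (nat_lit 162) (nat_lit 177)))) (PT.nd (nat_lit 156) (PT.nd (nat_lit 78) (PT.lf (nat_lit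 36784) (nat_lit 6) (nat_lit 484) (nat_lit 3) (nat_lit 172) (nat_lit 162) (nat_lit 176)) (PT.lf (nat_lit 36860) (nat_lit 6) (nat_lit 485) (nat_lit 3) (nat_lit 173) (nat_lit 162) (nat_lit 175))) (PT.nd (nat_lit 78) (PT.lf (nat_lit 36936) (nat_lit 3) (nat_lit 486) (nat_lit 1) (nat_lit 174) (nat_lit 162) (nat_lit 174)) (PT.nd (nat_lit 78) (PT.lf (nat_lit 36860) (nat_lit 6) (nat_lit 485) (nat_lit 1) (nat_lit 175) (nat_lit 162) (nat_lit 173)) (PT.lf (nat_lit 36784) (nat_lit 6) (nat_lit 484) (nat_lit 1) (nat_lit 176) (nat_lit 162) (nat_lit 172)))))) (PT.nd (nat_lit 312) (PT.nd (nat_lit 156) (PT.nd (nat_lit 78) (PT.lf (nat_lit 36708) (nat_lit 6) (nat_lit 483) (nat_lit 1) (nat_lit 177) (nat_lit 162) (nat_lit 171)) (PT.lf (nat_lit 36632) (nat_lit 6) (nat_lit 482) (nat_lit 1) (nat_lit 178) (nat_lit 162) (nat_lit 170))) (PT.nd (nat_lit 78) (PT.lf (nat_lit 35872) (nat_lit 6) (nat_lit 472) (nat_lit 1) (nat_lit 179)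 (nat_lit 162) (nat_lit 169)) (PT.lf (nat_lit 35036) (nat_lit 6) (nat_lit 461) (nat_lit 1) (nat_lit 180) (nat_lit 162) (nat_lit 168)))) (PT.nd (nat_lit 156) (PT.nd (nat_lit 78) (PT.lf (nat_lit 34124) (nat_lit 6) (nat_lit 449) (nat_lit 1) (nat_lit 181) (nat_lit 162) (nat_lit 167)) (PT.lf (nat_lit 33136) (nat_lit 6) (nat_lit 436) (nat_lit 1) (nat_lit 182) (nat_lit 162) (nat_lit 166))) (PT.nd (nat_lit 78) (PT.lf (nat_lit 32072) (nat_lit 6) (nat_lit 422) (nat_lit 1) (nat_lit 183) (nat_lit 162) (nat_lit 165)) (PT.nd (nat_lit 78) (PT.lf (nat_lit 30932) (nat_lit 6) (nat_lit 407) (nat_lit 1) (nat_lit 184) (nat_lit 162) (nat_lit 164)) (PT.lf (nat_lit 29716) (nat_lit 6) (nat_lit 391) (nat_lit 1) (nat_lit 185) (nat_lit 162) (nat_lit 163))))))))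
noncomputable def pc19 : PT := (PT.nd (nat_lit 52494) (PT.nd (nat_lit 51792) (PT.nd (nat_lit 51402) (PT.nd (nat_lit 51246) (PT.nd (nat_lit 51168) (PT.lf (nat_lit 28424) (nat_lit 3) (nat_lit 374) (nat_lit 0) (nat_lit 186) (nat_lit 162) (nat_lit 162)) (PT.lf (nat_lit 28500) (nat_lit 6) (nat_lit 375) (nat_lit 5) (nat_lit 161) (nat_lit 163) (nat_lit 186))) (PT.nd (nat_lit 78) (PT.lf (nat_lit 29716) (nat_lit 6) (nat_lit 391) (nat_lit 5) (nat_lit 162) (nat_lit 163) (nat_lit 185)) (PT.lf (nat_lit 30856) (nat_lit 3) (nat_lit 406) (nat_lit 3) (nat_lit 163) (nat_lit 163) (nat_lit 184)))) (PT.nd (nat_lit 156) (PT.nd (nat_lit 78) (PT.lf (nat_lit 31996) (nat_lit 6) (nat_lit 421) (nat_lit 3) (nat_lit 164) (nat_lit 163) (nat_lit 183)) (PT.lf (nat_lit 33060) (nat_lit 6) (nat_lit 435) (nat_lit 3) (nat_lit 165) (nat_lit 163) (nat_lit 182))) (PT.nd (nat_lit 78) (PT.lf (nat_lit 34048) (nat_lit 6) (nat_lit 448) (nat_lit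 3) (nat_lit 166) (nat_lit 163) (nat_lit 181)) (PT.nd (nat_lit 78) (PT.lf (nat_lit 34960) (nat_lit 6) (nat_lit 460) (nat_lit 3) (nat_lit 167) (nat_lit 163) (nat_lit 180)) (PT.lf (nat_lit 35796) (nat_lit 6) (nat_lit 471) (nat_lit 3) (nat_lit 168) (nat_lit 163) (nat_lit 179)))))) (PT.nd (nat_lit 312) (PT.nd (nat_lit 156) (PT.nd (nat_lit 78) (PT.lf (nat_lit 36556) (nat_lit 6) (nat_lit 481) (nat_lit 3) (nat_lit 169) (nat_lit 163) (nat_lit 178)) (PT.lf (nat_lit 37240) (nat_lit 6) (nat_lit 490) (nat_lit 3) (nat_lit 170) (nat_lit 163) (nat_lit 177))) (PT.nd (nat_lit 78) (PT.lf (nat_lit 37316) (nat_lit 6) (nat_lit 491) (nat_lit 3) (nat_lit 171) (nat_lit 163) (nat_lit 176)) (PT.lf (nat_lit 37392) (nat_lit 6) (nat_lit 492) (nat_lit 3) (nat_lit 172) (nat_lit 163) (nat_lit 175)))) (PT.nd (nat_lit 156) (PT.nd (nat_lit 78) (PT.lf (nat_lit 37468) (nat_lit 6) (nat_lit 493) (nat_lit 3) (nat_lit 173) (nat_lit 163) (nat_lit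 174)) (PT.lf (nat_lit 37468) (nat_lit 6) (nat_lit 493) (nat_lit 1) (nat_lit 174) (nat_lit 163) (nat_lit 173))) (PT.nd (nat_lit 78) (PT.lf (nat_lit 37392) (nat_lit 6) (nat_lit 492) (nat_lit 1) (nat_lit 175) (nat_lit 163) (nat_lit 172)) (PT.nd (nat_lit 78) (PT.lf (nat_lit 37316) (nat_lit 6) (nat_lit 491) (nat_lit 1) (nat_lit 176) (nat_lit 163) (nat_lit 171)) (PT.lf (nat_lit 37240) (nat_lit 6) (nat_lit 490) (nat_lit 1) (nat_lit 177) (nat_lit 163) (nat_lit 170))))))) (PT.nd (nat_lit 51714) (PT.nd (nat_lit 312) (PT.nd (nat_lit 156) (PT.nd (nat_lit 78) (PT.lf (nat_lit 36556) (nat_lit 6) (nat_lit 481) (nat_lit 1) (nat_lit 178) (nat_lit 163) (nat_lit 169)) (PT.lf (nat_lit 35796) (nat_lit 6) (nat_lit 471) (nat_lit 1) (nat_lit 179) (nat_lit 163) (nat_lit 168))) (PT.nd (nat_lit 78) (PT.lf (nat_lit 34960) (nat_lit 6) (nat_lit 460) (nat_lit 1) (nat_lit 180) (nat_lit 163) (nat_lit 167)) (PT.lf (nat_lit 34048) (nat_lit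 6) (nat_lit 448) (nat_lit 1) (nat_lit 181) (nat_lit 163) (nat_lit 166)))) (PT.nd (nat_lit 156) (PT.nd (nat_lit 78) (PT.lf (nat_lit 33060) (nat_lit 6) (nat_lit 435) (nat_lit 1) (nat_lit 182) (nat_lit 163) (nat_lit 165)) (PT.lf (nat_lit 31996) (nat_lit 6) (nat_lit 421) (nat_lit 1) (nat_lit 183) (nat_lit 163) (nat_lit 164))) (PT.nd (nat_lit 78) (PT.lf (nat_lit 30856) (nat_lit 3) (nat_lit 406) (nat_lit 0) (nat_lit 184) (nat_lit 163) (nat_lit 163)) (PT.nd (nat_lit 78) (PT.lf (nat_lit 29716) (nat_lit 6) (nat_lit 391) (nat_lit 0) (nat_lit 185) (nat_lit 163) (nat_lit 162)) (PT.lf (nat_lit 28500) (nat_lit 6) (nat_lit 375) (nat_lit 0) (nat_lit 186) (nat_lit 163) (nat_lit 161)))))) (PT.nd (nat_lit 312) (PT.nd (nat_lit 156) (PT.nd (nat_lit 78) (PT.lf (nat_lit 28576) (nat_lit 6) (nat_lit 376) (nat_lit 5) (nat_lit 160) (nat_lit 164) (nat_lit 186)) (PT.lf (nat_lit 29792) (nat_lit 6) (nat_lit 392) (nat_lit 5) (nat_lit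 161) (nat_lit 164) (nat_lit 185))) (PT.nd (nat_lit 78) (PT.lf (nat_lit 30932) (nat_lit 6) (nat_lit 407) (nat_lit 5) (nat_lit 162) (nat_lit 164) (nat_lit 184)) (PT.lf (nat_lit 31996) (nat_lit 6) (nat_lit 421) (nat_lit 5) (nat_lit 163) (nat_lit 164) (nat_lit 183)))) (PT.nd (nat_lit 156) (PT.nd (nat_lit 78) (PT.lf (nat_lit 32984) (nat_lit 3) (nat_lit 434) (nat_lit 3) (nat_lit 164) (nat_lit 164) (nat_lit 182)) (PT.lf (nat_lit 33972) (nat_lit 6) (nat_lit 447) (nat_lit 3) (nat_lit 165) (nat_lit 164) (nat_lit 181))) (PT.nd (nat_lit 78) (PT.lf (nat_lit 34884) (nat_lit 6) (nat_lit 459) (nat_lit 3) (nat_lit 166) (nat_lit 164) (nat_lit 180)) (PT.nd (nat_lit 78) (PT.lf (nat_lit 35720) (nat_lit 6) (nat_lit 470) (nat_lit 3) (nat_lit 167) (nat_lit 164) (nat_lit 179)) (PT.lf (nat_lit 36480) (nat_lit 6) (nat_lit 480) (nat_lit 3) (nat_lit 168) (nat_lit 164) (nat_lit 178))))))))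
noncomputable def pc20 : PT := (PT.nd (nat_lit 1326) (PT.nd (nat_lit 624) (PT.nd (nat_lit 312) (PT.nd (nat_lit 156) (PT.nd (nat_lit 78) (PT.lf (nat_lit 37164) (nat_lit 6) (nat_lit 489) (nat_lit 3) (nat_lit 169) (nat_lit 164) (nat_lit 177)) (PT.lf (nat_lit 37772) (nat_lit 6) (nat_lit 497) (nat_lit 3) (nat_lit 170) (nat_lit 164) (nat_lit 176))) (PT.nd (nat_lit 78) (PT.lf (nat_lit 37848) (nat_lit 6) (nat_lit 498) (nat_lit 3) (nat_lit 171) (nat_lit 164) (nat_lit 175)) (PT.lf (nat_lit 37924) (nat_lit 6) (nat_lit 499) (nat_lit 3) (nat_lit 172) (nat_lit 164) (nat_lit 174)))) (PT.nd (nat_lit 156) (PT.nd (nat_lit 78) (PT.lf (nat_lit 38000) (nat_lit 3) (nat_lit 500) (nat_lit 1) (nat_lit 173) (nat_lit 164) (nat_lit 173)) (PT.lf (nat_lit 37924) (nat_lit 6) (nat_lit 499) (nat_lit 1) (nat_lit 174) (nat_lit 164) (nat_lit 172))) (PT.nd (nat_lit 78) (PT.lf (nat_lit 37848) (nat_lit 6) (nat_lit 498) (nat_lit 1) (nat_lit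 175) (nat_lit 164) (nat_lit 171)) (PT.lf (nat_lit 37772) (nat_lit 6) (nat_lit 497) (nat_lit 1) (nat_lit 176) (nat_lit 164) (nat_lit 170))))) (PT.nd (nat_lit 312) (PT.nd (nat_lit 156) (PT.nd (nat_lit 78) (PT.lf (nat_lit 37164) (nat_lit 6) (nat_lit 489) (nat_lit 1) (nat_lit 177) (nat_lit 164) (nat_lit 169)) (PT.lf (nat_lit 36480) (nat_lit 6) (nat_lit 480) (nat_lit 1) (nat_lit 178) (nat_lit 164) (nat_lit 168))) (PT.nd (nat_lit 78) (PT.lf (nat_lit 35720) (nat_lit 6) (nat_lit 470) (nat_lit 1) (nat_lit 179) (nat_lit 164) (nat_lit 167)) (PT.lf (nat_lit 34884) (nat_lit 6) (nat_lit 459) (nat_lit 1) (nat_lit 180) (nat_lit 164) (nat_lit 166)))) (PT.nd (nat_lit 156) (PT.nd (nat_lit 78) (PT.lf (nat_lit 33972) (nat_lit 6) (nat_lit 447) (nat_lit 1) (nat_lit 181) (nat_lit 164) (nat_lit 165)) (PT.lf (nat_lit 32984) (nat_lit 3) (nat_lit 434) (nat_lit 0) (nat_lit 182) (nat_lit 164) (nat_lit 164))) (PT.nd (nat_lit 78) (PT.lf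 (nat_lit 31996) (nat_lit 6) (nat_lit 421) (nat_lit 0) (nat_lit 183) (nat_lit 164) (nat_lit 163)) (PT.nd (nat_lit 78) (PT.lf (nat_lit 30932) (nat_lit 6) (nat_lit 407) (nat_lit 0) (nat_lit 184) (nat_lit 164) (nat_lit 162)) (PT.lf (nat_lit 29792) (nat_lit 6) (nat_lit 392) (nat_lit 0) (nat_lit 185) (nat_lit 164) (nat_lit 161))))))) (PT.nd (nat_lit 51636) (PT.nd (nat_lit 51246) (PT.nd (nat_lit 51090) (PT.nd (nat_lit 51012) (PT.lf (nat_lit 28576) (nat_lit 6) (nat_lit 376) (nat_lit 0) (nat_lit 186) (nat_lit 164) (nat_lit 160)) (PT.lf (nat_lit 28652) (nat_lit 6) (nat_lit 377) (nat_lit 5) (nat_lit 159) (nat_lit 165) (nat_lit 186))) (PT.nd (nat_lit 78) (PT.lf (nat_lit 29868) (nat_lit 6) (nat_lit 393) (nat_lit 5) (nat_lit 160) (nat_lit 165) (nat_lit 185)) (PT.lf (nat_lit 31008) (nat_lit 6) (nat_lit 408) (nat_lit 5) (nat_lit 161) (nat_lit 165) (nat_lit 184)))) (PT.nd (nat_lit 156) (PT.nd (nat_lit 78) (PT.lf (nat_lit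 32072) (nat_lit 6) (nat_lit 422) (nat_lit 5) (nat_lit 162) (nat_lit 165) (nat_lit 183)) (PT.lf (nat_lit 33060) (nat_lit 6) (nat_lit 435) (nat_lit 5) (nat_lit 163) (nat_lit 165) (nat_lit 182))) (PT.nd (nat_lit 78) (PT.lf (nat_lit 33972) (nat_lit 6) (nat_lit 447) (nat_lit 5) (nat_lit 164) (nat_lit 165) (nat_lit 181)) (PT.nd (nat_lit 78) (PT.lf (nat_lit 34808) (nat_lit 3) (nat_lit 458) (nat_lit 3) (nat_lit 165) (nat_lit 165) (nat_lit 180)) (PT.lf (nat_lit 35644) (nat_lit 6) (nat_lit 469) (nat_lit 3) (nat_lit 166) (nat_lit 165) (nat_lit 179)))))) (PT.nd (nat_lit 312) (PT.nd (nat_lit 156) (PT.nd (nat_lit 78) (PT.lf (nat_lit 36404) (nat_lit 6) (nat_lit 479) (nat_lit 3) (nat_lit 167) (nat_lit 165) (nat_lit 178)) (PT.lf (nat_lit 37088) (nat_lit 6) (nat_lit 488) (nat_lit 3) (nat_lit 168) (nat_lit 165) (nat_lit 177))) (PT.nd (nat_lit 78) (PT.lf (nat_lit 37696) (nat_lit 6) (nat_lit 496) (nat_lit 3) (nat_lit 169)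 (nat_lit 165) (nat_lit 176)) (PT.lf (nat_lit 38228) (nat_lit 6) (nat_lit 503) (nat_lit 3) (nat_lit 170) (nat_lit 165) (nat_lit 175)))) (PT.nd (nat_lit 156) (PT.nd (nat_lit 78) (PT.lf (nat_lit 38304) (nat_lit 6) (nat_lit 504) (nat_lit 3) (nat_lit 171) (nat_lit 165) (nat_lit 174)) (PT.lf (nat_lit 38380) (nat_lit 6) (nat_lit 505) (nat_lit 3) (nat_lit 172) (nat_lit 165) (nat_lit 173))) (PT.nd (nat_lit 78) (PT.lf (nat_lit 38380) (nat_lit 6) (nat_lit 505) (nat_lit 1) (nat_lit 173) (nat_lit 165) (nat_lit 172)) (PT.nd (nat_lit 78) (PT.lf (nat_lit 38304) (nat_lit 6) (nat_lit 504) (nat_lit 1) (nat_lit 174) (nat_lit 165) (nat_lit 171)) (PT.lf (nat_lit 38228) (nat_lit 6) (nat_lit 503) (nat_lit 1) (nat_lit 175) (nat_lit 165) (nat_lit 170))))))))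
noncomputable def pc21 : PT := (PT.nd (nat_lit 52260) (PT.nd (nat_lit 702) (PT.nd (nat_lit 312) (PT.nd (nat_lit 156) (PT.nd (nat_lit 78) (PT.lf (nat_lit 37696) (nat_lit 6) (nat_lit 496) (nat_lit 1) (nat_lit 176) (nat_lit 165) (nat_lit 169)) (PT.lf (nat_lit 37088) (nat_lit 6) (nat_lit 488) (nat_lit 1) (nat_lit 177) (nat_lit 165) (nat_lit 168))) (PT.nd (nat_lit 78) (PT.lf (nat_lit 36404) (nat_lit 6) (nat_lit 479) (nat_lit 1) (nat_lit 178) (nat_lit 165) (nat_lit 167)) (PT.lf (nat_lit 35644) (nat_lit 6) (nat_lit 469) (nat_lit 1) (nat_lit 179) (nat_lit 165) (nat_lit 166)))) (PT.nd (nat_lit 156) (PT.nd (nat_lit 78) (PT.lf (nat_lit 34808) (nat_lit 3) (nat_lit 458) (nat_lit 0) (nat_lit 180) (nat_lit 165) (nat_lit 165)) (PT.lf (nat_lit 33972) (nat_lit 6) (nat_lit 447) (nat_lit 0) (nat_lit 181) (nat_lit 165) (nat_lit 164))) (PT.nd (nat_lit 78) (PT.lf (nat_lit 33060) (nat_lit 6) (nat_lit 435) (nat_lit 0) (nat_lit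 182) (nat_lit 165) (nat_lit 163)) (PT.nd (nat_lit 78) (PT.lf (nat_lit 32072) (nat_lit 6) (nat_lit 422) (nat_lit 0) (nat_lit 183) (nat_lit 165) (nat_lit 162)) (PT.lf (nat_lit 31008) (nat_lit 6) (nat_lit 408) (nat_lit 0) (nat_lit 184) (nat_lit 165) (nat_lit 161)))))) (PT.nd (nat_lit 51168) (PT.nd (nat_lit 51012) (PT.nd (nat_lit 78) (PT.lf (nat_lit 29868) (nat_lit 6) (nat_lit 393) (nat_lit 0) (nat_lit 185) (nat_lit 165) (nat_lit 160)) (PT.lf (nat_lit 28652) (nat_lit 6) (nat_lit 377) (nat_lit 0) (nat_lit 186) (nat_lit 165) (nat_lit 159))) (PT.nd (nat_lit 78) (PT.lf (nat_lit 28728) (nat_lit 6) (nat_lit 378) (nat_lit 5) (nat_lit 158) (nat_lit 166) (nat_lit 186)) (PT.lf (nat_lit 29944) (nat_lit 6) (nat_lit 394) (nat_lit 5) (nat_lit 159) (nat_lit 166) (nat_lit 185)))) (PT.nd (nat_lit 156) (PT.nd (nat_lit 78) (PT.lf (nat_lit 31084) (nat_lit 6) (nat_lit 409) (nat_lit 5) (nat_lit 160) (nat_lit 166) (nat_lit 184))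 (PT.lf (nat_lit 32148) (nat_lit 6) (nat_lit 423) (nat_lit 5) (nat_lit 161) (nat_lit 166) (nat_lit 183))) (PT.nd (nat_lit 78) (PT.lf (nat_lit 33136) (nat_lit 6) (nat_lit 436) (nat_lit 5) (nat_lit 162) (nat_lit 166) (nat_lit 182)) (PT.nd (nat_lit 78) (PT.lf (nat_lit 34048) (nat_lit 6) (nat_lit 448) (nat_lit 5) (nat_lit 163) (nat_lit 166) (nat_lit 181)) (PT.lf (nat_lit 34884) (nat_lit 6) (nat_lit 459) (nat_lit 5) (nat_lit 164) (nat_lit 166) (nat_lit 180))))))) (PT.nd (nat_lit 702) (PT.nd (nat_lit 312) (PT.nd (nat_lit 156) (PT.nd (nat_lit 78) (PT.lf (nat_lit 35644) (nat_lit 6) (nat_lit 469) (nat_lit 5) (nat_lit 165) (nat_lit 166) (nat_lit 179)) (PT.lf (nat_lit 36328) (nat_lit 3) (nat_lit 478) (nat_lit 3) (nat_lit 166) (nat_lit 166) (nat_lit 178))) (PT.nd (nat_lit 78) (PT.lf (nat_lit 37012) (nat_lit 6) (nat_lit 487) (nat_lit 3) (nat_lit 167) (nat_lit 166) (nat_lit 177)) (PT.lf (nat_lit 37620) (nat_lit 6)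 (nat_lit 495) (nat_lit 3) (nat_lit 168) (nat_lit 166) (nat_lit 176)))) (PT.nd (nat_lit 156) (PT.nd (nat_lit 78) (PT.lf (nat_lit 38152) (nat_lit 6) (nat_lit 502) (nat_lit 3) (nat_lit 169) (nat_lit 166) (nat_lit 175)) (PT.lf (nat_lit 38608) (nat_lit 6) (nat_lit 508) (nat_lit 3) (nat_lit 170) (nat_lit 166) (nat_lit 174))) (PT.nd (nat_lit 78) (PT.lf (nat_lit 38684) (nat_lit 6) (nat_lit 509) (nat_lit 3) (nat_lit 171) (nat_lit 166) (nat_lit 173)) (PT.nd (nat_lit 78) (PT.lf (nat_lit 38760) (nat_lit 3) (nat_lit 510) (nat_lit 1) (nat_lit 172) (nat_lit 166) (nat_lit 172)) (PT.lf (nat_lit 38684) (nat_lit 6) (nat_lit 509) (nat_lit 1) (nat_lit 173) (nat_lit 166) (nat_lit 171)))))) (PT.nd (nat_lit 312) (PT.nd (nat_lit 156) (PT.nd (nat_lit 78) (PT.lf (nat_lit 38608) (nat_lit 6) (nat_lit 508) (nat_lit 1) (nat_lit 174) (nat_lit 166) (nat_lit 170)) (PT.lf (nat_lit 38152) (nat_lit 6) (nat_lit 502) (nat_lit 1) (nat_lit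 175) (nat_lit 166) (nat_lit 169))) (PT.nd (nat_lit 78) (PT.lf (nat_lit 37620) (nat_lit 6) (nat_lit 495) (nat_lit 1) (nat_lit 176) (nat_lit 166) (nat_lit 168)) (PT.lf (nat_lit 37012) (nat_lit 6) (nat_lit 487) (nat_lit 1) (nat_lit 177) (nat_lit 166) (nat_lit 167)))) (PT.nd (nat_lit 156) (PT.nd (nat_lit 78) (PT.lf (nat_lit 36328) (nat_lit 3) (nat_lit 478) (nat_lit 0) (nat_lit 178) (nat_lit 166) (nat_lit 166)) (PT.lf (nat_lit 35644) (nat_lit 6) (nat_lit 469) (nat_lit 0) (nat_lit 179) (nat_lit 166) (nat_lit 165))) (PT.nd (nat_lit 78) (PT.lf (nat_lit 34884) (nat_lit 6) (nat_lit 459) (nat_lit 0) (nat_lit 180) (nat_lit 166) (nat_lit 164)) (PT.nd (nat_lit 78) (PT.lf (nat_lit 34048) (nat_lit 6) (nat_lit 448) (nat_lit 0) (nat_lit 181) (nat_lit 166) (nat_lit 163)) (PT.lf (nat_lit 33136) (nat_lit 6) (nat_lit 436) (nat_lit 0) (nat_lit 182) (nat_lit 166) (nat_lit 162))))))))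
noncomputable def pc22 : PT := (PT.nd (nat_lit 52104) (PT.nd (nat_lit 51402) (PT.nd (nat_lit 51090) (PT.nd (nat_lit 156) (PT.nd (nat_lit 78) (PT.lf (nat_lit 32148) (nat_lit 6) (nat_lit 423) (nat_lit 0) (nat_lit 183) (nat_lit 166) (nat_lit 161)) (PT.lf (nat_lit 31084) (nat_lit 6) (nat_lit 409) (nat_lit 0) (nat_lit 184) (nat_lit 166) (nat_lit 160))) (PT.nd (nat_lit 78) (PT.lf (nat_lit 29944) (nat_lit 6) (nat_lit 394) (nat_lit 0) (nat_lit 185) (nat_lit 166) (nat_lit 159)) (PT.lf (nat_lit 28728) (nat_lit 6) (nat_lit 378) (nat_lit 0) (nat_lit 186) (nat_lit 166) (nat_lit 158)))) (PT.nd (nat_lit 156) (PT.nd (nat_lit 78) (PT.lf (nat_lit 28804) (nat_lit 6) (nat_lit 379) (nat_lit 5) (nat_lit 157) (nat_lit 167) (nat_lit 186)) (PT.lf (nat_lit 30020) (nat_lit 6) (nat_lit 395) (nat_lit 5) (nat_lit 158) (nat_lit 167) (nat_lit 185))) (PT.nd (nat_lit 78) (PT.lf (nat_lit 31160) (nat_lit 6) (nat_lit 410) (nat_lit 5) (nat_lit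 159) (nat_lit 167) (nat_lit 184)) (PT.lf (nat_lit 32224) (nat_lit 6) (nat_lit 424) (nat_lit 5) (nat_lit 160) (nat_lit 167) (nat_lit 183))))) (PT.nd (nat_lit 312) (PT.nd (nat_lit 156) (PT.nd (nat_lit 78) (PT.lf (nat_lit 33212) (nat_lit 6) (nat_lit 437) (nat_lit 5) (nat_lit 161) (nat_lit 167) (nat_lit 182)) (PT.lf (nat_lit 34124) (nat_lit 6) (nat_lit 449) (nat_lit 5) (nat_lit 162) (nat_lit 167) (nat_lit 181))) (PT.nd (nat_lit 78) (PT.lf (nat_lit 34960) (nat_lit 6) (nat_lit 460) (nat_lit 5) (nat_lit 163) (nat_lit 167) (nat_lit 180)) (PT.lf (nat_lit 35720) (nat_lit 6) (nat_lit 470) (nat_lit 5) (nat_lit 164) (nat_lit 167) (nat_lit 179)))) (PT.nd (nat_lit 156) (PT.nd (nat_lit 78) (PT.lf (nat_lit 36404) (nat_lit 6) (nat_lit 479) (nat_lit 5) (nat_lit 165) (nat_lit 167) (nat_lit 178)) (PT.lf (nat_lit 37012) (nat_lit 6) (nat_lit 487) (nat_lit 5) (nat_lit 166) (nat_lit 167) (nat_lit 177))) (PT.nd (nat_lit 78) (PT.lf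 (nat_lit 37544) (nat_lit 3) (nat_lit 494) (nat_lit 3) (nat_lit 167) (nat_lit 167) (nat_lit 176)) (PT.nd (nat_lit 78) (PT.lf (nat_lit 38076) (nat_lit 6) (nat_lit 501) (nat_lit 3) (nat_lit 168) (nat_lit 167) (nat_lit 175)) (PT.lf (nat_lit 38532) (nat_lit 6) (nat_lit 507) (nat_lit 3) (nat_lit 169) (nat_lit 167) (nat_lit 174))))))) (PT.nd (nat_lit 702) (PT.nd (nat_lit 312) (PT.nd (nat_lit 156) (PT.nd (nat_lit 78) (PT.lf (nat_lit 38912) (nat_lit 6) (nat_lit 512) (nat_lit 3) (nat_lit 170) (nat_lit 167) (nat_lit 173)) (PT.lf (nat_lit 38988) (nat_lit 6) (nat_lit 513) (nat_lit 3) (nat_lit 171) (nat_lit 167) (nat_lit 172))) (PT.nd (nat_lit 78) (PT.lf (nat_lit 38988) (nat_lit 6) (nat_lit 513) (nat_lit 1) (nat_lit 172) (nat_lit 167) (nat_lit 171)) (PT.lf (nat_lit 38912) (nat_lit 6) (nat_lit 512) (nat_lit 1) (nat_lit 173) (nat_lit 167) (nat_lit 170)))) (PT.nd (nat_lit 156) (PT.nd (nat_lit 78) (PT.lf (nat_lit 38532)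 (nat_lit 6) (nat_lit 507) (nat_lit 1) (nat_lit 174) (nat_lit 167) (nat_lit 169)) (PT.lf (nat_lit 38076) (nat_lit 6) (nat_lit 501) (nat_lit 1) (nat_lit 175) (nat_lit 167) (nat_lit 168))) (PT.nd (nat_lit 78) (PT.lf (nat_lit 37544) (nat_lit 3) (nat_lit 494) (nat_lit 0) (nat_lit 176) (nat_lit 167) (nat_lit 167)) (PT.nd (nat_lit 78) (PT.lf (nat_lit 37012) (nat_lit 6) (nat_lit 487) (nat_lit 0) (nat_lit 177) (nat_lit 167) (nat_lit 166)) (PT.lf (nat_lit 36404) (nat_lit 6) (nat_lit 479) (nat_lit 0) (nat_lit 178) (nat_lit 167) (nat_lit 165)))))) (PT.nd (nat_lit 312) (PT.nd (nat_lit 156) (PT.nd (nat_lit 78) (PT.lf (nat_lit 35720) (nat_lit 6) (nat_lit 470) (nat_lit 0) (nat_lit 179) (nat_lit 167) (nat_lit 164)) (PT.lf (nat_lit 34960) (nat_lit 6) (nat_lit 460) (nat_lit 0) (nat_lit 180) (nat_lit 167) (nat_lit 163))) (PT.nd (nat_lit 78) (PT.lf (nat_lit 34124) (nat_lit 6) (nat_lit 449) (nat_lit 0) (nat_lit 181) (nat_lit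 167) (nat_lit 162)) (PT.lf (nat_lit 33212) (nat_lit 6) (nat_lit 437) (nat_lit 0) (nat_lit 182) (nat_lit 167) (nat_lit 161)))) (PT.nd (nat_lit 156) (PT.nd (nat_lit 78) (PT.lf (nat_lit 32224) (nat_lit 6) (nat_lit 424) (nat_lit 0) (nat_lit 183) (nat_lit 167) (nat_lit 160)) (PT.lf (nat_lit 31160) (nat_lit 6) (nat_lit 410) (nat_lit 0) (nat_lit 184) (nat_lit 167) (nat_lit 159))) (PT.nd (nat_lit 78) (PT.lf (nat_lit 30020) (nat_lit 6) (nat_lit 395) (nat_lit 0) (nat_lit 185) (nat_lit 167) (nat_lit 158)) (PT.nd (nat_lit 50700) (PT.lf (nat_lit 28804) (nat_lit 6) (nat_lit 379) (nat_lit 0) (nat_lit 186) (nat_lit 167) (nat_lit 157)) (PT.lf (nat_lit 27588) (nat_lit 6) (nat_lit 363) (nat_lit 5) (nat_lit 155) (nat_lit 168) (nat_lit 187))))))))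
noncomputable def pc23 : PT := (PT.nd (nat_lit 1404) (PT.nd (nat_lit 702) (PT.nd (nat_lit 312) (PT.nd (nat_lit 156) (PT.nd (nat_lit 78) (PT.lf (nat_lit 28880) (nat_lit 6) (nat_lit 380) (nat_lit 5) (nat_lit 156) (nat_lit 168) (nat_lit 186)) (PT.lf (nat_lit 30096) (nat_lit 6) (nat_lit 396) (nat_lit 5) (nat_lit 157) (nat_lit 168) (nat_lit 185))) (PT.nd (nat_lit 78) (PT.lf (nat_lit 31236) (nat_lit 6) (nat_lit 411) (nat_lit 5) (nat_lit 158) (nat_lit 168) (nat_lit 184)) (PT.lf (nat_lit 32300) (nat_lit 6) (nat_lit 425) (nat_lit 5) (nat_lit 159) (nat_lit 168) (nat_lit 183)))) (PT.nd (nat_lit 156) (PT.nd (nat_lit 78) (PT.lf (nat_lit 33288) (nat_lit 6) (nat_lit 438) (nat_lit 5) (nat_lit 160) (nat_lit 168) (nat_lit 182)) (PT.lf (nat_lit 34200) (nat_lit 6) (nat_lit 450) (nat_lit 5) (nat_lit 161) (nat_lit 168) (nat_lit 181))) (PT.nd (nat_lit 78) (PT.lf (nat_lit 35036) (nat_lit 6) (nat_lit 461) (nat_lit 5) (nat_lit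 162) (nat_lit 168) (nat_lit 180)) (PT.nd (nat_lit 78) (PT.lf (nat_lit 35796) (nat_lit 6) (nat_lit 471) (nat_lit 5) (nat_lit 163) (nat_lit 168) (nat_lit 179)) (PT.lf (nat_lit 36480) (nat_lit 6) (nat_lit 480) (nat_lit 5) (nat_lit 164) (nat_lit 168) (nat_lit 178)))))) (PT.nd (nat_lit 312) (PT.nd (nat_lit 156) (PT.nd (nat_lit 78) (PT.lf (nat_lit 37088) (nat_lit 6) (nat_lit 488) (nat_lit 5) (nat_lit 165) (nat_lit 168) (nat_lit 177)) (PT.lf (nat_lit 37620) (nat_lit 6) (nat_lit 495) (nat_lit 5) (nat_lit 166) (nat_lit 168) (nat_lit 176))) (PT.nd (nat_lit 78) (PT.lf (nat_lit 38076) (nat_lit 6) (nat_lit 501) (nat_lit 5) (nat_lit 167) (nat_lit 168) (nat_lit 175)) (PT.lf (nat_lit 38456) (nat_lit 3) (nat_lit 506) (nat_lit 3) (nat_lit 168) (nat_lit 168) (nat_lit 174)))) (PT.nd (nat_lit 156) (PT.nd (nat_lit 78) (PT.lf (nat_lit 38836) (nat_lit 6) (nat_lit 511) (nat_lit 3) (nat_lit 169) (nat_lit 168) (nat_lit 173)) (PT.lf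 (nat_lit 39140) (nat_lit 6) (nat_lit 515) (nat_lit 3) (nat_lit 170) (nat_lit 168) (nat_lit 172))) (PT.nd (nat_lit 78) (PT.lf (nat_lit 39216) (nat_lit 3) (nat_lit 516) (nat_lit 1) (nat_lit 171) (nat_lit 168) (nat_lit 171)) (PT.nd (nat_lit 78) (PT.lf (nat_lit 39140) (nat_lit 6) (nat_lit 515) (nat_lit 1) (nat_lit 172) (nat_lit 168) (nat_lit 170)) (PT.lf (nat_lit 38836) (nat_lit 6) (nat_lit 511) (nat_lit 1) (nat_lit 173) (nat_lit 168) (nat_lit 169))))))) (PT.nd (nat_lit 702) (PT.nd (nat_lit 312) (PT.nd (nat_lit 156) (PT.nd (nat_lit 78) (PT.lf (nat_lit 38456) (nat_lit 3) (nat_lit 506) (nat_lit 0) (nat_lit 174) (nat_lit 168) (nat_lit 168)) (PT.lf (nat_lit 38076) (nat_lit 6) (nat_lit 501) (nat_lit 0) (nat_lit 175) (nat_lit 168) (nat_lit 167))) (PT.nd (nat_lit 78) (PT.lf (nat_lit 37620) (nat_lit 6) (nat_lit 495) (nat_lit 0) (nat_lit 176) (nat_lit 168) (nat_lit 166)) (PT.lf (nat_lit 37088) (nat_lit 6) (nat_lit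 488) (nat_lit 0) (nat_lit 177) (nat_lit 168) (nat_lit 165)))) (PT.nd (nat_lit 156) (PT.nd (nat_lit 78) (PT.lf (nat_lit 36480) (nat_lit 6) (nat_lit 480) (nat_lit 0) (nat_lit 178) (nat_lit 168) (nat_lit 164)) (PT.lf (nat_lit 35796) (nat_lit 6) (nat_lit 471) (nat_lit 0) (nat_lit 179) (nat_lit 168) (nat_lit 163))) (PT.nd (nat_lit 78) (PT.lf (nat_lit 35036) (nat_lit 6) (nat_lit 461) (nat_lit 0) (nat_lit 180) (nat_lit 168) (nat_lit 162)) (PT.nd (nat_lit 78) (PT.lf (nat_lit 34200) (nat_lit 6) (nat_lit 450) (nat_lit 0) (nat_lit 181) (nat_lit 168) (nat_lit 161)) (PT.lf (nat_lit 33288) (nat_lit 6) (nat_lit 438) (nat_lit 0) (nat_lit 182) (nat_lit 168) (nat_lit 160)))))) (PT.nd (nat_lit 312) (PT.nd (nat_lit 156) (PT.nd (nat_lit 78) (PT.lf (nat_lit 32300) (nat_lit 6) (nat_lit 425) (nat_lit 0) (nat_lit 183) (nat_lit 168) (nat_lit 159)) (PT.lf (nat_lit 31236) (nat_lit 6) (nat_lit 411) (nat_lit 0) (nat_lit 184) (nat_lit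 168) (nat_lit 158))) (PT.nd (nat_lit 78) (PT.lf (nat_lit 30096) (nat_lit 6) (nat_lit 396) (nat_lit 0) (nat_lit 185) (nat_lit 168) (nat_lit 157)) (PT.lf (nat_lit 28880) (nat_lit 6) (nat_lit 380) (nat_lit 0) (nat_lit 186) (nat_lit 168) (nat_lit 156)))) (PT.nd (nat_lit 50622) (PT.nd (nat_lit 50544) (PT.lf (nat_lit 27588) (nat_lit 6) (nat_lit 363) (nat_lit 0) (nat_lit 187) (nat_lit 168) (nat_lit 155)) (PT.lf (nat_lit 27664) (nat_lit 6) (nat_lit 364) (nat_lit 5) (nat_lit 154) (nat_lit 169) (nat_lit 187))) (PT.nd (nat_lit 78) (PT.lf (nat_lit 28956) (nat_lit 6) (nat_lit 381) (nat_lit 5) (nat_lit 155) (nat_lit 169) (nat_lit 186)) (PT.nd (nat_lit 78) (PT.lf (nat_lit 30172) (nat_lit 6) (nat_lit 397) (nat_lit 5) (nat_lit 156) (nat_lit 169) (nat_lit 185)) (PT.lf (nat_lit 31312) (nat_lit 6) (nat_lit 412) (nat_lit 5) (nat_lit 157) (nat_lit 169) (nat_lit 184))))))))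
noncomputable def pc24 : PT := (PT.nd (nat_lit 1326) (PT.nd (nat_lit 624) (PT.nd (nat_lit 312) (PT.nd (nat_lit 156) (PT.nd (nat_lit 78) (PT.lf (nat_lit 32376) (nat_lit 6) (nat_lit 426) (nat_lit 5) (nat_lit 158) (nat_lit 169) (nat_lit 183)) (PT.lf (nat_lit 33364) (nat_lit 6) (nat_lit 439) (nat_lit 5) (nat_lit 159) (nat_lit 169) (nat_lit 182))) (PT.nd (nat_lit 78) (PT.lf (nat_lit 34276) (nat_lit 6) (nat_lit 451) (nat_lit 5) (nat_lit 160) (nat_lit 169) (nat_lit 181)) (PT.lf (nat_lit 35112) (nat_lit 6) (nat_lit 462) (nat_lit 5) (nat_lit 161) (nat_lit 169) (nat_lit 180)))) (PT.nd (nat_lit 156) (PT.nd (nat_lit 78) (PT.lf (nat_lit 35872) (nat_lit 6) (nat_lit 472) (nat_lit 5) (nat_lit 162) (nat_lit 169) (nat_lit 179)) (PT.lf (nat_lit 36556) (nat_lit 6) (nat_lit 481) (nat_lit 5) (nat_lit 163) (nat_lit 169) (nat_lit 178))) (PT.nd (nat_lit 78) (PT.lf (nat_lit 37164) (nat_lit 6) (nat_lit 489) (nat_lit 5) (nat_lit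 164) (nat_lit 169) (nat_lit 177)) (PT.lf (nat_lit 37696) (nat_lit 6) (nat_lit 496) (nat_lit 5) (nat_lit 165) (nat_lit 169) (nat_lit 176))))) (PT.nd (nat_lit 312) (PT.nd (nat_lit 156) (PT.nd (nat_lit 78) (PT.lf (nat_lit 38152) (nat_lit 6) (nat_lit 502) (nat_lit 5) (nat_lit 166) (nat_lit 169) (nat_lit 175)) (PT.lf (nat_lit 38532) (nat_lit 6) (nat_lit 507) (nat_lit 5) (nat_lit 167) (nat_lit 169) (nat_lit 174))) (PT.nd (nat_lit 78) (PT.lf (nat_lit 38836) (nat_lit 6) (nat_lit 511) (nat_lit 5) (nat_lit 168) (nat_lit 169) (nat_lit 173)) (PT.lf (nat_lit 39064) (nat_lit 3) (nat_lit 514) (nat_lit 3) (nat_lit 169) (nat_lit 169) (nat_lit 172)))) (PT.nd (nat_lit 156) (PT.nd (nat_lit 78) (PT.lf (nat_lit 39292) (nat_lit 6) (nat_lit 517) (nat_lit 3) (nat_lit 170) (nat_lit 169) (nat_lit 171)) (PT.lf (nat_lit 39292) (nat_lit 6) (nat_lit 517) (nat_lit 1) (nat_lit 171) (nat_lit 169) (nat_lit 170))) (PT.nd (nat_lit 78) (PT.lf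 (nat_lit 39064) (nat_lit 3) (nat_lit 514) (nat_lit 0) (nat_lit 172) (nat_lit 169) (nat_lit 169)) (PT.nd (nat_lit 78) (PT.lf (nat_lit 38836) (nat_lit 6) (nat_lit 511) (nat_lit 0) (nat_lit 173) (nat_lit 169) (nat_lit 168)) (PT.lf (nat_lit 38532) (nat_lit 6) (nat_lit 507) (nat_lit 0) (nat_lit 174) (nat_lit 169) (nat_lit 167))))))) (PT.nd (nat_lit 702) (PT.nd (nat_lit 312) (PT.nd (nat_lit 156) (PT.nd (nat_lit 78) (PT.lf (nat_lit 38152) (nat_lit 6) (nat_lit 502) (nat_lit 0) (nat_lit 175) (nat_lit 169) (nat_lit 166)) (PT.lf (nat_lit 37696) (nat_lit 6) (nat_lit 496) (nat_lit 0) (nat_lit 176) (nat_lit 169) (nat_lit 165))) (PT.nd (nat_lit 78) (PT.lf (nat_lit 37164) (nat_lit 6) (nat_lit 489) (nat_lit 0) (nat_lit 177) (nat_lit 169) (nat_lit 164)) (PT.lf (nat_lit 36556) (nat_lit 6) (nat_lit 481) (nat_lit 0) (nat_lit 178) (nat_lit 169) (nat_lit 163)))) (PT.nd (nat_lit 156) (PT.nd (nat_lit 78) (PT.lf (nat_lit 35872)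 (nat_lit 6) (nat_lit 472) (nat_lit 0) (nat_lit 179) (nat_lit 169) (nat_lit 162)) (PT.lf (nat_lit 35112) (nat_lit 6) (nat_lit 462) (nat_lit 0) (nat_lit 180) (nat_lit 169) (nat_lit 161))) (PT.nd (nat_lit 78) (PT.lf (nat_lit 34276) (nat_lit 6) (nat_lit 451) (nat_lit 0) (nat_lit 181) (nat_lit 169) (nat_lit 160)) (PT.nd (nat_lit 78) (PT.lf (nat_lit 33364) (nat_lit 6) (nat_lit 439) (nat_lit 0) (nat_lit 182) (nat_lit 169) (nat_lit 159)) (PT.lf (nat_lit 32376) (nat_lit 6) (nat_lit 426) (nat_lit 0) (nat_lit 183) (nat_lit 169) (nat_lit 158)))))) (PT.nd (nat_lit 50700) (PT.nd (nat_lit 156) (PT.nd (nat_lit 78) (PT.lf (nat_lit 31312) (nat_lit 6) (nat_lit 412) (nat_lit 0) (nat_lit 184) (nat_lit 169) (nat_lit 157)) (PT.lf (nat_lit 30172) (nat_lit 6) (nat_lit 397) (nat_lit 0) (nat_lit 185) (nat_lit 169) (nat_lit 156))) (PT.nd (nat_lit 78) (PT.lf (nat_lit 28956) (nat_lit 6) (nat_lit 381) (nat_lit 0) (nat_lit 186) (nat_lit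 169) (nat_lit 155)) (PT.lf (nat_lit 27664) (nat_lit 6) (nat_lit 364) (nat_lit 0) (nat_lit 187) (nat_lit 169) (nat_lit 154)))) (PT.nd (nat_lit 156) (PT.nd (nat_lit 78) (PT.lf (nat_lit 27740) (nat_lit 6) (nat_lit 365) (nat_lit 5) (nat_lit 153) (nat_lit 170) (nat_lit 187)) (PT.lf (nat_lit 29032) (nat_lit 6) (nat_lit 382) (nat_lit 5) (nat_lit 154) (nat_lit 170) (nat_lit 186))) (PT.nd (nat_lit 78) (PT.lf (nat_lit 30248) (nat_lit 6) (nat_lit 398) (nat_lit 5) (nat_lit 155) (nat_lit 170) (nat_lit 185)) (PT.nd (nat_lit 78) (PT.lf (nat_lit 31388) (nat_lit 6) (nat_lit 413) (nat_lit 5) (nat_lit 156) (nat_lit 170) (nat_lit 184)) (PT.lf (nat_lit 32452) (nat_lit 6) (nat_lit 427) (nat_lit 5) (nat_lit 157) (nat_lit 170) (nat_lit 183))))))))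
noncomputable def pc25 : PT := (PT.nd (nat_lit 1404) (PT.nd (nat_lit 702) (PT.nd (nat_lit 312) (PT.nd (nat_lit 156) (PT.nd (nat_lit 78) (PT.lf (nat_lit 33440) (nat_lit 6) (nat_lit 440) (nat_lit 5) (nat_lit 158) (nat_lit 170) (nat_lit 182)) (PT.lf (nat_lit 34352) (nat_lit 6) (nat_lit 452) (nat_lit 5) (nat_lit 159) (nat_lit 170) (nat_lit 181))) (PT.nd (nat_lit 78) (PT.lf (nat_lit 35188) (nat_lit 6) (nat_lit 463) (nat_lit 5) (nat_lit 160) (nat_lit 170) (nat_lit 180)) (PT.lf (nat_lit 35948) (nat_lit 6) (nat_lit 473) (nat_lit 5) (nat_lit 161) (nat_lit 170) (nat_lit 179)))) (PT.nd (nat_lit 156) (PT.nd (nat_lit 78) (PT.lf (nat_lit 36632) (nat_lit 6) (nat_lit 482) (nat_lit 5) (nat_lit 162) (nat_lit 170) (nat_lit 178)) (PT.lf (nat_lit 37240) (nat_lit 6) (nat_lit 490) (nat_lit 5) (nat_lit 163) (nat_lit 170) (nat_lit 177))) (PT.nd (nat_lit 78) (PT.lf (nat_lit 37772) (nat_lit 6) (nat_lit 497) (nat_lit 5) (nat_lit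 164) (nat_lit 170) (nat_lit 176)) (PT.nd (nat_lit 78) (PT.lf (nat_lit 38228) (nat_lit 6) (nat_lit 503) (nat_lit 5) (nat_lit 165) (nat_lit 170) (nat_lit 175)) (PT.lf (nat_lit 38608) (nat_lit 6) (nat_lit 508) (nat_lit 5) (nat_lit 166) (nat_lit 170) (nat_lit 174)))))) (PT.nd (nat_lit 312) (PT.nd (nat_lit 156) (PT.nd (nat_lit 78) (PT.lf (nat_lit 38912) (nat_lit 6) (nat_lit 512) (nat_lit 5) (nat_lit 167) (nat_lit 170) (nat_lit 173)) (PT.lf (nat_lit 39140) (nat_lit 6) (nat_lit 515) (nat_lit 5) (nat_lit 168) (nat_lit 170) (nat_lit 172))) (PT.nd (nat_lit 78) (PT.lf (nat_lit 39292) (nat_lit 6) (nat_lit 517) (nat_lit 5) (nat_lit 169) (nat_lit 170) (nat_lit 171)) (PT.lf (nat_lit 39368) (nat_lit 1) (nat_lit 518) (nat_lit 0) (nat_lit 170) (nat_lit 170) (nat_lit 170)))) (PT.nd (nat_lit 156) (PT.nd (nat_lit 78) (PT.lf (nat_lit 39292) (nat_lit 6) (nat_lit 517) (nat_lit 0) (nat_lit 171) (nat_lit 170) (nat_lit 169)) (PT.lf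 (nat_lit 39140) (nat_lit 6) (nat_lit 515) (nat_lit 0) (nat_lit 172) (nat_lit 170) (nat_lit 168))) (PT.nd (nat_lit 78) (PT.lf (nat_lit 38912) (nat_lit 6) (nat_lit 512) (nat_lit 0) (nat_lit 173) (nat_lit 170) (nat_lit 167)) (PT.nd (nat_lit 78) (PT.lf (nat_lit 38608) (nat_lit 6) (nat_lit 508) (nat_lit 0) (nat_lit 174) (nat_lit 170) (nat_lit 166)) (PT.lf (nat_lit 38228) (nat_lit 6) (nat_lit 503) (nat_lit 0) (nat_lit 175) (nat_lit 170) (nat_lit 165))))))) (PT.nd (nat_lit 702) (PT.nd (nat_lit 312) (PT.nd (nat_lit 156) (PT.nd (nat_lit 78) (PT.lf (nat_lit 37772) (nat_lit 6) (nat_lit 497) (nat_lit 0) (nat_lit 176) (nat_lit 170) (nat_lit 164)) (PT.lf (nat_lit 37240) (nat_lit 6) (nat_lit 490) (nat_lit 0) (nat_lit 177) (nat_lit 170) (nat_lit 163))) (PT.nd (nat_lit 78) (PT.lf (nat_lit 36632) (nat_lit 6) (nat_lit 482) (nat_lit 0) (nat_lit 178) (nat_lit 170) (nat_lit 162)) (PT.lf (nat_lit 35948) (nat_lit 6) (nat_lit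 473) (nat_lit 0) (nat_lit 179) (nat_lit 170) (nat_lit 161)))) (PT.nd (nat_lit 156) (PT.nd (nat_lit 78) (PT.lf (nat_lit 35188) (nat_lit 6) (nat_lit 463) (nat_lit 0) (nat_lit 180) (nat_lit 170) (nat_lit 160)) (PT.lf (nat_lit 34352) (nat_lit 6) (nat_lit 452) (nat_lit 0) (nat_lit 181) (nat_lit 170) (nat_lit 159))) (PT.nd (nat_lit 78) (PT.lf (nat_lit 33440) (nat_lit 6) (nat_lit 440) (nat_lit 0) (nat_lit 182) (nat_lit 170) (nat_lit 158)) (PT.nd (nat_lit 78) (PT.lf (nat_lit 32452) (nat_lit 6) (nat_lit 427) (nat_lit 0) (nat_lit 183) (nat_lit 170) (nat_lit 157)) (PT.lf (nat_lit 31388) (nat_lit 6) (nat_lit 413) (nat_lit 0) (nat_lit 184) (nat_lit 170) (nat_lit 156)))))) (PT.nd (nat_lit 50622) (PT.nd (nat_lit 156) (PT.nd (nat_lit 78) (PT.lf (nat_lit 30248) (nat_lit 6) (nat_lit 398) (nat_lit 0) (nat_lit 185) (nat_lit 170) (nat_lit 155)) (PT.lf (nat_lit 29032) (nat_lit 6) (nat_lit 382) (nat_lit 0) (nat_lit 186) (nat_lit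 170) (nat_lit 154))) (PT.nd (nat_lit 50388) (PT.lf (nat_lit 27740) (nat_lit 6) (nat_lit 365) (nat_lit 0) (nat_lit 187) (nat_lit 170) (nat_lit 153)) (PT.lf (nat_lit 26904) (nat_lit 6) (nat_lit 354) (nat_lit 5) (nat_lit 152) (nat_lit 171) (nat_lit 187)))) (PT.nd (nat_lit 156) (PT.nd (nat_lit 78) (PT.lf (nat_lit 27816) (nat_lit 6) (nat_lit 366) (nat_lit 5) (nat_lit 153) (nat_lit 171) (nat_lit 186)) (PT.lf (nat_lit 29108) (nat_lit 6) (nat_lit 383) (nat_lit 5) (nat_lit 154) (nat_lit 171) (nat_lit 185))) (PT.nd (nat_lit 78) (PT.lf (nat_lit 30324) (nat_lit 6) (nat_lit 399) (nat_lit 5) (nat_lit 155) (nat_lit 171) (nat_lit 184)) (PT.nd (nat_lit 78) (PT.lf (nat_lit 31464) (nat_lit 6) (nat_lit 414) (nat_lit 5) (nat_lit 156) (nat_lit 171) (nat_lit 183)) (PT.lf (nat_lit 32528) (nat_lit 6) (nat_lit 428) (nat_lit 5) (nat_lit 157) (nat_lit 171) (nat_lit 182))))))))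
noncomputable def pc26 : PT := (PT.nd (nat_lit 1326) (PT.nd (nat_lit 624) (PT.nd (nat_lit 312) (PT.nd (nat_lit 156) (PT.nd (nat_lit 78) (PT.lf (nat_lit 33516) (nat_lit 6) (nat_lit 441) (nat_lit 5) (nat_lit 158) (nat_lit 171) (nat_lit 181)) (PT.lf (nat_lit 34428) (nat_lit 6) (nat_lit 453) (nat_lit 5) (nat_lit 159) (nat_lit 171) (nat_lit 180))) (PT.nd (nat_lit 78) (PT.lf (nat_lit 35264) (nat_lit 6) (nat_lit 464) (nat_lit 5) (nat_lit 160) (nat_lit 171) (nat_lit 179)) (PT.lf (nat_lit 36024) (nat_lit 6) (nat_lit 474) (nat_lit 5) (nat_lit 161) (nat_lit 171) (nat_lit 178)))) (PT.nd (nat_lit 156) (PT.nd (nat_lit 78) (PT.lf (nat_lit 36708) (nat_lit 6) (nat_lit 483) (nat_lit 5) (nat_lit 162) (nat_lit 171) (nat_lit 177)) (PT.lf (nat_lit 37316) (nat_lit 6) (nat_lit 491) (nat_lit 5) (nat_lit 163) (nat_lit 171) (nat_lit 176))) (PT.nd (nat_lit 78) (PT.lf (nat_lit 37848) (nat_lit 6) (nat_lit 498) (nat_lit 5) (nat_lit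 164) (nat_lit 171) (nat_lit 175)) (PT.lf (nat_lit 38304) (nat_lit 6) (nat_lit 504) (nat_lit 5) (nat_lit 165) (nat_lit 171) (nat_lit 174))))) (PT.nd (nat_lit 312) (PT.nd (nat_lit 156) (PT.nd (nat_lit 78) (PT.lf (nat_lit 38684) (nat_lit 6) (nat_lit 509) (nat_lit 5) (nat_lit 166) (nat_lit 171) (nat_lit 173)) (PT.lf (nat_lit 38988) (nat_lit 6) (nat_lit 513) (nat_lit 5) (nat_lit 167) (nat_lit 171) (nat_lit 172))) (PT.nd (nat_lit 78) (PT.lf (nat_lit 39216) (nat_lit 3) (nat_lit 516) (nat_lit 4) (nat_lit 168) (nat_lit 171) (nat_lit 171)) (PT.lf (nat_lit 39292) (nat_lit 6) (nat_lit 517) (nat_lit 4) (nat_lit 169) (nat_lit 171) (nat_lit 170)))) (PT.nd (nat_lit 156) (PT.nd (nat_lit 78) (PT.lf (nat_lit 39292) (nat_lit 6) (nat_lit 517) (nat_lit 2) (nat_lit 170) (nat_lit 171) (nat_lit 169)) (PT.lf (nat_lit 39216) (nat_lit 3) (nat_lit 516) (nat_lit 0) (nat_lit 171) (nat_lit 171) (nat_lit 168))) (PT.nd (nat_lit 78) (PT.lf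 (nat_lit 38988) (nat_lit 6) (nat_lit 513) (nat_lit 0) (nat_lit 172) (nat_lit 171) (nat_lit 167)) (PT.nd (nat_lit 78) (PT.lf (nat_lit 38684) (nat_lit 6) (nat_lit 509) (nat_lit 0) (nat_lit 173) (nat_lit 171) (nat_lit 166)) (PT.lf (nat_lit 38304) (nat_lit 6) (nat_lit 504) (nat_lit 0) (nat_lit 174) (nat_lit 171) (nat_lit 165))))))) (PT.nd (nat_lit 702) (PT.nd (nat_lit 312) (PT.nd (nat_lit 156) (PT.nd (nat_lit 78) (PT.lf (nat_lit 37848) (nat_lit 6) (nat_lit 498) (nat_lit 0) (nat_lit 175) (nat_lit 171) (nat_lit 164)) (PT.lf (nat_lit 37316) (nat_lit 6) (nat_lit 491) (nat_lit 0) (nat_lit 176) (nat_lit 171) (nat_lit 163))) (PT.nd (nat_lit 78) (PT.lf (nat_lit 36708) (nat_lit 6) (nat_lit 483) (nat_lit 0) (nat_lit 177) (nat_lit 171) (nat_lit 162)) (PT.lf (nat_lit 36024) (nat_lit 6) (nat_lit 474) (nat_lit 0) (nat_lit 178) (nat_lit 171) (nat_lit 161)))) (PT.nd (nat_lit 156) (PT.nd (nat_lit 78) (PT.lf (nat_lit 35264)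 (nat_lit 6) (nat_lit 464) (nat_lit 0) (nat_lit 179) (nat_lit 171) (nat_lit 160)) (PT.lf (nat_lit 34428) (nat_lit 6) (nat_lit 453) (nat_lit 0) (nat_lit 180) (nat_lit 171) (nat_lit 159))) (PT.nd (nat_lit 78) (PT.lf (nat_lit 33516) (nat_lit 6) (nat_lit 441) (nat_lit 0) (nat_lit 181) (nat_lit 171) (nat_lit 158)) (PT.nd (nat_lit 78) (PT.lf (nat_lit 32528) (nat_lit 6) (nat_lit 428) (nat_lit 0) (nat_lit 182) (nat_lit 171) (nat_lit 157)) (PT.lf (nat_lit 31464) (nat_lit 6) (nat_lit 414) (nat_lit 0) (nat_lit 183) (nat_lit 171) (nat_lit 156)))))) (PT.nd (nat_lit 50544) (PT.nd (nat_lit 156) (PT.nd (nat_lit 78) (PT.lf (nat_lit 30324) (nat_lit 6) (nat_lit 399) (nat_lit 0) (nat_lit 184) (nat_lit 171) (nat_lit 155)) (PT.lf (nat_lit 29108) (nat_lit 6) (nat_lit 383) (nat_lit 0) (nat_lit 185) (nat_lit 171) (nat_lit 154))) (PT.nd (nat_lit 78) (PT.lf (nat_lit 27816) (nat_lit 6) (nat_lit 366) (nat_lit 0) (nat_lit 186) (nat_lit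 171) (nat_lit 153)) (PT.lf (nat_lit 26904) (nat_lit 6) (nat_lit 354) (nat_lit 0) (nat_lit 187) (nat_lit 171) (nat_lit 152)))) (PT.nd (nat_lit 156) (PT.nd (nat_lit 78) (PT.lf (nat_lit 26296) (nat_lit 6) (nat_lit 346) (nat_lit 5) (nat_lit 151) (nat_lit 172) (nat_lit 187)) (PT.lf (nat_lit 26980) (nat_lit 6) (nat_lit 355) (nat_lit 5) (nat_lit 152) (nat_lit 172) (nat_lit 186))) (PT.nd (nat_lit 78) (PT.lf (nat_lit 27892) (nat_lit 6) (nat_lit 367) (nat_lit 5) (nat_lit 153) (nat_lit 172) (nat_lit 185)) (PT.nd (nat_lit 78) (PT.lf (nat_lit 29184) (nat_lit 6) (nat_lit 384) (nat_lit 5) (nat_lit 154) (nat_lit 172) (nat_lit 184)) (PT.lf (nat_lit 30400) (nat_lit 6) (nat_lit 400) (nat_lit 5) (nat_lit 155) (nat_lit 172) (nat_lit 183))))))))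
noncomputable def pc27 : PT := (PT.nd (nat_lit 1404) (PT.nd (nat_lit 702) (PT.nd (nat_lit 312) (PT.nd (nat_lit 156) (PT.nd (nat_lit 78) (PT.lf (nat_lit 31540) (nat_lit 6) (nat_lit 415) (nat_lit 5) (nat_lit 156) (nat_lit 172) (nat_lit 182)) (PT.lf (nat_lit 32604) (nat_lit 6) (nat_lit 429) (nat_lit 5) (nat_lit 157) (nat_lit 172) (nat_lit 181))) (PT.nd (nat_lit 78) (PT.lf (nat_lit 33592) (nat_lit 6) (nat_lit 442) (nat_lit 5) (nat_lit 158) (nat_lit 172) (nat_lit 180)) (PT.lf (nat_lit 34504) (nat_lit 6) (nat_lit 454) (nat_lit 5) (nat_lit 159) (nat_lit 172) (nat_lit 179)))) (PT.nd (nat_lit 156) (PT.nd (nat_lit 78) (PT.lf (nat_lit 35340) (nat_lit 6) (nat_lit 465) (nat_lit 5) (nat_lit 160) (nat_lit 172) (nat_lit 178)) (PT.lf (nat_lit 36100) (nat_lit 6) (nat_lit 475) (nat_lit 5) (nat_lit 161) (nat_lit 172) (nat_lit 177))) (PT.nd (nat_lit 78) (PT.lf (nat_lit 36784) (nat_lit 6) (nat_lit 484) (nat_lit 5) (nat_lit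 162) (nat_lit 172) (nat_lit 176)) (PT.nd (nat_lit 78) (PT.lf (nat_lit 37392) (nat_lit 6) (nat_lit 492) (nat_lit 5) (nat_lit 163) (nat_lit 172) (nat_lit 175)) (PT.lf (nat_lit 37924) (nat_lit 6) (nat_lit 499) (nat_lit 5) (nat_lit 164) (nat_lit 172) (nat_lit 174)))))) (PT.nd (nat_lit 312) (PT.nd (nat_lit 156) (PT.nd (nat_lit 78) (PT.lf (nat_lit 38380) (nat_lit 6) (nat_lit 505) (nat_lit 5) (nat_lit 165) (nat_lit 172) (nat_lit 173)) (PT.lf (nat_lit 38760) (nat_lit 3) (nat_lit 510) (nat_lit 4) (nat_lit 166) (nat_lit 172) (nat_lit 172))) (PT.nd (nat_lit 78) (PT.lf (nat_lit 38988) (nat_lit 6) (nat_lit 513) (nat_lit 4) (nat_lit 167) (nat_lit 172) (nat_lit 171)) (PT.lf (nat_lit 39140) (nat_lit 6) (nat_lit 515) (nat_lit 4) (nat_lit 168) (nat_lit 172) (nat_lit 170)))) (PT.nd (nat_lit 156) (PT.nd (nat_lit 78) (PT.lf (nat_lit 39064) (nat_lit 3) (nat_lit 514) (nat_lit 2) (nat_lit 169) (nat_lit 172) (nat_lit 169)) (PT.lf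 (nat_lit 39140) (nat_lit 6) (nat_lit 515) (nat_lit 2) (nat_lit 170) (nat_lit 172) (nat_lit 168))) (PT.nd (nat_lit 78) (PT.lf (nat_lit 38988) (nat_lit 6) (nat_lit 513) (nat_lit 2) (nat_lit 171) (nat_lit 172) (nat_lit 167)) (PT.nd (nat_lit 78) (PT.lf (nat_lit 38760) (nat_lit 3) (nat_lit 510) (nat_lit 0) (nat_lit 172) (nat_lit 172) (nat_lit 166)) (PT.lf (nat_lit 38380) (nat_lit 6) (nat_lit 505) (nat_lit 0) (nat_lit 173) (nat_lit 172) (nat_lit 165))))))) (PT.nd (nat_lit 702) (PT.nd (nat_lit 312) (PT.nd (nat_lit 156) (PT.nd (nat_lit 78) (PT.lf (nat_lit 37924) (nat_lit 6) (nat_lit 499) (nat_lit 0) (nat_lit 174) (nat_lit 172) (nat_lit 164)) (PT.lf (nat_lit 37392) (nat_lit 6) (nat_lit 492) (nat_lit 0) (nat_lit 175) (nat_lit 172) (nat_lit 163))) (PT.nd (nat_lit 78) (PT.lf (nat_lit 36784) (nat_lit 6) (nat_lit 484) (nat_lit 0) (nat_lit 176) (nat_lit 172) (nat_lit 162)) (PT.lf (nat_lit 36100) (nat_lit 6) (nat_lit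 475) (nat_lit 0) (nat_lit 177) (nat_lit 172) (nat_lit 161)))) (PT.nd (nat_lit 156) (PT.nd (nat_lit 78) (PT.lf (nat_lit 35340) (nat_lit 6) (nat_lit 465) (nat_lit 0) (nat_lit 178) (nat_lit 172) (nat_lit 160)) (PT.lf (nat_lit 34504) (nat_lit 6) (nat_lit 454) (nat_lit 0) (nat_lit 179) (nat_lit 172) (nat_lit 159))) (PT.nd (nat_lit 78) (PT.lf (nat_lit 33592) (nat_lit 6) (nat_lit 442) (nat_lit 0) (nat_lit 180) (nat_lit 172) (nat_lit 158)) (PT.nd (nat_lit 78) (PT.lf (nat_lit 32604) (nat_lit 6) (nat_lit 429) (nat_lit 0) (nat_lit 181) (nat_lit 172) (nat_lit 157)) (PT.lf (nat_lit 31540) (nat_lit 6) (nat_lit 415) (nat_lit 0) (nat_lit 182) (nat_lit 172) (nat_lit 156)))))) (PT.nd (nat_lit 312) (PT.nd (nat_lit 156) (PT.nd (nat_lit 78) (PT.lf (nat_lit 30400) (nat_lit 6) (nat_lit 400) (nat_lit 0) (nat_lit 183) (nat_lit 172) (nat_lit 155)) (PT.lf (nat_lit 29184) (nat_lit 6) (nat_lit 384) (nat_lit 0) (nat_lit 184) (nat_lit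 172) (nat_lit 154))) (PT.nd (nat_lit 78) (PT.lf (nat_lit 27892) (nat_lit 6) (nat_lit 367) (nat_lit 0) (nat_lit 185) (nat_lit 172) (nat_lit 153)) (PT.lf (nat_lit 26980) (nat_lit 6) (nat_lit 355) (nat_lit 0) (nat_lit 186) (nat_lit 172) (nat_lit 152)))) (PT.nd (nat_lit 50232) (PT.nd (nat_lit 50154) (PT.lf (nat_lit 26296) (nat_lit 6) (nat_lit 346) (nat_lit 0) (nat_lit 187) (nat_lit 172) (nat_lit 151)) (PT.lf (nat_lit 25080) (nat_lit 6) (nat_lit 330) (nat_lit 5) (nat_lit 149) (nat_lit 173) (nat_lit 188))) (PT.nd (nat_lit 78) (PT.lf (nat_lit 25688) (nat_lit 6) (nat_lit 338) (nat_lit 5) (nat_lit 150) (nat_lit 173) (nat_lit 187)) (PT.nd (nat_lit 78) (PT.lf (nat_lit 26372) (nat_lit 6) (nat_lit 347) (nat_lit 5) (nat_lit 151) (nat_lit 173) (nat_lit 186)) (PT.lf (nat_lit 27056) (nat_lit 6) (nat_lit 356) (nat_lit 5) (nat_lit 152) (nat_lit 173) (nat_lit 185))))))))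
noncomputable def pc28 : PT := (PT.nd (nat_lit 1326) (PT.nd (nat_lit 624) (PT.nd (nat_lit 312) (PT.nd (nat_lit 156) (PT.nd (nat_lit 78) (PT.lf (nat_lit 27968) (nat_lit 6) (nat_lit 368) (nat_lit 5) (nat_lit 153) (nat_lit 173) (nat_lit 184)) (PT.lf (nat_lit 29260) (nat_lit 6) (nat_lit 385) (nat_lit 5) (nat_lit 154) (nat_lit 173) (nat_lit 183))) (PT.nd (nat_lit 78) (PT.lf (nat_lit 30476) (nat_lit 6) (nat_lit 401) (nat_lit 5) (nat_lit 155) (nat_lit 173) (nat_lit 182)) (PT.lf (nat_lit 31616) (nat_lit 6) (nat_lit 416) (nat_lit 5) (nat_lit 156) (nat_lit 173) (nat_lit 181)))) (PT.nd (nat_lit 156) (PT.nd (nat_lit 78) (PT.lf (nat_lit 32680) (nat_lit 6) (nat_lit 430) (nat_lit 5) (nat_lit 157) (nat_lit 173) (nat_lit 180)) (PT.lf (nat_lit 33668) (nat_lit 6) (nat_lit 443) (nat_lit 5) (nat_lit 158) (nat_lit 173) (nat_lit 179))) (PT.nd (nat_lit 78) (PT.lf (nat_lit 34580) (nat_lit 6) (nat_lit 455) (nat_lit 5) (nat_lit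 159) (nat_lit 173) (nat_lit 178)) (PT.lf (nat_lit 35416) (nat_lit 6) (nat_lit 466) (nat_lit 5) (nat_lit 160) (nat_lit 173) (nat_lit 177))))) (PT.nd (nat_lit 312) (PT.nd (nat_lit 156) (PT.nd (nat_lit 78) (PT.lf (nat_lit 36176) (nat_lit 6) (nat_lit 476) (nat_lit 5) (nat_lit 161) (nat_lit 173) (nat_lit 176)) (PT.lf (nat_lit 36860) (nat_lit 6) (nat_lit 485) (nat_lit 5) (nat_lit 162) (nat_lit 173) (nat_lit 175))) (PT.nd (nat_lit 78) (PT.lf (nat_lit 37468) (nat_lit 6) (nat_lit 493) (nat_lit 5) (nat_lit 163) (nat_lit 173) (nat_lit 174)) (PT.lf (nat_lit 38000) (nat_lit 3) (nat_lit 500) (nat_lit 4) (nat_lit 164) (nat_lit 173) (nat_lit 173)))) (PT.nd (nat_lit 156) (PT.nd (nat_lit 78) (PT.lf (nat_lit 38380) (nat_lit 6) (nat_lit 505) (nat_lit 4) (nat_lit 165) (nat_lit 173) (nat_lit 172)) (PT.lf (nat_lit 38684) (nat_lit 6) (nat_lit 509) (nat_lit 4) (nat_lit 166) (nat_lit 173) (nat_lit 171))) (PT.nd (nat_lit 78) (PT.lf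 (nat_lit 38912) (nat_lit 6) (nat_lit 512) (nat_lit 4) (nat_lit 167) (nat_lit 173) (nat_lit 170)) (PT.nd (nat_lit 78) (PT.lf (nat_lit 38836) (nat_lit 6) (nat_lit 511) (nat_lit 4) (nat_lit 168) (nat_lit 173) (nat_lit 169)) (PT.lf (nat_lit 38836) (nat_lit 6) (nat_lit 511) (nat_lit 2) (nat_lit 169) (nat_lit 173) (nat_lit 168))))))) (PT.nd (nat_lit 702) (PT.nd (nat_lit 312) (PT.nd (nat_lit 156) (PT.nd (nat_lit 78) (PT.lf (nat_lit 38912) (nat_lit 6) (nat_lit 512) (nat_lit 2) (nat_lit 170) (nat_lit 173) (nat_lit 167)) (PT.lf (nat_lit 38684) (nat_lit 6) (nat_lit 509) (nat_lit 2) (nat_lit 171) (nat_lit 173) (nat_lit 166))) (PT.nd (nat_lit 78) (PT.lf (nat_lit 38380) (nat_lit 6) (nat_lit 505) (nat_lit 2) (nat_lit 172) (nat_lit 173) (nat_lit 165)) (PT.lf (nat_lit 38000) (nat_lit 3) (nat_lit 500) (nat_lit 0) (nat_lit 173) (nat_lit 173) (nat_lit 164)))) (PT.nd (nat_lit 156) (PT.nd (nat_lit 78) (PT.lf (nat_lit 37468)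 (nat_lit 6) (nat_lit 493) (nat_lit 0) (nat_lit 174) (nat_lit 173) (nat_lit 163)) (PT.lf (nat_lit 36860) (nat_lit 6) (nat_lit 485) (nat_lit 0) (nat_lit 175) (nat_lit 173) (nat_lit 162))) (PT.nd (nat_lit 78) (PT.lf (nat_lit 36176) (nat_lit 6) (nat_lit 476) (nat_lit 0) (nat_lit 176) (nat_lit 173) (nat_lit 161)) (PT.nd (nat_lit 78) (PT.lf (nat_lit 35416) (nat_lit 6) (nat_lit 466) (nat_lit 0) (nat_lit 177) (nat_lit 173) (nat_lit 160)) (PT.lf (nat_lit 34580) (nat_lit 6) (nat_lit 455) (nat_lit 0) (nat_lit 178) (nat_lit 173) (nat_lit 159)))))) (PT.nd (nat_lit 312) (PT.nd (nat_lit 156) (PT.nd (nat_lit 78) (PT.lf (nat_lit 33668) (nat_lit 6) (nat_lit 443) (nat_lit 0) (nat_lit 179) (nat_lit 173) (nat_lit 158)) (PT.lf (nat_lit 32680) (nat_lit 6) (nat_lit 430) (nat_lit 0) (nat_lit 180) (nat_lit 173) (nat_lit 157))) (PT.nd (nat_lit 78) (PT.lf (nat_lit 31616) (nat_lit 6) (nat_lit 416) (nat_lit 0) (nat_lit 181) (nat_lit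 173) (nat_lit 156)) (PT.lf (nat_lit 30476) (nat_lit 6) (nat_lit 401) (nat_lit 0) (nat_lit 182) (nat_lit 173) (nat_lit 155)))) (PT.nd (nat_lit 156) (PT.nd (nat_lit 78) (PT.lf (nat_lit 29260) (nat_lit 6) (nat_lit 385) (nat_lit 0) (nat_lit 183) (nat_lit 173) (nat_lit 154)) (PT.lf (nat_lit 27968) (nat_lit 6) (nat_lit 368) (nat_lit 0) (nat_lit 184) (nat_lit 173) (nat_lit 153))) (PT.nd (nat_lit 78) (PT.lf (nat_lit 27056) (nat_lit 6) (nat_lit 356) (nat_lit 0) (nat_lit 185) (nat_lit 173) (nat_lit 152)) (PT.nd (nat_lit 78) (PT.lf (nat_lit 26372) (nat_lit 6) (nat_lit 347) (nat_lit 0) (nat_lit 186) (nat_lit 173) (nat_lit 151)) (PT.lf (nat_lit 25688) (nat_lit 6) (nat_lit 338) (nat_lit 0) (nat_lit 187) (nat_lit 173) (nat_lit 150))))))))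
noncomputable def pc29 : PT := (PT.nd (nat_lit 51324) (PT.nd (nat_lit 50622) (PT.nd (nat_lit 50232) (PT.nd (nat_lit 50076) (PT.nd (nat_lit 49998) (PT.lf (nat_lit 25080) (nat_lit 6) (nat_lit 330) (nat_lit 0) (nat_lit 188) (nat_lit 173) (nat_lit 149)) (PT.lf (nat_lit 24472) (nat_lit 6) (nat_lit 322) (nat_lit 5) (nat_lit 148) (nat_lit 174) (nat_lit 188))) (PT.nd (nat_lit 78) (PT.lf (nat_lit 25156) (nat_lit 6) (nat_lit 331) (nat_lit 5) (nat_lit 149) (nat_lit 174) (nat_lit 187)) (PT.lf (nat_lit 25764) (nat_lit 6) (nat_lit 339) (nat_lit 5) (nat_lit 150) (nat_lit 174) (nat_lit 186)))) (PT.nd (nat_lit 156) (PT.nd (nat_lit 78) (PT.lf (nat_lit 26448) (nat_lit 6) (nat_lit 348) (nat_lit 5) (nat_lit 151) (nat_lit 174) (nat_lit 185)) (PT.lf (nat_lit 27132) (nat_lit 6) (nat_lit 357) (nat_lit 5) (nat_lit 152) (nat_lit 174) (nat_lit 184))) (PT.nd (nat_lit 78) (PT.lf (nat_lit 28044) (nat_lit 6) (nat_lit 369) (nat_lit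 5) (nat_lit 153) (nat_lit 174) (nat_lit 183)) (PT.nd (nat_lit 78) (PT.lf (nat_lit 29336) (nat_lit 6) (nat_lit 386) (nat_lit 5) (nat_lit 154) (nat_lit 174) (nat_lit 182)) (PT.lf (nat_lit 30552) (nat_lit 6) (nat_lit 402) (nat_lit 5) (nat_lit 155) (nat_lit 174) (nat_lit 181)))))) (PT.nd (nat_lit 312) (PT.nd (nat_lit 156) (PT.nd (nat_lit 78) (PT.lf (nat_lit 31692) (nat_lit 6) (nat_lit 417) (nat_lit 5) (nat_lit 156) (nat_lit 174) (nat_lit 180)) (PT.lf (nat_lit 32756) (nat_lit 6) (nat_lit 431) (nat_lit 5) (nat_lit 157) (nat_lit 174) (nat_lit 179))) (PT.nd (nat_lit 78) (PT.lf (nat_lit 33744) (nat_lit 6) (nat_lit 444) (nat_lit 5) (nat_lit 158) (nat_lit 174) (nat_lit 178)) (PT.lf (nat_lit 34656) (nat_lit 6) (nat_lit 456) (nat_lit 5) (nat_lit 159) (nat_lit 174) (nat_lit 177)))) (PT.nd (nat_lit 156) (PT.nd (nat_lit 78) (PT.lf (nat_lit 35492) (nat_lit 6) (nat_lit 467) (nat_lit 5) (nat_lit 160) (nat_lit 174) (nat_lit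 176)) (PT.lf (nat_lit 36252) (nat_lit 6) (nat_lit 477) (nat_lit 5) (nat_lit 161) (nat_lit 174) (nat_lit 175))) (PT.nd (nat_lit 78) (PT.lf (nat_lit 36936) (nat_lit 3) (nat_lit 486) (nat_lit 4) (nat_lit 162) (nat_lit 174) (nat_lit 174)) (PT.nd (nat_lit 78) (PT.lf (nat_lit 37468) (nat_lit 6) (nat_lit 493) (nat_lit 4) (nat_lit 163) (nat_lit 174) (nat_lit 173)) (PT.lf (nat_lit 37924) (nat_lit 6) (nat_lit 499) (nat_lit 4) (nat_lit 164) (nat_lit 174) (nat_lit 172))))))) (PT.nd (nat_lit 702) (PT.nd (nat_lit 312) (PT.nd (nat_lit 156) (PT.nd (nat_lit 78) (PT.lf (nat_lit 38304) (nat_lit 6) (nat_lit 504) (nat_lit 4) (nat_lit 165) (nat_lit 174) (nat_lit 171)) (PT.lf (nat_lit 38608) (nat_lit 6) (nat_lit 508) (nat_lit 4) (nat_lit 166) (nat_lit 174) (nat_lit 170))) (PT.nd (nat_lit 78) (PT.lf (nat_lit 38532) (nat_lit 6) (nat_lit 507) (nat_lit 4) (nat_lit 167) (nat_lit 174) (nat_lit 169)) (PT.lf (nat_lit 38456) (nat_lit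 3) (nat_lit 506) (nat_lit 2) (nat_lit 168) (nat_lit 174) (nat_lit 168)))) (PT.nd (nat_lit 156) (PT.nd (nat_lit 78) (PT.lf (nat_lit 38532) (nat_lit 6) (nat_lit 507) (nat_lit 2) (nat_lit 169) (nat_lit 174) (nat_lit 167)) (PT.lf (nat_lit 38608) (nat_lit 6) (nat_lit 508) (nat_lit 2) (nat_lit 170) (nat_lit 174) (nat_lit 166))) (PT.nd (nat_lit 78) (PT.lf (nat_lit 38304) (nat_lit 6) (nat_lit 504) (nat_lit 2) (nat_lit 171) (nat_lit 174) (nat_lit 165)) (PT.nd (nat_lit 78) (PT.lf (nat_lit 37924) (nat_lit 6) (nat_lit 499) (nat_lit 2) (nat_lit 172) (nat_lit 174) (nat_lit 164)) (PT.lf (nat_lit 37468) (nat_lit 6) (nat_lit 493) (nat_lit 2) (nat_lit 173) (nat_lit 174) (nat_lit 163)))))) (PT.nd (nat_lit 312) (PT.nd (nat_lit 156) (PT.nd (nat_lit 78) (PT.lf (nat_lit 36936) (nat_lit 3) (nat_lit 486) (nat_lit 0) (nat_lit 174) (nat_lit 174) (nat_lit 162)) (PT.lf (nat_lit 36252) (nat_lit 6) (nat_lit 477) (nat_lit 0) (nat_lit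 175) (nat_lit 174) (nat_lit 161))) (PT.nd (nat_lit 78) (PT.lf (nat_lit 35492) (nat_lit 6) (nat_lit 467) (nat_lit 0) (nat_lit 176) (nat_lit 174) (nat_lit 160)) (PT.lf (nat_lit 34656) (nat_lit 6) (nat_lit 456) (nat_lit 0) (nat_lit 177) (nat_lit 174) (nat_lit 159)))) (PT.nd (nat_lit 156) (PT.nd (nat_lit 78) (PT.lf (nat_lit 33744) (nat_lit 6) (nat_lit 444) (nat_lit 0) (nat_lit 178) (nat_lit 174) (nat_lit 158)) (PT.lf (nat_lit 32756) (nat_lit 6) (nat_lit 431) (nat_lit 0) (nat_lit 179) (nat_lit 174) (nat_lit 157))) (PT.nd (nat_lit 78) (PT.lf (nat_lit 31692) (nat_lit 6) (nat_lit 417) (nat_lit 0) (nat_lit 180) (nat_lit 174) (nat_lit 156)) (PT.nd (nat_lit 78) (PT.lf (nat_lit 30552) (nat_lit 6) (nat_lit 402) (nat_lit 0) (nat_lit 181) (nat_lit 174) (nat_lit 155)) (PT.lf (nat_lit 29336) (nat_lit 6) (nat_lit 386) (nat_lit 0) (nat_lit 182) (nat_lit 174) (nat_lit 154))))))))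
noncomputable def pc30 : PT := (PT.nd (nat_lit 51168) (PT.nd (nat_lit 50466) (PT.nd (nat_lit 312) (PT.nd (nat_lit 156) (PT.nd (nat_lit 78) (PT.lf (nat_lit 28044) (nat_lit 6) (nat_lit 369) (nat_lit 0) (nat_lit 183) (nat_lit 174) (nat_lit 153)) (PT.lf (nat_lit 27132) (nat_lit 6) (nat_lit 357) (nat_lit 0) (nat_lit 184) (nat_lit 174) (nat_lit 152))) (PT.nd (nat_lit 78) (PT.lf (nat_lit 26448) (nat_lit 6) (nat_lit 348) (nat_lit 0) (nat_lit 185) (nat_lit 174) (nat_lit 151)) (PT.lf (nat_lit 25764) (nat_lit 6) (nat_lit 339) (nat_lit 0) (nat_lit 186) (nat_lit 174) (nat_lit 150)))) (PT.nd (nat_lit 49998) (PT.nd (nat_lit 78) (PT.lf (nat_lit 25156) (nat_lit 6) (nat_lit 331) (nat_lit 0) (nat_lit 187) (nat_lit 174) (nat_lit 149)) (PT.lf (nat_lit 24472) (nat_lit 6) (nat_lit 322) (nat_lit 0) (nat_lit 188) (nat_lit 174) (nat_lit 148))) (PT.nd (nat_lit 78) (PT.lf (nat_lit 23940) (nat_lit 6) (nat_lit 315) (nat_lit 5) (nat_lit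 147) (nat_lit 175) (nat_lit 188)) (PT.lf (nat_lit 24548) (nat_lit 6) (nat_lit 323) (nat_lit 5) (nat_lit 148) (nat_lit 175) (nat_lit 187))))) (PT.nd (nat_lit 312) (PT.nd (nat_lit 156) (PT.nd (nat_lit 78) (PT.lf (nat_lit 25232) (nat_lit 6) (nat_lit 332) (nat_lit 5) (nat_lit 149) (nat_lit 175) (nat_lit 186)) (PT.lf (nat_lit 25840) (nat_lit 6) (nat_lit 340) (nat_lit 5) (nat_lit 150) (nat_lit 175) (nat_lit 185))) (PT.nd (nat_lit 78) (PT.lf (nat_lit 26524) (nat_lit 6) (nat_lit 349) (nat_lit 5) (nat_lit 151) (nat_lit 175) (nat_lit 184)) (PT.lf (nat_lit 27208) (nat_lit 6) (nat_lit 358) (nat_lit 5) (nat_lit 152) (nat_lit 175) (nat_lit 183)))) (PT.nd (nat_lit 156) (PT.nd (nat_lit 78) (PT.lf (nat_lit 28120) (nat_lit 6) (nat_lit 370) (nat_lit 5) (nat_lit 153) (nat_lit 175) (nat_lit 182)) (PT.lf (nat_lit 29412) (nat_lit 6) (nat_lit 387) (nat_lit 5) (nat_lit 154) (nat_lit 175) (nat_lit 181))) (PT.nd (nat_lit 78) (PT.lf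 (nat_lit 30628) (nat_lit 6) (nat_lit 403) (nat_lit 5) (nat_lit 155) (nat_lit 175) (nat_lit 180)) (PT.nd (nat_lit 78) (PT.lf (nat_lit 31768) (nat_lit 6) (nat_lit 418) (nat_lit 5) (nat_lit 156) (nat_lit 175) (nat_lit 179)) (PT.lf (nat_lit 32832) (nat_lit 6) (nat_lit 432) (nat_lit 5) (nat_lit 157) (nat_lit 175) (nat_lit 178))))))) (PT.nd (nat_lit 702) (PT.nd (nat_lit 312) (PT.nd (nat_lit 156) (PT.nd (nat_lit 78) (PT.lf (nat_lit 33820) (nat_lit 6) (nat_lit 445) (nat_lit 5) (nat_lit 158) (nat_lit 175) (nat_lit 177)) (PT.lf (nat_lit 34732) (nat_lit 6) (nat_lit 457) (nat_lit 5) (nat_lit 159) (nat_lit 175) (nat_lit 176))) (PT.nd (nat_lit 78) (PT.lf (nat_lit 35568) (nat_lit 3) (nat_lit 468) (nat_lit 4) (nat_lit 160) (nat_lit 175) (nat_lit 175)) (PT.lf (nat_lit 36252) (nat_lit 6) (nat_lit 477) (nat_lit 4) (nat_lit 161) (nat_lit 175) (nat_lit 174)))) (PT.nd (nat_lit 156) (PT.nd (nat_lit 78) (PT.lf (nat_lit 36860)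 (nat_lit 6) (nat_lit 485) (nat_lit 4) (nat_lit 162) (nat_lit 175) (nat_lit 173)) (PT.lf (nat_lit 37392) (nat_lit 6) (nat_lit 492) (nat_lit 4) (nat_lit 163) (nat_lit 175) (nat_lit 172))) (PT.nd (nat_lit 78) (PT.lf (nat_lit 37848) (nat_lit 6) (nat_lit 498) (nat_lit 4) (nat_lit 164) (nat_lit 175) (nat_lit 171)) (PT.nd (nat_lit 78) (PT.lf (nat_lit 38228) (nat_lit 6) (nat_lit 503) (nat_lit 4) (nat_lit 165) (nat_lit 175) (nat_lit 170)) (PT.lf (nat_lit 38152) (nat_lit 6) (nat_lit 502) (nat_lit 4) (nat_lit 166) (nat_lit 175) (nat_lit 169)))))) (PT.nd (nat_lit 312) (PT.nd (nat_lit 156) (PT.nd (nat_lit 78) (PT.lf (nat_lit 38076) (nat_lit 6) (nat_lit 501) (nat_lit 4) (nat_lit 167) (nat_lit 175) (nat_lit 168)) (PT.lf (nat_lit 38076) (nat_lit 6) (nat_lit 501) (nat_lit 2) (nat_lit 168) (nat_lit 175) (nat_lit 167))) (PT.nd (nat_lit 78) (PT.lf (nat_lit 38152) (nat_lit 6) (nat_lit 502) (nat_lit 2) (nat_lit 169) (nat_lit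 175) (nat_lit 166)) (PT.lf (nat_lit 38228) (nat_lit 6) (nat_lit 503) (nat_lit 2) (nat_lit 170) (nat_lit 175) (nat_lit 165)))) (PT.nd (nat_lit 156) (PT.nd (nat_lit 78) (PT.lf (nat_lit 37848) (nat_lit 6) (nat_lit 498) (nat_lit 2) (nat_lit 171) (nat_lit 175) (nat_lit 164)) (PT.lf (nat_lit 37392) (nat_lit 6) (nat_lit 492) (nat_lit 2) (nat_lit 172) (nat_lit 175) (nat_lit 163))) (PT.nd (nat_lit 78) (PT.lf (nat_lit 36860) (nat_lit 6) (nat_lit 485) (nat_lit 2) (nat_lit 173) (nat_lit 175) (nat_lit 162)) (PT.nd (nat_lit 78) (PT.lf (nat_lit 36252) (nat_lit 6) (nat_lit 477) (nat_lit 2) (nat_lit 174) (nat_lit 175) (nat_lit 161)) (PT.lf (nat_lit 35568) (nat_lit 3) (nat_lit 468) (nat_lit 0) (nat_lit 175) (nat_lit 175) (nat_lit 160))))))))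
noncomputable def pc31 : PT := (PT.nd (nat_lit 51090) (PT.nd (nat_lit 702) (PT.nd (nat_lit 312) (PT.nd (nat_lit 156) (PT.nd (nat_lit 78) (PT.lf (nat_lit 34732) (nat_lit 6) (nat_lit 457) (nat_lit 0) (nat_lit 176) (nat_lit 175) (nat_lit 159)) (PT.lf (nat_lit 33820) (nat_lit 6) (nat_lit 445) (nat_lit 0) (nat_lit 177) (nat_lit 175) (nat_lit 158))) (PT.nd (nat_lit 78) (PT.lf (nat_lit 32832) (nat_lit 6) (nat_lit 432) (nat_lit 0) (nat_lit 178) (nat_lit 175) (nat_lit 157)) (PT.lf (nat_lit 31768) (nat_lit 6) (nat_lit 418) (nat_lit 0) (nat_lit 179) (nat_lit 175) (nat_lit 156)))) (PT.nd (nat_lit 156) (PT.nd (nat_lit 78) (PT.lf (nat_lit 30628) (nat_lit 6) (nat_lit 403) (nat_lit 0) (nat_lit 180) (nat_lit 175) (nat_lit 155)) (PT.lf (nat_lit 29412) (nat_lit 6) (nat_lit 387) (nat_lit 0) (nat_lit 181) (nat_lit 175) (nat_lit 154))) (PT.nd (nat_lit 78) (PT.lf (nat_lit 28120) (nat_lit 6) (nat_lit 370) (nat_lit 0) (nat_lit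 182) (nat_lit 175) (nat_lit 153)) (PT.nd (nat_lit 78) (PT.lf (nat_lit 27208) (nat_lit 6) (nat_lit 358) (nat_lit 0) (nat_lit 183) (nat_lit 175) (nat_lit 152)) (PT.lf (nat_lit 26524) (nat_lit 6) (nat_lit 349) (nat_lit 0) (nat_lit 184) (nat_lit 175) (nat_lit 151)))))) (PT.nd (nat_lit 49998) (PT.nd (nat_lit 156) (PT.nd (nat_lit 78) (PT.lf (nat_lit 25840) (nat_lit 6) (nat_lit 340) (nat_lit 0) (nat_lit 185) (nat_lit 175) (nat_lit 150)) (PT.lf (nat_lit 25232) (nat_lit 6) (nat_lit 332) (nat_lit 0) (nat_lit 186) (nat_lit 175) (nat_lit 149))) (PT.nd (nat_lit 78) (PT.lf (nat_lit 24548) (nat_lit 6) (nat_lit 323) (nat_lit 0) (nat_lit 187) (nat_lit 175) (nat_lit 148)) (PT.lf (nat_lit 23940) (nat_lit 6) (nat_lit 315) (nat_lit 0) (nat_lit 188) (nat_lit 175) (nat_lit 147)))) (PT.nd (nat_lit 156) (PT.nd (nat_lit 78) (PT.lf (nat_lit 22876) (nat_lit 6) (nat_lit 301) (nat_lit 5) (nat_lit 145) (nat_lit 176) (nat_lit 189))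 (PT.lf (nat_lit 23408) (nat_lit 6) (nat_lit 308) (nat_lit 5) (nat_lit 146) (nat_lit 176) (nat_lit 188))) (PT.nd (nat_lit 78) (PT.lf (nat_lit 24016) (nat_lit 6) (nat_lit 316) (nat_lit 5) (nat_lit 147) (nat_lit 176) (nat_lit 187)) (PT.nd (nat_lit 78) (PT.lf (nat_lit 24624) (nat_lit 6) (nat_lit 324) (nat_lit 5) (nat_lit 148) (nat_lit 176) (nat_lit 186)) (PT.lf (nat_lit 25308) (nat_lit 6) (nat_lit 333) (nat_lit 5) (nat_lit 149) (nat_lit 176) (nat_lit 185))))))) (PT.nd (nat_lit 702) (PT.nd (nat_lit 312) (PT.nd (nat_lit 156) (PT.nd (nat_lit 78) (PT.lf (nat_lit 25916) (nat_lit 6) (nat_lit 341) (nat_lit 5) (nat_lit 150) (nat_lit 176) (nat_lit 184)) (PT.lf (nat_lit 26600) (nat_lit 6) (nat_lit 350) (nat_lit 5) (nat_lit 151) (nat_lit 176) (nat_lit 183))) (PT.nd (nat_lit 78) (PT.lf (nat_lit 27284) (nat_lit 6) (nat_lit 359) (nat_lit 5) (nat_lit 152) (nat_lit 176) (nat_lit 182)) (PT.lf (nat_lit 28196) (nat_lit 6)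 (nat_lit 371) (nat_lit 5) (nat_lit 153) (nat_lit 176) (nat_lit 181)))) (PT.nd (nat_lit 156) (PT.nd (nat_lit 78) (PT.lf (nat_lit 29488) (nat_lit 6) (nat_lit 388) (nat_lit 5) (nat_lit 154) (nat_lit 176) (nat_lit 180)) (PT.lf (nat_lit 30704) (nat_lit 6) (nat_lit 404) (nat_lit 5) (nat_lit 155) (nat_lit 176) (nat_lit 179))) (PT.nd (nat_lit 78) (PT.lf (nat_lit 31844) (nat_lit 6) (nat_lit 419) (nat_lit 5) (nat_lit 156) (nat_lit 176) (nat_lit 178)) (PT.nd (nat_lit 78) (PT.lf (nat_lit 32908) (nat_lit 6) (nat_lit 433) (nat_lit 5) (nat_lit 157) (nat_lit 176) (nat_lit 177)) (PT.lf (nat_lit 33896) (nat_lit 3) (nat_lit 446) (nat_lit 4) (nat_lit 158) (nat_lit 176) (nat_lit 176)))))) (PT.nd (nat_lit 312) (PT.nd (nat_lit 156) (PT.nd (nat_lit 78) (PT.lf (nat_lit 34732) (nat_lit 6) (nat_lit 457) (nat_lit 4) (nat_lit 159) (nat_lit 176) (nat_lit 175)) (PT.lf (nat_lit 35492) (nat_lit 6) (nat_lit 467) (nat_lit 4) (nat_lit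 160) (nat_lit 176) (nat_lit 174))) (PT.nd (nat_lit 78) (PT.lf (nat_lit 36176) (nat_lit 6) (nat_lit 476) (nat_lit 4) (nat_lit 161) (nat_lit 176) (nat_lit 173)) (PT.lf (nat_lit 36784) (nat_lit 6) (nat_lit 484) (nat_lit 4) (nat_lit 162) (nat_lit 176) (nat_lit 172)))) (PT.nd (nat_lit 156) (PT.nd (nat_lit 78) (PT.lf (nat_lit 37316) (nat_lit 6) (nat_lit 491) (nat_lit 4) (nat_lit 163) (nat_lit 176) (nat_lit 171)) (PT.lf (nat_lit 37772) (nat_lit 6) (nat_lit 497) (nat_lit 4) (nat_lit 164) (nat_lit 176) (nat_lit 170))) (PT.nd (nat_lit 78) (PT.lf (nat_lit 37696) (nat_lit 6) (nat_lit 496) (nat_lit 4) (nat_lit 165) (nat_lit 176) (nat_lit 169)) (PT.nd (nat_lit 78) (PT.lf (nat_lit 37620) (nat_lit 6) (nat_lit 495) (nat_lit 4) (nat_lit 166) (nat_lit 176) (nat_lit 168)) (PT.lf (nat_lit 37544) (nat_lit 3) (nat_lit 494) (nat_lit 2) (nat_lit 167) (nat_lit 176) (nat_lit 167))))))))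
noncomputable def pc32 : PT := (PT.nd (nat_lit 1326) (PT.nd (nat_lit 624) (PT.nd (nat_lit 312) (PT.nd (nat_lit 156) (PT.nd (nat_lit 78) (PT.lf (nat_lit 37620) (nat_lit 6) (nat_lit 495) (nat_lit 2) (nat_lit 168) (nat_lit 176) (nat_lit 166)) (PT.lf (nat_lit 37696) (nat_lit 6) (nat_lit 496) (nat_lit 2) (nat_lit 169) (nat_lit 176) (nat_lit 165))) (PT.nd (nat_lit 78) (PT.lf (nat_lit 37772) (nat_lit 6) (nat_lit 497) (nat_lit 2) (nat_lit 170) (nat_lit 176) (nat_lit 164)) (PT.lf (nat_lit 37316) (nat_lit 6) (nat_lit 491) (nat_lit 2) (nat_lit 171) (nat_lit 176) (nat_lit 163)))) (PT.nd (nat_lit 156) (PT.nd (nat_lit 78) (PT.lf (nat_lit 36784) (nat_lit 6) (nat_lit 484) (nat_lit 2) (nat_lit 172) (nat_lit 176) (nat_lit 162)) (PT.lf (nat_lit 36176) (nat_lit 6) (nat_lit 476) (nat_lit 2) (nat_lit 173) (nat_lit 176) (nat_lit 161))) (PT.nd (nat_lit 78) (PT.lf (nat_lit 35492) (nat_lit 6) (nat_lit 467) (nat_lit 2) (nat_lit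 174) (nat_lit 176) (nat_lit 160)) (PT.lf (nat_lit 34732) (nat_lit 6) (nat_lit 457) (nat_lit 2) (nat_lit 175) (nat_lit 176) (nat_lit 159))))) (PT.nd (nat_lit 312) (PT.nd (nat_lit 156) (PT.nd (nat_lit 78) (PT.lf (nat_lit 33896) (nat_lit 3) (nat_lit 446) (nat_lit 0) (nat_lit 176) (nat_lit 176) (nat_lit 158)) (PT.lf (nat_lit 32908) (nat_lit 6) (nat_lit 433) (nat_lit 0) (nat_lit 177) (nat_lit 176) (nat_lit 157))) (PT.nd (nat_lit 78) (PT.lf (nat_lit 31844) (nat_lit 6) (nat_lit 419) (nat_lit 0) (nat_lit 178) (nat_lit 176) (nat_lit 156)) (PT.lf (nat_lit 30704) (nat_lit 6) (nat_lit 404) (nat_lit 0) (nat_lit 179) (nat_lit 176) (nat_lit 155)))) (PT.nd (nat_lit 156) (PT.nd (nat_lit 78) (PT.lf (nat_lit 29488) (nat_lit 6) (nat_lit 388) (nat_lit 0) (nat_lit 180) (nat_lit 176) (nat_lit 154)) (PT.lf (nat_lit 28196) (nat_lit 6) (nat_lit 371) (nat_lit 0) (nat_lit 181) (nat_lit 176) (nat_lit 153))) (PT.nd (nat_lit 78) (PT.lf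 (nat_lit 27284) (nat_lit 6) (nat_lit 359) (nat_lit 0) (nat_lit 182) (nat_lit 176) (nat_lit 152)) (PT.nd (nat_lit 78) (PT.lf (nat_lit 26600) (nat_lit 6) (nat_lit 350) (nat_lit 0) (nat_lit 183) (nat_lit 176) (nat_lit 151)) (PT.lf (nat_lit 25916) (nat_lit 6) (nat_lit 341) (nat_lit 0) (nat_lit 184) (nat_lit 176) (nat_lit 150))))))) (PT.nd (nat_lit 50232) (PT.nd (nat_lit 312) (PT.nd (nat_lit 156) (PT.nd (nat_lit 78) (PT.lf (nat_lit 25308) (nat_lit 6) (nat_lit 333) (nat_lit 0) (nat_lit 185) (nat_lit 176) (nat_lit 149)) (PT.lf (nat_lit 24624) (nat_lit 6) (nat_lit 324) (nat_lit 0) (nat_lit 186) (nat_lit 176) (nat_lit 148))) (PT.nd (nat_lit 78) (PT.lf (nat_lit 24016) (nat_lit 6) (nat_lit 316) (nat_lit 0) (nat_lit 187) (nat_lit 176) (nat_lit 147)) (PT.lf (nat_lit 23408) (nat_lit 6) (nat_lit 308) (nat_lit 0) (nat_lit 188) (nat_lit 176) (nat_lit 146)))) (PT.nd (nat_lit 49686) (PT.nd (nat_lit 49608) (PT.lf (nat_lit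 22876) (nat_lit 6) (nat_lit 301) (nat_lit 0) (nat_lit 189) (nat_lit 176) (nat_lit 145)) (PT.lf (nat_lit 22344) (nat_lit 6) (nat_lit 294) (nat_lit 5) (nat_lit 144) (nat_lit 177) (nat_lit 189))) (PT.nd (nat_lit 78) (PT.lf (nat_lit 22952) (nat_lit 6) (nat_lit 302) (nat_lit 5) (nat_lit 145) (nat_lit 177) (nat_lit 188)) (PT.nd (nat_lit 78) (PT.lf (nat_lit 23484) (nat_lit 6) (nat_lit 309) (nat_lit 5) (nat_lit 146) (nat_lit 177) (nat_lit 187)) (PT.lf (nat_lit 24092) (nat_lit 6) (nat_lit 317) (nat_lit 5) (nat_lit 147) (nat_lit 177) (nat_lit 186)))))) (PT.nd (nat_lit 312) (PT.nd (nat_lit 156) (PT.nd (nat_lit 78) (PT.lf (nat_lit 24700) (nat_lit 6) (nat_lit 325) (nat_lit 5) (nat_lit 148) (nat_lit 177) (nat_lit 185)) (PT.lf (nat_lit 25384) (nat_lit 6) (nat_lit 334) (nat_lit 5) (nat_lit 149) (nat_lit 177) (nat_lit 184))) (PT.nd (nat_lit 78) (PT.lf (nat_lit 25992) (nat_lit 6) (nat_lit 342) (nat_lit 5) (nat_lit 150)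 (nat_lit 177) (nat_lit 183)) (PT.lf (nat_lit 26676) (nat_lit 6) (nat_lit 351) (nat_lit 5) (nat_lit 151) (nat_lit 177) (nat_lit 182)))) (PT.nd (nat_lit 156) (PT.nd (nat_lit 78) (PT.lf (nat_lit 27360) (nat_lit 6) (nat_lit 360) (nat_lit 5) (nat_lit 152) (nat_lit 177) (nat_lit 181)) (PT.lf (nat_lit 28272) (nat_lit 6) (nat_lit 372) (nat_lit 5) (nat_lit 153) (nat_lit 177) (nat_lit 180))) (PT.nd (nat_lit 78) (PT.lf (nat_lit 29564) (nat_lit 6) (nat_lit 389) (nat_lit 5) (nat_lit 154) (nat_lit 177) (nat_lit 179)) (PT.nd (nat_lit 78) (PT.lf (nat_lit 30780) (nat_lit 6) (nat_lit 405) (nat_lit 5) (nat_lit 155) (nat_lit 177) (nat_lit 178)) (PT.lf (nat_lit 31920) (nat_lit 3) (nat_lit 420) (nat_lit 4) (nat_lit 156) (nat_lit 177) (nat_lit 177))))))))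
noncomputable def pc33 : PT := (PT.nd (nat_lit 1326) (PT.nd (nat_lit 624) (PT.nd (nat_lit 312) (PT.nd (nat_lit 156) (PT.nd (nat_lit 78) (PT.lf (nat_lit 32908) (nat_lit 6) (nat_lit 433) (nat_lit 4) (nat_lit 157) (nat_lit 177) (nat_lit 176)) (PT.lf (nat_lit 33820) (nat_lit 6) (nat_lit 445) (nat_lit 4) (nat_lit 158) (nat_lit 177) (nat_lit 175))) (PT.nd (nat_lit 78) (PT.lf (nat_lit 34656) (nat_lit 6) (nat_lit 456) (nat_lit 4) (nat_lit 159) (nat_lit 177) (nat_lit 174)) (PT.lf (nat_lit 35416) (nat_lit 6) (nat_lit 466) (nat_lit 4) (nat_lit 160) (nat_lit 177) (nat_lit 173)))) (PT.nd (nat_lit 156) (PT.nd (nat_lit 78) (PT.lf (nat_lit 36100) (nat_lit 6) (nat_lit 475) (nat_lit 4) (nat_lit 161) (nat_lit 177) (nat_lit 172)) (PT.lf (nat_lit 36708) (nat_lit 6) (nat_lit 483) (nat_lit 4) (nat_lit 162) (nat_lit 177) (nat_lit 171))) (PT.nd (nat_lit 78) (PT.lf (nat_lit 37240) (nat_lit 6) (nat_lit 490) (nat_lit 4) (nat_lit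 163) (nat_lit 177) (nat_lit 170)) (PT.lf (nat_lit 37164) (nat_lit 6) (nat_lit 489) (nat_lit 4) (nat_lit 164) (nat_lit 177) (nat_lit 169))))) (PT.nd (nat_lit 312) (PT.nd (nat_lit 156) (PT.nd (nat_lit 78) (PT.lf (nat_lit 37088) (nat_lit 6) (nat_lit 488) (nat_lit 4) (nat_lit 165) (nat_lit 177) (nat_lit 168)) (PT.lf (nat_lit 37012) (nat_lit 6) (nat_lit 487) (nat_lit 4) (nat_lit 166) (nat_lit 177) (nat_lit 167))) (PT.nd (nat_lit 78) (PT.lf (nat_lit 37012) (nat_lit 6) (nat_lit 487) (nat_lit 2) (nat_lit 167) (nat_lit 177) (nat_lit 166)) (PT.lf (nat_lit 37088) (nat_lit 6) (nat_lit 488) (nat_lit 2) (nat_lit 168) (nat_lit 177) (nat_lit 165)))) (PT.nd (nat_lit 156) (PT.nd (nat_lit 78) (PT.lf (nat_lit 37164) (nat_lit 6) (nat_lit 489) (nat_lit 2) (nat_lit 169) (nat_lit 177) (nat_lit 164)) (PT.lf (nat_lit 37240) (nat_lit 6) (nat_lit 490) (nat_lit 2) (nat_lit 170) (nat_lit 177) (nat_lit 163))) (PT.nd (nat_lit 78) (PT.lf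 (nat_lit 36708) (nat_lit 6) (nat_lit 483) (nat_lit 2) (nat_lit 171) (nat_lit 177) (nat_lit 162)) (PT.nd (nat_lit 78) (PT.lf (nat_lit 36100) (nat_lit 6) (nat_lit 475) (nat_lit 2) (nat_lit 172) (nat_lit 177) (nat_lit 161)) (PT.lf (nat_lit 35416) (nat_lit 6) (nat_lit 466) (nat_lit 2) (nat_lit 173) (nat_lit 177) (nat_lit 160))))))) (PT.nd (nat_lit 702) (PT.nd (nat_lit 312) (PT.nd (nat_lit 156) (PT.nd (nat_lit 78) (PT.lf (nat_lit 34656) (nat_lit 6) (nat_lit 456) (nat_lit 2) (nat_lit 174) (nat_lit 177) (nat_lit 159)) (PT.lf (nat_lit 33820) (nat_lit 6) (nat_lit 445) (nat_lit 2) (nat_lit 175) (nat_lit 177) (nat_lit 158))) (PT.nd (nat_lit 78) (PT.lf (nat_lit 32908) (nat_lit 6) (nat_lit 433) (nat_lit 2) (nat_lit 176) (nat_lit 177) (nat_lit 157)) (PT.lf (nat_lit 31920) (nat_lit 3) (nat_lit 420) (nat_lit 0) (nat_lit 177) (nat_lit 177) (nat_lit 156)))) (PT.nd (nat_lit 156) (PT.nd (nat_lit 78) (PT.lf (nat_lit 30780)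 (nat_lit 6) (nat_lit 405) (nat_lit 0) (nat_lit 178) (nat_lit 177) (nat_lit 155)) (PT.lf (nat_lit 29564) (nat_lit 6) (nat_lit 389) (nat_lit 0) (nat_lit 179) (nat_lit 177) (nat_lit 154))) (PT.nd (nat_lit 78) (PT.lf (nat_lit 28272) (nat_lit 6) (nat_lit 372) (nat_lit 0) (nat_lit 180) (nat_lit 177) (nat_lit 153)) (PT.nd (nat_lit 78) (PT.lf (nat_lit 27360) (nat_lit 6) (nat_lit 360) (nat_lit 0) (nat_lit 181) (nat_lit 177) (nat_lit 152)) (PT.lf (nat_lit 26676) (nat_lit 6) (nat_lit 351) (nat_lit 0) (nat_lit 182) (nat_lit 177) (nat_lit 151)))))) (PT.nd (nat_lit 312) (PT.nd (nat_lit 156) (PT.nd (nat_lit 78) (PT.lf (nat_lit 25992) (nat_lit 6) (nat_lit 342) (nat_lit 0) (nat_lit 183) (nat_lit 177) (nat_lit 150)) (PT.lf (nat_lit 25384) (nat_lit 6) (nat_lit 334) (nat_lit 0) (nat_lit 184) (nat_lit 177) (nat_lit 149))) (PT.nd (nat_lit 78) (PT.lf (nat_lit 24700) (nat_lit 6) (nat_lit 325) (nat_lit 0) (nat_lit 185) (nat_lit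 177) (nat_lit 148)) (PT.lf (nat_lit 24092) (nat_lit 6) (nat_lit 317) (nat_lit 0) (nat_lit 186) (nat_lit 177) (nat_lit 147)))) (PT.nd (nat_lit 156) (PT.nd (nat_lit 78) (PT.lf (nat_lit 23484) (nat_lit 6) (nat_lit 309) (nat_lit 0) (nat_lit 187) (nat_lit 177) (nat_lit 146)) (PT.lf (nat_lit 22952) (nat_lit 6) (nat_lit 302) (nat_lit 0) (nat_lit 188) (nat_lit 177) (nat_lit 145))) (PT.nd (nat_lit 49530) (PT.lf (nat_lit 22344) (nat_lit 6) (nat_lit 294) (nat_lit 0) (nat_lit 189) (nat_lit 177) (nat_lit 144)) (PT.nd (nat_lit 78) (PT.lf (nat_lit 21888) (nat_lit 6) (nat_lit 288) (nat_lit 5) (nat_lit 143) (nat_lit 178) (nat_lit 189)) (PT.lf (nat_lit 22420) (nat_lit 6) (nat_lit 295) (nat_lit 5) (nat_lit 144) (nat_lit 178) (nat_lit 188))))))))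
noncomputable def pc34 : PT := (PT.nd (nat_lit 1326) (PT.nd (nat_lit 624) (PT.nd (nat_lit 312) (PT.nd (nat_lit 156) (PT.nd (nat_lit 78) (PT.lf (nat_lit 23028) (nat_lit 6) (nat_lit 303) (nat_lit 5) (nat_lit 145) (nat_lit 178) (nat_lit 187)) (PT.lf (nat_lit 23560) (nat_lit 6) (nat_lit 310) (nat_lit 5) (nat_lit 146) (nat_lit 178) (nat_lit 186))) (PT.nd (nat_lit 78) (PT.lf (nat_lit 24168) (nat_lit 6) (nat_lit 318) (nat_lit 5) (nat_lit 147) (nat_lit 178) (nat_lit 185)) (PT.lf (nat_lit 24776) (nat_lit 6) (nat_lit 326) (nat_lit 5) (nat_lit 148) (nat_lit 178) (nat_lit 184)))) (PT.nd (nat_lit 156) (PT.nd (nat_lit 78) (PT.lf (nat_lit 25460) (nat_lit 6) (nat_lit 335) (nat_lit 5) (nat_lit 149) (nat_lit 178) (nat_lit 183)) (PT.lf (nat_lit 26068) (nat_lit 6) (nat_lit 343) (nat_lit 5) (nat_lit 150) (nat_lit 178) (nat_lit 182))) (PT.nd (nat_lit 78) (PT.lf (nat_lit 26752) (nat_lit 6) (nat_lit 352) (nat_lit 5) (nat_lit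 151) (nat_lit 178) (nat_lit 181)) (PT.lf (nat_lit 27436) (nat_lit 6) (nat_lit 361) (nat_lit 5) (nat_lit 152) (nat_lit 178) (nat_lit 180))))) (PT.nd (nat_lit 312) (PT.nd (nat_lit 156) (PT.nd (nat_lit 78) (PT.lf (nat_lit 28348) (nat_lit 6) (nat_lit 373) (nat_lit 5) (nat_lit 153) (nat_lit 178) (nat_lit 179)) (PT.lf (nat_lit 29640) (nat_lit 3) (nat_lit 390) (nat_lit 4) (nat_lit 154) (nat_lit 178) (nat_lit 178))) (PT.nd (nat_lit 78) (PT.lf (nat_lit 30780) (nat_lit 6) (nat_lit 405) (nat_lit 4) (nat_lit 155) (nat_lit 178) (nat_lit 177)) (PT.lf (nat_lit 31844) (nat_lit 6) (nat_lit 419) (nat_lit 4) (nat_lit 156) (nat_lit 178) (nat_lit 176)))) (PT.nd (nat_lit 156) (PT.nd (nat_lit 78) (PT.lf (nat_lit 32832) (nat_lit 6) (nat_lit 432) (nat_lit 4) (nat_lit 157) (nat_lit 178) (nat_lit 175)) (PT.lf (nat_lit 33744) (nat_lit 6) (nat_lit 444) (nat_lit 4) (nat_lit 158) (nat_lit 178) (nat_lit 174))) (PT.nd (nat_lit 78) (PT.lf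 (nat_lit 34580) (nat_lit 6) (nat_lit 455) (nat_lit 4) (nat_lit 159) (nat_lit 178) (nat_lit 173)) (PT.nd (nat_lit 78) (PT.lf (nat_lit 35340) (nat_lit 6) (nat_lit 465) (nat_lit 4) (nat_lit 160) (nat_lit 178) (nat_lit 172)) (PT.lf (nat_lit 36024) (nat_lit 6) (nat_lit 474) (nat_lit 4) (nat_lit 161) (nat_lit 178) (nat_lit 171))))))) (PT.nd (nat_lit 702) (PT.nd (nat_lit 312) (PT.nd (nat_lit 156) (PT.nd (nat_lit 78) (PT.lf (nat_lit 36632) (nat_lit 6) (nat_lit 482) (nat_lit 4) (nat_lit 162) (nat_lit 178) (nat_lit 170)) (PT.lf (nat_lit 36556) (nat_lit 6) (nat_lit 481) (nat_lit 4) (nat_lit 163) (nat_lit 178) (nat_lit 169))) (PT.nd (nat_lit 78) (PT.lf (nat_lit 36480) (nat_lit 6) (nat_lit 480) (nat_lit 4) (nat_lit 164) (nat_lit 178) (nat_lit 168)) (PT.lf (nat_lit 36404) (nat_lit 6) (nat_lit 479) (nat_lit 4) (nat_lit 165) (nat_lit 178) (nat_lit 167)))) (PT.nd (nat_lit 156) (PT.nd (nat_lit 78) (PT.lf (nat_lit 36328)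 (nat_lit 3) (nat_lit 478) (nat_lit 2) (nat_lit 166) (nat_lit 178) (nat_lit 166)) (PT.lf (nat_lit 36404) (nat_lit 6) (nat_lit 479) (nat_lit 2) (nat_lit 167) (nat_lit 178) (nat_lit 165))) (PT.nd (nat_lit 78) (PT.lf (nat_lit 36480) (nat_lit 6) (nat_lit 480) (nat_lit 2) (nat_lit 168) (nat_lit 178) (nat_lit 164)) (PT.nd (nat_lit 78) (PT.lf (nat_lit 36556) (nat_lit 6) (nat_lit 481) (nat_lit 2) (nat_lit 169) (nat_lit 178) (nat_lit 163)) (PT.lf (nat_lit 36632) (nat_lit 6) (nat_lit 482) (nat_lit 2) (nat_lit 170) (nat_lit 178) (nat_lit 162)))))) (PT.nd (nat_lit 312) (PT.nd (nat_lit 156) (PT.nd (nat_lit 78) (PT.lf (nat_lit 36024) (nat_lit 6) (nat_lit 474) (nat_lit 2) (nat_lit 171) (nat_lit 178) (nat_lit 161)) (PT.lf (nat_lit 35340) (nat_lit 6) (nat_lit 465) (nat_lit 2) (nat_lit 172) (nat_lit 178) (nat_lit 160))) (PT.nd (nat_lit 78) (PT.lf (nat_lit 34580) (nat_lit 6) (nat_lit 455) (nat_lit 2) (nat_lit 173) (nat_lit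 178) (nat_lit 159)) (PT.lf (nat_lit 33744) (nat_lit 6) (nat_lit 444) (nat_lit 2) (nat_lit 174) (nat_lit 178) (nat_lit 158)))) (PT.nd (nat_lit 156) (PT.nd (nat_lit 78) (PT.lf (nat_lit 32832) (nat_lit 6) (nat_lit 432) (nat_lit 2) (nat_lit 175) (nat_lit 178) (nat_lit 157)) (PT.lf (nat_lit 31844) (nat_lit 6) (nat_lit 419) (nat_lit 2) (nat_lit 176) (nat_lit 178) (nat_lit 156))) (PT.nd (nat_lit 78) (PT.lf (nat_lit 30780) (nat_lit 6) (nat_lit 405) (nat_lit 2) (nat_lit 177) (nat_lit 178) (nat_lit 155)) (PT.nd (nat_lit 78) (PT.lf (nat_lit 29640) (nat_lit 3) (nat_lit 390) (nat_lit 0) (nat_lit 178) (nat_lit 178) (nat_lit 154)) (PT.lf (nat_lit 28348) (nat_lit 6) (nat_lit 373) (nat_lit 0) (nat_lit 179) (nat_lit 178) (nat_lit 153))))))))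
noncomputable def pc35 : PT := (PT.nd (nat_lit 50700) (PT.nd (nat_lit 702) (PT.nd (nat_lit 312) (PT.nd (nat_lit 156) (PT.nd (nat_lit 78) (PT.lf (nat_lit 27436) (nat_lit 6) (nat_lit 361) (nat_lit 0) (nat_lit 180) (nat_lit 178) (nat_lit 152)) (PT.lf (nat_lit 26752) (nat_lit 6) (nat_lit 352) (nat_lit 0) (nat_lit 181) (nat_lit 178) (nat_lit 151))) (PT.nd (nat_lit 78) (PT.lf (nat_lit 26068) (nat_lit 6) (nat_lit 343) (nat_lit 0) (nat_lit 182) (nat_lit 178) (nat_lit 150)) (PT.lf (nat_lit 25460) (nat_lit 6) (nat_lit 335) (nat_lit 0) (nat_lit 183) (nat_lit 178) (nat_lit 149)))) (PT.nd (nat_lit 156) (PT.nd (nat_lit 78) (PT.lf (nat_lit 24776) (nat_lit 6) (nat_lit 326) (nat_lit 0) (nat_lit 184) (nat_lit 178) (nat_lit 148)) (PT.lf (nat_lit 24168) (nat_lit 6) (nat_lit 318) (nat_lit 0) (nat_lit 185) (nat_lit 178) (nat_lit 147))) (PT.nd (nat_lit 78) (PT.lf (nat_lit 23560) (nat_lit 6) (nat_lit 310) (nat_lit 0) (nat_lit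 186) (nat_lit 178) (nat_lit 146)) (PT.nd (nat_lit 78) (PT.lf (nat_lit 23028) (nat_lit 6) (nat_lit 303) (nat_lit 0) (nat_lit 187) (nat_lit 178) (nat_lit 145)) (PT.lf (nat_lit 22420) (nat_lit 6) (nat_lit 295) (nat_lit 0) (nat_lit 188) (nat_lit 178) (nat_lit 144)))))) (PT.nd (nat_lit 49608) (PT.nd (nat_lit 49452) (PT.nd (nat_lit 49374) (PT.lf (nat_lit 21888) (nat_lit 6) (nat_lit 288) (nat_lit 0) (nat_lit 189) (nat_lit 178) (nat_lit 143)) (PT.lf (nat_lit 20976) (nat_lit 6) (nat_lit 276) (nat_lit 5) (nat_lit 141) (nat_lit 179) (nat_lit 190))) (PT.nd (nat_lit 78) (PT.lf (nat_lit 21432) (nat_lit 6) (nat_lit 282) (nat_lit 5) (nat_lit 142) (nat_lit 179) (nat_lit 189)) (PT.lf (nat_lit 21964) (nat_lit 6) (nat_lit 289) (nat_lit 5) (nat_lit 143) (nat_lit 179) (nat_lit 188)))) (PT.nd (nat_lit 156) (PT.nd (nat_lit 78) (PT.lf (nat_lit 22496) (nat_lit 6) (nat_lit 296) (nat_lit 5) (nat_lit 144) (nat_lit 179) (nat_lit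 187)) (PT.lf (nat_lit 23104) (nat_lit 6) (nat_lit 304) (nat_lit 5) (nat_lit 145) (nat_lit 179) (nat_lit 186))) (PT.nd (nat_lit 78) (PT.lf (nat_lit 23636) (nat_lit 6) (nat_lit 311) (nat_lit 5) (nat_lit 146) (nat_lit 179) (nat_lit 185)) (PT.nd (nat_lit 78) (PT.lf (nat_lit 24244) (nat_lit 6) (nat_lit 319) (nat_lit 5) (nat_lit 147) (nat_lit 179) (nat_lit 184)) (PT.lf (nat_lit 24852) (nat_lit 6) (nat_lit 327) (nat_lit 5) (nat_lit 148) (nat_lit 179) (nat_lit 183))))))) (PT.nd (nat_lit 702) (PT.nd (nat_lit 312) (PT.nd (nat_lit 156) (PT.nd (nat_lit 78) (PT.lf (nat_lit 25536) (nat_lit 6) (nat_lit 336) (nat_lit 5) (nat_lit 149) (nat_lit 179) (nat_lit 182)) (PT.lf (nat_lit 26144) (nat_lit 6) (nat_lit 344) (nat_lit 5) (nat_lit 150) (nat_lit 179) (nat_lit 181))) (PT.nd (nat_lit 78) (PT.lf (nat_lit 26828) (nat_lit 6) (nat_lit 353) (nat_lit 5) (nat_lit 151) (nat_lit 179) (nat_lit 180)) (PT.lf (nat_lit 27512) (nat_lit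 3) (nat_lit 362) (nat_lit 4) (nat_lit 152) (nat_lit 179) (nat_lit 179)))) (PT.nd (nat_lit 156) (PT.nd (nat_lit 78) (PT.lf (nat_lit 28348) (nat_lit 6) (nat_lit 373) (nat_lit 4) (nat_lit 153) (nat_lit 179) (nat_lit 178)) (PT.lf (nat_lit 29564) (nat_lit 6) (nat_lit 389) (nat_lit 4) (nat_lit 154) (nat_lit 179) (nat_lit 177))) (PT.nd (nat_lit 78) (PT.lf (nat_lit 30704) (nat_lit 6) (nat_lit 404) (nat_lit 4) (nat_lit 155) (nat_lit 179) (nat_lit 176)) (PT.nd (nat_lit 78) (PT.lf (nat_lit 31768) (nat_lit 6) (nat_lit 418) (nat_lit 4) (nat_lit 156) (nat_lit 179) (nat_lit 175)) (PT.lf (nat_lit 32756) (nat_lit 6) (nat_lit 431) (nat_lit 4) (nat_lit 157) (nat_lit 179) (nat_lit 174)))))) (PT.nd (nat_lit 312) (PT.nd (nat_lit 156) (PT.nd (nat_lit 78) (PT.lf (nat_lit 33668) (nat_lit 6) (nat_lit 443) (nat_lit 4) (nat_lit 158) (nat_lit 179) (nat_lit 173)) (PT.lf (nat_lit 34504) (nat_lit 6) (nat_lit 454) (nat_lit 4) (nat_lit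 159) (nat_lit 179) (nat_lit 172))) (PT.nd (nat_lit 78) (PT.lf (nat_lit 35264) (nat_lit 6) (nat_lit 464) (nat_lit 4) (nat_lit 160) (nat_lit 179) (nat_lit 171)) (PT.lf (nat_lit 35948) (nat_lit 6) (nat_lit 473) (nat_lit 4) (nat_lit 161) (nat_lit 179) (nat_lit 170)))) (PT.nd (nat_lit 156) (PT.nd (nat_lit 78) (PT.lf (nat_lit 35872) (nat_lit 6) (nat_lit 472) (nat_lit 4) (nat_lit 162) (nat_lit 179) (nat_lit 169)) (PT.lf (nat_lit 35796) (nat_lit 6) (nat_lit 471) (nat_lit 4) (nat_lit 163) (nat_lit 179) (nat_lit 168))) (PT.nd (nat_lit 78) (PT.lf (nat_lit 35720) (nat_lit 6) (nat_lit 470) (nat_lit 4) (nat_lit 164) (nat_lit 179) (nat_lit 167)) (PT.nd (nat_lit 78) (PT.lf (nat_lit 35644) (nat_lit 6) (nat_lit 469) (nat_lit 4) (nat_lit 165) (nat_lit 179) (nat_lit 166)) (PT.lf (nat_lit 35644) (nat_lit 6) (nat_lit 469) (nat_lit 2) (nat_lit 166) (nat_lit 179) (nat_lit 165))))))))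
noncomputable def pc36 : PT := (PT.nd (nat_lit 1326) (PT.nd (nat_lit 624) (PT.nd (nat_lit 312) (PT.nd (nat_lit 156) (PT.nd (nat_lit 78) (PT.lf (nat_lit 35720) (nat_lit 6) (nat_lit 470) (nat_lit 2) (nat_lit 167) (nat_lit 179) (nat_lit 164)) (PT.lf (nat_lit 35796) (nat_lit 6) (nat_lit 471) (nat_lit 2) (nat_lit 168) (nat_lit 179) (nat_lit 163))) (PT.nd (nat_lit 78) (PT.lf (nat_lit 35872) (nat_lit 6) (nat_lit 472) (nat_lit 2) (nat_lit 169) (nat_lit 179) (nat_lit 162)) (PT.lf (nat_lit 35948) (nat_lit 6) (nat_lit 473) (nat_lit 2) (nat_lit 170) (nat_lit 179) (nat_lit 161)))) (PT.nd (nat_lit 156) (PT.nd (nat_lit 78) (PT.lf (nat_lit 35264) (nat_lit 6) (nat_lit 464) (nat_lit 2) (nat_lit 171) (nat_lit 179) (nat_lit 160)) (PT.lf (nat_lit 34504) (nat_lit 6) (nat_lit 454) (nat_lit 2) (nat_lit 172) (nat_lit 179) (nat_lit 159))) (PT.nd (nat_lit 78) (PT.lf (nat_lit 33668) (nat_lit 6) (nat_lit 443) (nat_lit 2) (nat_lit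 173) (nat_lit 179) (nat_lit 158)) (PT.lf (nat_lit 32756) (nat_lit 6) (nat_lit 431) (nat_lit 2) (nat_lit 174) (nat_lit 179) (nat_lit 157))))) (PT.nd (nat_lit 312) (PT.nd (nat_lit 156) (PT.nd (nat_lit 78) (PT.lf (nat_lit 31768) (nat_lit 6) (nat_lit 418) (nat_lit 2) (nat_lit 175) (nat_lit 179) (nat_lit 156)) (PT.lf (nat_lit 30704) (nat_lit 6) (nat_lit 404) (nat_lit 2) (nat_lit 176) (nat_lit 179) (nat_lit 155))) (PT.nd (nat_lit 78) (PT.lf (nat_lit 29564) (nat_lit 6) (nat_lit 389) (nat_lit 2) (nat_lit 177) (nat_lit 179) (nat_lit 154)) (PT.lf (nat_lit 28348) (nat_lit 6) (nat_lit 373) (nat_lit 2) (nat_lit 178) (nat_lit 179) (nat_lit 153)))) (PT.nd (nat_lit 156) (PT.nd (nat_lit 78) (PT.lf (nat_lit 27512) (nat_lit 3) (nat_lit 362) (nat_lit 0) (nat_lit 179) (nat_lit 179) (nat_lit 152)) (PT.lf (nat_lit 26828) (nat_lit 6) (nat_lit 353) (nat_lit 0) (nat_lit 180) (nat_lit 179) (nat_lit 151))) (PT.nd (nat_lit 78) (PT.lf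 (nat_lit 26144) (nat_lit 6) (nat_lit 344) (nat_lit 0) (nat_lit 181) (nat_lit 179) (nat_lit 150)) (PT.nd (nat_lit 78) (PT.lf (nat_lit 25536) (nat_lit 6) (nat_lit 336) (nat_lit 0) (nat_lit 182) (nat_lit 179) (nat_lit 149)) (PT.lf (nat_lit 24852) (nat_lit 6) (nat_lit 327) (nat_lit 0) (nat_lit 183) (nat_lit 179) (nat_lit 148))))))) (PT.nd (nat_lit 49842) (PT.nd (nat_lit 312) (PT.nd (nat_lit 156) (PT.nd (nat_lit 78) (PT.lf (nat_lit 24244) (nat_lit 6) (nat_lit 319) (nat_lit 0) (nat_lit 184) (nat_lit 179) (nat_lit 147)) (PT.lf (nat_lit 23636) (nat_lit 6) (nat_lit 311) (nat_lit 0) (nat_lit 185) (nat_lit 179) (nat_lit 146))) (PT.nd (nat_lit 78) (PT.lf (nat_lit 23104) (nat_lit 6) (nat_lit 304) (nat_lit 0) (nat_lit 186) (nat_lit 179) (nat_lit 145)) (PT.lf (nat_lit 22496) (nat_lit 6) (nat_lit 296) (nat_lit 0) (nat_lit 187) (nat_lit 179) (nat_lit 144)))) (PT.nd (nat_lit 156) (PT.nd (nat_lit 78) (PT.lf (nat_lit 21964)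 (nat_lit 6) (nat_lit 289) (nat_lit 0) (nat_lit 188) (nat_lit 179) (nat_lit 143)) (PT.lf (nat_lit 21432) (nat_lit 6) (nat_lit 282) (nat_lit 0) (nat_lit 189) (nat_lit 179) (nat_lit 142))) (PT.nd (nat_lit 49218) (PT.lf (nat_lit 20976) (nat_lit 6) (nat_lit 276) (nat_lit 0) (nat_lit 190) (nat_lit 179) (nat_lit 141)) (PT.nd (nat_lit 78) (PT.lf (nat_lit 20520) (nat_lit 6) (nat_lit 270) (nat_lit 5) (nat_lit 140) (nat_lit 180) (nat_lit 190)) (PT.lf (nat_lit 21052) (nat_lit 6) (nat_lit 277) (nat_lit 5) (nat_lit 141) (nat_lit 180) (nat_lit 189)))))) (PT.nd (nat_lit 312) (PT.nd (nat_lit 156) (PT.nd (nat_lit 78) (PT.lf (nat_lit 21508) (nat_lit 6) (nat_lit 283) (nat_lit 5) (nat_lit 142) (nat_lit 180) (nat_lit 188)) (PT.lf (nat_lit 22040) (nat_lit 6) (nat_lit 290) (nat_lit 5) (nat_lit 143) (nat_lit 180) (nat_lit 187))) (PT.nd (nat_lit 78) (PT.lf (nat_lit 22572) (nat_lit 6) (nat_lit 297) (nat_lit 5) (nat_lit 144) (nat_lit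 180) (nat_lit 186)) (PT.lf (nat_lit 23180) (nat_lit 6) (nat_lit 305) (nat_lit 5) (nat_lit 145) (nat_lit 180) (nat_lit 185)))) (PT.nd (nat_lit 156) (PT.nd (nat_lit 78) (PT.lf (nat_lit 23712) (nat_lit 6) (nat_lit 312) (nat_lit 5) (nat_lit 146) (nat_lit 180) (nat_lit 184)) (PT.lf (nat_lit 24320) (nat_lit 6) (nat_lit 320) (nat_lit 5) (nat_lit 147) (nat_lit 180) (nat_lit 183))) (PT.nd (nat_lit 78) (PT.lf (nat_lit 24928) (nat_lit 6) (nat_lit 328) (nat_lit 5) (nat_lit 148) (nat_lit 180) (nat_lit 182)) (PT.nd (nat_lit 78) (PT.lf (nat_lit 25612) (nat_lit 6) (nat_lit 337) (nat_lit 5) (nat_lit 149) (nat_lit 180) (nat_lit 181)) (PT.lf (nat_lit 26220) (nat_lit 3) (nat_lit 345) (nat_lit 4) (nat_lit 150) (nat_lit 180) (nat_lit 180))))))))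
noncomputable def pc37 : PT := (PT.nd (nat_lit 1404) (PT.nd (nat_lit 702) (PT.nd (nat_lit 312) (PT.nd (nat_lit 156) (PT.nd (nat_lit 78) (PT.lf (nat_lit 26828) (nat_lit 6) (nat_lit 353) (nat_lit 4) (nat_lit 151) (nat_lit 180) (nat_lit 179)) (PT.lf (nat_lit 27436) (nat_lit 6) (nat_lit 361) (nat_lit 4) (nat_lit 152) (nat_lit 180) (nat_lit 178))) (PT.nd (nat_lit 78) (PT.lf (nat_lit 28272) (nat_lit 6) (nat_lit 372) (nat_lit 4) (nat_lit 153) (nat_lit 180) (nat_lit 177)) (PT.lf (nat_lit 29488) (nat_lit 6) (nat_lit 388) (nat_lit 4) (nat_lit 154) (nat_lit 180) (nat_lit 176)))) (PT.nd (nat_lit 156) (PT.nd (nat_lit 78) (PT.lf (nat_lit 30628) (nat_lit 6) (nat_lit 403) (nat_lit 4) (nat_lit 155) (nat_lit 180) (nat_lit 175)) (PT.lf (nat_lit 31692) (nat_lit 6) (nat_lit 417) (nat_lit 4) (nat_lit 156) (nat_lit 180) (nat_lit 174))) (PT.nd (nat_lit 78) (PT.lf (nat_lit 32680) (nat_lit 6) (nat_lit 430) (nat_lit 4) (nat_lit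 157) (nat_lit 180) (nat_lit 173)) (PT.nd (nat_lit 78) (PT.lf (nat_lit 33592) (nat_lit 6) (nat_lit 442) (nat_lit 4) (nat_lit 158) (nat_lit 180) (nat_lit 172)) (PT.lf (nat_lit 34428) (nat_lit 6) (nat_lit 453) (nat_lit 4) (nat_lit 159) (nat_lit 180) (nat_lit 171)))))) (PT.nd (nat_lit 312) (PT.nd (nat_lit 156) (PT.nd (nat_lit 78) (PT.lf (nat_lit 35188) (nat_lit 6) (nat_lit 463) (nat_lit 4) (nat_lit 160) (nat_lit 180) (nat_lit 170)) (PT.lf (nat_lit 35112) (nat_lit 6) (nat_lit 462) (nat_lit 4) (nat_lit 161) (nat_lit 180) (nat_lit 169))) (PT.nd (nat_lit 78) (PT.lf (nat_lit 35036) (nat_lit 6) (nat_lit 461) (nat_lit 4) (nat_lit 162) (nat_lit 180) (nat_lit 168)) (PT.lf (nat_lit 34960) (nat_lit 6) (nat_lit 460) (nat_lit 4) (nat_lit 163) (nat_lit 180) (nat_lit 167)))) (PT.nd (nat_lit 156) (PT.nd (nat_lit 78) (PT.lf (nat_lit 34884) (nat_lit 6) (nat_lit 459) (nat_lit 4) (nat_lit 164) (nat_lit 180) (nat_lit 166)) (PT.lf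 (nat_lit 34808) (nat_lit 3) (nat_lit 458) (nat_lit 2) (nat_lit 165) (nat_lit 180) (nat_lit 165))) (PT.nd (nat_lit 78) (PT.lf (nat_lit 34884) (nat_lit 6) (nat_lit 459) (nat_lit 2) (nat_lit 166) (nat_lit 180) (nat_lit 164)) (PT.nd (nat_lit 78) (PT.lf (nat_lit 34960) (nat_lit 6) (nat_lit 460) (nat_lit 2) (nat_lit 167) (nat_lit 180) (nat_lit 163)) (PT.lf (nat_lit 35036) (nat_lit 6) (nat_lit 461) (nat_lit 2) (nat_lit 168) (nat_lit 180) (nat_lit 162))))))) (PT.nd (nat_lit 702) (PT.nd (nat_lit 312) (PT.nd (nat_lit 156) (PT.nd (nat_lit 78) (PT.lf (nat_lit 35112) (nat_lit 6) (nat_lit 462) (nat_lit 2) (nat_lit 169) (nat_lit 180) (nat_lit 161)) (PT.lf (nat_lit 35188) (nat_lit 6) (nat_lit 463) (nat_lit 2) (nat_lit 170) (nat_lit 180) (nat_lit 160))) (PT.nd (nat_lit 78) (PT.lf (nat_lit 34428) (nat_lit 6) (nat_lit 453) (nat_lit 2) (nat_lit 171) (nat_lit 180) (nat_lit 159)) (PT.lf (nat_lit 33592) (nat_lit 6) (nat_lit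 442) (nat_lit 2) (nat_lit 172) (nat_lit 180) (nat_lit 158)))) (PT.nd (nat_lit 156) (PT.nd (nat_lit 78) (PT.lf (nat_lit 32680) (nat_lit 6) (nat_lit 430) (nat_lit 2) (nat_lit 173) (nat_lit 180) (nat_lit 157)) (PT.lf (nat_lit 31692) (nat_lit 6) (nat_lit 417) (nat_lit 2) (nat_lit 174) (nat_lit 180) (nat_lit 156))) (PT.nd (nat_lit 78) (PT.lf (nat_lit 30628) (nat_lit 6) (nat_lit 403) (nat_lit 2) (nat_lit 175) (nat_lit 180) (nat_lit 155)) (PT.nd (nat_lit 78) (PT.lf (nat_lit 29488) (nat_lit 6) (nat_lit 388) (nat_lit 2) (nat_lit 176) (nat_lit 180) (nat_lit 154)) (PT.lf (nat_lit 28272) (nat_lit 6) (nat_lit 372) (nat_lit 2) (nat_lit 177) (nat_lit 180) (nat_lit 153)))))) (PT.nd (nat_lit 312) (PT.nd (nat_lit 156) (PT.nd (nat_lit 78) (PT.lf (nat_lit 27436) (nat_lit 6) (nat_lit 361) (nat_lit 2) (nat_lit 178) (nat_lit 180) (nat_lit 152)) (PT.lf (nat_lit 26828) (nat_lit 6) (nat_lit 353) (nat_lit 2) (nat_lit 179) (nat_lit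 180) (nat_lit 151))) (PT.nd (nat_lit 78) (PT.lf (nat_lit 26220) (nat_lit 3) (nat_lit 345) (nat_lit 0) (nat_lit 180) (nat_lit 180) (nat_lit 150)) (PT.lf (nat_lit 25612) (nat_lit 6) (nat_lit 337) (nat_lit 0) (nat_lit 181) (nat_lit 180) (nat_lit 149)))) (PT.nd (nat_lit 156) (PT.nd (nat_lit 78) (PT.lf (nat_lit 24928) (nat_lit 6) (nat_lit 328) (nat_lit 0) (nat_lit 182) (nat_lit 180) (nat_lit 148)) (PT.lf (nat_lit 24320) (nat_lit 6) (nat_lit 320) (nat_lit 0) (nat_lit 183) (nat_lit 180) (nat_lit 147))) (PT.nd (nat_lit 78) (PT.lf (nat_lit 23712) (nat_lit 6) (nat_lit 312) (nat_lit 0) (nat_lit 184) (nat_lit 180) (nat_lit 146)) (PT.nd (nat_lit 78) (PT.lf (nat_lit 23180) (nat_lit 6) (nat_lit 305) (nat_lit 0) (nat_lit 185) (nat_lit 180) (nat_lit 145)) (PT.lf (nat_lit 22572) (nat_lit 6) (nat_lit 297) (nat_lit 0) (nat_lit 186) (nat_lit 180) (nat_lit 144))))))))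
noncomputable def pc38 : PT := (PT.nd (nat_lit 50310) (PT.nd (nat_lit 49608) (PT.nd (nat_lit 49296) (PT.nd (nat_lit 156) (PT.nd (nat_lit 78) (PT.lf (nat_lit 22040) (nat_lit 6) (nat_lit 290) (nat_lit 0) (nat_lit 187) (nat_lit 180) (nat_lit 143)) (PT.lf (nat_lit 21508) (nat_lit 6) (nat_lit 283) (nat_lit 0) (nat_lit 188) (nat_lit 180) (nat_lit 142))) (PT.nd (nat_lit 78) (PT.lf (nat_lit 21052) (nat_lit 6) (nat_lit 277) (nat_lit 0) (nat_lit 189) (nat_lit 180) (nat_lit 141)) (PT.lf (nat_lit 20520) (nat_lit 6) (nat_lit 270) (nat_lit 0) (nat_lit 190) (nat_lit 180) (nat_lit 140)))) (PT.nd (nat_lit 156) (PT.nd (nat_lit 78) (PT.lf (nat_lit 19684) (nat_lit 6) (nat_lit 259) (nat_lit 5) (nat_lit 138) (nat_lit 181) (nat_lit 191)) (PT.lf (nat_lit 20140) (nat_lit 6) (nat_lit 265) (nat_lit 5) (nat_lit 139) (nat_lit 181) (nat_lit 190))) (PT.nd (nat_lit 78) (PT.lf (nat_lit 20596) (nat_lit 6) (nat_lit 271) (nat_lit 5) (nat_lit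 140) (nat_lit 181) (nat_lit 189)) (PT.lf (nat_lit 21128) (nat_lit 6) (nat_lit 278) (nat_lit 5) (nat_lit 141) (nat_lit 181) (nat_lit 188))))) (PT.nd (nat_lit 312) (PT.nd (nat_lit 156) (PT.nd (nat_lit 78) (PT.lf (nat_lit 21584) (nat_lit 6) (nat_lit 284) (nat_lit 5) (nat_lit 142) (nat_lit 181) (nat_lit 187)) (PT.lf (nat_lit 22116) (nat_lit 6) (nat_lit 291) (nat_lit 5) (nat_lit 143) (nat_lit 181) (nat_lit 186))) (PT.nd (nat_lit 78) (PT.lf (nat_lit 22648) (nat_lit 6) (nat_lit 298) (nat_lit 5) (nat_lit 144) (nat_lit 181) (nat_lit 185)) (PT.lf (nat_lit 23256) (nat_lit 6) (nat_lit 306) (nat_lit 5) (nat_lit 145) (nat_lit 181) (nat_lit 184)))) (PT.nd (nat_lit 156) (PT.nd (nat_lit 78) (PT.lf (nat_lit 23788) (nat_lit 6) (nat_lit 313) (nat_lit 5) (nat_lit 146) (nat_lit 181) (nat_lit 183)) (PT.lf (nat_lit 24396) (nat_lit 6) (nat_lit 321) (nat_lit 5) (nat_lit 147) (nat_lit 181) (nat_lit 182))) (PT.nd (nat_lit 78) (PT.lf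 (nat_lit 25004) (nat_lit 3) (nat_lit 329) (nat_lit 4) (nat_lit 148) (nat_lit 181) (nat_lit 181)) (PT.nd (nat_lit 78) (PT.lf (nat_lit 25612) (nat_lit 6) (nat_lit 337) (nat_lit 4) (nat_lit 149) (nat_lit 181) (nat_lit 180)) (PT.lf (nat_lit 26144) (nat_lit 6) (nat_lit 344) (nat_lit 4) (nat_lit 150) (nat_lit 181) (nat_lit 179))))))) (PT.nd (nat_lit 702) (PT.nd (nat_lit 312) (PT.nd (nat_lit 156) (PT.nd (nat_lit 78) (PT.lf (nat_lit 26752) (nat_lit 6) (nat_lit 352) (nat_lit 4) (nat_lit 151) (nat_lit 181) (nat_lit 178)) (PT.lf (nat_lit 27360) (nat_lit 6) (nat_lit 360) (nat_lit 4) (nat_lit 152) (nat_lit 181) (nat_lit 177))) (PT.nd (nat_lit 78) (PT.lf (nat_lit 28196) (nat_lit 6) (nat_lit 371) (nat_lit 4) (nat_lit 153) (nat_lit 181) (nat_lit 176)) (PT.lf (nat_lit 29412) (nat_lit 6) (nat_lit 387) (nat_lit 4) (nat_lit 154) (nat_lit 181) (nat_lit 175)))) (PT.nd (nat_lit 156) (PT.nd (nat_lit 78) (PT.lf (nat_lit 30552)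 (nat_lit 6) (nat_lit 402) (nat_lit 4) (nat_lit 155) (nat_lit 181) (nat_lit 174)) (PT.lf (nat_lit 31616) (nat_lit 6) (nat_lit 416) (nat_lit 4) (nat_lit 156) (nat_lit 181) (nat_lit 173))) (PT.nd (nat_lit 78) (PT.lf (nat_lit 32604) (nat_lit 6) (nat_lit 429) (nat_lit 4) (nat_lit 157) (nat_lit 181) (nat_lit 172)) (PT.nd (nat_lit 78) (PT.lf (nat_lit 33516) (nat_lit 6) (nat_lit 441) (nat_lit 4) (nat_lit 158) (nat_lit 181) (nat_lit 171)) (PT.lf (nat_lit 34352) (nat_lit 6) (nat_lit 452) (nat_lit 4) (nat_lit 159) (nat_lit 181) (nat_lit 170)))))) (PT.nd (nat_lit 312) (PT.nd (nat_lit 156) (PT.nd (nat_lit 78) (PT.lf (nat_lit 34276) (nat_lit 6) (nat_lit 451) (nat_lit 4) (nat_lit 160) (nat_lit 181) (nat_lit 169)) (PT.lf (nat_lit 34200) (nat_lit 6) (nat_lit 450) (nat_lit 4) (nat_lit 161) (nat_lit 181) (nat_lit 168))) (PT.nd (nat_lit 78) (PT.lf (nat_lit 34124) (nat_lit 6) (nat_lit 449) (nat_lit 4) (nat_lit 162) (nat_lit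 181) (nat_lit 167)) (PT.lf (nat_lit 34048) (nat_lit 6) (nat_lit 448) (nat_lit 4) (nat_lit 163) (nat_lit 181) (nat_lit 166)))) (PT.nd (nat_lit 156) (PT.nd (nat_lit 78) (PT.lf (nat_lit 33972) (nat_lit 6) (nat_lit 447) (nat_lit 4) (nat_lit 164) (nat_lit 181) (nat_lit 165)) (PT.lf (nat_lit 33972) (nat_lit 6) (nat_lit 447) (nat_lit 2) (nat_lit 165) (nat_lit 181) (nat_lit 164))) (PT.nd (nat_lit 78) (PT.lf (nat_lit 34048) (nat_lit 6) (nat_lit 448) (nat_lit 2) (nat_lit 166) (nat_lit 181) (nat_lit 163)) (PT.nd (nat_lit 78) (PT.lf (nat_lit 34124) (nat_lit 6) (nat_lit 449) (nat_lit 2) (nat_lit 167) (nat_lit 181) (nat_lit 162)) (PT.lf (nat_lit 34200) (nat_lit 6) (nat_lit 450) (nat_lit 2) (nat_lit 168) (nat_lit 181) (nat_lit 161))))))))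
noncomputable def pc39 : PT := (PT.nd (nat_lit 1404) (PT.nd (nat_lit 702) (PT.nd (nat_lit 312) (PT.nd (nat_lit 156) (PT.nd (nat_lit 78) (PT.lf (nat_lit 34276) (nat_lit 6) (nat_lit 451) (nat_lit 2) (nat_lit 169) (nat_lit 181) (nat_lit 160)) (PT.lf (nat_lit 34352) (nat_lit 6) (nat_lit 452) (nat_lit 2) (nat_lit 170) (nat_lit 181) (nat_lit 159))) (PT.nd (nat_lit 78) (PT.lf (nat_lit 33516) (nat_lit 6) (nat_lit 441) (nat_lit 2) (nat_lit 171) (nat_lit 181) (nat_lit 158)) (PT.lf (nat_lit 32604) (nat_lit 6) (nat_lit 429) (nat_lit 2) (nat_lit 172) (nat_lit 181) (nat_lit 157)))) (PT.nd (nat_lit 156) (PT.nd (nat_lit 78) (PT.lf (nat_lit 31616) (nat_lit 6) (nat_lit 416) (nat_lit 2) (nat_lit 173) (nat_lit 181) (nat_lit 156)) (PT.lf (nat_lit 30552) (nat_lit 6) (nat_lit 402) (nat_lit 2) (nat_lit 174) (nat_lit 181) (nat_lit 155))) (PT.nd (nat_lit 78) (PT.lf (nat_lit 29412) (nat_lit 6) (nat_lit 387) (nat_lit 2) (nat_lit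 175) (nat_lit 181) (nat_lit 154)) (PT.nd (nat_lit 78) (PT.lf (nat_lit 28196) (nat_lit 6) (nat_lit 371) (nat_lit 2) (nat_lit 176) (nat_lit 181) (nat_lit 153)) (PT.lf (nat_lit 27360) (nat_lit 6) (nat_lit 360) (nat_lit 2) (nat_lit 177) (nat_lit 181) (nat_lit 152)))))) (PT.nd (nat_lit 312) (PT.nd (nat_lit 156) (PT.nd (nat_lit 78) (PT.lf (nat_lit 26752) (nat_lit 6) (nat_lit 352) (nat_lit 2) (nat_lit 178) (nat_lit 181) (nat_lit 151)) (PT.lf (nat_lit 26144) (nat_lit 6) (nat_lit 344) (nat_lit 2) (nat_lit 179) (nat_lit 181) (nat_lit 150))) (PT.nd (nat_lit 78) (PT.lf (nat_lit 25612) (nat_lit 6) (nat_lit 337) (nat_lit 2) (nat_lit 180) (nat_lit 181) (nat_lit 149)) (PT.lf (nat_lit 25004) (nat_lit 3) (nat_lit 329) (nat_lit 0) (nat_lit 181) (nat_lit 181) (nat_lit 148)))) (PT.nd (nat_lit 156) (PT.nd (nat_lit 78) (PT.lf (nat_lit 24396) (nat_lit 6) (nat_lit 321) (nat_lit 0) (nat_lit 182) (nat_lit 181) (nat_lit 147)) (PT.lf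 (nat_lit 23788) (nat_lit 6) (nat_lit 313) (nat_lit 0) (nat_lit 183) (nat_lit 181) (nat_lit 146))) (PT.nd (nat_lit 78) (PT.lf (nat_lit 23256) (nat_lit 6) (nat_lit 306) (nat_lit 0) (nat_lit 184) (nat_lit 181) (nat_lit 145)) (PT.nd (nat_lit 78) (PT.lf (nat_lit 22648) (nat_lit 6) (nat_lit 298) (nat_lit 0) (nat_lit 185) (nat_lit 181) (nat_lit 144)) (PT.lf (nat_lit 22116) (nat_lit 6) (nat_lit 291) (nat_lit 0) (nat_lit 186) (nat_lit 181) (nat_lit 143))))))) (PT.nd (nat_lit 49530) (PT.nd (nat_lit 312) (PT.nd (nat_lit 156) (PT.nd (nat_lit 78) (PT.lf (nat_lit 21584) (nat_lit 6) (nat_lit 284) (nat_lit 0) (nat_lit 187) (nat_lit 181) (nat_lit 142)) (PT.lf (nat_lit 21128) (nat_lit 6) (nat_lit 278) (nat_lit 0) (nat_lit 188) (nat_lit 181) (nat_lit 141))) (PT.nd (nat_lit 78) (PT.lf (nat_lit 20596) (nat_lit 6) (nat_lit 271) (nat_lit 0) (nat_lit 189) (nat_lit 181) (nat_lit 140)) (PT.lf (nat_lit 20140) (nat_lit 6) (nat_lit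 265) (nat_lit 0) (nat_lit 190) (nat_lit 181) (nat_lit 139)))) (PT.nd (nat_lit 48984) (PT.nd (nat_lit 48906) (PT.lf (nat_lit 19684) (nat_lit 6) (nat_lit 259) (nat_lit 0) (nat_lit 191) (nat_lit 181) (nat_lit 138)) (PT.lf (nat_lit 19304) (nat_lit 6) (nat_lit 254) (nat_lit 5) (nat_lit 137) (nat_lit 182) (nat_lit 191))) (PT.nd (nat_lit 78) (PT.lf (nat_lit 19760) (nat_lit 6) (nat_lit 260) (nat_lit 5) (nat_lit 138) (nat_lit 182) (nat_lit 190)) (PT.nd (nat_lit 78) (PT.lf (nat_lit 20216) (nat_lit 6) (nat_lit 266) (nat_lit 5) (nat_lit 139) (nat_lit 182) (nat_lit 189)) (PT.lf (nat_lit 20672) (nat_lit 6) (nat_lit 272) (nat_lit 5) (nat_lit 140) (nat_lit 182) (nat_lit 188)))))) (PT.nd (nat_lit 312) (PT.nd (nat_lit 156) (PT.nd (nat_lit 78) (PT.lf (nat_lit 21204) (nat_lit 6) (nat_lit 279) (nat_lit 5) (nat_lit 141) (nat_lit 182) (nat_lit 187)) (PT.lf (nat_lit 21660) (nat_lit 6) (nat_lit 285) (nat_lit 5) (nat_lit 142)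 (nat_lit 182) (nat_lit 186))) (PT.nd (nat_lit 78) (PT.lf (nat_lit 22192) (nat_lit 6) (nat_lit 292) (nat_lit 5) (nat_lit 143) (nat_lit 182) (nat_lit 185)) (PT.lf (nat_lit 22724) (nat_lit 6) (nat_lit 299) (nat_lit 5) (nat_lit 144) (nat_lit 182) (nat_lit 184)))) (PT.nd (nat_lit 156) (PT.nd (nat_lit 78) (PT.lf (nat_lit 23332) (nat_lit 6) (nat_lit 307) (nat_lit 5) (nat_lit 145) (nat_lit 182) (nat_lit 183)) (PT.lf (nat_lit 23864) (nat_lit 3) (nat_lit 314) (nat_lit 4) (nat_lit 146) (nat_lit 182) (nat_lit 182))) (PT.nd (nat_lit 78) (PT.lf (nat_lit 24396) (nat_lit 6) (nat_lit 321) (nat_lit 4) (nat_lit 147) (nat_lit 182) (nat_lit 181)) (PT.nd (nat_lit 78) (PT.lf (nat_lit 24928) (nat_lit 6) (nat_lit 328) (nat_lit 4) (nat_lit 148) (nat_lit 182) (nat_lit 180)) (PT.lf (nat_lit 25536) (nat_lit 6) (nat_lit 336) (nat_lit 4) (nat_lit 149) (nat_lit 182) (nat_lit 179))))))))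
noncomputable def pc40 : PT := (PT.nd (nat_lit 1326) (PT.nd (nat_lit 624) (PT.nd (nat_lit 312) (PT.nd (nat_lit 156) (PT.nd (nat_lit 78) (PT.lf (nat_lit 26068) (nat_lit 6) (nat_lit 343) (nat_lit 4) (nat_lit 150) (nat_lit 182) (nat_lit 178)) (PT.lf (nat_lit 26676) (nat_lit 6) (nat_lit 351) (nat_lit 4) (nat_lit 151) (nat_lit 182) (nat_lit 177))) (PT.nd (nat_lit 78) (PT.lf (nat_lit 27284) (nat_lit 6) (nat_lit 359) (nat_lit 4) (nat_lit 152) (nat_lit 182) (nat_lit 176)) (PT.lf (nat_lit 28120) (nat_lit 6) (nat_lit 370) (nat_lit 4) (nat_lit 153) (nat_lit 182) (nat_lit 175)))) (PT.nd (nat_lit 156) (PT.nd (nat_lit 78) (PT.lf (nat_lit 29336) (nat_lit 6) (nat_lit 386) (nat_lit 4) (nat_lit 154) (nat_lit 182) (nat_lit 174)) (PT.lf (nat_lit 30476) (nat_lit 6) (nat_lit 401) (nat_lit 4) (nat_lit 155) (nat_lit 182) (nat_lit 173))) (PT.nd (nat_lit 78) (PT.lf (nat_lit 31540) (nat_lit 6) (nat_lit 415) (nat_lit 4) (nat_lit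 156) (nat_lit 182) (nat_lit 172)) (PT.lf (nat_lit 32528) (nat_lit 6) (nat_lit 428) (nat_lit 4) (nat_lit 157) (nat_lit 182) (nat_lit 171))))) (PT.nd (nat_lit 312) (PT.nd (nat_lit 156) (PT.nd (nat_lit 78) (PT.lf (nat_lit 33440) (nat_lit 6) (nat_lit 440) (nat_lit 4) (nat_lit 158) (nat_lit 182) (nat_lit 170)) (PT.lf (nat_lit 33364) (nat_lit 6) (nat_lit 439) (nat_lit 4) (nat_lit 159) (nat_lit 182) (nat_lit 169))) (PT.nd (nat_lit 78) (PT.lf (nat_lit 33288) (nat_lit 6) (nat_lit 438) (nat_lit 4) (nat_lit 160) (nat_lit 182) (nat_lit 168)) (PT.lf (nat_lit 33212) (nat_lit 6) (nat_lit 437) (nat_lit 4) (nat_lit 161) (nat_lit 182) (nat_lit 167)))) (PT.nd (nat_lit 156) (PT.nd (nat_lit 78) (PT.lf (nat_lit 33136) (nat_lit 6) (nat_lit 436) (nat_lit 4) (nat_lit 162) (nat_lit 182) (nat_lit 166)) (PT.lf (nat_lit 33060) (nat_lit 6) (nat_lit 435) (nat_lit 4) (nat_lit 163) (nat_lit 182) (nat_lit 165))) (PT.nd (nat_lit 78) (PT.lf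 (nat_lit 32984) (nat_lit 3) (nat_lit 434) (nat_lit 2) (nat_lit 164) (nat_lit 182) (nat_lit 164)) (PT.nd (nat_lit 78) (PT.lf (nat_lit 33060) (nat_lit 6) (nat_lit 435) (nat_lit 2) (nat_lit 165) (nat_lit 182) (nat_lit 163)) (PT.lf (nat_lit 33136) (nat_lit 6) (nat_lit 436) (nat_lit 2) (nat_lit 166) (nat_lit 182) (nat_lit 162))))))) (PT.nd (nat_lit 702) (PT.nd (nat_lit 312) (PT.nd (nat_lit 156) (PT.nd (nat_lit 78) (PT.lf (nat_lit 33212) (nat_lit 6) (nat_lit 437) (nat_lit 2) (nat_lit 167) (nat_lit 182) (nat_lit 161)) (PT.lf (nat_lit 33288) (nat_lit 6) (nat_lit 438) (nat_lit 2) (nat_lit 168) (nat_lit 182) (nat_lit 160))) (PT.nd (nat_lit 78) (PT.lf (nat_lit 33364) (nat_lit 6) (nat_lit 439) (nat_lit 2) (nat_lit 169) (nat_lit 182) (nat_lit 159)) (PT.lf (nat_lit 33440) (nat_lit 6) (nat_lit 440) (nat_lit 2) (nat_lit 170) (nat_lit 182) (nat_lit 158)))) (PT.nd (nat_lit 156) (PT.nd (nat_lit 78) (PT.lf (nat_lit 32528)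 (nat_lit 6) (nat_lit 428) (nat_lit 2) (nat_lit 171) (nat_lit 182) (nat_lit 157)) (PT.lf (nat_lit 31540) (nat_lit 6) (nat_lit 415) (nat_lit 2) (nat_lit 172) (nat_lit 182) (nat_lit 156))) (PT.nd (nat_lit 78) (PT.lf (nat_lit 30476) (nat_lit 6) (nat_lit 401) (nat_lit 2) (nat_lit 173) (nat_lit 182) (nat_lit 155)) (PT.nd (nat_lit 78) (PT.lf (nat_lit 29336) (nat_lit 6) (nat_lit 386) (nat_lit 2) (nat_lit 174) (nat_lit 182) (nat_lit 154)) (PT.lf (nat_lit 28120) (nat_lit 6) (nat_lit 370) (nat_lit 2) (nat_lit 175) (nat_lit 182) (nat_lit 153)))))) (PT.nd (nat_lit 312) (PT.nd (nat_lit 156) (PT.nd (nat_lit 78) (PT.lf (nat_lit 27284) (nat_lit 6) (nat_lit 359) (nat_lit 2) (nat_lit 176) (nat_lit 182) (nat_lit 152)) (PT.lf (nat_lit 26676) (nat_lit 6) (nat_lit 351) (nat_lit 2) (nat_lit 177) (nat_lit 182) (nat_lit 151))) (PT.nd (nat_lit 78) (PT.lf (nat_lit 26068) (nat_lit 6) (nat_lit 343) (nat_lit 2) (nat_lit 178) (nat_lit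 182) (nat_lit 150)) (PT.lf (nat_lit 25536) (nat_lit 6) (nat_lit 336) (nat_lit 2) (nat_lit 179) (nat_lit 182) (nat_lit 149)))) (PT.nd (nat_lit 156) (PT.nd (nat_lit 78) (PT.lf (nat_lit 24928) (nat_lit 6) (nat_lit 328) (nat_lit 2) (nat_lit 180) (nat_lit 182) (nat_lit 148)) (PT.lf (nat_lit 24396) (nat_lit 6) (nat_lit 321) (nat_lit 2) (nat_lit 181) (nat_lit 182) (nat_lit 147))) (PT.nd (nat_lit 78) (PT.lf (nat_lit 23864) (nat_lit 3) (nat_lit 314) (nat_lit 0) (nat_lit 182) (nat_lit 182) (nat_lit 146)) (PT.nd (nat_lit 78) (PT.lf (nat_lit 23332) (nat_lit 6) (nat_lit 307) (nat_lit 0) (nat_lit 183) (nat_lit 182) (nat_lit 145)) (PT.lf (nat_lit 22724) (nat_lit 6) (nat_lit 299) (nat_lit 0) (nat_lit 184) (nat_lit 182) (nat_lit 144))))))))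
noncomputable def pc41 : PT := (PT.nd (nat_lit 50076) (PT.nd (nat_lit 49374) (PT.nd (nat_lit 312) (PT.nd (nat_lit 156) (PT.nd (nat_lit 78) (PT.lf (nat_lit 22192) (nat_lit 6) (nat_lit 292) (nat_lit 0) (nat_lit 185) (nat_lit 182) (nat_lit 143)) (PT.lf (nat_lit 21660) (nat_lit 6) (nat_lit 285) (nat_lit 0) (nat_lit 186) (nat_lit 182) (nat_lit 142))) (PT.nd (nat_lit 78) (PT.lf (nat_lit 21204) (nat_lit 6) (nat_lit 279) (nat_lit 0) (nat_lit 187) (nat_lit 182) (nat_lit 141)) (PT.lf (nat_lit 20672) (nat_lit 6) (nat_lit 272) (nat_lit 0) (nat_lit 188) (nat_lit 182) (nat_lit 140)))) (PT.nd (nat_lit 156) (PT.nd (nat_lit 78) (PT.lf (nat_lit 20216) (nat_lit 6) (nat_lit 266) (nat_lit 0) (nat_lit 189) (nat_lit 182) (nat_lit 139)) (PT.lf (nat_lit 19760) (nat_lit 6) (nat_lit 260) (nat_lit 0) (nat_lit 190) (nat_lit 182) (nat_lit 138))) (PT.nd (nat_lit 48750) (PT.lf (nat_lit 19304) (nat_lit 6) (nat_lit 254) (nat_lit 0) (nat_lit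 191) (nat_lit 182) (nat_lit 137)) (PT.nd (nat_lit 78) (PT.lf (nat_lit 18544) (nat_lit 6) (nat_lit 244) (nat_lit 5) (nat_lit 135) (nat_lit 183) (nat_lit 192)) (PT.lf (nat_lit 18924) (nat_lit 6) (nat_lit 249) (nat_lit 5) (nat_lit 136) (nat_lit 183) (nat_lit 191)))))) (PT.nd (nat_lit 312) (PT.nd (nat_lit 156) (PT.nd (nat_lit 78) (PT.lf (nat_lit 19380) (nat_lit 6) (nat_lit 255) (nat_lit 5) (nat_lit 137) (nat_lit 183) (nat_lit 190)) (PT.lf (nat_lit 19836) (nat_lit 6) (nat_lit 261) (nat_lit 5) (nat_lit 138) (nat_lit 183) (nat_lit 189))) (PT.nd (nat_lit 78) (PT.lf (nat_lit 20292) (nat_lit 6) (nat_lit 267) (nat_lit 5) (nat_lit 139) (nat_lit 183) (nat_lit 188)) (PT.lf (nat_lit 20748) (nat_lit 6) (nat_lit 273) (nat_lit 5) (nat_lit 140) (nat_lit 183) (nat_lit 187)))) (PT.nd (nat_lit 156) (PT.nd (nat_lit 78) (PT.lf (nat_lit 21280) (nat_lit 6) (nat_lit 280) (nat_lit 5) (nat_lit 141) (nat_lit 183) (nat_lit 186)) (PT.lf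 (nat_lit 21736) (nat_lit 6) (nat_lit 286) (nat_lit 5) (nat_lit 142) (nat_lit 183) (nat_lit 185))) (PT.nd (nat_lit 78) (PT.lf (nat_lit 22268) (nat_lit 6) (nat_lit 293) (nat_lit 5) (nat_lit 143) (nat_lit 183) (nat_lit 184)) (PT.nd (nat_lit 78) (PT.lf (nat_lit 22800) (nat_lit 3) (nat_lit 300) (nat_lit 4) (nat_lit 144) (nat_lit 183) (nat_lit 183)) (PT.lf (nat_lit 23332) (nat_lit 6) (nat_lit 307) (nat_lit 4) (nat_lit 145) (nat_lit 183) (nat_lit 182))))))) (PT.nd (nat_lit 702) (PT.nd (nat_lit 312) (PT.nd (nat_lit 156) (PT.nd (nat_lit 78) (PT.lf (nat_lit 23788) (nat_lit 6) (nat_lit 313) (nat_lit 4) (nat_lit 146) (nat_lit 183) (nat_lit 181)) (PT.lf (nat_lit 24320) (nat_lit 6) (nat_lit 320) (nat_lit 4) (nat_lit 147) (nat_lit 183) (nat_lit 180))) (PT.nd (nat_lit 78) (PT.lf (nat_lit 24852) (nat_lit 6) (nat_lit 327) (nat_lit 4) (nat_lit 148) (nat_lit 183) (nat_lit 179)) (PT.lf (nat_lit 25460) (nat_lit 6) (nat_lit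 335) (nat_lit 4) (nat_lit 149) (nat_lit 183) (nat_lit 178)))) (PT.nd (nat_lit 156) (PT.nd (nat_lit 78) (PT.lf (nat_lit 25992) (nat_lit 6) (nat_lit 342) (nat_lit 4) (nat_lit 150) (nat_lit 183) (nat_lit 177)) (PT.lf (nat_lit 26600) (nat_lit 6) (nat_lit 350) (nat_lit 4) (nat_lit 151) (nat_lit 183) (nat_lit 176))) (PT.nd (nat_lit 78) (PT.lf (nat_lit 27208) (nat_lit 6) (nat_lit 358) (nat_lit 4) (nat_lit 152) (nat_lit 183) (nat_lit 175)) (PT.nd (nat_lit 78) (PT.lf (nat_lit 28044) (nat_lit 6) (nat_lit 369) (nat_lit 4) (nat_lit 153) (nat_lit 183) (nat_lit 174)) (PT.lf (nat_lit 29260) (nat_lit 6) (nat_lit 385) (nat_lit 4) (nat_lit 154) (nat_lit 183) (nat_lit 173)))))) (PT.nd (nat_lit 312) (PT.nd (nat_lit 156) (PT.nd (nat_lit 78) (PT.lf (nat_lit 30400) (nat_lit 6) (nat_lit 400) (nat_lit 4) (nat_lit 155) (nat_lit 183) (nat_lit 172)) (PT.lf (nat_lit 31464) (nat_lit 6) (nat_lit 414) (nat_lit 4) (nat_lit 156) (nat_lit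 183) (nat_lit 171))) (PT.nd (nat_lit 78) (PT.lf (nat_lit 32452) (nat_lit 6) (nat_lit 427) (nat_lit 4) (nat_lit 157) (nat_lit 183) (nat_lit 170)) (PT.lf (nat_lit 32376) (nat_lit 6) (nat_lit 426) (nat_lit 4) (nat_lit 158) (nat_lit 183) (nat_lit 169)))) (PT.nd (nat_lit 156) (PT.nd (nat_lit 78) (PT.lf (nat_lit 32300) (nat_lit 6) (nat_lit 425) (nat_lit 4) (nat_lit 159) (nat_lit 183) (nat_lit 168)) (PT.lf (nat_lit 32224) (nat_lit 6) (nat_lit 424) (nat_lit 4) (nat_lit 160) (nat_lit 183) (nat_lit 167))) (PT.nd (nat_lit 78) (PT.lf (nat_lit 32148) (nat_lit 6) (nat_lit 423) (nat_lit 4) (nat_lit 161) (nat_lit 183) (nat_lit 166)) (PT.nd (nat_lit 78) (PT.lf (nat_lit 32072) (nat_lit 6) (nat_lit 422) (nat_lit 4) (nat_lit 162) (nat_lit 183) (nat_lit 165)) (PT.lf (nat_lit 31996) (nat_lit 6) (nat_lit 421) (nat_lit 4) (nat_lit 163) (nat_lit 183) (nat_lit 164))))))))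
noncomputable def pc42 : PT := (PT.nd (nat_lit 1326) (PT.nd (nat_lit 624) (PT.nd (nat_lit 312) (PT.nd (nat_lit 156) (PT.nd (nat_lit 78) (PT.lf (nat_lit 31996) (nat_lit 6) (nat_lit 421) (nat_lit 2) (nat_lit 164) (nat_lit 183) (nat_lit 163)) (PT.lf (nat_lit 32072) (nat_lit 6) (nat_lit 422) (nat_lit 2) (nat_lit 165) (nat_lit 183) (nat_lit 162))) (PT.nd (nat_lit 78) (PT.lf (nat_lit 32148) (nat_lit 6) (nat_lit 423) (nat_lit 2) (nat_lit 166) (nat_lit 183) (nat_lit 161)) (PT.lf (nat_lit 32224) (nat_lit 6) (nat_lit 424) (nat_lit 2) (nat_lit 167) (nat_lit 183) (nat_lit 160)))) (PT.nd (nat_lit 156) (PT.nd (nat_lit 78) (PT.lf (nat_lit 32300) (nat_lit 6) (nat_lit 425) (nat_lit 2) (nat_lit 168) (nat_lit 183) (nat_lit 159)) (PT.lf (nat_lit 32376) (nat_lit 6) (nat_lit 426) (nat_lit 2) (nat_lit 169) (nat_lit 183) (nat_lit 158))) (PT.nd (nat_lit 78) (PT.lf (nat_lit 32452) (nat_lit 6) (nat_lit 427) (nat_lit 2) (nat_lit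 170) (nat_lit 183) (nat_lit 157)) (PT.lf (nat_lit 31464) (nat_lit 6) (nat_lit 414) (nat_lit 2) (nat_lit 171) (nat_lit 183) (nat_lit 156))))) (PT.nd (nat_lit 312) (PT.nd (nat_lit 156) (PT.nd (nat_lit 78) (PT.lf (nat_lit 30400) (nat_lit 6) (nat_lit 400) (nat_lit 2) (nat_lit 172) (nat_lit 183) (nat_lit 155)) (PT.lf (nat_lit 29260) (nat_lit 6) (nat_lit 385) (nat_lit 2) (nat_lit 173) (nat_lit 183) (nat_lit 154))) (PT.nd (nat_lit 78) (PT.lf (nat_lit 28044) (nat_lit 6) (nat_lit 369) (nat_lit 2) (nat_lit 174) (nat_lit 183) (nat_lit 153)) (PT.lf (nat_lit 27208) (nat_lit 6) (nat_lit 358) (nat_lit 2) (nat_lit 175) (nat_lit 183) (nat_lit 152)))) (PT.nd (nat_lit 156) (PT.nd (nat_lit 78) (PT.lf (nat_lit 26600) (nat_lit 6) (nat_lit 350) (nat_lit 2) (nat_lit 176) (nat_lit 183) (nat_lit 151)) (PT.lf (nat_lit 25992) (nat_lit 6) (nat_lit 342) (nat_lit 2) (nat_lit 177) (nat_lit 183) (nat_lit 150))) (PT.nd (nat_lit 78) (PT.lf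 (nat_lit 25460) (nat_lit 6) (nat_lit 335) (nat_lit 2) (nat_lit 178) (nat_lit 183) (nat_lit 149)) (PT.nd (nat_lit 78) (PT.lf (nat_lit 24852) (nat_lit 6) (nat_lit 327) (nat_lit 2) (nat_lit 179) (nat_lit 183) (nat_lit 148)) (PT.lf (nat_lit 24320) (nat_lit 6) (nat_lit 320) (nat_lit 2) (nat_lit 180) (nat_lit 183) (nat_lit 147))))))) (PT.nd (nat_lit 702) (PT.nd (nat_lit 312) (PT.nd (nat_lit 156) (PT.nd (nat_lit 78) (PT.lf (nat_lit 23788) (nat_lit 6) (nat_lit 313) (nat_lit 2) (nat_lit 181) (nat_lit 183) (nat_lit 146)) (PT.lf (nat_lit 23332) (nat_lit 6) (nat_lit 307) (nat_lit 2) (nat_lit 182) (nat_lit 183) (nat_lit 145))) (PT.nd (nat_lit 78) (PT.lf (nat_lit 22800) (nat_lit 3) (nat_lit 300) (nat_lit 0) (nat_lit 183) (nat_lit 183) (nat_lit 144)) (PT.lf (nat_lit 22268) (nat_lit 6) (nat_lit 293) (nat_lit 0) (nat_lit 184) (nat_lit 183) (nat_lit 143)))) (PT.nd (nat_lit 156) (PT.nd (nat_lit 78) (PT.lf (nat_lit 21736)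 (nat_lit 6) (nat_lit 286) (nat_lit 0) (nat_lit 185) (nat_lit 183) (nat_lit 142)) (PT.lf (nat_lit 21280) (nat_lit 6) (nat_lit 280) (nat_lit 0) (nat_lit 186) (nat_lit 183) (nat_lit 141))) (PT.nd (nat_lit 78) (PT.lf (nat_lit 20748) (nat_lit 6) (nat_lit 273) (nat_lit 0) (nat_lit 187) (nat_lit 183) (nat_lit 140)) (PT.nd (nat_lit 78) (PT.lf (nat_lit 20292) (nat_lit 6) (nat_lit 267) (nat_lit 0) (nat_lit 188) (nat_lit 183) (nat_lit 139)) (PT.lf (nat_lit 19836) (nat_lit 6) (nat_lit 261) (nat_lit 0) (nat_lit 189) (nat_lit 183) (nat_lit 138)))))) (PT.nd (nat_lit 48828) (PT.nd (nat_lit 156) (PT.nd (nat_lit 78) (PT.lf (nat_lit 19380) (nat_lit 6) (nat_lit 255) (nat_lit 0) (nat_lit 190) (nat_lit 183) (nat_lit 137)) (PT.lf (nat_lit 18924) (nat_lit 6) (nat_lit 249) (nat_lit 0) (nat_lit 191) (nat_lit 183) (nat_lit 136))) (PT.nd (nat_lit 48594) (PT.lf (nat_lit 18544) (nat_lit 6) (nat_lit 244) (nat_lit 0) (nat_lit 192)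 (nat_lit 183) (nat_lit 135)) (PT.lf (nat_lit 18164) (nat_lit 6) (nat_lit 239) (nat_lit 5) (nat_lit 134) (nat_lit 184) (nat_lit 192)))) (PT.nd (nat_lit 156) (PT.nd (nat_lit 78) (PT.lf (nat_lit 18620) (nat_lit 6) (nat_lit 245) (nat_lit 5) (nat_lit 135) (nat_lit 184) (nat_lit 191)) (PT.lf (nat_lit 19000) (nat_lit 6) (nat_lit 250) (nat_lit 5) (nat_lit 136) (nat_lit 184) (nat_lit 190))) (PT.nd (nat_lit 78) (PT.lf (nat_lit 19456) (nat_lit 6) (nat_lit 256) (nat_lit 5) (nat_lit 137) (nat_lit 184) (nat_lit 189)) (PT.nd (nat_lit 78) (PT.lf (nat_lit 19912) (nat_lit 6) (nat_lit 262) (nat_lit 5) (nat_lit 138) (nat_lit 184) (nat_lit 188)) (PT.lf (nat_lit 20368) (nat_lit 6) (nat_lit 268) (nat_lit 5) (nat_lit 139) (nat_lit 184) (nat_lit 187))))))))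
noncomputable def pc43 : PT := (PT.nd (nat_lit 1404) (PT.nd (nat_lit 702) (PT.nd (nat_lit 312) (PT.nd (nat_lit 156) (PT.nd (nat_lit 78) (PT.lf (nat_lit 20824) (nat_lit 6) (nat_lit 274) (nat_lit 5) (nat_lit 140) (nat_lit 184) (nat_lit 186)) (PT.lf (nat_lit 21356) (nat_lit 6) (nat_lit 281) (nat_lit 5) (nat_lit 141) (nat_lit 184) (nat_lit 185))) (PT.nd (nat_lit 78) (PT.lf (nat_lit 21812) (nat_lit 3) (nat_lit 287) (nat_lit 4) (nat_lit 142) (nat_lit 184) (nat_lit 184)) (PT.lf (nat_lit 22268) (nat_lit 6) (nat_lit 293) (nat_lit 4) (nat_lit 143) (nat_lit 184) (nat_lit 183)))) (PT.nd (nat_lit 156) (PT.nd (nat_lit 78) (PT.lf (nat_lit 22724) (nat_lit 6) (nat_lit 299) (nat_lit 4) (nat_lit 144) (nat_lit 184) (nat_lit 182)) (PT.lf (nat_lit 23256) (nat_lit 6) (nat_lit 306) (nat_lit 4) (nat_lit 145) (nat_lit 184) (nat_lit 181))) (PT.nd (nat_lit 78) (PT.lf (nat_lit 23712) (nat_lit 6) (nat_lit 312) (nat_lit 4) (nat_lit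 146) (nat_lit 184) (nat_lit 180)) (PT.nd (nat_lit 78) (PT.lf (nat_lit 24244) (nat_lit 6) (nat_lit 319) (nat_lit 4) (nat_lit 147) (nat_lit 184) (nat_lit 179)) (PT.lf (nat_lit 24776) (nat_lit 6) (nat_lit 326) (nat_lit 4) (nat_lit 148) (nat_lit 184) (nat_lit 178)))))) (PT.nd (nat_lit 312) (PT.nd (nat_lit 156) (PT.nd (nat_lit 78) (PT.lf (nat_lit 25384) (nat_lit 6) (nat_lit 334) (nat_lit 4) (nat_lit 149) (nat_lit 184) (nat_lit 177)) (PT.lf (nat_lit 25916) (nat_lit 6) (nat_lit 341) (nat_lit 4) (nat_lit 150) (nat_lit 184) (nat_lit 176))) (PT.nd (nat_lit 78) (PT.lf (nat_lit 26524) (nat_lit 6) (nat_lit 349) (nat_lit 4) (nat_lit 151) (nat_lit 184) (nat_lit 175)) (PT.lf (nat_lit 27132) (nat_lit 6) (nat_lit 357) (nat_lit 4) (nat_lit 152) (nat_lit 184) (nat_lit 174)))) (PT.nd (nat_lit 156) (PT.nd (nat_lit 78) (PT.lf (nat_lit 27968) (nat_lit 6) (nat_lit 368) (nat_lit 4) (nat_lit 153) (nat_lit 184) (nat_lit 173)) (PT.lf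 (nat_lit 29184) (nat_lit 6) (nat_lit 384) (nat_lit 4) (nat_lit 154) (nat_lit 184) (nat_lit 172))) (PT.nd (nat_lit 78) (PT.lf (nat_lit 30324) (nat_lit 6) (nat_lit 399) (nat_lit 4) (nat_lit 155) (nat_lit 184) (nat_lit 171)) (PT.nd (nat_lit 78) (PT.lf (nat_lit 31388) (nat_lit 6) (nat_lit 413) (nat_lit 4) (nat_lit 156) (nat_lit 184) (nat_lit 170)) (PT.lf (nat_lit 31312) (nat_lit 6) (nat_lit 412) (nat_lit 4) (nat_lit 157) (nat_lit 184) (nat_lit 169))))))) (PT.nd (nat_lit 702) (PT.nd (nat_lit 312) (PT.nd (nat_lit 156) (PT.nd (nat_lit 78) (PT.lf (nat_lit 31236) (nat_lit 6) (nat_lit 411) (nat_lit 4) (nat_lit 158) (nat_lit 184) (nat_lit 168)) (PT.lf (nat_lit 31160) (nat_lit 6) (nat_lit 410) (nat_lit 4) (nat_lit 159) (nat_lit 184) (nat_lit 167))) (PT.nd (nat_lit 78) (PT.lf (nat_lit 31084) (nat_lit 6) (nat_lit 409) (nat_lit 4) (nat_lit 160) (nat_lit 184) (nat_lit 166)) (PT.lf (nat_lit 31008) (nat_lit 6) (nat_lit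 408) (nat_lit 4) (nat_lit 161) (nat_lit 184) (nat_lit 165)))) (PT.nd (nat_lit 156) (PT.nd (nat_lit 78) (PT.lf (nat_lit 30932) (nat_lit 6) (nat_lit 407) (nat_lit 4) (nat_lit 162) (nat_lit 184) (nat_lit 164)) (PT.lf (nat_lit 30856) (nat_lit 3) (nat_lit 406) (nat_lit 2) (nat_lit 163) (nat_lit 184) (nat_lit 163))) (PT.nd (nat_lit 78) (PT.lf (nat_lit 30932) (nat_lit 6) (nat_lit 407) (nat_lit 2) (nat_lit 164) (nat_lit 184) (nat_lit 162)) (PT.nd (nat_lit 78) (PT.lf (nat_lit 31008) (nat_lit 6) (nat_lit 408) (nat_lit 2) (nat_lit 165) (nat_lit 184) (nat_lit 161)) (PT.lf (nat_lit 31084) (nat_lit 6) (nat_lit 409) (nat_lit 2) (nat_lit 166) (nat_lit 184) (nat_lit 160)))))) (PT.nd (nat_lit 312) (PT.nd (nat_lit 156) (PT.nd (nat_lit 78) (PT.lf (nat_lit 31160) (nat_lit 6) (nat_lit 410) (nat_lit 2) (nat_lit 167) (nat_lit 184) (nat_lit 159)) (PT.lf (nat_lit 31236) (nat_lit 6) (nat_lit 411) (nat_lit 2) (nat_lit 168) (nat_lit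 184) (nat_lit 158))) (PT.nd (nat_lit 78) (PT.lf (nat_lit 31312) (nat_lit 6) (nat_lit 412) (nat_lit 2) (nat_lit 169) (nat_lit 184) (nat_lit 157)) (PT.lf (nat_lit 31388) (nat_lit 6) (nat_lit 413) (nat_lit 2) (nat_lit 170) (nat_lit 184) (nat_lit 156)))) (PT.nd (nat_lit 156) (PT.nd (nat_lit 78) (PT.lf (nat_lit 30324) (nat_lit 6) (nat_lit 399) (nat_lit 2) (nat_lit 171) (nat_lit 184) (nat_lit 155)) (PT.lf (nat_lit 29184) (nat_lit 6) (nat_lit 384) (nat_lit 2) (nat_lit 172) (nat_lit 184) (nat_lit 154))) (PT.nd (nat_lit 78) (PT.lf (nat_lit 27968) (nat_lit 6) (nat_lit 368) (nat_lit 2) (nat_lit 173) (nat_lit 184) (nat_lit 153)) (PT.nd (nat_lit 78) (PT.lf (nat_lit 27132) (nat_lit 6) (nat_lit 357) (nat_lit 2) (nat_lit 174) (nat_lit 184) (nat_lit 152)) (PT.lf (nat_lit 26524) (nat_lit 6) (nat_lit 349) (nat_lit 2) (nat_lit 175) (nat_lit 184) (nat_lit 151))))))))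
noncomputable def pc44 : PT := (PT.nd (nat_lit 49686) (PT.nd (nat_lit 624) (PT.nd (nat_lit 312) (PT.nd (nat_lit 156) (PT.nd (nat_lit 78) (PT.lf (nat_lit 25916) (nat_lit 6) (nat_lit 341) (nat_lit 2) (nat_lit 176) (nat_lit 184) (nat_lit 150)) (PT.lf (nat_lit 25384) (nat_lit 6) (nat_lit 334) (nat_lit 2) (nat_lit 177) (nat_lit 184) (nat_lit 149))) (PT.nd (nat_lit 78) (PT.lf (nat_lit 24776) (nat_lit 6) (nat_lit 326) (nat_lit 2) (nat_lit 178) (nat_lit 184) (nat_lit 148)) (PT.lf (nat_lit 24244) (nat_lit 6) (nat_lit 319) (nat_lit 2) (nat_lit 179) (nat_lit 184) (nat_lit 147)))) (PT.nd (nat_lit 156) (PT.nd (nat_lit 78) (PT.lf (nat_lit 23712) (nat_lit 6) (nat_lit 312) (nat_lit 2) (nat_lit 180) (nat_lit 184) (nat_lit 146)) (PT.lf (nat_lit 23256) (nat_lit 6) (nat_lit 306) (nat_lit 2) (nat_lit 181) (nat_lit 184) (nat_lit 145))) (PT.nd (nat_lit 78) (PT.lf (nat_lit 22724) (nat_lit 6) (nat_lit 299) (nat_lit 2) (nat_lit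 182) (nat_lit 184) (nat_lit 144)) (PT.lf (nat_lit 22268) (nat_lit 6) (nat_lit 293) (nat_lit 2) (nat_lit 183) (nat_lit 184) (nat_lit 143))))) (PT.nd (nat_lit 312) (PT.nd (nat_lit 156) (PT.nd (nat_lit 78) (PT.lf (nat_lit 21812) (nat_lit 3) (nat_lit 287) (nat_lit 0) (nat_lit 184) (nat_lit 184) (nat_lit 142)) (PT.lf (nat_lit 21356) (nat_lit 6) (nat_lit 281) (nat_lit 0) (nat_lit 185) (nat_lit 184) (nat_lit 141))) (PT.nd (nat_lit 78) (PT.lf (nat_lit 20824) (nat_lit 6) (nat_lit 274) (nat_lit 0) (nat_lit 186) (nat_lit 184) (nat_lit 140)) (PT.lf (nat_lit 20368) (nat_lit 6) (nat_lit 268) (nat_lit 0) (nat_lit 187) (nat_lit 184) (nat_lit 139)))) (PT.nd (nat_lit 156) (PT.nd (nat_lit 78) (PT.lf (nat_lit 19912) (nat_lit 6) (nat_lit 262) (nat_lit 0) (nat_lit 188) (nat_lit 184) (nat_lit 138)) (PT.lf (nat_lit 19456) (nat_lit 6) (nat_lit 256) (nat_lit 0) (nat_lit 189) (nat_lit 184) (nat_lit 137))) (PT.nd (nat_lit 78) (PT.lf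 (nat_lit 19000) (nat_lit 6) (nat_lit 250) (nat_lit 0) (nat_lit 190) (nat_lit 184) (nat_lit 136)) (PT.nd (nat_lit 78) (PT.lf (nat_lit 18620) (nat_lit 6) (nat_lit 245) (nat_lit 0) (nat_lit 191) (nat_lit 184) (nat_lit 135)) (PT.lf (nat_lit 18164) (nat_lit 6) (nat_lit 239) (nat_lit 0) (nat_lit 192) (nat_lit 184) (nat_lit 134))))))) (PT.nd (nat_lit 702) (PT.nd (nat_lit 312) (PT.nd (nat_lit 156) (PT.nd (nat_lit 78) (PT.lf (nat_lit 17480) (nat_lit 6) (nat_lit 230) (nat_lit 5) (nat_lit 132) (nat_lit 185) (nat_lit 193)) (PT.lf (nat_lit 17860) (nat_lit 6) (nat_lit 235) (nat_lit 5) (nat_lit 133) (nat_lit 185) (nat_lit 192))) (PT.nd (nat_lit 78) (PT.lf (nat_lit 18240) (nat_lit 6) (nat_lit 240) (nat_lit 5) (nat_lit 134) (nat_lit 185) (nat_lit 191)) (PT.lf (nat_lit 18696) (nat_lit 6) (nat_lit 246) (nat_lit 5) (nat_lit 135) (nat_lit 185) (nat_lit 190)))) (PT.nd (nat_lit 156) (PT.nd (nat_lit 78) (PT.lf (nat_lit 19076)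 (nat_lit 6) (nat_lit 251) (nat_lit 5) (nat_lit 136) (nat_lit 185) (nat_lit 189)) (PT.lf (nat_lit 19532) (nat_lit 6) (nat_lit 257) (nat_lit 5) (nat_lit 137) (nat_lit 185) (nat_lit 188))) (PT.nd (nat_lit 78) (PT.lf (nat_lit 19988) (nat_lit 6) (nat_lit 263) (nat_lit 5) (nat_lit 138) (nat_lit 185) (nat_lit 187)) (PT.nd (nat_lit 78) (PT.lf (nat_lit 20444) (nat_lit 6) (nat_lit 269) (nat_lit 5) (nat_lit 139) (nat_lit 185) (nat_lit 186)) (PT.lf (nat_lit 20900) (nat_lit 3) (nat_lit 275) (nat_lit 4) (nat_lit 140) (nat_lit 185) (nat_lit 185)))))) (PT.nd (nat_lit 312) (PT.nd (nat_lit 156) (PT.nd (nat_lit 78) (PT.lf (nat_lit 21356) (nat_lit 6) (nat_lit 281) (nat_lit 4) (nat_lit 141) (nat_lit 185) (nat_lit 184)) (PT.lf (nat_lit 21736) (nat_lit 6) (nat_lit 286) (nat_lit 4) (nat_lit 142) (nat_lit 185) (nat_lit 183))) (PT.nd (nat_lit 78) (PT.lf (nat_lit 22192) (nat_lit 6) (nat_lit 292) (nat_lit 4) (nat_lit 143) (nat_lit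 185) (nat_lit 182)) (PT.lf (nat_lit 22648) (nat_lit 6) (nat_lit 298) (nat_lit 4) (nat_lit 144) (nat_lit 185) (nat_lit 181)))) (PT.nd (nat_lit 156) (PT.nd (nat_lit 78) (PT.lf (nat_lit 23180) (nat_lit 6) (nat_lit 305) (nat_lit 4) (nat_lit 145) (nat_lit 185) (nat_lit 180)) (PT.lf (nat_lit 23636) (nat_lit 6) (nat_lit 311) (nat_lit 4) (nat_lit 146) (nat_lit 185) (nat_lit 179))) (PT.nd (nat_lit 78) (PT.lf (nat_lit 24168) (nat_lit 6) (nat_lit 318) (nat_lit 4) (nat_lit 147) (nat_lit 185) (nat_lit 178)) (PT.nd (nat_lit 78) (PT.lf (nat_lit 24700) (nat_lit 6) (nat_lit 325) (nat_lit 4) (nat_lit 148) (nat_lit 185) (nat_lit 177)) (PT.lf (nat_lit 25308) (nat_lit 6) (nat_lit 333) (nat_lit 4) (nat_lit 149) (nat_lit 185) (nat_lit 176))))))))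
noncomputable def pc45 : PT := (PT.nd (nat_lit 1404) (PT.nd (nat_lit 702) (PT.nd (nat_lit 312) (PT.nd (nat_lit 156) (PT.nd (nat_lit 78) (PT.lf (nat_lit 25840) (nat_lit 6) (nat_lit 340) (nat_lit 4) (nat_lit 150) (nat_lit 185) (nat_lit 175)) (PT.lf (nat_lit 26448) (nat_lit 6) (nat_lit 348) (nat_lit 4) (nat_lit 151) (nat_lit 185) (nat_lit 174))) (PT.nd (nat_lit 78) (PT.lf (nat_lit 27056) (nat_lit 6) (nat_lit 356) (nat_lit 4) (nat_lit 152) (nat_lit 185) (nat_lit 173)) (PT.lf (nat_lit 27892) (nat_lit 6) (nat_lit 367) (nat_lit 4) (nat_lit 153) (nat_lit 185) (nat_lit 172)))) (PT.nd (nat_lit 156) (PT.nd (nat_lit 78) (PT.lf (nat_lit 29108) (nat_lit 6) (nat_lit 383) (nat_lit 4) (nat_lit 154) (nat_lit 185) (nat_lit 171)) (PT.lf (nat_lit 30248) (nat_lit 6) (nat_lit 398) (nat_lit 4) (nat_lit 155) (nat_lit 185) (nat_lit 170))) (PT.nd (nat_lit 78) (PT.lf (nat_lit 30172) (nat_lit 6) (nat_lit 397) (nat_lit 4) (nat_lit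 156) (nat_lit 185) (nat_lit 169)) (PT.nd (nat_lit 78) (PT.lf (nat_lit 30096) (nat_lit 6) (nat_lit 396) (nat_lit 4) (nat_lit 157) (nat_lit 185) (nat_lit 168)) (PT.lf (nat_lit 30020) (nat_lit 6) (nat_lit 395) (nat_lit 4) (nat_lit 158) (nat_lit 185) (nat_lit 167)))))) (PT.nd (nat_lit 312) (PT.nd (nat_lit 156) (PT.nd (nat_lit 78) (PT.lf (nat_lit 29944) (nat_lit 6) (nat_lit 394) (nat_lit 4) (nat_lit 159) (nat_lit 185) (nat_lit 166)) (PT.lf (nat_lit 29868) (nat_lit 6) (nat_lit 393) (nat_lit 4) (nat_lit 160) (nat_lit 185) (nat_lit 165))) (PT.nd (nat_lit 78) (PT.lf (nat_lit 29792) (nat_lit 6) (nat_lit 392) (nat_lit 4) (nat_lit 161) (nat_lit 185) (nat_lit 164)) (PT.lf (nat_lit 29716) (nat_lit 6) (nat_lit 391) (nat_lit 4) (nat_lit 162) (nat_lit 185) (nat_lit 163)))) (PT.nd (nat_lit 156) (PT.nd (nat_lit 78) (PT.lf (nat_lit 29716) (nat_lit 6) (nat_lit 391) (nat_lit 2) (nat_lit 163) (nat_lit 185) (nat_lit 162)) (PT.lf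 (nat_lit 29792) (nat_lit 6) (nat_lit 392) (nat_lit 2) (nat_lit 164) (nat_lit 185) (nat_lit 161))) (PT.nd (nat_lit 78) (PT.lf (nat_lit 29868) (nat_lit 6) (nat_lit 393) (nat_lit 2) (nat_lit 165) (nat_lit 185) (nat_lit 160)) (PT.nd (nat_lit 78) (PT.lf (nat_lit 29944) (nat_lit 6) (nat_lit 394) (nat_lit 2) (nat_lit 166) (nat_lit 185) (nat_lit 159)) (PT.lf (nat_lit 30020) (nat_lit 6) (nat_lit 395) (nat_lit 2) (nat_lit 167) (nat_lit 185) (nat_lit 158))))))) (PT.nd (nat_lit 702) (PT.nd (nat_lit 312) (PT.nd (nat_lit 156) (PT.nd (nat_lit 78) (PT.lf (nat_lit 30096) (nat_lit 6) (nat_lit 396) (nat_lit 2) (nat_lit 168) (nat_lit 185) (nat_lit 157)) (PT.lf (nat_lit 30172) (nat_lit 6) (nat_lit 397) (nat_lit 2) (nat_lit 169) (nat_lit 185) (nat_lit 156))) (PT.nd (nat_lit 78) (PT.lf (nat_lit 30248) (nat_lit 6) (nat_lit 398) (nat_lit 2) (nat_lit 170) (nat_lit 185) (nat_lit 155)) (PT.lf (nat_lit 29108) (nat_lit 6) (nat_lit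 383) (nat_lit 2) (nat_lit 171) (nat_lit 185) (nat_lit 154)))) (PT.nd (nat_lit 156) (PT.nd (nat_lit 78) (PT.lf (nat_lit 27892) (nat_lit 6) (nat_lit 367) (nat_lit 2) (nat_lit 172) (nat_lit 185) (nat_lit 153)) (PT.lf (nat_lit 27056) (nat_lit 6) (nat_lit 356) (nat_lit 2) (nat_lit 173) (nat_lit 185) (nat_lit 152))) (PT.nd (nat_lit 78) (PT.lf (nat_lit 26448) (nat_lit 6) (nat_lit 348) (nat_lit 2) (nat_lit 174) (nat_lit 185) (nat_lit 151)) (PT.nd (nat_lit 78) (PT.lf (nat_lit 25840) (nat_lit 6) (nat_lit 340) (nat_lit 2) (nat_lit 175) (nat_lit 185) (nat_lit 150)) (PT.lf (nat_lit 25308) (nat_lit 6) (nat_lit 333) (nat_lit 2) (nat_lit 176) (nat_lit 185) (nat_lit 149)))))) (PT.nd (nat_lit 312) (PT.nd (nat_lit 156) (PT.nd (nat_lit 78) (PT.lf (nat_lit 24700) (nat_lit 6) (nat_lit 325) (nat_lit 2) (nat_lit 177) (nat_lit 185) (nat_lit 148)) (PT.lf (nat_lit 24168) (nat_lit 6) (nat_lit 318) (nat_lit 2) (nat_lit 178) (nat_lit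 185) (nat_lit 147))) (PT.nd (nat_lit 78) (PT.lf (nat_lit 23636) (nat_lit 6) (nat_lit 311) (nat_lit 2) (nat_lit 179) (nat_lit 185) (nat_lit 146)) (PT.lf (nat_lit 23180) (nat_lit 6) (nat_lit 305) (nat_lit 2) (nat_lit 180) (nat_lit 185) (nat_lit 145)))) (PT.nd (nat_lit 156) (PT.nd (nat_lit 78) (PT.lf (nat_lit 22648) (nat_lit 6) (nat_lit 298) (nat_lit 2) (nat_lit 181) (nat_lit 185) (nat_lit 144)) (PT.lf (nat_lit 22192) (nat_lit 6) (nat_lit 292) (nat_lit 2) (nat_lit 182) (nat_lit 185) (nat_lit 143))) (PT.nd (nat_lit 78) (PT.lf (nat_lit 21736) (nat_lit 6) (nat_lit 286) (nat_lit 2) (nat_lit 183) (nat_lit 185) (nat_lit 142)) (PT.nd (nat_lit 78) (PT.lf (nat_lit 21356) (nat_lit 6) (nat_lit 281) (nat_lit 2) (nat_lit 184) (nat_lit 185) (nat_lit 141)) (PT.lf (nat_lit 20900) (nat_lit 3) (nat_lit 275) (nat_lit 0) (nat_lit 185) (nat_lit 185) (nat_lit 140))))))))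
noncomputable def pc46 : PT := (PT.nd (nat_lit 49530) (PT.nd (nat_lit 48828) (PT.nd (nat_lit 312) (PT.nd (nat_lit 156) (PT.nd (nat_lit 78) (PT.lf (nat_lit 20444) (nat_lit 6) (nat_lit 269) (nat_lit 0) (nat_lit 186) (nat_lit 185) (nat_lit 139)) (PT.lf (nat_lit 19988) (nat_lit 6) (nat_lit 263) (nat_lit 0) (nat_lit 187) (nat_lit 185) (nat_lit 138))) (PT.nd (nat_lit 78) (PT.lf (nat_lit 19532) (nat_lit 6) (nat_lit 257) (nat_lit 0) (nat_lit 188) (nat_lit 185) (nat_lit 137)) (PT.lf (nat_lit 19076) (nat_lit 6) (nat_lit 251) (nat_lit 0) (nat_lit 189) (nat_lit 185) (nat_lit 136)))) (PT.nd (nat_lit 156) (PT.nd (nat_lit 78) (PT.lf (nat_lit 18696) (nat_lit 6) (nat_lit 246) (nat_lit 0) (nat_lit 190) (nat_lit 185) (nat_lit 135)) (PT.lf (nat_lit 18240) (nat_lit 6) (nat_lit 240) (nat_lit 0) (nat_lit 191) (nat_lit 185) (nat_lit 134))) (PT.nd (nat_lit 78) (PT.lf (nat_lit 17860) (nat_lit 6) (nat_lit 235) (nat_lit 0) (nat_lit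 192) (nat_lit 185) (nat_lit 133)) (PT.lf (nat_lit 17480) (nat_lit 6) (nat_lit 230) (nat_lit 0) (nat_lit 193) (nat_lit 185) (nat_lit 132))))) (PT.nd (nat_lit 312) (PT.nd (nat_lit 156) (PT.nd (nat_lit 78) (PT.lf (nat_lit 17176) (nat_lit 6) (nat_lit 226) (nat_lit 5) (nat_lit 131) (nat_lit 186) (nat_lit 193)) (PT.lf (nat_lit 17556) (nat_lit 6) (nat_lit 231) (nat_lit 5) (nat_lit 132) (nat_lit 186) (nat_lit 192))) (PT.nd (nat_lit 78) (PT.lf (nat_lit 17936) (nat_lit 6) (nat_lit 236) (nat_lit 5) (nat_lit 133) (nat_lit 186) (nat_lit 191)) (PT.lf (nat_lit 18316) (nat_lit 6) (nat_lit 241) (nat_lit 5) (nat_lit 134) (nat_lit 186) (nat_lit 190)))) (PT.nd (nat_lit 156) (PT.nd (nat_lit 78) (PT.lf (nat_lit 18772) (nat_lit 6) (nat_lit 247) (nat_lit 5) (nat_lit 135) (nat_lit 186) (nat_lit 189)) (PT.lf (nat_lit 19152) (nat_lit 6) (nat_lit 252) (nat_lit 5) (nat_lit 136) (nat_lit 186) (nat_lit 188))) (PT.nd (nat_lit 78) (PT.lf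 (nat_lit 19608) (nat_lit 6) (nat_lit 258) (nat_lit 5) (nat_lit 137) (nat_lit 186) (nat_lit 187)) (PT.nd (nat_lit 78) (PT.lf (nat_lit 20064) (nat_lit 3) (nat_lit 264) (nat_lit 4) (nat_lit 138) (nat_lit 186) (nat_lit 186)) (PT.lf (nat_lit 20444) (nat_lit 6) (nat_lit 269) (nat_lit 4) (nat_lit 139) (nat_lit 186) (nat_lit 185))))))) (PT.nd (nat_lit 702) (PT.nd (nat_lit 312) (PT.nd (nat_lit 156) (PT.nd (nat_lit 78) (PT.lf (nat_lit 20824) (nat_lit 6) (nat_lit 274) (nat_lit 4) (nat_lit 140) (nat_lit 186) (nat_lit 184)) (PT.lf (nat_lit 21280) (nat_lit 6) (nat_lit 280) (nat_lit 4) (nat_lit 141) (nat_lit 186) (nat_lit 183))) (PT.nd (nat_lit 78) (PT.lf (nat_lit 21660) (nat_lit 6) (nat_lit 285) (nat_lit 4) (nat_lit 142) (nat_lit 186) (nat_lit 182)) (PT.lf (nat_lit 22116) (nat_lit 6) (nat_lit 291) (nat_lit 4) (nat_lit 143) (nat_lit 186) (nat_lit 181)))) (PT.nd (nat_lit 156) (PT.nd (nat_lit 78) (PT.lf (nat_lit 22572)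 (nat_lit 6) (nat_lit 297) (nat_lit 4) (nat_lit 144) (nat_lit 186) (nat_lit 180)) (PT.lf (nat_lit 23104) (nat_lit 6) (nat_lit 304) (nat_lit 4) (nat_lit 145) (nat_lit 186) (nat_lit 179))) (PT.nd (nat_lit 78) (PT.lf (nat_lit 23560) (nat_lit 6) (nat_lit 310) (nat_lit 4) (nat_lit 146) (nat_lit 186) (nat_lit 178)) (PT.nd (nat_lit 78) (PT.lf (nat_lit 24092) (nat_lit 6) (nat_lit 317) (nat_lit 4) (nat_lit 147) (nat_lit 186) (nat_lit 177)) (PT.lf (nat_lit 24624) (nat_lit 6) (nat_lit 324) (nat_lit 4) (nat_lit 148) (nat_lit 186) (nat_lit 176)))))) (PT.nd (nat_lit 312) (PT.nd (nat_lit 156) (PT.nd (nat_lit 78) (PT.lf (nat_lit 25232) (nat_lit 6) (nat_lit 332) (nat_lit 4) (nat_lit 149) (nat_lit 186) (nat_lit 175)) (PT.lf (nat_lit 25764) (nat_lit 6) (nat_lit 339) (nat_lit 4) (nat_lit 150) (nat_lit 186) (nat_lit 174))) (PT.nd (nat_lit 78) (PT.lf (nat_lit 26372) (nat_lit 6) (nat_lit 347) (nat_lit 4) (nat_lit 151) (nat_lit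 186) (nat_lit 173)) (PT.lf (nat_lit 26980) (nat_lit 6) (nat_lit 355) (nat_lit 4) (nat_lit 152) (nat_lit 186) (nat_lit 172)))) (PT.nd (nat_lit 156) (PT.nd (nat_lit 78) (PT.lf (nat_lit 27816) (nat_lit 6) (nat_lit 366) (nat_lit 4) (nat_lit 153) (nat_lit 186) (nat_lit 171)) (PT.lf (nat_lit 29032) (nat_lit 6) (nat_lit 382) (nat_lit 4) (nat_lit 154) (nat_lit 186) (nat_lit 170))) (PT.nd (nat_lit 78) (PT.lf (nat_lit 28956) (nat_lit 6) (nat_lit 381) (nat_lit 4) (nat_lit 155) (nat_lit 186) (nat_lit 169)) (PT.nd (nat_lit 78) (PT.lf (nat_lit 28880) (nat_lit 6) (nat_lit 380) (nat_lit 4) (nat_lit 156) (nat_lit 186) (nat_lit 168)) (PT.lf (nat_lit 28804) (nat_lit 6) (nat_lit 379) (nat_lit 4) (nat_lit 157) (nat_lit 186) (nat_lit 167))))))))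
noncomputable def pc47 : PT := (PT.nd (nat_lit 1404) (PT.nd (nat_lit 702) (PT.nd (nat_lit 312) (PT.nd (nat_lit 156) (PT.nd (nat_lit 78) (PT.lf (nat_lit 28728) (nat_lit 6) (nat_lit 378) (nat_lit 4) (nat_lit 158) (nat_lit 186) (nat_lit 166)) (PT.lf (nat_lit 28652) (nat_lit 6) (nat_lit 377) (nat_lit 4) (nat_lit 159) (nat_lit 186) (nat_lit 165))) (PT.nd (nat_lit 78) (PT.lf (nat_lit 28576) (nat_lit 6) (nat_lit 376) (nat_lit 4) (nat_lit 160) (nat_lit 186) (nat_lit 164)) (PT.lf (nat_lit 28500) (nat_lit 6) (nat_lit 375) (nat_lit 4) (nat_lit 161) (nat_lit 186) (nat_lit 163)))) (PT.nd (nat_lit 156) (PT.nd (nat_lit 78) (PT.lf (nat_lit 28424) (nat_lit 3) (nat_lit 374) (nat_lit 2) (nat_lit 162) (nat_lit 186) (nat_lit 162)) (PT.lf (nat_lit 28500) (nat_lit 6) (nat_lit 375) (nat_lit 2) (nat_lit 163) (nat_lit 186) (nat_lit 161))) (PT.nd (nat_lit 78) (PT.lf (nat_lit 28576) (nat_lit 6) (nat_lit 376) (nat_lit 2) (nat_lit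 164) (nat_lit 186) (nat_lit 160)) (PT.nd (nat_lit 78) (PT.lf (nat_lit 28652) (nat_lit 6) (nat_lit 377) (nat_lit 2) (nat_lit 165) (nat_lit 186) (nat_lit 159)) (PT.lf (nat_lit 28728) (nat_lit 6) (nat_lit 378) (nat_lit 2) (nat_lit 166) (nat_lit 186) (nat_lit 158)))))) (PT.nd (nat_lit 312) (PT.nd (nat_lit 156) (PT.nd (nat_lit 78) (PT.lf (nat_lit 28804) (nat_lit 6) (nat_lit 379) (nat_lit 2) (nat_lit 167) (nat_lit 186) (nat_lit 157)) (PT.lf (nat_lit 28880) (nat_lit 6) (nat_lit 380) (nat_lit 2) (nat_lit 168) (nat_lit 186) (nat_lit 156))) (PT.nd (nat_lit 78) (PT.lf (nat_lit 28956) (nat_lit 6) (nat_lit 381) (nat_lit 2) (nat_lit 169) (nat_lit 186) (nat_lit 155)) (PT.lf (nat_lit 29032) (nat_lit 6) (nat_lit 382) (nat_lit 2) (nat_lit 170) (nat_lit 186) (nat_lit 154)))) (PT.nd (nat_lit 156) (PT.nd (nat_lit 78) (PT.lf (nat_lit 27816) (nat_lit 6) (nat_lit 366) (nat_lit 2) (nat_lit 171) (nat_lit 186) (nat_lit 153)) (PT.lf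 (nat_lit 26980) (nat_lit 6) (nat_lit 355) (nat_lit 2) (nat_lit 172) (nat_lit 186) (nat_lit 152))) (PT.nd (nat_lit 78) (PT.lf (nat_lit 26372) (nat_lit 6) (nat_lit 347) (nat_lit 2) (nat_lit 173) (nat_lit 186) (nat_lit 151)) (PT.nd (nat_lit 78) (PT.lf (nat_lit 25764) (nat_lit 6) (nat_lit 339) (nat_lit 2) (nat_lit 174) (nat_lit 186) (nat_lit 150)) (PT.lf (nat_lit 25232) (nat_lit 6) (nat_lit 332) (nat_lit 2) (nat_lit 175) (nat_lit 186) (nat_lit 149))))))) (PT.nd (nat_lit 702) (PT.nd (nat_lit 312) (PT.nd (nat_lit 156) (PT.nd (nat_lit 78) (PT.lf (nat_lit 24624) (nat_lit 6) (nat_lit 324) (nat_lit 2) (nat_lit 176) (nat_lit 186) (nat_lit 148)) (PT.lf (nat_lit 24092) (nat_lit 6) (nat_lit 317) (nat_lit 2) (nat_lit 177) (nat_lit 186) (nat_lit 147))) (PT.nd (nat_lit 78) (PT.lf (nat_lit 23560) (nat_lit 6) (nat_lit 310) (nat_lit 2) (nat_lit 178) (nat_lit 186) (nat_lit 146)) (PT.lf (nat_lit 23104) (nat_lit 6) (nat_lit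 304) (nat_lit 2) (nat_lit 179) (nat_lit 186) (nat_lit 145)))) (PT.nd (nat_lit 156) (PT.nd (nat_lit 78) (PT.lf (nat_lit 22572) (nat_lit 6) (nat_lit 297) (nat_lit 2) (nat_lit 180) (nat_lit 186) (nat_lit 144)) (PT.lf (nat_lit 22116) (nat_lit 6) (nat_lit 291) (nat_lit 2) (nat_lit 181) (nat_lit 186) (nat_lit 143))) (PT.nd (nat_lit 78) (PT.lf (nat_lit 21660) (nat_lit 6) (nat_lit 285) (nat_lit 2) (nat_lit 182) (nat_lit 186) (nat_lit 142)) (PT.nd (nat_lit 78) (PT.lf (nat_lit 21280) (nat_lit 6) (nat_lit 280) (nat_lit 2) (nat_lit 183) (nat_lit 186) (nat_lit 141)) (PT.lf (nat_lit 20824) (nat_lit 6) (nat_lit 274) (nat_lit 2) (nat_lit 184) (nat_lit 186) (nat_lit 140)))))) (PT.nd (nat_lit 312) (PT.nd (nat_lit 156) (PT.nd (nat_lit 78) (PT.lf (nat_lit 20444) (nat_lit 6) (nat_lit 269) (nat_lit 2) (nat_lit 185) (nat_lit 186) (nat_lit 139)) (PT.lf (nat_lit 20064) (nat_lit 3) (nat_lit 264) (nat_lit 0) (nat_lit 186) (nat_lit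 186) (nat_lit 138))) (PT.nd (nat_lit 78) (PT.lf (nat_lit 19608) (nat_lit 6) (nat_lit 258) (nat_lit 0) (nat_lit 187) (nat_lit 186) (nat_lit 137)) (PT.lf (nat_lit 19152) (nat_lit 6) (nat_lit 252) (nat_lit 0) (nat_lit 188) (nat_lit 186) (nat_lit 136)))) (PT.nd (nat_lit 156) (PT.nd (nat_lit 78) (PT.lf (nat_lit 18772) (nat_lit 6) (nat_lit 247) (nat_lit 0) (nat_lit 189) (nat_lit 186) (nat_lit 135)) (PT.lf (nat_lit 18316) (nat_lit 6) (nat_lit 241) (nat_lit 0) (nat_lit 190) (nat_lit 186) (nat_lit 134))) (PT.nd (nat_lit 78) (PT.lf (nat_lit 17936) (nat_lit 6) (nat_lit 236) (nat_lit 0) (nat_lit 191) (nat_lit 186) (nat_lit 133)) (PT.nd (nat_lit 78) (PT.lf (nat_lit 17556) (nat_lit 6) (nat_lit 231) (nat_lit 0) (nat_lit 192) (nat_lit 186) (nat_lit 132)) (PT.lf (nat_lit 17176) (nat_lit 6) (nat_lit 226) (nat_lit 0) (nat_lit 193) (nat_lit 186) (nat_lit 131))))))))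
noncomputable def pc48 : PT := (PT.nd (nat_lit 1326) (PT.nd (nat_lit 624) (PT.nd (nat_lit 312) (PT.nd (nat_lit 156) (PT.nd (nat_lit 78) (PT.lf (nat_lit 16568) (nat_lit 6) (nat_lit 218) (nat_lit 5) (nat_lit 129) (nat_lit 187) (nat_lit 194)) (PT.lf (nat_lit 16872) (nat_lit 6) (nat_lit 222) (nat_lit 5) (nat_lit 130) (nat_lit 187) (nat_lit 193))) (PT.nd (nat_lit 78) (PT.lf (nat_lit 17252) (nat_lit 6) (nat_lit 227) (nat_lit 5) (nat_lit 131) (nat_lit 187) (nat_lit 192)) (PT.lf (nat_lit 17632) (nat_lit 6) (nat_lit 232) (nat_lit 5) (nat_lit 132) (nat_lit 187) (nat_lit 191)))) (PT.nd (nat_lit 156) (PT.nd (nat_lit 78) (PT.lf (nat_lit 18012) (nat_lit 6) (nat_lit 237) (nat_lit 5) (nat_lit 133) (nat_lit 187) (nat_lit 190)) (PT.lf (nat_lit 18392) (nat_lit 6) (nat_lit 242) (nat_lit 5) (nat_lit 134) (nat_lit 187) (nat_lit 189))) (PT.nd (nat_lit 78) (PT.lf (nat_lit 18848) (nat_lit 6) (nat_lit 248) (nat_lit 5) (nat_lit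 135) (nat_lit 187) (nat_lit 188)) (PT.lf (nat_lit 19228) (nat_lit 3) (nat_lit 253) (nat_lit 4) (nat_lit 136) (nat_lit 187) (nat_lit 187))))) (PT.nd (nat_lit 312) (PT.nd (nat_lit 156) (PT.nd (nat_lit 78) (PT.lf (nat_lit 19608) (nat_lit 6) (nat_lit 258) (nat_lit 4) (nat_lit 137) (nat_lit 187) (nat_lit 186)) (PT.lf (nat_lit 19988) (nat_lit 6) (nat_lit 263) (nat_lit 4) (nat_lit 138) (nat_lit 187) (nat_lit 185))) (PT.nd (nat_lit 78) (PT.lf (nat_lit 20368) (nat_lit 6) (nat_lit 268) (nat_lit 4) (nat_lit 139) (nat_lit 187) (nat_lit 184)) (PT.lf (nat_lit 20748) (nat_lit 6) (nat_lit 273) (nat_lit 4) (nat_lit 140) (nat_lit 187) (nat_lit 183)))) (PT.nd (nat_lit 156) (PT.nd (nat_lit 78) (PT.lf (nat_lit 21204) (nat_lit 6) (nat_lit 279) (nat_lit 4) (nat_lit 141) (nat_lit 187) (nat_lit 182)) (PT.lf (nat_lit 21584) (nat_lit 6) (nat_lit 284) (nat_lit 4) (nat_lit 142) (nat_lit 187) (nat_lit 181))) (PT.nd (nat_lit 78) (PT.lf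 (nat_lit 22040) (nat_lit 6) (nat_lit 290) (nat_lit 4) (nat_lit 143) (nat_lit 187) (nat_lit 180)) (PT.nd (nat_lit 78) (PT.lf (nat_lit 22496) (nat_lit 6) (nat_lit 296) (nat_lit 4) (nat_lit 144) (nat_lit 187) (nat_lit 179)) (PT.lf (nat_lit 23028) (nat_lit 6) (nat_lit 303) (nat_lit 4) (nat_lit 145) (nat_lit 187) (nat_lit 178))))))) (PT.nd (nat_lit 702) (PT.nd (nat_lit 312) (PT.nd (nat_lit 156) (PT.nd (nat_lit 78) (PT.lf (nat_lit 23484) (nat_lit 6) (nat_lit 309) (nat_lit 4) (nat_lit 146) (nat_lit 187) (nat_lit 177)) (PT.lf (nat_lit 24016) (nat_lit 6) (nat_lit 316) (nat_lit 4) (nat_lit 147) (nat_lit 187) (nat_lit 176))) (PT.nd (nat_lit 78) (PT.lf (nat_lit 24548) (nat_lit 6) (nat_lit 323) (nat_lit 4) (nat_lit 148) (nat_lit 187) (nat_lit 175)) (PT.lf (nat_lit 25156) (nat_lit 6) (nat_lit 331) (nat_lit 4) (nat_lit 149) (nat_lit 187) (nat_lit 174)))) (PT.nd (nat_lit 156) (PT.nd (nat_lit 78) (PT.lf (nat_lit 25688)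 (nat_lit 6) (nat_lit 338) (nat_lit 4) (nat_lit 150) (nat_lit 187) (nat_lit 173)) (PT.lf (nat_lit 26296) (nat_lit 6) (nat_lit 346) (nat_lit 4) (nat_lit 151) (nat_lit 187) (nat_lit 172))) (PT.nd (nat_lit 78) (PT.lf (nat_lit 26904) (nat_lit 6) (nat_lit 354) (nat_lit 4) (nat_lit 152) (nat_lit 187) (nat_lit 171)) (PT.nd (nat_lit 78) (PT.lf (nat_lit 27740) (nat_lit 6) (nat_lit 365) (nat_lit 4) (nat_lit 153) (nat_lit 187) (nat_lit 170)) (PT.lf (nat_lit 27664) (nat_lit 6) (nat_lit 364) (nat_lit 4) (nat_lit 154) (nat_lit 187) (nat_lit 169)))))) (PT.nd (nat_lit 1248) (PT.nd (nat_lit 1092) (PT.nd (nat_lit 1014) (PT.lf (nat_lit 27588) (nat_lit 6) (nat_lit 363) (nat_lit 4) (nat_lit 155) (nat_lit 187) (nat_lit 168)) (PT.lf (nat_lit 27588) (nat_lit 6) (nat_lit 363) (nat_lit 2) (nat_lit 168) (nat_lit 187) (nat_lit 155))) (PT.nd (nat_lit 78) (PT.lf (nat_lit 27664) (nat_lit 6) (nat_lit 364) (nat_lit 2) (nat_lit 169) (nat_lit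 187) (nat_lit 154)) (PT.lf (nat_lit 27740) (nat_lit 6) (nat_lit 365) (nat_lit 2) (nat_lit 170) (nat_lit 187) (nat_lit 153)))) (PT.nd (nat_lit 156) (PT.nd (nat_lit 78) (PT.lf (nat_lit 26904) (nat_lit 6) (nat_lit 354) (nat_lit 2) (nat_lit 171) (nat_lit 187) (nat_lit 152)) (PT.lf (nat_lit 26296) (nat_lit 6) (nat_lit 346) (nat_lit 2) (nat_lit 172) (nat_lit 187) (nat_lit 151))) (PT.nd (nat_lit 78) (PT.lf (nat_lit 25688) (nat_lit 6) (nat_lit 338) (nat_lit 2) (nat_lit 173) (nat_lit 187) (nat_lit 150)) (PT.nd (nat_lit 78) (PT.lf (nat_lit 25156) (nat_lit 6) (nat_lit 331) (nat_lit 2) (nat_lit 174) (nat_lit 187) (nat_lit 149)) (PT.lf (nat_lit 24548) (nat_lit 6) (nat_lit 323) (nat_lit 2) (nat_lit 175) (nat_lit 187) (nat_lit 148))))))))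
noncomputable def pc49 : PT := (PT.nd (nat_lit 1404) (PT.nd (nat_lit 702) (PT.nd (nat_lit 312) (PT.nd (nat_lit 156) (PT.nd (nat_lit 78) (PT.lf (nat_lit 24016) (nat_lit 6) (nat_lit 316) (nat_lit 2) (nat_lit 176) (nat_lit 187) (nat_lit 147)) (PT.lf (nat_lit 23484) (nat_lit 6) (nat_lit 309) (nat_lit 2) (nat_lit 177) (nat_lit 187) (nat_lit 146))) (PT.nd (nat_lit 78) (PT.lf (nat_lit 23028) (nat_lit 6) (nat_lit 303) (nat_lit 2) (nat_lit 178) (nat_lit 187) (nat_lit 145)) (PT.lf (nat_lit 22496) (nat_lit 6) (nat_lit 296) (nat_lit 2) (nat_lit 179) (nat_lit 187) (nat_lit 144)))) (PT.nd (nat_lit 156) (PT.nd (nat_lit 78) (PT.lf (nat_lit 22040) (nat_lit 6) (nat_lit 290) (nat_lit 2) (nat_lit 180) (nat_lit 187) (nat_lit 143)) (PT.lf (nat_lit 21584) (nat_lit 6) (nat_lit 284) (nat_lit 2) (nat_lit 181) (nat_lit 187) (nat_lit 142))) (PT.nd (nat_lit 78) (PT.lf (nat_lit 21204) (nat_lit 6) (nat_lit 279) (nat_lit 2) (nat_lit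 182) (nat_lit 187) (nat_lit 141)) (PT.nd (nat_lit 78) (PT.lf (nat_lit 20748) (nat_lit 6) (nat_lit 273) (nat_lit 2) (nat_lit 183) (nat_lit 187) (nat_lit 140)) (PT.lf (nat_lit 20368) (nat_lit 6) (nat_lit 268) (nat_lit 2) (nat_lit 184) (nat_lit 187) (nat_lit 139)))))) (PT.nd (nat_lit 312) (PT.nd (nat_lit 156) (PT.nd (nat_lit 78) (PT.lf (nat_lit 19988) (nat_lit 6) (nat_lit 263) (nat_lit 2) (nat_lit 185) (nat_lit 187) (nat_lit 138)) (PT.lf (nat_lit 19608) (nat_lit 6) (nat_lit 258) (nat_lit 2) (nat_lit 186) (nat_lit 187) (nat_lit 137))) (PT.nd (nat_lit 78) (PT.lf (nat_lit 19228) (nat_lit 3) (nat_lit 253) (nat_lit 0) (nat_lit 187) (nat_lit 187) (nat_lit 136)) (PT.lf (nat_lit 18848) (nat_lit 6) (nat_lit 248) (nat_lit 0) (nat_lit 188) (nat_lit 187) (nat_lit 135)))) (PT.nd (nat_lit 156) (PT.nd (nat_lit 78) (PT.lf (nat_lit 18392) (nat_lit 6) (nat_lit 242) (nat_lit 0) (nat_lit 189) (nat_lit 187) (nat_lit 134)) (PT.lf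 (nat_lit 18012) (nat_lit 6) (nat_lit 237) (nat_lit 0) (nat_lit 190) (nat_lit 187) (nat_lit 133))) (PT.nd (nat_lit 78) (PT.lf (nat_lit 17632) (nat_lit 6) (nat_lit 232) (nat_lit 0) (nat_lit 191) (nat_lit 187) (nat_lit 132)) (PT.nd (nat_lit 78) (PT.lf (nat_lit 17252) (nat_lit 6) (nat_lit 227) (nat_lit 0) (nat_lit 192) (nat_lit 187) (nat_lit 131)) (PT.lf (nat_lit 16872) (nat_lit 6) (nat_lit 222) (nat_lit 0) (nat_lit 193) (nat_lit 187) (nat_lit 130))))))) (PT.nd (nat_lit 48516) (PT.nd (nat_lit 48126) (PT.nd (nat_lit 47970) (PT.nd (nat_lit 47892) (PT.lf (nat_lit 16568) (nat_lit 6) (nat_lit 218) (nat_lit 0) (nat_lit 194) (nat_lit 187) (nat_lit 129)) (PT.lf (nat_lit 15960) (nat_lit 6) (nat_lit 210) (nat_lit 5) (nat_lit 127) (nat_lit 188) (nat_lit 195))) (PT.nd (nat_lit 78) (PT.lf (nat_lit 16264) (nat_lit 6) (nat_lit 214) (nat_lit 5) (nat_lit 128) (nat_lit 188) (nat_lit 194)) (PT.lf (nat_lit 16644) (nat_lit 6)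 (nat_lit 219) (nat_lit 5) (nat_lit 129) (nat_lit 188) (nat_lit 193)))) (PT.nd (nat_lit 156) (PT.nd (nat_lit 78) (PT.lf (nat_lit 16948) (nat_lit 6) (nat_lit 223) (nat_lit 5) (nat_lit 130) (nat_lit 188) (nat_lit 192)) (PT.lf (nat_lit 17328) (nat_lit 6) (nat_lit 228) (nat_lit 5) (nat_lit 131) (nat_lit 188) (nat_lit 191))) (PT.nd (nat_lit 78) (PT.lf (nat_lit 17708) (nat_lit 6) (nat_lit 233) (nat_lit 5) (nat_lit 132) (nat_lit 188) (nat_lit 190)) (PT.nd (nat_lit 78) (PT.lf (nat_lit 18088) (nat_lit 6) (nat_lit 238) (nat_lit 5) (nat_lit 133) (nat_lit 188) (nat_lit 189)) (PT.lf (nat_lit 18468) (nat_lit 3) (nat_lit 243) (nat_lit 4) (nat_lit 134) (nat_lit 188) (nat_lit 188)))))) (PT.nd (nat_lit 312) (PT.nd (nat_lit 156) (PT.nd (nat_lit 78) (PT.lf (nat_lit 18848) (nat_lit 6) (nat_lit 248) (nat_lit 4) (nat_lit 135) (nat_lit 188) (nat_lit 187)) (PT.lf (nat_lit 19152) (nat_lit 6) (nat_lit 252) (nat_lit 4) (nat_lit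 136) (nat_lit 188) (nat_lit 186))) (PT.nd (nat_lit 78) (PT.lf (nat_lit 19532) (nat_lit 6) (nat_lit 257) (nat_lit 4) (nat_lit 137) (nat_lit 188) (nat_lit 185)) (PT.lf (nat_lit 19912) (nat_lit 6) (nat_lit 262) (nat_lit 4) (nat_lit 138) (nat_lit 188) (nat_lit 184)))) (PT.nd (nat_lit 156) (PT.nd (nat_lit 78) (PT.lf (nat_lit 20292) (nat_lit 6) (nat_lit 267) (nat_lit 4) (nat_lit 139) (nat_lit 188) (nat_lit 183)) (PT.lf (nat_lit 20672) (nat_lit 6) (nat_lit 272) (nat_lit 4) (nat_lit 140) (nat_lit 188) (nat_lit 182))) (PT.nd (nat_lit 78) (PT.lf (nat_lit 21128) (nat_lit 6) (nat_lit 278) (nat_lit 4) (nat_lit 141) (nat_lit 188) (nat_lit 181)) (PT.nd (nat_lit 78) (PT.lf (nat_lit 21508) (nat_lit 6) (nat_lit 283) (nat_lit 4) (nat_lit 142) (nat_lit 188) (nat_lit 180)) (PT.lf (nat_lit 21964) (nat_lit 6) (nat_lit 289) (nat_lit 4) (nat_lit 143) (nat_lit 188) (nat_lit 179))))))))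
noncomputable def pc50 : PT := (PT.nd (nat_lit 3120) (PT.nd (nat_lit 2418) (PT.nd (nat_lit 312) (PT.nd (nat_lit 156) (PT.nd (nat_lit 78) (PT.lf (nat_lit 22420) (nat_lit 6) (nat_lit 295) (nat_lit 4) (nat_lit 144) (nat_lit 188) (nat_lit 178)) (PT.lf (nat_lit 22952) (nat_lit 6) (nat_lit 302) (nat_lit 4) (nat_lit 145) (nat_lit 188) (nat_lit 177))) (PT.nd (nat_lit 78) (PT.lf (nat_lit 23408) (nat_lit 6) (nat_lit 308) (nat_lit 4) (nat_lit 146) (nat_lit 188) (nat_lit 176)) (PT.lf (nat_lit 23940) (nat_lit 6) (nat_lit 315) (nat_lit 4) (nat_lit 147) (nat_lit 188) (nat_lit 175)))) (PT.nd (nat_lit 1950) (PT.nd (nat_lit 78) (PT.lf (nat_lit 24472) (nat_lit 6) (nat_lit 322) (nat_lit 4) (nat_lit 148) (nat_lit 188) (nat_lit 174)) (PT.lf (nat_lit 25080) (nat_lit 6) (nat_lit 330) (nat_lit 4) (nat_lit 149) (nat_lit 188) (nat_lit 173))) (PT.nd (nat_lit 78) (PT.lf (nat_lit 25080) (nat_lit 6) (nat_lit 330) (nat_lit 2) (nat_lit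 173) (nat_lit 188) (nat_lit 149)) (PT.lf (nat_lit 24472) (nat_lit 6) (nat_lit 322) (nat_lit 2) (nat_lit 174) (nat_lit 188) (nat_lit 148))))) (PT.nd (nat_lit 312) (PT.nd (nat_lit 156) (PT.nd (nat_lit 78) (PT.lf (nat_lit 23940) (nat_lit 6) (nat_lit 315) (nat_lit 2) (nat_lit 175) (nat_lit 188) (nat_lit 147)) (PT.lf (nat_lit 23408) (nat_lit 6) (nat_lit 308) (nat_lit 2) (nat_lit 176) (nat_lit 188) (nat_lit 146))) (PT.nd (nat_lit 78) (PT.lf (nat_lit 22952) (nat_lit 6) (nat_lit 302) (nat_lit 2) (nat_lit 177) (nat_lit 188) (nat_lit 145)) (PT.lf (nat_lit 22420) (nat_lit 6) (nat_lit 295) (nat_lit 2) (nat_lit 178) (nat_lit 188) (nat_lit 144)))) (PT.nd (nat_lit 156) (PT.nd (nat_lit 78) (PT.lf (nat_lit 21964) (nat_lit 6) (nat_lit 289) (nat_lit 2) (nat_lit 179) (nat_lit 188) (nat_lit 143)) (PT.lf (nat_lit 21508) (nat_lit 6) (nat_lit 283) (nat_lit 2) (nat_lit 180) (nat_lit 188) (nat_lit 142))) (PT.nd (nat_lit 78) (PT.lf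 (nat_lit 21128) (nat_lit 6) (nat_lit 278) (nat_lit 2) (nat_lit 181) (nat_lit 188) (nat_lit 141)) (PT.nd (nat_lit 78) (PT.lf (nat_lit 20672) (nat_lit 6) (nat_lit 272) (nat_lit 2) (nat_lit 182) (nat_lit 188) (nat_lit 140)) (PT.lf (nat_lit 20292) (nat_lit 6) (nat_lit 267) (nat_lit 2) (nat_lit 183) (nat_lit 188) (nat_lit 139))))))) (PT.nd (nat_lit 702) (PT.nd (nat_lit 312) (PT.nd (nat_lit 156) (PT.nd (nat_lit 78) (PT.lf (nat_lit 19912) (nat_lit 6) (nat_lit 262) (nat_lit 2) (nat_lit 184) (nat_lit 188) (nat_lit 138)) (PT.lf (nat_lit 19532) (nat_lit 6) (nat_lit 257) (nat_lit 2) (nat_lit 185) (nat_lit 188) (nat_lit 137))) (PT.nd (nat_lit 78) (PT.lf (nat_lit 19152) (nat_lit 6) (nat_lit 252) (nat_lit 2) (nat_lit 186) (nat_lit 188) (nat_lit 136)) (PT.lf (nat_lit 18848) (nat_lit 6) (nat_lit 248) (nat_lit 2) (nat_lit 187) (nat_lit 188) (nat_lit 135)))) (PT.nd (nat_lit 156) (PT.nd (nat_lit 78) (PT.lf (nat_lit 18468)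 (nat_lit 3) (nat_lit 243) (nat_lit 0) (nat_lit 188) (nat_lit 188) (nat_lit 134)) (PT.lf (nat_lit 18088) (nat_lit 6) (nat_lit 238) (nat_lit 0) (nat_lit 189) (nat_lit 188) (nat_lit 133))) (PT.nd (nat_lit 78) (PT.lf (nat_lit 17708) (nat_lit 6) (nat_lit 233) (nat_lit 0) (nat_lit 190) (nat_lit 188) (nat_lit 132)) (PT.nd (nat_lit 78) (PT.lf (nat_lit 17328) (nat_lit 6) (nat_lit 228) (nat_lit 0) (nat_lit 191) (nat_lit 188) (nat_lit 131)) (PT.lf (nat_lit 16948) (nat_lit 6) (nat_lit 223) (nat_lit 0) (nat_lit 192) (nat_lit 188) (nat_lit 130)))))) (PT.nd (nat_lit 47970) (PT.nd (nat_lit 156) (PT.nd (nat_lit 78) (PT.lf (nat_lit 16644) (nat_lit 6) (nat_lit 219) (nat_lit 0) (nat_lit 193) (nat_lit 188) (nat_lit 129)) (PT.lf (nat_lit 16264) (nat_lit 6) (nat_lit 214) (nat_lit 0) (nat_lit 194) (nat_lit 188) (nat_lit 128))) (PT.nd (nat_lit 47736) (PT.lf (nat_lit 15960) (nat_lit 6) (nat_lit 210) (nat_lit 0) (nat_lit 195)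 (nat_lit 188) (nat_lit 127)) (PT.lf (nat_lit 15656) (nat_lit 6) (nat_lit 206) (nat_lit 5) (nat_lit 126) (nat_lit 189) (nat_lit 195)))) (PT.nd (nat_lit 156) (PT.nd (nat_lit 78) (PT.lf (nat_lit 16036) (nat_lit 6) (nat_lit 211) (nat_lit 5) (nat_lit 127) (nat_lit 189) (nat_lit 194)) (PT.lf (nat_lit 16340) (nat_lit 6) (nat_lit 215) (nat_lit 5) (nat_lit 128) (nat_lit 189) (nat_lit 193))) (PT.nd (nat_lit 78) (PT.lf (nat_lit 16720) (nat_lit 6) (nat_lit 220) (nat_lit 5) (nat_lit 129) (nat_lit 189) (nat_lit 192)) (PT.nd (nat_lit 78) (PT.lf (nat_lit 17024) (nat_lit 6) (nat_lit 224) (nat_lit 5) (nat_lit 130) (nat_lit 189) (nat_lit 191)) (PT.lf (nat_lit 17404) (nat_lit 6) (nat_lit 229) (nat_lit 5) (nat_lit 131) (nat_lit 189) (nat_lit 190))))))))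
noncomputable def pc51 : PT := (PT.nd (nat_lit 3744) (PT.nd (nat_lit 702) (PT.nd (nat_lit 312) (PT.nd (nat_lit 156) (PT.nd (nat_lit 78) (PT.lf (nat_lit 17784) (nat_lit 3) (nat_lit 234) (nat_lit 4) (nat_lit 132) (nat_lit 189) (nat_lit 189)) (PT.lf (nat_lit 18088) (nat_lit 6) (nat_lit 238) (nat_lit 4) (nat_lit 133) (nat_lit 189) (nat_lit 188))) (PT.nd (nat_lit 78) (PT.lf (nat_lit 18392) (nat_lit 6) (nat_lit 242) (nat_lit 4) (nat_lit 134) (nat_lit 189) (nat_lit 187)) (PT.lf (nat_lit 18772) (nat_lit 6) (nat_lit 247) (nat_lit 4) (nat_lit 135) (nat_lit 189) (nat_lit 186)))) (PT.nd (nat_lit 156) (PT.nd (nat_lit 78) (PT.lf (nat_lit 19076) (nat_lit 6) (nat_lit 251) (nat_lit 4) (nat_lit 136) (nat_lit 189) (nat_lit 185)) (PT.lf (nat_lit 19456) (nat_lit 6) (nat_lit 256) (nat_lit 4) (nat_lit 137) (nat_lit 189) (nat_lit 184))) (PT.nd (nat_lit 78) (PT.lf (nat_lit 19836) (nat_lit 6) (nat_lit 261) (nat_lit 4) (nat_lit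 138) (nat_lit 189) (nat_lit 183)) (PT.nd (nat_lit 78) (PT.lf (nat_lit 20216) (nat_lit 6) (nat_lit 266) (nat_lit 4) (nat_lit 139) (nat_lit 189) (nat_lit 182)) (PT.lf (nat_lit 20596) (nat_lit 6) (nat_lit 271) (nat_lit 4) (nat_lit 140) (nat_lit 189) (nat_lit 181)))))) (PT.nd (nat_lit 312) (PT.nd (nat_lit 156) (PT.nd (nat_lit 78) (PT.lf (nat_lit 21052) (nat_lit 6) (nat_lit 277) (nat_lit 4) (nat_lit 141) (nat_lit 189) (nat_lit 180)) (PT.lf (nat_lit 21432) (nat_lit 6) (nat_lit 282) (nat_lit 4) (nat_lit 142) (nat_lit 189) (nat_lit 179))) (PT.nd (nat_lit 78) (PT.lf (nat_lit 21888) (nat_lit 6) (nat_lit 288) (nat_lit 4) (nat_lit 143) (nat_lit 189) (nat_lit 178)) (PT.lf (nat_lit 22344) (nat_lit 6) (nat_lit 294) (nat_lit 4) (nat_lit 144) (nat_lit 189) (nat_lit 177)))) (PT.nd (nat_lit 2496) (PT.nd (nat_lit 2418) (PT.lf (nat_lit 22876) (nat_lit 6) (nat_lit 301) (nat_lit 4) (nat_lit 145) (nat_lit 189) (nat_lit 176))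 (PT.lf (nat_lit 22876) (nat_lit 6) (nat_lit 301) (nat_lit 2) (nat_lit 176) (nat_lit 189) (nat_lit 145))) (PT.nd (nat_lit 78) (PT.lf (nat_lit 22344) (nat_lit 6) (nat_lit 294) (nat_lit 2) (nat_lit 177) (nat_lit 189) (nat_lit 144)) (PT.nd (nat_lit 78) (PT.lf (nat_lit 21888) (nat_lit 6) (nat_lit 288) (nat_lit 2) (nat_lit 178) (nat_lit 189) (nat_lit 143)) (PT.lf (nat_lit 21432) (nat_lit 6) (nat_lit 282) (nat_lit 2) (nat_lit 179) (nat_lit 189) (nat_lit 142))))))) (PT.nd (nat_lit 702) (PT.nd (nat_lit 312) (PT.nd (nat_lit 156) (PT.nd (nat_lit 78) (PT.lf (nat_lit 21052) (nat_lit 6) (nat_lit 277) (nat_lit 2) (nat_lit 180) (nat_lit 189) (nat_lit 141)) (PT.lf (nat_lit 20596) (nat_lit 6) (nat_lit 271) (nat_lit 2) (nat_lit 181) (nat_lit 189) (nat_lit 140))) (PT.nd (nat_lit 78) (PT.lf (nat_lit 20216) (nat_lit 6) (nat_lit 266) (nat_lit 2) (nat_lit 182) (nat_lit 189) (nat_lit 139)) (PT.lf (nat_lit 19836) (nat_lit 6)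 (nat_lit 261) (nat_lit 2) (nat_lit 183) (nat_lit 189) (nat_lit 138)))) (PT.nd (nat_lit 156) (PT.nd (nat_lit 78) (PT.lf (nat_lit 19456) (nat_lit 6) (nat_lit 256) (nat_lit 2) (nat_lit 184) (nat_lit 189) (nat_lit 137)) (PT.lf (nat_lit 19076) (nat_lit 6) (nat_lit 251) (nat_lit 2) (nat_lit 185) (nat_lit 189) (nat_lit 136))) (PT.nd (nat_lit 78) (PT.lf (nat_lit 18772) (nat_lit 6) (nat_lit 247) (nat_lit 2) (nat_lit 186) (nat_lit 189) (nat_lit 135)) (PT.nd (nat_lit 78) (PT.lf (nat_lit 18392) (nat_lit 6) (nat_lit 242) (nat_lit 2) (nat_lit 187) (nat_lit 189) (nat_lit 134)) (PT.lf (nat_lit 18088) (nat_lit 6) (nat_lit 238) (nat_lit 2) (nat_lit 188) (nat_lit 189) (nat_lit 133)))))) (PT.nd (nat_lit 312) (PT.nd (nat_lit 156) (PT.nd (nat_lit 78) (PT.lf (nat_lit 17784) (nat_lit 3) (nat_lit 234) (nat_lit 0) (nat_lit 189) (nat_lit 189) (nat_lit 132)) (PT.lf (nat_lit 17404) (nat_lit 6) (nat_lit 229) (nat_lit 0) (nat_lit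 190) (nat_lit 189) (nat_lit 131))) (PT.nd (nat_lit 78) (PT.lf (nat_lit 17024) (nat_lit 6) (nat_lit 224) (nat_lit 0) (nat_lit 191) (nat_lit 189) (nat_lit 130)) (PT.lf (nat_lit 16720) (nat_lit 6) (nat_lit 220) (nat_lit 0) (nat_lit 192) (nat_lit 189) (nat_lit 129)))) (PT.nd (nat_lit 156) (PT.nd (nat_lit 78) (PT.lf (nat_lit 16340) (nat_lit 6) (nat_lit 215) (nat_lit 0) (nat_lit 193) (nat_lit 189) (nat_lit 128)) (PT.lf (nat_lit 16036) (nat_lit 6) (nat_lit 211) (nat_lit 0) (nat_lit 194) (nat_lit 189) (nat_lit 127))) (PT.nd (nat_lit 47580) (PT.lf (nat_lit 15656) (nat_lit 6) (nat_lit 206) (nat_lit 0) (nat_lit 195) (nat_lit 189) (nat_lit 126)) (PT.nd (nat_lit 78) (PT.lf (nat_lit 15124) (nat_lit 6) (nat_lit 199) (nat_lit 5) (nat_lit 124) (nat_lit 190) (nat_lit 196)) (PT.lf (nat_lit 15428) (nat_lit 6) (nat_lit 203) (nat_lit 5) (nat_lit 125) (nat_lit 190) (nat_lit 195))))))))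
noncomputable def pc52 : PT := (PT.nd (nat_lit 4212) (PT.nd (nat_lit 624) (PT.nd (nat_lit 312) (PT.nd (nat_lit 156) (PT.nd (nat_lit 78) (PT.lf (nat_lit 15732) (nat_lit 6) (nat_lit 207) (nat_lit 5) (nat_lit 126) (nat_lit 190) (nat_lit 194)) (PT.lf (nat_lit 16112) (nat_lit 6) (nat_lit 212) (nat_lit 5) (nat_lit 127) (nat_lit 190) (nat_lit 193))) (PT.nd (nat_lit 78) (PT.lf (nat_lit 16416) (nat_lit 6) (nat_lit 216) (nat_lit 5) (nat_lit 128) (nat_lit 190) (nat_lit 192)) (PT.lf (nat_lit 16796) (nat_lit 6) (nat_lit 221) (nat_lit 5) (nat_lit 129) (nat_lit 190) (nat_lit 191)))) (PT.nd (nat_lit 156) (PT.nd (nat_lit 78) (PT.lf (nat_lit 17100) (nat_lit 3) (nat_lit 225) (nat_lit 4) (nat_lit 130) (nat_lit 190) (nat_lit 190)) (PT.lf (nat_lit 17404) (nat_lit 6) (nat_lit 229) (nat_lit 4) (nat_lit 131) (nat_lit 190) (nat_lit 189))) (PT.nd (nat_lit 78) (PT.lf (nat_lit 17708) (nat_lit 6) (nat_lit 233) (nat_lit 4) (nat_lit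 132) (nat_lit 190) (nat_lit 188)) (PT.lf (nat_lit 18012) (nat_lit 6) (nat_lit 237) (nat_lit 4) (nat_lit 133) (nat_lit 190) (nat_lit 187))))) (PT.nd (nat_lit 312) (PT.nd (nat_lit 156) (PT.nd (nat_lit 78) (PT.lf (nat_lit 18316) (nat_lit 6) (nat_lit 241) (nat_lit 4) (nat_lit 134) (nat_lit 190) (nat_lit 186)) (PT.lf (nat_lit 18696) (nat_lit 6) (nat_lit 246) (nat_lit 4) (nat_lit 135) (nat_lit 190) (nat_lit 185))) (PT.nd (nat_lit 78) (PT.lf (nat_lit 19000) (nat_lit 6) (nat_lit 250) (nat_lit 4) (nat_lit 136) (nat_lit 190) (nat_lit 184)) (PT.lf (nat_lit 19380) (nat_lit 6) (nat_lit 255) (nat_lit 4) (nat_lit 137) (nat_lit 190) (nat_lit 183)))) (PT.nd (nat_lit 156) (PT.nd (nat_lit 78) (PT.lf (nat_lit 19760) (nat_lit 6) (nat_lit 260) (nat_lit 4) (nat_lit 138) (nat_lit 190) (nat_lit 182)) (PT.lf (nat_lit 20140) (nat_lit 6) (nat_lit 265) (nat_lit 4) (nat_lit 139) (nat_lit 190) (nat_lit 181))) (PT.nd (nat_lit 78) (PT.lf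 (nat_lit 20520) (nat_lit 6) (nat_lit 270) (nat_lit 4) (nat_lit 140) (nat_lit 190) (nat_lit 180)) (PT.nd (nat_lit 2964) (PT.lf (nat_lit 20976) (nat_lit 6) (nat_lit 276) (nat_lit 4) (nat_lit 141) (nat_lit 190) (nat_lit 179)) (PT.lf (nat_lit 20976) (nat_lit 6) (nat_lit 276) (nat_lit 2) (nat_lit 179) (nat_lit 190) (nat_lit 141))))))) (PT.nd (nat_lit 702) (PT.nd (nat_lit 312) (PT.nd (nat_lit 156) (PT.nd (nat_lit 78) (PT.lf (nat_lit 20520) (nat_lit 6) (nat_lit 270) (nat_lit 2) (nat_lit 180) (nat_lit 190) (nat_lit 140)) (PT.lf (nat_lit 20140) (nat_lit 6) (nat_lit 265) (nat_lit 2) (nat_lit 181) (nat_lit 190) (nat_lit 139))) (PT.nd (nat_lit 78) (PT.lf (nat_lit 19760) (nat_lit 6) (nat_lit 260) (nat_lit 2) (nat_lit 182) (nat_lit 190) (nat_lit 138)) (PT.lf (nat_lit 19380) (nat_lit 6) (nat_lit 255) (nat_lit 2) (nat_lit 183) (nat_lit 190) (nat_lit 137)))) (PT.nd (nat_lit 156) (PT.nd (nat_lit 78) (PT.lf (nat_lit 19000)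 (nat_lit 6) (nat_lit 250) (nat_lit 2) (nat_lit 184) (nat_lit 190) (nat_lit 136)) (PT.lf (nat_lit 18696) (nat_lit 6) (nat_lit 246) (nat_lit 2) (nat_lit 185) (nat_lit 190) (nat_lit 135))) (PT.nd (nat_lit 78) (PT.lf (nat_lit 18316) (nat_lit 6) (nat_lit 241) (nat_lit 2) (nat_lit 186) (nat_lit 190) (nat_lit 134)) (PT.nd (nat_lit 78) (PT.lf (nat_lit 18012) (nat_lit 6) (nat_lit 237) (nat_lit 2) (nat_lit 187) (nat_lit 190) (nat_lit 133)) (PT.lf (nat_lit 17708) (nat_lit 6) (nat_lit 233) (nat_lit 2) (nat_lit 188) (nat_lit 190) (nat_lit 132)))))) (PT.nd (nat_lit 312) (PT.nd (nat_lit 156) (PT.nd (nat_lit 78) (PT.lf (nat_lit 17404) (nat_lit 6) (nat_lit 229) (nat_lit 2) (nat_lit 189) (nat_lit 190) (nat_lit 131)) (PT.lf (nat_lit 17100) (nat_lit 3) (nat_lit 225) (nat_lit 0) (nat_lit 190) (nat_lit 190) (nat_lit 130))) (PT.nd (nat_lit 78) (PT.lf (nat_lit 16796) (nat_lit 6) (nat_lit 221) (nat_lit 0) (nat_lit 191) (nat_lit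 190) (nat_lit 129)) (PT.lf (nat_lit 16416) (nat_lit 6) (nat_lit 216) (nat_lit 0) (nat_lit 192) (nat_lit 190) (nat_lit 128)))) (PT.nd (nat_lit 156) (PT.nd (nat_lit 78) (PT.lf (nat_lit 16112) (nat_lit 6) (nat_lit 212) (nat_lit 0) (nat_lit 193) (nat_lit 190) (nat_lit 127)) (PT.lf (nat_lit 15732) (nat_lit 6) (nat_lit 207) (nat_lit 0) (nat_lit 194) (nat_lit 190) (nat_lit 126))) (PT.nd (nat_lit 78) (PT.lf (nat_lit 15428) (nat_lit 6) (nat_lit 203) (nat_lit 0) (nat_lit 195) (nat_lit 190) (nat_lit 125)) (PT.nd (nat_lit 47346) (PT.lf (nat_lit 15124) (nat_lit 6) (nat_lit 199) (nat_lit 0) (nat_lit 196) (nat_lit 190) (nat_lit 124)) (PT.lf (nat_lit 14592) (nat_lit 6) (nat_lit 192) (nat_lit 5) (nat_lit 122) (nat_lit 191) (nat_lit 197))))))))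
noncomputable def pc53 : PT := (PT.nd (nat_lit 4680) (PT.nd (nat_lit 702) (PT.nd (nat_lit 312) (PT.nd (nat_lit 156) (PT.nd (nat_lit 78) (PT.lf (nat_lit 14896) (nat_lit 6) (nat_lit 196) (nat_lit 5) (nat_lit 123) (nat_lit 191) (nat_lit 196)) (PT.lf (nat_lit 15200) (nat_lit 6) (nat_lit 200) (nat_lit 5) (nat_lit 124) (nat_lit 191) (nat_lit 195))) (PT.nd (nat_lit 78) (PT.lf (nat_lit 15504) (nat_lit 6) (nat_lit 204) (nat_lit 5) (nat_lit 125) (nat_lit 191) (nat_lit 194)) (PT.lf (nat_lit 15808) (nat_lit 6) (nat_lit 208) (nat_lit 5) (nat_lit 126) (nat_lit 191) (nat_lit 193)))) (PT.nd (nat_lit 156) (PT.nd (nat_lit 78) (PT.lf (nat_lit 16188) (nat_lit 6) (nat_lit 213) (nat_lit 5) (nat_lit 127) (nat_lit 191) (nat_lit 192)) (PT.lf (nat_lit 16492) (nat_lit 3) (nat_lit 217) (nat_lit 4) (nat_lit 128) (nat_lit 191) (nat_lit 191))) (PT.nd (nat_lit 78) (PT.lf (nat_lit 16796) (nat_lit 6) (nat_lit 221) (nat_lit 4) (nat_lit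 129) (nat_lit 191) (nat_lit 190)) (PT.nd (nat_lit 78) (PT.lf (nat_lit 17024) (nat_lit 6) (nat_lit 224) (nat_lit 4) (nat_lit 130) (nat_lit 191) (nat_lit 189)) (PT.lf (nat_lit 17328) (nat_lit 6) (nat_lit 228) (nat_lit 4) (nat_lit 131) (nat_lit 191) (nat_lit 188)))))) (PT.nd (nat_lit 312) (PT.nd (nat_lit 156) (PT.nd (nat_lit 78) (PT.lf (nat_lit 17632) (nat_lit 6) (nat_lit 232) (nat_lit 4) (nat_lit 132) (nat_lit 191) (nat_lit 187)) (PT.lf (nat_lit 17936) (nat_lit 6) (nat_lit 236) (nat_lit 4) (nat_lit 133) (nat_lit 191) (nat_lit 186))) (PT.nd (nat_lit 78) (PT.lf (nat_lit 18240) (nat_lit 6) (nat_lit 240) (nat_lit 4) (nat_lit 134) (nat_lit 191) (nat_lit 185)) (PT.lf (nat_lit 18620) (nat_lit 6) (nat_lit 245) (nat_lit 4) (nat_lit 135) (nat_lit 191) (nat_lit 184)))) (PT.nd (nat_lit 156) (PT.nd (nat_lit 78) (PT.lf (nat_lit 18924) (nat_lit 6) (nat_lit 249) (nat_lit 4) (nat_lit 136) (nat_lit 191) (nat_lit 183)) (PT.lf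 (nat_lit 19304) (nat_lit 6) (nat_lit 254) (nat_lit 4) (nat_lit 137) (nat_lit 191) (nat_lit 182))) (PT.nd (nat_lit 3354) (PT.lf (nat_lit 19684) (nat_lit 6) (nat_lit 259) (nat_lit 4) (nat_lit 138) (nat_lit 191) (nat_lit 181)) (PT.nd (nat_lit 78) (PT.lf (nat_lit 19684) (nat_lit 6) (nat_lit 259) (nat_lit 2) (nat_lit 181) (nat_lit 191) (nat_lit 138)) (PT.lf (nat_lit 19304) (nat_lit 6) (nat_lit 254) (nat_lit 2) (nat_lit 182) (nat_lit 191) (nat_lit 137))))))) (PT.nd (nat_lit 702) (PT.nd (nat_lit 312) (PT.nd (nat_lit 156) (PT.nd (nat_lit 78) (PT.lf (nat_lit 18924) (nat_lit 6) (nat_lit 249) (nat_lit 2) (nat_lit 183) (nat_lit 191) (nat_lit 136)) (PT.lf (nat_lit 18620) (nat_lit 6) (nat_lit 245) (nat_lit 2) (nat_lit 184) (nat_lit 191) (nat_lit 135))) (PT.nd (nat_lit 78) (PT.lf (nat_lit 18240) (nat_lit 6) (nat_lit 240) (nat_lit 2) (nat_lit 185) (nat_lit 191) (nat_lit 134)) (PT.lf (nat_lit 17936) (nat_lit 6) (nat_lit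 236) (nat_lit 2) (nat_lit 186) (nat_lit 191) (nat_lit 133)))) (PT.nd (nat_lit 156) (PT.nd (nat_lit 78) (PT.lf (nat_lit 17632) (nat_lit 6) (nat_lit 232) (nat_lit 2) (nat_lit 187) (nat_lit 191) (nat_lit 132)) (PT.lf (nat_lit 17328) (nat_lit 6) (nat_lit 228) (nat_lit 2) (nat_lit 188) (nat_lit 191) (nat_lit 131))) (PT.nd (nat_lit 78) (PT.lf (nat_lit 17024) (nat_lit 6) (nat_lit 224) (nat_lit 2) (nat_lit 189) (nat_lit 191) (nat_lit 130)) (PT.nd (nat_lit 78) (PT.lf (nat_lit 16796) (nat_lit 6) (nat_lit 221) (nat_lit 2) (nat_lit 190) (nat_lit 191) (nat_lit 129)) (PT.lf (nat_lit 16492) (nat_lit 3) (nat_lit 217) (nat_lit 0) (nat_lit 191) (nat_lit 191) (nat_lit 128)))))) (PT.nd (nat_lit 312) (PT.nd (nat_lit 156) (PT.nd (nat_lit 78) (PT.lf (nat_lit 16188) (nat_lit 6) (nat_lit 213) (nat_lit 0) (nat_lit 192) (nat_lit 191) (nat_lit 127)) (PT.lf (nat_lit 15808) (nat_lit 6) (nat_lit 208) (nat_lit 0) (nat_lit 193) (nat_lit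 191) (nat_lit 126))) (PT.nd (nat_lit 78) (PT.lf (nat_lit 15504) (nat_lit 6) (nat_lit 204) (nat_lit 0) (nat_lit 194) (nat_lit 191) (nat_lit 125)) (PT.lf (nat_lit 15200) (nat_lit 6) (nat_lit 200) (nat_lit 0) (nat_lit 195) (nat_lit 191) (nat_lit 124)))) (PT.nd (nat_lit 47268) (PT.nd (nat_lit 78) (PT.lf (nat_lit 14896) (nat_lit 6) (nat_lit 196) (nat_lit 0) (nat_lit 196) (nat_lit 191) (nat_lit 123)) (PT.lf (nat_lit 14592) (nat_lit 6) (nat_lit 192) (nat_lit 0) (nat_lit 197) (nat_lit 191) (nat_lit 122))) (PT.nd (nat_lit 78) (PT.lf (nat_lit 14364) (nat_lit 6) (nat_lit 189) (nat_lit 5) (nat_lit 121) (nat_lit 192) (nat_lit 197)) (PT.nd (nat_lit 78) (PT.lf (nat_lit 14668) (nat_lit 6) (nat_lit 193) (nat_lit 5) (nat_lit 122) (nat_lit 192) (nat_lit 196)) (PT.lf (nat_lit 14972) (nat_lit 6) (nat_lit 197) (nat_lit 5) (nat_lit 123) (nat_lit 192) (nat_lit 195))))))))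
noncomputable def pc54 : PT := (PT.nd (nat_lit 4992) (PT.nd (nat_lit 624) (PT.nd (nat_lit 312) (PT.nd (nat_lit 156) (PT.nd (nat_lit 78) (PT.lf (nat_lit 15276) (nat_lit 6) (nat_lit 201) (nat_lit 5) (nat_lit 124) (nat_lit 192) (nat_lit 194)) (PT.lf (nat_lit 15580) (nat_lit 6) (nat_lit 205) (nat_lit 5) (nat_lit 125) (nat_lit 192) (nat_lit 193))) (PT.nd (nat_lit 78) (PT.lf (nat_lit 15884) (nat_lit 3) (nat_lit 209) (nat_lit 4) (nat_lit 126) (nat_lit 192) (nat_lit 192)) (PT.lf (nat_lit 16188) (nat_lit 6) (nat_lit 213) (nat_lit 4) (nat_lit 127) (nat_lit 192) (nat_lit 191)))) (PT.nd (nat_lit 156) (PT.nd (nat_lit 78) (PT.lf (nat_lit 16416) (nat_lit 6) (nat_lit 216) (nat_lit 4) (nat_lit 128) (nat_lit 192) (nat_lit 190)) (PT.lf (nat_lit 16720) (nat_lit 6) (nat_lit 220) (nat_lit 4) (nat_lit 129) (nat_lit 192) (nat_lit 189))) (PT.nd (nat_lit 78) (PT.lf (nat_lit 16948) (nat_lit 6) (nat_lit 223) (nat_lit 4) (nat_lit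 130) (nat_lit 192) (nat_lit 188)) (PT.lf (nat_lit 17252) (nat_lit 6) (nat_lit 227) (nat_lit 4) (nat_lit 131) (nat_lit 192) (nat_lit 187))))) (PT.nd (nat_lit 3978) (PT.nd (nat_lit 156) (PT.nd (nat_lit 78) (PT.lf (nat_lit 17556) (nat_lit 6) (nat_lit 231) (nat_lit 4) (nat_lit 132) (nat_lit 192) (nat_lit 186)) (PT.lf (nat_lit 17860) (nat_lit 6) (nat_lit 235) (nat_lit 4) (nat_lit 133) (nat_lit 192) (nat_lit 185))) (PT.nd (nat_lit 78) (PT.lf (nat_lit 18164) (nat_lit 6) (nat_lit 239) (nat_lit 4) (nat_lit 134) (nat_lit 192) (nat_lit 184)) (PT.lf (nat_lit 18544) (nat_lit 6) (nat_lit 244) (nat_lit 4) (nat_lit 135) (nat_lit 192) (nat_lit 183)))) (PT.nd (nat_lit 156) (PT.nd (nat_lit 78) (PT.lf (nat_lit 18544) (nat_lit 6) (nat_lit 244) (nat_lit 2) (nat_lit 183) (nat_lit 192) (nat_lit 135)) (PT.lf (nat_lit 18164) (nat_lit 6) (nat_lit 239) (nat_lit 2) (nat_lit 184) (nat_lit 192) (nat_lit 134))) (PT.nd (nat_lit 78)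 (PT.lf (nat_lit 17860) (nat_lit 6) (nat_lit 235) (nat_lit 2) (nat_lit 185) (nat_lit 192) (nat_lit 133)) (PT.nd (nat_lit 78) (PT.lf (nat_lit 17556) (nat_lit 6) (nat_lit 231) (nat_lit 2) (nat_lit 186) (nat_lit 192) (nat_lit 132)) (PT.lf (nat_lit 17252) (nat_lit 6) (nat_lit 227) (nat_lit 2) (nat_lit 187) (nat_lit 192) (nat_lit 131))))))) (PT.nd (nat_lit 702) (PT.nd (nat_lit 312) (PT.nd (nat_lit 156) (PT.nd (nat_lit 78) (PT.lf (nat_lit 16948) (nat_lit 6) (nat_lit 223) (nat_lit 2) (nat_lit 188) (nat_lit 192) (nat_lit 130)) (PT.lf (nat_lit 16720) (nat_lit 6) (nat_lit 220) (nat_lit 2) (nat_lit 189) (nat_lit 192) (nat_lit 129))) (PT.nd (nat_lit 78) (PT.lf (nat_lit 16416) (nat_lit 6) (nat_lit 216) (nat_lit 2) (nat_lit 190) (nat_lit 192) (nat_lit 128)) (PT.lf (nat_lit 16188) (nat_lit 6) (nat_lit 213) (nat_lit 2) (nat_lit 191) (nat_lit 192) (nat_lit 127)))) (PT.nd (nat_lit 156) (PT.nd (nat_lit 78) (PT.lf (nat_lit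 15884) (nat_lit 3) (nat_lit 209) (nat_lit 0) (nat_lit 192) (nat_lit 192) (nat_lit 126)) (PT.lf (nat_lit 15580) (nat_lit 6) (nat_lit 205) (nat_lit 0) (nat_lit 193) (nat_lit 192) (nat_lit 125))) (PT.nd (nat_lit 78) (PT.lf (nat_lit 15276) (nat_lit 6) (nat_lit 201) (nat_lit 0) (nat_lit 194) (nat_lit 192) (nat_lit 124)) (PT.nd (nat_lit 78) (PT.lf (nat_lit 14972) (nat_lit 6) (nat_lit 197) (nat_lit 0) (nat_lit 195) (nat_lit 192) (nat_lit 123)) (PT.lf (nat_lit 14668) (nat_lit 6) (nat_lit 193) (nat_lit 0) (nat_lit 196) (nat_lit 192) (nat_lit 122)))))) (PT.nd (nat_lit 47268) (PT.nd (nat_lit 47112) (PT.nd (nat_lit 47034) (PT.lf (nat_lit 14364) (nat_lit 6) (nat_lit 189) (nat_lit 0) (nat_lit 197) (nat_lit 192) (nat_lit 121)) (PT.lf (nat_lit 13908) (nat_lit 6) (nat_lit 183) (nat_lit 5) (nat_lit 119) (nat_lit 193) (nat_lit 198))) (PT.nd (nat_lit 78) (PT.lf (nat_lit 14136) (nat_lit 6) (nat_lit 186) (nat_lit 5) (nat_lit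 120) (nat_lit 193) (nat_lit 197)) (PT.lf (nat_lit 14440) (nat_lit 6) (nat_lit 190) (nat_lit 5) (nat_lit 121) (nat_lit 193) (nat_lit 196)))) (PT.nd (nat_lit 156) (PT.nd (nat_lit 78) (PT.lf (nat_lit 14744) (nat_lit 6) (nat_lit 194) (nat_lit 5) (nat_lit 122) (nat_lit 193) (nat_lit 195)) (PT.lf (nat_lit 15048) (nat_lit 6) (nat_lit 198) (nat_lit 5) (nat_lit 123) (nat_lit 193) (nat_lit 194))) (PT.nd (nat_lit 78) (PT.lf (nat_lit 15352) (nat_lit 3) (nat_lit 202) (nat_lit 4) (nat_lit 124) (nat_lit 193) (nat_lit 193)) (PT.nd (nat_lit 78) (PT.lf (nat_lit 15580) (nat_lit 6) (nat_lit 205) (nat_lit 4) (nat_lit 125) (nat_lit 193) (nat_lit 192)) (PT.lf (nat_lit 15808) (nat_lit 6) (nat_lit 208) (nat_lit 4) (nat_lit 126) (nat_lit 193) (nat_lit 191))))))))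
noncomputable def pc55 : PT := (PT.nd (nat_lit 5460) (PT.nd (nat_lit 4758) (PT.nd (nat_lit 312) (PT.nd (nat_lit 156) (PT.nd (nat_lit 78) (PT.lf (nat_lit 16112) (nat_lit 6) (nat_lit 212) (nat_lit 4) (nat_lit 127) (nat_lit 193) (nat_lit 190)) (PT.lf (nat_lit 16340) (nat_lit 6) (nat_lit 215) (nat_lit 4) (nat_lit 128) (nat_lit 193) (nat_lit 189))) (PT.nd (nat_lit 78) (PT.lf (nat_lit 16644) (nat_lit 6) (nat_lit 219) (nat_lit 4) (nat_lit 129) (nat_lit 193) (nat_lit 188)) (PT.lf (nat_lit 16872) (nat_lit 6) (nat_lit 222) (nat_lit 4) (nat_lit 130) (nat_lit 193) (nat_lit 187)))) (PT.nd (nat_lit 4212) (PT.nd (nat_lit 78) (PT.lf (nat_lit 17176) (nat_lit 6) (nat_lit 226) (nat_lit 4) (nat_lit 131) (nat_lit 193) (nat_lit 186)) (PT.lf (nat_lit 17480) (nat_lit 6) (nat_lit 230) (nat_lit 4) (nat_lit 132) (nat_lit 193) (nat_lit 185))) (PT.nd (nat_lit 78) (PT.lf (nat_lit 17480) (nat_lit 6) (nat_lit 230) (nat_lit 2) (nat_lit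 185) (nat_lit 193) (nat_lit 132)) (PT.nd (nat_lit 78) (PT.lf (nat_lit 17176) (nat_lit 6) (nat_lit 226) (nat_lit 2) (nat_lit 186) (nat_lit 193) (nat_lit 131)) (PT.lf (nat_lit 16872) (nat_lit 6) (nat_lit 222) (nat_lit 2) (nat_lit 187) (nat_lit 193) (nat_lit 130)))))) (PT.nd (nat_lit 312) (PT.nd (nat_lit 156) (PT.nd (nat_lit 78) (PT.lf (nat_lit 16644) (nat_lit 6) (nat_lit 219) (nat_lit 2) (nat_lit 188) (nat_lit 193) (nat_lit 129)) (PT.lf (nat_lit 16340) (nat_lit 6) (nat_lit 215) (nat_lit 2) (nat_lit 189) (nat_lit 193) (nat_lit 128))) (PT.nd (nat_lit 78) (PT.lf (nat_lit 16112) (nat_lit 6) (nat_lit 212) (nat_lit 2) (nat_lit 190) (nat_lit 193) (nat_lit 127)) (PT.lf (nat_lit 15808) (nat_lit 6) (nat_lit 208) (nat_lit 2) (nat_lit 191) (nat_lit 193) (nat_lit 126)))) (PT.nd (nat_lit 156) (PT.nd (nat_lit 78) (PT.lf (nat_lit 15580) (nat_lit 6) (nat_lit 205) (nat_lit 2) (nat_lit 192) (nat_lit 193) (nat_lit 125)) (PT.lf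 (nat_lit 15352) (nat_lit 3) (nat_lit 202) (nat_lit 0) (nat_lit 193) (nat_lit 193) (nat_lit 124))) (PT.nd (nat_lit 78) (PT.lf (nat_lit 15048) (nat_lit 6) (nat_lit 198) (nat_lit 0) (nat_lit 194) (nat_lit 193) (nat_lit 123)) (PT.nd (nat_lit 78) (PT.lf (nat_lit 14744) (nat_lit 6) (nat_lit 194) (nat_lit 0) (nat_lit 195) (nat_lit 193) (nat_lit 122)) (PT.lf (nat_lit 14440) (nat_lit 6) (nat_lit 190) (nat_lit 0) (nat_lit 196) (nat_lit 193) (nat_lit 121))))))) (PT.nd (nat_lit 47424) (PT.nd (nat_lit 47034) (PT.nd (nat_lit 46878) (PT.nd (nat_lit 78) (PT.lf (nat_lit 14136) (nat_lit 6) (nat_lit 186) (nat_lit 0) (nat_lit 197) (nat_lit 193) (nat_lit 120)) (PT.lf (nat_lit 13908) (nat_lit 6) (nat_lit 183) (nat_lit 0) (nat_lit 198) (nat_lit 193) (nat_lit 119))) (PT.nd (nat_lit 78) (PT.lf (nat_lit 13452) (nat_lit 6) (nat_lit 177) (nat_lit 5) (nat_lit 117) (nat_lit 194) (nat_lit 199)) (PT.lf (nat_lit 13680) (nat_lit 6) (nat_lit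 180) (nat_lit 5) (nat_lit 118) (nat_lit 194) (nat_lit 198)))) (PT.nd (nat_lit 156) (PT.nd (nat_lit 78) (PT.lf (nat_lit 13984) (nat_lit 6) (nat_lit 184) (nat_lit 5) (nat_lit 119) (nat_lit 194) (nat_lit 197)) (PT.lf (nat_lit 14212) (nat_lit 6) (nat_lit 187) (nat_lit 5) (nat_lit 120) (nat_lit 194) (nat_lit 196))) (PT.nd (nat_lit 78) (PT.lf (nat_lit 14516) (nat_lit 6) (nat_lit 191) (nat_lit 5) (nat_lit 121) (nat_lit 194) (nat_lit 195)) (PT.nd (nat_lit 78) (PT.lf (nat_lit 14820) (nat_lit 3) (nat_lit 195) (nat_lit 4) (nat_lit 122) (nat_lit 194) (nat_lit 194)) (PT.lf (nat_lit 15048) (nat_lit 6) (nat_lit 198) (nat_lit 4) (nat_lit 123) (nat_lit 194) (nat_lit 193)))))) (PT.nd (nat_lit 312) (PT.nd (nat_lit 156) (PT.nd (nat_lit 78) (PT.lf (nat_lit 15276) (nat_lit 6) (nat_lit 201) (nat_lit 4) (nat_lit 124) (nat_lit 194) (nat_lit 192)) (PT.lf (nat_lit 15504) (nat_lit 6) (nat_lit 204) (nat_lit 4) (nat_lit 125) (nat_lit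 194) (nat_lit 191))) (PT.nd (nat_lit 78) (PT.lf (nat_lit 15732) (nat_lit 6) (nat_lit 207) (nat_lit 4) (nat_lit 126) (nat_lit 194) (nat_lit 190)) (PT.lf (nat_lit 16036) (nat_lit 6) (nat_lit 211) (nat_lit 4) (nat_lit 127) (nat_lit 194) (nat_lit 189)))) (PT.nd (nat_lit 4602) (PT.nd (nat_lit 78) (PT.lf (nat_lit 16264) (nat_lit 6) (nat_lit 214) (nat_lit 4) (nat_lit 128) (nat_lit 194) (nat_lit 188)) (PT.lf (nat_lit 16568) (nat_lit 6) (nat_lit 218) (nat_lit 4) (nat_lit 129) (nat_lit 194) (nat_lit 187))) (PT.nd (nat_lit 78) (PT.lf (nat_lit 16568) (nat_lit 6) (nat_lit 218) (nat_lit 2) (nat_lit 187) (nat_lit 194) (nat_lit 129)) (PT.nd (nat_lit 78) (PT.lf (nat_lit 16264) (nat_lit 6) (nat_lit 214) (nat_lit 2) (nat_lit 188) (nat_lit 194) (nat_lit 128)) (PT.lf (nat_lit 16036) (nat_lit 6) (nat_lit 211) (nat_lit 2) (nat_lit 189) (nat_lit 194) (nat_lit 127))))))))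
noncomputable def pc56 : PT := (PT.nd (nat_lit 47892) (PT.nd (nat_lit 624) (PT.nd (nat_lit 312) (PT.nd (nat_lit 156) (PT.nd (nat_lit 78) (PT.lf (nat_lit 15732) (nat_lit 6) (nat_lit 207) (nat_lit 2) (nat_lit 190) (nat_lit 194) (nat_lit 126)) (PT.lf (nat_lit 15504) (nat_lit 6) (nat_lit 204) (nat_lit 2) (nat_lit 191) (nat_lit 194) (nat_lit 125))) (PT.nd (nat_lit 78) (PT.lf (nat_lit 15276) (nat_lit 6) (nat_lit 201) (nat_lit 2) (nat_lit 192) (nat_lit 194) (nat_lit 124)) (PT.lf (nat_lit 15048) (nat_lit 6) (nat_lit 198) (nat_lit 2) (nat_lit 193) (nat_lit 194) (nat_lit 123)))) (PT.nd (nat_lit 156) (PT.nd (nat_lit 78) (PT.lf (nat_lit 14820) (nat_lit 3) (nat_lit 195) (nat_lit 0) (nat_lit 194) (nat_lit 194) (nat_lit 122)) (PT.lf (nat_lit 14516) (nat_lit 6) (nat_lit 191) (nat_lit 0) (nat_lit 195) (nat_lit 194) (nat_lit 121))) (PT.nd (nat_lit 78) (PT.lf (nat_lit 14212) (nat_lit 6) (nat_lit 187) (nat_lit 0) (nat_lit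 196) (nat_lit 194) (nat_lit 120)) (PT.lf (nat_lit 13984) (nat_lit 6) (nat_lit 184) (nat_lit 0) (nat_lit 197) (nat_lit 194) (nat_lit 119))))) (PT.nd (nat_lit 46878) (PT.nd (nat_lit 46722) (PT.nd (nat_lit 78) (PT.lf (nat_lit 13680) (nat_lit 6) (nat_lit 180) (nat_lit 0) (nat_lit 198) (nat_lit 194) (nat_lit 118)) (PT.lf (nat_lit 13452) (nat_lit 6) (nat_lit 177) (nat_lit 0) (nat_lit 199) (nat_lit 194) (nat_lit 117))) (PT.nd (nat_lit 78) (PT.lf (nat_lit 13224) (nat_lit 6) (nat_lit 174) (nat_lit 5) (nat_lit 116) (nat_lit 195) (nat_lit 199)) (PT.lf (nat_lit 13528) (nat_lit 6) (nat_lit 178) (nat_lit 5) (nat_lit 117) (nat_lit 195) (nat_lit 198)))) (PT.nd (nat_lit 156) (PT.nd (nat_lit 78) (PT.lf (nat_lit 13756) (nat_lit 6) (nat_lit 181) (nat_lit 5) (nat_lit 118) (nat_lit 195) (nat_lit 197)) (PT.lf (nat_lit 14060) (nat_lit 6) (nat_lit 185) (nat_lit 5) (nat_lit 119) (nat_lit 195) (nat_lit 196))) (PT.nd (nat_lit 78)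 (PT.lf (nat_lit 14288) (nat_lit 3) (nat_lit 188) (nat_lit 4) (nat_lit 120) (nat_lit 195) (nat_lit 195)) (PT.nd (nat_lit 78) (PT.lf (nat_lit 14516) (nat_lit 6) (nat_lit 191) (nat_lit 4) (nat_lit 121) (nat_lit 195) (nat_lit 194)) (PT.lf (nat_lit 14744) (nat_lit 6) (nat_lit 194) (nat_lit 4) (nat_lit 122) (nat_lit 195) (nat_lit 193))))))) (PT.nd (nat_lit 5382) (PT.nd (nat_lit 312) (PT.nd (nat_lit 156) (PT.nd (nat_lit 78) (PT.lf (nat_lit 14972) (nat_lit 6) (nat_lit 197) (nat_lit 4) (nat_lit 123) (nat_lit 195) (nat_lit 192)) (PT.lf (nat_lit 15200) (nat_lit 6) (nat_lit 200) (nat_lit 4) (nat_lit 124) (nat_lit 195) (nat_lit 191))) (PT.nd (nat_lit 78) (PT.lf (nat_lit 15428) (nat_lit 6) (nat_lit 203) (nat_lit 4) (nat_lit 125) (nat_lit 195) (nat_lit 190)) (PT.lf (nat_lit 15656) (nat_lit 6) (nat_lit 206) (nat_lit 4) (nat_lit 126) (nat_lit 195) (nat_lit 189)))) (PT.nd (nat_lit 4836) (PT.nd (nat_lit 4758) (PT.lf (nat_lit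 15960) (nat_lit 6) (nat_lit 210) (nat_lit 4) (nat_lit 127) (nat_lit 195) (nat_lit 188)) (PT.lf (nat_lit 15960) (nat_lit 6) (nat_lit 210) (nat_lit 2) (nat_lit 188) (nat_lit 195) (nat_lit 127))) (PT.nd (nat_lit 78) (PT.lf (nat_lit 15656) (nat_lit 6) (nat_lit 206) (nat_lit 2) (nat_lit 189) (nat_lit 195) (nat_lit 126)) (PT.nd (nat_lit 78) (PT.lf (nat_lit 15428) (nat_lit 6) (nat_lit 203) (nat_lit 2) (nat_lit 190) (nat_lit 195) (nat_lit 125)) (PT.lf (nat_lit 15200) (nat_lit 6) (nat_lit 200) (nat_lit 2) (nat_lit 191) (nat_lit 195) (nat_lit 124)))))) (PT.nd (nat_lit 312) (PT.nd (nat_lit 156) (PT.nd (nat_lit 78) (PT.lf (nat_lit 14972) (nat_lit 6) (nat_lit 197) (nat_lit 2) (nat_lit 192) (nat_lit 195) (nat_lit 123)) (PT.lf (nat_lit 14744) (nat_lit 6) (nat_lit 194) (nat_lit 2) (nat_lit 193) (nat_lit 195) (nat_lit 122))) (PT.nd (nat_lit 78) (PT.lf (nat_lit 14516) (nat_lit 6) (nat_lit 191) (nat_lit 2) (nat_lit 194)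 (nat_lit 195) (nat_lit 121)) (PT.lf (nat_lit 14288) (nat_lit 3) (nat_lit 188) (nat_lit 0) (nat_lit 195) (nat_lit 195) (nat_lit 120)))) (PT.nd (nat_lit 156) (PT.nd (nat_lit 78) (PT.lf (nat_lit 14060) (nat_lit 6) (nat_lit 185) (nat_lit 0) (nat_lit 196) (nat_lit 195) (nat_lit 119)) (PT.lf (nat_lit 13756) (nat_lit 6) (nat_lit 181) (nat_lit 0) (nat_lit 197) (nat_lit 195) (nat_lit 118))) (PT.nd (nat_lit 78) (PT.lf (nat_lit 13528) (nat_lit 6) (nat_lit 178) (nat_lit 0) (nat_lit 198) (nat_lit 195) (nat_lit 117)) (PT.nd (nat_lit 46488) (PT.lf (nat_lit 13224) (nat_lit 6) (nat_lit 174) (nat_lit 0) (nat_lit 199) (nat_lit 195) (nat_lit 116)) (PT.lf (nat_lit 12844) (nat_lit 6) (nat_lit 169) (nat_lit 5) (nat_lit 114) (nat_lit 196) (nat_lit 200))))))))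
noncomputable def pc57 : PT := (PT.nd (nat_lit 6474) (PT.nd (nat_lit 702) (PT.nd (nat_lit 312) (PT.nd (nat_lit 156) (PT.nd (nat_lit 78) (PT.lf (nat_lit 13072) (nat_lit 6) (nat_lit 172) (nat_lit 5) (nat_lit 115) (nat_lit 196) (nat_lit 199)) (PT.lf (nat_lit 13300) (nat_lit 6) (nat_lit 175) (nat_lit 5) (nat_lit 116) (nat_lit 196) (nat_lit 198))) (PT.nd (nat_lit 78) (PT.lf (nat_lit 13604) (nat_lit 6) (nat_lit 179) (nat_lit 5) (nat_lit 117) (nat_lit 196) (nat_lit 197)) (PT.lf (nat_lit 13832) (nat_lit 3) (nat_lit 182) (nat_lit 4) (nat_lit 118) (nat_lit 196) (nat_lit 196)))) (PT.nd (nat_lit 156) (PT.nd (nat_lit 78) (PT.lf (nat_lit 14060) (nat_lit 6) (nat_lit 185) (nat_lit 4) (nat_lit 119) (nat_lit 196) (nat_lit 195)) (PT.lf (nat_lit 14212) (nat_lit 6) (nat_lit 187) (nat_lit 4) (nat_lit 120) (nat_lit 196) (nat_lit 194))) (PT.nd (nat_lit 78) (PT.lf (nat_lit 14440) (nat_lit 6) (nat_lit 190) (nat_lit 4) (nat_lit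 121) (nat_lit 196) (nat_lit 193)) (PT.nd (nat_lit 78) (PT.lf (nat_lit 14668) (nat_lit 6) (nat_lit 193) (nat_lit 4) (nat_lit 122) (nat_lit 196) (nat_lit 192)) (PT.lf (nat_lit 14896) (nat_lit 6) (nat_lit 196) (nat_lit 4) (nat_lit 123) (nat_lit 196) (nat_lit 191)))))) (PT.nd (nat_lit 5382) (PT.nd (nat_lit 5226) (PT.nd (nat_lit 5148) (PT.lf (nat_lit 15124) (nat_lit 6) (nat_lit 199) (nat_lit 4) (nat_lit 124) (nat_lit 196) (nat_lit 190)) (PT.lf (nat_lit 15124) (nat_lit 6) (nat_lit 199) (nat_lit 2) (nat_lit 190) (nat_lit 196) (nat_lit 124))) (PT.nd (nat_lit 78) (PT.lf (nat_lit 14896) (nat_lit 6) (nat_lit 196) (nat_lit 2) (nat_lit 191) (nat_lit 196) (nat_lit 123)) (PT.lf (nat_lit 14668) (nat_lit 6) (nat_lit 193) (nat_lit 2) (nat_lit 192) (nat_lit 196) (nat_lit 122)))) (PT.nd (nat_lit 156) (PT.nd (nat_lit 78) (PT.lf (nat_lit 14440) (nat_lit 6) (nat_lit 190) (nat_lit 2) (nat_lit 193) (nat_lit 196) (nat_lit 121))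 (PT.lf (nat_lit 14212) (nat_lit 6) (nat_lit 187) (nat_lit 2) (nat_lit 194) (nat_lit 196) (nat_lit 120))) (PT.nd (nat_lit 78) (PT.lf (nat_lit 14060) (nat_lit 6) (nat_lit 185) (nat_lit 2) (nat_lit 195) (nat_lit 196) (nat_lit 119)) (PT.nd (nat_lit 78) (PT.lf (nat_lit 13832) (nat_lit 3) (nat_lit 182) (nat_lit 0) (nat_lit 196) (nat_lit 196) (nat_lit 118)) (PT.lf (nat_lit 13604) (nat_lit 6) (nat_lit 179) (nat_lit 0) (nat_lit 197) (nat_lit 196) (nat_lit 117))))))) (PT.nd (nat_lit 46878) (PT.nd (nat_lit 46488) (PT.nd (nat_lit 156) (PT.nd (nat_lit 78) (PT.lf (nat_lit 13300) (nat_lit 6) (nat_lit 175) (nat_lit 0) (nat_lit 198) (nat_lit 196) (nat_lit 116)) (PT.lf (nat_lit 13072) (nat_lit 6) (nat_lit 172) (nat_lit 0) (nat_lit 199) (nat_lit 196) (nat_lit 115))) (PT.nd (nat_lit 46254) (PT.lf (nat_lit 12844) (nat_lit 6) (nat_lit 169) (nat_lit 0) (nat_lit 200) (nat_lit 196) (nat_lit 114)) (PT.lf (nat_lit 12464) (nat_lit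 6) (nat_lit 164) (nat_lit 5) (nat_lit 112) (nat_lit 197) (nat_lit 201)))) (PT.nd (nat_lit 156) (PT.nd (nat_lit 78) (PT.lf (nat_lit 12692) (nat_lit 6) (nat_lit 167) (nat_lit 5) (nat_lit 113) (nat_lit 197) (nat_lit 200)) (PT.lf (nat_lit 12920) (nat_lit 6) (nat_lit 170) (nat_lit 5) (nat_lit 114) (nat_lit 197) (nat_lit 199))) (PT.nd (nat_lit 78) (PT.lf (nat_lit 13148) (nat_lit 6) (nat_lit 173) (nat_lit 5) (nat_lit 115) (nat_lit 197) (nat_lit 198)) (PT.nd (nat_lit 78) (PT.lf (nat_lit 13376) (nat_lit 3) (nat_lit 176) (nat_lit 4) (nat_lit 116) (nat_lit 197) (nat_lit 197)) (PT.lf (nat_lit 13604) (nat_lit 6) (nat_lit 179) (nat_lit 4) (nat_lit 117) (nat_lit 197) (nat_lit 196)))))) (PT.nd (nat_lit 312) (PT.nd (nat_lit 156) (PT.nd (nat_lit 78) (PT.lf (nat_lit 13756) (nat_lit 6) (nat_lit 181) (nat_lit 4) (nat_lit 118) (nat_lit 197) (nat_lit 195)) (PT.lf (nat_lit 13984) (nat_lit 6) (nat_lit 184) (nat_lit 4) (nat_lit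 119) (nat_lit 197) (nat_lit 194))) (PT.nd (nat_lit 78) (PT.lf (nat_lit 14136) (nat_lit 6) (nat_lit 186) (nat_lit 4) (nat_lit 120) (nat_lit 197) (nat_lit 193)) (PT.lf (nat_lit 14364) (nat_lit 6) (nat_lit 189) (nat_lit 4) (nat_lit 121) (nat_lit 197) (nat_lit 192)))) (PT.nd (nat_lit 5460) (PT.nd (nat_lit 5382) (PT.lf (nat_lit 14592) (nat_lit 6) (nat_lit 192) (nat_lit 4) (nat_lit 122) (nat_lit 197) (nat_lit 191)) (PT.lf (nat_lit 14592) (nat_lit 6) (nat_lit 192) (nat_lit 2) (nat_lit 191) (nat_lit 197) (nat_lit 122))) (PT.nd (nat_lit 78) (PT.lf (nat_lit 14364) (nat_lit 6) (nat_lit 189) (nat_lit 2) (nat_lit 192) (nat_lit 197) (nat_lit 121)) (PT.nd (nat_lit 78) (PT.lf (nat_lit 14136) (nat_lit 6) (nat_lit 186) (nat_lit 2) (nat_lit 193) (nat_lit 197) (nat_lit 120)) (PT.lf (nat_lit 13984) (nat_lit 6) (nat_lit 184) (nat_lit 2) (nat_lit 194) (nat_lit 197) (nat_lit 119))))))))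
noncomputable def pc58 : PT := (PT.nd (nat_lit 52962) (PT.nd (nat_lit 46566) (PT.nd (nat_lit 312) (PT.nd (nat_lit 156) (PT.nd (nat_lit 78) (PT.lf (nat_lit 13756) (nat_lit 6) (nat_lit 181) (nat_lit 2) (nat_lit 195) (nat_lit 197) (nat_lit 118)) (PT.lf (nat_lit 13604) (nat_lit 6) (nat_lit 179) (nat_lit 2) (nat_lit 196) (nat_lit 197) (nat_lit 117))) (PT.nd (nat_lit 78) (PT.lf (nat_lit 13376) (nat_lit 3) (nat_lit 176) (nat_lit 0) (nat_lit 197) (nat_lit 197) (nat_lit 116)) (PT.lf (nat_lit 13148) (nat_lit 6) (nat_lit 173) (nat_lit 0) (nat_lit 198) (nat_lit 197) (nat_lit 115)))) (PT.nd (nat_lit 156) (PT.nd (nat_lit 78) (PT.lf (nat_lit 12920) (nat_lit 6) (nat_lit 170) (nat_lit 0) (nat_lit 199) (nat_lit 197) (nat_lit 114)) (PT.lf (nat_lit 12692) (nat_lit 6) (nat_lit 167) (nat_lit 0) (nat_lit 200) (nat_lit 197) (nat_lit 113))) (PT.nd (nat_lit 46020) (PT.lf (nat_lit 12464) (nat_lit 6) (nat_lit 164) (nat_lit 0) (nat_lit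 201) (nat_lit 197) (nat_lit 112)) (PT.lf (nat_lit 12084) (nat_lit 6) (nat_lit 159) (nat_lit 5) (nat_lit 110) (nat_lit 198) (nat_lit 202))))) (PT.nd (nat_lit 312) (PT.nd (nat_lit 156) (PT.nd (nat_lit 78) (PT.lf (nat_lit 12312) (nat_lit 6) (nat_lit 162) (nat_lit 5) (nat_lit 111) (nat_lit 198) (nat_lit 201)) (PT.lf (nat_lit 12540) (nat_lit 6) (nat_lit 165) (nat_lit 5) (nat_lit 112) (nat_lit 198) (nat_lit 200))) (PT.nd (nat_lit 78) (PT.lf (nat_lit 12768) (nat_lit 6) (nat_lit 168) (nat_lit 5) (nat_lit 113) (nat_lit 198) (nat_lit 199)) (PT.lf (nat_lit 12996) (nat_lit 3) (nat_lit 171) (nat_lit 4) (nat_lit 114) (nat_lit 198) (nat_lit 198)))) (PT.nd (nat_lit 156) (PT.nd (nat_lit 78) (PT.lf (nat_lit 13148) (nat_lit 6) (nat_lit 173) (nat_lit 4) (nat_lit 115) (nat_lit 198) (nat_lit 197)) (PT.lf (nat_lit 13300) (nat_lit 6) (nat_lit 175) (nat_lit 4) (nat_lit 116) (nat_lit 198) (nat_lit 196))) (PT.nd (nat_lit 78) (PT.lf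 (nat_lit 13528) (nat_lit 6) (nat_lit 178) (nat_lit 4) (nat_lit 117) (nat_lit 198) (nat_lit 195)) (PT.nd (nat_lit 78) (PT.lf (nat_lit 13680) (nat_lit 6) (nat_lit 180) (nat_lit 4) (nat_lit 118) (nat_lit 198) (nat_lit 194)) (PT.lf (nat_lit 13908) (nat_lit 6) (nat_lit 183) (nat_lit 4) (nat_lit 119) (nat_lit 198) (nat_lit 193))))))) (PT.nd (nat_lit 702) (PT.nd (nat_lit 312) (PT.nd (nat_lit 156) (PT.nd (nat_lit 78) (PT.lf (nat_lit 13908) (nat_lit 6) (nat_lit 183) (nat_lit 2) (nat_lit 193) (nat_lit 198) (nat_lit 119)) (PT.lf (nat_lit 13680) (nat_lit 6) (nat_lit 180) (nat_lit 2) (nat_lit 194) (nat_lit 198) (nat_lit 118))) (PT.nd (nat_lit 78) (PT.lf (nat_lit 13528) (nat_lit 6) (nat_lit 178) (nat_lit 2) (nat_lit 195) (nat_lit 198) (nat_lit 117)) (PT.lf (nat_lit 13300) (nat_lit 6) (nat_lit 175) (nat_lit 2) (nat_lit 196) (nat_lit 198) (nat_lit 116)))) (PT.nd (nat_lit 156) (PT.nd (nat_lit 78) (PT.lf (nat_lit 13148)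 (nat_lit 6) (nat_lit 173) (nat_lit 2) (nat_lit 197) (nat_lit 198) (nat_lit 115)) (PT.lf (nat_lit 12996) (nat_lit 3) (nat_lit 171) (nat_lit 0) (nat_lit 198) (nat_lit 198) (nat_lit 114))) (PT.nd (nat_lit 78) (PT.lf (nat_lit 12768) (nat_lit 6) (nat_lit 168) (nat_lit 0) (nat_lit 199) (nat_lit 198) (nat_lit 113)) (PT.nd (nat_lit 78) (PT.lf (nat_lit 12540) (nat_lit 6) (nat_lit 165) (nat_lit 0) (nat_lit 200) (nat_lit 198) (nat_lit 112)) (PT.lf (nat_lit 12312) (nat_lit 6) (nat_lit 162) (nat_lit 0) (nat_lit 201) (nat_lit 198) (nat_lit 111)))))) (PT.nd (nat_lit 46020) (PT.nd (nat_lit 45864) (PT.nd (nat_lit 45786) (PT.lf (nat_lit 12084) (nat_lit 6) (nat_lit 159) (nat_lit 0) (nat_lit 202) (nat_lit 198) (nat_lit 110)) (PT.lf (nat_lit 11704) (nat_lit 6) (nat_lit 154) (nat_lit 5) (nat_lit 108) (nat_lit 199) (nat_lit 203))) (PT.nd (nat_lit 78) (PT.lf (nat_lit 11932) (nat_lit 6) (nat_lit 157) (nat_lit 5) (nat_lit 109)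 (nat_lit 199) (nat_lit 202)) (PT.lf (nat_lit 12160) (nat_lit 6) (nat_lit 160) (nat_lit 5) (nat_lit 110) (nat_lit 199) (nat_lit 201)))) (PT.nd (nat_lit 156) (PT.nd (nat_lit 78) (PT.lf (nat_lit 12388) (nat_lit 6) (nat_lit 163) (nat_lit 5) (nat_lit 111) (nat_lit 199) (nat_lit 200)) (PT.lf (nat_lit 12616) (nat_lit 3) (nat_lit 166) (nat_lit 4) (nat_lit 112) (nat_lit 199) (nat_lit 199))) (PT.nd (nat_lit 78) (PT.lf (nat_lit 12768) (nat_lit 6) (nat_lit 168) (nat_lit 4) (nat_lit 113) (nat_lit 199) (nat_lit 198)) (PT.nd (nat_lit 78) (PT.lf (nat_lit 12920) (nat_lit 6) (nat_lit 170) (nat_lit 4) (nat_lit 114) (nat_lit 199) (nat_lit 197)) (PT.lf (nat_lit 13072) (nat_lit 6) (nat_lit 172) (nat_lit 4) (nat_lit 115) (nat_lit 199) (nat_lit 196))))))))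
noncomputable def pc59 : PT := (PT.nd (nat_lit 52884) (PT.nd (nat_lit 6630) (PT.nd (nat_lit 6240) (PT.nd (nat_lit 6084) (PT.nd (nat_lit 78) (PT.lf (nat_lit 13224) (nat_lit 6) (nat_lit 174) (nat_lit 4) (nat_lit 116) (nat_lit 199) (nat_lit 195)) (PT.lf (nat_lit 13452) (nat_lit 6) (nat_lit 177) (nat_lit 4) (nat_lit 117) (nat_lit 199) (nat_lit 194))) (PT.nd (nat_lit 78) (PT.lf (nat_lit 13452) (nat_lit 6) (nat_lit 177) (nat_lit 2) (nat_lit 194) (nat_lit 199) (nat_lit 117)) (PT.lf (nat_lit 13224) (nat_lit 6) (nat_lit 174) (nat_lit 2) (nat_lit 195) (nat_lit 199) (nat_lit 116)))) (PT.nd (nat_lit 156) (PT.nd (nat_lit 78) (PT.lf (nat_lit 13072) (nat_lit 6) (nat_lit 172) (nat_lit 2) (nat_lit 196) (nat_lit 199) (nat_lit 115)) (PT.lf (nat_lit 12920) (nat_lit 6) (nat_lit 170) (nat_lit 2) (nat_lit 197) (nat_lit 199) (nat_lit 114))) (PT.nd (nat_lit 78) (PT.lf (nat_lit 12768) (nat_lit 6) (nat_lit 168) (nat_lit 2) (nat_lit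 198) (nat_lit 199) (nat_lit 113)) (PT.nd (nat_lit 78) (PT.lf (nat_lit 12616) (nat_lit 3) (nat_lit 166) (nat_lit 0) (nat_lit 199) (nat_lit 199) (nat_lit 112)) (PT.lf (nat_lit 12388) (nat_lit 6) (nat_lit 163) (nat_lit 0) (nat_lit 200) (nat_lit 199) (nat_lit 111)))))) (PT.nd (nat_lit 45864) (PT.nd (nat_lit 156) (PT.nd (nat_lit 78) (PT.lf (nat_lit 12160) (nat_lit 6) (nat_lit 160) (nat_lit 0) (nat_lit 201) (nat_lit 199) (nat_lit 110)) (PT.lf (nat_lit 11932) (nat_lit 6) (nat_lit 157) (nat_lit 0) (nat_lit 202) (nat_lit 199) (nat_lit 109))) (PT.nd (nat_lit 45630) (PT.lf (nat_lit 11704) (nat_lit 6) (nat_lit 154) (nat_lit 0) (nat_lit 203) (nat_lit 199) (nat_lit 108)) (PT.lf (nat_lit 11552) (nat_lit 6) (nat_lit 152) (nat_lit 5) (nat_lit 107) (nat_lit 200) (nat_lit 203)))) (PT.nd (nat_lit 156) (PT.nd (nat_lit 78) (PT.lf (nat_lit 11780) (nat_lit 6) (nat_lit 155) (nat_lit 5) (nat_lit 108) (nat_lit 200) (nat_lit 202))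 (PT.lf (nat_lit 12008) (nat_lit 6) (nat_lit 158) (nat_lit 5) (nat_lit 109) (nat_lit 200) (nat_lit 201))) (PT.nd (nat_lit 78) (PT.lf (nat_lit 12236) (nat_lit 3) (nat_lit 161) (nat_lit 4) (nat_lit 110) (nat_lit 200) (nat_lit 200)) (PT.nd (nat_lit 78) (PT.lf (nat_lit 12388) (nat_lit 6) (nat_lit 163) (nat_lit 4) (nat_lit 111) (nat_lit 200) (nat_lit 199)) (PT.lf (nat_lit 12540) (nat_lit 6) (nat_lit 165) (nat_lit 4) (nat_lit 112) (nat_lit 200) (nat_lit 198))))))) (PT.nd (nat_lit 7020) (PT.nd (nat_lit 6630) (PT.nd (nat_lit 6474) (PT.nd (nat_lit 78) (PT.lf (nat_lit 12692) (nat_lit 6) (nat_lit 167) (nat_lit 4) (nat_lit 113) (nat_lit 200) (nat_lit 197)) (PT.lf (nat_lit 12844) (nat_lit 6) (nat_lit 169) (nat_lit 4) (nat_lit 114) (nat_lit 200) (nat_lit 196))) (PT.nd (nat_lit 78) (PT.lf (nat_lit 12844) (nat_lit 6) (nat_lit 169) (nat_lit 2) (nat_lit 196) (nat_lit 200) (nat_lit 114)) (PT.lf (nat_lit 12692) (nat_lit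 6) (nat_lit 167) (nat_lit 2) (nat_lit 197) (nat_lit 200) (nat_lit 113)))) (PT.nd (nat_lit 156) (PT.nd (nat_lit 78) (PT.lf (nat_lit 12540) (nat_lit 6) (nat_lit 165) (nat_lit 2) (nat_lit 198) (nat_lit 200) (nat_lit 112)) (PT.lf (nat_lit 12388) (nat_lit 6) (nat_lit 163) (nat_lit 2) (nat_lit 199) (nat_lit 200) (nat_lit 111))) (PT.nd (nat_lit 78) (PT.lf (nat_lit 12236) (nat_lit 3) (nat_lit 161) (nat_lit 0) (nat_lit 200) (nat_lit 200) (nat_lit 110)) (PT.nd (nat_lit 78) (PT.lf (nat_lit 12008) (nat_lit 6) (nat_lit 158) (nat_lit 0) (nat_lit 201) (nat_lit 200) (nat_lit 109)) (PT.lf (nat_lit 11780) (nat_lit 6) (nat_lit 155) (nat_lit 0) (nat_lit 202) (nat_lit 200) (nat_lit 108)))))) (PT.nd (nat_lit 45708) (PT.nd (nat_lit 45552) (PT.nd (nat_lit 45474) (PT.lf (nat_lit 11552) (nat_lit 6) (nat_lit 152) (nat_lit 0) (nat_lit 203) (nat_lit 200) (nat_lit 107)) (PT.lf (nat_lit 11248) (nat_lit 6) (nat_lit 148) (nat_lit 5)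 (nat_lit 105) (nat_lit 201) (nat_lit 204))) (PT.nd (nat_lit 78) (PT.lf (nat_lit 11400) (nat_lit 6) (nat_lit 150) (nat_lit 5) (nat_lit 106) (nat_lit 201) (nat_lit 203)) (PT.lf (nat_lit 11628) (nat_lit 6) (nat_lit 153) (nat_lit 5) (nat_lit 107) (nat_lit 201) (nat_lit 202)))) (PT.nd (nat_lit 156) (PT.nd (nat_lit 78) (PT.lf (nat_lit 11856) (nat_lit 3) (nat_lit 156) (nat_lit 4) (nat_lit 108) (nat_lit 201) (nat_lit 201)) (PT.lf (nat_lit 12008) (nat_lit 6) (nat_lit 158) (nat_lit 4) (nat_lit 109) (nat_lit 201) (nat_lit 200))) (PT.nd (nat_lit 78) (PT.lf (nat_lit 12160) (nat_lit 6) (nat_lit 160) (nat_lit 4) (nat_lit 110) (nat_lit 201) (nat_lit 199)) (PT.nd (nat_lit 78) (PT.lf (nat_lit 12312) (nat_lit 6) (nat_lit 162) (nat_lit 4) (nat_lit 111) (nat_lit 201) (nat_lit 198)) (PT.lf (nat_lit 12464) (nat_lit 6) (nat_lit 164) (nat_lit 4) (nat_lit 112) (nat_lit 201) (nat_lit 197))))))))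
noncomputable def pc60 : PT := (PT.nd (nat_lit 53274) (PT.nd (nat_lit 45786) (PT.nd (nat_lit 312) (PT.nd (nat_lit 156) (PT.nd (nat_lit 78) (PT.lf (nat_lit 12464) (nat_lit 6) (nat_lit 164) (nat_lit 2) (nat_lit 197) (nat_lit 201) (nat_lit 112)) (PT.lf (nat_lit 12312) (nat_lit 6) (nat_lit 162) (nat_lit 2) (nat_lit 198) (nat_lit 201) (nat_lit 111))) (PT.nd (nat_lit 78) (PT.lf (nat_lit 12160) (nat_lit 6) (nat_lit 160) (nat_lit 2) (nat_lit 199) (nat_lit 201) (nat_lit 110)) (PT.lf (nat_lit 12008) (nat_lit 6) (nat_lit 158) (nat_lit 2) (nat_lit 200) (nat_lit 201) (nat_lit 109)))) (PT.nd (nat_lit 156) (PT.nd (nat_lit 78) (PT.lf (nat_lit 11856) (nat_lit 3) (nat_lit 156) (nat_lit 0) (nat_lit 201) (nat_lit 201) (nat_lit 108)) (PT.lf (nat_lit 11628) (nat_lit 6) (nat_lit 153) (nat_lit 0) (nat_lit 202) (nat_lit 201) (nat_lit 107))) (PT.nd (nat_lit 78) (PT.lf (nat_lit 11400) (nat_lit 6) (nat_lit 150) (nat_lit 0) (nat_lit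 203) (nat_lit 201) (nat_lit 106)) (PT.lf (nat_lit 11248) (nat_lit 6) (nat_lit 148) (nat_lit 0) (nat_lit 204) (nat_lit 201) (nat_lit 105))))) (PT.nd (nat_lit 312) (PT.nd (nat_lit 156) (PT.nd (nat_lit 78) (PT.lf (nat_lit 10944) (nat_lit 6) (nat_lit 144) (nat_lit 5) (nat_lit 103) (nat_lit 202) (nat_lit 205)) (PT.lf (nat_lit 11096) (nat_lit 6) (nat_lit 146) (nat_lit 5) (nat_lit 104) (nat_lit 202) (nat_lit 204))) (PT.nd (nat_lit 78) (PT.lf (nat_lit 11324) (nat_lit 6) (nat_lit 149) (nat_lit 5) (nat_lit 105) (nat_lit 202) (nat_lit 203)) (PT.lf (nat_lit 11476) (nat_lit 3) (nat_lit 151) (nat_lit 4) (nat_lit 106) (nat_lit 202) (nat_lit 202)))) (PT.nd (nat_lit 156) (PT.nd (nat_lit 78) (PT.lf (nat_lit 11628) (nat_lit 6) (nat_lit 153) (nat_lit 4) (nat_lit 107) (nat_lit 202) (nat_lit 201)) (PT.lf (nat_lit 11780) (nat_lit 6) (nat_lit 155) (nat_lit 4) (nat_lit 108) (nat_lit 202) (nat_lit 200))) (PT.nd (nat_lit 78) (PT.lf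 (nat_lit 11932) (nat_lit 6) (nat_lit 157) (nat_lit 4) (nat_lit 109) (nat_lit 202) (nat_lit 199)) (PT.nd (nat_lit 6864) (PT.lf (nat_lit 12084) (nat_lit 6) (nat_lit 159) (nat_lit 4) (nat_lit 110) (nat_lit 202) (nat_lit 198)) (PT.lf (nat_lit 12084) (nat_lit 6) (nat_lit 159) (nat_lit 2) (nat_lit 198) (nat_lit 202) (nat_lit 110))))))) (PT.nd (nat_lit 45630) (PT.nd (nat_lit 312) (PT.nd (nat_lit 156) (PT.nd (nat_lit 78) (PT.lf (nat_lit 11932) (nat_lit 6) (nat_lit 157) (nat_lit 2) (nat_lit 199) (nat_lit 202) (nat_lit 109)) (PT.lf (nat_lit 11780) (nat_lit 6) (nat_lit 155) (nat_lit 2) (nat_lit 200) (nat_lit 202) (nat_lit 108))) (PT.nd (nat_lit 78) (PT.lf (nat_lit 11628) (nat_lit 6) (nat_lit 153) (nat_lit 2) (nat_lit 201) (nat_lit 202) (nat_lit 107)) (PT.lf (nat_lit 11476) (nat_lit 3) (nat_lit 151) (nat_lit 0) (nat_lit 202) (nat_lit 202) (nat_lit 106)))) (PT.nd (nat_lit 156) (PT.nd (nat_lit 78) (PT.lf (nat_lit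 11324) (nat_lit 6) (nat_lit 149) (nat_lit 0) (nat_lit 203) (nat_lit 202) (nat_lit 105)) (PT.lf (nat_lit 11096) (nat_lit 6) (nat_lit 146) (nat_lit 0) (nat_lit 204) (nat_lit 202) (nat_lit 104))) (PT.nd (nat_lit 45006) (PT.lf (nat_lit 10944) (nat_lit 6) (nat_lit 144) (nat_lit 0) (nat_lit 205) (nat_lit 202) (nat_lit 103)) (PT.nd (nat_lit 78) (PT.lf (nat_lit 10640) (nat_lit 6) (nat_lit 140) (nat_lit 5) (nat_lit 101) (nat_lit 203) (nat_lit 206)) (PT.lf (nat_lit 10792) (nat_lit 6) (nat_lit 142) (nat_lit 5) (nat_lit 102) (nat_lit 203) (nat_lit 205)))))) (PT.nd (nat_lit 312) (PT.nd (nat_lit 156) (PT.nd (nat_lit 78) (PT.lf (nat_lit 11020) (nat_lit 6) (nat_lit 145) (nat_lit 5) (nat_lit 103) (nat_lit 203) (nat_lit 204)) (PT.lf (nat_lit 11172) (nat_lit 3) (nat_lit 147) (nat_lit 4) (nat_lit 104) (nat_lit 203) (nat_lit 203))) (PT.nd (nat_lit 78) (PT.lf (nat_lit 11324) (nat_lit 6) (nat_lit 149) (nat_lit 4) (nat_lit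 105) (nat_lit 203) (nat_lit 202)) (PT.lf (nat_lit 11400) (nat_lit 6) (nat_lit 150) (nat_lit 4) (nat_lit 106) (nat_lit 203) (nat_lit 201)))) (PT.nd (nat_lit 7176) (PT.nd (nat_lit 78) (PT.lf (nat_lit 11552) (nat_lit 6) (nat_lit 152) (nat_lit 4) (nat_lit 107) (nat_lit 203) (nat_lit 200)) (PT.lf (nat_lit 11704) (nat_lit 6) (nat_lit 154) (nat_lit 4) (nat_lit 108) (nat_lit 203) (nat_lit 199))) (PT.nd (nat_lit 78) (PT.lf (nat_lit 11704) (nat_lit 6) (nat_lit 154) (nat_lit 2) (nat_lit 199) (nat_lit 203) (nat_lit 108)) (PT.nd (nat_lit 78) (PT.lf (nat_lit 11552) (nat_lit 6) (nat_lit 152) (nat_lit 2) (nat_lit 200) (nat_lit 203) (nat_lit 107)) (PT.lf (nat_lit 11400) (nat_lit 6) (nat_lit 150) (nat_lit 2) (nat_lit 201) (nat_lit 203) (nat_lit 106))))))))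
noncomputable def pc61 : PT := (PT.nd (nat_lit 53508) (PT.nd (nat_lit 45396) (PT.nd (nat_lit 312) (PT.nd (nat_lit 156) (PT.nd (nat_lit 78) (PT.lf (nat_lit 11324) (nat_lit 6) (nat_lit 149) (nat_lit 2) (nat_lit 202) (nat_lit 203) (nat_lit 105)) (PT.lf (nat_lit 11172) (nat_lit 3) (nat_lit 147) (nat_lit 0) (nat_lit 203) (nat_lit 203) (nat_lit 104))) (PT.nd (nat_lit 78) (PT.lf (nat_lit 11020) (nat_lit 6) (nat_lit 145) (nat_lit 0) (nat_lit 204) (nat_lit 203) (nat_lit 103)) (PT.lf (nat_lit 10792) (nat_lit 6) (nat_lit 142) (nat_lit 0) (nat_lit 205) (nat_lit 203) (nat_lit 102)))) (PT.nd (nat_lit 44850) (PT.nd (nat_lit 44772) (PT.lf (nat_lit 10640) (nat_lit 6) (nat_lit 140) (nat_lit 0) (nat_lit 206) (nat_lit 203) (nat_lit 101)) (PT.lf (nat_lit 10336) (nat_lit 6) (nat_lit 136) (nat_lit 5) (nat_lit 99) (nat_lit 204) (nat_lit 207))) (PT.nd (nat_lit 78) (PT.lf (nat_lit 10488) (nat_lit 6) (nat_lit 138) (nat_lit 5)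 (nat_lit 100) (nat_lit 204) (nat_lit 206)) (PT.nd (nat_lit 78) (PT.lf (nat_lit 10716) (nat_lit 6) (nat_lit 141) (nat_lit 5) (nat_lit 101) (nat_lit 204) (nat_lit 205)) (PT.lf (nat_lit 10868) (nat_lit 3) (nat_lit 143) (nat_lit 4) (nat_lit 102) (nat_lit 204) (nat_lit 204)))))) (PT.nd (nat_lit 7722) (PT.nd (nat_lit 156) (PT.nd (nat_lit 78) (PT.lf (nat_lit 11020) (nat_lit 6) (nat_lit 145) (nat_lit 4) (nat_lit 103) (nat_lit 204) (nat_lit 203)) (PT.lf (nat_lit 11096) (nat_lit 6) (nat_lit 146) (nat_lit 4) (nat_lit 104) (nat_lit 204) (nat_lit 202))) (PT.nd (nat_lit 7488) (PT.lf (nat_lit 11248) (nat_lit 6) (nat_lit 148) (nat_lit 4) (nat_lit 105) (nat_lit 204) (nat_lit 201)) (PT.lf (nat_lit 11248) (nat_lit 6) (nat_lit 148) (nat_lit 2) (nat_lit 201) (nat_lit 204) (nat_lit 105)))) (PT.nd (nat_lit 156) (PT.nd (nat_lit 78) (PT.lf (nat_lit 11096) (nat_lit 6) (nat_lit 146) (nat_lit 2) (nat_lit 202) (nat_lit 204) (nat_lit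 104)) (PT.lf (nat_lit 11020) (nat_lit 6) (nat_lit 145) (nat_lit 2) (nat_lit 203) (nat_lit 204) (nat_lit 103))) (PT.nd (nat_lit 78) (PT.lf (nat_lit 10868) (nat_lit 3) (nat_lit 143) (nat_lit 0) (nat_lit 204) (nat_lit 204) (nat_lit 102)) (PT.nd (nat_lit 78) (PT.lf (nat_lit 10716) (nat_lit 6) (nat_lit 141) (nat_lit 0) (nat_lit 205) (nat_lit 204) (nat_lit 101)) (PT.lf (nat_lit 10488) (nat_lit 6) (nat_lit 138) (nat_lit 0) (nat_lit 206) (nat_lit 204) (nat_lit 100))))))) (PT.nd (nat_lit 52806) (PT.nd (nat_lit 44772) (PT.nd (nat_lit 44616) (PT.nd (nat_lit 44538) (PT.lf (nat_lit 10336) (nat_lit 6) (nat_lit 136) (nat_lit 0) (nat_lit 207) (nat_lit 204) (nat_lit 99)) (PT.lf (nat_lit 10032) (nat_lit 6) (nat_lit 132) (nat_lit 5) (nat_lit 97) (nat_lit 205) (nat_lit 208))) (PT.nd (nat_lit 78) (PT.lf (nat_lit 10184) (nat_lit 6) (nat_lit 134) (nat_lit 5) (nat_lit 98) (nat_lit 205) (nat_lit 207)) (PT.lf (nat_lit 10412)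 (nat_lit 6) (nat_lit 137) (nat_lit 5) (nat_lit 99) (nat_lit 205) (nat_lit 206)))) (PT.nd (nat_lit 156) (PT.nd (nat_lit 78) (PT.lf (nat_lit 10564) (nat_lit 3) (nat_lit 139) (nat_lit 4) (nat_lit 100) (nat_lit 205) (nat_lit 205)) (PT.lf (nat_lit 10716) (nat_lit 6) (nat_lit 141) (nat_lit 4) (nat_lit 101) (nat_lit 205) (nat_lit 204))) (PT.nd (nat_lit 78) (PT.lf (nat_lit 10792) (nat_lit 6) (nat_lit 142) (nat_lit 4) (nat_lit 102) (nat_lit 205) (nat_lit 203)) (PT.nd (nat_lit 7722) (PT.lf (nat_lit 10944) (nat_lit 6) (nat_lit 144) (nat_lit 4) (nat_lit 103) (nat_lit 205) (nat_lit 202)) (PT.lf (nat_lit 10944) (nat_lit 6) (nat_lit 144) (nat_lit 2) (nat_lit 202) (nat_lit 205) (nat_lit 103)))))) (PT.nd (nat_lit 312) (PT.nd (nat_lit 156) (PT.nd (nat_lit 78) (PT.lf (nat_lit 10792) (nat_lit 6) (nat_lit 142) (nat_lit 2) (nat_lit 203) (nat_lit 205) (nat_lit 102)) (PT.lf (nat_lit 10716) (nat_lit 6) (nat_lit 141) (nat_lit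 2) (nat_lit 204) (nat_lit 205) (nat_lit 101))) (PT.nd (nat_lit 78) (PT.lf (nat_lit 10564) (nat_lit 3) (nat_lit 139) (nat_lit 0) (nat_lit 205) (nat_lit 205) (nat_lit 100)) (PT.lf (nat_lit 10412) (nat_lit 6) (nat_lit 137) (nat_lit 0) (nat_lit 206) (nat_lit 205) (nat_lit 99)))) (PT.nd (nat_lit 44382) (PT.nd (nat_lit 78) (PT.lf (nat_lit 10184) (nat_lit 6) (nat_lit 134) (nat_lit 0) (nat_lit 207) (nat_lit 205) (nat_lit 98)) (PT.lf (nat_lit 10032) (nat_lit 6) (nat_lit 132) (nat_lit 0) (nat_lit 208) (nat_lit 205) (nat_lit 97))) (PT.nd (nat_lit 78) (PT.lf (nat_lit 9728) (nat_lit 6) (nat_lit 128) (nat_lit 5) (nat_lit 95) (nat_lit 206) (nat_lit 209)) (PT.nd (nat_lit 78) (PT.lf (nat_lit 9880) (nat_lit 6) (nat_lit 130) (nat_lit 5) (nat_lit 96) (nat_lit 206) (nat_lit 208)) (PT.lf (nat_lit 10108) (nat_lit 6) (nat_lit 133) (nat_lit 5) (nat_lit 97) (nat_lit 206) (nat_lit 207))))))))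
noncomputable def pc62 : PT := (PT.nd (nat_lit 61386) (PT.nd (nat_lit 8502) (PT.nd (nat_lit 8190) (PT.nd (nat_lit 156) (PT.nd (nat_lit 78) (PT.lf (nat_lit 10260) (nat_lit 3) (nat_lit 135) (nat_lit 4) (nat_lit 98) (nat_lit 206) (nat_lit 206)) (PT.lf (nat_lit 10412) (nat_lit 6) (nat_lit 137) (nat_lit 4) (nat_lit 99) (nat_lit 206) (nat_lit 205))) (PT.nd (nat_lit 78) (PT.lf (nat_lit 10488) (nat_lit 6) (nat_lit 138) (nat_lit 4) (nat_lit 100) (nat_lit 206) (nat_lit 204)) (PT.lf (nat_lit 10640) (nat_lit 6) (nat_lit 140) (nat_lit 4) (nat_lit 101) (nat_lit 206) (nat_lit 203)))) (PT.nd (nat_lit 156) (PT.nd (nat_lit 78) (PT.lf (nat_lit 10640) (nat_lit 6) (nat_lit 140) (nat_lit 2) (nat_lit 203) (nat_lit 206) (nat_lit 101)) (PT.lf (nat_lit 10488) (nat_lit 6) (nat_lit 138) (nat_lit 2) (nat_lit 204) (nat_lit 206) (nat_lit 100))) (PT.nd (nat_lit 78) (PT.lf (nat_lit 10412) (nat_lit 6) (nat_lit 137) (nat_lit 2) (nat_lit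 205) (nat_lit 206) (nat_lit 99)) (PT.lf (nat_lit 10260) (nat_lit 3) (nat_lit 135) (nat_lit 0) (nat_lit 206) (nat_lit 206) (nat_lit 98))))) (PT.nd (nat_lit 44382) (PT.nd (nat_lit 156) (PT.nd (nat_lit 78) (PT.lf (nat_lit 10108) (nat_lit 6) (nat_lit 133) (nat_lit 0) (nat_lit 207) (nat_lit 206) (nat_lit 97)) (PT.lf (nat_lit 9880) (nat_lit 6) (nat_lit 130) (nat_lit 0) (nat_lit 208) (nat_lit 206) (nat_lit 96))) (PT.nd (nat_lit 44148) (PT.lf (nat_lit 9728) (nat_lit 6) (nat_lit 128) (nat_lit 0) (nat_lit 209) (nat_lit 206) (nat_lit 95)) (PT.lf (nat_lit 9576) (nat_lit 6) (nat_lit 126) (nat_lit 5) (nat_lit 94) (nat_lit 207) (nat_lit 209)))) (PT.nd (nat_lit 156) (PT.nd (nat_lit 78) (PT.lf (nat_lit 9804) (nat_lit 6) (nat_lit 129) (nat_lit 5) (nat_lit 95) (nat_lit 207) (nat_lit 208)) (PT.lf (nat_lit 9956) (nat_lit 3) (nat_lit 131) (nat_lit 4) (nat_lit 96) (nat_lit 207) (nat_lit 207))) (PT.nd (nat_lit 78) (PT.lf (nat_lit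 10108) (nat_lit 6) (nat_lit 133) (nat_lit 4) (nat_lit 97) (nat_lit 207) (nat_lit 206)) (PT.nd (nat_lit 78) (PT.lf (nat_lit 10184) (nat_lit 6) (nat_lit 134) (nat_lit 4) (nat_lit 98) (nat_lit 207) (nat_lit 205)) (PT.lf (nat_lit 10336) (nat_lit 6) (nat_lit 136) (nat_lit 4) (nat_lit 99) (nat_lit 207) (nat_lit 204))))))) (PT.nd (nat_lit 44616) (PT.nd (nat_lit 312) (PT.nd (nat_lit 156) (PT.nd (nat_lit 78) (PT.lf (nat_lit 10336) (nat_lit 6) (nat_lit 136) (nat_lit 2) (nat_lit 204) (nat_lit 207) (nat_lit 99)) (PT.lf (nat_lit 10184) (nat_lit 6) (nat_lit 134) (nat_lit 2) (nat_lit 205) (nat_lit 207) (nat_lit 98))) (PT.nd (nat_lit 78) (PT.lf (nat_lit 10108) (nat_lit 6) (nat_lit 133) (nat_lit 2) (nat_lit 206) (nat_lit 207) (nat_lit 97)) (PT.lf (nat_lit 9956) (nat_lit 3) (nat_lit 131) (nat_lit 0) (nat_lit 207) (nat_lit 207) (nat_lit 96)))) (PT.nd (nat_lit 44070) (PT.nd (nat_lit 78) (PT.lf (nat_lit 9804) (nat_lit 6)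 (nat_lit 129) (nat_lit 0) (nat_lit 208) (nat_lit 207) (nat_lit 95)) (PT.lf (nat_lit 9576) (nat_lit 6) (nat_lit 126) (nat_lit 0) (nat_lit 209) (nat_lit 207) (nat_lit 94))) (PT.nd (nat_lit 78) (PT.lf (nat_lit 9272) (nat_lit 6) (nat_lit 122) (nat_lit 5) (nat_lit 92) (nat_lit 208) (nat_lit 210)) (PT.nd (nat_lit 78) (PT.lf (nat_lit 9500) (nat_lit 6) (nat_lit 125) (nat_lit 5) (nat_lit 93) (nat_lit 208) (nat_lit 209)) (PT.lf (nat_lit 9652) (nat_lit 3) (nat_lit 127) (nat_lit 4) (nat_lit 94) (nat_lit 208) (nat_lit 208)))))) (PT.nd (nat_lit 8658) (PT.nd (nat_lit 156) (PT.nd (nat_lit 78) (PT.lf (nat_lit 9804) (nat_lit 6) (nat_lit 129) (nat_lit 4) (nat_lit 95) (nat_lit 208) (nat_lit 207)) (PT.lf (nat_lit 9880) (nat_lit 6) (nat_lit 130) (nat_lit 4) (nat_lit 96) (nat_lit 208) (nat_lit 206))) (PT.nd (nat_lit 8424) (PT.lf (nat_lit 10032) (nat_lit 6) (nat_lit 132) (nat_lit 4) (nat_lit 97) (nat_lit 208) (nat_lit 205))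 (PT.lf (nat_lit 10032) (nat_lit 6) (nat_lit 132) (nat_lit 2) (nat_lit 205) (nat_lit 208) (nat_lit 97)))) (PT.nd (nat_lit 156) (PT.nd (nat_lit 78) (PT.lf (nat_lit 9880) (nat_lit 6) (nat_lit 130) (nat_lit 2) (nat_lit 206) (nat_lit 208) (nat_lit 96)) (PT.lf (nat_lit 9804) (nat_lit 6) (nat_lit 129) (nat_lit 2) (nat_lit 207) (nat_lit 208) (nat_lit 95))) (PT.nd (nat_lit 78) (PT.lf (nat_lit 9652) (nat_lit 3) (nat_lit 127) (nat_lit 0) (nat_lit 208) (nat_lit 208) (nat_lit 94)) (PT.nd (nat_lit 78) (PT.lf (nat_lit 9500) (nat_lit 6) (nat_lit 125) (nat_lit 0) (nat_lit 209) (nat_lit 208) (nat_lit 93)) (PT.lf (nat_lit 9272) (nat_lit 6) (nat_lit 122) (nat_lit 0) (nat_lit 210) (nat_lit 208) (nat_lit 92))))))))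
noncomputable def pc63 : PT := (PT.nd (nat_lit 62400) (PT.nd (nat_lit 9282) (PT.nd (nat_lit 312) (PT.nd (nat_lit 156) (PT.nd (nat_lit 78) (PT.lf (nat_lit 8968) (nat_lit 6) (nat_lit 118) (nat_lit 5) (nat_lit 90) (nat_lit 209) (nat_lit 211)) (PT.lf (nat_lit 9196) (nat_lit 6) (nat_lit 121) (nat_lit 5) (nat_lit 91) (nat_lit 209) (nat_lit 210))) (PT.nd (nat_lit 78) (PT.lf (nat_lit 9348) (nat_lit 3) (nat_lit 123) (nat_lit 4) (nat_lit 92) (nat_lit 209) (nat_lit 209)) (PT.lf (nat_lit 9500) (nat_lit 6) (nat_lit 125) (nat_lit 4) (nat_lit 93) (nat_lit 209) (nat_lit 208)))) (PT.nd (nat_lit 8736) (PT.nd (nat_lit 78) (PT.lf (nat_lit 9576) (nat_lit 6) (nat_lit 126) (nat_lit 4) (nat_lit 94) (nat_lit 209) (nat_lit 207)) (PT.lf (nat_lit 9728) (nat_lit 6) (nat_lit 128) (nat_lit 4) (nat_lit 95) (nat_lit 209) (nat_lit 206))) (PT.nd (nat_lit 78) (PT.lf (nat_lit 9728) (nat_lit 6) (nat_lit 128) (nat_lit 2) (nat_lit 206) (nat_lit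 209) (nat_lit 95)) (PT.nd (nat_lit 78) (PT.lf (nat_lit 9576) (nat_lit 6) (nat_lit 126) (nat_lit 2) (nat_lit 207) (nat_lit 209) (nat_lit 94)) (PT.lf (nat_lit 9500) (nat_lit 6) (nat_lit 125) (nat_lit 2) (nat_lit 208) (nat_lit 209) (nat_lit 93)))))) (PT.nd (nat_lit 43758) (PT.nd (nat_lit 156) (PT.nd (nat_lit 78) (PT.lf (nat_lit 9348) (nat_lit 3) (nat_lit 123) (nat_lit 0) (nat_lit 209) (nat_lit 209) (nat_lit 92)) (PT.lf (nat_lit 9196) (nat_lit 6) (nat_lit 121) (nat_lit 0) (nat_lit 210) (nat_lit 209) (nat_lit 91))) (PT.nd (nat_lit 43524) (PT.lf (nat_lit 8968) (nat_lit 6) (nat_lit 118) (nat_lit 0) (nat_lit 211) (nat_lit 209) (nat_lit 90)) (PT.lf (nat_lit 8740) (nat_lit 6) (nat_lit 115) (nat_lit 5) (nat_lit 88) (nat_lit 210) (nat_lit 212)))) (PT.nd (nat_lit 156) (PT.nd (nat_lit 78) (PT.lf (nat_lit 8892) (nat_lit 6) (nat_lit 117) (nat_lit 5) (nat_lit 89) (nat_lit 210) (nat_lit 211)) (PT.lf (nat_lit 9044) (nat_lit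 3) (nat_lit 119) (nat_lit 4) (nat_lit 90) (nat_lit 210) (nat_lit 210))) (PT.nd (nat_lit 78) (PT.lf (nat_lit 9196) (nat_lit 6) (nat_lit 121) (nat_lit 4) (nat_lit 91) (nat_lit 210) (nat_lit 209)) (PT.nd (nat_lit 9048) (PT.lf (nat_lit 9272) (nat_lit 6) (nat_lit 122) (nat_lit 4) (nat_lit 92) (nat_lit 210) (nat_lit 208)) (PT.lf (nat_lit 9272) (nat_lit 6) (nat_lit 122) (nat_lit 2) (nat_lit 208) (nat_lit 210) (nat_lit 92))))))) (PT.nd (nat_lit 53196) (PT.nd (nat_lit 43602) (PT.nd (nat_lit 156) (PT.nd (nat_lit 78) (PT.lf (nat_lit 9196) (nat_lit 6) (nat_lit 121) (nat_lit 2) (nat_lit 209) (nat_lit 210) (nat_lit 91)) (PT.lf (nat_lit 9044) (nat_lit 3) (nat_lit 119) (nat_lit 0) (nat_lit 210) (nat_lit 210) (nat_lit 90))) (PT.nd (nat_lit 78) (PT.lf (nat_lit 8892) (nat_lit 6) (nat_lit 117) (nat_lit 0) (nat_lit 211) (nat_lit 210) (nat_lit 89)) (PT.lf (nat_lit 8740) (nat_lit 6) (nat_lit 115) (nat_lit 0) (nat_lit 212)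 (nat_lit 210) (nat_lit 88)))) (PT.nd (nat_lit 156) (PT.nd (nat_lit 78) (PT.lf (nat_lit 8664) (nat_lit 6) (nat_lit 114) (nat_lit 5) (nat_lit 87) (nat_lit 211) (nat_lit 212)) (PT.lf (nat_lit 8816) (nat_lit 3) (nat_lit 116) (nat_lit 4) (nat_lit 88) (nat_lit 211) (nat_lit 211))) (PT.nd (nat_lit 78) (PT.lf (nat_lit 8892) (nat_lit 6) (nat_lit 117) (nat_lit 4) (nat_lit 89) (nat_lit 211) (nat_lit 210)) (PT.nd (nat_lit 9282) (PT.lf (nat_lit 8968) (nat_lit 6) (nat_lit 118) (nat_lit 4) (nat_lit 90) (nat_lit 211) (nat_lit 209)) (PT.lf (nat_lit 8968) (nat_lit 6) (nat_lit 118) (nat_lit 2) (nat_lit 209) (nat_lit 211) (nat_lit 90)))))) (PT.nd (nat_lit 43524) (PT.nd (nat_lit 156) (PT.nd (nat_lit 78) (PT.lf (nat_lit 8892) (nat_lit 6) (nat_lit 117) (nat_lit 2) (nat_lit 210) (nat_lit 211) (nat_lit 89)) (PT.lf (nat_lit 8816) (nat_lit 3) (nat_lit 116) (nat_lit 0) (nat_lit 211) (nat_lit 211) (nat_lit 88))) (PT.nd (nat_lit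 43290) (PT.lf (nat_lit 8664) (nat_lit 6) (nat_lit 114) (nat_lit 0) (nat_lit 212) (nat_lit 211) (nat_lit 87)) (PT.lf (nat_lit 8588) (nat_lit 3) (nat_lit 113) (nat_lit 4) (nat_lit 86) (nat_lit 212) (nat_lit 212)))) (PT.nd (nat_lit 9594) (PT.nd (nat_lit 78) (PT.lf (nat_lit 8664) (nat_lit 6) (nat_lit 114) (nat_lit 4) (nat_lit 87) (nat_lit 212) (nat_lit 211)) (PT.lf (nat_lit 8740) (nat_lit 6) (nat_lit 115) (nat_lit 4) (nat_lit 88) (nat_lit 212) (nat_lit 210))) (PT.nd (nat_lit 78) (PT.lf (nat_lit 8740) (nat_lit 6) (nat_lit 115) (nat_lit 2) (nat_lit 210) (nat_lit 212) (nat_lit 88)) (PT.nd (nat_lit 78) (PT.lf (nat_lit 8664) (nat_lit 6) (nat_lit 114) (nat_lit 2) (nat_lit 211) (nat_lit 212) (nat_lit 87)) (PT.lf (nat_lit 8588) (nat_lit 3) (nat_lit 113) (nat_lit 0) (nat_lit 212) (nat_lit 212) (nat_lit 86))))))))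
noncomputable def xc0 : XT := (XT.nd (nat_lit 159510) (nat_lit 0) (nat_lit 0) (XT.nd (nat_lit 106158) (nat_lit 0) (nat_lit 0) (XT.nd (nat_lit 53118) (nat_lit 0) (nat_lit 0) (XT.nd (nat_lit 156) (nat_lit 152) (nat_lit 0) (XT.nd (nat_lit 78) (nat_lit 76) (nat_lit 0) (XT.lf (nat_lit 0) (nat_lit 2895079825) (nat_lit 152) (nat_lit 2673407941) (nat_lit 0) (nat_lit 2895079825) (nat_lit 117) (nat_lit 5) (nat_lit 119) (nat_lit 4) (nat_lit 117) (nat_lit 4) (nat_lit 436) (nat_lit 292) (nat_lit 292)) (XT.lf (nat_lit 0) (nat_lit 11488056829) (nat_lit 76) (nat_lit 2958624761) (nat_lit 76) (nat_lit 2726614001) (nat_lit 116) (nat_lit 4) (nat_lit 117) (nat_lit 5) (nat_lit 117) (nat_lit 4) (nat_lit 437) (nat_lit 292) (nat_lit 291))) (XT.nd (nat_lit 52806) (nat_lit 0) (nat_lit 380) (XT.lf (nat_lit 0) (nat_lit 5865686606) (nat_lit 152) (nat_lit 6136337463) (nat_lit 0) (nat_lit 5421741048) (nat_lit 114) (nat_lit 5) (nat_lit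 116) (nat_lit 4) (nat_lit 114) (nat_lit 4) (nat_lit 438) (nat_lit 292) (nat_lit 290)) (XT.nd (nat_lit 78) (nat_lit 152) (nat_lit 0) (XT.lf (nat_lit 0) (nat_lit 2932644193) (nat_lit 152) (nat_lit 2358867744) (nat_lit 0) (nat_lit 2932644193) (nat_lit 121) (nat_lit 5) (nat_lit 123) (nat_lit 4) (nat_lit 121) (nat_lit 4) (nat_lit 434) (nat_lit 293) (nat_lit 293)) (XT.lf (nat_lit 0) (nat_lit 11629191067) (nat_lit 152) (nat_lit 2651954052) (nat_lit 152) (nat_lit 2405813838) (nat_lit 119) (nat_lit 4) (nat_lit 121) (nat_lit 5) (nat_lit 121) (nat_lit 4) (nat_lit 435) (nat_lit 293) (nat_lit 292))))) (XT.nd (nat_lit 52806) (nat_lit 0) (nat_lit 532) (XT.nd (nat_lit 78) (nat_lit 228) (nat_lit 0) (XT.lf (nat_lit 0) (nat_lit 5944705653) (nat_lit 152) (nat_lit 5511238469) (nat_lit 0) (nat_lit 5473723812) (nat_lit 117) (nat_lit 5) (nat_lit 119) (nat_lit 4) (nat_lit 117) (nat_lit 4) (nat_lit 436) (nat_lit 293) (nat_lit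 291)) (XT.nd (nat_lit 78) (nat_lit 152) (nat_lit 0) (XT.lf (nat_lit 0) (nat_lit 11157551310) (nat_lit 76) (nat_lit 3358533166) (nat_lit 76) (nat_lit 2662298160) (nat_lit 116) (nat_lit 4) (nat_lit 117) (nat_lit 5) (nat_lit 117) (nat_lit 4) (nat_lit 437) (nat_lit 293) (nat_lit 290)) (XT.lf (nat_lit 0) (nat_lit 5837350403) (nat_lit 152) (nat_lit 6645153748) (nat_lit 0) (nat_lit 4949071375) (nat_lit 114) (nat_lit 5) (nat_lit 116) (nat_lit 4) (nat_lit 114) (nat_lit 4) (nat_lit 438) (nat_lit 293) (nat_lit 289)))) (XT.nd (nat_lit 78) (nat_lit 304) (nat_lit 0) (XT.lf (nat_lit 0) (nat_lit 2976537378) (nat_lit 152) (nat_lit 2039075469) (nat_lit 0) (nat_lit 2976537378) (nat_lit 125) (nat_lit 5) (nat_lit 127) (nat_lit 4) (nat_lit 125) (nat_lit 4) (nat_lit 432) (nat_lit 294) (nat_lit 294)) (XT.nd (nat_lit 78) (nat_lit 152) (nat_lit 0) (XT.lf (nat_lit 0) (nat_lit 11795187033) (nat_lit 152) (nat_lit 2340787223) (nat_lit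 152) (nat_lit 2079657069) (nat_lit 123) (nat_lit 4) (nat_lit 125) (nat_lit 5) (nat_lit 125) (nat_lit 4) (nat_lit 433) (nat_lit 294) (nat_lit 293)) (XT.lf (nat_lit 0) (nat_lit 6036639911) (nat_lit 152) (nat_lit 4877162266) (nat_lit 0) (nat_lit 5536975274) (nat_lit 121) (nat_lit 5) (nat_lit 123) (nat_lit 4) (nat_lit 121) (nat_lit 4) (nat_lit 434) (nat_lit 294) (nat_lit 292)))))) (XT.nd (nat_lit 52884) (nat_lit 0) (nat_lit 152) (XT.nd (nat_lit 234) (nat_lit 152) (nat_lit 0) (XT.nd (nat_lit 78) (nat_lit 228) (nat_lit 0) (XT.lf (nat_lit 0) (nat_lit 11308727616) (nat_lit 152) (nat_lit 3060909023) (nat_lit 152) (nat_lit 2322273305) (nat_lit 119) (nat_lit 4) (nat_lit 121) (nat_lit 5) (nat_lit 121) (nat_lit 4) (nat_lit 435) (nat_lit 294) (nat_lit 291)) (XT.nd (nat_lit 78) (nat_lit 76) (nat_lit 0) (XT.lf (nat_lit 0) (nat_lit 5937496863) (nat_lit 152) (nat_lit 6004649899) (nat_lit 0) (nat_lit 4995121642) (nat_lit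 117) (nat_lit 5) (nat_lit 119) (nat_lit 4) (nat_lit 117) (nat_lit 4) (nat_lit 436) (nat_lit 294) (nat_lit 290)) (XT.lf (nat_lit 0) (nat_lit 10496251481) (nat_lit 76) (nat_lit 3926688653) (nat_lit 76) (nat_lit 2765621039) (nat_lit 116) (nat_lit 4) (nat_lit 117) (nat_lit 5) (nat_lit 117) (nat_lit 4) (nat_lit 437) (nat_lit 294) (nat_lit 289)))) (XT.nd (nat_lit 52494) (nat_lit 0) (nat_lit 988) (XT.lf (nat_lit 0) (nat_lit 5642157125) (nat_lit 152) (nat_lit 7493674872) (nat_lit 0) (nat_lit 4308768459) (nat_lit 114) (nat_lit 5) (nat_lit 116) (nat_lit 4) (nat_lit 114) (nat_lit 4) (nat_lit 438) (nat_lit 294) (nat_lit 288)) (XT.nd (nat_lit 78) (nat_lit 152) (nat_lit 0) (XT.lf (nat_lit 0) (nat_lit 3027027099) (nat_lit 152) (nat_lit 1713306310) (nat_lit 0) (nat_lit 3027027099) (nat_lit 129) (nat_lit 5) (nat_lit 131) (nat_lit 4) (nat_lit 129) (nat_lit 4) (nat_lit 430) (nat_lit 295) (nat_lit 295)) (XT.lf (nat_lit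 0) (nat_lit 11987085021) (nat_lit 152) (nat_lit 2024437445) (nat_lit 152) (nat_lit 1747404465) (nat_lit 127) (nat_lit 4) (nat_lit 129) (nat_lit 5) (nat_lit 129) (nat_lit 4) (nat_lit 431) (nat_lit 295) (nat_lit 294))))) (XT.nd (nat_lit 234) (nat_lit 380) (nat_lit 0) (XT.nd (nat_lit 78) (nat_lit 304) (nat_lit 0) (XT.lf (nat_lit 0) (nat_lit 6142039905) (nat_lit 152) (nat_lit 4232714820) (nat_lit 0) (nat_lit 5611945693) (nat_lit 125) (nat_lit 5) (nat_lit 127) (nat_lit 4) (nat_lit 125) (nat_lit 4) (nat_lit 432) (nat_lit 295) (nat_lit 293)) (XT.nd (nat_lit 78) (nat_lit 152) (nat_lit 0) (XT.lf (nat_lit 0) (nat_lit 11484498478) (nat_lit 152) (nat_lit 2759785555) (nat_lit 152) (nat_lit 1976166921) (nat_lit 123) (nat_lit 4) (nat_lit 125) (nat_lit 5) (nat_lit 125) (nat_lit 4) (nat_lit 433) (nat_lit 295) (nat_lit 292)) (XT.lf (nat_lit 0) (nat_lit 6051179569) (nat_lit 152) (nat_lit 5355581901) (nat_lit 0) (nat_lit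 5051413696) (nat_lit 121) (nat_lit 5) (nat_lit 123) (nat_lit 4) (nat_lit 121) (nat_lit 4) (nat_lit 434) (nat_lit 295) (nat_lit 291)))) (XT.nd (nat_lit 78) (nat_lit 228) (nat_lit 0) (XT.lf (nat_lit 0) (nat_lit 10667520697) (nat_lit 152) (nat_lit 3633036090) (nat_lit 152) (nat_lit 2401259458) (nat_lit 119) (nat_lit 4) (nat_lit 121) (nat_lit 5) (nat_lit 121) (nat_lit 4) (nat_lit 435) (nat_lit 295) (nat_lit 290)) (XT.nd (nat_lit 78) (nat_lit 76) (nat_lit 0) (XT.lf (nat_lit 0) (nat_lit 5768526980) (nat_lit 152) (nat_lit 6827481308) (nat_lit 0) (nat_lit 4353934945) (nat_lit 117) (nat_lit 5) (nat_lit 119) (nat_lit 4) (nat_lit 117) (nat_lit 4) (nat_lit 436) (nat_lit 295) (nat_lit 289)) (XT.lf (nat_lit 0) (nat_lit 9503579508) (nat_lit 76) (nat_lit 4663587667) (nat_lit 76) (nat_lit 3036672920) (nat_lit 116) (nat_lit 4) (nat_lit 117) (nat_lit 5) (nat_lit 117) (nat_lit 4) (nat_lit 437) (nat_lit 295) (nat_lit 288)))))))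 (XT.nd (nat_lit 105300) (nat_lit 0) (nat_lit 152) (XT.nd (nat_lit 52728) (nat_lit 0) (nat_lit 0) (XT.nd (nat_lit 52494) (nat_lit 0) (nat_lit 836) (XT.nd (nat_lit 52338) (nat_lit 0) (nat_lit 1292) (XT.lf (nat_lit 0) (nat_lit 5279936214) (nat_lit 152) (nat_lit 8682642262) (nat_lit 0) (nat_lit 3500272815) (nat_lit 114) (nat_lit 5) (nat_lit 116) (nat_lit 4) (nat_lit 114) (nat_lit 4) (nat_lit 438) (nat_lit 295) (nat_lit 287)) (XT.nd (nat_lit 78) (nat_lit 152) (nat_lit 0) (XT.lf (nat_lit 0) (nat_lit 3084400812) (nat_lit 152) (nat_lit 1380803116) (nat_lit 0) (nat_lit 3084400812) (nat_lit 133) (nat_lit 5) (nat_lit 135) (nat_lit 4) (nat_lit 133) (nat_lit 4) (nat_lit 428) (nat_lit 296) (nat_lit 296)) (XT.lf (nat_lit 0) (nat_lit 12206002476) (nat_lit 152) (nat_lit 1702188094) (nat_lit 152) (nat_lit 1408283805) (nat_lit 131) (nat_lit 4) (nat_lit 133) (nat_lit 5) (nat_lit 133) (nat_lit 4) (nat_lit 429) (nat_lit 296)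 (nat_lit 295)))) (XT.nd (nat_lit 78) (nat_lit 304) (nat_lit 0) (XT.lf (nat_lit 0) (nat_lit 6261496567) (nat_lit 152) (nat_lit 3576441883) (nat_lit 0) (nat_lit 5699119617) (nat_lit 129) (nat_lit 5) (nat_lit 131) (nat_lit 4) (nat_lit 129) (nat_lit 4) (nat_lit 430) (nat_lit 296) (nat_lit 294)) (XT.nd (nat_lit 78) (nat_lit 152) (nat_lit 0) (XT.lf (nat_lit 0) (nat_lit 11685913513) (nat_lit 152) (nat_lit 2454523652) (nat_lit 152) (nat_lit 1623182644) (nat_lit 127) (nat_lit 4) (nat_lit 129) (nat_lit 5) (nat_lit 129) (nat_lit 4) (nat_lit 431) (nat_lit 296) (nat_lit 293)) (XT.lf (nat_lit 0) (nat_lit 6179006255) (nat_lit 152) (nat_lit 4696541521) (nat_lit 0) (nat_lit 5118354641) (nat_lit 125) (nat_lit 5) (nat_lit 127) (nat_lit 4) (nat_lit 125) (nat_lit 4) (nat_lit 432) (nat_lit 296) (nat_lit 292))))) (XT.nd (nat_lit 234) (nat_lit 380) (nat_lit 0) (XT.nd (nat_lit 78) (nat_lit 304) (nat_lit 0) (XT.lf (nat_lit 0)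 (nat_lit 10862849892) (nat_lit 152) (nat_lit 3337018179) (nat_lit 152) (nat_lit 2030226351) (nat_lit 123) (nat_lit 4) (nat_lit 125) (nat_lit 5) (nat_lit 125) (nat_lit 4) (nat_lit 433) (nat_lit 296) (nat_lit 291)) (XT.nd (nat_lit 78) (nat_lit 152) (nat_lit 0) (XT.lf (nat_lit 0) (nat_lit 5908920066) (nat_lit 152) (nat_lit 6153412430) (nat_lit 0) (nat_lit 4408179376) (nat_lit 121) (nat_lit 5) (nat_lit 123) (nat_lit 4) (nat_lit 121) (nat_lit 4) (nat_lit 434) (nat_lit 296) (nat_lit 290)) (XT.lf (nat_lit 0) (nat_lit 9705010032) (nat_lit 152) (nat_lit 4368835168) (nat_lit 152) (nat_lit 2642841313) (nat_lit 119) (nat_lit 4) (nat_lit 121) (nat_lit 5) (nat_lit 121) (nat_lit 4) (nat_lit 435) (nat_lit 296) (nat_lit 289)))) (XT.nd (nat_lit 78) (nat_lit 228) (nat_lit 0) (XT.lf (nat_lit 0) (nat_lit 5437648361) (nat_lit 152) (nat_lit 7980451675) (nat_lit 0) (nat_lit 3549603460) (nat_lit 117) (nat_lit 5) (nat_lit 119)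 (nat_lit 4) (nat_lit 117) (nat_lit 4) (nat_lit 436) (nat_lit 296) (nat_lit 288)) (XT.nd (nat_lit 78) (nat_lit 152) (nat_lit 0) (XT.lf (nat_lit 0) (nat_lit 8178668006) (nat_lit 76) (nat_lit 5569874100) (nat_lit 76) (nat_lit 3475690645) (nat_lit 116) (nat_lit 4) (nat_lit 117) (nat_lit 5) (nat_lit 117) (nat_lit 4) (nat_lit 437) (nat_lit 296) (nat_lit 287)) (XT.lf (nat_lit 0) (nat_lit 4750371167) (nat_lit 152) (nat_lit 10213094820) (nat_lit 0) (nat_lit 2522877988) (nat_lit 114) (nat_lit 5) (nat_lit 116) (nat_lit 4) (nat_lit 114) (nat_lit 4) (nat_lit 438) (nat_lit 296) (nat_lit 286)))))) (XT.nd (nat_lit 468) (nat_lit 836) (nat_lit 0) (XT.nd (nat_lit 234) (nat_lit 456) (nat_lit 0) (XT.nd (nat_lit 78) (nat_lit 304) (nat_lit 0) (XT.lf (nat_lit 0) (nat_lit 3148966804) (nat_lit 152) (nat_lit 1040774075) (nat_lit 0) (nat_lit 3148966804) (nat_lit 137) (nat_lit 5) (nat_lit 139) (nat_lit 4) (nat_lit 137) (nat_lit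 4) (nat_lit 426) (nat_lit 297) (nat_lit 297)) (XT.nd (nat_lit 78) (nat_lit 152) (nat_lit 0) (XT.lf (nat_lit 0) (nat_lit 12453138297) (nat_lit 152) (nat_lit 1373290580) (nat_lit 152) (nat_lit 1061487520) (nat_lit 135) (nat_lit 4) (nat_lit 137) (nat_lit 5) (nat_lit 137) (nat_lit 4) (nat_lit 427) (nat_lit 297) (nat_lit 296)) (XT.lf (nat_lit 0) (nat_lit 6395643485) (nat_lit 152) (nat_lit 2906824602) (nat_lit 0) (nat_lit 5799017779) (nat_lit 133) (nat_lit 5) (nat_lit 135) (nat_lit 4) (nat_lit 133) (nat_lit 4) (nat_lit 428) (nat_lit 297) (nat_lit 295)))) (XT.nd (nat_lit 78) (nat_lit 304) (nat_lit 0) (XT.lf (nat_lit 0) (nat_lit 11914099314) (nat_lit 152) (nat_lit 2144457693) (nat_lit 152) (nat_lit 1262488017) (nat_lit 131) (nat_lit 4) (nat_lit 133) (nat_lit 5) (nat_lit 133) (nat_lit 4) (nat_lit 429) (nat_lit 297) (nat_lit 294)) (XT.nd (nat_lit 78) (nat_lit 152) (nat_lit 0) (XT.lf (nat_lit 0) (nat_lit 6321627980)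 (nat_lit 152) (nat_lit 4026060591) (nat_lit 0) (nat_lit 5196382682) (nat_lit 129) (nat_lit 5) (nat_lit 131) (nat_lit 4) (nat_lit 129) (nat_lit 4) (nat_lit 430) (nat_lit 297) (nat_lit 293)) (XT.lf (nat_lit 0) (nat_lit 11083307338) (nat_lit 152) (nat_lit 3038038889) (nat_lit 152) (nat_lit 1651663438) (nat_lit 127) (nat_lit 4) (nat_lit 129) (nat_lit 5) (nat_lit 129) (nat_lit 4) (nat_lit 431) (nat_lit 297) (nat_lit 292))))) (XT.nd (nat_lit 234) (nat_lit 380) (nat_lit 0) (XT.nd (nat_lit 78) (nat_lit 304) (nat_lit 0) (XT.lf (nat_lit 0) (nat_lit 6064006107) (nat_lit 152) (nat_lit 5470036326) (nat_lit 0) (nat_lit 4471870308) (nat_lit 125) (nat_lit 5) (nat_lit 127) (nat_lit 4) (nat_lit 125) (nat_lit 4) (nat_lit 432) (nat_lit 297) (nat_lit 291)) (XT.nd (nat_lit 78) (nat_lit 152) (nat_lit 0) (XT.lf (nat_lit 0) (nat_lit 9929698087) (nat_lit 152) (nat_lit 4072989475) (nat_lit 152) (nat_lit 2241882594) (nat_lit 123)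 (nat_lit 4) (nat_lit 125) (nat_lit 5) (nat_lit 125) (nat_lit 4) (nat_lit 433) (nat_lit 297) (nat_lit 290)) (XT.lf (nat_lit 0) (nat_lit 5609737099) (nat_lit 152) (nat_lit 7271350988) (nat_lit 0) (nat_lit 3606710264) (nat_lit 121) (nat_lit 5) (nat_lit 123) (nat_lit 4) (nat_lit 121) (nat_lit 4) (nat_lit 434) (nat_lit 297) (nat_lit 289)))) (XT.nd (nat_lit 78) (nat_lit 228) (nat_lit 0) (XT.lf (nat_lit 0) (nat_lit 8420354593) (nat_lit 152) (nat_lit 5268949190) (nat_lit 152) (nat_lit 3047229962) (nat_lit 119) (nat_lit 4) (nat_lit 121) (nat_lit 5) (nat_lit 121) (nat_lit 4) (nat_lit 435) (nat_lit 297) (nat_lit 288)) (XT.nd (nat_lit 78) (nat_lit 76) (nat_lit 0) (XT.lf (nat_lit 0) (nat_lit 4944571888) (nat_lit 152) (nat_lit 9464568451) (nat_lit 0) (nat_lit 2581424374) (nat_lit 117) (nat_lit 5) (nat_lit 119) (nat_lit 4) (nat_lit 117) (nat_lit 4) (nat_lit 436) (nat_lit 297) (nat_lit 287)) (XT.lf (nat_lit 0) (nat_lit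 6520359287) (nat_lit 76) (nat_lit 6646339854) (nat_lit 76) (nat_lit 4083057821) (nat_lit 116) (nat_lit 4) (nat_lit 117) (nat_lit 5) (nat_lit 117) (nat_lit 4) (nat_lit 437) (nat_lit 297) (nat_lit 286))))))))
noncomputable def xc1 : XT := (XT.nd (nat_lit 105534) (nat_lit 0) (nat_lit 0) (XT.nd (nat_lit 52806) (nat_lit 0) (nat_lit 0) (XT.nd (nat_lit 52338) (nat_lit 0) (nat_lit 684) (XT.nd (nat_lit 52104) (nat_lit 0) (nat_lit 1596) (XT.nd (nat_lit 52026) (nat_lit 0) (nat_lit 2052) (XT.lf (nat_lit 0) (nat_lit 4052999257) (nat_lit 152) (nat_lit 12086369835) (nat_lit 0) (nat_lit 1375729944) (nat_lit 114) (nat_lit 5) (nat_lit 116) (nat_lit 4) (nat_lit 114) (nat_lit 4) (nat_lit 438) (nat_lit 297) (nat_lit 285)) (XT.lf (nat_lit 0) (nat_lit 3221055371) (nat_lit 152) (nat_lit 692390274) (nat_lit 0) (nat_lit 3221055371) (nat_lit 141) (nat_lit 5) (nat_lit 143) (nat_lit 4) (nat_lit 141) (nat_lit 4) (nat_lit 424) (nat_lit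 298) (nat_lit 298))) (XT.nd (nat_lit 78) (nat_lit 304) (nat_lit 0) (XT.lf (nat_lit 0) (nat_lit 12729777400) (nat_lit 152) (nat_lit 1036962065) (nat_lit 152) (nat_lit 706170198) (nat_lit 139) (nat_lit 4) (nat_lit 141) (nat_lit 5) (nat_lit 141) (nat_lit 4) (nat_lit 425) (nat_lit 298) (nat_lit 297)) (XT.nd (nat_lit 78) (nat_lit 152) (nat_lit 0) (XT.lf (nat_lit 0) (nat_lit 6545159317) (nat_lit 152) (nat_lit 2222274889) (nat_lit 0) (nat_lit 5912199105) (nat_lit 137) (nat_lit 5) (nat_lit 139) (nat_lit 4) (nat_lit 137) (nat_lit 4) (nat_lit 426) (nat_lit 298) (nat_lit 296)) (XT.lf (nat_lit 0) (nat_lit 12170263756) (nat_lit 152) (nat_lit 1828893566) (nat_lit 152) (nat_lit 893211936) (nat_lit 135) (nat_lit 4) (nat_lit 137) (nat_lit 5) (nat_lit 137) (nat_lit 4) (nat_lit 427) (nat_lit 298) (nat_lit 295))))) (XT.nd (nat_lit 234) (nat_lit 456) (nat_lit 0) (XT.nd (nat_lit 78) (nat_lit 304) (nat_lit 0) (XT.lf (nat_lit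 0) (nat_lit 6479741574) (nat_lit 152) (nat_lit 3342606605) (nat_lit 0) (nat_lit 5285968838) (nat_lit 133) (nat_lit 5) (nat_lit 135) (nat_lit 4) (nat_lit 133) (nat_lit 4) (nat_lit 428) (nat_lit 298) (nat_lit 294)) (XT.nd (nat_lit 78) (nat_lit 152) (nat_lit 0) (XT.lf (nat_lit 0) (nat_lit 11330037928) (nat_lit 152) (nat_lit 2735479053) (nat_lit 152) (nat_lit 1264673337) (nat_lit 131) (nat_lit 4) (nat_lit 133) (nat_lit 5) (nat_lit 133) (nat_lit 4) (nat_lit 429) (nat_lit 298) (nat_lit 293)) (XT.lf (nat_lit 0) (nat_lit 6234500980) (nat_lit 152) (nat_lit 4775861614) (nat_lit 0) (nat_lit 4545404112) (nat_lit 129) (nat_lit 5) (nat_lit 131) (nat_lit 4) (nat_lit 129) (nat_lit 4) (nat_lit 430) (nat_lit 298) (nat_lit 292)))) (XT.nd (nat_lit 78) (nat_lit 304) (nat_lit 0) (XT.lf (nat_lit 0) (nat_lit 10178739947) (nat_lit 152) (nat_lit 3775493024) (nat_lit 152) (nat_lit 1832871734) (nat_lit 127) (nat_lit 4) (nat_lit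 129) (nat_lit 5) (nat_lit 129) (nat_lit 4) (nat_lit 431) (nat_lit 298) (nat_lit 291)) (XT.nd (nat_lit 78) (nat_lit 152) (nat_lit 0) (XT.lf (nat_lit 0) (nat_lit 5796938974) (nat_lit 152) (nat_lit 6553875104) (nat_lit 0) (nat_lit 3671927805) (nat_lit 125) (nat_lit 5) (nat_lit 127) (nat_lit 4) (nat_lit 125) (nat_lit 4) (nat_lit 432) (nat_lit 298) (nat_lit 290)) (XT.lf (nat_lit 0) (nat_lit 8684227688) (nat_lit 152) (nat_lit 4968342523) (nat_lit 152) (nat_lit 2611320594) (nat_lit 123) (nat_lit 4) (nat_lit 125) (nat_lit 5) (nat_lit 125) (nat_lit 4) (nat_lit 433) (nat_lit 298) (nat_lit 289)))))) (XT.nd (nat_lit 52260) (nat_lit 0) (nat_lit 1444) (XT.nd (nat_lit 234) (nat_lit 228) (nat_lit 0) (XT.nd (nat_lit 78) (nat_lit 304) (nat_lit 0) (XT.lf (nat_lit 0) (nat_lit 5153369245) (nat_lit 152) (nat_lit 8710374414) (nat_lit 0) (nat_lit 2646306047) (nat_lit 121) (nat_lit 5) (nat_lit 123) (nat_lit 4) (nat_lit 121)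 (nat_lit 4) (nat_lit 434) (nat_lit 298) (nat_lit 288)) (XT.nd (nat_lit 78) (nat_lit 152) (nat_lit 0) (XT.lf (nat_lit 0) (nat_lit 6812431866) (nat_lit 152) (nat_lit 6334164663) (nat_lit 152) (nat_lit 3614778754) (nat_lit 119) (nat_lit 4) (nat_lit 121) (nat_lit 5) (nat_lit 121) (nat_lit 4) (nat_lit 435) (nat_lit 298) (nat_lit 287)) (XT.lf (nat_lit 0) (nat_lit 4288866718) (nat_lit 152) (nat_lit 11281128436) (nat_lit 0) (nat_lit 1448551704) (nat_lit 117) (nat_lit 5) (nat_lit 119) (nat_lit 4) (nat_lit 117) (nat_lit 4) (nat_lit 436) (nat_lit 298) (nat_lit 286)))) (XT.nd (nat_lit 78) (nat_lit 152) (nat_lit 0) (XT.lf (nat_lit 0) (nat_lit 4527204343) (nat_lit 76) (nat_lit 7893925529) (nat_lit 76) (nat_lit 4859305157) (nat_lit 116) (nat_lit 4) (nat_lit 117) (nat_lit 5) (nat_lit 117) (nat_lit 4) (nat_lit 437) (nat_lit 298) (nat_lit 285)) (XT.nd (nat_lit 51870) (nat_lit 0) (nat_lit 2356) (XT.lf (nat_lit 0) (nat_lit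 3187211130) (nat_lit 152) (nat_lit 14304104150) (nat_lit 0) (nat_lit 57826323) (nat_lit 114) (nat_lit 5) (nat_lit 116) (nat_lit 4) (nat_lit 114) (nat_lit 4) (nat_lit 438) (nat_lit 298) (nat_lit 284)) (XT.lf (nat_lit 0) (nat_lit 3301020058) (nat_lit 152) (nat_lit 334783112) (nat_lit 0) (nat_lit 3301020058) (nat_lit 145) (nat_lit 5) (nat_lit 147) (nat_lit 4) (nat_lit 145) (nat_lit 4) (nat_lit 422) (nat_lit 299) (nat_lit 299))))) (XT.nd (nat_lit 234) (nat_lit 456) (nat_lit 0) (XT.nd (nat_lit 78) (nat_lit 304) (nat_lit 0) (XT.lf (nat_lit 0) (nat_lit 13037295582) (nat_lit 152) (nat_lit 692383043) (nat_lit 152) (nat_lit 341445952) (nat_lit 143) (nat_lit 4) (nat_lit 145) (nat_lit 5) (nat_lit 145) (nat_lit 4) (nat_lit 423) (nat_lit 299) (nat_lit 298)) (XT.nd (nat_lit 78) (nat_lit 152) (nat_lit 0) (XT.lf (nat_lit 0) (nat_lit 6710770338) (nat_lit 152) (nat_lit 1521130525) (nat_lit 0) (nat_lit 6039262850) (nat_lit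 141) (nat_lit 5) (nat_lit 143) (nat_lit 4) (nat_lit 141) (nat_lit 4) (nat_lit 424) (nat_lit 299) (nat_lit 297)) (XT.lf (nat_lit 0) (nat_lit 12455700580) (nat_lit 152) (nat_lit 1507106580) (nat_lit 152) (nat_lit 514441940) (nat_lit 139) (nat_lit 4) (nat_lit 141) (nat_lit 5) (nat_lit 141) (nat_lit 4) (nat_lit 425) (nat_lit 299) (nat_lit 296)))) (XT.nd (nat_lit 78) (nat_lit 304) (nat_lit 0) (XT.lf (nat_lit 0) (nat_lit 6654092253) (nat_lit 152) (nat_lit 2644578069) (nat_lit 0) (nat_lit 5387618757) (nat_lit 137) (nat_lit 5) (nat_lit 139) (nat_lit 4) (nat_lit 137) (nat_lit 4) (nat_lit 426) (nat_lit 299) (nat_lit 295)) (XT.nd (nat_lit 78) (nat_lit 152) (nat_lit 0) (XT.lf (nat_lit 0) (nat_lit 11604267503) (nat_lit 152) (nat_lit 2428694576) (nat_lit 152) (nat_lit 868316792) (nat_lit 135) (nat_lit 4) (nat_lit 137) (nat_lit 5) (nat_lit 137) (nat_lit 4) (nat_lit 427) (nat_lit 299) (nat_lit 294)) (XT.lf (nat_lit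 0) (nat_lit 6421169373) (nat_lit 152) (nat_lit 4069333019) (nat_lit 0) (nat_lit 4629206505) (nat_lit 133) (nat_lit 5) (nat_lit 135) (nat_lit 4) (nat_lit 133) (nat_lit 4) (nat_lit 428) (nat_lit 299) (nat_lit 293))))))) (XT.nd (nat_lit 52572) (nat_lit 0) (nat_lit 684) (XT.nd (nat_lit 468) (nat_lit 532) (nat_lit 0) (XT.nd (nat_lit 234) (nat_lit 456) (nat_lit 0) (XT.nd (nat_lit 78) (nat_lit 304) (nat_lit 0) (XT.lf (nat_lit 0) (nat_lit 10453307974) (nat_lit 152) (nat_lit 3475768598) (nat_lit 152) (nat_lit 1414841672) (nat_lit 131) (nat_lit 4) (nat_lit 133) (nat_lit 5) (nat_lit 133) (nat_lit 4) (nat_lit 429) (nat_lit 299) (nat_lit 292)) (XT.nd (nat_lit 78) (nat_lit 152) (nat_lit 0) (XT.lf (nat_lit 0) (nat_lit 6000039438) (nat_lit 152) (nat_lit 5826500118) (nat_lit 0) (nat_lit 3745615088) (nat_lit 129) (nat_lit 5) (nat_lit 131) (nat_lit 4) (nat_lit 129) (nat_lit 4) (nat_lit 430) (nat_lit 299) (nat_lit 291))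 (XT.lf (nat_lit 0) (nat_lit 8971420941) (nat_lit 152) (nat_lit 4667530434) (nat_lit 152) (nat_lit 2166965870) (nat_lit 127) (nat_lit 4) (nat_lit 129) (nat_lit 5) (nat_lit 129) (nat_lit 4) (nat_lit 431) (nat_lit 299) (nat_lit 290)))) (XT.nd (nat_lit 78) (nat_lit 304) (nat_lit 0) (XT.lf (nat_lit 0) (nat_lit 5377571499) (nat_lit 152) (nat_lit 7949004900) (nat_lit 0) (nat_lit 2717828152) (nat_lit 125) (nat_lit 5) (nat_lit 127) (nat_lit 4) (nat_lit 125) (nat_lit 4) (nat_lit 432) (nat_lit 299) (nat_lit 289)) (XT.nd (nat_lit 78) (nat_lit 152) (nat_lit 0) (XT.lf (nat_lit 0) (nat_lit 7125350420) (nat_lit 152) (nat_lit 6023859671) (nat_lit 152) (nat_lit 3138863160) (nat_lit 123) (nat_lit 4) (nat_lit 125) (nat_lit 5) (nat_lit 125) (nat_lit 4) (nat_lit 433) (nat_lit 299) (nat_lit 288)) (XT.lf (nat_lit 0) (nat_lit 4539417736) (nat_lit 152) (nat_lit 10471740107) (nat_lit 0) (nat_lit 1526127537) (nat_lit 121) (nat_lit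 5) (nat_lit 123) (nat_lit 4) (nat_lit 121) (nat_lit 4) (nat_lit 434) (nat_lit 299) (nat_lit 287))))) (XT.nd (nat_lit 234) (nat_lit 152) (nat_lit 0) (XT.nd (nat_lit 78) (nat_lit 228) (nat_lit 0) (XT.lf (nat_lit 0) (nat_lit 4879836868) (nat_lit 152) (nat_lit 7565412357) (nat_lit 152) (nat_lit 4345983604) (nat_lit 119) (nat_lit 4) (nat_lit 121) (nat_lit 5) (nat_lit 121) (nat_lit 4) (nat_lit 435) (nat_lit 299) (nat_lit 286)) (XT.nd (nat_lit 78) (nat_lit 76) (nat_lit 0) (XT.lf (nat_lit 0) (nat_lit 3469959904) (nat_lit 152) (nat_lit 13431718915) (nat_lit 0) (nat_lit 149995562) (nat_lit 117) (nat_lit 5) (nat_lit 119) (nat_lit 4) (nat_lit 117) (nat_lit 4) (nat_lit 436) (nat_lit 299) (nat_lit 285)) (XT.lf (nat_lit 0) (nat_lit 2197461582) (nat_lit 76) (nat_lit 9313721250) (nat_lit 76) (nat_lit 5805110928) (nat_lit 116) (nat_lit 4) (nat_lit 117) (nat_lit 5) (nat_lit 117) (nat_lit 4) (nat_lit 437) (nat_lit 299)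 (nat_lit 284)))) (XT.nd (nat_lit 51714) (nat_lit 0) (nat_lit 2432) (XT.lf (nat_lit 0) (nat_lit 705805592) (nat_lit 76) (nat_lit 1460483742) (nat_lit 152) (nat_lit 15421790912) (nat_lit 114) (nat_lit 5) (nat_lit 115) (nat_lit 5) (nat_lit 116) (nat_lit 4) (nat_lit 438) (nat_lit 299) (nat_lit 283)) (XT.nd (nat_lit 78) (nat_lit 76) (nat_lit 0) (XT.lf (nat_lit 0) (nat_lit 33614368) (nat_lit 152) (nat_lit 3355947745) (nat_lit 152) (nat_lit 3355947745) (nat_lit 147) (nat_lit 4) (nat_lit 149) (nat_lit 5) (nat_lit 149) (nat_lit 4) (nat_lit 420) (nat_lit 300) (nat_lit 300)) (XT.lf (nat_lit 0) (nat_lit 32958430) (nat_lit 228) (nat_lit 305403544) (nat_lit 76) (nat_lit 13343873441) (nat_lit 146) (nat_lit 5) (nat_lit 149) (nat_lit 5) (nat_lit 147) (nat_lit 4) (nat_lit 421) (nat_lit 300) (nat_lit 299)))))) (XT.nd (nat_lit 468) (nat_lit 912) (nat_lit 0) (XT.nd (nat_lit 234) (nat_lit 456) (nat_lit 0) (XT.nd (nat_lit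 78) (nat_lit 304) (nat_lit 0) (XT.lf (nat_lit 0) (nat_lit 6893253164) (nat_lit 152) (nat_lit 801649991) (nat_lit 0) (nat_lit 6180850869) (nat_lit 145) (nat_lit 5) (nat_lit 147) (nat_lit 4) (nat_lit 145) (nat_lit 4) (nat_lit 422) (nat_lit 300) (nat_lit 298)) (XT.nd (nat_lit 78) (nat_lit 152) (nat_lit 0) (XT.lf (nat_lit 0) (nat_lit 12771794261) (nat_lit 152) (nat_lit 1178339271) (nat_lit 152) (nat_lit 125221354) (nat_lit 143) (nat_lit 4) (nat_lit 145) (nat_lit 5) (nat_lit 145) (nat_lit 4) (nat_lit 423) (nat_lit 300) (nat_lit 297)) (XT.lf (nat_lit 0) (nat_lit 6845476391) (nat_lit 152) (nat_lit 1930299594) (nat_lit 0) (nat_lit 5501874660) (nat_lit 141) (nat_lit 5) (nat_lit 143) (nat_lit 4) (nat_lit 141) (nat_lit 4) (nat_lit 424) (nat_lit 300) (nat_lit 296)))) (XT.nd (nat_lit 78) (nat_lit 304) (nat_lit 0) (XT.lf (nat_lit 0) (nat_lit 11907307457) (nat_lit 152) (nat_lit 2117014551) (nat_lit 152) (nat_lit 461609760)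 (nat_lit 139) (nat_lit 4) (nat_lit 141) (nat_lit 5) (nat_lit 141) (nat_lit 4) (nat_lit 425) (nat_lit 300) (nat_lit 295)) (XT.nd (nat_lit 78) (nat_lit 152) (nat_lit 0) (XT.lf (nat_lit 0) (nat_lit 6624827600) (nat_lit 152) (nat_lit 3348826694) (nat_lit 0) (nat_lit 4723734194) (nat_lit 137) (nat_lit 5) (nat_lit 139) (nat_lit 4) (nat_lit 137) (nat_lit 4) (nat_lit 426) (nat_lit 300) (nat_lit 294)) (XT.lf (nat_lit 0) (nat_lit 10754654977) (nat_lit 152) (nat_lit 3173217711) (nat_lit 152) (nat_lit 986780335) (nat_lit 135) (nat_lit 4) (nat_lit 137) (nat_lit 5) (nat_lit 137) (nat_lit 4) (nat_lit 427) (nat_lit 300) (nat_lit 293))))) (XT.nd (nat_lit 234) (nat_lit 456) (nat_lit 0) (XT.nd (nat_lit 78) (nat_lit 304) (nat_lit 0) (XT.lf (nat_lit 0) (nat_lit 6219875703) (nat_lit 152) (nat_lit 5087638849) (nat_lit 0) (nat_lit 3828156911) (nat_lit 133) (nat_lit 5) (nat_lit 135) (nat_lit 4) (nat_lit 133) (nat_lit 4) (nat_lit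 428) (nat_lit 300) (nat_lit 292)) (XT.nd (nat_lit 78) (nat_lit 152) (nat_lit 0) (XT.lf (nat_lit 0) (nat_lit 9283143376) (nat_lit 152) (nat_lit 4365973185) (nat_lit 152) (nat_lit 1713124239) (nat_lit 131) (nat_lit 4) (nat_lit 133) (nat_lit 5) (nat_lit 133) (nat_lit 4) (nat_lit 429) (nat_lit 300) (nat_lit 291)) (XT.lf (nat_lit 0) (nat_lit 5618038483) (nat_lit 152) (nat_lit 7178894137) (nat_lit 0) (nat_lit 2796316767) (nat_lit 129) (nat_lit 5) (nat_lit 131) (nat_lit 4) (nat_lit 129) (nat_lit 4) (nat_lit 430) (nat_lit 300) (nat_lit 290)))) (XT.nd (nat_lit 78) (nat_lit 304) (nat_lit 0) (XT.lf (nat_lit 0) (nat_lit 7460295382) (nat_lit 152) (nat_lit 5714930570) (nat_lit 152) (nat_lit 2654237771) (nat_lit 127) (nat_lit 4) (nat_lit 129) (nat_lit 5) (nat_lit 129) (nat_lit 4) (nat_lit 431) (nat_lit 300) (nat_lit 289)) (XT.nd (nat_lit 78) (nat_lit 152) (nat_lit 0) (XT.lf (nat_lit 0) (nat_lit 4805537241) (nat_lit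 152) (nat_lit 9656644758) (nat_lit 0) (nat_lit 1608737670) (nat_lit 125) (nat_lit 5) (nat_lit 127) (nat_lit 4) (nat_lit 125) (nat_lit 4) (nat_lit 432) (nat_lit 300) (nat_lit 288)) (XT.lf (nat_lit 0) (nat_lit 5251704158) (nat_lit 152) (nat_lit 7240463216) (nat_lit 152) (nat_lit 3824971252) (nat_lit 123) (nat_lit 4) (nat_lit 125) (nat_lit 5) (nat_lit 125) (nat_lit 4) (nat_lit 433) (nat_lit 300) (nat_lit 287))))))))
noncomputable def xc2 : XT := (XT.nd (nat_lit 53274) (nat_lit 0) (nat_lit 76) (XT.nd (nat_lit 52338) (nat_lit 0) (nat_lit 304) (XT.nd (nat_lit 51870) (nat_lit 0) (nat_lit 2128) (XT.nd (nat_lit 156) (nat_lit 304) (nat_lit 0) (XT.nd (nat_lit 78) (nat_lit 152) (nat_lit 0) (XT.lf (nat_lit 0) (nat_lit 3767346109) (nat_lit 152) (nat_lit 12556987124) (nat_lit 0) (nat_lit 245195939) (nat_lit 121) (nat_lit 5) (nat_lit 123) (nat_lit 4) (nat_lit 121) (nat_lit 4) (nat_lit 434) (nat_lit 300) (nat_lit 286))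 (XT.lf (nat_lit 0) (nat_lit 2620880926) (nat_lit 152) (nat_lit 8963768121) (nat_lit 152) (nat_lit 5241483431) (nat_lit 119) (nat_lit 4) (nat_lit 121) (nat_lit 5) (nat_lit 121) (nat_lit 4) (nat_lit 435) (nat_lit 300) (nat_lit 285))) (XT.nd (nat_lit 78) (nat_lit 152) (nat_lit 0) (XT.lf (nat_lit 0) (nat_lit 1158474438) (nat_lit 76) (nat_lit 1341557328) (nat_lit 152) (nat_lit 14589557588) (nat_lit 117) (nat_lit 5) (nat_lit 118) (nat_lit 5) (nat_lit 119) (nat_lit 4) (nat_lit 436) (nat_lit 300) (nat_lit 284)) (XT.nd (nat_lit 78) (nat_lit 152) (nat_lit 0) (XT.lf (nat_lit 0) (nat_lit 10440589543) (nat_lit 152) (nat_lit 461715647) (nat_lit 0) (nat_lit 6454923497) (nat_lit 117) (nat_lit 5) (nat_lit 119) (nat_lit 4) (nat_lit 117) (nat_lit 4) (nat_lit 437) (nat_lit 300) (nat_lit 283)) (XT.lf (nat_lit 0) (nat_lit 998501841) (nat_lit 152) (nat_lit 2136524236) (nat_lit 76) (nat_lit 14496648113) (nat_lit 115) (nat_lit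 5) (nat_lit 117) (nat_lit 5) (nat_lit 116) (nat_lit 4) (nat_lit 438) (nat_lit 300) (nat_lit 282))))) (XT.nd (nat_lit 234) (nat_lit 456) (nat_lit 0) (XT.nd (nat_lit 78) (nat_lit 152) (nat_lit 0) (XT.lf (nat_lit 0) (nat_lit 419986123) (nat_lit 152) (nat_lit 3070167318) (nat_lit 152) (nat_lit 3070167318) (nat_lit 151) (nat_lit 4) (nat_lit 153) (nat_lit 5) (nat_lit 153) (nat_lit 4) (nat_lit 418) (nat_lit 301) (nat_lit 301)) (XT.nd (nat_lit 78) (nat_lit 0) (nat_lit 0) (XT.lf (nat_lit 0) (nat_lit 416436865) (nat_lit 152) (nat_lit 12856312841) (nat_lit 0) (nat_lit 32958430) (nat_lit 149) (nat_lit 5) (nat_lit 151) (nat_lit 4) (nat_lit 149) (nat_lit 4) (nat_lit 419) (nat_lit 301) (nat_lit 300)) (XT.lf (nat_lit 0) (nat_lit 7093437632) (nat_lit 152) (nat_lit 62006997) (nat_lit 0) (nat_lit 6337650038) (nat_lit 149) (nat_lit 5) (nat_lit 151) (nat_lit 4) (nat_lit 149) (nat_lit 4) (nat_lit 420) (nat_lit 301) (nat_lit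 299)))) (XT.nd (nat_lit 78) (nat_lit 228) (nat_lit 0) (XT.lf (nat_lit 0) (nat_lit 270078638) (nat_lit 228) (nat_lit 568993161) (nat_lit 76) (nat_lit 12847219285) (nat_lit 146) (nat_lit 5) (nat_lit 149) (nat_lit 5) (nat_lit 147) (nat_lit 4) (nat_lit 421) (nat_lit 301) (nat_lit 298)) (XT.nd (nat_lit 78) (nat_lit 152) (nat_lit 0) (XT.lf (nat_lit 0) (nat_lit 7054744466) (nat_lit 152) (nat_lit 1198016704) (nat_lit 0) (nat_lit 5629317389) (nat_lit 145) (nat_lit 5) (nat_lit 147) (nat_lit 4) (nat_lit 145) (nat_lit 4) (nat_lit 422) (nat_lit 301) (nat_lit 297)) (XT.lf (nat_lit 0) (nat_lit 12240559629) (nat_lit 152) (nat_lit 1799739257) (nat_lit 152) (nat_lit 43520314) (nat_lit 143) (nat_lit 4) (nat_lit 145) (nat_lit 5) (nat_lit 145) (nat_lit 4) (nat_lit 423) (nat_lit 301) (nat_lit 296)))))) (XT.nd (nat_lit 468) (nat_lit 912) (nat_lit 0) (XT.nd (nat_lit 234) (nat_lit 456) (nat_lit 0) (XT.nd (nat_lit 78) (nat_lit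 304) (nat_lit 0) (XT.lf (nat_lit 0) (nat_lit 6846346603) (nat_lit 152) (nat_lit 2612645282) (nat_lit 0) (nat_lit 4829476608) (nat_lit 141) (nat_lit 5) (nat_lit 143) (nat_lit 4) (nat_lit 141) (nat_lit 4) (nat_lit 424) (nat_lit 301) (nat_lit 295)) (XT.nd (nat_lit 78) (nat_lit 152) (nat_lit 0) (XT.lf (nat_lit 0) (nat_lit 11084118850) (nat_lit 152) (nat_lit 2867218907) (nat_lit 152) (nat_lit 547627495) (nat_lit 139) (nat_lit 4) (nat_lit 141) (nat_lit 5) (nat_lit 141) (nat_lit 4) (nat_lit 425) (nat_lit 301) (nat_lit 294)) (XT.lf (nat_lit 0) (nat_lit 6457339788) (nat_lit 152) (nat_lit 4335636126) (nat_lit 0) (nat_lit 3919965321) (nat_lit 137) (nat_lit 5) (nat_lit 139) (nat_lit 4) (nat_lit 137) (nat_lit 4) (nat_lit 426) (nat_lit 301) (nat_lit 293)))) (XT.nd (nat_lit 78) (nat_lit 304) (nat_lit 0) (XT.lf (nat_lit 0) (nat_lit 9620683798) (nat_lit 152) (nat_lit 4063113522) (nat_lit 152) (nat_lit 1248706075) (nat_lit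 135) (nat_lit 4) (nat_lit 137) (nat_lit 5) (nat_lit 137) (nat_lit 4) (nat_lit 427) (nat_lit 301) (nat_lit 292)) (XT.nd (nat_lit 78) (nat_lit 152) (nat_lit 0) (XT.lf (nat_lit 0) (nat_lit 5875684678) (nat_lit 152) (nat_lit 6398413876) (nat_lit 0) (nat_lit 2882120109) (nat_lit 133) (nat_lit 5) (nat_lit 135) (nat_lit 4) (nat_lit 133) (nat_lit 4) (nat_lit 428) (nat_lit 301) (nat_lit 291)) (XT.lf (nat_lit 0) (nat_lit 7818521662) (nat_lit 152) (nat_lit 5406870662) (nat_lit 152) (nat_lit 2159781672) (nat_lit 131) (nat_lit 4) (nat_lit 133) (nat_lit 5) (nat_lit 133) (nat_lit 4) (nat_lit 429) (nat_lit 301) (nat_lit 290))))) (XT.nd (nat_lit 234) (nat_lit 456) (nat_lit 0) (XT.nd (nat_lit 78) (nat_lit 304) (nat_lit 0) (XT.lf (nat_lit 0) (nat_lit 5088164329) (nat_lit 152) (nat_lit 8834225374) (nat_lit 0) (nat_lit 1696679664) (nat_lit 129) (nat_lit 5) (nat_lit 131) (nat_lit 4) (nat_lit 129) (nat_lit 4) (nat_lit 430)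 (nat_lit 301) (nat_lit 289)) (XT.nd (nat_lit 78) (nat_lit 152) (nat_lit 0) (XT.lf (nat_lit 0) (nat_lit 5644042867) (nat_lit 152) (nat_lit 6918608635) (nat_lit 152) (nat_lit 3295113210) (nat_lit 127) (nat_lit 4) (nat_lit 129) (nat_lit 5) (nat_lit 129) (nat_lit 4) (nat_lit 431) (nat_lit 301) (nat_lit 288)) (XT.lf (nat_lit 0) (nat_lit 4080336367) (nat_lit 152) (nat_lit 11678286791) (nat_lit 0) (nat_lit 343687252) (nat_lit 125) (nat_lit 5) (nat_lit 127) (nat_lit 4) (nat_lit 125) (nat_lit 4) (nat_lit 432) (nat_lit 301) (nat_lit 287)))) (XT.nd (nat_lit 78) (nat_lit 304) (nat_lit 0) (XT.lf (nat_lit 0) (nat_lit 3061651733) (nat_lit 152) (nat_lit 8619216208) (nat_lit 152) (nat_lit 4670244381) (nat_lit 123) (nat_lit 4) (nat_lit 125) (nat_lit 5) (nat_lit 125) (nat_lit 4) (nat_lit 433) (nat_lit 301) (nat_lit 286)) (XT.nd (nat_lit 78) (nat_lit 152) (nat_lit 0) (XT.lf (nat_lit 0) (nat_lit 1626778236) (nat_lit 76)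 (nat_lit 1221442757) (nat_lit 152) (nat_lit 13758236023) (nat_lit 121) (nat_lit 5) (nat_lit 122) (nat_lit 5) (nat_lit 123) (nat_lit 4) (nat_lit 434) (nat_lit 301) (nat_lit 285)) (XT.lf (nat_lit 0) (nat_lit 33590193) (nat_lit 152) (nat_lit 10530453818) (nat_lit 152) (nat_lit 6302060710) (nat_lit 119) (nat_lit 4) (nat_lit 121) (nat_lit 5) (nat_lit 121) (nat_lit 4) (nat_lit 435) (nat_lit 301) (nat_lit 284))))))) (XT.nd (nat_lit 52260) (nat_lit 0) (nat_lit 152) (XT.nd (nat_lit 51792) (nat_lit 0) (nat_lit 1900) (XT.nd (nat_lit 51558) (nat_lit 0) (nat_lit 2660) (XT.nd (nat_lit 78) (nat_lit 152) (nat_lit 0) (XT.lf (nat_lit 0) (nat_lit 1384202195) (nat_lit 228) (nat_lit 1607108630) (nat_lit 76) (nat_lit 14140835058) (nat_lit 118) (nat_lit 5) (nat_lit 121) (nat_lit 5) (nat_lit 119) (nat_lit 4) (nat_lit 436) (nat_lit 301) (nat_lit 283)) (XT.nd (nat_lit 78) (nat_lit 76) (nat_lit 0) (XT.lf (nat_lit 0) (nat_lit 9228284772)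 (nat_lit 152) (nat_lit 3412314320) (nat_lit 0) (nat_lit 4762080381) (nat_lit 117) (nat_lit 5) (nat_lit 119) (nat_lit 4) (nat_lit 117) (nat_lit 4) (nat_lit 437) (nat_lit 301) (nat_lit 282)) (XT.lf (nat_lit 0) (nat_lit 12371130724) (nat_lit 76) (nat_lit 4973959263) (nat_lit 76) (nat_lit 335117078) (nat_lit 116) (nat_lit 4) (nat_lit 117) (nat_lit 5) (nat_lit 117) (nat_lit 4) (nat_lit 438) (nat_lit 301) (nat_lit 281)))) (XT.nd (nat_lit 78) (nat_lit 380) (nat_lit 0) (XT.lf (nat_lit 0) (nat_lit 818693997) (nat_lit 152) (nat_lit 2781259299) (nat_lit 152) (nat_lit 2781259299) (nat_lit 156) (nat_lit 4) (nat_lit 158) (nat_lit 5) (nat_lit 158) (nat_lit 4) (nat_lit 416) (nat_lit 302) (nat_lit 302)) (XT.nd (nat_lit 78) (nat_lit 152) (nat_lit 0) (XT.lf (nat_lit 0) (nat_lit 818622953) (nat_lit 228) (nat_lit 11710878950) (nat_lit 0) (nat_lit 411790681) (nat_lit 153) (nat_lit 5) (nat_lit 156) (nat_lit 4) (nat_lit 153)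 (nat_lit 4) (nat_lit 417) (nat_lit 302) (nat_lit 301)) (XT.lf (nat_lit 0) (nat_lit 713641005) (nat_lit 152) (nat_lit 6605428826) (nat_lit 152) (nat_lit 5803613767) (nat_lit 151) (nat_lit 4) (nat_lit 153) (nat_lit 5) (nat_lit 153) (nat_lit 4) (nat_lit 418) (nat_lit 302) (nat_lit 300))))) (XT.nd (nat_lit 234) (nat_lit 380) (nat_lit 0) (XT.nd (nat_lit 78) (nat_lit 228) (nat_lit 0) (XT.lf (nat_lit 0) (nat_lit 189051311) (nat_lit 76) (nat_lit 487965833) (nat_lit 152) (nat_lit 12632723068) (nat_lit 149) (nat_lit 5) (nat_lit 150) (nat_lit 5) (nat_lit 151) (nat_lit 4) (nat_lit 419) (nat_lit 302) (nat_lit 299)) (XT.nd (nat_lit 78) (nat_lit 228) (nat_lit 0) (XT.lf (nat_lit 0) (nat_lit 7282804193) (nat_lit 152) (nat_lit 445890353) (nat_lit 0) (nat_lit 5770568608) (nat_lit 149) (nat_lit 5) (nat_lit 151) (nat_lit 4) (nat_lit 149) (nat_lit 4) (nat_lit 420) (nat_lit 302) (nat_lit 298)) (XT.lf (nat_lit 0) (nat_lit 379482179)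 (nat_lit 228) (nat_lit 1092823852) (nat_lit 76) (nat_lit 12222207300) (nat_lit 146) (nat_lit 5) (nat_lit 149) (nat_lit 5) (nat_lit 147) (nat_lit 4) (nat_lit 421) (nat_lit 302) (nat_lit 297)))) (XT.nd (nat_lit 78) (nat_lit 304) (nat_lit 0) (XT.lf (nat_lit 0) (nat_lit 7086655133) (nat_lit 152) (nat_lit 1859012703) (nat_lit 0) (nat_lit 4946957756) (nat_lit 145) (nat_lit 5) (nat_lit 147) (nat_lit 4) (nat_lit 145) (nat_lit 4) (nat_lit 422) (nat_lit 302) (nat_lit 296)) (XT.nd (nat_lit 78) (nat_lit 152) (nat_lit 0) (XT.lf (nat_lit 0) (nat_lit 11443127500) (nat_lit 152) (nat_lit 2557125973) (nat_lit 152) (nat_lit 96271443) (nat_lit 143) (nat_lit 4) (nat_lit 145) (nat_lit 5) (nat_lit 145) (nat_lit 4) (nat_lit 423) (nat_lit 302) (nat_lit 295)) (XT.lf (nat_lit 0) (nat_lit 6713381737) (nat_lit 152) (nat_lit 3568763814) (nat_lit 0) (nat_lit 4021481164) (nat_lit 141) (nat_lit 5) (nat_lit 143) (nat_lit 4) (nat_lit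 141) (nat_lit 4) (nat_lit 424) (nat_lit 302) (nat_lit 294)))))) (XT.nd (nat_lit 468) (nat_lit 836) (nat_lit 0) (XT.nd (nat_lit 234) (nat_lit 456) (nat_lit 0) (XT.nd (nat_lit 78) (nat_lit 304) (nat_lit 0) (XT.lf (nat_lit 0) (nat_lit 9985415470) (nat_lit 152) (nat_lit 3758375165) (nat_lit 152) (nat_lit 772570304) (nat_lit 139) (nat_lit 4) (nat_lit 141) (nat_lit 5) (nat_lit 141) (nat_lit 4) (nat_lit 425) (nat_lit 302) (nat_lit 293)) (XT.nd (nat_lit 78) (nat_lit 152) (nat_lit 0) (XT.lf (nat_lit 0) (nat_lit 6151482468) (nat_lit 152) (nat_lit 5605868626) (nat_lit 0) (nat_lit 2975609817) (nat_lit 137) (nat_lit 5) (nat_lit 139) (nat_lit 4) (nat_lit 137) (nat_lit 4) (nat_lit 426) (nat_lit 302) (nat_lit 292)) (XT.lf (nat_lit 0) (nat_lit 8201363118) (nat_lit 152) (nat_lit 5099159591) (nat_lit 152) (nat_lit 1654322881) (nat_lit 135) (nat_lit 4) (nat_lit 137) (nat_lit 5) (nat_lit 137) (nat_lit 4) (nat_lit 427) (nat_lit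 302) (nat_lit 291)))) (XT.nd (nat_lit 78) (nat_lit 304) (nat_lit 0) (XT.lf (nat_lit 0) (nat_lit 5388295546) (nat_lit 152) (nat_lit 8002803437) (nat_lit 0) (nat_lit 1790269465) (nat_lit 133) (nat_lit 5) (nat_lit 135) (nat_lit 4) (nat_lit 133) (nat_lit 4) (nat_lit 428) (nat_lit 302) (nat_lit 290)) (XT.nd (nat_lit 78) (nat_lit 152) (nat_lit 0) (XT.lf (nat_lit 0) (nat_lit 6058163064) (nat_lit 152) (nat_lit 6599370551) (nat_lit 152) (nat_lit 2755204255) (nat_lit 131) (nat_lit 4) (nat_lit 133) (nat_lit 5) (nat_lit 133) (nat_lit 4) (nat_lit 429) (nat_lit 302) (nat_lit 289)) (XT.lf (nat_lit 0) (nat_lit 4409953979) (nat_lit 152) (nat_lit 10793940236) (nat_lit 0) (nat_lit 445742932) (nat_lit 129) (nat_lit 5) (nat_lit 131) (nat_lit 4) (nat_lit 129) (nat_lit 4) (nat_lit 430) (nat_lit 302) (nat_lit 288))))) (XT.nd (nat_lit 234) (nat_lit 380) (nat_lit 0) (XT.nd (nat_lit 78) (nat_lit 304) (nat_lit 0) (XT.lf (nat_lit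 0) (nat_lit 3521076381) (nat_lit 152) (nat_lit 8279616387) (nat_lit 152) (nat_lit 4090152175) (nat_lit 127) (nat_lit 4) (nat_lit 129) (nat_lit 5) (nat_lit 129) (nat_lit 4) (nat_lit 431) (nat_lit 302) (nat_lit 287)) (XT.nd (nat_lit 78) (nat_lit 152) (nat_lit 0) (XT.lf (nat_lit 0) (nat_lit 2112016705) (nat_lit 76) (nat_lit 1099891328) (nat_lit 152) (nat_lit 12926378983) (nat_lit 125) (nat_lit 5) (nat_lit 126) (nat_lit 5) (nat_lit 127) (nat_lit 4) (nat_lit 432) (nat_lit 302) (nat_lit 286)) (XT.lf (nat_lit 0) (nat_lit 553279509) (nat_lit 152) (nat_lit 10161323385) (nat_lit 152) (nat_lit 5675421136) (nat_lit 123) (nat_lit 4) (nat_lit 125) (nat_lit 5) (nat_lit 125) (nat_lit 4) (nat_lit 433) (nat_lit 302) (nat_lit 285)))) (XT.nd (nat_lit 78) (nat_lit 304) (nat_lit 0) (XT.lf (nat_lit 0) (nat_lit 1783928838) (nat_lit 228) (nat_lit 1064661224) (nat_lit 76) (nat_lit 13799430433) (nat_lit 122) (nat_lit 5) (nat_lit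 125) (nat_lit 5) (nat_lit 123) (nat_lit 4) (nat_lit 434) (nat_lit 302) (nat_lit 284)) (XT.nd (nat_lit 78) (nat_lit 228) (nat_lit 0) (XT.lf (nat_lit 0) (nat_lit 9410267946) (nat_lit 152) (nat_lit 2828013063) (nat_lit 0) (nat_lit 4672071708) (nat_lit 121) (nat_lit 5) (nat_lit 123) (nat_lit 4) (nat_lit 121) (nat_lit 4) (nat_lit 435) (nat_lit 302) (nat_lit 283)) (XT.lf (nat_lit 0) (nat_lit 118631486) (nat_lit 228) (nat_lit 4680525757) (nat_lit 76) (nat_lit 12380309853) (nat_lit 118) (nat_lit 5) (nat_lit 121) (nat_lit 5) (nat_lit 119) (nat_lit 4) (nat_lit 436) (nat_lit 302) (nat_lit 282))))))))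
noncomputable def xc3 : XT := (XT.nd (nat_lit 52962) (nat_lit 0) (nat_lit 0) (XT.nd (nat_lit 52026) (nat_lit 0) (nat_lit 456) (XT.nd (nat_lit 51558) (nat_lit 0) (nat_lit 2204) (XT.nd (nat_lit 51324) (nat_lit 0) (nat_lit 3040) (XT.nd (nat_lit 78) (nat_lit 76) (nat_lit 0) (XT.lf (nat_lit 0) (nat_lit 7852085878) (nat_lit 152) (nat_lit 6699793021) (nat_lit 0) (nat_lit 2901440632) (nat_lit 117) (nat_lit 5) (nat_lit 119) (nat_lit 4) (nat_lit 117) (nat_lit 4) (nat_lit 437) (nat_lit 302) (nat_lit 281)) (XT.lf (nat_lit 0) (nat_lit 8897078373) (nat_lit 76) (nat_lit 6977427530) (nat_lit 76) (nat_lit 1859172775) (nat_lit 116) (nat_lit 4) (nat_lit 117) (nat_lit 5) (nat_lit 117) (nat_lit 4) (nat_lit 438) (nat_lit 302) (nat_lit 280))) (XT.nd (nat_lit 78) (nat_lit 380) (nat_lit 0) (XT.lf (nat_lit 0) (nat_lit 1230815296) (nat_lit 152) (nat_lit 2488617400) (nat_lit 152) (nat_lit 2488617400) (nat_lit 161) (nat_lit 4) (nat_lit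 163) (nat_lit 5) (nat_lit 163) (nat_lit 4) (nat_lit 414) (nat_lit 303) (nat_lit 303)) (XT.nd (nat_lit 78) (nat_lit 152) (nat_lit 0) (XT.lf (nat_lit 0) (nat_lit 1234326685) (nat_lit 228) (nat_lit 10551854641) (nat_lit 0) (nat_lit 802718329) (nat_lit 158) (nat_lit 5) (nat_lit 161) (nat_lit 4) (nat_lit 158) (nat_lit 4) (nat_lit 415) (nat_lit 303) (nat_lit 302)) (XT.lf (nat_lit 0) (nat_lit 1515095378) (nat_lit 152) (nat_lit 6049984235) (nat_lit 152) (nat_lit 5199338639) (nat_lit 156) (nat_lit 4) (nat_lit 158) (nat_lit 5) (nat_lit 158) (nat_lit 4) (nat_lit 416) (nat_lit 303) (nat_lit 301))))) (XT.nd (nat_lit 234) (nat_lit 380) (nat_lit 0) (XT.nd (nat_lit 78) (nat_lit 228) (nat_lit 0) (XT.lf (nat_lit 0) (nat_lit 981836256) (nat_lit 152) (nat_lit 121274149) (nat_lit 228) (nat_lit 11842218673) (nat_lit 153) (nat_lit 5) (nat_lit 155) (nat_lit 5) (nat_lit 156) (nat_lit 4) (nat_lit 417) (nat_lit 303) (nat_lit 300))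 (XT.nd (nat_lit 78) (nat_lit 76) (nat_lit 0) (XT.lf (nat_lit 0) (nat_lit 334536893) (nat_lit 152) (nat_lit 7199302731) (nat_lit 152) (nat_lit 5594971998) (nat_lit 151) (nat_lit 4) (nat_lit 153) (nat_lit 5) (nat_lit 153) (nat_lit 4) (nat_lit 418) (nat_lit 303) (nat_lit 299)) (XT.lf (nat_lit 0) (nat_lit 814973153) (nat_lit 228) (nat_lit 322244390) (nat_lit 76) (nat_lit 12180588956) (nat_lit 150) (nat_lit 5) (nat_lit 153) (nat_lit 5) (nat_lit 151) (nat_lit 4) (nat_lit 419) (nat_lit 303) (nat_lit 298)))) (XT.nd (nat_lit 78) (nat_lit 304) (nat_lit 0) (XT.lf (nat_lit 0) (nat_lit 7346743132) (nat_lit 152) (nat_lit 1086068638) (nat_lit 0) (nat_lit 5076738184) (nat_lit 149) (nat_lit 5) (nat_lit 151) (nat_lit 4) (nat_lit 149) (nat_lit 4) (nat_lit 420) (nat_lit 303) (nat_lit 297)) (XT.nd (nat_lit 78) (nat_lit 76) (nat_lit 0) (XT.lf (nat_lit 0) (nat_lit 361264648) (nat_lit 228) (nat_lit 1877353333) (nat_lit 76)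 (nat_lit 11468291359) (nat_lit 146) (nat_lit 5) (nat_lit 149) (nat_lit 5) (nat_lit 147) (nat_lit 4) (nat_lit 421) (nat_lit 303) (nat_lit 296)) (XT.lf (nat_lit 0) (nat_lit 6989013049) (nat_lit 152) (nat_lit 2785215558) (nat_lit 0) (nat_lit 4133175732) (nat_lit 145) (nat_lit 5) (nat_lit 147) (nat_lit 4) (nat_lit 145) (nat_lit 4) (nat_lit 422) (nat_lit 303) (nat_lit 295)))))) (XT.nd (nat_lit 468) (nat_lit 836) (nat_lit 0) (XT.nd (nat_lit 234) (nat_lit 456) (nat_lit 0) (XT.nd (nat_lit 78) (nat_lit 304) (nat_lit 0) (XT.lf (nat_lit 0) (nat_lit 10378801087) (nat_lit 152) (nat_lit 3451161212) (nat_lit 152) (nat_lit 283520835) (nat_lit 143) (nat_lit 4) (nat_lit 145) (nat_lit 5) (nat_lit 145) (nat_lit 4) (nat_lit 423) (nat_lit 303) (nat_lit 294)) (XT.nd (nat_lit 78) (nat_lit 152) (nat_lit 0) (XT.lf (nat_lit 0) (nat_lit 6446465607) (nat_lit 152) (nat_lit 4799490633) (nat_lit 0) (nat_lit 3077182312) (nat_lit 141)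 (nat_lit 5) (nat_lit 143) (nat_lit 4) (nat_lit 141) (nat_lit 4) (nat_lit 424) (nat_lit 303) (nat_lit 293)) (XT.lf (nat_lit 0) (nat_lit 8610237285) (nat_lit 152) (nat_lit 4791262007) (nat_lit 152) (nat_lit 1136634742) (nat_lit 139) (nat_lit 4) (nat_lit 141) (nat_lit 5) (nat_lit 141) (nat_lit 4) (nat_lit 425) (nat_lit 303) (nat_lit 292)))) (XT.nd (nat_lit 78) (nat_lit 304) (nat_lit 0) (XT.lf (nat_lit 0) (nat_lit 5706988385) (nat_lit 152) (nat_lit 7160634107) (nat_lit 0) (nat_lit 1889842516) (nat_lit 137) (nat_lit 5) (nat_lit 139) (nat_lit 4) (nat_lit 137) (nat_lit 4) (nat_lit 426) (nat_lit 303) (nat_lit 291)) (XT.nd (nat_lit 78) (nat_lit 152) (nat_lit 0) (XT.lf (nat_lit 0) (nat_lit 6495452755) (nat_lit 152) (nat_lit 6282261198) (nat_lit 152) (nat_lit 2203985175) (nat_lit 135) (nat_lit 4) (nat_lit 137) (nat_lit 5) (nat_lit 137) (nat_lit 4) (nat_lit 427) (nat_lit 303) (nat_lit 290)) (XT.lf (nat_lit 0) (nat_lit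 4757282435) (nat_lit 152) (nat_lit 9902209428) (nat_lit 0) (nat_lit 551650936) (nat_lit 133) (nat_lit 5) (nat_lit 135) (nat_lit 4) (nat_lit 133) (nat_lit 4) (nat_lit 428) (nat_lit 303) (nat_lit 289))))) (XT.nd (nat_lit 234) (nat_lit 380) (nat_lit 0) (XT.nd (nat_lit 78) (nat_lit 304) (nat_lit 0) (XT.lf (nat_lit 0) (nat_lit 4000529405) (nat_lit 152) (nat_lit 7944514842) (nat_lit 152) (nat_lit 3499912260) (nat_lit 131) (nat_lit 4) (nat_lit 133) (nat_lit 5) (nat_lit 133) (nat_lit 4) (nat_lit 429) (nat_lit 303) (nat_lit 288)) (XT.nd (nat_lit 78) (nat_lit 152) (nat_lit 0) (XT.lf (nat_lit 0) (nat_lit 2615558595) (nat_lit 76) (nat_lit 976644329) (nat_lit 152) (nat_lit 12092494867) (nat_lit 129) (nat_lit 5) (nat_lit 130) (nat_lit 5) (nat_lit 131) (nat_lit 4) (nat_lit 430) (nat_lit 303) (nat_lit 287)) (XT.lf (nat_lit 0) (nat_lit 1089540904) (nat_lit 152) (nat_lit 9799143056) (nat_lit 152) (nat_lit 5040049361)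 (nat_lit 127) (nat_lit 4) (nat_lit 129) (nat_lit 5) (nat_lit 129) (nat_lit 4) (nat_lit 431) (nat_lit 303) (nat_lit 286)))) (XT.nd (nat_lit 78) (nat_lit 304) (nat_lit 0) (XT.lf (nat_lit 0) (nat_lit 2198811590) (nat_lit 228) (nat_lit 507828878) (nat_lit 76) (nat_lit 13472260911) (nat_lit 126) (nat_lit 5) (nat_lit 129) (nat_lit 5) (nat_lit 127) (nat_lit 4) (nat_lit 432) (nat_lit 303) (nat_lit 285)) (XT.nd (nat_lit 78) (nat_lit 228) (nat_lit 0) (XT.lf (nat_lit 0) (nat_lit 9614402422) (nat_lit 152) (nat_lit 2231199059) (nat_lit 0) (nat_lit 4587650032) (nat_lit 125) (nat_lit 5) (nat_lit 127) (nat_lit 4) (nat_lit 125) (nat_lit 4) (nat_lit 433) (nat_lit 303) (nat_lit 284)) (XT.lf (nat_lit 0) (nat_lit 579467413) (nat_lit 228) (nat_lit 4044738899) (nat_lit 76) (nat_lit 12069871782) (nat_lit 122) (nat_lit 5) (nat_lit 125) (nat_lit 5) (nat_lit 123) (nat_lit 4) (nat_lit 434) (nat_lit 303) (nat_lit 283))))))) (XT.nd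 (nat_lit 51948) (nat_lit 0) (nat_lit 988) (XT.nd (nat_lit 51480) (nat_lit 0) (nat_lit 2584) (XT.nd (nat_lit 234) (nat_lit 76) (nat_lit 0) (XT.nd (nat_lit 78) (nat_lit 304) (nat_lit 0) (XT.lf (nat_lit 0) (nat_lit 8098088138) (nat_lit 152) (nat_lit 6015605132) (nat_lit 0) (nat_lit 2845948597) (nat_lit 121) (nat_lit 5) (nat_lit 123) (nat_lit 4) (nat_lit 121) (nat_lit 4) (nat_lit 435) (nat_lit 303) (nat_lit 282)) (XT.nd (nat_lit 78) (nat_lit 152) (nat_lit 0) (XT.lf (nat_lit 0) (nat_lit 9131642414) (nat_lit 152) (nat_lit 6764928749) (nat_lit 152) (nat_lit 1334972280) (nat_lit 119) (nat_lit 4) (nat_lit 121) (nat_lit 5) (nat_lit 121) (nat_lit 4) (nat_lit 436) (nat_lit 303) (nat_lit 281)) (XT.lf (nat_lit 0) (nat_lit 6310790357) (nat_lit 152) (nat_lit 10327024305) (nat_lit 0) (nat_lit 871378450) (nat_lit 117) (nat_lit 5) (nat_lit 119) (nat_lit 4) (nat_lit 117) (nat_lit 4) (nat_lit 437) (nat_lit 303) (nat_lit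 280)))) (XT.nd (nat_lit 51090) (nat_lit 0) (nat_lit 3572) (XT.lf (nat_lit 0) (nat_lit 5080040234) (nat_lit 76) (nat_lit 9157264392) (nat_lit 76) (nat_lit 3555124807) (nat_lit 116) (nat_lit 4) (nat_lit 117) (nat_lit 5) (nat_lit 117) (nat_lit 4) (nat_lit 438) (nat_lit 303) (nat_lit 279)) (XT.nd (nat_lit 78) (nat_lit 228) (nat_lit 0) (XT.lf (nat_lit 0) (nat_lit 1657483437) (nat_lit 152) (nat_lit 2191610519) (nat_lit 152) (nat_lit 2191610519) (nat_lit 166) (nat_lit 4) (nat_lit 168) (nat_lit 5) (nat_lit 168) (nat_lit 4) (nat_lit 412) (nat_lit 304) (nat_lit 304)) (XT.lf (nat_lit 0) (nat_lit 1664690962) (nat_lit 228) (nat_lit 9376776339) (nat_lit 0) (nat_lit 1206797656) (nat_lit 163) (nat_lit 5) (nat_lit 166) (nat_lit 4) (nat_lit 163) (nat_lit 4) (nat_lit 413) (nat_lit 304) (nat_lit 303))))) (XT.nd (nat_lit 234) (nat_lit 456) (nat_lit 0) (XT.nd (nat_lit 78) (nat_lit 380) (nat_lit 0) (XT.lf (nat_lit 0) (nat_lit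 2343280838) (nat_lit 152) (nat_lit 5488607686) (nat_lit 152) (nat_lit 4586157773) (nat_lit 161) (nat_lit 4) (nat_lit 163) (nat_lit 5) (nat_lit 163) (nat_lit 4) (nat_lit 414) (nat_lit 304) (nat_lit 302)) (XT.nd (nat_lit 78) (nat_lit 152) (nat_lit 0) (XT.lf (nat_lit 0) (nat_lit 1546405928) (nat_lit 228) (nat_lit 10795264324) (nat_lit 0) (nat_lit 251203724) (nat_lit 158) (nat_lit 5) (nat_lit 161) (nat_lit 4) (nat_lit 158) (nat_lit 4) (nat_lit 415) (nat_lit 304) (nat_lit 301)) (XT.lf (nat_lit 0) (nat_lit 1148110669) (nat_lit 152) (nat_lit 6662161490) (nat_lit 152) (nat_lit 4960127015) (nat_lit 156) (nat_lit 4) (nat_lit 158) (nat_lit 5) (nat_lit 158) (nat_lit 4) (nat_lit 416) (nat_lit 304) (nat_lit 300)))) (XT.nd (nat_lit 78) (nat_lit 228) (nat_lit 0) (XT.lf (nat_lit 0) (nat_lit 480252313) (nat_lit 152) (nat_lit 789338610) (nat_lit 228) (nat_lit 11683691990) (nat_lit 153) (nat_lit 5) (nat_lit 155) (nat_lit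 5) (nat_lit 156) (nat_lit 4) (nat_lit 417) (nat_lit 304) (nat_lit 299)) (XT.nd (nat_lit 78) (nat_lit 228) (nat_lit 0) (XT.lf (nat_lit 0) (nat_lit 7627665323) (nat_lit 228) (nat_lit 291862705) (nat_lit 0) (nat_lit 5219417074) (nat_lit 153) (nat_lit 5) (nat_lit 156) (nat_lit 4) (nat_lit 153) (nat_lit 4) (nat_lit 418) (nat_lit 304) (nat_lit 298)) (XT.lf (nat_lit 0) (nat_lit 831232669) (nat_lit 228) (nat_lit 1082311133) (nat_lit 76) (nat_lit 11416346029) (nat_lit 150) (nat_lit 5) (nat_lit 153) (nat_lit 5) (nat_lit 151) (nat_lit 4) (nat_lit 419) (nat_lit 304) (nat_lit 297)))))) (XT.nd (nat_lit 468) (nat_lit 760) (nat_lit 0) (XT.nd (nat_lit 234) (nat_lit 456) (nat_lit 0) (XT.nd (nat_lit 78) (nat_lit 304) (nat_lit 0) (XT.lf (nat_lit 0) (nat_lit 7285310317) (nat_lit 152) (nat_lit 1983101231) (nat_lit 0) (nat_lit 4255552507) (nat_lit 149) (nat_lit 5) (nat_lit 151) (nat_lit 4) (nat_lit 149) (nat_lit 4) (nat_lit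 420) (nat_lit 304) (nat_lit 296)) (XT.nd (nat_lit 78) (nat_lit 76) (nat_lit 0) (XT.lf (nat_lit 0) (nat_lit 215410128) (nat_lit 228) (nat_lit 2923267116) (nat_lit 76) (nat_lit 10584812701) (nat_lit 146) (nat_lit 5) (nat_lit 149) (nat_lit 5) (nat_lit 147) (nat_lit 4) (nat_lit 421) (nat_lit 304) (nat_lit 295)) (XT.lf (nat_lit 0) (nat_lit 6761732894) (nat_lit 152) (nat_lit 3977434571) (nat_lit 0) (nat_lit 3187260246) (nat_lit 145) (nat_lit 5) (nat_lit 147) (nat_lit 4) (nat_lit 145) (nat_lit 4) (nat_lit 422) (nat_lit 304) (nat_lit 294)))) (XT.nd (nat_lit 78) (nat_lit 304) (nat_lit 0) (XT.lf (nat_lit 0) (nat_lit 9046650398) (nat_lit 152) (nat_lit 4482626171) (nat_lit 152) (nat_lit 605432106) (nat_lit 143) (nat_lit 4) (nat_lit 145) (nat_lit 5) (nat_lit 145) (nat_lit 4) (nat_lit 423) (nat_lit 304) (nat_lit 293)) (XT.nd (nat_lit 78) (nat_lit 152) (nat_lit 0) (XT.lf (nat_lit 0) (nat_lit 6045364988) (nat_lit 152)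 (nat_lit 6305901131) (nat_lit 0) (nat_lit 1995754935) (nat_lit 141) (nat_lit 5) (nat_lit 143) (nat_lit 4) (nat_lit 141) (nat_lit 4) (nat_lit 424) (nat_lit 304) (nat_lit 292)) (XT.lf (nat_lit 0) (nat_lit 6957382682) (nat_lit 152) (nat_lit 5966781954) (nat_lit 152) (nat_lit 1640138921) (nat_lit 139) (nat_lit 4) (nat_lit 141) (nat_lit 5) (nat_lit 141) (nat_lit 4) (nat_lit 425) (nat_lit 304) (nat_lit 291))))) (XT.nd (nat_lit 234) (nat_lit 304) (nat_lit 0) (XT.nd (nat_lit 78) (nat_lit 304) (nat_lit 0) (XT.lf (nat_lit 0) (nat_lit 5123469148) (nat_lit 152) (nat_lit 9001291100) (nat_lit 0) (nat_lit 661714690) (nat_lit 137) (nat_lit 5) (nat_lit 139) (nat_lit 4) (nat_lit 137) (nat_lit 4) (nat_lit 426) (nat_lit 304) (nat_lit 290)) (XT.nd (nat_lit 78) (nat_lit 152) (nat_lit 0) (XT.lf (nat_lit 0) (nat_lit 4501462105) (nat_lit 152) (nat_lit 7613452123) (nat_lit 152) (nat_lit 2898173244) (nat_lit 135) (nat_lit 4) (nat_lit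 137) (nat_lit 5) (nat_lit 137) (nat_lit 4) (nat_lit 427) (nat_lit 304) (nat_lit 289)) (XT.lf (nat_lit 0) (nat_lit 3138846183) (nat_lit 76) (nat_lit 851432278) (nat_lit 152) (nat_lit 11255043731) (nat_lit 133) (nat_lit 5) (nat_lit 134) (nat_lit 5) (nat_lit 135) (nat_lit 4) (nat_lit 428) (nat_lit 304) (nat_lit 288)))) (XT.nd (nat_lit 78) (nat_lit 152) (nat_lit 0) (XT.lf (nat_lit 0) (nat_lit 1643822753) (nat_lit 152) (nat_lit 9443478904) (nat_lit 152) (nat_lit 4394556403) (nat_lit 131) (nat_lit 4) (nat_lit 133) (nat_lit 5) (nat_lit 133) (nat_lit 4) (nat_lit 429) (nat_lit 304) (nat_lit 287)) (XT.nd (nat_lit 78) (nat_lit 0) (nat_lit 0) (XT.lf (nat_lit 0) (nat_lit 66097458) (nat_lit 76) (nat_lit 2564578957) (nat_lit 152) (nat_lit 13093711127) (nat_lit 129) (nat_lit 5) (nat_lit 130) (nat_lit 5) (nat_lit 131) (nat_lit 4) (nat_lit 430) (nat_lit 304) (nat_lit 286)) (XT.lf (nat_lit 0) (nat_lit 9841714827) (nat_lit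 152) (nat_lit 1620438306) (nat_lit 0) (nat_lit 4508833217) (nat_lit 129) (nat_lit 5) (nat_lit 131) (nat_lit 4) (nat_lit 129) (nat_lit 4) (nat_lit 431) (nat_lit 304) (nat_lit 285))))))))
noncomputable def xc4 : XT := (XT.nd (nat_lit 52650) (nat_lit 0) (nat_lit 76) (XT.nd (nat_lit 51714) (nat_lit 0) (nat_lit 1748) (XT.nd (nat_lit 390) (nat_lit 228) (nat_lit 0) (XT.nd (nat_lit 156) (nat_lit 456) (nat_lit 0) (XT.nd (nat_lit 78) (nat_lit 76) (nat_lit 0) (XT.lf (nat_lit 0) (nat_lit 1055156269) (nat_lit 228) (nat_lit 3397052938) (nat_lit 76) (nat_lit 11771529944) (nat_lit 126) (nat_lit 5) (nat_lit 129) (nat_lit 5) (nat_lit 127) (nat_lit 4) (nat_lit 432) (nat_lit 304) (nat_lit 284)) (XT.lf (nat_lit 0) (nat_lit 8365834745) (nat_lit 152) (nat_lit 5321562004) (nat_lit 0) (nat_lit 2793839906) (nat_lit 125) (nat_lit 5) (nat_lit 127) (nat_lit 4) (nat_lit 125) (nat_lit 4) (nat_lit 433) (nat_lit 304) (nat_lit 283)))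 (XT.nd (nat_lit 78) (nat_lit 304) (nat_lit 0) (XT.lf (nat_lit 0) (nat_lit 9389440959) (nat_lit 152) (nat_lit 6558054544) (nat_lit 152) (nat_lit 797413725) (nat_lit 123) (nat_lit 4) (nat_lit 125) (nat_lit 5) (nat_lit 125) (nat_lit 4) (nat_lit 434) (nat_lit 304) (nat_lit 282)) (XT.nd (nat_lit 78) (nat_lit 152) (nat_lit 0) (XT.lf (nat_lit 0) (nat_lit 6626035133) (nat_lit 152) (nat_lit 9532626752) (nat_lit 0) (nat_lit 855363041) (nat_lit 121) (nat_lit 5) (nat_lit 123) (nat_lit 4) (nat_lit 121) (nat_lit 4) (nat_lit 435) (nat_lit 304) (nat_lit 281)) (XT.lf (nat_lit 0) (nat_lit 5430581021) (nat_lit 152) (nat_lit 8900725853) (nat_lit 152) (nat_lit 2957415966) (nat_lit 119) (nat_lit 4) (nat_lit 121) (nat_lit 5) (nat_lit 121) (nat_lit 4) (nat_lit 436) (nat_lit 304) (nat_lit 280))))) (XT.nd (nat_lit 51090) (nat_lit 0) (nat_lit 3572) (XT.nd (nat_lit 78) (nat_lit 76) (nat_lit 0) (XT.lf (nat_lit 0) (nat_lit 3259742260)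 (nat_lit 76) (nat_lit 1356347225) (nat_lit 152) (nat_lit 12953868409) (nat_lit 117) (nat_lit 5) (nat_lit 118) (nat_lit 5) (nat_lit 119) (nat_lit 4) (nat_lit 437) (nat_lit 304) (nat_lit 279)) (XT.nd (nat_lit 50934) (nat_lit 0) (nat_lit 4180) (XT.lf (nat_lit 0) (nat_lit 916681029) (nat_lit 76) (nat_lit 11515374560) (nat_lit 76) (nat_lit 5424455071) (nat_lit 116) (nat_lit 4) (nat_lit 117) (nat_lit 5) (nat_lit 117) (nat_lit 4) (nat_lit 438) (nat_lit 304) (nat_lit 278)) (XT.lf (nat_lit 0) (nat_lit 2099891643) (nat_lit 152) (nat_lit 1889580881) (nat_lit 152) (nat_lit 1889580881) (nat_lit 171) (nat_lit 4) (nat_lit 173) (nat_lit 5) (nat_lit 173) (nat_lit 4) (nat_lit 410) (nat_lit 305) (nat_lit 305)))) (XT.nd (nat_lit 78) (nat_lit 380) (nat_lit 0) (XT.lf (nat_lit 0) (nat_lit 2110918973) (nat_lit 228) (nat_lit 8183078086) (nat_lit 0) (nat_lit 1625139965) (nat_lit 168) (nat_lit 5) (nat_lit 171) (nat_lit 4) (nat_lit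 168) (nat_lit 4) (nat_lit 411) (nat_lit 305) (nat_lit 304)) (XT.nd (nat_lit 78) (nat_lit 228) (nat_lit 0) (XT.lf (nat_lit 0) (nat_lit 3200468341) (nat_lit 152) (nat_lit 4920125458) (nat_lit 152) (nat_lit 3962716346) (nat_lit 166) (nat_lit 4) (nat_lit 168) (nat_lit 5) (nat_lit 168) (nat_lit 4) (nat_lit 412) (nat_lit 305) (nat_lit 303)) (XT.lf (nat_lit 0) (nat_lit 2006944044) (nat_lit 228) (nat_lit 9612338197) (nat_lit 0) (nat_lit 632864026) (nat_lit 163) (nat_lit 5) (nat_lit 166) (nat_lit 4) (nat_lit 163) (nat_lit 4) (nat_lit 413) (nat_lit 305) (nat_lit 302)))))) (XT.nd (nat_lit 468) (nat_lit 836) (nat_lit 0) (XT.nd (nat_lit 234) (nat_lit 456) (nat_lit 0) (XT.nd (nat_lit 78) (nat_lit 380) (nat_lit 0) (XT.lf (nat_lit 0) (nat_lit 1988128162) (nat_lit 152) (nat_lit 6120723262) (nat_lit 152) (nat_lit 4315034888) (nat_lit 161) (nat_lit 4) (nat_lit 163) (nat_lit 5) (nat_lit 163) (nat_lit 4) (nat_lit 414) (nat_lit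 305) (nat_lit 301)) (XT.nd (nat_lit 78) (nat_lit 152) (nat_lit 0) (XT.lf (nat_lit 0) (nat_lit 1314281479) (nat_lit 152) (nat_lit 429071768) (nat_lit 228) (nat_lit 10857349109) (nat_lit 158) (nat_lit 5) (nat_lit 160) (nat_lit 5) (nat_lit 161) (nat_lit 4) (nat_lit 415) (nat_lit 305) (nat_lit 300)) (XT.lf (nat_lit 0) (nat_lit 536113203) (nat_lit 152) (nat_lit 7399585275) (nat_lit 152) (nat_lit 4844674707) (nat_lit 156) (nat_lit 4) (nat_lit 158) (nat_lit 5) (nat_lit 158) (nat_lit 4) (nat_lit 416) (nat_lit 305) (nat_lit 299)))) (XT.nd (nat_lit 78) (nat_lit 380) (nat_lit 0) (XT.lf (nat_lit 0) (nat_lit 1316774160) (nat_lit 228) (nat_lit 265337456) (nat_lit 76) (nat_lit 11383092499) (nat_lit 155) (nat_lit 5) (nat_lit 158) (nat_lit 5) (nat_lit 156) (nat_lit 4) (nat_lit 417) (nat_lit 305) (nat_lit 298)) (XT.nd (nat_lit 78) (nat_lit 228) (nat_lit 0) (XT.lf (nat_lit 0) (nat_lit 7603419088) (nat_lit 228) (nat_lit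 1160441073) (nat_lit 0) (nat_lit 4389149027) (nat_lit 153) (nat_lit 5) (nat_lit 156) (nat_lit 4) (nat_lit 153) (nat_lit 4) (nat_lit 418) (nat_lit 305) (nat_lit 297)) (XT.lf (nat_lit 0) (nat_lit 723992624) (nat_lit 228) (nat_lit 2095502124) (nat_lit 76) (nat_lit 10526560536) (nat_lit 150) (nat_lit 5) (nat_lit 153) (nat_lit 5) (nat_lit 151) (nat_lit 4) (nat_lit 419) (nat_lit 305) (nat_lit 296))))) (XT.nd (nat_lit 234) (nat_lit 456) (nat_lit 0) (XT.nd (nat_lit 78) (nat_lit 304) (nat_lit 0) (XT.lf (nat_lit 0) (nat_lit 7098452070) (nat_lit 152) (nat_lit 3137771947) (nat_lit 0) (nat_lit 3306294037) (nat_lit 149) (nat_lit 5) (nat_lit 151) (nat_lit 4) (nat_lit 149) (nat_lit 4) (nat_lit 420) (nat_lit 305) (nat_lit 295)) (XT.nd (nat_lit 78) (nat_lit 152) (nat_lit 0) (XT.lf (nat_lit 0) (nat_lit 9512202730) (nat_lit 152) (nat_lit 4172682482) (nat_lit 152) (nat_lit 59367297) (nat_lit 147) (nat_lit 4) (nat_lit 149)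 (nat_lit 5) (nat_lit 149) (nat_lit 4) (nat_lit 421) (nat_lit 305) (nat_lit 294)) (XT.lf (nat_lit 0) (nat_lit 6404616075) (nat_lit 152) (nat_lit 5436711489) (nat_lit 0) (nat_lit 2108384770) (nat_lit 145) (nat_lit 5) (nat_lit 147) (nat_lit 4) (nat_lit 145) (nat_lit 4) (nat_lit 422) (nat_lit 305) (nat_lit 293)))) (XT.nd (nat_lit 78) (nat_lit 304) (nat_lit 0) (XT.lf (nat_lit 0) (nat_lit 7445511417) (nat_lit 152) (nat_lit 5652422130) (nat_lit 152) (nat_lit 1062286536) (nat_lit 143) (nat_lit 4) (nat_lit 145) (nat_lit 5) (nat_lit 145) (nat_lit 4) (nat_lit 423) (nat_lit 305) (nat_lit 292)) (XT.nd (nat_lit 78) (nat_lit 152) (nat_lit 0) (XT.lf (nat_lit 0) (nat_lit 5509729402) (nat_lit 152) (nat_lit 8089311590) (nat_lit 0) (nat_lit 776254098) (nat_lit 141) (nat_lit 5) (nat_lit 143) (nat_lit 4) (nat_lit 141) (nat_lit 4) (nat_lit 424) (nat_lit 305) (nat_lit 291)) (XT.lf (nat_lit 0) (nat_lit 5025407419) (nat_lit 152)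 (nat_lit 7285962160) (nat_lit 152) (nat_lit 2283522797) (nat_lit 139) (nat_lit 4) (nat_lit 141) (nat_lit 5) (nat_lit 141) (nat_lit 4) (nat_lit 425) (nat_lit 305) (nat_lit 290))))))) (XT.nd (nat_lit 936) (nat_lit 76) (nat_lit 0) (XT.nd (nat_lit 468) (nat_lit 836) (nat_lit 0) (XT.nd (nat_lit 234) (nat_lit 304) (nat_lit 0) (XT.nd (nat_lit 78) (nat_lit 304) (nat_lit 0) (XT.lf (nat_lit 0) (nat_lit 3683400042) (nat_lit 76) (nat_lit 723974124) (nat_lit 152) (nat_lit 10412433105) (nat_lit 137) (nat_lit 5) (nat_lit 138) (nat_lit 5) (nat_lit 139) (nat_lit 4) (nat_lit 426) (nat_lit 305) (nat_lit 289)) (XT.nd (nat_lit 78) (nat_lit 152) (nat_lit 0) (XT.lf (nat_lit 0) (nat_lit 2217648849) (nat_lit 152) (nat_lit 9093895542) (nat_lit 152) (nat_lit 3737493660) (nat_lit 135) (nat_lit 4) (nat_lit 137) (nat_lit 5) (nat_lit 137) (nat_lit 4) (nat_lit 427) (nat_lit 305) (nat_lit 288)) (XT.lf (nat_lit 0) (nat_lit 667768821)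 (nat_lit 76) (nat_lit 2417522698) (nat_lit 152) (nat_lit 12198684634) (nat_lit 133) (nat_lit 5) (nat_lit 134) (nat_lit 5) (nat_lit 135) (nat_lit 4) (nat_lit 428) (nat_lit 305) (nat_lit 287)))) (XT.nd (nat_lit 78) (nat_lit 304) (nat_lit 0) (XT.lf (nat_lit 0) (nat_lit 10093303705) (nat_lit 152) (nat_lit 994229042) (nat_lit 0) (nat_lit 4435649604) (nat_lit 133) (nat_lit 5) (nat_lit 135) (nat_lit 4) (nat_lit 133) (nat_lit 4) (nat_lit 429) (nat_lit 305) (nat_lit 286)) (XT.nd (nat_lit 78) (nat_lit 76) (nat_lit 0) (XT.lf (nat_lit 0) (nat_lit 1546987412) (nat_lit 228) (nat_lit 2735962045) (nat_lit 76) (nat_lit 11485118030) (nat_lit 130) (nat_lit 5) (nat_lit 133) (nat_lit 5) (nat_lit 131) (nat_lit 4) (nat_lit 430) (nat_lit 305) (nat_lit 285)) (XT.lf (nat_lit 0) (nat_lit 8656452955) (nat_lit 152) (nat_lit 4616136897) (nat_lit 0) (nat_lit 2745123630) (nat_lit 129) (nat_lit 5) (nat_lit 131) (nat_lit 4) (nat_lit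 129) (nat_lit 4) (nat_lit 431) (nat_lit 305) (nat_lit 284))))) (XT.nd (nat_lit 234) (nat_lit 380) (nat_lit 0) (XT.nd (nat_lit 78) (nat_lit 304) (nat_lit 0) (XT.lf (nat_lit 0) (nat_lit 9671628323) (nat_lit 152) (nat_lit 6356606700) (nat_lit 152) (nat_lit 245142855) (nat_lit 127) (nat_lit 4) (nat_lit 129) (nat_lit 5) (nat_lit 129) (nat_lit 4) (nat_lit 432) (nat_lit 305) (nat_lit 283)) (XT.nd (nat_lit 78) (nat_lit 152) (nat_lit 0) (XT.lf (nat_lit 0) (nat_lit 6962490423) (nat_lit 152) (nat_lit 8731306118) (nat_lit 0) (nat_lit 840384401) (nat_lit 125) (nat_lit 5) (nat_lit 127) (nat_lit 4) (nat_lit 125) (nat_lit 4) (nat_lit 433) (nat_lit 305) (nat_lit 282)) (XT.lf (nat_lit 0) (nat_lit 5801270724) (nat_lit 152) (nat_lit 8652279144) (nat_lit 152) (nat_lit 2347021685) (nat_lit 123) (nat_lit 4) (nat_lit 125) (nat_lit 5) (nat_lit 125) (nat_lit 4) (nat_lit 434) (nat_lit 305) (nat_lit 281)))) (XT.nd (nat_lit 78)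 (nat_lit 228) (nat_lit 0) (XT.lf (nat_lit 0) (nat_lit 3678256529) (nat_lit 76) (nat_lit 1327325202) (nat_lit 152) (nat_lit 12067584910) (nat_lit 121) (nat_lit 5) (nat_lit 122) (nat_lit 5) (nat_lit 123) (nat_lit 4) (nat_lit 435) (nat_lit 305) (nat_lit 280)) (XT.nd (nat_lit 78) (nat_lit 76) (nat_lit 0) (XT.lf (nat_lit 0) (nat_lit 1393721170) (nat_lit 152) (nat_lit 11209612729) (nat_lit 152) (nat_lit 4747756243) (nat_lit 119) (nat_lit 4) (nat_lit 121) (nat_lit 5) (nat_lit 121) (nat_lit 4) (nat_lit 436) (nat_lit 305) (nat_lit 279)) (XT.lf (nat_lit 0) (nat_lit 2773443149) (nat_lit 228) (nat_lit 994494571) (nat_lit 76) (nat_lit 13867521032) (nat_lit 118) (nat_lit 5) (nat_lit 121) (nat_lit 5) (nat_lit 119) (nat_lit 4) (nat_lit 437) (nat_lit 305) (nat_lit 278)))))) (XT.nd (nat_lit 51168) (nat_lit 0) (nat_lit 2736) (XT.nd (nat_lit 50934) (nat_lit 0) (nat_lit 3724) (XT.nd (nat_lit 50778) (nat_lit 0) (nat_lit 4256)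 (XT.lf (nat_lit 0) (nat_lit 10491754467) (nat_lit 152) (nat_lit 3526453783) (nat_lit 0) (nat_lit 3906732911) (nat_lit 117) (nat_lit 5) (nat_lit 119) (nat_lit 4) (nat_lit 117) (nat_lit 4) (nat_lit 438) (nat_lit 305) (nat_lit 277)) (XT.nd (nat_lit 78) (nat_lit 228) (nat_lit 0) (XT.lf (nat_lit 0) (nat_lit 2559296855) (nat_lit 228) (nat_lit 1581842067) (nat_lit 228) (nat_lit 1581842067) (nat_lit 176) (nat_lit 4) (nat_lit 179) (nat_lit 5) (nat_lit 179) (nat_lit 4) (nat_lit 408) (nat_lit 306) (nat_lit 306)) (XT.lf (nat_lit 0) (nat_lit 2574278143) (nat_lit 228) (nat_lit 6968083918) (nat_lit 0) (nat_lit 2058915194) (nat_lit 173) (nat_lit 5) (nat_lit 176) (nat_lit 4) (nat_lit 173) (nat_lit 4) (nat_lit 409) (nat_lit 306) (nat_lit 305)))) (XT.nd (nat_lit 78) (nat_lit 380) (nat_lit 0) (XT.lf (nat_lit 0) (nat_lit 4089048416) (nat_lit 152) (nat_lit 4343316015) (nat_lit 152) (nat_lit 3327600688) (nat_lit 171) (nat_lit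 4) (nat_lit 173) (nat_lit 5) (nat_lit 173) (nat_lit 4) (nat_lit 410) (nat_lit 306) (nat_lit 304)) (XT.nd (nat_lit 78) (nat_lit 152) (nat_lit 0) (XT.lf (nat_lit 0) (nat_lit 2484858193) (nat_lit 228) (nat_lit 8410974522) (nat_lit 0) (nat_lit 1027096703) (nat_lit 168) (nat_lit 5) (nat_lit 171) (nat_lit 4) (nat_lit 168) (nat_lit 4) (nat_lit 411) (nat_lit 306) (nat_lit 303)) (XT.lf (nat_lit 0) (nat_lit 2856872695) (nat_lit 152) (nat_lit 5573898744) (nat_lit 152) (nat_lit 3658243948) (nat_lit 166) (nat_lit 4) (nat_lit 168) (nat_lit 5) (nat_lit 168) (nat_lit 4) (nat_lit 412) (nat_lit 306) (nat_lit 302))))) (XT.nd (nat_lit 234) (nat_lit 380) (nat_lit 0) (XT.nd (nat_lit 78) (nat_lit 380) (nat_lit 0) (XT.lf (nat_lit 0) (nat_lit 2175662773) (nat_lit 152) (nat_lit 58758003) (nat_lit 228) (nat_lit 10025474560) (nat_lit 163) (nat_lit 5) (nat_lit 165) (nat_lit 5) (nat_lit 166) (nat_lit 4) (nat_lit 413) (nat_lit 306)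 (nat_lit 301)) (XT.nd (nat_lit 78) (nat_lit 228) (nat_lit 0) (XT.lf (nat_lit 0) (nat_lit 1395862238) (nat_lit 152) (nat_lit 6874133863) (nat_lit 152) (nat_lit 4163629242) (nat_lit 161) (nat_lit 4) (nat_lit 163) (nat_lit 5) (nat_lit 163) (nat_lit 4) (nat_lit 414) (nat_lit 306) (nat_lit 300)) (XT.lf (nat_lit 0) (nat_lit 587131836) (nat_lit 152) (nat_lit 1237729606) (nat_lit 228) (nat_lit 10787544571) (nat_lit 158) (nat_lit 5) (nat_lit 160) (nat_lit 5) (nat_lit 161) (nat_lit 4) (nat_lit 415) (nat_lit 306) (nat_lit 299)))) (XT.nd (nat_lit 78) (nat_lit 380) (nat_lit 0) (XT.lf (nat_lit 0) (nat_lit 7944557963) (nat_lit 228) (nat_lit 315159484) (nat_lit 0) (nat_lit 4534538856) (nat_lit 158) (nat_lit 5) (nat_lit 161) (nat_lit 4) (nat_lit 158) (nat_lit 4) (nat_lit 416) (nat_lit 306) (nat_lit 298)) (XT.nd (nat_lit 78) (nat_lit 152) (nat_lit 0) (XT.lf (nat_lit 0) (nat_lit 1249116803) (nat_lit 228) (nat_lit 1246621155)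 (nat_lit 76) (nat_lit 10485232676) (nat_lit 155) (nat_lit 5) (nat_lit 158) (nat_lit 5) (nat_lit 156) (nat_lit 4) (nat_lit 417) (nat_lit 306) (nat_lit 297)) (XT.lf (nat_lit 0) (nat_lit 7457863958) (nat_lit 228) (nat_lit 2278485182) (nat_lit 0) (nat_lit 3434763501) (nat_lit 153) (nat_lit 5) (nat_lit 156) (nat_lit 4) (nat_lit 153) (nat_lit 4) (nat_lit 418) (nat_lit 306) (nat_lit 296))))))))
noncomputable def xc5 : XT := (XT.nd (nat_lit 52338) (nat_lit 0) (nat_lit 760) (XT.nd (nat_lit 858) (nat_lit 1216) (nat_lit 0) (XT.nd (nat_lit 390) (nat_lit 760) (nat_lit 0) (XT.nd (nat_lit 156) (nat_lit 456) (nat_lit 0) (XT.nd (nat_lit 78) (nat_lit 76) (nat_lit 0) (XT.lf (nat_lit 0) (nat_lit 493159312) (nat_lit 228) (nat_lit 3362702675) (nat_lit 76) (nat_lit 9510454994) (nat_lit 150) (nat_lit 5) (nat_lit 153) (nat_lit 5) (nat_lit 151) (nat_lit 4) (nat_lit 419) (nat_lit 306) (nat_lit 295)) (XT.lf (nat_lit 0) (nat_lit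 6786005115) (nat_lit 152) (nat_lit 4551089722) (nat_lit 0) (nat_lit 2228133324) (nat_lit 149) (nat_lit 5) (nat_lit 151) (nat_lit 4) (nat_lit 149) (nat_lit 4) (nat_lit 420) (nat_lit 306) (nat_lit 294))) (XT.nd (nat_lit 78) (nat_lit 304) (nat_lit 0) (XT.lf (nat_lit 0) (nat_lit 7961490762) (nat_lit 152) (nat_lit 5338657700) (nat_lit 152) (nat_lit 468982849) (nat_lit 147) (nat_lit 4) (nat_lit 149) (nat_lit 5) (nat_lit 149) (nat_lit 4) (nat_lit 421) (nat_lit 306) (nat_lit 293)) (XT.nd (nat_lit 78) (nat_lit 152) (nat_lit 0) (XT.lf (nat_lit 0) (nat_lit 5917350547) (nat_lit 152) (nat_lit 7164321406) (nat_lit 0) (nat_lit 895606597) (nat_lit 145) (nat_lit 5) (nat_lit 147) (nat_lit 4) (nat_lit 145) (nat_lit 4) (nat_lit 422) (nat_lit 306) (nat_lit 292)) (XT.lf (nat_lit 0) (nat_lit 5573985091) (nat_lit 152) (nat_lit 6961571240) (nat_lit 152) (nat_lit 1654483319) (nat_lit 143) (nat_lit 4) (nat_lit 145) (nat_lit 5)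 (nat_lit 145) (nat_lit 4) (nat_lit 423) (nat_lit 306) (nat_lit 291))))) (XT.nd (nat_lit 234) (nat_lit 304) (nat_lit 0) (XT.nd (nat_lit 78) (nat_lit 304) (nat_lit 0) (XT.lf (nat_lit 0) (nat_lit 4250824082) (nat_lit 76) (nat_lit 593976401) (nat_lit 152) (nat_lit 9563013592) (nat_lit 141) (nat_lit 5) (nat_lit 142) (nat_lit 5) (nat_lit 143) (nat_lit 4) (nat_lit 424) (nat_lit 306) (nat_lit 290)) (XT.nd (nat_lit 78) (nat_lit 152) (nat_lit 0) (XT.lf (nat_lit 0) (nat_lit 2812623363) (nat_lit 152) (nat_lit 8749955307) (nat_lit 152) (nat_lit 3067348551) (nat_lit 139) (nat_lit 4) (nat_lit 141) (nat_lit 5) (nat_lit 141) (nat_lit 4) (nat_lit 425) (nat_lit 306) (nat_lit 289)) (XT.lf (nat_lit 0) (nat_lit 1288674805) (nat_lit 76) (nat_lit 2270342920) (nat_lit 152) (nat_lit 11298445208) (nat_lit 137) (nat_lit 5) (nat_lit 138) (nat_lit 5) (nat_lit 139) (nat_lit 4) (nat_lit 426) (nat_lit 306) (nat_lit 288)))) (XT.nd (nat_lit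 78) (nat_lit 304) (nat_lit 0) (XT.lf (nat_lit 0) (nat_lit 10370343614) (nat_lit 152) (nat_lit 350997050) (nat_lit 0) (nat_lit 4368138379) (nat_lit 137) (nat_lit 5) (nat_lit 139) (nat_lit 4) (nat_lit 137) (nat_lit 4) (nat_lit 427) (nat_lit 306) (nat_lit 287)) (XT.nd (nat_lit 78) (nat_lit 76) (nat_lit 0) (XT.lf (nat_lit 0) (nat_lit 2056317516) (nat_lit 228) (nat_lit 2059891437) (nat_lit 76) (nat_lit 11210485905) (nat_lit 134) (nat_lit 5) (nat_lit 137) (nat_lit 5) (nat_lit 135) (nat_lit 4) (nat_lit 428) (nat_lit 306) (nat_lit 286)) (XT.lf (nat_lit 0) (nat_lit 8971144409) (nat_lit 152) (nat_lit 3897737077) (nat_lit 0) (nat_lit 2699815128) (nat_lit 133) (nat_lit 5) (nat_lit 135) (nat_lit 4) (nat_lit 133) (nat_lit 4) (nat_lit 429) (nat_lit 306) (nat_lit 285)))))) (XT.nd (nat_lit 468) (nat_lit 380) (nat_lit 0) (XT.nd (nat_lit 234) (nat_lit 380) (nat_lit 0) (XT.nd (nat_lit 78) (nat_lit 228) (nat_lit 0) (XT.lf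 (nat_lit 0) (nat_lit 316953316) (nat_lit 228) (nat_lit 5840236759) (nat_lit 76) (nat_lit 9659282788) (nat_lit 130) (nat_lit 5) (nat_lit 133) (nat_lit 5) (nat_lit 131) (nat_lit 4) (nat_lit 430) (nat_lit 306) (nat_lit 284)) (XT.nd (nat_lit 78) (nat_lit 152) (nat_lit 0) (XT.lf (nat_lit 0) (nat_lit 7321389343) (nat_lit 152) (nat_lit 7921433336) (nat_lit 0) (nat_lit 826447064) (nat_lit 129) (nat_lit 5) (nat_lit 131) (nat_lit 4) (nat_lit 129) (nat_lit 4) (nat_lit 431) (nat_lit 306) (nat_lit 283)) (XT.lf (nat_lit 0) (nat_lit 6193371332) (nat_lit 152) (nat_lit 8411726329) (nat_lit 152) (nat_lit 1722478691) (nat_lit 127) (nat_lit 4) (nat_lit 129) (nat_lit 5) (nat_lit 129) (nat_lit 4) (nat_lit 432) (nat_lit 306) (nat_lit 282)))) (XT.nd (nat_lit 78) (nat_lit 228) (nat_lit 0) (XT.lf (nat_lit 0) (nat_lit 4115850667) (nat_lit 76) (nat_lit 1299786910) (nat_lit 152) (nat_lit 11176118224) (nat_lit 125) (nat_lit 5) (nat_lit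 126) (nat_lit 5) (nat_lit 127) (nat_lit 4) (nat_lit 433) (nat_lit 306) (nat_lit 281)) (XT.nd (nat_lit 78) (nat_lit 76) (nat_lit 0) (XT.lf (nat_lit 0) (nat_lit 1887544680) (nat_lit 152) (nat_lit 10914561502) (nat_lit 152) (nat_lit 4059177956) (nat_lit 123) (nat_lit 4) (nat_lit 125) (nat_lit 5) (nat_lit 125) (nat_lit 4) (nat_lit 434) (nat_lit 306) (nat_lit 280)) (XT.lf (nat_lit 0) (nat_lit 3237054058) (nat_lit 228) (nat_lit 456801600) (nat_lit 76) (nat_lit 13443210768) (nat_lit 122) (nat_lit 5) (nat_lit 125) (nat_lit 5) (nat_lit 123) (nat_lit 4) (nat_lit 435) (nat_lit 306) (nat_lit 279))))) (XT.nd (nat_lit 50778) (nat_lit 0) (nat_lit 4484) (XT.nd (nat_lit 78) (nat_lit 304) (nat_lit 0) (XT.lf (nat_lit 0) (nat_lit 10739811634) (nat_lit 152) (nat_lit 2924265868) (nat_lit 0) (nat_lit 3753762265) (nat_lit 121) (nat_lit 5) (nat_lit 123) (nat_lit 4) (nat_lit 121) (nat_lit 4) (nat_lit 436) (nat_lit 306) (nat_lit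 278)) (XT.nd (nat_lit 78) (nat_lit 76) (nat_lit 0) (XT.lf (nat_lit 0) (nat_lit 797605649) (nat_lit 228) (nat_lit 5524897937) (nat_lit 76) (nat_lit 11382758404) (nat_lit 118) (nat_lit 5) (nat_lit 121) (nat_lit 5) (nat_lit 119) (nat_lit 4) (nat_lit 437) (nat_lit 306) (nat_lit 277)) (XT.lf (nat_lit 0) (nat_lit 8392316194) (nat_lit 152) (nat_lit 8298697559) (nat_lit 0) (nat_lit 1307438669) (nat_lit 117) (nat_lit 5) (nat_lit 119) (nat_lit 4) (nat_lit 117) (nat_lit 4) (nat_lit 438) (nat_lit 306) (nat_lit 276)))) (XT.nd (nat_lit 78) (nat_lit 456) (nat_lit 0) (XT.lf (nat_lit 0) (nat_lit 3037023870) (nat_lit 228) (nat_lit 1267676938) (nat_lit 228) (nat_lit 1267676938) (nat_lit 182) (nat_lit 4) (nat_lit 185) (nat_lit 5) (nat_lit 185) (nat_lit 4) (nat_lit 406) (nat_lit 307) (nat_lit 307)) (XT.nd (nat_lit 78) (nat_lit 228) (nat_lit 0) (XT.lf (nat_lit 0) (nat_lit 3056104309) (nat_lit 228) (nat_lit 5728999818) (nat_lit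 0) (nat_lit 2509355756) (nat_lit 179) (nat_lit 5) (nat_lit 182) (nat_lit 4) (nat_lit 179) (nat_lit 4) (nat_lit 407) (nat_lit 307) (nat_lit 306)) (XT.lf (nat_lit 0) (nat_lit 5011538993) (nat_lit 228) (nat_lit 3756906404) (nat_lit 228) (nat_lit 2679334013) (nat_lit 176) (nat_lit 4) (nat_lit 179) (nat_lit 5) (nat_lit 179) (nat_lit 4) (nat_lit 408) (nat_lit 307) (nat_lit 305))))))) (XT.nd (nat_lit 936) (nat_lit 1672) (nat_lit 0) (XT.nd (nat_lit 468) (nat_lit 912) (nat_lit 0) (XT.nd (nat_lit 234) (nat_lit 532) (nat_lit 0) (XT.nd (nat_lit 78) (nat_lit 380) (nat_lit 0) (XT.lf (nat_lit 0) (nat_lit 2981517375) (nat_lit 228) (nat_lit 7188489208) (nat_lit 0) (nat_lit 1434978210) (nat_lit 173) (nat_lit 5) (nat_lit 176) (nat_lit 4) (nat_lit 173) (nat_lit 4) (nat_lit 409) (nat_lit 307) (nat_lit 304)) (XT.nd (nat_lit 78) (nat_lit 228) (nat_lit 0) (XT.lf (nat_lit 0) (nat_lit 3756747045) (nat_lit 152) (nat_lit 5020556396)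 (nat_lit 152) (nat_lit 2988238223) (nat_lit 171) (nat_lit 4) (nat_lit 173) (nat_lit 5) (nat_lit 173) (nat_lit 4) (nat_lit 410) (nat_lit 307) (nat_lit 303)) (XT.lf (nat_lit 0) (nat_lit 2747284370) (nat_lit 228) (nat_lit 8866966526) (nat_lit 0) (nat_lit 316266625) (nat_lit 168) (nat_lit 5) (nat_lit 171) (nat_lit 4) (nat_lit 168) (nat_lit 4) (nat_lit 411) (nat_lit 307) (nat_lit 302)))) (XT.nd (nat_lit 78) (nat_lit 380) (nat_lit 0) (XT.lf (nat_lit 0) (nat_lit 2283879706) (nat_lit 152) (nat_lit 6345112155) (nat_lit 152) (nat_lit 3469537802) (nat_lit 166) (nat_lit 4) (nat_lit 168) (nat_lit 5) (nat_lit 168) (nat_lit 4) (nat_lit 412) (nat_lit 307) (nat_lit 301)) (XT.nd (nat_lit 78) (nat_lit 152) (nat_lit 0) (XT.lf (nat_lit 0) (nat_lit 1471655811) (nat_lit 152) (nat_lit 882451833) (nat_lit 228) (nat_lit 9917207656) (nat_lit 163) (nat_lit 5) (nat_lit 165) (nat_lit 5) (nat_lit 166) (nat_lit 4) (nat_lit 413) (nat_lit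 307) (nat_lit 300)) (XT.lf (nat_lit 0) (nat_lit 565965552) (nat_lit 152) (nat_lit 7749497808) (nat_lit 152) (nat_lit 4131808537) (nat_lit 161) (nat_lit 4) (nat_lit 163) (nat_lit 5) (nat_lit 163) (nat_lit 4) (nat_lit 414) (nat_lit 307) (nat_lit 299))))) (XT.nd (nat_lit 234) (nat_lit 456) (nat_lit 0) (XT.nd (nat_lit 78) (nat_lit 380) (nat_lit 0) (XT.lf (nat_lit 0) (nat_lit 1792210374) (nat_lit 228) (nat_lit 374484997) (nat_lit 76) (nat_lit 10461263544) (nat_lit 160) (nat_lit 5) (nat_lit 163) (nat_lit 5) (nat_lit 161) (nat_lit 4) (nat_lit 415) (nat_lit 307) (nat_lit 298)) (XT.nd (nat_lit 78) (nat_lit 228) (nat_lit 0) (XT.lf (nat_lit 0) (nat_lit 7841286861) (nat_lit 228) (nat_lit 1397461359) (nat_lit 0) (nat_lit 3573179586) (nat_lit 158) (nat_lit 5) (nat_lit 161) (nat_lit 4) (nat_lit 158) (nat_lit 4) (nat_lit 416) (nat_lit 307) (nat_lit 297)) (XT.lf (nat_lit 0) (nat_lit 1061943255) (nat_lit 228) (nat_lit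 2473827668) (nat_lit 76) (nat_lit 9464963820) (nat_lit 155) (nat_lit 5) (nat_lit 158) (nat_lit 5) (nat_lit 156) (nat_lit 4) (nat_lit 417) (nat_lit 307) (nat_lit 296)))) (XT.nd (nat_lit 78) (nat_lit 304) (nat_lit 0) (XT.lf (nat_lit 0) (nat_lit 7190872751) (nat_lit 228) (nat_lit 3646971963) (nat_lit 0) (nat_lit 2355426567) (nat_lit 153) (nat_lit 5) (nat_lit 156) (nat_lit 4) (nat_lit 153) (nat_lit 4) (nat_lit 418) (nat_lit 307) (nat_lit 295)) (XT.nd (nat_lit 78) (nat_lit 76) (nat_lit 0) (XT.lf (nat_lit 0) (nat_lit 138531034) (nat_lit 228) (nat_lit 4885020050) (nat_lit 76) (nat_lit 8367141545) (nat_lit 150) (nat_lit 5) (nat_lit 153) (nat_lit 5) (nat_lit 151) (nat_lit 4) (nat_lit 419) (nat_lit 307) (nat_lit 294)) (XT.lf (nat_lit 0) (nat_lit 6347696442) (nat_lit 152) (nat_lit 6224289492) (nat_lit 0) (nat_lit 1020128285) (nat_lit 149) (nat_lit 5) (nat_lit 151) (nat_lit 4) (nat_lit 149) (nat_lit 4) (nat_lit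 420) (nat_lit 307) (nat_lit 293)))))) (XT.nd (nat_lit 468) (nat_lit 836) (nat_lit 0) (XT.nd (nat_lit 234) (nat_lit 380) (nat_lit 0) (XT.nd (nat_lit 78) (nat_lit 304) (nat_lit 0) (XT.lf (nat_lit 0) (nat_lit 6148907152) (nat_lit 152) (nat_lit 6639796932) (nat_lit 152) (nat_lit 1009507357) (nat_lit 147) (nat_lit 4) (nat_lit 149) (nat_lit 5) (nat_lit 149) (nat_lit 4) (nat_lit 421) (nat_lit 307) (nat_lit 292)) (XT.nd (nat_lit 78) (nat_lit 152) (nat_lit 0) (XT.lf (nat_lit 0) (nat_lit 4842810896) (nat_lit 76) (nat_lit 461132334) (nat_lit 152) (nat_lit 8705074237) (nat_lit 145) (nat_lit 5) (nat_lit 146) (nat_lit 5) (nat_lit 147) (nat_lit 4) (nat_lit 422) (nat_lit 307) (nat_lit 291)) (XT.lf (nat_lit 0) (nat_lit 3430436105) (nat_lit 152) (nat_lit 8411217418) (nat_lit 152) (nat_lit 2382539910) (nat_lit 143) (nat_lit 4) (nat_lit 145) (nat_lit 5) (nat_lit 145) (nat_lit 4) (nat_lit 423) (nat_lit 307) (nat_lit 290))))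 (XT.nd (nat_lit 78) (nat_lit 228) (nat_lit 0) (XT.lf (nat_lit 0) (nat_lit 1930493802) (nat_lit 76) (nat_lit 2122774852) (nat_lit 152) (nat_lit 10391239627) (nat_lit 141) (nat_lit 5) (nat_lit 142) (nat_lit 5) (nat_lit 143) (nat_lit 4) (nat_lit 424) (nat_lit 307) (nat_lit 289)) (XT.nd (nat_lit 78) (nat_lit 76) (nat_lit 0) (XT.lf (nat_lit 0) (nat_lit 317097013) (nat_lit 152) (nat_lit 10360040612) (nat_lit 152) (nat_lit 3992301078) (nat_lit 139) (nat_lit 4) (nat_lit 141) (nat_lit 5) (nat_lit 141) (nat_lit 4) (nat_lit 425) (nat_lit 307) (nat_lit 288)) (XT.lf (nat_lit 0) (nat_lit 2584574990) (nat_lit 228) (nat_lit 1367192518) (nat_lit 76) (nat_lit 10947499824) (nat_lit 138) (nat_lit 5) (nat_lit 141) (nat_lit 5) (nat_lit 139) (nat_lit 4) (nat_lit 426) (nat_lit 307) (nat_lit 287))))) (XT.nd (nat_lit 234) (nat_lit 456) (nat_lit 0) (XT.nd (nat_lit 78) (nat_lit 304) (nat_lit 0) (XT.lf (nat_lit 0) (nat_lit 9311189500)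 (nat_lit 152) (nat_lit 3164699016) (nat_lit 0) (nat_lit 2657936266) (nat_lit 137) (nat_lit 5) (nat_lit 139) (nat_lit 4) (nat_lit 137) (nat_lit 4) (nat_lit 427) (nat_lit 307) (nat_lit 286)) (XT.nd (nat_lit 78) (nat_lit 76) (nat_lit 0) (XT.lf (nat_lit 0) (nat_lit 891547453) (nat_lit 228) (nat_lit 5068665069) (nat_lit 76) (nat_lit 9413630406) (nat_lit 134) (nat_lit 5) (nat_lit 137) (nat_lit 5) (nat_lit 135) (nat_lit 4) (nat_lit 428) (nat_lit 307) (nat_lit 285)) (XT.lf (nat_lit 0) (nat_lit 7704041811) (nat_lit 152) (nat_lit 7101315301) (nat_lit 0) (nat_lit 813557548) (nat_lit 133) (nat_lit 5) (nat_lit 135) (nat_lit 4) (nat_lit 133) (nat_lit 4) (nat_lit 429) (nat_lit 307) (nat_lit 284)))) (XT.nd (nat_lit 78) (nat_lit 304) (nat_lit 0) (XT.lf (nat_lit 0) (nat_lit 6608220677) (nat_lit 152) (nat_lit 8178877535) (nat_lit 152) (nat_lit 1082254716) (nat_lit 131) (nat_lit 4) (nat_lit 133) (nat_lit 5) (nat_lit 133)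 (nat_lit 4) (nat_lit 430) (nat_lit 307) (nat_lit 283)) (XT.nd (nat_lit 78) (nat_lit 152) (nat_lit 0) (XT.lf (nat_lit 0) (nat_lit 4573873270) (nat_lit 76) (nat_lit 1273728014) (nat_lit 152) (nat_lit 10277731584) (nat_lit 129) (nat_lit 5) (nat_lit 130) (nat_lit 5) (nat_lit 131) (nat_lit 4) (nat_lit 431) (nat_lit 307) (nat_lit 282)) (XT.lf (nat_lit 0) (nat_lit 2399530995) (nat_lit 152) (nat_lit 10630018840) (nat_lit 152) (nat_lit 3357142435) (nat_lit 127) (nat_lit 4) (nat_lit 129) (nat_lit 5) (nat_lit 129) (nat_lit 4) (nat_lit 432) (nat_lit 307) (nat_lit 281))))))))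
noncomputable def xc6 : XT := (XT.nd (nat_lit 52182) (nat_lit 0) (nat_lit 76) (XT.nd (nat_lit 51246) (nat_lit 0) (nat_lit 2432) (XT.nd (nat_lit 390) (nat_lit 152) (nat_lit 0) (XT.nd (nat_lit 156) (nat_lit 456) (nat_lit 0) (XT.nd (nat_lit 78) (nat_lit 0) (nat_lit 0) (XT.lf (nat_lit 0) (nat_lit 98126695) (nat_lit 76) (nat_lit 3623131696) (nat_lit 152) (nat_lit 12932833139) (nat_lit 125) (nat_lit 5) (nat_lit 126) (nat_lit 5) (nat_lit 127) (nat_lit 4) (nat_lit 433) (nat_lit 307) (nat_lit 280)) (XT.lf (nat_lit 0) (nat_lit 11014360647) (nat_lit 152) (nat_lit 2309199338) (nat_lit 0) (nat_lit 3602860872) (nat_lit 125) (nat_lit 5) (nat_lit 127) (nat_lit 4) (nat_lit 125) (nat_lit 4) (nat_lit 434) (nat_lit 307) (nat_lit 279))) (XT.nd (nat_lit 78) (nat_lit 228) (nat_lit 0) (XT.lf (nat_lit 0) (nat_lit 1344625932) (nat_lit 228) (nat_lit 4849518640) (nat_lit 76) (nat_lit 11010863973) (nat_lit 122) (nat_lit 5) (nat_lit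 125) (nat_lit 5) (nat_lit 123) (nat_lit 4) (nat_lit 435) (nat_lit 307) (nat_lit 278)) (XT.nd (nat_lit 78) (nat_lit 152) (nat_lit 0) (XT.lf (nat_lit 0) (nat_lit 8727113297) (nat_lit 152) (nat_lit 7551509964) (nat_lit 0) (nat_lit 1210766731) (nat_lit 121) (nat_lit 5) (nat_lit 123) (nat_lit 4) (nat_lit 121) (nat_lit 4) (nat_lit 436) (nat_lit 307) (nat_lit 277)) (XT.lf (nat_lit 0) (nat_lit 7367756234) (nat_lit 152) (nat_lit 9040974989) (nat_lit 152) (nat_lit 1371241979) (nat_lit 119) (nat_lit 4) (nat_lit 121) (nat_lit 5) (nat_lit 121) (nat_lit 4) (nat_lit 437) (nat_lit 307) (nat_lit 276))))) (XT.nd (nat_lit 50622) (nat_lit 0) (nat_lit 4484) (XT.nd (nat_lit 50466) (nat_lit 0) (nat_lit 5168) (XT.lf (nat_lit 0) (nat_lit 4640442856) (nat_lit 76) (nat_lit 1497042239) (nat_lit 152) (nat_lit 11939456217) (nat_lit 117) (nat_lit 5) (nat_lit 118) (nat_lit 5) (nat_lit 119) (nat_lit 4) (nat_lit 438) (nat_lit 307) (nat_lit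 275)) (XT.nd (nat_lit 78) (nat_lit 228) (nat_lit 0) (XT.lf (nat_lit 0) (nat_lit 3534469726) (nat_lit 228) (nat_lit 946335443) (nat_lit 228) (nat_lit 946335443) (nat_lit 188) (nat_lit 4) (nat_lit 191) (nat_lit 5) (nat_lit 191) (nat_lit 4) (nat_lit 404) (nat_lit 308) (nat_lit 308)) (XT.lf (nat_lit 0) (nat_lit 3557806135) (nat_lit 228) (nat_lit 4462905216) (nat_lit 0) (nat_lit 2977760595) (nat_lit 185) (nat_lit 5) (nat_lit 188) (nat_lit 4) (nat_lit 185) (nat_lit 4) (nat_lit 405) (nat_lit 308) (nat_lit 307)))) (XT.nd (nat_lit 78) (nat_lit 456) (nat_lit 0) (XT.lf (nat_lit 0) (nat_lit 5970593686) (nat_lit 228) (nat_lit 3159568453) (nat_lit 228) (nat_lit 2016371904) (nat_lit 182) (nat_lit 4) (nat_lit 185) (nat_lit 5) (nat_lit 185) (nat_lit 4) (nat_lit 406) (nat_lit 308) (nat_lit 306)) (XT.nd (nat_lit 78) (nat_lit 228) (nat_lit 0) (XT.lf (nat_lit 0) (nat_lit 3498364907) (nat_lit 228) (nat_lit 5942080180) (nat_lit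 0) (nat_lit 1857641507) (nat_lit 179) (nat_lit 5) (nat_lit 182) (nat_lit 4) (nat_lit 179) (nat_lit 4) (nat_lit 407) (nat_lit 308) (nat_lit 305)) (XT.lf (nat_lit 0) (nat_lit 4690281293) (nat_lit 228) (nat_lit 4459519172) (nat_lit 228) (nat_lit 2303432822) (nat_lit 176) (nat_lit 4) (nat_lit 179) (nat_lit 5) (nat_lit 179) (nat_lit 4) (nat_lit 408) (nat_lit 308) (nat_lit 304)))))) (XT.nd (nat_lit 468) (nat_lit 1064) (nat_lit 0) (XT.nd (nat_lit 234) (nat_lit 380) (nat_lit 0) (XT.nd (nat_lit 78) (nat_lit 380) (nat_lit 0) (XT.lf (nat_lit 0) (nat_lit 3280988730) (nat_lit 228) (nat_lit 7629492376) (nat_lit 0) (nat_lit 701922004) (nat_lit 173) (nat_lit 5) (nat_lit 176) (nat_lit 4) (nat_lit 173) (nat_lit 4) (nat_lit 409) (nat_lit 308) (nat_lit 303)) (XT.nd (nat_lit 78) (nat_lit 228) (nat_lit 0) (XT.lf (nat_lit 0) (nat_lit 3202588813) (nat_lit 152) (nat_lit 5811474668) (nat_lit 152) (nat_lit 2760777838) (nat_lit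 171) (nat_lit 4) (nat_lit 173) (nat_lit 5) (nat_lit 173) (nat_lit 4) (nat_lit 410) (nat_lit 308) (nat_lit 302)) (XT.lf (nat_lit 0) (nat_lit 2385325909) (nat_lit 152) (nat_lit 518081009) (nat_lit 228) (nat_lit 9038351642) (nat_lit 168) (nat_lit 5) (nat_lit 170) (nat_lit 5) (nat_lit 171) (nat_lit 4) (nat_lit 411) (nat_lit 308) (nat_lit 301)))) (XT.nd (nat_lit 78) (nat_lit 228) (nat_lit 0) (XT.lf (nat_lit 0) (nat_lit 1480988702) (nat_lit 152) (nat_lit 7234439565) (nat_lit 152) (nat_lit 3396433018) (nat_lit 166) (nat_lit 4) (nat_lit 168) (nat_lit 5) (nat_lit 168) (nat_lit 4) (nat_lit 412) (nat_lit 308) (nat_lit 300)) (XT.nd (nat_lit 78) (nat_lit 0) (nat_lit 0) (XT.lf (nat_lit 0) (nat_lit 533562719) (nat_lit 152) (nat_lit 1826341963) (nat_lit 228) (nat_lit 9926697596) (nat_lit 163) (nat_lit 5) (nat_lit 165) (nat_lit 5) (nat_lit 166) (nat_lit 4) (nat_lit 413) (nat_lit 308) (nat_lit 299)) (XT.lf (nat_lit 0)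 (nat_lit 8250121219) (nat_lit 228) (nat_lit 492485620) (nat_lit 0) (nat_lit 3722086211) (nat_lit 163) (nat_lit 5) (nat_lit 166) (nat_lit 4) (nat_lit 163) (nat_lit 4) (nat_lit 414) (nat_lit 308) (nat_lit 298))))) (XT.nd (nat_lit 234) (nat_lit 456) (nat_lit 0) (XT.nd (nat_lit 78) (nat_lit 380) (nat_lit 0) (XT.lf (nat_lit 0) (nat_lit 1649674378) (nat_lit 228) (nat_lit 1562674453) (nat_lit 76) (nat_lit 9434896735) (nat_lit 160) (nat_lit 5) (nat_lit 163) (nat_lit 5) (nat_lit 161) (nat_lit 4) (nat_lit 415) (nat_lit 308) (nat_lit 297)) (XT.nd (nat_lit 78) (nat_lit 228) (nat_lit 0) (XT.lf (nat_lit 0) (nat_lit 7620641487) (nat_lit 228) (nat_lit 2722199620) (nat_lit 0) (nat_lit 2490716631) (nat_lit 158) (nat_lit 5) (nat_lit 161) (nat_lit 4) (nat_lit 158) (nat_lit 4) (nat_lit 416) (nat_lit 308) (nat_lit 296)) (XT.lf (nat_lit 0) (nat_lit 755089967) (nat_lit 228) (nat_lit 3948029312) (nat_lit 76) (nat_lit 8321394433)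 (nat_lit 155) (nat_lit 5) (nat_lit 158) (nat_lit 5) (nat_lit 156) (nat_lit 4) (nat_lit 417) (nat_lit 308) (nat_lit 295)))) (XT.nd (nat_lit 78) (nat_lit 304) (nat_lit 0) (XT.lf (nat_lit 0) (nat_lit 6802212172) (nat_lit 228) (nat_lit 5267097181) (nat_lit 0) (nat_lit 1150195114) (nat_lit 153) (nat_lit 5) (nat_lit 156) (nat_lit 4) (nat_lit 153) (nat_lit 4) (nat_lit 418) (nat_lit 308) (nat_lit 294)) (XT.nd (nat_lit 78) (nat_lit 152) (nat_lit 0) (XT.lf (nat_lit 0) (nat_lit 6751983723) (nat_lit 152) (nat_lit 6320146976) (nat_lit 152) (nat_lit 346972766) (nat_lit 151) (nat_lit 4) (nat_lit 153) (nat_lit 5) (nat_lit 153) (nat_lit 4) (nat_lit 419) (nat_lit 308) (nat_lit 293)) (XT.lf (nat_lit 0) (nat_lit 5461147428) (nat_lit 76) (nat_lit 325120895) (nat_lit 152) (nat_lit 7836837644) (nat_lit 149) (nat_lit 5) (nat_lit 150) (nat_lit 5) (nat_lit 151) (nat_lit 4) (nat_lit 420) (nat_lit 308) (nat_lit 292))))))) (XT.nd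 (nat_lit 936) (nat_lit 836) (nat_lit 0) (XT.nd (nat_lit 468) (nat_lit 684) (nat_lit 0) (XT.nd (nat_lit 234) (nat_lit 380) (nat_lit 0) (XT.nd (nat_lit 78) (nat_lit 304) (nat_lit 0) (XT.lf (nat_lit 0) (nat_lit 4072868090) (nat_lit 152) (nat_lit 8077237094) (nat_lit 152) (nat_lit 1681413126) (nat_lit 147) (nat_lit 4) (nat_lit 149) (nat_lit 5) (nat_lit 149) (nat_lit 4) (nat_lit 421) (nat_lit 308) (nat_lit 291)) (XT.nd (nat_lit 78) (nat_lit 152) (nat_lit 0) (XT.lf (nat_lit 0) (nat_lit 2594991653) (nat_lit 76) (nat_lit 1974545091) (nat_lit 152) (nat_lit 9475249718) (nat_lit 145) (nat_lit 5) (nat_lit 146) (nat_lit 5) (nat_lit 147) (nat_lit 4) (nat_lit 422) (nat_lit 308) (nat_lit 290)) (XT.lf (nat_lit 0) (nat_lit 1012991455) (nat_lit 152) (nat_lit 10002627345) (nat_lit 152) (nat_lit 3247092473) (nat_lit 143) (nat_lit 4) (nat_lit 145) (nat_lit 5) (nat_lit 145) (nat_lit 4) (nat_lit 423) (nat_lit 308) (nat_lit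 289)))) (XT.nd (nat_lit 78) (nat_lit 304) (nat_lit 0) (XT.lf (nat_lit 0) (nat_lit 3133264672) (nat_lit 228) (nat_lit 656137739) (nat_lit 76) (nat_lit 10696042687) (nat_lit 142) (nat_lit 5) (nat_lit 145) (nat_lit 5) (nat_lit 143) (nat_lit 4) (nat_lit 424) (nat_lit 308) (nat_lit 288)) (XT.nd (nat_lit 78) (nat_lit 228) (nat_lit 0) (XT.lf (nat_lit 0) (nat_lit 9677952006) (nat_lit 152) (nat_lit 2415283314) (nat_lit 0) (nat_lit 2619515650) (nat_lit 141) (nat_lit 5) (nat_lit 143) (nat_lit 4) (nat_lit 141) (nat_lit 4) (nat_lit 425) (nat_lit 308) (nat_lit 287)) (XT.lf (nat_lit 0) (nat_lit 1484960828) (nat_lit 228) (nat_lit 4282936957) (nat_lit 76) (nat_lit 9177306223) (nat_lit 138) (nat_lit 5) (nat_lit 141) (nat_lit 5) (nat_lit 139) (nat_lit 4) (nat_lit 426) (nat_lit 308) (nat_lit 286))))) (XT.nd (nat_lit 234) (nat_lit 304) (nat_lit 0) (XT.nd (nat_lit 78) (nat_lit 304) (nat_lit 0) (XT.lf (nat_lit 0) (nat_lit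 8111839178) (nat_lit 152) (nat_lit 6269189942) (nat_lit 0) (nat_lit 801724423) (nat_lit 137) (nat_lit 5) (nat_lit 139) (nat_lit 4) (nat_lit 137) (nat_lit 4) (nat_lit 427) (nat_lit 308) (nat_lit 285)) (XT.nd (nat_lit 78) (nat_lit 152) (nat_lit 0) (XT.lf (nat_lit 0) (nat_lit 7047237074) (nat_lit 152) (nat_lit 7953550859) (nat_lit 152) (nat_lit 424743711) (nat_lit 135) (nat_lit 4) (nat_lit 137) (nat_lit 5) (nat_lit 137) (nat_lit 4) (nat_lit 428) (nat_lit 308) (nat_lit 284)) (XT.lf (nat_lit 0) (nat_lit 5053749625) (nat_lit 76) (nat_lit 1249146672) (nat_lit 152) (nat_lit 9370623845) (nat_lit 133) (nat_lit 5) (nat_lit 134) (nat_lit 5) (nat_lit 135) (nat_lit 4) (nat_lit 429) (nat_lit 308) (nat_lit 283)))) (XT.nd (nat_lit 78) (nat_lit 152) (nat_lit 0) (XT.lf (nat_lit 0) (nat_lit 2931133156) (nat_lit 152) (nat_lit 10355795280) (nat_lit 152) (nat_lit 2640000703) (nat_lit 131) (nat_lit 4) (nat_lit 133) (nat_lit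 5) (nat_lit 133) (nat_lit 4) (nat_lit 430) (nat_lit 308) (nat_lit 282)) (XT.nd (nat_lit 78) (nat_lit 0) (nat_lit 0) (XT.lf (nat_lit 0) (nat_lit 679240882) (nat_lit 76) (nat_lit 3551961490) (nat_lit 152) (nat_lit 11954827431) (nat_lit 129) (nat_lit 5) (nat_lit 130) (nat_lit 5) (nat_lit 131) (nat_lit 4) (nat_lit 431) (nat_lit 308) (nat_lit 281)) (XT.lf (nat_lit 0) (nat_lit 11316683254) (nat_lit 152) (nat_lit 1679776839) (nat_lit 0) (nat_lit 3453823143) (nat_lit 129) (nat_lit 5) (nat_lit 131) (nat_lit 4) (nat_lit 129) (nat_lit 4) (nat_lit 432) (nat_lit 308) (nat_lit 280)))))) (XT.nd (nat_lit 50700) (nat_lit 0) (nat_lit 4636) (XT.nd (nat_lit 234) (nat_lit 380) (nat_lit 0) (XT.nd (nat_lit 78) (nat_lit 228) (nat_lit 0) (XT.lf (nat_lit 0) (nat_lit 1910441903) (nat_lit 228) (nat_lit 4162479975) (nat_lit 76) (nat_lit 10647343630) (nat_lit 126) (nat_lit 5) (nat_lit 129) (nat_lit 5) (nat_lit 127) (nat_lit 4) (nat_lit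 433) (nat_lit 308) (nat_lit 279)) (XT.nd (nat_lit 78) (nat_lit 152) (nat_lit 0) (XT.lf (nat_lit 0) (nat_lit 9087434348) (nat_lit 152) (nat_lit 6795301507) (nat_lit 0) (nat_lit 1113342276) (nat_lit 125) (nat_lit 5) (nat_lit 127) (nat_lit 4) (nat_lit 125) (nat_lit 4) (nat_lit 434) (nat_lit 308) (nat_lit 278)) (XT.lf (nat_lit 0) (nat_lit 7695447554) (nat_lit 152) (nat_lit 8859638422) (nat_lit 152) (nat_lit 722818672) (nat_lit 123) (nat_lit 4) (nat_lit 125) (nat_lit 5) (nat_lit 125) (nat_lit 4) (nat_lit 435) (nat_lit 308) (nat_lit 277)))) (XT.nd (nat_lit 78) (nat_lit 228) (nat_lit 0) (XT.lf (nat_lit 0) (nat_lit 5031775745) (nat_lit 76) (nat_lit 1533043729) (nat_lit 152) (nat_lit 11000943686) (nat_lit 121) (nat_lit 5) (nat_lit 122) (nat_lit 5) (nat_lit 123) (nat_lit 4) (nat_lit 436) (nat_lit 308) (nat_lit 276)) (XT.nd (nat_lit 78) (nat_lit 76) (nat_lit 0) (XT.lf (nat_lit 0) (nat_lit 2202772071) (nat_lit 152)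 (nat_lit 11929563834) (nat_lit 152) (nat_lit 3727433511) (nat_lit 119) (nat_lit 4) (nat_lit 121) (nat_lit 5) (nat_lit 121) (nat_lit 4) (nat_lit 437) (nat_lit 308) (nat_lit 275)) (XT.lf (nat_lit 0) (nat_lit 3732991562) (nat_lit 228) (nat_lit 768738886) (nat_lit 76) (nat_lit 13658514945) (nat_lit 118) (nat_lit 5) (nat_lit 121) (nat_lit 5) (nat_lit 119) (nat_lit 4) (nat_lit 438) (nat_lit 308) (nat_lit 274))))) (XT.nd (nat_lit 234) (nat_lit 684) (nat_lit 0) (XT.nd (nat_lit 78) (nat_lit 532) (nat_lit 0) (XT.lf (nat_lit 0) (nat_lit 4053108353) (nat_lit 228) (nat_lit 617032301) (nat_lit 228) (nat_lit 617032301) (nat_lit 195) (nat_lit 4) (nat_lit 198) (nat_lit 5) (nat_lit 198) (nat_lit 4) (nat_lit 402) (nat_lit 309) (nat_lit 309)) (XT.nd (nat_lit 78) (nat_lit 228) (nat_lit 0) (XT.lf (nat_lit 0) (nat_lit 4080869805) (nat_lit 304) (nat_lit 3166744017) (nat_lit 0) (nat_lit 3465499491) (nat_lit 191) (nat_lit 5)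 (nat_lit 195) (nat_lit 4) (nat_lit 191) (nat_lit 4) (nat_lit 403) (nat_lit 309) (nat_lit 308)) (XT.lf (nat_lit 0) (nat_lit 6969010578) (nat_lit 228) (nat_lit 2549914764) (nat_lit 228) (nat_lit 1337097545) (nat_lit 188) (nat_lit 4) (nat_lit 191) (nat_lit 5) (nat_lit 191) (nat_lit 4) (nat_lit 404) (nat_lit 309) (nat_lit 307)))) (XT.nd (nat_lit 78) (nat_lit 456) (nat_lit 0) (XT.lf (nat_lit 0) (nat_lit 4036923218) (nat_lit 228) (nat_lit 4668818862) (nat_lit 0) (nat_lit 2296279762) (nat_lit 185) (nat_lit 5) (nat_lit 188) (nat_lit 4) (nat_lit 185) (nat_lit 4) (nat_lit 405) (nat_lit 309) (nat_lit 306)) (XT.nd (nat_lit 78) (nat_lit 228) (nat_lit 0) (XT.lf (nat_lit 0) (nat_lit 5660141125) (nat_lit 228) (nat_lit 3889561066) (nat_lit 228) (nat_lit 1602169058) (nat_lit 182) (nat_lit 4) (nat_lit 185) (nat_lit 5) (nat_lit 185) (nat_lit 4) (nat_lit 406) (nat_lit 309) (nat_lit 305)) (XT.lf (nat_lit 0) (nat_lit 3836523993)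 (nat_lit 228) (nat_lit 6368427091) (nat_lit 0) (nat_lit 1100392103) (nat_lit 179) (nat_lit 5) (nat_lit 182) (nat_lit 4) (nat_lit 179) (nat_lit 4) (nat_lit 407) (nat_lit 309) (nat_lit 304))))))))
noncomputable def xc7 : XT := (XT.nd (nat_lit 1872) (nat_lit 912) (nat_lit 0) (XT.nd (nat_lit 936) (nat_lit 1596) (nat_lit 0) (XT.nd (nat_lit 468) (nat_lit 1064) (nat_lit 0) (XT.nd (nat_lit 234) (nat_lit 456) (nat_lit 0) (XT.nd (nat_lit 78) (nat_lit 380) (nat_lit 0) (XT.lf (nat_lit 0) (nat_lit 4154539902) (nat_lit 228) (nat_lit 5272136372) (nat_lit 228) (nat_lit 2035652105) (nat_lit 176) (nat_lit 4) (nat_lit 179) (nat_lit 5) (nat_lit 179) (nat_lit 4) (nat_lit 408) (nat_lit 309) (nat_lit 303)) (XT.nd (nat_lit 78) (nat_lit 152) (nat_lit 0) (XT.lf (nat_lit 0) (nat_lit 3330637169) (nat_lit 152) (nat_lit 143698025) (nat_lit 228) (nat_lit 8149162052) (nat_lit 173) (nat_lit 5) (nat_lit 175) (nat_lit 5) (nat_lit 176)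 (nat_lit 4) (nat_lit 409) (nat_lit 309) (nat_lit 302)) (XT.lf (nat_lit 0) (nat_lit 2426089505) (nat_lit 152) (nat_lit 6716761926) (nat_lit 152) (nat_lit 2645020780) (nat_lit 171) (nat_lit 4) (nat_lit 173) (nat_lit 5) (nat_lit 173) (nat_lit 4) (nat_lit 410) (nat_lit 309) (nat_lit 301)))) (XT.nd (nat_lit 78) (nat_lit 228) (nat_lit 0) (XT.lf (nat_lit 0) (nat_lit 1477474869) (nat_lit 152) (nat_lit 1475122481) (nat_lit 228) (nat_lit 9004087953) (nat_lit 168) (nat_lit 5) (nat_lit 170) (nat_lit 5) (nat_lit 171) (nat_lit 4) (nat_lit 411) (nat_lit 309) (nat_lit 300)) (XT.nd (nat_lit 78) (nat_lit 76) (nat_lit 0) (XT.lf (nat_lit 0) (nat_lit 447498127) (nat_lit 152) (nat_lit 8242658059) (nat_lit 152) (nat_lit 3438865719) (nat_lit 166) (nat_lit 4) (nat_lit 168) (nat_lit 5) (nat_lit 168) (nat_lit 4) (nat_lit 412) (nat_lit 309) (nat_lit 299)) (XT.lf (nat_lit 0) (nat_lit 2257963604) (nat_lit 228) (nat_lit 626958493)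 (nat_lit 76) (nat_lit 9420663129) (nat_lit 165) (nat_lit 5) (nat_lit 168) (nat_lit 5) (nat_lit 166) (nat_lit 4) (nat_lit 413) (nat_lit 309) (nat_lit 298))))) (XT.nd (nat_lit 234) (nat_lit 532) (nat_lit 0) (XT.nd (nat_lit 78) (nat_lit 380) (nat_lit 0) (XT.lf (nat_lit 0) (nat_lit 8076820676) (nat_lit 228) (nat_lit 1774512708) (nat_lit 0) (nat_lit 2634483396) (nat_lit 163) (nat_lit 5) (nat_lit 166) (nat_lit 4) (nat_lit 163) (nat_lit 4) (nat_lit 414) (nat_lit 309) (nat_lit 297)) (XT.nd (nat_lit 78) (nat_lit 152) (nat_lit 0) (XT.lf (nat_lit 0) (nat_lit 1391485037) (nat_lit 228) (nat_lit 2989931813) (nat_lit 76) (nat_lit 8289035285) (nat_lit 160) (nat_lit 5) (nat_lit 163) (nat_lit 5) (nat_lit 161) (nat_lit 4) (nat_lit 415) (nat_lit 309) (nat_lit 296)) (XT.lf (nat_lit 0) (nat_lit 7282429045) (nat_lit 228) (nat_lit 4290531806) (nat_lit 0) (nat_lit 1286204149) (nat_lit 158) (nat_lit 5) (nat_lit 161) (nat_lit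 4) (nat_lit 158) (nat_lit 4) (nat_lit 416) (nat_lit 309) (nat_lit 295)))) (XT.nd (nat_lit 78) (nat_lit 304) (nat_lit 0) (XT.lf (nat_lit 0) (nat_lit 328288814) (nat_lit 228) (nat_lit 5670514224) (nat_lit 76) (nat_lit 7053525280) (nat_lit 155) (nat_lit 5) (nat_lit 158) (nat_lit 5) (nat_lit 156) (nat_lit 4) (nat_lit 417) (nat_lit 309) (nat_lit 294)) (XT.nd (nat_lit 78) (nat_lit 152) (nat_lit 0) (XT.lf (nat_lit 0) (nat_lit 6107720964) (nat_lit 152) (nat_lit 185605808) (nat_lit 228) (nat_lit 6956454829) (nat_lit 153) (nat_lit 5) (nat_lit 155) (nat_lit 5) (nat_lit 156) (nat_lit 4) (nat_lit 418) (nat_lit 309) (nat_lit 293)) (XT.lf (nat_lit 0) (nat_lit 4741797434) (nat_lit 152) (nat_lit 7747564655) (nat_lit 152) (nat_lit 962235007) (nat_lit 151) (nat_lit 4) (nat_lit 153) (nat_lit 5) (nat_lit 153) (nat_lit 4) (nat_lit 419) (nat_lit 309) (nat_lit 292)))))) (XT.nd (nat_lit 468) (nat_lit 836) (nat_lit 0) (XT.nd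 (nat_lit 234) (nat_lit 304) (nat_lit 0) (XT.nd (nat_lit 78) (nat_lit 304) (nat_lit 0) (XT.lf (nat_lit 0) (nat_lit 3284027400) (nat_lit 76) (nat_lit 1825370858) (nat_lit 152) (nat_lit 8548587181) (nat_lit 149) (nat_lit 5) (nat_lit 150) (nat_lit 5) (nat_lit 151) (nat_lit 4) (nat_lit 420) (nat_lit 309) (nat_lit 291)) (XT.nd (nat_lit 78) (nat_lit 152) (nat_lit 0) (XT.lf (nat_lit 0) (nat_lit 1731559562) (nat_lit 152) (nat_lit 9652234204) (nat_lit 152) (nat_lit 2485287258) (nat_lit 147) (nat_lit 4) (nat_lit 149) (nat_lit 5) (nat_lit 149) (nat_lit 4) (nat_lit 421) (nat_lit 309) (nat_lit 290)) (XT.lf (nat_lit 0) (nat_lit 76579169) (nat_lit 76) (nat_lit 3628129744) (nat_lit 152) (nat_lit 10380171286) (nat_lit 145) (nat_lit 5) (nat_lit 146) (nat_lit 5) (nat_lit 147) (nat_lit 4) (nat_lit 422) (nat_lit 309) (nat_lit 289)))) (XT.nd (nat_lit 78) (nat_lit 304) (nat_lit 0) (XT.lf (nat_lit 0) (nat_lit 10072884007) (nat_lit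 152) (nat_lit 1647669337) (nat_lit 0) (nat_lit 2584588877) (nat_lit 145) (nat_lit 5) (nat_lit 147) (nat_lit 4) (nat_lit 145) (nat_lit 4) (nat_lit 423) (nat_lit 309) (nat_lit 288)) (XT.nd (nat_lit 78) (nat_lit 76) (nat_lit 0) (XT.lf (nat_lit 0) (nat_lit 2098810607) (nat_lit 228) (nat_lit 3481234017) (nat_lit 76) (nat_lit 8950170895) (nat_lit 142) (nat_lit 5) (nat_lit 145) (nat_lit 5) (nat_lit 143) (nat_lit 4) (nat_lit 424) (nat_lit 309) (nat_lit 287)) (XT.lf (nat_lit 0) (nat_lit 8546259137) (nat_lit 152) (nat_lit 5423221026) (nat_lit 0) (nat_lit 790958393) (nat_lit 141) (nat_lit 5) (nat_lit 143) (nat_lit 4) (nat_lit 141) (nat_lit 4) (nat_lit 425) (nat_lit 309) (nat_lit 286))))) (XT.nd (nat_lit 234) (nat_lit 380) (nat_lit 0) (XT.nd (nat_lit 78) (nat_lit 228) (nat_lit 0) (XT.lf (nat_lit 0) (nat_lit 246826880) (nat_lit 228) (nat_lit 7486252936) (nat_lit 76) (nat_lit 7262604908) (nat_lit 138) (nat_lit 5)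 (nat_lit 141) (nat_lit 5) (nat_lit 139) (nat_lit 4) (nat_lit 426) (nat_lit 309) (nat_lit 285)) (XT.nd (nat_lit 78) (nat_lit 152) (nat_lit 0) (XT.lf (nat_lit 0) (nat_lit 5556986544) (nat_lit 76) (nat_lit 1226043609) (nat_lit 152) (nat_lit 8452924360) (nat_lit 137) (nat_lit 5) (nat_lit 138) (nat_lit 5) (nat_lit 139) (nat_lit 4) (nat_lit 427) (nat_lit 309) (nat_lit 284)) (XT.lf (nat_lit 0) (nat_lit 3483882586) (nat_lit 152) (nat_lit 10091713982) (nat_lit 152) (nat_lit 1906027515) (nat_lit 135) (nat_lit 4) (nat_lit 137) (nat_lit 5) (nat_lit 137) (nat_lit 4) (nat_lit 428) (nat_lit 309) (nat_lit 283)))) (XT.nd (nat_lit 78) (nat_lit 228) (nat_lit 0) (XT.lf (nat_lit 0) (nat_lit 1278993323) (nat_lit 76) (nat_lit 3484956600) (nat_lit 152) (nat_lit 10968686862) (nat_lit 133) (nat_lit 5) (nat_lit 134) (nat_lit 5) (nat_lit 135) (nat_lit 4) (nat_lit 429) (nat_lit 309) (nat_lit 282)) (XT.nd (nat_lit 78) (nat_lit 228)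 (nat_lit 0) (XT.lf (nat_lit 0) (nat_lit 11648148918) (nat_lit 152) (nat_lit 1034451231) (nat_lit 0) (nat_lit 3306440626) (nat_lit 133) (nat_lit 5) (nat_lit 135) (nat_lit 4) (nat_lit 133) (nat_lit 4) (nat_lit 430) (nat_lit 309) (nat_lit 281)) (XT.lf (nat_lit 0) (nat_lit 2496621069) (nat_lit 228) (nat_lit 3462213501) (nat_lit 76) (nat_lit 10291803790) (nat_lit 130) (nat_lit 5) (nat_lit 133) (nat_lit 5) (nat_lit 131) (nat_lit 4) (nat_lit 431) (nat_lit 309) (nat_lit 280))))))) (XT.nd (nat_lit 51012) (nat_lit 0) (nat_lit 3040) (XT.nd (nat_lit 468) (nat_lit 228) (nat_lit 0) (XT.nd (nat_lit 234) (nat_lit 304) (nat_lit 0) (XT.nd (nat_lit 78) (nat_lit 304) (nat_lit 0) (XT.lf (nat_lit 0) (nat_lit 9474684198) (nat_lit 152) (nat_lit 6028460209) (nat_lit 0) (nat_lit 1014969918) (nat_lit 129) (nat_lit 5) (nat_lit 131) (nat_lit 4) (nat_lit 129) (nat_lit 4) (nat_lit 432) (nat_lit 309) (nat_lit 279)) (XT.nd (nat_lit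 78) (nat_lit 152) (nat_lit 0) (XT.lf (nat_lit 0) (nat_lit 8046619693) (nat_lit 152) (nat_lit 8688576865) (nat_lit 152) (nat_lit 56224791) (nat_lit 127) (nat_lit 4) (nat_lit 129) (nat_lit 5) (nat_lit 129) (nat_lit 4) (nat_lit 433) (nat_lit 309) (nat_lit 278)) (XT.lf (nat_lit 0) (nat_lit 5443773916) (nat_lit 76) (nat_lit 1572844556) (nat_lit 152) (nat_lit 10053789103) (nat_lit 125) (nat_lit 5) (nat_lit 126) (nat_lit 5) (nat_lit 127) (nat_lit 4) (nat_lit 434) (nat_lit 309) (nat_lit 277)))) (XT.nd (nat_lit 78) (nat_lit 152) (nat_lit 0) (XT.lf (nat_lit 0) (nat_lit 2688007667) (nat_lit 152) (nat_lit 11684608058) (nat_lit 152) (nat_lit 2982967999) (nat_lit 123) (nat_lit 4) (nat_lit 125) (nat_lit 5) (nat_lit 125) (nat_lit 4) (nat_lit 435) (nat_lit 309) (nat_lit 276)) (XT.nd (nat_lit 78) (nat_lit 76) (nat_lit 0) (XT.lf (nat_lit 0) (nat_lit 4252050199) (nat_lit 228) (nat_lit 223364598) (nat_lit 76) (nat_lit 13171580924)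 (nat_lit 122) (nat_lit 5) (nat_lit 125) (nat_lit 5) (nat_lit 123) (nat_lit 4) (nat_lit 436) (nat_lit 309) (nat_lit 275)) (XT.lf (nat_lit 0) (nat_lit 11719628919) (nat_lit 152) (nat_lit 3246436816) (nat_lit 0) (nat_lit 2977934373) (nat_lit 121) (nat_lit 5) (nat_lit 123) (nat_lit 4) (nat_lit 121) (nat_lit 4) (nat_lit 437) (nat_lit 309) (nat_lit 274))))) (XT.nd (nat_lit 50310) (nat_lit 0) (nat_lit 5320) (XT.nd (nat_lit 50154) (nat_lit 0) (nat_lit 6080) (XT.lf (nat_lit 0) (nat_lit 1204408968) (nat_lit 228) (nat_lit 6437114664) (nat_lit 76) (nat_lit 10606083591) (nat_lit 118) (nat_lit 5) (nat_lit 121) (nat_lit 5) (nat_lit 119) (nat_lit 4) (nat_lit 438) (nat_lit 309) (nat_lit 273)) (XT.nd (nat_lit 78) (nat_lit 304) (nat_lit 0) (XT.lf (nat_lit 0) (nat_lit 4594495487) (nat_lit 228) (nat_lit 278944548) (nat_lit 228) (nat_lit 278944548) (nat_lit 202) (nat_lit 4) (nat_lit 205) (nat_lit 5) (nat_lit 205) (nat_lit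 4) (nat_lit 400) (nat_lit 310) (nat_lit 310)) (XT.lf (nat_lit 0) (nat_lit 4626863976) (nat_lit 304) (nat_lit 1837315110) (nat_lit 0) (nat_lit 3974017610) (nat_lit 198) (nat_lit 5) (nat_lit 202) (nat_lit 4) (nat_lit 198) (nat_lit 4) (nat_lit 401) (nat_lit 310) (nat_lit 309)))) (XT.nd (nat_lit 78) (nat_lit 532) (nat_lit 0) (XT.lf (nat_lit 0) (nat_lit 8009741513) (nat_lit 228) (nat_lit 1926494469) (nat_lit 228) (nat_lit 639816681) (nat_lit 195) (nat_lit 4) (nat_lit 198) (nat_lit 5) (nat_lit 198) (nat_lit 4) (nat_lit 402) (nat_lit 310) (nat_lit 308)) (XT.nd (nat_lit 78) (nat_lit 228) (nat_lit 0) (XT.lf (nat_lit 0) (nat_lit 4598798917) (nat_lit 304) (nat_lit 3365641191) (nat_lit 0) (nat_lit 2752150275) (nat_lit 191) (nat_lit 5) (nat_lit 195) (nat_lit 4) (nat_lit 191) (nat_lit 4) (nat_lit 403) (nat_lit 310) (nat_lit 307)) (XT.lf (nat_lit 0) (nat_lit 6669136634) (nat_lit 228) (nat_lit 3309403467) (nat_lit 228)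 (nat_lit 882709285) (nat_lit 188) (nat_lit 4) (nat_lit 191) (nat_lit 5) (nat_lit 191) (nat_lit 4) (nat_lit 404) (nat_lit 310) (nat_lit 306)))))) (XT.nd (nat_lit 468) (nat_lit 988) (nat_lit 0) (XT.nd (nat_lit 234) (nat_lit 608) (nat_lit 0) (XT.nd (nat_lit 78) (nat_lit 456) (nat_lit 0) (XT.lf (nat_lit 0) (nat_lit 4415530489) (nat_lit 228) (nat_lit 5080826077) (nat_lit 0) (nat_lit 1512768167) (nat_lit 185) (nat_lit 5) (nat_lit 188) (nat_lit 4) (nat_lit 185) (nat_lit 4) (nat_lit 405) (nat_lit 310) (nat_lit 305)) (XT.nd (nat_lit 78) (nat_lit 228) (nat_lit 0) (XT.lf (nat_lit 0) (nat_lit 5142418790) (nat_lit 228) (nat_lit 4725969571) (nat_lit 228) (nat_lit 1292383412) (nat_lit 182) (nat_lit 4) (nat_lit 185) (nat_lit 5) (nat_lit 185) (nat_lit 4) (nat_lit 406) (nat_lit 310) (nat_lit 304)) (XT.lf (nat_lit 0) (nat_lit 4070877045) (nat_lit 228) (nat_lit 7008413088) (nat_lit 0) (nat_lit 236945871) (nat_lit 179) (nat_lit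 5) (nat_lit 182) (nat_lit 4) (nat_lit 179) (nat_lit 4) (nat_lit 407) (nat_lit 310) (nat_lit 303)))) (XT.nd (nat_lit 78) (nat_lit 380) (nat_lit 0) (XT.lf (nat_lit 0) (nat_lit 3403846696) (nat_lit 228) (nat_lit 6195468059) (nat_lit 228) (nat_lit 1875757877) (nat_lit 176) (nat_lit 4) (nat_lit 179) (nat_lit 5) (nat_lit 179) (nat_lit 4) (nat_lit 408) (nat_lit 310) (nat_lit 302)) (XT.nd (nat_lit 78) (nat_lit 152) (nat_lit 0) (XT.lf (nat_lit 0) (nat_lit 2452325108) (nat_lit 152) (nat_lit 1115982967) (nat_lit 228) (nat_lit 8069771350) (nat_lit 173) (nat_lit 5) (nat_lit 175) (nat_lit 5) (nat_lit 176) (nat_lit 4) (nat_lit 409) (nat_lit 310) (nat_lit 301)) (XT.lf (nat_lit 0) (nat_lit 1426570625) (nat_lit 152) (nat_lit 7737209197) (nat_lit 152) (nat_lit 2640865904) (nat_lit 171) (nat_lit 4) (nat_lit 173) (nat_lit 5) (nat_lit 173) (nat_lit 4) (nat_lit 410) (nat_lit 310) (nat_lit 300))))) (XT.nd (nat_lit 234) (nat_lit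 532) (nat_lit 0) (XT.nd (nat_lit 78) (nat_lit 228) (nat_lit 0) (XT.lf (nat_lit 0) (nat_lit 342398279) (nat_lit 152) (nat_lit 2549399715) (nat_lit 228) (nat_lit 9083605821) (nat_lit 168) (nat_lit 5) (nat_lit 170) (nat_lit 5) (nat_lit 171) (nat_lit 4) (nat_lit 411) (nat_lit 310) (nat_lit 299)) (XT.nd (nat_lit 78) (nat_lit 228) (nat_lit 0) (XT.lf (nat_lit 0) (nat_lit 8561011796) (nat_lit 228) (nat_lit 801542795) (nat_lit 0) (nat_lit 2787236176) (nat_lit 168) (nat_lit 5) (nat_lit 171) (nat_lit 4) (nat_lit 168) (nat_lit 4) (nat_lit 412) (nat_lit 310) (nat_lit 298)) (XT.lf (nat_lit 0) (nat_lit 2049440156) (nat_lit 228) (nat_lit 2008394890) (nat_lit 76) (nat_lit 8270408340) (nat_lit 165) (nat_lit 5) (nat_lit 168) (nat_lit 5) (nat_lit 166) (nat_lit 4) (nat_lit 413) (nat_lit 310) (nat_lit 297)))) (XT.nd (nat_lit 78) (nat_lit 380) (nat_lit 0) (XT.lf (nat_lit 0) (nat_lit 7789969898) (nat_lit 228) (nat_lit 3292279957)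 (nat_lit 0) (nat_lit 1428574905) (nat_lit 163) (nat_lit 5) (nat_lit 166) (nat_lit 4) (nat_lit 163) (nat_lit 4) (nat_lit 414) (nat_lit 310) (nat_lit 296)) (XT.nd (nat_lit 78) (nat_lit 152) (nat_lit 0) (XT.lf (nat_lit 0) (nat_lit 1017416749) (nat_lit 228) (nat_lit 4657504195) (nat_lit 76) (nat_lit 7022677955) (nat_lit 160) (nat_lit 5) (nat_lit 163) (nat_lit 5) (nat_lit 161) (nat_lit 4) (nat_lit 415) (nat_lit 310) (nat_lit 295)) (XT.lf (nat_lit 0) (nat_lit 6784525499) (nat_lit 152) (nat_lit 42234494) (nat_lit 228) (nat_lit 6061999795) (nat_lit 158) (nat_lit 5) (nat_lit 160) (nat_lit 5) (nat_lit 161) (nat_lit 4) (nat_lit 416) (nat_lit 310) (nat_lit 294))))))))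
noncomputable def xc8 : XT := (XT.nd (nat_lit 51714) (nat_lit 0) (nat_lit 2052) (XT.nd (nat_lit 858) (nat_lit 1368) (nat_lit 0) (XT.nd (nat_lit 390) (nat_lit 912) (nat_lit 0) (XT.nd (nat_lit 156) (nat_lit 304) (nat_lit 0) (XT.nd (nat_lit 78) (nat_lit 228) (nat_lit 0) (XT.lf (nat_lit 0) (nat_lit 5439205593) (nat_lit 152) (nat_lit 7421744567) (nat_lit 152) (nat_lit 223188344) (nat_lit 156) (nat_lit 4) (nat_lit 158) (nat_lit 5) (nat_lit 158) (nat_lit 4) (nat_lit 417) (nat_lit 310) (nat_lit 293)) (XT.lf (nat_lit 0) (nat_lit 3999559382) (nat_lit 152) (nat_lit 1674959217) (nat_lit 228) (nat_lit 7609288136) (nat_lit 153) (nat_lit 5) (nat_lit 155) (nat_lit 5) (nat_lit 156) (nat_lit 4) (nat_lit 418) (nat_lit 310) (nat_lit 292))) (XT.nd (nat_lit 78) (nat_lit 152) (nat_lit 0) (XT.lf (nat_lit 0) (nat_lit 2474756129) (nat_lit 152) (nat_lit 9308450270) (nat_lit 152) (nat_lit 1705036256) (nat_lit 151) (nat_lit 4) (nat_lit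 153) (nat_lit 5) (nat_lit 153) (nat_lit 4) (nat_lit 419) (nat_lit 310) (nat_lit 291)) (XT.nd (nat_lit 78) (nat_lit 0) (nat_lit 0) (XT.lf (nat_lit 0) (nat_lit 844863602) (nat_lit 76) (nat_lit 3461629947) (nat_lit 152) (nat_lit 9390589603) (nat_lit 149) (nat_lit 5) (nat_lit 150) (nat_lit 5) (nat_lit 151) (nat_lit 4) (nat_lit 420) (nat_lit 310) (nat_lit 290)) (XT.lf (nat_lit 0) (nat_lit 10497531112) (nat_lit 152) (nat_lit 859949554) (nat_lit 0) (nat_lit 2553198809) (nat_lit 149) (nat_lit 5) (nat_lit 151) (nat_lit 4) (nat_lit 149) (nat_lit 4) (nat_lit 421) (nat_lit 310) (nat_lit 289))))) (XT.nd (nat_lit 234) (nat_lit 380) (nat_lit 0) (XT.nd (nat_lit 78) (nat_lit 304) (nat_lit 0) (XT.lf (nat_lit 0) (nat_lit 2734798722) (nat_lit 228) (nat_lit 2661654954) (nat_lit 76) (nat_lit 8732097199) (nat_lit 146) (nat_lit 5) (nat_lit 149) (nat_lit 5) (nat_lit 147) (nat_lit 4) (nat_lit 422) (nat_lit 310) (nat_lit 288))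 (XT.nd (nat_lit 78) (nat_lit 228) (nat_lit 0) (XT.lf (nat_lit 0) (nat_lit 9008870932) (nat_lit 152) (nat_lit 4561492678) (nat_lit 0) (nat_lit 781272373) (nat_lit 145) (nat_lit 5) (nat_lit 147) (nat_lit 4) (nat_lit 145) (nat_lit 4) (nat_lit 423) (nat_lit 310) (nat_lit 287)) (XT.lf (nat_lit 0) (nat_lit 930445480) (nat_lit 228) (nat_lit 6584934448) (nat_lit 76) (nat_lit 7064035448) (nat_lit 142) (nat_lit 5) (nat_lit 145) (nat_lit 5) (nat_lit 143) (nat_lit 4) (nat_lit 424) (nat_lit 310) (nat_lit 286)))) (XT.nd (nat_lit 78) (nat_lit 304) (nat_lit 0) (XT.lf (nat_lit 0) (nat_lit 6085177477) (nat_lit 76) (nat_lit 1204422194) (nat_lit 152) (nat_lit 7522687572) (nat_lit 141) (nat_lit 5) (nat_lit 142) (nat_lit 5) (nat_lit 143) (nat_lit 4) (nat_lit 425) (nat_lit 310) (nat_lit 285)) (XT.nd (nat_lit 78) (nat_lit 152) (nat_lit 0) (XT.lf (nat_lit 0) (nat_lit 4059394162) (nat_lit 152) (nat_lit 9837610791) (nat_lit 152)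 (nat_lit 1153416018) (nat_lit 139) (nat_lit 4) (nat_lit 141) (nat_lit 5) (nat_lit 141) (nat_lit 4) (nat_lit 426) (nat_lit 310) (nat_lit 284)) (XT.lf (nat_lit 0) (nat_lit 1899006997) (nat_lit 76) (nat_lit 3422123131) (nat_lit 152) (nat_lit 9972418183) (nat_lit 137) (nat_lit 5) (nat_lit 138) (nat_lit 5) (nat_lit 139) (nat_lit 4) (nat_lit 427) (nat_lit 310) (nat_lit 283)))))) (XT.nd (nat_lit 468) (nat_lit 608) (nat_lit 0) (XT.nd (nat_lit 234) (nat_lit 456) (nat_lit 0) (XT.nd (nat_lit 78) (nat_lit 304) (nat_lit 0) (XT.lf (nat_lit 0) (nat_lit 12010219880) (nat_lit 152) (nat_lit 371600749) (nat_lit 0) (nat_lit 3160501553) (nat_lit 137) (nat_lit 5) (nat_lit 139) (nat_lit 4) (nat_lit 137) (nat_lit 4) (nat_lit 428) (nat_lit 310) (nat_lit 282)) (XT.nd (nat_lit 78) (nat_lit 76) (nat_lit 0) (XT.lf (nat_lit 0) (nat_lit 3104814082) (nat_lit 228) (nat_lit 2747080259) (nat_lit 76) (nat_lit 9943853217) (nat_lit 134)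 (nat_lit 5) (nat_lit 137) (nat_lit 5) (nat_lit 135) (nat_lit 4) (nat_lit 429) (nat_lit 310) (nat_lit 281)) (XT.lf (nat_lit 0) (nat_lit 9890357609) (nat_lit 152) (nat_lit 5249306873) (nat_lit 0) (nat_lit 915446730) (nat_lit 133) (nat_lit 5) (nat_lit 135) (nat_lit 4) (nat_lit 133) (nat_lit 4) (nat_lit 430) (nat_lit 310) (nat_lit 280)))) (XT.nd (nat_lit 78) (nat_lit 228) (nat_lit 0) (XT.lf (nat_lit 0) (nat_lit 617968391) (nat_lit 228) (nat_lit 7903586479) (nat_lit 76) (nat_lit 7798391321) (nat_lit 130) (nat_lit 5) (nat_lit 133) (nat_lit 5) (nat_lit 131) (nat_lit 4) (nat_lit 431) (nat_lit 310) (nat_lit 279)) (XT.nd (nat_lit 78) (nat_lit 152) (nat_lit 0) (XT.lf (nat_lit 0) (nat_lit 5877788124) (nat_lit 76) (nat_lit 1616629297) (nat_lit 152) (nat_lit 9096053157) (nat_lit 129) (nat_lit 5) (nat_lit 130) (nat_lit 5) (nat_lit 131) (nat_lit 4) (nat_lit 432) (nat_lit 310) (nat_lit 278)) (XT.lf (nat_lit 0) (nat_lit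 3192568282) (nat_lit 152) (nat_lit 11453029608) (nat_lit 152) (nat_lit 2221459669) (nat_lit 127) (nat_lit 4) (nat_lit 129) (nat_lit 5) (nat_lit 129) (nat_lit 4) (nat_lit 433) (nat_lit 310) (nat_lit 277))))) (XT.nd (nat_lit 234) (nat_lit 228) (nat_lit 0) (XT.nd (nat_lit 78) (nat_lit 228) (nat_lit 0) (XT.lf (nat_lit 0) (nat_lit 344701076) (nat_lit 76) (nat_lit 4452835226) (nat_lit 152) (nat_lit 12352014855) (nat_lit 125) (nat_lit 5) (nat_lit 126) (nat_lit 5) (nat_lit 127) (nat_lit 4) (nat_lit 434) (nat_lit 310) (nat_lit 276)) (XT.nd (nat_lit 78) (nat_lit 228) (nat_lit 0) (XT.lf (nat_lit 0) (nat_lit 12053019622) (nat_lit 152) (nat_lit 2605767224) (nat_lit 0) (nat_lit 2778955878) (nat_lit 125) (nat_lit 5) (nat_lit 127) (nat_lit 4) (nat_lit 125) (nat_lit 4) (nat_lit 435) (nat_lit 310) (nat_lit 275)) (XT.lf (nat_lit 0) (nat_lit 1824415618) (nat_lit 228) (nat_lit 5719418916) (nat_lit 76) (nat_lit 10188195193)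 (nat_lit 122) (nat_lit 5) (nat_lit 125) (nat_lit 5) (nat_lit 123) (nat_lit 4) (nat_lit 436) (nat_lit 310) (nat_lit 274)))) (XT.nd (nat_lit 78) (nat_lit 152) (nat_lit 0) (XT.lf (nat_lit 0) (nat_lit 9032254323) (nat_lit 76) (nat_lit 130217784) (nat_lit 152) (nat_lit 8870447674) (nat_lit 121) (nat_lit 5) (nat_lit 122) (nat_lit 5) (nat_lit 123) (nat_lit 4) (nat_lit 437) (nat_lit 310) (nat_lit 273)) (XT.nd (nat_lit 49998) (nat_lit 0) (nat_lit 6536) (XT.lf (nat_lit 0) (nat_lit 5865154797) (nat_lit 152) (nat_lit 10950012914) (nat_lit 152) (nat_lit 1524833903) (nat_lit 119) (nat_lit 4) (nat_lit 121) (nat_lit 5) (nat_lit 121) (nat_lit 4) (nat_lit 438) (nat_lit 310) (nat_lit 272)) (XT.lf (nat_lit 0) (nat_lit 69472149) (nat_lit 304) (nat_lit 4883666949) (nat_lit 0) (nat_lit 69472149) (nat_lit 205) (nat_lit 5) (nat_lit 209) (nat_lit 4) (nat_lit 205) (nat_lit 4) (nat_lit 398) (nat_lit 311) (nat_lit 311))))))) (XT.nd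 (nat_lit 936) (nat_lit 1900) (nat_lit 0) (XT.nd (nat_lit 468) (nat_lit 1292) (nat_lit 0) (XT.nd (nat_lit 234) (nat_lit 760) (nat_lit 0) (XT.nd (nat_lit 78) (nat_lit 532) (nat_lit 0) (XT.lf (nat_lit 0) (nat_lit 5197445040) (nat_lit 304) (nat_lit 471262340) (nat_lit 0) (nat_lit 4504840331) (nat_lit 205) (nat_lit 5) (nat_lit 209) (nat_lit 4) (nat_lit 205) (nat_lit 4) (nat_lit 399) (nat_lit 311) (nat_lit 310)) (XT.nd (nat_lit 78) (nat_lit 228) (nat_lit 0) (XT.lf (nat_lit 0) (nat_lit 75740329) (nat_lit 304) (nat_lit 1211283595) (nat_lit 76) (nat_lit 9019396787) (nat_lit 201) (nat_lit 5) (nat_lit 205) (nat_lit 5) (nat_lit 202) (nat_lit 4) (nat_lit 400) (nat_lit 311) (nat_lit 309)) (XT.lf (nat_lit 0) (nat_lit 5185688174) (nat_lit 304) (nat_lit 2029338119) (nat_lit 0) (nat_lit 3226578630) (nat_lit 198) (nat_lit 5) (nat_lit 202) (nat_lit 4) (nat_lit 198) (nat_lit 4) (nat_lit 401) (nat_lit 311) (nat_lit 308))))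 (XT.nd (nat_lit 78) (nat_lit 532) (nat_lit 0) (XT.lf (nat_lit 0) (nat_lit 7720231632) (nat_lit 228) (nat_lit 2717711316) (nat_lit 228) (nat_lit 143231458) (nat_lit 195) (nat_lit 4) (nat_lit 198) (nat_lit 5) (nat_lit 198) (nat_lit 4) (nat_lit 402) (nat_lit 311) (nat_lit 307)) (XT.nd (nat_lit 78) (nat_lit 228) (nat_lit 0) (XT.lf (nat_lit 0) (nat_lit 5019739387) (nat_lit 304) (nat_lit 3763609333) (nat_lit 0) (nat_lit 1940198840) (nat_lit 191) (nat_lit 5) (nat_lit 195) (nat_lit 4) (nat_lit 191) (nat_lit 4) (nat_lit 403) (nat_lit 311) (nat_lit 306)) (XT.lf (nat_lit 0) (nat_lit 6169055597) (nat_lit 228) (nat_lit 4171800627) (nat_lit 228) (nat_lit 529109070) (nat_lit 188) (nat_lit 4) (nat_lit 191) (nat_lit 5) (nat_lit 191) (nat_lit 4) (nat_lit 404) (nat_lit 311) (nat_lit 305))))) (XT.nd (nat_lit 234) (nat_lit 608) (nat_lit 0) (XT.nd (nat_lit 78) (nat_lit 456) (nat_lit 0) (XT.lf (nat_lit 0) (nat_lit 4693958770)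 (nat_lit 228) (nat_lit 5699286869) (nat_lit 0) (nat_lit 626541188) (nat_lit 185) (nat_lit 5) (nat_lit 188) (nat_lit 4) (nat_lit 185) (nat_lit 4) (nat_lit 405) (nat_lit 311) (nat_lit 304)) (XT.nd (nat_lit 78) (nat_lit 228) (nat_lit 0) (XT.lf (nat_lit 0) (nat_lit 4416974301) (nat_lit 228) (nat_lit 5669524812) (nat_lit 228) (nat_lit 1086744281) (nat_lit 182) (nat_lit 4) (nat_lit 185) (nat_lit 5) (nat_lit 185) (nat_lit 4) (nat_lit 406) (nat_lit 311) (nat_lit 303)) (XT.lf (nat_lit 0) (nat_lit 3460770756) (nat_lit 152) (nat_lit 748048783) (nat_lit 228) (nat_lit 7121739299) (nat_lit 179) (nat_lit 5) (nat_lit 181) (nat_lit 5) (nat_lit 182) (nat_lit 4) (nat_lit 407) (nat_lit 311) (nat_lit 302)))) (XT.nd (nat_lit 78) (nat_lit 380) (nat_lit 0) (XT.lf (nat_lit 0) (nat_lit 2437545730) (nat_lit 228) (nat_lit 7230321025) (nat_lit 228) (nat_lit 1823610426) (nat_lit 176) (nat_lit 4) (nat_lit 179) (nat_lit 5) (nat_lit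 179) (nat_lit 4) (nat_lit 408) (nat_lit 311) (nat_lit 301)) (XT.nd (nat_lit 78) (nat_lit 152) (nat_lit 0) (XT.lf (nat_lit 0) (nat_lit 1354295131) (nat_lit 152) (nat_lit 2201812768) (nat_lit 228) (nat_lit 8100260939) (nat_lit 173) (nat_lit 5) (nat_lit 175) (nat_lit 5) (nat_lit 176) (nat_lit 4) (nat_lit 409) (nat_lit 311) (nat_lit 300)) (XT.lf (nat_lit 0) (nat_lit 203158808) (nat_lit 152) (nat_lit 8873708133) (nat_lit 152) (nat_lit 2748309578) (nat_lit 171) (nat_lit 4) (nat_lit 173) (nat_lit 5) (nat_lit 173) (nat_lit 4) (nat_lit 410) (nat_lit 311) (nat_lit 299)))))) (XT.nd (nat_lit 468) (nat_lit 912) (nat_lit 0) (XT.nd (nat_lit 234) (nat_lit 532) (nat_lit 0) (XT.nd (nat_lit 78) (nat_lit 380) (nat_lit 0) (XT.lf (nat_lit 0) (nat_lit 2730769198) (nat_lit 228) (nat_lit 1000974322) (nat_lit 76) (nat_lit 8265892524) (nat_lit 170) (nat_lit 5) (nat_lit 173) (nat_lit 5) (nat_lit 171) (nat_lit 4) (nat_lit 411) (nat_lit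 311) (nat_lit 298)) (XT.nd (nat_lit 78) (nat_lit 228) (nat_lit 0) (XT.lf (nat_lit 0) (nat_lit 8326554720) (nat_lit 228) (nat_lit 2269920354) (nat_lit 0) (nat_lit 1577750772) (nat_lit 168) (nat_lit 5) (nat_lit 171) (nat_lit 4) (nat_lit 168) (nat_lit 4) (nat_lit 412) (nat_lit 311) (nat_lit 297)) (XT.lf (nat_lit 0) (nat_lit 1729023201) (nat_lit 228) (nat_lit 3622365283) (nat_lit 76) (nat_lit 7003361941) (nat_lit 165) (nat_lit 5) (nat_lit 168) (nat_lit 5) (nat_lit 166) (nat_lit 4) (nat_lit 413) (nat_lit 311) (nat_lit 296)))) (XT.nd (nat_lit 78) (nat_lit 380) (nat_lit 0) (XT.lf (nat_lit 0) (nat_lit 7389318238) (nat_lit 228) (nat_lit 5047113571) (nat_lit 0) (nat_lit 103307032) (nat_lit 163) (nat_lit 5) (nat_lit 166) (nat_lit 4) (nat_lit 163) (nat_lit 4) (nat_lit 414) (nat_lit 311) (nat_lit 295)) (XT.nd (nat_lit 78) (nat_lit 152) (nat_lit 0) (XT.lf (nat_lit 0) (nat_lit 527142658) (nat_lit 228) (nat_lit 6566848700)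 (nat_lit 76) (nat_lit 5634718220) (nat_lit 160) (nat_lit 5) (nat_lit 163) (nat_lit 5) (nat_lit 161) (nat_lit 4) (nat_lit 415) (nat_lit 311) (nat_lit 294)) (XT.lf (nat_lit 0) (nat_lit 4743651688) (nat_lit 152) (nat_lit 1523006246) (nat_lit 228) (nat_lit 6655307371) (nat_lit 158) (nat_lit 5) (nat_lit 160) (nat_lit 5) (nat_lit 161) (nat_lit 4) (nat_lit 416) (nat_lit 311) (nat_lit 293))))) (XT.nd (nat_lit 234) (nat_lit 532) (nat_lit 0) (XT.nd (nat_lit 78) (nat_lit 228) (nat_lit 0) (XT.lf (nat_lit 0) (nat_lit 3244638281) (nat_lit 152) (nat_lit 8970864021) (nat_lit 152) (nat_lit 904402093) (nat_lit 156) (nat_lit 4) (nat_lit 158) (nat_lit 5) (nat_lit 158) (nat_lit 4) (nat_lit 417) (nat_lit 311) (nat_lit 292)) (XT.nd (nat_lit 78) (nat_lit 0) (nat_lit 0) (XT.lf (nat_lit 0) (nat_lit 1637695174) (nat_lit 152) (nat_lit 3296275348) (nat_lit 228) (nat_lit 8387977370) (nat_lit 153) (nat_lit 5) (nat_lit 155) (nat_lit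 5) (nat_lit 156) (nat_lit 4) (nat_lit 418) (nat_lit 311) (nat_lit 291)) (XT.lf (nat_lit 0) (nat_lit 10953538009) (nat_lit 228) (nat_lit 50123544) (nat_lit 0) (nat_lit 2525395868) (nat_lit 153) (nat_lit 5) (nat_lit 156) (nat_lit 4) (nat_lit 153) (nat_lit 4) (nat_lit 419) (nat_lit 311) (nat_lit 290)))) (XT.nd (nat_lit 78) (nat_lit 304) (nat_lit 0) (XT.lf (nat_lit 0) (nat_lit 3394717430) (nat_lit 228) (nat_lit 1822209727) (nat_lit 76) (nat_lit 8522970167) (nat_lit 150) (nat_lit 5) (nat_lit 153) (nat_lit 5) (nat_lit 151) (nat_lit 4) (nat_lit 420) (nat_lit 311) (nat_lit 289)) (XT.nd (nat_lit 78) (nat_lit 228) (nat_lit 0) (XT.lf (nat_lit 0) (nat_lit 9501340894) (nat_lit 152) (nat_lit 3682003594) (nat_lit 0) (nat_lit 772681582) (nat_lit 149) (nat_lit 5) (nat_lit 151) (nat_lit 4) (nat_lit 149) (nat_lit 4) (nat_lit 421) (nat_lit 311) (nat_lit 288)) (XT.lf (nat_lit 0) (nat_lit 1636223049) (nat_lit 228) (nat_lit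 5668256674) (nat_lit 76) (nat_lit 6872038994) (nat_lit 146) (nat_lit 5) (nat_lit 149) (nat_lit 5) (nat_lit 147) (nat_lit 4) (nat_lit 422) (nat_lit 311) (nat_lit 287))))))))
noncomputable def xc9 : XT := (XT.nd (nat_lit 51636) (nat_lit 0) (nat_lit 1292) (XT.nd (nat_lit 858) (nat_lit 608) (nat_lit 0) (XT.nd (nat_lit 390) (nat_lit 684) (nat_lit 0) (XT.nd (nat_lit 156) (nat_lit 380) (nat_lit 0) (XT.nd (nat_lit 78) (nat_lit 152) (nat_lit 0) (XT.lf (nat_lit 0) (nat_lit 6640007943) (nat_lit 76) (nat_lit 1184288524) (nat_lit 152) (nat_lit 6577887321) (nat_lit 145) (nat_lit 5) (nat_lit 146) (nat_lit 5) (nat_lit 147) (nat_lit 4) (nat_lit 423) (nat_lit 311) (nat_lit 286)) (XT.lf (nat_lit 0) (nat_lit 4659371584) (nat_lit 152) (nat_lit 9593334324) (nat_lit 152) (nat_lit 380272089) (nat_lit 143) (nat_lit 4) (nat_lit 145) (nat_lit 5) (nat_lit 145) (nat_lit 4) (nat_lit 424) (nat_lit 311) (nat_lit 285))) (XT.nd (nat_lit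 78) (nat_lit 228) (nat_lit 0) (XT.lf (nat_lit 0) (nat_lit 2540989515) (nat_lit 76) (nat_lit 3363474774) (nat_lit 152) (nat_lit 8963950385) (nat_lit 141) (nat_lit 5) (nat_lit 142) (nat_lit 5) (nat_lit 143) (nat_lit 4) (nat_lit 425) (nat_lit 311) (nat_lit 284)) (XT.nd (nat_lit 78) (nat_lit 76) (nat_lit 0) (XT.lf (nat_lit 0) (nat_lit 316655188) (nat_lit 152) (nat_lit 12090845231) (nat_lit 152) (nat_lit 2702179058) (nat_lit 139) (nat_lit 4) (nat_lit 141) (nat_lit 5) (nat_lit 141) (nat_lit 4) (nat_lit 426) (nat_lit 311) (nat_lit 283)) (XT.lf (nat_lit 0) (nat_lit 3736760162) (nat_lit 228) (nat_lit 2015365754) (nat_lit 76) (nat_lit 9603102398) (nat_lit 138) (nat_lit 5) (nat_lit 141) (nat_lit 5) (nat_lit 139) (nat_lit 4) (nat_lit 427) (nat_lit 311) (nat_lit 282))))) (XT.nd (nat_lit 234) (nat_lit 304) (nat_lit 0) (XT.nd (nat_lit 78) (nat_lit 304) (nat_lit 0) (XT.lf (nat_lit 0) (nat_lit 10336044605) (nat_lit 152)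 (nat_lit 4456090086) (nat_lit 0) (nat_lit 814561653) (nat_lit 137) (nat_lit 5) (nat_lit 139) (nat_lit 4) (nat_lit 137) (nat_lit 4) (nat_lit 428) (nat_lit 311) (nat_lit 281)) (XT.nd (nat_lit 78) (nat_lit 76) (nat_lit 0) (XT.lf (nat_lit 0) (nat_lit 1312353452) (nat_lit 228) (nat_lit 7051710801) (nat_lit 76) (nat_lit 7499193923) (nat_lit 134) (nat_lit 5) (nat_lit 137) (nat_lit 5) (nat_lit 135) (nat_lit 4) (nat_lit 429) (nat_lit 311) (nat_lit 280)) (XT.lf (nat_lit 0) (nat_lit 6335248700) (nat_lit 76) (nat_lit 1664595136) (nat_lit 152) (nat_lit 8125719589) (nat_lit 133) (nat_lit 5) (nat_lit 134) (nat_lit 5) (nat_lit 135) (nat_lit 4) (nat_lit 430) (nat_lit 311) (nat_lit 279)))) (XT.nd (nat_lit 78) (nat_lit 152) (nat_lit 0) (XT.lf (nat_lit 0) (nat_lit 3717928650) (nat_lit 152) (nat_lit 11234819033) (nat_lit 152) (nat_lit 1441046485) (nat_lit 131) (nat_lit 4) (nat_lit 133) (nat_lit 5) (nat_lit 133) (nat_lit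 4) (nat_lit 431) (nat_lit 311) (nat_lit 278)) (XT.nd (nat_lit 78) (nat_lit 0) (nat_lit 0) (XT.lf (nat_lit 0) (nat_lit 934998903) (nat_lit 76) (nat_lit 4435153434) (nat_lit 152) (nat_lit 11297382893) (nat_lit 129) (nat_lit 5) (nat_lit 130) (nat_lit 5) (nat_lit 131) (nat_lit 4) (nat_lit 432) (nat_lit 311) (nat_lit 277)) (XT.lf (nat_lit 0) (nat_lit 12417791528) (nat_lit 152) (nat_lit 1950499618) (nat_lit 0) (nat_lit 2578937303) (nat_lit 129) (nat_lit 5) (nat_lit 131) (nat_lit 4) (nat_lit 129) (nat_lit 4) (nat_lit 433) (nat_lit 311) (nat_lit 276)))))) (XT.nd (nat_lit 50310) (nat_lit 0) (nat_lit 5320) (XT.nd (nat_lit 234) (nat_lit 152) (nat_lit 0) (XT.nd (nat_lit 78) (nat_lit 228) (nat_lit 0) (XT.lf (nat_lit 0) (nat_lit 2466258590) (nat_lit 228) (nat_lit 4990337323) (nat_lit 76) (nat_lit 9775841825) (nat_lit 126) (nat_lit 5) (nat_lit 129) (nat_lit 5) (nat_lit 127) (nat_lit 4) (nat_lit 434) (nat_lit 311) (nat_lit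 275)) (XT.nd (nat_lit 78) (nat_lit 152) (nat_lit 0) (XT.lf (nat_lit 0) (nat_lit 9338489072) (nat_lit 76) (nat_lit 261864513) (nat_lit 152) (nat_lit 7923917371) (nat_lit 125) (nat_lit 5) (nat_lit 126) (nat_lit 5) (nat_lit 127) (nat_lit 4) (nat_lit 435) (nat_lit 311) (nat_lit 274)) (XT.lf (nat_lit 0) (nat_lit 6255251789) (nat_lit 152) (nat_lit 10783042553) (nat_lit 152) (nat_lit 783870140) (nat_lit 123) (nat_lit 4) (nat_lit 125) (nat_lit 5) (nat_lit 125) (nat_lit 4) (nat_lit 436) (nat_lit 311) (nat_lit 273)))) (XT.nd (nat_lit 49920) (nat_lit 0) (nat_lit 6688) (XT.lf (nat_lit 0) (nat_lit 2988744982) (nat_lit 76) (nat_lit 3478391825) (nat_lit 152) (nat_lit 11659214150) (nat_lit 121) (nat_lit 5) (nat_lit 122) (nat_lit 5) (nat_lit 123) (nat_lit 4) (nat_lit 437) (nat_lit 311) (nat_lit 272)) (XT.nd (nat_lit 78) (nat_lit 304) (nat_lit 0) (XT.lf (nat_lit 0) (nat_lit 431309258) (nat_lit 304) (nat_lit 4034898845)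 (nat_lit 0) (nat_lit 431309258) (nat_lit 213) (nat_lit 5) (nat_lit 217) (nat_lit 4) (nat_lit 213) (nat_lit 4) (nat_lit 396) (nat_lit 312) (nat_lit 312)) (XT.lf (nat_lit 0) (nat_lit 953543155) (nat_lit 304) (nat_lit 4849985579) (nat_lit 304) (nat_lit 4115201243) (nat_lit 209) (nat_lit 4) (nat_lit 213) (nat_lit 5) (nat_lit 213) (nat_lit 4) (nat_lit 397) (nat_lit 312) (nat_lit 311))))) (XT.nd (nat_lit 234) (nat_lit 760) (nat_lit 0) (XT.nd (nat_lit 78) (nat_lit 304) (nat_lit 0) (XT.lf (nat_lit 0) (nat_lit 179412390) (nat_lit 228) (nat_lit 622350947) (nat_lit 304) (nat_lit 9244976072) (nat_lit 205) (nat_lit 5) (nat_lit 208) (nat_lit 5) (nat_lit 209) (nat_lit 4) (nat_lit 398) (nat_lit 312) (nat_lit 310)) (XT.nd (nat_lit 78) (nat_lit 304) (nat_lit 0) (XT.lf (nat_lit 0) (nat_lit 5799382412) (nat_lit 304) (nat_lit 656545568) (nat_lit 0) (nat_lit 3720963096) (nat_lit 205) (nat_lit 5) (nat_lit 209) (nat_lit 4)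 (nat_lit 205) (nat_lit 4) (nat_lit 399) (nat_lit 312) (nat_lit 309)) (XT.lf (nat_lit 0) (nat_lit 606113788) (nat_lit 304) (nat_lit 1500854689) (nat_lit 76) (nat_lit 8204319172) (nat_lit 201) (nat_lit 5) (nat_lit 205) (nat_lit 5) (nat_lit 202) (nat_lit 4) (nat_lit 400) (nat_lit 312) (nat_lit 308)))) (XT.nd (nat_lit 78) (nat_lit 532) (nat_lit 0) (XT.lf (nat_lit 0) (nat_lit 5650978498) (nat_lit 304) (nat_lit 2413551925) (nat_lit 0) (nat_lit 2383893931) (nat_lit 198) (nat_lit 5) (nat_lit 202) (nat_lit 4) (nat_lit 198) (nat_lit 4) (nat_lit 401) (nat_lit 312) (nat_lit 307)) (XT.nd (nat_lit 78) (nat_lit 228) (nat_lit 0) (XT.lf (nat_lit 0) (nat_lit 251127053) (nat_lit 304) (nat_lit 3354743553) (nat_lit 76) (nat_lit 6983771150) (nat_lit 194) (nat_lit 5) (nat_lit 198) (nat_lit 5) (nat_lit 195) (nat_lit 4) (nat_lit 402) (nat_lit 312) (nat_lit 306)) (XT.lf (nat_lit 0) (nat_lit 5344059028) (nat_lit 304) (nat_lit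 4360996181) (nat_lit 0) (nat_lit 1028935715) (nat_lit 191) (nat_lit 5) (nat_lit 195) (nat_lit 4) (nat_lit 191) (nat_lit 4) (nat_lit 403) (nat_lit 312) (nat_lit 305))))))) (XT.nd (nat_lit 936) (nat_lit 1748) (nat_lit 0) (XT.nd (nat_lit 468) (nat_lit 912) (nat_lit 0) (XT.nd (nat_lit 234) (nat_lit 684) (nat_lit 0) (XT.nd (nat_lit 78) (nat_lit 456) (nat_lit 0) (XT.lf (nat_lit 0) (nat_lit 5468330502) (nat_lit 228) (nat_lit 5137859794) (nat_lit 228) (nat_lit 275987928) (nat_lit 188) (nat_lit 4) (nat_lit 191) (nat_lit 5) (nat_lit 191) (nat_lit 4) (nat_lit 404) (nat_lit 312) (nat_lit 304)) (XT.nd (nat_lit 78) (nat_lit 228) (nat_lit 0) (XT.lf (nat_lit 0) (nat_lit 4505608441) (nat_lit 152) (nat_lit 370403453) (nat_lit 228) (nat_lit 6157898731) (nat_lit 185) (nat_lit 5) (nat_lit 187) (nat_lit 5) (nat_lit 188) (nat_lit 4) (nat_lit 405) (nat_lit 312) (nat_lit 303)) (XT.lf (nat_lit 0) (nat_lit 3483173774) (nat_lit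 228) (nat_lit 6721051254) (nat_lit 228) (nat_lit 985071979) (nat_lit 182) (nat_lit 4) (nat_lit 185) (nat_lit 5) (nat_lit 185) (nat_lit 4) (nat_lit 406) (nat_lit 312) (nat_lit 302)))) (XT.nd (nat_lit 78) (nat_lit 456) (nat_lit 0) (XT.lf (nat_lit 0) (nat_lit 2398951118) (nat_lit 152) (nat_lit 1847703758) (nat_lit 228) (nat_lit 7101783844) (nat_lit 179) (nat_lit 5) (nat_lit 181) (nat_lit 5) (nat_lit 182) (nat_lit 4) (nat_lit 407) (nat_lit 312) (nat_lit 301)) (XT.nd (nat_lit 78) (nat_lit 228) (nat_lit 0) (XT.lf (nat_lit 0) (nat_lit 1254792663) (nat_lit 228) (nat_lit 8377599513) (nat_lit 228) (nat_lit 1879164185) (nat_lit 176) (nat_lit 4) (nat_lit 179) (nat_lit 5) (nat_lit 179) (nat_lit 4) (nat_lit 408) (nat_lit 312) (nat_lit 300)) (XT.lf (nat_lit 0) (nat_lit 35587793) (nat_lit 152) (nat_lit 3402136210) (nat_lit 228) (nat_lit 8240657461) (nat_lit 173) (nat_lit 5) (nat_lit 175) (nat_lit 5) (nat_lit 176) (nat_lit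 4) (nat_lit 409) (nat_lit 312) (nat_lit 299))))) (XT.nd (nat_lit 234) (nat_lit 532) (nat_lit 0) (XT.nd (nat_lit 78) (nat_lit 380) (nat_lit 0) (XT.lf (nat_lit 0) (nat_lit 8894006615) (nat_lit 228) (nat_lit 1220916316) (nat_lit 0) (nat_lit 1734200507) (nat_lit 173) (nat_lit 5) (nat_lit 176) (nat_lit 4) (nat_lit 173) (nat_lit 4) (nat_lit 410) (nat_lit 312) (nat_lit 298)) (XT.nd (nat_lit 78) (nat_lit 152) (nat_lit 0) (XT.lf (nat_lit 0) (nat_lit 2465044765) (nat_lit 228) (nat_lit 2562597505) (nat_lit 76) (nat_lit 6995888915) (nat_lit 170) (nat_lit 5) (nat_lit 173) (nat_lit 5) (nat_lit 171) (nat_lit 4) (nat_lit 411) (nat_lit 312) (nat_lit 297)) (XT.lf (nat_lit 0) (nat_lit 7982278466) (nat_lit 228) (nat_lit 3967649897) (nat_lit 0) (nat_lit 252549177) (nat_lit 168) (nat_lit 5) (nat_lit 171) (nat_lit 4) (nat_lit 168) (nat_lit 4) (nat_lit 412) (nat_lit 312) (nat_lit 296)))) (XT.nd (nat_lit 78) (nat_lit 304) (nat_lit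 0) (XT.lf (nat_lit 0) (nat_lit 1296432764) (nat_lit 228) (nat_lit 5470279936) (nat_lit 76) (nat_lit 5618416804) (nat_lit 165) (nat_lit 5) (nat_lit 168) (nat_lit 5) (nat_lit 166) (nat_lit 4) (nat_lit 413) (nat_lit 312) (nat_lit 295)) (XT.nd (nat_lit 78) (nat_lit 152) (nat_lit 0) (XT.lf (nat_lit 0) (nat_lit 5518480989) (nat_lit 152) (nat_lit 1369196173) (nat_lit 228) (nat_lit 5684512277) (nat_lit 163) (nat_lit 5) (nat_lit 165) (nat_lit 5) (nat_lit 166) (nat_lit 4) (nat_lit 414) (nat_lit 312) (nat_lit 294)) (XT.lf (nat_lit 0) (nat_lit 4043372193) (nat_lit 152) (nat_lit 8639062581) (nat_lit 152) (nat_lit 81353122) (nat_lit 161) (nat_lit 4) (nat_lit 163) (nat_lit 5) (nat_lit 163) (nat_lit 4) (nat_lit 415) (nat_lit 312) (nat_lit 293)))))) (XT.nd (nat_lit 468) (nat_lit 836) (nat_lit 0) (XT.nd (nat_lit 234) (nat_lit 456) (nat_lit 0) (XT.nd (nat_lit 78) (nat_lit 228) (nat_lit 0) (XT.lf (nat_lit 0) (nat_lit 2457216616)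 (nat_lit 152) (nat_lit 3131807000) (nat_lit 228) (nat_lit 7370165250) (nat_lit 158) (nat_lit 5) (nat_lit 160) (nat_lit 5) (nat_lit 161) (nat_lit 4) (nat_lit 416) (nat_lit 312) (nat_lit 292)) (XT.nd (nat_lit 78) (nat_lit 76) (nat_lit 0) (XT.lf (nat_lit 0) (nat_lit 799509649) (nat_lit 152) (nat_lit 10650830075) (nat_lit 152) (nat_lit 1709414078) (nat_lit 156) (nat_lit 4) (nat_lit 158) (nat_lit 5) (nat_lit 158) (nat_lit 4) (nat_lit 417) (nat_lit 312) (nat_lit 291)) (XT.lf (nat_lit 0) (nat_lit 4080455202) (nat_lit 228) (nat_lit 960813354) (nat_lit 76) (nat_lit 8322687253) (nat_lit 155) (nat_lit 5) (nat_lit 158) (nat_lit 5) (nat_lit 156) (nat_lit 4) (nat_lit 418) (nat_lit 312) (nat_lit 290)))) (XT.nd (nat_lit 78) (nat_lit 304) (nat_lit 0) (XT.lf (nat_lit 0) (nat_lit 10025438304) (nat_lit 228) (nat_lit 2782660925) (nat_lit 0) (nat_lit 765203640) (nat_lit 153) (nat_lit 5) (nat_lit 156) (nat_lit 4) (nat_lit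 153) (nat_lit 4) (nat_lit 419) (nat_lit 312) (nat_lit 289)) (XT.nd (nat_lit 78) (nat_lit 76) (nat_lit 0) (XT.lf (nat_lit 0) (nat_lit 2366076256) (nat_lit 228) (nat_lit 4734132843) (nat_lit 76) (nat_lit 6686472175) (nat_lit 150) (nat_lit 5) (nat_lit 153) (nat_lit 5) (nat_lit 151) (nat_lit 4) (nat_lit 420) (nat_lit 312) (nat_lit 288)) (XT.lf (nat_lit 0) (nat_lit 7223261278) (nat_lit 76) (nat_lit 1165651519) (nat_lit 152) (nat_lit 5616410830) (nat_lit 149) (nat_lit 5) (nat_lit 150) (nat_lit 5) (nat_lit 151) (nat_lit 4) (nat_lit 421) (nat_lit 312) (nat_lit 287))))) (XT.nd (nat_lit 234) (nat_lit 380) (nat_lit 0) (XT.nd (nat_lit 78) (nat_lit 228) (nat_lit 0) (XT.lf (nat_lit 0) (nat_lit 407285848) (nat_lit 228) (nat_lit 8947347452) (nat_lit 76) (nat_lit 4874214422) (nat_lit 146) (nat_lit 5) (nat_lit 149) (nat_lit 5) (nat_lit 147) (nat_lit 4) (nat_lit 422) (nat_lit 312) (nat_lit 286)) (XT.nd (nat_lit 78) (nat_lit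 152) (nat_lit 0) (XT.lf (nat_lit 0) (nat_lit 3206738681) (nat_lit 76) (nat_lit 3309033052) (nat_lit 152) (nat_lit 7941128685) (nat_lit 145) (nat_lit 5) (nat_lit 146) (nat_lit 5) (nat_lit 147) (nat_lit 4) (nat_lit 423) (nat_lit 312) (nat_lit 285)) (XT.lf (nat_lit 0) (nat_lit 1033737935) (nat_lit 152) (nat_lit 11808722135) (nat_lit 152) (nat_lit 1848286191) (nat_lit 143) (nat_lit 4) (nat_lit 145) (nat_lit 5) (nat_lit 145) (nat_lit 4) (nat_lit 424) (nat_lit 312) (nat_lit 284)))) (XT.nd (nat_lit 78) (nat_lit 304) (nat_lit 0) (XT.lf (nat_lit 0) (nat_lit 4394292840) (nat_lit 228) (nat_lit 1265274642) (nat_lit 76) (nat_lit 9269162907) (nat_lit 142) (nat_lit 5) (nat_lit 145) (nat_lit 5) (nat_lit 143) (nat_lit 4) (nat_lit 425) (nat_lit 312) (nat_lit 283)) (XT.nd (nat_lit 78) (nat_lit 228) (nat_lit 0) (XT.lf (nat_lit 0) (nat_lit 10813436146) (nat_lit 152) (nat_lit 3646980948) (nat_lit 0) (nat_lit 712094883) (nat_lit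 141) (nat_lit 5) (nat_lit 143) (nat_lit 4) (nat_lit 141) (nat_lit 4) (nat_lit 426) (nat_lit 312) (nat_lit 282)) (XT.lf (nat_lit 0) (nat_lit 2029897899) (nat_lit 228) (nat_lit 6186787082) (nat_lit 76) (nat_lit 7204322572) (nat_lit 138) (nat_lit 5) (nat_lit 141) (nat_lit 5) (nat_lit 139) (nat_lit 4) (nat_lit 427) (nat_lit 312) (nat_lit 281))))))))
noncomputable def xc10 : XT := (XT.nd (nat_lit 51480) (nat_lit 0) (nat_lit 912) (XT.nd (nat_lit 50544) (nat_lit 0) (nat_lit 4560) (XT.nd (nat_lit 390) (nat_lit 608) (nat_lit 0) (XT.nd (nat_lit 156) (nat_lit 380) (nat_lit 0) (XT.nd (nat_lit 78) (nat_lit 152) (nat_lit 0) (XT.lf (nat_lit 0) (nat_lit 6817670471) (nat_lit 76) (nat_lit 1716952587) (nat_lit 152) (nat_lit 7140689304) (nat_lit 137) (nat_lit 5) (nat_lit 138) (nat_lit 5) (nat_lit 139) (nat_lit 4) (nat_lit 428) (nat_lit 312) (nat_lit 280)) (XT.lf (nat_lit 0) (nat_lit 4265644641) (nat_lit 152) (nat_lit 11029990310)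 (nat_lit 152) (nat_lit 639777014) (nat_lit 135) (nat_lit 4) (nat_lit 137) (nat_lit 5) (nat_lit 137) (nat_lit 4) (nat_lit 429) (nat_lit 312) (nat_lit 279))) (XT.nd (nat_lit 78) (nat_lit 228) (nat_lit 0) (XT.lf (nat_lit 0) (nat_lit 1544664153) (nat_lit 76) (nat_lit 4424808204) (nat_lit 152) (nat_lit 10231151116) (nat_lit 133) (nat_lit 5) (nat_lit 134) (nat_lit 5) (nat_lit 135) (nat_lit 4) (nat_lit 430) (nat_lit 312) (nat_lit 278)) (XT.nd (nat_lit 78) (nat_lit 228) (nat_lit 0) (XT.lf (nat_lit 0) (nat_lit 12815533101) (nat_lit 152) (nat_lit 1279033754) (nat_lit 0) (nat_lit 2377492654) (nat_lit 133) (nat_lit 5) (nat_lit 135) (nat_lit 4) (nat_lit 133) (nat_lit 4) (nat_lit 431) (nat_lit 312) (nat_lit 277)) (XT.lf (nat_lit 0) (nat_lit 3131731468) (nat_lit 228) (nat_lit 4248235075) (nat_lit 76) (nat_lit 9368458112) (nat_lit 130) (nat_lit 5) (nat_lit 133) (nat_lit 5) (nat_lit 131) (nat_lit 4) (nat_lit 432) (nat_lit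 312) (nat_lit 276))))) (XT.nd (nat_lit 234) (nat_lit 228) (nat_lit 0) (XT.nd (nat_lit 78) (nat_lit 304) (nat_lit 0) (XT.lf (nat_lit 0) (nat_lit 9670475348) (nat_lit 76) (nat_lit 397925135) (nat_lit 152) (nat_lit 6963046495) (nat_lit 129) (nat_lit 5) (nat_lit 130) (nat_lit 5) (nat_lit 131) (nat_lit 4) (nat_lit 433) (nat_lit 312) (nat_lit 275)) (XT.nd (nat_lit 78) (nat_lit 152) (nat_lit 0) (XT.lf (nat_lit 0) (nat_lit 6668147170) (nat_lit 152) (nat_lit 10630189895) (nat_lit 152) (nat_lit 22067883) (nat_lit 127) (nat_lit 4) (nat_lit 129) (nat_lit 5) (nat_lit 129) (nat_lit 4) (nat_lit 434) (nat_lit 312) (nat_lit 274)) (XT.lf (nat_lit 0) (nat_lit 3479448702) (nat_lit 76) (nat_lit 3533600358) (nat_lit 152) (nat_lit 10602177730) (nat_lit 125) (nat_lit 5) (nat_lit 126) (nat_lit 5) (nat_lit 127) (nat_lit 4) (nat_lit 435) (nat_lit 312) (nat_lit 273)))) (XT.nd (nat_lit 78) (nat_lit 76) (nat_lit 0) (XT.lf (nat_lit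 0) (nat_lit 134175564) (nat_lit 152) (nat_lit 14183521440) (nat_lit 152) (nat_lit 3599422095) (nat_lit 123) (nat_lit 4) (nat_lit 125) (nat_lit 5) (nat_lit 125) (nat_lit 4) (nat_lit 436) (nat_lit 312) (nat_lit 272)) (XT.nd (nat_lit 49764) (nat_lit 0) (nat_lit 7524) (XT.lf (nat_lit 0) (nat_lit 3634833891) (nat_lit 228) (nat_lit 3341668414) (nat_lit 76) (nat_lit 11247765990) (nat_lit 122) (nat_lit 5) (nat_lit 125) (nat_lit 5) (nat_lit 123) (nat_lit 4) (nat_lit 437) (nat_lit 312) (nat_lit 271)) (XT.lf (nat_lit 0) (nat_lit 804766530) (nat_lit 304) (nat_lit 3167824746) (nat_lit 0) (nat_lit 804766530) (nat_lit 221) (nat_lit 5) (nat_lit 225) (nat_lit 4) (nat_lit 221) (nat_lit 4) (nat_lit 394) (nat_lit 313) (nat_lit 313)))))) (XT.nd (nat_lit 468) (nat_lit 1444) (nat_lit 0) (XT.nd (nat_lit 234) (nat_lit 608) (nat_lit 0) (XT.nd (nat_lit 78) (nat_lit 608) (nat_lit 0) (XT.lf (nat_lit 0) (nat_lit 2432444613) (nat_lit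 304) (nat_lit 4010403372) (nat_lit 304) (nat_lit 3230870670) (nat_lit 217) (nat_lit 4) (nat_lit 221) (nat_lit 5) (nat_lit 221) (nat_lit 4) (nat_lit 395) (nat_lit 313) (nat_lit 312)) (XT.nd (nat_lit 78) (nat_lit 304) (nat_lit 0) (XT.lf (nat_lit 0) (nat_lit 1563929779) (nat_lit 304) (nat_lit 8160452864) (nat_lit 0) (nat_lit 72317577) (nat_lit 213) (nat_lit 5) (nat_lit 217) (nat_lit 4) (nat_lit 213) (nat_lit 4) (nat_lit 396) (nat_lit 313) (nat_lit 311)) (XT.lf (nat_lit 0) (nat_lit 771317368) (nat_lit 304) (nat_lit 5677871349) (nat_lit 304) (nat_lit 3472876297) (nat_lit 209) (nat_lit 4) (nat_lit 213) (nat_lit 5) (nat_lit 213) (nat_lit 4) (nat_lit 397) (nat_lit 313) (nat_lit 310)))) (XT.nd (nat_lit 78) (nat_lit 532) (nat_lit 0) (XT.lf (nat_lit 0) (nat_lit 1376135699) (nat_lit 380) (nat_lit 104044290) (nat_lit 76) (nat_lit 8571371779) (nat_lit 208) (nat_lit 5) (nat_lit 213) (nat_lit 5) (nat_lit 209) (nat_lit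 4) (nat_lit 398) (nat_lit 313) (nat_lit 309)) (XT.nd (nat_lit 78) (nat_lit 304) (nat_lit 0) (XT.lf (nat_lit 0) (nat_lit 6311178411) (nat_lit 304) (nat_lit 1027273921) (nat_lit 0) (nat_lit 2845128394) (nat_lit 205) (nat_lit 5) (nat_lit 209) (nat_lit 4) (nat_lit 205) (nat_lit 4) (nat_lit 399) (nat_lit 313) (nat_lit 308)) (XT.lf (nat_lit 0) (nat_lit 1044581139) (nat_lit 304) (nat_lit 1979381726) (nat_lit 76) (nat_lit 7295572250) (nat_lit 201) (nat_lit 5) (nat_lit 205) (nat_lit 5) (nat_lit 202) (nat_lit 4) (nat_lit 400) (nat_lit 313) (nat_lit 307))))) (XT.nd (nat_lit 234) (nat_lit 684) (nat_lit 0) (XT.nd (nat_lit 78) (nat_lit 532) (nat_lit 0) (XT.lf (nat_lit 0) (nat_lit 6023141512) (nat_lit 304) (nat_lit 2990292248) (nat_lit 0) (nat_lit 1445227189) (nat_lit 198) (nat_lit 5) (nat_lit 202) (nat_lit 4) (nat_lit 198) (nat_lit 4) (nat_lit 401) (nat_lit 313) (nat_lit 306)) (XT.nd (nat_lit 78) (nat_lit 228) (nat_lit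 0) (XT.lf (nat_lit 0) (nat_lit 547701241) (nat_lit 304) (nat_lit 4046126342) (nat_lit 76) (nat_lit 6007695089) (nat_lit 194) (nat_lit 5) (nat_lit 198) (nat_lit 5) (nat_lit 195) (nat_lit 4) (nat_lit 402) (nat_lit 313) (nat_lit 305)) (XT.lf (nat_lit 0) (nat_lit 5572041225) (nat_lit 304) (nat_lit 5158323724) (nat_lit 0) (nat_lit 17564649) (nat_lit 191) (nat_lit 5) (nat_lit 195) (nat_lit 4) (nat_lit 191) (nat_lit 4) (nat_lit 403) (nat_lit 313) (nat_lit 304)))) (XT.nd (nat_lit 78) (nat_lit 456) (nat_lit 0) (XT.lf (nat_lit 0) (nat_lit 4566349065) (nat_lit 228) (nat_lit 6208425099) (nat_lit 228) (nat_lit 123124686) (nat_lit 188) (nat_lit 4) (nat_lit 191) (nat_lit 5) (nat_lit 191) (nat_lit 4) (nat_lit 404) (nat_lit 313) (nat_lit 303)) (XT.nd (nat_lit 78) (nat_lit 228) (nat_lit 0) (XT.lf (nat_lit 0) (nat_lit 3479202012) (nat_lit 152) (nat_lit 1486248910) (nat_lit 228) (nat_lit 6085949483) (nat_lit 185) (nat_lit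 5) (nat_lit 187) (nat_lit 5) (nat_lit 188) (nat_lit 4) (nat_lit 405) (nat_lit 313) (nat_lit 302)) (XT.lf (nat_lit 0) (nat_lit 2340201268) (nat_lit 228) (nat_lit 7881467706) (nat_lit 228) (nat_lit 987277667) (nat_lit 182) (nat_lit 4) (nat_lit 185) (nat_lit 5) (nat_lit 185) (nat_lit 4) (nat_lit 406) (nat_lit 313) (nat_lit 301))))))) (XT.nd (nat_lit 936) (nat_lit 1596) (nat_lit 0) (XT.nd (nat_lit 468) (nat_lit 988) (nat_lit 0) (XT.nd (nat_lit 234) (nat_lit 532) (nat_lit 0) (XT.nd (nat_lit 78) (nat_lit 304) (nat_lit 0) (XT.lf (nat_lit 0) (nat_lit 1123828889) (nat_lit 152) (nat_lit 3058264230) (nat_lit 228) (nat_lit 7187867845) (nat_lit 179) (nat_lit 5) (nat_lit 181) (nat_lit 5) (nat_lit 182) (nat_lit 4) (nat_lit 407) (nat_lit 313) (nat_lit 300)) (XT.nd (nat_lit 78) (nat_lit 304) (nat_lit 0) (XT.lf (nat_lit 0) (nat_lit 9494258136) (nat_lit 228) (nat_lit 142607803) (nat_lit 0) (nat_lit 1898419835) (nat_lit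 179) (nat_lit 5) (nat_lit 182) (nat_lit 4) (nat_lit 179) (nat_lit 4) (nat_lit 408) (nat_lit 313) (nat_lit 299)) (XT.lf (nat_lit 0) (nat_lit 3227519439) (nat_lit 304) (nat_lit 1475582195) (nat_lit 76) (nat_lit 7000600910) (nat_lit 175) (nat_lit 5) (nat_lit 179) (nat_lit 5) (nat_lit 176) (nat_lit 4) (nat_lit 409) (nat_lit 313) (nat_lit 298)))) (XT.nd (nat_lit 78) (nat_lit 380) (nat_lit 0) (XT.lf (nat_lit 0) (nat_lit 8607186358) (nat_lit 228) (nat_lit 2862840076) (nat_lit 0) (nat_lit 406716555) (nat_lit 173) (nat_lit 5) (nat_lit 176) (nat_lit 4) (nat_lit 173) (nat_lit 4) (nat_lit 410) (nat_lit 313) (nat_lit 297)) (XT.nd (nat_lit 78) (nat_lit 152) (nat_lit 0) (XT.lf (nat_lit 0) (nat_lit 2091101168) (nat_lit 228) (nat_lit 4350517217) (nat_lit 76) (nat_lit 5611592217) (nat_lit 170) (nat_lit 5) (nat_lit 173) (nat_lit 5) (nat_lit 171) (nat_lit 4) (nat_lit 411) (nat_lit 313) (nat_lit 296)) (XT.lf (nat_lit 0)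 (nat_lit 6326343775) (nat_lit 152) (nat_lit 1213200461) (nat_lit 228) (nat_lit 4694676441) (nat_lit 168) (nat_lit 5) (nat_lit 170) (nat_lit 5) (nat_lit 171) (nat_lit 4) (nat_lit 412) (nat_lit 313) (nat_lit 295))))) (XT.nd (nat_lit 234) (nat_lit 456) (nat_lit 0) (XT.nd (nat_lit 78) (nat_lit 304) (nat_lit 0) (XT.lf (nat_lit 0) (nat_lit 751290853) (nat_lit 228) (nat_lit 7553753532) (nat_lit 76) (nat_lit 4114362783) (nat_lit 165) (nat_lit 5) (nat_lit 168) (nat_lit 5) (nat_lit 166) (nat_lit 4) (nat_lit 413) (nat_lit 313) (nat_lit 294)) (XT.nd (nat_lit 78) (nat_lit 152) (nat_lit 0) (XT.lf (nat_lit 0) (nat_lit 3305682278) (nat_lit 152) (nat_lit 2967959758) (nat_lit 228) (nat_lit 6334891865) (nat_lit 163) (nat_lit 5) (nat_lit 165) (nat_lit 5) (nat_lit 166) (nat_lit 4) (nat_lit 414) (nat_lit 313) (nat_lit 293)) (XT.lf (nat_lit 0) (nat_lit 1677077483) (nat_lit 152) (nat_lit 10305784617) (nat_lit 152) (nat_lit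 819836385) (nat_lit 161) (nat_lit 4) (nat_lit 163) (nat_lit 5) (nat_lit 163) (nat_lit 4) (nat_lit 415) (nat_lit 313) (nat_lit 292)))) (XT.nd (nat_lit 78) (nat_lit 380) (nat_lit 0) (XT.lf (nat_lit 0) (nat_lit 4794002963) (nat_lit 228) (nat_lit 75279368) (nat_lit 76) (nat_lit 8131158521) (nat_lit 160) (nat_lit 5) (nat_lit 163) (nat_lit 5) (nat_lit 161) (nat_lit 4) (nat_lit 416) (nat_lit 313) (nat_lit 291)) (XT.nd (nat_lit 78) (nat_lit 228) (nat_lit 0) (XT.lf (nat_lit 0) (nat_lit 10583041622) (nat_lit 228) (nat_lit 1861273822) (nat_lit 0) (nat_lit 758858668) (nat_lit 158) (nat_lit 5) (nat_lit 161) (nat_lit 4) (nat_lit 158) (nat_lit 4) (nat_lit 417) (nat_lit 313) (nat_lit 290)) (XT.lf (nat_lit 0) (nat_lit 3122021973) (nat_lit 228) (nat_lit 3780382637) (nat_lit 76) (nat_lit 6507198726) (nat_lit 155) (nat_lit 5) (nat_lit 158) (nat_lit 5) (nat_lit 156) (nat_lit 4) (nat_lit 418) (nat_lit 313) (nat_lit 289))))))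 (XT.nd (nat_lit 468) (nat_lit 836) (nat_lit 0) (XT.nd (nat_lit 234) (nat_lit 304) (nat_lit 0) (XT.nd (nat_lit 78) (nat_lit 304) (nat_lit 0) (XT.lf (nat_lit 0) (nat_lit 7836824737) (nat_lit 152) (nat_lit 1148523021) (nat_lit 228) (nat_lit 4636052358) (nat_lit 153) (nat_lit 5) (nat_lit 155) (nat_lit 5) (nat_lit 156) (nat_lit 4) (nat_lit 419) (nat_lit 313) (nat_lit 288)) (XT.nd (nat_lit 78) (nat_lit 76) (nat_lit 0) (XT.lf (nat_lit 0) (nat_lit 1211549870) (nat_lit 228) (nat_lit 7909936475) (nat_lit 76) (nat_lit 4716233177) (nat_lit 150) (nat_lit 5) (nat_lit 153) (nat_lit 5) (nat_lit 151) (nat_lit 4) (nat_lit 420) (nat_lit 313) (nat_lit 287)) (XT.lf (nat_lit 0) (nat_lit 3898148391) (nat_lit 76) (nat_lit 3258827597) (nat_lit 152) (nat_lit 6901708201) (nat_lit 149) (nat_lit 5) (nat_lit 150) (nat_lit 5) (nat_lit 151) (nat_lit 4) (nat_lit 421) (nat_lit 313) (nat_lit 286)))) (XT.nd (nat_lit 78) (nat_lit 152) (nat_lit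 0) (XT.lf (nat_lit 0) (nat_lit 1774166794) (nat_lit 152) (nat_lit 11539081496) (nat_lit 152) (nat_lit 972055004) (nat_lit 147) (nat_lit 4) (nat_lit 149) (nat_lit 5) (nat_lit 149) (nat_lit 4) (nat_lit 422) (nat_lit 313) (nat_lit 285)) (XT.nd (nat_lit 78) (nat_lit 76) (nat_lit 0) (XT.lf (nat_lit 0) (nat_lit 5079346034) (nat_lit 228) (nat_lit 494925124) (nat_lit 76) (nat_lit 8941646747) (nat_lit 146) (nat_lit 5) (nat_lit 149) (nat_lit 5) (nat_lit 147) (nat_lit 4) (nat_lit 423) (nat_lit 313) (nat_lit 284)) (XT.lf (nat_lit 0) (nat_lit 11324330159) (nat_lit 152) (nat_lit 2820067501) (nat_lit 0) (nat_lit 607817213) (nat_lit 145) (nat_lit 5) (nat_lit 147) (nat_lit 4) (nat_lit 145) (nat_lit 4) (nat_lit 424) (nat_lit 313) (nat_lit 283))))) (XT.nd (nat_lit 234) (nat_lit 304) (nat_lit 0) (XT.nd (nat_lit 78) (nat_lit 304) (nat_lit 0) (XT.lf (nat_lit 0) (nat_lit 2772569284) (nat_lit 228) (nat_lit 5306889690) (nat_lit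 76) (nat_lit 6913384010) (nat_lit 142) (nat_lit 5) (nat_lit 145) (nat_lit 5) (nat_lit 143) (nat_lit 4) (nat_lit 425) (nat_lit 313) (nat_lit 282)) (XT.nd (nat_lit 78) (nat_lit 228) (nat_lit 0) (XT.lf (nat_lit 0) (nat_lit 7326657986) (nat_lit 76) (nat_lit 1773926268) (nat_lit 152) (nat_lit 6138774168) (nat_lit 141) (nat_lit 5) (nat_lit 142) (nat_lit 5) (nat_lit 143) (nat_lit 4) (nat_lit 426) (nat_lit 313) (nat_lit 281)) (XT.lf (nat_lit 0) (nat_lit 180797489) (nat_lit 228) (nat_lit 10655958383) (nat_lit 76) (nat_lit 4654735264) (nat_lit 138) (nat_lit 5) (nat_lit 141) (nat_lit 5) (nat_lit 139) (nat_lit 4) (nat_lit 427) (nat_lit 313) (nat_lit 280)))) (XT.nd (nat_lit 78) (nat_lit 228) (nat_lit 0) (XT.lf (nat_lit 0) (nat_lit 2175359264) (nat_lit 76) (nat_lit 4422001281) (nat_lit 152) (nat_lit 9151080262) (nat_lit 137) (nat_lit 5) (nat_lit 138) (nat_lit 5) (nat_lit 139) (nat_lit 4) (nat_lit 428) (nat_lit 313)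 (nat_lit 279)) (XT.nd (nat_lit 78) (nat_lit 228) (nat_lit 0) (XT.lf (nat_lit 0) (nat_lit 13247938940) (nat_lit 152) (nat_lit 589692647) (nat_lit 0) (nat_lit 2174221829) (nat_lit 137) (nat_lit 5) (nat_lit 139) (nat_lit 4) (nat_lit 137) (nat_lit 4) (nat_lit 429) (nat_lit 313) (nat_lit 278)) (XT.lf (nat_lit 0) (nat_lit 3822723555) (nat_lit 228) (nat_lit 3491405221) (nat_lit 76) (nat_lit 8965470530) (nat_lit 134) (nat_lit 5) (nat_lit 137) (nat_lit 5) (nat_lit 135) (nat_lit 4) (nat_lit 430) (nat_lit 313) (nat_lit 277))))))))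
noncomputable def xc11 : XT := (XT.nd (nat_lit 51402) (nat_lit 0) (nat_lit 684) (XT.nd (nat_lit 50466) (nat_lit 0) (nat_lit 4332) (XT.nd (nat_lit 468) (nat_lit 228) (nat_lit 0) (XT.nd (nat_lit 234) (nat_lit 304) (nat_lit 0) (XT.nd (nat_lit 78) (nat_lit 304) (nat_lit 0) (XT.lf (nat_lit 0) (nat_lit 10029574571) (nat_lit 76) (nat_lit 538773411) (nat_lit 152) (nat_lit 5985700451) (nat_lit 133) (nat_lit 5) (nat_lit 134) (nat_lit 5) (nat_lit 135) (nat_lit 4) (nat_lit 431) (nat_lit 313) (nat_lit 276)) (XT.nd (nat_lit 78) (nat_lit 76) (nat_lit 0) (XT.lf (nat_lit 0) (nat_lit 747669214) (nat_lit 228) (nat_lit 9736388137) (nat_lit 76) (nat_lit 6350038074) (nat_lit 130) (nat_lit 5) (nat_lit 133) (nat_lit 5) (nat_lit 131) (nat_lit 4) (nat_lit 432) (nat_lit 313) (nat_lit 275)) (XT.lf (nat_lit 0) (nat_lit 3991045332) (nat_lit 76) (nat_lit 3596732998) (nat_lit 152) (nat_lit 9532236216) (nat_lit 129) (nat_lit 5) (nat_lit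 130) (nat_lit 5) (nat_lit 131) (nat_lit 4) (nat_lit 433) (nat_lit 313) (nat_lit 274)))) (XT.nd (nat_lit 78) (nat_lit 152) (nat_lit 0) (XT.lf (nat_lit 0) (nat_lit 734572458) (nat_lit 152) (nat_lit 13953480457) (nat_lit 152) (nat_lit 2724809461) (nat_lit 127) (nat_lit 4) (nat_lit 129) (nat_lit 5) (nat_lit 129) (nat_lit 4) (nat_lit 434) (nat_lit 313) (nat_lit 273)) (XT.nd (nat_lit 78) (nat_lit 76) (nat_lit 0) (XT.lf (nat_lit 0) (nat_lit 4287768110) (nat_lit 228) (nat_lit 2669083165) (nat_lit 76) (nat_lit 10753870742) (nat_lit 126) (nat_lit 5) (nat_lit 129) (nat_lit 5) (nat_lit 127) (nat_lit 4) (nat_lit 435) (nat_lit 313) (nat_lit 272)) (XT.lf (nat_lit 0) (nat_lit 11490042499) (nat_lit 152) (nat_lit 6213875056) (nat_lit 0) (nat_lit 311767979) (nat_lit 125) (nat_lit 5) (nat_lit 127) (nat_lit 4) (nat_lit 125) (nat_lit 4) (nat_lit 436) (nat_lit 313) (nat_lit 271))))) (XT.nd (nat_lit 49764) (nat_lit 0) (nat_lit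 6916) (XT.nd (nat_lit 49608) (nat_lit 0) (nat_lit 7828) (XT.lf (nat_lit 0) (nat_lit 662479015) (nat_lit 228) (nat_lit 9965754612) (nat_lit 76) (nat_lit 7698542013) (nat_lit 122) (nat_lit 5) (nat_lit 125) (nat_lit 5) (nat_lit 123) (nat_lit 4) (nat_lit 437) (nat_lit 313) (nat_lit 270)) (XT.nd (nat_lit 78) (nat_lit 304) (nat_lit 0) (XT.lf (nat_lit 0) (nat_lit 1190855005) (nat_lit 380) (nat_lit 2280357468) (nat_lit 0) (nat_lit 1190855005) (nat_lit 229) (nat_lit 5) (nat_lit 234) (nat_lit 4) (nat_lit 229) (nat_lit 4) (nat_lit 392) (nat_lit 314) (nat_lit 314)) (XT.lf (nat_lit 0) (nat_lit 3960027753) (nat_lit 304) (nat_lit 3152747297) (nat_lit 304) (nat_lit 2325741053) (nat_lit 225) (nat_lit 4) (nat_lit 229) (nat_lit 5) (nat_lit 229) (nat_lit 4) (nat_lit 393) (nat_lit 314) (nat_lit 313)))) (XT.nd (nat_lit 78) (nat_lit 608) (nat_lit 0) (XT.lf (nat_lit 0) (nat_lit 2357897181) (nat_lit 304) (nat_lit 6423009275)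 (nat_lit 0) (nat_lit 775445796) (nat_lit 221) (nat_lit 5) (nat_lit 225) (nat_lit 4) (nat_lit 221) (nat_lit 4) (nat_lit 394) (nat_lit 314) (nat_lit 312)) (XT.nd (nat_lit 78) (nat_lit 304) (nat_lit 0) (XT.lf (nat_lit 0) (nat_lit 2256842885) (nat_lit 304) (nat_lit 4879715632) (nat_lit 304) (nat_lit 2540436382) (nat_lit 217) (nat_lit 4) (nat_lit 221) (nat_lit 5) (nat_lit 221) (nat_lit 4) (nat_lit 395) (nat_lit 314) (nat_lit 311)) (XT.lf (nat_lit 0) (nat_lit 1361044753) (nat_lit 228) (nat_lit 823737679) (nat_lit 304) (nat_lit 7616678189) (nat_lit 213) (nat_lit 5) (nat_lit 216) (nat_lit 5) (nat_lit 217) (nat_lit 4) (nat_lit 396) (nat_lit 314) (nat_lit 310)))))) (XT.nd (nat_lit 468) (nat_lit 1140) (nat_lit 0) (XT.nd (nat_lit 234) (nat_lit 836) (nat_lit 0) (XT.nd (nat_lit 78) (nat_lit 304) (nat_lit 0) (XT.lf (nat_lit 0) (nat_lit 406706568) (nat_lit 304) (nat_lit 6599581948) (nat_lit 304) (nat_lit 2922449485)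 (nat_lit 209) (nat_lit 4) (nat_lit 213) (nat_lit 5) (nat_lit 213) (nat_lit 4) (nat_lit 397) (nat_lit 314) (nat_lit 309)) (XT.nd (nat_lit 78) (nat_lit 228) (nat_lit 0) (XT.lf (nat_lit 0) (nat_lit 1863691711) (nat_lit 380) (nat_lit 566270045) (nat_lit 76) (nat_lit 7629668169) (nat_lit 208) (nat_lit 5) (nat_lit 213) (nat_lit 5) (nat_lit 209) (nat_lit 4) (nat_lit 398) (nat_lit 314) (nat_lit 308)) (XT.lf (nat_lit 0) (nat_lit 6733280238) (nat_lit 304) (nat_lit 1583771337) (nat_lit 0) (nat_lit 1876570932) (nat_lit 205) (nat_lit 5) (nat_lit 209) (nat_lit 4) (nat_lit 205) (nat_lit 4) (nat_lit 399) (nat_lit 314) (nat_lit 307)))) (XT.nd (nat_lit 78) (nat_lit 532) (nat_lit 0) (XT.lf (nat_lit 0) (nat_lit 1391525507) (nat_lit 304) (nat_lit 2647282837) (nat_lit 76) (nat_lit 6292361969) (nat_lit 201) (nat_lit 5) (nat_lit 205) (nat_lit 5) (nat_lit 202) (nat_lit 4) (nat_lit 400) (nat_lit 314) (nat_lit 306)) (XT.nd (nat_lit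 78) (nat_lit 304) (nat_lit 0) (XT.lf (nat_lit 0) (nat_lit 6302502407) (nat_lit 304) (nat_lit 3760063037) (nat_lit 0) (nat_lit 409758209) (nat_lit 198) (nat_lit 5) (nat_lit 202) (nat_lit 4) (nat_lit 198) (nat_lit 4) (nat_lit 401) (nat_lit 314) (nat_lit 305)) (XT.lf (nat_lit 0) (nat_lit 749545208) (nat_lit 304) (nat_lit 4934318433) (nat_lit 76) (nat_lit 4933005197) (nat_lit 194) (nat_lit 5) (nat_lit 198) (nat_lit 5) (nat_lit 195) (nat_lit 4) (nat_lit 402) (nat_lit 314) (nat_lit 304))))) (XT.nd (nat_lit 234) (nat_lit 456) (nat_lit 0) (XT.nd (nat_lit 78) (nat_lit 456) (nat_lit 0) (XT.lf (nat_lit 0) (nat_lit 4598031795) (nat_lit 228) (nat_lit 1116586705) (nat_lit 304) (nat_lit 5050435266) (nat_lit 191) (nat_lit 5) (nat_lit 194) (nat_lit 5) (nat_lit 195) (nat_lit 4) (nat_lit 403) (nat_lit 314) (nat_lit 303)) (XT.nd (nat_lit 78) (nat_lit 228) (nat_lit 0) (XT.lf (nat_lit 0) (nat_lit 3462323147) (nat_lit 228)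 (nat_lit 7384431986) (nat_lit 228) (nat_lit 70385773) (nat_lit 188) (nat_lit 4) (nat_lit 191) (nat_lit 5) (nat_lit 191) (nat_lit 4) (nat_lit 404) (nat_lit 314) (nat_lit 302)) (XT.lf (nat_lit 0) (nat_lit 2246710652) (nat_lit 152) (nat_lit 2709500797) (nat_lit 228) (nat_lit 6116244283) (nat_lit 185) (nat_lit 5) (nat_lit 187) (nat_lit 5) (nat_lit 188) (nat_lit 4) (nat_lit 405) (nat_lit 314) (nat_lit 301)))) (XT.nd (nat_lit 78) (nat_lit 228) (nat_lit 0) (XT.lf (nat_lit 0) (nat_lit 987058068) (nat_lit 228) (nat_lit 9151788125) (nat_lit 228) (nat_lit 1093363273) (nat_lit 182) (nat_lit 4) (nat_lit 185) (nat_lit 5) (nat_lit 185) (nat_lit 4) (nat_lit 406) (nat_lit 314) (nat_lit 300)) (XT.nd (nat_lit 78) (nat_lit 152) (nat_lit 0) (XT.lf (nat_lit 0) (nat_lit 4018593283) (nat_lit 304) (nat_lit 358573793) (nat_lit 76) (nat_lit 7017871836) (nat_lit 181) (nat_lit 5) (nat_lit 185) (nat_lit 5) (nat_lit 182) (nat_lit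 4) (nat_lit 407) (nat_lit 314) (nat_lit 299)) (XT.lf (nat_lit 0) (nat_lit 9266108796) (nat_lit 228) (nat_lit 1729964027) (nat_lit 0) (nat_lit 566230383) (nat_lit 179) (nat_lit 5) (nat_lit 182) (nat_lit 4) (nat_lit 179) (nat_lit 4) (nat_lit 408) (nat_lit 314) (nat_lit 298))))))) (XT.nd (nat_lit 936) (nat_lit 1520) (nat_lit 0) (XT.nd (nat_lit 468) (nat_lit 912) (nat_lit 0) (XT.nd (nat_lit 234) (nat_lit 532) (nat_lit 0) (XT.nd (nat_lit 78) (nat_lit 380) (nat_lit 0) (XT.lf (nat_lit 0) (nat_lit 2913318792) (nat_lit 304) (nat_lit 3204878504) (nat_lit 76) (nat_lit 5614516658) (nat_lit 175) (nat_lit 5) (nat_lit 179) (nat_lit 5) (nat_lit 176) (nat_lit 4) (nat_lit 409) (nat_lit 314) (nat_lit 297)) (XT.nd (nat_lit 78) (nat_lit 228) (nat_lit 0) (XT.lf (nat_lit 0) (nat_lit 7169664027) (nat_lit 152) (nat_lit 1054676835) (nat_lit 228) (nat_lit 3683472883) (nat_lit 173) (nat_lit 5) (nat_lit 175) (nat_lit 5) (nat_lit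 176) (nat_lit 4) (nat_lit 410) (nat_lit 314) (nat_lit 296)) (XT.lf (nat_lit 0) (nat_lit 1608611661) (nat_lit 228) (nat_lit 6366295717) (nat_lit 76) (nat_lit 4111792852) (nat_lit 170) (nat_lit 5) (nat_lit 173) (nat_lit 5) (nat_lit 171) (nat_lit 4) (nat_lit 411) (nat_lit 314) (nat_lit 295)))) (XT.nd (nat_lit 78) (nat_lit 380) (nat_lit 0) (XT.lf (nat_lit 0) (nat_lit 4185465484) (nat_lit 152) (nat_lit 2804461625) (nat_lit 228) (nat_lit 5279797024) (nat_lit 168) (nat_lit 5) (nat_lit 170) (nat_lit 5) (nat_lit 171) (nat_lit 4) (nat_lit 412) (nat_lit 314) (nat_lit 294)) (XT.nd (nat_lit 78) (nat_lit 152) (nat_lit 0) (XT.lf (nat_lit 0) (nat_lit 93121130) (nat_lit 228) (nat_lit 9874606583) (nat_lit 76) (nat_lit 2489885656) (nat_lit 165) (nat_lit 5) (nat_lit 168) (nat_lit 5) (nat_lit 166) (nat_lit 4) (nat_lit 413) (nat_lit 314) (nat_lit 293)) (XT.lf (nat_lit 0) (nat_lit 853338822) (nat_lit 152) (nat_lit 4692324686)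 (nat_lit 228) (nat_lit 7103170857) (nat_lit 163) (nat_lit 5) (nat_lit 165) (nat_lit 5) (nat_lit 166) (nat_lit 4) (nat_lit 414) (nat_lit 314) (nat_lit 292))))) (XT.nd (nat_lit 234) (nat_lit 532) (nat_lit 0) (XT.nd (nat_lit 78) (nat_lit 380) (nat_lit 0) (XT.lf (nat_lit 0) (nat_lit 11176145096) (nat_lit 228) (nat_lit 915546608) (nat_lit 0) (nat_lit 753669399) (nat_lit 163) (nat_lit 5) (nat_lit 166) (nat_lit 4) (nat_lit 163) (nat_lit 4) (nat_lit 415) (nat_lit 314) (nat_lit 291)) (XT.nd (nat_lit 78) (nat_lit 152) (nat_lit 0) (XT.lf (nat_lit 0) (nat_lit 3906183861) (nat_lit 228) (nat_lit 2804725517) (nat_lit 76) (nat_lit 6334089453) (nat_lit 160) (nat_lit 5) (nat_lit 163) (nat_lit 5) (nat_lit 161) (nat_lit 4) (nat_lit 416) (nat_lit 314) (nat_lit 290)) (XT.lf (nat_lit 0) (nat_lit 8482695953) (nat_lit 152) (nat_lit 1132917902) (nat_lit 228) (nat_lit 3634506498) (nat_lit 158) (nat_lit 5) (nat_lit 160) (nat_lit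 5) (nat_lit 161) (nat_lit 4) (nat_lit 417) (nat_lit 314) (nat_lit 289)))) (XT.nd (nat_lit 78) (nat_lit 304) (nat_lit 0) (XT.lf (nat_lit 0) (nat_lit 2042090843) (nat_lit 228) (nat_lit 6855433707) (nat_lit 76) (nat_lit 4561878086) (nat_lit 155) (nat_lit 5) (nat_lit 158) (nat_lit 5) (nat_lit 156) (nat_lit 4) (nat_lit 418) (nat_lit 314) (nat_lit 288)) (XT.nd (nat_lit 78) (nat_lit 152) (nat_lit 0) (XT.lf (nat_lit 0) (nat_lit 4617214876) (nat_lit 152) (nat_lit 3212896441) (nat_lit 228) (nat_lit 5843347258) (nat_lit 153) (nat_lit 5) (nat_lit 155) (nat_lit 5) (nat_lit 156) (nat_lit 4) (nat_lit 419) (nat_lit 314) (nat_lit 287)) (XT.lf (nat_lit 0) (nat_lit 2539955512) (nat_lit 152) (nat_lit 11281819504) (nat_lit 152) (nat_lit 71261098) (nat_lit 151) (nat_lit 4) (nat_lit 153) (nat_lit 5) (nat_lit 153) (nat_lit 4) (nat_lit 420) (nat_lit 314) (nat_lit 286)))))) (XT.nd (nat_lit 468) (nat_lit 760) (nat_lit 0) (XT.nd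 (nat_lit 234) (nat_lit 380) (nat_lit 0) (XT.nd (nat_lit 78) (nat_lit 228) (nat_lit 0) (XT.lf (nat_lit 0) (nat_lit 303580945) (nat_lit 76) (nat_lit 5493297759) (nat_lit 152) (nat_lit 8319502933) (nat_lit 149) (nat_lit 5) (nat_lit 150) (nat_lit 5) (nat_lit 151) (nat_lit 4) (nat_lit 421) (nat_lit 314) (nat_lit 285)) (XT.nd (nat_lit 78) (nat_lit 228) (nat_lit 0) (XT.lf (nat_lit 0) (nat_lit 11870637936) (nat_lit 152) (nat_lit 1973348848) (nat_lit 0) (nat_lit 501489351) (nat_lit 149) (nat_lit 5) (nat_lit 151) (nat_lit 4) (nat_lit 149) (nat_lit 4) (nat_lit 422) (nat_lit 314) (nat_lit 284)) (XT.lf (nat_lit 0) (nat_lit 3542438757) (nat_lit 228) (nat_lit 4410008665) (nat_lit 76) (nat_lit 6625980157) (nat_lit 146) (nat_lit 5) (nat_lit 149) (nat_lit 5) (nat_lit 147) (nat_lit 4) (nat_lit 423) (nat_lit 314) (nat_lit 283)))) (XT.nd (nat_lit 78) (nat_lit 304) (nat_lit 0) (XT.lf (nat_lit 0) (nat_lit 7863911053) (nat_lit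 76) (nat_lit 1835755725) (nat_lit 152) (nat_lit 5117690453) (nat_lit 145) (nat_lit 5) (nat_lit 146) (nat_lit 5) (nat_lit 147) (nat_lit 4) (nat_lit 424) (nat_lit 314) (nat_lit 282)) (XT.nd (nat_lit 78) (nat_lit 76) (nat_lit 0) (XT.lf (nat_lit 0) (nat_lit 1013451038) (nat_lit 228) (nat_lit 9636970994) (nat_lit 76) (nat_lit 4411119214) (nat_lit 142) (nat_lit 5) (nat_lit 145) (nat_lit 5) (nat_lit 143) (nat_lit 4) (nat_lit 425) (nat_lit 314) (nat_lit 281)) (XT.lf (nat_lit 0) (nat_lit 2828833852) (nat_lit 76) (nat_lit 4426953837) (nat_lit 152) (nat_lit 8054839345) (nat_lit 141) (nat_lit 5) (nat_lit 142) (nat_lit 5) (nat_lit 143) (nat_lit 4) (nat_lit 426) (nat_lit 314) (nat_lit 280))))) (XT.nd (nat_lit 234) (nat_lit 456) (nat_lit 0) (XT.nd (nat_lit 78) (nat_lit 152) (nat_lit 0) (XT.lf (nat_lit 0) (nat_lit 121656664) (nat_lit 152) (nat_lit 13596328742) (nat_lit 152) (nat_lit 1848222259) (nat_lit 139) (nat_lit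 4) (nat_lit 141) (nat_lit 5) (nat_lit 141) (nat_lit 4) (nat_lit 427) (nat_lit 314) (nat_lit 279)) (XT.nd (nat_lit 78) (nat_lit 76) (nat_lit 0) (XT.lf (nat_lit 0) (nat_lit 4541226099) (nat_lit 228) (nat_lit 2718063479) (nat_lit 76) (nat_lit 8566296151) (nat_lit 138) (nat_lit 5) (nat_lit 141) (nat_lit 5) (nat_lit 139) (nat_lit 4) (nat_lit 428) (nat_lit 314) (nat_lit 278)) (XT.lf (nat_lit 0) (nat_lit 10417237093) (nat_lit 76) (nat_lit 684802803) (nat_lit 152) (nat_lit 4989651380) (nat_lit 137) (nat_lit 5) (nat_lit 138) (nat_lit 5) (nat_lit 139) (nat_lit 4) (nat_lit 429) (nat_lit 314) (nat_lit 277)))) (XT.nd (nat_lit 78) (nat_lit 228) (nat_lit 0) (XT.lf (nat_lit 0) (nat_lit 1541381088) (nat_lit 228) (nat_lit 8810531173) (nat_lit 76) (nat_lit 6011137891) (nat_lit 134) (nat_lit 5) (nat_lit 137) (nat_lit 5) (nat_lit 135) (nat_lit 4) (nat_lit 430) (nat_lit 314) (nat_lit 276)) (XT.nd (nat_lit 78) (nat_lit 152)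 (nat_lit 0) (XT.lf (nat_lit 0) (nat_lit 4525069124) (nat_lit 76) (nat_lit 3668139455) (nat_lit 152) (nat_lit 8447104608) (nat_lit 133) (nat_lit 5) (nat_lit 134) (nat_lit 5) (nat_lit 135) (nat_lit 4) (nat_lit 431) (nat_lit 314) (nat_lit 275)) (XT.lf (nat_lit 0) (nat_lit 1354284234) (nat_lit 152) (nat_lit 13741288737) (nat_lit 152) (nat_lit 1828791678) (nat_lit 131) (nat_lit 4) (nat_lit 133) (nat_lit 5) (nat_lit 133) (nat_lit 4) (nat_lit 432) (nat_lit 314) (nat_lit 274))))))))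
noncomputable def xc12 : XT := (XT.nd (nat_lit 51168) (nat_lit 0) (nat_lit 836) (XT.nd (nat_lit 50232) (nat_lit 0) (nat_lit 4408) (XT.nd (nat_lit 49764) (nat_lit 0) (nat_lit 7144) (XT.nd (nat_lit 156) (nat_lit 456) (nat_lit 0) (XT.nd (nat_lit 78) (nat_lit 76) (nat_lit 0) (XT.lf (nat_lit 0) (nat_lit 4967895941) (nat_lit 228) (nat_lit 1981054741) (nat_lit 76) (nat_lit 10264233707) (nat_lit 130) (nat_lit 5) (nat_lit 133) (nat_lit 5) (nat_lit 131) (nat_lit 4) (nat_lit 433) (nat_lit 314) (nat_lit 273)) (XT.lf (nat_lit 0) (nat_lit 11968615133) (nat_lit 152) (nat_lit 5430820052) (nat_lit 0) (nat_lit 109583695) (nat_lit 129) (nat_lit 5) (nat_lit 131) (nat_lit 4) (nat_lit 129) (nat_lit 4) (nat_lit 434) (nat_lit 314) (nat_lit 272))) (XT.nd (nat_lit 78) (nat_lit 228) (nat_lit 0) (XT.lf (nat_lit 0) (nat_lit 1432731147) (nat_lit 228) (nat_lit 9090957534) (nat_lit 76) (nat_lit 7286833349) (nat_lit 126) (nat_lit 5)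 (nat_lit 129) (nat_lit 5) (nat_lit 127) (nat_lit 4) (nat_lit 435) (nat_lit 314) (nat_lit 271)) (XT.nd (nat_lit 78) (nat_lit 152) (nat_lit 0) (XT.lf (nat_lit 0) (nat_lit 5177807024) (nat_lit 76) (nat_lit 3351006106) (nat_lit 152) (nat_lit 9589858188) (nat_lit 125) (nat_lit 5) (nat_lit 126) (nat_lit 5) (nat_lit 127) (nat_lit 4) (nat_lit 436) (nat_lit 314) (nat_lit 270)) (XT.lf (nat_lit 0) (nat_lit 1462145816) (nat_lit 152) (nat_lit 14441312352) (nat_lit 152) (nat_lit 2530636501) (nat_lit 123) (nat_lit 4) (nat_lit 125) (nat_lit 5) (nat_lit 125) (nat_lit 4) (nat_lit 437) (nat_lit 314) (nat_lit 269))))) (XT.nd (nat_lit 234) (nat_lit 912) (nat_lit 0) (XT.nd (nat_lit 78) (nat_lit 684) (nat_lit 0) (XT.lf (nat_lit 0) (nat_lit 1590638457) (nat_lit 380) (nat_lit 1370311040) (nat_lit 0) (nat_lit 1590638457) (nat_lit 238) (nat_lit 5) (nat_lit 243) (nat_lit 4) (nat_lit 238) (nat_lit 4) (nat_lit 390) (nat_lit 315)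 (nat_lit 315)) (XT.nd (nat_lit 78) (nat_lit 380) (nat_lit 0) (XT.lf (nat_lit 0) (nat_lit 5540462630) (nat_lit 304) (nat_lit 2274953840) (nat_lit 304) (nat_lit 1397582916) (nat_lit 234) (nat_lit 4) (nat_lit 238) (nat_lit 5) (nat_lit 238) (nat_lit 4) (nat_lit 391) (nat_lit 315) (nat_lit 314)) (XT.lf (nat_lit 0) (nat_lit 3179866010) (nat_lit 380) (nat_lit 4644835425) (nat_lit 0) (nat_lit 1501043336) (nat_lit 229) (nat_lit 5) (nat_lit 234) (nat_lit 4) (nat_lit 229) (nat_lit 4) (nat_lit 392) (nat_lit 315) (nat_lit 313)))) (XT.nd (nat_lit 78) (nat_lit 608) (nat_lit 0) (XT.lf (nat_lit 0) (nat_lit 3790937325) (nat_lit 304) (nat_lit 4066270817) (nat_lit 304) (nat_lit 1584529460) (nat_lit 225) (nat_lit 4) (nat_lit 229) (nat_lit 5) (nat_lit 229) (nat_lit 4) (nat_lit 393) (nat_lit 315) (nat_lit 312)) (XT.nd (nat_lit 78) (nat_lit 304) (nat_lit 0) (XT.lf (nat_lit 0) (nat_lit 2874633477) (nat_lit 228) (nat_lit 147981072)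 (nat_lit 304) (nat_lit 6538606369) (nat_lit 221) (nat_lit 5) (nat_lit 224) (nat_lit 5) (nat_lit 225) (nat_lit 4) (nat_lit 394) (nat_lit 315) (nat_lit 311)) (XT.lf (nat_lit 0) (nat_lit 1905485991) (nat_lit 304) (nat_lit 5839567045) (nat_lit 304) (nat_lit 1938497215) (nat_lit 217) (nat_lit 4) (nat_lit 221) (nat_lit 5) (nat_lit 221) (nat_lit 4) (nat_lit 395) (nat_lit 315) (nat_lit 310)))))) (XT.nd (nat_lit 468) (nat_lit 1292) (nat_lit 0) (XT.nd (nat_lit 234) (nat_lit 760) (nat_lit 0) (XT.nd (nat_lit 78) (nat_lit 380) (nat_lit 0) (XT.lf (nat_lit 0) (nat_lit 905908074) (nat_lit 228) (nat_lit 1813481459) (nat_lit 304) (nat_lit 7090120435) (nat_lit 213) (nat_lit 5) (nat_lit 216) (nat_lit 5) (nat_lit 217) (nat_lit 4) (nat_lit 396) (nat_lit 315) (nat_lit 309)) (XT.nd (nat_lit 78) (nat_lit 380) (nat_lit 0) (XT.lf (nat_lit 0) (nat_lit 7476666526) (nat_lit 304) (nat_lit 137864071) (nat_lit 0) (nat_lit 2324183624)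 (nat_lit 213) (nat_lit 5) (nat_lit 217) (nat_lit 4) (nat_lit 213) (nat_lit 4) (nat_lit 397) (nat_lit 315) (nat_lit 308)) (XT.lf (nat_lit 0) (nat_lit 2263132771) (nat_lit 380) (nat_lit 1211169741) (nat_lit 76) (nat_lit 6596730162) (nat_lit 208) (nat_lit 5) (nat_lit 213) (nat_lit 5) (nat_lit 209) (nat_lit 4) (nat_lit 398) (nat_lit 315) (nat_lit 307)))) (XT.nd (nat_lit 78) (nat_lit 532) (nat_lit 0) (XT.lf (nat_lit 0) (nat_lit 7066056719) (nat_lit 304) (nat_lit 2326524077) (nat_lit 0) (nat_lit 814444399) (nat_lit 205) (nat_lit 5) (nat_lit 209) (nat_lit 4) (nat_lit 205) (nat_lit 4) (nat_lit 399) (nat_lit 315) (nat_lit 306)) (XT.nd (nat_lit 78) (nat_lit 228) (nat_lit 0) (XT.lf (nat_lit 0) (nat_lit 1647250050) (nat_lit 304) (nat_lit 3505141624) (nat_lit 76) (nat_lit 5193811740) (nat_lit 201) (nat_lit 5) (nat_lit 205) (nat_lit 5) (nat_lit 202) (nat_lit 4) (nat_lit 400) (nat_lit 315) (nat_lit 305)) (XT.lf (nat_lit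 0) (nat_lit 5758582397) (nat_lit 228) (nat_lit 737815220) (nat_lit 304) (nat_lit 3992814016) (nat_lit 198) (nat_lit 5) (nat_lit 201) (nat_lit 5) (nat_lit 202) (nat_lit 4) (nat_lit 401) (nat_lit 315) (nat_lit 304))))) (XT.nd (nat_lit 234) (nat_lit 532) (nat_lit 0) (XT.nd (nat_lit 78) (nat_lit 456) (nat_lit 0) (XT.lf (nat_lit 0) (nat_lit 856835324) (nat_lit 304) (nat_lit 6020095917) (nat_lit 76) (nat_lit 3758762424) (nat_lit 194) (nat_lit 5) (nat_lit 198) (nat_lit 5) (nat_lit 195) (nat_lit 4) (nat_lit 402) (nat_lit 315) (nat_lit 303)) (XT.nd (nat_lit 78) (nat_lit 228) (nat_lit 0) (XT.lf (nat_lit 0) (nat_lit 3407264052) (nat_lit 228) (nat_lit 2355080537) (nat_lit 304) (nat_lit 5023320925) (nat_lit 191) (nat_lit 5) (nat_lit 194) (nat_lit 5) (nat_lit 195) (nat_lit 4) (nat_lit 403) (nat_lit 315) (nat_lit 302)) (XT.lf (nat_lit 0) (nat_lit 2155288066) (nat_lit 228) (nat_lit 8666908034) (nat_lit 228) (nat_lit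 117725108) (nat_lit 188) (nat_lit 4) (nat_lit 191) (nat_lit 5) (nat_lit 191) (nat_lit 4) (nat_lit 404) (nat_lit 315) (nat_lit 301)))) (XT.nd (nat_lit 78) (nat_lit 304) (nat_lit 0) (XT.lf (nat_lit 0) (nat_lit 807057424) (nat_lit 152) (nat_lit 4041227973) (nat_lit 228) (nat_lit 6248809601) (nat_lit 185) (nat_lit 5) (nat_lit 187) (nat_lit 5) (nat_lit 188) (nat_lit 4) (nat_lit 405) (nat_lit 315) (nat_lit 300)) (XT.nd (nat_lit 78) (nat_lit 304) (nat_lit 0) (XT.lf (nat_lit 0) (nat_lit 9961235006) (nat_lit 228) (nat_lit 566170284) (nat_lit 0) (nat_lit 731533997) (nat_lit 185) (nat_lit 5) (nat_lit 188) (nat_lit 4) (nat_lit 185) (nat_lit 4) (nat_lit 406) (nat_lit 315) (nat_lit 299)) (XT.lf (nat_lit 0) (nat_lit 3765370549) (nat_lit 304) (nat_lit 2030555400) (nat_lit 76) (nat_lit 5627487786) (nat_lit 181) (nat_lit 5) (nat_lit 185) (nat_lit 5) (nat_lit 182) (nat_lit 4) (nat_lit 407) (nat_lit 315) (nat_lit 298)))))))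 (XT.nd (nat_lit 936) (nat_lit 1444) (nat_lit 0) (XT.nd (nat_lit 468) (nat_lit 988) (nat_lit 0) (XT.nd (nat_lit 234) (nat_lit 532) (nat_lit 0) (XT.nd (nat_lit 78) (nat_lit 456) (nat_lit 0) (XT.lf (nat_lit 0) (nat_lit 8051001339) (nat_lit 152) (nat_lit 893268272) (nat_lit 228) (nat_lit 2648466913) (nat_lit 179) (nat_lit 5) (nat_lit 181) (nat_lit 5) (nat_lit 182) (nat_lit 4) (nat_lit 408) (nat_lit 315) (nat_lit 297)) (XT.nd (nat_lit 78) (nat_lit 152) (nat_lit 0) (XT.lf (nat_lit 0) (nat_lit 2494505426) (nat_lit 304) (nat_lit 5154506616) (nat_lit 76) (nat_lit 4116439265) (nat_lit 175) (nat_lit 5) (nat_lit 179) (nat_lit 5) (nat_lit 176) (nat_lit 4) (nat_lit 409) (nat_lit 315) (nat_lit 296)) (XT.lf (nat_lit 0) (nat_lit 5099066308) (nat_lit 152) (nat_lit 2641033065) (nat_lit 228) (nat_lit 4202414569) (nat_lit 173) (nat_lit 5) (nat_lit 175) (nat_lit 5) (nat_lit 176) (nat_lit 4) (nat_lit 410) (nat_lit 315) (nat_lit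 295)))) (XT.nd (nat_lit 78) (nat_lit 304) (nat_lit 0) (XT.lf (nat_lit 0) (nat_lit 1017154649) (nat_lit 228) (nat_lit 8611694366) (nat_lit 76) (nat_lit 2495180316) (nat_lit 170) (nat_lit 5) (nat_lit 173) (nat_lit 5) (nat_lit 171) (nat_lit 4) (nat_lit 411) (nat_lit 315) (nat_lit 294)) (XT.nd (nat_lit 78) (nat_lit 152) (nat_lit 0) (XT.lf (nat_lit 0) (nat_lit 1812872352) (nat_lit 152) (nat_lit 4517598515) (nat_lit 228) (nat_lit 5978622344) (nat_lit 168) (nat_lit 5) (nat_lit 170) (nat_lit 5) (nat_lit 171) (nat_lit 4) (nat_lit 412) (nat_lit 315) (nat_lit 293)) (XT.lf (nat_lit 0) (nat_lit 58061424) (nat_lit 152) (nat_lit 11749362465) (nat_lit 152) (nat_lit 692157998) (nat_lit 166) (nat_lit 4) (nat_lit 168) (nat_lit 5) (nat_lit 168) (nat_lit 4) (nat_lit 413) (nat_lit 315) (nat_lit 292))))) (XT.nd (nat_lit 234) (nat_lit 532) (nat_lit 0) (XT.nd (nat_lit 78) (nat_lit 380) (nat_lit 0) (XT.lf (nat_lit 0) (nat_lit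 4720799342) (nat_lit 228) (nat_lit 1804773667) (nat_lit 76) (nat_lit 6167022224) (nat_lit 165) (nat_lit 5) (nat_lit 168) (nat_lit 5) (nat_lit 166) (nat_lit 4) (nat_lit 414) (nat_lit 315) (nat_lit 291)) (XT.nd (nat_lit 78) (nat_lit 228) (nat_lit 0) (XT.lf (nat_lit 0) (nat_lit 9162989795) (nat_lit 152) (nat_lit 1118854184) (nat_lit 228) (nat_lit 2609361100) (nat_lit 163) (nat_lit 5) (nat_lit 165) (nat_lit 5) (nat_lit 166) (nat_lit 4) (nat_lit 415) (nat_lit 315) (nat_lit 290)) (XT.lf (nat_lit 0) (nat_lit 2901170278) (nat_lit 228) (nat_lit 5781455930) (nat_lit 76) (nat_lit 4410984140) (nat_lit 160) (nat_lit 5) (nat_lit 163) (nat_lit 5) (nat_lit 161) (nat_lit 4) (nat_lit 416) (nat_lit 315) (nat_lit 289)))) (XT.nd (nat_lit 78) (nat_lit 380) (nat_lit 0) (XT.lf (nat_lit 0) (nat_lit 5366043307) (nat_lit 152) (nat_lit 3171286343) (nat_lit 228) (nat_lit 4763600337) (nat_lit 158) (nat_lit 5) (nat_lit 160) (nat_lit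 5) (nat_lit 161) (nat_lit 4) (nat_lit 417) (nat_lit 315) (nat_lit 288)) (XT.nd (nat_lit 78) (nat_lit 152) (nat_lit 0) (XT.lf (nat_lit 0) (nat_lit 839718183) (nat_lit 228) (nat_lit 10188653500) (nat_lit 76) (nat_lit 2485025540) (nat_lit 155) (nat_lit 5) (nat_lit 158) (nat_lit 5) (nat_lit 156) (nat_lit 4) (nat_lit 418) (nat_lit 315) (nat_lit 287)) (XT.lf (nat_lit 0) (nat_lit 1136726165) (nat_lit 152) (nat_lit 5414491389) (nat_lit 228) (nat_lit 7178531241) (nat_lit 153) (nat_lit 5) (nat_lit 155) (nat_lit 5) (nat_lit 156) (nat_lit 4) (nat_lit 419) (nat_lit 315) (nat_lit 286)))))) (XT.nd (nat_lit 468) (nat_lit 684) (nat_lit 0) (XT.nd (nat_lit 234) (nat_lit 456) (nat_lit 0) (XT.nd (nat_lit 78) (nat_lit 304) (nat_lit 0) (XT.lf (nat_lit 0) (nat_lit 12454390922) (nat_lit 228) (nat_lit 1104728934) (nat_lit 0) (nat_lit 392861189) (nat_lit 153) (nat_lit 5) (nat_lit 156) (nat_lit 4) (nat_lit 153) (nat_lit 4) (nat_lit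 420) (nat_lit 315) (nat_lit 285)) (XT.nd (nat_lit 78) (nat_lit 76) (nat_lit 0) (XT.lf (nat_lit 0) (nat_lit 4341687844) (nat_lit 228) (nat_lit 3494043623) (nat_lit 76) (nat_lit 6341707262) (nat_lit 150) (nat_lit 5) (nat_lit 153) (nat_lit 5) (nat_lit 151) (nat_lit 4) (nat_lit 421) (nat_lit 315) (nat_lit 284)) (XT.lf (nat_lit 0) (nat_lit 8431230610) (nat_lit 76) (nat_lit 1902696306) (nat_lit 152) (nat_lit 4075051916) (nat_lit 149) (nat_lit 5) (nat_lit 150) (nat_lit 5) (nat_lit 151) (nat_lit 4) (nat_lit 422) (nat_lit 315) (nat_lit 283)))) (XT.nd (nat_lit 78) (nat_lit 228) (nat_lit 0) (XT.lf (nat_lit 0) (nat_lit 1872881840) (nat_lit 228) (nat_lit 8604507911) (nat_lit 76) (nat_lit 4168019066) (nat_lit 146) (nat_lit 5) (nat_lit 149) (nat_lit 5) (nat_lit 147) (nat_lit 4) (nat_lit 423) (nat_lit 315) (nat_lit 282)) (XT.nd (nat_lit 78) (nat_lit 152) (nat_lit 0) (XT.lf (nat_lit 0) (nat_lit 3506930424) (nat_lit 76)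 (nat_lit 4439907440) (nat_lit 152) (nat_lit 6939998764) (nat_lit 145) (nat_lit 5) (nat_lit 146) (nat_lit 5) (nat_lit 147) (nat_lit 4) (nat_lit 424) (nat_lit 315) (nat_lit 281)) (XT.lf (nat_lit 0) (nat_lit 866650369) (nat_lit 152) (nat_lit 13365770413) (nat_lit 152) (nat_lit 902204246) (nat_lit 143) (nat_lit 4) (nat_lit 145) (nat_lit 5) (nat_lit 145) (nat_lit 4) (nat_lit 425) (nat_lit 315) (nat_lit 280))))) (XT.nd (nat_lit 234) (nat_lit 304) (nat_lit 0) (XT.nd (nat_lit 78) (nat_lit 304) (nat_lit 0) (XT.lf (nat_lit 0) (nat_lit 5289338885) (nat_lit 228) (nat_lit 1926342749) (nat_lit 76) (nat_lit 8170341321) (nat_lit 142) (nat_lit 5) (nat_lit 145) (nat_lit 5) (nat_lit 143) (nat_lit 4) (nat_lit 426) (nat_lit 315) (nat_lit 279)) (XT.nd (nat_lit 78) (nat_lit 228) (nat_lit 0) (XT.lf (nat_lit 0) (nat_lit 10835007445) (nat_lit 76) (nat_lit 836427771) (nat_lit 152) (nat_lit 3972571412) (nat_lit 141) (nat_lit 5)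 (nat_lit 142) (nat_lit 5) (nat_lit 143) (nat_lit 4) (nat_lit 427) (nat_lit 315) (nat_lit 278)) (XT.lf (nat_lit 0) (nat_lit 2361638399) (nat_lit 228) (nat_lit 7872526501) (nat_lit 76) (nat_lit 5672733177) (nat_lit 138) (nat_lit 5) (nat_lit 141) (nat_lit 5) (nat_lit 139) (nat_lit 4) (nat_lit 428) (nat_lit 315) (nat_lit 277)))) (XT.nd (nat_lit 78) (nat_lit 228) (nat_lit 0) (XT.lf (nat_lit 0) (nat_lit 5083140135) (nat_lit 76) (nat_lit 3748194600) (nat_lit 152) (nat_lit 7344402411) (nat_lit 137) (nat_lit 5) (nat_lit 138) (nat_lit 5) (nat_lit 139) (nat_lit 4) (nat_lit 429) (nat_lit 315) (nat_lit 276)) (XT.nd (nat_lit 78) (nat_lit 76) (nat_lit 0) (XT.lf (nat_lit 0) (nat_lit 1994989574) (nat_lit 152) (nat_lit 13547105377) (nat_lit 152) (nat_lit 909137248) (nat_lit 135) (nat_lit 4) (nat_lit 137) (nat_lit 5) (nat_lit 137) (nat_lit 4) (nat_lit 430) (nat_lit 315) (nat_lit 275)) (XT.lf (nat_lit 0) (nat_lit 5677239593)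 (nat_lit 228) (nat_lit 1275899433) (nat_lit 76) (nat_lit 9778114118) (nat_lit 134) (nat_lit 5) (nat_lit 137) (nat_lit 5) (nat_lit 135) (nat_lit 4) (nat_lit 431) (nat_lit 315) (nat_lit 274))))))))
noncomputable def xc13 : XT := (XT.nd (nat_lit 51012) (nat_lit 0) (nat_lit 988) (XT.nd (nat_lit 50076) (nat_lit 0) (nat_lit 4788) (XT.nd (nat_lit 390) (nat_lit 76) (nat_lit 0) (XT.nd (nat_lit 156) (nat_lit 304) (nat_lit 0) (XT.nd (nat_lit 78) (nat_lit 228) (nat_lit 0) (XT.lf (nat_lit 0) (nat_lit 12383308602) (nat_lit 76) (nat_lit 100431520) (nat_lit 152) (nat_lit 4534440402) (nat_lit 133) (nat_lit 5) (nat_lit 134) (nat_lit 5) (nat_lit 135) (nat_lit 4) (nat_lit 432) (nat_lit 315) (nat_lit 273)) (XT.lf (nat_lit 0) (nat_lit 2228632201) (nat_lit 228) (nat_lit 8206041961) (nat_lit 76) (nat_lit 6875698711) (nat_lit 130) (nat_lit 5) (nat_lit 133) (nat_lit 5) (nat_lit 131) (nat_lit 4) (nat_lit 433) (nat_lit 315) (nat_lit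 272))) (XT.nd (nat_lit 78) (nat_lit 228) (nat_lit 0) (XT.lf (nat_lit 0) (nat_lit 5655339582) (nat_lit 76) (nat_lit 3472781770) (nat_lit 152) (nat_lit 8481122912) (nat_lit 129) (nat_lit 5) (nat_lit 130) (nat_lit 5) (nat_lit 131) (nat_lit 4) (nat_lit 434) (nat_lit 315) (nat_lit 271)) (XT.nd (nat_lit 78) (nat_lit 76) (nat_lit 0) (XT.lf (nat_lit 0) (nat_lit 2039999382) (nat_lit 152) (nat_lit 14255643498) (nat_lit 152) (nat_lit 1619607488) (nat_lit 127) (nat_lit 4) (nat_lit 129) (nat_lit 5) (nat_lit 129) (nat_lit 4) (nat_lit 435) (nat_lit 315) (nat_lit 270)) (XT.lf (nat_lit 0) (nat_lit 5420023497) (nat_lit 228) (nat_lit 1765700804) (nat_lit 76) (nat_lit 11040784077) (nat_lit 126) (nat_lit 5) (nat_lit 129) (nat_lit 5) (nat_lit 127) (nat_lit 4) (nat_lit 436) (nat_lit 315) (nat_lit 269))))) (XT.nd (nat_lit 49452) (nat_lit 0) (nat_lit 7904) (XT.nd (nat_lit 49296) (nat_lit 0) (nat_lit 8968) (XT.lf (nat_lit 0)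 (nat_lit 12688061726) (nat_lit 152) (nat_lit 5690178554) (nat_lit 0) (nat_lit 166889652) (nat_lit 125) (nat_lit 5) (nat_lit 127) (nat_lit 4) (nat_lit 125) (nat_lit 4) (nat_lit 437) (nat_lit 315) (nat_lit 268)) (XT.nd (nat_lit 78) (nat_lit 380) (nat_lit 0) (XT.lf (nat_lit 0) (nat_lit 2005236865) (nat_lit 380) (nat_lit 435393857) (nat_lit 0) (nat_lit 2005236865) (nat_lit 248) (nat_lit 5) (nat_lit 253) (nat_lit 4) (nat_lit 248) (nat_lit 4) (nat_lit 388) (nat_lit 316) (nat_lit 316)) (XT.lf (nat_lit 0) (nat_lit 7178138150) (nat_lit 380) (nat_lit 1374861861) (nat_lit 380) (nat_lit 444059049) (nat_lit 243) (nat_lit 4) (nat_lit 248) (nat_lit 5) (nat_lit 248) (nat_lit 4) (nat_lit 389) (nat_lit 316) (nat_lit 315)))) (XT.nd (nat_lit 78) (nat_lit 684) (nat_lit 0) (XT.lf (nat_lit 0) (nat_lit 4032134308) (nat_lit 380) (nat_lit 2821555305) (nat_lit 0) (nat_lit 2251071334) (nat_lit 238) (nat_lit 5) (nat_lit 243) (nat_lit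 4) (nat_lit 238) (nat_lit 4) (nat_lit 390) (nat_lit 316) (nat_lit 314)) (XT.nd (nat_lit 78) (nat_lit 380) (nat_lit 0) (XT.lf (nat_lit 0) (nat_lit 5377778912) (nat_lit 304) (nat_lit 3235635353) (nat_lit 304) (nat_lit 602755948) (nat_lit 234) (nat_lit 4) (nat_lit 238) (nat_lit 5) (nat_lit 238) (nat_lit 4) (nat_lit 391) (nat_lit 316) (nat_lit 313)) (XT.lf (nat_lit 0) (nat_lit 3896208753) (nat_lit 380) (nat_lit 4897270391) (nat_lit 0) (nat_lit 537096473) (nat_lit 229) (nat_lit 5) (nat_lit 234) (nat_lit 4) (nat_lit 229) (nat_lit 4) (nat_lit 392) (nat_lit 316) (nat_lit 312)))))) (XT.nd (nat_lit 468) (nat_lit 1520) (nat_lit 0) (XT.nd (nat_lit 234) (nat_lit 684) (nat_lit 0) (XT.nd (nat_lit 78) (nat_lit 608) (nat_lit 0) (XT.lf (nat_lit 0) (nat_lit 3452608722) (nat_lit 304) (nat_lit 5067109839) (nat_lit 304) (nat_lit 928464857) (nat_lit 225) (nat_lit 4) (nat_lit 229) (nat_lit 5) (nat_lit 229) (nat_lit 4) (nat_lit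 393) (nat_lit 316) (nat_lit 311)) (XT.nd (nat_lit 78) (nat_lit 304) (nat_lit 0) (XT.lf (nat_lit 0) (nat_lit 2435466405) (nat_lit 228) (nat_lit 1175833719) (nat_lit 304) (nat_lit 5957814719) (nat_lit 221) (nat_lit 5) (nat_lit 224) (nat_lit 5) (nat_lit 225) (nat_lit 4) (nat_lit 394) (nat_lit 316) (nat_lit 310)) (XT.lf (nat_lit 0) (nat_lit 1378066920) (nat_lit 304) (nat_lit 6890796314) (nat_lit 304) (nat_lit 1424527204) (nat_lit 217) (nat_lit 4) (nat_lit 221) (nat_lit 5) (nat_lit 221) (nat_lit 4) (nat_lit 395) (nat_lit 316) (nat_lit 309)))) (XT.nd (nat_lit 78) (nat_lit 380) (nat_lit 0) (XT.lf (nat_lit 0) (nat_lit 271169892) (nat_lit 228) (nat_lit 2896339325) (nat_lit 304) (nat_lit 6653367348) (nat_lit 213) (nat_lit 5) (nat_lit 216) (nat_lit 5) (nat_lit 217) (nat_lit 4) (nat_lit 396) (nat_lit 316) (nat_lit 308)) (XT.nd (nat_lit 78) (nat_lit 380) (nat_lit 0) (XT.lf (nat_lit 0) (nat_lit 7865051335) (nat_lit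 304) (nat_lit 854105705) (nat_lit 0) (nat_lit 1232715824) (nat_lit 213) (nat_lit 5) (nat_lit 217) (nat_lit 4) (nat_lit 213) (nat_lit 4) (nat_lit 397) (nat_lit 316) (nat_lit 307)) (XT.lf (nat_lit 0) (nat_lit 2574807906) (nat_lit 380) (nat_lit 2039306883) (nat_lit 76) (nat_lit 5471655191) (nat_lit 208) (nat_lit 5) (nat_lit 213) (nat_lit 5) (nat_lit 209) (nat_lit 4) (nat_lit 398) (nat_lit 316) (nat_lit 306))))) (XT.nd (nat_lit 234) (nat_lit 760) (nat_lit 0) (XT.nd (nat_lit 78) (nat_lit 532) (nat_lit 0) (XT.lf (nat_lit 0) (nat_lit 6964164012) (nat_lit 228) (nat_lit 348989317) (nat_lit 304) (nat_lit 2910546528) (nat_lit 205) (nat_lit 5) (nat_lit 208) (nat_lit 5) (nat_lit 209) (nat_lit 4) (nat_lit 399) (nat_lit 316) (nat_lit 305)) (XT.nd (nat_lit 78) (nat_lit 228) (nat_lit 0) (XT.lf (nat_lit 0) (nat_lit 1811978214) (nat_lit 304) (nat_lit 4553707673) (nat_lit 76) (nat_lit 3998961662) (nat_lit 201) (nat_lit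 5) (nat_lit 205) (nat_lit 5) (nat_lit 202) (nat_lit 4) (nat_lit 400) (nat_lit 316) (nat_lit 304)) (XT.lf (nat_lit 0) (nat_lit 4608677812) (nat_lit 228) (nat_lit 1994205079) (nat_lit 304) (nat_lit 3906520164) (nat_lit 198) (nat_lit 5) (nat_lit 201) (nat_lit 5) (nat_lit 202) (nat_lit 4) (nat_lit 401) (nat_lit 316) (nat_lit 303)))) (XT.nd (nat_lit 78) (nat_lit 456) (nat_lit 0) (XT.lf (nat_lit 0) (nat_lit 869665337) (nat_lit 304) (nat_lit 7304407531) (nat_lit 76) (nat_lit 2483940733) (nat_lit 194) (nat_lit 5) (nat_lit 198) (nat_lit 5) (nat_lit 195) (nat_lit 4) (nat_lit 402) (nat_lit 316) (nat_lit 302)) (XT.nd (nat_lit 78) (nat_lit 228) (nat_lit 0) (XT.lf (nat_lit 0) (nat_lit 2016439537) (nat_lit 228) (nat_lit 3698649454) (nat_lit 304) (nat_lit 5094699026) (nat_lit 191) (nat_lit 5) (nat_lit 194) (nat_lit 5) (nat_lit 195) (nat_lit 4) (nat_lit 403) (nat_lit 316) (nat_lit 301)) (XT.lf (nat_lit 0) (nat_lit 644101751)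 (nat_lit 228) (nat_lit 10056973853) (nat_lit 228) (nat_lit 265184053) (nat_lit 188) (nat_lit 4) (nat_lit 191) (nat_lit 5) (nat_lit 191) (nat_lit 4) (nat_lit 404) (nat_lit 316) (nat_lit 300))))))) (XT.nd (nat_lit 936) (nat_lit 1672) (nat_lit 0) (XT.nd (nat_lit 468) (nat_lit 988) (nat_lit 0) (XT.nd (nat_lit 234) (nat_lit 608) (nat_lit 0) (XT.nd (nat_lit 78) (nat_lit 456) (nat_lit 0) (XT.lf (nat_lit 0) (nat_lit 4649662822) (nat_lit 304) (nat_lit 824604375) (nat_lit 76) (nat_lit 5650830009) (nat_lit 187) (nat_lit 5) (nat_lit 191) (nat_lit 5) (nat_lit 188) (nat_lit 4) (nat_lit 405) (nat_lit 316) (nat_lit 299)) (XT.nd (nat_lit 78) (nat_lit 304) (nat_lit 0) (XT.lf (nat_lit 0) (nat_lit 8973059527) (nat_lit 152) (nat_lit 728601919) (nat_lit 228) (nat_lit 1587108578) (nat_lit 185) (nat_lit 5) (nat_lit 187) (nat_lit 5) (nat_lit 188) (nat_lit 4) (nat_lit 406) (nat_lit 316) (nat_lit 298)) (XT.lf (nat_lit 0) (nat_lit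 3411400724) (nat_lit 304) (nat_lit 3915506836) (nat_lit 76) (nat_lit 4128526755) (nat_lit 181) (nat_lit 5) (nat_lit 185) (nat_lit 5) (nat_lit 182) (nat_lit 4) (nat_lit 407) (nat_lit 316) (nat_lit 297)))) (XT.nd (nat_lit 78) (nat_lit 456) (nat_lit 0) (XT.lf (nat_lit 0) (nat_lit 6049119811) (nat_lit 152) (nat_lit 2477386276) (nat_lit 228) (nat_lit 3100164827) (nat_lit 179) (nat_lit 5) (nat_lit 181) (nat_lit 5) (nat_lit 182) (nat_lit 4) (nat_lit 408) (nat_lit 316) (nat_lit 296)) (XT.nd (nat_lit 78) (nat_lit 152) (nat_lit 0) (XT.lf (nat_lit 0) (nat_lit 1970713389) (nat_lit 304) (nat_lit 7326170089) (nat_lit 76) (nat_lit 2505059732) (nat_lit 175) (nat_lit 5) (nat_lit 179) (nat_lit 5) (nat_lit 176) (nat_lit 4) (nat_lit 409) (nat_lit 316) (nat_lit 295)) (XT.lf (nat_lit 0) (nat_lit 2804407537) (nat_lit 152) (nat_lit 4345643813) (nat_lit 228) (nat_lit 4830942174) (nat_lit 173) (nat_lit 5) (nat_lit 175) (nat_lit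 5) (nat_lit 176) (nat_lit 4) (nat_lit 410) (nat_lit 316) (nat_lit 294))))) (XT.nd (nat_lit 234) (nat_lit 608) (nat_lit 0) (XT.nd (nat_lit 78) (nat_lit 152) (nat_lit 0) (XT.lf (nat_lit 0) (nat_lit 316213327) (nat_lit 228) (nat_lit 11088675163) (nat_lit 76) (nat_lit 760342033) (nat_lit 170) (nat_lit 5) (nat_lit 173) (nat_lit 5) (nat_lit 171) (nat_lit 4) (nat_lit 411) (nat_lit 316) (nat_lit 293)) (XT.nd (nat_lit 78) (nat_lit 152) (nat_lit 0) (XT.lf (nat_lit 0) (nat_lit 5568226977) (nat_lit 228) (nat_lit 778024544) (nat_lit 76) (nat_lit 6005881959) (nat_lit 170) (nat_lit 5) (nat_lit 173) (nat_lit 5) (nat_lit 171) (nat_lit 4) (nat_lit 412) (nat_lit 316) (nat_lit 292)) (XT.lf (nat_lit 0) (nat_lit 9879945640) (nat_lit 152) (nat_lit 1106353163) (nat_lit 228) (nat_lit 1558089790) (nat_lit 168) (nat_lit 5) (nat_lit 170) (nat_lit 5) (nat_lit 171) (nat_lit 4) (nat_lit 413) (nat_lit 316) (nat_lit 291)))) (XT.nd (nat_lit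 78) (nat_lit 380) (nat_lit 0) (XT.lf (nat_lit 0) (nat_lit 3791168153) (nat_lit 228) (nat_lit 4685513889) (nat_lit 76) (nat_lit 4263387518) (nat_lit 165) (nat_lit 5) (nat_lit 168) (nat_lit 5) (nat_lit 166) (nat_lit 4) (nat_lit 414) (nat_lit 316) (nat_lit 290)) (XT.nd (nat_lit 78) (nat_lit 228) (nat_lit 0) (XT.lf (nat_lit 0) (nat_lit 6146854807) (nat_lit 152) (nat_lit 3134053127) (nat_lit 228) (nat_lit 3659910618) (nat_lit 163) (nat_lit 5) (nat_lit 165) (nat_lit 5) (nat_lit 166) (nat_lit 4) (nat_lit 415) (nat_lit 316) (nat_lit 289)) (XT.lf (nat_lit 0) (nat_lit 1778084046) (nat_lit 228) (nat_lit 9008071635) (nat_lit 76) (nat_lit 2360162196) (nat_lit 160) (nat_lit 5) (nat_lit 163) (nat_lit 5) (nat_lit 161) (nat_lit 4) (nat_lit 416) (nat_lit 316) (nat_lit 288)))))) (XT.nd (nat_lit 468) (nat_lit 836) (nat_lit 0) (XT.nd (nat_lit 234) (nat_lit 456) (nat_lit 0) (XT.nd (nat_lit 78) (nat_lit 228) (nat_lit 0) (XT.lf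 (nat_lit 0) (nat_lit 1996882051) (nat_lit 152) (nat_lit 5342924978) (nat_lit 228) (nat_lit 6016063580) (nat_lit 158) (nat_lit 5) (nat_lit 160) (nat_lit 5) (nat_lit 161) (nat_lit 4) (nat_lit 417) (nat_lit 316) (nat_lit 287)) (XT.nd (nat_lit 78) (nat_lit 228) (nat_lit 0) (XT.lf (nat_lit 0) (nat_lit 13077747927) (nat_lit 228) (nat_lit 212009976) (nat_lit 0) (nat_lit 281671033) (nat_lit 158) (nat_lit 5) (nat_lit 161) (nat_lit 4) (nat_lit 158) (nat_lit 4) (nat_lit 418) (nat_lit 316) (nat_lit 286)) (XT.lf (nat_lit 0) (nat_lit 5172615630) (nat_lit 228) (nat_lit 2556797317) (nat_lit 76) (nat_lit 6060155015) (nat_lit 155) (nat_lit 5) (nat_lit 158) (nat_lit 5) (nat_lit 156) (nat_lit 4) (nat_lit 419) (nat_lit 316) (nat_lit 285)))) (XT.nd (nat_lit 78) (nat_lit 304) (nat_lit 0) (XT.lf (nat_lit 0) (nat_lit 9030524957) (nat_lit 152) (nat_lit 1975020080) (nat_lit 228) (nat_lit 3008362494) (nat_lit 153) (nat_lit 5) (nat_lit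 155) (nat_lit 5) (nat_lit 156) (nat_lit 4) (nat_lit 420) (nat_lit 316) (nat_lit 284)) (XT.nd (nat_lit 78) (nat_lit 76) (nat_lit 0) (XT.lf (nat_lit 0) (nat_lit 2761417658) (nat_lit 228) (nat_lit 7556333495) (nat_lit 76) (nat_lit 3925019089) (nat_lit 150) (nat_lit 5) (nat_lit 153) (nat_lit 5) (nat_lit 151) (nat_lit 4) (nat_lit 421) (nat_lit 316) (nat_lit 283)) (XT.lf (nat_lit 0) (nat_lit 4211590440) (nat_lit 76) (nat_lit 4461125098) (nat_lit 152) (nat_lit 5804023042) (nat_lit 149) (nat_lit 5) (nat_lit 150) (nat_lit 5) (nat_lit 151) (nat_lit 4) (nat_lit 422) (nat_lit 316) (nat_lit 282))))) (XT.nd (nat_lit 234) (nat_lit 532) (nat_lit 0) (XT.nd (nat_lit 78) (nat_lit 76) (nat_lit 0) (XT.lf (nat_lit 0) (nat_lit 69216447) (nat_lit 228) (nat_lit 13082087959) (nat_lit 76) (nat_lit 1565615740) (nat_lit 146) (nat_lit 5) (nat_lit 149) (nat_lit 5) (nat_lit 147) (nat_lit 4) (nat_lit 423) (nat_lit 316) (nat_lit 281))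 (XT.nd (nat_lit 78) (nat_lit 76) (nat_lit 0) (XT.lf (nat_lit 0) (nat_lit 6069277212) (nat_lit 228) (nat_lit 1114287317) (nat_lit 76) (nat_lit 7777000285) (nat_lit 146) (nat_lit 5) (nat_lit 149) (nat_lit 5) (nat_lit 147) (nat_lit 4) (nat_lit 424) (nat_lit 316) (nat_lit 280)) (XT.lf (nat_lit 0) (nat_lit 11284529896) (nat_lit 76) (nat_lit 994085133) (nat_lit 152) (nat_lit 2932025538) (nat_lit 145) (nat_lit 5) (nat_lit 146) (nat_lit 5) (nat_lit 147) (nat_lit 4) (nat_lit 425) (nat_lit 316) (nat_lit 279)))) (XT.nd (nat_lit 78) (nat_lit 304) (nat_lit 0) (XT.lf (nat_lit 0) (nat_lit 3210692471) (nat_lit 228) (nat_lit 6920345868) (nat_lit 76) (nat_lit 5334238538) (nat_lit 142) (nat_lit 5) (nat_lit 145) (nat_lit 5) (nat_lit 143) (nat_lit 4) (nat_lit 426) (nat_lit 316) (nat_lit 278)) (XT.nd (nat_lit 78) (nat_lit 228) (nat_lit 0) (XT.lf (nat_lit 0) (nat_lit 5666969682) (nat_lit 76) (nat_lit 3837299897) (nat_lit 152)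 (nat_lit 6221646549) (nat_lit 141) (nat_lit 5) (nat_lit 142) (nat_lit 5) (nat_lit 143) (nat_lit 4) (nat_lit 427) (nat_lit 316) (nat_lit 277)) (XT.lf (nat_lit 0) (nat_lit 35782066) (nat_lit 228) (nat_lit 13334982793) (nat_lit 76) (nat_lit 2622311363) (nat_lit 138) (nat_lit 5) (nat_lit 141) (nat_lit 5) (nat_lit 139) (nat_lit 4) (nat_lit 428) (nat_lit 316) (nat_lit 276))))))))
noncomputable def xc14 : XT := (XT.nd (nat_lit 50856) (nat_lit 0) (nat_lit 1824) (XT.nd (nat_lit 49920) (nat_lit 0) (nat_lit 6080) (XT.nd (nat_lit 390) (nat_lit 456) (nat_lit 0) (XT.nd (nat_lit 156) (nat_lit 456) (nat_lit 0) (XT.nd (nat_lit 78) (nat_lit 76) (nat_lit 0) (XT.lf (nat_lit 0) (nat_lit 6417933765) (nat_lit 228) (nat_lit 551852638) (nat_lit 76) (nat_lit 9294755228) (nat_lit 138) (nat_lit 5) (nat_lit 141) (nat_lit 5) (nat_lit 139) (nat_lit 4) (nat_lit 429) (nat_lit 316) (nat_lit 275)) (XT.lf (nat_lit 0) (nat_lit 12718397235)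 (nat_lit 76) (nat_lit 319171694) (nat_lit 152) (nat_lit 3505201507) (nat_lit 137) (nat_lit 5) (nat_lit 138) (nat_lit 5) (nat_lit 139) (nat_lit 4) (nat_lit 430) (nat_lit 316) (nat_lit 274))) (XT.nd (nat_lit 78) (nat_lit 228) (nat_lit 0) (XT.lf (nat_lit 0) (nat_lit 3052363405) (nat_lit 228) (nat_lit 7309134686) (nat_lit 76) (nat_lit 6464426055) (nat_lit 134) (nat_lit 5) (nat_lit 137) (nat_lit 5) (nat_lit 135) (nat_lit 4) (nat_lit 431) (nat_lit 316) (nat_lit 273)) (XT.nd (nat_lit 78) (nat_lit 152) (nat_lit 0) (XT.lf (nat_lit 0) (nat_lit 6157229482) (nat_lit 76) (nat_lit 3604370677) (nat_lit 152) (nat_lit 7354169278) (nat_lit 133) (nat_lit 5) (nat_lit 134) (nat_lit 5) (nat_lit 135) (nat_lit 4) (nat_lit 432) (nat_lit 316) (nat_lit 272)) (XT.lf (nat_lit 0) (nat_lit 2638807077) (nat_lit 152) (nat_lit 14089691045) (nat_lit 152) (nat_lit 684120442) (nat_lit 131) (nat_lit 4) (nat_lit 133) (nat_lit 5) (nat_lit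 133) (nat_lit 4) (nat_lit 433) (nat_lit 316) (nat_lit 271))))) (XT.nd (nat_lit 234) (nat_lit 76) (nat_lit 0) (XT.nd (nat_lit 78) (nat_lit 304) (nat_lit 0) (XT.lf (nat_lit 0) (nat_lit 6137069760) (nat_lit 228) (nat_lit 1087689315) (nat_lit 76) (nat_lit 10489677627) (nat_lit 130) (nat_lit 5) (nat_lit 133) (nat_lit 5) (nat_lit 131) (nat_lit 4) (nat_lit 434) (nat_lit 316) (nat_lit 270)) (XT.nd (nat_lit 78) (nat_lit 228) (nat_lit 0) (XT.lf (nat_lit 0) (nat_lit 13117332362) (nat_lit 76) (nat_lit 84418947) (nat_lit 152) (nat_lit 4821776694) (nat_lit 129) (nat_lit 5) (nat_lit 130) (nat_lit 5) (nat_lit 131) (nat_lit 4) (nat_lit 435) (nat_lit 316) (nat_lit 269)) (XT.lf (nat_lit 0) (nat_lit 2193784382) (nat_lit 228) (nat_lit 8958787889) (nat_lit 76) (nat_lit 7185733851) (nat_lit 126) (nat_lit 5) (nat_lit 129) (nat_lit 5) (nat_lit 127) (nat_lit 4) (nat_lit 436) (nat_lit 316) (nat_lit 268)))) (XT.nd (nat_lit 49140)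 (nat_lit 0) (nat_lit 9348) (XT.lf (nat_lit 0) (nat_lit 5449497504) (nat_lit 76) (nat_lit 3903401464) (nat_lit 152) (nat_lit 9307296418) (nat_lit 125) (nat_lit 5) (nat_lit 126) (nat_lit 5) (nat_lit 127) (nat_lit 4) (nat_lit 437) (nat_lit 316) (nat_lit 267)) (XT.nd (nat_lit 78) (nat_lit 380) (nat_lit 0) (XT.lf (nat_lit 0) (nat_lit 537282868) (nat_lit 380) (nat_lit 1903711910) (nat_lit 380) (nat_lit 1903711910) (nat_lit 253) (nat_lit 4) (nat_lit 258) (nat_lit 5) (nat_lit 258) (nat_lit 4) (nat_lit 386) (nat_lit 317) (nat_lit 317)) (XT.lf (nat_lit 0) (nat_lit 83542557) (nat_lit 304) (nat_lit 444059049) (nat_lit 380) (nat_lit 8262818748) (nat_lit 248) (nat_lit 5) (nat_lit 252) (nat_lit 5) (nat_lit 253) (nat_lit 4) (nat_lit 387) (nat_lit 317) (nat_lit 316)))))) (XT.nd (nat_lit 468) (nat_lit 1520) (nat_lit 0) (XT.nd (nat_lit 234) (nat_lit 988) (nat_lit 0) (XT.nd (nat_lit 78) (nat_lit 760) (nat_lit 0) (XT.lf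 (nat_lit 0) (nat_lit 4917122800) (nat_lit 380) (nat_lit 948581618) (nat_lit 0) (nat_lit 3027593090) (nat_lit 248) (nat_lit 5) (nat_lit 253) (nat_lit 4) (nat_lit 248) (nat_lit 4) (nat_lit 388) (nat_lit 317) (nat_lit 315)) (XT.nd (nat_lit 78) (nat_lit 304) (nat_lit 0) (XT.lf (nat_lit 0) (nat_lit 399451736) (nat_lit 456) (nat_lit 1982334737) (nat_lit 76) (nat_lit 6618279362) (nat_lit 242) (nat_lit 5) (nat_lit 248) (nat_lit 5) (nat_lit 243) (nat_lit 4) (nat_lit 389) (nat_lit 317) (nat_lit 314)) (XT.lf (nat_lit 0) (nat_lit 4804386985) (nat_lit 380) (nat_lit 3064425700) (nat_lit 0) (nat_lit 1240704767) (nat_lit 238) (nat_lit 5) (nat_lit 243) (nat_lit 4) (nat_lit 238) (nat_lit 4) (nat_lit 390) (nat_lit 317) (nat_lit 313)))) (XT.nd (nat_lit 78) (nat_lit 608) (nat_lit 0) (XT.lf (nat_lit 0) (nat_lit 108070753) (nat_lit 380) (nat_lit 4171304831) (nat_lit 76) (nat_lit 4943107269) (nat_lit 233) (nat_lit 5) (nat_lit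 238) (nat_lit 5) (nat_lit 234) (nat_lit 4) (nat_lit 391) (nat_lit 317) (nat_lit 312)) (XT.nd (nat_lit 78) (nat_lit 304) (nat_lit 0) (XT.lf (nat_lit 0) (nat_lit 4015231483) (nat_lit 304) (nat_lit 521142224) (nat_lit 380) (nat_lit 4802107723) (nat_lit 229) (nat_lit 5) (nat_lit 233) (nat_lit 5) (nat_lit 234) (nat_lit 4) (nat_lit 392) (nat_lit 317) (nat_lit 311)) (XT.lf (nat_lit 0) (nat_lit 2944746316) (nat_lit 304) (nat_lit 6156138882) (nat_lit 304) (nat_lit 356973983) (nat_lit 225) (nat_lit 4) (nat_lit 229) (nat_lit 5) (nat_lit 229) (nat_lit 4) (nat_lit 393) (nat_lit 317) (nat_lit 310))))) (XT.nd (nat_lit 234) (nat_lit 836) (nat_lit 0) (XT.nd (nat_lit 78) (nat_lit 380) (nat_lit 0) (XT.lf (nat_lit 0) (nat_lit 1823288505) (nat_lit 228) (nat_lit 2293577376) (nat_lit 304) (nat_lit 5463403117) (nat_lit 221) (nat_lit 5) (nat_lit 224) (nat_lit 5) (nat_lit 225) (nat_lit 4) (nat_lit 394) (nat_lit 317) (nat_lit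 309)) (XT.nd (nat_lit 78) (nat_lit 76) (nat_lit 0) (XT.lf (nat_lit 0) (nat_lit 674124819) (nat_lit 304) (nat_lit 8034321991) (nat_lit 304) (nat_lit 998077248) (nat_lit 217) (nat_lit 4) (nat_lit 221) (nat_lit 5) (nat_lit 221) (nat_lit 4) (nat_lit 395) (nat_lit 317) (nat_lit 308)) (XT.lf (nat_lit 0) (nat_lit 3534759657) (nat_lit 380) (nat_lit 533114394) (nat_lit 76) (nat_lit 5767539494) (nat_lit 216) (nat_lit 5) (nat_lit 221) (nat_lit 5) (nat_lit 217) (nat_lit 4) (nat_lit 396) (nat_lit 317) (nat_lit 307)))) (XT.nd (nat_lit 78) (nat_lit 608) (nat_lit 0) (XT.lf (nat_lit 0) (nat_lit 8167872796) (nat_lit 304) (nat_lit 1750580484) (nat_lit 0) (nat_lit 49889433) (nat_lit 213) (nat_lit 5) (nat_lit 217) (nat_lit 4) (nat_lit 213) (nat_lit 4) (nat_lit 397) (nat_lit 317) (nat_lit 306)) (XT.nd (nat_lit 78) (nat_lit 228) (nat_lit 0) (XT.lf (nat_lit 0) (nat_lit 2798989453) (nat_lit 380) (nat_lit 3051405086) (nat_lit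 76) (nat_lit 4253460182) (nat_lit 208) (nat_lit 5) (nat_lit 213) (nat_lit 5) (nat_lit 209) (nat_lit 4) (nat_lit 398) (nat_lit 317) (nat_lit 305)) (XT.lf (nat_lit 0) (nat_lit 5854308795) (nat_lit 228) (nat_lit 1626040651) (nat_lit 304) (nat_lit 2763144713) (nat_lit 205) (nat_lit 5) (nat_lit 208) (nat_lit 5) (nat_lit 209) (nat_lit 4) (nat_lit 399) (nat_lit 317) (nat_lit 304))))))) (XT.nd (nat_lit 936) (nat_lit 1824) (nat_lit 0) (XT.nd (nat_lit 468) (nat_lit 1064) (nat_lit 0) (XT.nd (nat_lit 234) (nat_lit 532) (nat_lit 0) (XT.nd (nat_lit 78) (nat_lit 532) (nat_lit 0) (XT.lf (nat_lit 0) (nat_lit 1885853938) (nat_lit 304) (nat_lit 5793897206) (nat_lit 76) (nat_lit 2706767694) (nat_lit 201) (nat_lit 5) (nat_lit 205) (nat_lit 5) (nat_lit 202) (nat_lit 4) (nat_lit 400) (nat_lit 317) (nat_lit 303)) (XT.nd (nat_lit 78) (nat_lit 304) (nat_lit 0) (XT.lf (nat_lit 0) (nat_lit 3265679847) (nat_lit 228) (nat_lit 3352354193)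 (nat_lit 304) (nat_lit 3915002042) (nat_lit 198) (nat_lit 5) (nat_lit 201) (nat_lit 5) (nat_lit 202) (nat_lit 4) (nat_lit 401) (nat_lit 317) (nat_lit 302)) (XT.lf (nat_lit 0) (nat_lit 788046457) (nat_lit 304) (nat_lit 8788375490) (nat_lit 76) (nat_lit 1107426202) (nat_lit 194) (nat_lit 5) (nat_lit 198) (nat_lit 5) (nat_lit 195) (nat_lit 4) (nat_lit 402) (nat_lit 317) (nat_lit 301)))) (XT.nd (nat_lit 78) (nat_lit 304) (nat_lit 0) (XT.lf (nat_lit 0) (nat_lit 424342968) (nat_lit 228) (nat_lit 5148467447) (nat_lit 304) (nat_lit 5264631940) (nat_lit 191) (nat_lit 5) (nat_lit 194) (nat_lit 5) (nat_lit 195) (nat_lit 4) (nat_lit 403) (nat_lit 317) (nat_lit 300)) (XT.nd (nat_lit 78) (nat_lit 304) (nat_lit 0) (XT.lf (nat_lit 0) (nat_lit 9938695752) (nat_lit 228) (nat_lit 560287960) (nat_lit 304) (nat_lit 496724684) (nat_lit 191) (nat_lit 5) (nat_lit 194) (nat_lit 5) (nat_lit 195) (nat_lit 4) (nat_lit 404) (nat_lit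 317) (nat_lit 299)) (XT.lf (nat_lit 0) (nat_lit 4361853978) (nat_lit 304) (nat_lit 2646282335) (nat_lit 76) (nat_lit 4148299994) (nat_lit 187) (nat_lit 5) (nat_lit 191) (nat_lit 5) (nat_lit 188) (nat_lit 4) (nat_lit 405) (nat_lit 317) (nat_lit 298))))) (XT.nd (nat_lit 234) (nat_lit 456) (nat_lit 0) (XT.nd (nat_lit 78) (nat_lit 456) (nat_lit 0) (XT.lf (nat_lit 0) (nat_lit 7038404766) (nat_lit 152) (nat_lit 2313224438) (nat_lit 228) (nat_lit 1970346623) (nat_lit 185) (nat_lit 5) (nat_lit 187) (nat_lit 5) (nat_lit 188) (nat_lit 4) (nat_lit 406) (nat_lit 317) (nat_lit 297)) (XT.nd (nat_lit 78) (nat_lit 152) (nat_lit 0) (XT.lf (nat_lit 0) (nat_lit 2956374516) (nat_lit 304) (nat_lit 6015075145) (nat_lit 76) (nat_lit 2519678971) (nat_lit 181) (nat_lit 5) (nat_lit 185) (nat_lit 5) (nat_lit 182) (nat_lit 4) (nat_lit 407) (nat_lit 317) (nat_lit 296)) (XT.lf (nat_lit 0) (nat_lit 3830663197) (nat_lit 152) (nat_lit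 4176238714) (nat_lit 228) (nat_lit 3657400658) (nat_lit 179) (nat_lit 5) (nat_lit 181) (nat_lit 5) (nat_lit 182) (nat_lit 4) (nat_lit 408) (nat_lit 317) (nat_lit 295)))) (XT.nd (nat_lit 78) (nat_lit 152) (nat_lit 0) (XT.lf (nat_lit 0) (nat_lit 1341484998) (nat_lit 304) (nat_lit 9721766494) (nat_lit 76) (nat_lit 778970055) (nat_lit 175) (nat_lit 5) (nat_lit 179) (nat_lit 5) (nat_lit 176) (nat_lit 4) (nat_lit 409) (nat_lit 317) (nat_lit 294)) (XT.nd (nat_lit 78) (nat_lit 0) (nat_lit 0) (XT.lf (nat_lit 0) (nat_lit 283682672) (nat_lit 152) (nat_lit 6169998545) (nat_lit 228) (nat_lit 5569604896) (nat_lit 173) (nat_lit 5) (nat_lit 175) (nat_lit 5) (nat_lit 176) (nat_lit 4) (nat_lit 410) (nat_lit 317) (nat_lit 293)) (XT.lf (nat_lit 0) (nat_lit 10635935074) (nat_lit 152) (nat_lit 1095439545) (nat_lit 228) (nat_lit 478044059) (nat_lit 173) (nat_lit 5) (nat_lit 175) (nat_lit 5) (nat_lit 176) (nat_lit 4) (nat_lit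 411) (nat_lit 317) (nat_lit 292)))))) (XT.nd (nat_lit 468) (nat_lit 836) (nat_lit 0) (XT.nd (nat_lit 234) (nat_lit 380) (nat_lit 0) (XT.nd (nat_lit 78) (nat_lit 380) (nat_lit 0) (XT.lf (nat_lit 0) (nat_lit 4714590687) (nat_lit 228) (nat_lit 3565004687) (nat_lit 76) (nat_lit 4118925337) (nat_lit 170) (nat_lit 5) (nat_lit 173) (nat_lit 5) (nat_lit 171) (nat_lit 4) (nat_lit 412) (nat_lit 317) (nat_lit 291)) (XT.nd (nat_lit 78) (nat_lit 228) (nat_lit 0) (XT.lf (nat_lit 0) (nat_lit 6961993859) (nat_lit 152) (nat_lit 3101262055) (nat_lit 228) (nat_lit 2529602107) (nat_lit 168) (nat_lit 5) (nat_lit 170) (nat_lit 5) (nat_lit 171) (nat_lit 4) (nat_lit 413) (nat_lit 317) (nat_lit 290)) (XT.lf (nat_lit 0) (nat_lit 2747754827) (nat_lit 228) (nat_lit 7808050709) (nat_lit 76) (nat_lit 2235739376) (nat_lit 165) (nat_lit 5) (nat_lit 168) (nat_lit 5) (nat_lit 166) (nat_lit 4) (nat_lit 414) (nat_lit 317) (nat_lit 289))))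 (XT.nd (nat_lit 78) (nat_lit 228) (nat_lit 0) (XT.lf (nat_lit 0) (nat_lit 2886384656) (nat_lit 152) (nat_lit 5278688783) (nat_lit 228) (nat_lit 4829393100) (nat_lit 163) (nat_lit 5) (nat_lit 165) (nat_lit 5) (nat_lit 166) (nat_lit 4) (nat_lit 415) (nat_lit 317) (nat_lit 288)) (XT.nd (nat_lit 78) (nat_lit 0) (nat_lit 0) (XT.lf (nat_lit 0) (nat_lit 535943828) (nat_lit 228) (nat_lit 12487392004) (nat_lit 76) (nat_lit 179831643) (nat_lit 160) (nat_lit 5) (nat_lit 163) (nat_lit 5) (nat_lit 161) (nat_lit 4) (nat_lit 416) (nat_lit 317) (nat_lit 287)) (XT.lf (nat_lit 0) (nat_lit 6037646365) (nat_lit 228) (nat_lit 1595968834) (nat_lit 76) (nat_lit 5780905621) (nat_lit 160) (nat_lit 5) (nat_lit 163) (nat_lit 5) (nat_lit 161) (nat_lit 4) (nat_lit 417) (nat_lit 317) (nat_lit 286))))) (XT.nd (nat_lit 234) (nat_lit 304) (nat_lit 0) (XT.nd (nat_lit 78) (nat_lit 380) (nat_lit 0) (XT.lf (nat_lit 0) (nat_lit 9663816356)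 (nat_lit 152) (nat_lit 2053016831) (nat_lit 228) (nat_lit 1915008582) (nat_lit 158) (nat_lit 5) (nat_lit 160) (nat_lit 5) (nat_lit 161) (nat_lit 4) (nat_lit 418) (nat_lit 317) (nat_lit 285)) (XT.nd (nat_lit 78) (nat_lit 152) (nat_lit 0) (XT.lf (nat_lit 0) (nat_lit 3681507716) (nat_lit 228) (nat_lit 6490117169) (nat_lit 76) (nat_lit 3681691257) (nat_lit 155) (nat_lit 5) (nat_lit 158) (nat_lit 5) (nat_lit 156) (nat_lit 4) (nat_lit 419) (nat_lit 317) (nat_lit 284)) (XT.lf (nat_lit 0) (nat_lit 4944860717) (nat_lit 152) (nat_lit 4490892369) (nat_lit 228) (nat_lit 4644263146) (nat_lit 153) (nat_lit 5) (nat_lit 155) (nat_lit 5) (nat_lit 156) (nat_lit 4) (nat_lit 420) (nat_lit 317) (nat_lit 283)))) (XT.nd (nat_lit 78) (nat_lit 76) (nat_lit 0) (XT.lf (nat_lit 0) (nat_lit 1051769124) (nat_lit 228) (nat_lit 11892762202) (nat_lit 76) (nat_lit 1367989482) (nat_lit 150) (nat_lit 5) (nat_lit 153) (nat_lit 5) (nat_lit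 151) (nat_lit 4) (nat_lit 421) (nat_lit 317) (nat_lit 282)) (XT.nd (nat_lit 78) (nat_lit 76) (nat_lit 0) (XT.lf (nat_lit 0) (nat_lit 6883379290) (nat_lit 228) (nat_lit 279846730) (nat_lit 76) (nat_lit 7385653757) (nat_lit 150) (nat_lit 5) (nat_lit 153) (nat_lit 5) (nat_lit 151) (nat_lit 4) (nat_lit 422) (nat_lit 317) (nat_lit 281)) (XT.lf (nat_lit 0) (nat_lit 11767554366) (nat_lit 76) (nat_lit 1158235509) (nat_lit 152) (nat_lit 1865464075) (nat_lit 149) (nat_lit 5) (nat_lit 150) (nat_lit 5) (nat_lit 151) (nat_lit 4) (nat_lit 423) (nat_lit 317) (nat_lit 280))))))))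
noncomputable def xc15 : XT := (XT.nd (nat_lit 50778) (nat_lit 0) (nat_lit 2584) (XT.nd (nat_lit 936) (nat_lit 228) (nat_lit 0) (XT.nd (nat_lit 468) (nat_lit 684) (nat_lit 0) (XT.nd (nat_lit 234) (nat_lit 304) (nat_lit 0) (XT.nd (nat_lit 78) (nat_lit 304) (nat_lit 0) (XT.lf (nat_lit 0) (nat_lit 4090913248) (nat_lit 228) (nat_lit 5951875033) (nat_lit 76) (nat_lit 4995050860) (nat_lit 146) (nat_lit 5) (nat_lit 149) (nat_lit 5) (nat_lit 147) (nat_lit 4) (nat_lit 424) (nat_lit 317) (nat_lit 279)) (XT.nd (nat_lit 78) (nat_lit 228) (nat_lit 0) (XT.lf (nat_lit 0) (nat_lit 6278366108) (nat_lit 76) (nat_lit 3935884903) (nat_lit 152) (nat_lit 5076243883) (nat_lit 145) (nat_lit 5) (nat_lit 146) (nat_lit 5) (nat_lit 147) (nat_lit 4) (nat_lit 425) (nat_lit 317) (nat_lit 278)) (XT.lf (nat_lit 0) (nat_lit 990839672) (nat_lit 228) (nat_lit 12212739935) (nat_lit 76) (nat_lit 2345694220) (nat_lit 142) (nat_lit 5) (nat_lit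 145) (nat_lit 5) (nat_lit 143) (nat_lit 4) (nat_lit 426) (nat_lit 317) (nat_lit 277)))) (XT.nd (nat_lit 78) (nat_lit 228) (nat_lit 0) (XT.lf (nat_lit 0) (nat_lit 196776509) (nat_lit 76) (nat_lit 6997347833) (nat_lit 152) (nat_lit 8618497509) (nat_lit 141) (nat_lit 5) (nat_lit 142) (nat_lit 5) (nat_lit 143) (nat_lit 4) (nat_lit 427) (nat_lit 317) (nat_lit 276)) (XT.nd (nat_lit 78) (nat_lit 228) (nat_lit 0) (XT.lf (nat_lit 0) (nat_lit 13086098248) (nat_lit 76) (nat_lit 545040216) (nat_lit 152) (nat_lit 2451302924) (nat_lit 141) (nat_lit 5) (nat_lit 142) (nat_lit 5) (nat_lit 143) (nat_lit 4) (nat_lit 428) (nat_lit 317) (nat_lit 275)) (XT.lf (nat_lit 0) (nat_lit 3906220785) (nat_lit 228) (nat_lit 6398285036) (nat_lit 76) (nat_lit 6052281730) (nat_lit 138) (nat_lit 5) (nat_lit 141) (nat_lit 5) (nat_lit 139) (nat_lit 4) (nat_lit 429) (nat_lit 317) (nat_lit 274))))) (XT.nd (nat_lit 234) (nat_lit 380) (nat_lit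 0) (XT.nd (nat_lit 78) (nat_lit 228) (nat_lit 0) (XT.lf (nat_lit 0) (nat_lit 6685097689) (nat_lit 76) (nat_lit 3746300635) (nat_lit 152) (nat_lit 6206451760) (nat_lit 137) (nat_lit 5) (nat_lit 138) (nat_lit 5) (nat_lit 139) (nat_lit 4) (nat_lit 430) (nat_lit 317) (nat_lit 273)) (XT.nd (nat_lit 78) (nat_lit 0) (nat_lit 0) (XT.lf (nat_lit 0) (nat_lit 272788700) (nat_lit 228) (nat_lit 13668208790) (nat_lit 76) (nat_lit 2984716352) (nat_lit 134) (nat_lit 5) (nat_lit 137) (nat_lit 5) (nat_lit 135) (nat_lit 4) (nat_lit 431) (nat_lit 317) (nat_lit 272)) (XT.lf (nat_lit 0) (nat_lit 6886513261) (nat_lit 228) (nat_lit 391266809) (nat_lit 76) (nat_lit 9940644430) (nat_lit 134) (nat_lit 5) (nat_lit 137) (nat_lit 5) (nat_lit 135) (nat_lit 4) (nat_lit 432) (nat_lit 317) (nat_lit 271)))) (XT.nd (nat_lit 78) (nat_lit 304) (nat_lit 0) (XT.lf (nat_lit 0) (nat_lit 13409116304) (nat_lit 76) (nat_lit 346837621) (nat_lit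 152) (nat_lit 3762243422) (nat_lit 133) (nat_lit 5) (nat_lit 134) (nat_lit 5) (nat_lit 135) (nat_lit 4) (nat_lit 433) (nat_lit 317) (nat_lit 270)) (XT.nd (nat_lit 78) (nat_lit 76) (nat_lit 0) (XT.lf (nat_lit 0) (nat_lit 3038794041) (nat_lit 228) (nat_lit 8060219446) (nat_lit 76) (nat_lit 6724296201) (nat_lit 130) (nat_lit 5) (nat_lit 133) (nat_lit 5) (nat_lit 131) (nat_lit 4) (nat_lit 434) (nat_lit 317) (nat_lit 269)) (XT.lf (nat_lit 0) (nat_lit 5937317996) (nat_lit 76) (nat_lit 4061993255) (nat_lit 152) (nat_lit 8136214669) (nat_lit 129) (nat_lit 5) (nat_lit 130) (nat_lit 5) (nat_lit 131) (nat_lit 4) (nat_lit 435) (nat_lit 317) (nat_lit 268)))))) (XT.nd (nat_lit 49374) (nat_lit 0) (nat_lit 7448) (XT.nd (nat_lit 49140) (nat_lit 0) (nat_lit 9576) (XT.nd (nat_lit 78) (nat_lit 76) (nat_lit 0) (XT.lf (nat_lit 0) (nat_lit 1934735444) (nat_lit 152) (nat_lit 15294138764) (nat_lit 152) (nat_lit 1226427525) (nat_lit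 127) (nat_lit 4) (nat_lit 129) (nat_lit 5) (nat_lit 129) (nat_lit 4) (nat_lit 436) (nat_lit 317) (nat_lit 267)) (XT.nd (nat_lit 48984) (nat_lit 0) (nat_lit 10488) (XT.lf (nat_lit 0) (nat_lit 5869200693) (nat_lit 228) (nat_lit 2274318508) (nat_lit 76) (nat_lit 10636648022) (nat_lit 126) (nat_lit 5) (nat_lit 129) (nat_lit 5) (nat_lit 127) (nat_lit 4) (nat_lit 437) (nat_lit 317) (nat_lit 266)) (XT.lf (nat_lit 0) (nat_lit 1549018068) (nat_lit 380) (nat_lit 1349533788) (nat_lit 380) (nat_lit 1349533788) (nat_lit 264) (nat_lit 4) (nat_lit 269) (nat_lit 5) (nat_lit 269) (nat_lit 4) (nat_lit 384) (nat_lit 318) (nat_lit 318)))) (XT.nd (nat_lit 78) (nat_lit 456) (nat_lit 0) (XT.lf (nat_lit 0) (nat_lit 1543911909) (nat_lit 456) (nat_lit 6521627788) (nat_lit 0) (nat_lit 526798544) (nat_lit 258) (nat_lit 5) (nat_lit 264) (nat_lit 4) (nat_lit 258) (nat_lit 4) (nat_lit 385) (nat_lit 318) (nat_lit 317)) (XT.nd (nat_lit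 78) (nat_lit 76) (nat_lit 0) (XT.lf (nat_lit 0) (nat_lit 998380700) (nat_lit 380) (nat_lit 4848599218) (nat_lit 380) (nat_lit 2843997148) (nat_lit 253) (nat_lit 4) (nat_lit 258) (nat_lit 5) (nat_lit 258) (nat_lit 4) (nat_lit 386) (nat_lit 318) (nat_lit 316)) (XT.lf (nat_lit 0) (nat_lit 1420319395) (nat_lit 456) (nat_lit 80080593) (nat_lit 76) (nat_lit 7292863493) (nat_lit 252) (nat_lit 5) (nat_lit 258) (nat_lit 5) (nat_lit 253) (nat_lit 4) (nat_lit 387) (nat_lit 318) (nat_lit 315))))) (XT.nd (nat_lit 234) (nat_lit 1064) (nat_lit 0) (XT.nd (nat_lit 78) (nat_lit 760) (nat_lit 0) (XT.lf (nat_lit 0) (nat_lit 5748332520) (nat_lit 380) (nat_lit 1182031305) (nat_lit 0) (nat_lit 1967622054) (nat_lit 248) (nat_lit 5) (nat_lit 253) (nat_lit 4) (nat_lit 248) (nat_lit 4) (nat_lit 388) (nat_lit 318) (nat_lit 314)) (XT.nd (nat_lit 78) (nat_lit 304) (nat_lit 0) (XT.lf (nat_lit 0) (nat_lit 1157232902) (nat_lit 456)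 (nat_lit 2308898596) (nat_lit 76) (nat_lit 5539962708) (nat_lit 242) (nat_lit 5) (nat_lit 248) (nat_lit 5) (nat_lit 243) (nat_lit 4) (nat_lit 389) (nat_lit 318) (nat_lit 313)) (XT.lf (nat_lit 0) (nat_lit 5498709727) (nat_lit 380) (nat_lit 3469445480) (nat_lit 0) (nat_lit 149294368) (nat_lit 238) (nat_lit 5) (nat_lit 243) (nat_lit 4) (nat_lit 238) (nat_lit 4) (nat_lit 390) (nat_lit 318) (nat_lit 312)))) (XT.nd (nat_lit 78) (nat_lit 684) (nat_lit 0) (XT.lf (nat_lit 0) (nat_lit 727494080) (nat_lit 380) (nat_lit 4675521057) (nat_lit 76) (nat_lit 3828809101) (nat_lit 233) (nat_lit 5) (nat_lit 238) (nat_lit 5) (nat_lit 234) (nat_lit 4) (nat_lit 391) (nat_lit 318) (nat_lit 311)) (XT.nd (nat_lit 78) (nat_lit 380) (nat_lit 0) (XT.lf (nat_lit 0) (nat_lit 3425204800) (nat_lit 304) (nat_lit 1676800886) (nat_lit 380) (nat_lit 4247430869) (nat_lit 229) (nat_lit 5) (nat_lit 233) (nat_lit 5) (nat_lit 234) (nat_lit 4)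 (nat_lit 392) (nat_lit 318) (nat_lit 310)) (XT.lf (nat_lit 0) (nat_lit 127897119) (nat_lit 380) (nat_lit 7205120895) (nat_lit 76) (nat_lit 2137717714) (nat_lit 224) (nat_lit 5) (nat_lit 229) (nat_lit 5) (nat_lit 225) (nat_lit 4) (nat_lit 393) (nat_lit 318) (nat_lit 309))))))) (XT.nd (nat_lit 936) (nat_lit 2052) (nat_lit 0) (XT.nd (nat_lit 468) (nat_lit 1368) (nat_lit 0) (XT.nd (nat_lit 234) (nat_lit 836) (nat_lit 0) (XT.nd (nat_lit 78) (nat_lit 380) (nat_lit 0) (XT.lf (nat_lit 0) (nat_lit 1037564865) (nat_lit 228) (nat_lit 3502188712) (nat_lit 304) (nat_lit 5054939552) (nat_lit 221) (nat_lit 5) (nat_lit 224) (nat_lit 5) (nat_lit 225) (nat_lit 4) (nat_lit 394) (nat_lit 318) (nat_lit 308)) (XT.nd (nat_lit 78) (nat_lit 380) (nat_lit 0) (XT.lf (nat_lit 0) (nat_lit 9066177249) (nat_lit 304) (nat_lit 202916958) (nat_lit 0) (nat_lit 453808699) (nat_lit 221) (nat_lit 5) (nat_lit 225) (nat_lit 4) (nat_lit 221)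 (nat_lit 4) (nat_lit 395) (nat_lit 318) (nat_lit 307)) (XT.lf (nat_lit 0) (nat_lit 3820575838) (nat_lit 380) (nat_lit 1509445962) (nat_lit 76) (nat_lit 4523138386) (nat_lit 216) (nat_lit 5) (nat_lit 221) (nat_lit 5) (nat_lit 217) (nat_lit 4) (nat_lit 396) (nat_lit 318) (nat_lit 306)))) (XT.nd (nat_lit 78) (nat_lit 608) (nat_lit 0) (XT.lf (nat_lit 0) (nat_lit 7147693002) (nat_lit 228) (nat_lit 1249715540) (nat_lit 304) (nat_lit 1590369227) (nat_lit 213) (nat_lit 5) (nat_lit 216) (nat_lit 5) (nat_lit 217) (nat_lit 4) (nat_lit 397) (nat_lit 318) (nat_lit 305)) (XT.nd (nat_lit 78) (nat_lit 228) (nat_lit 0) (XT.lf (nat_lit 0) (nat_lit 2935873299) (nat_lit 380) (nat_lit 4248348708) (nat_lit 76) (nat_lit 2941080691) (nat_lit 208) (nat_lit 5) (nat_lit 213) (nat_lit 5) (nat_lit 209) (nat_lit 4) (nat_lit 398) (nat_lit 318) (nat_lit 304)) (XT.lf (nat_lit 0) (nat_lit 4558189984) (nat_lit 228) (nat_lit 3001616434)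 (nat_lit 304) (nat_lit 2706858525) (nat_lit 205) (nat_lit 5) (nat_lit 208) (nat_lit 5) (nat_lit 209) (nat_lit 4) (nat_lit 399) (nat_lit 318) (nat_lit 303))))) (XT.nd (nat_lit 234) (nat_lit 532) (nat_lit 0) (XT.nd (nat_lit 78) (nat_lit 532) (nat_lit 0) (XT.lf (nat_lit 0) (nat_lit 1868941773) (nat_lit 304) (nat_lit 7226793885) (nat_lit 76) (nat_lit 1316100732) (nat_lit 201) (nat_lit 5) (nat_lit 205) (nat_lit 5) (nat_lit 202) (nat_lit 4) (nat_lit 400) (nat_lit 318) (nat_lit 302)) (XT.nd (nat_lit 78) (nat_lit 304) (nat_lit 0) (XT.lf (nat_lit 0) (nat_lit 1728415007) (nat_lit 228) (nat_lit 4813449293) (nat_lit 304) (nat_lit 4018267061) (nat_lit 198) (nat_lit 5) (nat_lit 201) (nat_lit 5) (nat_lit 202) (nat_lit 4) (nat_lit 401) (nat_lit 318) (nat_lit 301)) (XT.lf (nat_lit 0) (nat_lit 236167110) (nat_lit 228) (nat_lit 379387158) (nat_lit 304) (nat_lit 10097556206) (nat_lit 194) (nat_lit 5) (nat_lit 197) (nat_lit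 5) (nat_lit 198) (nat_lit 5) (nat_lit 402) (nat_lit 318) (nat_lit 300)))) (XT.nd (nat_lit 78) (nat_lit 532) (nat_lit 0) (XT.lf (nat_lit 0) (nat_lit 5348557826) (nat_lit 304) (nat_lit 1343675039) (nat_lit 76) (nat_lit 4176024628) (nat_lit 194) (nat_lit 5) (nat_lit 198) (nat_lit 5) (nat_lit 195) (nat_lit 4) (nat_lit 403) (nat_lit 318) (nat_lit 299)) (XT.nd (nat_lit 78) (nat_lit 304) (nat_lit 0) (XT.lf (nat_lit 0) (nat_lit 8069852897) (nat_lit 228) (nat_lit 2148240910) (nat_lit 304) (nat_lit 810128847) (nat_lit 191) (nat_lit 5) (nat_lit 194) (nat_lit 5) (nat_lit 195) (nat_lit 4) (nat_lit 404) (nat_lit 318) (nat_lit 298)) (XT.lf (nat_lit 0) (nat_lit 3976849453) (nat_lit 304) (nat_lit 4675316811) (nat_lit 76) (nat_lit 2539206160) (nat_lit 187) (nat_lit 5) (nat_lit 191) (nat_lit 5) (nat_lit 188) (nat_lit 4) (nat_lit 405) (nat_lit 318) (nat_lit 297)))))) (XT.nd (nat_lit 468) (nat_lit 988) (nat_lit 0) (XT.nd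 (nat_lit 234) (nat_lit 456) (nat_lit 0) (XT.nd (nat_lit 78) (nat_lit 456) (nat_lit 0) (XT.lf (nat_lit 0) (nat_lit 4894501306) (nat_lit 152) (nat_lit 4009159218) (nat_lit 228) (nat_lit 2455140345) (nat_lit 185) (nat_lit 5) (nat_lit 187) (nat_lit 5) (nat_lit 188) (nat_lit 4) (nat_lit 406) (nat_lit 318) (nat_lit 296)) (XT.nd (nat_lit 78) (nat_lit 152) (nat_lit 0) (XT.lf (nat_lit 0) (nat_lit 2399894327) (nat_lit 304) (nat_lit 8331094902) (nat_lit 76) (nat_lit 799538645) (nat_lit 181) (nat_lit 5) (nat_lit 185) (nat_lit 5) (nat_lit 182) (nat_lit 4) (nat_lit 407) (nat_lit 318) (nat_lit 295)) (XT.lf (nat_lit 0) (nat_lit 1393693039) (nat_lit 152) (nat_lit 5991310021) (nat_lit 228) (nat_lit 4320661311) (nat_lit 179) (nat_lit 5) (nat_lit 181) (nat_lit 5) (nat_lit 182) (nat_lit 4) (nat_lit 408) (nat_lit 318) (nat_lit 294)))) (XT.nd (nat_lit 78) (nat_lit 380) (nat_lit 0) (XT.lf (nat_lit 0) (nat_lit 621192153) (nat_lit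 228) (nat_lit 458676619) (nat_lit 76) (nat_lit 10806005091) (nat_lit 178) (nat_lit 5) (nat_lit 181) (nat_lit 5) (nat_lit 179) (nat_lit 5) (nat_lit 409) (nat_lit 318) (nat_lit 293)) (XT.nd (nat_lit 78) (nat_lit 152) (nat_lit 0) (XT.lf (nat_lit 0) (nat_lit 5674078573) (nat_lit 304) (nat_lit 2417203766) (nat_lit 76) (nat_lit 3977435384) (nat_lit 175) (nat_lit 5) (nat_lit 179) (nat_lit 5) (nat_lit 176) (nat_lit 4) (nat_lit 410) (nat_lit 318) (nat_lit 292)) (XT.lf (nat_lit 0) (nat_lit 7813936173) (nat_lit 152) (nat_lit 3072988228) (nat_lit 228) (nat_lit 1369871314) (nat_lit 173) (nat_lit 5) (nat_lit 175) (nat_lit 5) (nat_lit 176) (nat_lit 4) (nat_lit 411) (nat_lit 318) (nat_lit 291))))) (XT.nd (nat_lit 234) (nat_lit 380) (nat_lit 0) (XT.nd (nat_lit 78) (nat_lit 380) (nat_lit 0) (XT.lf (nat_lit 0) (nat_lit 3751389662) (nat_lit 228) (nat_lit 6585878969) (nat_lit 76) (nat_lit 2111549596) (nat_lit 170) (nat_lit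 5) (nat_lit 173) (nat_lit 5) (nat_lit 171) (nat_lit 4) (nat_lit 412) (nat_lit 318) (nat_lit 290)) (XT.nd (nat_lit 78) (nat_lit 228) (nat_lit 0) (XT.lf (nat_lit 0) (nat_lit 3807692168) (nat_lit 152) (nat_lit 5221888769) (nat_lit 228) (nat_lit 3615688819) (nat_lit 168) (nat_lit 5) (nat_lit 170) (nat_lit 5) (nat_lit 171) (nat_lit 4) (nat_lit 413) (nat_lit 318) (nat_lit 289)) (XT.lf (nat_lit 0) (nat_lit 1589647645) (nat_lit 228) (nat_lit 11175112558) (nat_lit 76) (nat_lit 82306067) (nat_lit 165) (nat_lit 5) (nat_lit 168) (nat_lit 5) (nat_lit 166) (nat_lit 4) (nat_lit 414) (nat_lit 318) (nat_lit 288)))) (XT.nd (nat_lit 78) (nat_lit 380) (nat_lit 0) (XT.lf (nat_lit 0) (nat_lit 6939337518) (nat_lit 228) (nat_lit 609146404) (nat_lit 76) (nat_lit 5503532837) (nat_lit 165) (nat_lit 5) (nat_lit 168) (nat_lit 5) (nat_lit 166) (nat_lit 4) (nat_lit 415) (nat_lit 318) (nat_lit 287)) (XT.nd (nat_lit 78) (nat_lit 228)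 (nat_lit 0) (XT.lf (nat_lit 0) (nat_lit 10333248043) (nat_lit 152) (nat_lit 2136995098) (nat_lit 228) (nat_lit 792250869) (nat_lit 163) (nat_lit 5) (nat_lit 165) (nat_lit 5) (nat_lit 166) (nat_lit 4) (nat_lit 416) (nat_lit 318) (nat_lit 286)) (XT.lf (nat_lit 0) (nat_lit 4635730684) (nat_lit 228) (nat_lit 5403426434) (nat_lit 76) (nat_lit 3437594125) (nat_lit 160) (nat_lit 5) (nat_lit 163) (nat_lit 5) (nat_lit 161) (nat_lit 4) (nat_lit 417) (nat_lit 318) (nat_lit 285))))))))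
noncomputable def xc16 : XT := (XT.nd (nat_lit 50544) (nat_lit 0) (nat_lit 4180) (XT.nd (nat_lit 858) (nat_lit 1140) (nat_lit 0) (XT.nd (nat_lit 390) (nat_lit 684) (nat_lit 0) (XT.nd (nat_lit 156) (nat_lit 380) (nat_lit 0) (XT.nd (nat_lit 78) (nat_lit 228) (nat_lit 0) (XT.lf (nat_lit 0) (nat_lit 5708900229) (nat_lit 152) (nat_lit 4529518542) (nat_lit 228) (nat_lit 3457948383) (nat_lit 158) (nat_lit 5) (nat_lit 160) (nat_lit 5) (nat_lit 161) (nat_lit 4) (nat_lit 418) (nat_lit 318) (nat_lit 284)) (XT.lf (nat_lit 0) (nat_lit 2065663996) (nat_lit 228) (nat_lit 10688851892) (nat_lit 76) (nat_lit 1166860957) (nat_lit 155) (nat_lit 5) (nat_lit 158) (nat_lit 5) (nat_lit 156) (nat_lit 4) (nat_lit 419) (nat_lit 318) (nat_lit 283))) (XT.nd (nat_lit 78) (nat_lit 228) (nat_lit 0) (XT.lf (nat_lit 0) (nat_lit 590656522) (nat_lit 152) (nat_lit 7149135305) (nat_lit 228) (nat_lit 6410688634) (nat_lit 153) (nat_lit 5)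 (nat_lit 155) (nat_lit 5) (nat_lit 156) (nat_lit 4) (nat_lit 420) (nat_lit 318) (nat_lit 282)) (XT.nd (nat_lit 78) (nat_lit 228) (nat_lit 0) (XT.lf (nat_lit 0) (nat_lit 12285942699) (nat_lit 152) (nat_lit 1329364860) (nat_lit 228) (nat_lit 770214703) (nat_lit 153) (nat_lit 5) (nat_lit 155) (nat_lit 5) (nat_lit 156) (nat_lit 4) (nat_lit 421) (nat_lit 318) (nat_lit 281)) (XT.lf (nat_lit 0) (nat_lit 5004797054) (nat_lit 228) (nat_lit 4964907427) (nat_lit 76) (nat_lit 4654547705) (nat_lit 150) (nat_lit 5) (nat_lit 153) (nat_lit 5) (nat_lit 151) (nat_lit 4) (nat_lit 422) (nat_lit 318) (nat_lit 280))))) (XT.nd (nat_lit 234) (nat_lit 304) (nat_lit 0) (XT.nd (nat_lit 78) (nat_lit 304) (nat_lit 0) (XT.lf (nat_lit 0) (nat_lit 6919240908) (nat_lit 76) (nat_lit 4044408878) (nat_lit 152) (nat_lit 3905483310) (nat_lit 149) (nat_lit 5) (nat_lit 150) (nat_lit 5) (nat_lit 151) (nat_lit 4) (nat_lit 423) (nat_lit 318)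 (nat_lit 279)) (XT.nd (nat_lit 78) (nat_lit 76) (nat_lit 0) (XT.lf (nat_lit 0) (nat_lit 1976306544) (nat_lit 228) (nat_lit 11078492583) (nat_lit 76) (nat_lit 2064939324) (nat_lit 146) (nat_lit 5) (nat_lit 149) (nat_lit 5) (nat_lit 147) (nat_lit 4) (nat_lit 424) (nat_lit 318) (nat_lit 278)) (XT.lf (nat_lit 0) (nat_lit 979526009) (nat_lit 76) (nat_lit 7032408097) (nat_lit 152) (nat_lit 7363091405) (nat_lit 145) (nat_lit 5) (nat_lit 146) (nat_lit 5) (nat_lit 147) (nat_lit 4) (nat_lit 425) (nat_lit 318) (nat_lit 277)))) (XT.nd (nat_lit 78) (nat_lit 304) (nat_lit 0) (XT.lf (nat_lit 0) (nat_lit 13488042234) (nat_lit 76) (nat_lit 778651578) (nat_lit 152) (nat_lit 1370135471) (nat_lit 145) (nat_lit 5) (nat_lit 146) (nat_lit 5) (nat_lit 147) (nat_lit 4) (nat_lit 426) (nat_lit 318) (nat_lit 276)) (XT.nd (nat_lit 78) (nat_lit 76) (nat_lit 0) (XT.lf (nat_lit 0) (nat_lit 4792622689) (nat_lit 228) (nat_lit 5471459088)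 (nat_lit 76) (nat_lit 5638508530) (nat_lit 142) (nat_lit 5) (nat_lit 145) (nat_lit 5) (nat_lit 143) (nat_lit 4) (nat_lit 427) (nat_lit 318) (nat_lit 275)) (XT.lf (nat_lit 0) (nat_lit 7240659878) (nat_lit 76) (nat_lit 3899133629) (nat_lit 152) (nat_lit 5035311636) (nat_lit 141) (nat_lit 5) (nat_lit 142) (nat_lit 5) (nat_lit 143) (nat_lit 4) (nat_lit 428) (nat_lit 318) (nat_lit 274)))))) (XT.nd (nat_lit 468) (nat_lit 380) (nat_lit 0) (XT.nd (nat_lit 234) (nat_lit 456) (nat_lit 0) (XT.nd (nat_lit 78) (nat_lit 76) (nat_lit 0) (XT.lf (nat_lit 0) (nat_lit 1245138843) (nat_lit 228) (nat_lit 12560455964) (nat_lit 76) (nat_lit 2648426569) (nat_lit 138) (nat_lit 5) (nat_lit 141) (nat_lit 5) (nat_lit 139) (nat_lit 4) (nat_lit 429) (nat_lit 318) (nat_lit 273)) (XT.nd (nat_lit 78) (nat_lit 0) (nat_lit 0) (XT.lf (nat_lit 0) (nat_lit 331829536) (nat_lit 76) (nat_lit 7342015483) (nat_lit 152) (nat_lit 9064133030) (nat_lit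 137) (nat_lit 5) (nat_lit 138) (nat_lit 5) (nat_lit 139) (nat_lit 4) (nat_lit 430) (nat_lit 318) (nat_lit 272)) (XT.lf (nat_lit 0) (nat_lit 13733438673) (nat_lit 76) (nat_lit 617744071) (nat_lit 152) (nat_lit 2677597569) (nat_lit 137) (nat_lit 5) (nat_lit 138) (nat_lit 5) (nat_lit 139) (nat_lit 4) (nat_lit 431) (nat_lit 318) (nat_lit 271)))) (XT.nd (nat_lit 78) (nat_lit 228) (nat_lit 0) (XT.lf (nat_lit 0) (nat_lit 3914544161) (nat_lit 228) (nat_lit 7148991057) (nat_lit 76) (nat_lit 6260942886) (nat_lit 134) (nat_lit 5) (nat_lit 137) (nat_lit 5) (nat_lit 135) (nat_lit 4) (nat_lit 432) (nat_lit 318) (nat_lit 270)) (XT.nd (nat_lit 78) (nat_lit 152) (nat_lit 0) (XT.lf (nat_lit 0) (nat_lit 6450304636) (nat_lit 76) (nat_lit 4232547909) (nat_lit 152) (nat_lit 6944432375) (nat_lit 133) (nat_lit 5) (nat_lit 134) (nat_lit 5) (nat_lit 135) (nat_lit 4) (nat_lit 433) (nat_lit 318) (nat_lit 269)) (XT.lf (nat_lit 0)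 (nat_lit 2556630182) (nat_lit 152) (nat_lit 15152664045) (nat_lit 152) (nat_lit 228229190) (nat_lit 131) (nat_lit 4) (nat_lit 133) (nat_lit 5) (nat_lit 133) (nat_lit 4) (nat_lit 434) (nat_lit 318) (nat_lit 268))))) (XT.nd (nat_lit 48984) (nat_lit 0) (nat_lit 10488) (XT.nd (nat_lit 78) (nat_lit 304) (nat_lit 0) (XT.lf (nat_lit 0) (nat_lit 6645546470) (nat_lit 228) (nat_lit 1562434251) (nat_lit 76) (nat_lit 10044560599) (nat_lit 130) (nat_lit 5) (nat_lit 133) (nat_lit 5) (nat_lit 131) (nat_lit 4) (nat_lit 435) (nat_lit 318) (nat_lit 267)) (XT.nd (nat_lit 78) (nat_lit 228) (nat_lit 0) (XT.lf (nat_lit 0) (nat_lit 12788954884) (nat_lit 76) (nat_lit 987678458) (nat_lit 152) (nat_lit 4798638073) (nat_lit 129) (nat_lit 5) (nat_lit 130) (nat_lit 5) (nat_lit 131) (nat_lit 4) (nat_lit 436) (nat_lit 318) (nat_lit 266)) (XT.lf (nat_lit 0) (nat_lit 2265898345) (nat_lit 228) (nat_lit 10253328763) (nat_lit 76) (nat_lit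 6384963900) (nat_lit 126) (nat_lit 5) (nat_lit 129) (nat_lit 5) (nat_lit 127) (nat_lit 4) (nat_lit 437) (nat_lit 318) (nat_lit 265)))) (XT.nd (nat_lit 78) (nat_lit 836) (nat_lit 0) (XT.lf (nat_lit 0) (nat_lit 2593852952) (nat_lit 456) (nat_lit 781124108) (nat_lit 456) (nat_lit 781124108) (nat_lit 275) (nat_lit 4) (nat_lit 281) (nat_lit 5) (nat_lit 281) (nat_lit 4) (nat_lit 382) (nat_lit 319) (nat_lit 319)) (XT.nd (nat_lit 78) (nat_lit 380) (nat_lit 0) (XT.lf (nat_lit 0) (nat_lit 2597846716) (nat_lit 456) (nat_lit 4286784878) (nat_lit 0) (nat_lit 1518791146) (nat_lit 269) (nat_lit 5) (nat_lit 275) (nat_lit 4) (nat_lit 269) (nat_lit 4) (nat_lit 383) (nat_lit 319) (nat_lit 318)) (XT.lf (nat_lit 0) (nat_lit 3024967797) (nat_lit 380) (nat_lit 3799715061) (nat_lit 380) (nat_lit 1673032726) (nat_lit 264) (nat_lit 4) (nat_lit 269) (nat_lit 5) (nat_lit 269) (nat_lit 4) (nat_lit 384) (nat_lit 319) (nat_lit 317)))))))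 (XT.nd (nat_lit 936) (nat_lit 2660) (nat_lit 0) (XT.nd (nat_lit 468) (nat_lit 1672) (nat_lit 0) (XT.nd (nat_lit 234) (nat_lit 1064) (nat_lit 0) (XT.nd (nat_lit 78) (nat_lit 456) (nat_lit 0) (XT.lf (nat_lit 0) (nat_lit 1916496884) (nat_lit 380) (nat_lit 576258083) (nat_lit 456) (nat_lit 6102546786) (nat_lit 258) (nat_lit 5) (nat_lit 263) (nat_lit 5) (nat_lit 264) (nat_lit 4) (nat_lit 385) (nat_lit 319) (nat_lit 316)) (XT.nd (nat_lit 78) (nat_lit 76) (nat_lit 0) (XT.lf (nat_lit 0) (nat_lit 769759022) (nat_lit 380) (nat_lit 5968433107) (nat_lit 380) (nat_lit 1957477374) (nat_lit 253) (nat_lit 4) (nat_lit 258) (nat_lit 5) (nat_lit 258) (nat_lit 4) (nat_lit 386) (nat_lit 319) (nat_lit 315)) (XT.lf (nat_lit 0) (nat_lit 2239922600) (nat_lit 456) (nat_lit 394715666) (nat_lit 76) (nat_lit 6164550520) (nat_lit 252) (nat_lit 5) (nat_lit 258) (nat_lit 5) (nat_lit 253) (nat_lit 4) (nat_lit 387) (nat_lit 319) (nat_lit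 314)))) (XT.nd (nat_lit 78) (nat_lit 760) (nat_lit 0) (XT.lf (nat_lit 0) (nat_lit 6504829188) (nat_lit 380) (nat_lit 1571340758) (nat_lit 0) (nat_lit 829634433) (nat_lit 248) (nat_lit 5) (nat_lit 253) (nat_lit 4) (nat_lit 248) (nat_lit 4) (nat_lit 388) (nat_lit 319) (nat_lit 313)) (XT.nd (nat_lit 78) (nat_lit 304) (nat_lit 0) (XT.lf (nat_lit 0) (nat_lit 1838611781) (nat_lit 456) (nat_lit 2794629267) (nat_lit 76) (nat_lit 4382036452) (nat_lit 242) (nat_lit 5) (nat_lit 248) (nat_lit 5) (nat_lit 243) (nat_lit 4) (nat_lit 389) (nat_lit 319) (nat_lit 312)) (XT.lf (nat_lit 0) (nat_lit 5081254166) (nat_lit 304) (nat_lit 1044495387) (nat_lit 380) (nat_lit 3002513489) (nat_lit 238) (nat_lit 5) (nat_lit 242) (nat_lit 5) (nat_lit 243) (nat_lit 4) (nat_lit 390) (nat_lit 319) (nat_lit 311))))) (XT.nd (nat_lit 234) (nat_lit 608) (nat_lit 0) (XT.nd (nat_lit 78) (nat_lit 684) (nat_lit 0) (XT.lf (nat_lit 0) (nat_lit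 1267817215) (nat_lit 380) (nat_lit 5345686499) (nat_lit 76) (nat_lit 2630872637) (nat_lit 233) (nat_lit 5) (nat_lit 238) (nat_lit 5) (nat_lit 234) (nat_lit 4) (nat_lit 391) (nat_lit 319) (nat_lit 310)) (XT.nd (nat_lit 78) (nat_lit 380) (nat_lit 0) (XT.lf (nat_lit 0) (nat_lit 2668133243) (nat_lit 304) (nat_lit 2920200035) (nat_lit 380) (nat_lit 3775275256) (nat_lit 229) (nat_lit 5) (nat_lit 233) (nat_lit 5) (nat_lit 234) (nat_lit 4) (nat_lit 392) (nat_lit 319) (nat_lit 309)) (XT.lf (nat_lit 0) (nat_lit 523786186) (nat_lit 380) (nat_lit 8073575837) (nat_lit 76) (nat_lit 889421118) (nat_lit 224) (nat_lit 5) (nat_lit 229) (nat_lit 5) (nat_lit 225) (nat_lit 4) (nat_lit 393) (nat_lit 319) (nat_lit 308)))) (XT.nd (nat_lit 78) (nat_lit 380) (nat_lit 0) (XT.lf (nat_lit 0) (nat_lit 77608929) (nat_lit 228) (nat_lit 4802723796) (nat_lit 304) (nat_lit 4732067114) (nat_lit 221) (nat_lit 5) (nat_lit 224) (nat_lit 5)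 (nat_lit 225) (nat_lit 4) (nat_lit 394) (nat_lit 319) (nat_lit 307)) (XT.nd (nat_lit 78) (nat_lit 380) (nat_lit 0) (XT.lf (nat_lit 0) (nat_lit 8492557215) (nat_lit 228) (nat_lit 864317403) (nat_lit 304) (nat_lit 385231452) (nat_lit 221) (nat_lit 5) (nat_lit 224) (nat_lit 5) (nat_lit 225) (nat_lit 4) (nat_lit 395) (nat_lit 319) (nat_lit 306)) (XT.lf (nat_lit 0) (nat_lit 4022600853) (nat_lit 380) (nat_lit 2663969418) (nat_lit 76) (nat_lit 3187639927) (nat_lit 216) (nat_lit 5) (nat_lit 221) (nat_lit 5) (nat_lit 217) (nat_lit 4) (nat_lit 396) (nat_lit 319) (nat_lit 305)))))) (XT.nd (nat_lit 468) (nat_lit 1216) (nat_lit 0) (XT.nd (nat_lit 234) (nat_lit 608) (nat_lit 0) (XT.nd (nat_lit 78) (nat_lit 608) (nat_lit 0) (XT.lf (nat_lit 0) (nat_lit 5897560681) (nat_lit 228) (nat_lit 2645680769) (nat_lit 304) (nat_lit 1467272092) (nat_lit 213) (nat_lit 5) (nat_lit 216) (nat_lit 5) (nat_lit 217) (nat_lit 4) (nat_lit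 397) (nat_lit 319) (nat_lit 304)) (XT.nd (nat_lit 78) (nat_lit 228) (nat_lit 0) (XT.lf (nat_lit 0) (nat_lit 2985579052) (nat_lit 380) (nat_lit 5631183622) (nat_lit 76) (nat_lit 1533369980) (nat_lit 208) (nat_lit 5) (nat_lit 213) (nat_lit 5) (nat_lit 209) (nat_lit 4) (nat_lit 398) (nat_lit 319) (nat_lit 303)) (XT.lf (nat_lit 0) (nat_lit 3074675047) (nat_lit 228) (nat_lit 4476918624) (nat_lit 304) (nat_lit 2741638783) (nat_lit 205) (nat_lit 5) (nat_lit 208) (nat_lit 5) (nat_lit 209) (nat_lit 4) (nat_lit 399) (nat_lit 319) (nat_lit 302)))) (XT.nd (nat_lit 78) (nat_lit 304) (nat_lit 0) (XT.lf (nat_lit 0) (nat_lit 1585212946) (nat_lit 228) (nat_lit 177722371) (nat_lit 304) (nat_lit 8677635760) (nat_lit 201) (nat_lit 5) (nat_lit 204) (nat_lit 5) (nat_lit 205) (nat_lit 5) (nat_lit 400) (nat_lit 319) (nat_lit 301)) (XT.nd (nat_lit 78) (nat_lit 304) (nat_lit 0) (XT.lf (nat_lit 0) (nat_lit 6374349989) (nat_lit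 304) (nat_lit 4372917) (nat_lit 76) (nat_lit 4211988377) (nat_lit 201) (nat_lit 5) (nat_lit 205) (nat_lit 5) (nat_lit 202) (nat_lit 4) (nat_lit 401) (nat_lit 319) (nat_lit 300)) (XT.lf (nat_lit 0) (nat_lit 375975810) (nat_lit 304) (nat_lit 1602345968) (nat_lit 76) (nat_lit 8766786237) (nat_lit 197) (nat_lit 5) (nat_lit 201) (nat_lit 5) (nat_lit 198) (nat_lit 5) (nat_lit 402) (nat_lit 319) (nat_lit 299))))) (XT.nd (nat_lit 234) (nat_lit 456) (nat_lit 0) (XT.nd (nat_lit 78) (nat_lit 532) (nat_lit 0) (XT.lf (nat_lit 0) (nat_lit 5034992720) (nat_lit 304) (nat_lit 3303658741) (nat_lit 76) (nat_lit 2563823174) (nat_lit 194) (nat_lit 5) (nat_lit 198) (nat_lit 5) (nat_lit 195) (nat_lit 4) (nat_lit 403) (nat_lit 319) (nat_lit 298)) (XT.nd (nat_lit 78) (nat_lit 304) (nat_lit 0) (XT.lf (nat_lit 0) (nat_lit 5998936357) (nat_lit 228) (nat_lit 3844178729) (nat_lit 304) (nat_lit 1221167117) (nat_lit 191) (nat_lit 5)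 (nat_lit 194) (nat_lit 5) (nat_lit 195) (nat_lit 4) (nat_lit 404) (nat_lit 319) (nat_lit 297)) (XT.lf (nat_lit 0) (nat_lit 3494312835) (nat_lit 304) (nat_lit 6913480745) (nat_lit 76) (nat_lit 822142503) (nat_lit 187) (nat_lit 5) (nat_lit 191) (nat_lit 5) (nat_lit 188) (nat_lit 4) (nat_lit 405) (nat_lit 319) (nat_lit 296)))) (XT.nd (nat_lit 78) (nat_lit 304) (nat_lit 0) (XT.lf (nat_lit 0) (nat_lit 2539475831) (nat_lit 152) (nat_lit 5817888145) (nat_lit 228) (nat_lit 3041913350) (nat_lit 185) (nat_lit 5) (nat_lit 187) (nat_lit 5) (nat_lit 188) (nat_lit 4) (nat_lit 406) (nat_lit 319) (nat_lit 295)) (XT.nd (nat_lit 78) (nat_lit 0) (nat_lit 0) (XT.lf (nat_lit 0) (nat_lit 697641368) (nat_lit 228) (nat_lit 1053963889) (nat_lit 304) (nat_lit 9821757269) (nat_lit 181) (nat_lit 5) (nat_lit 184) (nat_lit 5) (nat_lit 185) (nat_lit 5) (nat_lit 407) (nat_lit 319) (nat_lit 294)) (XT.lf (nat_lit 0) (nat_lit 6672415699)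 (nat_lit 304) (nat_lit 1239256420) (nat_lit 76) (nat_lit 3838755854) (nat_lit 181) (nat_lit 5) (nat_lit 185) (nat_lit 5) (nat_lit 182) (nat_lit 4) (nat_lit 408) (nat_lit 319) (nat_lit 293))))))))
noncomputable def xc17 : XT := (XT.nd (nat_lit 1794) (nat_lit 760) (nat_lit 0) (XT.nd (nat_lit 858) (nat_lit 1520) (nat_lit 0) (XT.nd (nat_lit 390) (nat_lit 836) (nat_lit 0) (XT.nd (nat_lit 156) (nat_lit 532) (nat_lit 0) (XT.nd (nat_lit 78) (nat_lit 304) (nat_lit 0) (XT.lf (nat_lit 0) (nat_lit 8705297009) (nat_lit 152) (nat_lit 3049317010) (nat_lit 228) (nat_lit 177778457) (nat_lit 179) (nat_lit 5) (nat_lit 181) (nat_lit 5) (nat_lit 182) (nat_lit 4) (nat_lit 409) (nat_lit 319) (nat_lit 292)) (XT.lf (nat_lit 0) (nat_lit 4791787705) (nat_lit 304) (nat_lit 5338724020) (nat_lit 76) (nat_lit 1987379560) (nat_lit 175) (nat_lit 5) (nat_lit 179) (nat_lit 5) (nat_lit 176) (nat_lit 4) (nat_lit 410) (nat_lit 319) (nat_lit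 291))) (XT.nd (nat_lit 78) (nat_lit 380) (nat_lit 0) (XT.lf (nat_lit 0) (nat_lit 4763392939) (nat_lit 152) (nat_lit 5172647269) (nat_lit 228) (nat_lit 2371986868) (nat_lit 173) (nat_lit 5) (nat_lit 175) (nat_lit 5) (nat_lit 176) (nat_lit 4) (nat_lit 411) (nat_lit 319) (nat_lit 290)) (XT.nd (nat_lit 78) (nat_lit 152) (nat_lit 0) (XT.lf (nat_lit 0) (nat_lit 2659601231) (nat_lit 152) (nat_lit 18357503) (nat_lit 228) (nat_lit 9825105951) (nat_lit 170) (nat_lit 5) (nat_lit 172) (nat_lit 5) (nat_lit 173) (nat_lit 5) (nat_lit 412) (nat_lit 319) (nat_lit 289)) (XT.lf (nat_lit 0) (nat_lit 414284383) (nat_lit 152) (nat_lit 7470086279) (nat_lit 228) (nat_lit 4817298933) (nat_lit 168) (nat_lit 5) (nat_lit 170) (nat_lit 5) (nat_lit 171) (nat_lit 4) (nat_lit 413) (nat_lit 319) (nat_lit 288))))) (XT.nd (nat_lit 234) (nat_lit 456) (nat_lit 0) (XT.nd (nat_lit 78) (nat_lit 304) (nat_lit 0) (XT.lf (nat_lit 0) (nat_lit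 355705062) (nat_lit 228) (nat_lit 1867986300) (nat_lit 76) (nat_lit 10681794670) (nat_lit 167) (nat_lit 5) (nat_lit 170) (nat_lit 5) (nat_lit 168) (nat_lit 5) (nat_lit 414) (nat_lit 319) (nat_lit 287)) (XT.nd (nat_lit 78) (nat_lit 152) (nat_lit 0) (XT.lf (nat_lit 0) (nat_lit 5626803138) (nat_lit 228) (nat_lit 4293719501) (nat_lit 76) (nat_lit 3192271637) (nat_lit 165) (nat_lit 5) (nat_lit 168) (nat_lit 5) (nat_lit 166) (nat_lit 4) (nat_lit 415) (nat_lit 319) (nat_lit 286)) (XT.lf (nat_lit 0) (nat_lit 6505987297) (nat_lit 152) (nat_lit 4577337899) (nat_lit 228) (nat_lit 2242177839) (nat_lit 163) (nat_lit 5) (nat_lit 165) (nat_lit 5) (nat_lit 166) (nat_lit 4) (nat_lit 416) (nat_lit 319) (nat_lit 285)))) (XT.nd (nat_lit 78) (nat_lit 228) (nat_lit 0) (XT.lf (nat_lit 0) (nat_lit 3113639760) (nat_lit 228) (nat_lit 9467784014) (nat_lit 76) (nat_lit 961768338) (nat_lit 160) (nat_lit 5) (nat_lit 163) (nat_lit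 5) (nat_lit 161) (nat_lit 4) (nat_lit 417) (nat_lit 319) (nat_lit 284)) (XT.nd (nat_lit 78) (nat_lit 76) (nat_lit 0) (XT.lf (nat_lit 0) (nat_lit 1494059154) (nat_lit 152) (nat_lit 7144392227) (nat_lit 228) (nat_lit 5126692937) (nat_lit 158) (nat_lit 5) (nat_lit 160) (nat_lit 5) (nat_lit 161) (nat_lit 4) (nat_lit 418) (nat_lit 319) (nat_lit 283)) (XT.lf (nat_lit 0) (nat_lit 349568847) (nat_lit 228) (nat_lit 1154887293) (nat_lit 76) (nat_lit 12488576512) (nat_lit 157) (nat_lit 5) (nat_lit 160) (nat_lit 5) (nat_lit 158) (nat_lit 5) (nat_lit 419) (nat_lit 319) (nat_lit 282)))))) (XT.nd (nat_lit 468) (nat_lit 684) (nat_lit 0) (XT.nd (nat_lit 234) (nat_lit 304) (nat_lit 0) (XT.nd (nat_lit 78) (nat_lit 380) (nat_lit 0) (XT.lf (nat_lit 0) (nat_lit 5954974816) (nat_lit 228) (nat_lit 3957137478) (nat_lit 76) (nat_lit 4312085629) (nat_lit 155) (nat_lit 5) (nat_lit 158) (nat_lit 5) (nat_lit 156) (nat_lit 4) (nat_lit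 420) (nat_lit 319) (nat_lit 281)) (XT.nd (nat_lit 78) (nat_lit 228) (nat_lit 0) (XT.lf (nat_lit 0) (nat_lit 7591615208) (nat_lit 152) (nat_lit 4163362490) (nat_lit 228) (nat_lit 2706527412) (nat_lit 153) (nat_lit 5) (nat_lit 155) (nat_lit 5) (nat_lit 156) (nat_lit 4) (nat_lit 421) (nat_lit 319) (nat_lit 280)) (XT.lf (nat_lit 0) (nat_lit 2994842967) (nat_lit 228) (nat_lit 9929868691) (nat_lit 76) (nat_lit 1779424541) (nat_lit 150) (nat_lit 5) (nat_lit 153) (nat_lit 5) (nat_lit 151) (nat_lit 4) (nat_lit 422) (nat_lit 319) (nat_lit 279)))) (XT.nd (nat_lit 78) (nat_lit 228) (nat_lit 0) (XT.lf (nat_lit 0) (nat_lit 1787495464) (nat_lit 76) (nat_lit 7080994158) (nat_lit 152) (nat_lit 6083083670) (nat_lit 149) (nat_lit 5) (nat_lit 150) (nat_lit 5) (nat_lit 151) (nat_lit 4) (nat_lit 423) (nat_lit 319) (nat_lit 278)) (XT.nd (nat_lit 78) (nat_lit 228) (nat_lit 0) (XT.lf (nat_lit 0) (nat_lit 13925969446) (nat_lit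 76) (nat_lit 1020652443) (nat_lit 152) (nat_lit 258963322) (nat_lit 149) (nat_lit 5) (nat_lit 150) (nat_lit 5) (nat_lit 151) (nat_lit 4) (nat_lit 424) (nat_lit 319) (nat_lit 277)) (XT.lf (nat_lit 0) (nat_lit 5714117738) (nat_lit 228) (nat_lit 4526533562) (nat_lit 76) (nat_lit 5222323645) (nat_lit 146) (nat_lit 5) (nat_lit 149) (nat_lit 5) (nat_lit 147) (nat_lit 4) (nat_lit 425) (nat_lit 319) (nat_lit 276))))) (XT.nd (nat_lit 234) (nat_lit 304) (nat_lit 0) (XT.nd (nat_lit 78) (nat_lit 304) (nat_lit 0) (XT.lf (nat_lit 0) (nat_lit 7825732316) (nat_lit 76) (nat_lit 4063467843) (nat_lit 152) (nat_lit 3837968877) (nat_lit 145) (nat_lit 5) (nat_lit 146) (nat_lit 5) (nat_lit 147) (nat_lit 4) (nat_lit 426) (nat_lit 319) (nat_lit 275)) (XT.nd (nat_lit 78) (nat_lit 76) (nat_lit 0) (XT.lf (nat_lit 0) (nat_lit 2248868101) (nat_lit 228) (nat_lit 11441750119) (nat_lit 76) (nat_lit 2306745835) (nat_lit 142) (nat_lit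 5) (nat_lit 145) (nat_lit 5) (nat_lit 143) (nat_lit 4) (nat_lit 427) (nat_lit 319) (nat_lit 274)) (XT.lf (nat_lit 0) (nat_lit 1085227953) (nat_lit 76) (nat_lit 7417131567) (nat_lit 152) (nat_lit 7770329752) (nat_lit 141) (nat_lit 5) (nat_lit 142) (nat_lit 5) (nat_lit 143) (nat_lit 4) (nat_lit 428) (nat_lit 319) (nat_lit 273)))) (XT.nd (nat_lit 78) (nat_lit 304) (nat_lit 0) (XT.lf (nat_lit 0) (nat_lit 14091850900) (nat_lit 76) (nat_lit 897873460) (nat_lit 152) (nat_lit 1565161826) (nat_lit 141) (nat_lit 5) (nat_lit 142) (nat_lit 5) (nat_lit 143) (nat_lit 4) (nat_lit 429) (nat_lit 319) (nat_lit 272)) (XT.nd (nat_lit 78) (nat_lit 76) (nat_lit 0) (XT.lf (nat_lit 0) (nat_lit 4823510350) (nat_lit 228) (nat_lit 6223106599) (nat_lit 76) (nat_lit 5794794547) (nat_lit 138) (nat_lit 5) (nat_lit 141) (nat_lit 5) (nat_lit 139) (nat_lit 4) (nat_lit 430) (nat_lit 319) (nat_lit 271)) (XT.lf (nat_lit 0) (nat_lit 6990122338)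 (nat_lit 76) (nat_lit 4415726838) (nat_lit 152) (nat_lit 5729214552) (nat_lit 137) (nat_lit 5) (nat_lit 138) (nat_lit 5) (nat_lit 139) (nat_lit 4) (nat_lit 431) (nat_lit 319) (nat_lit 270))))))) (XT.nd (nat_lit 49530) (nat_lit 0) (nat_lit 6536) (XT.nd (nat_lit 49062) (nat_lit 0) (nat_lit 9956) (XT.nd (nat_lit 234) (nat_lit 456) (nat_lit 0) (XT.nd (nat_lit 78) (nat_lit 76) (nat_lit 0) (XT.lf (nat_lit 0) (nat_lit 783908938) (nat_lit 228) (nat_lit 14241997792) (nat_lit 76) (nat_lit 2409891798) (nat_lit 134) (nat_lit 5) (nat_lit 137) (nat_lit 5) (nat_lit 135) (nat_lit 4) (nat_lit 432) (nat_lit 319) (nat_lit 269)) (XT.nd (nat_lit 78) (nat_lit 76) (nat_lit 0) (XT.lf (nat_lit 0) (nat_lit 7456970400) (nat_lit 228) (nat_lit 831964892) (nat_lit 76) (nat_lit 9452527458) (nat_lit 134) (nat_lit 5) (nat_lit 137) (nat_lit 5) (nat_lit 135) (nat_lit 4) (nat_lit 433) (nat_lit 319) (nat_lit 268)) (XT.lf (nat_lit 0) (nat_lit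 13111275398) (nat_lit 76) (nat_lit 1279464847) (nat_lit 152) (nat_lit 3663741158) (nat_lit 133) (nat_lit 5) (nat_lit 134) (nat_lit 5) (nat_lit 135) (nat_lit 4) (nat_lit 434) (nat_lit 319) (nat_lit 267)))) (XT.nd (nat_lit 78) (nat_lit 228) (nat_lit 0) (XT.lf (nat_lit 0) (nat_lit 3182703937) (nat_lit 228) (nat_lit 9296767350) (nat_lit 76) (nat_lit 5893849840) (nat_lit 130) (nat_lit 5) (nat_lit 133) (nat_lit 5) (nat_lit 131) (nat_lit 4) (nat_lit 435) (nat_lit 319) (nat_lit 266)) (XT.nd (nat_lit 78) (nat_lit 152) (nat_lit 0) (XT.lf (nat_lit 0) (nat_lit 4837807407) (nat_lit 76) (nat_lit 5367388861) (nat_lit 152) (nat_lit 8494112790) (nat_lit 129) (nat_lit 5) (nat_lit 130) (nat_lit 5) (nat_lit 131) (nat_lit 4) (nat_lit 436) (nat_lit 319) (nat_lit 265)) (XT.lf (nat_lit 0) (nat_lit 417828402) (nat_lit 152) (nat_lit 17073030349) (nat_lit 152) (nat_lit 1542643014) (nat_lit 127) (nat_lit 4) (nat_lit 129) (nat_lit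 5) (nat_lit 129) (nat_lit 4) (nat_lit 437) (nat_lit 319) (nat_lit 264))))) (XT.nd (nat_lit 234) (nat_lit 1292) (nat_lit 0) (XT.nd (nat_lit 78) (nat_lit 912) (nat_lit 0) (XT.lf (nat_lit 0) (nat_lit 3674633823) (nat_lit 456) (nat_lit 197047684) (nat_lit 456) (nat_lit 197047684) (nat_lit 287) (nat_lit 4) (nat_lit 293) (nat_lit 5) (nat_lit 293) (nat_lit 4) (nat_lit 380) (nat_lit 320) (nat_lit 320)) (XT.nd (nat_lit 78) (nat_lit 456) (nat_lit 0) (XT.lf (nat_lit 0) (nat_lit 3688007591) (nat_lit 456) (nat_lit 1992500522) (nat_lit 0) (nat_lit 2543237538) (nat_lit 281) (nat_lit 5) (nat_lit 287) (nat_lit 4) (nat_lit 281) (nat_lit 4) (nat_lit 381) (nat_lit 320) (nat_lit 319)) (XT.lf (nat_lit 0) (nat_lit 5117718153) (nat_lit 456) (nat_lit 2726104262) (nat_lit 456) (nat_lit 469906973) (nat_lit 275) (nat_lit 4) (nat_lit 281) (nat_lit 5) (nat_lit 281) (nat_lit 4) (nat_lit 382) (nat_lit 320) (nat_lit 318)))) (XT.nd (nat_lit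 78) (nat_lit 836) (nat_lit 0) (XT.lf (nat_lit 0) (nat_lit 3606202635) (nat_lit 456) (nat_lit 4432219181) (nat_lit 0) (nat_lit 368093063) (nat_lit 269) (nat_lit 5) (nat_lit 275) (nat_lit 4) (nat_lit 269) (nat_lit 4) (nat_lit 383) (nat_lit 320) (nat_lit 317)) (XT.nd (nat_lit 78) (nat_lit 456) (nat_lit 0) (XT.lf (nat_lit 0) (nat_lit 2805698930) (nat_lit 380) (nat_lit 4975936909) (nat_lit 380) (nat_lit 720713972) (nat_lit 264) (nat_lit 4) (nat_lit 269) (nat_lit 5) (nat_lit 269) (nat_lit 4) (nat_lit 384) (nat_lit 320) (nat_lit 316)) (XT.lf (nat_lit 0) (nat_lit 1607561933) (nat_lit 380) (nat_lit 1766957068) (nat_lit 456) (nat_lit 5226701498) (nat_lit 258) (nat_lit 5) (nat_lit 263) (nat_lit 5) (nat_lit 264) (nat_lit 4) (nat_lit 385) (nat_lit 320) (nat_lit 315)))))) (XT.nd (nat_lit 468) (nat_lit 1520) (nat_lit 0) (XT.nd (nat_lit 234) (nat_lit 1140) (nat_lit 0) (XT.nd (nat_lit 78) (nat_lit 380) (nat_lit 0) (XT.lf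 (nat_lit 0) (nat_lit 388500934) (nat_lit 380) (nat_lit 7167903984) (nat_lit 380) (nat_lit 1147089869) (nat_lit 253) (nat_lit 4) (nat_lit 258) (nat_lit 5) (nat_lit 258) (nat_lit 4) (nat_lit 386) (nat_lit 320) (nat_lit 314)) (XT.nd (nat_lit 78) (nat_lit 304) (nat_lit 0) (XT.lf (nat_lit 0) (nat_lit 2986324318) (nat_lit 456) (nat_lit 862267799) (nat_lit 76) (nat_lit 4959633420) (nat_lit 252) (nat_lit 5) (nat_lit 258) (nat_lit 5) (nat_lit 253) (nat_lit 4) (nat_lit 387) (nat_lit 320) (nat_lit 313)) (XT.lf (nat_lit 0) (nat_lit 6795998073) (nat_lit 304) (nat_lit 395073435) (nat_lit 380) (nat_lit 1725574405) (nat_lit 248) (nat_lit 5) (nat_lit 252) (nat_lit 5) (nat_lit 253) (nat_lit 4) (nat_lit 388) (nat_lit 320) (nat_lit 312)))) (XT.nd (nat_lit 78) (nat_lit 684) (nat_lit 0) (XT.lf (nat_lit 0) (nat_lit 2444183752) (nat_lit 456) (nat_lit 3439951177) (nat_lit 76) (nat_lit 3143488814) (nat_lit 242) (nat_lit 5) (nat_lit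 248) (nat_lit 5) (nat_lit 243) (nat_lit 4) (nat_lit 389) (nat_lit 320) (nat_lit 311)) (XT.nd (nat_lit 78) (nat_lit 380) (nat_lit 0) (XT.lf (nat_lit 0) (nat_lit 4352351371) (nat_lit 304) (nat_lit 2325931509) (nat_lit 380) (nat_lit 2463917563) (nat_lit 238) (nat_lit 5) (nat_lit 242) (nat_lit 5) (nat_lit 243) (nat_lit 4) (nat_lit 390) (nat_lit 320) (nat_lit 310)) (XT.lf (nat_lit 0) (nat_lit 1729512286) (nat_lit 380) (nat_lit 6182386737) (nat_lit 76) (nat_lit 1348251137) (nat_lit 233) (nat_lit 5) (nat_lit 238) (nat_lit 5) (nat_lit 234) (nat_lit 4) (nat_lit 391) (nat_lit 320) (nat_lit 309))))) (XT.nd (nat_lit 234) (nat_lit 836) (nat_lit 0) (XT.nd (nat_lit 78) (nat_lit 380) (nat_lit 0) (XT.lf (nat_lit 0) (nat_lit 1743355292) (nat_lit 304) (nat_lit 4252426139) (nat_lit 380) (nat_lit 3385228320) (nat_lit 229) (nat_lit 5) (nat_lit 233) (nat_lit 5) (nat_lit 234) (nat_lit 4) (nat_lit 392) (nat_lit 320) (nat_lit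 308)) (XT.nd (nat_lit 78) (nat_lit 0) (nat_lit 0) (XT.lf (nat_lit 0) (nat_lit 385792493) (nat_lit 304) (nat_lit 456601628) (nat_lit 380) (nat_lit 8663592588) (nat_lit 224) (nat_lit 5) (nat_lit 228) (nat_lit 5) (nat_lit 229) (nat_lit 5) (nat_lit 393) (nat_lit 320) (nat_lit 307)) (XT.lf (nat_lit 0) (nat_lit 5149065469) (nat_lit 380) (nat_lit 1036784061) (nat_lit 76) (nat_lit 3447250133) (nat_lit 224) (nat_lit 5) (nat_lit 229) (nat_lit 5) (nat_lit 225) (nat_lit 4) (nat_lit 394) (nat_lit 320) (nat_lit 306)))) (XT.nd (nat_lit 78) (nat_lit 608) (nat_lit 0) (XT.lf (nat_lit 0) (nat_lit 7287573512) (nat_lit 228) (nat_lit 2283759907) (nat_lit 304) (nat_lit 193100694) (nat_lit 221) (nat_lit 5) (nat_lit 224) (nat_lit 5) (nat_lit 225) (nat_lit 4) (nat_lit 395) (nat_lit 320) (nat_lit 305)) (XT.nd (nat_lit 78) (nat_lit 228) (nat_lit 0) (XT.lf (nat_lit 0) (nat_lit 4141011228) (nat_lit 380) (nat_lit 3997693567) (nat_lit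 76) (nat_lit 1759877176) (nat_lit 216) (nat_lit 5) (nat_lit 221) (nat_lit 5) (nat_lit 217) (nat_lit 4) (nat_lit 396) (nat_lit 320) (nat_lit 304)) (XT.lf (nat_lit 0) (nat_lit 4466776704) (nat_lit 228) (nat_lit 4138233133) (nat_lit 304) (nat_lit 1431574738) (nat_lit 213) (nat_lit 5) (nat_lit 216) (nat_lit 5) (nat_lit 217) (nat_lit 4) (nat_lit 397) (nat_lit 320) (nat_lit 303))))))))
noncomputable def xc18 : XT := (XT.nd (nat_lit 1794) (nat_lit 1976) (nat_lit 0) (XT.nd (nat_lit 858) (nat_lit 1976) (nat_lit 0) (XT.nd (nat_lit 390) (nat_lit 1216) (nat_lit 0) (XT.nd (nat_lit 156) (nat_lit 608) (nat_lit 0) (XT.nd (nat_lit 78) (nat_lit 228) (nat_lit 0) (XT.lf (nat_lit 0) (nat_lit 2948150142) (nat_lit 380) (nat_lit 7201118130) (nat_lit 76) (nat_lit 29098010) (nat_lit 208) (nat_lit 5) (nat_lit 213) (nat_lit 5) (nat_lit 209) (nat_lit 4) (nat_lit 398) (nat_lit 320) (nat_lit 302)) (XT.lf (nat_lit 0) (nat_lit 1402467708)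 (nat_lit 228) (nat_lit 6053236321) (nat_lit 304) (nat_lit 2867515875) (nat_lit 205) (nat_lit 5) (nat_lit 208) (nat_lit 5) (nat_lit 209) (nat_lit 4) (nat_lit 399) (nat_lit 320) (nat_lit 301))) (XT.nd (nat_lit 78) (nat_lit 532) (nat_lit 0) (XT.lf (nat_lit 0) (nat_lit 1582047721) (nat_lit 304) (nat_lit 216504762) (nat_lit 76) (nat_lit 8673766349) (nat_lit 204) (nat_lit 5) (nat_lit 208) (nat_lit 5) (nat_lit 205) (nat_lit 5) (nat_lit 400) (nat_lit 320) (nat_lit 300)) (XT.nd (nat_lit 78) (nat_lit 304) (nat_lit 0) (XT.lf (nat_lit 0) (nat_lit 6133811286) (nat_lit 304) (nat_lit 1896710913) (nat_lit 76) (nat_lit 2593726373) (nat_lit 201) (nat_lit 5) (nat_lit 205) (nat_lit 5) (nat_lit 202) (nat_lit 4) (nat_lit 401) (nat_lit 320) (nat_lit 299)) (XT.lf (nat_lit 0) (nat_lit 46729215) (nat_lit 304) (nat_lit 3633866488) (nat_lit 76) (nat_lit 7099944203) (nat_lit 197) (nat_lit 5) (nat_lit 201) (nat_lit 5) (nat_lit 198)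 (nat_lit 5) (nat_lit 402) (nat_lit 320) (nat_lit 298))))) (XT.nd (nat_lit 234) (nat_lit 456) (nat_lit 0) (XT.nd (nat_lit 78) (nat_lit 532) (nat_lit 0) (XT.lf (nat_lit 0) (nat_lit 4627762063) (nat_lit 304) (nat_lit 5465601202) (nat_lit 76) (nat_lit 846882781) (nat_lit 194) (nat_lit 5) (nat_lit 198) (nat_lit 5) (nat_lit 195) (nat_lit 4) (nat_lit 403) (nat_lit 320) (nat_lit 297)) (XT.nd (nat_lit 78) (nat_lit 304) (nat_lit 0) (XT.lf (nat_lit 0) (nat_lit 3724136594) (nat_lit 228) (nat_lit 5649583303) (nat_lit 304) (nat_lit 1730198653) (nat_lit 191) (nat_lit 5) (nat_lit 194) (nat_lit 5) (nat_lit 195) (nat_lit 4) (nat_lit 404) (nat_lit 320) (nat_lit 296)) (XT.lf (nat_lit 0) (nat_lit 1899288783) (nat_lit 228) (nat_lit 1024380680) (nat_lit 304) (nat_lit 8348196107) (nat_lit 187) (nat_lit 5) (nat_lit 190) (nat_lit 5) (nat_lit 191) (nat_lit 5) (nat_lit 405) (nat_lit 320) (nat_lit 295)))) (XT.nd (nat_lit 78) (nat_lit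 456) (nat_lit 0) (XT.lf (nat_lit 0) (nat_lit 7712538380) (nat_lit 304) (nat_lit 28168830) (nat_lit 76) (nat_lit 3702725070) (nat_lit 187) (nat_lit 5) (nat_lit 191) (nat_lit 5) (nat_lit 188) (nat_lit 4) (nat_lit 406) (nat_lit 320) (nat_lit 294)) (XT.nd (nat_lit 78) (nat_lit 228) (nat_lit 0) (XT.lf (nat_lit 0) (nat_lit 1029277209) (nat_lit 228) (nat_lit 1990673602) (nat_lit 76) (nat_lit 8599169118) (nat_lit 184) (nat_lit 5) (nat_lit 187) (nat_lit 5) (nat_lit 185) (nat_lit 5) (nat_lit 407) (nat_lit 320) (nat_lit 293)) (XT.lf (nat_lit 0) (nat_lit 5871897298) (nat_lit 304) (nat_lit 4063624178) (nat_lit 76) (nat_lit 1863009610) (nat_lit 181) (nat_lit 5) (nat_lit 185) (nat_lit 5) (nat_lit 182) (nat_lit 4) (nat_lit 408) (nat_lit 320) (nat_lit 292)))))) (XT.nd (nat_lit 468) (nat_lit 988) (nat_lit 0) (XT.nd (nat_lit 234) (nat_lit 380) (nat_lit 0) (XT.nd (nat_lit 78) (nat_lit 456) (nat_lit 0) (XT.lf (nat_lit 0)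 (nat_lit 5756213974) (nat_lit 152) (nat_lit 5131103696) (nat_lit 228) (nat_lit 1095181257) (nat_lit 179) (nat_lit 5) (nat_lit 181) (nat_lit 5) (nat_lit 182) (nat_lit 4) (nat_lit 409) (nat_lit 320) (nat_lit 291)) (XT.nd (nat_lit 78) (nat_lit 152) (nat_lit 0) (XT.lf (nat_lit 0) (nat_lit 3680739676) (nat_lit 228) (nat_lit 123760737) (nat_lit 304) (nat_lit 8366395472) (nat_lit 175) (nat_lit 5) (nat_lit 178) (nat_lit 5) (nat_lit 179) (nat_lit 5) (nat_lit 410) (nat_lit 320) (nat_lit 290)) (XT.lf (nat_lit 0) (nat_lit 1481639850) (nat_lit 152) (nat_lit 7396251324) (nat_lit 228) (nat_lit 3485266354) (nat_lit 173) (nat_lit 5) (nat_lit 175) (nat_lit 5) (nat_lit 176) (nat_lit 4) (nat_lit 411) (nat_lit 320) (nat_lit 289)))) (XT.nd (nat_lit 78) (nat_lit 304) (nat_lit 0) (XT.lf (nat_lit 0) (nat_lit 1522807159) (nat_lit 228) (nat_lit 786046319) (nat_lit 76) (nat_lit 10251570590) (nat_lit 172) (nat_lit 5) (nat_lit 175)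 (nat_lit 5) (nat_lit 173) (nat_lit 5) (nat_lit 412) (nat_lit 320) (nat_lit 288)) (XT.nd (nat_lit 78) (nat_lit 152) (nat_lit 0) (XT.lf (nat_lit 0) (nat_lit 6657588511) (nat_lit 228) (nat_lit 3158337501) (nat_lit 76) (nat_lit 2945251882) (nat_lit 170) (nat_lit 5) (nat_lit 173) (nat_lit 5) (nat_lit 171) (nat_lit 4) (nat_lit 413) (nat_lit 320) (nat_lit 287)) (XT.lf (nat_lit 0) (nat_lit 7338527208) (nat_lit 152) (nat_lit 4634711056) (nat_lit 228) (nat_lit 993911323) (nat_lit 168) (nat_lit 5) (nat_lit 170) (nat_lit 5) (nat_lit 171) (nat_lit 4) (nat_lit 414) (nat_lit 320) (nat_lit 286))))) (XT.nd (nat_lit 234) (nat_lit 532) (nat_lit 0) (XT.nd (nat_lit 78) (nat_lit 228) (nat_lit 0) (XT.lf (nat_lit 0) (nat_lit 4198577730) (nat_lit 228) (nat_lit 8226877925) (nat_lit 76) (nat_lit 752228913) (nat_lit 165) (nat_lit 5) (nat_lit 168) (nat_lit 5) (nat_lit 166) (nat_lit 4) (nat_lit 415) (nat_lit 320) (nat_lit 285)) (XT.nd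 (nat_lit 78) (nat_lit 76) (nat_lit 0) (XT.lf (nat_lit 0) (nat_lit 2427214007) (nat_lit 152) (nat_lit 7152179482) (nat_lit 228) (nat_lit 3813271028) (nat_lit 163) (nat_lit 5) (nat_lit 165) (nat_lit 5) (nat_lit 166) (nat_lit 4) (nat_lit 416) (nat_lit 320) (nat_lit 284)) (XT.lf (nat_lit 0) (nat_lit 1488085412) (nat_lit 228) (nat_lit 191528666) (nat_lit 76) (nat_lit 11933746150) (nat_lit 162) (nat_lit 5) (nat_lit 165) (nat_lit 5) (nat_lit 163) (nat_lit 5) (nat_lit 417) (nat_lit 320) (nat_lit 283)))) (XT.nd (nat_lit 78) (nat_lit 380) (nat_lit 0) (XT.lf (nat_lit 0) (nat_lit 6944220764) (nat_lit 228) (nat_lit 2926153548) (nat_lit 76) (nat_lit 3966998410) (nat_lit 160) (nat_lit 5) (nat_lit 163) (nat_lit 5) (nat_lit 161) (nat_lit 4) (nat_lit 418) (nat_lit 320) (nat_lit 282)) (XT.nd (nat_lit 78) (nat_lit 228) (nat_lit 0) (XT.lf (nat_lit 0) (nat_lit 8297626640) (nat_lit 152) (nat_lit 4293269626) (nat_lit 228) (nat_lit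 1476403640) (nat_lit 158) (nat_lit 5) (nat_lit 160) (nat_lit 5) (nat_lit 161) (nat_lit 4) (nat_lit 419) (nat_lit 320) (nat_lit 281)) (XT.lf (nat_lit 0) (nat_lit 4049247695) (nat_lit 228) (nat_lit 8764399548) (nat_lit 76) (nat_lit 1488500635) (nat_lit 155) (nat_lit 5) (nat_lit 158) (nat_lit 5) (nat_lit 156) (nat_lit 4) (nat_lit 420) (nat_lit 320) (nat_lit 280))))))) (XT.nd (nat_lit 936) (nat_lit 608) (nat_lit 0) (XT.nd (nat_lit 468) (nat_lit 608) (nat_lit 0) (XT.nd (nat_lit 234) (nat_lit 380) (nat_lit 0) (XT.nd (nat_lit 78) (nat_lit 228) (nat_lit 0) (XT.lf (nat_lit 0) (nat_lit 2622874638) (nat_lit 152) (nat_lit 7143597973) (nat_lit 228) (nat_lit 4775465793) (nat_lit 153) (nat_lit 5) (nat_lit 155) (nat_lit 5) (nat_lit 156) (nat_lit 4) (nat_lit 421) (nat_lit 320) (nat_lit 279)) (XT.nd (nat_lit 78) (nat_lit 152) (nat_lit 0) (XT.lf (nat_lit 0) (nat_lit 867813455) (nat_lit 228) (nat_lit 395147083) (nat_lit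 76) (nat_lit 13525159499) (nat_lit 152) (nat_lit 5) (nat_lit 155) (nat_lit 5) (nat_lit 153) (nat_lit 5) (nat_lit 422) (nat_lit 320) (nat_lit 278)) (XT.lf (nat_lit 0) (nat_lit 6673393263) (nat_lit 228) (nat_lit 3561289373) (nat_lit 76) (nat_lit 4802916499) (nat_lit 150) (nat_lit 5) (nat_lit 153) (nat_lit 5) (nat_lit 151) (nat_lit 4) (nat_lit 423) (nat_lit 320) (nat_lit 277)))) (XT.nd (nat_lit 78) (nat_lit 304) (nat_lit 0) (XT.lf (nat_lit 0) (nat_lit 8442238105) (nat_lit 76) (nat_lit 4239939807) (nat_lit 152) (nat_lit 2611513571) (nat_lit 149) (nat_lit 5) (nat_lit 150) (nat_lit 5) (nat_lit 151) (nat_lit 4) (nat_lit 424) (nat_lit 320) (nat_lit 276)) (XT.nd (nat_lit 78) (nat_lit 76) (nat_lit 0) (XT.lf (nat_lit 0) (nat_lit 3286698248) (nat_lit 228) (nat_lit 10309778320) (nat_lit 76) (nat_lit 1958906353) (nat_lit 146) (nat_lit 5) (nat_lit 149) (nat_lit 5) (nat_lit 147) (nat_lit 4) (nat_lit 425) (nat_lit 320)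 (nat_lit 275)) (XT.lf (nat_lit 0) (nat_lit 1863153286) (nat_lit 76) (nat_lit 7507657540) (nat_lit 152) (nat_lit 6451495280) (nat_lit 145) (nat_lit 5) (nat_lit 146) (nat_lit 5) (nat_lit 147) (nat_lit 4) (nat_lit 426) (nat_lit 320) (nat_lit 274))))) (XT.nd (nat_lit 234) (nat_lit 304) (nat_lit 0) (XT.nd (nat_lit 78) (nat_lit 304) (nat_lit 0) (XT.lf (nat_lit 0) (nat_lit 14486011427) (nat_lit 76) (nat_lit 1187999367) (nat_lit 152) (nat_lit 422129273) (nat_lit 145) (nat_lit 5) (nat_lit 146) (nat_lit 5) (nat_lit 147) (nat_lit 4) (nat_lit 427) (nat_lit 320) (nat_lit 273)) (XT.nd (nat_lit 78) (nat_lit 76) (nat_lit 0) (XT.lf (nat_lit 0) (nat_lit 5768301402) (nat_lit 228) (nat_lit 5280484070) (nat_lit 76) (nat_lit 5324940486) (nat_lit 142) (nat_lit 5) (nat_lit 145) (nat_lit 5) (nat_lit 143) (nat_lit 4) (nat_lit 428) (nat_lit 320) (nat_lit 272)) (XT.lf (nat_lit 0) (nat_lit 7558533555) (nat_lit 76) (nat_lit 4612233691)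 (nat_lit 152) (nat_lit 4487702596) (nat_lit 141) (nat_lit 5) (nat_lit 142) (nat_lit 5) (nat_lit 143) (nat_lit 4) (nat_lit 429) (nat_lit 320) (nat_lit 271)))) (XT.nd (nat_lit 78) (nat_lit 76) (nat_lit 0) (XT.lf (nat_lit 0) (nat_lit 1823214517) (nat_lit 228) (nat_lit 13096457441) (nat_lit 76) (nat_lit 2030209523) (nat_lit 138) (nat_lit 5) (nat_lit 141) (nat_lit 5) (nat_lit 139) (nat_lit 4) (nat_lit 430) (nat_lit 320) (nat_lit 270)) (XT.nd (nat_lit 78) (nat_lit 76) (nat_lit 0) (XT.lf (nat_lit 0) (nat_lit 8305964122) (nat_lit 228) (nat_lit 81057179) (nat_lit 76) (nat_lit 8859500087) (nat_lit 138) (nat_lit 5) (nat_lit 141) (nat_lit 5) (nat_lit 139) (nat_lit 4) (nat_lit 431) (nat_lit 320) (nat_lit 269)) (XT.lf (nat_lit 0) (nat_lit 13466522130) (nat_lit 76) (nat_lit 1582274324) (nat_lit 152) (nat_lit 2501296031) (nat_lit 137) (nat_lit 5) (nat_lit 138) (nat_lit 5) (nat_lit 139) (nat_lit 4) (nat_lit 432) (nat_lit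 320) (nat_lit 268)))))) (XT.nd (nat_lit 48906) (nat_lit 0) (nat_lit 10184) (XT.nd (nat_lit 234) (nat_lit 152) (nat_lit 0) (XT.nd (nat_lit 78) (nat_lit 228) (nat_lit 0) (XT.lf (nat_lit 0) (nat_lit 4132659132) (nat_lit 228) (nat_lit 8327999573) (nat_lit 76) (nat_lit 5398456790) (nat_lit 134) (nat_lit 5) (nat_lit 137) (nat_lit 5) (nat_lit 135) (nat_lit 4) (nat_lit 433) (nat_lit 320) (nat_lit 267)) (XT.nd (nat_lit 78) (nat_lit 152) (nat_lit 0) (XT.lf (nat_lit 0) (nat_lit 5405110651) (nat_lit 76) (nat_lit 5555907573) (nat_lit 152) (nat_lit 7214278247) (nat_lit 133) (nat_lit 5) (nat_lit 134) (nat_lit 5) (nat_lit 135) (nat_lit 4) (nat_lit 434) (nat_lit 320) (nat_lit 266)) (XT.lf (nat_lit 0) (nat_lit 1106847953) (nat_lit 152) (nat_lit 16934445444) (nat_lit 152) (nat_lit 458257520) (nat_lit 131) (nat_lit 4) (nat_lit 133) (nat_lit 5) (nat_lit 133) (nat_lit 4) (nat_lit 435) (nat_lit 320) (nat_lit 265)))) (XT.nd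 (nat_lit 78) (nat_lit 76) (nat_lit 0) (XT.lf (nat_lit 0) (nat_lit 6495446647) (nat_lit 228) (nat_lit 3407989167) (nat_lit 76) (nat_lit 8924567099) (nat_lit 130) (nat_lit 5) (nat_lit 133) (nat_lit 5) (nat_lit 131) (nat_lit 4) (nat_lit 436) (nat_lit 320) (nat_lit 264)) (XT.nd (nat_lit 48516) (nat_lit 0) (nat_lit 12464) (XT.lf (nat_lit 0) (nat_lit 11090155369) (nat_lit 76) (nat_lit 2603458005) (nat_lit 152) (nat_lit 5471207119) (nat_lit 129) (nat_lit 5) (nat_lit 130) (nat_lit 5) (nat_lit 131) (nat_lit 4) (nat_lit 437) (nat_lit 320) (nat_lit 263)) (XT.lf (nat_lit 0) (nat_lit 408203506) (nat_lit 532) (nat_lit 3169072854) (nat_lit 0) (nat_lit 408203506) (nat_lit 293) (nat_lit 5) (nat_lit 300) (nat_lit 4) (nat_lit 293) (nat_lit 4) (nat_lit 378) (nat_lit 321) (nat_lit 321))))) (XT.nd (nat_lit 234) (nat_lit 1368) (nat_lit 0) (XT.nd (nat_lit 78) (nat_lit 456) (nat_lit 0) (XT.lf (nat_lit 0) (nat_lit 374383668)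 (nat_lit 456) (nat_lit 4446630167) (nat_lit 456) (nat_lit 3232143618) (nat_lit 287) (nat_lit 4) (nat_lit 293) (nat_lit 5) (nat_lit 293) (nat_lit 4) (nat_lit 379) (nat_lit 321) (nat_lit 320)) (XT.nd (nat_lit 78) (nat_lit 380) (nat_lit 0) (XT.lf (nat_lit 0) (nat_lit 753483243) (nat_lit 532) (nat_lit 864028719) (nat_lit 76) (nat_lit 6521236812) (nat_lit 286) (nat_lit 5) (nat_lit 293) (nat_lit 5) (nat_lit 287) (nat_lit 4) (nat_lit 380) (nat_lit 321) (nat_lit 319)) (XT.lf (nat_lit 0) (nat_lit 4765155891) (nat_lit 456) (nat_lit 2131803259) (nat_lit 0) (nat_lit 1329845447) (nat_lit 281) (nat_lit 5) (nat_lit 287) (nat_lit 4) (nat_lit 281) (nat_lit 4) (nat_lit 381) (nat_lit 321) (nat_lit 318)))) (XT.nd (nat_lit 78) (nat_lit 836) (nat_lit 0) (XT.lf (nat_lit 0) (nat_lit 541104890) (nat_lit 532) (nat_lit 3415923086) (nat_lit 76) (nat_lit 4361124756) (nat_lit 274) (nat_lit 5) (nat_lit 281) (nat_lit 5) (nat_lit 275)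 (nat_lit 4) (nat_lit 382) (nat_lit 321) (nat_lit 317)) (XT.nd (nat_lit 78) (nat_lit 456) (nat_lit 0) (XT.lf (nat_lit 0) (nat_lit 3680850617) (nat_lit 380) (nat_lit 872274208) (nat_lit 456) (nat_lit 3859325491) (nat_lit 269) (nat_lit 5) (nat_lit 274) (nat_lit 5) (nat_lit 275) (nat_lit 4) (nat_lit 383) (nat_lit 321) (nat_lit 316)) (XT.lf (nat_lit 0) (nat_lit 155623591) (nat_lit 456) (nat_lit 6071565804) (nat_lit 76) (nat_lit 2282842857) (nat_lit 263) (nat_lit 5) (nat_lit 269) (nat_lit 5) (nat_lit 264) (nat_lit 4) (nat_lit 384) (nat_lit 321) (nat_lit 315))))))))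
noncomputable def xc19 : XT := (XT.nd (nat_lit 1872) (nat_lit 3344) (nat_lit 0) (XT.nd (nat_lit 936) (nat_lit 2660) (nat_lit 0) (XT.nd (nat_lit 468) (nat_lit 1672) (nat_lit 0) (XT.nd (nat_lit 234) (nat_lit 1064) (nat_lit 0) (XT.nd (nat_lit 78) (nat_lit 456) (nat_lit 0) (XT.lf (nat_lit 0) (nat_lit 1148955289) (nat_lit 380) (nat_lit 3035854503) (nat_lit 456) (nat_lit 4425444800) (nat_lit 258) (nat_lit 5) (nat_lit 263) (nat_lit 5) (nat_lit 264) (nat_lit 4) (nat_lit 385) (nat_lit 321) (nat_lit 314)) (XT.nd (nat_lit 78) (nat_lit 456) (nat_lit 0) (XT.lf (nat_lit 0) (nat_lit 8303734043) (nat_lit 456) (nat_lit 142883046) (nat_lit 0) (nat_lit 267800641) (nat_lit 258) (nat_lit 5) (nat_lit 264) (nat_lit 4) (nat_lit 258) (nat_lit 4) (nat_lit 386) (nat_lit 321) (nat_lit 313)) (XT.lf (nat_lit 0) (nat_lit 3660176744) (nat_lit 456) (nat_lit 1483145534) (nat_lit 76) (nat_lit 3677059354) (nat_lit 252) (nat_lit 5) (nat_lit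 258) (nat_lit 5) (nat_lit 253) (nat_lit 4) (nat_lit 387) (nat_lit 321) (nat_lit 312)))) (XT.nd (nat_lit 78) (nat_lit 760) (nat_lit 0) (XT.lf (nat_lit 0) (nat_lit 6094816185) (nat_lit 304) (nat_lit 1717960633) (nat_lit 380) (nat_lit 1117589603) (nat_lit 248) (nat_lit 5) (nat_lit 252) (nat_lit 5) (nat_lit 253) (nat_lit 4) (nat_lit 388) (nat_lit 321) (nat_lit 311)) (XT.nd (nat_lit 78) (nat_lit 304) (nat_lit 0) (XT.lf (nat_lit 0) (nat_lit 2974477954) (nat_lit 456) (nat_lit 4245428198) (nat_lit 76) (nat_lit 1823237567) (nat_lit 242) (nat_lit 5) (nat_lit 248) (nat_lit 5) (nat_lit 243) (nat_lit 4) (nat_lit 389) (nat_lit 321) (nat_lit 310)) (XT.lf (nat_lit 0) (nat_lit 3462166386) (nat_lit 304) (nat_lit 3693162448) (nat_lit 380) (nat_lit 2003989034) (nat_lit 238) (nat_lit 5) (nat_lit 242) (nat_lit 5) (nat_lit 243) (nat_lit 4) (nat_lit 390) (nat_lit 321) (nat_lit 309))))) (XT.nd (nat_lit 234) (nat_lit 912) (nat_lit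 0) (XT.nd (nat_lit 78) (nat_lit 380) (nat_lit 0) (XT.lf (nat_lit 0) (nat_lit 2092602840) (nat_lit 304) (nat_lit 20577679) (nat_lit 380) (nat_lit 7165972995) (nat_lit 233) (nat_lit 5) (nat_lit 237) (nat_lit 5) (nat_lit 238) (nat_lit 5) (nat_lit 391) (nat_lit 321) (nat_lit 308)) (XT.nd (nat_lit 78) (nat_lit 76) (nat_lit 0) (XT.lf (nat_lit 0) (nat_lit 650062890) (nat_lit 304) (nat_lit 5674643277) (nat_lit 380) (nat_lit 3076949243) (nat_lit 229) (nat_lit 5) (nat_lit 233) (nat_lit 5) (nat_lit 234) (nat_lit 4) (nat_lit 392) (nat_lit 321) (nat_lit 307)) (XT.lf (nat_lit 0) (nat_lit 1097118517) (nat_lit 380) (nat_lit 806835058) (nat_lit 76) (nat_lit 7624016063) (nat_lit 228) (nat_lit 5) (nat_lit 233) (nat_lit 5) (nat_lit 229) (nat_lit 5) (nat_lit 393) (nat_lit 321) (nat_lit 306)))) (XT.nd (nat_lit 78) (nat_lit 608) (nat_lit 0) (XT.lf (nat_lit 0) (nat_lit 5338451640) (nat_lit 380) (nat_lit 2322289865) (nat_lit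 76) (nat_lit 1996301235) (nat_lit 224) (nat_lit 5) (nat_lit 229) (nat_lit 5) (nat_lit 225) (nat_lit 4) (nat_lit 394) (nat_lit 321) (nat_lit 305)) (XT.nd (nat_lit 78) (nat_lit 380) (nat_lit 0) (XT.lf (nat_lit 0) (nat_lit 5908564519) (nat_lit 228) (nat_lit 3796727420) (nat_lit 304) (nat_lit 84748079) (nat_lit 221) (nat_lit 5) (nat_lit 224) (nat_lit 5) (nat_lit 225) (nat_lit 4) (nat_lit 395) (nat_lit 321) (nat_lit 304)) (XT.lf (nat_lit 0) (nat_lit 4175910429) (nat_lit 380) (nat_lit 5511783800) (nat_lit 76) (nat_lit 238602573) (nat_lit 216) (nat_lit 5) (nat_lit 221) (nat_lit 5) (nat_lit 217) (nat_lit 4) (nat_lit 396) (nat_lit 321) (nat_lit 303)))))) (XT.nd (nat_lit 468) (nat_lit 1292) (nat_lit 0) (XT.nd (nat_lit 234) (nat_lit 760) (nat_lit 0) (XT.nd (nat_lit 78) (nat_lit 380) (nat_lit 0) (XT.lf (nat_lit 0) (nat_lit 2854090871) (nat_lit 228) (nat_lit 5728676804) (nat_lit 304) (nat_lit 1483245972) (nat_lit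 213) (nat_lit 5) (nat_lit 216) (nat_lit 5) (nat_lit 217) (nat_lit 4) (nat_lit 397) (nat_lit 321) (nat_lit 302)) (XT.nd (nat_lit 78) (nat_lit 0) (nat_lit 0) (XT.lf (nat_lit 0) (nat_lit 1234619519) (nat_lit 304) (nat_lit 1604356402) (nat_lit 380) (nat_lit 7370589671) (nat_lit 208) (nat_lit 5) (nat_lit 212) (nat_lit 5) (nat_lit 213) (nat_lit 5) (nat_lit 398) (nat_lit 321) (nat_lit 301)) (XT.lf (nat_lit 0) (nat_lit 7276474481) (nat_lit 380) (nat_lit 450919010) (nat_lit 76) (nat_lit 2629127384) (nat_lit 208) (nat_lit 5) (nat_lit 213) (nat_lit 5) (nat_lit 209) (nat_lit 4) (nat_lit 399) (nat_lit 321) (nat_lit 300)))) (XT.nd (nat_lit 78) (nat_lit 456) (nat_lit 0) (XT.lf (nat_lit 0) (nat_lit 1328201075) (nat_lit 304) (nat_lit 2177979217) (nat_lit 76) (nat_lit 7000864702) (nat_lit 204) (nat_lit 5) (nat_lit 208) (nat_lit 5) (nat_lit 205) (nat_lit 5) (nat_lit 400) (nat_lit 321) (nat_lit 299)) (XT.nd (nat_lit 78)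 (nat_lit 228) (nat_lit 0) (XT.lf (nat_lit 0) (nat_lit 5803423430) (nat_lit 304) (nat_lit 3983980082) (nat_lit 76) (nat_lit 873867457) (nat_lit 201) (nat_lit 5) (nat_lit 205) (nat_lit 5) (nat_lit 202) (nat_lit 4) (nat_lit 401) (nat_lit 321) (nat_lit 298)) (XT.lf (nat_lit 0) (nat_lit 4950943003) (nat_lit 228) (nat_lit 5486250471) (nat_lit 304) (nat_lit 382201519) (nat_lit 198) (nat_lit 5) (nat_lit 201) (nat_lit 5) (nat_lit 202) (nat_lit 4) (nat_lit 402) (nat_lit 321) (nat_lit 297))))) (XT.nd (nat_lit 234) (nat_lit 684) (nat_lit 0) (XT.nd (nat_lit 78) (nat_lit 304) (nat_lit 0) (XT.lf (nat_lit 0) (nat_lit 3140354554) (nat_lit 228) (nat_lit 995727008) (nat_lit 304) (nat_lit 6845236028) (nat_lit 194) (nat_lit 5) (nat_lit 197) (nat_lit 5) (nat_lit 198) (nat_lit 5) (nat_lit 403) (nat_lit 321) (nat_lit 296)) (XT.nd (nat_lit 78) (nat_lit 76) (nat_lit 0) (XT.lf (nat_lit 0) (nat_lit 1243465920) (nat_lit 228) (nat_lit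 7566032172) (nat_lit 304) (nat_lit 2337668242) (nat_lit 191) (nat_lit 5) (nat_lit 194) (nat_lit 5) (nat_lit 195) (nat_lit 4) (nat_lit 404) (nat_lit 321) (nat_lit 295)) (XT.lf (nat_lit 0) (nat_lit 2270797093) (nat_lit 304) (nat_lit 722450292) (nat_lit 76) (nat_lit 8323758850) (nat_lit 190) (nat_lit 5) (nat_lit 194) (nat_lit 5) (nat_lit 191) (nat_lit 5) (nat_lit 405) (nat_lit 321) (nat_lit 294)))) (XT.nd (nat_lit 78) (nat_lit 456) (nat_lit 0) (XT.lf (nat_lit 0) (nat_lit 6994825670) (nat_lit 304) (nat_lit 2757479343) (nat_lit 76) (nat_lit 1738213142) (nat_lit 187) (nat_lit 5) (nat_lit 191) (nat_lit 5) (nat_lit 188) (nat_lit 4) (nat_lit 406) (nat_lit 321) (nat_lit 293)) (XT.nd (nat_lit 78) (nat_lit 228) (nat_lit 0) (XT.lf (nat_lit 0) (nat_lit 213732214) (nat_lit 228) (nat_lit 4881524807) (nat_lit 76) (nat_lit 6573139445) (nat_lit 184) (nat_lit 5) (nat_lit 187) (nat_lit 5) (nat_lit 185) (nat_lit 5) (nat_lit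 407) (nat_lit 321) (nat_lit 292)) (XT.lf (nat_lit 0) (nat_lit 4739041121) (nat_lit 228) (nat_lit 232545593) (nat_lit 304) (nat_lit 6878763877) (nat_lit 181) (nat_lit 5) (nat_lit 184) (nat_lit 5) (nat_lit 185) (nat_lit 5) (nat_lit 408) (nat_lit 321) (nat_lit 291))))))) (XT.nd (nat_lit 936) (nat_lit 1368) (nat_lit 0) (XT.nd (nat_lit 468) (nat_lit 988) (nat_lit 0) (XT.nd (nat_lit 234) (nat_lit 532) (nat_lit 0) (XT.nd (nat_lit 78) (nat_lit 304) (nat_lit 0) (XT.lf (nat_lit 0) (nat_lit 2583644094) (nat_lit 152) (nat_lit 7333320690) (nat_lit 228) (nat_lit 2119454917) (nat_lit 179) (nat_lit 5) (nat_lit 181) (nat_lit 5) (nat_lit 182) (nat_lit 4) (nat_lit 409) (nat_lit 321) (nat_lit 290)) (XT.nd (nat_lit 78) (nat_lit 0) (nat_lit 0) (XT.lf (nat_lit 0) (nat_lit 333464679) (nat_lit 228) (nat_lit 2397364240) (nat_lit 304) (nat_lit 9496364670) (nat_lit 175) (nat_lit 5) (nat_lit 178) (nat_lit 5) (nat_lit 179) (nat_lit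 5) (nat_lit 410) (nat_lit 321) (nat_lit 289)) (XT.lf (nat_lit 0) (nat_lit 7731106586) (nat_lit 304) (nat_lit 1994496258) (nat_lit 76) (nat_lit 2696045782) (nat_lit 175) (nat_lit 5) (nat_lit 179) (nat_lit 5) (nat_lit 176) (nat_lit 4) (nat_lit 411) (nat_lit 321) (nat_lit 288)))) (XT.nd (nat_lit 78) (nat_lit 304) (nat_lit 0) (XT.lf (nat_lit 0) (nat_lit 284380471) (nat_lit 228) (nat_lit 4414774239) (nat_lit 76) (nat_lit 7921808140) (nat_lit 172) (nat_lit 5) (nat_lit 175) (nat_lit 5) (nat_lit 173) (nat_lit 5) (nat_lit 412) (nat_lit 321) (nat_lit 287)) (XT.nd (nat_lit 78) (nat_lit 152) (nat_lit 0) (XT.lf (nat_lit 0) (nat_lit 5323511218) (nat_lit 228) (nat_lit 6963337378) (nat_lit 76) (nat_lit 537737598) (nat_lit 170) (nat_lit 5) (nat_lit 173) (nat_lit 5) (nat_lit 171) (nat_lit 4) (nat_lit 413) (nat_lit 321) (nat_lit 286)) (XT.lf (nat_lit 0) (nat_lit 3392668865) (nat_lit 152) (nat_lit 7172886793) (nat_lit 228)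 (nat_lit 2467210389) (nat_lit 168) (nat_lit 5) (nat_lit 170) (nat_lit 5) (nat_lit 171) (nat_lit 4) (nat_lit 414) (nat_lit 321) (nat_lit 285))))) (XT.nd (nat_lit 234) (nat_lit 608) (nat_lit 0) (XT.nd (nat_lit 78) (nat_lit 152) (nat_lit 0) (XT.lf (nat_lit 0) (nat_lit 816320339) (nat_lit 152) (nat_lit 1854923652) (nat_lit 228) (nat_lit 10574965426) (nat_lit 165) (nat_lit 5) (nat_lit 167) (nat_lit 5) (nat_lit 168) (nat_lit 5) (nat_lit 415) (nat_lit 321) (nat_lit 284)) (XT.nd (nat_lit 78) (nat_lit 152) (nat_lit 0) (XT.lf (nat_lit 0) (nat_lit 7975461655) (nat_lit 228) (nat_lit 1869430471) (nat_lit 76) (nat_lit 3618595181) (nat_lit 165) (nat_lit 5) (nat_lit 168) (nat_lit 5) (nat_lit 166) (nat_lit 4) (nat_lit 416) (nat_lit 321) (nat_lit 283)) (XT.lf (nat_lit 0) (nat_lit 9039536633) (nat_lit 152) (nat_lit 4434689320) (nat_lit 228) (nat_lit 211994979) (nat_lit 163) (nat_lit 5) (nat_lit 165) (nat_lit 5) (nat_lit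 166) (nat_lit 4) (nat_lit 417) (nat_lit 321) (nat_lit 282)))) (XT.nd (nat_lit 78) (nat_lit 380) (nat_lit 0) (XT.lf (nat_lit 0) (nat_lit 5142467066) (nat_lit 228) (nat_lit 7579512504) (nat_lit 76) (nat_lit 1191489293) (nat_lit 160) (nat_lit 5) (nat_lit 163) (nat_lit 5) (nat_lit 161) (nat_lit 4) (nat_lit 418) (nat_lit 321) (nat_lit 281)) (XT.nd (nat_lit 78) (nat_lit 228) (nat_lit 0) (XT.lf (nat_lit 0) (nat_lit 3487967607) (nat_lit 152) (nat_lit 7220751119) (nat_lit 228) (nat_lit 3437090037) (nat_lit 158) (nat_lit 5) (nat_lit 160) (nat_lit 5) (nat_lit 161) (nat_lit 4) (nat_lit 419) (nat_lit 321) (nat_lit 280)) (XT.lf (nat_lit 0) (nat_lit 522792320) (nat_lit 152) (nat_lit 1506961026) (nat_lit 228) (nat_lit 12354380849) (nat_lit 155) (nat_lit 5) (nat_lit 157) (nat_lit 5) (nat_lit 158) (nat_lit 5) (nat_lit 420) (nat_lit 321) (nat_lit 279)))))) (XT.nd (nat_lit 468) (nat_lit 684) (nat_lit 0) (XT.nd (nat_lit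 234) (nat_lit 304) (nat_lit 0) (XT.nd (nat_lit 78) (nat_lit 380) (nat_lit 0) (XT.lf (nat_lit 0) (nat_lit 7673284229) (nat_lit 228) (nat_lit 2573404826) (nat_lit 76) (nat_lit 4379446487) (nat_lit 155) (nat_lit 5) (nat_lit 158) (nat_lit 5) (nat_lit 156) (nat_lit 4) (nat_lit 421) (nat_lit 321) (nat_lit 278)) (XT.nd (nat_lit 78) (nat_lit 228) (nat_lit 0) (XT.lf (nat_lit 0) (nat_lit 9092213795) (nat_lit 152) (nat_lit 4429226678) (nat_lit 228) (nat_lit 1352896874) (nat_lit 153) (nat_lit 5) (nat_lit 155) (nat_lit 5) (nat_lit 156) (nat_lit 4) (nat_lit 422) (nat_lit 321) (nat_lit 277)) (XT.lf (nat_lit 0) (nat_lit 4361493200) (nat_lit 228) (nat_lit 9162134711) (nat_lit 76) (nat_lit 1604106368) (nat_lit 150) (nat_lit 5) (nat_lit 153) (nat_lit 5) (nat_lit 151) (nat_lit 4) (nat_lit 423) (nat_lit 321) (nat_lit 276)))) (XT.nd (nat_lit 78) (nat_lit 228) (nat_lit 0) (XT.lf (nat_lit 0) (nat_lit 2667721214) (nat_lit 76)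 (nat_lit 7614216273) (nat_lit 152) (nat_lit 5104539349) (nat_lit 149) (nat_lit 5) (nat_lit 150) (nat_lit 5) (nat_lit 151) (nat_lit 4) (nat_lit 424) (nat_lit 321) (nat_lit 275)) (XT.nd (nat_lit 78) (nat_lit 152) (nat_lit 0) (XT.lf (nat_lit 0) (nat_lit 739723539) (nat_lit 152) (nat_lit 741743012) (nat_lit 76) (nat_lit 14170498564) (nat_lit 148) (nat_lit 5) (nat_lit 150) (nat_lit 5) (nat_lit 149) (nat_lit 5) (nat_lit 425) (nat_lit 321) (nat_lit 274)) (XT.lf (nat_lit 0) (nat_lit 6751667920) (nat_lit 228) (nat_lit 4318949316) (nat_lit 76) (nat_lit 4850436110) (nat_lit 146) (nat_lit 5) (nat_lit 149) (nat_lit 5) (nat_lit 147) (nat_lit 4) (nat_lit 426) (nat_lit 321) (nat_lit 273))))) (XT.nd (nat_lit 234) (nat_lit 304) (nat_lit 0) (XT.nd (nat_lit 78) (nat_lit 304) (nat_lit 0) (XT.lf (nat_lit 0) (nat_lit 8157404333) (nat_lit 76) (nat_lit 4822816867) (nat_lit 152) (nat_lit 3216905508) (nat_lit 145) (nat_lit 5)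 (nat_lit 146) (nat_lit 5) (nat_lit 147) (nat_lit 4) (nat_lit 427) (nat_lit 321) (nat_lit 272)) (XT.nd (nat_lit 78) (nat_lit 76) (nat_lit 0) (XT.lf (nat_lit 0) (nat_lit 2896933257) (nat_lit 228) (nat_lit 11939781199) (nat_lit 76) (nat_lit 1642737938) (nat_lit 142) (nat_lit 5) (nat_lit 145) (nat_lit 5) (nat_lit 143) (nat_lit 4) (nat_lit 428) (nat_lit 321) (nat_lit 271)) (XT.lf (nat_lit 0) (nat_lit 706010799) (nat_lit 76) (nat_lit 8495936469) (nat_lit 152) (nat_lit 7565172564) (nat_lit 141) (nat_lit 5) (nat_lit 142) (nat_lit 5) (nat_lit 143) (nat_lit 4) (nat_lit 429) (nat_lit 321) (nat_lit 270)))) (XT.nd (nat_lit 78) (nat_lit 304) (nat_lit 0) (XT.lf (nat_lit 0) (nat_lit 13856312997) (nat_lit 76) (nat_lit 1896974702) (nat_lit 152) (nat_lit 1308414315) (nat_lit 141) (nat_lit 5) (nat_lit 142) (nat_lit 5) (nat_lit 143) (nat_lit 4) (nat_lit 430) (nat_lit 321) (nat_lit 269)) (XT.nd (nat_lit 78) (nat_lit 76) (nat_lit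 0) (XT.lf (nat_lit 0) (nat_lit 5118443439) (nat_lit 228) (nat_lit 7344940856) (nat_lit 76) (nat_lit 4897777657) (nat_lit 138) (nat_lit 5) (nat_lit 141) (nat_lit 5) (nat_lit 139) (nat_lit 4) (nat_lit 431) (nat_lit 321) (nat_lit 268)) (XT.lf (nat_lit 0) (nat_lit 5999020504) (nat_lit 76) (nat_lit 5759936841) (nat_lit 152) (nat_lit 5908845256) (nat_lit 137) (nat_lit 5) (nat_lit 138) (nat_lit 5) (nat_lit 139) (nat_lit 4) (nat_lit 432) (nat_lit 321) (nat_lit 267))))))))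
noncomputable def xc20 : XT := (XT.nd (nat_lit 50076) (nat_lit 0) (nat_lit 2584) (XT.nd (nat_lit 49140) (nat_lit 0) (nat_lit 7524) (XT.nd (nat_lit 48672) (nat_lit 0) (nat_lit 11552) (XT.nd (nat_lit 156) (nat_lit 380) (nat_lit 0) (XT.nd (nat_lit 78) (nat_lit 0) (nat_lit 0) (XT.lf (nat_lit 0) (nat_lit 645009729) (nat_lit 228) (nat_lit 16170218017) (nat_lit 76) (nat_lit 1166978341) (nat_lit 134) (nat_lit 5) (nat_lit 137) (nat_lit 5) (nat_lit 135) (nat_lit 4) (nat_lit 433) (nat_lit 321) (nat_lit 266)) (XT.lf (nat_lit 0) (nat_lit 7390989860) (nat_lit 228) (nat_lit 2600595567) (nat_lit 76) (nat_lit 8309273004) (nat_lit 134) (nat_lit 5) (nat_lit 137) (nat_lit 5) (nat_lit 135) (nat_lit 4) (nat_lit 434) (nat_lit 321) (nat_lit 265))) (XT.nd (nat_lit 78) (nat_lit 304) (nat_lit 0) (XT.lf (nat_lit 0) (nat_lit 11485907532) (nat_lit 76) (nat_lit 2903894039) (nat_lit 152) (nat_lit 4237755210) (nat_lit 133) (nat_lit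 5) (nat_lit 134) (nat_lit 5) (nat_lit 135) (nat_lit 4) (nat_lit 435) (nat_lit 321) (nat_lit 264)) (XT.nd (nat_lit 78) (nat_lit 76) (nat_lit 0) (XT.lf (nat_lit 0) (nat_lit 2660760220) (nat_lit 228) (nat_lit 11921906847) (nat_lit 76) (nat_lit 4378299846) (nat_lit 130) (nat_lit 5) (nat_lit 133) (nat_lit 5) (nat_lit 131) (nat_lit 4) (nat_lit 436) (nat_lit 321) (nat_lit 263)) (XT.lf (nat_lit 0) (nat_lit 2349244449) (nat_lit 76) (nat_lit 7396225587) (nat_lit 152) (nat_lit 9555718164) (nat_lit 129) (nat_lit 5) (nat_lit 130) (nat_lit 5) (nat_lit 131) (nat_lit 4) (nat_lit 437) (nat_lit 321) (nat_lit 262))))) (XT.nd (nat_lit 234) (nat_lit 912) (nat_lit 0) (XT.nd (nat_lit 78) (nat_lit 1064) (nat_lit 0) (XT.lf (nat_lit 0) (nat_lit 1034345795) (nat_lit 532) (nat_lit 1837873234) (nat_lit 0) (nat_lit 1034345795) (nat_lit 307) (nat_lit 5) (nat_lit 314) (nat_lit 4) (nat_lit 307) (nat_lit 4) (nat_lit 376) (nat_lit 322)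 (nat_lit 322)) (XT.nd (nat_lit 78) (nat_lit 532) (nat_lit 0) (XT.lf (nat_lit 0) (nat_lit 2853782769) (nat_lit 532) (nat_lit 3162899296) (nat_lit 532) (nat_lit 1874450515) (nat_lit 300) (nat_lit 4) (nat_lit 307) (nat_lit 5) (nat_lit 307) (nat_lit 4) (nat_lit 377) (nat_lit 322) (nat_lit 321)) (XT.lf (nat_lit 0) (nat_lit 1562212518) (nat_lit 456) (nat_lit 458271444) (nat_lit 532) (nat_lit 5951881098) (nat_lit 293) (nat_lit 5) (nat_lit 299) (nat_lit 5) (nat_lit 300) (nat_lit 4) (nat_lit 378) (nat_lit 322) (nat_lit 320)))) (XT.nd (nat_lit 78) (nat_lit 456) (nat_lit 0) (XT.lf (nat_lit 0) (nat_lit 238497727) (nat_lit 456) (nat_lit 5731124973) (nat_lit 456) (nat_lit 2086604122) (nat_lit 287) (nat_lit 4) (nat_lit 293) (nat_lit 5) (nat_lit 293) (nat_lit 4) (nat_lit 379) (nat_lit 322) (nat_lit 319)) (XT.nd (nat_lit 78) (nat_lit 380) (nat_lit 0) (XT.lf (nat_lit 0) (nat_lit 1827252486) (nat_lit 532) (nat_lit 1079968355)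 (nat_lit 76) (nat_lit 5235749452) (nat_lit 286) (nat_lit 5) (nat_lit 293) (nat_lit 5) (nat_lit 287) (nat_lit 4) (nat_lit 380) (nat_lit 322) (nat_lit 318)) (XT.lf (nat_lit 0) (nat_lit 5775623635) (nat_lit 456) (nat_lit 2410530454) (nat_lit 0) (nat_lit 46771072) (nat_lit 281) (nat_lit 5) (nat_lit 287) (nat_lit 4) (nat_lit 281) (nat_lit 4) (nat_lit 381) (nat_lit 322) (nat_lit 317)))))) (XT.nd (nat_lit 468) (nat_lit 1824) (nat_lit 0) (XT.nd (nat_lit 234) (nat_lit 836) (nat_lit 0) (XT.nd (nat_lit 78) (nat_lit 836) (nat_lit 0) (XT.lf (nat_lit 0) (nat_lit 1474639127) (nat_lit 532) (nat_lit 3782961899) (nat_lit 76) (nat_lit 3067919073) (nat_lit 274) (nat_lit 5) (nat_lit 281) (nat_lit 5) (nat_lit 275) (nat_lit 4) (nat_lit 382) (nat_lit 322) (nat_lit 316)) (XT.nd (nat_lit 78) (nat_lit 456) (nat_lit 0) (XT.lf (nat_lit 0) (nat_lit 3240228718) (nat_lit 380) (nat_lit 2195151288) (nat_lit 456) (nat_lit 2985976050)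 (nat_lit 269) (nat_lit 5) (nat_lit 274) (nat_lit 5) (nat_lit 275) (nat_lit 4) (nat_lit 383) (nat_lit 322) (nat_lit 315)) (XT.lf (nat_lit 0) (nat_lit 947189127) (nat_lit 456) (nat_lit 6602527818) (nat_lit 76) (nat_lit 970911442) (nat_lit 263) (nat_lit 5) (nat_lit 269) (nat_lit 5) (nat_lit 264) (nat_lit 4) (nat_lit 384) (nat_lit 322) (nat_lit 314)))) (XT.nd (nat_lit 78) (nat_lit 456) (nat_lit 0) (XT.lf (nat_lit 0) (nat_lit 540276229) (nat_lit 380) (nat_lit 4384059134) (nat_lit 456) (nat_lit 3698076564) (nat_lit 258) (nat_lit 5) (nat_lit 263) (nat_lit 5) (nat_lit 264) (nat_lit 4) (nat_lit 385) (nat_lit 322) (nat_lit 313)) (XT.nd (nat_lit 78) (nat_lit 380) (nat_lit 0) (XT.lf (nat_lit 0) (nat_lit 261932853) (nat_lit 456) (nat_lit 830220064) (nat_lit 76) (nat_lit 7635787984) (nat_lit 257) (nat_lit 5) (nat_lit 263) (nat_lit 5) (nat_lit 258) (nat_lit 5) (nat_lit 386) (nat_lit 322) (nat_lit 312)) (XT.lf (nat_lit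 0) (nat_lit 4262068681) (nat_lit 456) (nat_lit 2257891385) (nat_lit 76) (nat_lit 2315707624) (nat_lit 252) (nat_lit 5) (nat_lit 258) (nat_lit 5) (nat_lit 253) (nat_lit 4) (nat_lit 387) (nat_lit 322) (nat_lit 311))))) (XT.nd (nat_lit 234) (nat_lit 760) (nat_lit 0) (XT.nd (nat_lit 78) (nat_lit 760) (nat_lit 0) (XT.lf (nat_lit 0) (nat_lit 5238682957) (nat_lit 304) (nat_lit 3123671727) (nat_lit 380) (nat_lit 584867218) (nat_lit 248) (nat_lit 5) (nat_lit 252) (nat_lit 5) (nat_lit 253) (nat_lit 4) (nat_lit 388) (nat_lit 322) (nat_lit 310)) (XT.nd (nat_lit 78) (nat_lit 304) (nat_lit 0) (XT.lf (nat_lit 0) (nat_lit 3429957753) (nat_lit 456) (nat_lit 5211764144) (nat_lit 76) (nat_lit 420129095) (nat_lit 242) (nat_lit 5) (nat_lit 248) (nat_lit 5) (nat_lit 243) (nat_lit 4) (nat_lit 389) (nat_lit 322) (nat_lit 309)) (XT.lf (nat_lit 0) (nat_lit 2409921380) (nat_lit 304) (nat_lit 5147382871) (nat_lit 380) (nat_lit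 1622326022) (nat_lit 238) (nat_lit 5) (nat_lit 242) (nat_lit 5) (nat_lit 243) (nat_lit 4) (nat_lit 390) (nat_lit 322) (nat_lit 308)))) (XT.nd (nat_lit 78) (nat_lit 380) (nat_lit 0) (XT.lf (nat_lit 0) (nat_lit 928057963) (nat_lit 304) (nat_lit 1504972323) (nat_lit 380) (nat_lit 6867956538) (nat_lit 233) (nat_lit 5) (nat_lit 237) (nat_lit 5) (nat_lit 238) (nat_lit 5) (nat_lit 391) (nat_lit 322) (nat_lit 307)) (XT.nd (nat_lit 78) (nat_lit 380) (nat_lit 0) (XT.lf (nat_lit 0) (nat_lit 6581284536) (nat_lit 380) (nat_lit 600743298) (nat_lit 76) (nat_lit 2243359027) (nat_lit 233) (nat_lit 5) (nat_lit 238) (nat_lit 5) (nat_lit 234) (nat_lit 4) (nat_lit 392) (nat_lit 322) (nat_lit 306)) (XT.lf (nat_lit 0) (nat_lit 1276919844) (nat_lit 380) (nat_lit 2161896886) (nat_lit 76) (nat_lit 6114272269) (nat_lit 228) (nat_lit 5) (nat_lit 233) (nat_lit 5) (nat_lit 229) (nat_lit 5) (nat_lit 393) (nat_lit 322) (nat_lit 305)))))))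 (XT.nd (nat_lit 936) (nat_lit 2052) (nat_lit 0) (XT.nd (nat_lit 468) (nat_lit 1368) (nat_lit 0) (XT.nd (nat_lit 234) (nat_lit 608) (nat_lit 0) (XT.nd (nat_lit 78) (nat_lit 608) (nat_lit 0) (XT.lf (nat_lit 0) (nat_lit 5447910696) (nat_lit 380) (nat_lit 3781546169) (nat_lit 76) (nat_lit 454815503) (nat_lit 224) (nat_lit 5) (nat_lit 229) (nat_lit 5) (nat_lit 225) (nat_lit 4) (nat_lit 394) (nat_lit 322) (nat_lit 304)) (XT.nd (nat_lit 78) (nat_lit 380) (nat_lit 0) (XT.lf (nat_lit 0) (nat_lit 4354325277) (nat_lit 228) (nat_lit 5404541951) (nat_lit 304) (nat_lit 60078932) (nat_lit 221) (nat_lit 5) (nat_lit 224) (nat_lit 5) (nat_lit 225) (nat_lit 4) (nat_lit 395) (nat_lit 322) (nat_lit 303)) (XT.lf (nat_lit 0) (nat_lit 2735905617) (nat_lit 304) (nat_lit 1404928362) (nat_lit 380) (nat_lit 5816139778) (nat_lit 216) (nat_lit 5) (nat_lit 220) (nat_lit 5) (nat_lit 221) (nat_lit 5) (nat_lit 396) (nat_lit 322) (nat_lit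 302)))) (XT.nd (nat_lit 78) (nat_lit 380) (nat_lit 0) (XT.lf (nat_lit 0) (nat_lit 1058094040) (nat_lit 228) (nat_lit 7418401490) (nat_lit 304) (nat_lit 1622330943) (nat_lit 213) (nat_lit 5) (nat_lit 216) (nat_lit 5) (nat_lit 217) (nat_lit 4) (nat_lit 397) (nat_lit 322) (nat_lit 301)) (XT.nd (nat_lit 78) (nat_lit 304) (nat_lit 0) (XT.lf (nat_lit 0) (nat_lit 2650473036) (nat_lit 304) (nat_lit 682278597) (nat_lit 76) (nat_lit 6911230854) (nat_lit 212) (nat_lit 5) (nat_lit 216) (nat_lit 5) (nat_lit 213) (nat_lit 5) (nat_lit 398) (nat_lit 322) (nat_lit 300)) (XT.lf (nat_lit 0) (nat_lit 7024648671) (nat_lit 380) (nat_lit 2464977057) (nat_lit 76) (nat_lit 903211728) (nat_lit 208) (nat_lit 5) (nat_lit 213) (nat_lit 5) (nat_lit 209) (nat_lit 4) (nat_lit 399) (nat_lit 322) (nat_lit 299))))) (XT.nd (nat_lit 234) (nat_lit 608) (nat_lit 0) (XT.nd (nat_lit 78) (nat_lit 456) (nat_lit 0) (XT.lf (nat_lit 0) (nat_lit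 985935534) (nat_lit 304) (nat_lit 4331857540) (nat_lit 76) (nat_lit 5227443970) (nat_lit 204) (nat_lit 5) (nat_lit 208) (nat_lit 5) (nat_lit 205) (nat_lit 5) (nat_lit 400) (nat_lit 322) (nat_lit 298)) (XT.nd (nat_lit 78) (nat_lit 228) (nat_lit 0) (XT.lf (nat_lit 0) (nat_lit 4424222615) (nat_lit 228) (nat_lit 967979932) (nat_lit 304) (nat_lit 5309329133) (nat_lit 201) (nat_lit 5) (nat_lit 204) (nat_lit 5) (nat_lit 205) (nat_lit 5) (nat_lit 401) (nat_lit 322) (nat_lit 297)) (XT.lf (nat_lit 0) (nat_lit 2556032789) (nat_lit 228) (nat_lit 7399244423) (nat_lit 304) (nat_lit 906499353) (nat_lit 198) (nat_lit 5) (nat_lit 201) (nat_lit 5) (nat_lit 202) (nat_lit 4) (nat_lit 402) (nat_lit 322) (nat_lit 296)))) (XT.nd (nat_lit 78) (nat_lit 304) (nat_lit 0) (XT.lf (nat_lit 0) (nat_lit 594131896) (nat_lit 228) (nat_lit 2965169745) (nat_lit 304) (nat_lit 7466430107) (nat_lit 194) (nat_lit 5) (nat_lit 197) (nat_lit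 5) (nat_lit 198) (nat_lit 5) (nat_lit 403) (nat_lit 322) (nat_lit 295)) (XT.nd (nat_lit 78) (nat_lit 304) (nat_lit 0) (XT.lf (nat_lit 0) (nat_lit 8163849220) (nat_lit 304) (nat_lit 1417041341) (nat_lit 76) (nat_lit 1612755999) (nat_lit 194) (nat_lit 5) (nat_lit 198) (nat_lit 5) (nat_lit 195) (nat_lit 4) (nat_lit 404) (nat_lit 322) (nat_lit 294)) (XT.lf (nat_lit 0) (nat_lit 1540280146) (nat_lit 304) (nat_lit 3515924018) (nat_lit 76) (nat_lit 6309038708) (nat_lit 190) (nat_lit 5) (nat_lit 194) (nat_lit 5) (nat_lit 191) (nat_lit 5) (nat_lit 405) (nat_lit 322) (nat_lit 293)))))) (XT.nd (nat_lit 468) (nat_lit 912) (nat_lit 0) (XT.nd (nat_lit 234) (nat_lit 456) (nat_lit 0) (XT.nd (nat_lit 78) (nat_lit 456) (nat_lit 0) (XT.lf (nat_lit 0) (nat_lit 5837497656) (nat_lit 228) (nat_lit 345006481) (nat_lit 304) (nat_lit 5358704792) (nat_lit 187) (nat_lit 5) (nat_lit 190) (nat_lit 5) (nat_lit 191) (nat_lit 5) (nat_lit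 406) (nat_lit 322) (nat_lit 292)) (XT.nd (nat_lit 78) (nat_lit 304) (nat_lit 0) (XT.lf (nat_lit 0) (nat_lit 3723291298) (nat_lit 152) (nat_lit 7281509882) (nat_lit 228) (nat_lit 716428597) (nat_lit 185) (nat_lit 5) (nat_lit 187) (nat_lit 5) (nat_lit 188) (nat_lit 4) (nat_lit 407) (nat_lit 322) (nat_lit 291)) (XT.lf (nat_lit 0) (nat_lit 1503265683) (nat_lit 228) (nat_lit 2484607085) (nat_lit 304) (nat_lit 7917543735) (nat_lit 181) (nat_lit 5) (nat_lit 184) (nat_lit 5) (nat_lit 185) (nat_lit 5) (nat_lit 408) (nat_lit 322) (nat_lit 290)))) (XT.nd (nat_lit 78) (nat_lit 456) (nat_lit 0) (XT.lf (nat_lit 0) (nat_lit 8850543535) (nat_lit 304) (nat_lit 799277588) (nat_lit 76) (nat_lit 2444145709) (nat_lit 181) (nat_lit 5) (nat_lit 185) (nat_lit 5) (nat_lit 182) (nat_lit 4) (nat_lit 409) (nat_lit 322) (nat_lit 289)) (XT.nd (nat_lit 78) (nat_lit 228) (nat_lit 0) (XT.lf (nat_lit 0) (nat_lit 1581548817) (nat_lit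 228) (nat_lit 3182182226) (nat_lit 76) (nat_lit 7522751138) (nat_lit 178) (nat_lit 5) (nat_lit 181) (nat_lit 5) (nat_lit 179) (nat_lit 5) (nat_lit 410) (nat_lit 322) (nat_lit 288)) (XT.lf (nat_lit 0) (nat_lit 6491635483) (nat_lit 304) (nat_lit 5674242088) (nat_lit 76) (nat_lit 317765376) (nat_lit 175) (nat_lit 5) (nat_lit 179) (nat_lit 5) (nat_lit 176) (nat_lit 4) (nat_lit 411) (nat_lit 322) (nat_lit 287))))) (XT.nd (nat_lit 234) (nat_lit 532) (nat_lit 0) (XT.nd (nat_lit 78) (nat_lit 228) (nat_lit 0) (XT.lf (nat_lit 0) (nat_lit 4393105238) (nat_lit 152) (nat_lit 7206938493) (nat_lit 228) (nat_lit 1085144236) (nat_lit 173) (nat_lit 5) (nat_lit 175) (nat_lit 5) (nat_lit 176) (nat_lit 4) (nat_lit 412) (nat_lit 322) (nat_lit 286)) (XT.nd (nat_lit 78) (nat_lit 0) (nat_lit 0) (XT.lf (nat_lit 0) (nat_lit 1859778942) (nat_lit 152) (nat_lit 2036790665) (nat_lit 228) (nat_lit 8994912397) (nat_lit 170) (nat_lit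 5) (nat_lit 172) (nat_lit 5) (nat_lit 173) (nat_lit 5) (nat_lit 413) (nat_lit 322) (nat_lit 285)) (XT.lf (nat_lit 0) (nat_lit 9051786538) (nat_lit 228) (nat_lit 784321672) (nat_lit 76) (nat_lit 3266158471) (nat_lit 170) (nat_lit 5) (nat_lit 173) (nat_lit 5) (nat_lit 171) (nat_lit 4) (nat_lit 414) (nat_lit 322) (nat_lit 284)))) (XT.nd (nat_lit 78) (nat_lit 304) (nat_lit 0) (XT.lf (nat_lit 0) (nat_lit 1068700669) (nat_lit 228) (nat_lit 3508725346) (nat_lit 76) (nat_lit 8740245682) (nat_lit 167) (nat_lit 5) (nat_lit 170) (nat_lit 5) (nat_lit 168) (nat_lit 5) (nat_lit 415) (nat_lit 322) (nat_lit 283)) (XT.nd (nat_lit 78) (nat_lit 152) (nat_lit 0) (XT.lf (nat_lit 0) (nat_lit 6277604656) (nat_lit 228) (nat_lit 6372523284) (nat_lit 76) (nat_lit 887681059) (nat_lit 165) (nat_lit 5) (nat_lit 168) (nat_lit 5) (nat_lit 166) (nat_lit 4) (nat_lit 416) (nat_lit 322) (nat_lit 282)) (XT.lf (nat_lit 0) (nat_lit 4385200274)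 (nat_lit 152) (nat_lit 7313026930) (nat_lit 228) (nat_lit 2064659672) (nat_lit 163) (nat_lit 5) (nat_lit 165) (nat_lit 5) (nat_lit 166) (nat_lit 4) (nat_lit 417) (nat_lit 322) (nat_lit 281))))))))
noncomputable def xc21 : XT := (XT.nd (nat_lit 49920) (nat_lit 0) (nat_lit 5624) (XT.nd (nat_lit 858) (nat_lit 1140) (nat_lit 0) (XT.nd (nat_lit 390) (nat_lit 608) (nat_lit 0) (XT.nd (nat_lit 156) (nat_lit 532) (nat_lit 0) (XT.nd (nat_lit 78) (nat_lit 0) (nat_lit 0) (XT.lf (nat_lit 0) (nat_lit 1477297356) (nat_lit 152) (nat_lit 1756844637) (nat_lit 228) (nat_lit 10759281458) (nat_lit 160) (nat_lit 5) (nat_lit 162) (nat_lit 5) (nat_lit 163) (nat_lit 5) (nat_lit 418) (nat_lit 322) (nat_lit 280)) (XT.lf (nat_lit 0) (nat_lit 8716782690) (nat_lit 228) (nat_lit 1560448412) (nat_lit 76) (nat_lit 3951040578) (nat_lit 160) (nat_lit 5) (nat_lit 163) (nat_lit 5) (nat_lit 161) (nat_lit 4) (nat_lit 419) (nat_lit 322) (nat_lit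 279))) (XT.nd (nat_lit 78) (nat_lit 380) (nat_lit 0) (XT.lf (nat_lit 0) (nat_lit 9777816401) (nat_lit 152) (nat_lit 4632048657) (nat_lit 228) (nat_lit 58921425) (nat_lit 158) (nat_lit 5) (nat_lit 160) (nat_lit 5) (nat_lit 161) (nat_lit 4) (nat_lit 420) (nat_lit 322) (nat_lit 278)) (XT.nd (nat_lit 78) (nat_lit 152) (nat_lit 0) (XT.lf (nat_lit 0) (nat_lit 5476268358) (nat_lit 228) (nat_lit 7996313464) (nat_lit 76) (nat_lit 1241507726) (nat_lit 155) (nat_lit 5) (nat_lit 158) (nat_lit 5) (nat_lit 156) (nat_lit 4) (nat_lit 421) (nat_lit 322) (nat_lit 277)) (XT.lf (nat_lit 0) (nat_lit 3501158148) (nat_lit 152) (nat_lit 7737477762) (nat_lit 228) (nat_lit 3726229103) (nat_lit 153) (nat_lit 5) (nat_lit 155) (nat_lit 5) (nat_lit 156) (nat_lit 4) (nat_lit 422) (nat_lit 322) (nat_lit 276))))) (XT.nd (nat_lit 234) (nat_lit 304) (nat_lit 0) (XT.nd (nat_lit 78) (nat_lit 76) (nat_lit 0) (XT.lf (nat_lit 0) (nat_lit 150128543)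 (nat_lit 152) (nat_lit 1780574251) (nat_lit 228) (nat_lit 13291356683) (nat_lit 150) (nat_lit 5) (nat_lit 152) (nat_lit 5) (nat_lit 153) (nat_lit 5) (nat_lit 423) (nat_lit 322) (nat_lit 275)) (XT.nd (nat_lit 78) (nat_lit 76) (nat_lit 0) (XT.lf (nat_lit 0) (nat_lit 7776511451) (nat_lit 228) (nat_lit 3336229412) (nat_lit 76) (nat_lit 4370300240) (nat_lit 150) (nat_lit 5) (nat_lit 153) (nat_lit 5) (nat_lit 151) (nat_lit 4) (nat_lit 424) (nat_lit 322) (nat_lit 274)) (XT.lf (nat_lit 0) (nat_lit 8788710727) (nat_lit 76) (nat_lit 5048272186) (nat_lit 152) (nat_lit 1913690611) (nat_lit 149) (nat_lit 5) (nat_lit 150) (nat_lit 5) (nat_lit 151) (nat_lit 4) (nat_lit 425) (nat_lit 322) (nat_lit 273)))) (XT.nd (nat_lit 78) (nat_lit 76) (nat_lit 0) (XT.lf (nat_lit 0) (nat_lit 4008002100) (nat_lit 228) (nat_lit 10769583290) (nat_lit 76) (nat_lit 1246556072) (nat_lit 146) (nat_lit 5) (nat_lit 149) (nat_lit 5) (nat_lit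 147) (nat_lit 4) (nat_lit 426) (nat_lit 322) (nat_lit 272)) (XT.nd (nat_lit 78) (nat_lit 0) (nat_lit 0) (XT.lf (nat_lit 0) (nat_lit 1519604723) (nat_lit 76) (nat_lit 8622345994) (nat_lit 152) (nat_lit 6161102247) (nat_lit 145) (nat_lit 5) (nat_lit 146) (nat_lit 5) (nat_lit 147) (nat_lit 4) (nat_lit 427) (nat_lit 322) (nat_lit 271)) (XT.lf (nat_lit 0) (nat_lit 14282375731) (nat_lit 76) (nat_lit 2224480920) (nat_lit 152) (nat_lit 82066995) (nat_lit 145) (nat_lit 5) (nat_lit 146) (nat_lit 5) (nat_lit 147) (nat_lit 4) (nat_lit 428) (nat_lit 322) (nat_lit 270)))))) (XT.nd (nat_lit 468) (nat_lit 304) (nat_lit 0) (XT.nd (nat_lit 234) (nat_lit 304) (nat_lit 0) (XT.nd (nat_lit 78) (nat_lit 304) (nat_lit 0) (XT.lf (nat_lit 0) (nat_lit 6142880300) (nat_lit 228) (nat_lit 6345418733) (nat_lit 76) (nat_lit 4390765761) (nat_lit 142) (nat_lit 5) (nat_lit 145) (nat_lit 5) (nat_lit 143) (nat_lit 4) (nat_lit 429) (nat_lit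 322) (nat_lit 269)) (XT.nd (nat_lit 78) (nat_lit 228) (nat_lit 0) (XT.lf (nat_lit 0) (nat_lit 6621388634) (nat_lit 76) (nat_lit 5980303884) (nat_lit 152) (nat_lit 4574730305) (nat_lit 141) (nat_lit 5) (nat_lit 142) (nat_lit 5) (nat_lit 143) (nat_lit 4) (nat_lit 430) (nat_lit 322) (nat_lit 268)) (XT.lf (nat_lit 0) (nat_lit 1773308583) (nat_lit 228) (nat_lit 14944278238) (nat_lit 76) (nat_lit 763514567) (nat_lit 138) (nat_lit 5) (nat_lit 141) (nat_lit 5) (nat_lit 139) (nat_lit 4) (nat_lit 431) (nat_lit 322) (nat_lit 267)))) (XT.nd (nat_lit 78) (nat_lit 304) (nat_lit 0) (XT.lf (nat_lit 0) (nat_lit 8326509407) (nat_lit 228) (nat_lit 1773593060) (nat_lit 76) (nat_lit 7690258963) (nat_lit 138) (nat_lit 5) (nat_lit 141) (nat_lit 5) (nat_lit 139) (nat_lit 4) (nat_lit 432) (nat_lit 322) (nat_lit 266)) (XT.nd (nat_lit 78) (nat_lit 228) (nat_lit 0) (XT.lf (nat_lit 0) (nat_lit 11913905807) (nat_lit 76) (nat_lit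 3218494043) (nat_lit 152) (nat_lit 2974816616) (nat_lit 137) (nat_lit 5) (nat_lit 138) (nat_lit 5) (nat_lit 139) (nat_lit 4) (nat_lit 433) (nat_lit 322) (nat_lit 265)) (XT.lf (nat_lit 0) (nat_lit 3707419199) (nat_lit 228) (nat_lit 10852175050) (nat_lit 76) (nat_lit 3870786245) (nat_lit 134) (nat_lit 5) (nat_lit 137) (nat_lit 5) (nat_lit 135) (nat_lit 4) (nat_lit 434) (nat_lit 322) (nat_lit 264))))) (XT.nd (nat_lit 48360) (nat_lit 0) (nat_lit 13452) (XT.nd (nat_lit 78) (nat_lit 228) (nat_lit 0) (XT.lf (nat_lit 0) (nat_lit 3014332791) (nat_lit 76) (nat_lit 7581788762) (nat_lit 152) (nat_lit 8164260572) (nat_lit 133) (nat_lit 5) (nat_lit 134) (nat_lit 5) (nat_lit 135) (nat_lit 4) (nat_lit 435) (nat_lit 322) (nat_lit 263)) (XT.nd (nat_lit 78) (nat_lit 228) (nat_lit 0) (XT.lf (nat_lit 0) (nat_lit 17409373967) (nat_lit 76) (nat_lit 334124480) (nat_lit 152) (nat_lit 1355224953) (nat_lit 133) (nat_lit 5) (nat_lit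 134) (nat_lit 5) (nat_lit 135) (nat_lit 4) (nat_lit 436) (nat_lit 322) (nat_lit 262)) (XT.lf (nat_lit 0) (nat_lit 5684833138) (nat_lit 228) (nat_lit 6635262042) (nat_lit 76) (nat_lit 7121373236) (nat_lit 130) (nat_lit 5) (nat_lit 133) (nat_lit 5) (nat_lit 131) (nat_lit 4) (nat_lit 437) (nat_lit 322) (nat_lit 261)))) (XT.nd (nat_lit 78) (nat_lit 1064) (nat_lit 0) (XT.lf (nat_lit 0) (nat_lit 1681107061) (nat_lit 608) (nat_lit 469997621) (nat_lit 0) (nat_lit 1681107061) (nat_lit 321) (nat_lit 5) (nat_lit 329) (nat_lit 4) (nat_lit 321) (nat_lit 4) (nat_lit 374) (nat_lit 323) (nat_lit 323)) (XT.nd (nat_lit 78) (nat_lit 532) (nat_lit 0) (XT.lf (nat_lit 0) (nat_lit 5412625844) (nat_lit 532) (nat_lit 1846266806) (nat_lit 532) (nat_lit 479351495) (nat_lit 314) (nat_lit 4) (nat_lit 321) (nat_lit 5) (nat_lit 321) (nat_lit 4) (nat_lit 375) (nat_lit 323) (nat_lit 322)) (XT.lf (nat_lit 0) (nat_lit 3344954622) (nat_lit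 532) (nat_lit 3740296607) (nat_lit 0) (nat_lit 729403597) (nat_lit 307) (nat_lit 5) (nat_lit 314) (nat_lit 4) (nat_lit 307) (nat_lit 4) (nat_lit 376) (nat_lit 323) (nat_lit 321))))))) (XT.nd (nat_lit 936) (nat_lit 3344) (nat_lit 0) (XT.nd (nat_lit 468) (nat_lit 1976) (nat_lit 0) (XT.nd (nat_lit 234) (nat_lit 1444) (nat_lit 0) (XT.nd (nat_lit 78) (nat_lit 532) (nat_lit 0) (XT.lf (nat_lit 0) (nat_lit 2724030664) (nat_lit 532) (nat_lit 4518308717) (nat_lit 532) (nat_lit 651836547) (nat_lit 300) (nat_lit 4) (nat_lit 307) (nat_lit 5) (nat_lit 307) (nat_lit 4) (nat_lit 377) (nat_lit 323) (nat_lit 320)) (XT.nd (nat_lit 78) (nat_lit 0) (nat_lit 0) (XT.lf (nat_lit 0) (nat_lit 1350502552) (nat_lit 456) (nat_lit 1817704970) (nat_lit 532) (nat_lit 4808379294) (nat_lit 293) (nat_lit 5) (nat_lit 299) (nat_lit 5) (nat_lit 300) (nat_lit 4) (nat_lit 378) (nat_lit 323) (nat_lit 319)) (XT.lf (nat_lit 0) (nat_lit 7053678510)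 (nat_lit 532) (nat_lit 32741275) (nat_lit 0) (nat_lit 975938825) (nat_lit 293) (nat_lit 5) (nat_lit 300) (nat_lit 4) (nat_lit 293) (nat_lit 4) (nat_lit 379) (nat_lit 323) (nat_lit 318)))) (XT.nd (nat_lit 78) (nat_lit 912) (nat_lit 0) (XT.lf (nat_lit 0) (nat_lit 2835840825) (nat_lit 532) (nat_lit 1432410044) (nat_lit 76) (nat_lit 3881989409) (nat_lit 286) (nat_lit 5) (nat_lit 293) (nat_lit 5) (nat_lit 287) (nat_lit 4) (nat_lit 380) (nat_lit 323) (nat_lit 317)) (XT.nd (nat_lit 78) (nat_lit 532) (nat_lit 0) (XT.lf (nat_lit 0) (nat_lit 5399987822) (nat_lit 380) (nat_lit 1333120705) (nat_lit 456) (nat_lit 1508619721) (nat_lit 281) (nat_lit 5) (nat_lit 286) (nat_lit 5) (nat_lit 287) (nat_lit 4) (nat_lit 381) (nat_lit 323) (nat_lit 316)) (XT.lf (nat_lit 0) (nat_lit 2340681026) (nat_lit 532) (nat_lit 4292931357) (nat_lit 76) (nat_lit 1702361057) (nat_lit 274) (nat_lit 5) (nat_lit 281) (nat_lit 5) (nat_lit 275)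 (nat_lit 4) (nat_lit 382) (nat_lit 323) (nat_lit 315))))) (XT.nd (nat_lit 234) (nat_lit 1140) (nat_lit 0) (XT.nd (nat_lit 78) (nat_lit 456) (nat_lit 0) (XT.lf (nat_lit 0) (nat_lit 2655762010) (nat_lit 380) (nat_lit 3594368312) (nat_lit 456) (nat_lit 2183217820) (nat_lit 269) (nat_lit 5) (nat_lit 274) (nat_lit 5) (nat_lit 275) (nat_lit 4) (nat_lit 383) (nat_lit 323) (nat_lit 314)) (XT.nd (nat_lit 78) (nat_lit 0) (nat_lit 0) (XT.lf (nat_lit 0) (nat_lit 1247066903) (nat_lit 380) (nat_lit 425763818) (nat_lit 456) (nat_lit 6861401813) (nat_lit 263) (nat_lit 5) (nat_lit 268) (nat_lit 5) (nat_lit 269) (nat_lit 5) (nat_lit 384) (nat_lit 323) (nat_lit 313)) (XT.lf (nat_lit 0) (nat_lit 5595847130) (nat_lit 456) (nat_lit 214733485) (nat_lit 76) (nat_lit 2827059354) (nat_lit 263) (nat_lit 5) (nat_lit 269) (nat_lit 5) (nat_lit 264) (nat_lit 4) (nat_lit 385) (nat_lit 323) (nat_lit 312)))) (XT.nd (nat_lit 78) (nat_lit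 684) (nat_lit 0) (XT.lf (nat_lit 0) (nat_lit 858700989) (nat_lit 456) (nat_lit 1675264826) (nat_lit 76) (nat_lit 6210415144) (nat_lit 257) (nat_lit 5) (nat_lit 263) (nat_lit 5) (nat_lit 258) (nat_lit 5) (nat_lit 386) (nat_lit 323) (nat_lit 311)) (XT.nd (nat_lit 78) (nat_lit 304) (nat_lit 0) (XT.lf (nat_lit 0) (nat_lit 4792526055) (nat_lit 456) (nat_lit 3187182314) (nat_lit 76) (nat_lit 874388702) (nat_lit 252) (nat_lit 5) (nat_lit 258) (nat_lit 5) (nat_lit 253) (nat_lit 4) (nat_lit 387) (nat_lit 323) (nat_lit 310)) (XT.lf (nat_lit 0) (nat_lit 4226850310) (nat_lit 304) (nat_lit 4613435010) (nat_lit 380) (nat_lit 126941764) (nat_lit 248) (nat_lit 5) (nat_lit 252) (nat_lit 5) (nat_lit 253) (nat_lit 4) (nat_lit 388) (nat_lit 323) (nat_lit 309)))))) (XT.nd (nat_lit 468) (nat_lit 1520) (nat_lit 0) (XT.nd (nat_lit 234) (nat_lit 988) (nat_lit 0) (XT.nd (nat_lit 78) (nat_lit 380) (nat_lit 0) (XT.lf (nat_lit 0)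 (nat_lit 2733183280) (nat_lit 380) (nat_lit 1088299258) (nat_lit 456) (nat_lit 5261965528) (nat_lit 242) (nat_lit 5) (nat_lit 247) (nat_lit 5) (nat_lit 248) (nat_lit 5) (nat_lit 389) (nat_lit 323) (nat_lit 308)) (XT.nd (nat_lit 78) (nat_lit 76) (nat_lit 0) (XT.lf (nat_lit 0) (nat_lit 1194696914) (nat_lit 304) (nat_lit 6689863456) (nat_lit 380) (nat_lit 1318595035) (nat_lit 238) (nat_lit 5) (nat_lit 242) (nat_lit 5) (nat_lit 243) (nat_lit 4) (nat_lit 390) (nat_lit 323) (nat_lit 307)) (XT.lf (nat_lit 0) (nat_lit 2679999437) (nat_lit 380) (nat_lit 395404748) (nat_lit 76) (nat_lit 6250545232) (nat_lit 237) (nat_lit 5) (nat_lit 242) (nat_lit 5) (nat_lit 238) (nat_lit 5) (nat_lit 391) (nat_lit 323) (nat_lit 306)))) (XT.nd (nat_lit 78) (nat_lit 684) (nat_lit 0) (XT.lf (nat_lit 0) (nat_lit 6767734402) (nat_lit 380) (nat_lit 2006109063) (nat_lit 76) (nat_lit 678321567) (nat_lit 233) (nat_lit 5) (nat_lit 238)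 (nat_lit 5) (nat_lit 234) (nat_lit 4) (nat_lit 392) (nat_lit 323) (nat_lit 305)) (XT.nd (nat_lit 78) (nat_lit 304) (nat_lit 0) (XT.lf (nat_lit 0) (nat_lit 1378246737) (nat_lit 380) (nat_lit 3688105227) (nat_lit 76) (nat_lit 4515126031) (nat_lit 228) (nat_lit 5) (nat_lit 233) (nat_lit 5) (nat_lit 229) (nat_lit 5) (nat_lit 393) (nat_lit 323) (nat_lit 304)) (XT.lf (nat_lit 0) (nat_lit 4287083210) (nat_lit 304) (nat_lit 1202009524) (nat_lit 380) (nat_lit 4225372977) (nat_lit 224) (nat_lit 5) (nat_lit 228) (nat_lit 5) (nat_lit 229) (nat_lit 5) (nat_lit 394) (nat_lit 323) (nat_lit 303))))) (XT.nd (nat_lit 234) (nat_lit 912) (nat_lit 0) (XT.nd (nat_lit 78) (nat_lit 380) (nat_lit 0) (XT.lf (nat_lit 0) (nat_lit 2623497713) (nat_lit 228) (nat_lit 7108608387) (nat_lit 304) (nat_lit 119071697) (nat_lit 221) (nat_lit 5) (nat_lit 224) (nat_lit 5) (nat_lit 225) (nat_lit 4) (nat_lit 395) (nat_lit 323) (nat_lit 302))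 (XT.nd (nat_lit 78) (nat_lit 0) (nat_lit 0) (XT.lf (nat_lit 0) (nat_lit 874140453) (nat_lit 304) (nat_lit 3151376847) (nat_lit 380) (nat_lit 5965429358) (nat_lit 216) (nat_lit 5) (nat_lit 220) (nat_lit 5) (nat_lit 221) (nat_lit 5) (nat_lit 396) (nat_lit 323) (nat_lit 301)) (XT.lf (nat_lit 0) (nat_lit 8294970896) (nat_lit 380) (nat_lit 904776285) (nat_lit 76) (nat_lit 935038432) (nat_lit 216) (nat_lit 5) (nat_lit 221) (nat_lit 5) (nat_lit 217) (nat_lit 4) (nat_lit 397) (nat_lit 323) (nat_lit 300)))) (XT.nd (nat_lit 78) (nat_lit 608) (nat_lit 0) (XT.lf (nat_lit 0) (nat_lit 2389183666) (nat_lit 304) (nat_lit 2760633220) (nat_lit 76) (nat_lit 5131628943) (nat_lit 212) (nat_lit 5) (nat_lit 216) (nat_lit 5) (nat_lit 213) (nat_lit 5) (nat_lit 398) (nat_lit 323) (nat_lit 299)) (XT.nd (nat_lit 78) (nat_lit 304) (nat_lit 0) (XT.lf (nat_lit 0) (nat_lit 5754454345) (nat_lit 304) (nat_lit 941117433) (nat_lit 380)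 (nat_lit 3736762647) (nat_lit 208) (nat_lit 5) (nat_lit 212) (nat_lit 5) (nat_lit 213) (nat_lit 5) (nat_lit 399) (nat_lit 323) (nat_lit 298)) (XT.lf (nat_lit 0) (nat_lit 554952031) (nat_lit 304) (nat_lit 6680021762) (nat_lit 76) (nat_lit 3351954563) (nat_lit 204) (nat_lit 5) (nat_lit 208) (nat_lit 5) (nat_lit 205) (nat_lit 5) (nat_lit 400) (nat_lit 323) (nat_lit 297))))))))
noncomputable def xc22 : XT := (XT.nd (nat_lit 1794) (nat_lit 1748) (nat_lit 0) (XT.nd (nat_lit 858) (nat_lit 1672) (nat_lit 0) (XT.nd (nat_lit 390) (nat_lit 1140) (nat_lit 0) (XT.nd (nat_lit 156) (nat_lit 836) (nat_lit 0) (XT.nd (nat_lit 78) (nat_lit 0) (nat_lit 0) (XT.lf (nat_lit 0) (nat_lit 1966074937) (nat_lit 228) (nat_lit 2933995162) (nat_lit 304) (nat_lit 5844987361) (nat_lit 201) (nat_lit 5) (nat_lit 204) (nat_lit 5) (nat_lit 205) (nat_lit 5) (nat_lit 401) (nat_lit 323) (nat_lit 296)) (XT.lf (nat_lit 0) (nat_lit 9382424401)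 (nat_lit 304) (nat_lit 38903729) (nat_lit 76) (nat_lit 1486395827) (nat_lit 201) (nat_lit 5) (nat_lit 205) (nat_lit 5) (nat_lit 202) (nat_lit 4) (nat_lit 402) (nat_lit 323) (nat_lit 295))) (XT.nd (nat_lit 78) (nat_lit 532) (nat_lit 0) (XT.lf (nat_lit 0) (nat_lit 2909356644) (nat_lit 304) (nat_lit 2115591703) (nat_lit 76) (nat_lit 6048205836) (nat_lit 197) (nat_lit 5) (nat_lit 201) (nat_lit 5) (nat_lit 198) (nat_lit 5) (nat_lit 403) (nat_lit 323) (nat_lit 294)) (XT.nd (nat_lit 78) (nat_lit 304) (nat_lit 0) (XT.lf (nat_lit 0) (nat_lit 6979262361) (nat_lit 228) (nat_lit 461453163) (nat_lit 304) (nat_lit 3802549132) (nat_lit 194) (nat_lit 5) (nat_lit 197) (nat_lit 5) (nat_lit 198) (nat_lit 5) (nat_lit 404) (nat_lit 323) (nat_lit 293)) (XT.lf (nat_lit 0) (nat_lit 713223181) (nat_lit 304) (nat_lit 6520635256) (nat_lit 76) (nat_lit 4183306905) (nat_lit 190) (nat_lit 5) (nat_lit 194) (nat_lit 5) (nat_lit 191)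 (nat_lit 5) (nat_lit 405) (nat_lit 323) (nat_lit 292))))) (XT.nd (nat_lit 234) (nat_lit 684) (nat_lit 0) (XT.nd (nat_lit 78) (nat_lit 228) (nat_lit 0) (XT.lf (nat_lit 0) (nat_lit 2710827188) (nat_lit 228) (nat_lit 2578874377) (nat_lit 304) (nat_lit 6305402202) (nat_lit 187) (nat_lit 5) (nat_lit 190) (nat_lit 5) (nat_lit 191) (nat_lit 5) (nat_lit 406) (nat_lit 323) (nat_lit 291)) (XT.nd (nat_lit 78) (nat_lit 76) (nat_lit 0) (XT.lf (nat_lit 0) (nat_lit 438945297) (nat_lit 152) (nat_lit 9584536679) (nat_lit 228) (nat_lit 1754298138) (nat_lit 185) (nat_lit 5) (nat_lit 187) (nat_lit 5) (nat_lit 188) (nat_lit 4) (nat_lit 407) (nat_lit 323) (nat_lit 290)) (XT.lf (nat_lit 0) (nat_lit 2920437544) (nat_lit 228) (nat_lit 1918256964) (nat_lit 76) (nat_lit 7125066179) (nat_lit 184) (nat_lit 5) (nat_lit 187) (nat_lit 5) (nat_lit 185) (nat_lit 5) (nat_lit 408) (nat_lit 323) (nat_lit 289)))) (XT.nd (nat_lit 78) (nat_lit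 456) (nat_lit 0) (XT.lf (nat_lit 0) (nat_lit 7706318251) (nat_lit 304) (nat_lit 4356538833) (nat_lit 76) (nat_lit 91757634) (nat_lit 181) (nat_lit 5) (nat_lit 185) (nat_lit 5) (nat_lit 182) (nat_lit 4) (nat_lit 409) (nat_lit 323) (nat_lit 288)) (XT.nd (nat_lit 78) (nat_lit 228) (nat_lit 0) (XT.lf (nat_lit 0) (nat_lit 329893558) (nat_lit 228) (nat_lit 6921570477) (nat_lit 76) (nat_lit 5098122296) (nat_lit 178) (nat_lit 5) (nat_lit 181) (nat_lit 5) (nat_lit 179) (nat_lit 5) (nat_lit 410) (nat_lit 323) (nat_lit 287)) (XT.lf (nat_lit 0) (nat_lit 2937840154) (nat_lit 228) (nat_lit 2227726519) (nat_lit 304) (nat_lit 7383412831) (nat_lit 175) (nat_lit 5) (nat_lit 178) (nat_lit 5) (nat_lit 179) (nat_lit 5) (nat_lit 411) (nat_lit 323) (nat_lit 286)))))) (XT.nd (nat_lit 468) (nat_lit 912) (nat_lit 0) (XT.nd (nat_lit 234) (nat_lit 380) (nat_lit 0) (XT.nd (nat_lit 78) (nat_lit 228) (nat_lit 0) (XT.lf (nat_lit 0)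 (nat_lit 338555610) (nat_lit 152) (nat_lit 9841155896) (nat_lit 228) (nat_lit 2573640920) (nat_lit 173) (nat_lit 5) (nat_lit 175) (nat_lit 5) (nat_lit 176) (nat_lit 4) (nat_lit 412) (nat_lit 323) (nat_lit 285)) (XT.nd (nat_lit 78) (nat_lit 152) (nat_lit 0) (XT.lf (nat_lit 0) (nat_lit 2385451944) (nat_lit 228) (nat_lit 2344950313) (nat_lit 76) (nat_lit 8231223464) (nat_lit 172) (nat_lit 5) (nat_lit 175) (nat_lit 5) (nat_lit 173) (nat_lit 5) (nat_lit 413) (nat_lit 323) (nat_lit 284)) (XT.lf (nat_lit 0) (nat_lit 7457931503) (nat_lit 228) (nat_lit 5140627883) (nat_lit 76) (nat_lit 576333134) (nat_lit 170) (nat_lit 5) (nat_lit 173) (nat_lit 5) (nat_lit 171) (nat_lit 4) (nat_lit 414) (nat_lit 323) (nat_lit 283)))) (XT.nd (nat_lit 78) (nat_lit 228) (nat_lit 0) (XT.lf (nat_lit 0) (nat_lit 5317128329) (nat_lit 152) (nat_lit 7421042763) (nat_lit 228) (nat_lit 654718661) (nat_lit 168) (nat_lit 5) (nat_lit 170)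 (nat_lit 5) (nat_lit 171) (nat_lit 4) (nat_lit 415) (nat_lit 323) (nat_lit 282)) (XT.nd (nat_lit 78) (nat_lit 0) (nat_lit 0) (XT.lf (nat_lit 0) (nat_lit 2463057953) (nat_lit 152) (nat_lit 2017341023) (nat_lit 228) (nat_lit 9135413753) (nat_lit 165) (nat_lit 5) (nat_lit 167) (nat_lit 5) (nat_lit 168) (nat_lit 5) (nat_lit 416) (nat_lit 323) (nat_lit 281)) (XT.lf (nat_lit 0) (nat_lit 9807047816) (nat_lit 228) (nat_lit 519871208) (nat_lit 76) (nat_lit 3516790793) (nat_lit 165) (nat_lit 5) (nat_lit 168) (nat_lit 5) (nat_lit 166) (nat_lit 4) (nat_lit 417) (nat_lit 323) (nat_lit 280))))) (XT.nd (nat_lit 234) (nat_lit 380) (nat_lit 0) (XT.nd (nat_lit 78) (nat_lit 304) (nat_lit 0) (XT.lf (nat_lit 0) (nat_lit 1248912955) (nat_lit 228) (nat_lit 3587647033) (nat_lit 76) (nat_lit 9239806315) (nat_lit 162) (nat_lit 5) (nat_lit 165) (nat_lit 5) (nat_lit 163) (nat_lit 5) (nat_lit 418) (nat_lit 323) (nat_lit 279)) (XT.nd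 (nat_lit 78) (nat_lit 152) (nat_lit 0) (XT.lf (nat_lit 0) (nat_lit 6634200501) (nat_lit 228) (nat_lit 6809701332) (nat_lit 76) (nat_lit 870233294) (nat_lit 160) (nat_lit 5) (nat_lit 163) (nat_lit 5) (nat_lit 161) (nat_lit 4) (nat_lit 419) (nat_lit 323) (nat_lit 278)) (XT.lf (nat_lit 0) (nat_lit 4365808497) (nat_lit 152) (nat_lit 7878161728) (nat_lit 228) (nat_lit 2313179083) (nat_lit 158) (nat_lit 5) (nat_lit 160) (nat_lit 5) (nat_lit 161) (nat_lit 4) (nat_lit 420) (nat_lit 323) (nat_lit 277)))) (XT.nd (nat_lit 78) (nat_lit 152) (nat_lit 0) (XT.lf (nat_lit 0) (nat_lit 1084227545) (nat_lit 152) (nat_lit 2084098687) (nat_lit 228) (nat_lit 11637706415) (nat_lit 155) (nat_lit 5) (nat_lit 157) (nat_lit 5) (nat_lit 158) (nat_lit 5) (nat_lit 421) (nat_lit 323) (nat_lit 276)) (XT.nd (nat_lit 78) (nat_lit 152) (nat_lit 0) (XT.lf (nat_lit 0) (nat_lit 8845894158) (nat_lit 228) (nat_lit 2329945670) (nat_lit 76)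 (nat_lit 3883512274) (nat_lit 155) (nat_lit 5) (nat_lit 158) (nat_lit 5) (nat_lit 156) (nat_lit 4) (nat_lit 422) (nat_lit 323) (nat_lit 275)) (XT.lf (nat_lit 0) (nat_lit 9454545608) (nat_lit 152) (nat_lit 5289445721) (nat_lit 228) (nat_lit 574773745) (nat_lit 153) (nat_lit 5) (nat_lit 155) (nat_lit 5) (nat_lit 156) (nat_lit 4) (nat_lit 423) (nat_lit 323) (nat_lit 274))))))) (XT.nd (nat_lit 936) (nat_lit 304) (nat_lit 0) (XT.nd (nat_lit 468) (nat_lit 608) (nat_lit 0) (XT.nd (nat_lit 234) (nat_lit 456) (nat_lit 0) (XT.nd (nat_lit 78) (nat_lit 152) (nat_lit 0) (XT.lf (nat_lit 0) (nat_lit 5159512348) (nat_lit 228) (nat_lit 9583382385) (nat_lit 76) (nat_lit 840699874) (nat_lit 150) (nat_lit 5) (nat_lit 153) (nat_lit 5) (nat_lit 151) (nat_lit 4) (nat_lit 424) (nat_lit 323) (nat_lit 273)) (XT.nd (nat_lit 78) (nat_lit 76) (nat_lit 0) (XT.lf (nat_lit 0) (nat_lit 2360301919) (nat_lit 76) (nat_lit 8767842005) (nat_lit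 152) (nat_lit 4725838300) (nat_lit 149) (nat_lit 5) (nat_lit 150) (nat_lit 5) (nat_lit 151) (nat_lit 4) (nat_lit 425) (nat_lit 323) (nat_lit 272)) (XT.lf (nat_lit 0) (nat_lit 1157881071) (nat_lit 152) (nat_lit 1396184678) (nat_lit 76) (nat_lit 13576980829) (nat_lit 148) (nat_lit 5) (nat_lit 150) (nat_lit 5) (nat_lit 149) (nat_lit 5) (nat_lit 426) (nat_lit 323) (nat_lit 271)))) (XT.nd (nat_lit 78) (nat_lit 304) (nat_lit 0) (XT.lf (nat_lit 0) (nat_lit 7208946424) (nat_lit 228) (nat_lit 5327166364) (nat_lit 76) (nat_lit 3876331790) (nat_lit 146) (nat_lit 5) (nat_lit 149) (nat_lit 5) (nat_lit 147) (nat_lit 4) (nat_lit 427) (nat_lit 323) (nat_lit 270)) (XT.nd (nat_lit 78) (nat_lit 228) (nat_lit 0) (XT.lf (nat_lit 0) (nat_lit 7274172736) (nat_lit 76) (nat_lit 6217889720) (nat_lit 152) (nat_lit 3208706500) (nat_lit 145) (nat_lit 5) (nat_lit 146) (nat_lit 5) (nat_lit 147) (nat_lit 4) (nat_lit 428) (nat_lit 323)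 (nat_lit 269)) (XT.lf (nat_lit 0) (nat_lit 2938601874) (nat_lit 228) (nat_lit 13708068222) (nat_lit 76) (nat_lit 349301192) (nat_lit 142) (nat_lit 5) (nat_lit 145) (nat_lit 5) (nat_lit 143) (nat_lit 4) (nat_lit 429) (nat_lit 323) (nat_lit 268))))) (XT.nd (nat_lit 234) (nat_lit 304) (nat_lit 0) (XT.nd (nat_lit 78) (nat_lit 304) (nat_lit 0) (XT.lf (nat_lit 0) (nat_lit 9304863990) (nat_lit 228) (nat_lit 924926453) (nat_lit 76) (nat_lit 7066315377) (nat_lit 142) (nat_lit 5) (nat_lit 145) (nat_lit 5) (nat_lit 143) (nat_lit 4) (nat_lit 430) (nat_lit 323) (nat_lit 267)) (XT.nd (nat_lit 78) (nat_lit 228) (nat_lit 0) (XT.lf (nat_lit 0) (nat_lit 12375876754) (nat_lit 76) (nat_lit 3548240968) (nat_lit 152) (nat_lit 1679266553) (nat_lit 141) (nat_lit 5) (nat_lit 142) (nat_lit 5) (nat_lit 143) (nat_lit 4) (nat_lit 431) (nat_lit 323) (nat_lit 266)) (XT.lf (nat_lit 0) (nat_lit 4792054118) (nat_lit 228) (nat_lit 9769600739)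 (nat_lit 76) (nat_lit 3354913185) (nat_lit 138) (nat_lit 5) (nat_lit 141) (nat_lit 5) (nat_lit 139) (nat_lit 4) (nat_lit 432) (nat_lit 323) (nat_lit 265)))) (XT.nd (nat_lit 78) (nat_lit 228) (nat_lit 0) (XT.lf (nat_lit 0) (nat_lit 3704720566) (nat_lit 76) (nat_lit 7786367306) (nat_lit 152) (nat_lit 6745540906) (nat_lit 137) (nat_lit 5) (nat_lit 138) (nat_lit 5) (nat_lit 139) (nat_lit 4) (nat_lit 433) (nat_lit 323) (nat_lit 264)) (XT.nd (nat_lit 78) (nat_lit 228) (nat_lit 0) (XT.lf (nat_lit 0) (nat_lit 17677030105) (nat_lit 76) (nat_lit 756616493) (nat_lit 152) (nat_lit 131368119) (nat_lit 137) (nat_lit 5) (nat_lit 138) (nat_lit 5) (nat_lit 139) (nat_lit 4) (nat_lit 434) (nat_lit 323) (nat_lit 263)) (XT.lf (nat_lit 0) (nat_lit 6687016908) (nat_lit 228) (nat_lit 5707715315) (nat_lit 76) (nat_lit 6502508432) (nat_lit 134) (nat_lit 5) (nat_lit 137) (nat_lit 5) (nat_lit 135) (nat_lit 4) (nat_lit 435) (nat_lit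 323) (nat_lit 262)))))) (XT.nd (nat_lit 48438) (nat_lit 0) (nat_lit 11476) (XT.nd (nat_lit 48204) (nat_lit 0) (nat_lit 13908) (XT.nd (nat_lit 78) (nat_lit 228) (nat_lit 0) (XT.lf (nat_lit 0) (nat_lit 8521160065) (nat_lit 76) (nat_lit 5229741084) (nat_lit 152) (nat_lit 5487185561) (nat_lit 133) (nat_lit 5) (nat_lit 134) (nat_lit 5) (nat_lit 135) (nat_lit 4) (nat_lit 436) (nat_lit 323) (nat_lit 261)) (XT.nd (nat_lit 48048) (nat_lit 0) (nat_lit 15124) (XT.lf (nat_lit 0) (nat_lit 1469316050) (nat_lit 228) (nat_lit 15950056801) (nat_lit 76) (nat_lit 2167576021) (nat_lit 130) (nat_lit 5) (nat_lit 133) (nat_lit 5) (nat_lit 131) (nat_lit 4) (nat_lit 437) (nat_lit 323) (nat_lit 260)) (XT.lf (nat_lit 0) (nat_lit 956750228) (nat_lit 608) (nat_lit 1402699730) (nat_lit 608) (nat_lit 1402699730) (nat_lit 329) (nat_lit 4) (nat_lit 337) (nat_lit 5) (nat_lit 337) (nat_lit 4) (nat_lit 372) (nat_lit 324) (nat_lit 324))))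 (XT.nd (nat_lit 78) (nat_lit 608) (nat_lit 0) (XT.lf (nat_lit 0) (nat_lit 463181473) (nat_lit 532) (nat_lit 479351495) (nat_lit 608) (nat_lit 6651552602) (nat_lit 321) (nat_lit 5) (nat_lit 328) (nat_lit 5) (nat_lit 329) (nat_lit 4) (nat_lit 373) (nat_lit 324) (nat_lit 323)) (XT.nd (nat_lit 78) (nat_lit 608) (nat_lit 0) (XT.lf (nat_lit 0) (nat_lit 4719629977) (nat_lit 608) (nat_lit 1001516821) (nat_lit 0) (nat_lit 1944791895) (nat_lit 321) (nat_lit 5) (nat_lit 329) (nat_lit 4) (nat_lit 321) (nat_lit 4) (nat_lit 374) (nat_lit 324) (nat_lit 322)) (XT.lf (nat_lit 0) (nat_lit 808722669) (nat_lit 608) (nat_lit 2460233306) (nat_lit 76) (nat_lit 4472072255) (nat_lit 313) (nat_lit 5) (nat_lit 321) (nat_lit 5) (nat_lit 314) (nat_lit 4) (nat_lit 375) (nat_lit 324) (nat_lit 321))))) (XT.nd (nat_lit 234) (nat_lit 912) (nat_lit 0) (XT.nd (nat_lit 78) (nat_lit 1064) (nat_lit 0) (XT.lf (nat_lit 0) (nat_lit 3878421383)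 (nat_lit 456) (nat_lit 687495113) (nat_lit 532) (nat_lit 3253116933) (nat_lit 307) (nat_lit 5) (nat_lit 313) (nat_lit 5) (nat_lit 314) (nat_lit 4) (nat_lit 376) (nat_lit 324) (nat_lit 320)) (XT.nd (nat_lit 78) (nat_lit 456) (nat_lit 0) (XT.lf (nat_lit 0) (nat_lit 496136816) (nat_lit 608) (nat_lit 5440716293) (nat_lit 76) (nat_lit 1963266251) (nat_lit 299) (nat_lit 5) (nat_lit 307) (nat_lit 5) (nat_lit 300) (nat_lit 4) (nat_lit 377) (nat_lit 324) (nat_lit 319)) (XT.lf (nat_lit 0) (nat_lit 1005743249) (nat_lit 456) (nat_lit 3246833319) (nat_lit 532) (nat_lit 3731292244) (nat_lit 293) (nat_lit 5) (nat_lit 299) (nat_lit 5) (nat_lit 300) (nat_lit 4) (nat_lit 378) (nat_lit 324) (nat_lit 318)))) (XT.nd (nat_lit 78) (nat_lit 836) (nat_lit 0) (XT.lf (nat_lit 0) (nat_lit 10178750) (nat_lit 532) (nat_lit 437312341) (nat_lit 76) (nat_lit 7623836589) (nat_lit 292) (nat_lit 5) (nat_lit 299) (nat_lit 5) (nat_lit 293)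 (nat_lit 5) (nat_lit 379) (nat_lit 324) (nat_lit 317)) (XT.nd (nat_lit 78) (nat_lit 380) (nat_lit 0) (XT.lf (nat_lit 0) (nat_lit 3780129550) (nat_lit 532) (nat_lit 1921661745) (nat_lit 76) (nat_lit 2458773784) (nat_lit 286) (nat_lit 5) (nat_lit 293) (nat_lit 5) (nat_lit 287) (nat_lit 4) (nat_lit 380) (nat_lit 324) (nat_lit 316)) (XT.lf (nat_lit 0) (nat_lit 4839423119) (nat_lit 380) (nat_lit 2787362407) (nat_lit 456) (nat_lit 626785876) (nat_lit 281) (nat_lit 5) (nat_lit 286) (nat_lit 5) (nat_lit 287) (nat_lit 4) (nat_lit 381) (nat_lit 324) (nat_lit 315))))))))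
noncomputable def xc23 : XT := (XT.nd (nat_lit 1872) (nat_lit 3496) (nat_lit 0) (XT.nd (nat_lit 936) (nat_lit 2812) (nat_lit 0) (XT.nd (nat_lit 468) (nat_lit 1824) (nat_lit 0) (XT.nd (nat_lit 234) (nat_lit 836) (nat_lit 0) (XT.nd (nat_lit 78) (nat_lit 836) (nat_lit 0) (XT.lf (nat_lit 0) (nat_lit 3139987321) (nat_lit 532) (nat_lit 4946277062) (nat_lit 76) (nat_lit 263257501) (nat_lit 274) (nat_lit 5) (nat_lit 281) (nat_lit 5) (nat_lit 275) (nat_lit 4) (nat_lit 382) (nat_lit 324) (nat_lit 314)) (XT.nd (nat_lit 78) (nat_lit 456) (nat_lit 0) (XT.lf (nat_lit 0) (nat_lit 1926939796) (nat_lit 380) (nat_lit 5071147897) (nat_lit 456) (nat_lit 1450349362) (nat_lit 269) (nat_lit 5) (nat_lit 274) (nat_lit 5) (nat_lit 275) (nat_lit 4) (nat_lit 383) (nat_lit 324) (nat_lit 313)) (XT.lf (nat_lit 0) (nat_lit 418409874) (nat_lit 380) (nat_lit 1920956280) (nat_lit 456) (nat_lit 6211304913) (nat_lit 263) (nat_lit 5) (nat_lit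 268) (nat_lit 5) (nat_lit 269) (nat_lit 5) (nat_lit 384) (nat_lit 324) (nat_lit 312)))) (XT.nd (nat_lit 78) (nat_lit 836) (nat_lit 0) (XT.lf (nat_lit 0) (nat_lit 6204472324) (nat_lit 456) (nat_lit 1107516410) (nat_lit 76) (nat_lit 1343827075) (nat_lit 263) (nat_lit 5) (nat_lit 269) (nat_lit 5) (nat_lit 264) (nat_lit 4) (nat_lit 385) (nat_lit 324) (nat_lit 311)) (XT.nd (nat_lit 78) (nat_lit 380) (nat_lit 0) (XT.lf (nat_lit 0) (nat_lit 1385504595) (nat_lit 456) (nat_lit 2672156487) (nat_lit 76) (nat_lit 4706289163) (nat_lit 257) (nat_lit 5) (nat_lit 263) (nat_lit 5) (nat_lit 258) (nat_lit 5) (nat_lit 386) (nat_lit 324) (nat_lit 310)) (XT.lf (nat_lit 0) (nat_lit 4597310440) (nat_lit 380) (nat_lit 661056410) (nat_lit 456) (nat_lit 3617128392) (nat_lit 252) (nat_lit 5) (nat_lit 257) (nat_lit 5) (nat_lit 258) (nat_lit 5) (nat_lit 387) (nat_lit 324) (nat_lit 309))))) (XT.nd (nat_lit 234) (nat_lit 1064) (nat_lit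 0) (XT.nd (nat_lit 78) (nat_lit 380) (nat_lit 0) (XT.lf (nat_lit 0) (nat_lit 251579951) (nat_lit 380) (nat_lit 5934431800) (nat_lit 76) (nat_lit 2804313703) (nat_lit 247) (nat_lit 5) (nat_lit 252) (nat_lit 5) (nat_lit 248) (nat_lit 5) (nat_lit 388) (nat_lit 324) (nat_lit 308)) (XT.nd (nat_lit 78) (nat_lit 0) (nat_lit 0) (XT.lf (nat_lit 0) (nat_lit 1451708858) (nat_lit 380) (nat_lit 2692171019) (nat_lit 456) (nat_lit 4964239370) (nat_lit 242) (nat_lit 5) (nat_lit 247) (nat_lit 5) (nat_lit 248) (nat_lit 5) (nat_lit 389) (nat_lit 324) (nat_lit 307)) (XT.lf (nat_lit 0) (nat_lit 8139157335) (nat_lit 456) (nat_lit 180967253) (nat_lit 76) (nat_lit 909736010) (nat_lit 242) (nat_lit 5) (nat_lit 248) (nat_lit 5) (nat_lit 243) (nat_lit 4) (nat_lit 390) (nat_lit 324) (nat_lit 306)))) (XT.nd (nat_lit 78) (nat_lit 684) (nat_lit 0) (XT.lf (nat_lit 0) (nat_lit 2860959367) (nat_lit 380) (nat_lit 1865430853) (nat_lit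 76) (nat_lit 4627473216) (nat_lit 237) (nat_lit 5) (nat_lit 242) (nat_lit 5) (nat_lit 238) (nat_lit 5) (nat_lit 391) (nat_lit 324) (nat_lit 305)) (XT.nd (nat_lit 78) (nat_lit 380) (nat_lit 0) (XT.lf (nat_lit 0) (nat_lit 5892400500) (nat_lit 304) (nat_lit 995135228) (nat_lit 380) (nat_lit 2594378081) (nat_lit 233) (nat_lit 5) (nat_lit 237) (nat_lit 5) (nat_lit 238) (nat_lit 5) (nat_lit 392) (nat_lit 324) (nat_lit 304)) (XT.lf (nat_lit 0) (nat_lit 1401187735) (nat_lit 380) (nat_lit 5386793660) (nat_lit 76) (nat_lit 2825180037) (nat_lit 228) (nat_lit 5) (nat_lit 233) (nat_lit 5) (nat_lit 229) (nat_lit 5) (nat_lit 393) (nat_lit 324) (nat_lit 303)))))) (XT.nd (nat_lit 468) (nat_lit 1292) (nat_lit 0) (XT.nd (nat_lit 234) (nat_lit 912) (nat_lit 0) (XT.nd (nat_lit 78) (nat_lit 304) (nat_lit 0) (XT.lf (nat_lit 0) (nat_lit 2492788657) (nat_lit 304) (nat_lit 2963054321) (nat_lit 380) (nat_lit 4291991892) (nat_lit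 224) (nat_lit 5) (nat_lit 228) (nat_lit 5) (nat_lit 229) (nat_lit 5) (nat_lit 394) (nat_lit 324) (nat_lit 302)) (XT.nd (nat_lit 78) (nat_lit 76) (nat_lit 0) (XT.lf (nat_lit 0) (nat_lit 714569454) (nat_lit 228) (nat_lit 8910415719) (nat_lit 304) (nat_lit 261777919) (nat_lit 221) (nat_lit 5) (nat_lit 224) (nat_lit 5) (nat_lit 225) (nat_lit 4) (nat_lit 395) (nat_lit 324) (nat_lit 301)) (XT.lf (nat_lit 0) (nat_lit 3838767144) (nat_lit 304) (nat_lit 1147168943) (nat_lit 76) (nat_lit 5042041879) (nat_lit 220) (nat_lit 5) (nat_lit 224) (nat_lit 5) (nat_lit 221) (nat_lit 5) (nat_lit 396) (nat_lit 324) (nat_lit 300)))) (XT.nd (nat_lit 78) (nat_lit 608) (nat_lit 0) (XT.lf (nat_lit 0) (nat_lit 7134800199) (nat_lit 304) (nat_lit 915118401) (nat_lit 380) (nat_lit 2123647385) (nat_lit 216) (nat_lit 5) (nat_lit 220) (nat_lit 5) (nat_lit 221) (nat_lit 5) (nat_lit 397) (nat_lit 324) (nat_lit 299)) (XT.nd (nat_lit 78)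 (nat_lit 304) (nat_lit 0) (XT.lf (nat_lit 0) (nat_lit 2043011585) (nat_lit 304) (nat_lit 5026352260) (nat_lit 76) (nat_lit 3252980547) (nat_lit 212) (nat_lit 5) (nat_lit 216) (nat_lit 5) (nat_lit 213) (nat_lit 5) (nat_lit 398) (nat_lit 324) (nat_lit 298)) (XT.lf (nat_lit 0) (nat_lit 3382663666) (nat_lit 304) (nat_lit 2907089622) (nat_lit 380) (nat_lit 4185269092) (nat_lit 208) (nat_lit 5) (nat_lit 212) (nat_lit 5) (nat_lit 213) (nat_lit 5) (nat_lit 399) (nat_lit 324) (nat_lit 297))))) (XT.nd (nat_lit 234) (nat_lit 760) (nat_lit 0) (XT.nd (nat_lit 78) (nat_lit 228) (nat_lit 0) (XT.lf (nat_lit 0) (nat_lit 34873979) (nat_lit 304) (nat_lit 9224523678) (nat_lit 76) (nat_lit 1372757702) (nat_lit 204) (nat_lit 5) (nat_lit 208) (nat_lit 5) (nat_lit 205) (nat_lit 5) (nat_lit 400) (nat_lit 324) (nat_lit 296)) (XT.nd (nat_lit 78) (nat_lit 228) (nat_lit 0) (XT.lf (nat_lit 0) (nat_lit 4324666014) (nat_lit 304) (nat_lit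 677002026) (nat_lit 76) (nat_lit 5790276204) (nat_lit 204) (nat_lit 5) (nat_lit 208) (nat_lit 5) (nat_lit 205) (nat_lit 5) (nat_lit 401) (nat_lit 324) (nat_lit 295)) (XT.lf (nat_lit 0) (nat_lit 8167659727) (nat_lit 228) (nat_lit 582211765) (nat_lit 304) (nat_lit 2206453713) (nat_lit 201) (nat_lit 5) (nat_lit 204) (nat_lit 5) (nat_lit 205) (nat_lit 5) (nat_lit 402) (nat_lit 324) (nat_lit 294)))) (XT.nd (nat_lit 78) (nat_lit 456) (nat_lit 0) (XT.lf (nat_lit 0) (nat_lit 2172630114) (nat_lit 304) (nat_lit 5017672503) (nat_lit 76) (nat_lit 3933715169) (nat_lit 197) (nat_lit 5) (nat_lit 201) (nat_lit 5) (nat_lit 198) (nat_lit 5) (nat_lit 403) (nat_lit 324) (nat_lit 293)) (XT.nd (nat_lit 78) (nat_lit 228) (nat_lit 0) (XT.lf (nat_lit 0) (nat_lit 3959423968) (nat_lit 228) (nat_lit 2680544060) (nat_lit 304) (nat_lit 4656080861) (nat_lit 194) (nat_lit 5) (nat_lit 197) (nat_lit 5) (nat_lit 198) (nat_lit 5) (nat_lit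 404) (nat_lit 324) (nat_lit 292)) (XT.lf (nat_lit 0) (nat_lit 1731477872) (nat_lit 228) (nat_lit 9525981352) (nat_lit 304) (nat_lit 215297704) (nat_lit 191) (nat_lit 5) (nat_lit 194) (nat_lit 5) (nat_lit 195) (nat_lit 4) (nat_lit 405) (nat_lit 324) (nat_lit 291))))))) (XT.nd (nat_lit 936) (nat_lit 1520) (nat_lit 0) (XT.nd (nat_lit 468) (nat_lit 988) (nat_lit 0) (XT.nd (nat_lit 234) (nat_lit 456) (nat_lit 0) (XT.nd (nat_lit 78) (nat_lit 456) (nat_lit 0) (XT.lf (nat_lit 0) (nat_lit 4304673164) (nat_lit 304) (nat_lit 619816522) (nat_lit 76) (nat_lit 6728089017) (nat_lit 190) (nat_lit 5) (nat_lit 194) (nat_lit 5) (nat_lit 191) (nat_lit 5) (nat_lit 406) (nat_lit 324) (nat_lit 290)) (XT.nd (nat_lit 78) (nat_lit 228) (nat_lit 0) (XT.lf (nat_lit 0) (nat_lit 8828820798) (nat_lit 228) (nat_lit 143671121) (nat_lit 304) (nat_lit 2864741983) (nat_lit 187) (nat_lit 5) (nat_lit 190) (nat_lit 5) (nat_lit 191) (nat_lit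 5) (nat_lit 407) (nat_lit 324) (nat_lit 289)) (XT.lf (nat_lit 0) (nat_lit 1766157323) (nat_lit 228) (nat_lit 5532964246) (nat_lit 76) (nat_lit 4726378285) (nat_lit 184) (nat_lit 5) (nat_lit 187) (nat_lit 5) (nat_lit 185) (nat_lit 5) (nat_lit 408) (nat_lit 324) (nat_lit 288)))) (XT.nd (nat_lit 78) (nat_lit 228) (nat_lit 0) (XT.lf (nat_lit 0) (nat_lit 4053454303) (nat_lit 228) (nat_lit 2428341961) (nat_lit 304) (nat_lit 5736664876) (nat_lit 181) (nat_lit 5) (nat_lit 184) (nat_lit 5) (nat_lit 185) (nat_lit 5) (nat_lit 409) (nat_lit 324) (nat_lit 287)) (XT.nd (nat_lit 78) (nat_lit 76) (nat_lit 0) (XT.lf (nat_lit 0) (nat_lit 1511797563) (nat_lit 152) (nat_lit 9855653407) (nat_lit 228) (nat_lit 1048903895) (nat_lit 179) (nat_lit 5) (nat_lit 181) (nat_lit 5) (nat_lit 182) (nat_lit 4) (nat_lit 410) (nat_lit 324) (nat_lit 286)) (XT.lf (nat_lit 0) (nat_lit 3745937040) (nat_lit 228) (nat_lit 1150421471) (nat_lit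 76) (nat_lit 7721531011) (nat_lit 178) (nat_lit 5) (nat_lit 181) (nat_lit 5) (nat_lit 179) (nat_lit 5) (nat_lit 411) (nat_lit 324) (nat_lit 285))))) (XT.nd (nat_lit 234) (nat_lit 380) (nat_lit 0) (XT.nd (nat_lit 78) (nat_lit 380) (nat_lit 0) (XT.lf (nat_lit 0) (nat_lit 8686896933) (nat_lit 304) (nat_lit 3880893996) (nat_lit 76) (nat_lit 256667063) (nat_lit 175) (nat_lit 5) (nat_lit 179) (nat_lit 5) (nat_lit 176) (nat_lit 4) (nat_lit 412) (nat_lit 324) (nat_lit 284)) (XT.nd (nat_lit 78) (nat_lit 152) (nat_lit 0) (XT.lf (nat_lit 0) (nat_lit 780819411) (nat_lit 228) (nat_lit 6756758258) (nat_lit 76) (nat_lit 5497741520) (nat_lit 172) (nat_lit 5) (nat_lit 175) (nat_lit 5) (nat_lit 173) (nat_lit 5) (nat_lit 413) (nat_lit 324) (nat_lit 283)) (XT.lf (nat_lit 0) (nat_lit 3482760306) (nat_lit 152) (nat_lit 2289230633) (nat_lit 228) (nat_lit 7479034290) (nat_lit 170) (nat_lit 5) (nat_lit 172) (nat_lit 5) (nat_lit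 173) (nat_lit 5) (nat_lit 414) (nat_lit 324) (nat_lit 282)))) (XT.nd (nat_lit 78) (nat_lit 228) (nat_lit 0) (XT.lf (nat_lit 0) (nat_lit 561967174) (nat_lit 152) (nat_lit 10390851302) (nat_lit 228) (nat_lit 2519186348) (nat_lit 168) (nat_lit 5) (nat_lit 170) (nat_lit 5) (nat_lit 171) (nat_lit 4) (nat_lit 415) (nat_lit 324) (nat_lit 281)) (XT.nd (nat_lit 78) (nat_lit 152) (nat_lit 0) (XT.lf (nat_lit 0) (nat_lit 2597013410) (nat_lit 228) (nat_lit 2458171391) (nat_lit 76) (nat_lit 8641939682) (nat_lit 167) (nat_lit 5) (nat_lit 170) (nat_lit 5) (nat_lit 168) (nat_lit 5) (nat_lit 416) (nat_lit 324) (nat_lit 280)) (XT.lf (nat_lit 0) (nat_lit 7838638263) (nat_lit 228) (nat_lit 5599569791) (nat_lit 76) (nat_lit 489364237) (nat_lit 165) (nat_lit 5) (nat_lit 168) (nat_lit 5) (nat_lit 166) (nat_lit 4) (nat_lit 417) (nat_lit 324) (nat_lit 279)))))) (XT.nd (nat_lit 468) (nat_lit 608) (nat_lit 0) (XT.nd (nat_lit 234)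 (nat_lit 532) (nat_lit 0) (XT.nd (nat_lit 78) (nat_lit 228) (nat_lit 0) (XT.lf (nat_lit 0) (nat_lit 5264142368) (nat_lit 152) (nat_lit 8037040390) (nat_lit 228) (nat_lit 861840649) (nat_lit 163) (nat_lit 5) (nat_lit 165) (nat_lit 5) (nat_lit 166) (nat_lit 4) (nat_lit 418) (nat_lit 324) (nat_lit 278)) (XT.nd (nat_lit 78) (nat_lit 0) (nat_lit 0) (XT.lf (nat_lit 0) (nat_lit 2048272706) (nat_lit 152) (nat_lit 2400425602) (nat_lit 228) (nat_lit 9955089446) (nat_lit 160) (nat_lit 5) (nat_lit 162) (nat_lit 5) (nat_lit 163) (nat_lit 5) (nat_lit 419) (nat_lit 324) (nat_lit 277)) (XT.lf (nat_lit 0) (nat_lit 9963049072) (nat_lit 228) (nat_lit 1297606242) (nat_lit 76) (nat_lit 3389009190) (nat_lit 160) (nat_lit 5) (nat_lit 163) (nat_lit 5) (nat_lit 161) (nat_lit 4) (nat_lit 420) (nat_lit 324) (nat_lit 276)))) (XT.nd (nat_lit 78) (nat_lit 304) (nat_lit 0) (XT.lf (nat_lit 0) (nat_lit 787615998) (nat_lit 228) (nat_lit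 4751667433) (nat_lit 76) (nat_lit 9361556505) (nat_lit 157) (nat_lit 5) (nat_lit 160) (nat_lit 5) (nat_lit 158) (nat_lit 5) (nat_lit 421) (nat_lit 324) (nat_lit 275)) (XT.nd (nat_lit 78) (nat_lit 152) (nat_lit 0) (XT.lf (nat_lit 0) (nat_lit 6354719776) (nat_lit 228) (nat_lit 8378594327) (nat_lit 76) (nat_lit 424159212) (nat_lit 155) (nat_lit 5) (nat_lit 158) (nat_lit 5) (nat_lit 156) (nat_lit 4) (nat_lit 422) (nat_lit 324) (nat_lit 274)) (XT.lf (nat_lit 0) (nat_lit 3230406702) (nat_lit 152) (nat_lit 8933255175) (nat_lit 228) (nat_lit 3255899061) (nat_lit 153) (nat_lit 5) (nat_lit 155) (nat_lit 5) (nat_lit 156) (nat_lit 4) (nat_lit 423) (nat_lit 324) (nat_lit 273))))) (XT.nd (nat_lit 234) (nat_lit 304) (nat_lit 0) (XT.nd (nat_lit 78) (nat_lit 228) (nat_lit 0) (XT.lf (nat_lit 0) (nat_lit 2435431949) (nat_lit 228) (nat_lit 461799621) (nat_lit 76) (nat_lit 12790790285) (nat_lit 152) (nat_lit 5) (nat_lit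 155) (nat_lit 5) (nat_lit 153) (nat_lit 5) (nat_lit 424) (nat_lit 324) (nat_lit 272)) (XT.nd (nat_lit 78) (nat_lit 76) (nat_lit 0) (XT.lf (nat_lit 0) (nat_lit 8319781664) (nat_lit 228) (nat_lit 4287815680) (nat_lit 76) (nat_lit 3353340583) (nat_lit 150) (nat_lit 5) (nat_lit 153) (nat_lit 5) (nat_lit 151) (nat_lit 4) (nat_lit 425) (nat_lit 324) (nat_lit 271)) (XT.lf (nat_lit 0) (nat_lit 7959443191) (nat_lit 76) (nat_lit 6473632339) (nat_lit 152) (nat_lit 1807393541) (nat_lit 149) (nat_lit 5) (nat_lit 150) (nat_lit 5) (nat_lit 151) (nat_lit 4) (nat_lit 426) (nat_lit 324) (nat_lit 270)))) (XT.nd (nat_lit 78) (nat_lit 76) (nat_lit 0) (XT.lf (nat_lit 0) (nat_lit 4066572706) (nat_lit 152) (nat_lit 78245857) (nat_lit 228) (nat_lit 12381593382) (nat_lit 146) (nat_lit 5) (nat_lit 148) (nat_lit 5) (nat_lit 149) (nat_lit 5) (nat_lit 427) (nat_lit 324) (nat_lit 269)) (XT.nd (nat_lit 78) (nat_lit 76) (nat_lit 0)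 (XT.lf (nat_lit 0) (nat_lit 10329074051) (nat_lit 228) (nat_lit 52440470) (nat_lit 76) (nat_lit 6436187617) (nat_lit 146) (nat_lit 5) (nat_lit 149) (nat_lit 5) (nat_lit 147) (nat_lit 4) (nat_lit 428) (nat_lit 324) (nat_lit 268)) (XT.lf (nat_lit 0) (nat_lit 12873658991) (nat_lit 76) (nat_lit 3894174122) (nat_lit 152) (nat_lit 347828649) (nat_lit 145) (nat_lit 5) (nat_lit 146) (nat_lit 5) (nat_lit 147) (nat_lit 4) (nat_lit 429) (nat_lit 324) (nat_lit 267))))))))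
noncomputable def xc24 : XT := (XT.nd (nat_lit 49608) (nat_lit 0) (nat_lit 3876) (XT.nd (nat_lit 48672) (nat_lit 0) (nat_lit 10260) (XT.nd (nat_lit 390) (nat_lit 304) (nat_lit 0) (XT.nd (nat_lit 156) (nat_lit 304) (nat_lit 0) (XT.nd (nat_lit 78) (nat_lit 76) (nat_lit 0) (XT.lf (nat_lit 0) (nat_lit 5917728164) (nat_lit 228) (nat_lit 8671878384) (nat_lit 76) (nat_lit 2829514832) (nat_lit 142) (nat_lit 5) (nat_lit 145) (nat_lit 5) (nat_lit 143) (nat_lit 4) (nat_lit 430) (nat_lit 324) (nat_lit 266)) (XT.lf (nat_lit 0) (nat_lit 4422391357) (nat_lit 76) (nat_lit 8010894558) (nat_lit 152) (nat_lit 5296224799) (nat_lit 141) (nat_lit 5) (nat_lit 142) (nat_lit 5) (nat_lit 143) (nat_lit 4) (nat_lit 431) (nat_lit 324) (nat_lit 265))) (XT.nd (nat_lit 78) (nat_lit 228) (nat_lit 0) (XT.lf (nat_lit 0) (nat_lit 1106941101) (nat_lit 152) (nat_lit 75006306) (nat_lit 76) (nat_lit 16865952166) (nat_lit 140) (nat_lit 5) (nat_lit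 142) (nat_lit 5) (nat_lit 141) (nat_lit 5) (nat_lit 432) (nat_lit 324) (nat_lit 264)) (XT.nd (nat_lit 78) (nat_lit 76) (nat_lit 0) (XT.lf (nat_lit 0) (nat_lit 7731127530) (nat_lit 228) (nat_lit 4762466454) (nat_lit 76) (nat_lit 5876611745) (nat_lit 138) (nat_lit 5) (nat_lit 141) (nat_lit 5) (nat_lit 139) (nat_lit 4) (nat_lit 433) (nat_lit 324) (nat_lit 263)) (XT.lf (nat_lit 0) (nat_lit 9064121526) (nat_lit 76) (nat_lit 5536043401) (nat_lit 152) (nat_lit 4100632381) (nat_lit 137) (nat_lit 5) (nat_lit 138) (nat_lit 5) (nat_lit 139) (nat_lit 4) (nat_lit 434) (nat_lit 324) (nat_lit 262))))) (XT.nd (nat_lit 48048) (nat_lit 0) (nat_lit 14896) (XT.nd (nat_lit 78) (nat_lit 76) (nat_lit 0) (XT.lf (nat_lit 0) (nat_lit 2635614494) (nat_lit 228) (nat_lit 14735476554) (nat_lit 76) (nat_lit 1667864632) (nat_lit 134) (nat_lit 5) (nat_lit 137) (nat_lit 5) (nat_lit 135) (nat_lit 4) (nat_lit 435) (nat_lit 324) (nat_lit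 261)) (XT.nd (nat_lit 78) (nat_lit 76) (nat_lit 0) (XT.lf (nat_lit 0) (nat_lit 9591346081) (nat_lit 228) (nat_lit 722923599) (nat_lit 76) (nat_lit 9068776635) (nat_lit 134) (nat_lit 5) (nat_lit 137) (nat_lit 5) (nat_lit 135) (nat_lit 4) (nat_lit 436) (nat_lit 324) (nat_lit 260)) (XT.lf (nat_lit 0) (nat_lit 13882268795) (nat_lit 76) (nat_lit 2955205906) (nat_lit 152) (nat_lit 2897533215) (nat_lit 133) (nat_lit 5) (nat_lit 134) (nat_lit 5) (nat_lit 135) (nat_lit 4) (nat_lit 437) (nat_lit 324) (nat_lit 259)))) (XT.nd (nat_lit 78) (nat_lit 1216) (nat_lit 0) (XT.lf (nat_lit 0) (nat_lit 2437632074) (nat_lit 608) (nat_lit 629442282) (nat_lit 608) (nat_lit 629442282) (nat_lit 345) (nat_lit 4) (nat_lit 353) (nat_lit 5) (nat_lit 353) (nat_lit 4) (nat_lit 370) (nat_lit 325) (nat_lit 325)) (XT.nd (nat_lit 78) (nat_lit 608) (nat_lit 0) (XT.lf (nat_lit 0) (nat_lit 2431745852) (nat_lit 608) (nat_lit 4088124671) (nat_lit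 0) (nat_lit 938080585) (nat_lit 337) (nat_lit 5) (nat_lit 345) (nat_lit 4) (nat_lit 337) (nat_lit 4) (nat_lit 371) (nat_lit 325) (nat_lit 324)) (XT.lf (nat_lit 0) (nat_lit 1853824676) (nat_lit 608) (nat_lit 4307912628) (nat_lit 608) (nat_lit 1364086907) (nat_lit 329) (nat_lit 4) (nat_lit 337) (nat_lit 5) (nat_lit 337) (nat_lit 4) (nat_lit 372) (nat_lit 325) (nat_lit 323)))))) (XT.nd (nat_lit 468) (nat_lit 1900) (nat_lit 0) (XT.nd (nat_lit 234) (nat_lit 1520) (nat_lit 0) (XT.nd (nat_lit 78) (nat_lit 608) (nat_lit 0) (XT.lf (nat_lit 0) (nat_lit 326530031) (nat_lit 532) (nat_lit 1978040669) (nat_lit 608) (nat_lit 5292158552) (nat_lit 321) (nat_lit 5) (nat_lit 328) (nat_lit 5) (nat_lit 329) (nat_lit 4) (nat_lit 373) (nat_lit 325) (nat_lit 322)) (XT.nd (nat_lit 78) (nat_lit 608) (nat_lit 0) (XT.lf (nat_lit 0) (nat_lit 6018225551) (nat_lit 608) (nat_lit 1186135317) (nat_lit 0) (nat_lit 466124772) (nat_lit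 321) (nat_lit 5) (nat_lit 329) (nat_lit 4) (nat_lit 321) (nat_lit 4) (nat_lit 374) (nat_lit 325) (nat_lit 321)) (XT.lf (nat_lit 0) (nat_lit 2027038708) (nat_lit 608) (nat_lit 2725660981) (nat_lit 76) (nat_lit 2994016743) (nat_lit 313) (nat_lit 5) (nat_lit 321) (nat_lit 5) (nat_lit 314) (nat_lit 4) (nat_lit 375) (nat_lit 325) (nat_lit 320)))) (XT.nd (nat_lit 78) (nat_lit 1064) (nat_lit 0) (XT.lf (nat_lit 0) (nat_lit 3548188118) (nat_lit 456) (nat_lit 2185633962) (nat_lit 532) (nat_lit 2092411865) (nat_lit 307) (nat_lit 5) (nat_lit 313) (nat_lit 5) (nat_lit 314) (nat_lit 4) (nat_lit 376) (nat_lit 325) (nat_lit 319)) (XT.nd (nat_lit 78) (nat_lit 456) (nat_lit 0) (XT.lf (nat_lit 0) (nat_lit 1568879790) (nat_lit 608) (nat_lit 5850083981) (nat_lit 76) (nat_lit 489980759) (nat_lit 299) (nat_lit 5) (nat_lit 307) (nat_lit 5) (nat_lit 300) (nat_lit 4) (nat_lit 377) (nat_lit 325) (nat_lit 318)) (XT.lf (nat_lit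 0) (nat_lit 527633364) (nat_lit 456) (nat_lit 4746905243) (nat_lit 532) (nat_lit 2719678803) (nat_lit 293) (nat_lit 5) (nat_lit 299) (nat_lit 5) (nat_lit 300) (nat_lit 4) (nat_lit 378) (nat_lit 325) (nat_lit 317))))) (XT.nd (nat_lit 234) (nat_lit 912) (nat_lit 0) (XT.nd (nat_lit 78) (nat_lit 912) (nat_lit 0) (XT.lf (nat_lit 0) (nat_lit 956197045) (nat_lit 532) (nat_lit 995237749) (nat_lit 76) (nat_lit 6131325404) (nat_lit 292) (nat_lit 5) (nat_lit 299) (nat_lit 5) (nat_lit 293) (nat_lit 5) (nat_lit 379) (nat_lit 325) (nat_lit 316)) (XT.nd (nat_lit 78) (nat_lit 456) (nat_lit 0) (XT.lf (nat_lit 0) (nat_lit 4660943769) (nat_lit 532) (nat_lit 2548150959) (nat_lit 76) (nat_lit 964858993) (nat_lit 286) (nat_lit 5) (nat_lit 293) (nat_lit 5) (nat_lit 287) (nat_lit 4) (nat_lit 380) (nat_lit 325) (nat_lit 315)) (XT.lf (nat_lit 0) (nat_lit 184819967) (nat_lit 456) (nat_lit 4129607605) (nat_lit 76) (nat_lit 3953996795)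 (nat_lit 280) (nat_lit 5) (nat_lit 286) (nat_lit 5) (nat_lit 281) (nat_lit 5) (nat_lit 381) (nat_lit 325) (nat_lit 314)))) (XT.nd (nat_lit 78) (nat_lit 456) (nat_lit 0) (XT.lf (nat_lit 0) (nat_lit 2609978271) (nat_lit 456) (nat_lit 1275539429) (nat_lit 532) (nat_lit 4480291736) (nat_lit 274) (nat_lit 5) (nat_lit 280) (nat_lit 5) (nat_lit 281) (nat_lit 5) (nat_lit 382) (nat_lit 325) (nat_lit 313)) (XT.nd (nat_lit 78) (nat_lit 76) (nat_lit 0) (XT.lf (nat_lit 0) (nat_lit 1053125239) (nat_lit 380) (nat_lit 6626780434) (nat_lit 456) (nat_lit 786730306) (nat_lit 269) (nat_lit 5) (nat_lit 274) (nat_lit 5) (nat_lit 275) (nat_lit 4) (nat_lit 383) (nat_lit 325) (nat_lit 312)) (XT.lf (nat_lit 0) (nat_lit 2943230530) (nat_lit 456) (nat_lit 547886274) (nat_lit 76) (nat_lit 5078965966) (nat_lit 268) (nat_lit 5) (nat_lit 274) (nat_lit 5) (nat_lit 269) (nat_lit 5) (nat_lit 384) (nat_lit 325) (nat_lit 311))))))) (XT.nd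 (nat_lit 936) (nat_lit 2736) (nat_lit 0) (XT.nd (nat_lit 468) (nat_lit 1672) (nat_lit 0) (XT.nd (nat_lit 234) (nat_lit 760) (nat_lit 0) (XT.nd (nat_lit 78) (nat_lit 836) (nat_lit 0) (XT.lf (nat_lit 0) (nat_lit 6525516061) (nat_lit 380) (nat_lit 222168850) (nat_lit 456) (nat_lit 1929362154) (nat_lit 263) (nat_lit 5) (nat_lit 268) (nat_lit 5) (nat_lit 269) (nat_lit 5) (nat_lit 385) (nat_lit 325) (nat_lit 310)) (XT.nd (nat_lit 78) (nat_lit 380) (nat_lit 0) (XT.lf (nat_lit 0) (nat_lit 1842803983) (nat_lit 456) (nat_lit 3821766117) (nat_lit 76) (nat_lit 3122095759) (nat_lit 257) (nat_lit 5) (nat_lit 263) (nat_lit 5) (nat_lit 258) (nat_lit 5) (nat_lit 386) (nat_lit 325) (nat_lit 309)) (XT.lf (nat_lit 0) (nat_lit 3364916305) (nat_lit 380) (nat_lit 2298103596) (nat_lit 456) (nat_lit 3236770346) (nat_lit 252) (nat_lit 5) (nat_lit 257) (nat_lit 5) (nat_lit 258) (nat_lit 5) (nat_lit 387) (nat_lit 325) (nat_lit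 308)))) (XT.nd (nat_lit 78) (nat_lit 380) (nat_lit 0) (XT.lf (nat_lit 0) (nat_lit 555008107) (nat_lit 380) (nat_lit 7289787060) (nat_lit 76) (nat_lit 1171800838) (nat_lit 247) (nat_lit 5) (nat_lit 252) (nat_lit 5) (nat_lit 248) (nat_lit 5) (nat_lit 388) (nat_lit 325) (nat_lit 307)) (XT.nd (nat_lit 78) (nat_lit 0) (nat_lit 0) (XT.lf (nat_lit 0) (nat_lit 8786329) (nat_lit 380) (nat_lit 4384526236) (nat_lit 456) (nat_lit 4742697097) (nat_lit 242) (nat_lit 5) (nat_lit 247) (nat_lit 5) (nat_lit 248) (nat_lit 5) (nat_lit 389) (nat_lit 325) (nat_lit 306)) (XT.lf (nat_lit 0) (nat_lit 7556329170) (nat_lit 380) (nat_lit 783819861) (nat_lit 456) (nat_lit 919055212) (nat_lit 242) (nat_lit 5) (nat_lit 247) (nat_lit 5) (nat_lit 248) (nat_lit 5) (nat_lit 390) (nat_lit 325) (nat_lit 305))))) (XT.nd (nat_lit 234) (nat_lit 608) (nat_lit 0) (XT.nd (nat_lit 78) (nat_lit 684) (nat_lit 0) (XT.lf (nat_lit 0) (nat_lit 2967147136)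 (nat_lit 380) (nat_lit 3501414593) (nat_lit 76) (nat_lit 2916459176) (nat_lit 237) (nat_lit 5) (nat_lit 242) (nat_lit 5) (nat_lit 238) (nat_lit 5) (nat_lit 391) (nat_lit 325) (nat_lit 304)) (XT.nd (nat_lit 78) (nat_lit 380) (nat_lit 0) (XT.lf (nat_lit 0) (nat_lit 4164417981) (nat_lit 304) (nat_lit 2774337945) (nat_lit 380) (nat_lit 2575964380) (nat_lit 233) (nat_lit 5) (nat_lit 237) (nat_lit 5) (nat_lit 238) (nat_lit 5) (nat_lit 392) (nat_lit 325) (nat_lit 303)) (XT.lf (nat_lit 0) (nat_lit 1345762883) (nat_lit 380) (nat_lit 7259446477) (nat_lit 76) (nat_lit 1042957635) (nat_lit 228) (nat_lit 5) (nat_lit 233) (nat_lit 5) (nat_lit 229) (nat_lit 5) (nat_lit 393) (nat_lit 325) (nat_lit 302)))) (XT.nd (nat_lit 78) (nat_lit 304) (nat_lit 0) (XT.lf (nat_lit 0) (nat_lit 522867456) (nat_lit 304) (nat_lit 4820805945) (nat_lit 380) (nat_lit 4440869374) (nat_lit 224) (nat_lit 5) (nat_lit 228) (nat_lit 5) (nat_lit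 229) (nat_lit 5) (nat_lit 394) (nat_lit 325) (nat_lit 301)) (XT.nd (nat_lit 78) (nat_lit 304) (nat_lit 0) (XT.lf (nat_lit 0) (nat_lit 8569212040) (nat_lit 304) (nat_lit 889962623) (nat_lit 380) (nat_lit 465905562) (nat_lit 224) (nat_lit 5) (nat_lit 228) (nat_lit 5) (nat_lit 229) (nat_lit 5) (nat_lit 395) (nat_lit 325) (nat_lit 300)) (XT.lf (nat_lit 0) (nat_lit 3579336791) (nat_lit 304) (nat_lit 3331988349) (nat_lit 76) (nat_lit 3156807404) (nat_lit 220) (nat_lit 5) (nat_lit 224) (nat_lit 5) (nat_lit 221) (nat_lit 5) (nat_lit 396) (nat_lit 325) (nat_lit 299)))))) (XT.nd (nat_lit 468) (nat_lit 1292) (nat_lit 0) (XT.nd (nat_lit 234) (nat_lit 532) (nat_lit 0) (XT.nd (nat_lit 78) (nat_lit 608) (nat_lit 0) (XT.lf (nat_lit 0) (nat_lit 4847750180) (nat_lit 304) (nat_lit 2884533472) (nat_lit 380) (nat_lit 2483183048) (nat_lit 216) (nat_lit 5) (nat_lit 220) (nat_lit 5) (nat_lit 221) (nat_lit 5) (nat_lit 397) (nat_lit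 325) (nat_lit 298)) (XT.nd (nat_lit 78) (nat_lit 304) (nat_lit 0) (XT.lf (nat_lit 0) (nat_lit 1611654311) (nat_lit 304) (nat_lit 7481415474) (nat_lit 76) (nat_lit 1273644129) (nat_lit 212) (nat_lit 5) (nat_lit 216) (nat_lit 5) (nat_lit 213) (nat_lit 5) (nat_lit 398) (nat_lit 325) (nat_lit 297)) (XT.lf (nat_lit 0) (nat_lit 819536593) (nat_lit 304) (nat_lit 4978446992) (nat_lit 380) (nat_lit 4723220688) (nat_lit 208) (nat_lit 5) (nat_lit 212) (nat_lit 5) (nat_lit 213) (nat_lit 5) (nat_lit 399) (nat_lit 325) (nat_lit 296)))) (XT.nd (nat_lit 78) (nat_lit 532) (nat_lit 0) (XT.lf (nat_lit 0) (nat_lit 9406196699) (nat_lit 304) (nat_lit 707625845) (nat_lit 380) (nat_lit 566389208) (nat_lit 208) (nat_lit 5) (nat_lit 212) (nat_lit 5) (nat_lit 213) (nat_lit 5) (nat_lit 400) (nat_lit 325) (nat_lit 295)) (XT.nd (nat_lit 78) (nat_lit 228) (nat_lit 0) (XT.lf (nat_lit 0) (nat_lit 3679673036) (nat_lit 304) (nat_lit 3478521146)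 (nat_lit 76) (nat_lit 3683613253) (nat_lit 204) (nat_lit 5) (nat_lit 208) (nat_lit 5) (nat_lit 205) (nat_lit 5) (nat_lit 401) (nat_lit 325) (nat_lit 294)) (XT.lf (nat_lit 0) (nat_lit 5252501823) (nat_lit 228) (nat_lit 2790018546) (nat_lit 304) (nat_lit 2965538772) (nat_lit 201) (nat_lit 5) (nat_lit 204) (nat_lit 5) (nat_lit 205) (nat_lit 5) (nat_lit 402) (nat_lit 325) (nat_lit 293))))) (XT.nd (nat_lit 234) (nat_lit 760) (nat_lit 0) (XT.nd (nat_lit 78) (nat_lit 228) (nat_lit 0) (XT.lf (nat_lit 0) (nat_lit 1342767150) (nat_lit 304) (nat_lit 8126239955) (nat_lit 76) (nat_lit 1709531231) (nat_lit 197) (nat_lit 5) (nat_lit 201) (nat_lit 5) (nat_lit 198) (nat_lit 5) (nat_lit 403) (nat_lit 325) (nat_lit 292)) (XT.nd (nat_lit 78) (nat_lit 0) (nat_lit 0) (XT.lf (nat_lit 0) (nat_lit 730737020) (nat_lit 228) (nat_lit 5014358694) (nat_lit 304) (nat_lit 5607424004) (nat_lit 194) (nat_lit 5) (nat_lit 197) (nat_lit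 5) (nat_lit 198) (nat_lit 5) (nat_lit 404) (nat_lit 325) (nat_lit 291)) (XT.lf (nat_lit 0) (nat_lit 9905194130) (nat_lit 228) (nat_lit 388298523) (nat_lit 304) (nat_lit 1237807934) (nat_lit 194) (nat_lit 5) (nat_lit 197) (nat_lit 5) (nat_lit 198) (nat_lit 5) (nat_lit 405) (nat_lit 325) (nat_lit 290)))) (XT.nd (nat_lit 78) (nat_lit 456) (nat_lit 0) (XT.lf (nat_lit 0) (nat_lit 3248641787) (nat_lit 304) (nat_lit 4112514126) (nat_lit 76) (nat_lit 4351865539) (nat_lit 190) (nat_lit 5) (nat_lit 194) (nat_lit 5) (nat_lit 191) (nat_lit 5) (nat_lit 406) (nat_lit 325) (nat_lit 289)) (XT.nd (nat_lit 78) (nat_lit 228) (nat_lit 0) (XT.lf (nat_lit 0) (nat_lit 5209726839) (nat_lit 228) (nat_lit 2639283225) (nat_lit 304) (nat_lit 4050690099) (nat_lit 187) (nat_lit 5) (nat_lit 190) (nat_lit 5) (nat_lit 191) (nat_lit 5) (nat_lit 407) (nat_lit 325) (nat_lit 288)) (XT.lf (nat_lit 0) (nat_lit 509573203) (nat_lit 228) (nat_lit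 9373348774) (nat_lit 76) (nat_lit 2208199486) (nat_lit 184) (nat_lit 5) (nat_lit 187) (nat_lit 5) (nat_lit 185) (nat_lit 5) (nat_lit 408) (nat_lit 325) (nat_lit 287))))))))
noncomputable def xc25 : XT := (XT.nd (nat_lit 1794) (nat_lit 684) (nat_lit 0) (XT.nd (nat_lit 858) (nat_lit 1520) (nat_lit 0) (XT.nd (nat_lit 390) (nat_lit 836) (nat_lit 0) (XT.nd (nat_lit 156) (nat_lit 608) (nat_lit 0) (XT.nd (nat_lit 78) (nat_lit 0) (nat_lit 0) (XT.lf (nat_lit 0) (nat_lit 79453050) (nat_lit 228) (nat_lit 5075191882) (nat_lit 304) (nat_lit 7131554832) (nat_lit 181) (nat_lit 5) (nat_lit 184) (nat_lit 5) (nat_lit 185) (nat_lit 5) (nat_lit 409) (nat_lit 325) (nat_lit 286)) (XT.lf (nat_lit 0) (nat_lit 9895277900) (nat_lit 228) (nat_lit 73569319) (nat_lit 304) (nat_lit 2517389843) (nat_lit 181) (nat_lit 5) (nat_lit 184) (nat_lit 5) (nat_lit 185) (nat_lit 5) (nat_lit 410) (nat_lit 325) (nat_lit 285))) (XT.nd (nat_lit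 78) (nat_lit 380) (nat_lit 0) (XT.lf (nat_lit 0) (nat_lit 2247649436) (nat_lit 228) (nat_lit 5416652407) (nat_lit 76) (nat_lit 5025647067) (nat_lit 178) (nat_lit 5) (nat_lit 181) (nat_lit 5) (nat_lit 179) (nat_lit 5) (nat_lit 411) (nat_lit 325) (nat_lit 284)) (XT.nd (nat_lit 78) (nat_lit 152) (nat_lit 0) (XT.lf (nat_lit 0) (nat_lit 4539231403) (nat_lit 228) (nat_lit 2573337538) (nat_lit 304) (nat_lit 5786229652) (nat_lit 175) (nat_lit 5) (nat_lit 178) (nat_lit 5) (nat_lit 179) (nat_lit 5) (nat_lit 412) (nat_lit 325) (nat_lit 283)) (XT.lf (nat_lit 0) (nat_lit 1687914368) (nat_lit 152) (nat_lit 10469725528) (nat_lit 228) (nat_lit 955247754) (nat_lit 173) (nat_lit 5) (nat_lit 175) (nat_lit 5) (nat_lit 176) (nat_lit 4) (nat_lit 413) (nat_lit 325) (nat_lit 282))))) (XT.nd (nat_lit 234) (nat_lit 380) (nat_lit 0) (XT.nd (nat_lit 78) (nat_lit 380) (nat_lit 0) (XT.lf (nat_lit 0) (nat_lit 3990163426) (nat_lit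 228) (nat_lit 1299171752) (nat_lit 76) (nat_lit 8041466005) (nat_lit 172) (nat_lit 5) (nat_lit 175) (nat_lit 5) (nat_lit 173) (nat_lit 5) (nat_lit 414) (nat_lit 325) (nat_lit 281)) (XT.nd (nat_lit 78) (nat_lit 228) (nat_lit 0) (XT.lf (nat_lit 0) (nat_lit 9093113228) (nat_lit 228) (nat_lit 4363066745) (nat_lit 76) (nat_lit 97937136) (nat_lit 170) (nat_lit 5) (nat_lit 173) (nat_lit 5) (nat_lit 171) (nat_lit 4) (nat_lit 415) (nat_lit 325) (nat_lit 280)) (XT.lf (nat_lit 0) (nat_lit 619186197) (nat_lit 228) (nat_lit 7589502640) (nat_lit 76) (nat_lit 5573324956) (nat_lit 167) (nat_lit 5) (nat_lit 170) (nat_lit 5) (nat_lit 168) (nat_lit 5) (nat_lit 416) (nat_lit 325) (nat_lit 279)))) (XT.nd (nat_lit 78) (nat_lit 228) (nat_lit 0) (XT.lf (nat_lit 0) (nat_lit 3044872419) (nat_lit 152) (nat_lit 2730500166) (nat_lit 228) (nat_lit 8239652169) (nat_lit 165) (nat_lit 5) (nat_lit 167) (nat_lit 5) (nat_lit 168) (nat_lit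 5) (nat_lit 417) (nat_lit 325) (nat_lit 278)) (XT.nd (nat_lit 78) (nat_lit 228) (nat_lit 0) (XT.lf (nat_lit 0) (nat_lit 11131390955) (nat_lit 228) (nat_lit 236598307) (nat_lit 76) (nat_lit 2885682391) (nat_lit 165) (nat_lit 5) (nat_lit 168) (nat_lit 5) (nat_lit 166) (nat_lit 4) (nat_lit 418) (nat_lit 325) (nat_lit 277)) (XT.lf (nat_lit 0) (nat_lit 2180722113) (nat_lit 228) (nat_lit 3619858111) (nat_lit 76) (nat_lit 8696057002) (nat_lit 162) (nat_lit 5) (nat_lit 165) (nat_lit 5) (nat_lit 163) (nat_lit 5) (nat_lit 419) (nat_lit 325) (nat_lit 276)))))) (XT.nd (nat_lit 468) (nat_lit 608) (nat_lit 0) (XT.nd (nat_lit 234) (nat_lit 380) (nat_lit 0) (XT.nd (nat_lit 78) (nat_lit 380) (nat_lit 0) (XT.lf (nat_lit 0) (nat_lit 7592888383) (nat_lit 152) (nat_lit 4207403) (nat_lit 228) (nat_lit 7148357503) (nat_lit 160) (nat_lit 5) (nat_lit 162) (nat_lit 5) (nat_lit 163) (nat_lit 5) (nat_lit 420) (nat_lit 325) (nat_lit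 275)) (XT.nd (nat_lit 78) (nat_lit 228) (nat_lit 0) (XT.lf (nat_lit 0) (nat_lit 4132344680) (nat_lit 152) (nat_lit 9119476427) (nat_lit 228) (nat_lit 1747636915) (nat_lit 158) (nat_lit 5) (nat_lit 160) (nat_lit 5) (nat_lit 161) (nat_lit 4) (nat_lit 421) (nat_lit 325) (nat_lit 274)) (XT.lf (nat_lit 0) (nat_lit 509744809) (nat_lit 152) (nat_lit 3250784458) (nat_lit 228) (nat_lit 11498857323) (nat_lit 155) (nat_lit 5) (nat_lit 157) (nat_lit 5) (nat_lit 158) (nat_lit 5) (nat_lit 422) (nat_lit 325) (nat_lit 273)))) (XT.nd (nat_lit 78) (nat_lit 380) (nat_lit 0) (XT.lf (nat_lit 0) (nat_lit 9478699476) (nat_lit 228) (nat_lit 3224890144) (nat_lit 76) (nat_lit 2820607751) (nat_lit 155) (nat_lit 5) (nat_lit 158) (nat_lit 5) (nat_lit 156) (nat_lit 4) (nat_lit 423) (nat_lit 325) (nat_lit 272)) (XT.nd (nat_lit 78) (nat_lit 228) (nat_lit 0) (XT.lf (nat_lit 0) (nat_lit 8679390111) (nat_lit 152) (nat_lit 6748530079)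 (nat_lit 228) (nat_lit 367247123) (nat_lit 153) (nat_lit 5) (nat_lit 155) (nat_lit 5) (nat_lit 156) (nat_lit 4) (nat_lit 424) (nat_lit 325) (nat_lit 271)) (XT.lf (nat_lit 0) (nat_lit 4872182591) (nat_lit 152) (nat_lit 525918441) (nat_lit 228) (nat_lit 10673873295) (nat_lit 150) (nat_lit 5) (nat_lit 152) (nat_lit 5) (nat_lit 153) (nat_lit 5) (nat_lit 425) (nat_lit 325) (nat_lit 270))))) (XT.nd (nat_lit 234) (nat_lit 304) (nat_lit 0) (XT.nd (nat_lit 78) (nat_lit 228) (nat_lit 0) (XT.lf (nat_lit 0) (nat_lit 862966661) (nat_lit 76) (nat_lit 10547660687) (nat_lit 152) (nat_lit 4943901149) (nat_lit 149) (nat_lit 5) (nat_lit 150) (nat_lit 5) (nat_lit 151) (nat_lit 4) (nat_lit 426) (nat_lit 325) (nat_lit 269)) (XT.nd (nat_lit 78) (nat_lit 152) (nat_lit 0) (XT.lf (nat_lit 0) (nat_lit 1002974264) (nat_lit 152) (nat_lit 3244290367) (nat_lit 76) (nat_lit 12396107479) (nat_lit 148) (nat_lit 5) (nat_lit 150) (nat_lit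 5) (nat_lit 149) (nat_lit 5) (nat_lit 427) (nat_lit 325) (nat_lit 268)) (XT.lf (nat_lit 0) (nat_lit 7087669218) (nat_lit 228) (nat_lit 7556606418) (nat_lit 76) (nat_lit 2293373483) (nat_lit 146) (nat_lit 5) (nat_lit 149) (nat_lit 5) (nat_lit 147) (nat_lit 4) (nat_lit 428) (nat_lit 325) (nat_lit 267)))) (XT.nd (nat_lit 78) (nat_lit 228) (nat_lit 0) (XT.lf (nat_lit 0) (nat_lit 5169436649) (nat_lit 76) (nat_lit 8256367245) (nat_lit 152) (nat_lit 3812823580) (nat_lit 145) (nat_lit 5) (nat_lit 146) (nat_lit 5) (nat_lit 147) (nat_lit 4) (nat_lit 429) (nat_lit 325) (nat_lit 266)) (XT.nd (nat_lit 78) (nat_lit 0) (nat_lit 0) (XT.lf (nat_lit 0) (nat_lit 776071581) (nat_lit 152) (nat_lit 1613111201) (nat_lit 228) (nat_lit 15157838490) (nat_lit 142) (nat_lit 5) (nat_lit 144) (nat_lit 5) (nat_lit 145) (nat_lit 5) (nat_lit 430) (nat_lit 325) (nat_lit 265)) (XT.lf (nat_lit 0) (nat_lit 8820274840) (nat_lit 228) (nat_lit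 3797307725) (nat_lit 76) (nat_lit 5242362012) (nat_lit 142) (nat_lit 5) (nat_lit 145) (nat_lit 5) (nat_lit 143) (nat_lit 4) (nat_lit 431) (nat_lit 325) (nat_lit 264))))))) (XT.nd (nat_lit 48594) (nat_lit 0) (nat_lit 9880) (XT.nd (nat_lit 48126) (nat_lit 0) (nat_lit 14288) (XT.nd (nat_lit 234) (nat_lit 304) (nat_lit 0) (XT.nd (nat_lit 78) (nat_lit 304) (nat_lit 0) (XT.lf (nat_lit 0) (nat_lit 9639449647) (nat_lit 76) (nat_lit 5861354546) (nat_lit 152) (nat_lit 2679756251) (nat_lit 141) (nat_lit 5) (nat_lit 142) (nat_lit 5) (nat_lit 143) (nat_lit 4) (nat_lit 432) (nat_lit 325) (nat_lit 263)) (XT.nd (nat_lit 78) (nat_lit 76) (nat_lit 0) (XT.lf (nat_lit 0) (nat_lit 3841576909) (nat_lit 228) (nat_lit 13510596486) (nat_lit 76) (nat_lit 1156120337) (nat_lit 138) (nat_lit 5) (nat_lit 141) (nat_lit 5) (nat_lit 139) (nat_lit 4) (nat_lit 433) (nat_lit 325) (nat_lit 262)) (XT.lf (nat_lit 0) (nat_lit 92431079) (nat_lit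 76) (nat_lit 10506368237) (nat_lit 152) (nat_lit 8243440446) (nat_lit 137) (nat_lit 5) (nat_lit 138) (nat_lit 5) (nat_lit 139) (nat_lit 4) (nat_lit 434) (nat_lit 325) (nat_lit 261)))) (XT.nd (nat_lit 78) (nat_lit 304) (nat_lit 0) (XT.lf (nat_lit 0) (nat_lit 14283032959) (nat_lit 76) (nat_lit 3360796658) (nat_lit 152) (nat_lit 1539821818) (nat_lit 137) (nat_lit 5) (nat_lit 138) (nat_lit 5) (nat_lit 139) (nat_lit 4) (nat_lit 435) (nat_lit 325) (nat_lit 260)) (XT.nd (nat_lit 78) (nat_lit 76) (nat_lit 0) (XT.lf (nat_lit 0) (nat_lit 5339652508) (nat_lit 228) (nat_lit 10171693108) (nat_lit 76) (nat_lit 4020029648) (nat_lit 134) (nat_lit 5) (nat_lit 137) (nat_lit 5) (nat_lit 135) (nat_lit 4) (nat_lit 436) (nat_lit 325) (nat_lit 259)) (XT.lf (nat_lit 0) (nat_lit 4197340271) (nat_lit 76) (nat_lit 8270607748) (nat_lit 152) (nat_lit 7418923839) (nat_lit 133) (nat_lit 5) (nat_lit 134) (nat_lit 5) (nat_lit 135) (nat_lit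 4) (nat_lit 437) (nat_lit 325) (nat_lit 258))))) (XT.nd (nat_lit 234) (nat_lit 1748) (nat_lit 0) (XT.nd (nat_lit 78) (nat_lit 684) (nat_lit 0) (XT.lf (nat_lit 0) (nat_lit 167538930) (nat_lit 684) (nat_lit 3300199336) (nat_lit 0) (nat_lit 167538930) (nat_lit 353) (nat_lit 5) (nat_lit 362) (nat_lit 4) (nat_lit 353) (nat_lit 4) (nat_lit 368) (nat_lit 326) (nat_lit 326)) (XT.nd (nat_lit 78) (nat_lit 684) (nat_lit 0) (XT.lf (nat_lit 0) (nat_lit 3974694574) (nat_lit 684) (nat_lit 966059375) (nat_lit 0) (nat_lit 2390065092) (nat_lit 353) (nat_lit 5) (nat_lit 362) (nat_lit 4) (nat_lit 353) (nat_lit 4) (nat_lit 369) (nat_lit 326) (nat_lit 325)) (XT.lf (nat_lit 0) (nat_lit 268259817) (nat_lit 684) (nat_lit 2578537277) (nat_lit 76) (nat_lit 4547676106) (nat_lit 344) (nat_lit 5) (nat_lit 353) (nat_lit 5) (nat_lit 345) (nat_lit 4) (nat_lit 370) (nat_lit 326) (nat_lit 324)))) (XT.nd (nat_lit 78) (nat_lit 1216) (nat_lit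 0) (XT.lf (nat_lit 0) (nat_lit 3247907835) (nat_lit 532) (nat_lit 626317686) (nat_lit 608) (nat_lit 3586605453) (nat_lit 337) (nat_lit 5) (nat_lit 344) (nat_lit 5) (nat_lit 345) (nat_lit 4) (nat_lit 371) (nat_lit 326) (nat_lit 323)) (XT.nd (nat_lit 78) (nat_lit 532) (nat_lit 0) (XT.lf (nat_lit 0) (nat_lit 16947145) (nat_lit 684) (nat_lit 5855821011) (nat_lit 76) (nat_lit 1657626913) (nat_lit 328) (nat_lit 5) (nat_lit 337) (nat_lit 5) (nat_lit 329) (nat_lit 4) (nat_lit 372) (nat_lit 326) (nat_lit 322)) (XT.lf (nat_lit 0) (nat_lit 67325002) (nat_lit 532) (nat_lit 3540785357) (nat_lit 608) (nat_lit 3994322662) (nat_lit 321) (nat_lit 5) (nat_lit 328) (nat_lit 5) (nat_lit 329) (nat_lit 4) (nat_lit 373) (nat_lit 326) (nat_lit 321)))))) (XT.nd (nat_lit 468) (nat_lit 2204) (nat_lit 0) (XT.nd (nat_lit 234) (nat_lit 1140) (nat_lit 0) (XT.nd (nat_lit 78) (nat_lit 1064) (nat_lit 0) (XT.lf (nat_lit 0) (nat_lit 6173200061)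 (nat_lit 532) (nat_lit 1096475472) (nat_lit 608) (nat_lit 408076566) (nat_lit 321) (nat_lit 5) (nat_lit 328) (nat_lit 5) (nat_lit 329) (nat_lit 4) (nat_lit 374) (nat_lit 326) (nat_lit 320)) (XT.nd (nat_lit 78) (nat_lit 456) (nat_lit 0) (XT.lf (nat_lit 0) (nat_lit 3186015044) (nat_lit 608) (nat_lit 3117525432) (nat_lit 76) (nat_lit 1451911479) (nat_lit 313) (nat_lit 5) (nat_lit 321) (nat_lit 5) (nat_lit 314) (nat_lit 4) (nat_lit 375) (nat_lit 326) (nat_lit 319)) (XT.lf (nat_lit 0) (nat_lit 3090735418) (nat_lit 456) (nat_lit 3751805439) (nat_lit 532) (nat_lit 993936338) (nat_lit 307) (nat_lit 5) (nat_lit 313) (nat_lit 5) (nat_lit 314) (nat_lit 4) (nat_lit 376) (nat_lit 326) (nat_lit 318)))) (XT.nd (nat_lit 78) (nat_lit 532) (nat_lit 0) (XT.lf (nat_lit 0) (nat_lit 1517888430) (nat_lit 532) (nat_lit 1072470210) (nat_lit 608) (nat_lit 5330179208) (nat_lit 299) (nat_lit 5) (nat_lit 306) (nat_lit 5) (nat_lit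 307) (nat_lit 5) (nat_lit 377) (nat_lit 326) (nat_lit 317)) (XT.nd (nat_lit 78) (nat_lit 532) (nat_lit 0) (XT.lf (nat_lit 0) (nat_lit 6235796429) (nat_lit 608) (nat_lit 82600948) (nat_lit 76) (nat_lit 1689219982) (nat_lit 299) (nat_lit 5) (nat_lit 307) (nat_lit 5) (nat_lit 300) (nat_lit 4) (nat_lit 378) (nat_lit 326) (nat_lit 316)) (XT.lf (nat_lit 0) (nat_lit 1840221622) (nat_lit 532) (nat_lit 1687646197) (nat_lit 76) (nat_lit 4569379101) (nat_lit 292) (nat_lit 5) (nat_lit 299) (nat_lit 5) (nat_lit 293) (nat_lit 5) (nat_lit 379) (nat_lit 326) (nat_lit 315))))) (XT.nd (nat_lit 234) (nat_lit 836) (nat_lit 0) (XT.nd (nat_lit 78) (nat_lit 912) (nat_lit 0) (XT.lf (nat_lit 0) (nat_lit 4871923265) (nat_lit 456) (nat_lit 613022607) (nat_lit 532) (nat_lit 2705295245) (nat_lit 286) (nat_lit 5) (nat_lit 292) (nat_lit 5) (nat_lit 293) (nat_lit 5) (nat_lit 380) (nat_lit 326) (nat_lit 314)) (XT.nd (nat_lit 78) (nat_lit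 456) (nat_lit 0) (XT.lf (nat_lit 0) (nat_lit 919642347) (nat_lit 456) (nat_lit 4992322189) (nat_lit 76) (nat_lit 2374228227) (nat_lit 280) (nat_lit 5) (nat_lit 286) (nat_lit 5) (nat_lit 281) (nat_lit 5) (nat_lit 381) (nat_lit 326) (nat_lit 313)) (XT.lf (nat_lit 0) (nat_lit 1671762315) (nat_lit 456) (nat_lit 2897216593) (nat_lit 532) (nat_lit 3816139759) (nat_lit 274) (nat_lit 5) (nat_lit 280) (nat_lit 5) (nat_lit 281) (nat_lit 5) (nat_lit 382) (nat_lit 326) (nat_lit 312)))) (XT.nd (nat_lit 78) (nat_lit 456) (nat_lit 0) (XT.lf (nat_lit 0) (nat_lit 33554814) (nat_lit 380) (nat_lit 8262625213) (nat_lit 456) (nat_lit 191780790) (nat_lit 269) (nat_lit 5) (nat_lit 274) (nat_lit 5) (nat_lit 275) (nat_lit 4) (nat_lit 383) (nat_lit 326) (nat_lit 311)) (XT.nd (nat_lit 78) (nat_lit 380) (nat_lit 0) (XT.lf (nat_lit 0) (nat_lit 3485033477) (nat_lit 456) (nat_lit 1652499460) (nat_lit 76) (nat_lit 3454949208) (nat_lit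 268) (nat_lit 5) (nat_lit 274) (nat_lit 5) (nat_lit 269) (nat_lit 5) (nat_lit 384) (nat_lit 326) (nat_lit 310)) (XT.lf (nat_lit 0) (nat_lit 5341488618) (nat_lit 380) (nat_lit 1896290496) (nat_lit 456) (nat_lit 1463218589) (nat_lit 263) (nat_lit 5) (nat_lit 268) (nat_lit 5) (nat_lit 269) (nat_lit 5) (nat_lit 385) (nat_lit 326) (nat_lit 309))))))))
noncomputable def xc26 : XT := (XT.nd (nat_lit 1794) (nat_lit 3496) (nat_lit 0) (XT.nd (nat_lit 858) (nat_lit 2508) (nat_lit 0) (XT.nd (nat_lit 390) (nat_lit 1672) (nat_lit 0) (XT.nd (nat_lit 156) (nat_lit 760) (nat_lit 0) (XT.nd (nat_lit 78) (nat_lit 380) (nat_lit 0) (XT.lf (nat_lit 0) (nat_lit 2230998737) (nat_lit 456) (nat_lit 5125098230) (nat_lit 76) (nat_lit 1456450684) (nat_lit 257) (nat_lit 5) (nat_lit 263) (nat_lit 5) (nat_lit 258) (nat_lit 5) (nat_lit 386) (nat_lit 326) (nat_lit 308)) (XT.lf (nat_lit 0) (nat_lit 1977485115) (nat_lit 380) (nat_lit 4020781236)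 (nat_lit 456) (nat_lit 2928994137) (nat_lit 252) (nat_lit 5) (nat_lit 257) (nat_lit 5) (nat_lit 258) (nat_lit 5) (nat_lit 387) (nat_lit 326) (nat_lit 307))) (XT.nd (nat_lit 78) (nat_lit 380) (nat_lit 0) (XT.lf (nat_lit 0) (nat_lit 234174192) (nat_lit 304) (nat_lit 557267527) (nat_lit 380) (nat_lit 8254495874) (nat_lit 247) (nat_lit 5) (nat_lit 251) (nat_lit 5) (nat_lit 252) (nat_lit 5) (nat_lit 388) (nat_lit 326) (nat_lit 306)) (XT.nd (nat_lit 78) (nat_lit 380) (nat_lit 0) (XT.lf (nat_lit 0) (nat_lit 4585348404) (nat_lit 380) (nat_lit 1565684914) (nat_lit 76) (nat_lit 3015649865) (nat_lit 247) (nat_lit 5) (nat_lit 252) (nat_lit 5) (nat_lit 248) (nat_lit 5) (nat_lit 389) (nat_lit 326) (nat_lit 305)) (XT.lf (nat_lit 0) (nat_lit 5893582972) (nat_lit 380) (nat_lit 2584881161) (nat_lit 456) (nat_lit 813025253) (nat_lit 242) (nat_lit 5) (nat_lit 247) (nat_lit 5) (nat_lit 248) (nat_lit 5) (nat_lit 390) (nat_lit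 326) (nat_lit 304))))) (XT.nd (nat_lit 234) (nat_lit 608) (nat_lit 0) (XT.nd (nat_lit 78) (nat_lit 684) (nat_lit 0) (XT.lf (nat_lit 0) (nat_lit 2998655530) (nat_lit 380) (nat_lit 5304785467) (nat_lit 76) (nat_lit 1116008050) (nat_lit 237) (nat_lit 5) (nat_lit 242) (nat_lit 5) (nat_lit 238) (nat_lit 5) (nat_lit 391) (nat_lit 326) (nat_lit 303)) (XT.nd (nat_lit 78) (nat_lit 380) (nat_lit 0) (XT.lf (nat_lit 0) (nat_lit 2267448241) (nat_lit 304) (nat_lit 4647341297) (nat_lit 380) (nat_lit 2636023154) (nat_lit 233) (nat_lit 5) (nat_lit 237) (nat_lit 5) (nat_lit 238) (nat_lit 5) (nat_lit 392) (nat_lit 326) (nat_lit 302)) (XT.lf (nat_lit 0) (nat_lit 370412636) (nat_lit 304) (nat_lit 849678747) (nat_lit 380) (nat_lit 8466188859) (nat_lit 228) (nat_lit 5) (nat_lit 232) (nat_lit 5) (nat_lit 233) (nat_lit 5) (nat_lit 393) (nat_lit 326) (nat_lit 301)))) (XT.nd (nat_lit 78) (nat_lit 608) (nat_lit 0) (XT.lf (nat_lit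 0) (nat_lit 5168100733) (nat_lit 380) (nat_lit 1592703755) (nat_lit 76) (nat_lit 3063348568) (nat_lit 228) (nat_lit 5) (nat_lit 233) (nat_lit 5) (nat_lit 229) (nat_lit 5) (nat_lit 394) (nat_lit 326) (nat_lit 300)) (XT.nd (nat_lit 78) (nat_lit 304) (nat_lit 0) (XT.lf (nat_lit 0) (nat_lit 6365388163) (nat_lit 304) (nat_lit 2866417184) (nat_lit 380) (nat_lit 734439060) (nat_lit 224) (nat_lit 5) (nat_lit 228) (nat_lit 5) (nat_lit 229) (nat_lit 5) (nat_lit 395) (nat_lit 326) (nat_lit 299)) (XT.lf (nat_lit 0) (nat_lit 3238596783) (nat_lit 304) (nat_lit 5699284457) (nat_lit 76) (nat_lit 1173816321) (nat_lit 220) (nat_lit 5) (nat_lit 224) (nat_lit 5) (nat_lit 221) (nat_lit 5) (nat_lit 396) (nat_lit 326) (nat_lit 298)))))) (XT.nd (nat_lit 468) (nat_lit 1064) (nat_lit 0) (XT.nd (nat_lit 234) (nat_lit 836) (nat_lit 0) (XT.nd (nat_lit 78) (nat_lit 304) (nat_lit 0) (XT.lf (nat_lit 0) (nat_lit 2376302933) (nat_lit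 304) (nat_lit 4956318529) (nat_lit 380) (nat_lit 2928177920) (nat_lit 216) (nat_lit 5) (nat_lit 220) (nat_lit 5) (nat_lit 221) (nat_lit 5) (nat_lit 397) (nat_lit 326) (nat_lit 297)) (XT.nd (nat_lit 78) (nat_lit 0) (nat_lit 0) (XT.lf (nat_lit 0) (nat_lit 278464777) (nat_lit 228) (nat_lit 824192798) (nat_lit 304) (nat_lit 9311697907) (nat_lit 212) (nat_lit 5) (nat_lit 215) (nat_lit 5) (nat_lit 216) (nat_lit 5) (nat_lit 398) (nat_lit 326) (nat_lit 296)) (XT.lf (nat_lit 0) (nat_lit 5238454199) (nat_lit 304) (nat_lit 1899365402) (nat_lit 76) (nat_lit 3432542222) (nat_lit 212) (nat_lit 5) (nat_lit 216) (nat_lit 5) (nat_lit 213) (nat_lit 5) (nat_lit 399) (nat_lit 326) (nat_lit 295)))) (XT.nd (nat_lit 78) (nat_lit 532) (nat_lit 0) (XT.lf (nat_lit 0) (nat_lit 6593688830) (nat_lit 304) (nat_lit 2907726163) (nat_lit 380) (nat_lit 1229540652) (nat_lit 208) (nat_lit 5) (nat_lit 212) (nat_lit 5) (nat_lit 213) (nat_lit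 5) (nat_lit 400) (nat_lit 326) (nat_lit 294)) (XT.nd (nat_lit 78) (nat_lit 228) (nat_lit 0) (XT.lf (nat_lit 0) (nat_lit 2945628463) (nat_lit 304) (nat_lit 6479295554) (nat_lit 76) (nat_lit 1470333557) (nat_lit 204) (nat_lit 5) (nat_lit 208) (nat_lit 5) (nat_lit 205) (nat_lit 5) (nat_lit 401) (nat_lit 326) (nat_lit 293)) (XT.lf (nat_lit 0) (nat_lit 2135808973) (nat_lit 228) (nat_lit 5109371474) (nat_lit 304) (nat_lit 3818227694) (nat_lit 201) (nat_lit 5) (nat_lit 204) (nat_lit 5) (nat_lit 205) (nat_lit 5) (nat_lit 402) (nat_lit 326) (nat_lit 292))))) (XT.nd (nat_lit 234) (nat_lit 532) (nat_lit 0) (XT.nd (nat_lit 78) (nat_lit 456) (nat_lit 0) (XT.lf (nat_lit 0) (nat_lit 427235700) (nat_lit 304) (nat_lit 209403563) (nat_lit 76) (nat_lit 10599878418) (nat_lit 200) (nat_lit 5) (nat_lit 204) (nat_lit 5) (nat_lit 201) (nat_lit 5) (nat_lit 403) (nat_lit 326) (nat_lit 291)) (XT.nd (nat_lit 78) (nat_lit 228) (nat_lit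 0) (XT.lf (nat_lit 0) (nat_lit 4781363181) (nat_lit 304) (nat_lit 2656745223) (nat_lit 76) (nat_lit 3973836691) (nat_lit 197) (nat_lit 5) (nat_lit 201) (nat_lit 5) (nat_lit 198) (nat_lit 5) (nat_lit 404) (nat_lit 326) (nat_lit 290)) (XT.lf (nat_lit 0) (nat_lit 6409928493) (nat_lit 228) (nat_lit 2861234253) (nat_lit 304) (nat_lit 2321321139) (nat_lit 194) (nat_lit 5) (nat_lit 197) (nat_lit 5) (nat_lit 198) (nat_lit 5) (nat_lit 405) (nat_lit 326) (nat_lit 289)))) (XT.nd (nat_lit 78) (nat_lit 228) (nat_lit 0) (XT.lf (nat_lit 0) (nat_lit 2094626559) (nat_lit 304) (nat_lit 7823215495) (nat_lit 76) (nat_lit 1859424516) (nat_lit 190) (nat_lit 5) (nat_lit 194) (nat_lit 5) (nat_lit 191) (nat_lit 5) (nat_lit 406) (nat_lit 326) (nat_lit 288)) (XT.nd (nat_lit 78) (nat_lit 0) (nat_lit 0) (XT.lf (nat_lit 0) (nat_lit 1369947251) (nat_lit 228) (nat_lit 5256427049) (nat_lit 304) (nat_lit 5339629597) (nat_lit 187) (nat_lit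 5) (nat_lit 190) (nat_lit 5) (nat_lit 191) (nat_lit 5) (nat_lit 407) (nat_lit 326) (nat_lit 287)) (XT.lf (nat_lit 0) (nat_lit 10890425741) (nat_lit 228) (nat_lit 419104712) (nat_lit 304) (nat_lit 850409213) (nat_lit 187) (nat_lit 5) (nat_lit 190) (nat_lit 5) (nat_lit 191) (nat_lit 5) (nat_lit 408) (nat_lit 326) (nat_lit 286))))))) (XT.nd (nat_lit 936) (nat_lit 1444) (nat_lit 0) (XT.nd (nat_lit 468) (nat_lit 912) (nat_lit 0) (XT.nd (nat_lit 234) (nat_lit 456) (nat_lit 0) (XT.nd (nat_lit 78) (nat_lit 456) (nat_lit 0) (XT.lf (nat_lit 0) (nat_lit 3762471212) (nat_lit 228) (nat_lit 4045951364) (nat_lit 76) (nat_lit 4548304206) (nat_lit 184) (nat_lit 5) (nat_lit 187) (nat_lit 5) (nat_lit 185) (nat_lit 5) (nat_lit 409) (nat_lit 326) (nat_lit 285)) (XT.nd (nat_lit 78) (nat_lit 228) (nat_lit 0) (XT.lf (nat_lit 0) (nat_lit 5635448260) (nat_lit 228) (nat_lit 2870532201) (nat_lit 304) (nat_lit 4052904410) (nat_lit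 181) (nat_lit 5) (nat_lit 184) (nat_lit 5) (nat_lit 185) (nat_lit 5) (nat_lit 410) (nat_lit 326) (nat_lit 284)) (XT.lf (nat_lit 0) (nat_lit 641154364) (nat_lit 228) (nat_lit 9921908272) (nat_lit 76) (nat_lit 2203005212) (nat_lit 178) (nat_lit 5) (nat_lit 181) (nat_lit 5) (nat_lit 179) (nat_lit 5) (nat_lit 411) (nat_lit 326) (nat_lit 283)))) (XT.nd (nat_lit 78) (nat_lit 456) (nat_lit 0) (XT.lf (nat_lit 0) (nat_lit 5432185639) (nat_lit 228) (nat_lit 107706576) (nat_lit 76) (nat_lit 7437241960) (nat_lit 178) (nat_lit 5) (nat_lit 181) (nat_lit 5) (nat_lit 179) (nat_lit 5) (nat_lit 412) (nat_lit 326) (nat_lit 282)) (XT.nd (nat_lit 78) (nat_lit 228) (nat_lit 0) (XT.lf (nat_lit 0) (nat_lit 10093212126) (nat_lit 228) (nat_lit 311130331) (nat_lit 304) (nat_lit 2789068200) (nat_lit 175) (nat_lit 5) (nat_lit 178) (nat_lit 5) (nat_lit 179) (nat_lit 5) (nat_lit 413) (nat_lit 326) (nat_lit 281)) (XT.lf (nat_lit 0)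 (nat_lit 2128420009) (nat_lit 228) (nat_lit 6262838122) (nat_lit 76) (nat_lit 5022506116) (nat_lit 172) (nat_lit 5) (nat_lit 175) (nat_lit 5) (nat_lit 173) (nat_lit 5) (nat_lit 414) (nat_lit 326) (nat_lit 280))))) (XT.nd (nat_lit 234) (nat_lit 532) (nat_lit 0) (XT.nd (nat_lit 78) (nat_lit 228) (nat_lit 0) (XT.lf (nat_lit 0) (nat_lit 4076771078) (nat_lit 152) (nat_lit 3075320291) (nat_lit 228) (nat_lit 6487367158) (nat_lit 170) (nat_lit 5) (nat_lit 172) (nat_lit 5) (nat_lit 173) (nat_lit 5) (nat_lit 415) (nat_lit 326) (nat_lit 279)) (XT.nd (nat_lit 78) (nat_lit 76) (nat_lit 0) (XT.lf (nat_lit 0) (nat_lit 872852690) (nat_lit 152) (nat_lit 11490065508) (nat_lit 228) (nat_lit 1507912077) (nat_lit 168) (nat_lit 5) (nat_lit 170) (nat_lit 5) (nat_lit 171) (nat_lit 4) (nat_lit 416) (nat_lit 326) (nat_lit 278)) (XT.lf (nat_lit 0) (nat_lit 3619489547) (nat_lit 228) (nat_lit 2460515365) (nat_lit 76) (nat_lit 8026017462)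 (nat_lit 167) (nat_lit 5) (nat_lit 170) (nat_lit 5) (nat_lit 168) (nat_lit 5) (nat_lit 417) (nat_lit 326) (nat_lit 277)))) (XT.nd (nat_lit 78) (nat_lit 380) (nat_lit 0) (XT.lf (nat_lit 0) (nat_lit 8440374551) (nat_lit 152) (nat_lit 454127328) (nat_lit 228) (nat_lit 5452597575) (nat_lit 165) (nat_lit 5) (nat_lit 167) (nat_lit 5) (nat_lit 168) (nat_lit 5) (nat_lit 418) (nat_lit 326) (nat_lit 276)) (XT.nd (nat_lit 78) (nat_lit 228) (nat_lit 0) (XT.lf (nat_lit 0) (nat_lit 5068670694) (nat_lit 152) (nat_lit 9327460320) (nat_lit 228) (nat_lit 197226840) (nat_lit 163) (nat_lit 5) (nat_lit 165) (nat_lit 5) (nat_lit 166) (nat_lit 4) (nat_lit 419) (nat_lit 326) (nat_lit 275)) (XT.lf (nat_lit 0) (nat_lit 1520806191) (nat_lit 152) (nat_lit 3615906960) (nat_lit 228) (nat_lit 9708106110) (nat_lit 160) (nat_lit 5) (nat_lit 162) (nat_lit 5) (nat_lit 163) (nat_lit 5) (nat_lit 420) (nat_lit 326) (nat_lit 274)))))) (XT.nd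 (nat_lit 468) (nat_lit 684) (nat_lit 0) (XT.nd (nat_lit 234) (nat_lit 380) (nat_lit 0) (XT.nd (nat_lit 78) (nat_lit 380) (nat_lit 0) (XT.lf (nat_lit 0) (nat_lit 10689198011) (nat_lit 228) (nat_lit 2135797108) (nat_lit 76) (nat_lit 2276896089) (nat_lit 160) (nat_lit 5) (nat_lit 163) (nat_lit 5) (nat_lit 161) (nat_lit 4) (nat_lit 421) (nat_lit 326) (nat_lit 273)) (XT.nd (nat_lit 78) (nat_lit 152) (nat_lit 0) (XT.lf (nat_lit 0) (nat_lit 1093685777) (nat_lit 228) (nat_lit 5938915341) (nat_lit 76) (nat_lit 8331600964) (nat_lit 157) (nat_lit 5) (nat_lit 160) (nat_lit 5) (nat_lit 158) (nat_lit 5) (nat_lit 422) (nat_lit 326) (nat_lit 272)) (XT.lf (nat_lit 0) (nat_lit 5710602984) (nat_lit 152) (nat_lit 987954069) (nat_lit 228) (nat_lit 8933854778) (nat_lit 155) (nat_lit 5) (nat_lit 157) (nat_lit 5) (nat_lit 158) (nat_lit 5) (nat_lit 423) (nat_lit 326) (nat_lit 271)))) (XT.nd (nat_lit 78) (nat_lit 228) (nat_lit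 0) (XT.lf (nat_lit 0) (nat_lit 1808441704) (nat_lit 152) (nat_lit 10736955103) (nat_lit 228) (nat_lit 3361056395) (nat_lit 153) (nat_lit 5) (nat_lit 155) (nat_lit 5) (nat_lit 156) (nat_lit 4) (nat_lit 424) (nat_lit 326) (nat_lit 270)) (XT.nd (nat_lit 78) (nat_lit 152) (nat_lit 0) (XT.lf (nat_lit 0) (nat_lit 2389089315) (nat_lit 228) (nat_lit 2225845116) (nat_lit 76) (nat_lit 11571397808) (nat_lit 152) (nat_lit 5) (nat_lit 155) (nat_lit 5) (nat_lit 153) (nat_lit 5) (nat_lit 425) (nat_lit 326) (nat_lit 269)) (XT.lf (nat_lit 0) (nat_lit 8305280514) (nat_lit 228) (nat_lit 6421280099) (nat_lit 76) (nat_lit 1745215849) (nat_lit 150) (nat_lit 5) (nat_lit 153) (nat_lit 5) (nat_lit 151) (nat_lit 4) (nat_lit 426) (nat_lit 326) (nat_lit 268))))) (XT.nd (nat_lit 234) (nat_lit 380) (nat_lit 0) (XT.nd (nat_lit 78) (nat_lit 228) (nat_lit 0) (XT.lf (nat_lit 0) (nat_lit 5948062777) (nat_lit 76) (nat_lit 8523849143) (nat_lit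 152) (nat_lit 2291683459) (nat_lit 149) (nat_lit 5) (nat_lit 150) (nat_lit 5) (nat_lit 151) (nat_lit 4) (nat_lit 427) (nat_lit 326) (nat_lit 267)) (XT.nd (nat_lit 78) (nat_lit 0) (nat_lit 0) (XT.lf (nat_lit 0) (nat_lit 1655595946) (nat_lit 152) (nat_lit 2059291083) (nat_lit 228) (nat_lit 13347331537) (nat_lit 146) (nat_lit 5) (nat_lit 148) (nat_lit 5) (nat_lit 149) (nat_lit 5) (nat_lit 428) (nat_lit 326) (nat_lit 266)) (XT.lf (nat_lit 0) (nat_lit 9957741852) (nat_lit 228) (nat_lit 2809929847) (nat_lit 76) (nat_lit 4598383617) (nat_lit 146) (nat_lit 5) (nat_lit 149) (nat_lit 5) (nat_lit 147) (nat_lit 4) (nat_lit 429) (nat_lit 326) (nat_lit 265)))) (XT.nd (nat_lit 78) (nat_lit 304) (nat_lit 0) (XT.lf (nat_lit 0) (nat_lit 10249135936) (nat_lit 76) (nat_lit 6206821817) (nat_lit 152) (nat_lit 1221007154) (nat_lit 145) (nat_lit 5) (nat_lit 146) (nat_lit 5) (nat_lit 147) (nat_lit 4) (nat_lit 430) (nat_lit 326)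 (nat_lit 264)) (XT.nd (nat_lit 78) (nat_lit 76) (nat_lit 0) (XT.lf (nat_lit 0) (nat_lit 5090532334) (nat_lit 228) (nat_lit 12272934929) (nat_lit 76) (nat_lit 631074424) (nat_lit 142) (nat_lit 5) (nat_lit 145) (nat_lit 5) (nat_lit 143) (nat_lit 4) (nat_lit 431) (nat_lit 326) (nat_lit 263)) (XT.lf (nat_lit 0) (nat_lit 947229577) (nat_lit 76) (nat_lit 10715346689) (nat_lit 152) (nat_lit 6655835852) (nat_lit 141) (nat_lit 5) (nat_lit 142) (nat_lit 5) (nat_lit 143) (nat_lit 4) (nat_lit 432) (nat_lit 326) (nat_lit 262))))))))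
noncomputable def xc27 : XT := (XT.nd (nat_lit 49452) (nat_lit 0) (nat_lit 3648) (XT.nd (nat_lit 48516) (nat_lit 0) (nat_lit 9652) (XT.nd (nat_lit 48048) (nat_lit 0) (nat_lit 14592) (XT.nd (nat_lit 234) (nat_lit 76) (nat_lit 0) (XT.nd (nat_lit 78) (nat_lit 304) (nat_lit 0) (XT.lf (nat_lit 0) (nat_lit 14721155098) (nat_lit 76) (nat_lit 3784516467) (nat_lit 152) (nat_lit 144110395) (nat_lit 141) (nat_lit 5) (nat_lit 142) (nat_lit 5) (nat_lit 143) (nat_lit 4) (nat_lit 433) (nat_lit 326) (nat_lit 261)) (XT.nd (nat_lit 78) (nat_lit 76) (nat_lit 0) (XT.lf (nat_lit 0) (nat_lit 6514930485) (nat_lit 228) (nat_lit 9065460144) (nat_lit 76) (nat_lit 3406408728) (nat_lit 138) (nat_lit 5) (nat_lit 141) (nat_lit 5) (nat_lit 139) (nat_lit 4) (nat_lit 434) (nat_lit 326) (nat_lit 260)) (XT.lf (nat_lit 0) (nat_lit 4898104776) (nat_lit 76) (nat_lit 8548425259) (nat_lit 152) (nat_lit 5885083918) (nat_lit 137) (nat_lit 5)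 (nat_lit 138) (nat_lit 5) (nat_lit 139) (nat_lit 4) (nat_lit 435) (nat_lit 326) (nat_lit 259)))) (XT.nd (nat_lit 47658) (nat_lit 0) (nat_lit 17176) (XT.lf (nat_lit 0) (nat_lit 925334299) (nat_lit 152) (nat_lit 320015958) (nat_lit 76) (nat_lit 18439856038) (nat_lit 136) (nat_lit 5) (nat_lit 138) (nat_lit 5) (nat_lit 137) (nat_lit 5) (nat_lit 436) (nat_lit 326) (nat_lit 258)) (XT.nd (nat_lit 78) (nat_lit 836) (nat_lit 0) (XT.lf (nat_lit 0) (nat_lit 995145823) (nat_lit 1292) (nat_lit 1587598059) (nat_lit 0) (nat_lit 995145823) (nat_lit 373) (nat_lit 5) (nat_lit 390) (nat_lit 4) (nat_lit 373) (nat_lit 4) (nat_lit 366) (nat_lit 327) (nat_lit 327)) (XT.lf (nat_lit 0) (nat_lit 2292692994) (nat_lit 836) (nat_lit 3300327791) (nat_lit 836) (nat_lit 1619194374) (nat_lit 362) (nat_lit 4) (nat_lit 373) (nat_lit 5) (nat_lit 373) (nat_lit 4) (nat_lit 367) (nat_lit 327) (nat_lit 326))))) (XT.nd (nat_lit 234) (nat_lit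 1216) (nat_lit 0) (XT.nd (nat_lit 78) (nat_lit 684) (nat_lit 0) (XT.lf (nat_lit 0) (nat_lit 601384440) (nat_lit 608) (nat_lit 1327032418) (nat_lit 684) (nat_lit 5343302415) (nat_lit 353) (nat_lit 5) (nat_lit 361) (nat_lit 5) (nat_lit 362) (nat_lit 4) (nat_lit 368) (nat_lit 327) (nat_lit 325)) (XT.nd (nat_lit 78) (nat_lit 684) (nat_lit 0) (XT.lf (nat_lit 0) (nat_lit 5505194204) (nat_lit 684) (nat_lit 1078753769) (nat_lit 0) (nat_lit 749921131) (nat_lit 353) (nat_lit 5) (nat_lit 362) (nat_lit 4) (nat_lit 353) (nat_lit 4) (nat_lit 369) (nat_lit 327) (nat_lit 324)) (XT.lf (nat_lit 0) (nat_lit 1715148098) (nat_lit 684) (nat_lit 2767187701) (nat_lit 76) (nat_lit 2916269637) (nat_lit 344) (nat_lit 5) (nat_lit 353) (nat_lit 5) (nat_lit 345) (nat_lit 4) (nat_lit 370) (nat_lit 327) (nat_lit 323)))) (XT.nd (nat_lit 78) (nat_lit 684) (nat_lit 0) (XT.lf (nat_lit 0) (nat_lit 3000093364) (nat_lit 532) (nat_lit 2270444645)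 (nat_lit 608) (nat_lit 2195942476) (nat_lit 337) (nat_lit 5) (nat_lit 344) (nat_lit 5) (nat_lit 345) (nat_lit 4) (nat_lit 371) (nat_lit 327) (nat_lit 322)) (XT.nd (nat_lit 78) (nat_lit 0) (nat_lit 0) (XT.lf (nat_lit 0) (nat_lit 1313774872) (nat_lit 684) (nat_lit 6174805519) (nat_lit 76) (nat_lit 49064103) (nat_lit 328) (nat_lit 5) (nat_lit 337) (nat_lit 5) (nat_lit 329) (nat_lit 4) (nat_lit 372) (nat_lit 327) (nat_lit 321)) (XT.lf (nat_lit 0) (nat_lit 4857315666) (nat_lit 684) (nat_lit 308519950) (nat_lit 76) (nat_lit 2445275502) (nat_lit 328) (nat_lit 5) (nat_lit 337) (nat_lit 5) (nat_lit 329) (nat_lit 4) (nat_lit 373) (nat_lit 327) (nat_lit 320)))))) (XT.nd (nat_lit 468) (nat_lit 2204) (nat_lit 0) (XT.nd (nat_lit 234) (nat_lit 1064) (nat_lit 0) (XT.nd (nat_lit 78) (nat_lit 1064) (nat_lit 0) (XT.lf (nat_lit 0) (nat_lit 766559335) (nat_lit 608) (nat_lit 1959207460) (nat_lit 76) (nat_lit 4961912756) (nat_lit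 320) (nat_lit 5) (nat_lit 328) (nat_lit 5) (nat_lit 321) (nat_lit 5) (nat_lit 374) (nat_lit 327) (nat_lit 319)) (XT.nd (nat_lit 78) (nat_lit 532) (nat_lit 0) (XT.lf (nat_lit 0) (nat_lit 4129502204) (nat_lit 532) (nat_lit 158687572) (nat_lit 608) (nat_lit 3479006895) (nat_lit 313) (nat_lit 5) (nat_lit 320) (nat_lit 5) (nat_lit 321) (nat_lit 5) (nat_lit 375) (nat_lit 327) (nat_lit 318)) (XT.lf (nat_lit 0) (nat_lit 42425135) (nat_lit 532) (nat_lit 5344524497) (nat_lit 76) (nat_lit 2462810021) (nat_lit 306) (nat_lit 5) (nat_lit 313) (nat_lit 5) (nat_lit 307) (nat_lit 5) (nat_lit 376) (nat_lit 327) (nat_lit 317)))) (XT.nd (nat_lit 78) (nat_lit 532) (nat_lit 0) (XT.lf (nat_lit 0) (nat_lit 840991297) (nat_lit 532) (nat_lit 2715642312) (nat_lit 608) (nat_lit 4378420803) (nat_lit 299) (nat_lit 5) (nat_lit 306) (nat_lit 5) (nat_lit 307) (nat_lit 5) (nat_lit 377) (nat_lit 327) (nat_lit 316)) (XT.nd (nat_lit 78)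 (nat_lit 532) (nat_lit 0) (XT.lf (nat_lit 0) (nat_lit 7142742383) (nat_lit 608) (nat_lit 814221498) (nat_lit 76) (nat_lit 66949913) (nat_lit 299) (nat_lit 5) (nat_lit 307) (nat_lit 5) (nat_lit 300) (nat_lit 4) (nat_lit 378) (nat_lit 327) (nat_lit 315)) (XT.lf (nat_lit 0) (nat_lit 2663024930) (nat_lit 532) (nat_lit 2515142703) (nat_lit 76) (nat_lit 2936632871) (nat_lit 292) (nat_lit 5) (nat_lit 299) (nat_lit 5) (nat_lit 293) (nat_lit 5) (nat_lit 379) (nat_lit 327) (nat_lit 314))))) (XT.nd (nat_lit 234) (nat_lit 836) (nat_lit 0) (XT.nd (nat_lit 78) (nat_lit 912) (nat_lit 0) (XT.lf (nat_lit 0) (nat_lit 3972196843) (nat_lit 456) (nat_lit 2284939865) (nat_lit 532) (nat_lit 1952176367) (nat_lit 286) (nat_lit 5) (nat_lit 292) (nat_lit 5) (nat_lit 293) (nat_lit 5) (nat_lit 380) (nat_lit 327) (nat_lit 313)) (XT.nd (nat_lit 78) (nat_lit 456) (nat_lit 0) (XT.lf (nat_lit 0) (nat_lit 1590554191) (nat_lit 456) (nat_lit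 5997020812) (nat_lit 76) (nat_lit 719497863) (nat_lit 280) (nat_lit 5) (nat_lit 286) (nat_lit 5) (nat_lit 281) (nat_lit 5) (nat_lit 381) (nat_lit 327) (nat_lit 312)) (XT.lf (nat_lit 0) (nat_lit 590435538) (nat_lit 456) (nat_lit 4597951650) (nat_lit 532) (nat_lit 3219156692) (nat_lit 274) (nat_lit 5) (nat_lit 280) (nat_lit 5) (nat_lit 281) (nat_lit 5) (nat_lit 382) (nat_lit 327) (nat_lit 311)))) (XT.nd (nat_lit 78) (nat_lit 760) (nat_lit 0) (XT.lf (nat_lit 0) (nat_lit 353900959) (nat_lit 532) (nat_lit 1128311952) (nat_lit 76) (nat_lit 7029358095) (nat_lit 273) (nat_lit 5) (nat_lit 280) (nat_lit 5) (nat_lit 274) (nat_lit 5) (nat_lit 383) (nat_lit 327) (nat_lit 310)) (XT.nd (nat_lit 78) (nat_lit 380) (nat_lit 0) (XT.lf (nat_lit 0) (nat_lit 3961226402) (nat_lit 456) (nat_lit 2904559564) (nat_lit 76) (nat_lit 1752223459) (nat_lit 268) (nat_lit 5) (nat_lit 274) (nat_lit 5) (nat_lit 269) (nat_lit 5) (nat_lit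 384) (nat_lit 327) (nat_lit 309)) (XT.lf (nat_lit 0) (nat_lit 4008752502) (nat_lit 380) (nat_lit 3653255892) (nat_lit 456) (nat_lit 1066075498) (nat_lit 263) (nat_lit 5) (nat_lit 268) (nat_lit 5) (nat_lit 269) (nat_lit 5) (nat_lit 385) (nat_lit 327) (nat_lit 308))))))) (XT.nd (nat_lit 936) (nat_lit 2736) (nat_lit 0) (XT.nd (nat_lit 468) (nat_lit 1292) (nat_lit 0) (XT.nd (nat_lit 234) (nat_lit 1064) (nat_lit 0) (XT.nd (nat_lit 78) (nat_lit 456) (nat_lit 0) (XT.lf (nat_lit 0) (nat_lit 2255376924) (nat_lit 380) (nat_lit 297914871) (nat_lit 456) (nat_lit 6288240528) (nat_lit 257) (nat_lit 5) (nat_lit 262) (nat_lit 5) (nat_lit 263) (nat_lit 5) (nat_lit 386) (nat_lit 327) (nat_lit 307)) (XT.nd (nat_lit 78) (nat_lit 76) (nat_lit 0) (XT.lf (nat_lit 0) (nat_lit 433804552) (nat_lit 380) (nat_lit 5830594580) (nat_lit 456) (nat_lit 2693530835) (nat_lit 252) (nat_lit 5) (nat_lit 257) (nat_lit 5) (nat_lit 258) (nat_lit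 5) (nat_lit 387) (nat_lit 327) (nat_lit 306)) (XT.lf (nat_lit 0) (nat_lit 981819776) (nat_lit 456) (nat_lit 1402591469) (nat_lit 76) (nat_lit 6693342640) (nat_lit 251) (nat_lit 5) (nat_lit 257) (nat_lit 5) (nat_lit 252) (nat_lit 5) (nat_lit 388) (nat_lit 327) (nat_lit 305)))) (XT.nd (nat_lit 78) (nat_lit 760) (nat_lit 0) (XT.lf (nat_lit 0) (nat_lit 4706453931) (nat_lit 380) (nat_lit 3300894184) (nat_lit 76) (nat_lit 1193229537) (nat_lit 247) (nat_lit 5) (nat_lit 252) (nat_lit 5) (nat_lit 248) (nat_lit 5) (nat_lit 389) (nat_lit 327) (nat_lit 304)) (XT.nd (nat_lit 78) (nat_lit 380) (nat_lit 0) (XT.lf (nat_lit 0) (nat_lit 4068388419) (nat_lit 380) (nat_lit 4476916100) (nat_lit 456) (nat_lit 781707290) (nat_lit 242) (nat_lit 5) (nat_lit 247) (nat_lit 5) (nat_lit 248) (nat_lit 5) (nat_lit 390) (nat_lit 327) (nat_lit 303)) (XT.lf (nat_lit 0) (nat_lit 2172228151) (nat_lit 304) (nat_lit 790886413) (nat_lit 380)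 (nat_lit 6493835309) (nat_lit 237) (nat_lit 5) (nat_lit 241) (nat_lit 5) (nat_lit 242) (nat_lit 5) (nat_lit 391) (nat_lit 327) (nat_lit 302))))) (XT.nd (nat_lit 234) (nat_lit 608) (nat_lit 0) (XT.nd (nat_lit 78) (nat_lit 380) (nat_lit 0) (XT.lf (nat_lit 0) (nat_lit 199833735) (nat_lit 304) (nat_lit 6615781888) (nat_lit 380) (nat_lit 2774606883) (nat_lit 233) (nat_lit 5) (nat_lit 237) (nat_lit 5) (nat_lit 238) (nat_lit 5) (nat_lit 392) (nat_lit 327) (nat_lit 301)) (XT.nd (nat_lit 78) (nat_lit 304) (nat_lit 0) (XT.lf (nat_lit 0) (nat_lit 1044673460) (nat_lit 380) (nat_lit 1797619205) (nat_lit 76) (nat_lit 6884623510) (nat_lit 232) (nat_lit 5) (nat_lit 237) (nat_lit 5) (nat_lit 233) (nat_lit 5) (nat_lit 393) (nat_lit 327) (nat_lit 300)) (XT.lf (nat_lit 0) (nat_lit 4920092108) (nat_lit 380) (nat_lit 3873798823) (nat_lit 76) (nat_lit 1073075779) (nat_lit 228) (nat_lit 5) (nat_lit 233) (nat_lit 5) (nat_lit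 229) (nat_lit 5) (nat_lit 394) (nat_lit 327) (nat_lit 299)))) (XT.nd (nat_lit 78) (nat_lit 304) (nat_lit 0) (XT.lf (nat_lit 0) (nat_lit 3983987318) (nat_lit 304) (nat_lit 4942317663) (nat_lit 380) (nat_lit 1084477831) (nat_lit 224) (nat_lit 5) (nat_lit 228) (nat_lit 5) (nat_lit 229) (nat_lit 5) (nat_lit 395) (nat_lit 327) (nat_lit 298)) (XT.nd (nat_lit 78) (nat_lit 0) (nat_lit 0) (XT.lf (nat_lit 0) (nat_lit 1898409581) (nat_lit 228) (nat_lit 926748275) (nat_lit 304) (nat_lit 7333285974) (nat_lit 220) (nat_lit 5) (nat_lit 223) (nat_lit 5) (nat_lit 224) (nat_lit 5) (nat_lit 396) (nat_lit 327) (nat_lit 297)) (XT.lf (nat_lit 0) (nat_lit 6853290697) (nat_lit 304) (nat_lit 276204054) (nat_lit 76) (nat_lit 3180027656) (nat_lit 220) (nat_lit 5) (nat_lit 224) (nat_lit 5) (nat_lit 221) (nat_lit 5) (nat_lit 397) (nat_lit 327) (nat_lit 296)))))) (XT.nd (nat_lit 468) (nat_lit 1292) (nat_lit 0) (XT.nd (nat_lit 234)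 (nat_lit 532) (nat_lit 0) (XT.nd (nat_lit 78) (nat_lit 532) (nat_lit 0) (XT.lf (nat_lit 0) (nat_lit 545499948) (nat_lit 380) (nat_lit 2483114266) (nat_lit 76) (nat_lit 7435798814) (nat_lit 215) (nat_lit 5) (nat_lit 220) (nat_lit 5) (nat_lit 216) (nat_lit 5) (nat_lit 398) (nat_lit 327) (nat_lit 295)) (XT.nd (nat_lit 78) (nat_lit 304) (nat_lit 0) (XT.lf (nat_lit 0) (nat_lit 4601800531) (nat_lit 304) (nat_lit 4794435708) (nat_lit 76) (nat_lit 1226568011) (nat_lit 212) (nat_lit 5) (nat_lit 216) (nat_lit 5) (nat_lit 213) (nat_lit 5) (nat_lit 399) (nat_lit 327) (nat_lit 294)) (XT.lf (nat_lit 0) (nat_lit 3586821553) (nat_lit 304) (nat_lit 5216297570) (nat_lit 380) (nat_lit 1982128215) (nat_lit 208) (nat_lit 5) (nat_lit 212) (nat_lit 5) (nat_lit 213) (nat_lit 5) (nat_lit 400) (nat_lit 327) (nat_lit 293)))) (XT.nd (nat_lit 78) (nat_lit 228) (nat_lit 0) (XT.lf (nat_lit 0) (nat_lit 1261795634) (nat_lit 228) (nat_lit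 868443272) (nat_lit 304) (nat_lit 8821852023) (nat_lit 204) (nat_lit 5) (nat_lit 207) (nat_lit 5) (nat_lit 208) (nat_lit 5) (nat_lit 401) (nat_lit 327) (nat_lit 292)) (XT.nd (nat_lit 78) (nat_lit 228) (nat_lit 0) (XT.lf (nat_lit 0) (nat_lit 6368547335) (nat_lit 304) (nat_lit 1162015752) (nat_lit 76) (nat_lit 3591515714) (nat_lit 204) (nat_lit 5) (nat_lit 208) (nat_lit 5) (nat_lit 205) (nat_lit 5) (nat_lit 402) (nat_lit 327) (nat_lit 291)) (XT.lf (nat_lit 0) (nat_lit 7657506041) (nat_lit 228) (nat_lit 3094919029) (nat_lit 304) (nat_lit 544188638) (nat_lit 201) (nat_lit 5) (nat_lit 204) (nat_lit 5) (nat_lit 205) (nat_lit 5) (nat_lit 403) (nat_lit 327) (nat_lit 290))))) (XT.nd (nat_lit 234) (nat_lit 456) (nat_lit 0) (XT.nd (nat_lit 78) (nat_lit 532) (nat_lit 0) (XT.lf (nat_lit 0) (nat_lit 3730946936) (nat_lit 304) (nat_lit 6240454931) (nat_lit 76) (nat_lit 1503484519) (nat_lit 197) (nat_lit 5) (nat_lit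 201) (nat_lit 5) (nat_lit 198) (nat_lit 5) (nat_lit 404) (nat_lit 327) (nat_lit 289)) (XT.nd (nat_lit 78) (nat_lit 304) (nat_lit 0) (XT.lf (nat_lit 0) (nat_lit 2701586273) (nat_lit 228) (nat_lit 5452423051) (nat_lit 304) (nat_lit 3503417967) (nat_lit 194) (nat_lit 5) (nat_lit 197) (nat_lit 5) (nat_lit 198) (nat_lit 5) (nat_lit 405) (nat_lit 327) (nat_lit 288)) (XT.lf (nat_lit 0) (nat_lit 82619417) (nat_lit 228) (nat_lit 766366483) (nat_lit 304) (nat_lit 10996163290) (nat_lit 190) (nat_lit 5) (nat_lit 193) (nat_lit 5) (nat_lit 194) (nat_lit 5) (nat_lit 406) (nat_lit 327) (nat_lit 287)))) (XT.nd (nat_lit 78) (nat_lit 456) (nat_lit 0) (XT.lf (nat_lit 0) (nat_lit 5329411462) (nat_lit 304) (nat_lit 2641305944) (nat_lit 76) (nat_lit 4064708778) (nat_lit 190) (nat_lit 5) (nat_lit 194) (nat_lit 5) (nat_lit 191) (nat_lit 5) (nat_lit 407) (nat_lit 327) (nat_lit 286)) (XT.nd (nat_lit 78) (nat_lit 228) (nat_lit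 0) (XT.lf (nat_lit 0) (nat_lit 6774547704) (nat_lit 228) (nat_lit 3181734414) (nat_lit 304) (nat_lit 2274768398) (nat_lit 187) (nat_lit 5) (nat_lit 190) (nat_lit 5) (nat_lit 191) (nat_lit 5) (nat_lit 408) (nat_lit 327) (nat_lit 285)) (XT.lf (nat_lit 0) (nat_lit 2267386282) (nat_lit 228) (nat_lit 8400808555) (nat_lit 76) (nat_lit 1763009154) (nat_lit 184) (nat_lit 5) (nat_lit 187) (nat_lit 5) (nat_lit 185) (nat_lit 5) (nat_lit 409) (nat_lit 327) (nat_lit 284))))))))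
noncomputable def xc28 : XT := (XT.nd (nat_lit 1794) (nat_lit 380) (nat_lit 0) (XT.nd (nat_lit 858) (nat_lit 1520) (nat_lit 0) (XT.nd (nat_lit 390) (nat_lit 760) (nat_lit 0) (XT.nd (nat_lit 156) (nat_lit 684) (nat_lit 0) (XT.nd (nat_lit 78) (nat_lit 0) (nat_lit 0) (XT.lf (nat_lit 0) (nat_lit 1141587999) (nat_lit 228) (nat_lit 5796489700) (nat_lit 304) (nat_lit 5697468917) (nat_lit 181) (nat_lit 5) (nat_lit 184) (nat_lit 5) (nat_lit 185) (nat_lit 5) (nat_lit 410) (nat_lit 327) (nat_lit 283)) (XT.lf (nat_lit 0) (nat_lit 11039323301) (nat_lit 228) (nat_lit 735029317) (nat_lit 304) (nat_lit 1070903017) (nat_lit 181) (nat_lit 5) (nat_lit 184) (nat_lit 5) (nat_lit 185) (nat_lit 5) (nat_lit 411) (nat_lit 327) (nat_lit 282))) (XT.nd (nat_lit 78) (nat_lit 456) (nat_lit 0) (XT.lf (nat_lit 0) (nat_lit 3686706198) (nat_lit 228) (nat_lit 4907482605) (nat_lit 76) (nat_lit 4464071564) (nat_lit 178) (nat_lit 5) (nat_lit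 181) (nat_lit 5) (nat_lit 179) (nat_lit 5) (nat_lit 412) (nat_lit 327) (nat_lit 281)) (XT.nd (nat_lit 78) (nat_lit 228) (nat_lit 0) (XT.lf (nat_lit 0) (nat_lit 5146858017) (nat_lit 228) (nat_lit 3435939981) (nat_lit 304) (nat_lit 4694020800) (nat_lit 175) (nat_lit 5) (nat_lit 178) (nat_lit 5) (nat_lit 179) (nat_lit 5) (nat_lit 413) (nat_lit 327) (nat_lit 280)) (XT.lf (nat_lit 0) (nat_lit 151655501) (nat_lit 228) (nat_lit 11480537184) (nat_lit 76) (nat_lit 1868798581) (nat_lit 172) (nat_lit 5) (nat_lit 175) (nat_lit 5) (nat_lit 173) (nat_lit 5) (nat_lit 414) (nat_lit 327) (nat_lit 279))))) (XT.nd (nat_lit 234) (nat_lit 380) (nat_lit 0) (XT.nd (nat_lit 78) (nat_lit 380) (nat_lit 0) (XT.lf (nat_lit 0) (nat_lit 5107840205) (nat_lit 228) (nat_lit 1270756765) (nat_lit 76) (nat_lit 7350113176) (nat_lit 172) (nat_lit 5) (nat_lit 175) (nat_lit 5) (nat_lit 173) (nat_lit 5) (nat_lit 415) (nat_lit 327) (nat_lit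 278)) (XT.nd (nat_lit 78) (nat_lit 228) (nat_lit 0) (XT.lf (nat_lit 0) (nat_lit 9328256725) (nat_lit 152) (nat_lit 918350376) (nat_lit 228) (nat_lit 3715636592) (nat_lit 170) (nat_lit 5) (nat_lit 172) (nat_lit 5) (nat_lit 173) (nat_lit 5) (nat_lit 416) (nat_lit 327) (nat_lit 277)) (XT.lf (nat_lit 0) (nat_lit 1372039424) (nat_lit 228) (nat_lit 8172334319) (nat_lit 76) (nat_lit 4656182895) (nat_lit 167) (nat_lit 5) (nat_lit 170) (nat_lit 5) (nat_lit 168) (nat_lit 5) (nat_lit 417) (nat_lit 327) (nat_lit 276)))) (XT.nd (nat_lit 78) (nat_lit 228) (nat_lit 0) (XT.lf (nat_lit 0) (nat_lit 2564897000) (nat_lit 152) (nat_lit 3998396984) (nat_lit 228) (nat_lit 7880852468) (nat_lit 165) (nat_lit 5) (nat_lit 167) (nat_lit 5) (nat_lit 168) (nat_lit 5) (nat_lit 418) (nat_lit 327) (nat_lit 275)) (XT.nd (nat_lit 78) (nat_lit 228) (nat_lit 0) (XT.lf (nat_lit 0) (nat_lit 11954971855) (nat_lit 228) (nat_lit 1017819729)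 (nat_lit 76) (nat_lit 1720911805) (nat_lit 165) (nat_lit 5) (nat_lit 168) (nat_lit 5) (nat_lit 166) (nat_lit 4) (nat_lit 419) (nat_lit 327) (nat_lit 274)) (XT.lf (nat_lit 0) (nat_lit 2593005327) (nat_lit 228) (nat_lit 4740918102) (nat_lit 76) (nat_lit 7613528195) (nat_lit 162) (nat_lit 5) (nat_lit 165) (nat_lit 5) (nat_lit 163) (nat_lit 5) (nat_lit 420) (nat_lit 327) (nat_lit 273)))))) (XT.nd (nat_lit 468) (nat_lit 608) (nat_lit 0) (XT.nd (nat_lit 234) (nat_lit 532) (nat_lit 0) (XT.nd (nat_lit 78) (nat_lit 228) (nat_lit 0) (XT.lf (nat_lit 0) (nat_lit 6584305378) (nat_lit 152) (nat_lit 1465603186) (nat_lit 228) (nat_lit 7157482454) (nat_lit 160) (nat_lit 5) (nat_lit 162) (nat_lit 5) (nat_lit 163) (nat_lit 5) (nat_lit 421) (nat_lit 327) (nat_lit 272)) (XT.nd (nat_lit 78) (nat_lit 76) (nat_lit 0) (XT.lf (nat_lit 0) (nat_lit 2785488787) (nat_lit 152) (nat_lit 10950973416) (nat_lit 228) (nat_lit 1736688093)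 (nat_lit 158) (nat_lit 5) (nat_lit 160) (nat_lit 5) (nat_lit 161) (nat_lit 4) (nat_lit 422) (nat_lit 327) (nat_lit 271)) (XT.lf (nat_lit 0) (nat_lit 3821025552) (nat_lit 228) (nat_lit 1180794681) (nat_lit 76) (nat_lit 10742472035) (nat_lit 157) (nat_lit 5) (nat_lit 160) (nat_lit 5) (nat_lit 158) (nat_lit 5) (nat_lit 423) (nat_lit 327) (nat_lit 270)))) (XT.nd (nat_lit 78) (nat_lit 380) (nat_lit 0) (XT.lf (nat_lit 0) (nat_lit 9574151944) (nat_lit 228) (nat_lit 5263283970) (nat_lit 76) (nat_lit 1183709126) (nat_lit 155) (nat_lit 5) (nat_lit 158) (nat_lit 5) (nat_lit 156) (nat_lit 4) (nat_lit 424) (nat_lit 327) (nat_lit 269)) (XT.nd (nat_lit 78) (nat_lit 228) (nat_lit 0) (XT.lf (nat_lit 0) (nat_lit 6760598282) (nat_lit 152) (nat_lit 8814474987) (nat_lit 228) (nat_lit 728974092) (nat_lit 153) (nat_lit 5) (nat_lit 155) (nat_lit 5) (nat_lit 156) (nat_lit 4) (nat_lit 425) (nat_lit 327) (nat_lit 268)) (XT.lf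 (nat_lit 0) (nat_lit 2564442716) (nat_lit 152) (nat_lit 2522509104) (nat_lit 228) (nat_lit 11506184691) (nat_lit 150) (nat_lit 5) (nat_lit 152) (nat_lit 5) (nat_lit 153) (nat_lit 5) (nat_lit 426) (nat_lit 327) (nat_lit 267))))) (XT.nd (nat_lit 234) (nat_lit 304) (nat_lit 0) (XT.nd (nat_lit 78) (nat_lit 304) (nat_lit 0) (XT.lf (nat_lit 0) (nat_lit 11146995782) (nat_lit 228) (nat_lit 1797914849) (nat_lit 76) (nat_lit 3943242420) (nat_lit 150) (nat_lit 5) (nat_lit 153) (nat_lit 5) (nat_lit 151) (nat_lit 4) (nat_lit 427) (nat_lit 327) (nat_lit 266)) (XT.nd (nat_lit 78) (nat_lit 152) (nat_lit 0) (XT.lf (nat_lit 0) (nat_lit 273887708) (nat_lit 152) (nat_lit 6297009244) (nat_lit 76) (nat_lit 10618639154) (nat_lit 148) (nat_lit 5) (nat_lit 150) (nat_lit 5) (nat_lit 149) (nat_lit 5) (nat_lit 428) (nat_lit 327) (nat_lit 265)) (XT.lf (nat_lit 0) (nat_lit 6385985938) (nat_lit 228) (nat_lit 11019913091) (nat_lit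 76) (nat_lit 91396525) (nat_lit 146) (nat_lit 5) (nat_lit 149) (nat_lit 5) (nat_lit 147) (nat_lit 4) (nat_lit 429) (nat_lit 327) (nat_lit 264)))) (XT.nd (nat_lit 78) (nat_lit 228) (nat_lit 0) (XT.lf (nat_lit 0) (nat_lit 1829352213) (nat_lit 76) (nat_lit 10949601230) (nat_lit 152) (nat_lit 5032409152) (nat_lit 145) (nat_lit 5) (nat_lit 146) (nat_lit 5) (nat_lit 147) (nat_lit 4) (nat_lit 430) (nat_lit 327) (nat_lit 263)) (XT.nd (nat_lit 78) (nat_lit 152) (nat_lit 0) (XT.lf (nat_lit 0) (nat_lit 1267981432) (nat_lit 152) (nat_lit 2946875236) (nat_lit 76) (nat_lit 13917747527) (nat_lit 144) (nat_lit 5) (nat_lit 146) (nat_lit 5) (nat_lit 145) (nat_lit 5) (nat_lit 431) (nat_lit 327) (nat_lit 262)) (XT.lf (nat_lit 0) (nat_lit 7737022897) (nat_lit 228) (nat_lit 7942120381) (nat_lit 76) (nat_lit 2780421422) (nat_lit 142) (nat_lit 5) (nat_lit 145) (nat_lit 5) (nat_lit 143) (nat_lit 4) (nat_lit 432) (nat_lit 327)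 (nat_lit 261))))))) (XT.nd (nat_lit 48360) (nat_lit 0) (nat_lit 10336) (XT.nd (nat_lit 47892) (nat_lit 0) (nat_lit 15200) (XT.nd (nat_lit 234) (nat_lit 76) (nat_lit 0) (XT.nd (nat_lit 78) (nat_lit 228) (nat_lit 0) (XT.lf (nat_lit 0) (nat_lit 5628580408) (nat_lit 76) (nat_lit 8849740375) (nat_lit 152) (nat_lit 4315667681) (nat_lit 141) (nat_lit 5) (nat_lit 142) (nat_lit 5) (nat_lit 143) (nat_lit 4) (nat_lit 433) (nat_lit 327) (nat_lit 260)) (XT.nd (nat_lit 78) (nat_lit 0) (nat_lit 0) (XT.lf (nat_lit 0) (nat_lit 530829101) (nat_lit 152) (nat_lit 1746485600) (nat_lit 228) (nat_lit 16859317966) (nat_lit 138) (nat_lit 5) (nat_lit 140) (nat_lit 5) (nat_lit 141) (nat_lit 5) (nat_lit 434) (nat_lit 327) (nat_lit 259)) (XT.lf (nat_lit 0) (nat_lit 9121638904) (nat_lit 228) (nat_lit 4765405627) (nat_lit 76) (nat_lit 5597020992) (nat_lit 138) (nat_lit 5) (nat_lit 141) (nat_lit 5) (nat_lit 139) (nat_lit 4) (nat_lit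 435) (nat_lit 327) (nat_lit 258)))) (XT.nd (nat_lit 47502) (nat_lit 0) (nat_lit 19152) (XT.lf (nat_lit 0) (nat_lit 9572242532) (nat_lit 76) (nat_lit 6662231184) (nat_lit 152) (nat_lit 3605552222) (nat_lit 137) (nat_lit 5) (nat_lit 138) (nat_lit 5) (nat_lit 139) (nat_lit 4) (nat_lit 436) (nat_lit 327) (nat_lit 257)) (XT.nd (nat_lit 78) (nat_lit 76) (nat_lit 0) (XT.lf (nat_lit 0) (nat_lit 177019482) (nat_lit 1140) (nat_lit 1674028235) (nat_lit 1140) (nat_lit 1674028235) (nat_lit 390) (nat_lit 4) (nat_lit 405) (nat_lit 5) (nat_lit 405) (nat_lit 4) (nat_lit 364) (nat_lit 328) (nat_lit 328)) (XT.lf (nat_lit 0) (nat_lit 173565195) (nat_lit 1216) (nat_lit 1431177096) (nat_lit 76) (nat_lit 5497760089) (nat_lit 389) (nat_lit 5) (nat_lit 405) (nat_lit 5) (nat_lit 390) (nat_lit 4) (nat_lit 365) (nat_lit 328) (nat_lit 327))))) (XT.nd (nat_lit 234) (nat_lit 1216) (nat_lit 0) (XT.nd (nat_lit 78) (nat_lit 1520) (nat_lit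 0) (XT.lf (nat_lit 0) (nat_lit 3670363487) (nat_lit 1292) (nat_lit 3229298142) (nat_lit 0) (nat_lit 257662649) (nat_lit 373) (nat_lit 5) (nat_lit 390) (nat_lit 4) (nat_lit 373) (nat_lit 4) (nat_lit 366) (nat_lit 328) (nat_lit 326)) (XT.nd (nat_lit 78) (nat_lit 608) (nat_lit 0) (XT.lf (nat_lit 0) (nat_lit 6628366) (nat_lit 912) (nat_lit 5031413619) (nat_lit 76) (nat_lit 2177247324) (nat_lit 361) (nat_lit 5) (nat_lit 373) (nat_lit 5) (nat_lit 362) (nat_lit 4) (nat_lit 367) (nat_lit 328) (nat_lit 325)) (XT.lf (nat_lit 0) (nat_lit 417340013) (nat_lit 608) (nat_lit 3054009099) (nat_lit 684) (nat_lit 3804516196) (nat_lit 353) (nat_lit 5) (nat_lit 361) (nat_lit 5) (nat_lit 362) (nat_lit 4) (nat_lit 368) (nat_lit 328) (nat_lit 324)))) (XT.nd (nat_lit 78) (nat_lit 1216) (nat_lit 0) (XT.lf (nat_lit 0) (nat_lit 6026166301) (nat_lit 608) (nat_lit 966020995) (nat_lit 684) (nat_lit 347506018) (nat_lit 353) (nat_lit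 5) (nat_lit 361) (nat_lit 5) (nat_lit 362) (nat_lit 4) (nat_lit 369) (nat_lit 328) (nat_lit 323)) (XT.nd (nat_lit 78) (nat_lit 532) (nat_lit 0) (XT.lf (nat_lit 0) (nat_lit 3107609919) (nat_lit 684) (nat_lit 3071784076) (nat_lit 76) (nat_lit 1226402638) (nat_lit 344) (nat_lit 5) (nat_lit 353) (nat_lit 5) (nat_lit 345) (nat_lit 4) (nat_lit 370) (nat_lit 328) (nat_lit 322)) (XT.lf (nat_lit 0) (nat_lit 2635639261) (nat_lit 532) (nat_lit 3977067262) (nat_lit 608) (nat_lit 862473957) (nat_lit 337) (nat_lit 5) (nat_lit 344) (nat_lit 5) (nat_lit 345) (nat_lit 4) (nat_lit 371) (nat_lit 328) (nat_lit 321)))))) (XT.nd (nat_lit 468) (nat_lit 1976) (nat_lit 0) (XT.nd (nat_lit 234) (nat_lit 1596) (nat_lit 0) (XT.nd (nat_lit 78) (nat_lit 608) (nat_lit 0) (XT.lf (nat_lit 0) (nat_lit 915470851) (nat_lit 608) (nat_lit 1654581670) (nat_lit 684) (nat_lit 4977442528) (nat_lit 328) (nat_lit 5) (nat_lit 336) (nat_lit 5) (nat_lit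 337) (nat_lit 5) (nat_lit 372) (nat_lit 328) (nat_lit 320)) (XT.nd (nat_lit 78) (nat_lit 608) (nat_lit 0) (XT.lf (nat_lit 0) (nat_lit 6052081425) (nat_lit 684) (nat_lit 803762606) (nat_lit 76) (nat_lit 766962998) (nat_lit 328) (nat_lit 5) (nat_lit 337) (nat_lit 5) (nat_lit 329) (nat_lit 4) (nat_lit 373) (nat_lit 328) (nat_lit 319)) (XT.lf (nat_lit 0) (nat_lit 1876404357) (nat_lit 608) (nat_lit 2541772694) (nat_lit 76) (nat_lit 3282361407) (nat_lit 320) (nat_lit 5) (nat_lit 328) (nat_lit 5) (nat_lit 321) (nat_lit 5) (nat_lit 374) (nat_lit 328) (nat_lit 318)))) (XT.nd (nat_lit 78) (nat_lit 1064) (nat_lit 0) (XT.lf (nat_lit 0) (nat_lit 3481574749) (nat_lit 532) (nat_lit 1866313834) (nat_lit 608) (nat_lit 2433671381) (nat_lit 313) (nat_lit 5) (nat_lit 320) (nat_lit 5) (nat_lit 321) (nat_lit 5) (nat_lit 375) (nat_lit 328) (nat_lit 317)) (XT.nd (nat_lit 78) (nat_lit 532) (nat_lit 0) (XT.lf (nat_lit 0) (nat_lit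 1000205827) (nat_lit 532) (nat_lit 6083474971) (nat_lit 76) (nat_lit 782155392) (nat_lit 306) (nat_lit 5) (nat_lit 313) (nat_lit 5) (nat_lit 307) (nat_lit 5) (nat_lit 376) (nat_lit 328) (nat_lit 316)) (XT.lf (nat_lit 0) (nat_lit 32525531) (nat_lit 532) (nat_lit 4431219751) (nat_lit 608) (nat_lit 3488905738) (nat_lit 299) (nat_lit 5) (nat_lit 306) (nat_lit 5) (nat_lit 307) (nat_lit 5) (nat_lit 377) (nat_lit 328) (nat_lit 315))))) (XT.nd (nat_lit 234) (nat_lit 988) (nat_lit 0) (XT.nd (nat_lit 78) (nat_lit 988) (nat_lit 0) (XT.lf (nat_lit 0) (nat_lit 6348690236) (nat_lit 532) (nat_lit 1658347829) (nat_lit 608) (nat_lit 35756816) (nat_lit 299) (nat_lit 5) (nat_lit 306) (nat_lit 5) (nat_lit 307) (nat_lit 5) (nat_lit 378) (nat_lit 328) (nat_lit 314)) (XT.nd (nat_lit 78) (nat_lit 456) (nat_lit 0) (XT.lf (nat_lit 0) (nat_lit 3425325922) (nat_lit 532) (nat_lit 3478450320) (nat_lit 76) (nat_lit 1231660045) (nat_lit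 292) (nat_lit 5) (nat_lit 299) (nat_lit 5) (nat_lit 293) (nat_lit 5) (nat_lit 379) (nat_lit 328) (nat_lit 313)) (XT.lf (nat_lit 0) (nat_lit 2935580512) (nat_lit 456) (nat_lit 4033151092) (nat_lit 532) (nat_lit 1262738437) (nat_lit 286) (nat_lit 5) (nat_lit 292) (nat_lit 5) (nat_lit 293) (nat_lit 5) (nat_lit 380) (nat_lit 328) (nat_lit 312)))) (XT.nd (nat_lit 78) (nat_lit 532) (nat_lit 0) (XT.lf (nat_lit 0) (nat_lit 1176285973) (nat_lit 380) (nat_lit 1031773801) (nat_lit 456) (nat_lit 6122725609) (nat_lit 280) (nat_lit 5) (nat_lit 285) (nat_lit 5) (nat_lit 286) (nat_lit 5) (nat_lit 381) (nat_lit 328) (nat_lit 311)) (XT.nd (nat_lit 78) (nat_lit 532) (nat_lit 0) (XT.lf (nat_lit 0) (nat_lit 5750387266) (nat_lit 456) (nat_lit 622556807) (nat_lit 76) (nat_lit 2059977486) (nat_lit 280) (nat_lit 5) (nat_lit 286) (nat_lit 5) (nat_lit 281) (nat_lit 5) (nat_lit 382) (nat_lit 328) (nat_lit 310)) (XT.lf (nat_lit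 0) (nat_lit 834236761) (nat_lit 532) (nat_lit 2438523967) (nat_lit 76) (nat_lit 5265407663) (nat_lit 273) (nat_lit 5) (nat_lit 280) (nat_lit 5) (nat_lit 274) (nat_lit 5) (nat_lit 383) (nat_lit 328) (nat_lit 309))))))))
noncomputable def xc29 : XT := (XT.nd (nat_lit 1794) (nat_lit 3648) (nat_lit 0) (XT.nd (nat_lit 858) (nat_lit 2584) (nat_lit 0) (XT.nd (nat_lit 390) (nat_lit 1748) (nat_lit 0) (XT.nd (nat_lit 156) (nat_lit 912) (nat_lit 0) (XT.nd (nat_lit 78) (nat_lit 380) (nat_lit 0) (XT.lf (nat_lit 0) (nat_lit 4341216296) (nat_lit 380) (nat_lit 31310072) (nat_lit 456) (nat_lit 4274151517) (nat_lit 268) (nat_lit 5) (nat_lit 273) (nat_lit 5) (nat_lit 274) (nat_lit 5) (nat_lit 384) (nat_lit 328) (nat_lit 308)) (XT.lf (nat_lit 0) (nat_lit 2526143185) (nat_lit 380) (nat_lit 5494600252) (nat_lit 456) (nat_lit 737585863) (nat_lit 263) (nat_lit 5) (nat_lit 268) (nat_lit 5) (nat_lit 269) (nat_lit 5) (nat_lit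 385) (nat_lit 328) (nat_lit 307))) (XT.nd (nat_lit 78) (nat_lit 456) (nat_lit 0) (XT.lf (nat_lit 0) (nat_lit 654823230) (nat_lit 380) (nat_lit 2167382022) (nat_lit 456) (nat_lit 6051072734) (nat_lit 257) (nat_lit 5) (nat_lit 262) (nat_lit 5) (nat_lit 263) (nat_lit 5) (nat_lit 386) (nat_lit 328) (nat_lit 306)) (XT.nd (nat_lit 78) (nat_lit 456) (nat_lit 0) (XT.lf (nat_lit 0) (nat_lit 6473834527) (nat_lit 456) (nat_lit 1242741244) (nat_lit 76) (nat_lit 1274884202) (nat_lit 257) (nat_lit 5) (nat_lit 263) (nat_lit 5) (nat_lit 258) (nat_lit 5) (nat_lit 387) (nat_lit 328) (nat_lit 305)) (XT.lf (nat_lit 0) (nat_lit 1104862537) (nat_lit 456) (nat_lit 3193299757) (nat_lit 76) (nat_lit 4814553771) (nat_lit 251) (nat_lit 5) (nat_lit 257) (nat_lit 5) (nat_lit 252) (nat_lit 5) (nat_lit 388) (nat_lit 328) (nat_lit 304))))) (XT.nd (nat_lit 234) (nat_lit 684) (nat_lit 0) (XT.nd (nat_lit 78) (nat_lit 760) (nat_lit 0)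 (XT.lf (nat_lit 0) (nat_lit 4031951200) (nat_lit 304) (nat_lit 731733173) (nat_lit 380) (nat_lit 4473829829) (nat_lit 247) (nat_lit 5) (nat_lit 251) (nat_lit 5) (nat_lit 252) (nat_lit 5) (nat_lit 389) (nat_lit 328) (nat_lit 303)) (XT.nd (nat_lit 78) (nat_lit 380) (nat_lit 0) (XT.lf (nat_lit 0) (nat_lit 2079150679) (nat_lit 380) (nat_lit 6461577914) (nat_lit 456) (nat_lit 825073957) (nat_lit 242) (nat_lit 5) (nat_lit 247) (nat_lit 5) (nat_lit 248) (nat_lit 5) (nat_lit 390) (nat_lit 328) (nat_lit 302)) (XT.lf (nat_lit 0) (nat_lit 50234943) (nat_lit 304) (nat_lit 2814498831) (nat_lit 380) (nat_lit 6632695157) (nat_lit 237) (nat_lit 5) (nat_lit 241) (nat_lit 5) (nat_lit 242) (nat_lit 5) (nat_lit 391) (nat_lit 328) (nat_lit 301)))) (XT.nd (nat_lit 78) (nat_lit 684) (nat_lit 0) (XT.lf (nat_lit 0) (nat_lit 6660759485) (nat_lit 380) (nat_lit 2000419911) (nat_lit 76) (nat_lit 971216428) (nat_lit 237) (nat_lit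 5) (nat_lit 242) (nat_lit 5) (nat_lit 238) (nat_lit 5) (nat_lit 392) (nat_lit 328) (nat_lit 300)) (XT.nd (nat_lit 78) (nat_lit 304) (nat_lit 0) (XT.lf (nat_lit 0) (nat_lit 796752687) (nat_lit 380) (nat_lit 4131865059) (nat_lit 76) (nat_lit 4842170648) (nat_lit 232) (nat_lit 5) (nat_lit 237) (nat_lit 5) (nat_lit 233) (nat_lit 5) (nat_lit 393) (nat_lit 328) (nat_lit 299)) (XT.lf (nat_lit 0) (nat_lit 3570320102) (nat_lit 304) (nat_lit 1034024270) (nat_lit 380) (nat_lit 5308529367) (nat_lit 228) (nat_lit 5) (nat_lit 232) (nat_lit 5) (nat_lit 233) (nat_lit 5) (nat_lit 394) (nat_lit 328) (nat_lit 298)))))) (XT.nd (nat_lit 468) (nat_lit 1064) (nat_lit 0) (XT.nd (nat_lit 234) (nat_lit 912) (nat_lit 0) (XT.nd (nat_lit 78) (nat_lit 304) (nat_lit 0) (XT.lf (nat_lit 0) (nat_lit 1422928669) (nat_lit 304) (nat_lit 7119477954) (nat_lit 380) (nat_lit 1516327735) (nat_lit 224) (nat_lit 5) (nat_lit 228) (nat_lit 5) (nat_lit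 229) (nat_lit 5) (nat_lit 395) (nat_lit 328) (nat_lit 297)) (XT.nd (nat_lit 78) (nat_lit 228) (nat_lit 0) (XT.lf (nat_lit 0) (nat_lit 2350046819) (nat_lit 380) (nat_lit 795915324) (nat_lit 76) (nat_lit 7062108414) (nat_lit 223) (nat_lit 5) (nat_lit 228) (nat_lit 5) (nat_lit 224) (nat_lit 5) (nat_lit 396) (nat_lit 328) (nat_lit 296)) (XT.lf (nat_lit 0) (nat_lit 6315820372) (nat_lit 304) (nat_lit 3067534371) (nat_lit 76) (nat_lit 977665169) (nat_lit 220) (nat_lit 5) (nat_lit 224) (nat_lit 5) (nat_lit 221) (nat_lit 5) (nat_lit 397) (nat_lit 328) (nat_lit 295)))) (XT.nd (nat_lit 78) (nat_lit 608) (nat_lit 0) (XT.lf (nat_lit 0) (nat_lit 5087726766) (nat_lit 304) (nat_lit 5335684047) (nat_lit 380) (nat_lit 94461625) (nat_lit 216) (nat_lit 5) (nat_lit 220) (nat_lit 5) (nat_lit 221) (nat_lit 5) (nat_lit 398) (nat_lit 328) (nat_lit 294)) (XT.nd (nat_lit 78) (nat_lit 304) (nat_lit 0) (XT.lf (nat_lit 0) (nat_lit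 2783661532) (nat_lit 228) (nat_lit 1106563831) (nat_lit 304) (nat_lit 6788269244) (nat_lit 212) (nat_lit 5) (nat_lit 215) (nat_lit 5) (nat_lit 216) (nat_lit 5) (nat_lit 399) (nat_lit 328) (nat_lit 293)) (XT.lf (nat_lit 0) (nat_lit 382967509) (nat_lit 304) (nat_lit 7635357263) (nat_lit 380) (nat_lit 2824809498) (nat_lit 208) (nat_lit 5) (nat_lit 212) (nat_lit 5) (nat_lit 213) (nat_lit 5) (nat_lit 400) (nat_lit 328) (nat_lit 292))))) (XT.nd (nat_lit 234) (nat_lit 532) (nat_lit 0) (XT.nd (nat_lit 78) (nat_lit 456) (nat_lit 0) (XT.lf (nat_lit 0) (nat_lit 1260211876) (nat_lit 380) (nat_lit 2068166529) (nat_lit 76) (nat_lit 7683156151) (nat_lit 207) (nat_lit 5) (nat_lit 212) (nat_lit 5) (nat_lit 208) (nat_lit 5) (nat_lit 401) (nat_lit 328) (nat_lit 291)) (XT.nd (nat_lit 78) (nat_lit 228) (nat_lit 0) (XT.lf (nat_lit 0) (nat_lit 5422974827) (nat_lit 304) (nat_lit 4621280785) (nat_lit 76) (nat_lit 1139533182)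 (nat_lit 204) (nat_lit 5) (nat_lit 208) (nat_lit 5) (nat_lit 205) (nat_lit 5) (nat_lit 402) (nat_lit 328) (nat_lit 290)) (XT.lf (nat_lit 0) (nat_lit 4077966502) (nat_lit 228) (nat_lit 5663970366) (nat_lit 304) (nat_lit 1618334304) (nat_lit 201) (nat_lit 5) (nat_lit 204) (nat_lit 5) (nat_lit 205) (nat_lit 5) (nat_lit 403) (nat_lit 328) (nat_lit 289)))) (XT.nd (nat_lit 78) (nat_lit 228) (nat_lit 0) (XT.lf (nat_lit 0) (nat_lit 1492899636) (nat_lit 228) (nat_lit 1103613822) (nat_lit 304) (nat_lit 8944777599) (nat_lit 197) (nat_lit 5) (nat_lit 200) (nat_lit 5) (nat_lit 201) (nat_lit 5) (nat_lit 404) (nat_lit 328) (nat_lit 288)) (XT.nd (nat_lit 78) (nat_lit 228) (nat_lit 0) (XT.lf (nat_lit 0) (nat_lit 6952813157) (nat_lit 304) (nat_lit 1199206273) (nat_lit 76) (nat_lit 3573815413) (nat_lit 197) (nat_lit 5) (nat_lit 201) (nat_lit 5) (nat_lit 198) (nat_lit 5) (nat_lit 405) (nat_lit 328) (nat_lit 287)) (XT.lf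 (nat_lit 0) (nat_lit 7959836733) (nat_lit 228) (nat_lit 3507916412) (nat_lit 304) (nat_lit 447323259) (nat_lit 194) (nat_lit 5) (nat_lit 197) (nat_lit 5) (nat_lit 198) (nat_lit 5) (nat_lit 406) (nat_lit 328) (nat_lit 286))))))) (XT.nd (nat_lit 936) (nat_lit 1596) (nat_lit 0) (XT.nd (nat_lit 468) (nat_lit 836) (nat_lit 0) (XT.nd (nat_lit 234) (nat_lit 608) (nat_lit 0) (XT.nd (nat_lit 78) (nat_lit 304) (nat_lit 0) (XT.lf (nat_lit 0) (nat_lit 3946427017) (nat_lit 304) (nat_lit 6848977088) (nat_lit 76) (nat_lit 1312940415) (nat_lit 190) (nat_lit 5) (nat_lit 194) (nat_lit 5) (nat_lit 191) (nat_lit 5) (nat_lit 407) (nat_lit 328) (nat_lit 285)) (XT.nd (nat_lit 78) (nat_lit 76) (nat_lit 0) (XT.lf (nat_lit 0) (nat_lit 2432594224) (nat_lit 228) (nat_lit 6069946589) (nat_lit 304) (nat_lit 3803550746) (nat_lit 187) (nat_lit 5) (nat_lit 190) (nat_lit 5) (nat_lit 191) (nat_lit 5) (nat_lit 408) (nat_lit 328) (nat_lit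 284)) (XT.lf (nat_lit 0) (nat_lit 683308391) (nat_lit 304) (nat_lit 482740591) (nat_lit 76) (nat_lit 11343190747) (nat_lit 186) (nat_lit 5) (nat_lit 190) (nat_lit 5) (nat_lit 187) (nat_lit 5) (nat_lit 409) (nat_lit 328) (nat_lit 283)))) (XT.nd (nat_lit 78) (nat_lit 456) (nat_lit 0) (XT.lf (nat_lit 0) (nat_lit 5298280403) (nat_lit 228) (nat_lit 3520171248) (nat_lit 76) (nat_lit 3896802284) (nat_lit 184) (nat_lit 5) (nat_lit 187) (nat_lit 5) (nat_lit 185) (nat_lit 5) (nat_lit 410) (nat_lit 328) (nat_lit 282)) (XT.nd (nat_lit 78) (nat_lit 228) (nat_lit 0) (XT.lf (nat_lit 0) (nat_lit 6258176991) (nat_lit 228) (nat_lit 3813472886) (nat_lit 304) (nat_lit 2855200241) (nat_lit 181) (nat_lit 5) (nat_lit 184) (nat_lit 5) (nat_lit 185) (nat_lit 5) (nat_lit 411) (nat_lit 328) (nat_lit 281)) (XT.lf (nat_lit 0) (nat_lit 1830971573) (nat_lit 228) (nat_lit 9952867414) (nat_lit 76) (nat_lit 1359718080) (nat_lit 178)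 (nat_lit 5) (nat_lit 181) (nat_lit 5) (nat_lit 179) (nat_lit 5) (nat_lit 412) (nat_lit 328) (nat_lit 280))))) (XT.nd (nat_lit 234) (nat_lit 380) (nat_lit 0) (XT.nd (nat_lit 78) (nat_lit 456) (nat_lit 0) (XT.lf (nat_lit 0) (nat_lit 6649901600) (nat_lit 228) (nat_lit 47559458) (nat_lit 76) (nat_lit 6666969293) (nat_lit 178) (nat_lit 5) (nat_lit 181) (nat_lit 5) (nat_lit 179) (nat_lit 5) (nat_lit 413) (nat_lit 328) (nat_lit 279)) (XT.nd (nat_lit 78) (nat_lit 228) (nat_lit 0) (XT.lf (nat_lit 0) (nat_lit 10259321700) (nat_lit 228) (nat_lit 1398129072) (nat_lit 304) (nat_lit 1933157525) (nat_lit 175) (nat_lit 5) (nat_lit 178) (nat_lit 5) (nat_lit 179) (nat_lit 5) (nat_lit 414) (nat_lit 328) (nat_lit 278)) (XT.lf (nat_lit 0) (nat_lit 2986853317) (nat_lit 228) (nat_lit 6795859610) (nat_lit 76) (nat_lit 4038388632) (nat_lit 172) (nat_lit 5) (nat_lit 175) (nat_lit 5) (nat_lit 173) (nat_lit 5) (nat_lit 415) (nat_lit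 328) (nat_lit 277)))) (XT.nd (nat_lit 78) (nat_lit 228) (nat_lit 0) (XT.lf (nat_lit 0) (nat_lit 3644860113) (nat_lit 152) (nat_lit 4399454011) (nat_lit 228) (nat_lit 6012760165) (nat_lit 170) (nat_lit 5) (nat_lit 172) (nat_lit 5) (nat_lit 173) (nat_lit 5) (nat_lit 416) (nat_lit 328) (nat_lit 276)) (XT.nd (nat_lit 78) (nat_lit 76) (nat_lit 0) (XT.lf (nat_lit 0) (nat_lit 134516476) (nat_lit 152) (nat_lit 13146701060) (nat_lit 228) (nat_lit 1018077100) (nat_lit 168) (nat_lit 5) (nat_lit 170) (nat_lit 5) (nat_lit 171) (nat_lit 4) (nat_lit 417) (nat_lit 328) (nat_lit 275)) (XT.lf (nat_lit 0) (nat_lit 4141903901) (nat_lit 228) (nat_lit 3515390322) (nat_lit 76) (nat_lit 6887418017) (nat_lit 167) (nat_lit 5) (nat_lit 170) (nat_lit 5) (nat_lit 168) (nat_lit 5) (nat_lit 418) (nat_lit 328) (nat_lit 274)))))) (XT.nd (nat_lit 468) (nat_lit 684) (nat_lit 0) (XT.nd (nat_lit 234) (nat_lit 532) (nat_lit 0) (XT.nd (nat_lit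 78) (nat_lit 228) (nat_lit 0) (XT.lf (nat_lit 0) (nat_lit 7495897996) (nat_lit 152) (nat_lit 1960181444) (nat_lit 228) (nat_lit 5340514807) (nat_lit 165) (nat_lit 5) (nat_lit 167) (nat_lit 5) (nat_lit 168) (nat_lit 5) (nat_lit 419) (nat_lit 328) (nat_lit 273)) (XT.nd (nat_lit 78) (nat_lit 76) (nat_lit 0) (XT.lf (nat_lit 0) (nat_lit 3796788145) (nat_lit 152) (nat_lit 11190836966) (nat_lit 228) (nat_lit 66669257) (nat_lit 163) (nat_lit 5) (nat_lit 165) (nat_lit 5) (nat_lit 166) (nat_lit 4) (nat_lit 420) (nat_lit 328) (nat_lit 272)) (XT.lf (nat_lit 0) (nat_lit 5302697559) (nat_lit 228) (nat_lit 106487211) (nat_lit 76) (nat_lit 9907733340) (nat_lit 162) (nat_lit 5) (nat_lit 165) (nat_lit 5) (nat_lit 163) (nat_lit 5) (nat_lit 421) (nat_lit 328) (nat_lit 271)))) (XT.nd (nat_lit 78) (nat_lit 380) (nat_lit 0) (XT.lf (nat_lit 0) (nat_lit 10898072016) (nat_lit 228) (nat_lit 4079883899) (nat_lit 76) (nat_lit 607456848)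 (nat_lit 160) (nat_lit 5) (nat_lit 163) (nat_lit 5) (nat_lit 161) (nat_lit 4) (nat_lit 422) (nat_lit 328) (nat_lit 270)) (XT.nd (nat_lit 78) (nat_lit 152) (nat_lit 0) (XT.lf (nat_lit 0) (nat_lit 862164742) (nat_lit 228) (nat_lit 8258583686) (nat_lit 76) (nat_lit 6738630793) (nat_lit 157) (nat_lit 5) (nat_lit 160) (nat_lit 5) (nat_lit 158) (nat_lit 5) (nat_lit 423) (nat_lit 328) (nat_lit 269)) (XT.lf (nat_lit 0) (nat_lit 3505103663) (nat_lit 152) (nat_lit 3004098058) (nat_lit 228) (nat_lit 9630212954) (nat_lit 155) (nat_lit 5) (nat_lit 157) (nat_lit 5) (nat_lit 158) (nat_lit 5) (nat_lit 424) (nat_lit 328) (nat_lit 268))))) (XT.nd (nat_lit 234) (nat_lit 304) (nat_lit 0) (XT.nd (nat_lit 78) (nat_lit 380) (nat_lit 0) (XT.lf (nat_lit 0) (nat_lit 12391699720) (nat_lit 228) (nat_lit 758728517) (nat_lit 76) (nat_lit 3275441457) (nat_lit 155) (nat_lit 5) (nat_lit 158) (nat_lit 5) (nat_lit 156) (nat_lit 4) (nat_lit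 425) (nat_lit 328) (nat_lit 267)) (XT.nd (nat_lit 78) (nat_lit 152) (nat_lit 0) (XT.lf (nat_lit 0) (nat_lit 1789574200) (nat_lit 228) (nat_lit 5155523655) (nat_lit 76) (nat_lit 9772514478) (nat_lit 152) (nat_lit 5) (nat_lit 155) (nat_lit 5) (nat_lit 153) (nat_lit 5) (nat_lit 426) (nat_lit 328) (nat_lit 266)) (XT.lf (nat_lit 0) (nat_lit 7262632316) (nat_lit 152) (nat_lit 473550263) (nat_lit 228) (nat_lit 9279849361) (nat_lit 150) (nat_lit 5) (nat_lit 152) (nat_lit 5) (nat_lit 153) (nat_lit 5) (nat_lit 427) (nat_lit 328) (nat_lit 265)))) (XT.nd (nat_lit 78) (nat_lit 228) (nat_lit 0) (XT.lf (nat_lit 0) (nat_lit 2741183408) (nat_lit 76) (nat_lit 11210305662) (nat_lit 152) (nat_lit 3369206070) (nat_lit 149) (nat_lit 5) (nat_lit 150) (nat_lit 5) (nat_lit 151) (nat_lit 4) (nat_lit 428) (nat_lit 328) (nat_lit 264)) (XT.nd (nat_lit 78) (nat_lit 152) (nat_lit 0) (XT.lf (nat_lit 0) (nat_lit 2721788667) (nat_lit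 152) (nat_lit 1942325024) (nat_lit 76) (nat_lit 12967917969) (nat_lit 148) (nat_lit 5) (nat_lit 150) (nat_lit 5) (nat_lit 149) (nat_lit 5) (nat_lit 429) (nat_lit 328) (nat_lit 263)) (XT.lf (nat_lit 0) (nat_lit 9009501908) (nat_lit 228) (nat_lit 6799168050) (nat_lit 76) (nat_lit 2140586371) (nat_lit 146) (nat_lit 5) (nat_lit 149) (nat_lit 5) (nat_lit 147) (nat_lit 4) (nat_lit 430) (nat_lit 328) (nat_lit 262))))))))
noncomputable def xc30 : XT := (XT.nd (nat_lit 49062) (nat_lit 0) (nat_lit 5016) (XT.nd (nat_lit 48126) (nat_lit 0) (nat_lit 12160) (XT.nd (nat_lit 390) (nat_lit 0) (nat_lit 0) (XT.nd (nat_lit 156) (nat_lit 304) (nat_lit 0) (XT.nd (nat_lit 78) (nat_lit 228) (nat_lit 0) (XT.lf (nat_lit 0) (nat_lit 6390954209) (nat_lit 76) (nat_lit 9175792495) (nat_lit 152) (nat_lit 2706824031) (nat_lit 145) (nat_lit 5) (nat_lit 146) (nat_lit 5) (nat_lit 147) (nat_lit 4) (nat_lit 431) (nat_lit 328) (nat_lit 261))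 (XT.lf (nat_lit 0) (nat_lit 1414701103) (nat_lit 152) (nat_lit 2262424415) (nat_lit 228) (nat_lit 14928323664) (nat_lit 142) (nat_lit 5) (nat_lit 144) (nat_lit 5) (nat_lit 145) (nat_lit 5) (nat_lit 432) (nat_lit 328) (nat_lit 260))) (XT.nd (nat_lit 78) (nat_lit 304) (nat_lit 0) (XT.lf (nat_lit 0) (nat_lit 10319755315) (nat_lit 228) (nat_lit 3751123368) (nat_lit 76) (nat_lit 4871954307) (nat_lit 142) (nat_lit 5) (nat_lit 145) (nat_lit 5) (nat_lit 143) (nat_lit 4) (nat_lit 433) (nat_lit 328) (nat_lit 259)) (XT.nd (nat_lit 78) (nat_lit 228) (nat_lit 0) (XT.lf (nat_lit 0) (nat_lit 10183274321) (nat_lit 76) (nat_lit 7053712449) (nat_lit 152) (nat_lit 2051091858) (nat_lit 141) (nat_lit 5) (nat_lit 142) (nat_lit 5) (nat_lit 143) (nat_lit 4) (nat_lit 434) (nat_lit 328) (nat_lit 258)) (XT.lf (nat_lit 0) (nat_lit 4669371821) (nat_lit 228) (nat_lit 14707832997) (nat_lit 76) (nat_lit 263814698) (nat_lit 138) (nat_lit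 5) (nat_lit 141) (nat_lit 5) (nat_lit 139) (nat_lit 4) (nat_lit 435) (nat_lit 328) (nat_lit 257))))) (XT.nd (nat_lit 47502) (nat_lit 0) (nat_lit 17860) (XT.nd (nat_lit 47346) (nat_lit 0) (nat_lit 20292) (XT.lf (nat_lit 0) (nat_lit 11668132358) (nat_lit 228) (nat_lit 598802029) (nat_lit 76) (nat_lit 7733467773) (nat_lit 138) (nat_lit 5) (nat_lit 141) (nat_lit 5) (nat_lit 139) (nat_lit 4) (nat_lit 436) (nat_lit 328) (nat_lit 256)) (XT.nd (nat_lit 78) (nat_lit 1140) (nat_lit 0) (XT.lf (nat_lit 0) (nat_lit 2027433750) (nat_lit 988) (nat_lit 724507910) (nat_lit 988) (nat_lit 724507910) (nat_lit 420) (nat_lit 4) (nat_lit 433) (nat_lit 5) (nat_lit 433) (nat_lit 4) (nat_lit 362) (nat_lit 329) (nat_lit 329)) (XT.lf (nat_lit 0) (nat_lit 2010585070) (nat_lit 1140) (nat_lit 4816783910) (nat_lit 0) (nat_lit 173565195) (nat_lit 405) (nat_lit 5) (nat_lit 420) (nat_lit 4) (nat_lit 405) (nat_lit 4) (nat_lit 363) (nat_lit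 329) (nat_lit 328)))) (XT.nd (nat_lit 78) (nat_lit 1292) (nat_lit 0) (XT.lf (nat_lit 0) (nat_lit 301995653) (nat_lit 1140) (nat_lit 5185125202) (nat_lit 1140) (nat_lit 1564590884) (nat_lit 390) (nat_lit 4) (nat_lit 405) (nat_lit 5) (nat_lit 405) (nat_lit 4) (nat_lit 364) (nat_lit 329) (nat_lit 327)) (XT.nd (nat_lit 78) (nat_lit 1216) (nat_lit 0) (XT.lf (nat_lit 0) (nat_lit 1871249087) (nat_lit 1216) (nat_lit 1553466091) (nat_lit 76) (nat_lit 3680362119) (nat_lit 389) (nat_lit 5) (nat_lit 405) (nat_lit 5) (nat_lit 390) (nat_lit 4) (nat_lit 365) (nat_lit 329) (nat_lit 326)) (XT.lf (nat_lit 0) (nat_lit 3754868467) (nat_lit 1216) (nat_lit 1559468292) (nat_lit 1292) (nat_lit 1847173753) (nat_lit 373) (nat_lit 5) (nat_lit 389) (nat_lit 5) (nat_lit 390) (nat_lit 4) (nat_lit 366) (nat_lit 329) (nat_lit 325)))))) (XT.nd (nat_lit 468) (nat_lit 2280) (nat_lit 0) (XT.nd (nat_lit 234) (nat_lit 1824) (nat_lit 0) (XT.nd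 (nat_lit 78) (nat_lit 684) (nat_lit 0) (XT.lf (nat_lit 0) (nat_lit 1548145784) (nat_lit 912) (nat_lit 5270277185) (nat_lit 76) (nat_lit 402567839) (nat_lit 361) (nat_lit 5) (nat_lit 373) (nat_lit 5) (nat_lit 362) (nat_lit 4) (nat_lit 367) (nat_lit 329) (nat_lit 324)) (XT.nd (nat_lit 78) (nat_lit 76) (nat_lit 0) (XT.lf (nat_lit 0) (nat_lit 121245253) (nat_lit 608) (nat_lit 4840692484) (nat_lit 684) (nat_lit 2321156936) (nat_lit 353) (nat_lit 5) (nat_lit 361) (nat_lit 5) (nat_lit 362) (nat_lit 4) (nat_lit 368) (nat_lit 329) (nat_lit 323)) (XT.lf (nat_lit 0) (nat_lit 1066049768) (nat_lit 684) (nat_lit 1679666634) (nat_lit 76) (nat_lit 4602307887) (nat_lit 352) (nat_lit 5) (nat_lit 361) (nat_lit 5) (nat_lit 353) (nat_lit 5) (nat_lit 369) (nat_lit 329) (nat_lit 322)))) (XT.nd (nat_lit 78) (nat_lit 1216) (nat_lit 0) (XT.lf (nat_lit 0) (nat_lit 3918175193) (nat_lit 608) (nat_lit 533818188) (nat_lit 684) (nat_lit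 2963905750) (nat_lit 344) (nat_lit 5) (nat_lit 352) (nat_lit 5) (nat_lit 353) (nat_lit 5) (nat_lit 370) (nat_lit 329) (nat_lit 321)) (XT.nd (nat_lit 78) (nat_lit 608) (nat_lit 0) (XT.lf (nat_lit 0) (nat_lit 406867803) (nat_lit 608) (nat_lit 5336700392) (nat_lit 76) (nat_lit 1743250701) (nat_lit 336) (nat_lit 5) (nat_lit 344) (nat_lit 5) (nat_lit 337) (nat_lit 5) (nat_lit 371) (nat_lit 329) (nat_lit 320)) (XT.lf (nat_lit 0) (nat_lit 347330775) (nat_lit 608) (nat_lit 3424739276) (nat_lit 684) (nat_lit 3788329523) (nat_lit 328) (nat_lit 5) (nat_lit 336) (nat_lit 5) (nat_lit 337) (nat_lit 5) (nat_lit 372) (nat_lit 329) (nat_lit 319))))) (XT.nd (nat_lit 234) (nat_lit 1140) (nat_lit 0) (XT.nd (nat_lit 78) (nat_lit 1140) (nat_lit 0) (XT.lf (nat_lit 0) (nat_lit 6207551274) (nat_lit 608) (nat_lit 994815943) (nat_lit 684) (nat_lit 434896290) (nat_lit 328) (nat_lit 5) (nat_lit 336) (nat_lit 5) (nat_lit 337) (nat_lit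 5) (nat_lit 373) (nat_lit 329) (nat_lit 318)) (XT.nd (nat_lit 78) (nat_lit 532) (nat_lit 0) (XT.lf (nat_lit 0) (nat_lit 2930391309) (nat_lit 608) (nat_lit 3248834096) (nat_lit 76) (nat_lit 1537232328) (nat_lit 320) (nat_lit 5) (nat_lit 328) (nat_lit 5) (nat_lit 321) (nat_lit 5) (nat_lit 374) (nat_lit 329) (nat_lit 317)) (XT.lf (nat_lit 0) (nat_lit 2708239466) (nat_lit 532) (nat_lit 3643563519) (nat_lit 608) (nat_lit 1447178431) (nat_lit 313) (nat_lit 5) (nat_lit 320) (nat_lit 5) (nat_lit 321) (nat_lit 5) (nat_lit 375) (nat_lit 329) (nat_lit 316)))) (XT.nd (nat_lit 78) (nat_lit 608) (nat_lit 0) (XT.lf (nat_lit 0) (nat_lit 921544841) (nat_lit 456) (nat_lit 987586352) (nat_lit 532) (nat_lit 5975591492) (nat_lit 306) (nat_lit 5) (nat_lit 312) (nat_lit 5) (nat_lit 313) (nat_lit 5) (nat_lit 376) (nat_lit 329) (nat_lit 315)) (XT.nd (nat_lit 78) (nat_lit 608) (nat_lit 0) (XT.lf (nat_lit 0) (nat_lit 5321216602)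 (nat_lit 532) (nat_lit 890492741) (nat_lit 76) (nat_lit 1761371795) (nat_lit 306) (nat_lit 5) (nat_lit 313) (nat_lit 5) (nat_lit 307) (nat_lit 5) (nat_lit 377) (nat_lit 329) (nat_lit 314)) (XT.lf (nat_lit 0) (nat_lit 735494749) (nat_lit 608) (nat_lit 2715638663) (nat_lit 76) (nat_lit 4613365124) (nat_lit 298) (nat_lit 5) (nat_lit 306) (nat_lit 5) (nat_lit 299) (nat_lit 5) (nat_lit 378) (nat_lit 329) (nat_lit 313))))))) (XT.nd (nat_lit 936) (nat_lit 3268) (nat_lit 0) (XT.nd (nat_lit 468) (nat_lit 1596) (nat_lit 0) (XT.nd (nat_lit 234) (nat_lit 1292) (nat_lit 0) (XT.nd (nat_lit 78) (nat_lit 532) (nat_lit 0) (XT.lf (nat_lit 0) (nat_lit 3575237607) (nat_lit 456) (nat_lit 557916112) (nat_lit 532) (nat_lit 4025857693) (nat_lit 292) (nat_lit 5) (nat_lit 298) (nat_lit 5) (nat_lit 299) (nat_lit 5) (nat_lit 379) (nat_lit 329) (nat_lit 312)) (XT.nd (nat_lit 78) (nat_lit 76) (nat_lit 0) (XT.lf (nat_lit 0) (nat_lit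 1761168490) (nat_lit 456) (nat_lit 5859183853) (nat_lit 532) (nat_lit 636379034) (nat_lit 286) (nat_lit 5) (nat_lit 292) (nat_lit 5) (nat_lit 293) (nat_lit 5) (nat_lit 380) (nat_lit 329) (nat_lit 311)) (XT.lf (nat_lit 0) (nat_lit 2771611086) (nat_lit 532) (nat_lit 104172944) (nat_lit 76) (nat_lit 5481599627) (nat_lit 285) (nat_lit 5) (nat_lit 292) (nat_lit 5) (nat_lit 286) (nat_lit 5) (nat_lit 381) (nat_lit 329) (nat_lit 310)))) (XT.nd (nat_lit 78) (nat_lit 912) (nat_lit 0) (XT.lf (nat_lit 0) (nat_lit 6256432052) (nat_lit 456) (nat_lit 1966322082) (nat_lit 76) (nat_lit 238490896) (nat_lit 280) (nat_lit 5) (nat_lit 286) (nat_lit 5) (nat_lit 281) (nat_lit 5) (nat_lit 382) (nat_lit 329) (nat_lit 309)) (XT.nd (nat_lit 78) (nat_lit 380) (nat_lit 0) (XT.lf (nat_lit 0) (nat_lit 1250835067) (nat_lit 532) (nat_lit 3894806291) (nat_lit 76) (nat_lit 3422266767) (nat_lit 273) (nat_lit 5) (nat_lit 280) (nat_lit 5)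 (nat_lit 274) (nat_lit 5) (nat_lit 383) (nat_lit 329) (nat_lit 308)) (XT.lf (nat_lit 0) (nat_lit 2803873638) (nat_lit 380) (nat_lit 1933098069) (nat_lit 456) (nat_lit 3941010500) (nat_lit 268) (nat_lit 5) (nat_lit 273) (nat_lit 5) (nat_lit 274) (nat_lit 5) (nat_lit 384) (nat_lit 329) (nat_lit 307))))) (XT.nd (nat_lit 234) (nat_lit 760) (nat_lit 0) (XT.nd (nat_lit 78) (nat_lit 456) (nat_lit 0) (XT.lf (nat_lit 0) (nat_lit 892365185) (nat_lit 380) (nat_lit 7421932515) (nat_lit 456) (nat_lit 477462655) (nat_lit 263) (nat_lit 5) (nat_lit 268) (nat_lit 5) (nat_lit 269) (nat_lit 5) (nat_lit 385) (nat_lit 329) (nat_lit 306)) (XT.nd (nat_lit 78) (nat_lit 380) (nat_lit 0) (XT.lf (nat_lit 0) (nat_lit 3034277707) (nat_lit 456) (nat_lit 1079420323) (nat_lit 76) (nat_lit 4794225242) (nat_lit 262) (nat_lit 5) (nat_lit 268) (nat_lit 5) (nat_lit 263) (nat_lit 5) (nat_lit 386) (nat_lit 329) (nat_lit 305)) (XT.lf (nat_lit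 0) (nat_lit 5954617761) (nat_lit 380) (nat_lit 672103273) (nat_lit 456) (nat_lit 2401159803) (nat_lit 257) (nat_lit 5) (nat_lit 262) (nat_lit 5) (nat_lit 263) (nat_lit 5) (nat_lit 387) (nat_lit 329) (nat_lit 304)))) (XT.nd (nat_lit 78) (nat_lit 304) (nat_lit 0) (XT.lf (nat_lit 0) (nat_lit 1158426491) (nat_lit 456) (nat_lit 5144084951) (nat_lit 76) (nat_lit 2848410772) (nat_lit 251) (nat_lit 5) (nat_lit 257) (nat_lit 5) (nat_lit 252) (nat_lit 5) (nat_lit 388) (nat_lit 329) (nat_lit 303)) (XT.nd (nat_lit 78) (nat_lit 0) (nat_lit 0) (XT.lf (nat_lit 0) (nat_lit 1990463253) (nat_lit 304) (nat_lit 2772166499) (nat_lit 380) (nat_lit 4514729155) (nat_lit 247) (nat_lit 5) (nat_lit 251) (nat_lit 5) (nat_lit 252) (nat_lit 5) (nat_lit 389) (nat_lit 329) (nat_lit 302)) (XT.lf (nat_lit 0) (nat_lit 8465461649) (nat_lit 380) (nat_lit 74387950) (nat_lit 76) (nat_lit 868024026) (nat_lit 247) (nat_lit 5) (nat_lit 252)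 (nat_lit 5) (nat_lit 248) (nat_lit 5) (nat_lit 390) (nat_lit 329) (nat_lit 301)))))) (XT.nd (nat_lit 468) (nat_lit 1444) (nat_lit 0) (XT.nd (nat_lit 234) (nat_lit 684) (nat_lit 0) (XT.nd (nat_lit 78) (nat_lit 684) (nat_lit 0) (XT.lf (nat_lit 0) (nat_lit 2714036460) (nat_lit 456) (nat_lit 2198153160) (nat_lit 76) (nat_lit 4628413693) (nat_lit 241) (nat_lit 5) (nat_lit 247) (nat_lit 5) (nat_lit 242) (nat_lit 5) (nat_lit 391) (nat_lit 329) (nat_lit 300)) (XT.nd (nat_lit 78) (nat_lit 380) (nat_lit 0) (XT.lf (nat_lit 0) (nat_lit 5298720923) (nat_lit 304) (nat_lit 1146352683) (nat_lit 380) (nat_lit 3232446258) (nat_lit 237) (nat_lit 5) (nat_lit 241) (nat_lit 5) (nat_lit 242) (nat_lit 5) (nat_lit 392) (nat_lit 329) (nat_lit 299)) (XT.lf (nat_lit 0) (nat_lit 472551804) (nat_lit 380) (nat_lit 6641592642) (nat_lit 76) (nat_lit 2703897609) (nat_lit 232) (nat_lit 5) (nat_lit 237) (nat_lit 5) (nat_lit 233) (nat_lit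 5) (nat_lit 393) (nat_lit 329) (nat_lit 298)))) (XT.nd (nat_lit 78) (nat_lit 380) (nat_lit 0) (XT.lf (nat_lit 0) (nat_lit 959205354) (nat_lit 304) (nat_lit 3262913691) (nat_lit 380) (nat_lit 5739749088) (nat_lit 228) (nat_lit 5) (nat_lit 232) (nat_lit 5) (nat_lit 233) (nat_lit 5) (nat_lit 394) (nat_lit 329) (nat_lit 297)) (XT.nd (nat_lit 78) (nat_lit 380) (nat_lit 0) (XT.lf (nat_lit 0) (nat_lit 8092463725) (nat_lit 380) (nat_lit 1294267145) (nat_lit 76) (nat_lit 723029410) (nat_lit 228) (nat_lit 5) (nat_lit 233) (nat_lit 5) (nat_lit 229) (nat_lit 5) (nat_lit 395) (nat_lit 329) (nat_lit 296)) (XT.lf (nat_lit 0) (nat_lit 1813573735) (nat_lit 380) (nat_lit 3636229208) (nat_lit 76) (nat_lit 4810796402) (nat_lit 223) (nat_lit 5) (nat_lit 228) (nat_lit 5) (nat_lit 224) (nat_lit 5) (nat_lit 396) (nat_lit 329) (nat_lit 295))))) (XT.nd (nat_lit 234) (nat_lit 836) (nat_lit 0) (XT.nd (nat_lit 78) (nat_lit 380)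 (nat_lit 0) (XT.lf (nat_lit 0) (nat_lit 4356121027) (nat_lit 228) (nat_lit 1353790815) (nat_lit 304) (nat_lit 4705719923) (nat_lit 220) (nat_lit 5) (nat_lit 223) (nat_lit 5) (nat_lit 224) (nat_lit 5) (nat_lit 397) (nat_lit 329) (nat_lit 294)) (XT.nd (nat_lit 78) (nat_lit 76) (nat_lit 0) (XT.lf (nat_lit 0) (nat_lit 1998799756) (nat_lit 304) (nat_lit 7744752654) (nat_lit 380) (nat_lit 831150376) (nat_lit 216) (nat_lit 5) (nat_lit 220) (nat_lit 5) (nat_lit 221) (nat_lit 5) (nat_lit 398) (nat_lit 329) (nat_lit 293)) (XT.lf (nat_lit 0) (nat_lit 3110042100) (nat_lit 380) (nat_lit 459153649) (nat_lit 76) (nat_lit 7168077751) (nat_lit 215) (nat_lit 5) (nat_lit 220) (nat_lit 5) (nat_lit 216) (nat_lit 5) (nat_lit 399) (nat_lit 329) (nat_lit 292)))) (XT.nd (nat_lit 78) (nat_lit 608) (nat_lit 0) (XT.lf (nat_lit 0) (nat_lit 7175382753) (nat_lit 304) (nat_lit 2961728579) (nat_lit 76) (nat_lit 766684594) (nat_lit 212)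 (nat_lit 5) (nat_lit 216) (nat_lit 5) (nat_lit 213) (nat_lit 5) (nat_lit 400) (nat_lit 329) (nat_lit 291)) (XT.nd (nat_lit 78) (nat_lit 228) (nat_lit 0) (XT.lf (nat_lit 0) (nat_lit 314178521) (nat_lit 380) (nat_lit 5574559666) (nat_lit 76) (nat_lit 5185520472) (nat_lit 207) (nat_lit 5) (nat_lit 212) (nat_lit 5) (nat_lit 208) (nat_lit 5) (nat_lit 401) (nat_lit 329) (nat_lit 290)) (XT.lf (nat_lit 0) (nat_lit 2948136347) (nat_lit 228) (nat_lit 1452936156) (nat_lit 304) (nat_lit 6847716462) (nat_lit 204) (nat_lit 5) (nat_lit 207) (nat_lit 5) (nat_lit 208) (nat_lit 5) (nat_lit 402) (nat_lit 329) (nat_lit 289))))))))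
noncomputable def xc31 : XT := (XT.nd (nat_lit 1872) (nat_lit 1140) (nat_lit 0) (XT.nd (nat_lit 936) (nat_lit 1672) (nat_lit 0) (XT.nd (nat_lit 468) (nat_lit 1140) (nat_lit 0) (XT.nd (nat_lit 234) (nat_lit 532) (nat_lit 0) (XT.nd (nat_lit 78) (nat_lit 304) (nat_lit 0) (XT.lf (nat_lit 0) (nat_lit 289681990) (nat_lit 228) (nat_lit 8350352318) (nat_lit 304) (nat_lit 2787637043) (nat_lit 201) (nat_lit 5) (nat_lit 204) (nat_lit 5) (nat_lit 205) (nat_lit 5) (nat_lit 403) (nat_lit 329) (nat_lit 288)) (XT.nd (nat_lit 78) (nat_lit 228) (nat_lit 0) (XT.lf (nat_lit 0) (nat_lit 1406166311) (nat_lit 304) (nat_lit 2429740330) (nat_lit 76) (nat_lit 7774437648) (nat_lit 200) (nat_lit 5) (nat_lit 204) (nat_lit 5) (nat_lit 201) (nat_lit 5) (nat_lit 404) (nat_lit 329) (nat_lit 287)) (XT.lf (nat_lit 0) (nat_lit 5682839093) (nat_lit 304) (nat_lit 5262739298) (nat_lit 76) (nat_lit 851698491) (nat_lit 197) (nat_lit 5) (nat_lit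 201) (nat_lit 5) (nat_lit 198) (nat_lit 5) (nat_lit 405) (nat_lit 329) (nat_lit 286)))) (XT.nd (nat_lit 78) (nat_lit 304) (nat_lit 0) (XT.lf (nat_lit 0) (nat_lit 3766645540) (nat_lit 228) (nat_lit 6362373973) (nat_lit 304) (nat_lit 1859561717) (nat_lit 194) (nat_lit 5) (nat_lit 197) (nat_lit 5) (nat_lit 198) (nat_lit 5) (nat_lit 406) (nat_lit 329) (nat_lit 285)) (XT.nd (nat_lit 78) (nat_lit 0) (nat_lit 0) (XT.lf (nat_lit 0) (nat_lit 885976211) (nat_lit 228) (nat_lit 1592374428) (nat_lit 304) (nat_lit 9706407839) (nat_lit 190) (nat_lit 5) (nat_lit 193) (nat_lit 5) (nat_lit 194) (nat_lit 5) (nat_lit 407) (nat_lit 329) (nat_lit 284)) (XT.lf (nat_lit 0) (nat_lit 6967599851) (nat_lit 304) (nat_lit 2097484583) (nat_lit 76) (nat_lit 3319427022) (nat_lit 190) (nat_lit 5) (nat_lit 194) (nat_lit 5) (nat_lit 191) (nat_lit 5) (nat_lit 408) (nat_lit 329) (nat_lit 283))))) (XT.nd (nat_lit 234) (nat_lit 456) (nat_lit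 0) (XT.nd (nat_lit 78) (nat_lit 456) (nat_lit 0) (XT.lf (nat_lit 0) (nat_lit 7413936204) (nat_lit 228) (nat_lit 4209096064) (nat_lit 304) (nat_lit 966279581) (nat_lit 187) (nat_lit 5) (nat_lit 190) (nat_lit 5) (nat_lit 191) (nat_lit 5) (nat_lit 409) (nat_lit 329) (nat_lit 282)) (XT.nd (nat_lit 78) (nat_lit 228) (nat_lit 0) (XT.lf (nat_lit 0) (nat_lit 3563914879) (nat_lit 228) (nat_lit 8397021811) (nat_lit 76) (nat_lit 837777014) (nat_lit 184) (nat_lit 5) (nat_lit 187) (nat_lit 5) (nat_lit 185) (nat_lit 5) (nat_lit 410) (nat_lit 329) (nat_lit 281)) (XT.lf (nat_lit 0) (nat_lit 1236375547) (nat_lit 228) (nat_lit 7025529593) (nat_lit 304) (nat_lit 4750666123) (nat_lit 181) (nat_lit 5) (nat_lit 184) (nat_lit 5) (nat_lit 185) (nat_lit 5) (nat_lit 411) (nat_lit 329) (nat_lit 280)))) (XT.nd (nat_lit 78) (nat_lit 456) (nat_lit 0) (XT.lf (nat_lit 0) (nat_lit 11236516469) (nat_lit 228) (nat_lit 1894781112) (nat_lit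 304) (nat_lit 100633095) (nat_lit 181) (nat_lit 5) (nat_lit 184) (nat_lit 5) (nat_lit 185) (nat_lit 5) (nat_lit 412) (nat_lit 329) (nat_lit 279)) (XT.nd (nat_lit 78) (nat_lit 228) (nat_lit 0) (XT.lf (nat_lit 0) (nat_lit 4655409667) (nat_lit 228) (nat_lit 5390145062) (nat_lit 76) (nat_lit 3409223780) (nat_lit 178) (nat_lit 5) (nat_lit 181) (nat_lit 5) (nat_lit 179) (nat_lit 5) (nat_lit 413) (nat_lit 329) (nat_lit 278)) (XT.lf (nat_lit 0) (nat_lit 4763687323) (nat_lit 228) (nat_lit 4820346440) (nat_lit 304) (nat_lit 4099290445) (nat_lit 175) (nat_lit 5) (nat_lit 178) (nat_lit 5) (nat_lit 179) (nat_lit 5) (nat_lit 414) (nat_lit 329) (nat_lit 277)))))) (XT.nd (nat_lit 468) (nat_lit 912) (nat_lit 0) (XT.nd (nat_lit 234) (nat_lit 380) (nat_lit 0) (XT.nd (nat_lit 78) (nat_lit 152) (nat_lit 0) (XT.lf (nat_lit 0) (nat_lit 748089000) (nat_lit 228) (nat_lit 12582917704) (nat_lit 76) (nat_lit 586882446) (nat_lit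 172) (nat_lit 5) (nat_lit 175) (nat_lit 5) (nat_lit 173) (nat_lit 5) (nat_lit 415) (nat_lit 329) (nat_lit 276)) (XT.nd (nat_lit 78) (nat_lit 152) (nat_lit 0) (XT.lf (nat_lit 0) (nat_lit 5744616284) (nat_lit 228) (nat_lit 2259332259) (nat_lit 76) (nat_lit 6151741341) (nat_lit 172) (nat_lit 5) (nat_lit 175) (nat_lit 5) (nat_lit 173) (nat_lit 5) (nat_lit 416) (nat_lit 329) (nat_lit 275)) (XT.lf (nat_lit 0) (nat_lit 8448134515) (nat_lit 152) (nat_lit 2473073992) (nat_lit 228) (nat_lit 3478511062) (nat_lit 170) (nat_lit 5) (nat_lit 172) (nat_lit 5) (nat_lit 173) (nat_lit 5) (nat_lit 417) (nat_lit 329) (nat_lit 274)))) (XT.nd (nat_lit 78) (nat_lit 152) (nat_lit 0) (XT.lf (nat_lit 0) (nat_lit 1621069426) (nat_lit 228) (nat_lit 9820307528) (nat_lit 76) (nat_lit 3207722126) (nat_lit 167) (nat_lit 5) (nat_lit 170) (nat_lit 5) (nat_lit 168) (nat_lit 5) (nat_lit 418) (nat_lit 329) (nat_lit 273)) (XT.nd (nat_lit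 78) (nat_lit 0) (nat_lit 0) (XT.lf (nat_lit 0) (nat_lit 1019759782) (nat_lit 152) (nat_lit 5828268352) (nat_lit 228) (nat_lit 8055569459) (nat_lit 165) (nat_lit 5) (nat_lit 167) (nat_lit 5) (nat_lit 168) (nat_lit 5) (nat_lit 419) (nat_lit 329) (nat_lit 272)) (XT.lf (nat_lit 0) (nat_lit 12281040543) (nat_lit 228) (nat_lit 2868218668) (nat_lit 76) (nat_lit 14994501) (nat_lit 165) (nat_lit 5) (nat_lit 168) (nat_lit 5) (nat_lit 166) (nat_lit 4) (nat_lit 420) (nat_lit 329) (nat_lit 271))))) (XT.nd (nat_lit 234) (nat_lit 380) (nat_lit 0) (XT.nd (nat_lit 78) (nat_lit 304) (nat_lit 0) (XT.lf (nat_lit 0) (nat_lit 2487915381) (nat_lit 228) (nat_lit 6957038859) (nat_lit 76) (nat_lit 5984331421) (nat_lit 162) (nat_lit 5) (nat_lit 165) (nat_lit 5) (nat_lit 163) (nat_lit 5) (nat_lit 421) (nat_lit 329) (nat_lit 270)) (XT.nd (nat_lit 78) (nat_lit 152) (nat_lit 0) (XT.lf (nat_lit 0) (nat_lit 4480201743) (nat_lit 152)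 (nat_lit 3505463309) (nat_lit 228) (nat_lit 7715044005) (nat_lit 160) (nat_lit 5) (nat_lit 162) (nat_lit 5) (nat_lit 163) (nat_lit 5) (nat_lit 422) (nat_lit 329) (nat_lit 269)) (XT.lf (nat_lit 0) (nat_lit 316462912) (nat_lit 152) (nat_lit 13382304127) (nat_lit 228) (nat_lit 2279995522) (nat_lit 158) (nat_lit 5) (nat_lit 160) (nat_lit 5) (nat_lit 161) (nat_lit 4) (nat_lit 423) (nat_lit 329) (nat_lit 268)))) (XT.nd (nat_lit 78) (nat_lit 304) (nat_lit 0) (XT.lf (nat_lit 0) (nat_lit 3353905609) (nat_lit 228) (nat_lit 3988938295) (nat_lit 76) (nat_lit 8918340415) (nat_lit 157) (nat_lit 5) (nat_lit 160) (nat_lit 5) (nat_lit 158) (nat_lit 5) (nat_lit 424) (nat_lit 329) (nat_lit 267)) (XT.nd (nat_lit 78) (nat_lit 152) (nat_lit 0) (XT.lf (nat_lit 0) (nat_lit 8083371410) (nat_lit 152) (nat_lit 1058158972) (nat_lit 228) (nat_lit 7408955154) (nat_lit 155) (nat_lit 5) (nat_lit 157) (nat_lit 5) (nat_lit 158) (nat_lit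 5) (nat_lit 425) (nat_lit 329) (nat_lit 266)) (XT.lf (nat_lit 0) (nat_lit 3685231813) (nat_lit 152) (nat_lit 11498715915) (nat_lit 228) (nat_lit 1662083147) (nat_lit 153) (nat_lit 5) (nat_lit 155) (nat_lit 5) (nat_lit 156) (nat_lit 4) (nat_lit 426) (nat_lit 329) (nat_lit 265))))))) (XT.nd (nat_lit 48048) (nat_lit 0) (nat_lit 14364) (XT.nd (nat_lit 468) (nat_lit 532) (nat_lit 0) (XT.nd (nat_lit 234) (nat_lit 304) (nat_lit 0) (XT.nd (nat_lit 78) (nat_lit 228) (nat_lit 0) (XT.lf (nat_lit 0) (nat_lit 4224037991) (nat_lit 228) (nat_lit 911083575) (nat_lit 76) (nat_lit 12012595840) (nat_lit 152) (nat_lit 5) (nat_lit 155) (nat_lit 5) (nat_lit 153) (nat_lit 5) (nat_lit 427) (nat_lit 329) (nat_lit 264)) (XT.nd (nat_lit 78) (nat_lit 76) (nat_lit 0) (XT.lf (nat_lit 0) (nat_lit 10336136221) (nat_lit 228) (nat_lit 5633987422) (nat_lit 76) (nat_lit 1485353211) (nat_lit 150) (nat_lit 5) (nat_lit 153) (nat_lit 5) (nat_lit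 151) (nat_lit 4) (nat_lit 428) (nat_lit 329) (nat_lit 263)) (XT.lf (nat_lit 0) (nat_lit 7187535411) (nat_lit 76) (nat_lit 9527902073) (nat_lit 152) (nat_lit 1054516398) (nat_lit 149) (nat_lit 5) (nat_lit 150) (nat_lit 5) (nat_lit 151) (nat_lit 4) (nat_lit 429) (nat_lit 329) (nat_lit 262)))) (XT.nd (nat_lit 78) (nat_lit 76) (nat_lit 0) (XT.lf (nat_lit 0) (nat_lit 2327598644) (nat_lit 152) (nat_lit 2797854452) (nat_lit 228) (nat_lit 12965879190) (nat_lit 146) (nat_lit 5) (nat_lit 148) (nat_lit 5) (nat_lit 149) (nat_lit 5) (nat_lit 430) (nat_lit 329) (nat_lit 261)) (XT.nd (nat_lit 78) (nat_lit 76) (nat_lit 0) (XT.lf (nat_lit 0) (nat_lit 11572120260) (nat_lit 228) (nat_lit 2713066333) (nat_lit 76) (nat_lit 4133777428) (nat_lit 146) (nat_lit 5) (nat_lit 149) (nat_lit 5) (nat_lit 147) (nat_lit 4) (nat_lit 431) (nat_lit 329) (nat_lit 260)) (XT.lf (nat_lit 0) (nat_lit 10830700018) (nat_lit 76) (nat_lit 7469449932)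 (nat_lit 152) (nat_lit 453635881) (nat_lit 145) (nat_lit 5) (nat_lit 146) (nat_lit 5) (nat_lit 147) (nat_lit 4) (nat_lit 432) (nat_lit 329) (nat_lit 259))))) (XT.nd (nat_lit 234) (nat_lit 152) (nat_lit 0) (XT.nd (nat_lit 78) (nat_lit 152) (nat_lit 0) (XT.lf (nat_lit 0) (nat_lit 5708617913) (nat_lit 152) (nat_lit 341864359) (nat_lit 228) (nat_lit 13045239097) (nat_lit 142) (nat_lit 5) (nat_lit 144) (nat_lit 5) (nat_lit 145) (nat_lit 5) (nat_lit 433) (nat_lit 329) (nat_lit 258)) (XT.nd (nat_lit 78) (nat_lit 76) (nat_lit 0) (XT.lf (nat_lit 0) (nat_lit 317542269) (nat_lit 76) (nat_lit 12530544543) (nat_lit 152) (nat_lit 6596469003) (nat_lit 141) (nat_lit 5) (nat_lit 142) (nat_lit 5) (nat_lit 143) (nat_lit 4) (nat_lit 434) (nat_lit 329) (nat_lit 257)) (XT.lf (nat_lit 0) (nat_lit 141183388) (nat_lit 152) (nat_lit 5179534311) (nat_lit 76) (nat_lit 14480235031) (nat_lit 140) (nat_lit 5) (nat_lit 142) (nat_lit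 5) (nat_lit 141) (nat_lit 5) (nat_lit 435) (nat_lit 329) (nat_lit 256)))) (XT.nd (nat_lit 47190) (nat_lit 0) (nat_lit 22420) (XT.lf (nat_lit 0) (nat_lit 7016097914) (nat_lit 228) (nat_lit 10965023554) (nat_lit 76) (nat_lit 2182929285) (nat_lit 138) (nat_lit 5) (nat_lit 141) (nat_lit 5) (nat_lit 139) (nat_lit 4) (nat_lit 436) (nat_lit 329) (nat_lit 255)) (XT.nd (nat_lit 78) (nat_lit 0) (nat_lit 0) (XT.lf (nat_lit 0) (nat_lit 254710058) (nat_lit 988) (nat_lit 2922815464) (nat_lit 0) (nat_lit 254710058) (nat_lit 433) (nat_lit 5) (nat_lit 446) (nat_lit 4) (nat_lit 433) (nat_lit 4) (nat_lit 360) (nat_lit 330) (nat_lit 330)) (XT.lf (nat_lit 0) (nat_lit 3936765601) (nat_lit 988) (nat_lit 983185760) (nat_lit 0) (nat_lit 1987871215) (nat_lit 433) (nat_lit 5) (nat_lit 446) (nat_lit 4) (nat_lit 433) (nat_lit 4) (nat_lit 361) (nat_lit 330) (nat_lit 329)))))) (XT.nd (nat_lit 468) (nat_lit 2584) (nat_lit 0) (XT.nd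 (nat_lit 234) (nat_lit 2128) (nat_lit 0) (XT.nd (nat_lit 78) (nat_lit 2280) (nat_lit 0) (XT.lf (nat_lit 0) (nat_lit 437554543) (nat_lit 1064) (nat_lit 2952789134) (nat_lit 76) (nat_lit 3563988398) (nat_lit 419) (nat_lit 5) (nat_lit 433) (nat_lit 5) (nat_lit 420) (nat_lit 4) (nat_lit 362) (nat_lit 330) (nat_lit 328)) (XT.nd (nat_lit 78) (nat_lit 1216) (nat_lit 0) (XT.lf (nat_lit 0) (nat_lit 2066386999) (nat_lit 1064) (nat_lit 1748604002) (nat_lit 1140) (nat_lit 3188574911) (nat_lit 405) (nat_lit 5) (nat_lit 419) (nat_lit 5) (nat_lit 420) (nat_lit 4) (nat_lit 363) (nat_lit 330) (nat_lit 327)) (XT.lf (nat_lit 0) (nat_lit 143972498) (nat_lit 1140) (nat_lit 19792227) (nat_lit 1216) (nat_lit 6892574060) (nat_lit 389) (nat_lit 5) (nat_lit 404) (nat_lit 5) (nat_lit 405) (nat_lit 5) (nat_lit 364) (nat_lit 330) (nat_lit 326)))) (XT.nd (nat_lit 78) (nat_lit 2128) (nat_lit 0) (XT.lf (nat_lit 0) (nat_lit 3519388633)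 (nat_lit 1216) (nat_lit 1781006702) (nat_lit 76) (nat_lit 1810348371) (nat_lit 389) (nat_lit 5) (nat_lit 405) (nat_lit 5) (nat_lit 390) (nat_lit 4) (nat_lit 365) (nat_lit 330) (nat_lit 325)) (XT.nd (nat_lit 78) (nat_lit 912) (nat_lit 0) (XT.lf (nat_lit 0) (nat_lit 3473249088) (nat_lit 1216) (nat_lit 3438466716) (nat_lit 1292) (nat_lit 256983934) (nat_lit 373) (nat_lit 5) (nat_lit 389) (nat_lit 5) (nat_lit 390) (nat_lit 4) (nat_lit 366) (nat_lit 330) (nat_lit 324)) (XT.lf (nat_lit 0) (nat_lit 1594601898) (nat_lit 836) (nat_lit 1457711667) (nat_lit 912) (nat_lit 4177057643) (nat_lit 361) (nat_lit 5) (nat_lit 372) (nat_lit 5) (nat_lit 373) (nat_lit 5) (nat_lit 367) (nat_lit 330) (nat_lit 323))))) (XT.nd (nat_lit 234) (nat_lit 1292) (nat_lit 0) (XT.nd (nat_lit 78) (nat_lit 1292) (nat_lit 0) (XT.lf (nat_lit 0) (nat_lit 6404245532) (nat_lit 912) (nat_lit 281555065) (nat_lit 76) (nat_lit 607530275) (nat_lit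 361) (nat_lit 5) (nat_lit 373) (nat_lit 5) (nat_lit 362) (nat_lit 4) (nat_lit 368) (nat_lit 330) (nat_lit 322)) (XT.nd (nat_lit 78) (nat_lit 608) (nat_lit 0) (XT.lf (nat_lit 0) (nat_lit 2421137469) (nat_lit 684) (nat_lit 2162513497) (nat_lit 76) (nat_lit 2775667715) (nat_lit 352) (nat_lit 5) (nat_lit 361) (nat_lit 5) (nat_lit 353) (nat_lit 5) (nat_lit 369) (nat_lit 330) (nat_lit 321)) (XT.lf (nat_lit 0) (nat_lit 3375827288) (nat_lit 608) (nat_lit 2381136196) (nat_lit 684) (nat_lit 1671733567) (nat_lit 344) (nat_lit 5) (nat_lit 352) (nat_lit 5) (nat_lit 353) (nat_lit 5) (nat_lit 370) (nat_lit 330) (nat_lit 320)))) (XT.nd (nat_lit 78) (nat_lit 684) (nat_lit 0) (XT.lf (nat_lit 0) (nat_lit 1538553710) (nat_lit 532) (nat_lit 67634495) (nat_lit 608) (nat_lit 5895085082) (nat_lit 336) (nat_lit 5) (nat_lit 343) (nat_lit 5) (nat_lit 344) (nat_lit 5) (nat_lit 371) (nat_lit 330) (nat_lit 319)) (XT.nd (nat_lit 78)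 (nat_lit 684) (nat_lit 0) (XT.lf (nat_lit 0) (nat_lit 4923680245) (nat_lit 608) (nat_lit 334916732) (nat_lit 76) (nat_lit 2317688294) (nat_lit 336) (nat_lit 5) (nat_lit 344) (nat_lit 5) (nat_lit 337) (nat_lit 5) (nat_lit 372) (nat_lit 330) (nat_lit 318)) (XT.lf (nat_lit 0) (nat_lit 640486768) (nat_lit 684) (nat_lit 2191786076) (nat_lit 76) (nat_lit 4822074229) (nat_lit 327) (nat_lit 5) (nat_lit 336) (nat_lit 5) (nat_lit 328) (nat_lit 5) (nat_lit 373) (nat_lit 330) (nat_lit 317))))))))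
noncomputable def xc32 : XT := (XT.nd (nat_lit 1794) (nat_lit 4408) (nat_lit 0) (XT.nd (nat_lit 858) (nat_lit 3420) (nat_lit 0) (XT.nd (nat_lit 390) (nat_lit 2280) (nat_lit 0) (XT.nd (nat_lit 156) (nat_lit 1140) (nat_lit 0) (XT.nd (nat_lit 78) (nat_lit 532) (nat_lit 0) (XT.lf (nat_lit 0) (nat_lit 3651664848) (nat_lit 532) (nat_lit 280472376) (nat_lit 608) (nat_lit 3803233183) (nat_lit 320) (nat_lit 5) (nat_lit 327) (nat_lit 5) (nat_lit 328) (nat_lit 5) (nat_lit 374) (nat_lit 330) (nat_lit 316)) (XT.lf (nat_lit 0) (nat_lit 1808820627) (nat_lit 532) (nat_lit 5491989567) (nat_lit 608) (nat_lit 518666058) (nat_lit 313) (nat_lit 5) (nat_lit 320) (nat_lit 5) (nat_lit 321) (nat_lit 5) (nat_lit 375) (nat_lit 330) (nat_lit 315))) (XT.nd (nat_lit 78) (nat_lit 1064) (nat_lit 0) (XT.lf (nat_lit 0) (nat_lit 2769599749) (nat_lit 608) (nat_lit 75299594) (nat_lit 76) (nat_lit 5061548170) (nat_lit 312) (nat_lit 5) (nat_lit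 320) (nat_lit 5) (nat_lit 313) (nat_lit 5) (nat_lit 376) (nat_lit 330) (nat_lit 314)) (XT.nd (nat_lit 78) (nat_lit 608) (nat_lit 0) (XT.lf (nat_lit 0) (nat_lit 6052499497) (nat_lit 456) (nat_lit 70832317) (nat_lit 532) (nat_lit 1873224752) (nat_lit 306) (nat_lit 5) (nat_lit 312) (nat_lit 5) (nat_lit 313) (nat_lit 5) (nat_lit 377) (nat_lit 330) (nat_lit 313)) (XT.lf (nat_lit 0) (nat_lit 1447695309) (nat_lit 608) (nat_lit 3871614373) (nat_lit 76) (nat_lit 2769977094) (nat_lit 298) (nat_lit 5) (nat_lit 306) (nat_lit 5) (nat_lit 299) (nat_lit 5) (nat_lit 378) (nat_lit 330) (nat_lit 312))))) (XT.nd (nat_lit 234) (nat_lit 1292) (nat_lit 0) (XT.nd (nat_lit 78) (nat_lit 532) (nat_lit 0) (XT.lf (nat_lit 0) (nat_lit 2345798812) (nat_lit 456) (nat_lit 2448773326) (nat_lit 532) (nat_lit 3390750978) (nat_lit 292) (nat_lit 5) (nat_lit 298) (nat_lit 5) (nat_lit 299) (nat_lit 5) (nat_lit 379) (nat_lit 330) (nat_lit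 311)) (XT.nd (nat_lit 78) (nat_lit 76) (nat_lit 0) (XT.lf (nat_lit 0) (nat_lit 447934592) (nat_lit 456) (nat_lit 7764633710) (nat_lit 532) (nat_lit 72550852) (nat_lit 286) (nat_lit 5) (nat_lit 292) (nat_lit 5) (nat_lit 293) (nat_lit 5) (nat_lit 380) (nat_lit 330) (nat_lit 310)) (XT.lf (nat_lit 0) (nat_lit 3286302595) (nat_lit 532) (nat_lit 1501516457) (nat_lit 76) (nat_lit 3598933818) (nat_lit 285) (nat_lit 5) (nat_lit 292) (nat_lit 5) (nat_lit 286) (nat_lit 5) (nat_lit 381) (nat_lit 330) (nat_lit 309)))) (XT.nd (nat_lit 78) (nat_lit 912) (nat_lit 0) (XT.lf (nat_lit 0) (nat_lit 5022369031) (nat_lit 380) (nat_lit 1695214501) (nat_lit 456) (nat_lit 1774636911) (nat_lit 280) (nat_lit 5) (nat_lit 285) (nat_lit 5) (nat_lit 286) (nat_lit 5) (nat_lit 382) (nat_lit 330) (nat_lit 308)) (XT.nd (nat_lit 78) (nat_lit 380) (nat_lit 0) (XT.lf (nat_lit 0) (nat_lit 1604059894) (nat_lit 532) (nat_lit 5498431404) (nat_lit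 76) (nat_lit 1498324897) (nat_lit 273) (nat_lit 5) (nat_lit 280) (nat_lit 5) (nat_lit 274) (nat_lit 5) (nat_lit 383) (nat_lit 330) (nat_lit 307)) (XT.lf (nat_lit 0) (nat_lit 1117772601) (nat_lit 380) (nat_lit 3919929606) (nat_lit 456) (nat_lit 3674762900) (nat_lit 268) (nat_lit 5) (nat_lit 273) (nat_lit 5) (nat_lit 274) (nat_lit 5) (nat_lit 384) (nat_lit 330) (nat_lit 306)))))) (XT.nd (nat_lit 468) (nat_lit 1824) (nat_lit 0) (XT.nd (nat_lit 234) (nat_lit 760) (nat_lit 0) (XT.nd (nat_lit 78) (nat_lit 836) (nat_lit 0) (XT.lf (nat_lit 0) (nat_lit 7945526539) (nat_lit 380) (nat_lit 611876645) (nat_lit 456) (nat_lit 270568821) (nat_lit 268) (nat_lit 5) (nat_lit 273) (nat_lit 5) (nat_lit 274) (nat_lit 5) (nat_lit 385) (nat_lit 330) (nat_lit 305)) (XT.nd (nat_lit 78) (nat_lit 380) (nat_lit 0) (XT.lf (nat_lit 0) (nat_lit 3186903585) (nat_lit 456) (nat_lit 2954534580) (nat_lit 76) (nat_lit 2804144013) (nat_lit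 262) (nat_lit 5) (nat_lit 268) (nat_lit 5) (nat_lit 263) (nat_lit 5) (nat_lit 386) (nat_lit 330) (nat_lit 304)) (XT.lf (nat_lit 0) (nat_lit 3992429069) (nat_lit 380) (nat_lit 2733481429) (nat_lit 456) (nat_lit 2341232338) (nat_lit 257) (nat_lit 5) (nat_lit 262) (nat_lit 5) (nat_lit 263) (nat_lit 5) (nat_lit 387) (nat_lit 330) (nat_lit 303)))) (XT.nd (nat_lit 78) (nat_lit 304) (nat_lit 0) (XT.lf (nat_lit 0) (nat_lit 1142558441) (nat_lit 456) (nat_lit 7256651620) (nat_lit 76) (nat_lit 793195654) (nat_lit 251) (nat_lit 5) (nat_lit 257) (nat_lit 5) (nat_lit 252) (nat_lit 5) (nat_lit 388) (nat_lit 330) (nat_lit 302)) (XT.nd (nat_lit 78) (nat_lit 304) (nat_lit 0) (XT.lf (nat_lit 0) (nat_lit 4693652867) (nat_lit 456) (nat_lit 210328959) (nat_lit 76) (nat_lit 4416453847) (nat_lit 251) (nat_lit 5) (nat_lit 257) (nat_lit 5) (nat_lit 252) (nat_lit 5) (nat_lit 389) (nat_lit 330) (nat_lit 301)) (XT.lf (nat_lit 0)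 (nat_lit 7088372568) (nat_lit 304) (nat_lit 1264084334) (nat_lit 380) (nat_lit 1099814325) (nat_lit 247) (nat_lit 5) (nat_lit 251) (nat_lit 5) (nat_lit 252) (nat_lit 5) (nat_lit 390) (nat_lit 330) (nat_lit 300))))) (XT.nd (nat_lit 234) (nat_lit 684) (nat_lit 0) (XT.nd (nat_lit 78) (nat_lit 684) (nat_lit 0) (XT.lf (nat_lit 0) (nat_lit 2491459249) (nat_lit 456) (nat_lit 4614347116) (nat_lit 76) (nat_lit 2481287332) (nat_lit 241) (nat_lit 5) (nat_lit 247) (nat_lit 5) (nat_lit 242) (nat_lit 5) (nat_lit 391) (nat_lit 330) (nat_lit 299)) (XT.nd (nat_lit 78) (nat_lit 380) (nat_lit 0) (XT.lf (nat_lit 0) (nat_lit 2784996562) (nat_lit 304) (nat_lit 3380883197) (nat_lit 380) (nat_lit 3559828988) (nat_lit 237) (nat_lit 5) (nat_lit 241) (nat_lit 5) (nat_lit 242) (nat_lit 5) (nat_lit 392) (nat_lit 330) (nat_lit 298)) (XT.lf (nat_lit 0) (nat_lit 71787527) (nat_lit 380) (nat_lit 9328994922) (nat_lit 76) (nat_lit 467935998)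 (nat_lit 232) (nat_lit 5) (nat_lit 237) (nat_lit 5) (nat_lit 233) (nat_lit 5) (nat_lit 393) (nat_lit 330) (nat_lit 297)))) (XT.nd (nat_lit 78) (nat_lit 684) (nat_lit 0) (XT.lf (nat_lit 0) (nat_lit 3780168463) (nat_lit 380) (nat_lit 1795880408) (nat_lit 76) (nat_lit 4437731242) (nat_lit 232) (nat_lit 5) (nat_lit 237) (nat_lit 5) (nat_lit 233) (nat_lit 5) (nat_lit 394) (nat_lit 330) (nat_lit 296)) (XT.nd (nat_lit 78) (nat_lit 380) (nat_lit 0) (XT.lf (nat_lit 0) (nat_lit 5983481136) (nat_lit 304) (nat_lit 1610835944) (nat_lit 380) (nat_lit 2569041063) (nat_lit 228) (nat_lit 5) (nat_lit 232) (nat_lit 5) (nat_lit 233) (nat_lit 5) (nat_lit 395) (nat_lit 330) (nat_lit 295)) (XT.lf (nat_lit 0) (nat_lit 1197021167) (nat_lit 380) (nat_lit 6662058709) (nat_lit 76) (nat_lit 2457543681) (nat_lit 223) (nat_lit 5) (nat_lit 228) (nat_lit 5) (nat_lit 224) (nat_lit 5) (nat_lit 396) (nat_lit 330) (nat_lit 294))))))) (XT.nd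 (nat_lit 936) (nat_lit 1900) (nat_lit 0) (XT.nd (nat_lit 468) (nat_lit 1292) (nat_lit 0) (XT.nd (nat_lit 234) (nat_lit 608) (nat_lit 0) (XT.nd (nat_lit 78) (nat_lit 380) (nat_lit 0) (XT.lf (nat_lit 0) (nat_lit 1221144096) (nat_lit 228) (nat_lit 3811478068) (nat_lit 304) (nat_lit 5440855925) (nat_lit 220) (nat_lit 5) (nat_lit 223) (nat_lit 5) (nat_lit 224) (nat_lit 5) (nat_lit 397) (nat_lit 330) (nat_lit 293)) (XT.nd (nat_lit 78) (nat_lit 380) (nat_lit 0) (XT.lf (nat_lit 0) (nat_lit 8993090514) (nat_lit 304) (nat_lit 1257643280) (nat_lit 76) (nat_lit 384010483) (nat_lit 220) (nat_lit 5) (nat_lit 224) (nat_lit 5) (nat_lit 221) (nat_lit 5) (nat_lit 398) (nat_lit 330) (nat_lit 292)) (XT.lf (nat_lit 0) (nat_lit 2272697099) (nat_lit 380) (nat_lit 3841493502) (nat_lit 76) (nat_lit 4684637845) (nat_lit 215) (nat_lit 5) (nat_lit 220) (nat_lit 5) (nat_lit 216) (nat_lit 5) (nat_lit 399) (nat_lit 330) (nat_lit 291))))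 (XT.nd (nat_lit 78) (nat_lit 380) (nat_lit 0) (XT.lf (nat_lit 0) (nat_lit 4452259523) (nat_lit 228) (nat_lit 1815315359) (nat_lit 304) (nat_lit 4699889877) (nat_lit 212) (nat_lit 5) (nat_lit 215) (nat_lit 5) (nat_lit 216) (nat_lit 5) (nat_lit 400) (nat_lit 330) (nat_lit 290)) (XT.nd (nat_lit 78) (nat_lit 76) (nat_lit 0) (XT.lf (nat_lit 0) (nat_lit 1848333288) (nat_lit 304) (nat_lit 8556974013) (nat_lit 380) (nat_lit 735162611) (nat_lit 208) (nat_lit 5) (nat_lit 212) (nat_lit 5) (nat_lit 213) (nat_lit 5) (nat_lit 401) (nat_lit 330) (nat_lit 289)) (XT.lf (nat_lit 0) (nat_lit 3308764053) (nat_lit 380) (nat_lit 867214792) (nat_lit 76) (nat_lit 7140952769) (nat_lit 207) (nat_lit 5) (nat_lit 212) (nat_lit 5) (nat_lit 208) (nat_lit 5) (nat_lit 402) (nat_lit 330) (nat_lit 288))))) (XT.nd (nat_lit 234) (nat_lit 532) (nat_lit 0) (XT.nd (nat_lit 78) (nat_lit 532) (nat_lit 0) (XT.lf (nat_lit 0) (nat_lit 7481423674)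 (nat_lit 304) (nat_lit 3638249351) (nat_lit 76) (nat_lit 378130039) (nat_lit 204) (nat_lit 5) (nat_lit 208) (nat_lit 5) (nat_lit 205) (nat_lit 5) (nat_lit 403) (nat_lit 330) (nat_lit 287)) (XT.nd (nat_lit 78) (nat_lit 228) (nat_lit 0) (XT.lf (nat_lit 0) (nat_lit 136727373) (nat_lit 304) (nat_lit 6536751618) (nat_lit 76) (nat_lit 5009291566) (nat_lit 200) (nat_lit 5) (nat_lit 204) (nat_lit 5) (nat_lit 201) (nat_lit 5) (nat_lit 404) (nat_lit 330) (nat_lit 286)) (XT.lf (nat_lit 0) (nat_lit 2307221760) (nat_lit 228) (nat_lit 2029293194) (nat_lit 304) (nat_lit 7535494754) (nat_lit 197) (nat_lit 5) (nat_lit 200) (nat_lit 5) (nat_lit 201) (nat_lit 5) (nat_lit 405) (nat_lit 330) (nat_lit 285)))) (XT.nd (nat_lit 78) (nat_lit 532) (nat_lit 0) (XT.lf (nat_lit 0) (nat_lit 8699357916) (nat_lit 304) (nat_lit 635837807) (nat_lit 76) (nat_lit 2730618456) (nat_lit 197) (nat_lit 5) (nat_lit 201) (nat_lit 5) (nat_lit 198)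 (nat_lit 5) (nat_lit 406) (nat_lit 330) (nat_lit 284)) (XT.nd (nat_lit 78) (nat_lit 228) (nat_lit 0) (XT.lf (nat_lit 0) (nat_lit 958518331) (nat_lit 304) (nat_lit 3655856489) (nat_lit 76) (nat_lit 7649321446) (nat_lit 193) (nat_lit 5) (nat_lit 197) (nat_lit 5) (nat_lit 194) (nat_lit 5) (nat_lit 407) (nat_lit 330) (nat_lit 283)) (XT.lf (nat_lit 0) (nat_lit 5355168108) (nat_lit 304) (nat_lit 6809395363) (nat_lit 76) (nat_lit 301663753) (nat_lit 190) (nat_lit 5) (nat_lit 194) (nat_lit 5) (nat_lit 191) (nat_lit 5) (nat_lit 408) (nat_lit 330) (nat_lit 282)))))) (XT.nd (nat_lit 468) (nat_lit 988) (nat_lit 0) (XT.nd (nat_lit 234) (nat_lit 456) (nat_lit 0) (XT.nd (nat_lit 78) (nat_lit 228) (nat_lit 0) (XT.lf (nat_lit 0) (nat_lit 2561996591) (nat_lit 228) (nat_lit 7375407308) (nat_lit 304) (nat_lit 2735819618) (nat_lit 187) (nat_lit 5) (nat_lit 190) (nat_lit 5) (nat_lit 191) (nat_lit 5) (nat_lit 409) (nat_lit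 330) (nat_lit 281)) (XT.nd (nat_lit 78) (nat_lit 152) (nat_lit 0) (XT.lf (nat_lit 0) (nat_lit 1751823837) (nat_lit 304) (nat_lit 640179827) (nat_lit 76) (nat_lit 10493444438) (nat_lit 186) (nat_lit 5) (nat_lit 190) (nat_lit 5) (nat_lit 187) (nat_lit 5) (nat_lit 410) (nat_lit 330) (nat_lit 280)) (XT.lf (nat_lit 0) (nat_lit 6382280410) (nat_lit 228) (nat_lit 3951820045) (nat_lit 76) (nat_lit 2767231217) (nat_lit 184) (nat_lit 5) (nat_lit 187) (nat_lit 5) (nat_lit 185) (nat_lit 5) (nat_lit 411) (nat_lit 330) (nat_lit 279)))) (XT.nd (nat_lit 78) (nat_lit 228) (nat_lit 0) (XT.lf (nat_lit 0) (nat_lit 5924529112) (nat_lit 228) (nat_lit 5262415908) (nat_lit 304) (nat_lit 2135687900) (nat_lit 181) (nat_lit 5) (nat_lit 184) (nat_lit 5) (nat_lit 185) (nat_lit 5) (nat_lit 412) (nat_lit 330) (nat_lit 278)) (XT.nd (nat_lit 78) (nat_lit 0) (nat_lit 0) (XT.lf (nat_lit 0) (nat_lit 2548104693) (nat_lit 228) (nat_lit 10986000812)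 (nat_lit 76) (nat_lit 15320957) (nat_lit 178) (nat_lit 5) (nat_lit 181) (nat_lit 5) (nat_lit 179) (nat_lit 5) (nat_lit 413) (nat_lit 330) (nat_lit 277)) (XT.lf (nat_lit 0) (nat_lit 7405599762) (nat_lit 228) (nat_lit 969600028) (nat_lit 76) (nat_lit 5404906241) (nat_lit 178) (nat_lit 5) (nat_lit 181) (nat_lit 5) (nat_lit 179) (nat_lit 5) (nat_lit 414) (nat_lit 330) (nat_lit 276))))) (XT.nd (nat_lit 234) (nat_lit 380) (nat_lit 0) (XT.nd (nat_lit 78) (nat_lit 380) (nat_lit 0) (XT.lf (nat_lit 0) (nat_lit 9443923315) (nat_lit 228) (nat_lit 3005740022) (nat_lit 304) (nat_lit 1566817341) (nat_lit 175) (nat_lit 5) (nat_lit 178) (nat_lit 5) (nat_lit 179) (nat_lit 5) (nat_lit 415) (nat_lit 330) (nat_lit 275)) (XT.nd (nat_lit 78) (nat_lit 152) (nat_lit 0) (XT.lf (nat_lit 0) (nat_lit 3360975716) (nat_lit 228) (nat_lit 8358072091) (nat_lit 76) (nat_lit 2538664697) (nat_lit 172) (nat_lit 5) (nat_lit 175) (nat_lit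 5) (nat_lit 173) (nat_lit 5) (nat_lit 416) (nat_lit 330) (nat_lit 274)) (XT.lf (nat_lit 0) (nat_lit 2183785907) (nat_lit 152) (nat_lit 6269154971) (nat_lit 228) (nat_lit 6051340121) (nat_lit 170) (nat_lit 5) (nat_lit 172) (nat_lit 5) (nat_lit 173) (nat_lit 5) (nat_lit 417) (nat_lit 330) (nat_lit 273)))) (XT.nd (nat_lit 78) (nat_lit 380) (nat_lit 0) (XT.lf (nat_lit 0) (nat_lit 13126056444) (nat_lit 152) (nat_lit 607061066) (nat_lit 228) (nat_lit 1024065463) (nat_lit 170) (nat_lit 5) (nat_lit 172) (nat_lit 5) (nat_lit 173) (nat_lit 5) (nat_lit 418) (nat_lit 330) (nat_lit 272)) (XT.nd (nat_lit 78) (nat_lit 152) (nat_lit 0) (XT.lf (nat_lit 0) (nat_lit 4166851569) (nat_lit 228) (nat_lit 5628787988) (nat_lit 76) (nat_lit 5218017993) (nat_lit 167) (nat_lit 5) (nat_lit 170) (nat_lit 5) (nat_lit 168) (nat_lit 5) (nat_lit 419) (nat_lit 330) (nat_lit 271)) (XT.lf (nat_lit 0) (nat_lit 5492499687) (nat_lit 152) (nat_lit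 4028087461) (nat_lit 228) (nat_lit 5756104828) (nat_lit 165) (nat_lit 5) (nat_lit 167) (nat_lit 5) (nat_lit 168) (nat_lit 5) (nat_lit 420) (nat_lit 330) (nat_lit 270))))))))
noncomputable def xc33 : XT := (XT.nd (nat_lit 48750) (nat_lit 0) (nat_lit 8816) (XT.nd (nat_lit 858) (nat_lit 456) (nat_lit 0) (XT.nd (nat_lit 390) (nat_lit 684) (nat_lit 0) (XT.nd (nat_lit 156) (nat_lit 532) (nat_lit 0) (XT.nd (nat_lit 78) (nat_lit 76) (nat_lit 0) (XT.lf (nat_lit 0) (nat_lit 1440024614) (nat_lit 152) (nat_lit 13636982121) (nat_lit 228) (nat_lit 469348539) (nat_lit 163) (nat_lit 5) (nat_lit 165) (nat_lit 5) (nat_lit 166) (nat_lit 4) (nat_lit 421) (nat_lit 330) (nat_lit 269)) (XT.lf (nat_lit 0) (nat_lit 4971116072) (nat_lit 228) (nat_lit 2794430900) (nat_lit 76) (nat_lit 8054360361) (nat_lit 162) (nat_lit 5) (nat_lit 165) (nat_lit 5) (nat_lit 163) (nat_lit 5) (nat_lit 422) (nat_lit 330) (nat_lit 268))) (XT.nd (nat_lit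 78) (nat_lit 380) (nat_lit 0) (XT.lf (nat_lit 0) (nat_lit 8943070850) (nat_lit 152) (nat_lit 1662182891) (nat_lit 228) (nat_lit 5495076025) (nat_lit 160) (nat_lit 5) (nat_lit 162) (nat_lit 5) (nat_lit 163) (nat_lit 5) (nat_lit 423) (nat_lit 330) (nat_lit 267)) (XT.nd (nat_lit 78) (nat_lit 152) (nat_lit 0) (XT.lf (nat_lit 0) (nat_lit 91484560) (nat_lit 228) (nat_lit 11723766366) (nat_lit 76) (nat_lit 4571730109) (nat_lit 157) (nat_lit 5) (nat_lit 160) (nat_lit 5) (nat_lit 158) (nat_lit 5) (nat_lit 424) (nat_lit 330) (nat_lit 266)) (XT.lf (nat_lit 0) (nat_lit 152453975) (nat_lit 152) (nat_lit 5627858841) (nat_lit 228) (nat_lit 10898933332) (nat_lit 155) (nat_lit 5) (nat_lit 157) (nat_lit 5) (nat_lit 158) (nat_lit 5) (nat_lit 425) (nat_lit 330) (nat_lit 265))))) (XT.nd (nat_lit 234) (nat_lit 304) (nat_lit 0) (XT.nd (nat_lit 78) (nat_lit 380) (nat_lit 0) (XT.lf (nat_lit 0) (nat_lit 11720903661) (nat_lit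 228) (nat_lit 4443844865) (nat_lit 76) (nat_lit 813097756) (nat_lit 155) (nat_lit 5) (nat_lit 158) (nat_lit 5) (nat_lit 156) (nat_lit 4) (nat_lit 426) (nat_lit 330) (nat_lit 264)) (XT.nd (nat_lit 78) (nat_lit 152) (nat_lit 0) (XT.lf (nat_lit 0) (nat_lit 632894142) (nat_lit 228) (nat_lit 9268190271) (nat_lit 76) (nat_lit 7381478070) (nat_lit 152) (nat_lit 5) (nat_lit 155) (nat_lit 5) (nat_lit 153) (nat_lit 5) (nat_lit 427) (nat_lit 330) (nat_lit 263)) (XT.lf (nat_lit 0) (nat_lit 3272011773) (nat_lit 152) (nat_lit 3354310187) (nat_lit 228) (nat_lit 10967560083) (nat_lit 150) (nat_lit 5) (nat_lit 152) (nat_lit 5) (nat_lit 153) (nat_lit 5) (nat_lit 428) (nat_lit 330) (nat_lit 262)))) (XT.nd (nat_lit 78) (nat_lit 304) (nat_lit 0) (XT.lf (nat_lit 0) (nat_lit 12882582623) (nat_lit 228) (nat_lit 1648679987) (nat_lit 76) (nat_lit 3380787680) (nat_lit 150) (nat_lit 5) (nat_lit 153) (nat_lit 5) (nat_lit 151) (nat_lit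 4) (nat_lit 429) (nat_lit 330) (nat_lit 261)) (XT.nd (nat_lit 78) (nat_lit 152) (nat_lit 0) (XT.lf (nat_lit 0) (nat_lit 1167699609) (nat_lit 152) (nat_lit 6731417662) (nat_lit 76) (nat_lit 10337268748) (nat_lit 148) (nat_lit 5) (nat_lit 150) (nat_lit 5) (nat_lit 149) (nat_lit 5) (nat_lit 430) (nat_lit 330) (nat_lit 260)) (XT.lf (nat_lit 0) (nat_lit 6514694185) (nat_lit 152) (nat_lit 971728125) (nat_lit 228) (nat_lit 11081433776) (nat_lit 146) (nat_lit 5) (nat_lit 148) (nat_lit 5) (nat_lit 149) (nat_lit 5) (nat_lit 431) (nat_lit 330) (nat_lit 259)))))) (XT.nd (nat_lit 47424) (nat_lit 0) (nat_lit 20064) (XT.nd (nat_lit 234) (nat_lit 152) (nat_lit 0) (XT.nd (nat_lit 78) (nat_lit 228) (nat_lit 0) (XT.lf (nat_lit 0) (nat_lit 1274215003) (nat_lit 76) (nat_lit 12818061384) (nat_lit 152) (nat_lit 4814066779) (nat_lit 145) (nat_lit 5) (nat_lit 146) (nat_lit 5) (nat_lit 147) (nat_lit 4) (nat_lit 432) (nat_lit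 330) (nat_lit 258)) (XT.nd (nat_lit 78) (nat_lit 152) (nat_lit 0) (XT.lf (nat_lit 0) (nat_lit 1699324325) (nat_lit 152) (nat_lit 4109185807) (nat_lit 76) (nat_lit 13443300467) (nat_lit 144) (nat_lit 5) (nat_lit 146) (nat_lit 5) (nat_lit 145) (nat_lit 5) (nat_lit 433) (nat_lit 330) (nat_lit 257)) (XT.lf (nat_lit 0) (nat_lit 8379763815) (nat_lit 228) (nat_lit 9731930847) (nat_lit 76) (nat_lit 1492465335) (nat_lit 142) (nat_lit 5) (nat_lit 145) (nat_lit 5) (nat_lit 143) (nat_lit 4) (nat_lit 434) (nat_lit 330) (nat_lit 256)))) (XT.nd (nat_lit 78) (nat_lit 76) (nat_lit 0) (XT.lf (nat_lit 0) (nat_lit 4340730230) (nat_lit 76) (nat_lit 11019877919) (nat_lit 152) (nat_lit 4603471978) (nat_lit 141) (nat_lit 5) (nat_lit 142) (nat_lit 5) (nat_lit 143) (nat_lit 4) (nat_lit 435) (nat_lit 330) (nat_lit 255)) (XT.nd (nat_lit 47034) (nat_lit 0) (nat_lit 24092) (XT.lf (nat_lit 0) (nat_lit 2230990655) (nat_lit 152) (nat_lit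 1396654448) (nat_lit 76) (nat_lit 16704769056) (nat_lit 140) (nat_lit 5) (nat_lit 142) (nat_lit 5) (nat_lit 141) (nat_lit 5) (nat_lit 436) (nat_lit 330) (nat_lit 254)) (XT.lf (nat_lit 0) (nat_lit 1271144914) (nat_lit 836) (nat_lit 849619683) (nat_lit 0) (nat_lit 1271144914) (nat_lit 457) (nat_lit 5) (nat_lit 468) (nat_lit 4) (nat_lit 457) (nat_lit 4) (nat_lit 358) (nat_lit 331) (nat_lit 331))))) (XT.nd (nat_lit 234) (nat_lit 2204) (nat_lit 0) (XT.nd (nat_lit 78) (nat_lit 988) (nat_lit 0) (XT.lf (nat_lit 0) (nat_lit 3022659344) (nat_lit 836) (nat_lit 2934110835) (nat_lit 836) (nat_lit 866528781) (nat_lit 446) (nat_lit 4) (nat_lit 457) (nat_lit 5) (nat_lit 457) (nat_lit 4) (nat_lit 359) (nat_lit 331) (nat_lit 330)) (XT.nd (nat_lit 78) (nat_lit 0) (nat_lit 0) (XT.lf (nat_lit 0) (nat_lit 955971456) (nat_lit 912) (nat_lit 1522311661) (nat_lit 988) (nat_lit 4387342993) (nat_lit 433) (nat_lit 5) (nat_lit 445)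 (nat_lit 5) (nat_lit 446) (nat_lit 4) (nat_lit 360) (nat_lit 331) (nat_lit 329)) (XT.lf (nat_lit 0) (nat_lit 5830345542) (nat_lit 912) (nat_lit 9153571) (nat_lit 988) (nat_lit 1071462293) (nat_lit 433) (nat_lit 5) (nat_lit 445) (nat_lit 5) (nat_lit 446) (nat_lit 4) (nat_lit 361) (nat_lit 331) (nat_lit 328)))) (XT.nd (nat_lit 78) (nat_lit 1140) (nat_lit 0) (XT.lf (nat_lit 0) (nat_lit 2247990209) (nat_lit 1064) (nat_lit 3121985826) (nat_lit 76) (nat_lit 1588509802) (nat_lit 419) (nat_lit 5) (nat_lit 433) (nat_lit 5) (nat_lit 420) (nat_lit 4) (nat_lit 362) (nat_lit 331) (nat_lit 327)) (XT.nd (nat_lit 78) (nat_lit 76) (nat_lit 0) (XT.lf (nat_lit 0) (nat_lit 1845800996) (nat_lit 1064) (nat_lit 3727953383) (nat_lit 1140) (nat_lit 1435515463) (nat_lit 405) (nat_lit 5) (nat_lit 419) (nat_lit 5) (nat_lit 420) (nat_lit 4) (nat_lit 363) (nat_lit 331) (nat_lit 326)) (XT.lf (nat_lit 0) (nat_lit 1832194165) (nat_lit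 1140) (nat_lit 149577546) (nat_lit 76) (nat_lit 5081278105) (nat_lit 404) (nat_lit 5) (nat_lit 419) (nat_lit 5) (nat_lit 405) (nat_lit 5) (nat_lit 364) (nat_lit 331) (nat_lit 325))))))) (XT.nd (nat_lit 936) (nat_lit 4256) (nat_lit 0) (XT.nd (nat_lit 468) (nat_lit 2432) (nat_lit 0) (XT.nd (nat_lit 234) (nat_lit 1292) (nat_lit 0) (XT.nd (nat_lit 78) (nat_lit 2128) (nat_lit 0) (XT.lf (nat_lit 0) (nat_lit 5004358490) (nat_lit 1140) (nat_lit 116182279) (nat_lit 1216) (nat_lit 1998932287) (nat_lit 389) (nat_lit 5) (nat_lit 404) (nat_lit 5) (nat_lit 405) (nat_lit 5) (nat_lit 365) (nat_lit 331) (nat_lit 324)) (XT.nd (nat_lit 78) (nat_lit 836) (nat_lit 0) (XT.lf (nat_lit 0) (nat_lit 1257372093) (nat_lit 1292) (nat_lit 4105777385) (nat_lit 76) (nat_lit 1815454724) (nat_lit 372) (nat_lit 5) (nat_lit 389) (nat_lit 5) (nat_lit 373) (nat_lit 5) (nat_lit 366) (nat_lit 331) (nat_lit 323)) (XT.lf (nat_lit 0) (nat_lit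 1125016287) (nat_lit 836) (nat_lit 3385927863) (nat_lit 912) (nat_lit 2729778738) (nat_lit 361) (nat_lit 5) (nat_lit 372) (nat_lit 5) (nat_lit 373) (nat_lit 5) (nat_lit 367) (nat_lit 331) (nat_lit 322)))) (XT.nd (nat_lit 78) (nat_lit 1216) (nat_lit 0) (XT.lf (nat_lit 0) (nat_lit 495532892) (nat_lit 912) (nat_lit 809911848) (nat_lit 76) (nat_lit 6000629890) (nat_lit 360) (nat_lit 5) (nat_lit 372) (nat_lit 5) (nat_lit 361) (nat_lit 5) (nat_lit 368) (nat_lit 331) (nat_lit 321)) (XT.nd (nat_lit 78) (nat_lit 608) (nat_lit 0) (XT.lf (nat_lit 0) (nat_lit 3725722236) (nat_lit 684) (nat_lit 2759149066) (nat_lit 76) (nat_lit 888815269) (nat_lit 352) (nat_lit 5) (nat_lit 361) (nat_lit 5) (nat_lit 353) (nat_lit 5) (nat_lit 369) (nat_lit 331) (nat_lit 320)) (XT.lf (nat_lit 0) (nat_lit 2718879206) (nat_lit 608) (nat_lit 4292757728) (nat_lit 684) (nat_lit 432925346) (nat_lit 344) (nat_lit 5) (nat_lit 352) (nat_lit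 5) (nat_lit 353) (nat_lit 5) (nat_lit 370) (nat_lit 331) (nat_lit 319))))) (XT.nd (nat_lit 234) (nat_lit 1140) (nat_lit 0) (XT.nd (nat_lit 78) (nat_lit 684) (nat_lit 0) (XT.lf (nat_lit 0) (nat_lit 791364587) (nat_lit 532) (nat_lit 1979073649) (nat_lit 608) (nat_lit 4747854573) (nat_lit 336) (nat_lit 5) (nat_lit 343) (nat_lit 5) (nat_lit 344) (nat_lit 5) (nat_lit 371) (nat_lit 331) (nat_lit 318)) (XT.nd (nat_lit 78) (nat_lit 684) (nat_lit 0) (XT.lf (nat_lit 0) (nat_lit 6027108481) (nat_lit 608) (nat_lit 1129393000) (nat_lit 76) (nat_lit 438627965) (nat_lit 336) (nat_lit 5) (nat_lit 344) (nat_lit 5) (nat_lit 337) (nat_lit 5) (nat_lit 372) (nat_lit 331) (nat_lit 317)) (XT.lf (nat_lit 0) (nat_lit 1653953452) (nat_lit 684) (nat_lit 3080502677) (nat_lit 76) (nat_lit 2939920946) (nat_lit 327) (nat_lit 5) (nat_lit 336) (nat_lit 5) (nat_lit 328) (nat_lit 5) (nat_lit 373) (nat_lit 331) (nat_lit 316)))) (XT.nd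 (nat_lit 78) (nat_lit 608) (nat_lit 0) (XT.lf (nat_lit 0) (nat_lit 2696739175) (nat_lit 532) (nat_lit 2198824109) (nat_lit 608) (nat_lit 2861338344) (nat_lit 320) (nat_lit 5) (nat_lit 327) (nat_lit 5) (nat_lit 328) (nat_lit 5) (nat_lit 374) (nat_lit 331) (nat_lit 315)) (XT.nd (nat_lit 78) (nat_lit 0) (nat_lit 0) (XT.lf (nat_lit 0) (nat_lit 345795057) (nat_lit 608) (nat_lit 7063920194) (nat_lit 76) (nat_lit 433245420) (nat_lit 312) (nat_lit 5) (nat_lit 320) (nat_lit 5) (nat_lit 313) (nat_lit 5) (nat_lit 375) (nat_lit 331) (nat_lit 314)) (XT.lf (nat_lit 0) (nat_lit 3584069197) (nat_lit 608) (nat_lit 1182115602) (nat_lit 76) (nat_lit 3164793682) (nat_lit 312) (nat_lit 5) (nat_lit 320) (nat_lit 5) (nat_lit 313) (nat_lit 5) (nat_lit 376) (nat_lit 331) (nat_lit 313)))))) (XT.nd (nat_lit 468) (nat_lit 1824) (nat_lit 0) (XT.nd (nat_lit 234) (nat_lit 912) (nat_lit 0) (XT.nd (nat_lit 78) (nat_lit 1064) (nat_lit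 0) (XT.lf (nat_lit 0) (nat_lit 4875566111) (nat_lit 456) (nat_lit 2012212401) (nat_lit 532) (nat_lit 1134809703) (nat_lit 306) (nat_lit 5) (nat_lit 312) (nat_lit 5) (nat_lit 313) (nat_lit 5) (nat_lit 377) (nat_lit 331) (nat_lit 312)) (XT.nd (nat_lit 78) (nat_lit 456) (nat_lit 0) (XT.lf (nat_lit 0) (nat_lit 2102164919) (nat_lit 608) (nat_lit 5162698134) (nat_lit 76) (nat_lit 852328519) (nat_lit 298) (nat_lit 5) (nat_lit 306) (nat_lit 5) (nat_lit 299) (nat_lit 5) (nat_lit 378) (nat_lit 331) (nat_lit 311)) (XT.lf (nat_lit 0) (nat_lit 980032669) (nat_lit 456) (nat_lit 4418051351) (nat_lit 532) (nat_lit 2816672624) (nat_lit 292) (nat_lit 5) (nat_lit 298) (nat_lit 5) (nat_lit 299) (nat_lit 5) (nat_lit 379) (nat_lit 331) (nat_lit 310)))) (XT.nd (nat_lit 78) (nat_lit 836) (nat_lit 0) (XT.lf (nat_lit 0) (nat_lit 444729078) (nat_lit 532) (nat_lit 1003981404) (nat_lit 76) (nat_lit 6867107926) (nat_lit 291) (nat_lit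 5) (nat_lit 298) (nat_lit 5) (nat_lit 292) (nat_lit 5) (nat_lit 380) (nat_lit 331) (nat_lit 309)) (XT.nd (nat_lit 78) (nat_lit 380) (nat_lit 0) (XT.lf (nat_lit 0) (nat_lit 3741276852) (nat_lit 532) (nat_lit 3039919120) (nat_lit 76) (nat_lit 1638061926) (nat_lit 285) (nat_lit 5) (nat_lit 292) (nat_lit 5) (nat_lit 286) (nat_lit 5) (nat_lit 381) (nat_lit 331) (nat_lit 308)) (XT.lf (nat_lit 0) (nat_lit 3404991062) (nat_lit 380) (nat_lit 3716074215) (nat_lit 456) (nat_lit 1405204970) (nat_lit 280) (nat_lit 5) (nat_lit 285) (nat_lit 5) (nat_lit 286) (nat_lit 5) (nat_lit 382) (nat_lit 331) (nat_lit 307))))) (XT.nd (nat_lit 234) (nat_lit 912) (nat_lit 0) (XT.nd (nat_lit 78) (nat_lit 380) (nat_lit 0) (XT.lf (nat_lit 0) (nat_lit 1380990018) (nat_lit 456) (nat_lit 518211229) (nat_lit 532) (nat_lit 6737570665) (nat_lit 273) (nat_lit 5) (nat_lit 279) (nat_lit 5) (nat_lit 280) (nat_lit 5) (nat_lit 383) (nat_lit 331)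 (nat_lit 306)) (XT.nd (nat_lit 78) (nat_lit 380) (nat_lit 0) (XT.lf (nat_lit 0) (nat_lit 5281887879) (nat_lit 532) (nat_lit 704538412) (nat_lit 76) (nat_lit 2763523204) (nat_lit 273) (nat_lit 5) (nat_lit 280) (nat_lit 5) (nat_lit 274) (nat_lit 5) (nat_lit 384) (nat_lit 331) (nat_lit 305)) (XT.lf (nat_lit 0) (nat_lit 6061535577) (nat_lit 380) (nat_lit 2698484419) (nat_lit 456) (nat_lit 106683462) (nat_lit 268) (nat_lit 5) (nat_lit 273) (nat_lit 5) (nat_lit 274) (nat_lit 5) (nat_lit 385) (nat_lit 331) (nat_lit 304)))) (XT.nd (nat_lit 78) (nat_lit 456) (nat_lit 0) (XT.lf (nat_lit 0) (nat_lit 3273921688) (nat_lit 456) (nat_lit 4984935949) (nat_lit 76) (nat_lit 727618812) (nat_lit 262) (nat_lit 5) (nat_lit 268) (nat_lit 5) (nat_lit 263) (nat_lit 5) (nat_lit 386) (nat_lit 331) (nat_lit 303)) (XT.nd (nat_lit 78) (nat_lit 76) (nat_lit 0) (XT.lf (nat_lit 0) (nat_lit 1873311952) (nat_lit 380) (nat_lit 4885678773)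 (nat_lit 456) (nat_lit 2350664519) (nat_lit 257) (nat_lit 5) (nat_lit 262) (nat_lit 5) (nat_lit 263) (nat_lit 5) (nat_lit 387) (nat_lit 331) (nat_lit 302)) (XT.lf (nat_lit 0) (nat_lit 1073481346) (nat_lit 456) (nat_lit 303268746) (nat_lit 76) (nat_lit 7859965619) (nat_lit 256) (nat_lit 5) (nat_lit 262) (nat_lit 5) (nat_lit 257) (nat_lit 5) (nat_lit 388) (nat_lit 331) (nat_lit 301))))))))
noncomputable def xc34 : XT := (XT.nd (nat_lit 1794) (nat_lit 3192) (nat_lit 0) (XT.nd (nat_lit 858) (nat_lit 2356) (nat_lit 0) (XT.nd (nat_lit 390) (nat_lit 1672) (nat_lit 0) (XT.nd (nat_lit 156) (nat_lit 760) (nat_lit 0) (XT.nd (nat_lit 78) (nat_lit 304) (nat_lit 0) (XT.lf (nat_lit 0) (nat_lit 4575353234) (nat_lit 456) (nat_lit 2534469091) (nat_lit 76) (nat_lit 2256400020) (nat_lit 251) (nat_lit 5) (nat_lit 257) (nat_lit 5) (nat_lit 252) (nat_lit 5) (nat_lit 389) (nat_lit 331) (nat_lit 300)) (XT.lf (nat_lit 0) (nat_lit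 4670501495) (nat_lit 304) (nat_lit 3508388754) (nat_lit 380) (nat_lit 1320825661) (nat_lit 247) (nat_lit 5) (nat_lit 251) (nat_lit 5) (nat_lit 252) (nat_lit 5) (nat_lit 390) (nat_lit 331) (nat_lit 299))) (XT.nd (nat_lit 78) (nat_lit 304) (nat_lit 0) (XT.lf (nat_lit 0) (nat_lit 2196324767) (nat_lit 456) (nat_lit 7201438426) (nat_lit 76) (nat_lit 239191998) (nat_lit 241) (nat_lit 5) (nat_lit 247) (nat_lit 5) (nat_lit 242) (nat_lit 5) (nat_lit 391) (nat_lit 331) (nat_lit 298)) (XT.nd (nat_lit 78) (nat_lit 0) (nat_lit 0) (XT.lf (nat_lit 0) (nat_lit 98413754) (nat_lit 304) (nat_lit 5714998504) (nat_lit 380) (nat_lit 3963877974) (nat_lit 237) (nat_lit 5) (nat_lit 241) (nat_lit 5) (nat_lit 242) (nat_lit 5) (nat_lit 392) (nat_lit 331) (nat_lit 297)) (XT.lf (nat_lit 0) (nat_lit 7670275465) (nat_lit 304) (nat_lit 1878449706) (nat_lit 380) (nat_lit 372818768) (nat_lit 237) (nat_lit 5) (nat_lit 241) (nat_lit 5)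 (nat_lit 242) (nat_lit 5) (nat_lit 393) (nat_lit 331) (nat_lit 296))))) (XT.nd (nat_lit 234) (nat_lit 608) (nat_lit 0) (XT.nd (nat_lit 78) (nat_lit 684) (nat_lit 0) (XT.lf (nat_lit 0) (nat_lit 3271455818) (nat_lit 380) (nat_lit 4710845339) (nat_lit 76) (nat_lit 2086553404) (nat_lit 232) (nat_lit 5) (nat_lit 237) (nat_lit 5) (nat_lit 233) (nat_lit 5) (nat_lit 394) (nat_lit 331) (nat_lit 295)) (XT.nd (nat_lit 78) (nat_lit 380) (nat_lit 0) (XT.lf (nat_lit 0) (nat_lit 2963429023) (nat_lit 304) (nat_lit 4063013956) (nat_lit 380) (nat_lit 3193764453) (nat_lit 228) (nat_lit 5) (nat_lit 232) (nat_lit 5) (nat_lit 233) (nat_lit 5) (nat_lit 395) (nat_lit 331) (nat_lit 294)) (XT.lf (nat_lit 0) (nat_lit 499850380) (nat_lit 380) (nat_lit 9876047754) (nat_lit 76) (nat_lit 294009) (nat_lit 223) (nat_lit 5) (nat_lit 228) (nat_lit 5) (nat_lit 224) (nat_lit 5) (nat_lit 396) (nat_lit 331) (nat_lit 293)))) (XT.nd (nat_lit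 78) (nat_lit 608) (nat_lit 0) (XT.lf (nat_lit 0) (nat_lit 4294002514) (nat_lit 380) (nat_lit 2063249342) (nat_lit 76) (nat_lit 4177038286) (nat_lit 223) (nat_lit 5) (nat_lit 228) (nat_lit 5) (nat_lit 224) (nat_lit 5) (nat_lit 397) (nat_lit 331) (nat_lit 292)) (XT.nd (nat_lit 78) (nat_lit 380) (nat_lit 0) (XT.lf (nat_lit 0) (nat_lit 6009403752) (nat_lit 228) (nat_lit 2191785920) (nat_lit 304) (nat_lit 2495965095) (nat_lit 220) (nat_lit 5) (nat_lit 223) (nat_lit 5) (nat_lit 224) (nat_lit 5) (nat_lit 398) (nat_lit 331) (nat_lit 291)) (XT.lf (nat_lit 0) (nat_lit 1350700444) (nat_lit 380) (nat_lit 7420632732) (nat_lit 76) (nat_lit 2092682804) (nat_lit 215) (nat_lit 5) (nat_lit 220) (nat_lit 5) (nat_lit 216) (nat_lit 5) (nat_lit 399) (nat_lit 331) (nat_lit 290)))))) (XT.nd (nat_lit 468) (nat_lit 1216) (nat_lit 0) (XT.nd (nat_lit 234) (nat_lit 532) (nat_lit 0) (XT.nd (nat_lit 78) (nat_lit 380) (nat_lit 0) (XT.lf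 (nat_lit 0) (nat_lit 755388610) (nat_lit 228) (nat_lit 4526181414) (nat_lit 304) (nat_lit 5753002514) (nat_lit 212) (nat_lit 5) (nat_lit 215) (nat_lit 5) (nat_lit 216) (nat_lit 5) (nat_lit 400) (nat_lit 331) (nat_lit 289)) (XT.nd (nat_lit 78) (nat_lit 380) (nat_lit 0) (XT.lf (nat_lit 0) (nat_lit 9237161065) (nat_lit 228) (nat_lit 111143553) (nat_lit 304) (nat_lit 1861403008) (nat_lit 212) (nat_lit 5) (nat_lit 215) (nat_lit 5) (nat_lit 216) (nat_lit 5) (nat_lit 401) (nat_lit 331) (nat_lit 288)) (XT.lf (nat_lit 0) (nat_lit 2155772314) (nat_lit 380) (nat_lit 4831018328) (nat_lit 76) (nat_lit 4401165320) (nat_lit 207) (nat_lit 5) (nat_lit 212) (nat_lit 5) (nat_lit 208) (nat_lit 5) (nat_lit 402) (nat_lit 331) (nat_lit 287)))) (XT.nd (nat_lit 78) (nat_lit 304) (nat_lit 0) (XT.lf (nat_lit 0) (nat_lit 3775197194) (nat_lit 228) (nat_lit 2482919055) (nat_lit 304) (nat_lit 5312820634) (nat_lit 204) (nat_lit 5)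 (nat_lit 207) (nat_lit 5) (nat_lit 208) (nat_lit 5) (nat_lit 403) (nat_lit 331) (nat_lit 286)) (XT.nd (nat_lit 78) (nat_lit 76) (nat_lit 0) (XT.lf (nat_lit 0) (nat_lit 885815991) (nat_lit 228) (nat_lit 9621198540) (nat_lit 304) (nat_lit 1251688180) (nat_lit 201) (nat_lit 5) (nat_lit 204) (nat_lit 5) (nat_lit 205) (nat_lit 5) (nat_lit 404) (nat_lit 331) (nat_lit 285)) (XT.lf (nat_lit 0) (nat_lit 2923339124) (nat_lit 304) (nat_lit 2106803590) (nat_lit 76) (nat_lit 6919635663) (nat_lit 200) (nat_lit 5) (nat_lit 204) (nat_lit 5) (nat_lit 201) (nat_lit 5) (nat_lit 405) (nat_lit 331) (nat_lit 284))))) (XT.nd (nat_lit 234) (nat_lit 456) (nat_lit 0) (XT.nd (nat_lit 78) (nat_lit 532) (nat_lit 0) (XT.lf (nat_lit 0) (nat_lit 6957135553) (nat_lit 228) (nat_lit 254973264) (nat_lit 304) (nat_lit 4933696230) (nat_lit 197) (nat_lit 5) (nat_lit 200) (nat_lit 5) (nat_lit 201) (nat_lit 5) (nat_lit 406) (nat_lit 331) (nat_lit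 283)) (XT.nd (nat_lit 78) (nat_lit 304) (nat_lit 0) (XT.lf (nat_lit 0) (nat_lit 3931930702) (nat_lit 228) (nat_lit 7748863751) (nat_lit 304) (nat_lit 665380477) (nat_lit 194) (nat_lit 5) (nat_lit 197) (nat_lit 5) (nat_lit 198) (nat_lit 5) (nat_lit 407) (nat_lit 331) (nat_lit 282)) (XT.lf (nat_lit 0) (nat_lit 768577387) (nat_lit 228) (nat_lit 2899749861) (nat_lit 304) (nat_lit 8882848304) (nat_lit 190) (nat_lit 5) (nat_lit 193) (nat_lit 5) (nat_lit 194) (nat_lit 5) (nat_lit 408) (nat_lit 331) (nat_lit 281)))) (XT.nd (nat_lit 78) (nat_lit 456) (nat_lit 0) (XT.lf (nat_lit 0) (nat_lit 8172278078) (nat_lit 304) (nat_lit 2477354961) (nat_lit 76) (nat_lit 2110887354) (nat_lit 190) (nat_lit 5) (nat_lit 194) (nat_lit 5) (nat_lit 191) (nat_lit 5) (nat_lit 409) (nat_lit 331) (nat_lit 280)) (XT.nd (nat_lit 78) (nat_lit 228) (nat_lit 0) (XT.lf (nat_lit 0) (nat_lit 7130705005) (nat_lit 228) (nat_lit 5727081861) (nat_lit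 304) (nat_lit 116965532) (nat_lit 187) (nat_lit 5) (nat_lit 190) (nat_lit 5) (nat_lit 191) (nat_lit 5) (nat_lit 410) (nat_lit 331) (nat_lit 279)) (XT.lf (nat_lit 0) (nat_lit 3827490636) (nat_lit 152) (nat_lit 584771192) (nat_lit 228) (nat_lit 8781513219) (nat_lit 184) (nat_lit 5) (nat_lit 186) (nat_lit 5) (nat_lit 187) (nat_lit 5) (nat_lit 411) (nat_lit 331) (nat_lit 278))))))) (XT.nd (nat_lit 936) (nat_lit 1368) (nat_lit 0) (XT.nd (nat_lit 468) (nat_lit 912) (nat_lit 0) (XT.nd (nat_lit 234) (nat_lit 456) (nat_lit 0) (XT.nd (nat_lit 78) (nat_lit 228) (nat_lit 0) (XT.lf (nat_lit 0) (nat_lit 364211381) (nat_lit 228) (nat_lit 8768838337) (nat_lit 304) (nat_lit 4284542878) (nat_lit 181) (nat_lit 5) (nat_lit 184) (nat_lit 5) (nat_lit 185) (nat_lit 5) (nat_lit 412) (nat_lit 331) (nat_lit 277)) (XT.nd (nat_lit 78) (nat_lit 152) (nat_lit 0) (XT.lf (nat_lit 0) (nat_lit 391653323) (nat_lit 304) (nat_lit 3164109320)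 (nat_lit 76) (nat_lit 10090729028) (nat_lit 180) (nat_lit 5) (nat_lit 184) (nat_lit 5) (nat_lit 181) (nat_lit 5) (nat_lit 413) (nat_lit 331) (nat_lit 276)) (XT.lf (nat_lit 0) (nat_lit 5159040847) (nat_lit 228) (nat_lit 6866795025) (nat_lit 76) (nat_lit 1854038593) (nat_lit 178) (nat_lit 5) (nat_lit 181) (nat_lit 5) (nat_lit 179) (nat_lit 5) (nat_lit 414) (nat_lit 331) (nat_lit 275)))) (XT.nd (nat_lit 78) (nat_lit 228) (nat_lit 0) (XT.lf (nat_lit 0) (nat_lit 3386606384) (nat_lit 228) (nat_lit 6734388331) (nat_lit 304) (nat_lit 3997717688) (nat_lit 175) (nat_lit 5) (nat_lit 178) (nat_lit 5) (nat_lit 179) (nat_lit 5) (nat_lit 415) (nat_lit 331) (nat_lit 274)) (XT.nd (nat_lit 78) (nat_lit 152) (nat_lit 0) (XT.lf (nat_lit 0) (nat_lit 871844739) (nat_lit 304) (nat_lit 368513810) (nat_lit 76) (nat_lit 13123456687) (nat_lit 174) (nat_lit 5) (nat_lit 178) (nat_lit 5) (nat_lit 175) (nat_lit 5) (nat_lit 416) (nat_lit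 331) (nat_lit 273)) (XT.lf (nat_lit 0) (nat_lit 5903546948) (nat_lit 228) (nat_lit 4270673859) (nat_lit 76) (nat_lit 4437970812) (nat_lit 172) (nat_lit 5) (nat_lit 175) (nat_lit 5) (nat_lit 173) (nat_lit 5) (nat_lit 417) (nat_lit 331) (nat_lit 272))))) (XT.nd (nat_lit 234) (nat_lit 532) (nat_lit 0) (XT.nd (nat_lit 78) (nat_lit 228) (nat_lit 0) (XT.lf (nat_lit 0) (nat_lit 6544909090) (nat_lit 152) (nat_lit 4573535304) (nat_lit 228) (nat_lit 3748607576) (nat_lit 170) (nat_lit 5) (nat_lit 172) (nat_lit 5) (nat_lit 173) (nat_lit 5) (nat_lit 418) (nat_lit 331) (nat_lit 271)) (XT.nd (nat_lit 78) (nat_lit 0) (nat_lit 0) (XT.lf (nat_lit 0) (nat_lit 1367568042) (nat_lit 228) (nat_lit 12542111751) (nat_lit 76) (nat_lit 1218469665) (nat_lit 167) (nat_lit 5) (nat_lit 170) (nat_lit 5) (nat_lit 168) (nat_lit 5) (nat_lit 419) (nat_lit 331) (nat_lit 270)) (XT.lf (nat_lit 0) (nat_lit 6645660548) (nat_lit 228) (nat_lit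 1569045006) (nat_lit 76) (nat_lit 7178747621) (nat_lit 167) (nat_lit 5) (nat_lit 170) (nat_lit 5) (nat_lit 168) (nat_lit 5) (nat_lit 420) (nat_lit 331) (nat_lit 269)))) (XT.nd (nat_lit 78) (nat_lit 380) (nat_lit 0) (XT.lf (nat_lit 0) (nat_lit 9844424372) (nat_lit 152) (nat_lit 2287275885) (nat_lit 228) (nat_lit 3533527614) (nat_lit 165) (nat_lit 5) (nat_lit 167) (nat_lit 5) (nat_lit 168) (nat_lit 5) (nat_lit 421) (nat_lit 331) (nat_lit 268)) (XT.nd (nat_lit 78) (nat_lit 152) (nat_lit 0) (XT.lf (nat_lit 0) (nat_lit 1864415347) (nat_lit 228) (nat_lit 10280874415) (nat_lit 76) (nat_lit 3797443254) (nat_lit 162) (nat_lit 5) (nat_lit 165) (nat_lit 5) (nat_lit 163) (nat_lit 5) (nat_lit 422) (nat_lit 331) (nat_lit 267)) (XT.lf (nat_lit 0) (nat_lit 1266844394) (nat_lit 152) (nat_lit 6135884691) (nat_lit 228) (nat_lit 8823301083) (nat_lit 160) (nat_lit 5) (nat_lit 162) (nat_lit 5) (nat_lit 163) (nat_lit 5) (nat_lit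 423) (nat_lit 331) (nat_lit 266)))))) (XT.nd (nat_lit 468) (nat_lit 608) (nat_lit 0) (XT.nd (nat_lit 234) (nat_lit 380) (nat_lit 0) (XT.nd (nat_lit 78) (nat_lit 380) (nat_lit 0) (XT.lf (nat_lit 0) (nat_lit 13168004504) (nat_lit 228) (nat_lit 3225880463) (nat_lit 76) (nat_lit 122116898) (nat_lit 160) (nat_lit 5) (nat_lit 163) (nat_lit 5) (nat_lit 161) (nat_lit 4) (nat_lit 424) (nat_lit 331) (nat_lit 265)) (XT.nd (nat_lit 78) (nat_lit 152) (nat_lit 0) (XT.lf (nat_lit 0) (nat_lit 2350854882) (nat_lit 228) (nat_lit 7941415770) (nat_lit 76) (nat_lit 6518621041) (nat_lit 157) (nat_lit 5) (nat_lit 160) (nat_lit 5) (nat_lit 158) (nat_lit 5) (nat_lit 425) (nat_lit 331) (nat_lit 264)) (XT.lf (nat_lit 0) (nat_lit 4250561146) (nat_lit 152) (nat_lit 3933409424) (nat_lit 228) (nat_lit 8928745511) (nat_lit 155) (nat_lit 5) (nat_lit 157) (nat_lit 5) (nat_lit 158) (nat_lit 5) (nat_lit 426) (nat_lit 331) (nat_lit 263))))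 (XT.nd (nat_lit 78) (nat_lit 380) (nat_lit 0) (XT.lf (nat_lit 0) (nat_lit 14255209806) (nat_lit 228) (nat_lit 555286458) (nat_lit 76) (nat_lit 2611205035) (nat_lit 155) (nat_lit 5) (nat_lit 158) (nat_lit 5) (nat_lit 156) (nat_lit 4) (nat_lit 427) (nat_lit 331) (nat_lit 262)) (XT.nd (nat_lit 78) (nat_lit 152) (nat_lit 0) (XT.lf (nat_lit 0) (nat_lit 2830628782) (nat_lit 228) (nat_lit 5520431007) (nat_lit 76) (nat_lit 9384617133) (nat_lit 152) (nat_lit 5) (nat_lit 155) (nat_lit 5) (nat_lit 153) (nat_lit 5) (nat_lit 428) (nat_lit 331) (nat_lit 261)) (XT.lf (nat_lit 0) (nat_lit 7356508422) (nat_lit 152) (nat_lit 1622211442) (nat_lit 228) (nat_lit 9078370393) (nat_lit 150) (nat_lit 5) (nat_lit 152) (nat_lit 5) (nat_lit 153) (nat_lit 5) (nat_lit 429) (nat_lit 331) (nat_lit 260))))) (XT.nd (nat_lit 234) (nat_lit 304) (nat_lit 0) (XT.nd (nat_lit 78) (nat_lit 228) (nat_lit 0) (XT.lf (nat_lit 0) (nat_lit 2261848105)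 (nat_lit 76) (nat_lit 13136940233) (nat_lit 152) (nat_lit 2986731614) (nat_lit 149) (nat_lit 5) (nat_lit 150) (nat_lit 5) (nat_lit 151) (nat_lit 4) (nat_lit 430) (nat_lit 331) (nat_lit 259)) (XT.nd (nat_lit 78) (nat_lit 152) (nat_lit 0) (XT.lf (nat_lit 0) (nat_lit 3307223730) (nat_lit 152) (nat_lit 3014015665) (nat_lit 76) (nat_lit 12399103410) (nat_lit 148) (nat_lit 5) (nat_lit 150) (nat_lit 5) (nat_lit 149) (nat_lit 5) (nat_lit 431) (nat_lit 331) (nat_lit 258)) (XT.lf (nat_lit 0) (nat_lit 9799203604) (nat_lit 228) (nat_lit 8479107724) (nat_lit 76) (nat_lit 783934782) (nat_lit 146) (nat_lit 5) (nat_lit 149) (nat_lit 5) (nat_lit 147) (nat_lit 4) (nat_lit 432) (nat_lit 331) (nat_lit 257)))) (XT.nd (nat_lit 78) (nat_lit 228) (nat_lit 0) (XT.lf (nat_lit 0) (nat_lit 5199978947) (nat_lit 76) (nat_lit 11389143562) (nat_lit 152) (nat_lit 2822188617) (nat_lit 145) (nat_lit 5) (nat_lit 146) (nat_lit 5) (nat_lit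 147) (nat_lit 4) (nat_lit 433) (nat_lit 331) (nat_lit 256)) (XT.nd (nat_lit 78) (nat_lit 152) (nat_lit 0) (XT.lf (nat_lit 0) (nat_lit 3783909156) (nat_lit 152) (nat_lit 417680406) (nat_lit 76) (nat_lit 15566767202) (nat_lit 144) (nat_lit 5) (nat_lit 146) (nat_lit 5) (nat_lit 145) (nat_lit 5) (nat_lit 434) (nat_lit 331) (nat_lit 255)) (XT.lf (nat_lit 0) (nat_lit 10658823683) (nat_lit 228) (nat_lit 6203169649) (nat_lit 76) (nat_lit 3269461457) (nat_lit 142) (nat_lit 5) (nat_lit 145) (nat_lit 5) (nat_lit 143) (nat_lit 4) (nat_lit 435) (nat_lit 331) (nat_lit 254))))))))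
noncomputable def xc35 : XT := (XT.nd (nat_lit 48594) (nat_lit 0) (nat_lit 5396) (XT.nd (nat_lit 47658) (nat_lit 0) (nat_lit 12540) (XT.nd (nat_lit 47190) (nat_lit 0) (nat_lit 18848) (XT.nd (nat_lit 46956) (nat_lit 0) (nat_lit 23104) (XT.nd (nat_lit 46878) (nat_lit 0) (nat_lit 24852) (XT.lf (nat_lit 0) (nat_lit 8254213229) (nat_lit 76) (nat_lit 9572188877) (nat_lit 152) (nat_lit 2676451153) (nat_lit 141) (nat_lit 5) (nat_lit 142) (nat_lit 5) (nat_lit 143) (nat_lit 4) (nat_lit 436) (nat_lit 331) (nat_lit 253)) (XT.lf (nat_lit 0) (nat_lit 1309824317) (nat_lit 684) (nat_lit 1023094070) (nat_lit 684) (nat_lit 1023094070) (nat_lit 468) (nat_lit 4) (nat_lit 477) (nat_lit 5) (nat_lit 477) (nat_lit 4) (nat_lit 356) (nat_lit 332) (nat_lit 332))) (XT.nd (nat_lit 78) (nat_lit 912) (nat_lit 0) (XT.lf (nat_lit 0) (nat_lit 421790656) (nat_lit 760) (nat_lit 866528781) (nat_lit 836) (nat_lit 5459226066) (nat_lit 457)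 (nat_lit 5) (nat_lit 467) (nat_lit 5) (nat_lit 468) (nat_lit 4) (nat_lit 357) (nat_lit 332) (nat_lit 331)) (XT.nd (nat_lit 78) (nat_lit 912) (nat_lit 0) (XT.lf (nat_lit 0) (nat_lit 4618578114) (nat_lit 836) (nat_lit 1745454003) (nat_lit 0) (nat_lit 421386544) (nat_lit 457) (nat_lit 5) (nat_lit 468) (nat_lit 4) (nat_lit 457) (nat_lit 4) (nat_lit 358) (nat_lit 332) (nat_lit 330)) (XT.lf (nat_lit 0) (nat_lit 1131401761) (nat_lit 912) (nat_lit 3907807212) (nat_lit 76) (nat_lit 1786936693) (nat_lit 445) (nat_lit 5) (nat_lit 457) (nat_lit 5) (nat_lit 446) (nat_lit 4) (nat_lit 359) (nat_lit 332) (nat_lit 329))))) (XT.nd (nat_lit 234) (nat_lit 2280) (nat_lit 0) (XT.nd (nat_lit 78) (nat_lit 1064) (nat_lit 0) (XT.lf (nat_lit 0) (nat_lit 791823682) (nat_lit 912) (nat_lit 3614713685) (nat_lit 988) (nat_lit 2463268577) (nat_lit 433) (nat_lit 5) (nat_lit 445) (nat_lit 5) (nat_lit 446) (nat_lit 4) (nat_lit 360) (nat_lit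 332) (nat_lit 328)) (XT.nd (nat_lit 78) (nat_lit 988) (nat_lit 0) (XT.lf (nat_lit 0) (nat_lit 785347302) (nat_lit 988) (nat_lit 1303148779) (nat_lit 76) (nat_lit 4827918103) (nat_lit 432) (nat_lit 5) (nat_lit 445) (nat_lit 5) (nat_lit 433) (nat_lit 5) (nat_lit 361) (nat_lit 332) (nat_lit 327)) (XT.lf (nat_lit 0) (nat_lit 3569516153) (nat_lit 988) (nat_lit 446928626) (nat_lit 1064) (nat_lit 2949208257) (nat_lit 419) (nat_lit 5) (nat_lit 432) (nat_lit 5) (nat_lit 433) (nat_lit 5) (nat_lit 362) (nat_lit 332) (nat_lit 326)))) (XT.nd (nat_lit 78) (nat_lit 1140) (nat_lit 0) (XT.lf (nat_lit 0) (nat_lit 263366852) (nat_lit 1140) (nat_lit 5496731847) (nat_lit 76) (nat_lit 1257925839) (nat_lit 404) (nat_lit 5) (nat_lit 419) (nat_lit 5) (nat_lit 405) (nat_lit 5) (nat_lit 363) (nat_lit 332) (nat_lit 325)) (XT.nd (nat_lit 78) (nat_lit 1140) (nat_lit 0) (XT.lf (nat_lit 0) (nat_lit 3455455129) (nat_lit 1140) (nat_lit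 542852425) (nat_lit 76) (nat_lit 3074511265) (nat_lit 404) (nat_lit 5) (nat_lit 419) (nat_lit 5) (nat_lit 405) (nat_lit 5) (nat_lit 364) (nat_lit 332) (nat_lit 324)) (XT.lf (nat_lit 0) (nat_lit 4557496910) (nat_lit 1140) (nat_lit 2135786718) (nat_lit 1216) (nat_lit 437473973) (nat_lit 389) (nat_lit 5) (nat_lit 404) (nat_lit 5) (nat_lit 405) (nat_lit 5) (nat_lit 365) (nat_lit 332) (nat_lit 323)))))) (XT.nd (nat_lit 468) (nat_lit 2812) (nat_lit 0) (XT.nd (nat_lit 234) (nat_lit 1292) (nat_lit 0) (XT.nd (nat_lit 78) (nat_lit 912) (nat_lit 0) (XT.lf (nat_lit 0) (nat_lit 2562346996) (nat_lit 1216) (nat_lit 157379976) (nat_lit 1292) (nat_lit 4471770498) (nat_lit 372) (nat_lit 5) (nat_lit 388) (nat_lit 5) (nat_lit 389) (nat_lit 5) (nat_lit 366) (nat_lit 332) (nat_lit 322)) (XT.nd (nat_lit 78) (nat_lit 76) (nat_lit 0) (XT.lf (nat_lit 0) (nat_lit 545611619) (nat_lit 836) (nat_lit 5375753706) (nat_lit 912) (nat_lit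 1333808841) (nat_lit 361) (nat_lit 5) (nat_lit 372) (nat_lit 5) (nat_lit 373) (nat_lit 5) (nat_lit 367) (nat_lit 332) (nat_lit 321)) (XT.lf (nat_lit 0) (nat_lit 1819841848) (nat_lit 912) (nat_lit 1463855591) (nat_lit 76) (nat_lit 4037758517) (nat_lit 360) (nat_lit 5) (nat_lit 372) (nat_lit 5) (nat_lit 361) (nat_lit 5) (nat_lit 368) (nat_lit 332) (nat_lit 320)))) (XT.nd (nat_lit 78) (nat_lit 684) (nat_lit 0) (XT.lf (nat_lit 0) (nat_lit 3910342949) (nat_lit 608) (nat_lit 1080992207) (nat_lit 684) (nat_lit 2399493623) (nat_lit 352) (nat_lit 5) (nat_lit 360) (nat_lit 5) (nat_lit 361) (nat_lit 5) (nat_lit 369) (nat_lit 332) (nat_lit 319)) (XT.nd (nat_lit 78) (nat_lit 0) (nat_lit 0) (XT.lf (nat_lit 0) (nat_lit 738895890) (nat_lit 684) (nat_lit 5523995844) (nat_lit 76) (nat_lit 1200399627) (nat_lit 343) (nat_lit 5) (nat_lit 352) (nat_lit 5) (nat_lit 344) (nat_lit 5) (nat_lit 370) (nat_lit 332) (nat_lit 318))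 (XT.lf (nat_lit 0) (nat_lit 3884260634) (nat_lit 684) (nat_lit 73044601) (nat_lit 76) (nat_lit 3581078335) (nat_lit 343) (nat_lit 5) (nat_lit 352) (nat_lit 5) (nat_lit 344) (nat_lit 5) (nat_lit 371) (nat_lit 332) (nat_lit 317))))) (XT.nd (nat_lit 234) (nat_lit 1064) (nat_lit 0) (XT.nd (nat_lit 78) (nat_lit 1216) (nat_lit 0) (XT.lf (nat_lit 0) (nat_lit 5558266115) (nat_lit 532) (nat_lit 1536483672) (nat_lit 608) (nat_lit 521855853) (nat_lit 336) (nat_lit 5) (nat_lit 343) (nat_lit 5) (nat_lit 344) (nat_lit 5) (nat_lit 372) (nat_lit 332) (nat_lit 316)) (XT.nd (nat_lit 78) (nat_lit 532) (nat_lit 0) (XT.lf (nat_lit 0) (nat_lit 2614875708) (nat_lit 684) (nat_lit 4092458094) (nat_lit 76) (nat_lit 990162628) (nat_lit 327) (nat_lit 5) (nat_lit 336) (nat_lit 5) (nat_lit 328) (nat_lit 5) (nat_lit 373) (nat_lit 332) (nat_lit 315)) (XT.lf (nat_lit 0) (nat_lit 1617535249) (nat_lit 532) (nat_lit 4188905163) (nat_lit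 608) (nat_lit 1975081924) (nat_lit 320) (nat_lit 5) (nat_lit 327) (nat_lit 5) (nat_lit 328) (nat_lit 5) (nat_lit 374) (nat_lit 332) (nat_lit 314)))) (XT.nd (nat_lit 78) (nat_lit 988) (nat_lit 0) (XT.lf (nat_lit 0) (nat_lit 1163638216) (nat_lit 608) (nat_lit 390735202) (nat_lit 76) (nat_lit 6314485961) (nat_lit 319) (nat_lit 5) (nat_lit 327) (nat_lit 5) (nat_lit 320) (nat_lit 5) (nat_lit 375) (nat_lit 332) (nat_lit 313)) (XT.nd (nat_lit 78) (nat_lit 456) (nat_lit 0) (XT.lf (nat_lit 0) (nat_lit 4344392757) (nat_lit 608) (nat_lit 2417852962) (nat_lit 76) (nat_lit 1196357058) (nat_lit 312) (nat_lit 5) (nat_lit 320) (nat_lit 5) (nat_lit 313) (nat_lit 5) (nat_lit 376) (nat_lit 332) (nat_lit 312)) (XT.lf (nat_lit 0) (nat_lit 3568546254) (nat_lit 456) (nat_lit 4029410055) (nat_lit 532) (nat_lit 453760575) (nat_lit 306) (nat_lit 5) (nat_lit 312) (nat_lit 5) (nat_lit 313) (nat_lit 5) (nat_lit 377) (nat_lit 332)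 (nat_lit 311))))))) (XT.nd (nat_lit 936) (nat_lit 2964) (nat_lit 0) (XT.nd (nat_lit 468) (nat_lit 2128) (nat_lit 0) (XT.nd (nat_lit 234) (nat_lit 912) (nat_lit 0) (XT.nd (nat_lit 78) (nat_lit 532) (nat_lit 0) (XT.lf (nat_lit 0) (nat_lit 1546694779) (nat_lit 532) (nat_lit 1163969453) (nat_lit 608) (nat_lit 5437237412) (nat_lit 298) (nat_lit 5) (nat_lit 305) (nat_lit 5) (nat_lit 306) (nat_lit 5) (nat_lit 378) (nat_lit 332) (nat_lit 310)) (XT.nd (nat_lit 78) (nat_lit 532) (nat_lit 0) (XT.lf (nat_lit 0) (nat_lit 5949246546) (nat_lit 608) (nat_lit 513043635) (nat_lit 76) (nat_lit 1784896639) (nat_lit 298) (nat_lit 5) (nat_lit 306) (nat_lit 5) (nat_lit 299) (nat_lit 5) (nat_lit 379) (nat_lit 332) (nat_lit 309)) (XT.lf (nat_lit 0) (nat_lit 911800545) (nat_lit 532) (nat_lit 2591686742) (nat_lit 76) (nat_lit 4845857861) (nat_lit 291) (nat_lit 5) (nat_lit 298) (nat_lit 5) (nat_lit 292) (nat_lit 5) (nat_lit 380)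 (nat_lit 332) (nat_lit 308)))) (XT.nd (nat_lit 78) (nat_lit 456) (nat_lit 0) (XT.lf (nat_lit 0) (nat_lit 3730135201) (nat_lit 456) (nat_lit 410744535) (nat_lit 532) (nat_lit 4313928961) (nat_lit 285) (nat_lit 5) (nat_lit 291) (nat_lit 5) (nat_lit 292) (nat_lit 5) (nat_lit 381) (nat_lit 332) (nat_lit 307)) (XT.nd (nat_lit 78) (nat_lit 76) (nat_lit 0) (XT.lf (nat_lit 0) (nat_lit 1643784089) (nat_lit 380) (nat_lit 5821107611) (nat_lit 456) (nat_lit 1098602640) (nat_lit 280) (nat_lit 5) (nat_lit 285) (nat_lit 5) (nat_lit 286) (nat_lit 5) (nat_lit 382) (nat_lit 332) (nat_lit 306)) (XT.lf (nat_lit 0) (nat_lit 2151885896) (nat_lit 456) (nat_lit 493608309) (nat_lit 76) (nat_lit 6029851424) (nat_lit 279) (nat_lit 5) (nat_lit 285) (nat_lit 5) (nat_lit 280) (nat_lit 5) (nat_lit 383) (nat_lit 332) (nat_lit 305))))) (XT.nd (nat_lit 234) (nat_lit 836) (nat_lit 0) (XT.nd (nat_lit 78) (nat_lit 836) (nat_lit 0) (XT.lf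 (nat_lit 0) (nat_lit 5475033071) (nat_lit 532) (nat_lit 2653911019) (nat_lit 76) (nat_lit 661365306) (nat_lit 273) (nat_lit 5) (nat_lit 280) (nat_lit 5) (nat_lit 274) (nat_lit 5) (nat_lit 384) (nat_lit 332) (nat_lit 304)) (XT.nd (nat_lit 78) (nat_lit 456) (nat_lit 0) (XT.lf (nat_lit 0) (nat_lit 4027096484) (nat_lit 380) (nat_lit 4873305150) (nat_lit 456) (nat_lit 8244632) (nat_lit 268) (nat_lit 5) (nat_lit 273) (nat_lit 5) (nat_lit 274) (nat_lit 5) (nat_lit 385) (nat_lit 332) (nat_lit 303)) (XT.lf (nat_lit 0) (nat_lit 1843730705) (nat_lit 380) (nat_lit 1465767197) (nat_lit 456) (nat_lit 5720721219) (nat_lit 262) (nat_lit 5) (nat_lit 267) (nat_lit 5) (nat_lit 268) (nat_lit 5) (nat_lit 386) (nat_lit 332) (nat_lit 302)))) (XT.nd (nat_lit 78) (nat_lit 836) (nat_lit 0) (XT.lf (nat_lit 0) (nat_lit 6729879739) (nat_lit 456) (nat_lit 396690331) (nat_lit 76) (nat_lit 2028768461) (nat_lit 262) (nat_lit 5) (nat_lit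 268) (nat_lit 5) (nat_lit 263) (nat_lit 5) (nat_lit 387) (nat_lit 332) (nat_lit 301)) (XT.nd (nat_lit 78) (nat_lit 380) (nat_lit 0) (XT.lf (nat_lit 0) (nat_lit 963822936) (nat_lit 456) (nat_lit 2672386951) (nat_lit 76) (nat_lit 5647300390) (nat_lit 256) (nat_lit 5) (nat_lit 262) (nat_lit 5) (nat_lit 257) (nat_lit 5) (nat_lit 388) (nat_lit 332) (nat_lit 300)) (XT.lf (nat_lit 0) (nat_lit 4388493935) (nat_lit 456) (nat_lit 5022829050) (nat_lit 76) (nat_lit 4009954) (nat_lit 251) (nat_lit 5) (nat_lit 257) (nat_lit 5) (nat_lit 252) (nat_lit 5) (nat_lit 389) (nat_lit 332) (nat_lit 299)))))) (XT.nd (nat_lit 468) (nat_lit 1520) (nat_lit 0) (XT.nd (nat_lit 234) (nat_lit 684) (nat_lit 0) (XT.nd (nat_lit 78) (nat_lit 456) (nat_lit 0) (XT.lf (nat_lit 0) (nat_lit 2086525094) (nat_lit 304) (nat_lit 5849574895) (nat_lit 380) (nat_lit 1614404442) (nat_lit 247) (nat_lit 5) (nat_lit 251) (nat_lit 5) (nat_lit 252) (nat_lit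 5) (nat_lit 390) (nat_lit 332) (nat_lit 298)) (XT.nd (nat_lit 78) (nat_lit 380) (nat_lit 0) (XT.lf (nat_lit 0) (nat_lit 1851774942) (nat_lit 380) (nat_lit 286949611) (nat_lit 76) (nat_lit 7550804816) (nat_lit 246) (nat_lit 5) (nat_lit 251) (nat_lit 5) (nat_lit 247) (nat_lit 5) (nat_lit 391) (nat_lit 332) (nat_lit 297)) (XT.lf (nat_lit 0) (nat_lit 5413926372) (nat_lit 456) (nat_lit 2709451601) (nat_lit 76) (nat_lit 1708134518) (nat_lit 241) (nat_lit 5) (nat_lit 247) (nat_lit 5) (nat_lit 242) (nat_lit 5) (nat_lit 392) (nat_lit 332) (nat_lit 296)))) (XT.nd (nat_lit 78) (nat_lit 380) (nat_lit 0) (XT.lf (nat_lit 0) (nat_lit 4763238988) (nat_lit 304) (nat_lit 4329302840) (nat_lit 380) (nat_lit 884925294) (nat_lit 237) (nat_lit 5) (nat_lit 241) (nat_lit 5) (nat_lit 242) (nat_lit 5) (nat_lit 393) (nat_lit 332) (nat_lit 295)) (XT.nd (nat_lit 78) (nat_lit 0) (nat_lit 0) (XT.lf (nat_lit 0) (nat_lit 2316767758)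 (nat_lit 304) (nat_lit 373135180) (nat_lit 380) (nat_lit 7437405668) (nat_lit 232) (nat_lit 5) (nat_lit 236) (nat_lit 5) (nat_lit 237) (nat_lit 5) (nat_lit 394) (nat_lit 332) (nat_lit 294)) (XT.lf (nat_lit 0) (nat_lit 6383563735) (nat_lit 380) (nat_lit 235317621) (nat_lit 76) (nat_lit 3661619913) (nat_lit 232) (nat_lit 5) (nat_lit 237) (nat_lit 5) (nat_lit 233) (nat_lit 5) (nat_lit 395) (nat_lit 332) (nat_lit 293))))) (XT.nd (nat_lit 234) (nat_lit 608) (nat_lit 0) (XT.nd (nat_lit 78) (nat_lit 608) (nat_lit 0) (XT.lf (nat_lit 0) (nat_lit 7623921706) (nat_lit 304) (nat_lit 2583438357) (nat_lit 380) (nat_lit 230349879) (nat_lit 228) (nat_lit 5) (nat_lit 232) (nat_lit 5) (nat_lit 233) (nat_lit 5) (nat_lit 396) (nat_lit 332) (nat_lit 292)) (XT.nd (nat_lit 78) (nat_lit 228) (nat_lit 0) (XT.lf (nat_lit 0) (nat_lit 3486759205) (nat_lit 380) (nat_lit 5513425179) (nat_lit 76) (nat_lit 1598136125) (nat_lit 223)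 (nat_lit 5) (nat_lit 228) (nat_lit 5) (nat_lit 224) (nat_lit 5) (nat_lit 397) (nat_lit 332) (nat_lit 291)) (XT.lf (nat_lit 0) (nat_lit 2445787067) (nat_lit 228) (nat_lit 4885898655) (nat_lit 304) (nat_lit 3431367230) (nat_lit 220) (nat_lit 5) (nat_lit 223) (nat_lit 5) (nat_lit 224) (nat_lit 5) (nat_lit 398) (nat_lit 332) (nat_lit 290)))) (XT.nd (nat_lit 78) (nat_lit 532) (nat_lit 0) (XT.lf (nat_lit 0) (nat_lit 351851325) (nat_lit 304) (nat_lit 267639461) (nat_lit 76) (nat_lit 10313144131) (nat_lit 219) (nat_lit 5) (nat_lit 223) (nat_lit 5) (nat_lit 220) (nat_lit 5) (nat_lit 399) (nat_lit 332) (nat_lit 289)) (XT.nd (nat_lit 78) (nat_lit 228) (nat_lit 0) (XT.lf (nat_lit 0) (nat_lit 4239212482) (nat_lit 380) (nat_lit 3082682233) (nat_lit 76) (nat_lit 3782602014) (nat_lit 215) (nat_lit 5) (nat_lit 220) (nat_lit 5) (nat_lit 216) (nat_lit 5) (nat_lit 400) (nat_lit 332) (nat_lit 288)) (XT.lf (nat_lit 0) (nat_lit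 5293908285) (nat_lit 228) (nat_lit 2954557860) (nat_lit 304) (nat_lit 3032890100) (nat_lit 212) (nat_lit 5) (nat_lit 215) (nat_lit 5) (nat_lit 216) (nat_lit 5) (nat_lit 401) (nat_lit 332) (nat_lit 287))))))))
noncomputable def xc36 : XT := (XT.nd (nat_lit 1794) (nat_lit 1368) (nat_lit 0) (XT.nd (nat_lit 858) (nat_lit 1824) (nat_lit 0) (XT.nd (nat_lit 390) (nat_lit 988) (nat_lit 0) (XT.nd (nat_lit 156) (nat_lit 760) (nat_lit 0) (XT.nd (nat_lit 78) (nat_lit 0) (nat_lit 0) (XT.lf (nat_lit 0) (nat_lit 912750528) (nat_lit 380) (nat_lit 9004266536) (nat_lit 76) (nat_lit 1545757185) (nat_lit 207) (nat_lit 5) (nat_lit 212) (nat_lit 5) (nat_lit 208) (nat_lit 5) (nat_lit 402) (nat_lit 332) (nat_lit 286)) (XT.lf (nat_lit 0) (nat_lit 4952289920) (nat_lit 380) (nat_lit 515016124) (nat_lit 76) (nat_lit 6180333263) (nat_lit 207) (nat_lit 5) (nat_lit 212) (nat_lit 5) (nat_lit 208) (nat_lit 5) (nat_lit 403) (nat_lit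 332) (nat_lit 285))) (XT.nd (nat_lit 78) (nat_lit 532) (nat_lit 0) (XT.lf (nat_lit 0) (nat_lit 8305651228) (nat_lit 228) (nat_lit 834945471) (nat_lit 304) (nat_lit 2696626181) (nat_lit 204) (nat_lit 5) (nat_lit 207) (nat_lit 5) (nat_lit 208) (nat_lit 5) (nat_lit 404) (nat_lit 332) (nat_lit 284)) (XT.nd (nat_lit 78) (nat_lit 228) (nat_lit 0) (XT.lf (nat_lit 0) (nat_lit 1437384817) (nat_lit 304) (nat_lit 6695369131) (nat_lit 76) (nat_lit 3898037655) (nat_lit 200) (nat_lit 5) (nat_lit 204) (nat_lit 5) (nat_lit 201) (nat_lit 5) (nat_lit 405) (nat_lit 332) (nat_lit 283)) (XT.lf (nat_lit 0) (nat_lit 2234083669) (nat_lit 228) (nat_lit 3421213483) (nat_lit 304) (nat_lit 6573646840) (nat_lit 197) (nat_lit 5) (nat_lit 200) (nat_lit 5) (nat_lit 201) (nat_lit 5) (nat_lit 406) (nat_lit 332) (nat_lit 282))))) (XT.nd (nat_lit 234) (nat_lit 456) (nat_lit 0) (XT.nd (nat_lit 78) (nat_lit 532) (nat_lit 0) (XT.lf (nat_lit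 0) (nat_lit 10030471551) (nat_lit 304) (nat_lit 963050224) (nat_lit 76) (nat_lit 1438597439) (nat_lit 197) (nat_lit 5) (nat_lit 201) (nat_lit 5) (nat_lit 198) (nat_lit 5) (nat_lit 407) (nat_lit 332) (nat_lit 281)) (XT.nd (nat_lit 78) (nat_lit 228) (nat_lit 0) (XT.lf (nat_lit 0) (nat_lit 1923823181) (nat_lit 304) (nat_lit 4272596389) (nat_lit 76) (nat_lit 6442464499) (nat_lit 193) (nat_lit 5) (nat_lit 197) (nat_lit 5) (nat_lit 194) (nat_lit 5) (nat_lit 408) (nat_lit 332) (nat_lit 280)) (XT.lf (nat_lit 0) (nat_lit 5136107369) (nat_lit 228) (nat_lit 1204217430) (nat_lit 304) (nat_lit 6510527587) (nat_lit 190) (nat_lit 5) (nat_lit 193) (nat_lit 5) (nat_lit 194) (nat_lit 5) (nat_lit 409) (nat_lit 332) (nat_lit 279)))) (XT.nd (nat_lit 78) (nat_lit 228) (nat_lit 0) (XT.lf (nat_lit 0) (nat_lit 1758559017) (nat_lit 228) (nat_lit 9179755294) (nat_lit 304) (nat_lit 2129395657) (nat_lit 187) (nat_lit 5) (nat_lit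 190) (nat_lit 5) (nat_lit 191) (nat_lit 5) (nat_lit 410) (nat_lit 332) (nat_lit 278)) (XT.nd (nat_lit 78) (nat_lit 152) (nat_lit 0) (XT.lf (nat_lit 0) (nat_lit 2378081339) (nat_lit 304) (nat_lit 1734533332) (nat_lit 76) (nat_lit 9176528892) (nat_lit 186) (nat_lit 5) (nat_lit 190) (nat_lit 5) (nat_lit 187) (nat_lit 5) (nat_lit 411) (nat_lit 332) (nat_lit 277)) (XT.lf (nat_lit 0) (nat_lit 7020198969) (nat_lit 228) (nat_lit 5342959875) (nat_lit 76) (nat_lit 1152162375) (nat_lit 184) (nat_lit 5) (nat_lit 187) (nat_lit 5) (nat_lit 185) (nat_lit 5) (nat_lit 412) (nat_lit 332) (nat_lit 276)))))) (XT.nd (nat_lit 468) (nat_lit 912) (nat_lit 0) (XT.nd (nat_lit 234) (nat_lit 456) (nat_lit 0) (XT.nd (nat_lit 78) (nat_lit 228) (nat_lit 0) (XT.lf (nat_lit 0) (nat_lit 4631518593) (nat_lit 228) (nat_lit 7225524059) (nat_lit 304) (nat_lit 1889577679) (nat_lit 181) (nat_lit 5) (nat_lit 184) (nat_lit 5) (nat_lit 185) (nat_lit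 5) (nat_lit 413) (nat_lit 332) (nat_lit 275)) (XT.nd (nat_lit 78) (nat_lit 0) (nat_lit 0) (XT.lf (nat_lit 0) (nat_lit 939517739) (nat_lit 152) (nat_lit 1875109491) (nat_lit 228) (nat_lit 11168922461) (nat_lit 178) (nat_lit 5) (nat_lit 180) (nat_lit 5) (nat_lit 181) (nat_lit 5) (nat_lit 414) (nat_lit 332) (nat_lit 274)) (XT.lf (nat_lit 0) (nat_lit 7702814820) (nat_lit 228) (nat_lit 2879391569) (nat_lit 76) (nat_lit 3642394228) (nat_lit 178) (nat_lit 5) (nat_lit 181) (nat_lit 5) (nat_lit 179) (nat_lit 5) (nat_lit 415) (nat_lit 332) (nat_lit 273)))) (XT.nd (nat_lit 78) (nat_lit 228) (nat_lit 0) (XT.lf (nat_lit 0) (nat_lit 7640500046) (nat_lit 228) (nat_lit 5143459057) (nat_lit 304) (nat_lit 1687534636) (nat_lit 175) (nat_lit 5) (nat_lit 178) (nat_lit 5) (nat_lit 179) (nat_lit 5) (nat_lit 416) (nat_lit 332) (nat_lit 272)) (XT.nd (nat_lit 78) (nat_lit 0) (nat_lit 0) (XT.lf (nat_lit 0) (nat_lit 3252584455)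 (nat_lit 228) (nat_lit 10957860316) (nat_lit 76) (nat_lit 513647391) (nat_lit 172) (nat_lit 5) (nat_lit 175) (nat_lit 5) (nat_lit 173) (nat_lit 5) (nat_lit 417) (nat_lit 332) (nat_lit 271)) (XT.lf (nat_lit 0) (nat_lit 8382229340) (nat_lit 228) (nat_lit 309680686) (nat_lit 76) (nat_lit 6289600063) (nat_lit 172) (nat_lit 5) (nat_lit 175) (nat_lit 5) (nat_lit 173) (nat_lit 5) (nat_lit 418) (nat_lit 332) (nat_lit 270))))) (XT.nd (nat_lit 234) (nat_lit 380) (nat_lit 0) (XT.nd (nat_lit 78) (nat_lit 380) (nat_lit 0) (XT.lf (nat_lit 0) (nat_lit 10790280405) (nat_lit 152) (nat_lit 2935178807) (nat_lit 228) (nat_lit 1519400473) (nat_lit 170) (nat_lit 5) (nat_lit 172) (nat_lit 5) (nat_lit 173) (nat_lit 5) (nat_lit 419) (nat_lit 332) (nat_lit 269)) (XT.nd (nat_lit 78) (nat_lit 152) (nat_lit 0) (XT.lf (nat_lit 0) (nat_lit 3693841133) (nat_lit 228) (nat_lit 8812931781) (nat_lit 76) (nat_lit 3006663646) (nat_lit 167)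 (nat_lit 5) (nat_lit 170) (nat_lit 5) (nat_lit 168) (nat_lit 5) (nat_lit 420) (nat_lit 332) (nat_lit 268)) (XT.lf (nat_lit 0) (nat_lit 2416913636) (nat_lit 152) (nat_lit 6670035065) (nat_lit 228) (nat_lit 6701050518) (nat_lit 165) (nat_lit 5) (nat_lit 167) (nat_lit 5) (nat_lit 168) (nat_lit 5) (nat_lit 421) (nat_lit 332) (nat_lit 267)))) (XT.nd (nat_lit 78) (nat_lit 380) (nat_lit 0) (XT.lf (nat_lit 0) (nat_lit 14086547276) (nat_lit 152) (nat_lit 601106528) (nat_lit 228) (nat_lit 1381770827) (nat_lit 165) (nat_lit 5) (nat_lit 167) (nat_lit 5) (nat_lit 168) (nat_lit 5) (nat_lit 422) (nat_lit 332) (nat_lit 266)) (XT.nd (nat_lit 78) (nat_lit 152) (nat_lit 0) (XT.lf (nat_lit 0) (nat_lit 4124524359) (nat_lit 228) (nat_lit 6588924410) (nat_lit 76) (nat_lit 5641440942) (nat_lit 162) (nat_lit 5) (nat_lit 165) (nat_lit 5) (nat_lit 163) (nat_lit 5) (nat_lit 423) (nat_lit 332) (nat_lit 265)) (XT.lf (nat_lit 0) (nat_lit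 5266006589) (nat_lit 152) (nat_lit 4536858665) (nat_lit 228) (nat_lit 6844604190) (nat_lit 160) (nat_lit 5) (nat_lit 162) (nat_lit 5) (nat_lit 163) (nat_lit 5) (nat_lit 424) (nat_lit 332) (nat_lit 264))))))) (XT.nd (nat_lit 47580) (nat_lit 0) (nat_lit 18696) (XT.nd (nat_lit 468) (nat_lit 608) (nat_lit 0) (XT.nd (nat_lit 234) (nat_lit 380) (nat_lit 0) (XT.nd (nat_lit 78) (nat_lit 228) (nat_lit 0) (XT.lf (nat_lit 0) (nat_lit 581266521) (nat_lit 152) (nat_lit 15118622471) (nat_lit 228) (nat_lit 1247487599) (nat_lit 158) (nat_lit 5) (nat_lit 160) (nat_lit 5) (nat_lit 161) (nat_lit 4) (nat_lit 425) (nat_lit 332) (nat_lit 263)) (XT.nd (nat_lit 78) (nat_lit 152) (nat_lit 0) (XT.lf (nat_lit 0) (nat_lit 4548466762) (nat_lit 228) (nat_lit 4282906818) (nat_lit 76) (nat_lit 8420032276) (nat_lit 157) (nat_lit 5) (nat_lit 160) (nat_lit 5) (nat_lit 158) (nat_lit 5) (nat_lit 426) (nat_lit 332) (nat_lit 262)) (XT.lf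 (nat_lit 0) (nat_lit 8236625961) (nat_lit 152) (nat_lit 2295086716) (nat_lit 228) (nat_lit 7031318198) (nat_lit 155) (nat_lit 5) (nat_lit 157) (nat_lit 5) (nat_lit 158) (nat_lit 5) (nat_lit 427) (nat_lit 332) (nat_lit 261)))) (XT.nd (nat_lit 78) (nat_lit 228) (nat_lit 0) (XT.lf (nat_lit 0) (nat_lit 3283122235) (nat_lit 152) (nat_lit 13488687575) (nat_lit 228) (nat_lit 1109874218) (nat_lit 153) (nat_lit 5) (nat_lit 155) (nat_lit 5) (nat_lit 156) (nat_lit 4) (nat_lit 428) (nat_lit 332) (nat_lit 260)) (XT.nd (nat_lit 78) (nat_lit 152) (nat_lit 0) (XT.lf (nat_lit 0) (nat_lit 4969226425) (nat_lit 228) (nat_lit 1891336640) (nat_lit 76) (nat_lit 11345573803) (nat_lit 152) (nat_lit 5) (nat_lit 155) (nat_lit 5) (nat_lit 153) (nat_lit 5) (nat_lit 429) (nat_lit 332) (nat_lit 259)) (XT.lf (nat_lit 0) (nat_lit 11278608281) (nat_lit 228) (nat_lit 7203740035) (nat_lit 76) (nat_lit 55538844) (nat_lit 150) (nat_lit 5)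 (nat_lit 153) (nat_lit 5) (nat_lit 151) (nat_lit 4) (nat_lit 430) (nat_lit 332) (nat_lit 258))))) (XT.nd (nat_lit 234) (nat_lit 304) (nat_lit 0) (XT.nd (nat_lit 78) (nat_lit 228) (nat_lit 0) (XT.lf (nat_lit 0) (nat_lit 6094228777) (nat_lit 76) (nat_lit 11789689082) (nat_lit 152) (nat_lit 992472715) (nat_lit 149) (nat_lit 5) (nat_lit 150) (nat_lit 5) (nat_lit 151) (nat_lit 4) (nat_lit 431) (nat_lit 332) (nat_lit 257)) (XT.nd (nat_lit 78) (nat_lit 0) (nat_lit 0) (XT.lf (nat_lit 0) (nat_lit 601662585) (nat_lit 152) (nat_lit 4794248023) (nat_lit 228) (nat_lit 13826358377) (nat_lit 146) (nat_lit 5) (nat_lit 148) (nat_lit 5) (nat_lit 149) (nat_lit 5) (nat_lit 432) (nat_lit 332) (nat_lit 256)) (XT.lf (nat_lit 0) (nat_lit 12070566549) (nat_lit 228) (nat_lit 5032823058) (nat_lit 76) (nat_lit 2471402282) (nat_lit 146) (nat_lit 5) (nat_lit 149) (nat_lit 5) (nat_lit 147) (nat_lit 4) (nat_lit 433) (nat_lit 332) (nat_lit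 255)))) (XT.nd (nat_lit 78) (nat_lit 228) (nat_lit 0) (XT.lf (nat_lit 0) (nat_lit 9020355253) (nat_lit 76) (nat_lit 10021458209) (nat_lit 152) (nat_lit 893186479) (nat_lit 145) (nat_lit 5) (nat_lit 146) (nat_lit 5) (nat_lit 147) (nat_lit 4) (nat_lit 434) (nat_lit 332) (nat_lit 254)) (XT.nd (nat_lit 78) (nat_lit 0) (nat_lit 0) (XT.lf (nat_lit 0) (nat_lit 3228587493) (nat_lit 152) (nat_lit 2616741944) (nat_lit 228) (nat_lit 14457640939) (nat_lit 142) (nat_lit 5) (nat_lit 144) (nat_lit 5) (nat_lit 145) (nat_lit 5) (nat_lit 435) (nat_lit 332) (nat_lit 253)) (XT.lf (nat_lit 0) (nat_lit 12889858969) (nat_lit 228) (nat_lit 2787870523) (nat_lit 76) (nat_lit 5000330823) (nat_lit 142) (nat_lit 5) (nat_lit 145) (nat_lit 5) (nat_lit 143) (nat_lit 4) (nat_lit 436) (nat_lit 332) (nat_lit 252)))))) (XT.nd (nat_lit 468) (nat_lit 4332) (nat_lit 0) (XT.nd (nat_lit 234) (nat_lit 1672) (nat_lit 0) (XT.nd (nat_lit 78) (nat_lit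 760) (nat_lit 0) (XT.lf (nat_lit 0) (nat_lit 115662647) (nat_lit 684) (nat_lit 3093274571) (nat_lit 0) (nat_lit 115662647) (nat_lit 477) (nat_lit 5) (nat_lit 486) (nat_lit 4) (nat_lit 477) (nat_lit 4) (nat_lit 354) (nat_lit 333) (nat_lit 333)) (XT.nd (nat_lit 78) (nat_lit 760) (nat_lit 0) (XT.lf (nat_lit 0) (nat_lit 3543567663) (nat_lit 684) (nat_lit 1851871600) (nat_lit 0) (nat_lit 1284264927) (nat_lit 477) (nat_lit 5) (nat_lit 486) (nat_lit 4) (nat_lit 477) (nat_lit 4) (nat_lit 355) (nat_lit 333) (nat_lit 332)) (XT.lf (nat_lit 0) (nat_lit 154388039) (nat_lit 760) (nat_lit 4139392816) (nat_lit 76) (nat_lit 2419819641) (nat_lit 467) (nat_lit 5) (nat_lit 477) (nat_lit 5) (nat_lit 468) (nat_lit 4) (nat_lit 356) (nat_lit 333) (nat_lit 331)))) (XT.nd (nat_lit 78) (nat_lit 912) (nat_lit 0) (XT.lf (nat_lit 0) (nat_lit 309250649) (nat_lit 760) (nat_lit 3085656100) (nat_lit 836) (nat_lit 3355246068) (nat_lit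 457) (nat_lit 5) (nat_lit 467) (nat_lit 5) (nat_lit 468) (nat_lit 4) (nat_lit 357) (nat_lit 333) (nat_lit 330)) (XT.nd (nat_lit 78) (nat_lit 912) (nat_lit 0) (XT.lf (nat_lit 0) (nat_lit 4888449651) (nat_lit 760) (nat_lit 1780733481) (nat_lit 836) (nat_lit 120522313) (nat_lit 457) (nat_lit 5) (nat_lit 467) (nat_lit 5) (nat_lit 468) (nat_lit 4) (nat_lit 358) (nat_lit 333) (nat_lit 329)) (XT.lf (nat_lit 0) (nat_lit 2709325047) (nat_lit 836) (nat_lit 362095192) (nat_lit 912) (nat_lit 3760413158) (nat_lit 445) (nat_lit 5) (nat_lit 456) (nat_lit 5) (nat_lit 457) (nat_lit 5) (nat_lit 359) (nat_lit 333) (nat_lit 328))))) (XT.nd (nat_lit 234) (nat_lit 2356) (nat_lit 0) (XT.nd (nat_lit 78) (nat_lit 1064) (nat_lit 0) (XT.lf (nat_lit 0) (nat_lit 531397628) (nat_lit 912) (nat_lit 5759475808) (nat_lit 988) (nat_lit 586290711) (nat_lit 433) (nat_lit 5) (nat_lit 445) (nat_lit 5) (nat_lit 446) (nat_lit 4) (nat_lit 360)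 (nat_lit 333) (nat_lit 327)) (XT.nd (nat_lit 78) (nat_lit 988) (nat_lit 0) (XT.lf (nat_lit 0) (nat_lit 2576545863) (nat_lit 988) (nat_lit 1633645092) (nat_lit 76) (nat_lit 2714514734) (nat_lit 432) (nat_lit 5) (nat_lit 445) (nat_lit 5) (nat_lit 433) (nat_lit 5) (nat_lit 361) (nat_lit 333) (nat_lit 326)) (XT.lf (nat_lit 0) (nat_lit 3188210855) (nat_lit 988) (nat_lit 2568046072) (nat_lit 1064) (nat_lit 1219229206) (nat_lit 419) (nat_lit 5) (nat_lit 432) (nat_lit 5) (nat_lit 433) (nat_lit 5) (nat_lit 362) (nat_lit 333) (nat_lit 325)))) (XT.nd (nat_lit 78) (nat_lit 1216) (nat_lit 0) (XT.lf (nat_lit 0) (nat_lit 1073355857) (nat_lit 1064) (nat_lit 822264622) (nat_lit 1140) (nat_lit 5133657286) (nat_lit 404) (nat_lit 5) (nat_lit 418) (nat_lit 5) (nat_lit 419) (nat_lit 5) (nat_lit 363) (nat_lit 333) (nat_lit 324)) (XT.nd (nat_lit 78) (nat_lit 1216) (nat_lit 0) (XT.lf (nat_lit 0) (nat_lit 5033582049) (nat_lit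 1140) (nat_lit 1039005198) (nat_lit 76) (nat_lit 1013108601) (nat_lit 404) (nat_lit 5) (nat_lit 419) (nat_lit 5) (nat_lit 405) (nat_lit 5) (nat_lit 364) (nat_lit 333) (nat_lit 323)) (XT.lf (nat_lit 0) (nat_lit 1055104628) (nat_lit 1216) (nat_lit 3148441048) (nat_lit 76) (nat_lit 2941283658) (nat_lit 388) (nat_lit 5) (nat_lit 404) (nat_lit 5) (nat_lit 389) (nat_lit 5) (nat_lit 365) (nat_lit 333) (nat_lit 322))))))))
noncomputable def xc37 : XT := (XT.nd (nat_lit 1794) (nat_lit 5472) (nat_lit 0) (XT.nd (nat_lit 858) (nat_lit 4256) (nat_lit 0) (XT.nd (nat_lit 390) (nat_lit 2356) (nat_lit 0) (XT.nd (nat_lit 156) (nat_lit 2128) (nat_lit 0) (XT.nd (nat_lit 78) (nat_lit 76) (nat_lit 0) (XT.lf (nat_lit 0) (nat_lit 1926537444) (nat_lit 1216) (nat_lit 2226700312) (nat_lit 1292) (nat_lit 3053721222) (nat_lit 372) (nat_lit 5) (nat_lit 388) (nat_lit 5) (nat_lit 389) (nat_lit 5) (nat_lit 366) (nat_lit 333) (nat_lit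 321)) (XT.lf (nat_lit 0) (nat_lit 14768051) (nat_lit 1292) (nat_lit 142968592) (nat_lit 76) (nat_lit 7114909595) (nat_lit 371) (nat_lit 5) (nat_lit 388) (nat_lit 5) (nat_lit 372) (nat_lit 5) (nat_lit 367) (nat_lit 333) (nat_lit 320))) (XT.nd (nat_lit 78) (nat_lit 1292) (nat_lit 0) (XT.lf (nat_lit 0) (nat_lit 3096332799) (nat_lit 912) (nat_lit 2229396119) (nat_lit 76) (nat_lit 2014196224) (nat_lit 360) (nat_lit 5) (nat_lit 372) (nat_lit 5) (nat_lit 361) (nat_lit 5) (nat_lit 368) (nat_lit 333) (nat_lit 319)) (XT.nd (nat_lit 78) (nat_lit 684) (nat_lit 0) (XT.lf (nat_lit 0) (nat_lit 3084701283) (nat_lit 608) (nat_lit 3133317632) (nat_lit 684) (nat_lit 1192773265) (nat_lit 352) (nat_lit 5) (nat_lit 360) (nat_lit 5) (nat_lit 361) (nat_lit 5) (nat_lit 369) (nat_lit 333) (nat_lit 318)) (XT.lf (nat_lit 0) (nat_lit 1031884928) (nat_lit 608) (nat_lit 828099699) (nat_lit 684) (nat_lit 5624784668) (nat_lit 343) (nat_lit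 5) (nat_lit 351) (nat_lit 5) (nat_lit 352) (nat_lit 5) (nat_lit 370) (nat_lit 333) (nat_lit 317))))) (XT.nd (nat_lit 234) (nat_lit 1140) (nat_lit 0) (XT.nd (nat_lit 78) (nat_lit 1216) (nat_lit 0) (XT.lf (nat_lit 0) (nat_lit 4956667010) (nat_lit 684) (nat_lit 1039111276) (nat_lit 76) (nat_lit 1565543689) (nat_lit 343) (nat_lit 5) (nat_lit 352) (nat_lit 5) (nat_lit 344) (nat_lit 5) (nat_lit 371) (nat_lit 333) (nat_lit 316)) (XT.nd (nat_lit 78) (nat_lit 608) (nat_lit 0) (XT.lf (nat_lit 0) (nat_lit 467390065) (nat_lit 608) (nat_lit 3117332411) (nat_lit 76) (nat_lit 4056167211) (nat_lit 335) (nat_lit 5) (nat_lit 343) (nat_lit 5) (nat_lit 336) (nat_lit 5) (nat_lit 372) (nat_lit 333) (nat_lit 315)) (XT.lf (nat_lit 0) (nat_lit 2484798862) (nat_lit 608) (nat_lit 1049381613) (nat_lit 684) (nat_lit 4189242245) (nat_lit 327) (nat_lit 5) (nat_lit 335) (nat_lit 5) (nat_lit 336) (nat_lit 5) (nat_lit 373) (nat_lit 333)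 (nat_lit 314)))) (XT.nd (nat_lit 78) (nat_lit 608) (nat_lit 0) (XT.lf (nat_lit 0) (nat_lit 413110076) (nat_lit 532) (nat_lit 6252454444) (nat_lit 608) (nat_lit 1143689526) (nat_lit 320) (nat_lit 5) (nat_lit 327) (nat_lit 5) (nat_lit 328) (nat_lit 5) (nat_lit 374) (nat_lit 333) (nat_lit 313)) (XT.nd (nat_lit 78) (nat_lit 532) (nat_lit 0) (XT.lf (nat_lit 0) (nat_lit 1940611977) (nat_lit 608) (nat_lit 1676048480) (nat_lit 76) (nat_lit 4280836732) (nat_lit 319) (nat_lit 5) (nat_lit 327) (nat_lit 5) (nat_lit 320) (nat_lit 5) (nat_lit 375) (nat_lit 333) (nat_lit 312)) (XT.lf (nat_lit 0) (nat_lit 4197215389) (nat_lit 532) (nat_lit 862308436) (nat_lit 608) (nat_lit 2929572042) (nat_lit 312) (nat_lit 5) (nat_lit 319) (nat_lit 5) (nat_lit 320) (nat_lit 5) (nat_lit 376) (nat_lit 333) (nat_lit 311)))))) (XT.nd (nat_lit 468) (nat_lit 2204) (nat_lit 0) (XT.nd (nat_lit 234) (nat_lit 988) (nat_lit 0) (XT.nd (nat_lit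 78) (nat_lit 532) (nat_lit 0) (XT.lf (nat_lit 0) (nat_lit 167190309) (nat_lit 532) (nat_lit 5955309276) (nat_lit 76) (nat_lit 1961419265) (nat_lit 305) (nat_lit 5) (nat_lit 312) (nat_lit 5) (nat_lit 306) (nat_lit 5) (nat_lit 377) (nat_lit 333) (nat_lit 310)) (XT.nd (nat_lit 78) (nat_lit 532) (nat_lit 0) (XT.lf (nat_lit 0) (nat_lit 3271690338) (nat_lit 532) (nat_lit 4716544) (nat_lit 76) (nat_lit 4905097981) (nat_lit 305) (nat_lit 5) (nat_lit 312) (nat_lit 5) (nat_lit 306) (nat_lit 5) (nat_lit 378) (nat_lit 333) (nat_lit 309)) (XT.lf (nat_lit 0) (nat_lit 6156371202) (nat_lit 532) (nat_lit 300782412) (nat_lit 608) (nat_lit 1825229995) (nat_lit 298) (nat_lit 5) (nat_lit 305) (nat_lit 5) (nat_lit 306) (nat_lit 5) (nat_lit 379) (nat_lit 333) (nat_lit 308)))) (XT.nd (nat_lit 78) (nat_lit 456) (nat_lit 0) (XT.lf (nat_lit 0) (nat_lit 1321028256) (nat_lit 532) (nat_lit 4319458830) (nat_lit 76) (nat_lit 2745546282)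 (nat_lit 291) (nat_lit 5) (nat_lit 298) (nat_lit 5) (nat_lit 292) (nat_lit 5) (nat_lit 380) (nat_lit 333) (nat_lit 307)) (XT.nd (nat_lit 78) (nat_lit 0) (nat_lit 0) (XT.lf (nat_lit 0) (nat_lit 1922888707) (nat_lit 456) (nat_lit 2575480366) (nat_lit 532) (nat_lit 3994679995) (nat_lit 285) (nat_lit 5) (nat_lit 291) (nat_lit 5) (nat_lit 292) (nat_lit 5) (nat_lit 381) (nat_lit 333) (nat_lit 306)) (XT.lf (nat_lit 0) (nat_lit 7751889335) (nat_lit 532) (nat_lit 257662812) (nat_lit 76) (nat_lit 594297314) (nat_lit 285) (nat_lit 5) (nat_lit 292) (nat_lit 5) (nat_lit 286) (nat_lit 5) (nat_lit 382) (nat_lit 333) (nat_lit 305))))) (XT.nd (nat_lit 234) (nat_lit 836) (nat_lit 0) (XT.nd (nat_lit 78) (nat_lit 912) (nat_lit 0) (XT.lf (nat_lit 0) (nat_lit 2357514074) (nat_lit 456) (nat_lit 2487884177) (nat_lit 76) (nat_lit 3871317417) (nat_lit 279) (nat_lit 5) (nat_lit 285) (nat_lit 5) (nat_lit 280) (nat_lit 5) (nat_lit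 383) (nat_lit 333) (nat_lit 304)) (XT.nd (nat_lit 78) (nat_lit 456) (nat_lit 0) (XT.lf (nat_lit 0) (nat_lit 4064627237) (nat_lit 456) (nat_lit 1556900480) (nat_lit 532) (nat_lit 3211925723) (nat_lit 273) (nat_lit 5) (nat_lit 279) (nat_lit 5) (nat_lit 280) (nat_lit 5) (nat_lit 384) (nat_lit 333) (nat_lit 303)) (XT.lf (nat_lit 0) (nat_lit 24349089) (nat_lit 456) (nat_lit 7113644198) (nat_lit 76) (nat_lit 1815836628) (nat_lit 267) (nat_lit 5) (nat_lit 273) (nat_lit 5) (nat_lit 268) (nat_lit 5) (nat_lit 385) (nat_lit 333) (nat_lit 302)))) (XT.nd (nat_lit 78) (nat_lit 836) (nat_lit 0) (XT.lf (nat_lit 0) (nat_lit 3292173320) (nat_lit 456) (nat_lit 468672388) (nat_lit 76) (nat_lit 5316047408) (nat_lit 267) (nat_lit 5) (nat_lit 273) (nat_lit 5) (nat_lit 268) (nat_lit 5) (nat_lit 386) (nat_lit 333) (nat_lit 301)) (XT.nd (nat_lit 78) (nat_lit 456) (nat_lit 0) (XT.lf (nat_lit 0) (nat_lit 6413586431) (nat_lit 380)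 (nat_lit 242961492) (nat_lit 456) (nat_lit 2547144819) (nat_lit 262) (nat_lit 5) (nat_lit 267) (nat_lit 5) (nat_lit 268) (nat_lit 5) (nat_lit 387) (nat_lit 333) (nat_lit 300)) (XT.lf (nat_lit 0) (nat_lit 787026319) (nat_lit 456) (nat_lit 5203590732) (nat_lit 76) (nat_lit 3343007083) (nat_lit 256) (nat_lit 5) (nat_lit 262) (nat_lit 5) (nat_lit 257) (nat_lit 5) (nat_lit 388) (nat_lit 333) (nat_lit 299))))))) (XT.nd (nat_lit 936) (nat_lit 2356) (nat_lit 0) (XT.nd (nat_lit 468) (nat_lit 1596) (nat_lit 0) (XT.nd (nat_lit 234) (nat_lit 760) (nat_lit 0) (XT.nd (nat_lit 78) (nat_lit 380) (nat_lit 0) (XT.lf (nat_lit 0) (nat_lit 1766570713) (nat_lit 380) (nat_lit 2389308474) (nat_lit 456) (nat_lit 5311242151) (nat_lit 251) (nat_lit 5) (nat_lit 256) (nat_lit 5) (nat_lit 257) (nat_lit 5) (nat_lit 389) (nat_lit 333) (nat_lit 298)) (XT.nd (nat_lit 78) (nat_lit 380) (nat_lit 0) (XT.lf (nat_lit 0) (nat_lit 7630274192)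 (nat_lit 456) (nat_lit 652822039) (nat_lit 76) (nat_lit 1321392932) (nat_lit 251) (nat_lit 5) (nat_lit 257) (nat_lit 5) (nat_lit 252) (nat_lit 5) (nat_lit 390) (nat_lit 333) (nat_lit 297)) (XT.lf (nat_lit 0) (nat_lit 1462502700) (nat_lit 380) (nat_lit 3133988540) (nat_lit 76) (nat_lit 5148221110) (nat_lit 246) (nat_lit 5) (nat_lit 251) (nat_lit 5) (nat_lit 247) (nat_lit 5) (nat_lit 391) (nat_lit 333) (nat_lit 296)))) (XT.nd (nat_lit 78) (nat_lit 380) (nat_lit 0) (XT.lf (nat_lit 0) (nat_lit 4191996220) (nat_lit 380) (nat_lit 758435134) (nat_lit 456) (nat_lit 4938490802) (nat_lit 241) (nat_lit 5) (nat_lit 246) (nat_lit 5) (nat_lit 247) (nat_lit 5) (nat_lit 392) (nat_lit 333) (nat_lit 295)) (XT.nd (nat_lit 78) (nat_lit 76) (nat_lit 0) (XT.lf (nat_lit 0) (nat_lit 1679813867) (nat_lit 304) (nat_lit 6883468403) (nat_lit 380) (nat_lit 1473567453) (nat_lit 237) (nat_lit 5) (nat_lit 241) (nat_lit 5) (nat_lit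 242) (nat_lit 5) (nat_lit 393) (nat_lit 333) (nat_lit 294)) (XT.lf (nat_lit 0) (nat_lit 2061791508) (nat_lit 380) (nat_lit 908811276) (nat_lit 76) (nat_lit 7217786848) (nat_lit 236) (nat_lit 5) (nat_lit 241) (nat_lit 5) (nat_lit 237) (nat_lit 5) (nat_lit 394) (nat_lit 333) (nat_lit 293))))) (XT.nd (nat_lit 234) (nat_lit 608) (nat_lit 0) (XT.nd (nat_lit 78) (nat_lit 684) (nat_lit 0) (XT.lf (nat_lit 0) (nat_lit 5693084495) (nat_lit 380) (nat_lit 3558781037) (nat_lit 76) (nat_lit 1091587798) (nat_lit 232) (nat_lit 5) (nat_lit 237) (nat_lit 5) (nat_lit 233) (nat_lit 5) (nat_lit 395) (nat_lit 333) (nat_lit 292)) (XT.nd (nat_lit 78) (nat_lit 380) (nat_lit 0) (XT.lf (nat_lit 0) (nat_lit 4191235780) (nat_lit 304) (nat_lit 5265073955) (nat_lit 380) (nat_lit 1046169400) (nat_lit 228) (nat_lit 5) (nat_lit 232) (nat_lit 5) (nat_lit 233) (nat_lit 5) (nat_lit 396) (nat_lit 333) (nat_lit 291)) (XT.lf (nat_lit 0) (nat_lit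 1498756523) (nat_lit 304) (nat_lit 1110365483) (nat_lit 380) (nat_lit 8056535078) (nat_lit 223) (nat_lit 5) (nat_lit 227) (nat_lit 5) (nat_lit 228) (nat_lit 5) (nat_lit 397) (nat_lit 333) (nat_lit 290)))) (XT.nd (nat_lit 78) (nat_lit 608) (nat_lit 0) (XT.lf (nat_lit 0) (nat_lit 6392675312) (nat_lit 380) (nat_lit 1287364075) (nat_lit 76) (nat_lit 3152191337) (nat_lit 223) (nat_lit 5) (nat_lit 228) (nat_lit 5) (nat_lit 224) (nat_lit 5) (nat_lit 398) (nat_lit 333) (nat_lit 289)) (XT.nd (nat_lit 78) (nat_lit 380) (nat_lit 0) (XT.lf (nat_lit 0) (nat_lit 6867570970) (nat_lit 228) (nat_lit 3445586584) (nat_lit 304) (nat_lit 689941349) (nat_lit 220) (nat_lit 5) (nat_lit 223) (nat_lit 5) (nat_lit 224) (nat_lit 5) (nat_lit 399) (nat_lit 333) (nat_lit 288)) (XT.lf (nat_lit 0) (nat_lit 3118583730) (nat_lit 380) (nat_lit 7107952344) (nat_lit 76) (nat_lit 951392584) (nat_lit 215) (nat_lit 5) (nat_lit 220) (nat_lit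 5) (nat_lit 216) (nat_lit 5) (nat_lit 400) (nat_lit 333) (nat_lit 287)))))) (XT.nd (nat_lit 468) (nat_lit 1216) (nat_lit 0) (XT.nd (nat_lit 234) (nat_lit 532) (nat_lit 0) (XT.nd (nat_lit 78) (nat_lit 380) (nat_lit 0) (XT.lf (nat_lit 0) (nat_lit 1145973506) (nat_lit 228) (nat_lit 5915935837) (nat_lit 304) (nat_lit 4294856673) (nat_lit 212) (nat_lit 5) (nat_lit 215) (nat_lit 5) (nat_lit 216) (nat_lit 5) (nat_lit 401) (nat_lit 333) (nat_lit 286)) (XT.nd (nat_lit 78) (nat_lit 380) (nat_lit 0) (XT.lf (nat_lit 0) (nat_lit 9709354825) (nat_lit 228) (nat_lit 1433797860) (nat_lit 304) (nat_lit 397227269) (nat_lit 212) (nat_lit 5) (nat_lit 215) (nat_lit 5) (nat_lit 216) (nat_lit 5) (nat_lit 402) (nat_lit 333) (nat_lit 285)) (XT.lf (nat_lit 0) (nat_lit 3592409197) (nat_lit 380) (nat_lit 4943391860) (nat_lit 76) (nat_lit 3191288136) (nat_lit 207) (nat_lit 5) (nat_lit 212) (nat_lit 5) (nat_lit 208) (nat_lit 5) (nat_lit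 403) (nat_lit 333) (nat_lit 284)))) (XT.nd (nat_lit 78) (nat_lit 304) (nat_lit 0) (XT.lf (nat_lit 0) (nat_lit 3747517927) (nat_lit 228) (nat_lit 3964389516) (nat_lit 304) (nat_lit 4206829579) (nat_lit 204) (nat_lit 5) (nat_lit 207) (nat_lit 5) (nat_lit 208) (nat_lit 5) (nat_lit 404) (nat_lit 333) (nat_lit 283)) (XT.nd (nat_lit 78) (nat_lit 76) (nat_lit 0) (XT.lf (nat_lit 0) (nat_lit 606816587) (nat_lit 228) (nat_lit 11361219247) (nat_lit 304) (nat_lit 147707096) (nat_lit 201) (nat_lit 5) (nat_lit 204) (nat_lit 5) (nat_lit 205) (nat_lit 5) (nat_lit 405) (nat_lit 333) (nat_lit 282)) (XT.lf (nat_lit 0) (nat_lit 4026897116) (nat_lit 304) (nat_lit 2662738604) (nat_lit 76) (nat_lit 5625687909) (nat_lit 200) (nat_lit 5) (nat_lit 204) (nat_lit 5) (nat_lit 201) (nat_lit 5) (nat_lit 406) (nat_lit 333) (nat_lit 281))))) (XT.nd (nat_lit 234) (nat_lit 684) (nat_lit 0) (XT.nd (nat_lit 78) (nat_lit 304) (nat_lit 0)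 (XT.lf (nat_lit 0) (nat_lit 6493092961) (nat_lit 228) (nat_lit 1844383080) (nat_lit 304) (nat_lit 4182960672) (nat_lit 197) (nat_lit 5) (nat_lit 200) (nat_lit 5) (nat_lit 201) (nat_lit 5) (nat_lit 407) (nat_lit 333) (nat_lit 280)) (XT.nd (nat_lit 78) (nat_lit 0) (nat_lit 0) (XT.lf (nat_lit 0) (nat_lit 84938445) (nat_lit 304) (nat_lit 9533486529) (nat_lit 76) (nat_lit 3112060233) (nat_lit 193) (nat_lit 5) (nat_lit 197) (nat_lit 5) (nat_lit 194) (nat_lit 5) (nat_lit 408) (nat_lit 333) (nat_lit 279)) (XT.lf (nat_lit 0) (nat_lit 4428320405) (nat_lit 304) (nat_lit 265146756) (nat_lit 76) (nat_lit 8251179954) (nat_lit 193) (nat_lit 5) (nat_lit 197) (nat_lit 5) (nat_lit 194) (nat_lit 5) (nat_lit 409) (nat_lit 333) (nat_lit 278)))) (XT.nd (nat_lit 78) (nat_lit 456) (nat_lit 0) (XT.lf (nat_lit 0) (nat_lit 8949644169) (nat_lit 304) (nat_lit 3782886941) (nat_lit 76) (nat_lit 431273560) (nat_lit 190) (nat_lit 5)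 (nat_lit 194) (nat_lit 5) (nat_lit 191) (nat_lit 5) (nat_lit 410) (nat_lit 333) (nat_lit 277)) (XT.nd (nat_lit 78) (nat_lit 152) (nat_lit 0) (XT.lf (nat_lit 0) (nat_lit 273021165) (nat_lit 304) (nat_lit 7468432250) (nat_lit 76) (nat_lit 5646215348) (nat_lit 186) (nat_lit 5) (nat_lit 190) (nat_lit 5) (nat_lit 187) (nat_lit 5) (nat_lit 411) (nat_lit 333) (nat_lit 276)) (XT.lf (nat_lit 0) (nat_lit 2296010911) (nat_lit 152) (nat_lit 2528396101) (nat_lit 228) (nat_lit 8792161361) (nat_lit 184) (nat_lit 5) (nat_lit 186) (nat_lit 5) (nat_lit 187) (nat_lit 5) (nat_lit 412) (nat_lit 333) (nat_lit 275))))))))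
noncomputable def xc38 : XT := (XT.nd (nat_lit 1794) (nat_lit 152) (nat_lit 0) (XT.nd (nat_lit 858) (nat_lit 1368) (nat_lit 0) (XT.nd (nat_lit 390) (nat_lit 912) (nat_lit 0) (XT.nd (nat_lit 156) (nat_lit 456) (nat_lit 0) (XT.nd (nat_lit 78) (nat_lit 304) (nat_lit 0) (XT.lf (nat_lit 0) (nat_lit 9569723875) (nat_lit 228) (nat_lit 1451478236) (nat_lit 76) (nat_lit 2829411176) (nat_lit 184) (nat_lit 5) (nat_lit 187) (nat_lit 5) (nat_lit 185) (nat_lit 5) (nat_lit 413) (nat_lit 333) (nat_lit 274)) (XT.lf (nat_lit 0) (nat_lit 423939930) (nat_lit 304) (nat_lit 5311383028) (nat_lit 76) (nat_lit 8354290453) (nat_lit 180) (nat_lit 5) (nat_lit 184) (nat_lit 5) (nat_lit 181) (nat_lit 5) (nat_lit 414) (nat_lit 333) (nat_lit 273))) (XT.nd (nat_lit 78) (nat_lit 304) (nat_lit 0) (XT.lf (nat_lit 0) (nat_lit 4986377489) (nat_lit 152) (nat_lit 215615891) (nat_lit 228) (nat_lit 9131974981) (nat_lit 178) (nat_lit 5) (nat_lit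 180) (nat_lit 5) (nat_lit 181) (nat_lit 5) (nat_lit 415) (nat_lit 333) (nat_lit 272)) (XT.nd (nat_lit 78) (nat_lit 76) (nat_lit 0) (XT.lf (nat_lit 0) (nat_lit 1006556804) (nat_lit 228) (nat_lit 9188882315) (nat_lit 304) (nat_lit 4388053321) (nat_lit 175) (nat_lit 5) (nat_lit 178) (nat_lit 5) (nat_lit 179) (nat_lit 5) (nat_lit 416) (nat_lit 333) (nat_lit 271)) (XT.lf (nat_lit 0) (nat_lit 541674994) (nat_lit 304) (nat_lit 3060580347) (nat_lit 76) (nat_lit 11236506921) (nat_lit 174) (nat_lit 5) (nat_lit 178) (nat_lit 5) (nat_lit 175) (nat_lit 5) (nat_lit 417) (nat_lit 333) (nat_lit 270))))) (XT.nd (nat_lit 234) (nat_lit 532) (nat_lit 0) (XT.nd (nat_lit 78) (nat_lit 228) (nat_lit 0) (XT.lf (nat_lit 0) (nat_lit 5584701778) (nat_lit 228) (nat_lit 7316583126) (nat_lit 76) (nat_lit 2197493829) (nat_lit 172) (nat_lit 5) (nat_lit 175) (nat_lit 5) (nat_lit 173) (nat_lit 5) (nat_lit 418) (nat_lit 333) (nat_lit 269))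 (XT.nd (nat_lit 78) (nat_lit 76) (nat_lit 0) (XT.lf (nat_lit 0) (nat_lit 3605772045) (nat_lit 152) (nat_lit 7232041168) (nat_lit 228) (nat_lit 4527018669) (nat_lit 170) (nat_lit 5) (nat_lit 172) (nat_lit 5) (nat_lit 173) (nat_lit 5) (nat_lit 419) (nat_lit 333) (nat_lit 268)) (XT.lf (nat_lit 0) (nat_lit 629728834) (nat_lit 228) (nat_lit 713508308) (nat_lit 76) (nat_lit 14294494454) (nat_lit 169) (nat_lit 5) (nat_lit 172) (nat_lit 5) (nat_lit 170) (nat_lit 5) (nat_lit 420) (nat_lit 333) (nat_lit 267)))) (XT.nd (nat_lit 78) (nat_lit 380) (nat_lit 0) (XT.lf (nat_lit 0) (nat_lit 5958719945) (nat_lit 228) (nat_lit 5207545654) (nat_lit 76) (nat_lit 4747952151) (nat_lit 167) (nat_lit 5) (nat_lit 170) (nat_lit 5) (nat_lit 168) (nat_lit 5) (nat_lit 421) (nat_lit 333) (nat_lit 266)) (XT.nd (nat_lit 78) (nat_lit 228) (nat_lit 0) (XT.lf (nat_lit 0) (nat_lit 6321256165) (nat_lit 152) (nat_lit 5166458803) (nat_lit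 228) (nat_lit 4710079495) (nat_lit 165) (nat_lit 5) (nat_lit 167) (nat_lit 5) (nat_lit 168) (nat_lit 5) (nat_lit 422) (nat_lit 333) (nat_lit 265)) (XT.lf (nat_lit 0) (nat_lit 718352535) (nat_lit 228) (nat_lit 14731427660) (nat_lit 76) (nat_lit 1038723474) (nat_lit 162) (nat_lit 5) (nat_lit 165) (nat_lit 5) (nat_lit 163) (nat_lit 5) (nat_lit 423) (nat_lit 333) (nat_lit 264)))))) (XT.nd (nat_lit 468) (nat_lit 608) (nat_lit 0) (XT.nd (nat_lit 234) (nat_lit 380) (nat_lit 0) (XT.nd (nat_lit 78) (nat_lit 380) (nat_lit 0) (XT.lf (nat_lit 0) (nat_lit 6325907889) (nat_lit 228) (nat_lit 3015853866) (nat_lit 76) (nat_lit 7441445213) (nat_lit 162) (nat_lit 5) (nat_lit 165) (nat_lit 5) (nat_lit 163) (nat_lit 5) (nat_lit 424) (nat_lit 333) (nat_lit 263)) (XT.nd (nat_lit 78) (nat_lit 228) (nat_lit 0) (XT.lf (nat_lit 0) (nat_lit 9157757040) (nat_lit 152) (nat_lit 2992219241) (nat_lit 228) (nat_lit 4935326493) (nat_lit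 160) (nat_lit 5) (nat_lit 162) (nat_lit 5) (nat_lit 163) (nat_lit 5) (nat_lit 425) (nat_lit 333) (nat_lit 262)) (XT.lf (nat_lit 0) (nat_lit 805293304) (nat_lit 228) (nat_lit 13061488199) (nat_lit 76) (nat_lit 3527432959) (nat_lit 157) (nat_lit 5) (nat_lit 160) (nat_lit 5) (nat_lit 158) (nat_lit 5) (nat_lit 426) (nat_lit 333) (nat_lit 261)))) (XT.nd (nat_lit 78) (nat_lit 380) (nat_lit 0) (XT.lf (nat_lit 0) (nat_lit 6689903547) (nat_lit 228) (nat_lit 738332071) (nat_lit 76) (nat_lit 10280562931) (nat_lit 157) (nat_lit 5) (nat_lit 160) (nat_lit 5) (nat_lit 158) (nat_lit 5) (nat_lit 427) (nat_lit 333) (nat_lit 260)) (XT.nd (nat_lit 78) (nat_lit 228) (nat_lit 0) (XT.lf (nat_lit 0) (nat_lit 12120776280) (nat_lit 152) (nat_lit 708434566) (nat_lit 228) (nat_lit 5201264550) (nat_lit 155) (nat_lit 5) (nat_lit 157) (nat_lit 5) (nat_lit 158) (nat_lit 5) (nat_lit 428) (nat_lit 333) (nat_lit 259)) (XT.lf (nat_lit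 0) (nat_lit 872999820) (nat_lit 228) (nat_lit 11341347951) (nat_lit 76) (nat_lit 6144300556) (nat_lit 152) (nat_lit 5) (nat_lit 155) (nat_lit 5) (nat_lit 153) (nat_lit 5) (nat_lit 429) (nat_lit 333) (nat_lit 258))))) (XT.nd (nat_lit 234) (nat_lit 304) (nat_lit 0) (XT.nd (nat_lit 78) (nat_lit 152) (nat_lit 0) (XT.lf (nat_lit 0) (nat_lit 1661215125) (nat_lit 152) (nat_lit 5408845923) (nat_lit 228) (nat_lit 11623707190) (nat_lit 150) (nat_lit 5) (nat_lit 152) (nat_lit 5) (nat_lit 153) (nat_lit 5) (nat_lit 430) (nat_lit 333) (nat_lit 257)) (XT.nd (nat_lit 78) (nat_lit 152) (nat_lit 0) (XT.lf (nat_lit 0) (nat_lit 13546072308) (nat_lit 228) (nat_lit 3836293223) (nat_lit 76) (nat_lit 1653785071) (nat_lit 150) (nat_lit 5) (nat_lit 153) (nat_lit 5) (nat_lit 151) (nat_lit 4) (nat_lit 431) (nat_lit 333) (nat_lit 256)) (XT.lf (nat_lit 0) (nat_lit 923610159) (nat_lit 152) (nat_lit 9569044736) (nat_lit 76) (nat_lit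 8892544911) (nat_lit 148) (nat_lit 5) (nat_lit 150) (nat_lit 5) (nat_lit 149) (nat_lit 5) (nat_lit 432) (nat_lit 333) (nat_lit 255)))) (XT.nd (nat_lit 78) (nat_lit 152) (nat_lit 0) (XT.lf (nat_lit 0) (nat_lit 4171303646) (nat_lit 152) (nat_lit 3290439237) (nat_lit 228) (nat_lit 12280075522) (nat_lit 146) (nat_lit 5) (nat_lit 148) (nat_lit 5) (nat_lit 149) (nat_lit 5) (nat_lit 433) (nat_lit 333) (nat_lit 254)) (XT.nd (nat_lit 78) (nat_lit 152) (nat_lit 0) (XT.lf (nat_lit 0) (nat_lit 14296560288) (nat_lit 228) (nat_lit 1695582754) (nat_lit 76) (nat_lit 4113976301) (nat_lit 146) (nat_lit 5) (nat_lit 149) (nat_lit 5) (nat_lit 147) (nat_lit 4) (nat_lit 434) (nat_lit 333) (nat_lit 253)) (XT.lf (nat_lit 0) (nat_lit 959006836) (nat_lit 152) (nat_lit 7742175607) (nat_lit 76) (nat_lit 11776301697) (nat_lit 144) (nat_lit 5) (nat_lit 146) (nat_lit 5) (nat_lit 145) (nat_lit 5) (nat_lit 435) (nat_lit 333) (nat_lit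 252))))))) (XT.nd (nat_lit 47424) (nat_lit 0) (nat_lit 14060) (XT.nd (nat_lit 46956) (nat_lit 0) (nat_lit 20976) (XT.nd (nat_lit 46722) (nat_lit 0) (nat_lit 24700) (XT.nd (nat_lit 46566) (nat_lit 0) (nat_lit 26144) (XT.lf (nat_lit 0) (nat_lit 6782283983) (nat_lit 152) (nat_lit 1078466381) (nat_lit 228) (nat_lit 12996107294) (nat_lit 142) (nat_lit 5) (nat_lit 144) (nat_lit 5) (nat_lit 145) (nat_lit 5) (nat_lit 436) (nat_lit 333) (nat_lit 251)) (XT.nd (nat_lit 78) (nat_lit 532) (nat_lit 0) (XT.lf (nat_lit 0) (nat_lit 1299220761) (nat_lit 532) (nat_lit 698466711) (nat_lit 0) (nat_lit 1299220761) (nat_lit 493) (nat_lit 5) (nat_lit 500) (nat_lit 4) (nat_lit 493) (nat_lit 4) (nat_lit 352) (nat_lit 334) (nat_lit 334)) (XT.lf (nat_lit 0) (nat_lit 2798982047) (nat_lit 532) (nat_lit 3109261840) (nat_lit 532) (nat_lit 712367568) (nat_lit 486) (nat_lit 4) (nat_lit 493) (nat_lit 5) (nat_lit 493) (nat_lit 4) (nat_lit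 353) (nat_lit 334) (nat_lit 333)))) (XT.nd (nat_lit 78) (nat_lit 760) (nat_lit 0) (XT.lf (nat_lit 0) (nat_lit 398954557) (nat_lit 608) (nat_lit 2124656598) (nat_lit 684) (nat_lit 4126632454) (nat_lit 477) (nat_lit 5) (nat_lit 485) (nat_lit 5) (nat_lit 486) (nat_lit 4) (nat_lit 354) (nat_lit 334) (nat_lit 332)) (XT.nd (nat_lit 78) (nat_lit 760) (nat_lit 0) (XT.lf (nat_lit 0) (nat_lit 4733475008) (nat_lit 608) (nat_lit 1038324909) (nat_lit 684) (nat_lit 910869759) (nat_lit 477) (nat_lit 5) (nat_lit 485) (nat_lit 5) (nat_lit 486) (nat_lit 4) (nat_lit 355) (nat_lit 334) (nat_lit 331)) (XT.lf (nat_lit 0) (nat_lit 2272308665) (nat_lit 760) (nat_lit 4296705280) (nat_lit 76) (nat_lit 148828015) (nat_lit 467) (nat_lit 5) (nat_lit 477) (nat_lit 5) (nat_lit 468) (nat_lit 4) (nat_lit 356) (nat_lit 334) (nat_lit 330))))) (XT.nd (nat_lit 234) (nat_lit 2052) (nat_lit 0) (XT.nd (nat_lit 78) (nat_lit 912) (nat_lit 0)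 (XT.lf (nat_lit 0) (nat_lit 105577180) (nat_lit 760) (nat_lit 5353856861) (nat_lit 836) (nat_lit 1296562039) (nat_lit 457) (nat_lit 5) (nat_lit 467) (nat_lit 5) (nat_lit 468) (nat_lit 4) (nat_lit 357) (nat_lit 334) (nat_lit 329)) (XT.nd (nat_lit 78) (nat_lit 836) (nat_lit 0) (XT.lf (nat_lit 0) (nat_lit 1849501946) (nat_lit 836) (nat_lit 2172386170) (nat_lit 76) (nat_lit 2774626846) (nat_lit 456) (nat_lit 5) (nat_lit 467) (nat_lit 5) (nat_lit 457) (nat_lit 5) (nat_lit 358) (nat_lit 334) (nat_lit 328)) (XT.lf (nat_lit 0) (nat_lit 2389055606) (nat_lit 836) (nat_lit 2597599944) (nat_lit 912) (nat_lit 1853525722) (nat_lit 445) (nat_lit 5) (nat_lit 456) (nat_lit 5) (nat_lit 457) (nat_lit 5) (nat_lit 359) (nat_lit 334) (nat_lit 327)))) (XT.nd (nat_lit 78) (nat_lit 1064) (nat_lit 0) (XT.lf (nat_lit 0) (nat_lit 151444966) (nat_lit 912) (nat_lit 1079867121) (nat_lit 988) (nat_lit 5655724555) (nat_lit 432) (nat_lit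 5) (nat_lit 444) (nat_lit 5) (nat_lit 445) (nat_lit 5) (nat_lit 360) (nat_lit 334) (nat_lit 326)) (XT.nd (nat_lit 78) (nat_lit 1064) (nat_lit 0) (XT.lf (nat_lit 0) (nat_lit 4324606602) (nat_lit 988) (nat_lit 2062094036) (nat_lit 76) (nat_lit 549451514) (nat_lit 432) (nat_lit 5) (nat_lit 445) (nat_lit 5) (nat_lit 433) (nat_lit 5) (nat_lit 361) (nat_lit 334) (nat_lit 325)) (XT.lf (nat_lit 0) (nat_lit 455840207) (nat_lit 1064) (nat_lit 4284638179) (nat_lit 76) (nat_lit 2247848472) (nat_lit 418) (nat_lit 5) (nat_lit 432) (nat_lit 5) (nat_lit 419) (nat_lit 5) (nat_lit 362) (nat_lit 334) (nat_lit 324)))))) (XT.nd (nat_lit 468) (nat_lit 2508) (nat_lit 0) (XT.nd (nat_lit 234) (nat_lit 2128) (nat_lit 0) (XT.nd (nat_lit 78) (nat_lit 1216) (nat_lit 0) (XT.lf (nat_lit 0) (nat_lit 510688783) (nat_lit 1064) (nat_lit 2984969066) (nat_lit 1140) (nat_lit 3547646257) (nat_lit 404) (nat_lit 5) (nat_lit 418) (nat_lit 5)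 (nat_lit 419) (nat_lit 5) (nat_lit 363) (nat_lit 334) (nat_lit 323)) (XT.nd (nat_lit 78) (nat_lit 1216) (nat_lit 0) (XT.lf (nat_lit 0) (nat_lit 5452067142) (nat_lit 1064) (nat_lit 1126717427) (nat_lit 1140) (nat_lit 522582666) (nat_lit 404) (nat_lit 5) (nat_lit 418) (nat_lit 5) (nat_lit 419) (nat_lit 5) (nat_lit 364) (nat_lit 334) (nat_lit 322)) (XT.lf (nat_lit 0) (nat_lit 2493496544) (nat_lit 1216) (nat_lit 3834562738) (nat_lit 76) (nat_lit 833839131) (nat_lit 388) (nat_lit 5) (nat_lit 404) (nat_lit 5) (nat_lit 389) (nat_lit 5) (nat_lit 365) (nat_lit 334) (nat_lit 321)))) (XT.nd (nat_lit 78) (nat_lit 912) (nat_lit 0) (XT.lf (nat_lit 0) (nat_lit 1183175133) (nat_lit 1216) (nat_lit 4358183318) (nat_lit 1292) (nat_lit 1684177743) (nat_lit 372) (nat_lit 5) (nat_lit 388) (nat_lit 5) (nat_lit 389) (nat_lit 5) (nat_lit 366) (nat_lit 334) (nat_lit 320)) (XT.nd (nat_lit 78) (nat_lit 836) (nat_lit 0) (XT.lf (nat_lit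 0) (nat_lit 1314891976) (nat_lit 1292) (nat_lit 961238694) (nat_lit 76) (nat_lit 5015978681) (nat_lit 371) (nat_lit 5) (nat_lit 388) (nat_lit 5) (nat_lit 372) (nat_lit 5) (nat_lit 367) (nat_lit 334) (nat_lit 319)) (XT.lf (nat_lit 0) (nat_lit 4253570681) (nat_lit 836) (nat_lit 73254609) (nat_lit 912) (nat_lit 3034651908) (nat_lit 360) (nat_lit 5) (nat_lit 371) (nat_lit 5) (nat_lit 372) (nat_lit 5) (nat_lit 368) (nat_lit 334) (nat_lit 318))))) (XT.nd (nat_lit 234) (nat_lit 1216) (nat_lit 0) (XT.nd (nat_lit 78) (nat_lit 684) (nat_lit 0) (XT.lf (nat_lit 0) (nat_lit 2145866365) (nat_lit 608) (nat_lit 5252265134) (nat_lit 684) (nat_lit 35724136) (nat_lit 352) (nat_lit 5) (nat_lit 360) (nat_lit 5) (nat_lit 361) (nat_lit 5) (nat_lit 369) (nat_lit 334) (nat_lit 317)) (XT.nd (nat_lit 78) (nat_lit 608) (nat_lit 0) (XT.lf (nat_lit 0) (nat_lit 2944268073) (nat_lit 684) (nat_lit 4362843) (nat_lit 76) (nat_lit 4560373790)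 (nat_lit 351) (nat_lit 5) (nat_lit 360) (nat_lit 5) (nat_lit 352) (nat_lit 5) (nat_lit 370) (nat_lit 334) (nat_lit 316)) (XT.lf (nat_lit 0) (nat_lit 5459016140) (nat_lit 608) (nat_lit 527037403) (nat_lit 684) (nat_lit 1601150750) (nat_lit 343) (nat_lit 5) (nat_lit 351) (nat_lit 5) (nat_lit 352) (nat_lit 5) (nat_lit 371) (nat_lit 334) (nat_lit 315)))) (XT.nd (nat_lit 78) (nat_lit 608) (nat_lit 0) (XT.lf (nat_lit 0) (nat_lit 1396277306) (nat_lit 608) (nat_lit 4302934939) (nat_lit 76) (nat_lit 1968921421) (nat_lit 335) (nat_lit 5) (nat_lit 343) (nat_lit 5) (nat_lit 336) (nat_lit 5) (nat_lit 372) (nat_lit 334) (nat_lit 314)) (XT.nd (nat_lit 78) (nat_lit 0) (nat_lit 0) (XT.lf (nat_lit 0) (nat_lit 1231859722) (nat_lit 608) (nat_lit 3181119465) (nat_lit 684) (nat_lit 3339190167) (nat_lit 327) (nat_lit 5) (nat_lit 335) (nat_lit 5) (nat_lit 336) (nat_lit 5) (nat_lit 373) (nat_lit 334) (nat_lit 313)) (XT.lf (nat_lit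 0) (nat_lit 6934696581) (nat_lit 608) (nat_lit 553127140) (nat_lit 684) (nat_lit 351873146) (nat_lit 327) (nat_lit 5) (nat_lit 335) (nat_lit 5) (nat_lit 336) (nat_lit 5) (nat_lit 374) (nat_lit 334) (nat_lit 312))))))))
noncomputable def xc39 : XT := (XT.nd (nat_lit 1872) (nat_lit 4256) (nat_lit 0) (XT.nd (nat_lit 936) (nat_lit 3344) (nat_lit 0) (XT.nd (nat_lit 468) (nat_lit 1824) (nat_lit 0) (XT.nd (nat_lit 234) (nat_lit 1064) (nat_lit 0) (XT.nd (nat_lit 78) (nat_lit 1064) (nat_lit 0) (XT.lf (nat_lit 0) (nat_lit 2665617075) (nat_lit 608) (nat_lit 3088934773) (nat_lit 76) (nat_lit 2174700622) (nat_lit 319) (nat_lit 5) (nat_lit 327) (nat_lit 5) (nat_lit 320) (nat_lit 5) (nat_lit 375) (nat_lit 334) (nat_lit 311)) (XT.nd (nat_lit 78) (nat_lit 532) (nat_lit 0) (XT.lf (nat_lit 0) (nat_lit 2712790710) (nat_lit 532) (nat_lit 3021466397) (nat_lit 608) (nat_lit 2288102195) (nat_lit 312) (nat_lit 5) (nat_lit 319)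 (nat_lit 5) (nat_lit 320) (nat_lit 5) (nat_lit 376) (nat_lit 334) (nat_lit 310)) (XT.lf (nat_lit 0) (nat_lit 550515730) (nat_lit 456) (nat_lit 175328137) (nat_lit 532) (nat_lit 7393262399) (nat_lit 305) (nat_lit 5) (nat_lit 311) (nat_lit 5) (nat_lit 312) (nat_lit 5) (nat_lit 377) (nat_lit 334) (nat_lit 309)))) (XT.nd (nat_lit 78) (nat_lit 1064) (nat_lit 0) (XT.lf (nat_lit 0) (nat_lit 3793510477) (nat_lit 532) (nat_lit 1659738917) (nat_lit 76) (nat_lit 2764547888) (nat_lit 305) (nat_lit 5) (nat_lit 312) (nat_lit 5) (nat_lit 306) (nat_lit 5) (nat_lit 378) (nat_lit 334) (nat_lit 308)) (XT.nd (nat_lit 78) (nat_lit 532) (nat_lit 0) (XT.lf (nat_lit 0) (nat_lit 4425409915) (nat_lit 532) (nat_lit 2502800452) (nat_lit 608) (nat_lit 1391988563) (nat_lit 298) (nat_lit 5) (nat_lit 305) (nat_lit 5) (nat_lit 306) (nat_lit 5) (nat_lit 379) (nat_lit 334) (nat_lit 307)) (XT.lf (nat_lit 0) (nat_lit 1672769788) (nat_lit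 532) (nat_lit 6188807371) (nat_lit 76) (nat_lit 564337965) (nat_lit 291) (nat_lit 5) (nat_lit 298) (nat_lit 5) (nat_lit 292) (nat_lit 5) (nat_lit 380) (nat_lit 334) (nat_lit 306))))) (XT.nd (nat_lit 234) (nat_lit 912) (nat_lit 0) (XT.nd (nat_lit 78) (nat_lit 912) (nat_lit 0) (XT.lf (nat_lit 0) (nat_lit 4798261559) (nat_lit 532) (nat_lit 26903209) (nat_lit 76) (nat_lit 3709321528) (nat_lit 291) (nat_lit 5) (nat_lit 298) (nat_lit 5) (nat_lit 292) (nat_lit 5) (nat_lit 381) (nat_lit 334) (nat_lit 305)) (XT.nd (nat_lit 78) (nat_lit 456) (nat_lit 0) (XT.lf (nat_lit 0) (nat_lit 6359360446) (nat_lit 456) (nat_lit 1653529371) (nat_lit 532) (nat_lit 633563632) (nat_lit 285) (nat_lit 5) (nat_lit 291) (nat_lit 5) (nat_lit 292) (nat_lit 5) (nat_lit 382) (nat_lit 334) (nat_lit 304)) (XT.lf (nat_lit 0) (nat_lit 2502990534) (nat_lit 456) (nat_lit 4630528245) (nat_lit 76) (nat_lit 1627797646) (nat_lit 279) (nat_lit 5)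 (nat_lit 285) (nat_lit 5) (nat_lit 280) (nat_lit 5) (nat_lit 383) (nat_lit 334) (nat_lit 303)))) (XT.nd (nat_lit 78) (nat_lit 456) (nat_lit 0) (XT.lf (nat_lit 0) (nat_lit 1836152230) (nat_lit 456) (nat_lit 3877711816) (nat_lit 532) (nat_lit 3165784356) (nat_lit 273) (nat_lit 5) (nat_lit 279) (nat_lit 5) (nat_lit 280) (nat_lit 5) (nat_lit 384) (nat_lit 334) (nat_lit 302)) (XT.nd (nat_lit 78) (nat_lit 380) (nat_lit 0) (XT.lf (nat_lit 0) (nat_lit 2415729) (nat_lit 532) (nat_lit 495415121) (nat_lit 76) (nat_lit 8504195950) (nat_lit 272) (nat_lit 5) (nat_lit 279) (nat_lit 5) (nat_lit 273) (nat_lit 5) (nat_lit 385) (nat_lit 334) (nat_lit 301)) (XT.lf (nat_lit 0) (nat_lit 3229448089) (nat_lit 456) (nat_lit 2900604729) (nat_lit 76) (nat_lit 2996260938) (nat_lit 267) (nat_lit 5) (nat_lit 273) (nat_lit 5) (nat_lit 268) (nat_lit 5) (nat_lit 386) (nat_lit 334) (nat_lit 300)))))) (XT.nd (nat_lit 468) (nat_lit 1368)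 (nat_lit 0) (XT.nd (nat_lit 234) (nat_lit 1140) (nat_lit 0) (XT.nd (nat_lit 78) (nat_lit 456) (nat_lit 0) (XT.lf (nat_lit 0) (nat_lit 3890712352) (nat_lit 380) (nat_lit 2648663479) (nat_lit 456) (nat_lit 2715370958) (nat_lit 262) (nat_lit 5) (nat_lit 267) (nat_lit 5) (nat_lit 268) (nat_lit 5) (nat_lit 387) (nat_lit 334) (nat_lit 299)) (XT.nd (nat_lit 78) (nat_lit 0) (nat_lit 0) (XT.lf (nat_lit 0) (nat_lit 542937011) (nat_lit 456) (nat_lit 7899091822) (nat_lit 76) (nat_lit 945072237) (nat_lit 256) (nat_lit 5) (nat_lit 262) (nat_lit 5) (nat_lit 257) (nat_lit 5) (nat_lit 388) (nat_lit 334) (nat_lit 298)) (XT.lf (nat_lit 0) (nat_lit 3865161579) (nat_lit 456) (nat_lit 1005662419) (nat_lit 76) (nat_lit 4651173125) (nat_lit 256) (nat_lit 5) (nat_lit 262) (nat_lit 5) (nat_lit 257) (nat_lit 5) (nat_lit 389) (nat_lit 334) (nat_lit 297)))) (XT.nd (nat_lit 78) (nat_lit 760) (nat_lit 0) (XT.lf (nat_lit 0) (nat_lit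 6130917241) (nat_lit 380) (nat_lit 1156639389) (nat_lit 456) (nat_lit 2373368316) (nat_lit 251) (nat_lit 5) (nat_lit 256) (nat_lit 5) (nat_lit 257) (nat_lit 5) (nat_lit 390) (nat_lit 334) (nat_lit 296)) (XT.nd (nat_lit 78) (nat_lit 380) (nat_lit 0) (XT.lf (nat_lit 0) (nat_lit 1002387984) (nat_lit 380) (nat_lit 6153245191) (nat_lit 76) (nat_lit 2647692574) (nat_lit 246) (nat_lit 5) (nat_lit 251) (nat_lit 5) (nat_lit 247) (nat_lit 5) (nat_lit 391) (nat_lit 334) (nat_lit 295)) (XT.lf (nat_lit 0) (nat_lit 1070307825) (nat_lit 380) (nat_lit 3361705139) (nat_lit 456) (nat_lit 5517271701) (nat_lit 241) (nat_lit 5) (nat_lit 246) (nat_lit 5) (nat_lit 247) (nat_lit 5) (nat_lit 392) (nat_lit 334) (nat_lit 294))))) (XT.nd (nat_lit 234) (nat_lit 684) (nat_lit 0) (XT.nd (nat_lit 78) (nat_lit 684) (nat_lit 0) (XT.lf (nat_lit 0) (nat_lit 7975697860) (nat_lit 456) (nat_lit 1551810089) (nat_lit 76) (nat_lit 571779265)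 (nat_lit 241) (nat_lit 5) (nat_lit 247) (nat_lit 5) (nat_lit 242) (nat_lit 5) (nat_lit 393) (nat_lit 334) (nat_lit 293)) (XT.nd (nat_lit 78) (nat_lit 304) (nat_lit 0) (XT.lf (nat_lit 0) (nat_lit 1381239312) (nat_lit 380) (nat_lit 4269776508) (nat_lit 76) (nat_lit 4601295191) (nat_lit 236) (nat_lit 5) (nat_lit 241) (nat_lit 5) (nat_lit 237) (nat_lit 5) (nat_lit 394) (nat_lit 334) (nat_lit 292)) (XT.lf (nat_lit 0) (nat_lit 3326289207) (nat_lit 304) (nat_lit 1615152258) (nat_lit 380) (nat_lit 5468065968) (nat_lit 232) (nat_lit 5) (nat_lit 236) (nat_lit 5) (nat_lit 237) (nat_lit 5) (nat_lit 395) (nat_lit 334) (nat_lit 291)))) (XT.nd (nat_lit 78) (nat_lit 380) (nat_lit 0) (XT.lf (nat_lit 0) (nat_lit 570665864) (nat_lit 304) (nat_lit 8056900993) (nat_lit 380) (nat_lit 1943279378) (nat_lit 228) (nat_lit 5) (nat_lit 232) (nat_lit 5) (nat_lit 233) (nat_lit 5) (nat_lit 396) (nat_lit 334) (nat_lit 290)) (XT.nd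 (nat_lit 78) (nat_lit 304) (nat_lit 0) (XT.lf (nat_lit 0) (nat_lit 1688468227) (nat_lit 380) (nat_lit 2251939458) (nat_lit 76) (nat_lit 6795106695) (nat_lit 227) (nat_lit 5) (nat_lit 232) (nat_lit 5) (nat_lit 228) (nat_lit 5) (nat_lit 397) (nat_lit 334) (nat_lit 289)) (XT.lf (nat_lit 0) (nat_lit 5396123630) (nat_lit 380) (nat_lit 5167356716) (nat_lit 76) (nat_lit 340884612) (nat_lit 223) (nat_lit 5) (nat_lit 228) (nat_lit 5) (nat_lit 224) (nat_lit 5) (nat_lit 398) (nat_lit 334) (nat_lit 288))))))) (XT.nd (nat_lit 936) (nat_lit 1748) (nat_lit 0) (XT.nd (nat_lit 468) (nat_lit 1292) (nat_lit 0) (XT.nd (nat_lit 234) (nat_lit 608) (nat_lit 0) (XT.nd (nat_lit 78) (nat_lit 380) (nat_lit 0) (XT.lf (nat_lit 0) (nat_lit 2869382865) (nat_lit 228) (nat_lit 6383161456) (nat_lit 304) (nat_lit 1824610662) (nat_lit 220) (nat_lit 5) (nat_lit 223) (nat_lit 5) (nat_lit 224) (nat_lit 5) (nat_lit 399) (nat_lit 334) (nat_lit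 287)) (XT.nd (nat_lit 78) (nat_lit 304) (nat_lit 0) (XT.lf (nat_lit 0) (nat_lit 1931998455) (nat_lit 304) (nat_lit 101651221) (nat_lit 76) (nat_lit 9220884000) (nat_lit 219) (nat_lit 5) (nat_lit 223) (nat_lit 5) (nat_lit 220) (nat_lit 5) (nat_lit 400) (nat_lit 334) (nat_lit 286)) (XT.lf (nat_lit 0) (nat_lit 5818456474) (nat_lit 380) (nat_lit 3147623792) (nat_lit 76) (nat_lit 2468996795) (nat_lit 215) (nat_lit 5) (nat_lit 220) (nat_lit 5) (nat_lit 216) (nat_lit 5) (nat_lit 401) (nat_lit 334) (nat_lit 285)))) (XT.nd (nat_lit 78) (nat_lit 380) (nat_lit 0) (XT.lf (nat_lit 0) (nat_lit 5313002510) (nat_lit 228) (nat_lit 4530892809) (nat_lit 304) (nat_lit 1776469816) (nat_lit 212) (nat_lit 5) (nat_lit 215) (nat_lit 5) (nat_lit 216) (nat_lit 5) (nat_lit 402) (nat_lit 334) (nat_lit 284)) (XT.nd (nat_lit 78) (nat_lit 0) (nat_lit 0) (XT.lf (nat_lit 0) (nat_lit 2140996328) (nat_lit 380) (nat_lit 9587467160) (nat_lit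 76) (nat_lit 81981158) (nat_lit 207) (nat_lit 5) (nat_lit 212) (nat_lit 5) (nat_lit 208) (nat_lit 5) (nat_lit 403) (nat_lit 334) (nat_lit 283)) (XT.lf (nat_lit 0) (nat_lit 6200206124) (nat_lit 380) (nat_lit 1009308214) (nat_lit 76) (nat_lit 4794386791) (nat_lit 207) (nat_lit 5) (nat_lit 212) (nat_lit 5) (nat_lit 208) (nat_lit 5) (nat_lit 404) (nat_lit 334) (nat_lit 282))))) (XT.nd (nat_lit 234) (nat_lit 532) (nat_lit 0) (XT.nd (nat_lit 78) (nat_lit 532) (nat_lit 0) (XT.lf (nat_lit 0) (nat_lit 7902305481) (nat_lit 228) (nat_lit 2507025242) (nat_lit 304) (nat_lit 1792986428) (nat_lit 204) (nat_lit 5) (nat_lit 207) (nat_lit 5) (nat_lit 208) (nat_lit 5) (nat_lit 405) (nat_lit 334) (nat_lit 281)) (XT.nd (nat_lit 78) (nat_lit 228) (nat_lit 0) (XT.lf (nat_lit 0) (nat_lit 2323054489) (nat_lit 304) (nat_lit 7742545667) (nat_lit 76) (nat_lit 2339492214) (nat_lit 200) (nat_lit 5) (nat_lit 204) (nat_lit 5) (nat_lit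 201) (nat_lit 5) (nat_lit 406) (nat_lit 334) (nat_lit 280)) (XT.lf (nat_lit 0) (nat_lit 1272685786) (nat_lit 228) (nat_lit 5287469585) (nat_lit 304) (nat_lit 6052254427) (nat_lit 197) (nat_lit 5) (nat_lit 200) (nat_lit 5) (nat_lit 201) (nat_lit 5) (nat_lit 407) (nat_lit 334) (nat_lit 279)))) (XT.nd (nat_lit 78) (nat_lit 532) (nat_lit 0) (XT.lf (nat_lit 0) (nat_lit 10639235341) (nat_lit 228) (nat_lit 316656031) (nat_lit 304) (nat_lit 1869109712) (nat_lit 197) (nat_lit 5) (nat_lit 200) (nat_lit 5) (nat_lit 201) (nat_lit 5) (nat_lit 408) (nat_lit 334) (nat_lit 278)) (XT.nd (nat_lit 78) (nat_lit 228) (nat_lit 0) (XT.lf (nat_lit 0) (nat_lit 2463003617) (nat_lit 304) (nat_lit 5804318771) (nat_lit 76) (nat_lit 4773811866) (nat_lit 193) (nat_lit 5) (nat_lit 197) (nat_lit 5) (nat_lit 194) (nat_lit 5) (nat_lit 409) (nat_lit 334) (nat_lit 277)) (XT.lf (nat_lit 0) (nat_lit 3697271510) (nat_lit 228) (nat_lit 3205766143)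 (nat_lit 304) (nat_lit 6359692845) (nat_lit 190) (nat_lit 5) (nat_lit 193) (nat_lit 5) (nat_lit 194) (nat_lit 5) (nat_lit 410) (nat_lit 334) (nat_lit 276)))))) (XT.nd (nat_lit 468) (nat_lit 836) (nat_lit 0) (XT.nd (nat_lit 234) (nat_lit 456) (nat_lit 0) (XT.nd (nat_lit 78) (nat_lit 228) (nat_lit 0) (XT.lf (nat_lit 0) (nat_lit 17030204) (nat_lit 228) (nat_lit 11492748350) (nat_lit 304) (nat_lit 1980190904) (nat_lit 187) (nat_lit 5) (nat_lit 190) (nat_lit 5) (nat_lit 191) (nat_lit 5) (nat_lit 411) (nat_lit 334) (nat_lit 275)) (XT.nd (nat_lit 78) (nat_lit 152) (nat_lit 0) (XT.lf (nat_lit 0) (nat_lit 2565592937) (nat_lit 304) (nat_lit 3772313566) (nat_lit 76) (nat_lit 7382860888) (nat_lit 186) (nat_lit 5) (nat_lit 190) (nat_lit 5) (nat_lit 187) (nat_lit 5) (nat_lit 412) (nat_lit 334) (nat_lit 274)) (XT.lf (nat_lit 0) (nat_lit 6246629834) (nat_lit 152) (nat_lit 977668798) (nat_lit 228) (nat_lit 6733112010)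 (nat_lit 184) (nat_lit 5) (nat_lit 186) (nat_lit 5) (nat_lit 187) (nat_lit 5) (nat_lit 413) (nat_lit 334) (nat_lit 273)))) (XT.nd (nat_lit 78) (nat_lit 228) (nat_lit 0) (XT.lf (nat_lit 0) (nat_lit 2370414987) (nat_lit 228) (nat_lit 9713841905) (nat_lit 304) (nat_lit 2115051556) (nat_lit 181) (nat_lit 5) (nat_lit 184) (nat_lit 5) (nat_lit 185) (nat_lit 5) (nat_lit 414) (nat_lit 334) (nat_lit 272)) (XT.nd (nat_lit 78) (nat_lit 152) (nat_lit 0) (XT.lf (nat_lit 0) (nat_lit 2635005098) (nat_lit 304) (nat_lit 1645233830) (nat_lit 76) (nat_lit 10166112477) (nat_lit 180) (nat_lit 5) (nat_lit 184) (nat_lit 5) (nat_lit 181) (nat_lit 5) (nat_lit 415) (nat_lit 334) (nat_lit 271)) (XT.lf (nat_lit 0) (nat_lit 7542194310) (nat_lit 228) (nat_lit 5788322068) (nat_lit 76) (nat_lit 1367946802) (nat_lit 178) (nat_lit 5) (nat_lit 181) (nat_lit 5) (nat_lit 179) (nat_lit 5) (nat_lit 416) (nat_lit 334) (nat_lit 270))))) (XT.nd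 (nat_lit 234) (nat_lit 380) (nat_lit 0) (XT.nd (nat_lit 78) (nat_lit 228) (nat_lit 0) (XT.lf (nat_lit 0) (nat_lit 4836692075) (nat_lit 228) (nat_lit 7823735550) (nat_lit 304) (nat_lit 2295795829) (nat_lit 175) (nat_lit 5) (nat_lit 178) (nat_lit 5) (nat_lit 179) (nat_lit 5) (nat_lit 417) (nat_lit 334) (nat_lit 269)) (XT.nd (nat_lit 78) (nat_lit 0) (nat_lit 0) (XT.lf (nat_lit 0) (nat_lit 590518440) (nat_lit 152) (nat_lit 2090076248) (nat_lit 228) (nat_lit 12539650359) (nat_lit 172) (nat_lit 5) (nat_lit 174) (nat_lit 5) (nat_lit 175) (nat_lit 5) (nat_lit 418) (nat_lit 334) (nat_lit 268)) (XT.lf (nat_lit 0) (nat_lit 7858510895) (nat_lit 228) (nat_lit 3793962608) (nat_lit 76) (nat_lit 3836080549) (nat_lit 172) (nat_lit 5) (nat_lit 175) (nat_lit 5) (nat_lit 173) (nat_lit 5) (nat_lit 419) (nat_lit 334) (nat_lit 267)))) (XT.nd (nat_lit 78) (nat_lit 228) (nat_lit 0) (XT.lf (nat_lit 0) (nat_lit 7419375787) (nat_lit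 152) (nat_lit 5824111138) (nat_lit 228) (nat_lit 2519873733) (nat_lit 170) (nat_lit 5) (nat_lit 172) (nat_lit 5) (nat_lit 173) (nat_lit 5) (nat_lit 420) (nat_lit 334) (nat_lit 266)) (XT.nd (nat_lit 78) (nat_lit 0) (nat_lit 0) (XT.lf (nat_lit 0) (nat_lit 2719368811) (nat_lit 228) (nat_lit 13086186546) (nat_lit 76) (nat_lit 239185743) (nat_lit 167) (nat_lit 5) (nat_lit 170) (nat_lit 5) (nat_lit 168) (nat_lit 5) (nat_lit 421) (nat_lit 334) (nat_lit 265)) (XT.lf (nat_lit 0) (nat_lit 8167893060) (nat_lit 228) (nat_lit 1716138805) (nat_lit 76) (nat_lit 6446700071) (nat_lit 167) (nat_lit 5) (nat_lit 170) (nat_lit 5) (nat_lit 168) (nat_lit 5) (nat_lit 422) (nat_lit 334) (nat_lit 264))))))))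
noncomputable def xc40 : XT := (XT.nd (nat_lit 48126) (nat_lit 0) (nat_lit 10716) (XT.nd (nat_lit 858) (nat_lit 304) (nat_lit 0) (XT.nd (nat_lit 390) (nat_lit 684) (nat_lit 0) (XT.nd (nat_lit 156) (nat_lit 380) (nat_lit 0) (XT.nd (nat_lit 78) (nat_lit 228) (nat_lit 0) (XT.lf (nat_lit 0) (nat_lit 10122765958) (nat_lit 152) (nat_lit 3715573300) (nat_lit 228) (nat_lit 2785209253) (nat_lit 165) (nat_lit 5) (nat_lit 167) (nat_lit 5) (nat_lit 168) (nat_lit 5) (nat_lit 423) (nat_lit 334) (nat_lit 263)) (XT.lf (nat_lit 0) (nat_lit 2757036897) (nat_lit 228) (nat_lit 11512459541) (nat_lit 76) (nat_lit 2653148326) (nat_lit 162) (nat_lit 5) (nat_lit 165) (nat_lit 5) (nat_lit 163) (nat_lit 5) (nat_lit 424) (nat_lit 334) (nat_lit 262))) (XT.nd (nat_lit 78) (nat_lit 228) (nat_lit 0) (XT.lf (nat_lit 0) (nat_lit 456868134) (nat_lit 152) (nat_lit 8021591004) (nat_lit 228) (nat_lit 8749360818) (nat_lit 160) (nat_lit 5)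 (nat_lit 162) (nat_lit 5) (nat_lit 163) (nat_lit 5) (nat_lit 425) (nat_lit 334) (nat_lit 261)) (XT.nd (nat_lit 78) (nat_lit 228) (nat_lit 0) (XT.lf (nat_lit 0) (nat_lit 12951926319) (nat_lit 152) (nat_lit 1497722284) (nat_lit 228) (nat_lit 3090158065) (nat_lit 160) (nat_lit 5) (nat_lit 162) (nat_lit 5) (nat_lit 163) (nat_lit 5) (nat_lit 426) (nat_lit 334) (nat_lit 260)) (XT.lf (nat_lit 0) (nat_lit 2776037328) (nat_lit 228) (nat_lit 9887253280) (nat_lit 76) (nat_lit 5194352730) (nat_lit 157) (nat_lit 5) (nat_lit 160) (nat_lit 5) (nat_lit 158) (nat_lit 5) (nat_lit 427) (nat_lit 334) (nat_lit 259))))) (XT.nd (nat_lit 234) (nat_lit 304) (nat_lit 0) (XT.nd (nat_lit 78) (nat_lit 228) (nat_lit 0) (XT.lf (nat_lit 0) (nat_lit 2755500883) (nat_lit 152) (nat_lit 6051475898) (nat_lit 228) (nat_lit 9375594440) (nat_lit 155) (nat_lit 5) (nat_lit 157) (nat_lit 5) (nat_lit 158) (nat_lit 5) (nat_lit 428) (nat_lit 334)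 (nat_lit 258)) (XT.nd (nat_lit 78) (nat_lit 228) (nat_lit 0) (XT.lf (nat_lit 0) (nat_lit 15089871078) (nat_lit 228) (nat_lit 2610672258) (nat_lit 76) (nat_lit 814572806) (nat_lit 155) (nat_lit 5) (nat_lit 158) (nat_lit 5) (nat_lit 156) (nat_lit 4) (nat_lit 429) (nat_lit 334) (nat_lit 257)) (XT.lf (nat_lit 0) (nat_lit 2778596820) (nat_lit 228) (nat_lit 8208893656) (nat_lit 76) (nat_lit 7865535090) (nat_lit 152) (nat_lit 5) (nat_lit 155) (nat_lit 5) (nat_lit 153) (nat_lit 5) (nat_lit 430) (nat_lit 334) (nat_lit 256)))) (XT.nd (nat_lit 78) (nat_lit 152) (nat_lit 0) (XT.lf (nat_lit 0) (nat_lit 5149700285) (nat_lit 152) (nat_lit 3990183985) (nat_lit 228) (nat_lit 10058965373) (nat_lit 150) (nat_lit 5) (nat_lit 152) (nat_lit 5) (nat_lit 153) (nat_lit 5) (nat_lit 431) (nat_lit 334) (nat_lit 255)) (XT.nd (nat_lit 78) (nat_lit 152) (nat_lit 0) (XT.lf (nat_lit 0) (nat_lit 15770821691) (nat_lit 228) (nat_lit 573533954)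 (nat_lit 76) (nat_lit 3208328458) (nat_lit 150) (nat_lit 5) (nat_lit 153) (nat_lit 5) (nat_lit 151) (nat_lit 4) (nat_lit 432) (nat_lit 334) (nat_lit 254)) (XT.lf (nat_lit 0) (nat_lit 2766672726) (nat_lit 152) (nat_lit 6475255060) (nat_lit 76) (nat_lit 10670367385) (nat_lit 148) (nat_lit 5) (nat_lit 150) (nat_lit 5) (nat_lit 149) (nat_lit 5) (nat_lit 433) (nat_lit 334) (nat_lit 253)))))) (XT.nd (nat_lit 46800) (nat_lit 0) (nat_lit 23712) (XT.nd (nat_lit 46566) (nat_lit 0) (nat_lit 26524) (XT.nd (nat_lit 78) (nat_lit 152) (nat_lit 0) (XT.lf (nat_lit 0) (nat_lit 7644158077) (nat_lit 152) (nat_lit 1836097248) (nat_lit 228) (nat_lit 10799977829) (nat_lit 146) (nat_lit 5) (nat_lit 148) (nat_lit 5) (nat_lit 149) (nat_lit 5) (nat_lit 434) (nat_lit 334) (nat_lit 252)) (XT.nd (nat_lit 78) (nat_lit 76) (nat_lit 0) (XT.lf (nat_lit 0) (nat_lit 1572215969) (nat_lit 76) (nat_lit 14925236822) (nat_lit 152) (nat_lit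 4158690262) (nat_lit 145) (nat_lit 5) (nat_lit 146) (nat_lit 5) (nat_lit 147) (nat_lit 4) (nat_lit 435) (nat_lit 334) (nat_lit 251)) (XT.lf (nat_lit 0) (nat_lit 2741982665) (nat_lit 152) (nat_lit 4683777295) (nat_lit 76) (nat_lit 13613422535) (nat_lit 144) (nat_lit 5) (nat_lit 146) (nat_lit 5) (nat_lit 145) (nat_lit 5) (nat_lit 436) (nat_lit 334) (nat_lit 250)))) (XT.nd (nat_lit 78) (nat_lit 532) (nat_lit 0) (XT.lf (nat_lit 0) (nat_lit 1802112152) (nat_lit 380) (nat_lit 735801011) (nat_lit 380) (nat_lit 735801011) (nat_lit 500) (nat_lit 4) (nat_lit 505) (nat_lit 5) (nat_lit 505) (nat_lit 4) (nat_lit 350) (nat_lit 335) (nat_lit 335)) (XT.nd (nat_lit 78) (nat_lit 0) (nat_lit 0) (XT.lf (nat_lit 0) (nat_lit 1064814533) (nat_lit 456) (nat_lit 712367568) (nat_lit 532) (nat_lit 4792919621) (nat_lit 493) (nat_lit 5) (nat_lit 499) (nat_lit 5) (nat_lit 500) (nat_lit 4) (nat_lit 351) (nat_lit 335) (nat_lit 334))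 (XT.lf (nat_lit 0) (nat_lit 5011617675) (nat_lit 532) (nat_lit 1437945239) (nat_lit 0) (nat_lit 145922303) (nat_lit 493) (nat_lit 5) (nat_lit 500) (nat_lit 4) (nat_lit 493) (nat_lit 4) (nat_lit 352) (nat_lit 335) (nat_lit 333))))) (XT.nd (nat_lit 234) (nat_lit 1520) (nat_lit 0) (XT.nd (nat_lit 78) (nat_lit 684) (nat_lit 0) (XT.lf (nat_lit 0) (nat_lit 1610643703) (nat_lit 608) (nat_lit 3923170471) (nat_lit 76) (nat_lit 1089636228) (nat_lit 485) (nat_lit 5) (nat_lit 493) (nat_lit 5) (nat_lit 486) (nat_lit 4) (nat_lit 353) (nat_lit 335) (nat_lit 332)) (XT.nd (nat_lit 78) (nat_lit 76) (nat_lit 0) (XT.lf (nat_lit 0) (nat_lit 247114458) (nat_lit 608) (nat_lit 4530813809) (nat_lit 684) (nat_lit 1876592657) (nat_lit 477) (nat_lit 5) (nat_lit 485) (nat_lit 5) (nat_lit 486) (nat_lit 4) (nat_lit 354) (nat_lit 335) (nat_lit 331)) (XT.lf (nat_lit 0) (nat_lit 1260355816) (nat_lit 684) (nat_lit 2159324916) (nat_lit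 76) (nat_lit 3268460538) (nat_lit 476) (nat_lit 5) (nat_lit 485) (nat_lit 5) (nat_lit 477) (nat_lit 5) (nat_lit 355) (nat_lit 335) (nat_lit 330)))) (XT.nd (nat_lit 78) (nat_lit 836) (nat_lit 0) (XT.lf (nat_lit 0) (nat_lit 2158660626) (nat_lit 684) (nat_lit 2211954882) (nat_lit 760) (nat_lit 2354089701) (nat_lit 467) (nat_lit 5) (nat_lit 476) (nat_lit 5) (nat_lit 477) (nat_lit 5) (nat_lit 356) (nat_lit 335) (nat_lit 329)) (XT.nd (nat_lit 78) (nat_lit 760) (nat_lit 0) (XT.lf (nat_lit 0) (nat_lit 715413034) (nat_lit 760) (nat_lit 201609974) (nat_lit 76) (nat_lit 5847525820) (nat_lit 466) (nat_lit 5) (nat_lit 476) (nat_lit 5) (nat_lit 467) (nat_lit 5) (nat_lit 357) (nat_lit 335) (nat_lit 328)) (XT.lf (nat_lit 0) (nat_lit 3776006802) (nat_lit 836) (nat_lit 2537557515) (nat_lit 76) (nat_lit 492934580) (nat_lit 456) (nat_lit 5) (nat_lit 467) (nat_lit 5) (nat_lit 457) (nat_lit 5) (nat_lit 358) (nat_lit 335)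 (nat_lit 327))))))) (XT.nd (nat_lit 936) (nat_lit 5016) (nat_lit 0) (XT.nd (nat_lit 468) (nat_lit 3952) (nat_lit 0) (XT.nd (nat_lit 234) (nat_lit 2204) (nat_lit 0) (XT.nd (nat_lit 78) (nat_lit 912) (nat_lit 0) (XT.lf (nat_lit 0) (nat_lit 9353897) (nat_lit 912) (nat_lit 4876519018) (nat_lit 76) (nat_lit 1965846488) (nat_lit 444) (nat_lit 5) (nat_lit 456) (nat_lit 5) (nat_lit 445) (nat_lit 5) (nat_lit 359) (nat_lit 335) (nat_lit 326)) (XT.nd (nat_lit 78) (nat_lit 912) (nat_lit 0) (XT.lf (nat_lit 0) (nat_lit 3009191739) (nat_lit 912) (nat_lit 335781951) (nat_lit 76) (nat_lit 3554531496) (nat_lit 444) (nat_lit 5) (nat_lit 456) (nat_lit 5) (nat_lit 445) (nat_lit 5) (nat_lit 360) (nat_lit 335) (nat_lit 325)) (XT.lf (nat_lit 0) (nat_lit 4345038317) (nat_lit 912) (nat_lit 1702382981) (nat_lit 988) (nat_lit 902851348) (nat_lit 432) (nat_lit 5) (nat_lit 444) (nat_lit 5) (nat_lit 445) (nat_lit 5) (nat_lit 361)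 (nat_lit 335) (nat_lit 324)))) (XT.nd (nat_lit 78) (nat_lit 1140) (nat_lit 0) (XT.lf (nat_lit 0) (nat_lit 2063617866) (nat_lit 1064) (nat_lit 4895480751) (nat_lit 76) (nat_lit 44883197) (nat_lit 418) (nat_lit 5) (nat_lit 432) (nat_lit 5) (nat_lit 419) (nat_lit 5) (nat_lit 362) (nat_lit 335) (nat_lit 323)) (XT.nd (nat_lit 78) (nat_lit 1140) (nat_lit 0) (XT.lf (nat_lit 0) (nat_lit 5054029569) (nat_lit 1064) (nat_lit 151482794) (nat_lit 76) (nat_lit 1854928877) (nat_lit 418) (nat_lit 5) (nat_lit 432) (nat_lit 5) (nat_lit 419) (nat_lit 5) (nat_lit 363) (nat_lit 335) (nat_lit 322)) (XT.lf (nat_lit 0) (nat_lit 953248317) (nat_lit 1140) (nat_lit 2383279673) (nat_lit 76) (nat_lit 3783048401) (nat_lit 403) (nat_lit 5) (nat_lit 418) (nat_lit 5) (nat_lit 404) (nat_lit 5) (nat_lit 364) (nat_lit 335) (nat_lit 321))))) (XT.nd (nat_lit 234) (nat_lit 1520) (nat_lit 0) (XT.nd (nat_lit 78) (nat_lit 1292) (nat_lit 0) (XT.lf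 (nat_lit 0) (nat_lit 2540621074) (nat_lit 1140) (nat_lit 1359946882) (nat_lit 1216) (nat_lit 3281145777) (nat_lit 388) (nat_lit 5) (nat_lit 403) (nat_lit 5) (nat_lit 404) (nat_lit 5) (nat_lit 365) (nat_lit 335) (nat_lit 320)) (XT.nd (nat_lit 78) (nat_lit 76) (nat_lit 0) (XT.lf (nat_lit 0) (nat_lit 331610523) (nat_lit 1216) (nat_lit 6553691455) (nat_lit 1292) (nat_lit 361943372) (nat_lit 372) (nat_lit 5) (nat_lit 388) (nat_lit 5) (nat_lit 389) (nat_lit 5) (nat_lit 366) (nat_lit 335) (nat_lit 319)) (XT.lf (nat_lit 0) (nat_lit 2569873504) (nat_lit 1292) (nat_lit 1889131019) (nat_lit 76) (nat_lit 2855676220) (nat_lit 371) (nat_lit 5) (nat_lit 388) (nat_lit 5) (nat_lit 372) (nat_lit 5) (nat_lit 367) (nat_lit 335) (nat_lit 318)))) (XT.nd (nat_lit 78) (nat_lit 684) (nat_lit 0) (XT.lf (nat_lit 0) (nat_lit 3265713914) (nat_lit 836) (nat_lit 2266353050) (nat_lit 912) (nat_lit 1853473820) (nat_lit 360) (nat_lit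 5) (nat_lit 371) (nat_lit 5) (nat_lit 372) (nat_lit 5) (nat_lit 368) (nat_lit 335) (nat_lit 317)) (XT.nd (nat_lit 78) (nat_lit 0) (nat_lit 0) (XT.lf (nat_lit 0) (nat_lit 1051733223) (nat_lit 684) (nat_lit 6377332551) (nat_lit 76) (nat_lit 30664187) (nat_lit 351) (nat_lit 5) (nat_lit 360) (nat_lit 5) (nat_lit 352) (nat_lit 5) (nat_lit 369) (nat_lit 335) (nat_lit 316)) (XT.lf (nat_lit 0) (nat_lit 3991932815) (nat_lit 684) (nat_lit 1135885782) (nat_lit 76) (nat_lit 2408222999) (nat_lit 351) (nat_lit 5) (nat_lit 360) (nat_lit 5) (nat_lit 352) (nat_lit 5) (nat_lit 370) (nat_lit 335) (nat_lit 315)))))) (XT.nd (nat_lit 468) (nat_lit 2052) (nat_lit 0) (XT.nd (nat_lit 234) (nat_lit 1748) (nat_lit 0) (XT.nd (nat_lit 78) (nat_lit 608) (nat_lit 0) (XT.lf (nat_lit 0) (nat_lit 4263547579) (nat_lit 608) (nat_lit 2720722321) (nat_lit 684) (nat_lit 631454733) (nat_lit 343) (nat_lit 5) (nat_lit 351) (nat_lit 5) (nat_lit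 352) (nat_lit 5) (nat_lit 371) (nat_lit 335) (nat_lit 314)) (XT.nd (nat_lit 78) (nat_lit 0) (nat_lit 0) (XT.lf (nat_lit 0) (nat_lit 2085442170) (nat_lit 532) (nat_lit 192206239) (nat_lit 608) (nat_lit 5420808037) (nat_lit 335) (nat_lit 5) (nat_lit 342) (nat_lit 5) (nat_lit 343) (nat_lit 5) (nat_lit 372) (nat_lit 335) (nat_lit 313)) (XT.lf (nat_lit 0) (nat_lit 5243724879) (nat_lit 608) (nat_lit 142048145) (nat_lit 76) (nat_lit 2398237874) (nat_lit 335) (nat_lit 5) (nat_lit 343) (nat_lit 5) (nat_lit 336) (nat_lit 5) (nat_lit 373) (nat_lit 335) (nat_lit 312)))) (XT.nd (nat_lit 78) (nat_lit 1064) (nat_lit 0) (XT.lf (nat_lit 0) (nat_lit 400285491) (nat_lit 684) (nat_lit 2359860486) (nat_lit 76) (nat_lit 5112404188) (nat_lit 326) (nat_lit 5) (nat_lit 335) (nat_lit 5) (nat_lit 327) (nat_lit 5) (nat_lit 374) (nat_lit 335) (nat_lit 311)) (XT.nd (nat_lit 78) (nat_lit 532) (nat_lit 0) (XT.lf (nat_lit 0) (nat_lit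 3333466136) (nat_lit 532) (nat_lit 5877371) (nat_lit 608) (nat_lit 4624807765) (nat_lit 319) (nat_lit 5) (nat_lit 326) (nat_lit 5) (nat_lit 327) (nat_lit 5) (nat_lit 375) (nat_lit 335) (nat_lit 310)) (XT.lf (nat_lit 0) (nat_lit 1098259569) (nat_lit 532) (nat_lit 5259193614) (nat_lit 608) (nat_lit 1701320832) (nat_lit 312) (nat_lit 5) (nat_lit 319) (nat_lit 5) (nat_lit 320) (nat_lit 5) (nat_lit 376) (nat_lit 335) (nat_lit 309))))) (XT.nd (nat_lit 234) (nat_lit 988) (nat_lit 0) (XT.nd (nat_lit 78) (nat_lit 988) (nat_lit 0) (XT.lf (nat_lit 0) (nat_lit 1261213891) (nat_lit 608) (nat_lit 1158429896) (nat_lit 76) (nat_lit 5736906812) (nat_lit 311) (nat_lit 5) (nat_lit 319) (nat_lit 5) (nat_lit 312) (nat_lit 5) (nat_lit 377) (nat_lit 335) (nat_lit 308)) (XT.nd (nat_lit 78) (nat_lit 532) (nat_lit 0) (XT.lf (nat_lit 0) (nat_lit 4261712833) (nat_lit 532) (nat_lit 3450000061) (nat_lit 76) (nat_lit 545543750) (nat_lit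 305) (nat_lit 5) (nat_lit 312) (nat_lit 5) (nat_lit 306) (nat_lit 5) (nat_lit 378) (nat_lit 335) (nat_lit 307)) (XT.lf (nat_lit 0) (nat_lit 2557770788) (nat_lit 532) (nat_lit 4787558629) (nat_lit 608) (nat_lit 1015861375) (nat_lit 298) (nat_lit 5) (nat_lit 305) (nat_lit 5) (nat_lit 306) (nat_lit 5) (nat_lit 379) (nat_lit 335) (nat_lit 306)))) (XT.nd (nat_lit 78) (nat_lit 456) (nat_lit 0) (XT.lf (nat_lit 0) (nat_lit 250496125) (nat_lit 456) (nat_lit 1733499823) (nat_lit 532) (nat_lit 6484529414) (nat_lit 291) (nat_lit 5) (nat_lit 297) (nat_lit 5) (nat_lit 298) (nat_lit 5) (nat_lit 380) (nat_lit 335) (nat_lit 305)) (XT.nd (nat_lit 78) (nat_lit 456) (nat_lit 0) (XT.lf (nat_lit 0) (nat_lit 5060430993) (nat_lit 532) (nat_lit 2081132383) (nat_lit 76) (nat_lit 1437004859) (nat_lit 291) (nat_lit 5) (nat_lit 298) (nat_lit 5) (nat_lit 292) (nat_lit 5) (nat_lit 381) (nat_lit 335) (nat_lit 304)) (XT.lf (nat_lit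 0) (nat_lit 4222985853) (nat_lit 456) (nat_lit 4000087487) (nat_lit 532) (nat_lit 469021626) (nat_lit 285) (nat_lit 5) (nat_lit 291) (nat_lit 5) (nat_lit 292) (nat_lit 5) (nat_lit 382) (nat_lit 335) (nat_lit 303))))))))
noncomputable def xc41 : XT := (XT.nd (nat_lit 1794) (nat_lit 3724) (nat_lit 0) (XT.nd (nat_lit 858) (nat_lit 2812) (nat_lit 0) (XT.nd (nat_lit 390) (nat_lit 1596) (nat_lit 0) (XT.nd (nat_lit 156) (nat_lit 1292) (nat_lit 0) (XT.nd (nat_lit 78) (nat_lit 0) (nat_lit 0) (XT.lf (nat_lit 0) (nat_lit 1878678574) (nat_lit 380) (nat_lit 716652724) (nat_lit 456) (nat_lit 6213648908) (nat_lit 279) (nat_lit 5) (nat_lit 284) (nat_lit 5) (nat_lit 285) (nat_lit 5) (nat_lit 383) (nat_lit 335) (nat_lit 302)) (XT.lf (nat_lit 0) (nat_lit 5750870863) (nat_lit 456) (nat_lit 533674200) (nat_lit 76) (nat_lit 2644427136) (nat_lit 279) (nat_lit 5) (nat_lit 285) (nat_lit 5) (nat_lit 280) (nat_lit 5) (nat_lit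 384) (nat_lit 335) (nat_lit 301))) (XT.nd (nat_lit 78) (nat_lit 836) (nat_lit 0) (XT.lf (nat_lit 0) (nat_lit 6085479534) (nat_lit 456) (nat_lit 2920497296) (nat_lit 532) (nat_lit 46440118) (nat_lit 273) (nat_lit 5) (nat_lit 279) (nat_lit 5) (nat_lit 280) (nat_lit 5) (nat_lit 385) (nat_lit 335) (nat_lit 300)) (XT.nd (nat_lit 78) (nat_lit 380) (nat_lit 0) (XT.lf (nat_lit 0) (nat_lit 3103544334) (nat_lit 456) (nat_lit 5490169135) (nat_lit 76) (nat_lit 585342451) (nat_lit 267) (nat_lit 5) (nat_lit 273) (nat_lit 5) (nat_lit 268) (nat_lit 5) (nat_lit 386) (nat_lit 335) (nat_lit 299)) (XT.lf (nat_lit 0) (nat_lit 1208308096) (nat_lit 380) (nat_lit 5150063096) (nat_lit 456) (nat_lit 2950770787) (nat_lit 262) (nat_lit 5) (nat_lit 267) (nat_lit 5) (nat_lit 268) (nat_lit 5) (nat_lit 387) (nat_lit 335) (nat_lit 298))))) (XT.nd (nat_lit 234) (nat_lit 760) (nat_lit 0) (XT.nd (nat_lit 78) (nat_lit 760) (nat_lit 0) (XT.lf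 (nat_lit 0) (nat_lit 259336685) (nat_lit 456) (nat_lit 1306885925) (nat_lit 76) (nat_lit 7876925354) (nat_lit 261) (nat_lit 5) (nat_lit 267) (nat_lit 5) (nat_lit 262) (nat_lit 5) (nat_lit 388) (nat_lit 335) (nat_lit 297)) (XT.nd (nat_lit 78) (nat_lit 380) (nat_lit 0) (XT.lf (nat_lit 0) (nat_lit 3524782860) (nat_lit 456) (nat_lit 3908845126) (nat_lit 76) (nat_lit 2146119384) (nat_lit 256) (nat_lit 5) (nat_lit 262) (nat_lit 5) (nat_lit 257) (nat_lit 5) (nat_lit 389) (nat_lit 335) (nat_lit 296)) (XT.lf (nat_lit 0) (nat_lit 3129328737) (nat_lit 380) (nat_lit 3761050983) (nat_lit 456) (nat_lit 2829999419) (nat_lit 251) (nat_lit 5) (nat_lit 256) (nat_lit 5) (nat_lit 257) (nat_lit 5) (nat_lit 390) (nat_lit 335) (nat_lit 295)))) (XT.nd (nat_lit 78) (nat_lit 380) (nat_lit 0) (XT.lf (nat_lit 0) (nat_lit 471028752) (nat_lit 380) (nat_lit 9347357751) (nat_lit 76) (nat_lit 47034280) (nat_lit 246) (nat_lit 5) (nat_lit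 251) (nat_lit 5) (nat_lit 247) (nat_lit 5) (nat_lit 391) (nat_lit 335) (nat_lit 294)) (XT.nd (nat_lit 78) (nat_lit 380) (nat_lit 0) (XT.lf (nat_lit 0) (nat_lit 3862893341) (nat_lit 380) (nat_lit 2184997440) (nat_lit 76) (nat_lit 3964621729) (nat_lit 246) (nat_lit 5) (nat_lit 251) (nat_lit 5) (nat_lit 247) (nat_lit 5) (nat_lit 392) (nat_lit 335) (nat_lit 293)) (XT.lf (nat_lit 0) (nat_lit 5214547999) (nat_lit 380) (nat_lit 2137947572) (nat_lit 456) (nat_lit 2811641967) (nat_lit 241) (nat_lit 5) (nat_lit 246) (nat_lit 5) (nat_lit 247) (nat_lit 5) (nat_lit 393) (nat_lit 335) (nat_lit 292)))))) (XT.nd (nat_lit 468) (nat_lit 1444) (nat_lit 0) (XT.nd (nat_lit 234) (nat_lit 684) (nat_lit 0) (XT.nd (nat_lit 78) (nat_lit 304) (nat_lit 0) (XT.lf (nat_lit 0) (nat_lit 625381504) (nat_lit 380) (nat_lit 7814273188) (nat_lit 76) (nat_lit 1880142011) (nat_lit 236) (nat_lit 5) (nat_lit 241) (nat_lit 5) (nat_lit 237) (nat_lit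 5) (nat_lit 394) (nat_lit 335) (nat_lit 291)) (XT.nd (nat_lit 78) (nat_lit 304) (nat_lit 0) (XT.lf (nat_lit 0) (nat_lit 4127357935) (nat_lit 380) (nat_lit 322668891) (nat_lit 76) (nat_lit 6028713072) (nat_lit 236) (nat_lit 5) (nat_lit 241) (nat_lit 5) (nat_lit 237) (nat_lit 5) (nat_lit 395) (nat_lit 335) (nat_lit 290)) (XT.lf (nat_lit 0) (nat_lit 7461325845) (nat_lit 304) (nat_lit 293052450) (nat_lit 380) (nat_lit 2887473554) (nat_lit 232) (nat_lit 5) (nat_lit 236) (nat_lit 5) (nat_lit 237) (nat_lit 5) (nat_lit 396) (nat_lit 335) (nat_lit 289)))) (XT.nd (nat_lit 78) (nat_lit 304) (nat_lit 0) (XT.lf (nat_lit 0) (nat_lit 702524640) (nat_lit 380) (nat_lit 6166107446) (nat_lit 76) (nat_lit 3939965415) (nat_lit 227) (nat_lit 5) (nat_lit 232) (nat_lit 5) (nat_lit 228) (nat_lit 5) (nat_lit 397) (nat_lit 335) (nat_lit 288)) (XT.nd (nat_lit 78) (nat_lit 0) (nat_lit 0) (XT.lf (nat_lit 0) (nat_lit 1708836203) (nat_lit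 304) (nat_lit 2634134205) (nat_lit 380) (nat_lit 6636493960) (nat_lit 223) (nat_lit 5) (nat_lit 227) (nat_lit 5) (nat_lit 228) (nat_lit 5) (nat_lit 398) (nat_lit 335) (nat_lit 287)) (XT.lf (nat_lit 0) (nat_lit 8121605869) (nat_lit 380) (nat_lit 1303565895) (nat_lit 76) (nat_lit 1729416187) (nat_lit 223) (nat_lit 5) (nat_lit 228) (nat_lit 5) (nat_lit 224) (nat_lit 5) (nat_lit 399) (nat_lit 335) (nat_lit 286))))) (XT.nd (nat_lit 234) (nat_lit 608) (nat_lit 0) (XT.nd (nat_lit 78) (nat_lit 532) (nat_lit 0) (XT.lf (nat_lit 0) (nat_lit 709528649) (nat_lit 304) (nat_lit 4405734541) (nat_lit 76) (nat_lit 6218182264) (nat_lit 219) (nat_lit 5) (nat_lit 223) (nat_lit 5) (nat_lit 220) (nat_lit 5) (nat_lit 400) (nat_lit 335) (nat_lit 285)) (XT.nd (nat_lit 78) (nat_lit 228) (nat_lit 0) (XT.lf (nat_lit 0) (nat_lit 3883908964) (nat_lit 304) (nat_lit 621252656) (nat_lit 380) (nat_lit 7011551970) (nat_lit 215) (nat_lit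 5) (nat_lit 219) (nat_lit 5) (nat_lit 220) (nat_lit 5) (nat_lit 401) (nat_lit 335) (nat_lit 284)) (XT.lf (nat_lit 0) (nat_lit 705705649) (nat_lit 228) (nat_lit 7750790269) (nat_lit 304) (nat_lit 3247728883) (nat_lit 212) (nat_lit 5) (nat_lit 215) (nat_lit 5) (nat_lit 216) (nat_lit 5) (nat_lit 402) (nat_lit 335) (nat_lit 283)))) (XT.nd (nat_lit 78) (nat_lit 532) (nat_lit 0) (XT.lf (nat_lit 0) (nat_lit 652520235) (nat_lit 304) (nat_lit 2534884185) (nat_lit 76) (nat_lit 8708701969) (nat_lit 211) (nat_lit 5) (nat_lit 215) (nat_lit 5) (nat_lit 212) (nat_lit 5) (nat_lit 403) (nat_lit 335) (nat_lit 282)) (XT.nd (nat_lit 78) (nat_lit 228) (nat_lit 0) (XT.lf (nat_lit 0) (nat_lit 4632434617) (nat_lit 380) (nat_lit 5911610202) (nat_lit 76) (nat_lit 1547896914) (nat_lit 207) (nat_lit 5) (nat_lit 212) (nat_lit 5) (nat_lit 208) (nat_lit 5) (nat_lit 404) (nat_lit 335) (nat_lit 281)) (XT.lf (nat_lit 0) (nat_lit 2864346026)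 (nat_lit 228) (nat_lit 5905913136) (nat_lit 304) (nat_lit 3522237595) (nat_lit 204) (nat_lit 5) (nat_lit 207) (nat_lit 5) (nat_lit 208) (nat_lit 5) (nat_lit 405) (nat_lit 335) (nat_lit 280))))))) (XT.nd (nat_lit 936) (nat_lit 1748) (nat_lit 0) (XT.nd (nat_lit 468) (nat_lit 912) (nat_lit 0) (XT.nd (nat_lit 234) (nat_lit 532) (nat_lit 0) (XT.nd (nat_lit 78) (nat_lit 456) (nat_lit 0) (XT.lf (nat_lit 0) (nat_lit 536779895) (nat_lit 304) (nat_lit 554225556) (nat_lit 76) (nat_lit 11407488225) (nat_lit 203) (nat_lit 5) (nat_lit 207) (nat_lit 5) (nat_lit 204) (nat_lit 5) (nat_lit 406) (nat_lit 335) (nat_lit 279)) (XT.nd (nat_lit 78) (nat_lit 228) (nat_lit 0) (XT.lf (nat_lit 0) (nat_lit 4723054384) (nat_lit 304) (nat_lit 4100577509) (nat_lit 76) (nat_lit 3883704001) (nat_lit 200) (nat_lit 5) (nat_lit 204) (nat_lit 5) (nat_lit 201) (nat_lit 5) (nat_lit 407) (nat_lit 335) (nat_lit 278)) (XT.lf (nat_lit 0) (nat_lit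 5147128098) (nat_lit 228) (nat_lit 3909143632) (nat_lit 304) (nat_lit 3865531010) (nat_lit 197) (nat_lit 5) (nat_lit 200) (nat_lit 5) (nat_lit 201) (nat_lit 5) (nat_lit 408) (nat_lit 335) (nat_lit 277)))) (XT.nd (nat_lit 78) (nat_lit 228) (nat_lit 0) (XT.lf (nat_lit 0) (nat_lit 393285762) (nat_lit 304) (nat_lit 11586472681) (nat_lit 76) (nat_lit 1162120809) (nat_lit 193) (nat_lit 5) (nat_lit 197) (nat_lit 5) (nat_lit 194) (nat_lit 5) (nat_lit 409) (nat_lit 335) (nat_lit 276)) (XT.nd (nat_lit 78) (nat_lit 228) (nat_lit 0) (XT.lf (nat_lit 0) (nat_lit 4776046348) (nat_lit 304) (nat_lit 2193763298) (nat_lit 76) (nat_lit 6395384055) (nat_lit 193) (nat_lit 5) (nat_lit 197) (nat_lit 5) (nat_lit 194) (nat_lit 5) (nat_lit 410) (nat_lit 335) (nat_lit 275)) (XT.lf (nat_lit 0) (nat_lit 7555769936) (nat_lit 228) (nat_lit 1764317468) (nat_lit 304) (nat_lit 4274226252) (nat_lit 190) (nat_lit 5) (nat_lit 193) (nat_lit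 5) (nat_lit 194) (nat_lit 5) (nat_lit 411) (nat_lit 335) (nat_lit 274))))) (XT.nd (nat_lit 234) (nat_lit 456) (nat_lit 0) (XT.nd (nat_lit 78) (nat_lit 152) (nat_lit 0) (XT.lf (nat_lit 0) (nat_lit 218049008) (nat_lit 304) (nat_lit 10051529687) (nat_lit 76) (nat_lit 3559142649) (nat_lit 186) (nat_lit 5) (nat_lit 190) (nat_lit 5) (nat_lit 187) (nat_lit 5) (nat_lit 412) (nat_lit 335) (nat_lit 273)) (XT.nd (nat_lit 78) (nat_lit 152) (nat_lit 0) (XT.lf (nat_lit 0) (nat_lit 4795809040) (nat_lit 304) (nat_lit 190345211) (nat_lit 76) (nat_lit 9081638713) (nat_lit 186) (nat_lit 5) (nat_lit 190) (nat_lit 5) (nat_lit 187) (nat_lit 5) (nat_lit 413) (nat_lit 335) (nat_lit 272)) (XT.lf (nat_lit 0) (nat_lit 9571789859) (nat_lit 228) (nat_lit 4224480424) (nat_lit 76) (nat_lit 515939810) (nat_lit 184) (nat_lit 5) (nat_lit 187) (nat_lit 5) (nat_lit 185) (nat_lit 5) (nat_lit 414) (nat_lit 335) (nat_lit 271)))) (XT.nd (nat_lit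 78) (nat_lit 228) (nat_lit 0) (XT.lf (nat_lit 0) (nat_lit 6113118964) (nat_lit 228) (nat_lit 8447058400) (nat_lit 304) (nat_lit 1708555) (nat_lit 181) (nat_lit 5) (nat_lit 184) (nat_lit 5) (nat_lit 185) (nat_lit 5) (nat_lit 415) (nat_lit 335) (nat_lit 270)) (XT.nd (nat_lit 78) (nat_lit 0) (nat_lit 0) (XT.lf (nat_lit 0) (nat_lit 1949339666) (nat_lit 152) (nat_lit 2855606690) (nat_lit 228) (nat_lit 10012068859) (nat_lit 178) (nat_lit 5) (nat_lit 180) (nat_lit 5) (nat_lit 181) (nat_lit 5) (nat_lit 416) (nat_lit 335) (nat_lit 269)) (XT.lf (nat_lit 0) (nat_lit 9829234894) (nat_lit 228) (nat_lit 2344701750) (nat_lit 76) (nat_lit 2903657187) (nat_lit 178) (nat_lit 5) (nat_lit 181) (nat_lit 5) (nat_lit 179) (nat_lit 5) (nat_lit 417) (nat_lit 335) (nat_lit 268)))))) (XT.nd (nat_lit 468) (nat_lit 760) (nat_lit 0) (XT.nd (nat_lit 234) (nat_lit 532) (nat_lit 0) (XT.nd (nat_lit 78) (nat_lit 228) (nat_lit 0) (XT.lf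 (nat_lit 0) (nat_lit 8563599385) (nat_lit 228) (nat_lit 6511823774) (nat_lit 304) (nat_lit 268431517) (nat_lit 175) (nat_lit 5) (nat_lit 178) (nat_lit 5) (nat_lit 179) (nat_lit 5) (nat_lit 418) (nat_lit 335) (nat_lit 267)) (XT.nd (nat_lit 78) (nat_lit 0) (nat_lit 0) (XT.lf (nat_lit 0) (nat_lit 4195428917) (nat_lit 152) (nat_lit 595534884) (nat_lit 228) (nat_lit 10824990059) (nat_lit 172) (nat_lit 5) (nat_lit 174) (nat_lit 5) (nat_lit 175) (nat_lit 5) (nat_lit 419) (nat_lit 335) (nat_lit 266)) (XT.lf (nat_lit 0) (nat_lit 10079625883) (nat_lit 228) (nat_lit 380476357) (nat_lit 76) (nat_lit 5433547645) (nat_lit 172) (nat_lit 5) (nat_lit 175) (nat_lit 5) (nat_lit 173) (nat_lit 5) (nat_lit 420) (nat_lit 335) (nat_lit 265)))) (XT.nd (nat_lit 78) (nat_lit 380) (nat_lit 0) (XT.lf (nat_lit 0) (nat_lit 11134680767) (nat_lit 152) (nat_lit 4467218614) (nat_lit 228) (nat_lit 575528862) (nat_lit 170) (nat_lit 5) (nat_lit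 172) (nat_lit 5) (nat_lit 173) (nat_lit 5) (nat_lit 421) (nat_lit 335) (nat_lit 264)) (XT.nd (nat_lit 78) (nat_lit 152) (nat_lit 0) (XT.lf (nat_lit 0) (nat_lit 4772223193) (nat_lit 228) (nat_lit 9937380668) (nat_lit 76) (nat_lit 1757341273) (nat_lit 167) (nat_lit 5) (nat_lit 170) (nat_lit 5) (nat_lit 168) (nat_lit 5) (nat_lit 422) (nat_lit 335) (nat_lit 263)) (XT.lf (nat_lit 0) (nat_lit 1703869816) (nat_lit 152) (nat_lit 8639296264) (nat_lit 228) (nat_lit 6419580728) (nat_lit 165) (nat_lit 5) (nat_lit 167) (nat_lit 5) (nat_lit 168) (nat_lit 5) (nat_lit 423) (nat_lit 335) (nat_lit 262))))) (XT.nd (nat_lit 234) (nat_lit 380) (nat_lit 0) (XT.nd (nat_lit 78) (nat_lit 380) (nat_lit 0) (XT.lf (nat_lit 0) (nat_lit 13830984810) (nat_lit 152) (nat_lit 2313345272) (nat_lit 228) (nat_lit 921199665) (nat_lit 165) (nat_lit 5) (nat_lit 167) (nat_lit 5) (nat_lit 168) (nat_lit 5) (nat_lit 424) (nat_lit 335) (nat_lit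 261)) (XT.nd (nat_lit 78) (nat_lit 152) (nat_lit 0) (XT.lf (nat_lit 0) (nat_lit 4741090059) (nat_lit 228) (nat_lit 8407073644) (nat_lit 76) (nat_lit 4225120142) (nat_lit 162) (nat_lit 5) (nat_lit 165) (nat_lit 5) (nat_lit 163) (nat_lit 5) (nat_lit 425) (nat_lit 335) (nat_lit 260)) (XT.lf (nat_lit 0) (nat_lit 3887502884) (nat_lit 152) (nat_lit 6724118798) (nat_lit 228) (nat_lit 7076668610) (nat_lit 160) (nat_lit 5) (nat_lit 162) (nat_lit 5) (nat_lit 163) (nat_lit 5) (nat_lit 426) (nat_lit 335) (nat_lit 259)))) (XT.nd (nat_lit 78) (nat_lit 380) (nat_lit 0) (XT.lf (nat_lit 0) (nat_lit 16657890619) (nat_lit 152) (nat_lit 49333625) (nat_lit 228) (nat_lit 1304054037) (nat_lit 160) (nat_lit 5) (nat_lit 162) (nat_lit 5) (nat_lit 163) (nat_lit 5) (nat_lit 427) (nat_lit 335) (nat_lit 258)) (XT.nd (nat_lit 78) (nat_lit 152) (nat_lit 0) (XT.lf (nat_lit 0) (nat_lit 4694161718) (nat_lit 228) (nat_lit 6822498868) (nat_lit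 76) (nat_lit 6821666754) (nat_lit 157) (nat_lit 5) (nat_lit 160) (nat_lit 5) (nat_lit 158) (nat_lit 5) (nat_lit 428) (nat_lit 335) (nat_lit 257)) (XT.lf (nat_lit 0) (nat_lit 6166583292) (nat_lit 152) (nat_lit 4717998810) (nat_lit 228) (nat_lit 7789064376) (nat_lit 155) (nat_lit 5) (nat_lit 157) (nat_lit 5) (nat_lit 158) (nat_lit 5) (nat_lit 429) (nat_lit 335) (nat_lit 256))))))))
noncomputable def xc42 : XT := (XT.nd (nat_lit 47970) (nat_lit 0) (nat_lit 9272) (XT.nd (nat_lit 47034) (nat_lit 0) (nat_lit 20748) (XT.nd (nat_lit 390) (nat_lit 228) (nat_lit 0) (XT.nd (nat_lit 156) (nat_lit 304) (nat_lit 0) (XT.nd (nat_lit 78) (nat_lit 76) (nat_lit 0) (XT.lf (nat_lit 0) (nat_lit 592725185) (nat_lit 152) (nat_lit 16730257457) (nat_lit 228) (nat_lit 1694174520) (nat_lit 153) (nat_lit 5) (nat_lit 155) (nat_lit 5) (nat_lit 156) (nat_lit 4) (nat_lit 430) (nat_lit 335) (nat_lit 255)) (XT.lf (nat_lit 0) (nat_lit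 4633476079) (nat_lit 228) (nat_lit 5181812617) (nat_lit 76) (nat_lit 9550181996) (nat_lit 152) (nat_lit 5) (nat_lit 155) (nat_lit 5) (nat_lit 153) (nat_lit 5) (nat_lit 431) (nat_lit 335) (nat_lit 254))) (XT.nd (nat_lit 78) (nat_lit 152) (nat_lit 0) (XT.lf (nat_lit 0) (nat_lit 8545447497) (nat_lit 152) (nat_lit 2619713885) (nat_lit 228) (nat_lit 8557121334) (nat_lit 150) (nat_lit 5) (nat_lit 152) (nat_lit 5) (nat_lit 153) (nat_lit 5) (nat_lit 432) (nat_lit 335) (nat_lit 253)) (XT.nd (nat_lit 78) (nat_lit 76) (nat_lit 0) (XT.lf (nat_lit 0) (nat_lit 2644815674) (nat_lit 76) (nat_lit 15338539751) (nat_lit 152) (nat_lit 2103726928) (nat_lit 149) (nat_lit 5) (nat_lit 150) (nat_lit 5) (nat_lit 151) (nat_lit 4) (nat_lit 433) (nat_lit 335) (nat_lit 252)) (XT.lf (nat_lit 0) (nat_lit 4560818410) (nat_lit 152) (nat_lit 3482726948) (nat_lit 76) (nat_lit 12414784304) (nat_lit 148) (nat_lit 5) (nat_lit 150) (nat_lit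 5) (nat_lit 149) (nat_lit 5) (nat_lit 434) (nat_lit 335) (nat_lit 251))))) (XT.nd (nat_lit 46410) (nat_lit 0) (nat_lit 26448) (XT.nd (nat_lit 78) (nat_lit 76) (nat_lit 0) (XT.lf (nat_lit 0) (nat_lit 11029025586) (nat_lit 152) (nat_lit 427276718) (nat_lit 228) (nat_lit 9381588664) (nat_lit 146) (nat_lit 5) (nat_lit 148) (nat_lit 5) (nat_lit 149) (nat_lit 5) (nat_lit 435) (nat_lit 335) (nat_lit 250)) (XT.nd (nat_lit 46254) (nat_lit 0) (nat_lit 27360) (XT.lf (nat_lit 0) (nat_lit 4780306185) (nat_lit 76) (nat_lit 13898485268) (nat_lit 152) (nat_lit 2546443440) (nat_lit 145) (nat_lit 5) (nat_lit 146) (nat_lit 5) (nat_lit 147) (nat_lit 4) (nat_lit 436) (nat_lit 335) (nat_lit 249)) (XT.lf (nat_lit 0) (nat_lit 575544218) (nat_lit 380) (nat_lit 2103663882) (nat_lit 0) (nat_lit 575544218) (nat_lit 505) (nat_lit 5) (nat_lit 510) (nat_lit 4) (nat_lit 505) (nat_lit 4) (nat_lit 348) (nat_lit 336) (nat_lit 336))))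 (XT.nd (nat_lit 78) (nat_lit 912) (nat_lit 0) (XT.lf (nat_lit 0) (nat_lit 4386097540) (nat_lit 380) (nat_lit 374799723) (nat_lit 0) (nat_lit 1766946453) (nat_lit 505) (nat_lit 5) (nat_lit 510) (nat_lit 4) (nat_lit 505) (nat_lit 4) (nat_lit 349) (nat_lit 336) (nat_lit 335)) (XT.nd (nat_lit 78) (nat_lit 456) (nat_lit 0) (XT.lf (nat_lit 0) (nat_lit 1068086044) (nat_lit 456) (nat_lit 2993801550) (nat_lit 76) (nat_lit 2486921933) (nat_lit 499) (nat_lit 5) (nat_lit 505) (nat_lit 5) (nat_lit 500) (nat_lit 4) (nat_lit 350) (nat_lit 336) (nat_lit 334)) (XT.lf (nat_lit 0) (nat_lit 959603916) (nat_lit 456) (nat_lit 3272130683) (nat_lit 532) (nat_lit 2341016502) (nat_lit 493) (nat_lit 5) (nat_lit 499) (nat_lit 5) (nat_lit 500) (nat_lit 4) (nat_lit 351) (nat_lit 336) (nat_lit 333)))))) (XT.nd (nat_lit 468) (nat_lit 3648) (nat_lit 0) (XT.nd (nat_lit 234) (nat_lit 760) (nat_lit 0) (XT.nd (nat_lit 78) (nat_lit 1216)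 (nat_lit 0) (XT.lf (nat_lit 0) (nat_lit 794956284) (nat_lit 532) (nat_lit 1591830633) (nat_lit 76) (nat_lit 4212781580) (nat_lit 492) (nat_lit 5) (nat_lit 499) (nat_lit 5) (nat_lit 493) (nat_lit 5) (nat_lit 352) (nat_lit 336) (nat_lit 332)) (XT.nd (nat_lit 78) (nat_lit 684) (nat_lit 0) (XT.lf (nat_lit 0) (nat_lit 2498590968) (nat_lit 532) (nat_lit 1395584213) (nat_lit 608) (nat_lit 2734833311) (nat_lit 485) (nat_lit 5) (nat_lit 492) (nat_lit 5) (nat_lit 493) (nat_lit 5) (nat_lit 353) (nat_lit 336) (nat_lit 331)) (XT.lf (nat_lit 0) (nat_lit 2822834) (nat_lit 608) (nat_lit 325707058) (nat_lit 684) (nat_lit 6333383925) (nat_lit 476) (nat_lit 5) (nat_lit 484) (nat_lit 5) (nat_lit 485) (nat_lit 5) (nat_lit 354) (nat_lit 336) (nat_lit 330)))) (XT.nd (nat_lit 78) (nat_lit 760) (nat_lit 0) (XT.lf (nat_lit 0) (nat_lit 3374580632) (nat_lit 684) (nat_lit 2465859155) (nat_lit 76) (nat_lit 856181566) (nat_lit 476)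 (nat_lit 5) (nat_lit 485) (nat_lit 5) (nat_lit 477) (nat_lit 5) (nat_lit 355) (nat_lit 336) (nat_lit 329)) (XT.nd (nat_lit 78) (nat_lit 76) (nat_lit 0) (XT.lf (nat_lit 0) (nat_lit 1806475678) (nat_lit 684) (nat_lit 4625321213) (nat_lit 760) (nat_lit 302979705) (nat_lit 467) (nat_lit 5) (nat_lit 476) (nat_lit 5) (nat_lit 477) (nat_lit 5) (nat_lit 356) (nat_lit 336) (nat_lit 328)) (XT.lf (nat_lit 0) (nat_lit 2677436716) (nat_lit 760) (nat_lit 622957391) (nat_lit 76) (nat_lit 3475106466) (nat_lit 466) (nat_lit 5) (nat_lit 476) (nat_lit 5) (nat_lit 467) (nat_lit 5) (nat_lit 357) (nat_lit 336) (nat_lit 327))))) (XT.nd (nat_lit 234) (nat_lit 1976) (nat_lit 0) (XT.nd (nat_lit 78) (nat_lit 912) (nat_lit 0) (XT.lf (nat_lit 0) (nat_lit 3805197466) (nat_lit 760) (nat_lit 1875861900) (nat_lit 836) (nat_lit 1138100410) (nat_lit 456) (nat_lit 5) (nat_lit 466) (nat_lit 5) (nat_lit 467) (nat_lit 5) (nat_lit 358) (nat_lit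 336) (nat_lit 326)) (XT.nd (nat_lit 78) (nat_lit 0) (nat_lit 0) (XT.lf (nat_lit 0) (nat_lit 1446073127) (nat_lit 836) (nat_lit 352004728) (nat_lit 912) (nat_lit 5067758911) (nat_lit 444) (nat_lit 5) (nat_lit 455) (nat_lit 5) (nat_lit 456) (nat_lit 5) (nat_lit 359) (nat_lit 336) (nat_lit 325)) (XT.lf (nat_lit 0) (nat_lit 4748536651) (nat_lit 912) (nat_lit 915508040) (nat_lit 76) (nat_lit 1251059230) (nat_lit 444) (nat_lit 5) (nat_lit 456) (nat_lit 5) (nat_lit 445) (nat_lit 5) (nat_lit 360) (nat_lit 336) (nat_lit 324)))) (XT.nd (nat_lit 78) (nat_lit 988) (nat_lit 0) (XT.lf (nat_lit 0) (nat_lit 753655317) (nat_lit 988) (nat_lit 3260481494) (nat_lit 76) (nat_lit 2953034468) (nat_lit 431) (nat_lit 5) (nat_lit 444) (nat_lit 5) (nat_lit 432) (nat_lit 5) (nat_lit 361) (nat_lit 336) (nat_lit 323)) (XT.nd (nat_lit 78) (nat_lit 0) (nat_lit 0) (XT.lf (nat_lit 0) (nat_lit 1391831342) (nat_lit 988) (nat_lit 2259185507)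 (nat_lit 1064) (nat_lit 3371147930) (nat_lit 418) (nat_lit 5) (nat_lit 431) (nat_lit 5) (nat_lit 432) (nat_lit 5) (nat_lit 362) (nat_lit 336) (nat_lit 322)) (XT.lf (nat_lit 0) (nat_lit 6171747607) (nat_lit 988) (nat_lit 408692009) (nat_lit 1064) (nat_lit 500014257) (nat_lit 418) (nat_lit 5) (nat_lit 431) (nat_lit 5) (nat_lit 432) (nat_lit 5) (nat_lit 363) (nat_lit 336) (nat_lit 321))))))) (XT.nd (nat_lit 936) (nat_lit 3952) (nat_lit 0) (XT.nd (nat_lit 468) (nat_lit 3040) (nat_lit 0) (XT.nd (nat_lit 234) (nat_lit 2128) (nat_lit 0) (XT.nd (nat_lit 78) (nat_lit 1216) (nat_lit 0) (XT.lf (nat_lit 0) (nat_lit 2376080746) (nat_lit 1140) (nat_lit 3226902870) (nat_lit 76) (nat_lit 1537796088) (nat_lit 403) (nat_lit 5) (nat_lit 418) (nat_lit 5) (nat_lit 404) (nat_lit 5) (nat_lit 364) (nat_lit 336) (nat_lit 320)) (XT.nd (nat_lit 78) (nat_lit 76) (nat_lit 0) (XT.lf (nat_lit 0) (nat_lit 1639990482) (nat_lit 1140)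 (nat_lit 3633253571) (nat_lit 1216) (nat_lit 1931177683) (nat_lit 388) (nat_lit 5) (nat_lit 403) (nat_lit 5) (nat_lit 404) (nat_lit 5) (nat_lit 365) (nat_lit 336) (nat_lit 319)) (XT.lf (nat_lit 0) (nat_lit 917622107) (nat_lit 1216) (nat_lit 640693205) (nat_lit 76) (nat_lit 5712886796) (nat_lit 387) (nat_lit 5) (nat_lit 403) (nat_lit 5) (nat_lit 388) (nat_lit 5) (nat_lit 366) (nat_lit 336) (nat_lit 318)))) (XT.nd (nat_lit 78) (nat_lit 912) (nat_lit 0) (XT.lf (nat_lit 0) (nat_lit 3780809219) (nat_lit 1292) (nat_lit 2927456345) (nat_lit 76) (nat_lit 632114569) (nat_lit 371) (nat_lit 5) (nat_lit 388) (nat_lit 5) (nat_lit 372) (nat_lit 5) (nat_lit 367) (nat_lit 336) (nat_lit 317)) (XT.nd (nat_lit 78) (nat_lit 76) (nat_lit 0) (XT.lf (nat_lit 0) (nat_lit 2166434979) (nat_lit 836) (nat_lit 4526928944) (nat_lit 912) (nat_lit 719365415) (nat_lit 360) (nat_lit 5) (nat_lit 371) (nat_lit 5) (nat_lit 372) (nat_lit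 5) (nat_lit 368) (nat_lit 336) (nat_lit 316)) (XT.lf (nat_lit 0) (nat_lit 2114313709) (nat_lit 912) (nat_lit 115675112) (nat_lit 76) (nat_lit 5258084562) (nat_lit 359) (nat_lit 5) (nat_lit 371) (nat_lit 5) (nat_lit 360) (nat_lit 5) (nat_lit 369) (nat_lit 336) (nat_lit 315))))) (XT.nd (nat_lit 234) (nat_lit 1216) (nat_lit 0) (XT.nd (nat_lit 78) (nat_lit 1216) (nat_lit 0) (XT.lf (nat_lit 0) (nat_lit 4993975177) (nat_lit 684) (nat_lit 2383808390) (nat_lit 76) (nat_lit 188417594) (nat_lit 351) (nat_lit 5) (nat_lit 360) (nat_lit 5) (nat_lit 352) (nat_lit 5) (nat_lit 370) (nat_lit 336) (nat_lit 314)) (XT.nd (nat_lit 78) (nat_lit 532) (nat_lit 0) (XT.lf (nat_lit 0) (nat_lit 283822839) (nat_lit 684) (nat_lit 4699581596) (nat_lit 76) (nat_lit 2663880459) (nat_lit 342) (nat_lit 5) (nat_lit 351) (nat_lit 5) (nat_lit 343) (nat_lit 5) (nat_lit 371) (nat_lit 336) (nat_lit 313)) (XT.lf (nat_lit 0) (nat_lit 664464595)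 (nat_lit 532) (nat_lit 2465968887) (nat_lit 608) (nat_lit 4600906245) (nat_lit 335) (nat_lit 5) (nat_lit 342) (nat_lit 5) (nat_lit 343) (nat_lit 5) (nat_lit 372) (nat_lit 336) (nat_lit 312)))) (XT.nd (nat_lit 78) (nat_lit 1216) (nat_lit 0) (XT.lf (nat_lit 0) (nat_lit 6038792553) (nat_lit 608) (nat_lit 1614477555) (nat_lit 76) (nat_lit 165355591) (nat_lit 335) (nat_lit 5) (nat_lit 343) (nat_lit 5) (nat_lit 336) (nat_lit 5) (nat_lit 373) (nat_lit 336) (nat_lit 311)) (XT.nd (nat_lit 78) (nat_lit 532) (nat_lit 0) (XT.lf (nat_lit 0) (nat_lit 1095771255) (nat_lit 684) (nat_lit 3944545538) (nat_lit 76) (nat_lit 2868132714) (nat_lit 326) (nat_lit 5) (nat_lit 335) (nat_lit 5) (nat_lit 327) (nat_lit 5) (nat_lit 374) (nat_lit 336) (nat_lit 310)) (XT.lf (nat_lit 0) (nat_lit 1676905593) (nat_lit 532) (nat_lit 2307485800) (nat_lit 608) (nat_lit 4017172357) (nat_lit 319) (nat_lit 5) (nat_lit 326) (nat_lit 5) (nat_lit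 327) (nat_lit 5) (nat_lit 375) (nat_lit 336) (nat_lit 309)))))) (XT.nd (nat_lit 468) (nat_lit 1824) (nat_lit 0) (XT.nd (nat_lit 234) (nat_lit 1064) (nat_lit 0) (XT.nd (nat_lit 78) (nat_lit 1064) (nat_lit 0) (XT.lf (nat_lit 0) (nat_lit 6935883538) (nat_lit 608) (nat_lit 635148095) (nat_lit 76) (nat_lit 527153386) (nat_lit 319) (nat_lit 5) (nat_lit 327) (nat_lit 5) (nat_lit 320) (nat_lit 5) (nat_lit 376) (nat_lit 336) (nat_lit 308)) (XT.nd (nat_lit 78) (nat_lit 456) (nat_lit 0) (XT.lf (nat_lit 0) (nat_lit 1749766992) (nat_lit 608) (nat_lit 2989600384) (nat_lit 76) (nat_lit 3457637225) (nat_lit 311) (nat_lit 5) (nat_lit 319) (nat_lit 5) (nat_lit 312) (nat_lit 5) (nat_lit 377) (nat_lit 336) (nat_lit 307)) (XT.lf (nat_lit 0) (nat_lit 2905142669) (nat_lit 456) (nat_lit 1788758487) (nat_lit 532) (nat_lit 3605500435) (nat_lit 305) (nat_lit 5) (nat_lit 311) (nat_lit 5) (nat_lit 312) (nat_lit 5) (nat_lit 378)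 (nat_lit 336) (nat_lit 306)))) (XT.nd (nat_lit 78) (nat_lit 532) (nat_lit 0) (XT.lf (nat_lit 0) (nat_lit 551821904) (nat_lit 532) (nat_lit 7157053335) (nat_lit 608) (nat_lit 696519774) (nat_lit 298) (nat_lit 5) (nat_lit 305) (nat_lit 5) (nat_lit 306) (nat_lit 5) (nat_lit 379) (nat_lit 336) (nat_lit 305)) (XT.nd (nat_lit 78) (nat_lit 456) (nat_lit 0) (XT.lf (nat_lit 0) (nat_lit 2262778315) (nat_lit 608) (nat_lit 1847601789) (nat_lit 76) (nat_lit 4403287221) (nat_lit 297) (nat_lit 5) (nat_lit 305) (nat_lit 5) (nat_lit 298) (nat_lit 5) (nat_lit 380) (nat_lit 336) (nat_lit 304)) (XT.lf (nat_lit 0) (nat_lit 4337482979) (nat_lit 456) (nat_lit 938157639) (nat_lit 532) (nat_lit 3349976761) (nat_lit 291) (nat_lit 5) (nat_lit 297) (nat_lit 5) (nat_lit 298) (nat_lit 5) (nat_lit 381) (nat_lit 336) (nat_lit 303))))) (XT.nd (nat_lit 234) (nat_lit 912) (nat_lit 0) (XT.nd (nat_lit 78) (nat_lit 456) (nat_lit 0) (XT.lf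 (nat_lit 0) (nat_lit 1941197373) (nat_lit 456) (nat_lit 6435599741) (nat_lit 532) (nat_lit 364191572) (nat_lit 285) (nat_lit 5) (nat_lit 291) (nat_lit 5) (nat_lit 292) (nat_lit 5) (nat_lit 382) (nat_lit 336) (nat_lit 302)) (XT.nd (nat_lit 78) (nat_lit 380) (nat_lit 0) (XT.lf (nat_lit 0) (nat_lit 2649741226) (nat_lit 532) (nat_lit 529168050) (nat_lit 76) (nat_lit 5680385654) (nat_lit 284) (nat_lit 5) (nat_lit 291) (nat_lit 5) (nat_lit 285) (nat_lit 5) (nat_lit 383) (nat_lit 336) (nat_lit 301)) (XT.lf (nat_lit 0) (nat_lit 5746474901) (nat_lit 456) (nat_lit 3018717155) (nat_lit 76) (nat_lit 215859045) (nat_lit 279) (nat_lit 5) (nat_lit 285) (nat_lit 5) (nat_lit 280) (nat_lit 5) (nat_lit 384) (nat_lit 336) (nat_lit 300)))) (XT.nd (nat_lit 78) (nat_lit 456) (nat_lit 0) (XT.lf (nat_lit 0) (nat_lit 3511456102) (nat_lit 456) (nat_lit 5436354603) (nat_lit 532) (nat_lit 158298249) (nat_lit 273) (nat_lit 5) (nat_lit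 279) (nat_lit 5) (nat_lit 280) (nat_lit 5) (nat_lit 385) (nat_lit 336) (nat_lit 299)) (XT.nd (nat_lit 78) (nat_lit 0) (nat_lit 0) (XT.lf (nat_lit 0) (nat_lit 976161095) (nat_lit 380) (nat_lit 1957002855) (nat_lit 456) (nat_lit 6301437385) (nat_lit 267) (nat_lit 5) (nat_lit 272) (nat_lit 5) (nat_lit 273) (nat_lit 5) (nat_lit 386) (nat_lit 336) (nat_lit 298)) (XT.lf (nat_lit 0) (nat_lit 6129101795) (nat_lit 456) (nat_lit 1604046515) (nat_lit 76) (nat_lit 1633305755) (nat_lit 267) (nat_lit 5) (nat_lit 273) (nat_lit 5) (nat_lit 268) (nat_lit 5) (nat_lit 387) (nat_lit 336) (nat_lit 297))))))))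
noncomputable def xc43 : XT := (XT.nd (nat_lit 1872) (nat_lit 3192) (nat_lit 0) (XT.nd (nat_lit 936) (nat_lit 2508) (nat_lit 0) (XT.nd (nat_lit 468) (nat_lit 1368) (nat_lit 0) (XT.nd (nat_lit 234) (nat_lit 1140) (nat_lit 0) (XT.nd (nat_lit 78) (nat_lit 456) (nat_lit 0) (XT.lf (nat_lit 0) (nat_lit 5255671037) (nat_lit 380) (nat_lit 4179048503) (nat_lit 456) (nat_lit 67128783) (nat_lit 262) (nat_lit 5) (nat_lit 267) (nat_lit 5) (nat_lit 268) (nat_lit 5) (nat_lit 388) (nat_lit 336) (nat_lit 296)) (XT.nd (nat_lit 78) (nat_lit 0) (nat_lit 0) (XT.lf (nat_lit 0) (nat_lit 2656335712) (nat_lit 380) (nat_lit 465604213) (nat_lit 456) (nat_lit 6518857783) (nat_lit 256) (nat_lit 5) (nat_lit 261) (nat_lit 5) (nat_lit 262) (nat_lit 5) (nat_lit 389) (nat_lit 336) (nat_lit 295)) (XT.lf (nat_lit 0) (nat_lit 6425848939) (nat_lit 456) (nat_lit 41550718) (nat_lit 76) (nat_lit 3315880456) (nat_lit 256) (nat_lit 5) (nat_lit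 262) (nat_lit 5) (nat_lit 257) (nat_lit 5) (nat_lit 390) (nat_lit 336) (nat_lit 294)))) (XT.nd (nat_lit 78) (nat_lit 760) (nat_lit 0) (XT.lf (nat_lit 0) (nat_lit 7168704049) (nat_lit 380) (nat_lit 2680219008) (nat_lit 456) (nat_lit 80512497) (nat_lit 251) (nat_lit 5) (nat_lit 256) (nat_lit 5) (nat_lit 257) (nat_lit 5) (nat_lit 391) (nat_lit 336) (nat_lit 293)) (XT.nd (nat_lit 78) (nat_lit 380) (nat_lit 0) (XT.lf (nat_lit 0) (nat_lit 3233153516) (nat_lit 380) (nat_lit 5595890030) (nat_lit 76) (nat_lit 1249900044) (nat_lit 246) (nat_lit 5) (nat_lit 251) (nat_lit 5) (nat_lit 247) (nat_lit 5) (nat_lit 392) (nat_lit 336) (nat_lit 292)) (XT.lf (nat_lit 0) (nat_lit 1697022467) (nat_lit 380) (nat_lit 4966025736) (nat_lit 456) (nat_lit 3569311641) (nat_lit 241) (nat_lit 5) (nat_lit 246) (nat_lit 5) (nat_lit 247) (nat_lit 5) (nat_lit 393) (nat_lit 336) (nat_lit 291))))) (XT.nd (nat_lit 234) (nat_lit 684) (nat_lit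 0) (XT.nd (nat_lit 78) (nat_lit 684) (nat_lit 0) (XT.lf (nat_lit 0) (nat_lit 9247062241) (nat_lit 380) (nat_lit 953515239) (nat_lit 456) (nat_lit 189658974) (nat_lit 241) (nat_lit 5) (nat_lit 246) (nat_lit 5) (nat_lit 247) (nat_lit 5) (nat_lit 394) (nat_lit 336) (nat_lit 290)) (XT.nd (nat_lit 78) (nat_lit 304) (nat_lit 0) (XT.lf (nat_lit 0) (nat_lit 3270047263) (nat_lit 380) (nat_lit 4092195644) (nat_lit 76) (nat_lit 3188370568) (nat_lit 236) (nat_lit 5) (nat_lit 241) (nat_lit 5) (nat_lit 237) (nat_lit 5) (nat_lit 395) (nat_lit 336) (nat_lit 289)) (XT.lf (nat_lit 0) (nat_lit 3578753112) (nat_lit 304) (nat_lit 3256248388) (nat_lit 380) (nat_lit 3880585910) (nat_lit 232) (nat_lit 5) (nat_lit 236) (nat_lit 5) (nat_lit 237) (nat_lit 5) (nat_lit 396) (nat_lit 336) (nat_lit 288)))) (XT.nd (nat_lit 78) (nat_lit 380) (nat_lit 0) (XT.lf (nat_lit 0) (nat_lit 605313335) (nat_lit 304) (nat_lit 9908761046) (nat_lit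 380) (nat_lit 371221082) (nat_lit 228) (nat_lit 5) (nat_lit 232) (nat_lit 5) (nat_lit 233) (nat_lit 5) (nat_lit 397) (nat_lit 336) (nat_lit 287)) (XT.nd (nat_lit 78) (nat_lit 304) (nat_lit 0) (XT.lf (nat_lit 0) (nat_lit 3235660336) (nat_lit 380) (nat_lit 2472461255) (nat_lit 76) (nat_lit 5349372037) (nat_lit 227) (nat_lit 5) (nat_lit 232) (nat_lit 5) (nat_lit 228) (nat_lit 5) (nat_lit 398) (nat_lit 336) (nat_lit 286)) (XT.lf (nat_lit 0) (nat_lit 5600704926) (nat_lit 304) (nat_lit 1348365989) (nat_lit 380) (nat_lit 4285503043) (nat_lit 223) (nat_lit 5) (nat_lit 227) (nat_lit 5) (nat_lit 228) (nat_lit 5) (nat_lit 399) (nat_lit 336) (nat_lit 285)))))) (XT.nd (nat_lit 468) (nat_lit 1292) (nat_lit 0) (XT.nd (nat_lit 234) (nat_lit 608) (nat_lit 0) (XT.nd (nat_lit 78) (nat_lit 380) (nat_lit 0) (XT.lf (nat_lit 0) (nat_lit 2494111528) (nat_lit 228) (nat_lit 8311554929) (nat_lit 304) (nat_lit 610346759) (nat_lit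 220) (nat_lit 5) (nat_lit 223) (nat_lit 5) (nat_lit 224) (nat_lit 5) (nat_lit 400) (nat_lit 336) (nat_lit 284)) (XT.nd (nat_lit 78) (nat_lit 304) (nat_lit 0) (XT.lf (nat_lit 0) (nat_lit 3136512278) (nat_lit 304) (nat_lit 739051559) (nat_lit 76) (nat_lit 7725714047) (nat_lit 219) (nat_lit 5) (nat_lit 223) (nat_lit 5) (nat_lit 220) (nat_lit 5) (nat_lit 401) (nat_lit 336) (nat_lit 283)) (XT.lf (nat_lit 0) (nat_lit 7019313099) (nat_lit 380) (nat_lit 4036232607) (nat_lit 76) (nat_lit 735299393) (nat_lit 215) (nat_lit 5) (nat_lit 220) (nat_lit 5) (nat_lit 216) (nat_lit 5) (nat_lit 402) (nat_lit 336) (nat_lit 282)))) (XT.nd (nat_lit 78) (nat_lit 380) (nat_lit 0) (XT.lf (nat_lit 0) (nat_lit 4508836812) (nat_lit 228) (nat_lit 6553385823) (nat_lit 304) (nat_lit 922567955) (nat_lit 212) (nat_lit 5) (nat_lit 215) (nat_lit 5) (nat_lit 216) (nat_lit 5) (nat_lit 403) (nat_lit 336) (nat_lit 281)) (XT.nd (nat_lit 78)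 (nat_lit 0) (nat_lit 0) (XT.lf (nat_lit 0) (nat_lit 1128798648) (nat_lit 304) (nat_lit 1860283123) (nat_lit 380) (nat_lit 9194398231) (nat_lit 207) (nat_lit 5) (nat_lit 211) (nat_lit 5) (nat_lit 212) (nat_lit 5) (nat_lit 404) (nat_lit 336) (nat_lit 280)) (XT.lf (nat_lit 0) (nat_lit 7059284364) (nat_lit 380) (nat_lit 2352997558) (nat_lit 76) (nat_lit 2973781763) (nat_lit 207) (nat_lit 5) (nat_lit 212) (nat_lit 5) (nat_lit 208) (nat_lit 5) (nat_lit 405) (nat_lit 336) (nat_lit 279))))) (XT.nd (nat_lit 234) (nat_lit 760) (nat_lit 0) (XT.nd (nat_lit 78) (nat_lit 304) (nat_lit 0) (XT.lf (nat_lit 0) (nat_lit 6649610290) (nat_lit 228) (nat_lit 4640556430) (nat_lit 304) (nat_lit 1303400946) (nat_lit 204) (nat_lit 5) (nat_lit 207) (nat_lit 5) (nat_lit 208) (nat_lit 5) (nat_lit 406) (nat_lit 336) (nat_lit 278)) (XT.nd (nat_lit 78) (nat_lit 0) (nat_lit 0) (XT.lf (nat_lit 0) (nat_lit 2798864458) (nat_lit 304) (nat_lit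 9683569888) (nat_lit 76) (nat_lit 323634706) (nat_lit 200) (nat_lit 5) (nat_lit 204) (nat_lit 5) (nat_lit 201) (nat_lit 5) (nat_lit 407) (nat_lit 336) (nat_lit 277)) (XT.lf (nat_lit 0) (nat_lit 7061285048) (nat_lit 304) (nat_lit 571747790) (nat_lit 76) (nat_lit 5389626962) (nat_lit 200) (nat_lit 5) (nat_lit 204) (nat_lit 5) (nat_lit 201) (nat_lit 5) (nat_lit 408) (nat_lit 336) (nat_lit 276)))) (XT.nd (nat_lit 78) (nat_lit 532) (nat_lit 0) (XT.lf (nat_lit 0) (nat_lit 8917586563) (nat_lit 228) (nat_lit 2577695120) (nat_lit 304) (nat_lit 1749155486) (nat_lit 197) (nat_lit 5) (nat_lit 200) (nat_lit 5) (nat_lit 201) (nat_lit 5) (nat_lit 409) (nat_lit 336) (nat_lit 275)) (XT.nd (nat_lit 78) (nat_lit 228) (nat_lit 0) (XT.lf (nat_lit 0) (nat_lit 2579018921) (nat_lit 304) (nat_lit 8259615370) (nat_lit 76) (nat_lit 2632283301) (nat_lit 193) (nat_lit 5) (nat_lit 197) (nat_lit 5) (nat_lit 194) (nat_lit 5) (nat_lit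 410) (nat_lit 336) (nat_lit 274)) (XT.lf (nat_lit 0) (nat_lit 1333881261) (nat_lit 228) (nat_lit 5708884663) (nat_lit 304) (nat_lit 6659680444) (nat_lit 190) (nat_lit 5) (nat_lit 193) (nat_lit 5) (nat_lit 194) (nat_lit 5) (nat_lit 411) (nat_lit 336) (nat_lit 273))))))) (XT.nd (nat_lit 936) (nat_lit 1444) (nat_lit 0) (XT.nd (nat_lit 468) (nat_lit 836) (nat_lit 0) (XT.nd (nat_lit 234) (nat_lit 456) (nat_lit 0) (XT.nd (nat_lit 78) (nat_lit 456) (nat_lit 0) (XT.lf (nat_lit 0) (nat_lit 11314896875) (nat_lit 228) (nat_lit 367891105) (nat_lit 304) (nat_lit 2256862146) (nat_lit 190) (nat_lit 5) (nat_lit 193) (nat_lit 5) (nat_lit 194) (nat_lit 5) (nat_lit 412) (nat_lit 336) (nat_lit 272)) (XT.nd (nat_lit 78) (nat_lit 152) (nat_lit 0) (XT.lf (nat_lit 0) (nat_lit 2315122823) (nat_lit 304) (nat_lit 6765563188) (nat_lit 76) (nat_lit 5100181004) (nat_lit 186) (nat_lit 5) (nat_lit 190) (nat_lit 5) (nat_lit 187) (nat_lit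 5) (nat_lit 413) (nat_lit 336) (nat_lit 271)) (XT.lf (nat_lit 0) (nat_lit 3352383241) (nat_lit 152) (nat_lit 3649168281) (nat_lit 228) (nat_lit 7426419185) (nat_lit 184) (nat_lit 5) (nat_lit 186) (nat_lit 5) (nat_lit 187) (nat_lit 5) (nat_lit 414) (nat_lit 336) (nat_lit 270)))) (XT.nd (nat_lit 78) (nat_lit 456) (nat_lit 0) (XT.lf (nat_lit 0) (nat_lit 11876515576) (nat_lit 228) (nat_lit 856122067) (nat_lit 76) (nat_lit 1948411592) (nat_lit 184) (nat_lit 5) (nat_lit 187) (nat_lit 5) (nat_lit 185) (nat_lit 5) (nat_lit 415) (nat_lit 336) (nat_lit 269)) (XT.nd (nat_lit 78) (nat_lit 152) (nat_lit 0) (XT.lf (nat_lit 0) (nat_lit 2010073422) (nat_lit 304) (nat_lit 5201347150) (nat_lit 76) (nat_lit 7726968465) (nat_lit 180) (nat_lit 5) (nat_lit 184) (nat_lit 5) (nat_lit 181) (nat_lit 5) (nat_lit 416) (nat_lit 336) (nat_lit 268)) (XT.lf (nat_lit 0) (nat_lit 5474363538) (nat_lit 152) (nat_lit 1461256556) (nat_lit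 228) (nat_lit 8266309816) (nat_lit 178) (nat_lit 5) (nat_lit 180) (nat_lit 5) (nat_lit 181) (nat_lit 5) (nat_lit 417) (nat_lit 336) (nat_lit 267))))) (XT.nd (nat_lit 234) (nat_lit 380) (nat_lit 0) (XT.nd (nat_lit 78) (nat_lit 228) (nat_lit 0) (XT.lf (nat_lit 0) (nat_lit 1014375194) (nat_lit 228) (nat_lit 11061965395) (nat_lit 304) (nat_lit 3395014198) (nat_lit 175) (nat_lit 5) (nat_lit 178) (nat_lit 5) (nat_lit 179) (nat_lit 5) (nat_lit 418) (nat_lit 336) (nat_lit 266)) (XT.nd (nat_lit 78) (nat_lit 152) (nat_lit 0) (XT.lf (nat_lit 0) (nat_lit 1666259249) (nat_lit 304) (nat_lit 3566251979) (nat_lit 76) (nat_lit 10513618366) (nat_lit 174) (nat_lit 5) (nat_lit 178) (nat_lit 5) (nat_lit 175) (nat_lit 5) (nat_lit 419) (nat_lit 336) (nat_lit 265)) (XT.lf (nat_lit 0) (nat_lit 6856329982) (nat_lit 228) (nat_lit 8332676220) (nat_lit 76) (nat_lit 837777156) (nat_lit 172) (nat_lit 5) (nat_lit 175) (nat_lit 5) (nat_lit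 173) (nat_lit 5) (nat_lit 420) (nat_lit 336) (nat_lit 264)))) (XT.nd (nat_lit 78) (nat_lit 228) (nat_lit 0) (XT.lf (nat_lit 0) (nat_lit 2991303849) (nat_lit 152) (nat_lit 9290856947) (nat_lit 228) (nat_lit 4031294201) (nat_lit 170) (nat_lit 5) (nat_lit 172) (nat_lit 5) (nat_lit 173) (nat_lit 5) (nat_lit 421) (nat_lit 336) (nat_lit 263)) (XT.nd (nat_lit 78) (nat_lit 152) (nat_lit 0) (XT.lf (nat_lit 0) (nat_lit 1285607366) (nat_lit 228) (nat_lit 1858950850) (nat_lit 76) (nat_lit 13462358787) (nat_lit 169) (nat_lit 5) (nat_lit 172) (nat_lit 5) (nat_lit 170) (nat_lit 5) (nat_lit 422) (nat_lit 336) (nat_lit 262)) (XT.lf (nat_lit 0) (nat_lit 6773504053) (nat_lit 228) (nat_lit 6897400973) (nat_lit 76) (nat_lit 3234305037) (nat_lit 167) (nat_lit 5) (nat_lit 170) (nat_lit 5) (nat_lit 168) (nat_lit 5) (nat_lit 423) (nat_lit 336) (nat_lit 261)))))) (XT.nd (nat_lit 468) (nat_lit 684) (nat_lit 0) (XT.nd (nat_lit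 234) (nat_lit 380) (nat_lit 0) (XT.nd (nat_lit 78) (nat_lit 228) (nat_lit 0) (XT.lf (nat_lit 0) (nat_lit 5060360545) (nat_lit 152) (nat_lit 7428868135) (nat_lit 228) (nat_lit 4721327504) (nat_lit 165) (nat_lit 5) (nat_lit 167) (nat_lit 5) (nat_lit 168) (nat_lit 5) (nat_lit 424) (nat_lit 336) (nat_lit 260)) (XT.nd (nat_lit 78) (nat_lit 152) (nat_lit 0) (XT.lf (nat_lit 0) (nat_lit 869624724) (nat_lit 228) (nat_lit 77536472) (nat_lit 76) (nat_lit 16576609711) (nat_lit 164) (nat_lit 5) (nat_lit 167) (nat_lit 5) (nat_lit 165) (nat_lit 5) (nat_lit 425) (nat_lit 336) (nat_lit 259)) (XT.lf (nat_lit 0) (nat_lit 6675520004) (nat_lit 228) (nat_lit 5406613893) (nat_lit 76) (nat_lit 5758582547) (nat_lit 162) (nat_lit 5) (nat_lit 165) (nat_lit 5) (nat_lit 163) (nat_lit 5) (nat_lit 426) (nat_lit 336) (nat_lit 258)))) (XT.nd (nat_lit 78) (nat_lit 228) (nat_lit 0) (XT.lf (nat_lit 0) (nat_lit 7224910991) (nat_lit 152)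 (nat_lit 5476016801) (nat_lit 228) (nat_lit 5464882485) (nat_lit 160) (nat_lit 5) (nat_lit 162) (nat_lit 5) (nat_lit 163) (nat_lit 5) (nat_lit 427) (nat_lit 336) (nat_lit 257)) (XT.nd (nat_lit 78) (nat_lit 0) (nat_lit 0) (XT.lf (nat_lit 0) (nat_lit 450145443) (nat_lit 228) (nat_lit 16696755881) (nat_lit 76) (nat_lit 1352089322) (nat_lit 157) (nat_lit 5) (nat_lit 160) (nat_lit 5) (nat_lit 158) (nat_lit 5) (nat_lit 428) (nat_lit 336) (nat_lit 256)) (XT.lf (nat_lit 0) (nat_lit 6564502330) (nat_lit 228) (nat_lit 3858758329) (nat_lit 76) (nat_lit 8413331029) (nat_lit 157) (nat_lit 5) (nat_lit 160) (nat_lit 5) (nat_lit 158) (nat_lit 5) (nat_lit 429) (nat_lit 336) (nat_lit 255))))) (XT.nd (nat_lit 234) (nat_lit 304) (nat_lit 0) (XT.nd (nat_lit 78) (nat_lit 228) (nat_lit 0) (XT.lf (nat_lit 0) (nat_lit 9488933399) (nat_lit 152) (nat_lit 3431485833) (nat_lit 228) (nat_lit 6262157649) (nat_lit 155) (nat_lit 5)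 (nat_lit 157) (nat_lit 5) (nat_lit 158) (nat_lit 5) (nat_lit 430) (nat_lit 336) (nat_lit 254)) (XT.nd (nat_lit 78) (nat_lit 0) (nat_lit 0) (XT.lf (nat_lit 0) (nat_lit 8975119) (nat_lit 228) (nat_lit 15782383312) (nat_lit 76) (nat_lit 3745218957) (nat_lit 152) (nat_lit 5) (nat_lit 155) (nat_lit 5) (nat_lit 153) (nat_lit 5) (nat_lit 431) (nat_lit 336) (nat_lit 253)) (XT.lf (nat_lit 0) (nat_lit 6442309144) (nat_lit 228) (nat_lit 2251822704) (nat_lit 76) (nat_lit 11202208102) (nat_lit 152) (nat_lit 5) (nat_lit 155) (nat_lit 5) (nat_lit 153) (nat_lit 5) (nat_lit 432) (nat_lit 336) (nat_lit 252)))) (XT.nd (nat_lit 78) (nat_lit 152) (nat_lit 0) (XT.lf (nat_lit 0) (nat_lit 11857005760) (nat_lit 152) (nat_lit 1293671857) (nat_lit 228) (nat_lit 7113756738) (nat_lit 150) (nat_lit 5) (nat_lit 152) (nat_lit 5) (nat_lit 153) (nat_lit 5) (nat_lit 433) (nat_lit 336) (nat_lit 251)) (XT.nd (nat_lit 78) (nat_lit 76) (nat_lit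 0) (XT.lf (nat_lit 0) (nat_lit 5785063653) (nat_lit 76) (nat_lit 14382811431) (nat_lit 152) (nat_lit 472469171) (nat_lit 149) (nat_lit 5) (nat_lit 150) (nat_lit 5) (nat_lit 151) (nat_lit 4) (nat_lit 434) (nat_lit 336) (nat_lit 250)) (XT.lf (nat_lit 0) (nat_lit 6310561712) (nat_lit 152) (nat_lit 583357532) (nat_lit 76) (nat_lit 14129772745) (nat_lit 148) (nat_lit 5) (nat_lit 150) (nat_lit 5) (nat_lit 149) (nat_lit 5) (nat_lit 435) (nat_lit 336) (nat_lit 249))))))))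
noncomputable def xc44 : XT := (XT.nd (nat_lit 1794) (nat_lit 8588) (nat_lit 0) (XT.nd (nat_lit 858) (nat_lit 8132) (nat_lit 0) (XT.nd (nat_lit 390) (nat_lit 2508) (nat_lit 0) (XT.nd (nat_lit 156) (nat_lit 760) (nat_lit 0) (XT.nd (nat_lit 78) (nat_lit 76) (nat_lit 0) (XT.lf (nat_lit 0) (nat_lit 641927632) (nat_lit 228) (nat_lit 1298997380) (nat_lit 228) (nat_lit 1298997380) (nat_lit 510) (nat_lit 4) (nat_lit 513) (nat_lit 5) (nat_lit 513) (nat_lit 4) (nat_lit 346) (nat_lit 337) (nat_lit 337)) (XT.lf (nat_lit 0) (nat_lit 629401312) (nat_lit 304) (nat_lit 1500972724) (nat_lit 76) (nat_lit 4363684489) (nat_lit 509) (nat_lit 5) (nat_lit 513) (nat_lit 5) (nat_lit 510) (nat_lit 4) (nat_lit 347) (nat_lit 337) (nat_lit 336))) (XT.nd (nat_lit 78) (nat_lit 456) (nat_lit 0) (XT.lf (nat_lit 0) (nat_lit 2249691908) (nat_lit 304) (nat_lit 1556256326) (nat_lit 380) (nat_lit 2704842379) (nat_lit 505) (nat_lit 5) (nat_lit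 509) (nat_lit 5) (nat_lit 510) (nat_lit 4) (nat_lit 348) (nat_lit 337) (nat_lit 335)) (XT.nd (nat_lit 78) (nat_lit 380) (nat_lit 0) (XT.lf (nat_lit 0) (nat_lit 438845862) (nat_lit 380) (nat_lit 464318583) (nat_lit 76) (nat_lit 5627707470) (nat_lit 504) (nat_lit 5) (nat_lit 509) (nat_lit 5) (nat_lit 505) (nat_lit 5) (nat_lit 349) (nat_lit 337) (nat_lit 334)) (XT.lf (nat_lit 0) (nat_lit 3413416838) (nat_lit 380) (nat_lit 129739134) (nat_lit 456) (nat_lit 3009975989) (nat_lit 499) (nat_lit 5) (nat_lit 504) (nat_lit 5) (nat_lit 505) (nat_lit 5) (nat_lit 350) (nat_lit 337) (nat_lit 333))))) (XT.nd (nat_lit 234) (nat_lit 1444) (nat_lit 0) (XT.nd (nat_lit 78) (nat_lit 532) (nat_lit 0) (XT.lf (nat_lit 0) (nat_lit 69811635) (nat_lit 532) (nat_lit 5805441920) (nat_lit 76) (nat_lit 703504205) (nat_lit 492) (nat_lit 5) (nat_lit 499) (nat_lit 5) (nat_lit 493) (nat_lit 5) (nat_lit 351) (nat_lit 337) (nat_lit 332))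 (XT.nd (nat_lit 78) (nat_lit 532) (nat_lit 0) (XT.lf (nat_lit 0) (nat_lit 3106999830) (nat_lit 532) (nat_lit 1844615140) (nat_lit 76) (nat_lit 1654878174) (nat_lit 492) (nat_lit 5) (nat_lit 499) (nat_lit 5) (nat_lit 493) (nat_lit 5) (nat_lit 352) (nat_lit 337) (nat_lit 331)) (XT.lf (nat_lit 0) (nat_lit 2203161481) (nat_lit 532) (nat_lit 3948661156) (nat_lit 608) (nat_lit 485742385) (nat_lit 485) (nat_lit 5) (nat_lit 492) (nat_lit 5) (nat_lit 493) (nat_lit 5) (nat_lit 353) (nat_lit 337) (nat_lit 330)))) (XT.nd (nat_lit 78) (nat_lit 1368) (nat_lit 0) (XT.lf (nat_lit 0) (nat_lit 2482801112) (nat_lit 608) (nat_lit 360369526) (nat_lit 76) (nat_lit 3828179076) (nat_lit 484) (nat_lit 5) (nat_lit 492) (nat_lit 5) (nat_lit 485) (nat_lit 5) (nat_lit 354) (nat_lit 337) (nat_lit 329)) (XT.nd (nat_lit 78) (nat_lit 760) (nat_lit 0) (XT.lf (nat_lit 0) (nat_lit 3831879868) (nat_lit 608) (nat_lit 1635265725) (nat_lit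 684) (nat_lit 1240762844) (nat_lit 476) (nat_lit 5) (nat_lit 484) (nat_lit 5) (nat_lit 485) (nat_lit 5) (nat_lit 355) (nat_lit 337) (nat_lit 328)) (XT.lf (nat_lit 0) (nat_lit 1345574380) (nat_lit 684) (nat_lit 332375760) (nat_lit 760) (nat_lit 5069570129) (nat_lit 466) (nat_lit 5) (nat_lit 475) (nat_lit 5) (nat_lit 476) (nat_lit 5) (nat_lit 356) (nat_lit 337) (nat_lit 327)))))) (XT.nd (nat_lit 468) (nat_lit 4484) (nat_lit 0) (XT.nd (nat_lit 234) (nat_lit 1976) (nat_lit 0) (XT.nd (nat_lit 78) (nat_lit 1672) (nat_lit 0) (XT.lf (nat_lit 0) (nat_lit 4601626550) (nat_lit 760) (nat_lit 1134547515) (nat_lit 76) (nat_lit 1053507641) (nat_lit 466) (nat_lit 5) (nat_lit 476) (nat_lit 5) (nat_lit 467) (nat_lit 5) (nat_lit 357) (nat_lit 337) (nat_lit 326)) (XT.nd (nat_lit 78) (nat_lit 836) (nat_lit 0) (XT.lf (nat_lit 0) (nat_lit 704709562) (nat_lit 836) (nat_lit 3596225822) (nat_lit 76) (nat_lit 2533747004) (nat_lit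 455) (nat_lit 5) (nat_lit 466) (nat_lit 5) (nat_lit 456) (nat_lit 5) (nat_lit 358) (nat_lit 337) (nat_lit 325)) (XT.lf (nat_lit 0) (nat_lit 802654128) (nat_lit 836) (nat_lit 2764140549) (nat_lit 912) (nat_lit 3315793039) (nat_lit 444) (nat_lit 5) (nat_lit 455) (nat_lit 5) (nat_lit 456) (nat_lit 5) (nat_lit 359) (nat_lit 337) (nat_lit 324)))) (XT.nd (nat_lit 78) (nat_lit 1976) (nat_lit 0) (XT.lf (nat_lit 0) (nat_lit 5331519397) (nat_lit 836) (nat_lit 1128741615) (nat_lit 912) (nat_lit 473303633) (nat_lit 444) (nat_lit 5) (nat_lit 455) (nat_lit 5) (nat_lit 456) (nat_lit 5) (nat_lit 360) (nat_lit 337) (nat_lit 323)) (XT.nd (nat_lit 78) (nat_lit 988) (nat_lit 0) (XT.lf (nat_lit 0) (nat_lit 2352073384) (nat_lit 988) (nat_lit 4023908053) (nat_lit 76) (nat_lit 611016382) (nat_lit 431) (nat_lit 5) (nat_lit 444) (nat_lit 5) (nat_lit 432) (nat_lit 5) (nat_lit 361) (nat_lit 337) (nat_lit 322)) (XT.lf (nat_lit 0)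 (nat_lit 574392068) (nat_lit 988) (nat_lit 4624314884) (nat_lit 1064) (nat_lit 1844806206) (nat_lit 418) (nat_lit 5) (nat_lit 431) (nat_lit 5) (nat_lit 432) (nat_lit 5) (nat_lit 362) (nat_lit 337) (nat_lit 321))))) (XT.nd (nat_lit 234) (nat_lit 2204) (nat_lit 0) (XT.nd (nat_lit 78) (nat_lit 2204) (nat_lit 0) (XT.lf (nat_lit 0) (nat_lit 963900566) (nat_lit 1064) (nat_lit 1795891819) (nat_lit 76) (nat_lit 4342985882) (nat_lit 417) (nat_lit 5) (nat_lit 431) (nat_lit 5) (nat_lit 418) (nat_lit 5) (nat_lit 363) (nat_lit 337) (nat_lit 320)) (XT.nd (nat_lit 78) (nat_lit 1140) (nat_lit 0) (XT.lf (nat_lit 0) (nat_lit 2981506728) (nat_lit 1064) (nat_lit 783378930) (nat_lit 1140) (nat_lit 3400034834) (nat_lit 403) (nat_lit 5) (nat_lit 417) (nat_lit 5) (nat_lit 418) (nat_lit 5) (nat_lit 364) (nat_lit 337) (nat_lit 319)) (XT.lf (nat_lit 0) (nat_lit 633077079) (nat_lit 1140) (nat_lit 5971472287) (nat_lit 1216) (nat_lit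 625738144) (nat_lit 388) (nat_lit 5) (nat_lit 403) (nat_lit 5) (nat_lit 404) (nat_lit 5) (nat_lit 365) (nat_lit 337) (nat_lit 318)))) (XT.nd (nat_lit 78) (nat_lit 2128) (nat_lit 0) (XT.lf (nat_lit 0) (nat_lit 2157715800) (nat_lit 1216) (nat_lit 1724723580) (nat_lit 76) (nat_lit 3415448202) (nat_lit 387) (nat_lit 5) (nat_lit 403) (nat_lit 5) (nat_lit 388) (nat_lit 5) (nat_lit 366) (nat_lit 337) (nat_lit 317)) (XT.nd (nat_lit 78) (nat_lit 912) (nat_lit 0) (XT.lf (nat_lit 0) (nat_lit 3275379123) (nat_lit 1216) (nat_lit 1689619756) (nat_lit 1292) (nat_lit 2403743850) (nat_lit 371) (nat_lit 5) (nat_lit 387) (nat_lit 5) (nat_lit 388) (nat_lit 5) (nat_lit 367) (nat_lit 337) (nat_lit 316)) (XT.lf (nat_lit 0) (nat_lit 361470307) (nat_lit 912) (nat_lit 6491837100) (nat_lit 76) (nat_lit 589652893) (nat_lit 359) (nat_lit 5) (nat_lit 371) (nat_lit 5) (nat_lit 360) (nat_lit 5) (nat_lit 368) (nat_lit 337) (nat_lit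 315))))))) (XT.nd (nat_lit 936) (nat_lit 3876) (nat_lit 0) (XT.nd (nat_lit 468) (nat_lit 2204) (nat_lit 0) (XT.nd (nat_lit 234) (nat_lit 1216) (nat_lit 0) (XT.nd (nat_lit 78) (nat_lit 1292) (nat_lit 0) (XT.lf (nat_lit 0) (nat_lit 3143549781) (nat_lit 912) (nat_lit 1406856547) (nat_lit 76) (nat_lit 2968817434) (nat_lit 359) (nat_lit 5) (nat_lit 371) (nat_lit 5) (nat_lit 360) (nat_lit 5) (nat_lit 369) (nat_lit 337) (nat_lit 314)) (XT.nd (nat_lit 78) (nat_lit 684) (nat_lit 0) (XT.lf (nat_lit 0) (nat_lit 3829072873) (nat_lit 608) (nat_lit 2142795722) (nat_lit 684) (nat_lit 1627023225) (nat_lit 351) (nat_lit 5) (nat_lit 359) (nat_lit 5) (nat_lit 360) (nat_lit 5) (nat_lit 370) (nat_lit 337) (nat_lit 313)) (XT.lf (nat_lit 0) (nat_lit 1139749309) (nat_lit 684) (nat_lit 6174402971) (nat_lit 76) (nat_lit 367675658) (nat_lit 342) (nat_lit 5) (nat_lit 351) (nat_lit 5) (nat_lit 343) (nat_lit 5) (nat_lit 371) (nat_lit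 337) (nat_lit 312)))) (XT.nd (nat_lit 78) (nat_lit 1216) (nat_lit 0) (XT.lf (nat_lit 0) (nat_lit 3944524906) (nat_lit 684) (nat_lit 861939104) (nat_lit 76) (nat_lit 2960673810) (nat_lit 342) (nat_lit 5) (nat_lit 351) (nat_lit 5) (nat_lit 343) (nat_lit 5) (nat_lit 372) (nat_lit 337) (nat_lit 311)) (XT.nd (nat_lit 78) (nat_lit 684) (nat_lit 0) (XT.lf (nat_lit 0) (nat_lit 4624022296) (nat_lit 532) (nat_lit 2184007255) (nat_lit 608) (nat_lit 1047739875) (nat_lit 335) (nat_lit 5) (nat_lit 342) (nat_lit 5) (nat_lit 343) (nat_lit 5) (nat_lit 373) (nat_lit 337) (nat_lit 310)) (XT.lf (nat_lit 0) (nat_lit 1742058162) (nat_lit 684) (nat_lit 5657057700) (nat_lit 76) (nat_lit 548411869) (nat_lit 326) (nat_lit 5) (nat_lit 335) (nat_lit 5) (nat_lit 327) (nat_lit 5) (nat_lit 374) (nat_lit 337) (nat_lit 309))))) (XT.nd (nat_lit 234) (nat_lit 1064) (nat_lit 0) (XT.nd (nat_lit 78) (nat_lit 1140) (nat_lit 0) (XT.lf (nat_lit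 0) (nat_lit 4581050116) (nat_lit 684) (nat_lit 106727122) (nat_lit 76) (nat_lit 3354353583) (nat_lit 326) (nat_lit 5) (nat_lit 335) (nat_lit 5) (nat_lit 327) (nat_lit 5) (nat_lit 375) (nat_lit 337) (nat_lit 308)) (XT.nd (nat_lit 78) (nat_lit 608) (nat_lit 0) (XT.lf (nat_lit 0) (nat_lit 5644581712) (nat_lit 532) (nat_lit 1848847786) (nat_lit 608) (nat_lit 646495974) (nat_lit 319) (nat_lit 5) (nat_lit 326) (nat_lit 5) (nat_lit 327) (nat_lit 5) (nat_lit 376) (nat_lit 337) (nat_lit 307)) (XT.lf (nat_lit 0) (nat_lit 2186638170) (nat_lit 608) (nat_lit 4955338332) (nat_lit 76) (nat_lit 1098685879) (nat_lit 311) (nat_lit 5) (nat_lit 319) (nat_lit 5) (nat_lit 312) (nat_lit 5) (nat_lit 377) (nat_lit 337) (nat_lit 306)))) (XT.nd (nat_lit 78) (nat_lit 608) (nat_lit 0) (XT.lf (nat_lit 0) (nat_lit 861439512) (nat_lit 456) (nat_lit 4217960241) (nat_lit 532) (nat_lit 3265200794) (nat_lit 305) (nat_lit 5) (nat_lit 311)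 (nat_lit 5) (nat_lit 312) (nat_lit 5) (nat_lit 378) (nat_lit 337) (nat_lit 305)) (XT.nd (nat_lit 78) (nat_lit 608) (nat_lit 0) (XT.lf (nat_lit 0) (nat_lit 6877745285) (nat_lit 456) (nat_lit 1167971793) (nat_lit 532) (nat_lit 406336594) (nat_lit 305) (nat_lit 5) (nat_lit 311) (nat_lit 5) (nat_lit 312) (nat_lit 5) (nat_lit 379) (nat_lit 337) (nat_lit 304)) (XT.lf (nat_lit 0) (nat_lit 2489494401) (nat_lit 608) (nat_lit 4082417289) (nat_lit 76) (nat_lit 1990064748) (nat_lit 297) (nat_lit 5) (nat_lit 305) (nat_lit 5) (nat_lit 298) (nat_lit 5) (nat_lit 380) (nat_lit 337) (nat_lit 303)))))) (XT.nd (nat_lit 468) (nat_lit 1976) (nat_lit 0) (XT.nd (nat_lit 234) (nat_lit 912) (nat_lit 0) (XT.nd (nat_lit 78) (nat_lit 532) (nat_lit 0) (XT.lf (nat_lit 0) (nat_lit 2019748529) (nat_lit 456) (nat_lit 3430241214) (nat_lit 532) (nat_lit 3225507759) (nat_lit 291) (nat_lit 5) (nat_lit 297) (nat_lit 5) (nat_lit 298) (nat_lit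 5) (nat_lit 381) (nat_lit 337) (nat_lit 302)) (XT.nd (nat_lit 78) (nat_lit 532) (nat_lit 0) (XT.lf (nat_lit 0) (nat_lit 8312901059) (nat_lit 456) (nat_lit 167596384) (nat_lit 532) (nat_lit 312490830) (nat_lit 291) (nat_lit 5) (nat_lit 297) (nat_lit 5) (nat_lit 298) (nat_lit 5) (nat_lit 382) (nat_lit 337) (nat_lit 301)) (XT.lf (nat_lit 0) (nat_lit 2664636192) (nat_lit 532) (nat_lit 3049333993) (nat_lit 76) (nat_lit 3198383328) (nat_lit 284) (nat_lit 5) (nat_lit 291) (nat_lit 5) (nat_lit 285) (nat_lit 5) (nat_lit 383) (nat_lit 337) (nat_lit 300)))) (XT.nd (nat_lit 78) (nat_lit 532) (nat_lit 0) (XT.lf (nat_lit 0) (nat_lit 3356220907) (nat_lit 380) (nat_lit 2349384917) (nat_lit 456) (nat_lit 3330176783) (nat_lit 279) (nat_lit 5) (nat_lit 284) (nat_lit 5) (nat_lit 285) (nat_lit 5) (nat_lit 384) (nat_lit 337) (nat_lit 299)) (XT.nd (nat_lit 78) (nat_lit 76) (nat_lit 0) (XT.lf (nat_lit 0) (nat_lit 782316633)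 (nat_lit 456) (nat_lit 8047625487) (nat_lit 532) (nat_lit 333208325) (nat_lit 273) (nat_lit 5) (nat_lit 279) (nat_lit 5) (nat_lit 280) (nat_lit 5) (nat_lit 385) (nat_lit 337) (nat_lit 298)) (XT.lf (nat_lit 0) (nat_lit 2724290183) (nat_lit 532) (nat_lit 1865198516) (nat_lit 76) (nat_lit 4703325871) (nat_lit 272) (nat_lit 5) (nat_lit 279) (nat_lit 5) (nat_lit 273) (nat_lit 5) (nat_lit 386) (nat_lit 337) (nat_lit 297))))) (XT.nd (nat_lit 234) (nat_lit 1140) (nat_lit 0) (XT.nd (nat_lit 78) (nat_lit 456) (nat_lit 0) (XT.lf (nat_lit 0) (nat_lit 4862979142) (nat_lit 380) (nat_lit 995411901) (nat_lit 456) (nat_lit 3568131366) (nat_lit 267) (nat_lit 5) (nat_lit 272) (nat_lit 5) (nat_lit 273) (nat_lit 5) (nat_lit 387) (nat_lit 337) (nat_lit 296)) (XT.nd (nat_lit 78) (nat_lit 76) (nat_lit 0) (XT.lf (nat_lit 0) (nat_lit 2209235851) (nat_lit 380) (nat_lit 6889091963) (nat_lit 456) (nat_lit 465559283) (nat_lit 262)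 (nat_lit 5) (nat_lit 267) (nat_lit 5) (nat_lit 268) (nat_lit 5) (nat_lit 388) (nat_lit 337) (nat_lit 295)) (XT.lf (nat_lit 0) (nat_lit 2679088921) (nat_lit 456) (nat_lit 537370257) (nat_lit 76) (nat_lit 6488058064) (nat_lit 261) (nat_lit 5) (nat_lit 267) (nat_lit 5) (nat_lit 262) (nat_lit 5) (nat_lit 389) (nat_lit 337) (nat_lit 294)))) (XT.nd (nat_lit 78) (nat_lit 760) (nat_lit 0) (XT.lf (nat_lit 0) (nat_lit 5924893611) (nat_lit 456) (nat_lit 3320881291) (nat_lit 76) (nat_lit 602967873) (nat_lit 256) (nat_lit 5) (nat_lit 262) (nat_lit 5) (nat_lit 257) (nat_lit 5) (nat_lit 390) (nat_lit 337) (nat_lit 293)) (XT.nd (nat_lit 78) (nat_lit 380) (nat_lit 0) (XT.lf (nat_lit 0) (nat_lit 3786929118) (nat_lit 380) (nat_lit 5502957210) (nat_lit 456) (nat_lit 706754332) (nat_lit 251) (nat_lit 5) (nat_lit 256) (nat_lit 5) (nat_lit 257) (nat_lit 5) (nat_lit 391) (nat_lit 337) (nat_lit 292)) (XT.lf (nat_lit 0) (nat_lit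 946862397) (nat_lit 304) (nat_lit 1600477143) (nat_lit 380) (nat_lit 7601143519) (nat_lit 246) (nat_lit 5) (nat_lit 250) (nat_lit 5) (nat_lit 251) (nat_lit 5) (nat_lit 392) (nat_lit 337) (nat_lit 291))))))))
noncomputable def xc45 : XT := (XT.nd (nat_lit 1794) (nat_lit 2736) (nat_lit 0) (XT.nd (nat_lit 858) (nat_lit 2356) (nat_lit 0) (XT.nd (nat_lit 390) (nat_lit 1292) (nat_lit 0) (XT.nd (nat_lit 156) (nat_lit 684) (nat_lit 0) (XT.nd (nat_lit 78) (nat_lit 380) (nat_lit 0) (XT.lf (nat_lit 0) (nat_lit 5920395931) (nat_lit 380) (nat_lit 1963325168) (nat_lit 76) (nat_lit 2419883364) (nat_lit 246) (nat_lit 5) (nat_lit 251) (nat_lit 5) (nat_lit 247) (nat_lit 5) (nat_lit 393) (nat_lit 337) (nat_lit 290)) (XT.lf (nat_lit 0) (nat_lit 5511115472) (nat_lit 380) (nat_lit 3902801886) (nat_lit 456) (nat_lit 1048883950) (nat_lit 241) (nat_lit 5) (nat_lit 246) (nat_lit 5) (nat_lit 247) (nat_lit 5) (nat_lit 394) (nat_lit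 337) (nat_lit 289))) (XT.nd (nat_lit 78) (nat_lit 304) (nat_lit 0) (XT.lf (nat_lit 0) (nat_lit 2336786019) (nat_lit 380) (nat_lit 8050492693) (nat_lit 76) (nat_lit 238871485) (nat_lit 236) (nat_lit 5) (nat_lit 241) (nat_lit 5) (nat_lit 237) (nat_lit 5) (nat_lit 395) (nat_lit 337) (nat_lit 288)) (XT.nd (nat_lit 78) (nat_lit 304) (nat_lit 0) (XT.lf (nat_lit 0) (nat_lit 5843315345) (nat_lit 380) (nat_lit 485575389) (nat_lit 76) (nat_lit 4463986146) (nat_lit 236) (nat_lit 5) (nat_lit 241) (nat_lit 5) (nat_lit 237) (nat_lit 5) (nat_lit 396) (nat_lit 337) (nat_lit 287)) (XT.lf (nat_lit 0) (nat_lit 7378939221) (nat_lit 304) (nat_lit 2099684434) (nat_lit 380) (nat_lit 1485274214) (nat_lit 232) (nat_lit 5) (nat_lit 236) (nat_lit 5) (nat_lit 237) (nat_lit 5) (nat_lit 397) (nat_lit 337) (nat_lit 286))))) (XT.nd (nat_lit 234) (nat_lit 608) (nat_lit 0) (XT.nd (nat_lit 78) (nat_lit 304) (nat_lit 0) (XT.lf (nat_lit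 0) (nat_lit 2063996623) (nat_lit 380) (nat_lit 6819046511) (nat_lit 76) (nat_lit 2255754663) (nat_lit 227) (nat_lit 5) (nat_lit 232) (nat_lit 5) (nat_lit 228) (nat_lit 5) (nat_lit 398) (nat_lit 337) (nat_lit 285)) (XT.nd (nat_lit 78) (nat_lit 0) (nat_lit 0) (XT.lf (nat_lit 0) (nat_lit 1131423269) (nat_lit 304) (nat_lit 4580040249) (nat_lit 380) (nat_lit 5606392918) (nat_lit 223) (nat_lit 5) (nat_lit 227) (nat_lit 5) (nat_lit 228) (nat_lit 5) (nat_lit 399) (nat_lit 337) (nat_lit 284)) (XT.lf (nat_lit 0) (nat_lit 9388863350) (nat_lit 304) (nat_lit 102369384) (nat_lit 380) (nat_lit 2010367751) (nat_lit 223) (nat_lit 5) (nat_lit 227) (nat_lit 5) (nat_lit 228) (nat_lit 5) (nat_lit 400) (nat_lit 337) (nat_lit 283)))) (XT.nd (nat_lit 78) (nat_lit 304) (nat_lit 0) (XT.lf (nat_lit 0) (nat_lit 1719239105) (nat_lit 304) (nat_lit 5495306947) (nat_lit 76) (nat_lit 4474059985) (nat_lit 219) (nat_lit 5) (nat_lit 223)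 (nat_lit 5) (nat_lit 220) (nat_lit 5) (nat_lit 401) (nat_lit 337) (nat_lit 282)) (XT.nd (nat_lit 78) (nat_lit 0) (nat_lit 0) (XT.lf (nat_lit 0) (nat_lit 2875676908) (nat_lit 304) (nat_lit 2650174380) (nat_lit 380) (nat_lit 6354607623) (nat_lit 215) (nat_lit 5) (nat_lit 219) (nat_lit 5) (nat_lit 220) (nat_lit 5) (nat_lit 402) (nat_lit 337) (nat_lit 281)) (XT.lf (nat_lit 0) (nat_lit 9478122906) (nat_lit 380) (nat_lit 557163923) (nat_lit 76) (nat_lit 2041836711) (nat_lit 215) (nat_lit 5) (nat_lit 220) (nat_lit 5) (nat_lit 216) (nat_lit 5) (nat_lit 403) (nat_lit 337) (nat_lit 280)))))) (XT.nd (nat_lit 468) (nat_lit 988) (nat_lit 0) (XT.nd (nat_lit 234) (nat_lit 532) (nat_lit 0) (XT.nd (nat_lit 78) (nat_lit 532) (nat_lit 0) (XT.lf (nat_lit 0) (nat_lit 1307263947) (nat_lit 304) (nat_lit 4081678218) (nat_lit 76) (nat_lit 6888497184) (nat_lit 211) (nat_lit 5) (nat_lit 215) (nat_lit 5) (nat_lit 212) (nat_lit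 5) (nat_lit 404) (nat_lit 337) (nat_lit 279)) (XT.nd (nat_lit 78) (nat_lit 228) (nat_lit 0) (XT.lf (nat_lit 0) (nat_lit 4736695975) (nat_lit 304) (nat_lit 550167674) (nat_lit 380) (nat_lit 7195877469) (nat_lit 207) (nat_lit 5) (nat_lit 211) (nat_lit 5) (nat_lit 212) (nat_lit 5) (nat_lit 405) (nat_lit 337) (nat_lit 278)) (XT.lf (nat_lit 0) (nat_lit 1119764665) (nat_lit 228) (nat_lit 8318605317) (nat_lit 304) (nat_lit 3254256399) (nat_lit 204) (nat_lit 5) (nat_lit 207) (nat_lit 5) (nat_lit 208) (nat_lit 5) (nat_lit 406) (nat_lit 337) (nat_lit 277)))) (XT.nd (nat_lit 78) (nat_lit 456) (nat_lit 0) (XT.lf (nat_lit 0) (nat_lit 832006219) (nat_lit 304) (nat_lit 2579638531) (nat_lit 76) (nat_lit 9495667732) (nat_lit 203) (nat_lit 5) (nat_lit 207) (nat_lit 5) (nat_lit 204) (nat_lit 5) (nat_lit 407) (nat_lit 337) (nat_lit 276)) (XT.nd (nat_lit 78) (nat_lit 228) (nat_lit 0) (XT.lf (nat_lit 0) (nat_lit 5015392559)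 (nat_lit 304) (nat_lit 6428594418) (nat_lit 76) (nat_lit 1682287281) (nat_lit 200) (nat_lit 5) (nat_lit 204) (nat_lit 5) (nat_lit 201) (nat_lit 5) (nat_lit 408) (nat_lit 337) (nat_lit 275)) (XT.lf (nat_lit 0) (nat_lit 2910102439) (nat_lit 228) (nat_lit 6461443551) (nat_lit 304) (nat_lit 3978840932) (nat_lit 197) (nat_lit 5) (nat_lit 200) (nat_lit 5) (nat_lit 201) (nat_lit 5) (nat_lit 409) (nat_lit 337) (nat_lit 274))))) (XT.nd (nat_lit 234) (nat_lit 456) (nat_lit 0) (XT.nd (nat_lit 78) (nat_lit 456) (nat_lit 0) (XT.lf (nat_lit 0) (nat_lit 296661624) (nat_lit 304) (nat_lit 989808444) (nat_lit 76) (nat_lit 12293925703) (nat_lit 196) (nat_lit 5) (nat_lit 200) (nat_lit 5) (nat_lit 197) (nat_lit 5) (nat_lit 410) (nat_lit 337) (nat_lit 273)) (XT.nd (nat_lit 78) (nat_lit 228) (nat_lit 0) (XT.lf (nat_lit 0) (nat_lit 4705531335) (nat_lit 304) (nat_lit 5043880888) (nat_lit 76) (nat_lit 4064158641) (nat_lit 193)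 (nat_lit 5) (nat_lit 197) (nat_lit 5) (nat_lit 194) (nat_lit 5) (nat_lit 411) (nat_lit 337) (nat_lit 272)) (XT.lf (nat_lit 0) (nat_lit 4803464535) (nat_lit 228) (nat_lit 4473009565) (nat_lit 304) (nat_lit 4776372902) (nat_lit 190) (nat_lit 5) (nat_lit 193) (nat_lit 5) (nat_lit 194) (nat_lit 5) (nat_lit 412) (nat_lit 337) (nat_lit 271)))) (XT.nd (nat_lit 78) (nat_lit 228) (nat_lit 0) (XT.lf (nat_lit 0) (nat_lit 689042121) (nat_lit 228) (nat_lit 13323862453) (nat_lit 304) (nat_lit 285546068) (nat_lit 187) (nat_lit 5) (nat_lit 190) (nat_lit 5) (nat_lit 191) (nat_lit 5) (nat_lit 413) (nat_lit 337) (nat_lit 270)) (XT.nd (nat_lit 78) (nat_lit 152) (nat_lit 0) (XT.lf (nat_lit 0) (nat_lit 4355103743) (nat_lit 304) (nat_lit 3586955581) (nat_lit 76) (nat_lit 6605117884) (nat_lit 186) (nat_lit 5) (nat_lit 190) (nat_lit 5) (nat_lit 187) (nat_lit 5) (nat_lit 414) (nat_lit 337) (nat_lit 269)) (XT.lf (nat_lit 0) (nat_lit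 6801376550) (nat_lit 152) (nat_lit 2355541835) (nat_lit 228) (nat_lit 5645531834) (nat_lit 184) (nat_lit 5) (nat_lit 186) (nat_lit 5) (nat_lit 187) (nat_lit 5) (nat_lit 415) (nat_lit 337) (nat_lit 268))))))) (XT.nd (nat_lit 936) (nat_lit 1064) (nat_lit 0) (XT.nd (nat_lit 468) (nat_lit 760) (nat_lit 0) (XT.nd (nat_lit 234) (nat_lit 456) (nat_lit 0) (XT.nd (nat_lit 78) (nat_lit 228) (nat_lit 0) (XT.lf (nat_lit 0) (nat_lit 2460670970) (nat_lit 228) (nat_lit 11697548681) (nat_lit 304) (nat_lit 905498804) (nat_lit 181) (nat_lit 5) (nat_lit 184) (nat_lit 5) (nat_lit 185) (nat_lit 5) (nat_lit 416) (nat_lit 337) (nat_lit 267)) (XT.nd (nat_lit 78) (nat_lit 152) (nat_lit 0) (XT.lf (nat_lit 0) (nat_lit 3966689031) (nat_lit 304) (nat_lit 2057485691) (nat_lit 76) (nat_lit 9305476583) (nat_lit 180) (nat_lit 5) (nat_lit 184) (nat_lit 5) (nat_lit 181) (nat_lit 5) (nat_lit 417) (nat_lit 337) (nat_lit 266)) (XT.lf (nat_lit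 0) (nat_lit 8906144338) (nat_lit 152) (nat_lit 110035025) (nat_lit 228) (nat_lit 6585633724) (nat_lit 178) (nat_lit 5) (nat_lit 180) (nat_lit 5) (nat_lit 181) (nat_lit 5) (nat_lit 418) (nat_lit 337) (nat_lit 265)))) (XT.nd (nat_lit 78) (nat_lit 228) (nat_lit 0) (XT.lf (nat_lit 0) (nat_lit 4322666838) (nat_lit 228) (nat_lit 9978444447) (nat_lit 304) (nat_lit 1578509732) (nat_lit 175) (nat_lit 5) (nat_lit 178) (nat_lit 5) (nat_lit 179) (nat_lit 5) (nat_lit 419) (nat_lit 337) (nat_lit 264)) (XT.nd (nat_lit 78) (nat_lit 152) (nat_lit 0) (XT.lf (nat_lit 0) (nat_lit 3542383802) (nat_lit 304) (nat_lit 454507110) (nat_lit 76) (nat_lit 12166838466) (nat_lit 174) (nat_lit 5) (nat_lit 178) (nat_lit 5) (nat_lit 175) (nat_lit 5) (nat_lit 420) (nat_lit 337) (nat_lit 263)) (XT.lf (nat_lit 0) (nat_lit 8878905216) (nat_lit 228) (nat_lit 5354672637) (nat_lit 76) (nat_lit 2219502446) (nat_lit 172) (nat_lit 5) (nat_lit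 175) (nat_lit 5) (nat_lit 173) (nat_lit 5) (nat_lit 421) (nat_lit 337) (nat_lit 262))))) (XT.nd (nat_lit 234) (nat_lit 380) (nat_lit 0) (XT.nd (nat_lit 78) (nat_lit 228) (nat_lit 0) (XT.lf (nat_lit 0) (nat_lit 6277379934) (nat_lit 152) (nat_lit 8167937177) (nat_lit 228) (nat_lit 2303700791) (nat_lit 170) (nat_lit 5) (nat_lit 172) (nat_lit 5) (nat_lit 173) (nat_lit 5) (nat_lit 422) (nat_lit 337) (nat_lit 261)) (XT.nd (nat_lit 78) (nat_lit 0) (nat_lit 0) (XT.lf (nat_lit 0) (nat_lit 1247892165) (nat_lit 152) (nat_lit 1847949520) (nat_lit 228) (nat_lit 13956132845) (nat_lit 167) (nat_lit 5) (nat_lit 169) (nat_lit 5) (nat_lit 170) (nat_lit 5) (nat_lit 423) (nat_lit 337) (nat_lit 260)) (XT.lf (nat_lit 0) (nat_lit 8728159985) (nat_lit 228) (nat_lit 3957842546) (nat_lit 76) (nat_lit 4673820310) (nat_lit 167) (nat_lit 5) (nat_lit 170) (nat_lit 5) (nat_lit 168) (nat_lit 5) (nat_lit 424) (nat_lit 337) (nat_lit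 259)))) (XT.nd (nat_lit 78) (nat_lit 228) (nat_lit 0) (XT.lf (nat_lit 0) (nat_lit 8327803969) (nat_lit 152) (nat_lit 6266488617) (nat_lit 228) (nat_lit 3080668672) (nat_lit 165) (nat_lit 5) (nat_lit 167) (nat_lit 5) (nat_lit 168) (nat_lit 5) (nat_lit 425) (nat_lit 337) (nat_lit 258)) (XT.nd (nat_lit 78) (nat_lit 0) (nat_lit 0) (XT.lf (nat_lit 0) (nat_lit 2625542237) (nat_lit 228) (nat_lit 14963639985) (nat_lit 76) (nat_lit 408406950) (nat_lit 162) (nat_lit 5) (nat_lit 165) (nat_lit 5) (nat_lit 163) (nat_lit 5) (nat_lit 426) (nat_lit 337) (nat_lit 257)) (XT.lf (nat_lit 0) (nat_lit 8565103394) (nat_lit 228) (nat_lit 2502857025) (nat_lit 76) (nat_lit 7257297985) (nat_lit 162) (nat_lit 5) (nat_lit 165) (nat_lit 5) (nat_lit 163) (nat_lit 5) (nat_lit 427) (nat_lit 337) (nat_lit 256)))))) (XT.nd (nat_lit 468) (nat_lit 152) (nat_lit 0) (XT.nd (nat_lit 234) (nat_lit 532) (nat_lit 0) (XT.nd (nat_lit 78) (nat_lit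 228) (nat_lit 0) (XT.lf (nat_lit 0) (nat_lit 10477555220) (nat_lit 152) (nat_lit 4273697663) (nat_lit 228) (nat_lit 3909452785) (nat_lit 160) (nat_lit 5) (nat_lit 162) (nat_lit 5) (nat_lit 163) (nat_lit 5) (nat_lit 428) (nat_lit 337) (nat_lit 255)) (XT.nd (nat_lit 78) (nat_lit 0) (nat_lit 0) (XT.lf (nat_lit 0) (nat_lit 2142791321) (nat_lit 228) (nat_lit 14121526998) (nat_lit 76) (nat_lit 2739267800) (nat_lit 157) (nat_lit 5) (nat_lit 160) (nat_lit 5) (nat_lit 158) (nat_lit 5) (nat_lit 429) (nat_lit 337) (nat_lit 254)) (XT.lf (nat_lit 0) (nat_lit 8391671881) (nat_lit 228) (nat_lit 987985585) (nat_lit 76) (nat_lit 9973124939) (nat_lit 157) (nat_lit 5) (nat_lit 160) (nat_lit 5) (nat_lit 158) (nat_lit 5) (nat_lit 430) (nat_lit 337) (nat_lit 253)))) (XT.nd (nat_lit 78) (nat_lit 380) (nat_lit 0) (XT.lf (nat_lit 0) (nat_lit 12730857136) (nat_lit 152) (nat_lit 2188353548) (nat_lit 228) (nat_lit 4790508139) (nat_lit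 155) (nat_lit 5) (nat_lit 157) (nat_lit 5) (nat_lit 158) (nat_lit 5) (nat_lit 431) (nat_lit 337) (nat_lit 252)) (XT.nd (nat_lit 78) (nat_lit 152) (nat_lit 0) (XT.lf (nat_lit 0) (nat_lit 1630437365) (nat_lit 228) (nat_lit 13260277829) (nat_lit 76) (nat_lit 5183323726) (nat_lit 152) (nat_lit 5) (nat_lit 155) (nat_lit 5) (nat_lit 153) (nat_lit 5) (nat_lit 432) (nat_lit 337) (nat_lit 251)) (XT.lf (nat_lit 0) (nat_lit 600671037) (nat_lit 152) (nat_lit 7614655178) (nat_lit 228) (nat_lit 12230511500) (nat_lit 150) (nat_lit 5) (nat_lit 152) (nat_lit 5) (nat_lit 153) (nat_lit 5) (nat_lit 433) (nat_lit 337) (nat_lit 250))))) (XT.nd (nat_lit 46176) (nat_lit 0) (nat_lit 27436) (XT.nd (nat_lit 78) (nat_lit 152) (nat_lit 0) (XT.lf (nat_lit 0) (nat_lit 15092530089) (nat_lit 152) (nat_lit 8480275) (nat_lit 228) (nat_lit 5724682649) (nat_lit 150) (nat_lit 5) (nat_lit 152) (nat_lit 5) (nat_lit 153) (nat_lit 5) (nat_lit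 434) (nat_lit 337) (nat_lit 249)) (XT.nd (nat_lit 46020) (nat_lit 0) (nat_lit 27740) (XT.lf (nat_lit 0) (nat_lit 1088793449) (nat_lit 152) (nat_lit 12379900696) (nat_lit 76) (nat_lit 7744022559) (nat_lit 148) (nat_lit 5) (nat_lit 150) (nat_lit 5) (nat_lit 149) (nat_lit 5) (nat_lit 435) (nat_lit 337) (nat_lit 248)) (XT.lf (nat_lit 0) (nat_lit 143603562) (nat_lit 228) (nat_lit 2942383602) (nat_lit 0) (nat_lit 143603562) (nat_lit 513) (nat_lit 5) (nat_lit 516) (nat_lit 4) (nat_lit 513) (nat_lit 4) (nat_lit 344) (nat_lit 338) (nat_lit 338)))) (XT.nd (nat_lit 78) (nat_lit 304) (nat_lit 0) (XT.lf (nat_lit 0) (nat_lit 3491418422) (nat_lit 228) (nat_lit 2347832983) (nat_lit 0) (nat_lit 629401312) (nat_lit 513) (nat_lit 5) (nat_lit 516) (nat_lit 4) (nat_lit 513) (nat_lit 4) (nat_lit 345) (nat_lit 338) (nat_lit 337)) (XT.nd (nat_lit 78) (nat_lit 0) (nat_lit 0) (XT.lf (nat_lit 0) (nat_lit 199465541) (nat_lit 304)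 (nat_lit 5235759449) (nat_lit 76) (nat_lit 1046325800) (nat_lit 509) (nat_lit 5) (nat_lit 513) (nat_lit 5) (nat_lit 510) (nat_lit 4) (nat_lit 346) (nat_lit 338) (nat_lit 336)) (XT.lf (nat_lit 0) (nat_lit 3318490834) (nat_lit 304) (nat_lit 1601863723) (nat_lit 76) (nat_lit 1576391003) (nat_lit 509) (nat_lit 5) (nat_lit 513) (nat_lit 5) (nat_lit 510) (nat_lit 4) (nat_lit 347) (nat_lit 338) (nat_lit 335))))))))
noncomputable def xc46 : XT := (XT.nd (nat_lit 1794) (nat_lit 8360) (nat_lit 0) (XT.nd (nat_lit 858) (nat_lit 7904) (nat_lit 0) (XT.nd (nat_lit 390) (nat_lit 2812) (nat_lit 0) (XT.nd (nat_lit 156) (nat_lit 912) (nat_lit 0) (XT.nd (nat_lit 78) (nat_lit 76) (nat_lit 0) (XT.lf (nat_lit 0) (nat_lit 2110999811) (nat_lit 304) (nat_lit 4326710049) (nat_lit 380) (nat_lit 77487626) (nat_lit 505) (nat_lit 5) (nat_lit 509) (nat_lit 5) (nat_lit 510) (nat_lit 4) (nat_lit 348) (nat_lit 338) (nat_lit 334)) (XT.lf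 (nat_lit 0) (nat_lit 2959692064) (nat_lit 380) (nat_lit 668523315) (nat_lit 76) (nat_lit 2907962918) (nat_lit 504) (nat_lit 5) (nat_lit 509) (nat_lit 5) (nat_lit 505) (nat_lit 5) (nat_lit 349) (nat_lit 338) (nat_lit 333))) (XT.nd (nat_lit 78) (nat_lit 532) (nat_lit 0) (XT.lf (nat_lit 0) (nat_lit 3169649480) (nat_lit 380) (nat_lit 2838378971) (nat_lit 456) (nat_lit 552089105) (nat_lit 499) (nat_lit 5) (nat_lit 504) (nat_lit 5) (nat_lit 505) (nat_lit 5) (nat_lit 350) (nat_lit 338) (nat_lit 332)) (XT.nd (nat_lit 78) (nat_lit 0) (nat_lit 0) (XT.lf (nat_lit 0) (nat_lit 464354826) (nat_lit 456) (nat_lit 1952527622) (nat_lit 532) (nat_lit 4170037719) (nat_lit 492) (nat_lit 5) (nat_lit 498) (nat_lit 5) (nat_lit 499) (nat_lit 5) (nat_lit 351) (nat_lit 338) (nat_lit 331)) (XT.lf (nat_lit 0) (nat_lit 4427354421) (nat_lit 456) (nat_lit 965673738) (nat_lit 532) (nat_lit 1223458668) (nat_lit 492) (nat_lit 5) (nat_lit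 498) (nat_lit 5) (nat_lit 499) (nat_lit 5) (nat_lit 352) (nat_lit 338) (nat_lit 330))))) (XT.nd (nat_lit 234) (nat_lit 1520) (nat_lit 0) (XT.nd (nat_lit 78) (nat_lit 684) (nat_lit 0) (XT.lf (nat_lit 0) (nat_lit 1691758794) (nat_lit 608) (nat_lit 4841297306) (nat_lit 76) (nat_lit 115894275) (nat_lit 484) (nat_lit 5) (nat_lit 492) (nat_lit 5) (nat_lit 485) (nat_lit 5) (nat_lit 353) (nat_lit 338) (nat_lit 329)) (XT.nd (nat_lit 78) (nat_lit 684) (nat_lit 0) (XT.lf (nat_lit 0) (nat_lit 4601401663) (nat_lit 608) (nat_lit 808371010) (nat_lit 76) (nat_lit 1274304978) (nat_lit 484) (nat_lit 5) (nat_lit 492) (nat_lit 5) (nat_lit 485) (nat_lit 5) (nat_lit 354) (nat_lit 338) (nat_lit 328)) (XT.lf (nat_lit 0) (nat_lit 794984790) (nat_lit 684) (nat_lit 3391130943) (nat_lit 76) (nat_lit 2535868470) (nat_lit 475) (nat_lit 5) (nat_lit 484) (nat_lit 5) (nat_lit 476) (nat_lit 5) (nat_lit 355) (nat_lit 338) (nat_lit 327))))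 (XT.nd (nat_lit 78) (nat_lit 836) (nat_lit 0) (XT.lf (nat_lit 0) (nat_lit 771366777) (nat_lit 684) (nat_lit 2865213288) (nat_lit 760) (nat_lit 3126245338) (nat_lit 466) (nat_lit 5) (nat_lit 475) (nat_lit 5) (nat_lit 476) (nat_lit 5) (nat_lit 356) (nat_lit 338) (nat_lit 326)) (XT.nd (nat_lit 78) (nat_lit 836) (nat_lit 0) (XT.lf (nat_lit 0) (nat_lit 5055944232) (nat_lit 684) (nat_lit 1447635190) (nat_lit 760) (nat_lit 303107731) (nat_lit 466) (nat_lit 5) (nat_lit 475) (nat_lit 5) (nat_lit 476) (nat_lit 5) (nat_lit 357) (nat_lit 338) (nat_lit 325)) (XT.lf (nat_lit 0) (nat_lit 2487158599) (nat_lit 836) (nat_lit 4283675252) (nat_lit 76) (nat_lit 82281893) (nat_lit 455) (nat_lit 5) (nat_lit 466) (nat_lit 5) (nat_lit 456) (nat_lit 5) (nat_lit 358) (nat_lit 338) (nat_lit 324)))))) (XT.nd (nat_lit 468) (nat_lit 3952) (nat_lit 0) (XT.nd (nat_lit 234) (nat_lit 2128) (nat_lit 0) (XT.nd (nat_lit 78) (nat_lit 988)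 (nat_lit 0) (XT.lf (nat_lit 0) (nat_lit 64232375) (nat_lit 836) (nat_lit 5233544465) (nat_lit 912) (nat_lit 1604788239) (nat_lit 444) (nat_lit 5) (nat_lit 455) (nat_lit 5) (nat_lit 456) (nat_lit 5) (nat_lit 359) (nat_lit 338) (nat_lit 323)) (XT.nd (nat_lit 78) (nat_lit 912) (nat_lit 0) (XT.lf (nat_lit 0) (nat_lit 1169694771) (nat_lit 912) (nat_lit 2409419288) (nat_lit 76) (nat_lit 3375386655) (nat_lit 443) (nat_lit 5) (nat_lit 455) (nat_lit 5) (nat_lit 444) (nat_lit 5) (nat_lit 360) (nat_lit 338) (nat_lit 322)) (XT.lf (nat_lit 0) (nat_lit 2104463358) (nat_lit 912) (nat_lit 1824492188) (nat_lit 988) (nat_lit 3080548262) (nat_lit 431) (nat_lit 5) (nat_lit 443) (nat_lit 5) (nat_lit 444) (nat_lit 5) (nat_lit 361) (nat_lit 338) (nat_lit 321)))) (XT.nd (nat_lit 78) (nat_lit 2128) (nat_lit 0) (XT.lf (nat_lit 0) (nat_lit 6710907982) (nat_lit 988) (nat_lit 337363595) (nat_lit 76) (nat_lit 19688004) (nat_lit 431)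 (nat_lit 5) (nat_lit 444) (nat_lit 5) (nat_lit 432) (nat_lit 5) (nat_lit 362) (nat_lit 338) (nat_lit 320)) (XT.nd (nat_lit 78) (nat_lit 1064) (nat_lit 0) (XT.lf (nat_lit 0) (nat_lit 2378118870) (nat_lit 1064) (nat_lit 2790585704) (nat_lit 76) (nat_lit 1959426226) (nat_lit 417) (nat_lit 5) (nat_lit 431) (nat_lit 5) (nat_lit 418) (nat_lit 5) (nat_lit 363) (nat_lit 338) (nat_lit 319)) (XT.lf (nat_lit 0) (nat_lit 1929973332) (nat_lit 1064) (nat_lit 3199057000) (nat_lit 1140) (nat_lit 2062744901) (nat_lit 403) (nat_lit 5) (nat_lit 417) (nat_lit 5) (nat_lit 418) (nat_lit 5) (nat_lit 364) (nat_lit 338) (nat_lit 318))))) (XT.nd (nat_lit 234) (nat_lit 1520) (nat_lit 0) (XT.nd (nat_lit 78) (nat_lit 2356) (nat_lit 0) (XT.lf (nat_lit 0) (nat_lit 639582902) (nat_lit 1140) (nat_lit 488792073) (nat_lit 76) (nat_lit 6130304599) (nat_lit 402) (nat_lit 5) (nat_lit 417) (nat_lit 5) (nat_lit 403) (nat_lit 5) (nat_lit 365)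 (nat_lit 338) (nat_lit 317)) (XT.nd (nat_lit 78) (nat_lit 1216) (nat_lit 0) (XT.lf (nat_lit 0) (nat_lit 3356429588) (nat_lit 1216) (nat_lit 2917552637) (nat_lit 76) (nat_lit 1053748878) (nat_lit 387) (nat_lit 5) (nat_lit 403) (nat_lit 5) (nat_lit 388) (nat_lit 5) (nat_lit 366) (nat_lit 338) (nat_lit 316)) (XT.lf (nat_lit 0) (nat_lit 2021603557) (nat_lit 1216) (nat_lit 4092473851) (nat_lit 1292) (nat_lit 1285997899) (nat_lit 371) (nat_lit 5) (nat_lit 387) (nat_lit 5) (nat_lit 388) (nat_lit 5) (nat_lit 367) (nat_lit 338) (nat_lit 315)))) (XT.nd (nat_lit 78) (nat_lit 1444) (nat_lit 0) (XT.lf (nat_lit 0) (nat_lit 1405223589) (nat_lit 1292) (nat_lit 394314632) (nat_lit 76) (nat_lit 5675997766) (nat_lit 370) (nat_lit 5) (nat_lit 387) (nat_lit 5) (nat_lit 371) (nat_lit 5) (nat_lit 368) (nat_lit 338) (nat_lit 314)) (XT.nd (nat_lit 78) (nat_lit 608) (nat_lit 0) (XT.lf (nat_lit 0) (nat_lit 4129632501) (nat_lit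 912) (nat_lit 2813092977) (nat_lit 76) (nat_lit 610804088) (nat_lit 359) (nat_lit 5) (nat_lit 371) (nat_lit 5) (nat_lit 360) (nat_lit 5) (nat_lit 369) (nat_lit 338) (nat_lit 313)) (XT.lf (nat_lit 0) (nat_lit 2357622329) (nat_lit 608) (nat_lit 4550778489) (nat_lit 684) (nat_lit 726283321) (nat_lit 351) (nat_lit 5) (nat_lit 359) (nat_lit 5) (nat_lit 360) (nat_lit 5) (nat_lit 370) (nat_lit 338) (nat_lit 312))))))) (XT.nd (nat_lit 936) (nat_lit 3800) (nat_lit 0) (XT.nd (nat_lit 468) (nat_lit 2128) (nat_lit 0) (XT.nd (nat_lit 234) (nat_lit 1216) (nat_lit 0) (XT.nd (nat_lit 78) (nat_lit 1140) (nat_lit 0) (XT.lf (nat_lit 0) (nat_lit 1969715905) (nat_lit 684) (nat_lit 71092141) (nat_lit 76) (nat_lit 5678148355) (nat_lit 350) (nat_lit 5) (nat_lit 359) (nat_lit 5) (nat_lit 351) (nat_lit 5) (nat_lit 371) (nat_lit 338) (nat_lit 311)) (XT.nd (nat_lit 78) (nat_lit 532) (nat_lit 0) (XT.lf (nat_lit 0) (nat_lit 4719754780)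 (nat_lit 684) (nat_lit 2496887546) (nat_lit 76) (nat_lit 589266060) (nat_lit 342) (nat_lit 5) (nat_lit 351) (nat_lit 5) (nat_lit 343) (nat_lit 5) (nat_lit 372) (nat_lit 338) (nat_lit 310)) (XT.lf (nat_lit 0) (nat_lit 2919411256) (nat_lit 532) (nat_lit 4614049449) (nat_lit 608) (nat_lit 362573249) (nat_lit 335) (nat_lit 5) (nat_lit 342) (nat_lit 5) (nat_lit 343) (nat_lit 5) (nat_lit 373) (nat_lit 338) (nat_lit 309)))) (XT.nd (nat_lit 78) (nat_lit 532) (nat_lit 0) (XT.lf (nat_lit 0) (nat_lit 472256538) (nat_lit 608) (nat_lit 1885579737) (nat_lit 684) (nat_lit 5631438949) (nat_lit 326) (nat_lit 5) (nat_lit 334) (nat_lit 5) (nat_lit 335) (nat_lit 5) (nat_lit 374) (nat_lit 338) (nat_lit 308)) (XT.nd (nat_lit 78) (nat_lit 532) (nat_lit 0) (XT.lf (nat_lit 0) (nat_lit 5146170124) (nat_lit 684) (nat_lit 1985842457) (nat_lit 76) (nat_lit 953385475) (nat_lit 326) (nat_lit 5) (nat_lit 335) (nat_lit 5) (nat_lit 327)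 (nat_lit 5) (nat_lit 375) (nat_lit 338) (nat_lit 307)) (XT.lf (nat_lit 0) (nat_lit 3691154089) (nat_lit 532) (nat_lit 4317032673) (nat_lit 608) (nat_lit 176516829) (nat_lit 319) (nat_lit 5) (nat_lit 326) (nat_lit 5) (nat_lit 327) (nat_lit 5) (nat_lit 376) (nat_lit 338) (nat_lit 306))))) (XT.nd (nat_lit 234) (nat_lit 1064) (nat_lit 0) (XT.nd (nat_lit 78) (nat_lit 456) (nat_lit 0) (XT.lf (nat_lit 0) (nat_lit 1216649056) (nat_lit 532) (nat_lit 1368717044) (nat_lit 608) (nat_lit 5701801274) (nat_lit 311) (nat_lit 5) (nat_lit 318) (nat_lit 5) (nat_lit 319) (nat_lit 5) (nat_lit 377) (nat_lit 338) (nat_lit 305)) (XT.nd (nat_lit 78) (nat_lit 456) (nat_lit 0) (XT.lf (nat_lit 0) (nat_lit 5425886896) (nat_lit 608) (nat_lit 1294369237) (nat_lit 76) (nat_lit 1672416631) (nat_lit 311) (nat_lit 5) (nat_lit 319) (nat_lit 5) (nat_lit 312) (nat_lit 5) (nat_lit 378) (nat_lit 338) (nat_lit 304)) (XT.lf (nat_lit 0) (nat_lit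 4659562636) (nat_lit 456) (nat_lit 3689693759) (nat_lit 532) (nat_lit 152157930) (nat_lit 305) (nat_lit 5) (nat_lit 311) (nat_lit 5) (nat_lit 312) (nat_lit 5) (nat_lit 379) (nat_lit 338) (nat_lit 303)))) (XT.nd (nat_lit 78) (nat_lit 456) (nat_lit 0) (XT.lf (nat_lit 0) (nat_lit 2147634444) (nat_lit 532) (nat_lit 519291691) (nat_lit 608) (nat_lit 5946491265) (nat_lit 297) (nat_lit 5) (nat_lit 304) (nat_lit 5) (nat_lit 305) (nat_lit 5) (nat_lit 380) (nat_lit 338) (nat_lit 302)) (XT.nd (nat_lit 78) (nat_lit 456) (nat_lit 0) (XT.lf (nat_lit 0) (nat_lit 5573803525) (nat_lit 608) (nat_lit 434631745) (nat_lit 76) (nat_lit 2720111732) (nat_lit 297) (nat_lit 5) (nat_lit 305) (nat_lit 5) (nat_lit 298) (nat_lit 5) (nat_lit 381) (nat_lit 338) (nat_lit 301)) (XT.lf (nat_lit 0) (nat_lit 5813635734) (nat_lit 456) (nat_lit 2757705747) (nat_lit 532) (nat_lit 275685385) (nat_lit 291) (nat_lit 5) (nat_lit 297) (nat_lit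 5) (nat_lit 298) (nat_lit 5) (nat_lit 382) (nat_lit 338) (nat_lit 300)))))) (XT.nd (nat_lit 468) (nat_lit 1976) (nat_lit 0) (XT.nd (nat_lit 234) (nat_lit 912) (nat_lit 0) (XT.nd (nat_lit 78) (nat_lit 380) (nat_lit 0) (XT.lf (nat_lit 0) (nat_lit 2621970205) (nat_lit 532) (nat_lit 5720681129) (nat_lit 76) (nat_lit 626092756) (nat_lit 284) (nat_lit 5) (nat_lit 291) (nat_lit 5) (nat_lit 285) (nat_lit 5) (nat_lit 383) (nat_lit 338) (nat_lit 299)) (XT.nd (nat_lit 78) (nat_lit 0) (nat_lit 0) (XT.lf (nat_lit 0) (nat_lit 594844061) (nat_lit 380) (nat_lit 5013808749) (nat_lit 456) (nat_lit 3485148983) (nat_lit 279) (nat_lit 5) (nat_lit 284) (nat_lit 5) (nat_lit 285) (nat_lit 5) (nat_lit 384) (nat_lit 338) (nat_lit 298)) (XT.lf (nat_lit 0) (nat_lit 7144447761) (nat_lit 380) (nat_lit 1542879468) (nat_lit 456) (nat_lit 535212259) (nat_lit 279) (nat_lit 5) (nat_lit 284) (nat_lit 5) (nat_lit 285) (nat_lit 5) (nat_lit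 385) (nat_lit 338) (nat_lit 297)))) (XT.nd (nat_lit 78) (nat_lit 380) (nat_lit 0) (XT.lf (nat_lit 0) (nat_lit 2463643788) (nat_lit 532) (nat_lit 4846700888) (nat_lit 76) (nat_lit 2043794720) (nat_lit 272) (nat_lit 5) (nat_lit 279) (nat_lit 5) (nat_lit 273) (nat_lit 5) (nat_lit 386) (nat_lit 338) (nat_lit 296)) (XT.nd (nat_lit 78) (nat_lit 0) (nat_lit 0) (XT.lf (nat_lit 0) (nat_lit 1785788665) (nat_lit 380) (nat_lit 3755989721) (nat_lit 456) (nat_lit 3947747837) (nat_lit 267) (nat_lit 5) (nat_lit 272) (nat_lit 5) (nat_lit 273) (nat_lit 5) (nat_lit 387) (nat_lit 338) (nat_lit 295)) (XT.lf (nat_lit 0) (nat_lit 8644963544) (nat_lit 380) (nat_lit 63542673) (nat_lit 456) (nat_lit 920580962) (nat_lit 267) (nat_lit 5) (nat_lit 272) (nat_lit 5) (nat_lit 273) (nat_lit 5) (nat_lit 388) (nat_lit 338) (nat_lit 294))))) (XT.nd (nat_lit 234) (nat_lit 760) (nat_lit 0) (XT.nd (nat_lit 78) (nat_lit 760) (nat_lit 0) (XT.lf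 (nat_lit 0) (nat_lit 2196707283) (nat_lit 456) (nat_lit 3846867978) (nat_lit 76) (nat_lit 3727360452) (nat_lit 261) (nat_lit 5) (nat_lit 267) (nat_lit 5) (nat_lit 262) (nat_lit 5) (nat_lit 389) (nat_lit 338) (nat_lit 293)) (XT.nd (nat_lit 78) (nat_lit 380) (nat_lit 0) (XT.lf (nat_lit 0) (nat_lit 3122798406) (nat_lit 380) (nat_lit 2255881494) (nat_lit 456) (nat_lit 4538396310) (nat_lit 256) (nat_lit 5) (nat_lit 261) (nat_lit 5) (nat_lit 262) (nat_lit 5) (nat_lit 390) (nat_lit 338) (nat_lit 292)) (XT.lf (nat_lit 0) (nat_lit 230425329) (nat_lit 380) (nat_lit 8432546235) (nat_lit 456) (nat_lit 1404423559) (nat_lit 251) (nat_lit 5) (nat_lit 256) (nat_lit 5) (nat_lit 257) (nat_lit 5) (nat_lit 391) (nat_lit 338) (nat_lit 291)))) (XT.nd (nat_lit 78) (nat_lit 684) (nat_lit 0) (XT.lf (nat_lit 0) (nat_lit 1829497976) (nat_lit 456) (nat_lit 2727702408) (nat_lit 76) (nat_lit 5663251926) (nat_lit 250) (nat_lit 5)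 (nat_lit 256) (nat_lit 5) (nat_lit 251) (nat_lit 5) (nat_lit 392) (nat_lit 338) (nat_lit 290)) (XT.nd (nat_lit 78) (nat_lit 380) (nat_lit 0) (XT.lf (nat_lit 0) (nat_lit 4600676055) (nat_lit 304) (nat_lit 527107946) (nat_lit 380) (nat_lit 5250032822) (nat_lit 246) (nat_lit 5) (nat_lit 250) (nat_lit 5) (nat_lit 251) (nat_lit 5) (nat_lit 393) (nat_lit 338) (nat_lit 289)) (XT.lf (nat_lit 0) (nat_lit 1591103914) (nat_lit 380) (nat_lit 6963755547) (nat_lit 456) (nat_lit 1984147586) (nat_lit 241) (nat_lit 5) (nat_lit 246) (nat_lit 5) (nat_lit 247) (nat_lit 5) (nat_lit 394) (nat_lit 338) (nat_lit 288))))))))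
noncomputable def xc47 : XT := (XT.nd (nat_lit 1872) (nat_lit 2128) (nat_lit 0) (XT.nd (nat_lit 936) (nat_lit 2204) (nat_lit 0) (XT.nd (nat_lit 468) (nat_lit 1216) (nat_lit 0) (XT.nd (nat_lit 234) (nat_lit 684) (nat_lit 0) (XT.nd (nat_lit 78) (nat_lit 608) (nat_lit 0) (XT.lf (nat_lit 0) (nat_lit 1369079551) (nat_lit 456) (nat_lit 1494362254) (nat_lit 76) (nat_lit 7840704637) (nat_lit 240) (nat_lit 5) (nat_lit 246) (nat_lit 5) (nat_lit 241) (nat_lit 5) (nat_lit 395) (nat_lit 338) (nat_lit 287)) (XT.nd (nat_lit 78) (nat_lit 304) (nat_lit 0) (XT.lf (nat_lit 0) (nat_lit 4809964031) (nat_lit 380) (nat_lit 4671244246) (nat_lit 76) (nat_lit 1391634193) (nat_lit 236) (nat_lit 5) (nat_lit 241) (nat_lit 5) (nat_lit 237) (nat_lit 5) (nat_lit 396) (nat_lit 338) (nat_lit 286)) (XT.lf (nat_lit 0) (nat_lit 3075169078) (nat_lit 304) (nat_lit 5306088105) (nat_lit 380) (nat_lit 2664526731) (nat_lit 232) (nat_lit 5) (nat_lit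 236) (nat_lit 5) (nat_lit 237) (nat_lit 5) (nat_lit 397) (nat_lit 338) (nat_lit 285)))) (XT.nd (nat_lit 78) (nat_lit 608) (nat_lit 0) (XT.lf (nat_lit 0) (nat_lit 821366492) (nat_lit 380) (nat_lit 150762039) (nat_lit 76) (nat_lit 10251487053) (nat_lit 231) (nat_lit 5) (nat_lit 236) (nat_lit 5) (nat_lit 232) (nat_lit 5) (nat_lit 398) (nat_lit 338) (nat_lit 284)) (XT.nd (nat_lit 78) (nat_lit 304) (nat_lit 0) (XT.lf (nat_lit 0) (nat_lit 4424807239) (nat_lit 380) (nat_lit 3474122547) (nat_lit 76) (nat_lit 3505065222) (nat_lit 227) (nat_lit 5) (nat_lit 232) (nat_lit 5) (nat_lit 228) (nat_lit 5) (nat_lit 399) (nat_lit 338) (nat_lit 283)) (XT.lf (nat_lit 0) (nat_lit 4680062352) (nat_lit 304) (nat_lit 3468463219) (nat_lit 380) (nat_lit 3440895014) (nat_lit 223) (nat_lit 5) (nat_lit 227) (nat_lit 5) (nat_lit 228) (nat_lit 5) (nat_lit 400) (nat_lit 338) (nat_lit 282))))) (XT.nd (nat_lit 234) (nat_lit 608) (nat_lit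 0) (XT.nd (nat_lit 78) (nat_lit 304) (nat_lit 0) (XT.lf (nat_lit 0) (nat_lit 214769200) (nat_lit 304) (nat_lit 10464802204) (nat_lit 76) (nat_lit 1100322988) (nat_lit 219) (nat_lit 5) (nat_lit 223) (nat_lit 5) (nat_lit 220) (nat_lit 5) (nat_lit 401) (nat_lit 338) (nat_lit 281)) (XT.nd (nat_lit 78) (nat_lit 304) (nat_lit 0) (XT.lf (nat_lit 0) (nat_lit 3972370528) (nat_lit 304) (nat_lit 2183675670) (nat_lit 76) (nat_lit 5817171393) (nat_lit 219) (nat_lit 5) (nat_lit 223) (nat_lit 5) (nat_lit 220) (nat_lit 5) (nat_lit 402) (nat_lit 338) (nat_lit 280)) (XT.lf (nat_lit 0) (nat_lit 6404354460) (nat_lit 304) (nat_lit 1457794201) (nat_lit 380) (nat_lit 4309608363) (nat_lit 215) (nat_lit 5) (nat_lit 219) (nat_lit 5) (nat_lit 220) (nat_lit 5) (nat_lit 403) (nat_lit 338) (nat_lit 279)))) (XT.nd (nat_lit 78) (nat_lit 380) (nat_lit 0) (XT.lf (nat_lit 0) (nat_lit 2875728989) (nat_lit 228) (nat_lit 9033553661) (nat_lit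 304) (nat_lit 465750114) (nat_lit 212) (nat_lit 5) (nat_lit 215) (nat_lit 5) (nat_lit 216) (nat_lit 5) (nat_lit 404) (nat_lit 338) (nat_lit 278)) (XT.nd (nat_lit 78) (nat_lit 304) (nat_lit 0) (XT.lf (nat_lit 0) (nat_lit 3456922284) (nat_lit 304) (nat_lit 801904192) (nat_lit 76) (nat_lit 8323622842) (nat_lit 211) (nat_lit 5) (nat_lit 215) (nat_lit 5) (nat_lit 212) (nat_lit 5) (nat_lit 405) (nat_lit 338) (nat_lit 277)) (XT.lf (nat_lit 0) (nat_lit 7533753642) (nat_lit 380) (nat_lit 4554045790) (nat_lit 76) (nat_lit 706775398) (nat_lit 207) (nat_lit 5) (nat_lit 212) (nat_lit 5) (nat_lit 208) (nat_lit 5) (nat_lit 406) (nat_lit 338) (nat_lit 276)))))) (XT.nd (nat_lit 468) (nat_lit 1140) (nat_lit 0) (XT.nd (nat_lit 234) (nat_lit 532) (nat_lit 0) (XT.nd (nat_lit 78) (nat_lit 304) (nat_lit 0) (XT.lf (nat_lit 0) (nat_lit 4538772153) (nat_lit 228) (nat_lit 7248040427) (nat_lit 304) (nat_lit 1224633849) (nat_lit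 204) (nat_lit 5) (nat_lit 207) (nat_lit 5) (nat_lit 208) (nat_lit 5) (nat_lit 407) (nat_lit 338) (nat_lit 275)) (XT.nd (nat_lit 78) (nat_lit 0) (nat_lit 0) (XT.lf (nat_lit 0) (nat_lit 683419811) (nat_lit 228) (nat_lit 2205106265) (nat_lit 304) (nat_lit 10345058990) (nat_lit 200) (nat_lit 5) (nat_lit 203) (nat_lit 5) (nat_lit 204) (nat_lit 5) (nat_lit 408) (nat_lit 338) (nat_lit 274)) (XT.lf (nat_lit 0) (nat_lit 7175998711) (nat_lit 304) (nat_lit 3279494887) (nat_lit 76) (nat_lit 3004264556) (nat_lit 200) (nat_lit 5) (nat_lit 204) (nat_lit 5) (nat_lit 201) (nat_lit 5) (nat_lit 409) (nat_lit 338) (nat_lit 273)))) (XT.nd (nat_lit 78) (nat_lit 304) (nat_lit 0) (XT.lf (nat_lit 0) (nat_lit 6306598588) (nat_lit 228) (nat_lit 5329500251) (nat_lit 304) (nat_lit 2055297497) (nat_lit 197) (nat_lit 5) (nat_lit 200) (nat_lit 5) (nat_lit 201) (nat_lit 5) (nat_lit 410) (nat_lit 338) (nat_lit 272)) (XT.nd (nat_lit 78)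 (nat_lit 0) (nat_lit 0) (XT.lf (nat_lit 0) (nat_lit 2272188163) (nat_lit 304) (nat_lit 11652420375) (nat_lit 76) (nat_lit 4200305) (nat_lit 193) (nat_lit 5) (nat_lit 197) (nat_lit 5) (nat_lit 194) (nat_lit 5) (nat_lit 411) (nat_lit 338) (nat_lit 271)) (XT.lf (nat_lit 0) (nat_lit 6778209998) (nat_lit 304) (nat_lit 1930494757) (nat_lit 76) (nat_lit 5461327853) (nat_lit 193) (nat_lit 5) (nat_lit 197) (nat_lit 5) (nat_lit 194) (nat_lit 5) (nat_lit 412) (nat_lit 338) (nat_lit 270))))) (XT.nd (nat_lit 234) (nat_lit 608) (nat_lit 0) (XT.nd (nat_lit 78) (nat_lit 304) (nat_lit 0) (XT.lf (nat_lit 0) (nat_lit 8180264141) (nat_lit 228) (nat_lit 3280833901) (nat_lit 304) (nat_lit 2956144479) (nat_lit 190) (nat_lit 5) (nat_lit 193) (nat_lit 5) (nat_lit 194) (nat_lit 5) (nat_lit 413) (nat_lit 338) (nat_lit 269)) (XT.nd (nat_lit 78) (nat_lit 0) (nat_lit 0) (XT.lf (nat_lit 0) (nat_lit 1624759981) (nat_lit 304) (nat_lit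 10731781546) (nat_lit 76) (nat_lit 2313553452) (nat_lit 186) (nat_lit 5) (nat_lit 190) (nat_lit 5) (nat_lit 187) (nat_lit 5) (nat_lit 414) (nat_lit 338) (nat_lit 268)) (XT.lf (nat_lit 0) (nat_lit 6343167767) (nat_lit 304) (nat_lit 507105955) (nat_lit 76) (nat_lit 8077596475) (nat_lit 186) (nat_lit 5) (nat_lit 190) (nat_lit 5) (nat_lit 187) (nat_lit 5) (nat_lit 415) (nat_lit 338) (nat_lit 267)))) (XT.nd (nat_lit 78) (nat_lit 456) (nat_lit 0) (XT.lf (nat_lit 0) (nat_lit 10161626548) (nat_lit 152) (nat_lit 1103650362) (nat_lit 228) (nat_lit 3926237286) (nat_lit 184) (nat_lit 5) (nat_lit 186) (nat_lit 5) (nat_lit 187) (nat_lit 5) (nat_lit 416) (nat_lit 338) (nat_lit 266)) (XT.nd (nat_lit 78) (nat_lit 152) (nat_lit 0) (XT.lf (nat_lit 0) (nat_lit 926616839) (nat_lit 304) (nat_lit 9768385348) (nat_lit 76) (nat_lit 4765664352) (nat_lit 180) (nat_lit 5) (nat_lit 184) (nat_lit 5) (nat_lit 181) (nat_lit 5) (nat_lit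 417) (nat_lit 338) (nat_lit 265)) (XT.lf (nat_lit 0) (nat_lit 1010991835) (nat_lit 152) (nat_lit 4871873399) (nat_lit 228) (nat_lit 9852760345) (nat_lit 178) (nat_lit 5) (nat_lit 180) (nat_lit 5) (nat_lit 181) (nat_lit 5) (nat_lit 418) (nat_lit 338) (nat_lit 264))))))) (XT.nd (nat_lit 936) (nat_lit 532) (nat_lit 0) (XT.nd (nat_lit 468) (nat_lit 760) (nat_lit 0) (XT.nd (nat_lit 234) (nat_lit 380) (nat_lit 0) (XT.nd (nat_lit 78) (nat_lit 456) (nat_lit 0) (XT.lf (nat_lit 0) (nat_lit 11063217695) (nat_lit 228) (nat_lit 3775160497) (nat_lit 76) (nat_lit 1178192699) (nat_lit 178) (nat_lit 5) (nat_lit 181) (nat_lit 5) (nat_lit 179) (nat_lit 5) (nat_lit 419) (nat_lit 338) (nat_lit 263)) (XT.nd (nat_lit 78) (nat_lit 152) (nat_lit 0) (XT.lf (nat_lit 0) (nat_lit 178809783) (nat_lit 304) (nat_lit 8763051055) (nat_lit 76) (nat_lit 7361429223) (nat_lit 174) (nat_lit 5) (nat_lit 178) (nat_lit 5) (nat_lit 175) (nat_lit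 5) (nat_lit 420) (nat_lit 338) (nat_lit 262)) (XT.lf (nat_lit 0) (nat_lit 2616886579) (nat_lit 152) (nat_lit 2778232905) (nat_lit 228) (nat_lit 11201127850) (nat_lit 172) (nat_lit 5) (nat_lit 174) (nat_lit 5) (nat_lit 175) (nat_lit 5) (nat_lit 421) (nat_lit 338) (nat_lit 261)))) (XT.nd (nat_lit 78) (nat_lit 380) (nat_lit 0) (XT.lf (nat_lit 0) (nat_lit 10857861056) (nat_lit 228) (nat_lit 2472628426) (nat_lit 76) (nat_lit 3564805565) (nat_lit 172) (nat_lit 5) (nat_lit 175) (nat_lit 5) (nat_lit 173) (nat_lit 5) (nat_lit 422) (nat_lit 338) (nat_lit 260)) (XT.nd (nat_lit 78) (nat_lit 228) (nat_lit 0) (XT.lf (nat_lit 0) (nat_lit 9478555482) (nat_lit 152) (nat_lit 7091789999) (nat_lit 228) (nat_lit 630392892) (nat_lit 170) (nat_lit 5) (nat_lit 172) (nat_lit 5) (nat_lit 173) (nat_lit 5) (nat_lit 423) (nat_lit 338) (nat_lit 259)) (XT.lf (nat_lit 0) (nat_lit 4302312823) (nat_lit 152) (nat_lit 574063513) (nat_lit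 228) (nat_lit 12636527649) (nat_lit 167) (nat_lit 5) (nat_lit 169) (nat_lit 5) (nat_lit 170) (nat_lit 5) (nat_lit 424) (nat_lit 338) (nat_lit 258))))) (XT.nd (nat_lit 234) (nat_lit 380) (nat_lit 0) (XT.nd (nat_lit 78) (nat_lit 380) (nat_lit 0) (XT.lf (nat_lit 0) (nat_lit 10640915153) (nat_lit 228) (nat_lit 1110718217) (nat_lit 76) (nat_lit 6079456846) (nat_lit 167) (nat_lit 5) (nat_lit 170) (nat_lit 5) (nat_lit 168) (nat_lit 5) (nat_lit 425) (nat_lit 338) (nat_lit 257)) (XT.nd (nat_lit 78) (nat_lit 228) (nat_lit 0) (XT.lf (nat_lit 0) (nat_lit 11514420639) (nat_lit 152) (nat_lit 5148756475) (nat_lit 228) (nat_lit 1493101308) (nat_lit 165) (nat_lit 5) (nat_lit 167) (nat_lit 5) (nat_lit 168) (nat_lit 5) (nat_lit 426) (nat_lit 338) (nat_lit 256)) (XT.lf (nat_lit 0) (nat_lit 4344422863) (nat_lit 228) (nat_lit 12435893569) (nat_lit 76) (nat_lit 1707996985) (nat_lit 162) (nat_lit 5) (nat_lit 165) (nat_lit 5)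 (nat_lit 163) (nat_lit 5) (nat_lit 427) (nat_lit 338) (nat_lit 255)))) (XT.nd (nat_lit 78) (nat_lit 228) (nat_lit 0) (XT.lf (nat_lit 0) (nat_lit 318223865) (nat_lit 152) (nat_lit 10099235630) (nat_lit 228) (nat_lit 8409694571) (nat_lit 160) (nat_lit 5) (nat_lit 162) (nat_lit 5) (nat_lit 163) (nat_lit 5) (nat_lit 428) (nat_lit 338) (nat_lit 254)) (XT.nd (nat_lit 78) (nat_lit 228) (nat_lit 0) (XT.lf (nat_lit 0) (nat_lit 13653505874) (nat_lit 152) (nat_lit 3113757361) (nat_lit 228) (nat_lit 2406059420) (nat_lit 160) (nat_lit 5) (nat_lit 162) (nat_lit 5) (nat_lit 163) (nat_lit 5) (nat_lit 429) (nat_lit 338) (nat_lit 253)) (XT.lf (nat_lit 0) (nat_lit 3789826984) (nat_lit 228) (nat_lit 11645623785) (nat_lit 76) (nat_lit 4090760377) (nat_lit 157) (nat_lit 5) (nat_lit 160) (nat_lit 5) (nat_lit 158) (nat_lit 5) (nat_lit 430) (nat_lit 338) (nat_lit 252)))))) (XT.nd (nat_lit 46254) (nat_lit 0) (nat_lit 26904) (XT.nd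 (nat_lit 234) (nat_lit 152) (nat_lit 0) (XT.nd (nat_lit 78) (nat_lit 228) (nat_lit 0) (XT.lf (nat_lit 0) (nat_lit 1833244183) (nat_lit 152) (nat_lit 8364452471) (nat_lit 228) (nat_lit 9689040984) (nat_lit 155) (nat_lit 5) (nat_lit 157) (nat_lit 5) (nat_lit 158) (nat_lit 5) (nat_lit 431) (nat_lit 338) (nat_lit 251)) (XT.nd (nat_lit 78) (nat_lit 228) (nat_lit 0) (XT.lf (nat_lit 0) (nat_lit 15900280007) (nat_lit 152) (nat_lit 985197613) (nat_lit 228) (nat_lit 3369972049) (nat_lit 155) (nat_lit 5) (nat_lit 157) (nat_lit 5) (nat_lit 158) (nat_lit 5) (nat_lit 432) (nat_lit 338) (nat_lit 250)) (XT.lf (nat_lit 0) (nat_lit 3207480369) (nat_lit 228) (nat_lit 10834467555) (nat_lit 76) (nat_lit 6588468268) (nat_lit 152) (nat_lit 5) (nat_lit 155) (nat_lit 5) (nat_lit 153) (nat_lit 5) (nat_lit 433) (nat_lit 338) (nat_lit 249)))) (XT.nd (nat_lit 78) (nat_lit 0) (nat_lit 0) (XT.lf (nat_lit 0) (nat_lit 3414627241) (nat_lit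 152) (nat_lit 6557656253) (nat_lit 228) (nat_lit 11041614427) (nat_lit 150) (nat_lit 5) (nat_lit 152) (nat_lit 5) (nat_lit 153) (nat_lit 5) (nat_lit 434) (nat_lit 338) (nat_lit 248)) (XT.nd (nat_lit 45864) (nat_lit 0) (nat_lit 27816) (XT.lf (nat_lit 0) (nat_lit 17032455659) (nat_lit 228) (nat_lit 3158574261) (nat_lit 76) (nat_lit 1215081434) (nat_lit 150) (nat_lit 5) (nat_lit 153) (nat_lit 5) (nat_lit 151) (nat_lit 4) (nat_lit 435) (nat_lit 338) (nat_lit 247)) (XT.lf (nat_lit 0) (nat_lit 64108703) (nat_lit 76) (nat_lit 1579492006) (nat_lit 76) (nat_lit 1579492006) (nat_lit 516) (nat_lit 4) (nat_lit 517) (nat_lit 5) (nat_lit 517) (nat_lit 4) (nat_lit 342) (nat_lit 339) (nat_lit 339))))) (XT.nd (nat_lit 234) (nat_lit 684) (nat_lit 0) (XT.nd (nat_lit 78) (nat_lit 152) (nat_lit 0) (XT.lf (nat_lit 0) (nat_lit 62857711) (nat_lit 152) (nat_lit 2908712798) (nat_lit 76) (nat_lit 3480255814) (nat_lit 515) (nat_lit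 5) (nat_lit 517) (nat_lit 5) (nat_lit 516) (nat_lit 4) (nat_lit 343) (nat_lit 339) (nat_lit 338)) (XT.nd (nat_lit 78) (nat_lit 0) (nat_lit 0) (XT.lf (nat_lit 0) (nat_lit 513205776) (nat_lit 152) (nat_lit 2687482574) (nat_lit 228) (nat_lit 3259524996) (nat_lit 513) (nat_lit 5) (nat_lit 515) (nat_lit 5) (nat_lit 516) (nat_lit 4) (nat_lit 344) (nat_lit 339) (nat_lit 337)) (XT.lf (nat_lit 0) (nat_lit 4029726052) (nat_lit 152) (nat_lit 2313098941) (nat_lit 228) (nat_lit 128721855) (nat_lit 513) (nat_lit 5) (nat_lit 515) (nat_lit 5) (nat_lit 516) (nat_lit 4) (nat_lit 345) (nat_lit 339) (nat_lit 336)))) (XT.nd (nat_lit 78) (nat_lit 380) (nat_lit 0) (XT.lf (nat_lit 0) (nat_lit 1092034046) (nat_lit 228) (nat_lit 1837179249) (nat_lit 304) (nat_lit 3556305575) (nat_lit 509) (nat_lit 5) (nat_lit 512) (nat_lit 5) (nat_lit 513) (nat_lit 5) (nat_lit 346) (nat_lit 339) (nat_lit 335)) (XT.nd (nat_lit 78) (nat_lit 380)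 (nat_lit 0) (XT.lf (nat_lit 0) (nat_lit 4713290299) (nat_lit 228) (nat_lit 1273535498) (nat_lit 304) (nat_lit 515730229) (nat_lit 509) (nat_lit 5) (nat_lit 512) (nat_lit 5) (nat_lit 513) (nat_lit 5) (nat_lit 347) (nat_lit 339) (nat_lit 334)) (XT.lf (nat_lit 0) (nat_lit 1866725304) (nat_lit 304) (nat_lit 604340614) (nat_lit 380) (nat_lit 4051102390) (nat_lit 504) (nat_lit 5) (nat_lit 508) (nat_lit 5) (nat_lit 509) (nat_lit 5) (nat_lit 348) (nat_lit 339) (nat_lit 333))))))))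
noncomputable def xc48 : XT := (XT.nd (nat_lit 1794) (nat_lit 8360) (nat_lit 0) (XT.nd (nat_lit 858) (nat_lit 7904) (nat_lit 0) (XT.nd (nat_lit 390) (nat_lit 2280) (nat_lit 0) (XT.nd (nat_lit 156) (nat_lit 1064) (nat_lit 0) (XT.nd (nat_lit 78) (nat_lit 456) (nat_lit 0) (XT.lf (nat_lit 0) (nat_lit 5447293772) (nat_lit 380) (nat_lit 949510058) (nat_lit 76) (nat_lit 148106138) (nat_lit 504) (nat_lit 5) (nat_lit 509) (nat_lit 5) (nat_lit 505) (nat_lit 5) (nat_lit 349) (nat_lit 339) (nat_lit 332)) (XT.lf (nat_lit 0) (nat_lit 1833481915) (nat_lit 456) (nat_lit 3739873237) (nat_lit 76) (nat_lit 996609450) (nat_lit 498) (nat_lit 5) (nat_lit 504) (nat_lit 5) (nat_lit 499) (nat_lit 5) (nat_lit 350) (nat_lit 339) (nat_lit 331))) (XT.nd (nat_lit 78) (nat_lit 608) (nat_lit 0) (XT.lf (nat_lit 0) (nat_lit 67413599) (nat_lit 456) (nat_lit 4669073765) (nat_lit 532) (nat_lit 1861776425) (nat_lit 492) (nat_lit 5) (nat_lit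 498) (nat_lit 5) (nat_lit 499) (nat_lit 5) (nat_lit 351) (nat_lit 339) (nat_lit 330)) (XT.nd (nat_lit 78) (nat_lit 532) (nat_lit 0) (XT.lf (nat_lit 0) (nat_lit 1012928082) (nat_lit 532) (nat_lit 2642999418) (nat_lit 76) (nat_lit 2973111299) (nat_lit 491) (nat_lit 5) (nat_lit 498) (nat_lit 5) (nat_lit 492) (nat_lit 5) (nat_lit 352) (nat_lit 339) (nat_lit 329)) (XT.lf (nat_lit 0) (nat_lit 1299119102) (nat_lit 532) (nat_lit 2549887291) (nat_lit 608) (nat_lit 2813801088) (nat_lit 484) (nat_lit 5) (nat_lit 491) (nat_lit 5) (nat_lit 492) (nat_lit 5) (nat_lit 353) (nat_lit 339) (nat_lit 328))))) (XT.nd (nat_lit 234) (nat_lit 912) (nat_lit 0) (XT.nd (nat_lit 78) (nat_lit 1368) (nat_lit 0) (XT.lf (nat_lit 0) (nat_lit 5345074499) (nat_lit 532) (nat_lit 1354097530) (nat_lit 608) (nat_lit 547043) (nat_lit 484) (nat_lit 5) (nat_lit 491) (nat_lit 5) (nat_lit 492) (nat_lit 5) (nat_lit 354) (nat_lit 339) (nat_lit 327))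 (XT.nd (nat_lit 78) (nat_lit 684) (nat_lit 0) (XT.lf (nat_lit 0) (nat_lit 2731611865) (nat_lit 608) (nat_lit 39439768) (nat_lit 684) (nat_lit 3967936519) (nat_lit 475) (nat_lit 5) (nat_lit 483) (nat_lit 5) (nat_lit 484) (nat_lit 5) (nat_lit 355) (nat_lit 339) (nat_lit 326)) (XT.lf (nat_lit 0) (nat_lit 107622888) (nat_lit 684) (nat_lit 5452258450) (nat_lit 760) (nat_lit 1221530981) (nat_lit 466) (nat_lit 5) (nat_lit 475) (nat_lit 5) (nat_lit 476) (nat_lit 5) (nat_lit 356) (nat_lit 339) (nat_lit 325)))) (XT.nd (nat_lit 78) (nat_lit 836) (nat_lit 0) (XT.lf (nat_lit 0) (nat_lit 1524909392) (nat_lit 760) (nat_lit 2483956997) (nat_lit 76) (nat_lit 2817309134) (nat_lit 465) (nat_lit 5) (nat_lit 475) (nat_lit 5) (nat_lit 466) (nat_lit 5) (nat_lit 357) (nat_lit 339) (nat_lit 324)) (XT.nd (nat_lit 78) (nat_lit 76) (nat_lit 0) (XT.lf (nat_lit 0) (nat_lit 1784353529) (nat_lit 760) (nat_lit 2472425556) (nat_lit 836)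 (nat_lit 2617312077) (nat_lit 455) (nat_lit 5) (nat_lit 465) (nat_lit 5) (nat_lit 466) (nat_lit 5) (nat_lit 358) (nat_lit 339) (nat_lit 323)) (XT.lf (nat_lit 0) (nat_lit 81131190) (nat_lit 836) (nat_lit 763739751) (nat_lit 76) (nat_lit 6080425625) (nat_lit 454) (nat_lit 5) (nat_lit 465) (nat_lit 5) (nat_lit 455) (nat_lit 5) (nat_lit 359) (nat_lit 339) (nat_lit 322)))))) (XT.nd (nat_lit 468) (nat_lit 3952) (nat_lit 0) (XT.nd (nat_lit 234) (nat_lit 2128) (nat_lit 0) (XT.nd (nat_lit 78) (nat_lit 988) (nat_lit 0) (XT.lf (nat_lit 0) (nat_lit 2766038733) (nat_lit 912) (nat_lit 3318775563) (nat_lit 76) (nat_lit 893702927) (nat_lit 443) (nat_lit 5) (nat_lit 455) (nat_lit 5) (nat_lit 444) (nat_lit 5) (nat_lit 360) (nat_lit 339) (nat_lit 321)) (XT.nd (nat_lit 78) (nat_lit 76) (nat_lit 0) (XT.lf (nat_lit 0) (nat_lit 1141364568) (nat_lit 912) (nat_lit 4333340080) (nat_lit 988) (nat_lit 1560333516) (nat_lit 431)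 (nat_lit 5) (nat_lit 443) (nat_lit 5) (nat_lit 444) (nat_lit 5) (nat_lit 361) (nat_lit 339) (nat_lit 320)) (XT.lf (nat_lit 0) (nat_lit 1099404429) (nat_lit 988) (nat_lit 1372402516) (nat_lit 76) (nat_lit 4622583397) (nat_lit 430) (nat_lit 5) (nat_lit 443) (nat_lit 5) (nat_lit 431) (nat_lit 5) (nat_lit 362) (nat_lit 339) (nat_lit 319)))) (XT.nd (nat_lit 78) (nat_lit 1140) (nat_lit 0) (XT.lf (nat_lit 0) (nat_lit 3262921499) (nat_lit 988) (nat_lit 495474766) (nat_lit 1064) (nat_lit 3398138668) (nat_lit 417) (nat_lit 5) (nat_lit 430) (nat_lit 5) (nat_lit 431) (nat_lit 5) (nat_lit 363) (nat_lit 339) (nat_lit 318)) (XT.nd (nat_lit 78) (nat_lit 76) (nat_lit 0) (XT.lf (nat_lit 0) (nat_lit 773886558) (nat_lit 1064) (nat_lit 5680743750) (nat_lit 1140) (nat_lit 767189380) (nat_lit 403) (nat_lit 5) (nat_lit 417) (nat_lit 5) (nat_lit 418) (nat_lit 5) (nat_lit 364) (nat_lit 339) (nat_lit 317)) (XT.lf (nat_lit 0) (nat_lit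 1871474063) (nat_lit 1140) (nat_lit 1723057603) (nat_lit 76) (nat_lit 3694970255) (nat_lit 402) (nat_lit 5) (nat_lit 417) (nat_lit 5) (nat_lit 403) (nat_lit 5) (nat_lit 365) (nat_lit 339) (nat_lit 316))))) (XT.nd (nat_lit 234) (nat_lit 1520) (nat_lit 0) (XT.nd (nat_lit 78) (nat_lit 1292) (nat_lit 0) (XT.lf (nat_lit 0) (nat_lit 3126658612) (nat_lit 1140) (nat_lit 1401625561) (nat_lit 1216) (nat_lit 2832070375) (nat_lit 387) (nat_lit 5) (nat_lit 402) (nat_lit 5) (nat_lit 403) (nat_lit 5) (nat_lit 366) (nat_lit 339) (nat_lit 315)) (XT.nd (nat_lit 78) (nat_lit 76) (nat_lit 0) (XT.lf (nat_lit 0) (nat_lit 656884676) (nat_lit 1216) (nat_lit 6565966976) (nat_lit 1292) (nat_lit 211739509) (nat_lit 371) (nat_lit 5) (nat_lit 387) (nat_lit 5) (nat_lit 388) (nat_lit 5) (nat_lit 367) (nat_lit 339) (nat_lit 314)) (XT.lf (nat_lit 0) (nat_lit 2422402344) (nat_lit 1292) (nat_lit 1839665641) (nat_lit 76) (nat_lit 3248757573)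 (nat_lit 370) (nat_lit 5) (nat_lit 387) (nat_lit 5) (nat_lit 371) (nat_lit 5) (nat_lit 368) (nat_lit 339) (nat_lit 313)))) (XT.nd (nat_lit 78) (nat_lit 684) (nat_lit 0) (XT.lf (nat_lit 0) (nat_lit 3237049223) (nat_lit 836) (nat_lit 1854197955) (nat_lit 912) (nat_lit 2499238882) (nat_lit 359) (nat_lit 5) (nat_lit 370) (nat_lit 5) (nat_lit 371) (nat_lit 5) (nat_lit 369) (nat_lit 339) (nat_lit 312)) (XT.nd (nat_lit 78) (nat_lit 0) (nat_lit 0) (XT.lf (nat_lit 0) (nat_lit 126363256) (nat_lit 684) (nat_lit 6906245611) (nat_lit 76) (nat_lit 641018776) (nat_lit 350) (nat_lit 5) (nat_lit 359) (nat_lit 5) (nat_lit 351) (nat_lit 5) (nat_lit 370) (nat_lit 339) (nat_lit 311)) (XT.lf (nat_lit 0) (nat_lit 2774145436) (nat_lit 684) (nat_lit 1743025232) (nat_lit 76) (nat_lit 3241541133) (nat_lit 350) (nat_lit 5) (nat_lit 359) (nat_lit 5) (nat_lit 351) (nat_lit 5) (nat_lit 371) (nat_lit 339) (nat_lit 310))))))) (XT.nd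 (nat_lit 936) (nat_lit 3344) (nat_lit 0) (XT.nd (nat_lit 468) (nat_lit 2584) (nat_lit 0) (XT.nd (nat_lit 234) (nat_lit 1216) (nat_lit 0) (XT.nd (nat_lit 78) (nat_lit 608) (nat_lit 0) (XT.lf (nat_lit 0) (nat_lit 3574346289) (nat_lit 608) (nat_lit 1894275898) (nat_lit 684) (nat_lit 2378708462) (nat_lit 342) (nat_lit 5) (nat_lit 350) (nat_lit 5) (nat_lit 351) (nat_lit 5) (nat_lit 372) (nat_lit 339) (nat_lit 309)) (XT.nd (nat_lit 78) (nat_lit 0) (nat_lit 0) (XT.lf (nat_lit 0) (nat_lit 269237303) (nat_lit 608) (nat_lit 6851647356) (nat_lit 76) (nat_lit 818539251) (nat_lit 334) (nat_lit 5) (nat_lit 342) (nat_lit 5) (nat_lit 335) (nat_lit 5) (nat_lit 373) (nat_lit 339) (nat_lit 308)) (XT.lf (nat_lit 0) (nat_lit 2945885649) (nat_lit 608) (nat_lit 1451101452) (nat_lit 76) (nat_lit 3636674103) (nat_lit 334) (nat_lit 5) (nat_lit 342) (nat_lit 5) (nat_lit 335) (nat_lit 5) (nat_lit 374) (nat_lit 339) (nat_lit 307))))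 (XT.nd (nat_lit 78) (nat_lit 608) (nat_lit 0) (XT.lf (nat_lit 0) (nat_lit 4121661875) (nat_lit 608) (nat_lit 1557434910) (nat_lit 684) (nat_lit 2452340933) (nat_lit 326) (nat_lit 5) (nat_lit 334) (nat_lit 5) (nat_lit 335) (nat_lit 5) (nat_lit 375) (nat_lit 339) (nat_lit 306)) (XT.nd (nat_lit 78) (nat_lit 0) (nat_lit 0) (XT.lf (nat_lit 0) (nat_lit 237986989) (nat_lit 608) (nat_lit 6628676361) (nat_lit 76) (nat_lit 1365980201) (nat_lit 318) (nat_lit 5) (nat_lit 326) (nat_lit 5) (nat_lit 319) (nat_lit 5) (nat_lit 376) (nat_lit 339) (nat_lit 305)) (XT.lf (nat_lit 0) (nat_lit 2954325624) (nat_lit 608) (nat_lit 979316087) (nat_lit 76) (nat_lit 4402677713) (nat_lit 318) (nat_lit 5) (nat_lit 326) (nat_lit 5) (nat_lit 319) (nat_lit 5) (nat_lit 377) (nat_lit 339) (nat_lit 304))))) (XT.nd (nat_lit 234) (nat_lit 1520) (nat_lit 0) (XT.nd (nat_lit 78) (nat_lit 532) (nat_lit 0) (XT.lf (nat_lit 0) (nat_lit 4864682970)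 (nat_lit 532) (nat_lit 874310048) (nat_lit 608) (nat_lit 2704507400) (nat_lit 311) (nat_lit 5) (nat_lit 318) (nat_lit 5) (nat_lit 319) (nat_lit 5) (nat_lit 378) (nat_lit 339) (nat_lit 303)) (XT.nd (nat_lit 78) (nat_lit 0) (nat_lit 0) (XT.lf (nat_lit 0) (nat_lit 47281498) (nat_lit 532) (nat_lit 6251834287) (nat_lit 76) (nat_lit 2254915142) (nat_lit 304) (nat_lit 5) (nat_lit 311) (nat_lit 5) (nat_lit 305) (nat_lit 5) (nat_lit 379) (nat_lit 339) (nat_lit 302)) (XT.lf (nat_lit 0) (nat_lit 2813948651) (nat_lit 532) (nat_lit 340803768) (nat_lit 76) (nat_lit 5512721137) (nat_lit 304) (nat_lit 5) (nat_lit 311) (nat_lit 5) (nat_lit 305) (nat_lit 5) (nat_lit 380) (nat_lit 339) (nat_lit 301)))) (XT.nd (nat_lit 78) (nat_lit 988) (nat_lit 0) (XT.lf (nat_lit 0) (nat_lit 5663757750) (nat_lit 608) (nat_lit 2994170223) (nat_lit 76) (nat_lit 126387235) (nat_lit 297) (nat_lit 5) (nat_lit 305) (nat_lit 5) (nat_lit 298)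 (nat_lit 5) (nat_lit 381) (nat_lit 339) (nat_lit 300)) (XT.nd (nat_lit 78) (nat_lit 532) (nat_lit 0) (XT.lf (nat_lit 0) (nat_lit 3167977785) (nat_lit 456) (nat_lit 5440351932) (nat_lit 532) (nat_lit 296054333) (nat_lit 291) (nat_lit 5) (nat_lit 297) (nat_lit 5) (nat_lit 298) (nat_lit 5) (nat_lit 382) (nat_lit 339) (nat_lit 299)) (XT.lf (nat_lit 0) (nat_lit 462385076) (nat_lit 456) (nat_lit 2079308492) (nat_lit 532) (nat_lit 6486222735) (nat_lit 284) (nat_lit 5) (nat_lit 290) (nat_lit 5) (nat_lit 291) (nat_lit 5) (nat_lit 383) (nat_lit 339) (nat_lit 298)))))) (XT.nd (nat_lit 468) (nat_lit 1596) (nat_lit 0) (XT.nd (nat_lit 234) (nat_lit 836) (nat_lit 0) (XT.nd (nat_lit 78) (nat_lit 912) (nat_lit 0) (XT.lf (nat_lit 0) (nat_lit 5475735649) (nat_lit 532) (nat_lit 2276718528) (nat_lit 76) (nat_lit 1402099046) (nat_lit 284) (nat_lit 5) (nat_lit 291) (nat_lit 5) (nat_lit 285) (nat_lit 5) (nat_lit 384) (nat_lit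 339) (nat_lit 297)) (XT.nd (nat_lit 78) (nat_lit 532) (nat_lit 0) (XT.lf (nat_lit 0) (nat_lit 4192825525) (nat_lit 380) (nat_lit 4312779326) (nat_lit 456) (nat_lit 779150223) (nat_lit 279) (nat_lit 5) (nat_lit 284) (nat_lit 5) (nat_lit 285) (nat_lit 5) (nat_lit 385) (nat_lit 339) (nat_lit 296)) (XT.lf (nat_lit 0) (nat_lit 1421714369) (nat_lit 456) (nat_lit 726886465) (nat_lit 532) (nat_lit 7270100446) (nat_lit 272) (nat_lit 5) (nat_lit 278) (nat_lit 5) (nat_lit 279) (nat_lit 5) (nat_lit 386) (nat_lit 339) (nat_lit 295)))) (XT.nd (nat_lit 78) (nat_lit 836) (nat_lit 0) (XT.lf (nat_lit 0) (nat_lit 5176964173) (nat_lit 532) (nat_lit 1426960198) (nat_lit 76) (nat_lit 2951656874) (nat_lit 272) (nat_lit 5) (nat_lit 279) (nat_lit 5) (nat_lit 273) (nat_lit 5) (nat_lit 387) (nat_lit 339) (nat_lit 294)) (XT.nd (nat_lit 78) (nat_lit 456) (nat_lit 0) (XT.lf (nat_lit 0) (nat_lit 5369551671) (nat_lit 380) (nat_lit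 2934949426) (nat_lit 456) (nat_lit 1391816830) (nat_lit 267) (nat_lit 5) (nat_lit 272) (nat_lit 5) (nat_lit 273) (nat_lit 5) (nat_lit 388) (nat_lit 339) (nat_lit 293)) (XT.lf (nat_lit 0) (nat_lit 1648839189) (nat_lit 456) (nat_lit 7326883923) (nat_lit 76) (nat_lit 865154078) (nat_lit 261) (nat_lit 5) (nat_lit 267) (nat_lit 5) (nat_lit 262) (nat_lit 5) (nat_lit 389) (nat_lit 339) (nat_lit 292))))) (XT.nd (nat_lit 234) (nat_lit 760) (nat_lit 0) (XT.nd (nat_lit 78) (nat_lit 836) (nat_lit 0) (XT.lf (nat_lit 0) (nat_lit 4776394969) (nat_lit 456) (nat_lit 452222827) (nat_lit 76) (nat_lit 4760032394) (nat_lit 261) (nat_lit 5) (nat_lit 267) (nat_lit 5) (nat_lit 262) (nat_lit 5) (nat_lit 390) (nat_lit 339) (nat_lit 291)) (XT.nd (nat_lit 78) (nat_lit 456) (nat_lit 0) (XT.lf (nat_lit 0) (nat_lit 6692121281) (nat_lit 380) (nat_lit 1321898369) (nat_lit 456) (nat_lit 2126349464) (nat_lit 256) (nat_lit 5) (nat_lit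 261) (nat_lit 5) (nat_lit 262) (nat_lit 5) (nat_lit 391) (nat_lit 339) (nat_lit 290)) (XT.lf (nat_lit 0) (nat_lit 1050845893) (nat_lit 456) (nat_lit 6563510683) (nat_lit 76) (nat_lit 2681402318) (nat_lit 250) (nat_lit 5) (nat_lit 256) (nat_lit 5) (nat_lit 251) (nat_lit 5) (nat_lit 392) (nat_lit 339) (nat_lit 289)))) (XT.nd (nat_lit 78) (nat_lit 456) (nat_lit 0) (XT.lf (nat_lit 0) (nat_lit 654364679) (nat_lit 304) (nat_lit 3633565318) (nat_lit 380) (nat_lit 6167029469) (nat_lit 246) (nat_lit 5) (nat_lit 250) (nat_lit 5) (nat_lit 251) (nat_lit 5) (nat_lit 393) (nat_lit 339) (nat_lit 288)) (XT.nd (nat_lit 78) (nat_lit 456) (nat_lit 0) (XT.lf (nat_lit 0) (nat_lit 7646842310) (nat_lit 380) (nat_lit 2467293703) (nat_lit 76) (nat_lit 504058572) (nat_lit 246) (nat_lit 5) (nat_lit 251) (nat_lit 5) (nat_lit 247) (nat_lit 5) (nat_lit 394) (nat_lit 339) (nat_lit 287)) (XT.lf (nat_lit 0) (nat_lit 353827282) (nat_lit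 456) (nat_lit 5705929020) (nat_lit 76) (nat_lit 4725281711) (nat_lit 240) (nat_lit 5) (nat_lit 246) (nat_lit 5) (nat_lit 241) (nat_lit 5) (nat_lit 395) (nat_lit 339) (nat_lit 286))))))))
noncomputable def xc49 : XT := (XT.nd (nat_lit 1794) (nat_lit 2280) (nat_lit 0) (XT.nd (nat_lit 858) (nat_lit 2052) (nat_lit 0) (XT.nd (nat_lit 390) (nat_lit 1520) (nat_lit 0) (XT.nd (nat_lit 156) (nat_lit 684) (nat_lit 0) (XT.nd (nat_lit 78) (nat_lit 0) (nat_lit 0) (XT.lf (nat_lit 0) (nat_lit 1886716900) (nat_lit 304) (nat_lit 1830522667) (nat_lit 380) (nat_lit 7238818639) (nat_lit 236) (nat_lit 5) (nat_lit 240) (nat_lit 5) (nat_lit 241) (nat_lit 5) (nat_lit 396) (nat_lit 339) (nat_lit 285)) (XT.lf (nat_lit 0) (nat_lit 7219391080) (nat_lit 380) (nat_lit 1398464967) (nat_lit 76) (nat_lit 2513217854) (nat_lit 236) (nat_lit 5) (nat_lit 241) (nat_lit 5) (nat_lit 237) (nat_lit 5) (nat_lit 397) (nat_lit 339) (nat_lit 284)))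 (XT.nd (nat_lit 78) (nat_lit 380) (nat_lit 0) (XT.lf (nat_lit 0) (nat_lit 6546880790) (nat_lit 304) (nat_lit 4317453036) (nat_lit 380) (nat_lit 445874439) (nat_lit 232) (nat_lit 5) (nat_lit 236) (nat_lit 5) (nat_lit 237) (nat_lit 5) (nat_lit 398) (nat_lit 339) (nat_lit 283)) (XT.nd (nat_lit 78) (nat_lit 0) (nat_lit 0) (XT.lf (nat_lit 0) (nat_lit 3066777713) (nat_lit 380) (nat_lit 8262992993) (nat_lit 76) (nat_lit 163930239) (nat_lit 227) (nat_lit 5) (nat_lit 232) (nat_lit 5) (nat_lit 228) (nat_lit 5) (nat_lit 399) (nat_lit 339) (nat_lit 282)) (XT.lf (nat_lit 0) (nat_lit 6724476442) (nat_lit 380) (nat_lit 232606419) (nat_lit 76) (nat_lit 4724024248) (nat_lit 227) (nat_lit 5) (nat_lit 232) (nat_lit 5) (nat_lit 228) (nat_lit 5) (nat_lit 400) (nat_lit 339) (nat_lit 281))))) (XT.nd (nat_lit 234) (nat_lit 608) (nat_lit 0) (XT.nd (nat_lit 78) (nat_lit 608) (nat_lit 0) (XT.lf (nat_lit 0) (nat_lit 8133402656)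 (nat_lit 304) (nat_lit 2395235338) (nat_lit 380) (nat_lit 1344395507) (nat_lit 223) (nat_lit 5) (nat_lit 227) (nat_lit 5) (nat_lit 228) (nat_lit 5) (nat_lit 401) (nat_lit 339) (nat_lit 280)) (XT.nd (nat_lit 78) (nat_lit 304) (nat_lit 0) (XT.lf (nat_lit 0) (nat_lit 2358643585) (nat_lit 304) (nat_lit 7403512789) (nat_lit 76) (nat_lit 2307011909) (nat_lit 219) (nat_lit 5) (nat_lit 223) (nat_lit 5) (nat_lit 220) (nat_lit 5) (nat_lit 402) (nat_lit 339) (nat_lit 279)) (XT.lf (nat_lit 0) (nat_lit 1048193805) (nat_lit 304) (nat_lit 5128599747) (nat_lit 380) (nat_lit 6093063009) (nat_lit 215) (nat_lit 5) (nat_lit 219) (nat_lit 5) (nat_lit 220) (nat_lit 5) (nat_lit 403) (nat_lit 339) (nat_lit 278)))) (XT.nd (nat_lit 78) (nat_lit 608) (nat_lit 0) (XT.lf (nat_lit 0) (nat_lit 9841284081) (nat_lit 304) (nat_lit 302654041) (nat_lit 380) (nat_lit 2331593862) (nat_lit 215) (nat_lit 5) (nat_lit 219) (nat_lit 5) (nat_lit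 220) (nat_lit 5) (nat_lit 404) (nat_lit 339) (nat_lit 277)) (XT.nd (nat_lit 78) (nat_lit 304) (nat_lit 0) (XT.lf (nat_lit 0) (nat_lit 1578609777) (nat_lit 304) (nat_lit 6476541043) (nat_lit 76) (nat_lit 4629802130) (nat_lit 211) (nat_lit 5) (nat_lit 215) (nat_lit 5) (nat_lit 212) (nat_lit 5) (nat_lit 405) (nat_lit 339) (nat_lit 276)) (XT.lf (nat_lit 0) (nat_lit 2428347258) (nat_lit 304) (nat_lit 3144917958) (nat_lit 380) (nat_lit 7326278524) (nat_lit 207) (nat_lit 5) (nat_lit 211) (nat_lit 5) (nat_lit 212) (nat_lit 5) (nat_lit 406) (nat_lit 339) (nat_lit 275)))))) (XT.nd (nat_lit 468) (nat_lit 988) (nat_lit 0) (XT.nd (nat_lit 234) (nat_lit 532) (nat_lit 0) (XT.nd (nat_lit 78) (nat_lit 532) (nat_lit 0) (XT.lf (nat_lit 0) (nat_lit 9733308797) (nat_lit 380) (nat_lit 1467994430) (nat_lit 76) (nat_lit 1917902572) (nat_lit 207) (nat_lit 5) (nat_lit 212) (nat_lit 5) (nat_lit 208) (nat_lit 5) (nat_lit 407) (nat_lit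 339) (nat_lit 274)) (XT.nd (nat_lit 78) (nat_lit 228) (nat_lit 0) (XT.lf (nat_lit 0) (nat_lit 729250987) (nat_lit 304) (nat_lit 5484524061) (nat_lit 76) (nat_lit 7129398229) (nat_lit 203) (nat_lit 5) (nat_lit 207) (nat_lit 5) (nat_lit 204) (nat_lit 5) (nat_lit 408) (nat_lit 339) (nat_lit 273)) (XT.lf (nat_lit 0) (nat_lit 3902459081) (nat_lit 228) (nat_lit 1012216567) (nat_lit 304) (nat_lit 8657732155) (nat_lit 200) (nat_lit 5) (nat_lit 203) (nat_lit 5) (nat_lit 204) (nat_lit 5) (nat_lit 409) (nat_lit 339) (nat_lit 272)))) (XT.nd (nat_lit 78) (nat_lit 532) (nat_lit 0) (XT.lf (nat_lit 0) (nat_lit 9286032537) (nat_lit 304) (nat_lit 227764395) (nat_lit 76) (nat_lit 4292911351) (nat_lit 200) (nat_lit 5) (nat_lit 204) (nat_lit 5) (nat_lit 201) (nat_lit 5) (nat_lit 410) (nat_lit 339) (nat_lit 271)) (XT.nd (nat_lit 78) (nat_lit 304) (nat_lit 0) (XT.lf (nat_lit 0) (nat_lit 9615028401) (nat_lit 228) (nat_lit 4239704227)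 (nat_lit 304) (nat_lit 191319073) (nat_lit 197) (nat_lit 5) (nat_lit 200) (nat_lit 5) (nat_lit 201) (nat_lit 5) (nat_lit 411) (nat_lit 339) (nat_lit 270)) (XT.lf (nat_lit 0) (nat_lit 4215608878) (nat_lit 304) (nat_lit 8832378853) (nat_lit 76) (nat_lit 1242427725) (nat_lit 193) (nat_lit 5) (nat_lit 197) (nat_lit 5) (nat_lit 194) (nat_lit 5) (nat_lit 412) (nat_lit 339) (nat_lit 269))))) (XT.nd (nat_lit 234) (nat_lit 456) (nat_lit 0) (XT.nd (nat_lit 78) (nat_lit 304) (nat_lit 0) (XT.lf (nat_lit 0) (nat_lit 1110556634) (nat_lit 228) (nat_lit 7702311003) (nat_lit 304) (nat_lit 5727326609) (nat_lit 190) (nat_lit 5) (nat_lit 193) (nat_lit 5) (nat_lit 194) (nat_lit 5) (nat_lit 413) (nat_lit 339) (nat_lit 268)) (XT.nd (nat_lit 78) (nat_lit 304) (nat_lit 0) (XT.lf (nat_lit 0) (nat_lit 11472797779) (nat_lit 228) (nat_lit 2129031798) (nat_lit 304) (nat_lit 1194023261) (nat_lit 190) (nat_lit 5) (nat_lit 193) (nat_lit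 5) (nat_lit 194) (nat_lit 5) (nat_lit 414) (nat_lit 339) (nat_lit 267)) (XT.lf (nat_lit 0) (nat_lit 3476814345) (nat_lit 304) (nat_lit 7959115291) (nat_lit 76) (nat_lit 3620168846) (nat_lit 186) (nat_lit 5) (nat_lit 190) (nat_lit 5) (nat_lit 187) (nat_lit 5) (nat_lit 415) (nat_lit 339) (nat_lit 266)))) (XT.nd (nat_lit 78) (nat_lit 304) (nat_lit 0) (XT.lf (nat_lit 0) (nat_lit 2531565983) (nat_lit 152) (nat_lit 5777019703) (nat_lit 228) (nat_lit 7013866929) (nat_lit 184) (nat_lit 5) (nat_lit 186) (nat_lit 5) (nat_lit 187) (nat_lit 5) (nat_lit 416) (nat_lit 339) (nat_lit 265)) (XT.nd (nat_lit 78) (nat_lit 304) (nat_lit 0) (XT.lf (nat_lit 0) (nat_lit 13332683334) (nat_lit 228) (nat_lit 2154959321) (nat_lit 76) (nat_lit 107733523) (nat_lit 184) (nat_lit 5) (nat_lit 187) (nat_lit 5) (nat_lit 185) (nat_lit 5) (nat_lit 417) (nat_lit 339) (nat_lit 264)) (XT.lf (nat_lit 0) (nat_lit 2689810742) (nat_lit 304) (nat_lit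 7041559233) (nat_lit 76) (nat_lit 6141054698) (nat_lit 180) (nat_lit 5) (nat_lit 184) (nat_lit 5) (nat_lit 181) (nat_lit 5) (nat_lit 418) (nat_lit 339) (nat_lit 263))))))) (XT.nd (nat_lit 936) (nat_lit 760) (nat_lit 0) (XT.nd (nat_lit 468) (nat_lit 684) (nat_lit 0) (XT.nd (nat_lit 234) (nat_lit 380) (nat_lit 0) (XT.nd (nat_lit 78) (nat_lit 304) (nat_lit 0) (XT.lf (nat_lit 0) (nat_lit 4031592622) (nat_lit 152) (nat_lit 3741352784) (nat_lit 228) (nat_lit 8383341113) (nat_lit 178) (nat_lit 5) (nat_lit 180) (nat_lit 5) (nat_lit 181) (nat_lit 5) (nat_lit 419) (nat_lit 339) (nat_lit 262)) (XT.nd (nat_lit 78) (nat_lit 304) (nat_lit 0) (XT.lf (nat_lit 0) (nat_lit 13070712687) (nat_lit 228) (nat_lit 947243798) (nat_lit 76) (nat_lit 2428843581) (nat_lit 178) (nat_lit 5) (nat_lit 181) (nat_lit 5) (nat_lit 179) (nat_lit 5) (nat_lit 420) (nat_lit 339) (nat_lit 261)) (XT.lf (nat_lit 0) (nat_lit 1855347916) (nat_lit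 304) (nat_lit 6080346451) (nat_lit 76) (nat_lit 8806559182) (nat_lit 174) (nat_lit 5) (nat_lit 178) (nat_lit 5) (nat_lit 175) (nat_lit 5) (nat_lit 421) (nat_lit 339) (nat_lit 260)))) (XT.nd (nat_lit 78) (nat_lit 228) (nat_lit 0) (XT.lf (nat_lit 0) (nat_lit 5612110918) (nat_lit 152) (nat_lit 1595398298) (nat_lit 228) (nat_lit 9837109453) (nat_lit 172) (nat_lit 5) (nat_lit 174) (nat_lit 5) (nat_lit 175) (nat_lit 5) (nat_lit 422) (nat_lit 339) (nat_lit 259)) (XT.nd (nat_lit 78) (nat_lit 76) (nat_lit 0) (XT.lf (nat_lit 0) (nat_lit 327607379) (nat_lit 152) (nat_lit 12473417759) (nat_lit 228) (nat_lit 4552605914) (nat_lit 170) (nat_lit 5) (nat_lit 172) (nat_lit 5) (nat_lit 173) (nat_lit 5) (nat_lit 423) (nat_lit 339) (nat_lit 258)) (XT.lf (nat_lit 0) (nat_lit 973713462) (nat_lit 228) (nat_lit 5075653787) (nat_lit 76) (nat_lit 11619270086) (nat_lit 169) (nat_lit 5) (nat_lit 172) (nat_lit 5) (nat_lit 170) (nat_lit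 5) (nat_lit 424) (nat_lit 339) (nat_lit 257))))) (XT.nd (nat_lit 234) (nat_lit 304) (nat_lit 0) (XT.nd (nat_lit 78) (nat_lit 228) (nat_lit 0) (XT.lf (nat_lit 0) (nat_lit 6619809429) (nat_lit 228) (nat_lit 10721749755) (nat_lit 76) (nat_lit 648817666) (nat_lit 167) (nat_lit 5) (nat_lit 170) (nat_lit 5) (nat_lit 168) (nat_lit 5) (nat_lit 425) (nat_lit 339) (nat_lit 256)) (XT.nd (nat_lit 78) (nat_lit 76) (nat_lit 0) (XT.lf (nat_lit 0) (nat_lit 1684436797) (nat_lit 152) (nat_lit 10848039007) (nat_lit 228) (nat_lit 5786377122) (nat_lit 165) (nat_lit 5) (nat_lit 167) (nat_lit 5) (nat_lit 168) (nat_lit 5) (nat_lit 426) (nat_lit 339) (nat_lit 255)) (XT.lf (nat_lit 0) (nat_lit 44764032) (nat_lit 228) (nat_lit 4027230368) (nat_lit 76) (nat_lit 14582836415) (nat_lit 164) (nat_lit 5) (nat_lit 167) (nat_lit 5) (nat_lit 165) (nat_lit 5) (nat_lit 427) (nat_lit 339) (nat_lit 254)))) (XT.nd (nat_lit 78) (nat_lit 152)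 (nat_lit 0) (XT.lf (nat_lit 0) (nat_lit 6020720634) (nat_lit 228) (nat_lit 10003186969) (nat_lit 76) (nat_lit 2972676263) (nat_lit 162) (nat_lit 5) (nat_lit 165) (nat_lit 5) (nat_lit 163) (nat_lit 5) (nat_lit 428) (nat_lit 339) (nat_lit 253)) (XT.nd (nat_lit 78) (nat_lit 0) (nat_lit 0) (XT.lf (nat_lit 0) (nat_lit 3106046307) (nat_lit 152) (nat_lit 9151580435) (nat_lit 228) (nat_lit 7088512642) (nat_lit 160) (nat_lit 5) (nat_lit 162) (nat_lit 5) (nat_lit 163) (nat_lit 5) (nat_lit 429) (nat_lit 339) (nat_lit 252)) (XT.lf (nat_lit 0) (nat_lit 16760466123) (nat_lit 152) (nat_lit 1992964001) (nat_lit 228) (nat_lit 950597741) (nat_lit 160) (nat_lit 5) (nat_lit 162) (nat_lit 5) (nat_lit 163) (nat_lit 5) (nat_lit 430) (nat_lit 339) (nat_lit 251)))))) (XT.nd (nat_lit 46098) (nat_lit 0) (nat_lit 27284) (XT.nd (nat_lit 234) (nat_lit 380) (nat_lit 0) (XT.nd (nat_lit 78) (nat_lit 152) (nat_lit 0) (XT.lf (nat_lit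 0) (nat_lit 5395417281) (nat_lit 228) (nat_lit 9261889451) (nat_lit 76) (nat_lit 5409933884) (nat_lit 157) (nat_lit 5) (nat_lit 160) (nat_lit 5) (nat_lit 158) (nat_lit 5) (nat_lit 431) (nat_lit 339) (nat_lit 250)) (XT.nd (nat_lit 78) (nat_lit 0) (nat_lit 0) (XT.lf (nat_lit 0) (nat_lit 4594549428) (nat_lit 152) (nat_lit 7383535034) (nat_lit 228) (nat_lit 8461021598) (nat_lit 155) (nat_lit 5) (nat_lit 157) (nat_lit 5) (nat_lit 158) (nat_lit 5) (nat_lit 432) (nat_lit 339) (nat_lit 249)) (XT.lf (nat_lit 0) (nat_lit 18825295492) (nat_lit 228) (nat_lit 1817137969) (nat_lit 76) (nat_lit 177682091) (nat_lit 155) (nat_lit 5) (nat_lit 158) (nat_lit 5) (nat_lit 156) (nat_lit 4) (nat_lit 433) (nat_lit 339) (nat_lit 248)))) (XT.nd (nat_lit 78) (nat_lit 152) (nat_lit 0) (XT.lf (nat_lit 0) (nat_lit 4744113756) (nat_lit 228) (nat_lit 8497970232) (nat_lit 76) (nat_lit 7964032420) (nat_lit 152) (nat_lit 5) (nat_lit 155)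 (nat_lit 5) (nat_lit 153) (nat_lit 5) (nat_lit 434) (nat_lit 339) (nat_lit 247)) (XT.nd (nat_lit 45708) (nat_lit 0) (nat_lit 27968) (XT.lf (nat_lit 0) (nat_lit 6152503964) (nat_lit 152) (nat_lit 5542736793) (nat_lit 228) (nat_lit 9906360440) (nat_lit 150) (nat_lit 5) (nat_lit 152) (nat_lit 5) (nat_lit 153) (nat_lit 5) (nat_lit 435) (nat_lit 339) (nat_lit 246)) (XT.lf (nat_lit 0) (nat_lit 1073741823) (nat_lit 0) (nat_lit 0) (nat_lit 0) (nat_lit 0) (nat_lit 518) (nat_lit 0) (nat_lit 1) (nat_lit 0) (nat_lit 1) (nat_lit 0) (nat_lit 340) (nat_lit 340) (nat_lit 340))))) (XT.nd (nat_lit 234) (nat_lit 456) (nat_lit 0) (XT.nd (nat_lit 78) (nat_lit 152) (nat_lit 0) (XT.lf (nat_lit 0) (nat_lit 3190261082) (nat_lit 76) (nat_lit 3190261082) (nat_lit 0) (nat_lit 62857711) (nat_lit 517) (nat_lit 5) (nat_lit 518) (nat_lit 0) (nat_lit 517) (nat_lit 4) (nat_lit 341) (nat_lit 340) (nat_lit 339)) (XT.nd (nat_lit 78) (nat_lit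 76) (nat_lit 0) (XT.lf (nat_lit 0) (nat_lit 94769520) (nat_lit 76) (nat_lit 6258486843) (nat_lit 76) (nat_lit 94769520) (nat_lit 516) (nat_lit 4) (nat_lit 517) (nat_lit 5) (nat_lit 517) (nat_lit 4) (nat_lit 342) (nat_lit 340) (nat_lit 338)) (XT.lf (nat_lit 0) (nat_lit 3007127045) (nat_lit 152) (nat_lit 3007127045) (nat_lit 76) (nat_lit 440333572) (nat_lit 515) (nat_lit 5) (nat_lit 517) (nat_lit 5) (nat_lit 516) (nat_lit 4) (nat_lit 343) (nat_lit 340) (nat_lit 337)))) (XT.nd (nat_lit 78) (nat_lit 304) (nat_lit 0) (XT.lf (nat_lit 0) (nat_lit 379492195) (nat_lit 152) (nat_lit 5705780835) (nat_lit 228) (nat_lit 379492195) (nat_lit 513) (nat_lit 5) (nat_lit 515) (nat_lit 5) (nat_lit 516) (nat_lit 4) (nat_lit 344) (nat_lit 340) (nat_lit 336)) (XT.nd (nat_lit 78) (nat_lit 228) (nat_lit 0) (XT.lf (nat_lit 0) (nat_lit 2640048985) (nat_lit 228) (nat_lit 2640048985) (nat_lit 76) (nat_lit 1196934557) (nat_lit 512)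 (nat_lit 5) (nat_lit 515) (nat_lit 5) (nat_lit 513) (nat_lit 5) (nat_lit 345) (nat_lit 340) (nat_lit 335)) (XT.lf (nat_lit 0) (nat_lit 855411887) (nat_lit 228) (nat_lit 4781888804) (nat_lit 304) (nat_lit 855411887) (nat_lit 509) (nat_lit 5) (nat_lit 512) (nat_lit 5) (nat_lit 513) (nat_lit 5) (nat_lit 346) (nat_lit 340) (nat_lit 334))))))))
noncomputable def xc50 : XT := (XT.nd (nat_lit 1794) (nat_lit 8284) (nat_lit 0) (XT.nd (nat_lit 858) (nat_lit 8056) (nat_lit 0) (XT.nd (nat_lit 390) (nat_lit 2432) (nat_lit 0) (XT.nd (nat_lit 156) (nat_lit 532) (nat_lit 0) (XT.nd (nat_lit 78) (nat_lit 304) (nat_lit 0) (XT.lf (nat_lit 0) (nat_lit 2087403953) (nat_lit 304) (nat_lit 2087403953) (nat_lit 76) (nat_lit 2335965244) (nat_lit 508) (nat_lit 5) (nat_lit 512) (nat_lit 5) (nat_lit 509) (nat_lit 5) (nat_lit 347) (nat_lit 340) (nat_lit 333)) (XT.lf (nat_lit 0) (nat_lit 1524606770) (nat_lit 304) (nat_lit 3482727238)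 (nat_lit 380) (nat_lit 1524606770) (nat_lit 504) (nat_lit 5) (nat_lit 508) (nat_lit 5) (nat_lit 509) (nat_lit 5) (nat_lit 348) (nat_lit 340) (nat_lit 332))) (XT.nd (nat_lit 78) (nat_lit 456) (nat_lit 0) (XT.lf (nat_lit 0) (nat_lit 1346750063) (nat_lit 380) (nat_lit 1346750063) (nat_lit 76) (nat_lit 3862397658) (nat_lit 503) (nat_lit 5) (nat_lit 508) (nat_lit 5) (nat_lit 504) (nat_lit 5) (nat_lit 349) (nat_lit 340) (nat_lit 331)) (XT.nd (nat_lit 78) (nat_lit 76) (nat_lit 0) (XT.lf (nat_lit 0) (nat_lit 2389996963) (nat_lit 380) (nat_lit 1802558201) (nat_lit 456) (nat_lit 2389996963) (nat_lit 498) (nat_lit 5) (nat_lit 503) (nat_lit 5) (nat_lit 504) (nat_lit 5) (nat_lit 350) (nat_lit 340) (nat_lit 330)) (XT.lf (nat_lit 0) (nat_lit 414817510) (nat_lit 456) (nat_lit 414817510) (nat_lit 76) (nat_lit 5782889515) (nat_lit 497) (nat_lit 5) (nat_lit 503) (nat_lit 5) (nat_lit 498) (nat_lit 5) (nat_lit 351) (nat_lit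 340) (nat_lit 329))))) (XT.nd (nat_lit 234) (nat_lit 1368) (nat_lit 0) (XT.nd (nat_lit 78) (nat_lit 608) (nat_lit 0) (XT.lf (nat_lit 0) (nat_lit 3191880731) (nat_lit 532) (nat_lit 3191880731) (nat_lit 76) (nat_lit 260840527) (nat_lit 491) (nat_lit 5) (nat_lit 498) (nat_lit 5) (nat_lit 492) (nat_lit 5) (nat_lit 352) (nat_lit 340) (nat_lit 328)) (XT.nd (nat_lit 78) (nat_lit 76) (nat_lit 0) (XT.lf (nat_lit 0) (nat_lit 705518125) (nat_lit 532) (nat_lit 5268939464) (nat_lit 608) (nat_lit 705518125) (nat_lit 484) (nat_lit 5) (nat_lit 491) (nat_lit 5) (nat_lit 492) (nat_lit 5) (nat_lit 353) (nat_lit 340) (nat_lit 327)) (XT.lf (nat_lit 0) (nat_lit 2019425135) (nat_lit 608) (nat_lit 2019425135) (nat_lit 76) (nat_lit 2678844647) (nat_lit 483) (nat_lit 5) (nat_lit 491) (nat_lit 5) (nat_lit 484) (nat_lit 5) (nat_lit 354) (nat_lit 340) (nat_lit 326)))) (XT.nd (nat_lit 78) (nat_lit 760) (nat_lit 0) (XT.lf (nat_lit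 0) (nat_lit 2020175886) (nat_lit 608) (nat_lit 2718191441) (nat_lit 684) (nat_lit 2020175886) (nat_lit 475) (nat_lit 5) (nat_lit 483) (nat_lit 5) (nat_lit 484) (nat_lit 5) (nat_lit 355) (nat_lit 340) (nat_lit 325)) (XT.nd (nat_lit 78) (nat_lit 684) (nat_lit 0) (XT.lf (nat_lit 0) (nat_lit 652635645) (nat_lit 684) (nat_lit 652635645) (nat_lit 76) (nat_lit 5497269341) (nat_lit 474) (nat_lit 5) (nat_lit 483) (nat_lit 5) (nat_lit 475) (nat_lit 5) (nat_lit 356) (nat_lit 340) (nat_lit 324)) (XT.lf (nat_lit 0) (nat_lit 3312110239) (nat_lit 760) (nat_lit 3312110239) (nat_lit 76) (nat_lit 224624973) (nat_lit 465) (nat_lit 5) (nat_lit 475) (nat_lit 5) (nat_lit 466) (nat_lit 5) (nat_lit 357) (nat_lit 340) (nat_lit 323)))))) (XT.nd (nat_lit 468) (nat_lit 4408) (nat_lit 0) (XT.nd (nat_lit 234) (nat_lit 1976) (nat_lit 0) (XT.nd (nat_lit 78) (nat_lit 912) (nat_lit 0) (XT.lf (nat_lit 0) (nat_lit 905602171) (nat_lit 760)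 (nat_lit 5087095226) (nat_lit 836) (nat_lit 905602171) (nat_lit 455) (nat_lit 5) (nat_lit 465) (nat_lit 5) (nat_lit 466) (nat_lit 5) (nat_lit 358) (nat_lit 340) (nat_lit 322)) (XT.nd (nat_lit 78) (nat_lit 836) (nat_lit 0) (XT.lf (nat_lit 0) (nat_lit 1717118357) (nat_lit 836) (nat_lit 1717118357) (nat_lit 76) (nat_lit 3516044271) (nat_lit 454) (nat_lit 5) (nat_lit 465) (nat_lit 5) (nat_lit 455) (nat_lit 5) (nat_lit 359) (nat_lit 340) (nat_lit 321)) (XT.lf (nat_lit 0) (nat_lit 2662781747) (nat_lit 836) (nat_lit 1679723759) (nat_lit 912) (nat_lit 2662781747) (nat_lit 443) (nat_lit 5) (nat_lit 454) (nat_lit 5) (nat_lit 455) (nat_lit 5) (nat_lit 360) (nat_lit 340) (nat_lit 320)))) (XT.nd (nat_lit 78) (nat_lit 1064) (nat_lit 0) (XT.lf (nat_lit 0) (nat_lit 79121920) (nat_lit 912) (nat_lit 6905559066) (nat_lit 988) (nat_lit 79121920) (nat_lit 431) (nat_lit 5) (nat_lit 443) (nat_lit 5) (nat_lit 444) (nat_lit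 5) (nat_lit 361) (nat_lit 340) (nat_lit 319)) (XT.nd (nat_lit 78) (nat_lit 988) (nat_lit 0) (XT.lf (nat_lit 0) (nat_lit 2512036249) (nat_lit 988) (nat_lit 2512036249) (nat_lit 76) (nat_lit 2099845719) (nat_lit 430) (nat_lit 5) (nat_lit 443) (nat_lit 5) (nat_lit 431) (nat_lit 5) (nat_lit 362) (nat_lit 340) (nat_lit 318)) (XT.lf (nat_lit 0) (nat_lit 2066555929) (nat_lit 988) (nat_lit 3054451567) (nat_lit 1064) (nat_lit 2066555929) (nat_lit 417) (nat_lit 5) (nat_lit 430) (nat_lit 5) (nat_lit 431) (nat_lit 5) (nat_lit 363) (nat_lit 340) (nat_lit 317))))) (XT.nd (nat_lit 234) (nat_lit 2128) (nat_lit 0) (XT.nd (nat_lit 78) (nat_lit 2204) (nat_lit 0) (XT.lf (nat_lit 0) (nat_lit 492593111) (nat_lit 1064) (nat_lit 492593111) (nat_lit 76) (nat_lit 6269322806) (nat_lit 416) (nat_lit 5) (nat_lit 430) (nat_lit 5) (nat_lit 417) (nat_lit 5) (nat_lit 364) (nat_lit 340) (nat_lit 316)) (XT.nd (nat_lit 78) (nat_lit 1140)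 (nat_lit 0) (XT.lf (nat_lit 0) (nat_lit 3064673114) (nat_lit 1140) (nat_lit 3064673114) (nat_lit 76) (nat_lit 1194172177) (nat_lit 402) (nat_lit 5) (nat_lit 417) (nat_lit 5) (nat_lit 403) (nat_lit 5) (nat_lit 365) (nat_lit 340) (nat_lit 315)) (XT.lf (nat_lit 0) (nat_lit 1724040556) (nat_lit 1140) (nat_lit 3947779804) (nat_lit 1216) (nat_lit 1724040556) (nat_lit 387) (nat_lit 5) (nat_lit 402) (nat_lit 5) (nat_lit 403) (nat_lit 5) (nat_lit 366) (nat_lit 340) (nat_lit 314)))) (XT.nd (nat_lit 78) (nat_lit 2052) (nat_lit 0) (XT.lf (nat_lit 0) (nat_lit 828088507) (nat_lit 1216) (nat_lit 828088507) (nat_lit 76) (nat_lit 5815183404) (nat_lit 386) (nat_lit 5) (nat_lit 402) (nat_lit 5) (nat_lit 387) (nat_lit 5) (nat_lit 367) (nat_lit 340) (nat_lit 313)) (XT.nd (nat_lit 78) (nat_lit 836) (nat_lit 0) (XT.lf (nat_lit 0) (nat_lit 3398914444) (nat_lit 1292) (nat_lit 3398914444) (nat_lit 76) (nat_lit 751480389) (nat_lit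 370) (nat_lit 5) (nat_lit 387) (nat_lit 5) (nat_lit 371) (nat_lit 5) (nat_lit 368) (nat_lit 340) (nat_lit 312)) (XT.lf (nat_lit 0) (nat_lit 1612361550) (nat_lit 836) (nat_lit 4405736515) (nat_lit 912) (nat_lit 1612361550) (nat_lit 359) (nat_lit 5) (nat_lit 370) (nat_lit 5) (nat_lit 371) (nat_lit 5) (nat_lit 369) (nat_lit 340) (nat_lit 311))))))) (XT.nd (nat_lit 936) (nat_lit 3572) (nat_lit 0) (XT.nd (nat_lit 468) (nat_lit 2204) (nat_lit 0) (XT.nd (nat_lit 234) (nat_lit 1216) (nat_lit 0) (XT.nd (nat_lit 78) (nat_lit 1216) (nat_lit 0) (XT.lf (nat_lit 0) (nat_lit 948507459) (nat_lit 912) (nat_lit 948507459) (nat_lit 76) (nat_lit 5817753333) (nat_lit 358) (nat_lit 5) (nat_lit 370) (nat_lit 5) (nat_lit 359) (nat_lit 5) (nat_lit 370) (nat_lit 340) (nat_lit 310)) (XT.nd (nat_lit 78) (nat_lit 608) (nat_lit 0) (XT.lf (nat_lit 0) (nat_lit 3535610155) (nat_lit 684) (nat_lit 3535610155) (nat_lit 76) (nat_lit 730452482)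 (nat_lit 350) (nat_lit 5) (nat_lit 359) (nat_lit 5) (nat_lit 351) (nat_lit 5) (nat_lit 371) (nat_lit 340) (nat_lit 309)) (XT.lf (nat_lit 0) (nat_lit 1711699832) (nat_lit 608) (nat_lit 4468391835) (nat_lit 684) (nat_lit 1711699832) (nat_lit 342) (nat_lit 5) (nat_lit 350) (nat_lit 5) (nat_lit 351) (nat_lit 5) (nat_lit 372) (nat_lit 340) (nat_lit 308)))) (XT.nd (nat_lit 78) (nat_lit 1140) (nat_lit 0) (XT.lf (nat_lit 0) (nat_lit 872881240) (nat_lit 684) (nat_lit 872881240) (nat_lit 76) (nat_lit 6239440397) (nat_lit 341) (nat_lit 5) (nat_lit 350) (nat_lit 5) (nat_lit 342) (nat_lit 5) (nat_lit 373) (nat_lit 340) (nat_lit 307)) (XT.nd (nat_lit 78) (nat_lit 608) (nat_lit 0) (XT.lf (nat_lit 0) (nat_lit 3492895716) (nat_lit 608) (nat_lit 3492895716) (nat_lit 76) (nat_lit 1095347757) (nat_lit 334) (nat_lit 5) (nat_lit 342) (nat_lit 5) (nat_lit 335) (nat_lit 5) (nat_lit 374) (nat_lit 340) (nat_lit 306)) (XT.lf (nat_lit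 0) (nat_lit 2004976278) (nat_lit 608) (nat_lit 4170482585) (nat_lit 684) (nat_lit 2004976278) (nat_lit 326) (nat_lit 5) (nat_lit 334) (nat_lit 5) (nat_lit 335) (nat_lit 5) (nat_lit 375) (nat_lit 340) (nat_lit 305))))) (XT.nd (nat_lit 234) (nat_lit 1064) (nat_lit 0) (XT.nd (nat_lit 78) (nat_lit 1064) (nat_lit 0) (XT.lf (nat_lit 0) (nat_lit 617646388) (nat_lit 684) (nat_lit 617646388) (nat_lit 76) (nat_lit 7047988454) (nat_lit 325) (nat_lit 5) (nat_lit 334) (nat_lit 5) (nat_lit 326) (nat_lit 5) (nat_lit 376) (nat_lit 340) (nat_lit 304)) (XT.nd (nat_lit 78) (nat_lit 532) (nat_lit 0) (XT.lf (nat_lit 0) (nat_lit 3286476255) (nat_lit 608) (nat_lit 3286476255) (nat_lit 76) (nat_lit 1815429858) (nat_lit 318) (nat_lit 5) (nat_lit 326) (nat_lit 5) (nat_lit 319) (nat_lit 5) (nat_lit 377) (nat_lit 340) (nat_lit 303)) (XT.lf (nat_lit 0) (nat_lit 2477573528) (nat_lit 532) (nat_lit 3541964474) (nat_lit 608) (nat_lit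 2477573528) (nat_lit 311) (nat_lit 5) (nat_lit 318) (nat_lit 5) (nat_lit 319) (nat_lit 5) (nat_lit 378) (nat_lit 340) (nat_lit 302)))) (XT.nd (nat_lit 78) (nat_lit 988) (nat_lit 0) (XT.lf (nat_lit 0) (nat_lit 196910258) (nat_lit 608) (nat_lit 196910258) (nat_lit 76) (nat_lit 8215942383) (nat_lit 310) (nat_lit 5) (nat_lit 318) (nat_lit 5) (nat_lit 311) (nat_lit 5) (nat_lit 379) (nat_lit 340) (nat_lit 301)) (XT.nd (nat_lit 78) (nat_lit 532) (nat_lit 0) (XT.lf (nat_lit 0) (nat_lit 2929877706) (nat_lit 532) (nat_lit 2929877706) (nat_lit 76) (nat_lit 2864461109) (nat_lit 304) (nat_lit 5) (nat_lit 311) (nat_lit 5) (nat_lit 305) (nat_lit 5) (nat_lit 380) (nat_lit 340) (nat_lit 300)) (XT.lf (nat_lit 0) (nat_lit 3117090607) (nat_lit 532) (nat_lit 2608499849) (nat_lit 608) (nat_lit 3117090607) (nat_lit 297) (nat_lit 5) (nat_lit 304) (nat_lit 5) (nat_lit 305) (nat_lit 5) (nat_lit 381) (nat_lit 340) (nat_lit 299))))))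 (XT.nd (nat_lit 468) (nat_lit 1672) (nat_lit 0) (XT.nd (nat_lit 234) (nat_lit 912) (nat_lit 0) (XT.nd (nat_lit 78) (nat_lit 532) (nat_lit 0) (XT.lf (nat_lit 0) (nat_lit 373615473) (nat_lit 456) (nat_lit 8217878998) (nat_lit 532) (nat_lit 373615473) (nat_lit 291) (nat_lit 5) (nat_lit 297) (nat_lit 5) (nat_lit 298) (nat_lit 5) (nat_lit 382) (nat_lit 340) (nat_lit 298)) (XT.nd (nat_lit 78) (nat_lit 456) (nat_lit 0) (XT.lf (nat_lit 0) (nat_lit 2434668594) (nat_lit 532) (nat_lit 2434668594) (nat_lit 76) (nat_lit 4220256695) (nat_lit 290) (nat_lit 5) (nat_lit 297) (nat_lit 5) (nat_lit 291) (nat_lit 5) (nat_lit 383) (nat_lit 340) (nat_lit 297)) (XT.lf (nat_lit 0) (nat_lit 3913126840) (nat_lit 456) (nat_lit 1391887999) (nat_lit 532) (nat_lit 3913126840) (nat_lit 284) (nat_lit 5) (nat_lit 290) (nat_lit 5) (nat_lit 291) (nat_lit 5) (nat_lit 384) (nat_lit 340) (nat_lit 296)))) (XT.nd (nat_lit 78) (nat_lit 532)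 (nat_lit 0) (XT.lf (nat_lit 0) (nat_lit 1084169750) (nat_lit 380) (nat_lit 7182063552) (nat_lit 456) (nat_lit 1084169750) (nat_lit 279) (nat_lit 5) (nat_lit 284) (nat_lit 5) (nat_lit 285) (nat_lit 5) (nat_lit 385) (nat_lit 340) (nat_lit 295)) (XT.nd (nat_lit 78) (nat_lit 456) (nat_lit 0) (XT.lf (nat_lit 0) (nat_lit 1810655649) (nat_lit 456) (nat_lit 1810655649) (nat_lit 76) (nat_lit 5864292252) (nat_lit 278) (nat_lit 5) (nat_lit 284) (nat_lit 5) (nat_lit 279) (nat_lit 5) (nat_lit 386) (nat_lit 340) (nat_lit 294)) (XT.lf (nat_lit 0) (nat_lit 4768396985) (nat_lit 532) (nat_lit 4768396985) (nat_lit 76) (nat_lit 87808204) (nat_lit 272) (nat_lit 5) (nat_lit 279) (nat_lit 5) (nat_lit 273) (nat_lit 5) (nat_lit 387) (nat_lit 340) (nat_lit 293))))) (XT.nd (nat_lit 234) (nat_lit 836) (nat_lit 0) (XT.nd (nat_lit 78) (nat_lit 456) (nat_lit 0) (XT.lf (nat_lit 0) (nat_lit 1928348008) (nat_lit 380) (nat_lit 5910359629)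 (nat_lit 456) (nat_lit 1928348008) (nat_lit 267) (nat_lit 5) (nat_lit 272) (nat_lit 5) (nat_lit 273) (nat_lit 5) (nat_lit 388) (nat_lit 340) (nat_lit 292)) (XT.nd (nat_lit 78) (nat_lit 380) (nat_lit 0) (XT.lf (nat_lit 0) (nat_lit 1066056097) (nat_lit 456) (nat_lit 1066056097) (nat_lit 76) (nat_lit 7781359085) (nat_lit 266) (nat_lit 5) (nat_lit 272) (nat_lit 5) (nat_lit 267) (nat_lit 5) (nat_lit 389) (nat_lit 340) (nat_lit 291)) (XT.lf (nat_lit 0) (nat_lit 4138873751) (nat_lit 456) (nat_lit 4138873751) (nat_lit 76) (nat_lit 1785138921) (nat_lit 261) (nat_lit 5) (nat_lit 267) (nat_lit 5) (nat_lit 262) (nat_lit 5) (nat_lit 390) (nat_lit 340) (nat_lit 290)))) (XT.nd (nat_lit 78) (nat_lit 456) (nat_lit 0) (XT.lf (nat_lit 0) (nat_lit 2899347085) (nat_lit 380) (nat_lit 4417694873) (nat_lit 456) (nat_lit 2899347085) (nat_lit 256) (nat_lit 5) (nat_lit 261) (nat_lit 5) (nat_lit 262) (nat_lit 5) (nat_lit 391) (nat_lit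 340) (nat_lit 289)) (XT.nd (nat_lit 78) (nat_lit 380) (nat_lit 0) (XT.lf (nat_lit 0) (nat_lit 207649129) (nat_lit 456) (nat_lit 207649129) (nat_lit 76) (nat_lit 9959261973) (nat_lit 255) (nat_lit 5) (nat_lit 261) (nat_lit 5) (nat_lit 256) (nat_lit 5) (nat_lit 392) (nat_lit 340) (nat_lit 288)) (XT.lf (nat_lit 0) (nat_lit 3409805181) (nat_lit 456) (nat_lit 3409805181) (nat_lit 76) (nat_lit 3715198282) (nat_lit 250) (nat_lit 5) (nat_lit 256) (nat_lit 5) (nat_lit 251) (nat_lit 5) (nat_lit 393) (nat_lit 340) (nat_lit 287))))))))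
noncomputable def xc51 : XT := (XT.nd (nat_lit 1872) (nat_lit 2432) (nat_lit 0) (XT.nd (nat_lit 936) (nat_lit 2128) (nat_lit 0) (XT.nd (nat_lit 468) (nat_lit 1444) (nat_lit 0) (XT.nd (nat_lit 234) (nat_lit 684) (nat_lit 0) (XT.nd (nat_lit 78) (nat_lit 456) (nat_lit 0) (XT.lf (nat_lit 0) (nat_lit 3991757316) (nat_lit 304) (nat_lit 2716347510) (nat_lit 380) (nat_lit 3991757316) (nat_lit 246) (nat_lit 5) (nat_lit 250) (nat_lit 5) (nat_lit 251) (nat_lit 5) (nat_lit 394) (nat_lit 340) (nat_lit 286)) (XT.nd (nat_lit 78) (nat_lit 76) (nat_lit 0) (XT.lf (nat_lit 0) (nat_lit 751649143) (nat_lit 380) (nat_lit 9366194261) (nat_lit 456) (nat_lit 751649143) (nat_lit 241) (nat_lit 5) (nat_lit 246) (nat_lit 5) (nat_lit 247) (nat_lit 5) (nat_lit 395) (nat_lit 340) (nat_lit 285)) (XT.lf (nat_lit 0) (nat_lit 2586724968) (nat_lit 456) (nat_lit 2586724968) (nat_lit 76) (nat_lit 5868470732) (nat_lit 240) (nat_lit 5) (nat_lit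 246) (nat_lit 5) (nat_lit 241) (nat_lit 5) (nat_lit 396) (nat_lit 340) (nat_lit 284)))) (XT.nd (nat_lit 78) (nat_lit 380) (nat_lit 0) (XT.lf (nat_lit 0) (nat_lit 5201441684) (nat_lit 304) (nat_lit 816190327) (nat_lit 380) (nat_lit 5201441684) (nat_lit 236) (nat_lit 5) (nat_lit 240) (nat_lit 5) (nat_lit 241) (nat_lit 5) (nat_lit 397) (nat_lit 340) (nat_lit 283)) (XT.nd (nat_lit 78) (nat_lit 76) (nat_lit 0) (XT.lf (nat_lit 0) (nat_lit 1811939786) (nat_lit 304) (nat_lit 7776551006) (nat_lit 380) (nat_lit 1811939786) (nat_lit 232) (nat_lit 5) (nat_lit 236) (nat_lit 5) (nat_lit 237) (nat_lit 5) (nat_lit 398) (nat_lit 340) (nat_lit 282)) (XT.lf (nat_lit 0) (nat_lit 1674071752) (nat_lit 380) (nat_lit 1674071752) (nat_lit 76) (nat_lit 8237772623) (nat_lit 231) (nat_lit 5) (nat_lit 236) (nat_lit 5) (nat_lit 232) (nat_lit 5) (nat_lit 399) (nat_lit 340) (nat_lit 281))))) (XT.nd (nat_lit 234) (nat_lit 760) (nat_lit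 0) (XT.nd (nat_lit 78) (nat_lit 380) (nat_lit 0) (XT.lf (nat_lit 0) (nat_lit 5262591711) (nat_lit 380) (nat_lit 5262591711) (nat_lit 76) (nat_lit 1250214233) (nat_lit 227) (nat_lit 5) (nat_lit 232) (nat_lit 5) (nat_lit 228) (nat_lit 5) (nat_lit 400) (nat_lit 340) (nat_lit 280)) (XT.nd (nat_lit 78) (nat_lit 76) (nat_lit 0) (XT.lf (nat_lit 0) (nat_lit 2972092265) (nat_lit 304) (nat_lit 6025222666) (nat_lit 380) (nat_lit 2972092265) (nat_lit 223) (nat_lit 5) (nat_lit 227) (nat_lit 5) (nat_lit 228) (nat_lit 5) (nat_lit 401) (nat_lit 340) (nat_lit 279)) (XT.lf (nat_lit 0) (nat_lit 675286172) (nat_lit 380) (nat_lit 675286172) (nat_lit 76) (nat_lit 10818061712) (nat_lit 222) (nat_lit 5) (nat_lit 227) (nat_lit 5) (nat_lit 223) (nat_lit 5) (nat_lit 402) (nat_lit 340) (nat_lit 278)))) (XT.nd (nat_lit 78) (nat_lit 532) (nat_lit 0) (XT.lf (nat_lit 0) (nat_lit 4444136902) (nat_lit 304) (nat_lit 4444136902) (nat_lit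 76) (nat_lit 3482527509) (nat_lit 219) (nat_lit 5) (nat_lit 223) (nat_lit 5) (nat_lit 220) (nat_lit 5) (nat_lit 403) (nat_lit 340) (nat_lit 277)) (XT.nd (nat_lit 78) (nat_lit 228) (nat_lit 0) (XT.lf (nat_lit 0) (nat_lit 4229929898) (nat_lit 304) (nat_lit 4118502414) (nat_lit 380) (nat_lit 4229929898) (nat_lit 215) (nat_lit 5) (nat_lit 219) (nat_lit 5) (nat_lit 220) (nat_lit 5) (nat_lit 404) (nat_lit 340) (nat_lit 276)) (XT.lf (nat_lit 0) (nat_lit 403113325) (nat_lit 228) (nat_lit 11985364642) (nat_lit 304) (nat_lit 403113325) (nat_lit 212) (nat_lit 5) (nat_lit 215) (nat_lit 5) (nat_lit 216) (nat_lit 5) (nat_lit 405) (nat_lit 340) (nat_lit 275)))))) (XT.nd (nat_lit 468) (nat_lit 988) (nat_lit 0) (XT.nd (nat_lit 234) (nat_lit 532) (nat_lit 0) (XT.nd (nat_lit 78) (nat_lit 532) (nat_lit 0) (XT.lf (nat_lit 0) (nat_lit 3557320017) (nat_lit 304) (nat_lit 3557320017) (nat_lit 76) (nat_lit 5892920947) (nat_lit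 211) (nat_lit 5) (nat_lit 215) (nat_lit 5) (nat_lit 212) (nat_lit 5) (nat_lit 406) (nat_lit 340) (nat_lit 274)) (XT.nd (nat_lit 78) (nat_lit 228) (nat_lit 0) (XT.lf (nat_lit 0) (nat_lit 5584190255) (nat_lit 304) (nat_lit 2061007505) (nat_lit 380) (nat_lit 5584190255) (nat_lit 207) (nat_lit 5) (nat_lit 211) (nat_lit 5) (nat_lit 212) (nat_lit 5) (nat_lit 407) (nat_lit 340) (nat_lit 273)) (XT.lf (nat_lit 0) (nat_lit 1556007177) (nat_lit 228) (nat_lit 10344511306) (nat_lit 304) (nat_lit 1556007177) (nat_lit 204) (nat_lit 5) (nat_lit 207) (nat_lit 5) (nat_lit 208) (nat_lit 5) (nat_lit 408) (nat_lit 340) (nat_lit 272)))) (XT.nd (nat_lit 78) (nat_lit 456) (nat_lit 0) (XT.lf (nat_lit 0) (nat_lit 2604281428) (nat_lit 304) (nat_lit 2604281428) (nat_lit 76) (nat_lit 8479311031) (nat_lit 203) (nat_lit 5) (nat_lit 207) (nat_lit 5) (nat_lit 204) (nat_lit 5) (nat_lit 409) (nat_lit 340) (nat_lit 271)) (XT.nd (nat_lit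 78) (nat_lit 228) (nat_lit 0) (XT.lf (nat_lit 0) (nat_lit 6891660832) (nat_lit 304) (nat_lit 6891660832) (nat_lit 76) (nat_lit 141372027) (nat_lit 200) (nat_lit 5) (nat_lit 204) (nat_lit 5) (nat_lit 201) (nat_lit 5) (nat_lit 410) (nat_lit 340) (nat_lit 270)) (XT.lf (nat_lit 0) (nat_lit 2789114168) (nat_lit 228) (nat_lit 8588297259) (nat_lit 304) (nat_lit 2789114168) (nat_lit 197) (nat_lit 5) (nat_lit 200) (nat_lit 5) (nat_lit 201) (nat_lit 5) (nat_lit 411) (nat_lit 340) (nat_lit 269))))) (XT.nd (nat_lit 234) (nat_lit 456) (nat_lit 0) (XT.nd (nat_lit 78) (nat_lit 456) (nat_lit 0) (XT.lf (nat_lit 0) (nat_lit 1586465467) (nat_lit 304) (nat_lit 1586465467) (nat_lit 76) (nat_lit 11241168781) (nat_lit 196) (nat_lit 5) (nat_lit 200) (nat_lit 5) (nat_lit 197) (nat_lit 5) (nat_lit 412) (nat_lit 340) (nat_lit 268)) (XT.nd (nat_lit 78) (nat_lit 228) (nat_lit 0) (XT.lf (nat_lit 0) (nat_lit 6109684902) (nat_lit 304)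 (nat_lit 6109684902) (nat_lit 76) (nat_lit 2446729882) (nat_lit 193) (nat_lit 5) (nat_lit 197) (nat_lit 5) (nat_lit 194) (nat_lit 5) (nat_lit 413) (nat_lit 340) (nat_lit 267)) (XT.lf (nat_lit 0) (nat_lit 4102247813) (nat_lit 228) (nat_lit 6719567596) (nat_lit 304) (nat_lit 4102247813) (nat_lit 190) (nat_lit 5) (nat_lit 193) (nat_lit 5) (nat_lit 194) (nat_lit 5) (nat_lit 414) (nat_lit 340) (nat_lit 266)))) (XT.nd (nat_lit 78) (nat_lit 380) (nat_lit 0) (XT.lf (nat_lit 0) (nat_lit 504673784) (nat_lit 304) (nat_lit 504673784) (nat_lit 76) (nat_lit 14179419945) (nat_lit 189) (nat_lit 5) (nat_lit 193) (nat_lit 5) (nat_lit 190) (nat_lit 5) (nat_lit 415) (nat_lit 340) (nat_lit 265)) (XT.nd (nat_lit 78) (nat_lit 152) (nat_lit 0) (XT.lf (nat_lit 0) (nat_lit 5280912879) (nat_lit 304) (nat_lit 5280912879) (nat_lit 76) (nat_lit 4894961856) (nat_lit 186) (nat_lit 5) (nat_lit 190) (nat_lit 5) (nat_lit 187) (nat_lit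 5) (nat_lit 416) (nat_lit 340) (nat_lit 264)) (XT.lf (nat_lit 0) (nat_lit 5495891031) (nat_lit 152) (nat_lit 4740002620) (nat_lit 228) (nat_lit 5495891031) (nat_lit 184) (nat_lit 5) (nat_lit 186) (nat_lit 5) (nat_lit 187) (nat_lit 5) (nat_lit 417) (nat_lit 340) (nat_lit 263))))))) (XT.nd (nat_lit 936) (nat_lit 760) (nat_lit 0) (XT.nd (nat_lit 468) (nat_lit 760) (nat_lit 0) (XT.nd (nat_lit 234) (nat_lit 456) (nat_lit 0) (XT.nd (nat_lit 78) (nat_lit 228) (nat_lit 0) (XT.lf (nat_lit 0) (nat_lit 634605602) (nat_lit 228) (nat_lit 14744629133) (nat_lit 304) (nat_lit 634605602) (nat_lit 181) (nat_lit 5) (nat_lit 184) (nat_lit 5) (nat_lit 185) (nat_lit 5) (nat_lit 418) (nat_lit 340) (nat_lit 262)) (XT.nd (nat_lit 78) (nat_lit 152) (nat_lit 0) (XT.lf (nat_lit 0) (nat_lit 4406281667) (nat_lit 304) (nat_lit 4406281667) (nat_lit 76) (nat_lit 7486960781) (nat_lit 180) (nat_lit 5) (nat_lit 184) (nat_lit 5) (nat_lit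 181) (nat_lit 5) (nat_lit 419) (nat_lit 340) (nat_lit 261)) (XT.lf (nat_lit 0) (nat_lit 6971157643) (nat_lit 152) (nat_lit 2650203023) (nat_lit 228) (nat_lit 6971157643) (nat_lit 178) (nat_lit 5) (nat_lit 180) (nat_lit 5) (nat_lit 181) (nat_lit 5) (nat_lit 420) (nat_lit 340) (nat_lit 260)))) (XT.nd (nat_lit 78) (nat_lit 228) (nat_lit 0) (XT.lf (nat_lit 0) (nat_lit 1832432483) (nat_lit 228) (nat_lit 13227428300) (nat_lit 304) (nat_lit 1832432483) (nat_lit 175) (nat_lit 5) (nat_lit 178) (nat_lit 5) (nat_lit 179) (nat_lit 5) (nat_lit 421) (nat_lit 340) (nat_lit 259)) (XT.nd (nat_lit 78) (nat_lit 152) (nat_lit 0) (XT.lf (nat_lit 0) (nat_lit 3486249977) (nat_lit 304) (nat_lit 3486249977) (nat_lit 76) (nat_lit 10224763952) (nat_lit 174) (nat_lit 5) (nat_lit 178) (nat_lit 5) (nat_lit 175) (nat_lit 5) (nat_lit 422) (nat_lit 340) (nat_lit 258)) (XT.lf (nat_lit 0) (nat_lit 8529760458) (nat_lit 152) (nat_lit 449762656)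 (nat_lit 228) (nat_lit 8529760458) (nat_lit 172) (nat_lit 5) (nat_lit 174) (nat_lit 5) (nat_lit 175) (nat_lit 5) (nat_lit 423) (nat_lit 340) (nat_lit 257))))) (XT.nd (nat_lit 234) (nat_lit 380) (nat_lit 0) (XT.nd (nat_lit 78) (nat_lit 228) (nat_lit 0) (XT.lf (nat_lit 0) (nat_lit 3094623947) (nat_lit 152) (nat_lit 11638548589) (nat_lit 228) (nat_lit 3094623947) (nat_lit 170) (nat_lit 5) (nat_lit 172) (nat_lit 5) (nat_lit 173) (nat_lit 5) (nat_lit 424) (nat_lit 340) (nat_lit 256)) (XT.nd (nat_lit 78) (nat_lit 152) (nat_lit 0) (XT.lf (nat_lit 0) (nat_lit 2520832179) (nat_lit 228) (nat_lit 2520832179) (nat_lit 76) (nat_lit 13111494878) (nat_lit 169) (nat_lit 5) (nat_lit 172) (nat_lit 5) (nat_lit 170) (nat_lit 5) (nat_lit 425) (nat_lit 340) (nat_lit 255)) (XT.lf (nat_lit 0) (nat_lit 8329220566) (nat_lit 228) (nat_lit 8329220566) (nat_lit 76) (nat_lit 1826322518) (nat_lit 167) (nat_lit 5) (nat_lit 170) (nat_lit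 5) (nat_lit 168) (nat_lit 5) (nat_lit 426) (nat_lit 340) (nat_lit 254)))) (XT.nd (nat_lit 78) (nat_lit 228) (nat_lit 0) (XT.lf (nat_lit 0) (nat_lit 4422541957) (nat_lit 152) (nat_lit 9978555187) (nat_lit 228) (nat_lit 4422541957) (nat_lit 165) (nat_lit 5) (nat_lit 167) (nat_lit 5) (nat_lit 168) (nat_lit 5) (nat_lit 427) (nat_lit 340) (nat_lit 253)) (XT.nd (nat_lit 78) (nat_lit 152) (nat_lit 0) (XT.lf (nat_lit 0) (nat_lit 1509627099) (nat_lit 228) (nat_lit 1509627099) (nat_lit 76) (nat_lit 16151315937) (nat_lit 164) (nat_lit 5) (nat_lit 167) (nat_lit 5) (nat_lit 165) (nat_lit 5) (nat_lit 428) (nat_lit 340) (nat_lit 252)) (XT.lf (nat_lit 0) (nat_lit 7658562618) (nat_lit 228) (nat_lit 7658562618) (nat_lit 76) (nat_lit 4205639535) (nat_lit 162) (nat_lit 5) (nat_lit 165) (nat_lit 5) (nat_lit 163) (nat_lit 5) (nat_lit 429) (nat_lit 340) (nat_lit 251)))))) (XT.nd (nat_lit 46176) (nat_lit 0) (nat_lit 26980)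 (XT.nd (nat_lit 234) (nat_lit 380) (nat_lit 0) (XT.nd (nat_lit 78) (nat_lit 228) (nat_lit 0) (XT.lf (nat_lit 0) (nat_lit 5818019030) (nat_lit 152) (nat_lit 8247286992) (nat_lit 228) (nat_lit 5818019030) (nat_lit 160) (nat_lit 5) (nat_lit 162) (nat_lit 5) (nat_lit 163) (nat_lit 5) (nat_lit 430) (nat_lit 340) (nat_lit 250)) (XT.nd (nat_lit 78) (nat_lit 152) (nat_lit 0) (XT.lf (nat_lit 0) (nat_lit 451842257) (nat_lit 228) (nat_lit 451842257) (nat_lit 76) (nat_lit 19349390987) (nat_lit 159) (nat_lit 5) (nat_lit 162) (nat_lit 5) (nat_lit 160) (nat_lit 5) (nat_lit 431) (nat_lit 340) (nat_lit 249)) (XT.lf (nat_lit 0) (nat_lit 6963534383) (nat_lit 228) (nat_lit 6963534383) (nat_lit 76) (nat_lit 6700001431) (nat_lit 157) (nat_lit 5) (nat_lit 160) (nat_lit 5) (nat_lit 158) (nat_lit 5) (nat_lit 432) (nat_lit 340) (nat_lit 248)))) (XT.nd (nat_lit 78) (nat_lit 228) (nat_lit 0) (XT.lf (nat_lit 0) (nat_lit 7283340685)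 (nat_lit 152) (nat_lit 6443903361) (nat_lit 228) (nat_lit 7283340685) (nat_lit 155) (nat_lit 5) (nat_lit 157) (nat_lit 5) (nat_lit 158) (nat_lit 5) (nat_lit 433) (nat_lit 340) (nat_lit 247)) (XT.nd (nat_lit 78) (nat_lit 76) (nat_lit 0) (XT.lf (nat_lit 0) (nat_lit 647277360) (nat_lit 152) (nat_lit 20109172436) (nat_lit 228) (nat_lit 647277360) (nat_lit 153) (nat_lit 5) (nat_lit 155) (nat_lit 5) (nat_lit 156) (nat_lit 4) (nat_lit 434) (nat_lit 340) (nat_lit 246)) (XT.lf (nat_lit 0) (nat_lit 6244160777) (nat_lit 228) (nat_lit 6244160777) (nat_lit 76) (nat_lit 9313246639) (nat_lit 152) (nat_lit 5) (nat_lit 155) (nat_lit 5) (nat_lit 153) (nat_lit 5) (nat_lit 435) (nat_lit 340) (nat_lit 245))))) (XT.nd (nat_lit 234) (nat_lit 532) (nat_lit 0) (XT.nd (nat_lit 78) (nat_lit 228) (nat_lit 0) (XT.lf (nat_lit 0) (nat_lit 1579492006) (nat_lit 0) (nat_lit 1579492006) (nat_lit 76) (nat_lit 64108703) (nat_lit 517) (nat_lit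 5) (nat_lit 517) (nat_lit 3) (nat_lit 518) (nat_lit 0) (nat_lit 341) (nat_lit 341) (nat_lit 338)) (XT.nd (nat_lit 78) (nat_lit 0) (nat_lit 0) (XT.lf (nat_lit 0) (nat_lit 2908712798) (nat_lit 228) (nat_lit 62857711) (nat_lit 228) (nat_lit 3480255814) (nat_lit 514) (nat_lit 3) (nat_lit 517) (nat_lit 3) (nat_lit 517) (nat_lit 5) (nat_lit 342) (nat_lit 341) (nat_lit 337)) (XT.lf (nat_lit 76) (nat_lit 3259524996) (nat_lit 0) (nat_lit 2687482574) (nat_lit 228) (nat_lit 513205776) (nat_lit 515) (nat_lit 5) (nat_lit 514) (nat_lit 3) (nat_lit 517) (nat_lit 5) (nat_lit 343) (nat_lit 341) (nat_lit 336)))) (XT.nd (nat_lit 78) (nat_lit 304) (nat_lit 0) (XT.lf (nat_lit 76) (nat_lit 128721855) (nat_lit 0) (nat_lit 2313098941) (nat_lit 304) (nat_lit 4029726052) (nat_lit 512) (nat_lit 5) (nat_lit 511) (nat_lit 5) (nat_lit 515) (nat_lit 5) (nat_lit 344) (nat_lit 341) (nat_lit 335)) (XT.nd (nat_lit 78) (nat_lit 304) (nat_lit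 0) (XT.lf (nat_lit 76) (nat_lit 3556305575) (nat_lit 0) (nat_lit 1837179249) (nat_lit 304) (nat_lit 1092034046) (nat_lit 512) (nat_lit 5) (nat_lit 511) (nat_lit 5) (nat_lit 515) (nat_lit 5) (nat_lit 345) (nat_lit 341) (nat_lit 334)) (XT.lf (nat_lit 76) (nat_lit 515730229) (nat_lit 0) (nat_lit 1273535498) (nat_lit 380) (nat_lit 4713290299) (nat_lit 508) (nat_lit 5) (nat_lit 507) (nat_lit 5) (nat_lit 512) (nat_lit 5) (nat_lit 346) (nat_lit 341) (nat_lit 333))))))))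
noncomputable def xc52 : XT := (XT.nd (nat_lit 1794) (nat_lit 9120) (nat_lit 0) (XT.nd (nat_lit 858) (nat_lit 7220) (nat_lit 0) (XT.nd (nat_lit 390) (nat_lit 2432) (nat_lit 0) (XT.nd (nat_lit 156) (nat_lit 456) (nat_lit 0) (XT.nd (nat_lit 78) (nat_lit 304) (nat_lit 0) (XT.lf (nat_lit 76) (nat_lit 4051102390) (nat_lit 0) (nat_lit 604340614) (nat_lit 380) (nat_lit 1866725304) (nat_lit 508) (nat_lit 5) (nat_lit 507) (nat_lit 5) (nat_lit 512) (nat_lit 5) (nat_lit 347) (nat_lit 341) (nat_lit 332)) (XT.lf (nat_lit 0) (nat_lit 949510058) (nat_lit 380) (nat_lit 5447293772) (nat_lit 76) (nat_lit 148106138) (nat_lit 503) (nat_lit 5) (nat_lit 508) (nat_lit 5) (nat_lit 504) (nat_lit 5) (nat_lit 348) (nat_lit 341) (nat_lit 331))) (XT.nd (nat_lit 78) (nat_lit 456) (nat_lit 0) (XT.lf (nat_lit 0) (nat_lit 3739873237) (nat_lit 380) (nat_lit 1833481915) (nat_lit 76) (nat_lit 996609450) (nat_lit 503) (nat_lit 5) (nat_lit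 508) (nat_lit 5) (nat_lit 504) (nat_lit 5) (nat_lit 349) (nat_lit 341) (nat_lit 330)) (XT.nd (nat_lit 78) (nat_lit 76) (nat_lit 0) (XT.lf (nat_lit 0) (nat_lit 1861776425) (nat_lit 380) (nat_lit 4669073765) (nat_lit 456) (nat_lit 67413599) (nat_lit 498) (nat_lit 5) (nat_lit 503) (nat_lit 5) (nat_lit 504) (nat_lit 5) (nat_lit 350) (nat_lit 341) (nat_lit 329)) (XT.lf (nat_lit 0) (nat_lit 2642999418) (nat_lit 456) (nat_lit 1012928082) (nat_lit 76) (nat_lit 2973111299) (nat_lit 497) (nat_lit 5) (nat_lit 503) (nat_lit 5) (nat_lit 498) (nat_lit 5) (nat_lit 351) (nat_lit 341) (nat_lit 328))))) (XT.nd (nat_lit 234) (nat_lit 1368) (nat_lit 0) (XT.nd (nat_lit 78) (nat_lit 608) (nat_lit 0) (XT.lf (nat_lit 0) (nat_lit 2813801088) (nat_lit 456) (nat_lit 2549887291) (nat_lit 532) (nat_lit 1299119102) (nat_lit 491) (nat_lit 5) (nat_lit 497) (nat_lit 5) (nat_lit 498) (nat_lit 5) (nat_lit 352) (nat_lit 341) (nat_lit 327))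 (XT.nd (nat_lit 78) (nat_lit 0) (nat_lit 0) (XT.lf (nat_lit 0) (nat_lit 547043) (nat_lit 532) (nat_lit 1354097530) (nat_lit 608) (nat_lit 5345074499) (nat_lit 483) (nat_lit 5) (nat_lit 490) (nat_lit 5) (nat_lit 491) (nat_lit 5) (nat_lit 353) (nat_lit 341) (nat_lit 326)) (XT.lf (nat_lit 0) (nat_lit 3967936519) (nat_lit 532) (nat_lit 39439768) (nat_lit 608) (nat_lit 2731611865) (nat_lit 483) (nat_lit 5) (nat_lit 490) (nat_lit 5) (nat_lit 491) (nat_lit 5) (nat_lit 354) (nat_lit 341) (nat_lit 325)))) (XT.nd (nat_lit 78) (nat_lit 760) (nat_lit 0) (XT.lf (nat_lit 0) (nat_lit 1221530981) (nat_lit 608) (nat_lit 5452258450) (nat_lit 684) (nat_lit 107622888) (nat_lit 475) (nat_lit 5) (nat_lit 483) (nat_lit 5) (nat_lit 484) (nat_lit 5) (nat_lit 355) (nat_lit 341) (nat_lit 324)) (XT.nd (nat_lit 78) (nat_lit 684) (nat_lit 0) (XT.lf (nat_lit 0) (nat_lit 2483956997) (nat_lit 684) (nat_lit 1524909392) (nat_lit 76) (nat_lit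 2817309134) (nat_lit 474) (nat_lit 5) (nat_lit 483) (nat_lit 5) (nat_lit 475) (nat_lit 5) (nat_lit 356) (nat_lit 341) (nat_lit 323)) (XT.lf (nat_lit 0) (nat_lit 2617312077) (nat_lit 684) (nat_lit 2472425556) (nat_lit 760) (nat_lit 1784353529) (nat_lit 465) (nat_lit 5) (nat_lit 474) (nat_lit 5) (nat_lit 475) (nat_lit 5) (nat_lit 357) (nat_lit 341) (nat_lit 322)))))) (XT.nd (nat_lit 468) (nat_lit 3572) (nat_lit 0) (XT.nd (nat_lit 234) (nat_lit 1976) (nat_lit 0) (XT.nd (nat_lit 78) (nat_lit 1596) (nat_lit 0) (XT.lf (nat_lit 0) (nat_lit 763739751) (nat_lit 760) (nat_lit 81131190) (nat_lit 76) (nat_lit 6080425625) (nat_lit 464) (nat_lit 5) (nat_lit 474) (nat_lit 5) (nat_lit 465) (nat_lit 5) (nat_lit 358) (nat_lit 341) (nat_lit 321)) (XT.nd (nat_lit 78) (nat_lit 836) (nat_lit 0) (XT.lf (nat_lit 0) (nat_lit 3318775563) (nat_lit 836) (nat_lit 2766038733) (nat_lit 76) (nat_lit 893702927) (nat_lit 454) (nat_lit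 5) (nat_lit 465) (nat_lit 5) (nat_lit 455) (nat_lit 5) (nat_lit 359) (nat_lit 341) (nat_lit 320)) (XT.lf (nat_lit 0) (nat_lit 1560333516) (nat_lit 836) (nat_lit 4333340080) (nat_lit 912) (nat_lit 1141364568) (nat_lit 443) (nat_lit 5) (nat_lit 454) (nat_lit 5) (nat_lit 455) (nat_lit 5) (nat_lit 360) (nat_lit 341) (nat_lit 319)))) (XT.nd (nat_lit 78) (nat_lit 1900) (nat_lit 0) (XT.lf (nat_lit 0) (nat_lit 1372402516) (nat_lit 912) (nat_lit 1099404429) (nat_lit 76) (nat_lit 4622583397) (nat_lit 442) (nat_lit 5) (nat_lit 454) (nat_lit 5) (nat_lit 443) (nat_lit 5) (nat_lit 361) (nat_lit 341) (nat_lit 318)) (XT.nd (nat_lit 78) (nat_lit 988) (nat_lit 0) (XT.lf (nat_lit 0) (nat_lit 3398138668) (nat_lit 912) (nat_lit 495474766) (nat_lit 988) (nat_lit 3262921499) (nat_lit 430) (nat_lit 5) (nat_lit 442) (nat_lit 5) (nat_lit 443) (nat_lit 5) (nat_lit 362) (nat_lit 341) (nat_lit 317)) (XT.lf (nat_lit 0) (nat_lit 767189380)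 (nat_lit 988) (nat_lit 5680743750) (nat_lit 1064) (nat_lit 773886558) (nat_lit 417) (nat_lit 5) (nat_lit 430) (nat_lit 5) (nat_lit 431) (nat_lit 5) (nat_lit 363) (nat_lit 341) (nat_lit 316))))) (XT.nd (nat_lit 234) (nat_lit 1292) (nat_lit 0) (XT.nd (nat_lit 78) (nat_lit 2204) (nat_lit 0) (XT.lf (nat_lit 0) (nat_lit 1723057603) (nat_lit 1064) (nat_lit 1871474063) (nat_lit 76) (nat_lit 3694970255) (nat_lit 416) (nat_lit 5) (nat_lit 430) (nat_lit 5) (nat_lit 417) (nat_lit 5) (nat_lit 364) (nat_lit 341) (nat_lit 315)) (XT.nd (nat_lit 78) (nat_lit 1140) (nat_lit 0) (XT.lf (nat_lit 0) (nat_lit 2832070375) (nat_lit 1064) (nat_lit 1401625561) (nat_lit 1140) (nat_lit 3126658612) (nat_lit 402) (nat_lit 5) (nat_lit 416) (nat_lit 5) (nat_lit 417) (nat_lit 5) (nat_lit 365) (nat_lit 341) (nat_lit 314)) (XT.lf (nat_lit 0) (nat_lit 211739509) (nat_lit 1140) (nat_lit 6565966976) (nat_lit 1216) (nat_lit 656884676) (nat_lit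 387) (nat_lit 5) (nat_lit 402) (nat_lit 5) (nat_lit 403) (nat_lit 5) (nat_lit 366) (nat_lit 341) (nat_lit 313)))) (XT.nd (nat_lit 78) (nat_lit 1216) (nat_lit 0) (XT.lf (nat_lit 0) (nat_lit 1839665641) (nat_lit 1216) (nat_lit 2422402344) (nat_lit 76) (nat_lit 3248757573) (nat_lit 386) (nat_lit 5) (nat_lit 402) (nat_lit 5) (nat_lit 387) (nat_lit 5) (nat_lit 367) (nat_lit 341) (nat_lit 312)) (XT.nd (nat_lit 78) (nat_lit 0) (nat_lit 0) (XT.lf (nat_lit 0) (nat_lit 2499238882) (nat_lit 1216) (nat_lit 1854197955) (nat_lit 1292) (nat_lit 3237049223) (nat_lit 370) (nat_lit 5) (nat_lit 386) (nat_lit 5) (nat_lit 387) (nat_lit 5) (nat_lit 368) (nat_lit 341) (nat_lit 311)) (XT.lf (nat_lit 0) (nat_lit 6906245611) (nat_lit 1292) (nat_lit 126363256) (nat_lit 76) (nat_lit 641018776) (nat_lit 370) (nat_lit 5) (nat_lit 387) (nat_lit 5) (nat_lit 371) (nat_lit 5) (nat_lit 369) (nat_lit 341) (nat_lit 310))))))) (XT.nd (nat_lit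 936) (nat_lit 3572) (nat_lit 0) (XT.nd (nat_lit 468) (nat_lit 2812) (nat_lit 0) (XT.nd (nat_lit 234) (nat_lit 1216) (nat_lit 0) (XT.nd (nat_lit 78) (nat_lit 608) (nat_lit 0) (XT.lf (nat_lit 0) (nat_lit 1743025232) (nat_lit 912) (nat_lit 2774145436) (nat_lit 76) (nat_lit 3241541133) (nat_lit 358) (nat_lit 5) (nat_lit 370) (nat_lit 5) (nat_lit 359) (nat_lit 5) (nat_lit 370) (nat_lit 341) (nat_lit 309)) (XT.nd (nat_lit 78) (nat_lit 0) (nat_lit 0) (XT.lf (nat_lit 0) (nat_lit 2378708462) (nat_lit 608) (nat_lit 1894275898) (nat_lit 684) (nat_lit 3574346289) (nat_lit 350) (nat_lit 5) (nat_lit 358) (nat_lit 5) (nat_lit 359) (nat_lit 5) (nat_lit 371) (nat_lit 341) (nat_lit 308)) (XT.lf (nat_lit 0) (nat_lit 6851647356) (nat_lit 684) (nat_lit 269237303) (nat_lit 76) (nat_lit 818539251) (nat_lit 350) (nat_lit 5) (nat_lit 359) (nat_lit 5) (nat_lit 351) (nat_lit 5) (nat_lit 372) (nat_lit 341) (nat_lit 307)))) (XT.nd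 (nat_lit 78) (nat_lit 532) (nat_lit 0) (XT.lf (nat_lit 0) (nat_lit 1451101452) (nat_lit 684) (nat_lit 2945885649) (nat_lit 76) (nat_lit 3636674103) (nat_lit 341) (nat_lit 5) (nat_lit 350) (nat_lit 5) (nat_lit 342) (nat_lit 5) (nat_lit 373) (nat_lit 341) (nat_lit 306)) (XT.nd (nat_lit 78) (nat_lit 0) (nat_lit 0) (XT.lf (nat_lit 0) (nat_lit 2452340933) (nat_lit 532) (nat_lit 1557434910) (nat_lit 608) (nat_lit 4121661875) (nat_lit 334) (nat_lit 5) (nat_lit 341) (nat_lit 5) (nat_lit 342) (nat_lit 5) (nat_lit 374) (nat_lit 341) (nat_lit 305)) (XT.lf (nat_lit 0) (nat_lit 6628676361) (nat_lit 608) (nat_lit 237986989) (nat_lit 76) (nat_lit 1365980201) (nat_lit 334) (nat_lit 5) (nat_lit 342) (nat_lit 5) (nat_lit 335) (nat_lit 5) (nat_lit 375) (nat_lit 341) (nat_lit 304))))) (XT.nd (nat_lit 234) (nat_lit 1596) (nat_lit 0) (XT.nd (nat_lit 78) (nat_lit 532) (nat_lit 0) (XT.lf (nat_lit 0) (nat_lit 979316087) (nat_lit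 684) (nat_lit 2954325624) (nat_lit 76) (nat_lit 4402677713) (nat_lit 325) (nat_lit 5) (nat_lit 334) (nat_lit 5) (nat_lit 326) (nat_lit 5) (nat_lit 376) (nat_lit 341) (nat_lit 303)) (XT.nd (nat_lit 78) (nat_lit 0) (nat_lit 0) (XT.lf (nat_lit 0) (nat_lit 2704507400) (nat_lit 532) (nat_lit 874310048) (nat_lit 608) (nat_lit 4864682970) (nat_lit 318) (nat_lit 5) (nat_lit 325) (nat_lit 5) (nat_lit 326) (nat_lit 5) (nat_lit 377) (nat_lit 341) (nat_lit 302)) (XT.lf (nat_lit 0) (nat_lit 6251834287) (nat_lit 608) (nat_lit 47281498) (nat_lit 76) (nat_lit 2254915142) (nat_lit 318) (nat_lit 5) (nat_lit 326) (nat_lit 5) (nat_lit 319) (nat_lit 5) (nat_lit 378) (nat_lit 341) (nat_lit 301)))) (XT.nd (nat_lit 78) (nat_lit 988) (nat_lit 0) (XT.lf (nat_lit 0) (nat_lit 340803768) (nat_lit 608) (nat_lit 2813948651) (nat_lit 76) (nat_lit 5512721137) (nat_lit 310) (nat_lit 5) (nat_lit 318) (nat_lit 5) (nat_lit 311) (nat_lit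 5) (nat_lit 379) (nat_lit 341) (nat_lit 300)) (XT.nd (nat_lit 78) (nat_lit 532) (nat_lit 0) (XT.lf (nat_lit 0) (nat_lit 2994170223) (nat_lit 532) (nat_lit 5663757750) (nat_lit 76) (nat_lit 126387235) (nat_lit 304) (nat_lit 5) (nat_lit 311) (nat_lit 5) (nat_lit 305) (nat_lit 5) (nat_lit 380) (nat_lit 341) (nat_lit 299)) (XT.lf (nat_lit 0) (nat_lit 296054333) (nat_lit 532) (nat_lit 5440351932) (nat_lit 608) (nat_lit 3167977785) (nat_lit 297) (nat_lit 5) (nat_lit 304) (nat_lit 5) (nat_lit 305) (nat_lit 5) (nat_lit 381) (nat_lit 341) (nat_lit 298)))))) (XT.nd (nat_lit 468) (nat_lit 1672) (nat_lit 0) (XT.nd (nat_lit 234) (nat_lit 912) (nat_lit 0) (XT.nd (nat_lit 78) (nat_lit 988) (nat_lit 0) (XT.lf (nat_lit 0) (nat_lit 6486222735) (nat_lit 532) (nat_lit 2079308492) (nat_lit 608) (nat_lit 462385076) (nat_lit 297) (nat_lit 5) (nat_lit 304) (nat_lit 5) (nat_lit 305) (nat_lit 5) (nat_lit 382) (nat_lit 341) (nat_lit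 297)) (XT.nd (nat_lit 78) (nat_lit 456) (nat_lit 0) (XT.lf (nat_lit 0) (nat_lit 2276718528) (nat_lit 532) (nat_lit 5475735649) (nat_lit 76) (nat_lit 1402099046) (nat_lit 290) (nat_lit 5) (nat_lit 297) (nat_lit 5) (nat_lit 291) (nat_lit 5) (nat_lit 383) (nat_lit 341) (nat_lit 296)) (XT.lf (nat_lit 0) (nat_lit 779150223) (nat_lit 456) (nat_lit 4312779326) (nat_lit 532) (nat_lit 4192825525) (nat_lit 284) (nat_lit 5) (nat_lit 290) (nat_lit 5) (nat_lit 291) (nat_lit 5) (nat_lit 384) (nat_lit 341) (nat_lit 295)))) (XT.nd (nat_lit 78) (nat_lit 912) (nat_lit 0) (XT.lf (nat_lit 0) (nat_lit 7270100446) (nat_lit 456) (nat_lit 726886465) (nat_lit 532) (nat_lit 1421714369) (nat_lit 284) (nat_lit 5) (nat_lit 290) (nat_lit 5) (nat_lit 291) (nat_lit 5) (nat_lit 385) (nat_lit 341) (nat_lit 294)) (XT.nd (nat_lit 78) (nat_lit 456) (nat_lit 0) (XT.lf (nat_lit 0) (nat_lit 1426960198) (nat_lit 456) (nat_lit 5176964173) (nat_lit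 76) (nat_lit 2951656874) (nat_lit 278) (nat_lit 5) (nat_lit 284) (nat_lit 5) (nat_lit 279) (nat_lit 5) (nat_lit 386) (nat_lit 341) (nat_lit 293)) (XT.lf (nat_lit 0) (nat_lit 1391816830) (nat_lit 456) (nat_lit 2934949426) (nat_lit 532) (nat_lit 5369551671) (nat_lit 272) (nat_lit 5) (nat_lit 278) (nat_lit 5) (nat_lit 279) (nat_lit 5) (nat_lit 387) (nat_lit 341) (nat_lit 292))))) (XT.nd (nat_lit 234) (nat_lit 836) (nat_lit 0) (XT.nd (nat_lit 78) (nat_lit 836) (nat_lit 0) (XT.lf (nat_lit 0) (nat_lit 7326883923) (nat_lit 532) (nat_lit 1648839189) (nat_lit 76) (nat_lit 865154078) (nat_lit 272) (nat_lit 5) (nat_lit 279) (nat_lit 5) (nat_lit 273) (nat_lit 5) (nat_lit 388) (nat_lit 341) (nat_lit 291)) (XT.nd (nat_lit 78) (nat_lit 380) (nat_lit 0) (XT.lf (nat_lit 0) (nat_lit 452222827) (nat_lit 456) (nat_lit 4776394969) (nat_lit 76) (nat_lit 4760032394) (nat_lit 266) (nat_lit 5) (nat_lit 272) (nat_lit 5) (nat_lit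 267) (nat_lit 5) (nat_lit 389) (nat_lit 341) (nat_lit 290)) (XT.lf (nat_lit 0) (nat_lit 2126349464) (nat_lit 380) (nat_lit 1321898369) (nat_lit 456) (nat_lit 6692121281) (nat_lit 261) (nat_lit 5) (nat_lit 266) (nat_lit 5) (nat_lit 267) (nat_lit 5) (nat_lit 390) (nat_lit 341) (nat_lit 289)))) (XT.nd (nat_lit 78) (nat_lit 836) (nat_lit 0) (XT.lf (nat_lit 0) (nat_lit 6563510683) (nat_lit 456) (nat_lit 1050845893) (nat_lit 76) (nat_lit 2681402318) (nat_lit 261) (nat_lit 5) (nat_lit 267) (nat_lit 5) (nat_lit 262) (nat_lit 5) (nat_lit 391) (nat_lit 341) (nat_lit 288)) (XT.nd (nat_lit 78) (nat_lit 456) (nat_lit 0) (XT.lf (nat_lit 0) (nat_lit 6167029469) (nat_lit 380) (nat_lit 3633565318) (nat_lit 456) (nat_lit 654364679) (nat_lit 256) (nat_lit 5) (nat_lit 261) (nat_lit 5) (nat_lit 262) (nat_lit 5) (nat_lit 392) (nat_lit 341) (nat_lit 287)) (XT.lf (nat_lit 0) (nat_lit 2467293703) (nat_lit 456) (nat_lit 7646842310)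 (nat_lit 76) (nat_lit 504058572) (nat_lit 250) (nat_lit 5) (nat_lit 256) (nat_lit 5) (nat_lit 251) (nat_lit 5) (nat_lit 393) (nat_lit 341) (nat_lit 286))))))))
noncomputable def xc53 : XT := (XT.nd (nat_lit 1794) (nat_lit 2584) (nat_lit 0) (XT.nd (nat_lit 858) (nat_lit 2508) (nat_lit 0) (XT.nd (nat_lit 390) (nat_lit 1292) (nat_lit 0) (XT.nd (nat_lit 156) (nat_lit 760) (nat_lit 0) (XT.nd (nat_lit 78) (nat_lit 304) (nat_lit 0) (XT.lf (nat_lit 0) (nat_lit 5705929020) (nat_lit 456) (nat_lit 353827282) (nat_lit 76) (nat_lit 4725281711) (nat_lit 250) (nat_lit 5) (nat_lit 256) (nat_lit 5) (nat_lit 251) (nat_lit 5) (nat_lit 394) (nat_lit 341) (nat_lit 285)) (XT.lf (nat_lit 0) (nat_lit 7238818639) (nat_lit 304) (nat_lit 1830522667) (nat_lit 380) (nat_lit 1886716900) (nat_lit 246) (nat_lit 5) (nat_lit 250) (nat_lit 5) (nat_lit 251) (nat_lit 5) (nat_lit 395) (nat_lit 341) (nat_lit 284))) (XT.nd (nat_lit 78) (nat_lit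 304) (nat_lit 0) (XT.lf (nat_lit 0) (nat_lit 1398464967) (nat_lit 456) (nat_lit 7219391080) (nat_lit 76) (nat_lit 2513217854) (nat_lit 240) (nat_lit 5) (nat_lit 246) (nat_lit 5) (nat_lit 241) (nat_lit 5) (nat_lit 396) (nat_lit 341) (nat_lit 283)) (XT.nd (nat_lit 78) (nat_lit 0) (nat_lit 0) (XT.lf (nat_lit 0) (nat_lit 445874439) (nat_lit 304) (nat_lit 4317453036) (nat_lit 380) (nat_lit 6546880790) (nat_lit 236) (nat_lit 5) (nat_lit 240) (nat_lit 5) (nat_lit 241) (nat_lit 5) (nat_lit 397) (nat_lit 341) (nat_lit 282)) (XT.lf (nat_lit 0) (nat_lit 8262992993) (nat_lit 380) (nat_lit 3066777713) (nat_lit 76) (nat_lit 163930239) (nat_lit 236) (nat_lit 5) (nat_lit 241) (nat_lit 5) (nat_lit 237) (nat_lit 5) (nat_lit 398) (nat_lit 341) (nat_lit 281))))) (XT.nd (nat_lit 234) (nat_lit 608) (nat_lit 0) (XT.nd (nat_lit 78) (nat_lit 304) (nat_lit 0) (XT.lf (nat_lit 0) (nat_lit 232606419) (nat_lit 380) (nat_lit 6724476442)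 (nat_lit 76) (nat_lit 4724024248) (nat_lit 231) (nat_lit 5) (nat_lit 236) (nat_lit 5) (nat_lit 232) (nat_lit 5) (nat_lit 399) (nat_lit 341) (nat_lit 280)) (XT.nd (nat_lit 78) (nat_lit 0) (nat_lit 0) (XT.lf (nat_lit 0) (nat_lit 1344395507) (nat_lit 304) (nat_lit 2395235338) (nat_lit 380) (nat_lit 8133402656) (nat_lit 227) (nat_lit 5) (nat_lit 231) (nat_lit 5) (nat_lit 232) (nat_lit 5) (nat_lit 400) (nat_lit 341) (nat_lit 279)) (XT.lf (nat_lit 0) (nat_lit 7403512789) (nat_lit 380) (nat_lit 2358643585) (nat_lit 76) (nat_lit 2307011909) (nat_lit 227) (nat_lit 5) (nat_lit 232) (nat_lit 5) (nat_lit 228) (nat_lit 5) (nat_lit 401) (nat_lit 341) (nat_lit 278)))) (XT.nd (nat_lit 78) (nat_lit 304) (nat_lit 0) (XT.lf (nat_lit 0) (nat_lit 6093063009) (nat_lit 304) (nat_lit 5128599747) (nat_lit 380) (nat_lit 1048193805) (nat_lit 223) (nat_lit 5) (nat_lit 227) (nat_lit 5) (nat_lit 228) (nat_lit 5) (nat_lit 402) (nat_lit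 341) (nat_lit 277)) (XT.nd (nat_lit 78) (nat_lit 0) (nat_lit 0) (XT.lf (nat_lit 0) (nat_lit 2331593862) (nat_lit 228) (nat_lit 302654041) (nat_lit 304) (nat_lit 9841284081) (nat_lit 219) (nat_lit 5) (nat_lit 222) (nat_lit 5) (nat_lit 223) (nat_lit 5) (nat_lit 403) (nat_lit 341) (nat_lit 276)) (XT.lf (nat_lit 0) (nat_lit 6476541043) (nat_lit 304) (nat_lit 1578609777) (nat_lit 76) (nat_lit 4629802130) (nat_lit 219) (nat_lit 5) (nat_lit 223) (nat_lit 5) (nat_lit 220) (nat_lit 5) (nat_lit 404) (nat_lit 341) (nat_lit 275)))))) (XT.nd (nat_lit 468) (nat_lit 1064) (nat_lit 0) (XT.nd (nat_lit 234) (nat_lit 836) (nat_lit 0) (XT.nd (nat_lit 78) (nat_lit 304) (nat_lit 0) (XT.lf (nat_lit 0) (nat_lit 7326278524) (nat_lit 304) (nat_lit 3144917958) (nat_lit 380) (nat_lit 2428347258) (nat_lit 215) (nat_lit 5) (nat_lit 219) (nat_lit 5) (nat_lit 220) (nat_lit 5) (nat_lit 405) (nat_lit 341) (nat_lit 274)) (XT.nd (nat_lit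 78) (nat_lit 0) (nat_lit 0) (XT.lf (nat_lit 0) (nat_lit 1467994430) (nat_lit 304) (nat_lit 9733308797) (nat_lit 76) (nat_lit 1917902572) (nat_lit 211) (nat_lit 5) (nat_lit 215) (nat_lit 5) (nat_lit 212) (nat_lit 5) (nat_lit 406) (nat_lit 341) (nat_lit 273)) (XT.lf (nat_lit 0) (nat_lit 5484524061) (nat_lit 304) (nat_lit 729250987) (nat_lit 76) (nat_lit 7129398229) (nat_lit 211) (nat_lit 5) (nat_lit 215) (nat_lit 5) (nat_lit 212) (nat_lit 5) (nat_lit 407) (nat_lit 341) (nat_lit 272)))) (XT.nd (nat_lit 78) (nat_lit 532) (nat_lit 0) (XT.lf (nat_lit 0) (nat_lit 8657732155) (nat_lit 304) (nat_lit 1012216567) (nat_lit 380) (nat_lit 3902459081) (nat_lit 207) (nat_lit 5) (nat_lit 211) (nat_lit 5) (nat_lit 212) (nat_lit 5) (nat_lit 408) (nat_lit 341) (nat_lit 271)) (XT.nd (nat_lit 78) (nat_lit 228) (nat_lit 0) (XT.lf (nat_lit 0) (nat_lit 227764395) (nat_lit 304) (nat_lit 9286032537) (nat_lit 76) (nat_lit 4292911351)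 (nat_lit 203) (nat_lit 5) (nat_lit 207) (nat_lit 5) (nat_lit 204) (nat_lit 5) (nat_lit 409) (nat_lit 341) (nat_lit 270)) (XT.lf (nat_lit 0) (nat_lit 191319073) (nat_lit 228) (nat_lit 4239704227) (nat_lit 304) (nat_lit 9615028401) (nat_lit 200) (nat_lit 5) (nat_lit 203) (nat_lit 5) (nat_lit 204) (nat_lit 5) (nat_lit 410) (nat_lit 341) (nat_lit 269))))) (XT.nd (nat_lit 234) (nat_lit 532) (nat_lit 0) (XT.nd (nat_lit 78) (nat_lit 532) (nat_lit 0) (XT.lf (nat_lit 0) (nat_lit 8832378853) (nat_lit 304) (nat_lit 4215608878) (nat_lit 76) (nat_lit 1242427725) (nat_lit 200) (nat_lit 5) (nat_lit 204) (nat_lit 5) (nat_lit 201) (nat_lit 5) (nat_lit 411) (nat_lit 341) (nat_lit 268)) (XT.nd (nat_lit 78) (nat_lit 304) (nat_lit 0) (XT.lf (nat_lit 0) (nat_lit 5727326609) (nat_lit 228) (nat_lit 7702311003) (nat_lit 304) (nat_lit 1110556634) (nat_lit 197) (nat_lit 5) (nat_lit 200) (nat_lit 5) (nat_lit 201) (nat_lit 5) (nat_lit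 412) (nat_lit 341) (nat_lit 267)) (XT.lf (nat_lit 0) (nat_lit 1194023261) (nat_lit 228) (nat_lit 2129031798) (nat_lit 304) (nat_lit 11472797779) (nat_lit 193) (nat_lit 5) (nat_lit 196) (nat_lit 5) (nat_lit 197) (nat_lit 5) (nat_lit 413) (nat_lit 341) (nat_lit 266)))) (XT.nd (nat_lit 78) (nat_lit 532) (nat_lit 0) (XT.lf (nat_lit 0) (nat_lit 7959115291) (nat_lit 304) (nat_lit 3476814345) (nat_lit 76) (nat_lit 3620168846) (nat_lit 193) (nat_lit 5) (nat_lit 197) (nat_lit 5) (nat_lit 194) (nat_lit 5) (nat_lit 414) (nat_lit 341) (nat_lit 265)) (XT.nd (nat_lit 78) (nat_lit 304) (nat_lit 0) (XT.lf (nat_lit 0) (nat_lit 7013866929) (nat_lit 228) (nat_lit 5777019703) (nat_lit 304) (nat_lit 2531565983) (nat_lit 190) (nat_lit 5) (nat_lit 193) (nat_lit 5) (nat_lit 194) (nat_lit 5) (nat_lit 415) (nat_lit 341) (nat_lit 264)) (XT.lf (nat_lit 0) (nat_lit 2154959321) (nat_lit 304) (nat_lit 13332683334) (nat_lit 76) (nat_lit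 107733523) (nat_lit 186) (nat_lit 5) (nat_lit 190) (nat_lit 5) (nat_lit 187) (nat_lit 5) (nat_lit 416) (nat_lit 341) (nat_lit 263))))))) (XT.nd (nat_lit 936) (nat_lit 988) (nat_lit 0) (XT.nd (nat_lit 468) (nat_lit 760) (nat_lit 0) (XT.nd (nat_lit 234) (nat_lit 380) (nat_lit 0) (XT.nd (nat_lit 78) (nat_lit 456) (nat_lit 0) (XT.lf (nat_lit 0) (nat_lit 7041559233) (nat_lit 304) (nat_lit 2689810742) (nat_lit 76) (nat_lit 6141054698) (nat_lit 186) (nat_lit 5) (nat_lit 190) (nat_lit 5) (nat_lit 187) (nat_lit 5) (nat_lit 417) (nat_lit 341) (nat_lit 262)) (XT.nd (nat_lit 78) (nat_lit 304) (nat_lit 0) (XT.lf (nat_lit 0) (nat_lit 8383341113) (nat_lit 152) (nat_lit 3741352784) (nat_lit 228) (nat_lit 4031592622) (nat_lit 184) (nat_lit 5) (nat_lit 186) (nat_lit 5) (nat_lit 187) (nat_lit 5) (nat_lit 418) (nat_lit 341) (nat_lit 261)) (XT.lf (nat_lit 0) (nat_lit 947243798) (nat_lit 304) (nat_lit 13070712687) (nat_lit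 76) (nat_lit 2428843581) (nat_lit 180) (nat_lit 5) (nat_lit 184) (nat_lit 5) (nat_lit 181) (nat_lit 5) (nat_lit 419) (nat_lit 341) (nat_lit 260)))) (XT.nd (nat_lit 78) (nat_lit 380) (nat_lit 0) (XT.lf (nat_lit 0) (nat_lit 6080346451) (nat_lit 304) (nat_lit 1855347916) (nat_lit 76) (nat_lit 8806559182) (nat_lit 180) (nat_lit 5) (nat_lit 184) (nat_lit 5) (nat_lit 181) (nat_lit 5) (nat_lit 420) (nat_lit 341) (nat_lit 259)) (XT.nd (nat_lit 78) (nat_lit 228) (nat_lit 0) (XT.lf (nat_lit 0) (nat_lit 9837109453) (nat_lit 152) (nat_lit 1595398298) (nat_lit 228) (nat_lit 5612110918) (nat_lit 178) (nat_lit 5) (nat_lit 180) (nat_lit 5) (nat_lit 181) (nat_lit 5) (nat_lit 421) (nat_lit 341) (nat_lit 258)) (XT.lf (nat_lit 0) (nat_lit 4552605914) (nat_lit 228) (nat_lit 12473417759) (nat_lit 304) (nat_lit 327607379) (nat_lit 175) (nat_lit 5) (nat_lit 178) (nat_lit 5) (nat_lit 179) (nat_lit 5) (nat_lit 422) (nat_lit 341)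 (nat_lit 257))))) (XT.nd (nat_lit 234) (nat_lit 380) (nat_lit 0) (XT.nd (nat_lit 78) (nat_lit 304) (nat_lit 0) (XT.lf (nat_lit 0) (nat_lit 5075653787) (nat_lit 304) (nat_lit 973713462) (nat_lit 76) (nat_lit 11619270086) (nat_lit 174) (nat_lit 5) (nat_lit 178) (nat_lit 5) (nat_lit 175) (nat_lit 5) (nat_lit 423) (nat_lit 341) (nat_lit 256)) (XT.nd (nat_lit 78) (nat_lit 152) (nat_lit 0) (XT.lf (nat_lit 0) (nat_lit 10721749755) (nat_lit 228) (nat_lit 6619809429) (nat_lit 76) (nat_lit 648817666) (nat_lit 172) (nat_lit 5) (nat_lit 175) (nat_lit 5) (nat_lit 173) (nat_lit 5) (nat_lit 424) (nat_lit 341) (nat_lit 255)) (XT.lf (nat_lit 0) (nat_lit 5786377122) (nat_lit 152) (nat_lit 10848039007) (nat_lit 228) (nat_lit 1684436797) (nat_lit 170) (nat_lit 5) (nat_lit 172) (nat_lit 5) (nat_lit 173) (nat_lit 5) (nat_lit 425) (nat_lit 341) (nat_lit 254)))) (XT.nd (nat_lit 78) (nat_lit 304) (nat_lit 0) (XT.lf (nat_lit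 0) (nat_lit 4027230368) (nat_lit 228) (nat_lit 44764032) (nat_lit 76) (nat_lit 14582836415) (nat_lit 169) (nat_lit 5) (nat_lit 172) (nat_lit 5) (nat_lit 170) (nat_lit 5) (nat_lit 426) (nat_lit 341) (nat_lit 253)) (XT.nd (nat_lit 78) (nat_lit 152) (nat_lit 0) (XT.lf (nat_lit 0) (nat_lit 10003186969) (nat_lit 228) (nat_lit 6020720634) (nat_lit 76) (nat_lit 2972676263) (nat_lit 167) (nat_lit 5) (nat_lit 170) (nat_lit 5) (nat_lit 168) (nat_lit 5) (nat_lit 427) (nat_lit 341) (nat_lit 252)) (XT.lf (nat_lit 0) (nat_lit 7088512642) (nat_lit 152) (nat_lit 9151580435) (nat_lit 228) (nat_lit 3106046307) (nat_lit 165) (nat_lit 5) (nat_lit 167) (nat_lit 5) (nat_lit 168) (nat_lit 5) (nat_lit 428) (nat_lit 341) (nat_lit 251)))))) (XT.nd (nat_lit 468) (nat_lit 228) (nat_lit 0) (XT.nd (nat_lit 234) (nat_lit 380) (nat_lit 0) (XT.nd (nat_lit 78) (nat_lit 152) (nat_lit 0) (XT.lf (nat_lit 0) (nat_lit 950597741) (nat_lit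 152) (nat_lit 1992964001) (nat_lit 228) (nat_lit 16760466123) (nat_lit 162) (nat_lit 5) (nat_lit 164) (nat_lit 5) (nat_lit 165) (nat_lit 5) (nat_lit 429) (nat_lit 341) (nat_lit 250)) (XT.nd (nat_lit 78) (nat_lit 152) (nat_lit 0) (XT.lf (nat_lit 0) (nat_lit 9261889451) (nat_lit 228) (nat_lit 5395417281) (nat_lit 76) (nat_lit 5409933884) (nat_lit 162) (nat_lit 5) (nat_lit 165) (nat_lit 5) (nat_lit 163) (nat_lit 5) (nat_lit 430) (nat_lit 341) (nat_lit 249)) (XT.lf (nat_lit 0) (nat_lit 8461021598) (nat_lit 152) (nat_lit 7383535034) (nat_lit 228) (nat_lit 4594549428) (nat_lit 160) (nat_lit 5) (nat_lit 162) (nat_lit 5) (nat_lit 163) (nat_lit 5) (nat_lit 431) (nat_lit 341) (nat_lit 248)))) (XT.nd (nat_lit 78) (nat_lit 152) (nat_lit 0) (XT.lf (nat_lit 0) (nat_lit 1817137969) (nat_lit 228) (nat_lit 18825295492) (nat_lit 76) (nat_lit 177682091) (nat_lit 157) (nat_lit 5) (nat_lit 160) (nat_lit 5) (nat_lit 158)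 (nat_lit 5) (nat_lit 432) (nat_lit 341) (nat_lit 247)) (XT.nd (nat_lit 78) (nat_lit 152) (nat_lit 0) (XT.lf (nat_lit 0) (nat_lit 8497970232) (nat_lit 228) (nat_lit 4744113756) (nat_lit 76) (nat_lit 7964032420) (nat_lit 157) (nat_lit 5) (nat_lit 160) (nat_lit 5) (nat_lit 158) (nat_lit 5) (nat_lit 433) (nat_lit 341) (nat_lit 246)) (XT.lf (nat_lit 0) (nat_lit 9906360440) (nat_lit 152) (nat_lit 5542736793) (nat_lit 228) (nat_lit 6152503964) (nat_lit 155) (nat_lit 5) (nat_lit 157) (nat_lit 5) (nat_lit 158) (nat_lit 5) (nat_lit 434) (nat_lit 341) (nat_lit 245))))) (XT.nd (nat_lit 46020) (nat_lit 0) (nat_lit 26980) (XT.nd (nat_lit 45864) (nat_lit 0) (nat_lit 27284) (XT.lf (nat_lit 0) (nat_lit 664492213) (nat_lit 228) (nat_lit 18937056388) (nat_lit 76) (nat_lit 2404937283) (nat_lit 152) (nat_lit 5) (nat_lit 155) (nat_lit 5) (nat_lit 153) (nat_lit 5) (nat_lit 435) (nat_lit 341) (nat_lit 244)) (XT.nd (nat_lit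 78) (nat_lit 228) (nat_lit 0) (XT.lf (nat_lit 0) (nat_lit 2942383602) (nat_lit 228) (nat_lit 143603562) (nat_lit 228) (nat_lit 143603562) (nat_lit 514) (nat_lit 3) (nat_lit 517) (nat_lit 3) (nat_lit 517) (nat_lit 5) (nat_lit 342) (nat_lit 342) (nat_lit 336)) (XT.lf (nat_lit 0) (nat_lit 2347832983) (nat_lit 228) (nat_lit 3491418422) (nat_lit 304) (nat_lit 629401312) (nat_lit 511) (nat_lit 5) (nat_lit 514) (nat_lit 3) (nat_lit 515) (nat_lit 5) (nat_lit 343) (nat_lit 342) (nat_lit 335)))) (XT.nd (nat_lit 78) (nat_lit 304) (nat_lit 0) (XT.lf (nat_lit 0) (nat_lit 5235759449) (nat_lit 228) (nat_lit 199465541) (nat_lit 304) (nat_lit 1046325800) (nat_lit 511) (nat_lit 5) (nat_lit 514) (nat_lit 3) (nat_lit 515) (nat_lit 5) (nat_lit 344) (nat_lit 342) (nat_lit 334)) (XT.nd (nat_lit 78) (nat_lit 0) (nat_lit 0) (XT.lf (nat_lit 0) (nat_lit 1601863723) (nat_lit 304) (nat_lit 3318490834) (nat_lit 380) (nat_lit 1576391003)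 (nat_lit 507) (nat_lit 5) (nat_lit 511) (nat_lit 5) (nat_lit 512) (nat_lit 5) (nat_lit 345) (nat_lit 342) (nat_lit 333)) (XT.lf (nat_lit 76) (nat_lit 77487626) (nat_lit 0) (nat_lit 4326710049) (nat_lit 380) (nat_lit 2110999811) (nat_lit 508) (nat_lit 5) (nat_lit 507) (nat_lit 5) (nat_lit 512) (nat_lit 5) (nat_lit 346) (nat_lit 342) (nat_lit 332))))))))
noncomputable def xc54 : XT := (XT.nd (nat_lit 1794) (nat_lit 8664) (nat_lit 0) (XT.nd (nat_lit 858) (nat_lit 7296) (nat_lit 0) (XT.nd (nat_lit 390) (nat_lit 2356) (nat_lit 0) (XT.nd (nat_lit 156) (nat_lit 456) (nat_lit 0) (XT.nd (nat_lit 78) (nat_lit 0) (nat_lit 0) (XT.lf (nat_lit 0) (nat_lit 668523315) (nat_lit 380) (nat_lit 2959692064) (nat_lit 456) (nat_lit 2907962918) (nat_lit 502) (nat_lit 5) (nat_lit 507) (nat_lit 5) (nat_lit 508) (nat_lit 5) (nat_lit 347) (nat_lit 342) (nat_lit 331)) (XT.lf (nat_lit 76) (nat_lit 552089105) (nat_lit 0) (nat_lit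 2838378971) (nat_lit 456) (nat_lit 3169649480) (nat_lit 503) (nat_lit 5) (nat_lit 502) (nat_lit 5) (nat_lit 508) (nat_lit 5) (nat_lit 348) (nat_lit 342) (nat_lit 330))) (XT.nd (nat_lit 78) (nat_lit 456) (nat_lit 0) (XT.lf (nat_lit 76) (nat_lit 4170037719) (nat_lit 0) (nat_lit 1952527622) (nat_lit 456) (nat_lit 464354826) (nat_lit 503) (nat_lit 5) (nat_lit 502) (nat_lit 5) (nat_lit 508) (nat_lit 5) (nat_lit 349) (nat_lit 342) (nat_lit 329)) (XT.nd (nat_lit 78) (nat_lit 0) (nat_lit 76) (XT.lf (nat_lit 76) (nat_lit 1223458668) (nat_lit 0) (nat_lit 965673738) (nat_lit 532) (nat_lit 4427354421) (nat_lit 497) (nat_lit 5) (nat_lit 496) (nat_lit 5) (nat_lit 503) (nat_lit 5) (nat_lit 350) (nat_lit 342) (nat_lit 328)) (XT.lf (nat_lit 0) (nat_lit 4841297306) (nat_lit 456) (nat_lit 1691758794) (nat_lit 76) (nat_lit 115894275) (nat_lit 497) (nat_lit 5) (nat_lit 503) (nat_lit 5) (nat_lit 498) (nat_lit 5) (nat_lit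 351) (nat_lit 342) (nat_lit 327))))) (XT.nd (nat_lit 234) (nat_lit 1368) (nat_lit 0) (XT.nd (nat_lit 78) (nat_lit 532) (nat_lit 0) (XT.lf (nat_lit 0) (nat_lit 808371010) (nat_lit 532) (nat_lit 4601401663) (nat_lit 76) (nat_lit 1274304978) (nat_lit 490) (nat_lit 5) (nat_lit 497) (nat_lit 5) (nat_lit 491) (nat_lit 5) (nat_lit 352) (nat_lit 342) (nat_lit 326)) (XT.nd (nat_lit 78) (nat_lit 532) (nat_lit 0) (XT.lf (nat_lit 0) (nat_lit 3391130943) (nat_lit 532) (nat_lit 794984790) (nat_lit 76) (nat_lit 2535868470) (nat_lit 490) (nat_lit 5) (nat_lit 497) (nat_lit 5) (nat_lit 491) (nat_lit 5) (nat_lit 353) (nat_lit 342) (nat_lit 325)) (XT.lf (nat_lit 0) (nat_lit 3126245338) (nat_lit 532) (nat_lit 2865213288) (nat_lit 608) (nat_lit 771366777) (nat_lit 483) (nat_lit 5) (nat_lit 490) (nat_lit 5) (nat_lit 491) (nat_lit 5) (nat_lit 354) (nat_lit 342) (nat_lit 324)))) (XT.nd (nat_lit 78) (nat_lit 684) (nat_lit 0)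 (XT.lf (nat_lit 0) (nat_lit 303107731) (nat_lit 608) (nat_lit 1447635190) (nat_lit 684) (nat_lit 5055944232) (nat_lit 474) (nat_lit 5) (nat_lit 482) (nat_lit 5) (nat_lit 483) (nat_lit 5) (nat_lit 355) (nat_lit 342) (nat_lit 323)) (XT.nd (nat_lit 78) (nat_lit 684) (nat_lit 0) (XT.lf (nat_lit 0) (nat_lit 4283675252) (nat_lit 684) (nat_lit 2487158599) (nat_lit 76) (nat_lit 82281893) (nat_lit 474) (nat_lit 5) (nat_lit 483) (nat_lit 5) (nat_lit 475) (nat_lit 5) (nat_lit 356) (nat_lit 342) (nat_lit 322)) (XT.lf (nat_lit 0) (nat_lit 1604788239) (nat_lit 684) (nat_lit 5233544465) (nat_lit 760) (nat_lit 64232375) (nat_lit 465) (nat_lit 5) (nat_lit 474) (nat_lit 5) (nat_lit 475) (nat_lit 5) (nat_lit 357) (nat_lit 342) (nat_lit 321)))))) (XT.nd (nat_lit 468) (nat_lit 4560) (nat_lit 0) (XT.nd (nat_lit 234) (nat_lit 988) (nat_lit 0) (XT.nd (nat_lit 78) (nat_lit 1672) (nat_lit 0) (XT.lf (nat_lit 0) (nat_lit 2409419288)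 (nat_lit 760) (nat_lit 1169694771) (nat_lit 76) (nat_lit 3375386655) (nat_lit 464) (nat_lit 5) (nat_lit 474) (nat_lit 5) (nat_lit 465) (nat_lit 5) (nat_lit 358) (nat_lit 342) (nat_lit 320)) (XT.nd (nat_lit 78) (nat_lit 912) (nat_lit 0) (XT.lf (nat_lit 0) (nat_lit 3080548262) (nat_lit 760) (nat_lit 1824492188) (nat_lit 836) (nat_lit 2104463358) (nat_lit 454) (nat_lit 5) (nat_lit 464) (nat_lit 5) (nat_lit 465) (nat_lit 5) (nat_lit 359) (nat_lit 342) (nat_lit 319)) (XT.lf (nat_lit 0) (nat_lit 337363595) (nat_lit 912) (nat_lit 6710907982) (nat_lit 76) (nat_lit 19688004) (nat_lit 442) (nat_lit 5) (nat_lit 454) (nat_lit 5) (nat_lit 443) (nat_lit 5) (nat_lit 360) (nat_lit 342) (nat_lit 318)))) (XT.nd (nat_lit 78) (nat_lit 988) (nat_lit 0) (XT.lf (nat_lit 0) (nat_lit 2790585704) (nat_lit 912) (nat_lit 2378118870) (nat_lit 76) (nat_lit 1959426226) (nat_lit 442) (nat_lit 5) (nat_lit 454) (nat_lit 5) (nat_lit 443)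 (nat_lit 5) (nat_lit 361) (nat_lit 342) (nat_lit 317)) (XT.nd (nat_lit 78) (nat_lit 76) (nat_lit 0) (XT.lf (nat_lit 0) (nat_lit 2062744901) (nat_lit 912) (nat_lit 3199057000) (nat_lit 988) (nat_lit 1929973332) (nat_lit 430) (nat_lit 5) (nat_lit 442) (nat_lit 5) (nat_lit 443) (nat_lit 5) (nat_lit 362) (nat_lit 342) (nat_lit 316)) (XT.lf (nat_lit 0) (nat_lit 488792073) (nat_lit 988) (nat_lit 639582902) (nat_lit 76) (nat_lit 6130304599) (nat_lit 429) (nat_lit 5) (nat_lit 442) (nat_lit 5) (nat_lit 430) (nat_lit 5) (nat_lit 363) (nat_lit 342) (nat_lit 315))))) (XT.nd (nat_lit 234) (nat_lit 2432) (nat_lit 0) (XT.nd (nat_lit 78) (nat_lit 1140) (nat_lit 0) (XT.lf (nat_lit 0) (nat_lit 2917552637) (nat_lit 1064) (nat_lit 3356429588) (nat_lit 76) (nat_lit 1053748878) (nat_lit 416) (nat_lit 5) (nat_lit 430) (nat_lit 5) (nat_lit 417) (nat_lit 5) (nat_lit 364) (nat_lit 342) (nat_lit 314)) (XT.nd (nat_lit 78) (nat_lit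 76) (nat_lit 0) (XT.lf (nat_lit 0) (nat_lit 1285997899) (nat_lit 1064) (nat_lit 4092473851) (nat_lit 1140) (nat_lit 2021603557) (nat_lit 402) (nat_lit 5) (nat_lit 416) (nat_lit 5) (nat_lit 417) (nat_lit 5) (nat_lit 365) (nat_lit 342) (nat_lit 313)) (XT.lf (nat_lit 0) (nat_lit 394314632) (nat_lit 1140) (nat_lit 1405223589) (nat_lit 76) (nat_lit 5675997766) (nat_lit 401) (nat_lit 5) (nat_lit 416) (nat_lit 5) (nat_lit 402) (nat_lit 5) (nat_lit 366) (nat_lit 342) (nat_lit 312)))) (XT.nd (nat_lit 78) (nat_lit 1292) (nat_lit 0) (XT.lf (nat_lit 0) (nat_lit 2813092977) (nat_lit 1216) (nat_lit 4129632501) (nat_lit 76) (nat_lit 610804088) (nat_lit 386) (nat_lit 5) (nat_lit 402) (nat_lit 5) (nat_lit 387) (nat_lit 5) (nat_lit 367) (nat_lit 342) (nat_lit 311)) (XT.nd (nat_lit 78) (nat_lit 76) (nat_lit 0) (XT.lf (nat_lit 0) (nat_lit 726283321) (nat_lit 1216) (nat_lit 4550778489) (nat_lit 1292) (nat_lit 2357622329)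 (nat_lit 370) (nat_lit 5) (nat_lit 386) (nat_lit 5) (nat_lit 387) (nat_lit 5) (nat_lit 368) (nat_lit 342) (nat_lit 310)) (XT.lf (nat_lit 0) (nat_lit 71092141) (nat_lit 1292) (nat_lit 1969715905) (nat_lit 76) (nat_lit 5678148355) (nat_lit 369) (nat_lit 5) (nat_lit 386) (nat_lit 5) (nat_lit 370) (nat_lit 5) (nat_lit 369) (nat_lit 342) (nat_lit 309))))))) (XT.nd (nat_lit 936) (nat_lit 3724) (nat_lit 0) (XT.nd (nat_lit 468) (nat_lit 2280) (nat_lit 0) (XT.nd (nat_lit 234) (nat_lit 1216) (nat_lit 0) (XT.nd (nat_lit 78) (nat_lit 608) (nat_lit 0) (XT.lf (nat_lit 0) (nat_lit 2496887546) (nat_lit 912) (nat_lit 4719754780) (nat_lit 76) (nat_lit 589266060) (nat_lit 358) (nat_lit 5) (nat_lit 370) (nat_lit 5) (nat_lit 359) (nat_lit 5) (nat_lit 370) (nat_lit 342) (nat_lit 308)) (XT.nd (nat_lit 78) (nat_lit 0) (nat_lit 0) (XT.lf (nat_lit 0) (nat_lit 362573249) (nat_lit 608) (nat_lit 4614049449) (nat_lit 684) (nat_lit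 2919411256) (nat_lit 350) (nat_lit 5) (nat_lit 358) (nat_lit 5) (nat_lit 359) (nat_lit 5) (nat_lit 371) (nat_lit 342) (nat_lit 307)) (XT.lf (nat_lit 0) (nat_lit 5631438949) (nat_lit 608) (nat_lit 1885579737) (nat_lit 684) (nat_lit 472256538) (nat_lit 350) (nat_lit 5) (nat_lit 358) (nat_lit 5) (nat_lit 359) (nat_lit 5) (nat_lit 372) (nat_lit 342) (nat_lit 306)))) (XT.nd (nat_lit 78) (nat_lit 532) (nat_lit 0) (XT.lf (nat_lit 0) (nat_lit 1985842457) (nat_lit 684) (nat_lit 5146170124) (nat_lit 76) (nat_lit 953385475) (nat_lit 341) (nat_lit 5) (nat_lit 350) (nat_lit 5) (nat_lit 342) (nat_lit 5) (nat_lit 373) (nat_lit 342) (nat_lit 305)) (XT.nd (nat_lit 78) (nat_lit 0) (nat_lit 0) (XT.lf (nat_lit 0) (nat_lit 176516829) (nat_lit 532) (nat_lit 4317032673) (nat_lit 608) (nat_lit 3691154089) (nat_lit 334) (nat_lit 5) (nat_lit 341) (nat_lit 5) (nat_lit 342) (nat_lit 5) (nat_lit 374) (nat_lit 342) (nat_lit 304))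 (XT.lf (nat_lit 0) (nat_lit 5701801274) (nat_lit 532) (nat_lit 1368717044) (nat_lit 608) (nat_lit 1216649056) (nat_lit 334) (nat_lit 5) (nat_lit 341) (nat_lit 5) (nat_lit 342) (nat_lit 5) (nat_lit 375) (nat_lit 342) (nat_lit 303))))) (XT.nd (nat_lit 234) (nat_lit 1064) (nat_lit 0) (XT.nd (nat_lit 78) (nat_lit 532) (nat_lit 0) (XT.lf (nat_lit 0) (nat_lit 1294369237) (nat_lit 684) (nat_lit 5425886896) (nat_lit 76) (nat_lit 1672416631) (nat_lit 325) (nat_lit 5) (nat_lit 334) (nat_lit 5) (nat_lit 326) (nat_lit 5) (nat_lit 376) (nat_lit 342) (nat_lit 302)) (XT.nd (nat_lit 78) (nat_lit 0) (nat_lit 0) (XT.lf (nat_lit 0) (nat_lit 152157930) (nat_lit 532) (nat_lit 3689693759) (nat_lit 608) (nat_lit 4659562636) (nat_lit 318) (nat_lit 5) (nat_lit 325) (nat_lit 5) (nat_lit 326) (nat_lit 5) (nat_lit 377) (nat_lit 342) (nat_lit 301)) (XT.lf (nat_lit 0) (nat_lit 5946491265) (nat_lit 532) (nat_lit 519291691) (nat_lit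 608) (nat_lit 2147634444) (nat_lit 318) (nat_lit 5) (nat_lit 325) (nat_lit 5) (nat_lit 326) (nat_lit 5) (nat_lit 378) (nat_lit 342) (nat_lit 300)))) (XT.nd (nat_lit 78) (nat_lit 456) (nat_lit 0) (XT.lf (nat_lit 0) (nat_lit 434631745) (nat_lit 608) (nat_lit 5573803525) (nat_lit 76) (nat_lit 2720111732) (nat_lit 310) (nat_lit 5) (nat_lit 318) (nat_lit 5) (nat_lit 311) (nat_lit 5) (nat_lit 379) (nat_lit 342) (nat_lit 299)) (XT.nd (nat_lit 78) (nat_lit 0) (nat_lit 0) (XT.lf (nat_lit 0) (nat_lit 275685385) (nat_lit 456) (nat_lit 2757705747) (nat_lit 532) (nat_lit 5813635734) (nat_lit 304) (nat_lit 5) (nat_lit 310) (nat_lit 5) (nat_lit 311) (nat_lit 5) (nat_lit 380) (nat_lit 342) (nat_lit 298)) (XT.lf (nat_lit 0) (nat_lit 5720681129) (nat_lit 532) (nat_lit 2621970205) (nat_lit 76) (nat_lit 626092756) (nat_lit 304) (nat_lit 5) (nat_lit 311) (nat_lit 5) (nat_lit 305) (nat_lit 5) (nat_lit 381) (nat_lit 342) (nat_lit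 297)))))) (XT.nd (nat_lit 468) (nat_lit 1748) (nat_lit 0) (XT.nd (nat_lit 234) (nat_lit 912) (nat_lit 0) (XT.nd (nat_lit 78) (nat_lit 532) (nat_lit 0) (XT.lf (nat_lit 0) (nat_lit 3485148983) (nat_lit 532) (nat_lit 5013808749) (nat_lit 608) (nat_lit 594844061) (nat_lit 297) (nat_lit 5) (nat_lit 304) (nat_lit 5) (nat_lit 305) (nat_lit 5) (nat_lit 382) (nat_lit 342) (nat_lit 296)) (XT.nd (nat_lit 78) (nat_lit 0) (nat_lit 0) (XT.lf (nat_lit 0) (nat_lit 535212259) (nat_lit 456) (nat_lit 1542879468) (nat_lit 532) (nat_lit 7144447761) (nat_lit 290) (nat_lit 5) (nat_lit 296) (nat_lit 5) (nat_lit 297) (nat_lit 5) (nat_lit 383) (nat_lit 342) (nat_lit 295)) (XT.lf (nat_lit 0) (nat_lit 4846700888) (nat_lit 532) (nat_lit 2463643788) (nat_lit 76) (nat_lit 2043794720) (nat_lit 290) (nat_lit 5) (nat_lit 297) (nat_lit 5) (nat_lit 291) (nat_lit 5) (nat_lit 384) (nat_lit 342) (nat_lit 294)))) (XT.nd (nat_lit 78) (nat_lit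 456) (nat_lit 0) (XT.lf (nat_lit 0) (nat_lit 3947747837) (nat_lit 456) (nat_lit 3755989721) (nat_lit 532) (nat_lit 1785788665) (nat_lit 284) (nat_lit 5) (nat_lit 290) (nat_lit 5) (nat_lit 291) (nat_lit 5) (nat_lit 385) (nat_lit 342) (nat_lit 293)) (XT.nd (nat_lit 78) (nat_lit 0) (nat_lit 0) (XT.lf (nat_lit 0) (nat_lit 920580962) (nat_lit 380) (nat_lit 63542673) (nat_lit 456) (nat_lit 8644963544) (nat_lit 278) (nat_lit 5) (nat_lit 283) (nat_lit 5) (nat_lit 284) (nat_lit 5) (nat_lit 386) (nat_lit 342) (nat_lit 292)) (XT.lf (nat_lit 0) (nat_lit 3846867978) (nat_lit 456) (nat_lit 2196707283) (nat_lit 76) (nat_lit 3727360452) (nat_lit 278) (nat_lit 5) (nat_lit 284) (nat_lit 5) (nat_lit 279) (nat_lit 5) (nat_lit 387) (nat_lit 342) (nat_lit 291))))) (XT.nd (nat_lit 234) (nat_lit 836) (nat_lit 0) (XT.nd (nat_lit 78) (nat_lit 456) (nat_lit 0) (XT.lf (nat_lit 0) (nat_lit 4538396310) (nat_lit 456) (nat_lit 2255881494)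 (nat_lit 532) (nat_lit 3122798406) (nat_lit 272) (nat_lit 5) (nat_lit 278) (nat_lit 5) (nat_lit 279) (nat_lit 5) (nat_lit 388) (nat_lit 342) (nat_lit 290)) (XT.nd (nat_lit 78) (nat_lit 76) (nat_lit 0) (XT.lf (nat_lit 0) (nat_lit 1404423559) (nat_lit 380) (nat_lit 8432546235) (nat_lit 456) (nat_lit 230425329) (nat_lit 267) (nat_lit 5) (nat_lit 272) (nat_lit 5) (nat_lit 273) (nat_lit 5) (nat_lit 389) (nat_lit 342) (nat_lit 289)) (XT.lf (nat_lit 0) (nat_lit 2727702408) (nat_lit 456) (nat_lit 1829497976) (nat_lit 76) (nat_lit 5663251926) (nat_lit 266) (nat_lit 5) (nat_lit 272) (nat_lit 5) (nat_lit 267) (nat_lit 5) (nat_lit 390) (nat_lit 342) (nat_lit 288)))) (XT.nd (nat_lit 78) (nat_lit 456) (nat_lit 0) (XT.lf (nat_lit 0) (nat_lit 5250032822) (nat_lit 380) (nat_lit 527107946) (nat_lit 456) (nat_lit 4600676055) (nat_lit 261) (nat_lit 5) (nat_lit 266) (nat_lit 5) (nat_lit 267) (nat_lit 5) (nat_lit 391) (nat_lit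 342) (nat_lit 287)) (XT.nd (nat_lit 78) (nat_lit 76) (nat_lit 0) (XT.lf (nat_lit 0) (nat_lit 1984147586) (nat_lit 380) (nat_lit 6963755547) (nat_lit 456) (nat_lit 1591103914) (nat_lit 256) (nat_lit 5) (nat_lit 261) (nat_lit 5) (nat_lit 262) (nat_lit 5) (nat_lit 392) (nat_lit 342) (nat_lit 286)) (XT.lf (nat_lit 0) (nat_lit 1494362254) (nat_lit 456) (nat_lit 1369079551) (nat_lit 76) (nat_lit 7840704637) (nat_lit 255) (nat_lit 5) (nat_lit 261) (nat_lit 5) (nat_lit 256) (nat_lit 5) (nat_lit 393) (nat_lit 342) (nat_lit 285))))))))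
noncomputable def xc55 : XT := (XT.nd (nat_lit 1872) (nat_lit 2356) (nat_lit 0) (XT.nd (nat_lit 936) (nat_lit 2204) (nat_lit 0) (XT.nd (nat_lit 468) (nat_lit 1596) (nat_lit 0) (XT.nd (nat_lit 234) (nat_lit 684) (nat_lit 0) (XT.nd (nat_lit 78) (nat_lit 380) (nat_lit 0) (XT.lf (nat_lit 0) (nat_lit 4671244246) (nat_lit 456) (nat_lit 4809964031) (nat_lit 76) (nat_lit 1391634193) (nat_lit 250) (nat_lit 5) (nat_lit 256) (nat_lit 5) (nat_lit 251) (nat_lit 5) (nat_lit 394) (nat_lit 342) (nat_lit 284)) (XT.nd (nat_lit 78) (nat_lit 76) (nat_lit 0) (XT.lf (nat_lit 0) (nat_lit 2664526731) (nat_lit 304) (nat_lit 5306088105) (nat_lit 380) (nat_lit 3075169078) (nat_lit 246) (nat_lit 5) (nat_lit 250) (nat_lit 5) (nat_lit 251) (nat_lit 5) (nat_lit 395) (nat_lit 342) (nat_lit 283)) (XT.lf (nat_lit 0) (nat_lit 150762039) (nat_lit 380) (nat_lit 821366492) (nat_lit 76) (nat_lit 10251487053) (nat_lit 245) (nat_lit 5) (nat_lit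 250) (nat_lit 5) (nat_lit 246) (nat_lit 5) (nat_lit 396) (nat_lit 342) (nat_lit 282)))) (XT.nd (nat_lit 78) (nat_lit 304) (nat_lit 0) (XT.lf (nat_lit 0) (nat_lit 3474122547) (nat_lit 456) (nat_lit 4424807239) (nat_lit 76) (nat_lit 3505065222) (nat_lit 240) (nat_lit 5) (nat_lit 246) (nat_lit 5) (nat_lit 241) (nat_lit 5) (nat_lit 397) (nat_lit 342) (nat_lit 281)) (XT.nd (nat_lit 78) (nat_lit 0) (nat_lit 0) (XT.lf (nat_lit 0) (nat_lit 3440895014) (nat_lit 304) (nat_lit 3468463219) (nat_lit 380) (nat_lit 4680062352) (nat_lit 236) (nat_lit 5) (nat_lit 240) (nat_lit 5) (nat_lit 241) (nat_lit 5) (nat_lit 398) (nat_lit 342) (nat_lit 280)) (XT.lf (nat_lit 0) (nat_lit 10464802204) (nat_lit 380) (nat_lit 214769200) (nat_lit 76) (nat_lit 1100322988) (nat_lit 236) (nat_lit 5) (nat_lit 241) (nat_lit 5) (nat_lit 237) (nat_lit 5) (nat_lit 399) (nat_lit 342) (nat_lit 279))))) (XT.nd (nat_lit 234) (nat_lit 608) (nat_lit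 0) (XT.nd (nat_lit 78) (nat_lit 608) (nat_lit 0) (XT.lf (nat_lit 0) (nat_lit 2183675670) (nat_lit 380) (nat_lit 3972370528) (nat_lit 76) (nat_lit 5817171393) (nat_lit 231) (nat_lit 5) (nat_lit 236) (nat_lit 5) (nat_lit 232) (nat_lit 5) (nat_lit 400) (nat_lit 342) (nat_lit 278)) (XT.nd (nat_lit 78) (nat_lit 304) (nat_lit 0) (XT.lf (nat_lit 0) (nat_lit 4309608363) (nat_lit 304) (nat_lit 1457794201) (nat_lit 380) (nat_lit 6404354460) (nat_lit 227) (nat_lit 5) (nat_lit 231) (nat_lit 5) (nat_lit 232) (nat_lit 5) (nat_lit 401) (nat_lit 342) (nat_lit 277)) (XT.lf (nat_lit 0) (nat_lit 465750114) (nat_lit 304) (nat_lit 9033553661) (nat_lit 380) (nat_lit 2875728989) (nat_lit 223) (nat_lit 5) (nat_lit 227) (nat_lit 5) (nat_lit 228) (nat_lit 5) (nat_lit 402) (nat_lit 342) (nat_lit 276)))) (XT.nd (nat_lit 78) (nat_lit 532) (nat_lit 0) (XT.lf (nat_lit 0) (nat_lit 801904192) (nat_lit 380) (nat_lit 3456922284) (nat_lit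 76) (nat_lit 8323622842) (nat_lit 222) (nat_lit 5) (nat_lit 227) (nat_lit 5) (nat_lit 223) (nat_lit 5) (nat_lit 403) (nat_lit 342) (nat_lit 275)) (XT.nd (nat_lit 78) (nat_lit 304) (nat_lit 0) (XT.lf (nat_lit 0) (nat_lit 4554045790) (nat_lit 304) (nat_lit 7533753642) (nat_lit 76) (nat_lit 706775398) (nat_lit 219) (nat_lit 5) (nat_lit 223) (nat_lit 5) (nat_lit 220) (nat_lit 5) (nat_lit 404) (nat_lit 342) (nat_lit 274)) (XT.lf (nat_lit 0) (nat_lit 1224633849) (nat_lit 304) (nat_lit 7248040427) (nat_lit 380) (nat_lit 4538772153) (nat_lit 215) (nat_lit 5) (nat_lit 219) (nat_lit 5) (nat_lit 220) (nat_lit 5) (nat_lit 405) (nat_lit 342) (nat_lit 273)))))) (XT.nd (nat_lit 468) (nat_lit 1064) (nat_lit 0) (XT.nd (nat_lit 234) (nat_lit 532) (nat_lit 0) (XT.nd (nat_lit 78) (nat_lit 608) (nat_lit 0) (XT.lf (nat_lit 0) (nat_lit 10345058990) (nat_lit 304) (nat_lit 2205106265) (nat_lit 380) (nat_lit 683419811) (nat_lit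 215) (nat_lit 5) (nat_lit 219) (nat_lit 5) (nat_lit 220) (nat_lit 5) (nat_lit 406) (nat_lit 342) (nat_lit 272)) (XT.nd (nat_lit 78) (nat_lit 304) (nat_lit 0) (XT.lf (nat_lit 0) (nat_lit 3279494887) (nat_lit 304) (nat_lit 7175998711) (nat_lit 76) (nat_lit 3004264556) (nat_lit 211) (nat_lit 5) (nat_lit 215) (nat_lit 5) (nat_lit 212) (nat_lit 5) (nat_lit 407) (nat_lit 342) (nat_lit 271)) (XT.lf (nat_lit 0) (nat_lit 2055297497) (nat_lit 304) (nat_lit 5329500251) (nat_lit 380) (nat_lit 6306598588) (nat_lit 207) (nat_lit 5) (nat_lit 211) (nat_lit 5) (nat_lit 212) (nat_lit 5) (nat_lit 408) (nat_lit 342) (nat_lit 270)))) (XT.nd (nat_lit 78) (nat_lit 532) (nat_lit 0) (XT.lf (nat_lit 0) (nat_lit 11652420375) (nat_lit 380) (nat_lit 2272188163) (nat_lit 76) (nat_lit 4200305) (nat_lit 207) (nat_lit 5) (nat_lit 212) (nat_lit 5) (nat_lit 208) (nat_lit 5) (nat_lit 409) (nat_lit 342) (nat_lit 269)) (XT.nd (nat_lit 78)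 (nat_lit 228) (nat_lit 0) (XT.lf (nat_lit 0) (nat_lit 1930494757) (nat_lit 304) (nat_lit 6778209998) (nat_lit 76) (nat_lit 5461327853) (nat_lit 203) (nat_lit 5) (nat_lit 207) (nat_lit 5) (nat_lit 204) (nat_lit 5) (nat_lit 410) (nat_lit 342) (nat_lit 268)) (XT.lf (nat_lit 0) (nat_lit 2956144479) (nat_lit 228) (nat_lit 3280833901) (nat_lit 304) (nat_lit 8180264141) (nat_lit 200) (nat_lit 5) (nat_lit 203) (nat_lit 5) (nat_lit 204) (nat_lit 5) (nat_lit 411) (nat_lit 342) (nat_lit 267))))) (XT.nd (nat_lit 234) (nat_lit 532) (nat_lit 0) (XT.nd (nat_lit 78) (nat_lit 532) (nat_lit 0) (XT.lf (nat_lit 0) (nat_lit 10731781546) (nat_lit 304) (nat_lit 1624759981) (nat_lit 76) (nat_lit 2313553452) (nat_lit 200) (nat_lit 5) (nat_lit 204) (nat_lit 5) (nat_lit 201) (nat_lit 5) (nat_lit 412) (nat_lit 342) (nat_lit 266)) (XT.nd (nat_lit 78) (nat_lit 228) (nat_lit 0) (XT.lf (nat_lit 0) (nat_lit 507105955) (nat_lit 304)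 (nat_lit 6343167767) (nat_lit 76) (nat_lit 8077596475) (nat_lit 196) (nat_lit 5) (nat_lit 200) (nat_lit 5) (nat_lit 197) (nat_lit 5) (nat_lit 413) (nat_lit 342) (nat_lit 265)) (XT.lf (nat_lit 0) (nat_lit 3926237286) (nat_lit 228) (nat_lit 1103650362) (nat_lit 304) (nat_lit 10161626548) (nat_lit 193) (nat_lit 5) (nat_lit 196) (nat_lit 5) (nat_lit 197) (nat_lit 5) (nat_lit 414) (nat_lit 342) (nat_lit 264)))) (XT.nd (nat_lit 78) (nat_lit 532) (nat_lit 0) (XT.lf (nat_lit 0) (nat_lit 9768385348) (nat_lit 304) (nat_lit 926616839) (nat_lit 76) (nat_lit 4765664352) (nat_lit 193) (nat_lit 5) (nat_lit 197) (nat_lit 5) (nat_lit 194) (nat_lit 5) (nat_lit 415) (nat_lit 342) (nat_lit 263)) (XT.nd (nat_lit 78) (nat_lit 304) (nat_lit 0) (XT.lf (nat_lit 0) (nat_lit 9852760345) (nat_lit 228) (nat_lit 4871873399) (nat_lit 304) (nat_lit 1010991835) (nat_lit 190) (nat_lit 5) (nat_lit 193) (nat_lit 5) (nat_lit 194) (nat_lit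 5) (nat_lit 416) (nat_lit 342) (nat_lit 262)) (XT.lf (nat_lit 0) (nat_lit 3775160497) (nat_lit 304) (nat_lit 11063217695) (nat_lit 76) (nat_lit 1178192699) (nat_lit 186) (nat_lit 5) (nat_lit 190) (nat_lit 5) (nat_lit 187) (nat_lit 5) (nat_lit 417) (nat_lit 342) (nat_lit 261))))))) (XT.nd (nat_lit 936) (nat_lit 760) (nat_lit 0) (XT.nd (nat_lit 468) (nat_lit 684) (nat_lit 0) (XT.nd (nat_lit 234) (nat_lit 456) (nat_lit 0) (XT.nd (nat_lit 78) (nat_lit 456) (nat_lit 0) (XT.lf (nat_lit 0) (nat_lit 8763051055) (nat_lit 304) (nat_lit 178809783) (nat_lit 76) (nat_lit 7361429223) (nat_lit 186) (nat_lit 5) (nat_lit 190) (nat_lit 5) (nat_lit 187) (nat_lit 5) (nat_lit 418) (nat_lit 342) (nat_lit 260)) (XT.nd (nat_lit 78) (nat_lit 304) (nat_lit 0) (XT.lf (nat_lit 0) (nat_lit 11201127850) (nat_lit 152) (nat_lit 2778232905) (nat_lit 228) (nat_lit 2616886579) (nat_lit 184) (nat_lit 5) (nat_lit 186) (nat_lit 5) (nat_lit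 187) (nat_lit 5) (nat_lit 419) (nat_lit 342) (nat_lit 259)) (XT.lf (nat_lit 0) (nat_lit 2472628426) (nat_lit 304) (nat_lit 10857861056) (nat_lit 76) (nat_lit 3564805565) (nat_lit 180) (nat_lit 5) (nat_lit 184) (nat_lit 5) (nat_lit 181) (nat_lit 5) (nat_lit 420) (nat_lit 342) (nat_lit 258)))) (XT.nd (nat_lit 78) (nat_lit 304) (nat_lit 0) (XT.lf (nat_lit 0) (nat_lit 630392892) (nat_lit 152) (nat_lit 7091789999) (nat_lit 228) (nat_lit 9478555482) (nat_lit 178) (nat_lit 5) (nat_lit 180) (nat_lit 5) (nat_lit 181) (nat_lit 5) (nat_lit 421) (nat_lit 342) (nat_lit 257)) (XT.nd (nat_lit 78) (nat_lit 304) (nat_lit 0) (XT.lf (nat_lit 0) (nat_lit 12636527649) (nat_lit 152) (nat_lit 574063513) (nat_lit 228) (nat_lit 4302312823) (nat_lit 178) (nat_lit 5) (nat_lit 180) (nat_lit 5) (nat_lit 181) (nat_lit 5) (nat_lit 422) (nat_lit 342) (nat_lit 256)) (XT.lf (nat_lit 0) (nat_lit 1110718217) (nat_lit 304) (nat_lit 10640915153)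 (nat_lit 76) (nat_lit 6079456846) (nat_lit 174) (nat_lit 5) (nat_lit 178) (nat_lit 5) (nat_lit 175) (nat_lit 5) (nat_lit 423) (nat_lit 342) (nat_lit 255))))) (XT.nd (nat_lit 234) (nat_lit 380) (nat_lit 0) (XT.nd (nat_lit 78) (nat_lit 152) (nat_lit 0) (XT.lf (nat_lit 0) (nat_lit 1493101308) (nat_lit 152) (nat_lit 5148756475) (nat_lit 228) (nat_lit 11514420639) (nat_lit 172) (nat_lit 5) (nat_lit 174) (nat_lit 5) (nat_lit 175) (nat_lit 5) (nat_lit 424) (nat_lit 342) (nat_lit 254)) (XT.nd (nat_lit 78) (nat_lit 152) (nat_lit 0) (XT.lf (nat_lit 0) (nat_lit 12435893569) (nat_lit 228) (nat_lit 4344422863) (nat_lit 76) (nat_lit 1707996985) (nat_lit 172) (nat_lit 5) (nat_lit 175) (nat_lit 5) (nat_lit 173) (nat_lit 5) (nat_lit 425) (nat_lit 342) (nat_lit 253)) (XT.lf (nat_lit 0) (nat_lit 8409694571) (nat_lit 152) (nat_lit 10099235630) (nat_lit 228) (nat_lit 318223865) (nat_lit 170) (nat_lit 5) (nat_lit 172) (nat_lit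 5) (nat_lit 173) (nat_lit 5) (nat_lit 426) (nat_lit 342) (nat_lit 252)))) (XT.nd (nat_lit 78) (nat_lit 152) (nat_lit 0) (XT.lf (nat_lit 0) (nat_lit 2406059420) (nat_lit 152) (nat_lit 3113757361) (nat_lit 228) (nat_lit 13653505874) (nat_lit 167) (nat_lit 5) (nat_lit 169) (nat_lit 5) (nat_lit 170) (nat_lit 5) (nat_lit 427) (nat_lit 342) (nat_lit 251)) (XT.nd (nat_lit 78) (nat_lit 152) (nat_lit 0) (XT.lf (nat_lit 0) (nat_lit 11645623785) (nat_lit 228) (nat_lit 3789826984) (nat_lit 76) (nat_lit 4090760377) (nat_lit 167) (nat_lit 5) (nat_lit 170) (nat_lit 5) (nat_lit 168) (nat_lit 5) (nat_lit 428) (nat_lit 342) (nat_lit 250)) (XT.lf (nat_lit 0) (nat_lit 9689040984) (nat_lit 152) (nat_lit 8364452471) (nat_lit 228) (nat_lit 1833244183) (nat_lit 165) (nat_lit 5) (nat_lit 167) (nat_lit 5) (nat_lit 168) (nat_lit 5) (nat_lit 429) (nat_lit 342) (nat_lit 249)))))) (XT.nd (nat_lit 46332) (nat_lit 0) (nat_lit 26296)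 (XT.nd (nat_lit 234) (nat_lit 380) (nat_lit 0) (XT.nd (nat_lit 78) (nat_lit 152) (nat_lit 0) (XT.lf (nat_lit 0) (nat_lit 3369972049) (nat_lit 152) (nat_lit 985197613) (nat_lit 228) (nat_lit 15900280007) (nat_lit 162) (nat_lit 5) (nat_lit 164) (nat_lit 5) (nat_lit 165) (nat_lit 5) (nat_lit 430) (nat_lit 342) (nat_lit 248)) (XT.nd (nat_lit 78) (nat_lit 152) (nat_lit 0) (XT.lf (nat_lit 0) (nat_lit 10834467555) (nat_lit 228) (nat_lit 3207480369) (nat_lit 76) (nat_lit 6588468268) (nat_lit 162) (nat_lit 5) (nat_lit 165) (nat_lit 5) (nat_lit 163) (nat_lit 5) (nat_lit 431) (nat_lit 342) (nat_lit 247)) (XT.lf (nat_lit 0) (nat_lit 11041614427) (nat_lit 152) (nat_lit 6557656253) (nat_lit 228) (nat_lit 3414627241) (nat_lit 160) (nat_lit 5) (nat_lit 162) (nat_lit 5) (nat_lit 163) (nat_lit 5) (nat_lit 432) (nat_lit 342) (nat_lit 246)))) (XT.nd (nat_lit 78) (nat_lit 152) (nat_lit 0) (XT.lf (nat_lit 0) (nat_lit 3158574261)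 (nat_lit 228) (nat_lit 17032455659) (nat_lit 76) (nat_lit 1215081434) (nat_lit 157) (nat_lit 5) (nat_lit 160) (nat_lit 5) (nat_lit 158) (nat_lit 5) (nat_lit 433) (nat_lit 342) (nat_lit 245)) (XT.nd (nat_lit 78) (nat_lit 152) (nat_lit 0) (XT.lf (nat_lit 0) (nat_lit 10002348322) (nat_lit 228) (nat_lit 2597506394) (nat_lit 76) (nat_lit 9204962014) (nat_lit 157) (nat_lit 5) (nat_lit 160) (nat_lit 5) (nat_lit 158) (nat_lit 5) (nat_lit 434) (nat_lit 342) (nat_lit 244)) (XT.lf (nat_lit 0) (nat_lit 12470041529) (nat_lit 152) (nat_lit 4677363068) (nat_lit 228) (nat_lit 5065199601) (nat_lit 155) (nat_lit 5) (nat_lit 157) (nat_lit 5) (nat_lit 158) (nat_lit 5) (nat_lit 435) (nat_lit 342) (nat_lit 243))))) (XT.nd (nat_lit 234) (nat_lit 380) (nat_lit 0) (XT.nd (nat_lit 78) (nat_lit 380) (nat_lit 0) (XT.lf (nat_lit 0) (nat_lit 1298997380) (nat_lit 0) (nat_lit 1298997380) (nat_lit 228) (nat_lit 641927632) (nat_lit 511)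 (nat_lit 5) (nat_lit 511) (nat_lit 3) (nat_lit 514) (nat_lit 3) (nat_lit 343) (nat_lit 343) (nat_lit 334)) (XT.nd (nat_lit 78) (nat_lit 0) (nat_lit 0) (XT.lf (nat_lit 0) (nat_lit 1500972724) (nat_lit 380) (nat_lit 629401312) (nat_lit 380) (nat_lit 4363684489) (nat_lit 506) (nat_lit 3) (nat_lit 511) (nat_lit 3) (nat_lit 511) (nat_lit 5) (nat_lit 344) (nat_lit 343) (nat_lit 333)) (XT.lf (nat_lit 76) (nat_lit 2704842379) (nat_lit 0) (nat_lit 1556256326) (nat_lit 380) (nat_lit 2249691908) (nat_lit 507) (nat_lit 5) (nat_lit 506) (nat_lit 3) (nat_lit 511) (nat_lit 5) (nat_lit 345) (nat_lit 343) (nat_lit 332)))) (XT.nd (nat_lit 78) (nat_lit 0) (nat_lit 0) (XT.lf (nat_lit 0) (nat_lit 464318583) (nat_lit 380) (nat_lit 438845862) (nat_lit 456) (nat_lit 5627707470) (nat_lit 501) (nat_lit 5) (nat_lit 506) (nat_lit 3) (nat_lit 507) (nat_lit 5) (nat_lit 346) (nat_lit 343) (nat_lit 331)) (XT.nd (nat_lit 78) (nat_lit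 0) (nat_lit 76) (XT.lf (nat_lit 76) (nat_lit 3009975989) (nat_lit 0) (nat_lit 129739134) (nat_lit 456) (nat_lit 3413416838) (nat_lit 502) (nat_lit 5) (nat_lit 501) (nat_lit 5) (nat_lit 507) (nat_lit 5) (nat_lit 347) (nat_lit 343) (nat_lit 330)) (XT.lf (nat_lit 0) (nat_lit 5805441920) (nat_lit 380) (nat_lit 69811635) (nat_lit 456) (nat_lit 703504205) (nat_lit 502) (nat_lit 5) (nat_lit 507) (nat_lit 5) (nat_lit 508) (nat_lit 5) (nat_lit 348) (nat_lit 343) (nat_lit 329))))))))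
noncomputable def xc56 : XT := (XT.nd (nat_lit 1794) (nat_lit 8208) (nat_lit 0) (XT.nd (nat_lit 858) (nat_lit 7296) (nat_lit 0) (XT.nd (nat_lit 390) (nat_lit 2660) (nat_lit 0) (XT.nd (nat_lit 156) (nat_lit 532) (nat_lit 0) (XT.nd (nat_lit 78) (nat_lit 0) (nat_lit 0) (XT.lf (nat_lit 0) (nat_lit 1844615140) (nat_lit 456) (nat_lit 3106999830) (nat_lit 532) (nat_lit 1654878174) (nat_lit 496) (nat_lit 5) (nat_lit 502) (nat_lit 5) (nat_lit 503) (nat_lit 5) (nat_lit 349) (nat_lit 343) (nat_lit 328)) (XT.lf (nat_lit 76) (nat_lit 485742385) (nat_lit 0) (nat_lit 3948661156) (nat_lit 532) (nat_lit 2203161481) (nat_lit 497) (nat_lit 5) (nat_lit 496) (nat_lit 5) (nat_lit 503) (nat_lit 5) (nat_lit 350) (nat_lit 343) (nat_lit 327))) (XT.nd (nat_lit 78) (nat_lit 0) (nat_lit 0) (XT.lf (nat_lit 0) (nat_lit 360369526) (nat_lit 532) (nat_lit 2482801112) (nat_lit 608) (nat_lit 3828179076) (nat_lit 489) (nat_lit 5) (nat_lit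 496) (nat_lit 5) (nat_lit 497) (nat_lit 5) (nat_lit 351) (nat_lit 343) (nat_lit 326)) (XT.nd (nat_lit 78) (nat_lit 0) (nat_lit 0) (XT.lf (nat_lit 76) (nat_lit 1240762844) (nat_lit 0) (nat_lit 1635265725) (nat_lit 608) (nat_lit 3831879868) (nat_lit 490) (nat_lit 5) (nat_lit 489) (nat_lit 5) (nat_lit 497) (nat_lit 5) (nat_lit 352) (nat_lit 343) (nat_lit 325)) (XT.lf (nat_lit 76) (nat_lit 5069570129) (nat_lit 0) (nat_lit 332375760) (nat_lit 608) (nat_lit 1345574380) (nat_lit 490) (nat_lit 5) (nat_lit 489) (nat_lit 5) (nat_lit 497) (nat_lit 5) (nat_lit 353) (nat_lit 343) (nat_lit 324))))) (XT.nd (nat_lit 234) (nat_lit 1520) (nat_lit 0) (XT.nd (nat_lit 78) (nat_lit 608) (nat_lit 0) (XT.lf (nat_lit 0) (nat_lit 1134547515) (nat_lit 608) (nat_lit 4601626550) (nat_lit 76) (nat_lit 1053507641) (nat_lit 482) (nat_lit 5) (nat_lit 490) (nat_lit 5) (nat_lit 483) (nat_lit 5) (nat_lit 354) (nat_lit 343) (nat_lit 323))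 (XT.nd (nat_lit 78) (nat_lit 608) (nat_lit 0) (XT.lf (nat_lit 0) (nat_lit 3596225822) (nat_lit 608) (nat_lit 704709562) (nat_lit 76) (nat_lit 2533747004) (nat_lit 482) (nat_lit 5) (nat_lit 490) (nat_lit 5) (nat_lit 483) (nat_lit 5) (nat_lit 355) (nat_lit 343) (nat_lit 322)) (XT.lf (nat_lit 0) (nat_lit 3315793039) (nat_lit 608) (nat_lit 2764140549) (nat_lit 684) (nat_lit 802654128) (nat_lit 474) (nat_lit 5) (nat_lit 482) (nat_lit 5) (nat_lit 483) (nat_lit 5) (nat_lit 356) (nat_lit 343) (nat_lit 321)))) (XT.nd (nat_lit 78) (nat_lit 760) (nat_lit 0) (XT.lf (nat_lit 0) (nat_lit 473303633) (nat_lit 684) (nat_lit 1128741615) (nat_lit 760) (nat_lit 5331519397) (nat_lit 464) (nat_lit 5) (nat_lit 473) (nat_lit 5) (nat_lit 474) (nat_lit 5) (nat_lit 357) (nat_lit 343) (nat_lit 320)) (XT.nd (nat_lit 78) (nat_lit 760) (nat_lit 0) (XT.lf (nat_lit 0) (nat_lit 4023908053) (nat_lit 760) (nat_lit 2352073384) (nat_lit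 76) (nat_lit 611016382) (nat_lit 464) (nat_lit 5) (nat_lit 474) (nat_lit 5) (nat_lit 465) (nat_lit 5) (nat_lit 358) (nat_lit 343) (nat_lit 319)) (XT.lf (nat_lit 0) (nat_lit 1844806206) (nat_lit 760) (nat_lit 4624314884) (nat_lit 836) (nat_lit 574392068) (nat_lit 454) (nat_lit 5) (nat_lit 464) (nat_lit 5) (nat_lit 465) (nat_lit 5) (nat_lit 359) (nat_lit 343) (nat_lit 318)))))) (XT.nd (nat_lit 468) (nat_lit 4408) (nat_lit 0) (XT.nd (nat_lit 234) (nat_lit 1064) (nat_lit 0) (XT.nd (nat_lit 78) (nat_lit 1748) (nat_lit 0) (XT.lf (nat_lit 0) (nat_lit 1795891819) (nat_lit 836) (nat_lit 963900566) (nat_lit 76) (nat_lit 4342985882) (nat_lit 453) (nat_lit 5) (nat_lit 464) (nat_lit 5) (nat_lit 454) (nat_lit 5) (nat_lit 360) (nat_lit 343) (nat_lit 317)) (XT.nd (nat_lit 78) (nat_lit 912) (nat_lit 0) (XT.lf (nat_lit 0) (nat_lit 3400034834) (nat_lit 836) (nat_lit 783378930) (nat_lit 912) (nat_lit 2981506728) (nat_lit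 442) (nat_lit 5) (nat_lit 453) (nat_lit 5) (nat_lit 454) (nat_lit 5) (nat_lit 361) (nat_lit 343) (nat_lit 316)) (XT.lf (nat_lit 0) (nat_lit 625738144) (nat_lit 912) (nat_lit 5971472287) (nat_lit 988) (nat_lit 633077079) (nat_lit 430) (nat_lit 5) (nat_lit 442) (nat_lit 5) (nat_lit 443) (nat_lit 5) (nat_lit 362) (nat_lit 343) (nat_lit 315)))) (XT.nd (nat_lit 78) (nat_lit 988) (nat_lit 0) (XT.lf (nat_lit 0) (nat_lit 1724723580) (nat_lit 988) (nat_lit 2157715800) (nat_lit 76) (nat_lit 3415448202) (nat_lit 429) (nat_lit 5) (nat_lit 442) (nat_lit 5) (nat_lit 430) (nat_lit 5) (nat_lit 363) (nat_lit 343) (nat_lit 314)) (XT.nd (nat_lit 78) (nat_lit 0) (nat_lit 0) (XT.lf (nat_lit 0) (nat_lit 2403743850) (nat_lit 988) (nat_lit 1689619756) (nat_lit 1064) (nat_lit 3275379123) (nat_lit 416) (nat_lit 5) (nat_lit 429) (nat_lit 5) (nat_lit 430) (nat_lit 5) (nat_lit 364) (nat_lit 343) (nat_lit 313)) (XT.lf (nat_lit 0)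 (nat_lit 6491837100) (nat_lit 1064) (nat_lit 361470307) (nat_lit 76) (nat_lit 589652893) (nat_lit 416) (nat_lit 5) (nat_lit 430) (nat_lit 5) (nat_lit 417) (nat_lit 5) (nat_lit 365) (nat_lit 343) (nat_lit 312))))) (XT.nd (nat_lit 234) (nat_lit 2128) (nat_lit 0) (XT.nd (nat_lit 78) (nat_lit 1140) (nat_lit 0) (XT.lf (nat_lit 0) (nat_lit 1406856547) (nat_lit 1140) (nat_lit 3143549781) (nat_lit 76) (nat_lit 2968817434) (nat_lit 401) (nat_lit 5) (nat_lit 416) (nat_lit 5) (nat_lit 402) (nat_lit 5) (nat_lit 366) (nat_lit 343) (nat_lit 311)) (XT.nd (nat_lit 78) (nat_lit 0) (nat_lit 0) (XT.lf (nat_lit 0) (nat_lit 1627023225) (nat_lit 1140) (nat_lit 2142795722) (nat_lit 1216) (nat_lit 3829072873) (nat_lit 386) (nat_lit 5) (nat_lit 401) (nat_lit 5) (nat_lit 402) (nat_lit 5) (nat_lit 367) (nat_lit 343) (nat_lit 310)) (XT.lf (nat_lit 0) (nat_lit 6174402971) (nat_lit 1216) (nat_lit 1139749309) (nat_lit 76) (nat_lit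 367675658) (nat_lit 386) (nat_lit 5) (nat_lit 402) (nat_lit 5) (nat_lit 387) (nat_lit 5) (nat_lit 368) (nat_lit 343) (nat_lit 309)))) (XT.nd (nat_lit 78) (nat_lit 836) (nat_lit 0) (XT.lf (nat_lit 0) (nat_lit 861939104) (nat_lit 1292) (nat_lit 3944524906) (nat_lit 76) (nat_lit 2960673810) (nat_lit 369) (nat_lit 5) (nat_lit 386) (nat_lit 5) (nat_lit 370) (nat_lit 5) (nat_lit 369) (nat_lit 343) (nat_lit 308)) (XT.nd (nat_lit 78) (nat_lit 0) (nat_lit 0) (XT.lf (nat_lit 0) (nat_lit 1047739875) (nat_lit 836) (nat_lit 2184007255) (nat_lit 912) (nat_lit 4624022296) (nat_lit 358) (nat_lit 5) (nat_lit 369) (nat_lit 5) (nat_lit 370) (nat_lit 5) (nat_lit 370) (nat_lit 343) (nat_lit 307)) (XT.lf (nat_lit 0) (nat_lit 5657057700) (nat_lit 912) (nat_lit 1742058162) (nat_lit 76) (nat_lit 548411869) (nat_lit 358) (nat_lit 5) (nat_lit 370) (nat_lit 5) (nat_lit 359) (nat_lit 5) (nat_lit 371) (nat_lit 343) (nat_lit 306)))))))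 (XT.nd (nat_lit 936) (nat_lit 3496) (nat_lit 0) (XT.nd (nat_lit 468) (nat_lit 2204) (nat_lit 0) (XT.nd (nat_lit 234) (nat_lit 1216) (nat_lit 0) (XT.nd (nat_lit 78) (nat_lit 608) (nat_lit 0) (XT.lf (nat_lit 0) (nat_lit 106727122) (nat_lit 684) (nat_lit 4581050116) (nat_lit 76) (nat_lit 3354353583) (nat_lit 349) (nat_lit 5) (nat_lit 358) (nat_lit 5) (nat_lit 350) (nat_lit 5) (nat_lit 372) (nat_lit 343) (nat_lit 305)) (XT.nd (nat_lit 78) (nat_lit 0) (nat_lit 0) (XT.lf (nat_lit 0) (nat_lit 646495974) (nat_lit 608) (nat_lit 1848847786) (nat_lit 684) (nat_lit 5644581712) (nat_lit 341) (nat_lit 5) (nat_lit 349) (nat_lit 5) (nat_lit 350) (nat_lit 5) (nat_lit 373) (nat_lit 343) (nat_lit 304)) (XT.lf (nat_lit 0) (nat_lit 4955338332) (nat_lit 684) (nat_lit 2186638170) (nat_lit 76) (nat_lit 1098685879) (nat_lit 341) (nat_lit 5) (nat_lit 350) (nat_lit 5) (nat_lit 342) (nat_lit 5) (nat_lit 374) (nat_lit 343) (nat_lit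 303)))) (XT.nd (nat_lit 78) (nat_lit 684) (nat_lit 0) (XT.lf (nat_lit 0) (nat_lit 3265200794) (nat_lit 532) (nat_lit 4217960241) (nat_lit 608) (nat_lit 861439512) (nat_lit 334) (nat_lit 5) (nat_lit 341) (nat_lit 5) (nat_lit 342) (nat_lit 5) (nat_lit 375) (nat_lit 343) (nat_lit 302)) (XT.nd (nat_lit 78) (nat_lit 0) (nat_lit 0) (XT.lf (nat_lit 0) (nat_lit 406336594) (nat_lit 608) (nat_lit 1167971793) (nat_lit 684) (nat_lit 6877745285) (nat_lit 325) (nat_lit 5) (nat_lit 333) (nat_lit 5) (nat_lit 334) (nat_lit 5) (nat_lit 376) (nat_lit 343) (nat_lit 301)) (XT.lf (nat_lit 0) (nat_lit 4082417289) (nat_lit 684) (nat_lit 2489494401) (nat_lit 76) (nat_lit 1990064748) (nat_lit 325) (nat_lit 5) (nat_lit 334) (nat_lit 5) (nat_lit 326) (nat_lit 5) (nat_lit 377) (nat_lit 343) (nat_lit 300))))) (XT.nd (nat_lit 234) (nat_lit 1064) (nat_lit 0) (XT.nd (nat_lit 78) (nat_lit 608) (nat_lit 0) (XT.lf (nat_lit 0) (nat_lit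 3225507759) (nat_lit 532) (nat_lit 3430241214) (nat_lit 608) (nat_lit 2019748529) (nat_lit 318) (nat_lit 5) (nat_lit 325) (nat_lit 5) (nat_lit 326) (nat_lit 5) (nat_lit 378) (nat_lit 343) (nat_lit 299)) (XT.nd (nat_lit 78) (nat_lit 0) (nat_lit 0) (XT.lf (nat_lit 0) (nat_lit 312490830) (nat_lit 532) (nat_lit 167596384) (nat_lit 608) (nat_lit 8312901059) (nat_lit 310) (nat_lit 5) (nat_lit 317) (nat_lit 5) (nat_lit 318) (nat_lit 5) (nat_lit 379) (nat_lit 343) (nat_lit 298)) (XT.lf (nat_lit 0) (nat_lit 3049333993) (nat_lit 608) (nat_lit 2664636192) (nat_lit 76) (nat_lit 3198383328) (nat_lit 310) (nat_lit 5) (nat_lit 318) (nat_lit 5) (nat_lit 311) (nat_lit 5) (nat_lit 380) (nat_lit 343) (nat_lit 297)))) (XT.nd (nat_lit 78) (nat_lit 608) (nat_lit 0) (XT.lf (nat_lit 0) (nat_lit 3330176783) (nat_lit 456) (nat_lit 2349384917) (nat_lit 532) (nat_lit 3356220907) (nat_lit 304) (nat_lit 5) (nat_lit 310) (nat_lit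 5) (nat_lit 311) (nat_lit 5) (nat_lit 381) (nat_lit 343) (nat_lit 296)) (XT.nd (nat_lit 78) (nat_lit 76) (nat_lit 0) (XT.lf (nat_lit 0) (nat_lit 333208325) (nat_lit 532) (nat_lit 8047625487) (nat_lit 608) (nat_lit 782316633) (nat_lit 297) (nat_lit 5) (nat_lit 304) (nat_lit 5) (nat_lit 305) (nat_lit 5) (nat_lit 382) (nat_lit 343) (nat_lit 295)) (XT.lf (nat_lit 0) (nat_lit 1865198516) (nat_lit 608) (nat_lit 2724290183) (nat_lit 76) (nat_lit 4703325871) (nat_lit 296) (nat_lit 5) (nat_lit 304) (nat_lit 5) (nat_lit 297) (nat_lit 5) (nat_lit 383) (nat_lit 343) (nat_lit 294)))))) (XT.nd (nat_lit 468) (nat_lit 1672) (nat_lit 0) (XT.nd (nat_lit 234) (nat_lit 836) (nat_lit 0) (XT.nd (nat_lit 78) (nat_lit 532) (nat_lit 0) (XT.lf (nat_lit 0) (nat_lit 3568131366) (nat_lit 456) (nat_lit 995411901) (nat_lit 532) (nat_lit 4862979142) (nat_lit 290) (nat_lit 5) (nat_lit 296) (nat_lit 5) (nat_lit 297) (nat_lit 5) (nat_lit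 384) (nat_lit 343) (nat_lit 293)) (XT.nd (nat_lit 78) (nat_lit 76) (nat_lit 0) (XT.lf (nat_lit 0) (nat_lit 465559283) (nat_lit 456) (nat_lit 6889091963) (nat_lit 532) (nat_lit 2209235851) (nat_lit 284) (nat_lit 5) (nat_lit 290) (nat_lit 5) (nat_lit 291) (nat_lit 5) (nat_lit 385) (nat_lit 343) (nat_lit 292)) (XT.lf (nat_lit 0) (nat_lit 537370257) (nat_lit 532) (nat_lit 2679088921) (nat_lit 76) (nat_lit 6488058064) (nat_lit 283) (nat_lit 5) (nat_lit 290) (nat_lit 5) (nat_lit 284) (nat_lit 5) (nat_lit 386) (nat_lit 343) (nat_lit 291)))) (XT.nd (nat_lit 78) (nat_lit 456) (nat_lit 0) (XT.lf (nat_lit 0) (nat_lit 3320881291) (nat_lit 456) (nat_lit 5924893611) (nat_lit 76) (nat_lit 602967873) (nat_lit 278) (nat_lit 5) (nat_lit 284) (nat_lit 5) (nat_lit 279) (nat_lit 5) (nat_lit 387) (nat_lit 343) (nat_lit 290)) (XT.nd (nat_lit 78) (nat_lit 0) (nat_lit 0) (XT.lf (nat_lit 0) (nat_lit 706754332) (nat_lit 456) (nat_lit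 5502957210) (nat_lit 532) (nat_lit 3786929118) (nat_lit 272) (nat_lit 5) (nat_lit 278) (nat_lit 5) (nat_lit 279) (nat_lit 5) (nat_lit 388) (nat_lit 343) (nat_lit 289)) (XT.lf (nat_lit 0) (nat_lit 7601143519) (nat_lit 456) (nat_lit 1600477143) (nat_lit 532) (nat_lit 946862397) (nat_lit 272) (nat_lit 5) (nat_lit 278) (nat_lit 5) (nat_lit 279) (nat_lit 5) (nat_lit 389) (nat_lit 343) (nat_lit 288))))) (XT.nd (nat_lit 234) (nat_lit 836) (nat_lit 0) (XT.nd (nat_lit 78) (nat_lit 380) (nat_lit 0) (XT.lf (nat_lit 0) (nat_lit 1963325168) (nat_lit 456) (nat_lit 5920395931) (nat_lit 76) (nat_lit 2419883364) (nat_lit 266) (nat_lit 5) (nat_lit 272) (nat_lit 5) (nat_lit 267) (nat_lit 5) (nat_lit 390) (nat_lit 343) (nat_lit 287)) (XT.nd (nat_lit 78) (nat_lit 0) (nat_lit 0) (XT.lf (nat_lit 0) (nat_lit 1048883950) (nat_lit 380) (nat_lit 3902801886) (nat_lit 456) (nat_lit 5511115472) (nat_lit 261) (nat_lit 5) (nat_lit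 266) (nat_lit 5) (nat_lit 267) (nat_lit 5) (nat_lit 391) (nat_lit 343) (nat_lit 286)) (XT.lf (nat_lit 0) (nat_lit 8050492693) (nat_lit 456) (nat_lit 2336786019) (nat_lit 76) (nat_lit 238871485) (nat_lit 261) (nat_lit 5) (nat_lit 267) (nat_lit 5) (nat_lit 262) (nat_lit 5) (nat_lit 392) (nat_lit 343) (nat_lit 285)))) (XT.nd (nat_lit 78) (nat_lit 380) (nat_lit 0) (XT.lf (nat_lit 0) (nat_lit 485575389) (nat_lit 456) (nat_lit 5843315345) (nat_lit 76) (nat_lit 4463986146) (nat_lit 255) (nat_lit 5) (nat_lit 261) (nat_lit 5) (nat_lit 256) (nat_lit 5) (nat_lit 393) (nat_lit 343) (nat_lit 284)) (XT.nd (nat_lit 78) (nat_lit 0) (nat_lit 0) (XT.lf (nat_lit 0) (nat_lit 1485274214) (nat_lit 380) (nat_lit 2099684434) (nat_lit 456) (nat_lit 7378939221) (nat_lit 250) (nat_lit 5) (nat_lit 255) (nat_lit 5) (nat_lit 256) (nat_lit 5) (nat_lit 394) (nat_lit 343) (nat_lit 283)) (XT.lf (nat_lit 0) (nat_lit 6819046511) (nat_lit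 456) (nat_lit 2063996623) (nat_lit 76) (nat_lit 2255754663) (nat_lit 250) (nat_lit 5) (nat_lit 256) (nat_lit 5) (nat_lit 251) (nat_lit 5) (nat_lit 395) (nat_lit 343) (nat_lit 282))))))))
noncomputable def xc57 : XT := (XT.nd (nat_lit 1794) (nat_lit 2204) (nat_lit 0) (XT.nd (nat_lit 858) (nat_lit 2204) (nat_lit 0) (XT.nd (nat_lit 390) (nat_lit 1216) (nat_lit 0) (XT.nd (nat_lit 156) (nat_lit 684) (nat_lit 0) (XT.nd (nat_lit 78) (nat_lit 456) (nat_lit 0) (XT.lf (nat_lit 0) (nat_lit 5606392918) (nat_lit 304) (nat_lit 4580040249) (nat_lit 380) (nat_lit 1131423269) (nat_lit 246) (nat_lit 5) (nat_lit 250) (nat_lit 5) (nat_lit 251) (nat_lit 5) (nat_lit 396) (nat_lit 343) (nat_lit 281)) (XT.lf (nat_lit 0) (nat_lit 2010367751) (nat_lit 380) (nat_lit 102369384) (nat_lit 456) (nat_lit 9388863350) (nat_lit 240) (nat_lit 5) (nat_lit 245) (nat_lit 5) (nat_lit 246) (nat_lit 5) (nat_lit 397) (nat_lit 343) (nat_lit 280)))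 (XT.nd (nat_lit 78) (nat_lit 684) (nat_lit 0) (XT.lf (nat_lit 0) (nat_lit 5495306947) (nat_lit 456) (nat_lit 1719239105) (nat_lit 76) (nat_lit 4474059985) (nat_lit 240) (nat_lit 5) (nat_lit 246) (nat_lit 5) (nat_lit 241) (nat_lit 5) (nat_lit 398) (nat_lit 343) (nat_lit 279)) (XT.nd (nat_lit 78) (nat_lit 380) (nat_lit 0) (XT.lf (nat_lit 0) (nat_lit 6354607623) (nat_lit 304) (nat_lit 2650174380) (nat_lit 380) (nat_lit 2875676908) (nat_lit 236) (nat_lit 5) (nat_lit 240) (nat_lit 5) (nat_lit 241) (nat_lit 5) (nat_lit 399) (nat_lit 343) (nat_lit 278)) (XT.lf (nat_lit 0) (nat_lit 557163923) (nat_lit 380) (nat_lit 9478122906) (nat_lit 76) (nat_lit 2041836711) (nat_lit 231) (nat_lit 5) (nat_lit 236) (nat_lit 5) (nat_lit 232) (nat_lit 5) (nat_lit 400) (nat_lit 343) (nat_lit 277))))) (XT.nd (nat_lit 234) (nat_lit 608) (nat_lit 0) (XT.nd (nat_lit 78) (nat_lit 608) (nat_lit 0) (XT.lf (nat_lit 0) (nat_lit 4081678218)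 (nat_lit 380) (nat_lit 1307263947) (nat_lit 76) (nat_lit 6888497184) (nat_lit 231) (nat_lit 5) (nat_lit 236) (nat_lit 5) (nat_lit 232) (nat_lit 5) (nat_lit 401) (nat_lit 343) (nat_lit 276)) (XT.nd (nat_lit 78) (nat_lit 304) (nat_lit 0) (XT.lf (nat_lit 0) (nat_lit 7195877469) (nat_lit 304) (nat_lit 550167674) (nat_lit 380) (nat_lit 4736695975) (nat_lit 227) (nat_lit 5) (nat_lit 231) (nat_lit 5) (nat_lit 232) (nat_lit 5) (nat_lit 402) (nat_lit 343) (nat_lit 275)) (XT.lf (nat_lit 0) (nat_lit 3254256399) (nat_lit 304) (nat_lit 8318605317) (nat_lit 380) (nat_lit 1119764665) (nat_lit 223) (nat_lit 5) (nat_lit 227) (nat_lit 5) (nat_lit 228) (nat_lit 5) (nat_lit 403) (nat_lit 343) (nat_lit 274)))) (XT.nd (nat_lit 78) (nat_lit 532) (nat_lit 0) (XT.lf (nat_lit 0) (nat_lit 2579638531) (nat_lit 380) (nat_lit 832006219) (nat_lit 76) (nat_lit 9495667732) (nat_lit 222) (nat_lit 5) (nat_lit 227) (nat_lit 5) (nat_lit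 223) (nat_lit 5) (nat_lit 404) (nat_lit 343) (nat_lit 273)) (XT.nd (nat_lit 78) (nat_lit 304) (nat_lit 0) (XT.lf (nat_lit 0) (nat_lit 6428594418) (nat_lit 304) (nat_lit 5015392559) (nat_lit 76) (nat_lit 1682287281) (nat_lit 219) (nat_lit 5) (nat_lit 223) (nat_lit 5) (nat_lit 220) (nat_lit 5) (nat_lit 405) (nat_lit 343) (nat_lit 272)) (XT.lf (nat_lit 0) (nat_lit 3978840932) (nat_lit 304) (nat_lit 6461443551) (nat_lit 380) (nat_lit 2910102439) (nat_lit 215) (nat_lit 5) (nat_lit 219) (nat_lit 5) (nat_lit 220) (nat_lit 5) (nat_lit 406) (nat_lit 343) (nat_lit 271)))))) (XT.nd (nat_lit 468) (nat_lit 1064) (nat_lit 0) (XT.nd (nat_lit 234) (nat_lit 532) (nat_lit 0) (XT.nd (nat_lit 78) (nat_lit 532) (nat_lit 0) (XT.lf (nat_lit 0) (nat_lit 989808444) (nat_lit 380) (nat_lit 296661624) (nat_lit 76) (nat_lit 12293925703) (nat_lit 214) (nat_lit 5) (nat_lit 219) (nat_lit 5) (nat_lit 215) (nat_lit 5) (nat_lit 407) (nat_lit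 343) (nat_lit 270)) (XT.nd (nat_lit 78) (nat_lit 304) (nat_lit 0) (XT.lf (nat_lit 0) (nat_lit 5043880888) (nat_lit 304) (nat_lit 4705531335) (nat_lit 76) (nat_lit 4064158641) (nat_lit 211) (nat_lit 5) (nat_lit 215) (nat_lit 5) (nat_lit 212) (nat_lit 5) (nat_lit 408) (nat_lit 343) (nat_lit 269)) (XT.lf (nat_lit 0) (nat_lit 4776372902) (nat_lit 304) (nat_lit 4473009565) (nat_lit 380) (nat_lit 4803464535) (nat_lit 207) (nat_lit 5) (nat_lit 211) (nat_lit 5) (nat_lit 212) (nat_lit 5) (nat_lit 409) (nat_lit 343) (nat_lit 268)))) (XT.nd (nat_lit 78) (nat_lit 304) (nat_lit 0) (XT.lf (nat_lit 0) (nat_lit 285546068) (nat_lit 228) (nat_lit 13323862453) (nat_lit 304) (nat_lit 689042121) (nat_lit 204) (nat_lit 5) (nat_lit 207) (nat_lit 5) (nat_lit 208) (nat_lit 5) (nat_lit 410) (nat_lit 343) (nat_lit 267)) (XT.nd (nat_lit 78) (nat_lit 228) (nat_lit 0) (XT.lf (nat_lit 0) (nat_lit 3586955581) (nat_lit 304) (nat_lit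 4355103743) (nat_lit 76) (nat_lit 6605117884) (nat_lit 203) (nat_lit 5) (nat_lit 207) (nat_lit 5) (nat_lit 204) (nat_lit 5) (nat_lit 411) (nat_lit 343) (nat_lit 266)) (XT.lf (nat_lit 0) (nat_lit 5645531834) (nat_lit 228) (nat_lit 2355541835) (nat_lit 304) (nat_lit 6801376550) (nat_lit 200) (nat_lit 5) (nat_lit 203) (nat_lit 5) (nat_lit 204) (nat_lit 5) (nat_lit 412) (nat_lit 343) (nat_lit 265))))) (XT.nd (nat_lit 234) (nat_lit 532) (nat_lit 0) (XT.nd (nat_lit 78) (nat_lit 304) (nat_lit 0) (XT.lf (nat_lit 0) (nat_lit 905498804) (nat_lit 228) (nat_lit 11697548681) (nat_lit 304) (nat_lit 2460670970) (nat_lit 197) (nat_lit 5) (nat_lit 200) (nat_lit 5) (nat_lit 201) (nat_lit 5) (nat_lit 413) (nat_lit 343) (nat_lit 264)) (XT.nd (nat_lit 78) (nat_lit 228) (nat_lit 0) (XT.lf (nat_lit 0) (nat_lit 2057485691) (nat_lit 304) (nat_lit 3966689031) (nat_lit 76) (nat_lit 9305476583) (nat_lit 196) (nat_lit 5) (nat_lit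 200) (nat_lit 5) (nat_lit 197) (nat_lit 5) (nat_lit 414) (nat_lit 343) (nat_lit 263)) (XT.lf (nat_lit 0) (nat_lit 6585633724) (nat_lit 228) (nat_lit 110035025) (nat_lit 304) (nat_lit 8906144338) (nat_lit 193) (nat_lit 5) (nat_lit 196) (nat_lit 5) (nat_lit 197) (nat_lit 5) (nat_lit 415) (nat_lit 343) (nat_lit 262)))) (XT.nd (nat_lit 78) (nat_lit 304) (nat_lit 0) (XT.lf (nat_lit 0) (nat_lit 1578509732) (nat_lit 228) (nat_lit 9978444447) (nat_lit 304) (nat_lit 4322666838) (nat_lit 190) (nat_lit 5) (nat_lit 193) (nat_lit 5) (nat_lit 194) (nat_lit 5) (nat_lit 416) (nat_lit 343) (nat_lit 261)) (XT.nd (nat_lit 78) (nat_lit 228) (nat_lit 0) (XT.lf (nat_lit 0) (nat_lit 454507110) (nat_lit 304) (nat_lit 3542383802) (nat_lit 76) (nat_lit 12166838466) (nat_lit 189) (nat_lit 5) (nat_lit 193) (nat_lit 5) (nat_lit 190) (nat_lit 5) (nat_lit 417) (nat_lit 343) (nat_lit 260)) (XT.lf (nat_lit 0) (nat_lit 5354672637) (nat_lit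 304) (nat_lit 8878905216) (nat_lit 76) (nat_lit 2219502446) (nat_lit 186) (nat_lit 5) (nat_lit 190) (nat_lit 5) (nat_lit 187) (nat_lit 5) (nat_lit 418) (nat_lit 343) (nat_lit 259))))))) (XT.nd (nat_lit 936) (nat_lit 608) (nat_lit 0) (XT.nd (nat_lit 468) (nat_lit 684) (nat_lit 0) (XT.nd (nat_lit 234) (nat_lit 456) (nat_lit 0) (XT.nd (nat_lit 78) (nat_lit 304) (nat_lit 0) (XT.lf (nat_lit 0) (nat_lit 2303700791) (nat_lit 152) (nat_lit 8167937177) (nat_lit 228) (nat_lit 6277379934) (nat_lit 184) (nat_lit 5) (nat_lit 186) (nat_lit 5) (nat_lit 187) (nat_lit 5) (nat_lit 419) (nat_lit 343) (nat_lit 258)) (XT.nd (nat_lit 78) (nat_lit 304) (nat_lit 0) (XT.lf (nat_lit 0) (nat_lit 13956132845) (nat_lit 152) (nat_lit 1847949520) (nat_lit 228) (nat_lit 1247892165) (nat_lit 184) (nat_lit 5) (nat_lit 186) (nat_lit 5) (nat_lit 187) (nat_lit 5) (nat_lit 420) (nat_lit 343) (nat_lit 257)) (XT.lf (nat_lit 0) (nat_lit 3957842546)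 (nat_lit 304) (nat_lit 8728159985) (nat_lit 76) (nat_lit 4673820310) (nat_lit 180) (nat_lit 5) (nat_lit 184) (nat_lit 5) (nat_lit 181) (nat_lit 5) (nat_lit 421) (nat_lit 343) (nat_lit 256)))) (XT.nd (nat_lit 78) (nat_lit 304) (nat_lit 0) (XT.lf (nat_lit 0) (nat_lit 3080668672) (nat_lit 152) (nat_lit 6266488617) (nat_lit 228) (nat_lit 8327803969) (nat_lit 178) (nat_lit 5) (nat_lit 180) (nat_lit 5) (nat_lit 181) (nat_lit 5) (nat_lit 422) (nat_lit 343) (nat_lit 255)) (XT.nd (nat_lit 78) (nat_lit 304) (nat_lit 0) (XT.lf (nat_lit 0) (nat_lit 14963639985) (nat_lit 228) (nat_lit 2625542237) (nat_lit 76) (nat_lit 408406950) (nat_lit 178) (nat_lit 5) (nat_lit 181) (nat_lit 5) (nat_lit 179) (nat_lit 5) (nat_lit 423) (nat_lit 343) (nat_lit 254)) (XT.lf (nat_lit 0) (nat_lit 2502857025) (nat_lit 304) (nat_lit 8565103394) (nat_lit 76) (nat_lit 7257297985) (nat_lit 174) (nat_lit 5) (nat_lit 178) (nat_lit 5) (nat_lit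 175) (nat_lit 5) (nat_lit 424) (nat_lit 343) (nat_lit 253))))) (XT.nd (nat_lit 234) (nat_lit 304) (nat_lit 0) (XT.nd (nat_lit 78) (nat_lit 228) (nat_lit 0) (XT.lf (nat_lit 0) (nat_lit 3909452785) (nat_lit 152) (nat_lit 4273697663) (nat_lit 228) (nat_lit 10477555220) (nat_lit 172) (nat_lit 5) (nat_lit 174) (nat_lit 5) (nat_lit 175) (nat_lit 5) (nat_lit 425) (nat_lit 343) (nat_lit 252)) (XT.nd (nat_lit 78) (nat_lit 228) (nat_lit 0) (XT.lf (nat_lit 0) (nat_lit 14121526998) (nat_lit 228) (nat_lit 2142791321) (nat_lit 76) (nat_lit 2739267800) (nat_lit 172) (nat_lit 5) (nat_lit 175) (nat_lit 5) (nat_lit 173) (nat_lit 5) (nat_lit 426) (nat_lit 343) (nat_lit 251)) (XT.lf (nat_lit 0) (nat_lit 987985585) (nat_lit 228) (nat_lit 8391671881) (nat_lit 76) (nat_lit 9973124939) (nat_lit 169) (nat_lit 5) (nat_lit 172) (nat_lit 5) (nat_lit 170) (nat_lit 5) (nat_lit 427) (nat_lit 343) (nat_lit 250)))) (XT.nd (nat_lit 78)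 (nat_lit 152) (nat_lit 0) (XT.lf (nat_lit 0) (nat_lit 4790508139) (nat_lit 152) (nat_lit 2188353548) (nat_lit 228) (nat_lit 12730857136) (nat_lit 167) (nat_lit 5) (nat_lit 169) (nat_lit 5) (nat_lit 170) (nat_lit 5) (nat_lit 428) (nat_lit 343) (nat_lit 249)) (XT.nd (nat_lit 78) (nat_lit 152) (nat_lit 0) (XT.lf (nat_lit 0) (nat_lit 13260277829) (nat_lit 228) (nat_lit 1630437365) (nat_lit 76) (nat_lit 5183323726) (nat_lit 167) (nat_lit 5) (nat_lit 170) (nat_lit 5) (nat_lit 168) (nat_lit 5) (nat_lit 429) (nat_lit 343) (nat_lit 248)) (XT.lf (nat_lit 0) (nat_lit 12230511500) (nat_lit 152) (nat_lit 7614655178) (nat_lit 228) (nat_lit 600671037) (nat_lit 165) (nat_lit 5) (nat_lit 167) (nat_lit 5) (nat_lit 168) (nat_lit 5) (nat_lit 430) (nat_lit 343) (nat_lit 247)))))) (XT.nd (nat_lit 46410) (nat_lit 0) (nat_lit 25688) (XT.nd (nat_lit 234) (nat_lit 228) (nat_lit 0) (XT.nd (nat_lit 78) (nat_lit 152) (nat_lit 0)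 (XT.lf (nat_lit 0) (nat_lit 5724682649) (nat_lit 152) (nat_lit 8480275) (nat_lit 228) (nat_lit 15092530089) (nat_lit 162) (nat_lit 5) (nat_lit 164) (nat_lit 5) (nat_lit 165) (nat_lit 5) (nat_lit 431) (nat_lit 343) (nat_lit 246)) (XT.nd (nat_lit 78) (nat_lit 152) (nat_lit 0) (XT.lf (nat_lit 0) (nat_lit 12379900696) (nat_lit 228) (nat_lit 1088793449) (nat_lit 76) (nat_lit 7744022559) (nat_lit 162) (nat_lit 5) (nat_lit 165) (nat_lit 5) (nat_lit 163) (nat_lit 5) (nat_lit 432) (nat_lit 343) (nat_lit 245)) (XT.lf (nat_lit 0) (nat_lit 13566059374) (nat_lit 152) (nat_lit 5767125282) (nat_lit 228) (nat_lit 2274952127) (nat_lit 160) (nat_lit 5) (nat_lit 162) (nat_lit 5) (nat_lit 163) (nat_lit 5) (nat_lit 433) (nat_lit 343) (nat_lit 244)))) (XT.nd (nat_lit 78) (nat_lit 0) (nat_lit 0) (XT.lf (nat_lit 0) (nat_lit 4466379046) (nat_lit 228) (nat_lit 15321166441) (nat_lit 76) (nat_lit 2224357781) (nat_lit 157) (nat_lit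 5) (nat_lit 160) (nat_lit 5) (nat_lit 158) (nat_lit 5) (nat_lit 434) (nat_lit 343) (nat_lit 243)) (XT.nd (nat_lit 46020) (nat_lit 0) (nat_lit 26524) (XT.lf (nat_lit 0) (nat_lit 11480134847) (nat_lit 228) (nat_lit 517894802) (nat_lit 76) (nat_lit 10425600102) (nat_lit 157) (nat_lit 5) (nat_lit 160) (nat_lit 5) (nat_lit 158) (nat_lit 5) (nat_lit 435) (nat_lit 343) (nat_lit 242)) (XT.lf (nat_lit 0) (nat_lit 2103663882) (nat_lit 380) (nat_lit 575544218) (nat_lit 380) (nat_lit 575544218) (nat_lit 506) (nat_lit 3) (nat_lit 511) (nat_lit 3) (nat_lit 511) (nat_lit 5) (nat_lit 344) (nat_lit 344) (nat_lit 332))))) (XT.nd (nat_lit 234) (nat_lit 456) (nat_lit 0) (XT.nd (nat_lit 78) (nat_lit 0) (nat_lit 0) (XT.lf (nat_lit 0) (nat_lit 374799723) (nat_lit 380) (nat_lit 4386097540) (nat_lit 456) (nat_lit 1766946453) (nat_lit 501) (nat_lit 5) (nat_lit 506) (nat_lit 3) (nat_lit 507) (nat_lit 5) (nat_lit 345) (nat_lit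 344) (nat_lit 331)) (XT.nd (nat_lit 78) (nat_lit 0) (nat_lit 0) (XT.lf (nat_lit 0) (nat_lit 2993801550) (nat_lit 380) (nat_lit 1068086044) (nat_lit 456) (nat_lit 2486921933) (nat_lit 501) (nat_lit 5) (nat_lit 506) (nat_lit 3) (nat_lit 507) (nat_lit 5) (nat_lit 346) (nat_lit 344) (nat_lit 330)) (XT.lf (nat_lit 76) (nat_lit 2341016502) (nat_lit 0) (nat_lit 3272130683) (nat_lit 456) (nat_lit 959603916) (nat_lit 502) (nat_lit 5) (nat_lit 501) (nat_lit 5) (nat_lit 507) (nat_lit 5) (nat_lit 347) (nat_lit 344) (nat_lit 329)))) (XT.nd (nat_lit 78) (nat_lit 0) (nat_lit 0) (XT.lf (nat_lit 0) (nat_lit 1591830633) (nat_lit 456) (nat_lit 794956284) (nat_lit 532) (nat_lit 4212781580) (nat_lit 495) (nat_lit 5) (nat_lit 501) (nat_lit 5) (nat_lit 502) (nat_lit 5) (nat_lit 348) (nat_lit 344) (nat_lit 328)) (XT.nd (nat_lit 78) (nat_lit 0) (nat_lit 0) (XT.lf (nat_lit 76) (nat_lit 2734833311) (nat_lit 0) (nat_lit 1395584213)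 (nat_lit 532) (nat_lit 2498590968) (nat_lit 496) (nat_lit 5) (nat_lit 495) (nat_lit 5) (nat_lit 502) (nat_lit 5) (nat_lit 349) (nat_lit 344) (nat_lit 327)) (XT.lf (nat_lit 76) (nat_lit 6333383925) (nat_lit 0) (nat_lit 325707058) (nat_lit 532) (nat_lit 2822834) (nat_lit 496) (nat_lit 5) (nat_lit 495) (nat_lit 5) (nat_lit 502) (nat_lit 5) (nat_lit 350) (nat_lit 344) (nat_lit 326))))))))
noncomputable def xc58 : XT := (XT.nd (nat_lit 1794) (nat_lit 7904) (nat_lit 0) (XT.nd (nat_lit 858) (nat_lit 7068) (nat_lit 0) (XT.nd (nat_lit 390) (nat_lit 2964) (nat_lit 0) (XT.nd (nat_lit 156) (nat_lit 608) (nat_lit 0) (XT.nd (nat_lit 78) (nat_lit 0) (nat_lit 0) (XT.lf (nat_lit 0) (nat_lit 2465859155) (nat_lit 532) (nat_lit 3374580632) (nat_lit 608) (nat_lit 856181566) (nat_lit 489) (nat_lit 5) (nat_lit 496) (nat_lit 5) (nat_lit 497) (nat_lit 5) (nat_lit 351) (nat_lit 344) (nat_lit 325)) (XT.lf (nat_lit 76) (nat_lit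 302979705) (nat_lit 0) (nat_lit 4625321213) (nat_lit 608) (nat_lit 1806475678) (nat_lit 490) (nat_lit 5) (nat_lit 489) (nat_lit 5) (nat_lit 497) (nat_lit 5) (nat_lit 352) (nat_lit 344) (nat_lit 324))) (XT.nd (nat_lit 78) (nat_lit 0) (nat_lit 0) (XT.lf (nat_lit 0) (nat_lit 622957391) (nat_lit 608) (nat_lit 2677436716) (nat_lit 684) (nat_lit 3475106466) (nat_lit 481) (nat_lit 5) (nat_lit 489) (nat_lit 5) (nat_lit 490) (nat_lit 5) (nat_lit 353) (nat_lit 344) (nat_lit 323)) (XT.nd (nat_lit 78) (nat_lit 0) (nat_lit 0) (XT.lf (nat_lit 76) (nat_lit 1138100410) (nat_lit 0) (nat_lit 1875861900) (nat_lit 684) (nat_lit 3805197466) (nat_lit 482) (nat_lit 5) (nat_lit 481) (nat_lit 5) (nat_lit 490) (nat_lit 5) (nat_lit 354) (nat_lit 344) (nat_lit 322)) (XT.lf (nat_lit 76) (nat_lit 5067758911) (nat_lit 0) (nat_lit 352004728) (nat_lit 684) (nat_lit 1446073127) (nat_lit 482) (nat_lit 5) (nat_lit 481) (nat_lit 5) (nat_lit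 490) (nat_lit 5) (nat_lit 355) (nat_lit 344) (nat_lit 321))))) (XT.nd (nat_lit 234) (nat_lit 1672) (nat_lit 0) (XT.nd (nat_lit 78) (nat_lit 684) (nat_lit 0) (XT.lf (nat_lit 0) (nat_lit 915508040) (nat_lit 684) (nat_lit 4748536651) (nat_lit 76) (nat_lit 1251059230) (nat_lit 473) (nat_lit 5) (nat_lit 482) (nat_lit 5) (nat_lit 474) (nat_lit 5) (nat_lit 356) (nat_lit 344) (nat_lit 320)) (XT.nd (nat_lit 78) (nat_lit 684) (nat_lit 0) (XT.lf (nat_lit 0) (nat_lit 3260481494) (nat_lit 684) (nat_lit 753655317) (nat_lit 76) (nat_lit 2953034468) (nat_lit 473) (nat_lit 5) (nat_lit 482) (nat_lit 5) (nat_lit 474) (nat_lit 5) (nat_lit 357) (nat_lit 344) (nat_lit 319)) (XT.lf (nat_lit 0) (nat_lit 3371147930) (nat_lit 684) (nat_lit 2259185507) (nat_lit 760) (nat_lit 1391831342) (nat_lit 464) (nat_lit 5) (nat_lit 473) (nat_lit 5) (nat_lit 474) (nat_lit 5) (nat_lit 358) (nat_lit 344) (nat_lit 318)))) (XT.nd (nat_lit 78)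 (nat_lit 836) (nat_lit 0) (XT.lf (nat_lit 0) (nat_lit 500014257) (nat_lit 760) (nat_lit 408692009) (nat_lit 836) (nat_lit 6171747607) (nat_lit 453) (nat_lit 5) (nat_lit 463) (nat_lit 5) (nat_lit 464) (nat_lit 5) (nat_lit 359) (nat_lit 344) (nat_lit 317)) (XT.nd (nat_lit 78) (nat_lit 836) (nat_lit 0) (XT.lf (nat_lit 0) (nat_lit 3226902870) (nat_lit 836) (nat_lit 2376080746) (nat_lit 76) (nat_lit 1537796088) (nat_lit 453) (nat_lit 5) (nat_lit 464) (nat_lit 5) (nat_lit 454) (nat_lit 5) (nat_lit 360) (nat_lit 344) (nat_lit 316)) (XT.lf (nat_lit 0) (nat_lit 1931177683) (nat_lit 836) (nat_lit 3633253571) (nat_lit 912) (nat_lit 1639990482) (nat_lit 442) (nat_lit 5) (nat_lit 453) (nat_lit 5) (nat_lit 454) (nat_lit 5) (nat_lit 361) (nat_lit 344) (nat_lit 315)))))) (XT.nd (nat_lit 468) (nat_lit 3952) (nat_lit 0) (XT.nd (nat_lit 234) (nat_lit 1140) (nat_lit 0) (XT.nd (nat_lit 78) (nat_lit 1900) (nat_lit 0) (XT.lf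 (nat_lit 0) (nat_lit 640693205) (nat_lit 912) (nat_lit 917622107) (nat_lit 76) (nat_lit 5712886796) (nat_lit 441) (nat_lit 5) (nat_lit 453) (nat_lit 5) (nat_lit 442) (nat_lit 5) (nat_lit 362) (nat_lit 344) (nat_lit 314)) (XT.nd (nat_lit 78) (nat_lit 988) (nat_lit 0) (XT.lf (nat_lit 0) (nat_lit 2927456345) (nat_lit 988) (nat_lit 3780809219) (nat_lit 76) (nat_lit 632114569) (nat_lit 429) (nat_lit 5) (nat_lit 442) (nat_lit 5) (nat_lit 430) (nat_lit 5) (nat_lit 363) (nat_lit 344) (nat_lit 313)) (XT.lf (nat_lit 0) (nat_lit 719365415) (nat_lit 988) (nat_lit 4526928944) (nat_lit 1064) (nat_lit 2166434979) (nat_lit 416) (nat_lit 5) (nat_lit 429) (nat_lit 5) (nat_lit 430) (nat_lit 5) (nat_lit 364) (nat_lit 344) (nat_lit 312)))) (XT.nd (nat_lit 78) (nat_lit 1064) (nat_lit 0) (XT.lf (nat_lit 0) (nat_lit 115675112) (nat_lit 1064) (nat_lit 2114313709) (nat_lit 76) (nat_lit 5258084562) (nat_lit 415) (nat_lit 5) (nat_lit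 429) (nat_lit 5) (nat_lit 416) (nat_lit 5) (nat_lit 365) (nat_lit 344) (nat_lit 311)) (XT.nd (nat_lit 78) (nat_lit 0) (nat_lit 0) (XT.lf (nat_lit 0) (nat_lit 2383808390) (nat_lit 1140) (nat_lit 4993975177) (nat_lit 76) (nat_lit 188417594) (nat_lit 401) (nat_lit 5) (nat_lit 416) (nat_lit 5) (nat_lit 402) (nat_lit 5) (nat_lit 366) (nat_lit 344) (nat_lit 310)) (XT.lf (nat_lit 0) (nat_lit 4699581596) (nat_lit 1140) (nat_lit 283822839) (nat_lit 76) (nat_lit 2663880459) (nat_lit 401) (nat_lit 5) (nat_lit 416) (nat_lit 5) (nat_lit 402) (nat_lit 5) (nat_lit 367) (nat_lit 344) (nat_lit 309))))) (XT.nd (nat_lit 234) (nat_lit 1520) (nat_lit 0) (XT.nd (nat_lit 78) (nat_lit 1292) (nat_lit 0) (XT.lf (nat_lit 0) (nat_lit 4600906245) (nat_lit 1140) (nat_lit 2465968887) (nat_lit 1216) (nat_lit 664464595) (nat_lit 386) (nat_lit 5) (nat_lit 401) (nat_lit 5) (nat_lit 402) (nat_lit 5) (nat_lit 368) (nat_lit 344) (nat_lit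 308)) (XT.nd (nat_lit 78) (nat_lit 0) (nat_lit 0) (XT.lf (nat_lit 0) (nat_lit 1614477555) (nat_lit 1292) (nat_lit 6038792553) (nat_lit 76) (nat_lit 165355591) (nat_lit 369) (nat_lit 5) (nat_lit 386) (nat_lit 5) (nat_lit 370) (nat_lit 5) (nat_lit 369) (nat_lit 344) (nat_lit 307)) (XT.lf (nat_lit 0) (nat_lit 3944545538) (nat_lit 1292) (nat_lit 1095771255) (nat_lit 76) (nat_lit 2868132714) (nat_lit 369) (nat_lit 5) (nat_lit 386) (nat_lit 5) (nat_lit 370) (nat_lit 5) (nat_lit 370) (nat_lit 344) (nat_lit 306)))) (XT.nd (nat_lit 78) (nat_lit 684) (nat_lit 0) (XT.lf (nat_lit 0) (nat_lit 4017172357) (nat_lit 836) (nat_lit 2307485800) (nat_lit 912) (nat_lit 1676905593) (nat_lit 358) (nat_lit 5) (nat_lit 369) (nat_lit 5) (nat_lit 370) (nat_lit 5) (nat_lit 371) (nat_lit 344) (nat_lit 305)) (XT.nd (nat_lit 78) (nat_lit 0) (nat_lit 0) (XT.lf (nat_lit 0) (nat_lit 635148095) (nat_lit 684) (nat_lit 6935883538) (nat_lit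 76) (nat_lit 527153386) (nat_lit 349) (nat_lit 5) (nat_lit 358) (nat_lit 5) (nat_lit 350) (nat_lit 5) (nat_lit 372) (nat_lit 344) (nat_lit 304)) (XT.lf (nat_lit 0) (nat_lit 2989600384) (nat_lit 684) (nat_lit 1749766992) (nat_lit 76) (nat_lit 3457637225) (nat_lit 349) (nat_lit 5) (nat_lit 358) (nat_lit 5) (nat_lit 350) (nat_lit 5) (nat_lit 373) (nat_lit 344) (nat_lit 303))))))) (XT.nd (nat_lit 936) (nat_lit 3420) (nat_lit 0) (XT.nd (nat_lit 468) (nat_lit 2052) (nat_lit 0) (XT.nd (nat_lit 234) (nat_lit 1216) (nat_lit 0) (XT.nd (nat_lit 78) (nat_lit 608) (nat_lit 0) (XT.lf (nat_lit 0) (nat_lit 3605500435) (nat_lit 608) (nat_lit 1788758487) (nat_lit 684) (nat_lit 2905142669) (nat_lit 341) (nat_lit 5) (nat_lit 349) (nat_lit 5) (nat_lit 350) (nat_lit 5) (nat_lit 374) (nat_lit 344) (nat_lit 302)) (XT.nd (nat_lit 78) (nat_lit 76) (nat_lit 0) (XT.lf (nat_lit 0) (nat_lit 696519774) (nat_lit 532) (nat_lit 7157053335)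 (nat_lit 608) (nat_lit 551821904) (nat_lit 334) (nat_lit 5) (nat_lit 341) (nat_lit 5) (nat_lit 342) (nat_lit 5) (nat_lit 375) (nat_lit 344) (nat_lit 301)) (XT.lf (nat_lit 0) (nat_lit 1847601789) (nat_lit 608) (nat_lit 2262778315) (nat_lit 76) (nat_lit 4403287221) (nat_lit 333) (nat_lit 5) (nat_lit 341) (nat_lit 5) (nat_lit 334) (nat_lit 5) (nat_lit 376) (nat_lit 344) (nat_lit 300)))) (XT.nd (nat_lit 78) (nat_lit 608) (nat_lit 0) (XT.lf (nat_lit 0) (nat_lit 3349976761) (nat_lit 608) (nat_lit 938157639) (nat_lit 684) (nat_lit 4337482979) (nat_lit 325) (nat_lit 5) (nat_lit 333) (nat_lit 5) (nat_lit 334) (nat_lit 5) (nat_lit 377) (nat_lit 344) (nat_lit 299)) (XT.nd (nat_lit 78) (nat_lit 76) (nat_lit 0) (XT.lf (nat_lit 0) (nat_lit 364191572) (nat_lit 532) (nat_lit 6435599741) (nat_lit 608) (nat_lit 1941197373) (nat_lit 318) (nat_lit 5) (nat_lit 325) (nat_lit 5) (nat_lit 326) (nat_lit 5) (nat_lit 378) (nat_lit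 344) (nat_lit 298)) (XT.lf (nat_lit 0) (nat_lit 529168050) (nat_lit 608) (nat_lit 2649741226) (nat_lit 76) (nat_lit 5680385654) (nat_lit 317) (nat_lit 5) (nat_lit 325) (nat_lit 5) (nat_lit 318) (nat_lit 5) (nat_lit 379) (nat_lit 344) (nat_lit 297))))) (XT.nd (nat_lit 234) (nat_lit 1064) (nat_lit 0) (XT.nd (nat_lit 78) (nat_lit 456) (nat_lit 0) (XT.lf (nat_lit 0) (nat_lit 3018717155) (nat_lit 608) (nat_lit 5746474901) (nat_lit 76) (nat_lit 215859045) (nat_lit 310) (nat_lit 5) (nat_lit 318) (nat_lit 5) (nat_lit 311) (nat_lit 5) (nat_lit 380) (nat_lit 344) (nat_lit 296)) (XT.nd (nat_lit 78) (nat_lit 0) (nat_lit 0) (XT.lf (nat_lit 0) (nat_lit 158298249) (nat_lit 456) (nat_lit 5436354603) (nat_lit 532) (nat_lit 3511456102) (nat_lit 304) (nat_lit 5) (nat_lit 310) (nat_lit 5) (nat_lit 311) (nat_lit 5) (nat_lit 381) (nat_lit 344) (nat_lit 295)) (XT.lf (nat_lit 0) (nat_lit 6301437385) (nat_lit 456) (nat_lit 1957002855)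 (nat_lit 532) (nat_lit 976161095) (nat_lit 304) (nat_lit 5) (nat_lit 310) (nat_lit 5) (nat_lit 311) (nat_lit 5) (nat_lit 382) (nat_lit 344) (nat_lit 294)))) (XT.nd (nat_lit 78) (nat_lit 456) (nat_lit 0) (XT.lf (nat_lit 0) (nat_lit 1604046515) (nat_lit 608) (nat_lit 6129101795) (nat_lit 76) (nat_lit 1633305755) (nat_lit 296) (nat_lit 5) (nat_lit 304) (nat_lit 5) (nat_lit 297) (nat_lit 5) (nat_lit 383) (nat_lit 344) (nat_lit 293)) (XT.nd (nat_lit 78) (nat_lit 0) (nat_lit 0) (XT.lf (nat_lit 0) (nat_lit 67128783) (nat_lit 456) (nat_lit 4179048503) (nat_lit 532) (nat_lit 5255671037) (nat_lit 290) (nat_lit 5) (nat_lit 296) (nat_lit 5) (nat_lit 297) (nat_lit 5) (nat_lit 384) (nat_lit 344) (nat_lit 292)) (XT.lf (nat_lit 0) (nat_lit 6518857783) (nat_lit 456) (nat_lit 465604213) (nat_lit 532) (nat_lit 2656335712) (nat_lit 290) (nat_lit 5) (nat_lit 296) (nat_lit 5) (nat_lit 297) (nat_lit 5) (nat_lit 385) (nat_lit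 344) (nat_lit 291)))))) (XT.nd (nat_lit 468) (nat_lit 1596) (nat_lit 0) (XT.nd (nat_lit 234) (nat_lit 912) (nat_lit 0) (XT.nd (nat_lit 78) (nat_lit 380) (nat_lit 0) (XT.lf (nat_lit 0) (nat_lit 41550718) (nat_lit 532) (nat_lit 6425848939) (nat_lit 76) (nat_lit 3315880456) (nat_lit 283) (nat_lit 5) (nat_lit 290) (nat_lit 5) (nat_lit 284) (nat_lit 5) (nat_lit 386) (nat_lit 344) (nat_lit 290)) (XT.nd (nat_lit 78) (nat_lit 0) (nat_lit 0) (XT.lf (nat_lit 0) (nat_lit 80512497) (nat_lit 380) (nat_lit 2680219008) (nat_lit 456) (nat_lit 7168704049) (nat_lit 278) (nat_lit 5) (nat_lit 283) (nat_lit 5) (nat_lit 284) (nat_lit 5) (nat_lit 387) (nat_lit 344) (nat_lit 289)) (XT.lf (nat_lit 0) (nat_lit 5595890030) (nat_lit 456) (nat_lit 3233153516) (nat_lit 76) (nat_lit 1249900044) (nat_lit 278) (nat_lit 5) (nat_lit 284) (nat_lit 5) (nat_lit 279) (nat_lit 5) (nat_lit 388) (nat_lit 344) (nat_lit 288)))) (XT.nd (nat_lit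 78) (nat_lit 456) (nat_lit 0) (XT.lf (nat_lit 0) (nat_lit 3569311641) (nat_lit 456) (nat_lit 4966025736) (nat_lit 532) (nat_lit 1697022467) (nat_lit 272) (nat_lit 5) (nat_lit 278) (nat_lit 5) (nat_lit 279) (nat_lit 5) (nat_lit 389) (nat_lit 344) (nat_lit 287)) (XT.nd (nat_lit 78) (nat_lit 0) (nat_lit 0) (XT.lf (nat_lit 0) (nat_lit 189658974) (nat_lit 380) (nat_lit 953515239) (nat_lit 456) (nat_lit 9247062241) (nat_lit 266) (nat_lit 5) (nat_lit 271) (nat_lit 5) (nat_lit 272) (nat_lit 5) (nat_lit 390) (nat_lit 344) (nat_lit 286)) (XT.lf (nat_lit 0) (nat_lit 4092195644) (nat_lit 456) (nat_lit 3270047263) (nat_lit 76) (nat_lit 3188370568) (nat_lit 266) (nat_lit 5) (nat_lit 272) (nat_lit 5) (nat_lit 267) (nat_lit 5) (nat_lit 391) (nat_lit 344) (nat_lit 285))))) (XT.nd (nat_lit 234) (nat_lit 760) (nat_lit 0) (XT.nd (nat_lit 78) (nat_lit 456) (nat_lit 0) (XT.lf (nat_lit 0) (nat_lit 3880585910) (nat_lit 380)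 (nat_lit 3256248388) (nat_lit 456) (nat_lit 3578753112) (nat_lit 261) (nat_lit 5) (nat_lit 266) (nat_lit 5) (nat_lit 267) (nat_lit 5) (nat_lit 392) (nat_lit 344) (nat_lit 284)) (XT.nd (nat_lit 78) (nat_lit 76) (nat_lit 0) (XT.lf (nat_lit 0) (nat_lit 371221082) (nat_lit 380) (nat_lit 9908761046) (nat_lit 456) (nat_lit 605313335) (nat_lit 256) (nat_lit 5) (nat_lit 261) (nat_lit 5) (nat_lit 262) (nat_lit 5) (nat_lit 393) (nat_lit 344) (nat_lit 283)) (XT.lf (nat_lit 0) (nat_lit 2472461255) (nat_lit 456) (nat_lit 3235660336) (nat_lit 76) (nat_lit 5349372037) (nat_lit 255) (nat_lit 5) (nat_lit 261) (nat_lit 5) (nat_lit 256) (nat_lit 5) (nat_lit 394) (nat_lit 344) (nat_lit 282)))) (XT.nd (nat_lit 78) (nat_lit 380) (nat_lit 0) (XT.lf (nat_lit 0) (nat_lit 4285503043) (nat_lit 380) (nat_lit 1348365989) (nat_lit 456) (nat_lit 5600704926) (nat_lit 250) (nat_lit 5) (nat_lit 255) (nat_lit 5) (nat_lit 256) (nat_lit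 5) (nat_lit 395) (nat_lit 344) (nat_lit 281)) (XT.nd (nat_lit 78) (nat_lit 76) (nat_lit 0) (XT.lf (nat_lit 0) (nat_lit 610346759) (nat_lit 304) (nat_lit 8311554929) (nat_lit 380) (nat_lit 2494111528) (nat_lit 246) (nat_lit 5) (nat_lit 250) (nat_lit 5) (nat_lit 251) (nat_lit 5) (nat_lit 396) (nat_lit 344) (nat_lit 280)) (XT.lf (nat_lit 0) (nat_lit 739051559) (nat_lit 380) (nat_lit 3136512278) (nat_lit 76) (nat_lit 7725714047) (nat_lit 245) (nat_lit 5) (nat_lit 250) (nat_lit 5) (nat_lit 246) (nat_lit 5) (nat_lit 397) (nat_lit 344) (nat_lit 279))))))))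
noncomputable def xc59 : XT := (XT.nd (nat_lit 1872) (nat_lit 1976) (nat_lit 0) (XT.nd (nat_lit 936) (nat_lit 2128) (nat_lit 0) (XT.nd (nat_lit 468) (nat_lit 1216) (nat_lit 0) (XT.nd (nat_lit 234) (nat_lit 684) (nat_lit 0) (XT.nd (nat_lit 78) (nat_lit 304) (nat_lit 0) (XT.lf (nat_lit 0) (nat_lit 4036232607) (nat_lit 456) (nat_lit 7019313099) (nat_lit 76) (nat_lit 735299393) (nat_lit 240) (nat_lit 5) (nat_lit 246) (nat_lit 5) (nat_lit 241) (nat_lit 5) (nat_lit 398) (nat_lit 344) (nat_lit 278)) (XT.nd (nat_lit 78) (nat_lit 0) (nat_lit 0) (XT.lf (nat_lit 0) (nat_lit 922567955) (nat_lit 304) (nat_lit 6553385823) (nat_lit 380) (nat_lit 4508836812) (nat_lit 236) (nat_lit 5) (nat_lit 240) (nat_lit 5) (nat_lit 241) (nat_lit 5) (nat_lit 399) (nat_lit 344) (nat_lit 277)) (XT.lf (nat_lit 0) (nat_lit 9194398231) (nat_lit 304) (nat_lit 1860283123) (nat_lit 380) (nat_lit 1128798648) (nat_lit 236) (nat_lit 5) (nat_lit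 240) (nat_lit 5) (nat_lit 241) (nat_lit 5) (nat_lit 400) (nat_lit 344) (nat_lit 276)))) (XT.nd (nat_lit 78) (nat_lit 304) (nat_lit 0) (XT.lf (nat_lit 0) (nat_lit 2352997558) (nat_lit 380) (nat_lit 7059284364) (nat_lit 76) (nat_lit 2973781763) (nat_lit 231) (nat_lit 5) (nat_lit 236) (nat_lit 5) (nat_lit 232) (nat_lit 5) (nat_lit 401) (nat_lit 344) (nat_lit 275)) (XT.nd (nat_lit 78) (nat_lit 0) (nat_lit 0) (XT.lf (nat_lit 0) (nat_lit 1303400946) (nat_lit 304) (nat_lit 4640556430) (nat_lit 380) (nat_lit 6649610290) (nat_lit 227) (nat_lit 5) (nat_lit 231) (nat_lit 5) (nat_lit 232) (nat_lit 5) (nat_lit 402) (nat_lit 344) (nat_lit 274)) (XT.lf (nat_lit 0) (nat_lit 9683569888) (nat_lit 380) (nat_lit 2798864458) (nat_lit 76) (nat_lit 323634706) (nat_lit 227) (nat_lit 5) (nat_lit 232) (nat_lit 5) (nat_lit 228) (nat_lit 5) (nat_lit 403) (nat_lit 344) (nat_lit 273))))) (XT.nd (nat_lit 234) (nat_lit 608) (nat_lit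 0) (XT.nd (nat_lit 78) (nat_lit 228) (nat_lit 0) (XT.lf (nat_lit 0) (nat_lit 571747790) (nat_lit 380) (nat_lit 7061285048) (nat_lit 76) (nat_lit 5389626962) (nat_lit 222) (nat_lit 5) (nat_lit 227) (nat_lit 5) (nat_lit 223) (nat_lit 5) (nat_lit 404) (nat_lit 344) (nat_lit 272)) (XT.nd (nat_lit 78) (nat_lit 0) (nat_lit 0) (XT.lf (nat_lit 0) (nat_lit 1749155486) (nat_lit 228) (nat_lit 2577695120) (nat_lit 304) (nat_lit 8917586563) (nat_lit 219) (nat_lit 5) (nat_lit 222) (nat_lit 5) (nat_lit 223) (nat_lit 5) (nat_lit 405) (nat_lit 344) (nat_lit 271)) (XT.lf (nat_lit 0) (nat_lit 8259615370) (nat_lit 304) (nat_lit 2579018921) (nat_lit 76) (nat_lit 2632283301) (nat_lit 219) (nat_lit 5) (nat_lit 223) (nat_lit 5) (nat_lit 220) (nat_lit 5) (nat_lit 406) (nat_lit 344) (nat_lit 270)))) (XT.nd (nat_lit 78) (nat_lit 304) (nat_lit 0) (XT.lf (nat_lit 0) (nat_lit 6659680444) (nat_lit 304) (nat_lit 5708884663) (nat_lit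 380) (nat_lit 1333881261) (nat_lit 215) (nat_lit 5) (nat_lit 219) (nat_lit 5) (nat_lit 220) (nat_lit 5) (nat_lit 407) (nat_lit 344) (nat_lit 269)) (XT.nd (nat_lit 78) (nat_lit 0) (nat_lit 0) (XT.lf (nat_lit 0) (nat_lit 2256862146) (nat_lit 228) (nat_lit 367891105) (nat_lit 304) (nat_lit 11314896875) (nat_lit 211) (nat_lit 5) (nat_lit 214) (nat_lit 5) (nat_lit 215) (nat_lit 5) (nat_lit 408) (nat_lit 344) (nat_lit 268)) (XT.lf (nat_lit 0) (nat_lit 6765563188) (nat_lit 304) (nat_lit 2315122823) (nat_lit 76) (nat_lit 5100181004) (nat_lit 211) (nat_lit 5) (nat_lit 215) (nat_lit 5) (nat_lit 212) (nat_lit 5) (nat_lit 409) (nat_lit 344) (nat_lit 267)))))) (XT.nd (nat_lit 468) (nat_lit 988) (nat_lit 0) (XT.nd (nat_lit 234) (nat_lit 532) (nat_lit 0) (XT.nd (nat_lit 78) (nat_lit 304) (nat_lit 0) (XT.lf (nat_lit 0) (nat_lit 7426419185) (nat_lit 304) (nat_lit 3649168281) (nat_lit 380) (nat_lit 3352383241) (nat_lit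 207) (nat_lit 5) (nat_lit 211) (nat_lit 5) (nat_lit 212) (nat_lit 5) (nat_lit 410) (nat_lit 344) (nat_lit 266)) (XT.nd (nat_lit 78) (nat_lit 0) (nat_lit 0) (XT.lf (nat_lit 0) (nat_lit 856122067) (nat_lit 304) (nat_lit 11876515576) (nat_lit 76) (nat_lit 1948411592) (nat_lit 203) (nat_lit 5) (nat_lit 207) (nat_lit 5) (nat_lit 204) (nat_lit 5) (nat_lit 411) (nat_lit 344) (nat_lit 265)) (XT.lf (nat_lit 0) (nat_lit 5201347150) (nat_lit 304) (nat_lit 2010073422) (nat_lit 76) (nat_lit 7726968465) (nat_lit 203) (nat_lit 5) (nat_lit 207) (nat_lit 5) (nat_lit 204) (nat_lit 5) (nat_lit 412) (nat_lit 344) (nat_lit 264)))) (XT.nd (nat_lit 78) (nat_lit 304) (nat_lit 0) (XT.lf (nat_lit 0) (nat_lit 8266309816) (nat_lit 228) (nat_lit 1461256556) (nat_lit 304) (nat_lit 5474363538) (nat_lit 200) (nat_lit 5) (nat_lit 203) (nat_lit 5) (nat_lit 204) (nat_lit 5) (nat_lit 413) (nat_lit 344) (nat_lit 263)) (XT.nd (nat_lit 78)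 (nat_lit 76) (nat_lit 0) (XT.lf (nat_lit 0) (nat_lit 3395014198) (nat_lit 228) (nat_lit 11061965395) (nat_lit 304) (nat_lit 1014375194) (nat_lit 197) (nat_lit 5) (nat_lit 200) (nat_lit 5) (nat_lit 201) (nat_lit 5) (nat_lit 414) (nat_lit 344) (nat_lit 262)) (XT.lf (nat_lit 0) (nat_lit 3566251979) (nat_lit 304) (nat_lit 1666259249) (nat_lit 76) (nat_lit 10513618366) (nat_lit 196) (nat_lit 5) (nat_lit 200) (nat_lit 5) (nat_lit 197) (nat_lit 5) (nat_lit 415) (nat_lit 344) (nat_lit 261))))) (XT.nd (nat_lit 234) (nat_lit 456) (nat_lit 0) (XT.nd (nat_lit 78) (nat_lit 304) (nat_lit 0) (XT.lf (nat_lit 0) (nat_lit 8332676220) (nat_lit 304) (nat_lit 6856329982) (nat_lit 76) (nat_lit 837777156) (nat_lit 193) (nat_lit 5) (nat_lit 197) (nat_lit 5) (nat_lit 194) (nat_lit 5) (nat_lit 416) (nat_lit 344) (nat_lit 260)) (XT.nd (nat_lit 78) (nat_lit 76) (nat_lit 0) (XT.lf (nat_lit 0) (nat_lit 4031294201) (nat_lit 228) (nat_lit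 9290856947) (nat_lit 304) (nat_lit 2991303849) (nat_lit 190) (nat_lit 5) (nat_lit 193) (nat_lit 5) (nat_lit 194) (nat_lit 5) (nat_lit 417) (nat_lit 344) (nat_lit 259)) (XT.lf (nat_lit 0) (nat_lit 1858950850) (nat_lit 304) (nat_lit 1285607366) (nat_lit 76) (nat_lit 13462358787) (nat_lit 189) (nat_lit 5) (nat_lit 193) (nat_lit 5) (nat_lit 190) (nat_lit 5) (nat_lit 418) (nat_lit 344) (nat_lit 258)))) (XT.nd (nat_lit 78) (nat_lit 228) (nat_lit 0) (XT.lf (nat_lit 0) (nat_lit 6897400973) (nat_lit 304) (nat_lit 6773504053) (nat_lit 76) (nat_lit 3234305037) (nat_lit 186) (nat_lit 5) (nat_lit 190) (nat_lit 5) (nat_lit 187) (nat_lit 5) (nat_lit 419) (nat_lit 344) (nat_lit 257)) (XT.nd (nat_lit 78) (nat_lit 76) (nat_lit 0) (XT.lf (nat_lit 0) (nat_lit 4721327504) (nat_lit 152) (nat_lit 7428868135) (nat_lit 228) (nat_lit 5060360545) (nat_lit 184) (nat_lit 5) (nat_lit 186) (nat_lit 5) (nat_lit 187) (nat_lit 5) (nat_lit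 420) (nat_lit 344) (nat_lit 256)) (XT.lf (nat_lit 0) (nat_lit 77536472) (nat_lit 228) (nat_lit 869624724) (nat_lit 76) (nat_lit 16576609711) (nat_lit 183) (nat_lit 5) (nat_lit 186) (nat_lit 5) (nat_lit 184) (nat_lit 5) (nat_lit 421) (nat_lit 344) (nat_lit 255))))))) (XT.nd (nat_lit 936) (nat_lit 228) (nat_lit 0) (XT.nd (nat_lit 468) (nat_lit 912) (nat_lit 0) (XT.nd (nat_lit 234) (nat_lit 456) (nat_lit 0) (XT.nd (nat_lit 78) (nat_lit 152) (nat_lit 0) (XT.lf (nat_lit 0) (nat_lit 5406613893) (nat_lit 304) (nat_lit 6675520004) (nat_lit 76) (nat_lit 5758582547) (nat_lit 180) (nat_lit 5) (nat_lit 184) (nat_lit 5) (nat_lit 181) (nat_lit 5) (nat_lit 422) (nat_lit 344) (nat_lit 254)) (XT.nd (nat_lit 78) (nat_lit 0) (nat_lit 0) (XT.lf (nat_lit 0) (nat_lit 5464882485) (nat_lit 152) (nat_lit 5476016801) (nat_lit 228) (nat_lit 7224910991) (nat_lit 178) (nat_lit 5) (nat_lit 180) (nat_lit 5) (nat_lit 181) (nat_lit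 5) (nat_lit 423) (nat_lit 344) (nat_lit 253)) (XT.lf (nat_lit 0) (nat_lit 16696755881) (nat_lit 228) (nat_lit 450145443) (nat_lit 76) (nat_lit 1352089322) (nat_lit 178) (nat_lit 5) (nat_lit 181) (nat_lit 5) (nat_lit 179) (nat_lit 5) (nat_lit 424) (nat_lit 344) (nat_lit 252)))) (XT.nd (nat_lit 78) (nat_lit 152) (nat_lit 0) (XT.lf (nat_lit 0) (nat_lit 3858758329) (nat_lit 304) (nat_lit 6564502330) (nat_lit 76) (nat_lit 8413331029) (nat_lit 174) (nat_lit 5) (nat_lit 178) (nat_lit 5) (nat_lit 175) (nat_lit 5) (nat_lit 425) (nat_lit 344) (nat_lit 251)) (XT.nd (nat_lit 78) (nat_lit 0) (nat_lit 0) (XT.lf (nat_lit 0) (nat_lit 6262157649) (nat_lit 152) (nat_lit 3431485833) (nat_lit 228) (nat_lit 9488933399) (nat_lit 172) (nat_lit 5) (nat_lit 174) (nat_lit 5) (nat_lit 175) (nat_lit 5) (nat_lit 426) (nat_lit 344) (nat_lit 250)) (XT.lf (nat_lit 0) (nat_lit 15782383312) (nat_lit 228) (nat_lit 8975119) (nat_lit 76)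 (nat_lit 3745218957) (nat_lit 172) (nat_lit 5) (nat_lit 175) (nat_lit 5) (nat_lit 173) (nat_lit 5) (nat_lit 427) (nat_lit 344) (nat_lit 249))))) (XT.nd (nat_lit 234) (nat_lit 380) (nat_lit 0) (XT.nd (nat_lit 78) (nat_lit 304) (nat_lit 0) (XT.lf (nat_lit 0) (nat_lit 2251822704) (nat_lit 228) (nat_lit 6442309144) (nat_lit 76) (nat_lit 11202208102) (nat_lit 169) (nat_lit 5) (nat_lit 172) (nat_lit 5) (nat_lit 170) (nat_lit 5) (nat_lit 428) (nat_lit 344) (nat_lit 248)) (XT.nd (nat_lit 78) (nat_lit 152) (nat_lit 0) (XT.lf (nat_lit 0) (nat_lit 7113756738) (nat_lit 152) (nat_lit 1293671857) (nat_lit 228) (nat_lit 11857005760) (nat_lit 167) (nat_lit 5) (nat_lit 169) (nat_lit 5) (nat_lit 170) (nat_lit 5) (nat_lit 429) (nat_lit 344) (nat_lit 247)) (XT.lf (nat_lit 0) (nat_lit 472469171) (nat_lit 152) (nat_lit 14382811431) (nat_lit 228) (nat_lit 5785063653) (nat_lit 165) (nat_lit 5) (nat_lit 167) (nat_lit 5) (nat_lit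 168) (nat_lit 5) (nat_lit 430) (nat_lit 344) (nat_lit 246)))) (XT.nd (nat_lit 78) (nat_lit 304) (nat_lit 0) (XT.lf (nat_lit 0) (nat_lit 583357532) (nat_lit 228) (nat_lit 6310561712) (nat_lit 76) (nat_lit 14129772745) (nat_lit 164) (nat_lit 5) (nat_lit 167) (nat_lit 5) (nat_lit 165) (nat_lit 5) (nat_lit 431) (nat_lit 344) (nat_lit 245)) (XT.nd (nat_lit 78) (nat_lit 152) (nat_lit 0) (XT.lf (nat_lit 0) (nat_lit 7089927359) (nat_lit 228) (nat_lit 13403557363) (nat_lit 76) (nat_lit 921435996) (nat_lit 162) (nat_lit 5) (nat_lit 165) (nat_lit 5) (nat_lit 163) (nat_lit 5) (nat_lit 432) (nat_lit 344) (nat_lit 244)) (XT.lf (nat_lit 0) (nat_lit 985540551) (nat_lit 152) (nat_lit 12925573996) (nat_lit 228) (nat_lit 7903189153) (nat_lit 160) (nat_lit 5) (nat_lit 162) (nat_lit 5) (nat_lit 163) (nat_lit 5) (nat_lit 433) (nat_lit 344) (nat_lit 243)))))) (XT.nd (nat_lit 46488) (nat_lit 0) (nat_lit 24548) (XT.nd (nat_lit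 46254) (nat_lit 0) (nat_lit 25688) (XT.nd (nat_lit 78) (nat_lit 228) (nat_lit 0) (XT.lf (nat_lit 0) (nat_lit 16040339216) (nat_lit 152) (nat_lit 5009551183) (nat_lit 228) (nat_lit 1172389181) (nat_lit 160) (nat_lit 5) (nat_lit 162) (nat_lit 5) (nat_lit 163) (nat_lit 5) (nat_lit 434) (nat_lit 344) (nat_lit 242)) (XT.nd (nat_lit 46098) (nat_lit 0) (nat_lit 26144) (XT.lf (nat_lit 0) (nat_lit 5743784082) (nat_lit 228) (nat_lit 13686105527) (nat_lit 76) (nat_lit 3208068347) (nat_lit 157) (nat_lit 5) (nat_lit 160) (nat_lit 5) (nat_lit 158) (nat_lit 5) (nat_lit 435) (nat_lit 344) (nat_lit 241)) (XT.lf (nat_lit 0) (nat_lit 735801011) (nat_lit 0) (nat_lit 735801011) (nat_lit 380) (nat_lit 1802112152) (nat_lit 501) (nat_lit 5) (nat_lit 501) (nat_lit 3) (nat_lit 506) (nat_lit 3) (nat_lit 345) (nat_lit 345) (nat_lit 330)))) (XT.nd (nat_lit 78) (nat_lit 456) (nat_lit 0) (XT.lf (nat_lit 0) (nat_lit 4792919621) (nat_lit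 0) (nat_lit 712367568) (nat_lit 380) (nat_lit 1064814533) (nat_lit 501) (nat_lit 5) (nat_lit 501) (nat_lit 3) (nat_lit 506) (nat_lit 3) (nat_lit 346) (nat_lit 345) (nat_lit 329)) (XT.nd (nat_lit 78) (nat_lit 0) (nat_lit 0) (XT.lf (nat_lit 0) (nat_lit 1437945239) (nat_lit 456) (nat_lit 5011617675) (nat_lit 532) (nat_lit 145922303) (nat_lit 495) (nat_lit 5) (nat_lit 501) (nat_lit 5) (nat_lit 502) (nat_lit 5) (nat_lit 347) (nat_lit 345) (nat_lit 328)) (XT.lf (nat_lit 0) (nat_lit 3923170471) (nat_lit 456) (nat_lit 1610643703) (nat_lit 532) (nat_lit 1089636228) (nat_lit 495) (nat_lit 5) (nat_lit 501) (nat_lit 5) (nat_lit 502) (nat_lit 5) (nat_lit 348) (nat_lit 345) (nat_lit 327))))) (XT.nd (nat_lit 234) (nat_lit 608) (nat_lit 0) (XT.nd (nat_lit 78) (nat_lit 532) (nat_lit 0) (XT.lf (nat_lit 76) (nat_lit 1876592657) (nat_lit 0) (nat_lit 4530813809) (nat_lit 532) (nat_lit 247114458) (nat_lit 496) (nat_lit 5)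 (nat_lit 495) (nat_lit 5) (nat_lit 502) (nat_lit 5) (nat_lit 349) (nat_lit 345) (nat_lit 326)) (XT.nd (nat_lit 78) (nat_lit 0) (nat_lit 0) (XT.lf (nat_lit 0) (nat_lit 2159324916) (nat_lit 532) (nat_lit 1260355816) (nat_lit 608) (nat_lit 3268460538) (nat_lit 488) (nat_lit 5) (nat_lit 495) (nat_lit 5) (nat_lit 496) (nat_lit 5) (nat_lit 350) (nat_lit 345) (nat_lit 325)) (XT.lf (nat_lit 76) (nat_lit 2354089701) (nat_lit 0) (nat_lit 2211954882) (nat_lit 608) (nat_lit 2158660626) (nat_lit 489) (nat_lit 5) (nat_lit 488) (nat_lit 5) (nat_lit 496) (nat_lit 5) (nat_lit 351) (nat_lit 345) (nat_lit 324)))) (XT.nd (nat_lit 78) (nat_lit 0) (nat_lit 76) (XT.lf (nat_lit 0) (nat_lit 201609974) (nat_lit 608) (nat_lit 715413034) (nat_lit 684) (nat_lit 5847525820) (nat_lit 480) (nat_lit 5) (nat_lit 488) (nat_lit 5) (nat_lit 489) (nat_lit 5) (nat_lit 352) (nat_lit 345) (nat_lit 323)) (XT.nd (nat_lit 78) (nat_lit 0) (nat_lit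 0) (XT.lf (nat_lit 0) (nat_lit 2537557515) (nat_lit 608) (nat_lit 3776006802) (nat_lit 684) (nat_lit 492934580) (nat_lit 481) (nat_lit 5) (nat_lit 489) (nat_lit 5) (nat_lit 490) (nat_lit 5) (nat_lit 353) (nat_lit 345) (nat_lit 322)) (XT.lf (nat_lit 0) (nat_lit 4876519018) (nat_lit 608) (nat_lit 9353897) (nat_lit 684) (nat_lit 1965846488) (nat_lit 481) (nat_lit 5) (nat_lit 489) (nat_lit 5) (nat_lit 490) (nat_lit 5) (nat_lit 354) (nat_lit 345) (nat_lit 321))))))))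
noncomputable def xc60 : XT := (XT.nd (nat_lit 1794) (nat_lit 6840) (nat_lit 0) (XT.nd (nat_lit 858) (nat_lit 6840) (nat_lit 0) (XT.nd (nat_lit 390) (nat_lit 3648) (nat_lit 0) (XT.nd (nat_lit 156) (nat_lit 684) (nat_lit 0) (XT.nd (nat_lit 78) (nat_lit 0) (nat_lit 0) (XT.lf (nat_lit 0) (nat_lit 335781951) (nat_lit 684) (nat_lit 3009191739) (nat_lit 760) (nat_lit 3554531496) (nat_lit 472) (nat_lit 5) (nat_lit 481) (nat_lit 5) (nat_lit 482) (nat_lit 5) (nat_lit 355) (nat_lit 345) (nat_lit 320)) (XT.lf (nat_lit 76) (nat_lit 902851348) (nat_lit 0) (nat_lit 1702382981) (nat_lit 760) (nat_lit 4345038317) (nat_lit 473) (nat_lit 5) (nat_lit 472) (nat_lit 5) (nat_lit 482) (nat_lit 5) (nat_lit 356) (nat_lit 345) (nat_lit 319))) (XT.nd (nat_lit 78) (nat_lit 760) (nat_lit 0) (XT.lf (nat_lit 0) (nat_lit 4895480751) (nat_lit 684) (nat_lit 2063617866) (nat_lit 76) (nat_lit 44883197) (nat_lit 473) (nat_lit 5) (nat_lit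 482) (nat_lit 5) (nat_lit 474) (nat_lit 5) (nat_lit 357) (nat_lit 345) (nat_lit 318)) (XT.nd (nat_lit 78) (nat_lit 0) (nat_lit 0) (XT.lf (nat_lit 0) (nat_lit 151482794) (nat_lit 760) (nat_lit 5054029569) (nat_lit 76) (nat_lit 1854928877) (nat_lit 463) (nat_lit 5) (nat_lit 473) (nat_lit 5) (nat_lit 464) (nat_lit 5) (nat_lit 358) (nat_lit 345) (nat_lit 317)) (XT.lf (nat_lit 0) (nat_lit 2383279673) (nat_lit 760) (nat_lit 953248317) (nat_lit 76) (nat_lit 3783048401) (nat_lit 463) (nat_lit 5) (nat_lit 473) (nat_lit 5) (nat_lit 464) (nat_lit 5) (nat_lit 359) (nat_lit 345) (nat_lit 316))))) (XT.nd (nat_lit 234) (nat_lit 1976) (nat_lit 0) (XT.nd (nat_lit 78) (nat_lit 912) (nat_lit 0) (XT.lf (nat_lit 0) (nat_lit 3281145777) (nat_lit 760) (nat_lit 1359946882) (nat_lit 836) (nat_lit 2540621074) (nat_lit 453) (nat_lit 5) (nat_lit 463) (nat_lit 5) (nat_lit 464) (nat_lit 5) (nat_lit 360) (nat_lit 345) (nat_lit 315))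 (XT.nd (nat_lit 78) (nat_lit 76) (nat_lit 0) (XT.lf (nat_lit 0) (nat_lit 361943372) (nat_lit 836) (nat_lit 6553691455) (nat_lit 912) (nat_lit 331610523) (nat_lit 442) (nat_lit 5) (nat_lit 453) (nat_lit 5) (nat_lit 454) (nat_lit 5) (nat_lit 361) (nat_lit 345) (nat_lit 314)) (XT.lf (nat_lit 0) (nat_lit 1889131019) (nat_lit 912) (nat_lit 2569873504) (nat_lit 76) (nat_lit 2855676220) (nat_lit 441) (nat_lit 5) (nat_lit 453) (nat_lit 5) (nat_lit 442) (nat_lit 5) (nat_lit 362) (nat_lit 345) (nat_lit 313)))) (XT.nd (nat_lit 78) (nat_lit 1064) (nat_lit 0) (XT.lf (nat_lit 0) (nat_lit 1853473820) (nat_lit 912) (nat_lit 2266353050) (nat_lit 988) (nat_lit 3265713914) (nat_lit 429) (nat_lit 5) (nat_lit 441) (nat_lit 5) (nat_lit 442) (nat_lit 5) (nat_lit 363) (nat_lit 345) (nat_lit 312)) (XT.nd (nat_lit 78) (nat_lit 1064) (nat_lit 0) (XT.lf (nat_lit 0) (nat_lit 6377332551) (nat_lit 988) (nat_lit 1051733223) (nat_lit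 76) (nat_lit 30664187) (nat_lit 429) (nat_lit 5) (nat_lit 442) (nat_lit 5) (nat_lit 430) (nat_lit 5) (nat_lit 364) (nat_lit 345) (nat_lit 311)) (XT.lf (nat_lit 0) (nat_lit 1135885782) (nat_lit 1064) (nat_lit 3991932815) (nat_lit 76) (nat_lit 2408222999) (nat_lit 415) (nat_lit 5) (nat_lit 429) (nat_lit 5) (nat_lit 416) (nat_lit 5) (nat_lit 365) (nat_lit 345) (nat_lit 310)))))) (XT.nd (nat_lit 468) (nat_lit 2508) (nat_lit 0) (XT.nd (nat_lit 234) (nat_lit 2052) (nat_lit 0) (XT.nd (nat_lit 78) (nat_lit 1216) (nat_lit 0) (XT.lf (nat_lit 0) (nat_lit 631454733) (nat_lit 1064) (nat_lit 2720722321) (nat_lit 1140) (nat_lit 4263547579) (nat_lit 401) (nat_lit 5) (nat_lit 415) (nat_lit 5) (nat_lit 416) (nat_lit 5) (nat_lit 366) (nat_lit 345) (nat_lit 309)) (XT.nd (nat_lit 78) (nat_lit 1216) (nat_lit 0) (XT.lf (nat_lit 0) (nat_lit 5420808037) (nat_lit 1064) (nat_lit 192206239) (nat_lit 1140) (nat_lit 2085442170) (nat_lit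 401) (nat_lit 5) (nat_lit 415) (nat_lit 5) (nat_lit 416) (nat_lit 5) (nat_lit 367) (nat_lit 345) (nat_lit 308)) (XT.lf (nat_lit 0) (nat_lit 142048145) (nat_lit 1216) (nat_lit 5243724879) (nat_lit 76) (nat_lit 2398237874) (nat_lit 385) (nat_lit 5) (nat_lit 401) (nat_lit 5) (nat_lit 386) (nat_lit 5) (nat_lit 368) (nat_lit 345) (nat_lit 307)))) (XT.nd (nat_lit 78) (nat_lit 2052) (nat_lit 0) (XT.lf (nat_lit 0) (nat_lit 2359860486) (nat_lit 1216) (nat_lit 400285491) (nat_lit 76) (nat_lit 5112404188) (nat_lit 385) (nat_lit 5) (nat_lit 401) (nat_lit 5) (nat_lit 386) (nat_lit 5) (nat_lit 369) (nat_lit 345) (nat_lit 306)) (XT.nd (nat_lit 78) (nat_lit 836) (nat_lit 0) (XT.lf (nat_lit 0) (nat_lit 4624807765) (nat_lit 1216) (nat_lit 5877371) (nat_lit 1292) (nat_lit 3333466136) (nat_lit 369) (nat_lit 5) (nat_lit 385) (nat_lit 5) (nat_lit 386) (nat_lit 5) (nat_lit 370) (nat_lit 345) (nat_lit 305)) (XT.lf (nat_lit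 0) (nat_lit 1701320832) (nat_lit 836) (nat_lit 5259193614) (nat_lit 912) (nat_lit 1098259569) (nat_lit 358) (nat_lit 5) (nat_lit 369) (nat_lit 5) (nat_lit 370) (nat_lit 5) (nat_lit 371) (nat_lit 345) (nat_lit 304))))) (XT.nd (nat_lit 234) (nat_lit 1216) (nat_lit 0) (XT.nd (nat_lit 78) (nat_lit 1216) (nat_lit 0) (XT.lf (nat_lit 0) (nat_lit 1158429896) (nat_lit 912) (nat_lit 1261213891) (nat_lit 76) (nat_lit 5736906812) (nat_lit 357) (nat_lit 5) (nat_lit 369) (nat_lit 5) (nat_lit 358) (nat_lit 5) (nat_lit 372) (nat_lit 345) (nat_lit 303)) (XT.nd (nat_lit 78) (nat_lit 608) (nat_lit 0) (XT.lf (nat_lit 0) (nat_lit 3450000061) (nat_lit 684) (nat_lit 4261712833) (nat_lit 76) (nat_lit 545543750) (nat_lit 349) (nat_lit 5) (nat_lit 358) (nat_lit 5) (nat_lit 350) (nat_lit 5) (nat_lit 373) (nat_lit 345) (nat_lit 302)) (XT.lf (nat_lit 0) (nat_lit 1015861375) (nat_lit 608) (nat_lit 4787558629) (nat_lit 684) (nat_lit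 2557770788) (nat_lit 341) (nat_lit 5) (nat_lit 349) (nat_lit 5) (nat_lit 350) (nat_lit 5) (nat_lit 374) (nat_lit 345) (nat_lit 301)))) (XT.nd (nat_lit 78) (nat_lit 1216) (nat_lit 0) (XT.lf (nat_lit 0) (nat_lit 6484529414) (nat_lit 608) (nat_lit 1733499823) (nat_lit 684) (nat_lit 250496125) (nat_lit 341) (nat_lit 5) (nat_lit 349) (nat_lit 5) (nat_lit 350) (nat_lit 5) (nat_lit 375) (nat_lit 345) (nat_lit 300)) (XT.nd (nat_lit 78) (nat_lit 608) (nat_lit 0) (XT.lf (nat_lit 0) (nat_lit 2081132383) (nat_lit 608) (nat_lit 5060430993) (nat_lit 76) (nat_lit 1437004859) (nat_lit 333) (nat_lit 5) (nat_lit 341) (nat_lit 5) (nat_lit 334) (nat_lit 5) (nat_lit 376) (nat_lit 345) (nat_lit 299)) (XT.lf (nat_lit 0) (nat_lit 469021626) (nat_lit 608) (nat_lit 4000087487) (nat_lit 684) (nat_lit 4222985853) (nat_lit 325) (nat_lit 5) (nat_lit 333) (nat_lit 5) (nat_lit 334) (nat_lit 5) (nat_lit 377) (nat_lit 345) (nat_lit 298)))))))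 (XT.nd (nat_lit 936) (nat_lit 3268) (nat_lit 0) (XT.nd (nat_lit 468) (nat_lit 1900) (nat_lit 0) (XT.nd (nat_lit 234) (nat_lit 532) (nat_lit 0) (XT.nd (nat_lit 78) (nat_lit 1140) (nat_lit 0) (XT.lf (nat_lit 0) (nat_lit 6213648908) (nat_lit 608) (nat_lit 716652724) (nat_lit 684) (nat_lit 1878678574) (nat_lit 325) (nat_lit 5) (nat_lit 333) (nat_lit 5) (nat_lit 334) (nat_lit 5) (nat_lit 378) (nat_lit 345) (nat_lit 297)) (XT.nd (nat_lit 78) (nat_lit 532) (nat_lit 0) (XT.lf (nat_lit 0) (nat_lit 533674200) (nat_lit 608) (nat_lit 5750870863) (nat_lit 76) (nat_lit 2644427136) (nat_lit 317) (nat_lit 5) (nat_lit 325) (nat_lit 5) (nat_lit 318) (nat_lit 5) (nat_lit 379) (nat_lit 345) (nat_lit 296)) (XT.lf (nat_lit 0) (nat_lit 46440118) (nat_lit 532) (nat_lit 2920497296) (nat_lit 608) (nat_lit 6085479534) (nat_lit 310) (nat_lit 5) (nat_lit 317) (nat_lit 5) (nat_lit 318) (nat_lit 5) (nat_lit 380) (nat_lit 345) (nat_lit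 295)))) (XT.nd (nat_lit 78) (nat_lit 532) (nat_lit 0) (XT.lf (nat_lit 0) (nat_lit 5490169135) (nat_lit 608) (nat_lit 3103544334) (nat_lit 76) (nat_lit 585342451) (nat_lit 310) (nat_lit 5) (nat_lit 318) (nat_lit 5) (nat_lit 311) (nat_lit 5) (nat_lit 381) (nat_lit 345) (nat_lit 294)) (XT.nd (nat_lit 78) (nat_lit 76) (nat_lit 0) (XT.lf (nat_lit 0) (nat_lit 2950770787) (nat_lit 456) (nat_lit 5150063096) (nat_lit 532) (nat_lit 1208308096) (nat_lit 304) (nat_lit 5) (nat_lit 310) (nat_lit 5) (nat_lit 311) (nat_lit 5) (nat_lit 382) (nat_lit 345) (nat_lit 293)) (XT.lf (nat_lit 0) (nat_lit 1306885925) (nat_lit 532) (nat_lit 259336685) (nat_lit 76) (nat_lit 7876925354) (nat_lit 303) (nat_lit 5) (nat_lit 310) (nat_lit 5) (nat_lit 304) (nat_lit 5) (nat_lit 383) (nat_lit 345) (nat_lit 292))))) (XT.nd (nat_lit 234) (nat_lit 912) (nat_lit 0) (XT.nd (nat_lit 78) (nat_lit 456) (nat_lit 0) (XT.lf (nat_lit 0) (nat_lit 3908845126)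 (nat_lit 608) (nat_lit 3524782860) (nat_lit 76) (nat_lit 2146119384) (nat_lit 296) (nat_lit 5) (nat_lit 304) (nat_lit 5) (nat_lit 297) (nat_lit 5) (nat_lit 384) (nat_lit 345) (nat_lit 291)) (XT.nd (nat_lit 78) (nat_lit 0) (nat_lit 0) (XT.lf (nat_lit 0) (nat_lit 2829999419) (nat_lit 456) (nat_lit 3761050983) (nat_lit 532) (nat_lit 3129328737) (nat_lit 290) (nat_lit 5) (nat_lit 296) (nat_lit 5) (nat_lit 297) (nat_lit 5) (nat_lit 385) (nat_lit 345) (nat_lit 290)) (XT.lf (nat_lit 0) (nat_lit 9347357751) (nat_lit 532) (nat_lit 471028752) (nat_lit 76) (nat_lit 47034280) (nat_lit 290) (nat_lit 5) (nat_lit 297) (nat_lit 5) (nat_lit 291) (nat_lit 5) (nat_lit 386) (nat_lit 345) (nat_lit 289)))) (XT.nd (nat_lit 78) (nat_lit 380) (nat_lit 0) (XT.lf (nat_lit 0) (nat_lit 2184997440) (nat_lit 532) (nat_lit 3862893341) (nat_lit 76) (nat_lit 3964621729) (nat_lit 283) (nat_lit 5) (nat_lit 290) (nat_lit 5) (nat_lit 284)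 (nat_lit 5) (nat_lit 387) (nat_lit 345) (nat_lit 288)) (XT.nd (nat_lit 78) (nat_lit 0) (nat_lit 0) (XT.lf (nat_lit 0) (nat_lit 2811641967) (nat_lit 380) (nat_lit 2137947572) (nat_lit 456) (nat_lit 5214547999) (nat_lit 278) (nat_lit 5) (nat_lit 283) (nat_lit 5) (nat_lit 284) (nat_lit 5) (nat_lit 388) (nat_lit 345) (nat_lit 287)) (XT.lf (nat_lit 0) (nat_lit 7814273188) (nat_lit 456) (nat_lit 625381504) (nat_lit 76) (nat_lit 1880142011) (nat_lit 278) (nat_lit 5) (nat_lit 284) (nat_lit 5) (nat_lit 279) (nat_lit 5) (nat_lit 389) (nat_lit 345) (nat_lit 286)))))) (XT.nd (nat_lit 468) (nat_lit 1520) (nat_lit 0) (XT.nd (nat_lit 234) (nat_lit 836) (nat_lit 0) (XT.nd (nat_lit 78) (nat_lit 380) (nat_lit 0) (XT.lf (nat_lit 0) (nat_lit 322668891) (nat_lit 532) (nat_lit 4127357935) (nat_lit 76) (nat_lit 6028713072) (nat_lit 271) (nat_lit 5) (nat_lit 278) (nat_lit 5) (nat_lit 272) (nat_lit 5) (nat_lit 390) (nat_lit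 345) (nat_lit 285)) (XT.nd (nat_lit 78) (nat_lit 0) (nat_lit 0) (XT.lf (nat_lit 0) (nat_lit 2887473554) (nat_lit 380) (nat_lit 293052450) (nat_lit 456) (nat_lit 7461325845) (nat_lit 266) (nat_lit 5) (nat_lit 271) (nat_lit 5) (nat_lit 272) (nat_lit 5) (nat_lit 391) (nat_lit 345) (nat_lit 284)) (XT.lf (nat_lit 0) (nat_lit 6166107446) (nat_lit 456) (nat_lit 702524640) (nat_lit 76) (nat_lit 3939965415) (nat_lit 266) (nat_lit 5) (nat_lit 272) (nat_lit 5) (nat_lit 267) (nat_lit 5) (nat_lit 392) (nat_lit 345) (nat_lit 283)))) (XT.nd (nat_lit 78) (nat_lit 456) (nat_lit 0) (XT.lf (nat_lit 0) (nat_lit 6636493960) (nat_lit 380) (nat_lit 2634134205) (nat_lit 456) (nat_lit 1708836203) (nat_lit 261) (nat_lit 5) (nat_lit 266) (nat_lit 5) (nat_lit 267) (nat_lit 5) (nat_lit 393) (nat_lit 345) (nat_lit 282)) (XT.nd (nat_lit 78) (nat_lit 0) (nat_lit 0) (XT.lf (nat_lit 0) (nat_lit 1303565895) (nat_lit 456) (nat_lit 8121605869)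 (nat_lit 76) (nat_lit 1729416187) (nat_lit 255) (nat_lit 5) (nat_lit 261) (nat_lit 5) (nat_lit 256) (nat_lit 5) (nat_lit 394) (nat_lit 345) (nat_lit 281)) (XT.lf (nat_lit 0) (nat_lit 4405734541) (nat_lit 456) (nat_lit 709528649) (nat_lit 76) (nat_lit 6218182264) (nat_lit 255) (nat_lit 5) (nat_lit 261) (nat_lit 5) (nat_lit 256) (nat_lit 5) (nat_lit 395) (nat_lit 345) (nat_lit 280))))) (XT.nd (nat_lit 234) (nat_lit 760) (nat_lit 0) (XT.nd (nat_lit 78) (nat_lit 380) (nat_lit 0) (XT.lf (nat_lit 0) (nat_lit 7011551970) (nat_lit 380) (nat_lit 621252656) (nat_lit 456) (nat_lit 3883908964) (nat_lit 250) (nat_lit 5) (nat_lit 255) (nat_lit 5) (nat_lit 256) (nat_lit 5) (nat_lit 396) (nat_lit 345) (nat_lit 279)) (XT.nd (nat_lit 78) (nat_lit 76) (nat_lit 0) (XT.lf (nat_lit 0) (nat_lit 3247728883) (nat_lit 304) (nat_lit 7750790269) (nat_lit 380) (nat_lit 705705649) (nat_lit 246) (nat_lit 5) (nat_lit 250) (nat_lit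 5) (nat_lit 251) (nat_lit 5) (nat_lit 397) (nat_lit 345) (nat_lit 278)) (XT.lf (nat_lit 0) (nat_lit 2534884185) (nat_lit 380) (nat_lit 652520235) (nat_lit 76) (nat_lit 8708701969) (nat_lit 245) (nat_lit 5) (nat_lit 250) (nat_lit 5) (nat_lit 246) (nat_lit 5) (nat_lit 398) (nat_lit 345) (nat_lit 277)))) (XT.nd (nat_lit 78) (nat_lit 380) (nat_lit 0) (XT.lf (nat_lit 0) (nat_lit 5911610202) (nat_lit 456) (nat_lit 4632434617) (nat_lit 76) (nat_lit 1547896914) (nat_lit 240) (nat_lit 5) (nat_lit 246) (nat_lit 5) (nat_lit 241) (nat_lit 5) (nat_lit 399) (nat_lit 345) (nat_lit 276)) (XT.nd (nat_lit 78) (nat_lit 76) (nat_lit 0) (XT.lf (nat_lit 0) (nat_lit 3522237595) (nat_lit 304) (nat_lit 5905913136) (nat_lit 380) (nat_lit 2864346026) (nat_lit 236) (nat_lit 5) (nat_lit 240) (nat_lit 5) (nat_lit 241) (nat_lit 5) (nat_lit 400) (nat_lit 345) (nat_lit 275)) (XT.lf (nat_lit 0) (nat_lit 554225556) (nat_lit 380) (nat_lit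 536779895) (nat_lit 76) (nat_lit 11407488225) (nat_lit 235) (nat_lit 5) (nat_lit 240) (nat_lit 5) (nat_lit 236) (nat_lit 5) (nat_lit 401) (nat_lit 345) (nat_lit 274))))))))
noncomputable def xc61 : XT := (XT.nd (nat_lit 1794) (nat_lit 1368) (nat_lit 0) (XT.nd (nat_lit 858) (nat_lit 1900) (nat_lit 0) (XT.nd (nat_lit 390) (nat_lit 1216) (nat_lit 0) (XT.nd (nat_lit 156) (nat_lit 608) (nat_lit 0) (XT.nd (nat_lit 78) (nat_lit 304) (nat_lit 0) (XT.lf (nat_lit 0) (nat_lit 4100577509) (nat_lit 380) (nat_lit 4723054384) (nat_lit 76) (nat_lit 3883704001) (nat_lit 231) (nat_lit 5) (nat_lit 236) (nat_lit 5) (nat_lit 232) (nat_lit 5) (nat_lit 402) (nat_lit 345) (nat_lit 273)) (XT.lf (nat_lit 0) (nat_lit 3865531010) (nat_lit 304) (nat_lit 3909143632) (nat_lit 380) (nat_lit 5147128098) (nat_lit 227) (nat_lit 5) (nat_lit 231) (nat_lit 5) (nat_lit 232) (nat_lit 5) (nat_lit 403) (nat_lit 345) (nat_lit 272))) (XT.nd (nat_lit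 78) (nat_lit 608) (nat_lit 0) (XT.lf (nat_lit 0) (nat_lit 11586472681) (nat_lit 380) (nat_lit 393285762) (nat_lit 76) (nat_lit 1162120809) (nat_lit 227) (nat_lit 5) (nat_lit 232) (nat_lit 5) (nat_lit 228) (nat_lit 5) (nat_lit 404) (nat_lit 345) (nat_lit 271)) (XT.nd (nat_lit 78) (nat_lit 228) (nat_lit 0) (XT.lf (nat_lit 0) (nat_lit 2193763298) (nat_lit 380) (nat_lit 4776046348) (nat_lit 76) (nat_lit 6395384055) (nat_lit 222) (nat_lit 5) (nat_lit 227) (nat_lit 5) (nat_lit 223) (nat_lit 5) (nat_lit 405) (nat_lit 345) (nat_lit 270)) (XT.lf (nat_lit 0) (nat_lit 4274226252) (nat_lit 228) (nat_lit 1764317468) (nat_lit 304) (nat_lit 7555769936) (nat_lit 219) (nat_lit 5) (nat_lit 222) (nat_lit 5) (nat_lit 223) (nat_lit 5) (nat_lit 406) (nat_lit 345) (nat_lit 269))))) (XT.nd (nat_lit 234) (nat_lit 608) (nat_lit 0) (XT.nd (nat_lit 78) (nat_lit 608) (nat_lit 0) (XT.lf (nat_lit 0) (nat_lit 10051529687) (nat_lit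 304) (nat_lit 218049008) (nat_lit 76) (nat_lit 3559142649) (nat_lit 219) (nat_lit 5) (nat_lit 223) (nat_lit 5) (nat_lit 220) (nat_lit 5) (nat_lit 407) (nat_lit 345) (nat_lit 268)) (XT.nd (nat_lit 78) (nat_lit 228) (nat_lit 0) (XT.lf (nat_lit 0) (nat_lit 190345211) (nat_lit 380) (nat_lit 4795809040) (nat_lit 76) (nat_lit 9081638713) (nat_lit 214) (nat_lit 5) (nat_lit 219) (nat_lit 5) (nat_lit 215) (nat_lit 5) (nat_lit 408) (nat_lit 345) (nat_lit 267)) (XT.lf (nat_lit 0) (nat_lit 4224480424) (nat_lit 304) (nat_lit 9571789859) (nat_lit 76) (nat_lit 515939810) (nat_lit 211) (nat_lit 5) (nat_lit 215) (nat_lit 5) (nat_lit 212) (nat_lit 5) (nat_lit 409) (nat_lit 345) (nat_lit 266)))) (XT.nd (nat_lit 78) (nat_lit 304) (nat_lit 0) (XT.lf (nat_lit 0) (nat_lit 1708555) (nat_lit 304) (nat_lit 8447058400) (nat_lit 380) (nat_lit 6113118964) (nat_lit 207) (nat_lit 5) (nat_lit 211) (nat_lit 5) (nat_lit 212) (nat_lit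 5) (nat_lit 410) (nat_lit 345) (nat_lit 265)) (XT.nd (nat_lit 78) (nat_lit 304) (nat_lit 0) (XT.lf (nat_lit 0) (nat_lit 10012068859) (nat_lit 304) (nat_lit 2855606690) (nat_lit 380) (nat_lit 1949339666) (nat_lit 207) (nat_lit 5) (nat_lit 211) (nat_lit 5) (nat_lit 212) (nat_lit 5) (nat_lit 411) (nat_lit 345) (nat_lit 264)) (XT.lf (nat_lit 0) (nat_lit 2344701750) (nat_lit 304) (nat_lit 9829234894) (nat_lit 76) (nat_lit 2903657187) (nat_lit 203) (nat_lit 5) (nat_lit 207) (nat_lit 5) (nat_lit 204) (nat_lit 5) (nat_lit 412) (nat_lit 345) (nat_lit 263)))))) (XT.nd (nat_lit 468) (nat_lit 912) (nat_lit 0) (XT.nd (nat_lit 234) (nat_lit 456) (nat_lit 0) (XT.nd (nat_lit 78) (nat_lit 304) (nat_lit 0) (XT.lf (nat_lit 0) (nat_lit 268431517) (nat_lit 228) (nat_lit 6511823774) (nat_lit 304) (nat_lit 8563599385) (nat_lit 200) (nat_lit 5) (nat_lit 203) (nat_lit 5) (nat_lit 204) (nat_lit 5) (nat_lit 413) (nat_lit 345)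 (nat_lit 262)) (XT.nd (nat_lit 78) (nat_lit 304) (nat_lit 0) (XT.lf (nat_lit 0) (nat_lit 10824990059) (nat_lit 228) (nat_lit 595534884) (nat_lit 304) (nat_lit 4195428917) (nat_lit 200) (nat_lit 5) (nat_lit 203) (nat_lit 5) (nat_lit 204) (nat_lit 5) (nat_lit 414) (nat_lit 345) (nat_lit 261)) (XT.lf (nat_lit 0) (nat_lit 380476357) (nat_lit 304) (nat_lit 10079625883) (nat_lit 76) (nat_lit 5433547645) (nat_lit 196) (nat_lit 5) (nat_lit 200) (nat_lit 5) (nat_lit 197) (nat_lit 5) (nat_lit 415) (nat_lit 345) (nat_lit 260)))) (XT.nd (nat_lit 78) (nat_lit 228) (nat_lit 0) (XT.lf (nat_lit 0) (nat_lit 575528862) (nat_lit 228) (nat_lit 4467218614) (nat_lit 304) (nat_lit 11134680767) (nat_lit 193) (nat_lit 5) (nat_lit 196) (nat_lit 5) (nat_lit 197) (nat_lit 5) (nat_lit 416) (nat_lit 345) (nat_lit 259)) (XT.nd (nat_lit 78) (nat_lit 228) (nat_lit 0) (XT.lf (nat_lit 0) (nat_lit 9937380668) (nat_lit 304) (nat_lit 4772223193)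 (nat_lit 76) (nat_lit 1757341273) (nat_lit 193) (nat_lit 5) (nat_lit 197) (nat_lit 5) (nat_lit 194) (nat_lit 5) (nat_lit 417) (nat_lit 345) (nat_lit 258)) (XT.lf (nat_lit 0) (nat_lit 6419580728) (nat_lit 228) (nat_lit 8639296264) (nat_lit 304) (nat_lit 1703869816) (nat_lit 190) (nat_lit 5) (nat_lit 193) (nat_lit 5) (nat_lit 194) (nat_lit 5) (nat_lit 418) (nat_lit 345) (nat_lit 257))))) (XT.nd (nat_lit 234) (nat_lit 456) (nat_lit 0) (XT.nd (nat_lit 78) (nat_lit 152) (nat_lit 0) (XT.lf (nat_lit 0) (nat_lit 921199665) (nat_lit 228) (nat_lit 2313345272) (nat_lit 304) (nat_lit 13830984810) (nat_lit 186) (nat_lit 5) (nat_lit 189) (nat_lit 5) (nat_lit 190) (nat_lit 5) (nat_lit 419) (nat_lit 345) (nat_lit 256)) (XT.nd (nat_lit 78) (nat_lit 152) (nat_lit 0) (XT.lf (nat_lit 0) (nat_lit 8407073644) (nat_lit 304) (nat_lit 4741090059) (nat_lit 76) (nat_lit 4225120142) (nat_lit 186) (nat_lit 5) (nat_lit 190) (nat_lit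 5) (nat_lit 187) (nat_lit 5) (nat_lit 420) (nat_lit 345) (nat_lit 255)) (XT.lf (nat_lit 0) (nat_lit 7076668610) (nat_lit 152) (nat_lit 6724118798) (nat_lit 228) (nat_lit 3887502884) (nat_lit 184) (nat_lit 5) (nat_lit 186) (nat_lit 5) (nat_lit 187) (nat_lit 5) (nat_lit 421) (nat_lit 345) (nat_lit 254)))) (XT.nd (nat_lit 78) (nat_lit 152) (nat_lit 0) (XT.lf (nat_lit 0) (nat_lit 1304054037) (nat_lit 228) (nat_lit 49333625) (nat_lit 304) (nat_lit 16657890619) (nat_lit 180) (nat_lit 5) (nat_lit 183) (nat_lit 5) (nat_lit 184) (nat_lit 5) (nat_lit 422) (nat_lit 345) (nat_lit 253)) (XT.nd (nat_lit 78) (nat_lit 152) (nat_lit 0) (XT.lf (nat_lit 0) (nat_lit 6822498868) (nat_lit 304) (nat_lit 4694161718) (nat_lit 76) (nat_lit 6821666754) (nat_lit 180) (nat_lit 5) (nat_lit 184) (nat_lit 5) (nat_lit 181) (nat_lit 5) (nat_lit 423) (nat_lit 345) (nat_lit 252)) (XT.lf (nat_lit 0) (nat_lit 7789064376) (nat_lit 152) (nat_lit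 4717998810) (nat_lit 228) (nat_lit 6166583292) (nat_lit 178) (nat_lit 5) (nat_lit 180) (nat_lit 5) (nat_lit 181) (nat_lit 5) (nat_lit 424) (nat_lit 345) (nat_lit 251))))))) (XT.nd (nat_lit 47112) (nat_lit 0) (nat_lit 22952) (XT.nd (nat_lit 468) (nat_lit 532) (nat_lit 0) (XT.nd (nat_lit 234) (nat_lit 380) (nat_lit 0) (XT.nd (nat_lit 78) (nat_lit 228) (nat_lit 0) (XT.lf (nat_lit 0) (nat_lit 1694174520) (nat_lit 228) (nat_lit 16730257457) (nat_lit 304) (nat_lit 592725185) (nat_lit 175) (nat_lit 5) (nat_lit 178) (nat_lit 5) (nat_lit 179) (nat_lit 5) (nat_lit 425) (nat_lit 345) (nat_lit 250)) (XT.nd (nat_lit 78) (nat_lit 152) (nat_lit 0) (XT.lf (nat_lit 0) (nat_lit 5181812617) (nat_lit 304) (nat_lit 4633476079) (nat_lit 76) (nat_lit 9550181996) (nat_lit 174) (nat_lit 5) (nat_lit 178) (nat_lit 5) (nat_lit 175) (nat_lit 5) (nat_lit 426) (nat_lit 345) (nat_lit 249)) (XT.lf (nat_lit 0) (nat_lit 8557121334) (nat_lit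 152) (nat_lit 2619713885) (nat_lit 228) (nat_lit 8545447497) (nat_lit 172) (nat_lit 5) (nat_lit 174) (nat_lit 5) (nat_lit 175) (nat_lit 5) (nat_lit 427) (nat_lit 345) (nat_lit 248)))) (XT.nd (nat_lit 78) (nat_lit 228) (nat_lit 0) (XT.lf (nat_lit 0) (nat_lit 2103726928) (nat_lit 152) (nat_lit 15338539751) (nat_lit 228) (nat_lit 2644815674) (nat_lit 170) (nat_lit 5) (nat_lit 172) (nat_lit 5) (nat_lit 173) (nat_lit 5) (nat_lit 428) (nat_lit 345) (nat_lit 247)) (XT.nd (nat_lit 78) (nat_lit 152) (nat_lit 0) (XT.lf (nat_lit 0) (nat_lit 3482726948) (nat_lit 228) (nat_lit 4560818410) (nat_lit 76) (nat_lit 12414784304) (nat_lit 169) (nat_lit 5) (nat_lit 172) (nat_lit 5) (nat_lit 170) (nat_lit 5) (nat_lit 429) (nat_lit 345) (nat_lit 246)) (XT.lf (nat_lit 0) (nat_lit 9381588664) (nat_lit 152) (nat_lit 427276718) (nat_lit 228) (nat_lit 11029025586) (nat_lit 167) (nat_lit 5) (nat_lit 169) (nat_lit 5) (nat_lit 170)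 (nat_lit 5) (nat_lit 430) (nat_lit 345) (nat_lit 245))))) (XT.nd (nat_lit 234) (nat_lit 152) (nat_lit 0) (XT.nd (nat_lit 78) (nat_lit 228) (nat_lit 0) (XT.lf (nat_lit 0) (nat_lit 2546443440) (nat_lit 152) (nat_lit 13898485268) (nat_lit 228) (nat_lit 4780306185) (nat_lit 165) (nat_lit 5) (nat_lit 167) (nat_lit 5) (nat_lit 168) (nat_lit 5) (nat_lit 431) (nat_lit 345) (nat_lit 244)) (XT.nd (nat_lit 78) (nat_lit 152) (nat_lit 0) (XT.lf (nat_lit 0) (nat_lit 1722524586) (nat_lit 228) (nat_lit 4477749191) (nat_lit 76) (nat_lit 15420478983) (nat_lit 164) (nat_lit 5) (nat_lit 167) (nat_lit 5) (nat_lit 165) (nat_lit 5) (nat_lit 432) (nat_lit 345) (nat_lit 243)) (XT.lf (nat_lit 0) (nat_lit 8419463250) (nat_lit 228) (nat_lit 11778706453) (nat_lit 76) (nat_lit 1825693494) (nat_lit 162) (nat_lit 5) (nat_lit 165) (nat_lit 5) (nat_lit 163) (nat_lit 5) (nat_lit 433) (nat_lit 345) (nat_lit 242)))) (XT.nd (nat_lit 46254)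 (nat_lit 0) (nat_lit 25384) (XT.lf (nat_lit 0) (nat_lit 3022192264) (nat_lit 152) (nat_lit 12409857859) (nat_lit 228) (nat_lit 7003574623) (nat_lit 160) (nat_lit 5) (nat_lit 162) (nat_lit 5) (nat_lit 163) (nat_lit 5) (nat_lit 434) (nat_lit 345) (nat_lit 241)) (XT.nd (nat_lit 78) (nat_lit 0) (nat_lit 0) (XT.lf (nat_lit 0) (nat_lit 698466711) (nat_lit 532) (nat_lit 1299220761) (nat_lit 532) (nat_lit 1299220761) (nat_lit 494) (nat_lit 3) (nat_lit 501) (nat_lit 3) (nat_lit 501) (nat_lit 5) (nat_lit 346) (nat_lit 346) (nat_lit 328)) (XT.lf (nat_lit 76) (nat_lit 712367568) (nat_lit 0) (nat_lit 3109261840) (nat_lit 532) (nat_lit 2798982047) (nat_lit 495) (nat_lit 5) (nat_lit 494) (nat_lit 3) (nat_lit 501) (nat_lit 5) (nat_lit 347) (nat_lit 346) (nat_lit 327)))))) (XT.nd (nat_lit 468) (nat_lit 1368) (nat_lit 0) (XT.nd (nat_lit 234) (nat_lit 532) (nat_lit 0) (XT.nd (nat_lit 78) (nat_lit 532) (nat_lit 0) (XT.lf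 (nat_lit 76) (nat_lit 4126632454) (nat_lit 0) (nat_lit 2124656598) (nat_lit 532) (nat_lit 398954557) (nat_lit 495) (nat_lit 5) (nat_lit 494) (nat_lit 3) (nat_lit 501) (nat_lit 5) (nat_lit 348) (nat_lit 346) (nat_lit 326)) (XT.nd (nat_lit 78) (nat_lit 0) (nat_lit 76) (XT.lf (nat_lit 76) (nat_lit 910869759) (nat_lit 0) (nat_lit 1038324909) (nat_lit 608) (nat_lit 4733475008) (nat_lit 488) (nat_lit 5) (nat_lit 487) (nat_lit 5) (nat_lit 495) (nat_lit 5) (nat_lit 349) (nat_lit 346) (nat_lit 325)) (XT.lf (nat_lit 0) (nat_lit 4296705280) (nat_lit 532) (nat_lit 2272308665) (nat_lit 608) (nat_lit 148828015) (nat_lit 488) (nat_lit 5) (nat_lit 495) (nat_lit 5) (nat_lit 496) (nat_lit 5) (nat_lit 350) (nat_lit 346) (nat_lit 324)))) (XT.nd (nat_lit 78) (nat_lit 608) (nat_lit 0) (XT.lf (nat_lit 76) (nat_lit 1296562039) (nat_lit 0) (nat_lit 5353856861) (nat_lit 608) (nat_lit 105577180) (nat_lit 489) (nat_lit 5) (nat_lit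 488) (nat_lit 5) (nat_lit 496) (nat_lit 5) (nat_lit 351) (nat_lit 346) (nat_lit 323)) (XT.nd (nat_lit 78) (nat_lit 0) (nat_lit 0) (XT.lf (nat_lit 0) (nat_lit 2172386170) (nat_lit 608) (nat_lit 1849501946) (nat_lit 684) (nat_lit 2774626846) (nat_lit 480) (nat_lit 5) (nat_lit 488) (nat_lit 5) (nat_lit 489) (nat_lit 5) (nat_lit 352) (nat_lit 346) (nat_lit 322)) (XT.lf (nat_lit 76) (nat_lit 1853525722) (nat_lit 0) (nat_lit 2597599944) (nat_lit 684) (nat_lit 2389055606) (nat_lit 481) (nat_lit 5) (nat_lit 480) (nat_lit 5) (nat_lit 489) (nat_lit 5) (nat_lit 353) (nat_lit 346) (nat_lit 321))))) (XT.nd (nat_lit 234) (nat_lit 760) (nat_lit 0) (XT.nd (nat_lit 78) (nat_lit 608) (nat_lit 0) (XT.lf (nat_lit 76) (nat_lit 5655724555) (nat_lit 0) (nat_lit 1079867121) (nat_lit 684) (nat_lit 151444966) (nat_lit 481) (nat_lit 5) (nat_lit 480) (nat_lit 5) (nat_lit 489) (nat_lit 5) (nat_lit 354) (nat_lit 346) (nat_lit 320))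 (XT.nd (nat_lit 78) (nat_lit 0) (nat_lit 0) (XT.lf (nat_lit 0) (nat_lit 2062094036) (nat_lit 684) (nat_lit 4324606602) (nat_lit 760) (nat_lit 549451514) (nat_lit 472) (nat_lit 5) (nat_lit 481) (nat_lit 5) (nat_lit 482) (nat_lit 5) (nat_lit 355) (nat_lit 346) (nat_lit 319)) (XT.lf (nat_lit 0) (nat_lit 4284638179) (nat_lit 684) (nat_lit 455840207) (nat_lit 760) (nat_lit 2247848472) (nat_lit 472) (nat_lit 5) (nat_lit 481) (nat_lit 5) (nat_lit 482) (nat_lit 5) (nat_lit 356) (nat_lit 346) (nat_lit 318)))) (XT.nd (nat_lit 78) (nat_lit 760) (nat_lit 0) (XT.lf (nat_lit 76) (nat_lit 3547646257) (nat_lit 0) (nat_lit 2984969066) (nat_lit 760) (nat_lit 510688783) (nat_lit 473) (nat_lit 5) (nat_lit 472) (nat_lit 5) (nat_lit 482) (nat_lit 5) (nat_lit 357) (nat_lit 346) (nat_lit 317)) (XT.nd (nat_lit 78) (nat_lit 0) (nat_lit 76) (XT.lf (nat_lit 76) (nat_lit 522582666) (nat_lit 0) (nat_lit 1126717427) (nat_lit 836)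 (nat_lit 5452067142) (nat_lit 463) (nat_lit 5) (nat_lit 462) (nat_lit 5) (nat_lit 473) (nat_lit 5) (nat_lit 358) (nat_lit 346) (nat_lit 316)) (XT.lf (nat_lit 0) (nat_lit 3834562738) (nat_lit 760) (nat_lit 2493496544) (nat_lit 76) (nat_lit 833839131) (nat_lit 463) (nat_lit 5) (nat_lit 473) (nat_lit 5) (nat_lit 464) (nat_lit 5) (nat_lit 359) (nat_lit 346) (nat_lit 315))))))))
noncomputable def xc62 : XT := (XT.nd (nat_lit 1794) (nat_lit 6688) (nat_lit 0) (XT.nd (nat_lit 858) (nat_lit 4484) (nat_lit 0) (XT.nd (nat_lit 390) (nat_lit 4484) (nat_lit 0) (XT.nd (nat_lit 156) (nat_lit 1824) (nat_lit 0) (XT.nd (nat_lit 78) (nat_lit 76) (nat_lit 0) (XT.lf (nat_lit 0) (nat_lit 1684177743) (nat_lit 760) (nat_lit 4358183318) (nat_lit 836) (nat_lit 1183175133) (nat_lit 453) (nat_lit 5) (nat_lit 463) (nat_lit 5) (nat_lit 464) (nat_lit 5) (nat_lit 360) (nat_lit 346) (nat_lit 314)) (XT.lf (nat_lit 0) (nat_lit 961238694)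 (nat_lit 836) (nat_lit 1314891976) (nat_lit 76) (nat_lit 5015978681) (nat_lit 452) (nat_lit 5) (nat_lit 463) (nat_lit 5) (nat_lit 453) (nat_lit 5) (nat_lit 361) (nat_lit 346) (nat_lit 313))) (XT.nd (nat_lit 78) (nat_lit 988) (nat_lit 0) (XT.lf (nat_lit 0) (nat_lit 3034651908) (nat_lit 836) (nat_lit 73254609) (nat_lit 912) (nat_lit 4253570681) (nat_lit 441) (nat_lit 5) (nat_lit 452) (nat_lit 5) (nat_lit 453) (nat_lit 5) (nat_lit 362) (nat_lit 346) (nat_lit 312)) (XT.nd (nat_lit 78) (nat_lit 76) (nat_lit 0) (XT.lf (nat_lit 0) (nat_lit 35724136) (nat_lit 912) (nat_lit 5252265134) (nat_lit 988) (nat_lit 2145866365) (nat_lit 429) (nat_lit 5) (nat_lit 441) (nat_lit 5) (nat_lit 442) (nat_lit 5) (nat_lit 363) (nat_lit 346) (nat_lit 311)) (XT.lf (nat_lit 0) (nat_lit 4362843) (nat_lit 988) (nat_lit 2944268073) (nat_lit 76) (nat_lit 4560373790) (nat_lit 428) (nat_lit 5) (nat_lit 441) (nat_lit 5) (nat_lit 429) (nat_lit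 5) (nat_lit 364) (nat_lit 346) (nat_lit 310))))) (XT.nd (nat_lit 234) (nat_lit 2432) (nat_lit 0) (XT.nd (nat_lit 78) (nat_lit 1064) (nat_lit 0) (XT.lf (nat_lit 0) (nat_lit 1601150750) (nat_lit 988) (nat_lit 527037403) (nat_lit 1064) (nat_lit 5459016140) (nat_lit 415) (nat_lit 5) (nat_lit 428) (nat_lit 5) (nat_lit 429) (nat_lit 5) (nat_lit 365) (nat_lit 346) (nat_lit 309)) (XT.nd (nat_lit 78) (nat_lit 1064) (nat_lit 0) (XT.lf (nat_lit 0) (nat_lit 4302934939) (nat_lit 1064) (nat_lit 1396277306) (nat_lit 76) (nat_lit 1968921421) (nat_lit 415) (nat_lit 5) (nat_lit 429) (nat_lit 5) (nat_lit 416) (nat_lit 5) (nat_lit 366) (nat_lit 346) (nat_lit 308)) (XT.lf (nat_lit 0) (nat_lit 3339190167) (nat_lit 1064) (nat_lit 3181119465) (nat_lit 1140) (nat_lit 1231859722) (nat_lit 401) (nat_lit 5) (nat_lit 415) (nat_lit 5) (nat_lit 416) (nat_lit 5) (nat_lit 367) (nat_lit 346) (nat_lit 307)))) (XT.nd (nat_lit 78) (nat_lit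 1216) (nat_lit 0) (XT.lf (nat_lit 0) (nat_lit 351873146) (nat_lit 1140) (nat_lit 553127140) (nat_lit 1216) (nat_lit 6934696581) (nat_lit 385) (nat_lit 5) (nat_lit 400) (nat_lit 5) (nat_lit 401) (nat_lit 5) (nat_lit 368) (nat_lit 346) (nat_lit 306)) (XT.nd (nat_lit 78) (nat_lit 1216) (nat_lit 0) (XT.lf (nat_lit 0) (nat_lit 3088934773) (nat_lit 1216) (nat_lit 2665617075) (nat_lit 76) (nat_lit 2174700622) (nat_lit 385) (nat_lit 5) (nat_lit 401) (nat_lit 5) (nat_lit 386) (nat_lit 5) (nat_lit 369) (nat_lit 346) (nat_lit 305)) (XT.lf (nat_lit 0) (nat_lit 2288102195) (nat_lit 1216) (nat_lit 3021466397) (nat_lit 1292) (nat_lit 2712790710) (nat_lit 369) (nat_lit 5) (nat_lit 385) (nat_lit 5) (nat_lit 386) (nat_lit 5) (nat_lit 370) (nat_lit 346) (nat_lit 304)))))) (XT.nd (nat_lit 468) (nat_lit 1748) (nat_lit 0) (XT.nd (nat_lit 234) (nat_lit 1216) (nat_lit 0) (XT.nd (nat_lit 78) (nat_lit 1520) (nat_lit 0) (XT.lf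 (nat_lit 0) (nat_lit 7393262399) (nat_lit 1216) (nat_lit 175328137) (nat_lit 1292) (nat_lit 550515730) (nat_lit 369) (nat_lit 5) (nat_lit 385) (nat_lit 5) (nat_lit 386) (nat_lit 5) (nat_lit 371) (nat_lit 346) (nat_lit 303)) (XT.nd (nat_lit 78) (nat_lit 608) (nat_lit 0) (XT.lf (nat_lit 0) (nat_lit 1659738917) (nat_lit 912) (nat_lit 3793510477) (nat_lit 76) (nat_lit 2764547888) (nat_lit 357) (nat_lit 5) (nat_lit 369) (nat_lit 5) (nat_lit 358) (nat_lit 5) (nat_lit 372) (nat_lit 346) (nat_lit 302)) (XT.lf (nat_lit 0) (nat_lit 1391988563) (nat_lit 608) (nat_lit 2502800452) (nat_lit 684) (nat_lit 4425409915) (nat_lit 349) (nat_lit 5) (nat_lit 357) (nat_lit 5) (nat_lit 358) (nat_lit 5) (nat_lit 373) (nat_lit 346) (nat_lit 301)))) (XT.nd (nat_lit 78) (nat_lit 1216) (nat_lit 0) (XT.lf (nat_lit 0) (nat_lit 6188807371) (nat_lit 684) (nat_lit 1672769788) (nat_lit 76) (nat_lit 564337965) (nat_lit 349) (nat_lit 5)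 (nat_lit 358) (nat_lit 5) (nat_lit 350) (nat_lit 5) (nat_lit 374) (nat_lit 346) (nat_lit 300)) (XT.nd (nat_lit 78) (nat_lit 532) (nat_lit 0) (XT.lf (nat_lit 0) (nat_lit 26903209) (nat_lit 684) (nat_lit 4798261559) (nat_lit 76) (nat_lit 3709321528) (nat_lit 340) (nat_lit 5) (nat_lit 349) (nat_lit 5) (nat_lit 341) (nat_lit 5) (nat_lit 375) (nat_lit 346) (nat_lit 299)) (XT.lf (nat_lit 0) (nat_lit 633563632) (nat_lit 532) (nat_lit 1653529371) (nat_lit 608) (nat_lit 6359360446) (nat_lit 333) (nat_lit 5) (nat_lit 340) (nat_lit 5) (nat_lit 341) (nat_lit 5) (nat_lit 376) (nat_lit 346) (nat_lit 298))))) (XT.nd (nat_lit 234) (nat_lit 1064) (nat_lit 0) (XT.nd (nat_lit 78) (nat_lit 684) (nat_lit 0) (XT.lf (nat_lit 0) (nat_lit 4630528245) (nat_lit 608) (nat_lit 2502990534) (nat_lit 76) (nat_lit 1627797646) (nat_lit 333) (nat_lit 5) (nat_lit 341) (nat_lit 5) (nat_lit 334) (nat_lit 5) (nat_lit 377) (nat_lit 346) (nat_lit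 297)) (XT.nd (nat_lit 78) (nat_lit 76) (nat_lit 0) (XT.lf (nat_lit 0) (nat_lit 3165784356) (nat_lit 608) (nat_lit 3877711816) (nat_lit 684) (nat_lit 1836152230) (nat_lit 325) (nat_lit 5) (nat_lit 333) (nat_lit 5) (nat_lit 334) (nat_lit 5) (nat_lit 378) (nat_lit 346) (nat_lit 296)) (XT.lf (nat_lit 0) (nat_lit 495415121) (nat_lit 684) (nat_lit 2415729) (nat_lit 76) (nat_lit 8504195950) (nat_lit 324) (nat_lit 5) (nat_lit 333) (nat_lit 5) (nat_lit 325) (nat_lit 5) (nat_lit 379) (nat_lit 346) (nat_lit 295)))) (XT.nd (nat_lit 78) (nat_lit 532) (nat_lit 0) (XT.lf (nat_lit 0) (nat_lit 2900604729) (nat_lit 608) (nat_lit 3229448089) (nat_lit 76) (nat_lit 2996260938) (nat_lit 317) (nat_lit 5) (nat_lit 325) (nat_lit 5) (nat_lit 318) (nat_lit 5) (nat_lit 380) (nat_lit 346) (nat_lit 294)) (XT.nd (nat_lit 78) (nat_lit 0) (nat_lit 0) (XT.lf (nat_lit 0) (nat_lit 2715370958) (nat_lit 532) (nat_lit 2648663479) (nat_lit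 608) (nat_lit 3890712352) (nat_lit 310) (nat_lit 5) (nat_lit 317) (nat_lit 5) (nat_lit 318) (nat_lit 5) (nat_lit 381) (nat_lit 346) (nat_lit 293)) (XT.lf (nat_lit 0) (nat_lit 7899091822) (nat_lit 608) (nat_lit 542937011) (nat_lit 76) (nat_lit 945072237) (nat_lit 310) (nat_lit 5) (nat_lit 318) (nat_lit 5) (nat_lit 311) (nat_lit 5) (nat_lit 382) (nat_lit 346) (nat_lit 292))))))) (XT.nd (nat_lit 936) (nat_lit 2888) (nat_lit 0) (XT.nd (nat_lit 468) (nat_lit 1748) (nat_lit 0) (XT.nd (nat_lit 234) (nat_lit 988) (nat_lit 0) (XT.nd (nat_lit 78) (nat_lit 532) (nat_lit 0) (XT.lf (nat_lit 0) (nat_lit 1005662419) (nat_lit 532) (nat_lit 3865161579) (nat_lit 76) (nat_lit 4651173125) (nat_lit 303) (nat_lit 5) (nat_lit 310) (nat_lit 5) (nat_lit 304) (nat_lit 5) (nat_lit 383) (nat_lit 346) (nat_lit 291)) (XT.nd (nat_lit 78) (nat_lit 0) (nat_lit 0) (XT.lf (nat_lit 0) (nat_lit 2373368316) (nat_lit 532) (nat_lit 1156639389)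 (nat_lit 608) (nat_lit 6130917241) (nat_lit 296) (nat_lit 5) (nat_lit 303) (nat_lit 5) (nat_lit 304) (nat_lit 5) (nat_lit 384) (nat_lit 346) (nat_lit 290)) (XT.lf (nat_lit 0) (nat_lit 6153245191) (nat_lit 608) (nat_lit 1002387984) (nat_lit 76) (nat_lit 2647692574) (nat_lit 296) (nat_lit 5) (nat_lit 304) (nat_lit 5) (nat_lit 297) (nat_lit 5) (nat_lit 385) (nat_lit 346) (nat_lit 289)))) (XT.nd (nat_lit 78) (nat_lit 532) (nat_lit 0) (XT.lf (nat_lit 0) (nat_lit 5517271701) (nat_lit 456) (nat_lit 3361705139) (nat_lit 532) (nat_lit 1070307825) (nat_lit 290) (nat_lit 5) (nat_lit 296) (nat_lit 5) (nat_lit 297) (nat_lit 5) (nat_lit 386) (nat_lit 346) (nat_lit 288)) (XT.nd (nat_lit 78) (nat_lit 0) (nat_lit 0) (XT.lf (nat_lit 0) (nat_lit 1551810089) (nat_lit 532) (nat_lit 7975697860) (nat_lit 76) (nat_lit 571779265) (nat_lit 283) (nat_lit 5) (nat_lit 290) (nat_lit 5) (nat_lit 284) (nat_lit 5) (nat_lit 387) (nat_lit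 346) (nat_lit 287)) (XT.lf (nat_lit 0) (nat_lit 4269776508) (nat_lit 532) (nat_lit 1381239312) (nat_lit 76) (nat_lit 4601295191) (nat_lit 283) (nat_lit 5) (nat_lit 290) (nat_lit 5) (nat_lit 284) (nat_lit 5) (nat_lit 388) (nat_lit 346) (nat_lit 286))))) (XT.nd (nat_lit 234) (nat_lit 836) (nat_lit 0) (XT.nd (nat_lit 78) (nat_lit 532) (nat_lit 0) (XT.lf (nat_lit 0) (nat_lit 5468065968) (nat_lit 380) (nat_lit 1615152258) (nat_lit 456) (nat_lit 3326289207) (nat_lit 278) (nat_lit 5) (nat_lit 283) (nat_lit 5) (nat_lit 284) (nat_lit 5) (nat_lit 389) (nat_lit 346) (nat_lit 285)) (XT.nd (nat_lit 78) (nat_lit 76) (nat_lit 0) (XT.lf (nat_lit 0) (nat_lit 1943279378) (nat_lit 456) (nat_lit 8056900993) (nat_lit 532) (nat_lit 570665864) (nat_lit 272) (nat_lit 5) (nat_lit 278) (nat_lit 5) (nat_lit 279) (nat_lit 5) (nat_lit 390) (nat_lit 346) (nat_lit 284)) (XT.lf (nat_lit 0) (nat_lit 2251939458) (nat_lit 532) (nat_lit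 1688468227) (nat_lit 76) (nat_lit 6795106695) (nat_lit 271) (nat_lit 5) (nat_lit 278) (nat_lit 5) (nat_lit 272) (nat_lit 5) (nat_lit 391) (nat_lit 346) (nat_lit 283)))) (XT.nd (nat_lit 78) (nat_lit 456) (nat_lit 0) (XT.lf (nat_lit 0) (nat_lit 5167356716) (nat_lit 456) (nat_lit 5396123630) (nat_lit 76) (nat_lit 340884612) (nat_lit 266) (nat_lit 5) (nat_lit 272) (nat_lit 5) (nat_lit 267) (nat_lit 5) (nat_lit 392) (nat_lit 346) (nat_lit 282)) (XT.nd (nat_lit 78) (nat_lit 76) (nat_lit 0) (XT.lf (nat_lit 0) (nat_lit 1824610662) (nat_lit 380) (nat_lit 6383161456) (nat_lit 456) (nat_lit 2869382865) (nat_lit 261) (nat_lit 5) (nat_lit 266) (nat_lit 5) (nat_lit 267) (nat_lit 5) (nat_lit 393) (nat_lit 346) (nat_lit 281)) (XT.lf (nat_lit 0) (nat_lit 101651221) (nat_lit 456) (nat_lit 1931998455) (nat_lit 76) (nat_lit 9220884000) (nat_lit 260) (nat_lit 5) (nat_lit 266) (nat_lit 5) (nat_lit 261) (nat_lit 5) (nat_lit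 394) (nat_lit 346) (nat_lit 280)))))) (XT.nd (nat_lit 468) (nat_lit 1368) (nat_lit 0) (XT.nd (nat_lit 234) (nat_lit 760) (nat_lit 0) (XT.nd (nat_lit 78) (nat_lit 380) (nat_lit 0) (XT.lf (nat_lit 0) (nat_lit 3147623792) (nat_lit 456) (nat_lit 5818456474) (nat_lit 76) (nat_lit 2468996795) (nat_lit 255) (nat_lit 5) (nat_lit 261) (nat_lit 5) (nat_lit 256) (nat_lit 5) (nat_lit 395) (nat_lit 346) (nat_lit 279)) (XT.nd (nat_lit 78) (nat_lit 0) (nat_lit 0) (XT.lf (nat_lit 0) (nat_lit 1776469816) (nat_lit 380) (nat_lit 4530892809) (nat_lit 456) (nat_lit 5313002510) (nat_lit 250) (nat_lit 5) (nat_lit 255) (nat_lit 5) (nat_lit 256) (nat_lit 5) (nat_lit 396) (nat_lit 346) (nat_lit 278)) (XT.lf (nat_lit 0) (nat_lit 9587467160) (nat_lit 456) (nat_lit 2140996328) (nat_lit 76) (nat_lit 81981158) (nat_lit 250) (nat_lit 5) (nat_lit 256) (nat_lit 5) (nat_lit 251) (nat_lit 5) (nat_lit 397) (nat_lit 346) (nat_lit 277))))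 (XT.nd (nat_lit 78) (nat_lit 380) (nat_lit 0) (XT.lf (nat_lit 0) (nat_lit 1009308214) (nat_lit 380) (nat_lit 6200206124) (nat_lit 76) (nat_lit 4794386791) (nat_lit 245) (nat_lit 5) (nat_lit 250) (nat_lit 5) (nat_lit 246) (nat_lit 5) (nat_lit 398) (nat_lit 346) (nat_lit 276)) (XT.nd (nat_lit 78) (nat_lit 0) (nat_lit 0) (XT.lf (nat_lit 0) (nat_lit 1792986428) (nat_lit 380) (nat_lit 2507025242) (nat_lit 456) (nat_lit 7902305481) (nat_lit 240) (nat_lit 5) (nat_lit 245) (nat_lit 5) (nat_lit 246) (nat_lit 5) (nat_lit 399) (nat_lit 346) (nat_lit 275)) (XT.lf (nat_lit 0) (nat_lit 7742545667) (nat_lit 456) (nat_lit 2323054489) (nat_lit 76) (nat_lit 2339492214) (nat_lit 240) (nat_lit 5) (nat_lit 246) (nat_lit 5) (nat_lit 241) (nat_lit 5) (nat_lit 400) (nat_lit 346) (nat_lit 274))))) (XT.nd (nat_lit 234) (nat_lit 684) (nat_lit 0) (XT.nd (nat_lit 78) (nat_lit 380) (nat_lit 0) (XT.lf (nat_lit 0) (nat_lit 6052254427)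 (nat_lit 304) (nat_lit 5287469585) (nat_lit 380) (nat_lit 1272685786) (nat_lit 236) (nat_lit 5) (nat_lit 240) (nat_lit 5) (nat_lit 241) (nat_lit 5) (nat_lit 401) (nat_lit 346) (nat_lit 273)) (XT.nd (nat_lit 78) (nat_lit 0) (nat_lit 0) (XT.lf (nat_lit 0) (nat_lit 1869109712) (nat_lit 304) (nat_lit 316656031) (nat_lit 380) (nat_lit 10639235341) (nat_lit 231) (nat_lit 5) (nat_lit 235) (nat_lit 5) (nat_lit 236) (nat_lit 5) (nat_lit 402) (nat_lit 346) (nat_lit 272)) (XT.lf (nat_lit 0) (nat_lit 5804318771) (nat_lit 380) (nat_lit 2463003617) (nat_lit 76) (nat_lit 4773811866) (nat_lit 231) (nat_lit 5) (nat_lit 236) (nat_lit 5) (nat_lit 232) (nat_lit 5) (nat_lit 403) (nat_lit 346) (nat_lit 271)))) (XT.nd (nat_lit 78) (nat_lit 380) (nat_lit 0) (XT.lf (nat_lit 0) (nat_lit 6359692845) (nat_lit 304) (nat_lit 3205766143) (nat_lit 380) (nat_lit 3697271510) (nat_lit 227) (nat_lit 5) (nat_lit 231) (nat_lit 5) (nat_lit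 232) (nat_lit 5) (nat_lit 404) (nat_lit 346) (nat_lit 270)) (XT.nd (nat_lit 78) (nat_lit 76) (nat_lit 0) (XT.lf (nat_lit 0) (nat_lit 1980190904) (nat_lit 304) (nat_lit 11492748350) (nat_lit 380) (nat_lit 17030204) (nat_lit 223) (nat_lit 5) (nat_lit 227) (nat_lit 5) (nat_lit 228) (nat_lit 5) (nat_lit 405) (nat_lit 346) (nat_lit 269)) (XT.lf (nat_lit 0) (nat_lit 3772313566) (nat_lit 380) (nat_lit 2565592937) (nat_lit 76) (nat_lit 7382860888) (nat_lit 222) (nat_lit 5) (nat_lit 227) (nat_lit 5) (nat_lit 223) (nat_lit 5) (nat_lit 406) (nat_lit 346) (nat_lit 268))))))))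
noncomputable def xc63 : XT := (XT.nd (nat_lit 1872) (nat_lit 532) (nat_lit 0) (XT.nd (nat_lit 936) (nat_lit 1824) (nat_lit 0) (XT.nd (nat_lit 468) (nat_lit 1064) (nat_lit 0) (XT.nd (nat_lit 234) (nat_lit 532) (nat_lit 0) (XT.nd (nat_lit 78) (nat_lit 380) (nat_lit 0) (XT.lf (nat_lit 0) (nat_lit 6733112010) (nat_lit 228) (nat_lit 977668798) (nat_lit 304) (nat_lit 6246629834) (nat_lit 219) (nat_lit 5) (nat_lit 222) (nat_lit 5) (nat_lit 223) (nat_lit 5) (nat_lit 407) (nat_lit 346) (nat_lit 267)) (XT.nd (nat_lit 78) (nat_lit 76) (nat_lit 0) (XT.lf (nat_lit 0) (nat_lit 2115051556) (nat_lit 304) (nat_lit 9713841905) (nat_lit 380) (nat_lit 2370414987) (nat_lit 215) (nat_lit 5) (nat_lit 219) (nat_lit 5) (nat_lit 220) (nat_lit 5) (nat_lit 408) (nat_lit 346) (nat_lit 266)) (XT.lf (nat_lit 0) (nat_lit 1645233830) (nat_lit 380) (nat_lit 2635005098) (nat_lit 76) (nat_lit 10166112477) (nat_lit 214) (nat_lit 5) (nat_lit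 219) (nat_lit 5) (nat_lit 215) (nat_lit 5) (nat_lit 409) (nat_lit 346) (nat_lit 265)))) (XT.nd (nat_lit 78) (nat_lit 304) (nat_lit 0) (XT.lf (nat_lit 0) (nat_lit 5788322068) (nat_lit 304) (nat_lit 7542194310) (nat_lit 76) (nat_lit 1367946802) (nat_lit 211) (nat_lit 5) (nat_lit 215) (nat_lit 5) (nat_lit 212) (nat_lit 5) (nat_lit 410) (nat_lit 346) (nat_lit 264)) (XT.nd (nat_lit 78) (nat_lit 0) (nat_lit 0) (XT.lf (nat_lit 0) (nat_lit 2295795829) (nat_lit 304) (nat_lit 7823735550) (nat_lit 380) (nat_lit 4836692075) (nat_lit 207) (nat_lit 5) (nat_lit 211) (nat_lit 5) (nat_lit 212) (nat_lit 5) (nat_lit 411) (nat_lit 346) (nat_lit 263)) (XT.lf (nat_lit 0) (nat_lit 12539650359) (nat_lit 304) (nat_lit 2090076248) (nat_lit 380) (nat_lit 590518440) (nat_lit 207) (nat_lit 5) (nat_lit 211) (nat_lit 5) (nat_lit 212) (nat_lit 5) (nat_lit 412) (nat_lit 346) (nat_lit 262))))) (XT.nd (nat_lit 234) (nat_lit 532) (nat_lit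 0) (XT.nd (nat_lit 78) (nat_lit 228) (nat_lit 0) (XT.lf (nat_lit 0) (nat_lit 3793962608) (nat_lit 304) (nat_lit 7858510895) (nat_lit 76) (nat_lit 3836080549) (nat_lit 203) (nat_lit 5) (nat_lit 207) (nat_lit 5) (nat_lit 204) (nat_lit 5) (nat_lit 413) (nat_lit 346) (nat_lit 261)) (XT.nd (nat_lit 78) (nat_lit 0) (nat_lit 0) (XT.lf (nat_lit 0) (nat_lit 2519873733) (nat_lit 228) (nat_lit 5824111138) (nat_lit 304) (nat_lit 7419375787) (nat_lit 200) (nat_lit 5) (nat_lit 203) (nat_lit 5) (nat_lit 204) (nat_lit 5) (nat_lit 414) (nat_lit 346) (nat_lit 260)) (XT.lf (nat_lit 0) (nat_lit 13086186546) (nat_lit 304) (nat_lit 2719368811) (nat_lit 76) (nat_lit 239185743) (nat_lit 200) (nat_lit 5) (nat_lit 204) (nat_lit 5) (nat_lit 201) (nat_lit 5) (nat_lit 415) (nat_lit 346) (nat_lit 259)))) (XT.nd (nat_lit 78) (nat_lit 228) (nat_lit 0) (XT.lf (nat_lit 0) (nat_lit 1716138805) (nat_lit 304) (nat_lit 8167893060) (nat_lit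 76) (nat_lit 6446700071) (nat_lit 196) (nat_lit 5) (nat_lit 200) (nat_lit 5) (nat_lit 197) (nat_lit 5) (nat_lit 416) (nat_lit 346) (nat_lit 258)) (XT.nd (nat_lit 78) (nat_lit 0) (nat_lit 0) (XT.lf (nat_lit 0) (nat_lit 2785209253) (nat_lit 228) (nat_lit 3715573300) (nat_lit 304) (nat_lit 10122765958) (nat_lit 193) (nat_lit 5) (nat_lit 196) (nat_lit 5) (nat_lit 197) (nat_lit 5) (nat_lit 417) (nat_lit 346) (nat_lit 257)) (XT.lf (nat_lit 0) (nat_lit 11512459541) (nat_lit 304) (nat_lit 2757036897) (nat_lit 76) (nat_lit 2653148326) (nat_lit 193) (nat_lit 5) (nat_lit 197) (nat_lit 5) (nat_lit 194) (nat_lit 5) (nat_lit 418) (nat_lit 346) (nat_lit 256)))))) (XT.nd (nat_lit 468) (nat_lit 836) (nat_lit 0) (XT.nd (nat_lit 234) (nat_lit 456) (nat_lit 0) (XT.nd (nat_lit 78) (nat_lit 304) (nat_lit 0) (XT.lf (nat_lit 0) (nat_lit 8749360818) (nat_lit 228) (nat_lit 8021591004) (nat_lit 304) (nat_lit 456868134) (nat_lit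 190) (nat_lit 5) (nat_lit 193) (nat_lit 5) (nat_lit 194) (nat_lit 5) (nat_lit 419) (nat_lit 346) (nat_lit 255)) (XT.nd (nat_lit 78) (nat_lit 0) (nat_lit 0) (XT.lf (nat_lit 0) (nat_lit 3090158065) (nat_lit 228) (nat_lit 1497722284) (nat_lit 304) (nat_lit 12951926319) (nat_lit 186) (nat_lit 5) (nat_lit 189) (nat_lit 5) (nat_lit 190) (nat_lit 5) (nat_lit 420) (nat_lit 346) (nat_lit 254)) (XT.lf (nat_lit 0) (nat_lit 9887253280) (nat_lit 304) (nat_lit 2776037328) (nat_lit 76) (nat_lit 5194352730) (nat_lit 186) (nat_lit 5) (nat_lit 190) (nat_lit 5) (nat_lit 187) (nat_lit 5) (nat_lit 421) (nat_lit 346) (nat_lit 253)))) (XT.nd (nat_lit 78) (nat_lit 304) (nat_lit 0) (XT.lf (nat_lit 0) (nat_lit 9375594440) (nat_lit 152) (nat_lit 6051475898) (nat_lit 228) (nat_lit 2755500883) (nat_lit 184) (nat_lit 5) (nat_lit 186) (nat_lit 5) (nat_lit 187) (nat_lit 5) (nat_lit 422) (nat_lit 346) (nat_lit 252)) (XT.nd (nat_lit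 78) (nat_lit 0) (nat_lit 0) (XT.lf (nat_lit 0) (nat_lit 2610672258) (nat_lit 304) (nat_lit 15089871078) (nat_lit 76) (nat_lit 814572806) (nat_lit 180) (nat_lit 5) (nat_lit 184) (nat_lit 5) (nat_lit 181) (nat_lit 5) (nat_lit 423) (nat_lit 346) (nat_lit 251)) (XT.lf (nat_lit 0) (nat_lit 8208893656) (nat_lit 304) (nat_lit 2778596820) (nat_lit 76) (nat_lit 7865535090) (nat_lit 180) (nat_lit 5) (nat_lit 184) (nat_lit 5) (nat_lit 181) (nat_lit 5) (nat_lit 424) (nat_lit 346) (nat_lit 250))))) (XT.nd (nat_lit 234) (nat_lit 380) (nat_lit 0) (XT.nd (nat_lit 78) (nat_lit 304) (nat_lit 0) (XT.lf (nat_lit 0) (nat_lit 10058965373) (nat_lit 152) (nat_lit 3990183985) (nat_lit 228) (nat_lit 5149700285) (nat_lit 178) (nat_lit 5) (nat_lit 180) (nat_lit 5) (nat_lit 181) (nat_lit 5) (nat_lit 425) (nat_lit 346) (nat_lit 249)) (XT.nd (nat_lit 78) (nat_lit 0) (nat_lit 0) (XT.lf (nat_lit 0) (nat_lit 573533954) (nat_lit 304)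 (nat_lit 15770821691) (nat_lit 76) (nat_lit 3208328458) (nat_lit 174) (nat_lit 5) (nat_lit 178) (nat_lit 5) (nat_lit 175) (nat_lit 5) (nat_lit 426) (nat_lit 346) (nat_lit 248)) (XT.lf (nat_lit 0) (nat_lit 6475255060) (nat_lit 304) (nat_lit 2766672726) (nat_lit 76) (nat_lit 10670367385) (nat_lit 174) (nat_lit 5) (nat_lit 178) (nat_lit 5) (nat_lit 175) (nat_lit 5) (nat_lit 427) (nat_lit 346) (nat_lit 247)))) (XT.nd (nat_lit 78) (nat_lit 228) (nat_lit 0) (XT.lf (nat_lit 0) (nat_lit 10799977829) (nat_lit 152) (nat_lit 1836097248) (nat_lit 228) (nat_lit 7644158077) (nat_lit 172) (nat_lit 5) (nat_lit 174) (nat_lit 5) (nat_lit 175) (nat_lit 5) (nat_lit 428) (nat_lit 346) (nat_lit 246)) (XT.nd (nat_lit 78) (nat_lit 76) (nat_lit 0) (XT.lf (nat_lit 0) (nat_lit 4158690262) (nat_lit 152) (nat_lit 14925236822) (nat_lit 228) (nat_lit 1572215969) (nat_lit 170) (nat_lit 5) (nat_lit 172) (nat_lit 5) (nat_lit 173) (nat_lit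 5) (nat_lit 429) (nat_lit 346) (nat_lit 245)) (XT.lf (nat_lit 0) (nat_lit 4683777295) (nat_lit 228) (nat_lit 2741982665) (nat_lit 76) (nat_lit 13613422535) (nat_lit 169) (nat_lit 5) (nat_lit 172) (nat_lit 5) (nat_lit 170) (nat_lit 5) (nat_lit 430) (nat_lit 346) (nat_lit 244))))))) (XT.nd (nat_lit 47190) (nat_lit 0) (nat_lit 19228) (XT.nd (nat_lit 46722) (nat_lit 0) (nat_lit 23484) (XT.nd (nat_lit 234) (nat_lit 152) (nat_lit 0) (XT.nd (nat_lit 78) (nat_lit 228) (nat_lit 0) (XT.lf (nat_lit 0) (nat_lit 11190347122) (nat_lit 228) (nat_lit 9834978316) (nat_lit 76) (nat_lit 405085785) (nat_lit 167) (nat_lit 5) (nat_lit 170) (nat_lit 5) (nat_lit 168) (nat_lit 5) (nat_lit 431) (nat_lit 346) (nat_lit 243)) (XT.nd (nat_lit 78) (nat_lit 76) (nat_lit 0) (XT.lf (nat_lit 0) (nat_lit 4564395979) (nat_lit 152) (nat_lit 13452200589) (nat_lit 228) (nat_lit 3813045771) (nat_lit 165) (nat_lit 5) (nat_lit 167) (nat_lit 5)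 (nat_lit 168) (nat_lit 5) (nat_lit 432) (nat_lit 346) (nat_lit 242)) (XT.lf (nat_lit 0) (nat_lit 2831478415) (nat_lit 228) (nat_lit 2706030792) (nat_lit 76) (nat_lit 16700147792) (nat_lit 164) (nat_lit 5) (nat_lit 167) (nat_lit 5) (nat_lit 165) (nat_lit 5) (nat_lit 433) (nat_lit 346) (nat_lit 241)))) (XT.nd (nat_lit 46332) (nat_lit 0) (nat_lit 24700) (XT.lf (nat_lit 0) (nat_lit 9724774144) (nat_lit 228) (nat_lit 10221465677) (nat_lit 76) (nat_lit 2706757463) (nat_lit 162) (nat_lit 5) (nat_lit 165) (nat_lit 5) (nat_lit 163) (nat_lit 5) (nat_lit 434) (nat_lit 346) (nat_lit 240)) (XT.nd (nat_lit 78) (nat_lit 532) (nat_lit 0) (XT.lf (nat_lit 0) (nat_lit 3093274571) (nat_lit 532) (nat_lit 115662647) (nat_lit 532) (nat_lit 115662647) (nat_lit 494) (nat_lit 3) (nat_lit 501) (nat_lit 3) (nat_lit 501) (nat_lit 5) (nat_lit 347) (nat_lit 347) (nat_lit 326)) (XT.lf (nat_lit 0) (nat_lit 1851871600) (nat_lit 532)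 (nat_lit 3543567663) (nat_lit 608) (nat_lit 1284264927) (nat_lit 487) (nat_lit 5) (nat_lit 494) (nat_lit 3) (nat_lit 495) (nat_lit 5) (nat_lit 348) (nat_lit 347) (nat_lit 325))))) (XT.nd (nat_lit 234) (nat_lit 608) (nat_lit 0) (XT.nd (nat_lit 78) (nat_lit 608) (nat_lit 0) (XT.lf (nat_lit 0) (nat_lit 4139392816) (nat_lit 532) (nat_lit 154388039) (nat_lit 608) (nat_lit 2419819641) (nat_lit 487) (nat_lit 5) (nat_lit 494) (nat_lit 3) (nat_lit 495) (nat_lit 5) (nat_lit 349) (nat_lit 347) (nat_lit 324)) (XT.nd (nat_lit 78) (nat_lit 608) (nat_lit 0) (XT.lf (nat_lit 76) (nat_lit 3355246068) (nat_lit 0) (nat_lit 3085656100) (nat_lit 608) (nat_lit 309250649) (nat_lit 488) (nat_lit 5) (nat_lit 487) (nat_lit 5) (nat_lit 495) (nat_lit 5) (nat_lit 350) (nat_lit 347) (nat_lit 323)) (XT.lf (nat_lit 76) (nat_lit 120522313) (nat_lit 0) (nat_lit 1780733481) (nat_lit 684) (nat_lit 4888449651) (nat_lit 480) (nat_lit 5) (nat_lit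 479) (nat_lit 5) (nat_lit 488) (nat_lit 5) (nat_lit 351) (nat_lit 347) (nat_lit 322)))) (XT.nd (nat_lit 78) (nat_lit 608) (nat_lit 0) (XT.lf (nat_lit 76) (nat_lit 3760413158) (nat_lit 0) (nat_lit 362095192) (nat_lit 684) (nat_lit 2709325047) (nat_lit 480) (nat_lit 5) (nat_lit 479) (nat_lit 5) (nat_lit 488) (nat_lit 5) (nat_lit 352) (nat_lit 347) (nat_lit 321)) (XT.nd (nat_lit 78) (nat_lit 684) (nat_lit 0) (XT.lf (nat_lit 76) (nat_lit 586290711) (nat_lit 0) (nat_lit 5759475808) (nat_lit 684) (nat_lit 531397628) (nat_lit 481) (nat_lit 5) (nat_lit 480) (nat_lit 5) (nat_lit 489) (nat_lit 5) (nat_lit 353) (nat_lit 347) (nat_lit 320)) (XT.lf (nat_lit 0) (nat_lit 1633645092) (nat_lit 684) (nat_lit 2576545863) (nat_lit 760) (nat_lit 2714514734) (nat_lit 471) (nat_lit 5) (nat_lit 480) (nat_lit 5) (nat_lit 481) (nat_lit 5) (nat_lit 354) (nat_lit 347) (nat_lit 319)))))) (XT.nd (nat_lit 468) (nat_lit 2736) (nat_lit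 0) (XT.nd (nat_lit 234) (nat_lit 836) (nat_lit 0) (XT.nd (nat_lit 78) (nat_lit 684) (nat_lit 0) (XT.lf (nat_lit 76) (nat_lit 1219229206) (nat_lit 0) (nat_lit 2568046072) (nat_lit 760) (nat_lit 3188210855) (nat_lit 472) (nat_lit 5) (nat_lit 471) (nat_lit 5) (nat_lit 481) (nat_lit 5) (nat_lit 355) (nat_lit 347) (nat_lit 318)) (XT.nd (nat_lit 78) (nat_lit 684) (nat_lit 0) (XT.lf (nat_lit 76) (nat_lit 5133657286) (nat_lit 0) (nat_lit 822264622) (nat_lit 760) (nat_lit 1073355857) (nat_lit 472) (nat_lit 5) (nat_lit 471) (nat_lit 5) (nat_lit 481) (nat_lit 5) (nat_lit 356) (nat_lit 347) (nat_lit 317)) (XT.lf (nat_lit 0) (nat_lit 1039005198) (nat_lit 760) (nat_lit 5033582049) (nat_lit 836) (nat_lit 1013108601) (nat_lit 462) (nat_lit 5) (nat_lit 472) (nat_lit 5) (nat_lit 473) (nat_lit 5) (nat_lit 357) (nat_lit 347) (nat_lit 316)))) (XT.nd (nat_lit 78) (nat_lit 836) (nat_lit 0) (XT.lf (nat_lit 0) (nat_lit 3148441048)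 (nat_lit 760) (nat_lit 1055104628) (nat_lit 836) (nat_lit 2941283658) (nat_lit 462) (nat_lit 5) (nat_lit 472) (nat_lit 5) (nat_lit 473) (nat_lit 5) (nat_lit 358) (nat_lit 347) (nat_lit 315)) (XT.nd (nat_lit 78) (nat_lit 836) (nat_lit 0) (XT.lf (nat_lit 76) (nat_lit 3053721222) (nat_lit 0) (nat_lit 2226700312) (nat_lit 836) (nat_lit 1926537444) (nat_lit 463) (nat_lit 5) (nat_lit 462) (nat_lit 5) (nat_lit 473) (nat_lit 5) (nat_lit 359) (nat_lit 347) (nat_lit 314)) (XT.lf (nat_lit 0) (nat_lit 142968592) (nat_lit 836) (nat_lit 14768051) (nat_lit 912) (nat_lit 7114909595) (nat_lit 451) (nat_lit 5) (nat_lit 462) (nat_lit 5) (nat_lit 463) (nat_lit 5) (nat_lit 360) (nat_lit 347) (nat_lit 313))))) (XT.nd (nat_lit 234) (nat_lit 1976) (nat_lit 0) (XT.nd (nat_lit 78) (nat_lit 836) (nat_lit 0) (XT.lf (nat_lit 0) (nat_lit 2229396119) (nat_lit 836) (nat_lit 3096332799) (nat_lit 76) (nat_lit 2014196224) (nat_lit 452)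 (nat_lit 5) (nat_lit 463) (nat_lit 5) (nat_lit 453) (nat_lit 5) (nat_lit 361) (nat_lit 347) (nat_lit 312)) (XT.nd (nat_lit 78) (nat_lit 0) (nat_lit 0) (XT.lf (nat_lit 0) (nat_lit 1192773265) (nat_lit 836) (nat_lit 3133317632) (nat_lit 912) (nat_lit 3084701283) (nat_lit 441) (nat_lit 5) (nat_lit 452) (nat_lit 5) (nat_lit 453) (nat_lit 5) (nat_lit 362) (nat_lit 347) (nat_lit 311)) (XT.lf (nat_lit 0) (nat_lit 5624784668) (nat_lit 836) (nat_lit 828099699) (nat_lit 912) (nat_lit 1031884928) (nat_lit 441) (nat_lit 5) (nat_lit 452) (nat_lit 5) (nat_lit 453) (nat_lit 5) (nat_lit 363) (nat_lit 347) (nat_lit 310)))) (XT.nd (nat_lit 78) (nat_lit 988) (nat_lit 0) (XT.lf (nat_lit 0) (nat_lit 1039111276) (nat_lit 988) (nat_lit 4956667010) (nat_lit 76) (nat_lit 1565543689) (nat_lit 428) (nat_lit 5) (nat_lit 441) (nat_lit 5) (nat_lit 429) (nat_lit 5) (nat_lit 364) (nat_lit 347) (nat_lit 309)) (XT.nd (nat_lit 78) (nat_lit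 988) (nat_lit 0) (XT.lf (nat_lit 0) (nat_lit 3117332411) (nat_lit 988) (nat_lit 467390065) (nat_lit 76) (nat_lit 4056167211) (nat_lit 428) (nat_lit 5) (nat_lit 441) (nat_lit 5) (nat_lit 429) (nat_lit 5) (nat_lit 365) (nat_lit 347) (nat_lit 308)) (XT.lf (nat_lit 0) (nat_lit 4189242245) (nat_lit 988) (nat_lit 1049381613) (nat_lit 1064) (nat_lit 2484798862) (nat_lit 415) (nat_lit 5) (nat_lit 428) (nat_lit 5) (nat_lit 429) (nat_lit 5) (nat_lit 366) (nat_lit 347) (nat_lit 307))))))))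
noncomputable def xc64 : XT := (XT.nd (nat_lit 1794) (nat_lit 5472) (nat_lit 0) (XT.nd (nat_lit 858) (nat_lit 4180) (nat_lit 0) (XT.nd (nat_lit 390) (nat_lit 2660) (nat_lit 0) (XT.nd (nat_lit 156) (nat_lit 2432) (nat_lit 0) (XT.nd (nat_lit 78) (nat_lit 76) (nat_lit 0) (XT.lf (nat_lit 0) (nat_lit 1143689526) (nat_lit 1064) (nat_lit 6252454444) (nat_lit 1140) (nat_lit 413110076) (nat_lit 401) (nat_lit 5) (nat_lit 415) (nat_lit 5) (nat_lit 416) (nat_lit 5) (nat_lit 367) (nat_lit 347) (nat_lit 306)) (XT.lf (nat_lit 0) (nat_lit 1676048480) (nat_lit 1140) (nat_lit 1940611977) (nat_lit 76) (nat_lit 4280836732) (nat_lit 400) (nat_lit 5) (nat_lit 415) (nat_lit 5) (nat_lit 401) (nat_lit 5) (nat_lit 368) (nat_lit 347) (nat_lit 305))) (XT.nd (nat_lit 78) (nat_lit 1292) (nat_lit 0) (XT.lf (nat_lit 0) (nat_lit 2929572042) (nat_lit 1140) (nat_lit 862308436) (nat_lit 1216) (nat_lit 4197215389) (nat_lit 385) (nat_lit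 5) (nat_lit 400) (nat_lit 5) (nat_lit 401) (nat_lit 5) (nat_lit 369) (nat_lit 347) (nat_lit 304)) (XT.nd (nat_lit 78) (nat_lit 1292) (nat_lit 0) (XT.lf (nat_lit 0) (nat_lit 5955309276) (nat_lit 1216) (nat_lit 167190309) (nat_lit 76) (nat_lit 1961419265) (nat_lit 385) (nat_lit 5) (nat_lit 401) (nat_lit 5) (nat_lit 386) (nat_lit 5) (nat_lit 370) (nat_lit 347) (nat_lit 303)) (XT.lf (nat_lit 0) (nat_lit 4716544) (nat_lit 1292) (nat_lit 3271690338) (nat_lit 76) (nat_lit 4905097981) (nat_lit 368) (nat_lit 5) (nat_lit 385) (nat_lit 5) (nat_lit 369) (nat_lit 5) (nat_lit 371) (nat_lit 347) (nat_lit 302))))) (XT.nd (nat_lit 234) (nat_lit 1216) (nat_lit 0) (XT.nd (nat_lit 78) (nat_lit 608) (nat_lit 0) (XT.lf (nat_lit 0) (nat_lit 1825229995) (nat_lit 836) (nat_lit 300782412) (nat_lit 912) (nat_lit 6156371202) (nat_lit 357) (nat_lit 5) (nat_lit 368) (nat_lit 5) (nat_lit 369) (nat_lit 5) (nat_lit 372) (nat_lit 347)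 (nat_lit 301)) (XT.nd (nat_lit 78) (nat_lit 608) (nat_lit 0) (XT.lf (nat_lit 0) (nat_lit 4319458830) (nat_lit 912) (nat_lit 1321028256) (nat_lit 76) (nat_lit 2745546282) (nat_lit 357) (nat_lit 5) (nat_lit 369) (nat_lit 5) (nat_lit 358) (nat_lit 5) (nat_lit 373) (nat_lit 347) (nat_lit 300)) (XT.lf (nat_lit 0) (nat_lit 3994679995) (nat_lit 608) (nat_lit 2575480366) (nat_lit 684) (nat_lit 1922888707) (nat_lit 349) (nat_lit 5) (nat_lit 357) (nat_lit 5) (nat_lit 358) (nat_lit 5) (nat_lit 374) (nat_lit 347) (nat_lit 299)))) (XT.nd (nat_lit 78) (nat_lit 532) (nat_lit 0) (XT.lf (nat_lit 0) (nat_lit 257662812) (nat_lit 684) (nat_lit 7751889335) (nat_lit 76) (nat_lit 594297314) (nat_lit 340) (nat_lit 5) (nat_lit 349) (nat_lit 5) (nat_lit 341) (nat_lit 5) (nat_lit 375) (nat_lit 347) (nat_lit 298)) (XT.nd (nat_lit 78) (nat_lit 532) (nat_lit 0) (XT.lf (nat_lit 0) (nat_lit 2487884177) (nat_lit 684) (nat_lit 2357514074)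 (nat_lit 76) (nat_lit 3871317417) (nat_lit 340) (nat_lit 5) (nat_lit 349) (nat_lit 5) (nat_lit 341) (nat_lit 5) (nat_lit 376) (nat_lit 347) (nat_lit 297)) (XT.lf (nat_lit 0) (nat_lit 3211925723) (nat_lit 532) (nat_lit 1556900480) (nat_lit 608) (nat_lit 4064627237) (nat_lit 333) (nat_lit 5) (nat_lit 340) (nat_lit 5) (nat_lit 341) (nat_lit 5) (nat_lit 377) (nat_lit 347) (nat_lit 296)))))) (XT.nd (nat_lit 468) (nat_lit 1900) (nat_lit 0) (XT.nd (nat_lit 234) (nat_lit 1064) (nat_lit 0) (XT.nd (nat_lit 78) (nat_lit 1216) (nat_lit 0) (XT.lf (nat_lit 0) (nat_lit 7113644198) (nat_lit 608) (nat_lit 24349089) (nat_lit 76) (nat_lit 1815836628) (nat_lit 333) (nat_lit 5) (nat_lit 341) (nat_lit 5) (nat_lit 334) (nat_lit 5) (nat_lit 378) (nat_lit 347) (nat_lit 295)) (XT.nd (nat_lit 78) (nat_lit 532) (nat_lit 0) (XT.lf (nat_lit 0) (nat_lit 468672388) (nat_lit 684) (nat_lit 3292173320) (nat_lit 76) (nat_lit 5316047408)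 (nat_lit 324) (nat_lit 5) (nat_lit 333) (nat_lit 5) (nat_lit 325) (nat_lit 5) (nat_lit 379) (nat_lit 347) (nat_lit 294)) (XT.lf (nat_lit 0) (nat_lit 2547144819) (nat_lit 532) (nat_lit 242961492) (nat_lit 608) (nat_lit 6413586431) (nat_lit 317) (nat_lit 5) (nat_lit 324) (nat_lit 5) (nat_lit 325) (nat_lit 5) (nat_lit 380) (nat_lit 347) (nat_lit 293)))) (XT.nd (nat_lit 78) (nat_lit 1064) (nat_lit 0) (XT.lf (nat_lit 0) (nat_lit 5203590732) (nat_lit 608) (nat_lit 787026319) (nat_lit 76) (nat_lit 3343007083) (nat_lit 317) (nat_lit 5) (nat_lit 325) (nat_lit 5) (nat_lit 318) (nat_lit 5) (nat_lit 381) (nat_lit 347) (nat_lit 292)) (XT.nd (nat_lit 78) (nat_lit 532) (nat_lit 0) (XT.lf (nat_lit 0) (nat_lit 5311242151) (nat_lit 532) (nat_lit 2389308474) (nat_lit 608) (nat_lit 1766570713) (nat_lit 310) (nat_lit 5) (nat_lit 317) (nat_lit 5) (nat_lit 318) (nat_lit 5) (nat_lit 382) (nat_lit 347) (nat_lit 291)) (XT.lf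 (nat_lit 0) (nat_lit 652822039) (nat_lit 532) (nat_lit 7630274192) (nat_lit 76) (nat_lit 1321392932) (nat_lit 303) (nat_lit 5) (nat_lit 310) (nat_lit 5) (nat_lit 304) (nat_lit 5) (nat_lit 383) (nat_lit 347) (nat_lit 290))))) (XT.nd (nat_lit 234) (nat_lit 912) (nat_lit 0) (XT.nd (nat_lit 78) (nat_lit 988) (nat_lit 0) (XT.lf (nat_lit 0) (nat_lit 3133988540) (nat_lit 532) (nat_lit 1462502700) (nat_lit 76) (nat_lit 5148221110) (nat_lit 303) (nat_lit 5) (nat_lit 310) (nat_lit 5) (nat_lit 304) (nat_lit 5) (nat_lit 384) (nat_lit 347) (nat_lit 289)) (XT.nd (nat_lit 78) (nat_lit 456) (nat_lit 0) (XT.lf (nat_lit 0) (nat_lit 4938490802) (nat_lit 532) (nat_lit 758435134) (nat_lit 608) (nat_lit 4191996220) (nat_lit 296) (nat_lit 5) (nat_lit 303) (nat_lit 5) (nat_lit 304) (nat_lit 5) (nat_lit 385) (nat_lit 347) (nat_lit 288)) (XT.lf (nat_lit 0) (nat_lit 1473567453) (nat_lit 456) (nat_lit 6883468403) (nat_lit 532)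 (nat_lit 1679813867) (nat_lit 290) (nat_lit 5) (nat_lit 296) (nat_lit 5) (nat_lit 297) (nat_lit 5) (nat_lit 386) (nat_lit 347) (nat_lit 287)))) (XT.nd (nat_lit 78) (nat_lit 836) (nat_lit 0) (XT.lf (nat_lit 0) (nat_lit 908811276) (nat_lit 532) (nat_lit 2061791508) (nat_lit 76) (nat_lit 7217786848) (nat_lit 289) (nat_lit 5) (nat_lit 296) (nat_lit 5) (nat_lit 290) (nat_lit 5) (nat_lit 387) (nat_lit 347) (nat_lit 286)) (XT.nd (nat_lit 78) (nat_lit 380) (nat_lit 0) (XT.lf (nat_lit 0) (nat_lit 3558781037) (nat_lit 532) (nat_lit 5693084495) (nat_lit 76) (nat_lit 1091587798) (nat_lit 283) (nat_lit 5) (nat_lit 290) (nat_lit 5) (nat_lit 284) (nat_lit 5) (nat_lit 388) (nat_lit 347) (nat_lit 285)) (XT.lf (nat_lit 0) (nat_lit 1046169400) (nat_lit 380) (nat_lit 5265073955) (nat_lit 456) (nat_lit 4191235780) (nat_lit 278) (nat_lit 5) (nat_lit 283) (nat_lit 5) (nat_lit 284) (nat_lit 5) (nat_lit 389) (nat_lit 347) (nat_lit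 284))))))) (XT.nd (nat_lit 936) (nat_lit 2584) (nat_lit 0) (XT.nd (nat_lit 468) (nat_lit 1140) (nat_lit 0) (XT.nd (nat_lit 234) (nat_lit 836) (nat_lit 0) (XT.nd (nat_lit 78) (nat_lit 912) (nat_lit 0) (XT.lf (nat_lit 0) (nat_lit 8056535078) (nat_lit 380) (nat_lit 1110365483) (nat_lit 456) (nat_lit 1498756523) (nat_lit 278) (nat_lit 5) (nat_lit 283) (nat_lit 5) (nat_lit 284) (nat_lit 5) (nat_lit 390) (nat_lit 347) (nat_lit 283)) (XT.nd (nat_lit 78) (nat_lit 380) (nat_lit 0) (XT.lf (nat_lit 0) (nat_lit 1287364075) (nat_lit 532) (nat_lit 6392675312) (nat_lit 76) (nat_lit 3152191337) (nat_lit 271) (nat_lit 5) (nat_lit 278) (nat_lit 5) (nat_lit 272) (nat_lit 5) (nat_lit 391) (nat_lit 347) (nat_lit 282)) (XT.lf (nat_lit 0) (nat_lit 689941349) (nat_lit 380) (nat_lit 3445586584) (nat_lit 456) (nat_lit 6867570970) (nat_lit 266) (nat_lit 5) (nat_lit 271) (nat_lit 5) (nat_lit 272) (nat_lit 5) (nat_lit 392) (nat_lit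 347) (nat_lit 281)))) (XT.nd (nat_lit 78) (nat_lit 836) (nat_lit 0) (XT.lf (nat_lit 0) (nat_lit 7107952344) (nat_lit 456) (nat_lit 3118583730) (nat_lit 76) (nat_lit 951392584) (nat_lit 266) (nat_lit 5) (nat_lit 272) (nat_lit 5) (nat_lit 267) (nat_lit 5) (nat_lit 393) (nat_lit 347) (nat_lit 280)) (XT.nd (nat_lit 78) (nat_lit 456) (nat_lit 0) (XT.lf (nat_lit 0) (nat_lit 4294856673) (nat_lit 380) (nat_lit 5915935837) (nat_lit 456) (nat_lit 1145973506) (nat_lit 261) (nat_lit 5) (nat_lit 266) (nat_lit 5) (nat_lit 267) (nat_lit 5) (nat_lit 394) (nat_lit 347) (nat_lit 279)) (XT.lf (nat_lit 0) (nat_lit 397227269) (nat_lit 380) (nat_lit 1433797860) (nat_lit 456) (nat_lit 9709354825) (nat_lit 255) (nat_lit 5) (nat_lit 260) (nat_lit 5) (nat_lit 261) (nat_lit 5) (nat_lit 395) (nat_lit 347) (nat_lit 278))))) (XT.nd (nat_lit 234) (nat_lit 456) (nat_lit 0) (XT.nd (nat_lit 78) (nat_lit 684) (nat_lit 0) (XT.lf (nat_lit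 0) (nat_lit 4943391860) (nat_lit 456) (nat_lit 3592409197) (nat_lit 76) (nat_lit 3191288136) (nat_lit 255) (nat_lit 5) (nat_lit 261) (nat_lit 5) (nat_lit 256) (nat_lit 5) (nat_lit 396) (nat_lit 347) (nat_lit 277)) (XT.nd (nat_lit 78) (nat_lit 304) (nat_lit 0) (XT.lf (nat_lit 0) (nat_lit 4206829579) (nat_lit 380) (nat_lit 3964389516) (nat_lit 456) (nat_lit 3747517927) (nat_lit 250) (nat_lit 5) (nat_lit 255) (nat_lit 5) (nat_lit 256) (nat_lit 5) (nat_lit 397) (nat_lit 347) (nat_lit 276)) (XT.lf (nat_lit 0) (nat_lit 147707096) (nat_lit 304) (nat_lit 11361219247) (nat_lit 380) (nat_lit 606816587) (nat_lit 246) (nat_lit 5) (nat_lit 250) (nat_lit 5) (nat_lit 251) (nat_lit 5) (nat_lit 398) (nat_lit 347) (nat_lit 275)))) (XT.nd (nat_lit 78) (nat_lit 380) (nat_lit 0) (XT.lf (nat_lit 0) (nat_lit 2662738604) (nat_lit 380) (nat_lit 4026897116) (nat_lit 76) (nat_lit 5625687909) (nat_lit 245) (nat_lit 5) (nat_lit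 250) (nat_lit 5) (nat_lit 246) (nat_lit 5) (nat_lit 399) (nat_lit 347) (nat_lit 274)) (XT.nd (nat_lit 78) (nat_lit 0) (nat_lit 0) (XT.lf (nat_lit 0) (nat_lit 4182960672) (nat_lit 380) (nat_lit 1844383080) (nat_lit 456) (nat_lit 6493092961) (nat_lit 240) (nat_lit 5) (nat_lit 245) (nat_lit 5) (nat_lit 246) (nat_lit 5) (nat_lit 400) (nat_lit 347) (nat_lit 273)) (XT.lf (nat_lit 0) (nat_lit 9533486529) (nat_lit 456) (nat_lit 84938445) (nat_lit 76) (nat_lit 3112060233) (nat_lit 240) (nat_lit 5) (nat_lit 246) (nat_lit 5) (nat_lit 241) (nat_lit 5) (nat_lit 401) (nat_lit 347) (nat_lit 272)))))) (XT.nd (nat_lit 468) (nat_lit 1216) (nat_lit 0) (XT.nd (nat_lit 234) (nat_lit 684) (nat_lit 0) (XT.nd (nat_lit 78) (nat_lit 304) (nat_lit 0) (XT.lf (nat_lit 0) (nat_lit 265146756) (nat_lit 380) (nat_lit 4428320405) (nat_lit 76) (nat_lit 8251179954) (nat_lit 235) (nat_lit 5) (nat_lit 240) (nat_lit 5) (nat_lit 236) (nat_lit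 5) (nat_lit 402) (nat_lit 347) (nat_lit 271)) (XT.nd (nat_lit 78) (nat_lit 0) (nat_lit 0) (XT.lf (nat_lit 0) (nat_lit 3782886941) (nat_lit 380) (nat_lit 8949644169) (nat_lit 76) (nat_lit 431273560) (nat_lit 231) (nat_lit 5) (nat_lit 236) (nat_lit 5) (nat_lit 232) (nat_lit 5) (nat_lit 403) (nat_lit 347) (nat_lit 270)) (XT.lf (nat_lit 0) (nat_lit 7468432250) (nat_lit 380) (nat_lit 273021165) (nat_lit 76) (nat_lit 5646215348) (nat_lit 231) (nat_lit 5) (nat_lit 236) (nat_lit 5) (nat_lit 232) (nat_lit 5) (nat_lit 404) (nat_lit 347) (nat_lit 269)))) (XT.nd (nat_lit 78) (nat_lit 380) (nat_lit 0) (XT.lf (nat_lit 0) (nat_lit 8792161361) (nat_lit 304) (nat_lit 2528396101) (nat_lit 380) (nat_lit 2296010911) (nat_lit 227) (nat_lit 5) (nat_lit 231) (nat_lit 5) (nat_lit 232) (nat_lit 5) (nat_lit 405) (nat_lit 347) (nat_lit 268)) (XT.nd (nat_lit 78) (nat_lit 0) (nat_lit 0) (XT.lf (nat_lit 0) (nat_lit 1451478236) (nat_lit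 380) (nat_lit 9569723875) (nat_lit 76) (nat_lit 2829411176) (nat_lit 222) (nat_lit 5) (nat_lit 227) (nat_lit 5) (nat_lit 223) (nat_lit 5) (nat_lit 406) (nat_lit 347) (nat_lit 267)) (XT.lf (nat_lit 0) (nat_lit 5311383028) (nat_lit 380) (nat_lit 423939930) (nat_lit 76) (nat_lit 8354290453) (nat_lit 222) (nat_lit 5) (nat_lit 227) (nat_lit 5) (nat_lit 223) (nat_lit 5) (nat_lit 407) (nat_lit 347) (nat_lit 266))))) (XT.nd (nat_lit 234) (nat_lit 608) (nat_lit 0) (XT.nd (nat_lit 78) (nat_lit 380) (nat_lit 0) (XT.lf (nat_lit 0) (nat_lit 9131974981) (nat_lit 228) (nat_lit 215615891) (nat_lit 304) (nat_lit 4986377489) (nat_lit 219) (nat_lit 5) (nat_lit 222) (nat_lit 5) (nat_lit 223) (nat_lit 5) (nat_lit 408) (nat_lit 347) (nat_lit 265)) (XT.nd (nat_lit 78) (nat_lit 76) (nat_lit 0) (XT.lf (nat_lit 0) (nat_lit 4388053321) (nat_lit 304) (nat_lit 9188882315) (nat_lit 380) (nat_lit 1006556804) (nat_lit 215) (nat_lit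 5) (nat_lit 219) (nat_lit 5) (nat_lit 220) (nat_lit 5) (nat_lit 409) (nat_lit 347) (nat_lit 264)) (XT.lf (nat_lit 0) (nat_lit 3060580347) (nat_lit 380) (nat_lit 541674994) (nat_lit 76) (nat_lit 11236506921) (nat_lit 214) (nat_lit 5) (nat_lit 219) (nat_lit 5) (nat_lit 215) (nat_lit 5) (nat_lit 410) (nat_lit 347) (nat_lit 263)))) (XT.nd (nat_lit 78) (nat_lit 380) (nat_lit 0) (XT.lf (nat_lit 0) (nat_lit 7316583126) (nat_lit 304) (nat_lit 5584701778) (nat_lit 76) (nat_lit 2197493829) (nat_lit 211) (nat_lit 5) (nat_lit 215) (nat_lit 5) (nat_lit 212) (nat_lit 5) (nat_lit 411) (nat_lit 347) (nat_lit 262)) (XT.nd (nat_lit 78) (nat_lit 76) (nat_lit 0) (XT.lf (nat_lit 0) (nat_lit 4527018669) (nat_lit 304) (nat_lit 7232041168) (nat_lit 380) (nat_lit 3605772045) (nat_lit 207) (nat_lit 5) (nat_lit 211) (nat_lit 5) (nat_lit 212) (nat_lit 5) (nat_lit 412) (nat_lit 347) (nat_lit 261)) (XT.lf (nat_lit 0) (nat_lit 713508308)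 (nat_lit 380) (nat_lit 629728834) (nat_lit 76) (nat_lit 14294494454) (nat_lit 206) (nat_lit 5) (nat_lit 211) (nat_lit 5) (nat_lit 207) (nat_lit 5) (nat_lit 413) (nat_lit 347) (nat_lit 260))))))))
noncomputable def xc65 : XT := (XT.nd (nat_lit 48126) (nat_lit 0) (nat_lit 14668) (XT.nd (nat_lit 858) (nat_lit 1216) (nat_lit 0) (XT.nd (nat_lit 390) (nat_lit 988) (nat_lit 0) (XT.nd (nat_lit 156) (nat_lit 532) (nat_lit 0) (XT.nd (nat_lit 78) (nat_lit 228) (nat_lit 0) (XT.lf (nat_lit 0) (nat_lit 5207545654) (nat_lit 304) (nat_lit 5958719945) (nat_lit 76) (nat_lit 4747952151) (nat_lit 203) (nat_lit 5) (nat_lit 207) (nat_lit 5) (nat_lit 204) (nat_lit 5) (nat_lit 414) (nat_lit 347) (nat_lit 259)) (XT.lf (nat_lit 0) (nat_lit 4710079495) (nat_lit 228) (nat_lit 5166458803) (nat_lit 304) (nat_lit 6321256165) (nat_lit 200) (nat_lit 5) (nat_lit 203) (nat_lit 5) (nat_lit 204) (nat_lit 5) (nat_lit 415) (nat_lit 347) (nat_lit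 258))) (XT.nd (nat_lit 78) (nat_lit 532) (nat_lit 0) (XT.lf (nat_lit 0) (nat_lit 14731427660) (nat_lit 304) (nat_lit 718352535) (nat_lit 76) (nat_lit 1038723474) (nat_lit 200) (nat_lit 5) (nat_lit 204) (nat_lit 5) (nat_lit 201) (nat_lit 5) (nat_lit 416) (nat_lit 347) (nat_lit 257)) (XT.nd (nat_lit 78) (nat_lit 228) (nat_lit 0) (XT.lf (nat_lit 0) (nat_lit 3015853866) (nat_lit 304) (nat_lit 6325907889) (nat_lit 76) (nat_lit 7441445213) (nat_lit 196) (nat_lit 5) (nat_lit 200) (nat_lit 5) (nat_lit 197) (nat_lit 5) (nat_lit 417) (nat_lit 347) (nat_lit 256)) (XT.lf (nat_lit 0) (nat_lit 4935326493) (nat_lit 228) (nat_lit 2992219241) (nat_lit 304) (nat_lit 9157757040) (nat_lit 193) (nat_lit 5) (nat_lit 196) (nat_lit 5) (nat_lit 197) (nat_lit 5) (nat_lit 418) (nat_lit 347) (nat_lit 255))))) (XT.nd (nat_lit 234) (nat_lit 456) (nat_lit 0) (XT.nd (nat_lit 78) (nat_lit 532) (nat_lit 0) (XT.lf (nat_lit 0) (nat_lit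 13061488199) (nat_lit 304) (nat_lit 805293304) (nat_lit 76) (nat_lit 3527432959) (nat_lit 193) (nat_lit 5) (nat_lit 197) (nat_lit 5) (nat_lit 194) (nat_lit 5) (nat_lit 419) (nat_lit 347) (nat_lit 254)) (XT.nd (nat_lit 78) (nat_lit 228) (nat_lit 0) (XT.lf (nat_lit 0) (nat_lit 738332071) (nat_lit 304) (nat_lit 6689903547) (nat_lit 76) (nat_lit 10280562931) (nat_lit 189) (nat_lit 5) (nat_lit 193) (nat_lit 5) (nat_lit 190) (nat_lit 5) (nat_lit 420) (nat_lit 347) (nat_lit 253)) (XT.lf (nat_lit 0) (nat_lit 5201264550) (nat_lit 228) (nat_lit 708434566) (nat_lit 304) (nat_lit 12120776280) (nat_lit 186) (nat_lit 5) (nat_lit 189) (nat_lit 5) (nat_lit 190) (nat_lit 5) (nat_lit 421) (nat_lit 347) (nat_lit 252)))) (XT.nd (nat_lit 78) (nat_lit 456) (nat_lit 0) (XT.lf (nat_lit 0) (nat_lit 11341347951) (nat_lit 304) (nat_lit 872999820) (nat_lit 76) (nat_lit 6144300556) (nat_lit 186) (nat_lit 5) (nat_lit 190) (nat_lit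 5) (nat_lit 187) (nat_lit 5) (nat_lit 422) (nat_lit 347) (nat_lit 251)) (XT.nd (nat_lit 78) (nat_lit 304) (nat_lit 0) (XT.lf (nat_lit 0) (nat_lit 11623707190) (nat_lit 152) (nat_lit 5408845923) (nat_lit 228) (nat_lit 1661215125) (nat_lit 184) (nat_lit 5) (nat_lit 186) (nat_lit 5) (nat_lit 187) (nat_lit 5) (nat_lit 423) (nat_lit 347) (nat_lit 250)) (XT.lf (nat_lit 0) (nat_lit 3836293223) (nat_lit 304) (nat_lit 13546072308) (nat_lit 76) (nat_lit 1653785071) (nat_lit 180) (nat_lit 5) (nat_lit 184) (nat_lit 5) (nat_lit 181) (nat_lit 5) (nat_lit 424) (nat_lit 347) (nat_lit 249)))))) (XT.nd (nat_lit 468) (nat_lit 456) (nat_lit 0) (XT.nd (nat_lit 234) (nat_lit 304) (nat_lit 0) (XT.nd (nat_lit 78) (nat_lit 456) (nat_lit 0) (XT.lf (nat_lit 0) (nat_lit 9569044736) (nat_lit 304) (nat_lit 923610159) (nat_lit 76) (nat_lit 8892544911) (nat_lit 180) (nat_lit 5) (nat_lit 184) (nat_lit 5) (nat_lit 181) (nat_lit 5) (nat_lit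 425) (nat_lit 347) (nat_lit 248)) (XT.nd (nat_lit 78) (nat_lit 304) (nat_lit 0) (XT.lf (nat_lit 0) (nat_lit 12280075522) (nat_lit 152) (nat_lit 3290439237) (nat_lit 228) (nat_lit 4171303646) (nat_lit 178) (nat_lit 5) (nat_lit 180) (nat_lit 5) (nat_lit 181) (nat_lit 5) (nat_lit 426) (nat_lit 347) (nat_lit 247)) (XT.lf (nat_lit 0) (nat_lit 1695582754) (nat_lit 304) (nat_lit 14296560288) (nat_lit 76) (nat_lit 4113976301) (nat_lit 174) (nat_lit 5) (nat_lit 178) (nat_lit 5) (nat_lit 175) (nat_lit 5) (nat_lit 427) (nat_lit 347) (nat_lit 246)))) (XT.nd (nat_lit 78) (nat_lit 304) (nat_lit 0) (XT.lf (nat_lit 0) (nat_lit 7742175607) (nat_lit 304) (nat_lit 959006836) (nat_lit 76) (nat_lit 11776301697) (nat_lit 174) (nat_lit 5) (nat_lit 178) (nat_lit 5) (nat_lit 175) (nat_lit 5) (nat_lit 428) (nat_lit 347) (nat_lit 245)) (XT.nd (nat_lit 78) (nat_lit 152) (nat_lit 0) (XT.lf (nat_lit 0) (nat_lit 12996107294) (nat_lit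 152) (nat_lit 1078466381) (nat_lit 228) (nat_lit 6782283983) (nat_lit 172) (nat_lit 5) (nat_lit 174) (nat_lit 5) (nat_lit 175) (nat_lit 5) (nat_lit 429) (nat_lit 347) (nat_lit 244)) (XT.lf (nat_lit 0) (nat_lit 6160962069) (nat_lit 152) (nat_lit 14549674931) (nat_lit 228) (nat_lit 533564582) (nat_lit 170) (nat_lit 5) (nat_lit 172) (nat_lit 5) (nat_lit 173) (nat_lit 5) (nat_lit 430) (nat_lit 347) (nat_lit 243))))) (XT.nd (nat_lit 234) (nat_lit 76) (nat_lit 0) (XT.nd (nat_lit 78) (nat_lit 304) (nat_lit 0) (XT.lf (nat_lit 0) (nat_lit 5857911633) (nat_lit 228) (nat_lit 980844750) (nat_lit 76) (nat_lit 14800592956) (nat_lit 169) (nat_lit 5) (nat_lit 172) (nat_lit 5) (nat_lit 170) (nat_lit 5) (nat_lit 431) (nat_lit 347) (nat_lit 242)) (XT.nd (nat_lit 78) (nat_lit 152) (nat_lit 0) (XT.lf (nat_lit 0) (nat_lit 12554850298) (nat_lit 228) (nat_lit 8281802013) (nat_lit 76) (nat_lit 1205807468) (nat_lit 167) (nat_lit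 5) (nat_lit 170) (nat_lit 5) (nat_lit 168) (nat_lit 5) (nat_lit 432) (nat_lit 347) (nat_lit 241)) (XT.lf (nat_lit 0) (nat_lit 6531433652) (nat_lit 152) (nat_lit 13042080833) (nat_lit 228) (nat_lit 2880524523) (nat_lit 165) (nat_lit 5) (nat_lit 167) (nat_lit 5) (nat_lit 168) (nat_lit 5) (nat_lit 433) (nat_lit 347) (nat_lit 240)))) (XT.nd (nat_lit 46410) (nat_lit 0) (nat_lit 24548) (XT.lf (nat_lit 0) (nat_lit 3913008772) (nat_lit 228) (nat_lit 990575959) (nat_lit 76) (nat_lit 17971304398) (nat_lit 164) (nat_lit 5) (nat_lit 167) (nat_lit 5) (nat_lit 165) (nat_lit 5) (nat_lit 434) (nat_lit 347) (nat_lit 239)) (XT.nd (nat_lit 78) (nat_lit 0) (nat_lit 0) (XT.lf (nat_lit 0) (nat_lit 1023094070) (nat_lit 0) (nat_lit 1023094070) (nat_lit 532) (nat_lit 1309824317) (nat_lit 487) (nat_lit 5) (nat_lit 487) (nat_lit 3) (nat_lit 494) (nat_lit 3) (nat_lit 348) (nat_lit 348) (nat_lit 324)) (XT.lf (nat_lit 0) (nat_lit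 5459226066) (nat_lit 0) (nat_lit 866528781) (nat_lit 532) (nat_lit 421790656) (nat_lit 487) (nat_lit 5) (nat_lit 487) (nat_lit 3) (nat_lit 494) (nat_lit 3) (nat_lit 349) (nat_lit 348) (nat_lit 323))))))) (XT.nd (nat_lit 936) (nat_lit 7144) (nat_lit 0) (XT.nd (nat_lit 468) (nat_lit 1444) (nat_lit 0) (XT.nd (nat_lit 234) (nat_lit 684) (nat_lit 0) (XT.nd (nat_lit 78) (nat_lit 0) (nat_lit 0) (XT.lf (nat_lit 0) (nat_lit 1745454003) (nat_lit 608) (nat_lit 4618578114) (nat_lit 684) (nat_lit 421386544) (nat_lit 479) (nat_lit 5) (nat_lit 487) (nat_lit 5) (nat_lit 488) (nat_lit 5) (nat_lit 350) (nat_lit 348) (nat_lit 322)) (XT.nd (nat_lit 78) (nat_lit 0) (nat_lit 0) (XT.lf (nat_lit 0) (nat_lit 3907807212) (nat_lit 608) (nat_lit 1131401761) (nat_lit 684) (nat_lit 1786936693) (nat_lit 479) (nat_lit 5) (nat_lit 487) (nat_lit 5) (nat_lit 488) (nat_lit 5) (nat_lit 351) (nat_lit 348) (nat_lit 321)) (XT.lf (nat_lit 76)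 (nat_lit 2463268577) (nat_lit 0) (nat_lit 3614713685) (nat_lit 684) (nat_lit 791823682) (nat_lit 480) (nat_lit 5) (nat_lit 479) (nat_lit 5) (nat_lit 488) (nat_lit 5) (nat_lit 352) (nat_lit 348) (nat_lit 320)))) (XT.nd (nat_lit 78) (nat_lit 0) (nat_lit 0) (XT.lf (nat_lit 0) (nat_lit 1303148779) (nat_lit 684) (nat_lit 785347302) (nat_lit 760) (nat_lit 4827918103) (nat_lit 470) (nat_lit 5) (nat_lit 479) (nat_lit 5) (nat_lit 480) (nat_lit 5) (nat_lit 353) (nat_lit 348) (nat_lit 319)) (XT.nd (nat_lit 78) (nat_lit 0) (nat_lit 76) (XT.lf (nat_lit 76) (nat_lit 2949208257) (nat_lit 0) (nat_lit 446928626) (nat_lit 760) (nat_lit 3569516153) (nat_lit 471) (nat_lit 5) (nat_lit 470) (nat_lit 5) (nat_lit 480) (nat_lit 5) (nat_lit 354) (nat_lit 348) (nat_lit 318)) (XT.lf (nat_lit 0) (nat_lit 5496731847) (nat_lit 684) (nat_lit 263366852) (nat_lit 760) (nat_lit 1257925839) (nat_lit 471) (nat_lit 5) (nat_lit 480) (nat_lit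 5) (nat_lit 481) (nat_lit 5) (nat_lit 355) (nat_lit 348) (nat_lit 317))))) (XT.nd (nat_lit 234) (nat_lit 760) (nat_lit 0) (XT.nd (nat_lit 78) (nat_lit 0) (nat_lit 0) (XT.lf (nat_lit 0) (nat_lit 542852425) (nat_lit 760) (nat_lit 3455455129) (nat_lit 836) (nat_lit 3074511265) (nat_lit 461) (nat_lit 5) (nat_lit 471) (nat_lit 5) (nat_lit 472) (nat_lit 5) (nat_lit 356) (nat_lit 348) (nat_lit 316)) (XT.nd (nat_lit 78) (nat_lit 0) (nat_lit 0) (XT.lf (nat_lit 76) (nat_lit 437473973) (nat_lit 0) (nat_lit 2135786718) (nat_lit 836) (nat_lit 4557496910) (nat_lit 462) (nat_lit 5) (nat_lit 461) (nat_lit 5) (nat_lit 472) (nat_lit 5) (nat_lit 357) (nat_lit 348) (nat_lit 315)) (XT.lf (nat_lit 76) (nat_lit 4471770498) (nat_lit 0) (nat_lit 157379976) (nat_lit 836) (nat_lit 2562346996) (nat_lit 462) (nat_lit 5) (nat_lit 461) (nat_lit 5) (nat_lit 472) (nat_lit 5) (nat_lit 358) (nat_lit 348) (nat_lit 314)))) (XT.nd (nat_lit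 78) (nat_lit 836) (nat_lit 0) (XT.lf (nat_lit 76) (nat_lit 1333808841) (nat_lit 0) (nat_lit 5375753706) (nat_lit 836) (nat_lit 545611619) (nat_lit 463) (nat_lit 5) (nat_lit 462) (nat_lit 5) (nat_lit 473) (nat_lit 5) (nat_lit 359) (nat_lit 348) (nat_lit 313)) (XT.nd (nat_lit 78) (nat_lit 0) (nat_lit 0) (XT.lf (nat_lit 0) (nat_lit 1463855591) (nat_lit 836) (nat_lit 1819841848) (nat_lit 912) (nat_lit 4037758517) (nat_lit 451) (nat_lit 5) (nat_lit 462) (nat_lit 5) (nat_lit 463) (nat_lit 5) (nat_lit 360) (nat_lit 348) (nat_lit 312)) (XT.lf (nat_lit 76) (nat_lit 2399493623) (nat_lit 0) (nat_lit 1080992207) (nat_lit 912) (nat_lit 3910342949) (nat_lit 452) (nat_lit 5) (nat_lit 451) (nat_lit 5) (nat_lit 463) (nat_lit 5) (nat_lit 361) (nat_lit 348) (nat_lit 311)))))) (XT.nd (nat_lit 468) (nat_lit 4332) (nat_lit 0) (XT.nd (nat_lit 234) (nat_lit 1064) (nat_lit 0) (XT.nd (nat_lit 78) (nat_lit 1824) (nat_lit 0) (XT.lf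 (nat_lit 0) (nat_lit 5523995844) (nat_lit 836) (nat_lit 738895890) (nat_lit 76) (nat_lit 1200399627) (nat_lit 452) (nat_lit 5) (nat_lit 463) (nat_lit 5) (nat_lit 453) (nat_lit 5) (nat_lit 362) (nat_lit 348) (nat_lit 310)) (XT.nd (nat_lit 78) (nat_lit 912) (nat_lit 0) (XT.lf (nat_lit 0) (nat_lit 73044601) (nat_lit 912) (nat_lit 3884260634) (nat_lit 76) (nat_lit 3581078335) (nat_lit 440) (nat_lit 5) (nat_lit 452) (nat_lit 5) (nat_lit 441) (nat_lit 5) (nat_lit 363) (nat_lit 348) (nat_lit 309)) (XT.lf (nat_lit 0) (nat_lit 521855853) (nat_lit 912) (nat_lit 1536483672) (nat_lit 988) (nat_lit 5558266115) (nat_lit 428) (nat_lit 5) (nat_lit 440) (nat_lit 5) (nat_lit 441) (nat_lit 5) (nat_lit 364) (nat_lit 348) (nat_lit 308)))) (XT.nd (nat_lit 78) (nat_lit 1064) (nat_lit 0) (XT.lf (nat_lit 0) (nat_lit 4092458094) (nat_lit 988) (nat_lit 2614875708) (nat_lit 76) (nat_lit 990162628) (nat_lit 428) (nat_lit 5) (nat_lit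 441) (nat_lit 5) (nat_lit 429) (nat_lit 5) (nat_lit 365) (nat_lit 348) (nat_lit 307)) (XT.nd (nat_lit 78) (nat_lit 76) (nat_lit 0) (XT.lf (nat_lit 0) (nat_lit 1975081924) (nat_lit 988) (nat_lit 4188905163) (nat_lit 1064) (nat_lit 1617535249) (nat_lit 415) (nat_lit 5) (nat_lit 428) (nat_lit 5) (nat_lit 429) (nat_lit 5) (nat_lit 366) (nat_lit 348) (nat_lit 306)) (XT.lf (nat_lit 0) (nat_lit 390735202) (nat_lit 1064) (nat_lit 1163638216) (nat_lit 76) (nat_lit 6314485961) (nat_lit 414) (nat_lit 5) (nat_lit 428) (nat_lit 5) (nat_lit 415) (nat_lit 5) (nat_lit 367) (nat_lit 348) (nat_lit 305))))) (XT.nd (nat_lit 234) (nat_lit 2128) (nat_lit 0) (XT.nd (nat_lit 78) (nat_lit 1140) (nat_lit 0) (XT.lf (nat_lit 0) (nat_lit 2417852962) (nat_lit 1140) (nat_lit 4344392757) (nat_lit 76) (nat_lit 1196357058) (nat_lit 400) (nat_lit 5) (nat_lit 415) (nat_lit 5) (nat_lit 401) (nat_lit 5) (nat_lit 368) (nat_lit 348) (nat_lit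 304)) (XT.nd (nat_lit 78) (nat_lit 0) (nat_lit 0) (XT.lf (nat_lit 0) (nat_lit 453760575) (nat_lit 1140) (nat_lit 4029410055) (nat_lit 1216) (nat_lit 3568546254) (nat_lit 385) (nat_lit 5) (nat_lit 400) (nat_lit 5) (nat_lit 401) (nat_lit 5) (nat_lit 369) (nat_lit 348) (nat_lit 303)) (XT.lf (nat_lit 0) (nat_lit 5437237412) (nat_lit 1140) (nat_lit 1163969453) (nat_lit 1216) (nat_lit 1546694779) (nat_lit 385) (nat_lit 5) (nat_lit 400) (nat_lit 5) (nat_lit 401) (nat_lit 5) (nat_lit 370) (nat_lit 348) (nat_lit 302)))) (XT.nd (nat_lit 78) (nat_lit 836) (nat_lit 0) (XT.lf (nat_lit 0) (nat_lit 513043635) (nat_lit 1292) (nat_lit 5949246546) (nat_lit 76) (nat_lit 1784896639) (nat_lit 368) (nat_lit 5) (nat_lit 385) (nat_lit 5) (nat_lit 369) (nat_lit 5) (nat_lit 371) (nat_lit 348) (nat_lit 301)) (XT.nd (nat_lit 78) (nat_lit 836) (nat_lit 0) (XT.lf (nat_lit 0) (nat_lit 2591686742) (nat_lit 1292) (nat_lit 911800545)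 (nat_lit 76) (nat_lit 4845857861) (nat_lit 368) (nat_lit 5) (nat_lit 385) (nat_lit 5) (nat_lit 369) (nat_lit 5) (nat_lit 372) (nat_lit 348) (nat_lit 300)) (XT.lf (nat_lit 0) (nat_lit 4313928961) (nat_lit 836) (nat_lit 410744535) (nat_lit 912) (nat_lit 3730135201) (nat_lit 357) (nat_lit 5) (nat_lit 368) (nat_lit 5) (nat_lit 369) (nat_lit 5) (nat_lit 373) (nat_lit 348) (nat_lit 299))))))))
noncomputable def xc66 : XT := (XT.nd (nat_lit 1794) (nat_lit 4940) (nat_lit 0) (XT.nd (nat_lit 858) (nat_lit 3648) (nat_lit 0) (XT.nd (nat_lit 390) (nat_lit 2280) (nat_lit 0) (XT.nd (nat_lit 156) (nat_lit 1140) (nat_lit 0) (XT.nd (nat_lit 78) (nat_lit 76) (nat_lit 0) (XT.lf (nat_lit 0) (nat_lit 1098602640) (nat_lit 608) (nat_lit 5821107611) (nat_lit 684) (nat_lit 1643784089) (nat_lit 349) (nat_lit 5) (nat_lit 357) (nat_lit 5) (nat_lit 358) (nat_lit 5) (nat_lit 374) (nat_lit 348) (nat_lit 298)) (XT.lf (nat_lit 0) (nat_lit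 493608309) (nat_lit 684) (nat_lit 2151885896) (nat_lit 76) (nat_lit 6029851424) (nat_lit 348) (nat_lit 5) (nat_lit 357) (nat_lit 5) (nat_lit 349) (nat_lit 5) (nat_lit 375) (nat_lit 348) (nat_lit 297))) (XT.nd (nat_lit 78) (nat_lit 532) (nat_lit 0) (XT.lf (nat_lit 0) (nat_lit 2653911019) (nat_lit 684) (nat_lit 5475033071) (nat_lit 76) (nat_lit 661365306) (nat_lit 340) (nat_lit 5) (nat_lit 349) (nat_lit 5) (nat_lit 341) (nat_lit 5) (nat_lit 376) (nat_lit 348) (nat_lit 296)) (XT.nd (nat_lit 78) (nat_lit 0) (nat_lit 0) (XT.lf (nat_lit 0) (nat_lit 8244632) (nat_lit 532) (nat_lit 4873305150) (nat_lit 608) (nat_lit 4027096484) (nat_lit 333) (nat_lit 5) (nat_lit 340) (nat_lit 5) (nat_lit 341) (nat_lit 5) (nat_lit 377) (nat_lit 348) (nat_lit 295)) (XT.lf (nat_lit 0) (nat_lit 5720721219) (nat_lit 532) (nat_lit 1465767197) (nat_lit 608) (nat_lit 1843730705) (nat_lit 333) (nat_lit 5) (nat_lit 340) (nat_lit 5) (nat_lit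 341) (nat_lit 5) (nat_lit 378) (nat_lit 348) (nat_lit 294))))) (XT.nd (nat_lit 234) (nat_lit 1064) (nat_lit 0) (XT.nd (nat_lit 78) (nat_lit 532) (nat_lit 0) (XT.lf (nat_lit 0) (nat_lit 396690331) (nat_lit 684) (nat_lit 6729879739) (nat_lit 76) (nat_lit 2028768461) (nat_lit 324) (nat_lit 5) (nat_lit 333) (nat_lit 5) (nat_lit 325) (nat_lit 5) (nat_lit 379) (nat_lit 348) (nat_lit 293)) (XT.nd (nat_lit 78) (nat_lit 532) (nat_lit 0) (XT.lf (nat_lit 0) (nat_lit 2672386951) (nat_lit 684) (nat_lit 963822936) (nat_lit 76) (nat_lit 5647300390) (nat_lit 324) (nat_lit 5) (nat_lit 333) (nat_lit 5) (nat_lit 325) (nat_lit 5) (nat_lit 380) (nat_lit 348) (nat_lit 292)) (XT.lf (nat_lit 0) (nat_lit 5022829050) (nat_lit 608) (nat_lit 4388493935) (nat_lit 76) (nat_lit 4009954) (nat_lit 317) (nat_lit 5) (nat_lit 325) (nat_lit 5) (nat_lit 318) (nat_lit 5) (nat_lit 381) (nat_lit 348) (nat_lit 291)))) (XT.nd (nat_lit 78) (nat_lit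 532) (nat_lit 0) (XT.lf (nat_lit 0) (nat_lit 1614404442) (nat_lit 532) (nat_lit 5849574895) (nat_lit 608) (nat_lit 2086525094) (nat_lit 310) (nat_lit 5) (nat_lit 317) (nat_lit 5) (nat_lit 318) (nat_lit 5) (nat_lit 382) (nat_lit 348) (nat_lit 290)) (XT.nd (nat_lit 78) (nat_lit 456) (nat_lit 0) (XT.lf (nat_lit 0) (nat_lit 286949611) (nat_lit 608) (nat_lit 1851774942) (nat_lit 76) (nat_lit 7550804816) (nat_lit 309) (nat_lit 5) (nat_lit 317) (nat_lit 5) (nat_lit 310) (nat_lit 5) (nat_lit 383) (nat_lit 348) (nat_lit 289)) (XT.lf (nat_lit 0) (nat_lit 2709451601) (nat_lit 532) (nat_lit 5413926372) (nat_lit 76) (nat_lit 1708134518) (nat_lit 303) (nat_lit 5) (nat_lit 310) (nat_lit 5) (nat_lit 304) (nat_lit 5) (nat_lit 384) (nat_lit 348) (nat_lit 288)))))) (XT.nd (nat_lit 468) (nat_lit 1748) (nat_lit 0) (XT.nd (nat_lit 234) (nat_lit 836) (nat_lit 0) (XT.nd (nat_lit 78) (nat_lit 532) (nat_lit 0) (XT.lf (nat_lit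 0) (nat_lit 884925294) (nat_lit 532) (nat_lit 4329302840) (nat_lit 608) (nat_lit 4763238988) (nat_lit 296) (nat_lit 5) (nat_lit 303) (nat_lit 5) (nat_lit 304) (nat_lit 5) (nat_lit 385) (nat_lit 348) (nat_lit 287)) (XT.nd (nat_lit 78) (nat_lit 532) (nat_lit 0) (XT.lf (nat_lit 0) (nat_lit 7437405668) (nat_lit 532) (nat_lit 373135180) (nat_lit 608) (nat_lit 2316767758) (nat_lit 296) (nat_lit 5) (nat_lit 303) (nat_lit 5) (nat_lit 304) (nat_lit 5) (nat_lit 386) (nat_lit 348) (nat_lit 286)) (XT.lf (nat_lit 0) (nat_lit 235317621) (nat_lit 532) (nat_lit 6383563735) (nat_lit 76) (nat_lit 3661619913) (nat_lit 289) (nat_lit 5) (nat_lit 296) (nat_lit 5) (nat_lit 290) (nat_lit 5) (nat_lit 387) (nat_lit 348) (nat_lit 285)))) (XT.nd (nat_lit 78) (nat_lit 380) (nat_lit 0) (XT.lf (nat_lit 0) (nat_lit 230349879) (nat_lit 456) (nat_lit 2583438357) (nat_lit 532) (nat_lit 7623921706) (nat_lit 283) (nat_lit 5) (nat_lit 289)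 (nat_lit 5) (nat_lit 290) (nat_lit 5) (nat_lit 388) (nat_lit 348) (nat_lit 284)) (XT.nd (nat_lit 78) (nat_lit 380) (nat_lit 0) (XT.lf (nat_lit 0) (nat_lit 5513425179) (nat_lit 532) (nat_lit 3486759205) (nat_lit 76) (nat_lit 1598136125) (nat_lit 283) (nat_lit 5) (nat_lit 290) (nat_lit 5) (nat_lit 284) (nat_lit 5) (nat_lit 389) (nat_lit 348) (nat_lit 283)) (XT.lf (nat_lit 0) (nat_lit 3431367230) (nat_lit 380) (nat_lit 4885898655) (nat_lit 456) (nat_lit 2445787067) (nat_lit 278) (nat_lit 5) (nat_lit 283) (nat_lit 5) (nat_lit 284) (nat_lit 5) (nat_lit 390) (nat_lit 348) (nat_lit 282))))) (XT.nd (nat_lit 234) (nat_lit 836) (nat_lit 0) (XT.nd (nat_lit 78) (nat_lit 836) (nat_lit 0) (XT.lf (nat_lit 0) (nat_lit 267639461) (nat_lit 456) (nat_lit 351851325) (nat_lit 76) (nat_lit 10313144131) (nat_lit 277) (nat_lit 5) (nat_lit 283) (nat_lit 5) (nat_lit 278) (nat_lit 5) (nat_lit 391) (nat_lit 348) (nat_lit 281))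 (XT.nd (nat_lit 78) (nat_lit 380) (nat_lit 0) (XT.lf (nat_lit 0) (nat_lit 3082682233) (nat_lit 532) (nat_lit 4239212482) (nat_lit 76) (nat_lit 3782602014) (nat_lit 271) (nat_lit 5) (nat_lit 278) (nat_lit 5) (nat_lit 272) (nat_lit 5) (nat_lit 392) (nat_lit 348) (nat_lit 280)) (XT.lf (nat_lit 0) (nat_lit 3032890100) (nat_lit 380) (nat_lit 2954557860) (nat_lit 456) (nat_lit 5293908285) (nat_lit 266) (nat_lit 5) (nat_lit 271) (nat_lit 5) (nat_lit 272) (nat_lit 5) (nat_lit 393) (nat_lit 348) (nat_lit 279)))) (XT.nd (nat_lit 78) (nat_lit 836) (nat_lit 0) (XT.lf (nat_lit 0) (nat_lit 9004266536) (nat_lit 456) (nat_lit 912750528) (nat_lit 76) (nat_lit 1545757185) (nat_lit 266) (nat_lit 5) (nat_lit 272) (nat_lit 5) (nat_lit 267) (nat_lit 5) (nat_lit 394) (nat_lit 348) (nat_lit 278)) (XT.nd (nat_lit 78) (nat_lit 380) (nat_lit 0) (XT.lf (nat_lit 0) (nat_lit 515016124) (nat_lit 456) (nat_lit 4952289920) (nat_lit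 76) (nat_lit 6180333263) (nat_lit 260) (nat_lit 5) (nat_lit 266) (nat_lit 5) (nat_lit 261) (nat_lit 5) (nat_lit 395) (nat_lit 348) (nat_lit 277)) (XT.lf (nat_lit 0) (nat_lit 2696626181) (nat_lit 380) (nat_lit 834945471) (nat_lit 456) (nat_lit 8305651228) (nat_lit 255) (nat_lit 5) (nat_lit 260) (nat_lit 5) (nat_lit 261) (nat_lit 5) (nat_lit 396) (nat_lit 348) (nat_lit 276))))))) (XT.nd (nat_lit 936) (nat_lit 2204) (nat_lit 0) (XT.nd (nat_lit 468) (nat_lit 1292) (nat_lit 0) (XT.nd (nat_lit 234) (nat_lit 684) (nat_lit 0) (XT.nd (nat_lit 78) (nat_lit 760) (nat_lit 0) (XT.lf (nat_lit 0) (nat_lit 6695369131) (nat_lit 456) (nat_lit 1437384817) (nat_lit 76) (nat_lit 3898037655) (nat_lit 255) (nat_lit 5) (nat_lit 261) (nat_lit 5) (nat_lit 256) (nat_lit 5) (nat_lit 397) (nat_lit 348) (nat_lit 275)) (XT.nd (nat_lit 78) (nat_lit 380) (nat_lit 0) (XT.lf (nat_lit 0) (nat_lit 6573646840) (nat_lit 380) (nat_lit 3421213483)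 (nat_lit 456) (nat_lit 2234083669) (nat_lit 250) (nat_lit 5) (nat_lit 255) (nat_lit 5) (nat_lit 256) (nat_lit 5) (nat_lit 398) (nat_lit 348) (nat_lit 274)) (XT.lf (nat_lit 0) (nat_lit 963050224) (nat_lit 380) (nat_lit 10030471551) (nat_lit 76) (nat_lit 1438597439) (nat_lit 245) (nat_lit 5) (nat_lit 250) (nat_lit 5) (nat_lit 246) (nat_lit 5) (nat_lit 399) (nat_lit 348) (nat_lit 273)))) (XT.nd (nat_lit 78) (nat_lit 684) (nat_lit 0) (XT.lf (nat_lit 0) (nat_lit 4272596389) (nat_lit 380) (nat_lit 1923823181) (nat_lit 76) (nat_lit 6442464499) (nat_lit 245) (nat_lit 5) (nat_lit 250) (nat_lit 5) (nat_lit 246) (nat_lit 5) (nat_lit 400) (nat_lit 348) (nat_lit 272)) (XT.nd (nat_lit 78) (nat_lit 304) (nat_lit 0) (XT.lf (nat_lit 0) (nat_lit 6510527587) (nat_lit 380) (nat_lit 1204217430) (nat_lit 456) (nat_lit 5136107369) (nat_lit 240) (nat_lit 5) (nat_lit 245) (nat_lit 5) (nat_lit 246) (nat_lit 5) (nat_lit 401) (nat_lit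 348) (nat_lit 271)) (XT.lf (nat_lit 0) (nat_lit 2129395657) (nat_lit 304) (nat_lit 9179755294) (nat_lit 380) (nat_lit 1758559017) (nat_lit 236) (nat_lit 5) (nat_lit 240) (nat_lit 5) (nat_lit 241) (nat_lit 5) (nat_lit 402) (nat_lit 348) (nat_lit 270))))) (XT.nd (nat_lit 234) (nat_lit 608) (nat_lit 0) (XT.nd (nat_lit 78) (nat_lit 608) (nat_lit 0) (XT.lf (nat_lit 0) (nat_lit 1734533332) (nat_lit 380) (nat_lit 2378081339) (nat_lit 76) (nat_lit 9176528892) (nat_lit 235) (nat_lit 5) (nat_lit 240) (nat_lit 5) (nat_lit 236) (nat_lit 5) (nat_lit 403) (nat_lit 348) (nat_lit 269)) (XT.nd (nat_lit 78) (nat_lit 304) (nat_lit 0) (XT.lf (nat_lit 0) (nat_lit 5342959875) (nat_lit 380) (nat_lit 7020198969) (nat_lit 76) (nat_lit 1152162375) (nat_lit 231) (nat_lit 5) (nat_lit 236) (nat_lit 5) (nat_lit 232) (nat_lit 5) (nat_lit 404) (nat_lit 348) (nat_lit 268)) (XT.lf (nat_lit 0) (nat_lit 1889577679) (nat_lit 304) (nat_lit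 7225524059) (nat_lit 380) (nat_lit 4631518593) (nat_lit 227) (nat_lit 5) (nat_lit 231) (nat_lit 5) (nat_lit 232) (nat_lit 5) (nat_lit 405) (nat_lit 348) (nat_lit 267)))) (XT.nd (nat_lit 78) (nat_lit 608) (nat_lit 0) (XT.lf (nat_lit 0) (nat_lit 11168922461) (nat_lit 304) (nat_lit 1875109491) (nat_lit 380) (nat_lit 939517739) (nat_lit 227) (nat_lit 5) (nat_lit 231) (nat_lit 5) (nat_lit 232) (nat_lit 5) (nat_lit 406) (nat_lit 348) (nat_lit 266)) (XT.nd (nat_lit 78) (nat_lit 228) (nat_lit 0) (XT.lf (nat_lit 0) (nat_lit 2879391569) (nat_lit 380) (nat_lit 7702814820) (nat_lit 76) (nat_lit 3642394228) (nat_lit 222) (nat_lit 5) (nat_lit 227) (nat_lit 5) (nat_lit 223) (nat_lit 5) (nat_lit 407) (nat_lit 348) (nat_lit 265)) (XT.lf (nat_lit 0) (nat_lit 1687534636) (nat_lit 228) (nat_lit 5143459057) (nat_lit 304) (nat_lit 7640500046) (nat_lit 219) (nat_lit 5) (nat_lit 222) (nat_lit 5) (nat_lit 223) (nat_lit 5) (nat_lit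 408) (nat_lit 348) (nat_lit 264)))))) (XT.nd (nat_lit 468) (nat_lit 988) (nat_lit 0) (XT.nd (nat_lit 234) (nat_lit 608) (nat_lit 0) (XT.nd (nat_lit 78) (nat_lit 608) (nat_lit 0) (XT.lf (nat_lit 0) (nat_lit 10957860316) (nat_lit 304) (nat_lit 3252584455) (nat_lit 76) (nat_lit 513647391) (nat_lit 219) (nat_lit 5) (nat_lit 223) (nat_lit 5) (nat_lit 220) (nat_lit 5) (nat_lit 409) (nat_lit 348) (nat_lit 263)) (XT.nd (nat_lit 78) (nat_lit 228) (nat_lit 0) (XT.lf (nat_lit 0) (nat_lit 309680686) (nat_lit 380) (nat_lit 8382229340) (nat_lit 76) (nat_lit 6289600063) (nat_lit 214) (nat_lit 5) (nat_lit 219) (nat_lit 5) (nat_lit 215) (nat_lit 5) (nat_lit 410) (nat_lit 348) (nat_lit 262)) (XT.lf (nat_lit 0) (nat_lit 1519400473) (nat_lit 228) (nat_lit 2935178807) (nat_lit 304) (nat_lit 10790280405) (nat_lit 211) (nat_lit 5) (nat_lit 214) (nat_lit 5) (nat_lit 215) (nat_lit 5) (nat_lit 411) (nat_lit 348) (nat_lit 261))))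 (XT.nd (nat_lit 78) (nat_lit 608) (nat_lit 0) (XT.lf (nat_lit 0) (nat_lit 8812931781) (nat_lit 304) (nat_lit 3693841133) (nat_lit 76) (nat_lit 3006663646) (nat_lit 211) (nat_lit 5) (nat_lit 215) (nat_lit 5) (nat_lit 212) (nat_lit 5) (nat_lit 412) (nat_lit 348) (nat_lit 260)) (XT.nd (nat_lit 78) (nat_lit 304) (nat_lit 0) (XT.lf (nat_lit 0) (nat_lit 6701050518) (nat_lit 304) (nat_lit 6670035065) (nat_lit 380) (nat_lit 2416913636) (nat_lit 207) (nat_lit 5) (nat_lit 211) (nat_lit 5) (nat_lit 212) (nat_lit 5) (nat_lit 413) (nat_lit 348) (nat_lit 259)) (XT.lf (nat_lit 0) (nat_lit 1381770827) (nat_lit 228) (nat_lit 601106528) (nat_lit 304) (nat_lit 14086547276) (nat_lit 203) (nat_lit 5) (nat_lit 206) (nat_lit 5) (nat_lit 207) (nat_lit 5) (nat_lit 414) (nat_lit 348) (nat_lit 258))))) (XT.nd (nat_lit 234) (nat_lit 532) (nat_lit 0) (XT.nd (nat_lit 78) (nat_lit 456) (nat_lit 0) (XT.lf (nat_lit 0) (nat_lit 6588924410)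 (nat_lit 304) (nat_lit 4124524359) (nat_lit 76) (nat_lit 5641440942) (nat_lit 203) (nat_lit 5) (nat_lit 207) (nat_lit 5) (nat_lit 204) (nat_lit 5) (nat_lit 415) (nat_lit 348) (nat_lit 257)) (XT.nd (nat_lit 78) (nat_lit 228) (nat_lit 0) (XT.lf (nat_lit 0) (nat_lit 6844604190) (nat_lit 228) (nat_lit 4536858665) (nat_lit 304) (nat_lit 5266006589) (nat_lit 200) (nat_lit 5) (nat_lit 203) (nat_lit 5) (nat_lit 204) (nat_lit 5) (nat_lit 416) (nat_lit 348) (nat_lit 256)) (XT.lf (nat_lit 0) (nat_lit 1247487599) (nat_lit 228) (nat_lit 15118622471) (nat_lit 304) (nat_lit 581266521) (nat_lit 197) (nat_lit 5) (nat_lit 200) (nat_lit 5) (nat_lit 201) (nat_lit 5) (nat_lit 417) (nat_lit 348) (nat_lit 255)))) (XT.nd (nat_lit 78) (nat_lit 456) (nat_lit 0) (XT.lf (nat_lit 0) (nat_lit 4282906818) (nat_lit 304) (nat_lit 4548466762) (nat_lit 76) (nat_lit 8420032276) (nat_lit 196) (nat_lit 5) (nat_lit 200) (nat_lit 5) (nat_lit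 197) (nat_lit 5) (nat_lit 418) (nat_lit 348) (nat_lit 254)) (XT.nd (nat_lit 78) (nat_lit 228) (nat_lit 0) (XT.lf (nat_lit 0) (nat_lit 7031318198) (nat_lit 228) (nat_lit 2295086716) (nat_lit 304) (nat_lit 8236625961) (nat_lit 193) (nat_lit 5) (nat_lit 196) (nat_lit 5) (nat_lit 197) (nat_lit 5) (nat_lit 419) (nat_lit 348) (nat_lit 253)) (XT.lf (nat_lit 0) (nat_lit 1109874218) (nat_lit 228) (nat_lit 13488687575) (nat_lit 304) (nat_lit 3283122235) (nat_lit 190) (nat_lit 5) (nat_lit 193) (nat_lit 5) (nat_lit 194) (nat_lit 5) (nat_lit 420) (nat_lit 348) (nat_lit 252))))))))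
noncomputable def xc67 : XT := (XT.nd (nat_lit 48204) (nat_lit 0) (nat_lit 11552) (XT.nd (nat_lit 858) (nat_lit 304) (nat_lit 0) (XT.nd (nat_lit 390) (nat_lit 836) (nat_lit 0) (XT.nd (nat_lit 156) (nat_lit 456) (nat_lit 0) (XT.nd (nat_lit 78) (nat_lit 228) (nat_lit 0) (XT.lf (nat_lit 0) (nat_lit 1891336640) (nat_lit 304) (nat_lit 4969226425) (nat_lit 76) (nat_lit 11345573803) (nat_lit 189) (nat_lit 5) (nat_lit 193) (nat_lit 5) (nat_lit 190) (nat_lit 5) (nat_lit 421) (nat_lit 348) (nat_lit 251)) (XT.lf (nat_lit 0) (nat_lit 7203740035) (nat_lit 304) (nat_lit 11278608281) (nat_lit 76) (nat_lit 55538844) (nat_lit 186) (nat_lit 5) (nat_lit 190) (nat_lit 5) (nat_lit 187) (nat_lit 5) (nat_lit 422) (nat_lit 348) (nat_lit 250))) (XT.nd (nat_lit 78) (nat_lit 304) (nat_lit 0) (XT.lf (nat_lit 0) (nat_lit 992472715) (nat_lit 152) (nat_lit 11789689082) (nat_lit 228) (nat_lit 6094228777) (nat_lit 184) (nat_lit 5) (nat_lit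 186) (nat_lit 5) (nat_lit 187) (nat_lit 5) (nat_lit 423) (nat_lit 348) (nat_lit 249)) (XT.nd (nat_lit 78) (nat_lit 304) (nat_lit 0) (XT.lf (nat_lit 0) (nat_lit 13826358377) (nat_lit 152) (nat_lit 4794248023) (nat_lit 228) (nat_lit 601662585) (nat_lit 184) (nat_lit 5) (nat_lit 186) (nat_lit 5) (nat_lit 187) (nat_lit 5) (nat_lit 424) (nat_lit 348) (nat_lit 248)) (XT.lf (nat_lit 0) (nat_lit 5032823058) (nat_lit 304) (nat_lit 12070566549) (nat_lit 76) (nat_lit 2471402282) (nat_lit 180) (nat_lit 5) (nat_lit 184) (nat_lit 5) (nat_lit 181) (nat_lit 5) (nat_lit 425) (nat_lit 348) (nat_lit 247))))) (XT.nd (nat_lit 234) (nat_lit 380) (nat_lit 0) (XT.nd (nat_lit 78) (nat_lit 304) (nat_lit 0) (XT.lf (nat_lit 0) (nat_lit 893186479) (nat_lit 152) (nat_lit 10021458209) (nat_lit 228) (nat_lit 9020355253) (nat_lit 178) (nat_lit 5) (nat_lit 180) (nat_lit 5) (nat_lit 181) (nat_lit 5) (nat_lit 426) (nat_lit 348) (nat_lit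 246)) (XT.nd (nat_lit 78) (nat_lit 304) (nat_lit 0) (XT.lf (nat_lit 0) (nat_lit 14457640939) (nat_lit 152) (nat_lit 2616741944) (nat_lit 228) (nat_lit 3228587493) (nat_lit 178) (nat_lit 5) (nat_lit 180) (nat_lit 5) (nat_lit 181) (nat_lit 5) (nat_lit 427) (nat_lit 348) (nat_lit 245)) (XT.lf (nat_lit 0) (nat_lit 2787870523) (nat_lit 304) (nat_lit 12889858969) (nat_lit 76) (nat_lit 5000330823) (nat_lit 174) (nat_lit 5) (nat_lit 178) (nat_lit 5) (nat_lit 175) (nat_lit 5) (nat_lit 428) (nat_lit 348) (nat_lit 244)))) (XT.nd (nat_lit 78) (nat_lit 228) (nat_lit 0) (XT.lf (nat_lit 0) (nat_lit 810166326) (nat_lit 152) (nat_lit 8183150019) (nat_lit 228) (nat_lit 12067926055) (nat_lit 172) (nat_lit 5) (nat_lit 174) (nat_lit 5) (nat_lit 175) (nat_lit 5) (nat_lit 429) (nat_lit 348) (nat_lit 243)) (XT.nd (nat_lit 78) (nat_lit 228) (nat_lit 0) (XT.lf (nat_lit 0) (nat_lit 15150652714) (nat_lit 152) (nat_lit 344759685)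 (nat_lit 228) (nat_lit 5957192943) (nat_lit 172) (nat_lit 5) (nat_lit 174) (nat_lit 5) (nat_lit 175) (nat_lit 5) (nat_lit 430) (nat_lit 348) (nat_lit 242)) (XT.lf (nat_lit 0) (nat_lit 464668152) (nat_lit 228) (nat_lit 13740747671) (nat_lit 76) (nat_lit 7646164823) (nat_lit 169) (nat_lit 5) (nat_lit 172) (nat_lit 5) (nat_lit 170) (nat_lit 5) (nat_lit 431) (nat_lit 348) (nat_lit 241)))))) (XT.nd (nat_lit 46878) (nat_lit 0) (nat_lit 22420) (XT.nd (nat_lit 46644) (nat_lit 0) (nat_lit 23788) (XT.nd (nat_lit 78) (nat_lit 152) (nat_lit 0) (XT.lf (nat_lit 0) (nat_lit 741783620) (nat_lit 152) (nat_lit 6273282783) (nat_lit 228) (nat_lit 15244020894) (nat_lit 167) (nat_lit 5) (nat_lit 169) (nat_lit 5) (nat_lit 170) (nat_lit 5) (nat_lit 432) (nat_lit 348) (nat_lit 240)) (XT.nd (nat_lit 78) (nat_lit 152) (nat_lit 0) (XT.lf (nat_lit 0) (nat_lit 13901231655) (nat_lit 228) (nat_lit 6788126134) (nat_lit 76) (nat_lit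 1985283707) (nat_lit 167) (nat_lit 5) (nat_lit 170) (nat_lit 5) (nat_lit 168) (nat_lit 5) (nat_lit 433) (nat_lit 348) (nat_lit 239)) (XT.lf (nat_lit 0) (nat_lit 8452426896) (nat_lit 152) (nat_lit 12666366377) (nat_lit 228) (nat_lit 1980124706) (nat_lit 165) (nat_lit 5) (nat_lit 167) (nat_lit 5) (nat_lit 168) (nat_lit 5) (nat_lit 434) (nat_lit 348) (nat_lit 238)))) (XT.nd (nat_lit 78) (nat_lit 0) (nat_lit 0) (XT.lf (nat_lit 0) (nat_lit 849619683) (nat_lit 684) (nat_lit 1271144914) (nat_lit 684) (nat_lit 1271144914) (nat_lit 478) (nat_lit 3) (nat_lit 487) (nat_lit 3) (nat_lit 487) (nat_lit 5) (nat_lit 349) (nat_lit 349) (nat_lit 322)) (XT.nd (nat_lit 78) (nat_lit 0) (nat_lit 0) (XT.lf (nat_lit 76) (nat_lit 866528781) (nat_lit 0) (nat_lit 2934110835) (nat_lit 684) (nat_lit 3022659344) (nat_lit 479) (nat_lit 5) (nat_lit 478) (nat_lit 3) (nat_lit 487) (nat_lit 5) (nat_lit 350) (nat_lit 349) (nat_lit 321))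 (XT.lf (nat_lit 76) (nat_lit 4387342993) (nat_lit 0) (nat_lit 1522311661) (nat_lit 684) (nat_lit 955971456) (nat_lit 479) (nat_lit 5) (nat_lit 478) (nat_lit 3) (nat_lit 487) (nat_lit 5) (nat_lit 351) (nat_lit 349) (nat_lit 320))))) (XT.nd (nat_lit 234) (nat_lit 684) (nat_lit 0) (XT.nd (nat_lit 78) (nat_lit 0) (nat_lit 76) (XT.lf (nat_lit 76) (nat_lit 1071462293) (nat_lit 0) (nat_lit 9153571) (nat_lit 760) (nat_lit 5830345542) (nat_lit 470) (nat_lit 5) (nat_lit 469) (nat_lit 5) (nat_lit 479) (nat_lit 5) (nat_lit 352) (nat_lit 349) (nat_lit 319)) (XT.nd (nat_lit 78) (nat_lit 0) (nat_lit 0) (XT.lf (nat_lit 0) (nat_lit 3121985826) (nat_lit 684) (nat_lit 2247990209) (nat_lit 760) (nat_lit 1588509802) (nat_lit 470) (nat_lit 5) (nat_lit 479) (nat_lit 5) (nat_lit 480) (nat_lit 5) (nat_lit 353) (nat_lit 349) (nat_lit 318)) (XT.lf (nat_lit 76) (nat_lit 1435515463) (nat_lit 0) (nat_lit 3727953383) (nat_lit 760)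 (nat_lit 1845800996) (nat_lit 471) (nat_lit 5) (nat_lit 470) (nat_lit 5) (nat_lit 480) (nat_lit 5) (nat_lit 354) (nat_lit 349) (nat_lit 317)))) (XT.nd (nat_lit 78) (nat_lit 0) (nat_lit 0) (XT.lf (nat_lit 0) (nat_lit 149577546) (nat_lit 760) (nat_lit 1832194165) (nat_lit 836) (nat_lit 5081278105) (nat_lit 460) (nat_lit 5) (nat_lit 470) (nat_lit 5) (nat_lit 471) (nat_lit 5) (nat_lit 355) (nat_lit 349) (nat_lit 316)) (XT.nd (nat_lit 78) (nat_lit 0) (nat_lit 76) (XT.lf (nat_lit 76) (nat_lit 1998932287) (nat_lit 0) (nat_lit 116182279) (nat_lit 836) (nat_lit 5004358490) (nat_lit 461) (nat_lit 5) (nat_lit 460) (nat_lit 5) (nat_lit 471) (nat_lit 5) (nat_lit 356) (nat_lit 349) (nat_lit 315)) (XT.lf (nat_lit 0) (nat_lit 4105777385) (nat_lit 760) (nat_lit 1257372093) (nat_lit 836) (nat_lit 1815454724) (nat_lit 461) (nat_lit 5) (nat_lit 471) (nat_lit 5) (nat_lit 472) (nat_lit 5) (nat_lit 357) (nat_lit 349) (nat_lit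 314))))))) (XT.nd (nat_lit 936) (nat_lit 6308) (nat_lit 0) (XT.nd (nat_lit 468) (nat_lit 3040) (nat_lit 0) (XT.nd (nat_lit 234) (nat_lit 760) (nat_lit 0) (XT.nd (nat_lit 78) (nat_lit 836) (nat_lit 0) (XT.lf (nat_lit 76) (nat_lit 2729778738) (nat_lit 0) (nat_lit 3385927863) (nat_lit 836) (nat_lit 1125016287) (nat_lit 462) (nat_lit 5) (nat_lit 461) (nat_lit 5) (nat_lit 472) (nat_lit 5) (nat_lit 358) (nat_lit 349) (nat_lit 313)) (XT.nd (nat_lit 78) (nat_lit 0) (nat_lit 76) (XT.lf (nat_lit 0) (nat_lit 809911848) (nat_lit 836) (nat_lit 495532892) (nat_lit 912) (nat_lit 6000629890) (nat_lit 450) (nat_lit 5) (nat_lit 461) (nat_lit 5) (nat_lit 462) (nat_lit 5) (nat_lit 359) (nat_lit 349) (nat_lit 312)) (XT.lf (nat_lit 0) (nat_lit 2759149066) (nat_lit 836) (nat_lit 3725722236) (nat_lit 912) (nat_lit 888815269) (nat_lit 451) (nat_lit 5) (nat_lit 462) (nat_lit 5) (nat_lit 463) (nat_lit 5) (nat_lit 360) (nat_lit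 349) (nat_lit 311)))) (XT.nd (nat_lit 78) (nat_lit 836) (nat_lit 0) (XT.lf (nat_lit 76) (nat_lit 432925346) (nat_lit 0) (nat_lit 4292757728) (nat_lit 912) (nat_lit 2718879206) (nat_lit 452) (nat_lit 5) (nat_lit 451) (nat_lit 5) (nat_lit 463) (nat_lit 5) (nat_lit 361) (nat_lit 349) (nat_lit 310)) (XT.nd (nat_lit 78) (nat_lit 836) (nat_lit 0) (XT.lf (nat_lit 76) (nat_lit 4747854573) (nat_lit 0) (nat_lit 1979073649) (nat_lit 912) (nat_lit 791364587) (nat_lit 452) (nat_lit 5) (nat_lit 451) (nat_lit 5) (nat_lit 463) (nat_lit 5) (nat_lit 362) (nat_lit 349) (nat_lit 309)) (XT.lf (nat_lit 0) (nat_lit 1129393000) (nat_lit 912) (nat_lit 6027108481) (nat_lit 76) (nat_lit 438627965) (nat_lit 440) (nat_lit 5) (nat_lit 452) (nat_lit 5) (nat_lit 441) (nat_lit 5) (nat_lit 363) (nat_lit 349) (nat_lit 308))))) (XT.nd (nat_lit 234) (nat_lit 2128) (nat_lit 0) (XT.nd (nat_lit 78) (nat_lit 912) (nat_lit 0) (XT.lf (nat_lit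 0) (nat_lit 3080502677) (nat_lit 912) (nat_lit 1653953452) (nat_lit 76) (nat_lit 2939920946) (nat_lit 440) (nat_lit 5) (nat_lit 452) (nat_lit 5) (nat_lit 441) (nat_lit 5) (nat_lit 364) (nat_lit 349) (nat_lit 307)) (XT.nd (nat_lit 78) (nat_lit 0) (nat_lit 0) (XT.lf (nat_lit 0) (nat_lit 2861338344) (nat_lit 912) (nat_lit 2198824109) (nat_lit 988) (nat_lit 2696739175) (nat_lit 428) (nat_lit 5) (nat_lit 440) (nat_lit 5) (nat_lit 441) (nat_lit 5) (nat_lit 365) (nat_lit 349) (nat_lit 306)) (XT.lf (nat_lit 0) (nat_lit 7063920194) (nat_lit 988) (nat_lit 345795057) (nat_lit 76) (nat_lit 433245420) (nat_lit 428) (nat_lit 5) (nat_lit 441) (nat_lit 5) (nat_lit 429) (nat_lit 5) (nat_lit 366) (nat_lit 349) (nat_lit 305)))) (XT.nd (nat_lit 78) (nat_lit 1064) (nat_lit 0) (XT.lf (nat_lit 0) (nat_lit 1182115602) (nat_lit 1064) (nat_lit 3584069197) (nat_lit 76) (nat_lit 3164793682) (nat_lit 414) (nat_lit 5) (nat_lit 428)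 (nat_lit 5) (nat_lit 415) (nat_lit 5) (nat_lit 367) (nat_lit 349) (nat_lit 304)) (XT.nd (nat_lit 78) (nat_lit 0) (nat_lit 0) (XT.lf (nat_lit 0) (nat_lit 1134809703) (nat_lit 1064) (nat_lit 2012212401) (nat_lit 1140) (nat_lit 4875566111) (nat_lit 400) (nat_lit 5) (nat_lit 414) (nat_lit 5) (nat_lit 415) (nat_lit 5) (nat_lit 368) (nat_lit 349) (nat_lit 303)) (XT.lf (nat_lit 0) (nat_lit 5162698134) (nat_lit 1140) (nat_lit 2102164919) (nat_lit 76) (nat_lit 852328519) (nat_lit 400) (nat_lit 5) (nat_lit 415) (nat_lit 5) (nat_lit 401) (nat_lit 5) (nat_lit 369) (nat_lit 349) (nat_lit 302)))))) (XT.nd (nat_lit 468) (nat_lit 2356) (nat_lit 0) (XT.nd (nat_lit 234) (nat_lit 1520) (nat_lit 0) (XT.nd (nat_lit 78) (nat_lit 1292) (nat_lit 0) (XT.lf (nat_lit 0) (nat_lit 2816672624) (nat_lit 1140) (nat_lit 4418051351) (nat_lit 1216) (nat_lit 980032669) (nat_lit 385) (nat_lit 5) (nat_lit 400) (nat_lit 5) (nat_lit 401) (nat_lit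 5) (nat_lit 370) (nat_lit 349) (nat_lit 301)) (XT.nd (nat_lit 78) (nat_lit 1216) (nat_lit 0) (XT.lf (nat_lit 0) (nat_lit 1003981404) (nat_lit 1216) (nat_lit 444729078) (nat_lit 76) (nat_lit 6867107926) (nat_lit 384) (nat_lit 5) (nat_lit 400) (nat_lit 5) (nat_lit 385) (nat_lit 5) (nat_lit 371) (nat_lit 349) (nat_lit 300)) (XT.lf (nat_lit 0) (nat_lit 3039919120) (nat_lit 1292) (nat_lit 3741276852) (nat_lit 76) (nat_lit 1638061926) (nat_lit 368) (nat_lit 5) (nat_lit 385) (nat_lit 5) (nat_lit 369) (nat_lit 5) (nat_lit 372) (nat_lit 349) (nat_lit 299)))) (XT.nd (nat_lit 78) (nat_lit 684) (nat_lit 0) (XT.lf (nat_lit 0) (nat_lit 1405204970) (nat_lit 836) (nat_lit 3716074215) (nat_lit 912) (nat_lit 3404991062) (nat_lit 357) (nat_lit 5) (nat_lit 368) (nat_lit 5) (nat_lit 369) (nat_lit 5) (nat_lit 373) (nat_lit 349) (nat_lit 298)) (XT.nd (nat_lit 78) (nat_lit 684) (nat_lit 0) (XT.lf (nat_lit 0) (nat_lit 6737570665)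 (nat_lit 836) (nat_lit 518211229) (nat_lit 912) (nat_lit 1380990018) (nat_lit 357) (nat_lit 5) (nat_lit 368) (nat_lit 5) (nat_lit 369) (nat_lit 5) (nat_lit 374) (nat_lit 349) (nat_lit 297)) (XT.lf (nat_lit 0) (nat_lit 704538412) (nat_lit 684) (nat_lit 5281887879) (nat_lit 76) (nat_lit 2763523204) (nat_lit 348) (nat_lit 5) (nat_lit 357) (nat_lit 5) (nat_lit 349) (nat_lit 5) (nat_lit 375) (nat_lit 349) (nat_lit 296))))) (XT.nd (nat_lit 234) (nat_lit 1216) (nat_lit 0) (XT.nd (nat_lit 78) (nat_lit 532) (nat_lit 0) (XT.lf (nat_lit 0) (nat_lit 106683462) (nat_lit 608) (nat_lit 2698484419) (nat_lit 684) (nat_lit 6061535577) (nat_lit 340) (nat_lit 5) (nat_lit 348) (nat_lit 5) (nat_lit 349) (nat_lit 5) (nat_lit 376) (nat_lit 349) (nat_lit 295)) (XT.nd (nat_lit 78) (nat_lit 532) (nat_lit 0) (XT.lf (nat_lit 0) (nat_lit 4984935949) (nat_lit 684) (nat_lit 3273921688) (nat_lit 76) (nat_lit 727618812) (nat_lit 340)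 (nat_lit 5) (nat_lit 349) (nat_lit 5) (nat_lit 341) (nat_lit 5) (nat_lit 377) (nat_lit 349) (nat_lit 294)) (XT.lf (nat_lit 0) (nat_lit 2350664519) (nat_lit 532) (nat_lit 4885678773) (nat_lit 608) (nat_lit 1873311952) (nat_lit 333) (nat_lit 5) (nat_lit 340) (nat_lit 5) (nat_lit 341) (nat_lit 5) (nat_lit 378) (nat_lit 349) (nat_lit 293)))) (XT.nd (nat_lit 78) (nat_lit 1140) (nat_lit 0) (XT.lf (nat_lit 0) (nat_lit 303268746) (nat_lit 608) (nat_lit 1073481346) (nat_lit 76) (nat_lit 7859965619) (nat_lit 332) (nat_lit 5) (nat_lit 340) (nat_lit 5) (nat_lit 333) (nat_lit 5) (nat_lit 379) (nat_lit 349) (nat_lit 292)) (XT.nd (nat_lit 78) (nat_lit 532) (nat_lit 0) (XT.lf (nat_lit 0) (nat_lit 2534469091) (nat_lit 684) (nat_lit 4575353234) (nat_lit 76) (nat_lit 2256400020) (nat_lit 324) (nat_lit 5) (nat_lit 333) (nat_lit 5) (nat_lit 325) (nat_lit 5) (nat_lit 380) (nat_lit 349) (nat_lit 291)) (XT.lf (nat_lit 0) (nat_lit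 1320825661) (nat_lit 532) (nat_lit 3508388754) (nat_lit 608) (nat_lit 4670501495) (nat_lit 317) (nat_lit 5) (nat_lit 324) (nat_lit 5) (nat_lit 325) (nat_lit 5) (nat_lit 381) (nat_lit 349) (nat_lit 290))))))))
noncomputable def xc68 : XT := (XT.nd (nat_lit 1794) (nat_lit 4332) (nat_lit 0) (XT.nd (nat_lit 858) (nat_lit 2736) (nat_lit 0) (XT.nd (nat_lit 390) (nat_lit 1900) (nat_lit 0) (XT.nd (nat_lit 156) (nat_lit 1064) (nat_lit 0) (XT.nd (nat_lit 78) (nat_lit 532) (nat_lit 0) (XT.lf (nat_lit 0) (nat_lit 7201438426) (nat_lit 608) (nat_lit 2196324767) (nat_lit 76) (nat_lit 239191998) (nat_lit 317) (nat_lit 5) (nat_lit 325) (nat_lit 5) (nat_lit 318) (nat_lit 5) (nat_lit 382) (nat_lit 349) (nat_lit 289)) (XT.lf (nat_lit 0) (nat_lit 3963877974) (nat_lit 532) (nat_lit 5714998504) (nat_lit 608) (nat_lit 98413754) (nat_lit 310) (nat_lit 5) (nat_lit 317) (nat_lit 5) (nat_lit 318) (nat_lit 5) (nat_lit 383) (nat_lit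 349) (nat_lit 288))) (XT.nd (nat_lit 78) (nat_lit 532) (nat_lit 0) (XT.lf (nat_lit 0) (nat_lit 372818768) (nat_lit 456) (nat_lit 1878449706) (nat_lit 532) (nat_lit 7670275465) (nat_lit 303) (nat_lit 5) (nat_lit 309) (nat_lit 5) (nat_lit 310) (nat_lit 5) (nat_lit 384) (nat_lit 349) (nat_lit 287)) (XT.nd (nat_lit 78) (nat_lit 532) (nat_lit 0) (XT.lf (nat_lit 0) (nat_lit 4710845339) (nat_lit 532) (nat_lit 3271455818) (nat_lit 76) (nat_lit 2086553404) (nat_lit 303) (nat_lit 5) (nat_lit 310) (nat_lit 5) (nat_lit 304) (nat_lit 5) (nat_lit 385) (nat_lit 349) (nat_lit 286)) (XT.lf (nat_lit 0) (nat_lit 3193764453) (nat_lit 532) (nat_lit 4063013956) (nat_lit 608) (nat_lit 2963429023) (nat_lit 296) (nat_lit 5) (nat_lit 303) (nat_lit 5) (nat_lit 304) (nat_lit 5) (nat_lit 386) (nat_lit 349) (nat_lit 285))))) (XT.nd (nat_lit 234) (nat_lit 912) (nat_lit 0) (XT.nd (nat_lit 78) (nat_lit 988) (nat_lit 0) (XT.lf (nat_lit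 0) (nat_lit 9876047754) (nat_lit 608) (nat_lit 499850380) (nat_lit 76) (nat_lit 294009) (nat_lit 296) (nat_lit 5) (nat_lit 304) (nat_lit 5) (nat_lit 297) (nat_lit 5) (nat_lit 387) (nat_lit 349) (nat_lit 284)) (XT.nd (nat_lit 78) (nat_lit 456) (nat_lit 0) (XT.lf (nat_lit 0) (nat_lit 2063249342) (nat_lit 532) (nat_lit 4294002514) (nat_lit 76) (nat_lit 4177038286) (nat_lit 289) (nat_lit 5) (nat_lit 296) (nat_lit 5) (nat_lit 290) (nat_lit 5) (nat_lit 388) (nat_lit 349) (nat_lit 283)) (XT.lf (nat_lit 0) (nat_lit 2495965095) (nat_lit 456) (nat_lit 2191785920) (nat_lit 532) (nat_lit 6009403752) (nat_lit 283) (nat_lit 5) (nat_lit 289) (nat_lit 5) (nat_lit 290) (nat_lit 5) (nat_lit 389) (nat_lit 349) (nat_lit 282)))) (XT.nd (nat_lit 78) (nat_lit 912) (nat_lit 0) (XT.lf (nat_lit 0) (nat_lit 7420632732) (nat_lit 532) (nat_lit 1350700444) (nat_lit 76) (nat_lit 2092682804) (nat_lit 283) (nat_lit 5) (nat_lit 290)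 (nat_lit 5) (nat_lit 284) (nat_lit 5) (nat_lit 390) (nat_lit 349) (nat_lit 281)) (XT.nd (nat_lit 78) (nat_lit 532) (nat_lit 0) (XT.lf (nat_lit 0) (nat_lit 5753002514) (nat_lit 380) (nat_lit 4526181414) (nat_lit 456) (nat_lit 755388610) (nat_lit 278) (nat_lit 5) (nat_lit 283) (nat_lit 5) (nat_lit 284) (nat_lit 5) (nat_lit 391) (nat_lit 349) (nat_lit 280)) (XT.lf (nat_lit 0) (nat_lit 1861403008) (nat_lit 456) (nat_lit 111143553) (nat_lit 532) (nat_lit 9237161065) (nat_lit 271) (nat_lit 5) (nat_lit 277) (nat_lit 5) (nat_lit 278) (nat_lit 5) (nat_lit 392) (nat_lit 349) (nat_lit 279)))))) (XT.nd (nat_lit 468) (nat_lit 1140) (nat_lit 0) (XT.nd (nat_lit 234) (nat_lit 836) (nat_lit 0) (XT.nd (nat_lit 78) (nat_lit 760) (nat_lit 0) (XT.lf (nat_lit 0) (nat_lit 4831018328) (nat_lit 532) (nat_lit 2155772314) (nat_lit 76) (nat_lit 4401165320) (nat_lit 271) (nat_lit 5) (nat_lit 278) (nat_lit 5) (nat_lit 272) (nat_lit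 5) (nat_lit 393) (nat_lit 349) (nat_lit 278)) (XT.nd (nat_lit 78) (nat_lit 380) (nat_lit 0) (XT.lf (nat_lit 0) (nat_lit 5312820634) (nat_lit 380) (nat_lit 2482919055) (nat_lit 456) (nat_lit 3775197194) (nat_lit 266) (nat_lit 5) (nat_lit 271) (nat_lit 5) (nat_lit 272) (nat_lit 5) (nat_lit 394) (nat_lit 349) (nat_lit 277)) (XT.lf (nat_lit 0) (nat_lit 1251688180) (nat_lit 380) (nat_lit 9621198540) (nat_lit 456) (nat_lit 885815991) (nat_lit 261) (nat_lit 5) (nat_lit 266) (nat_lit 5) (nat_lit 267) (nat_lit 5) (nat_lit 395) (nat_lit 349) (nat_lit 276)))) (XT.nd (nat_lit 78) (nat_lit 760) (nat_lit 0) (XT.lf (nat_lit 0) (nat_lit 2106803590) (nat_lit 456) (nat_lit 2923339124) (nat_lit 76) (nat_lit 6919635663) (nat_lit 260) (nat_lit 5) (nat_lit 266) (nat_lit 5) (nat_lit 261) (nat_lit 5) (nat_lit 396) (nat_lit 349) (nat_lit 275)) (XT.nd (nat_lit 78) (nat_lit 380) (nat_lit 0) (XT.lf (nat_lit 0) (nat_lit 4933696230)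 (nat_lit 380) (nat_lit 254973264) (nat_lit 456) (nat_lit 6957135553) (nat_lit 255) (nat_lit 5) (nat_lit 260) (nat_lit 5) (nat_lit 261) (nat_lit 5) (nat_lit 397) (nat_lit 349) (nat_lit 274)) (XT.lf (nat_lit 0) (nat_lit 665380477) (nat_lit 380) (nat_lit 7748863751) (nat_lit 456) (nat_lit 3931930702) (nat_lit 250) (nat_lit 5) (nat_lit 255) (nat_lit 5) (nat_lit 256) (nat_lit 5) (nat_lit 398) (nat_lit 349) (nat_lit 273))))) (XT.nd (nat_lit 234) (nat_lit 380) (nat_lit 0) (XT.nd (nat_lit 78) (nat_lit 760) (nat_lit 0) (XT.lf (nat_lit 0) (nat_lit 8882848304) (nat_lit 380) (nat_lit 2899749861) (nat_lit 456) (nat_lit 768577387) (nat_lit 250) (nat_lit 5) (nat_lit 255) (nat_lit 5) (nat_lit 256) (nat_lit 5) (nat_lit 399) (nat_lit 349) (nat_lit 272)) (XT.nd (nat_lit 78) (nat_lit 380) (nat_lit 0) (XT.lf (nat_lit 0) (nat_lit 2477354961) (nat_lit 380) (nat_lit 8172278078) (nat_lit 76) (nat_lit 2110887354) (nat_lit 245)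 (nat_lit 5) (nat_lit 250) (nat_lit 5) (nat_lit 246) (nat_lit 5) (nat_lit 400) (nat_lit 349) (nat_lit 271)) (XT.lf (nat_lit 0) (nat_lit 116965532) (nat_lit 380) (nat_lit 5727081861) (nat_lit 456) (nat_lit 7130705005) (nat_lit 240) (nat_lit 5) (nat_lit 245) (nat_lit 5) (nat_lit 246) (nat_lit 5) (nat_lit 401) (nat_lit 349) (nat_lit 270)))) (XT.nd (nat_lit 78) (nat_lit 380) (nat_lit 0) (XT.lf (nat_lit 0) (nat_lit 8781513219) (nat_lit 380) (nat_lit 584771192) (nat_lit 456) (nat_lit 3827490636) (nat_lit 240) (nat_lit 5) (nat_lit 245) (nat_lit 5) (nat_lit 246) (nat_lit 5) (nat_lit 402) (nat_lit 349) (nat_lit 269)) (XT.nd (nat_lit 78) (nat_lit 76) (nat_lit 0) (XT.lf (nat_lit 0) (nat_lit 4284542878) (nat_lit 304) (nat_lit 8768838337) (nat_lit 380) (nat_lit 364211381) (nat_lit 236) (nat_lit 5) (nat_lit 240) (nat_lit 5) (nat_lit 241) (nat_lit 5) (nat_lit 403) (nat_lit 349) (nat_lit 268)) (XT.lf (nat_lit 0) (nat_lit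 3164109320) (nat_lit 380) (nat_lit 391653323) (nat_lit 76) (nat_lit 10090729028) (nat_lit 235) (nat_lit 5) (nat_lit 240) (nat_lit 5) (nat_lit 236) (nat_lit 5) (nat_lit 404) (nat_lit 349) (nat_lit 267))))))) (XT.nd (nat_lit 936) (nat_lit 1900) (nat_lit 0) (XT.nd (nat_lit 468) (nat_lit 1216) (nat_lit 0) (XT.nd (nat_lit 234) (nat_lit 532) (nat_lit 0) (XT.nd (nat_lit 78) (nat_lit 380) (nat_lit 0) (XT.lf (nat_lit 0) (nat_lit 6866795025) (nat_lit 380) (nat_lit 5159040847) (nat_lit 76) (nat_lit 1854038593) (nat_lit 231) (nat_lit 5) (nat_lit 236) (nat_lit 5) (nat_lit 232) (nat_lit 5) (nat_lit 405) (nat_lit 349) (nat_lit 266)) (XT.nd (nat_lit 78) (nat_lit 76) (nat_lit 0) (XT.lf (nat_lit 0) (nat_lit 3997717688) (nat_lit 304) (nat_lit 6734388331) (nat_lit 380) (nat_lit 3386606384) (nat_lit 227) (nat_lit 5) (nat_lit 231) (nat_lit 5) (nat_lit 232) (nat_lit 5) (nat_lit 406) (nat_lit 349) (nat_lit 265)) (XT.lf (nat_lit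 0) (nat_lit 368513810) (nat_lit 380) (nat_lit 871844739) (nat_lit 76) (nat_lit 13123456687) (nat_lit 226) (nat_lit 5) (nat_lit 231) (nat_lit 5) (nat_lit 227) (nat_lit 5) (nat_lit 407) (nat_lit 349) (nat_lit 264)))) (XT.nd (nat_lit 78) (nat_lit 228) (nat_lit 0) (XT.lf (nat_lit 0) (nat_lit 4270673859) (nat_lit 380) (nat_lit 5903546948) (nat_lit 76) (nat_lit 4437970812) (nat_lit 222) (nat_lit 5) (nat_lit 227) (nat_lit 5) (nat_lit 223) (nat_lit 5) (nat_lit 408) (nat_lit 349) (nat_lit 263)) (XT.nd (nat_lit 78) (nat_lit 0) (nat_lit 0) (XT.lf (nat_lit 0) (nat_lit 3748607576) (nat_lit 228) (nat_lit 4573535304) (nat_lit 304) (nat_lit 6544909090) (nat_lit 219) (nat_lit 5) (nat_lit 222) (nat_lit 5) (nat_lit 223) (nat_lit 5) (nat_lit 409) (nat_lit 349) (nat_lit 262)) (XT.lf (nat_lit 0) (nat_lit 12542111751) (nat_lit 304) (nat_lit 1367568042) (nat_lit 76) (nat_lit 1218469665) (nat_lit 219) (nat_lit 5) (nat_lit 223)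 (nat_lit 5) (nat_lit 220) (nat_lit 5) (nat_lit 410) (nat_lit 349) (nat_lit 261))))) (XT.nd (nat_lit 234) (nat_lit 608) (nat_lit 0) (XT.nd (nat_lit 78) (nat_lit 228) (nat_lit 0) (XT.lf (nat_lit 0) (nat_lit 1569045006) (nat_lit 380) (nat_lit 6645660548) (nat_lit 76) (nat_lit 7178747621) (nat_lit 214) (nat_lit 5) (nat_lit 219) (nat_lit 5) (nat_lit 215) (nat_lit 5) (nat_lit 411) (nat_lit 349) (nat_lit 260)) (XT.nd (nat_lit 78) (nat_lit 0) (nat_lit 0) (XT.lf (nat_lit 0) (nat_lit 3533527614) (nat_lit 228) (nat_lit 2287275885) (nat_lit 304) (nat_lit 9844424372) (nat_lit 211) (nat_lit 5) (nat_lit 214) (nat_lit 5) (nat_lit 215) (nat_lit 5) (nat_lit 412) (nat_lit 349) (nat_lit 259)) (XT.lf (nat_lit 0) (nat_lit 10280874415) (nat_lit 304) (nat_lit 1864415347) (nat_lit 76) (nat_lit 3797443254) (nat_lit 211) (nat_lit 5) (nat_lit 215) (nat_lit 5) (nat_lit 212) (nat_lit 5) (nat_lit 413) (nat_lit 349) (nat_lit 258))))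 (XT.nd (nat_lit 78) (nat_lit 304) (nat_lit 0) (XT.lf (nat_lit 0) (nat_lit 8823301083) (nat_lit 304) (nat_lit 6135884691) (nat_lit 380) (nat_lit 1266844394) (nat_lit 207) (nat_lit 5) (nat_lit 211) (nat_lit 5) (nat_lit 212) (nat_lit 5) (nat_lit 414) (nat_lit 349) (nat_lit 257)) (XT.nd (nat_lit 78) (nat_lit 0) (nat_lit 0) (XT.lf (nat_lit 0) (nat_lit 3225880463) (nat_lit 304) (nat_lit 13168004504) (nat_lit 76) (nat_lit 122116898) (nat_lit 203) (nat_lit 5) (nat_lit 207) (nat_lit 5) (nat_lit 204) (nat_lit 5) (nat_lit 415) (nat_lit 349) (nat_lit 256)) (XT.lf (nat_lit 0) (nat_lit 7941415770) (nat_lit 304) (nat_lit 2350854882) (nat_lit 76) (nat_lit 6518621041) (nat_lit 203) (nat_lit 5) (nat_lit 207) (nat_lit 5) (nat_lit 204) (nat_lit 5) (nat_lit 416) (nat_lit 349) (nat_lit 255)))))) (XT.nd (nat_lit 468) (nat_lit 836) (nat_lit 0) (XT.nd (nat_lit 234) (nat_lit 532) (nat_lit 0) (XT.nd (nat_lit 78) (nat_lit 304)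 (nat_lit 0) (XT.lf (nat_lit 0) (nat_lit 8928745511) (nat_lit 228) (nat_lit 3933409424) (nat_lit 304) (nat_lit 4250561146) (nat_lit 200) (nat_lit 5) (nat_lit 203) (nat_lit 5) (nat_lit 204) (nat_lit 5) (nat_lit 417) (nat_lit 349) (nat_lit 254)) (XT.nd (nat_lit 78) (nat_lit 0) (nat_lit 0) (XT.lf (nat_lit 0) (nat_lit 555286458) (nat_lit 304) (nat_lit 14255209806) (nat_lit 76) (nat_lit 2611205035) (nat_lit 196) (nat_lit 5) (nat_lit 200) (nat_lit 5) (nat_lit 197) (nat_lit 5) (nat_lit 418) (nat_lit 349) (nat_lit 253)) (XT.lf (nat_lit 0) (nat_lit 5520431007) (nat_lit 304) (nat_lit 2830628782) (nat_lit 76) (nat_lit 9384617133) (nat_lit 196) (nat_lit 5) (nat_lit 200) (nat_lit 5) (nat_lit 197) (nat_lit 5) (nat_lit 419) (nat_lit 349) (nat_lit 252)))) (XT.nd (nat_lit 78) (nat_lit 304) (nat_lit 0) (XT.lf (nat_lit 0) (nat_lit 9078370393) (nat_lit 228) (nat_lit 1622211442) (nat_lit 304) (nat_lit 7356508422) (nat_lit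 193) (nat_lit 5) (nat_lit 196) (nat_lit 5) (nat_lit 197) (nat_lit 5) (nat_lit 420) (nat_lit 349) (nat_lit 251)) (XT.nd (nat_lit 78) (nat_lit 76) (nat_lit 0) (XT.lf (nat_lit 0) (nat_lit 2986731614) (nat_lit 228) (nat_lit 13136940233) (nat_lit 304) (nat_lit 2261848105) (nat_lit 190) (nat_lit 5) (nat_lit 193) (nat_lit 5) (nat_lit 194) (nat_lit 5) (nat_lit 421) (nat_lit 349) (nat_lit 250)) (XT.lf (nat_lit 0) (nat_lit 3014015665) (nat_lit 304) (nat_lit 3307223730) (nat_lit 76) (nat_lit 12399103410) (nat_lit 189) (nat_lit 5) (nat_lit 193) (nat_lit 5) (nat_lit 190) (nat_lit 5) (nat_lit 422) (nat_lit 349) (nat_lit 249))))) (XT.nd (nat_lit 234) (nat_lit 380) (nat_lit 0) (XT.nd (nat_lit 78) (nat_lit 228) (nat_lit 0) (XT.lf (nat_lit 0) (nat_lit 8479107724) (nat_lit 304) (nat_lit 9799203604) (nat_lit 76) (nat_lit 783934782) (nat_lit 186) (nat_lit 5) (nat_lit 190) (nat_lit 5) (nat_lit 187) (nat_lit 5) (nat_lit 423)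 (nat_lit 349) (nat_lit 248)) (XT.nd (nat_lit 78) (nat_lit 76) (nat_lit 0) (XT.lf (nat_lit 0) (nat_lit 2822188617) (nat_lit 152) (nat_lit 11389143562) (nat_lit 228) (nat_lit 5199978947) (nat_lit 184) (nat_lit 5) (nat_lit 186) (nat_lit 5) (nat_lit 187) (nat_lit 5) (nat_lit 424) (nat_lit 349) (nat_lit 247)) (XT.lf (nat_lit 0) (nat_lit 417680406) (nat_lit 228) (nat_lit 3783909156) (nat_lit 76) (nat_lit 15566767202) (nat_lit 183) (nat_lit 5) (nat_lit 186) (nat_lit 5) (nat_lit 184) (nat_lit 5) (nat_lit 425) (nat_lit 349) (nat_lit 246)))) (XT.nd (nat_lit 78) (nat_lit 152) (nat_lit 0) (XT.lf (nat_lit 0) (nat_lit 6203169649) (nat_lit 304) (nat_lit 10658823683) (nat_lit 76) (nat_lit 3269461457) (nat_lit 180) (nat_lit 5) (nat_lit 184) (nat_lit 5) (nat_lit 181) (nat_lit 5) (nat_lit 426) (nat_lit 349) (nat_lit 245)) (XT.nd (nat_lit 78) (nat_lit 0) (nat_lit 0) (XT.lf (nat_lit 0) (nat_lit 2676451153) (nat_lit 152)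 (nat_lit 9572188877) (nat_lit 228) (nat_lit 8254213229) (nat_lit 178) (nat_lit 5) (nat_lit 180) (nat_lit 5) (nat_lit 181) (nat_lit 5) (nat_lit 427) (nat_lit 349) (nat_lit 244)) (XT.lf (nat_lit 0) (nat_lit 16596679954) (nat_lit 152) (nat_lit 1967173254) (nat_lit 228) (nat_lit 2318889116) (nat_lit 178) (nat_lit 5) (nat_lit 180) (nat_lit 5) (nat_lit 181) (nat_lit 5) (nat_lit 428) (nat_lit 349) (nat_lit 243))))))))
noncomputable def xc69 : XT := (XT.nd (nat_lit 48282) (nat_lit 0) (nat_lit 8816) (XT.nd (nat_lit 47346) (nat_lit 0) (nat_lit 19760) (XT.nd (nat_lit 390) (nat_lit 0) (nat_lit 0) (XT.nd (nat_lit 156) (nat_lit 380) (nat_lit 0) (XT.nd (nat_lit 78) (nat_lit 152) (nat_lit 0) (XT.lf (nat_lit 0) (nat_lit 3853145140) (nat_lit 304) (nat_lit 11546327452) (nat_lit 76) (nat_lit 5869480378) (nat_lit 174) (nat_lit 5) (nat_lit 178) (nat_lit 5) (nat_lit 175) (nat_lit 5) (nat_lit 429) (nat_lit 349) (nat_lit 242))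 (XT.lf (nat_lit 0) (nat_lit 2547735589) (nat_lit 152) (nat_lit 7684896279) (nat_lit 228) (nat_lit 11431362322) (nat_lit 172) (nat_lit 5) (nat_lit 174) (nat_lit 5) (nat_lit 175) (nat_lit 5) (nat_lit 430) (nat_lit 349) (nat_lit 241))) (XT.nd (nat_lit 78) (nat_lit 380) (nat_lit 0) (XT.lf (nat_lit 0) (nat_lit 16905080140) (nat_lit 228) (nat_lit 4802937170) (nat_lit 76) (nat_lit 359822030) (nat_lit 172) (nat_lit 5) (nat_lit 175) (nat_lit 5) (nat_lit 173) (nat_lit 5) (nat_lit 431) (nat_lit 349) (nat_lit 240)) (XT.nd (nat_lit 78) (nat_lit 152) (nat_lit 0) (XT.lf (nat_lit 0) (nat_lit 1424517851) (nat_lit 228) (nat_lit 12466000350) (nat_lit 76) (nat_lit 8588232575) (nat_lit 169) (nat_lit 5) (nat_lit 172) (nat_lit 5) (nat_lit 170) (nat_lit 5) (nat_lit 432) (nat_lit 349) (nat_lit 239)) (XT.lf (nat_lit 0) (nat_lit 2434467961) (nat_lit 152) (nat_lit 5725466526) (nat_lit 228) (nat_lit 14738892947) (nat_lit 167) (nat_lit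 5) (nat_lit 169) (nat_lit 5) (nat_lit 170) (nat_lit 5) (nat_lit 433) (nat_lit 349) (nat_lit 238))))) (XT.nd (nat_lit 46722) (nat_lit 0) (nat_lit 22952) (XT.nd (nat_lit 46566) (nat_lit 0) (nat_lit 22952) (XT.lf (nat_lit 0) (nat_lit 15232337648) (nat_lit 228) (nat_lit 5349645364) (nat_lit 76) (nat_lit 2745475658) (nat_lit 167) (nat_lit 5) (nat_lit 170) (nat_lit 5) (nat_lit 168) (nat_lit 5) (nat_lit 434) (nat_lit 349) (nat_lit 237)) (XT.nd (nat_lit 78) (nat_lit 684) (nat_lit 0) (XT.lf (nat_lit 0) (nat_lit 2922815464) (nat_lit 684) (nat_lit 254710058) (nat_lit 684) (nat_lit 254710058) (nat_lit 478) (nat_lit 3) (nat_lit 487) (nat_lit 3) (nat_lit 487) (nat_lit 5) (nat_lit 350) (nat_lit 350) (nat_lit 320)) (XT.lf (nat_lit 0) (nat_lit 983185760) (nat_lit 684) (nat_lit 3936765601) (nat_lit 760) (nat_lit 1987871215) (nat_lit 469) (nat_lit 5) (nat_lit 478) (nat_lit 3) (nat_lit 479) (nat_lit 5) (nat_lit 351) (nat_lit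 350) (nat_lit 319)))) (XT.nd (nat_lit 78) (nat_lit 0) (nat_lit 0) (XT.lf (nat_lit 0) (nat_lit 2952789134) (nat_lit 684) (nat_lit 437554543) (nat_lit 760) (nat_lit 3563988398) (nat_lit 469) (nat_lit 5) (nat_lit 478) (nat_lit 3) (nat_lit 479) (nat_lit 5) (nat_lit 352) (nat_lit 350) (nat_lit 318)) (XT.nd (nat_lit 78) (nat_lit 0) (nat_lit 0) (XT.lf (nat_lit 76) (nat_lit 3188574911) (nat_lit 0) (nat_lit 1748604002) (nat_lit 760) (nat_lit 2066386999) (nat_lit 470) (nat_lit 5) (nat_lit 469) (nat_lit 5) (nat_lit 479) (nat_lit 5) (nat_lit 353) (nat_lit 350) (nat_lit 317)) (XT.lf (nat_lit 76) (nat_lit 6892574060) (nat_lit 0) (nat_lit 19792227) (nat_lit 760) (nat_lit 143972498) (nat_lit 470) (nat_lit 5) (nat_lit 469) (nat_lit 5) (nat_lit 479) (nat_lit 5) (nat_lit 354) (nat_lit 350) (nat_lit 316)))))) (XT.nd (nat_lit 468) (nat_lit 1748) (nat_lit 0) (XT.nd (nat_lit 234) (nat_lit 760) (nat_lit 0) (XT.nd (nat_lit 78)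 (nat_lit 0) (nat_lit 0) (XT.lf (nat_lit 0) (nat_lit 1781006702) (nat_lit 760) (nat_lit 3519388633) (nat_lit 836) (nat_lit 1810348371) (nat_lit 460) (nat_lit 5) (nat_lit 470) (nat_lit 5) (nat_lit 471) (nat_lit 5) (nat_lit 355) (nat_lit 350) (nat_lit 315)) (XT.nd (nat_lit 78) (nat_lit 0) (nat_lit 0) (XT.lf (nat_lit 76) (nat_lit 256983934) (nat_lit 0) (nat_lit 3438466716) (nat_lit 836) (nat_lit 3473249088) (nat_lit 461) (nat_lit 5) (nat_lit 460) (nat_lit 5) (nat_lit 471) (nat_lit 5) (nat_lit 356) (nat_lit 350) (nat_lit 314)) (XT.lf (nat_lit 76) (nat_lit 4177057643) (nat_lit 0) (nat_lit 1457711667) (nat_lit 836) (nat_lit 1594601898) (nat_lit 461) (nat_lit 5) (nat_lit 460) (nat_lit 5) (nat_lit 471) (nat_lit 5) (nat_lit 357) (nat_lit 350) (nat_lit 313)))) (XT.nd (nat_lit 78) (nat_lit 0) (nat_lit 0) (XT.lf (nat_lit 0) (nat_lit 281555065) (nat_lit 836) (nat_lit 6404245532) (nat_lit 912) (nat_lit 607530275) (nat_lit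 450) (nat_lit 5) (nat_lit 461) (nat_lit 5) (nat_lit 462) (nat_lit 5) (nat_lit 358) (nat_lit 350) (nat_lit 312)) (XT.nd (nat_lit 78) (nat_lit 0) (nat_lit 0) (XT.lf (nat_lit 0) (nat_lit 2162513497) (nat_lit 836) (nat_lit 2421137469) (nat_lit 912) (nat_lit 2775667715) (nat_lit 450) (nat_lit 5) (nat_lit 461) (nat_lit 5) (nat_lit 462) (nat_lit 5) (nat_lit 359) (nat_lit 350) (nat_lit 311)) (XT.lf (nat_lit 76) (nat_lit 1671733567) (nat_lit 0) (nat_lit 2381136196) (nat_lit 912) (nat_lit 3375827288) (nat_lit 451) (nat_lit 5) (nat_lit 450) (nat_lit 5) (nat_lit 462) (nat_lit 5) (nat_lit 360) (nat_lit 350) (nat_lit 310))))) (XT.nd (nat_lit 234) (nat_lit 912) (nat_lit 0) (XT.nd (nat_lit 78) (nat_lit 836) (nat_lit 0) (XT.lf (nat_lit 76) (nat_lit 5895085082) (nat_lit 0) (nat_lit 67634495) (nat_lit 912) (nat_lit 1538553710) (nat_lit 451) (nat_lit 5) (nat_lit 450) (nat_lit 5) (nat_lit 462) (nat_lit 5) (nat_lit 361) (nat_lit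 350) (nat_lit 309)) (XT.nd (nat_lit 78) (nat_lit 0) (nat_lit 0) (XT.lf (nat_lit 0) (nat_lit 334916732) (nat_lit 912) (nat_lit 4923680245) (nat_lit 988) (nat_lit 2317688294) (nat_lit 439) (nat_lit 5) (nat_lit 451) (nat_lit 5) (nat_lit 452) (nat_lit 5) (nat_lit 362) (nat_lit 350) (nat_lit 308)) (XT.lf (nat_lit 0) (nat_lit 2191786076) (nat_lit 912) (nat_lit 640486768) (nat_lit 988) (nat_lit 4822074229) (nat_lit 439) (nat_lit 5) (nat_lit 451) (nat_lit 5) (nat_lit 452) (nat_lit 5) (nat_lit 363) (nat_lit 350) (nat_lit 307)))) (XT.nd (nat_lit 78) (nat_lit 912) (nat_lit 0) (XT.lf (nat_lit 76) (nat_lit 3803233183) (nat_lit 0) (nat_lit 280472376) (nat_lit 988) (nat_lit 3651664848) (nat_lit 440) (nat_lit 5) (nat_lit 439) (nat_lit 5) (nat_lit 452) (nat_lit 5) (nat_lit 364) (nat_lit 350) (nat_lit 306)) (XT.nd (nat_lit 78) (nat_lit 76) (nat_lit 0) (XT.lf (nat_lit 0) (nat_lit 518666058) (nat_lit 912) (nat_lit 5491989567)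 (nat_lit 988) (nat_lit 1808820627) (nat_lit 428) (nat_lit 5) (nat_lit 440) (nat_lit 5) (nat_lit 441) (nat_lit 5) (nat_lit 365) (nat_lit 350) (nat_lit 305)) (XT.lf (nat_lit 0) (nat_lit 75299594) (nat_lit 988) (nat_lit 2769599749) (nat_lit 76) (nat_lit 5061548170) (nat_lit 427) (nat_lit 5) (nat_lit 440) (nat_lit 5) (nat_lit 428) (nat_lit 5) (nat_lit 366) (nat_lit 350) (nat_lit 304))))))) (XT.nd (nat_lit 936) (nat_lit 4332) (nat_lit 0) (XT.nd (nat_lit 468) (nat_lit 2128) (nat_lit 0) (XT.nd (nat_lit 234) (nat_lit 2432) (nat_lit 0) (XT.nd (nat_lit 78) (nat_lit 1064) (nat_lit 0) (XT.lf (nat_lit 0) (nat_lit 1873224752) (nat_lit 988) (nat_lit 70832317) (nat_lit 1064) (nat_lit 6052499497) (nat_lit 414) (nat_lit 5) (nat_lit 427) (nat_lit 5) (nat_lit 428) (nat_lit 5) (nat_lit 367) (nat_lit 350) (nat_lit 303)) (XT.nd (nat_lit 78) (nat_lit 1064) (nat_lit 0) (XT.lf (nat_lit 0) (nat_lit 3871614373) (nat_lit 1064) (nat_lit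 1447695309) (nat_lit 76) (nat_lit 2769977094) (nat_lit 414) (nat_lit 5) (nat_lit 428) (nat_lit 5) (nat_lit 415) (nat_lit 5) (nat_lit 368) (nat_lit 350) (nat_lit 302)) (XT.lf (nat_lit 0) (nat_lit 3390750978) (nat_lit 1064) (nat_lit 2448773326) (nat_lit 1140) (nat_lit 2345798812) (nat_lit 400) (nat_lit 5) (nat_lit 414) (nat_lit 5) (nat_lit 415) (nat_lit 5) (nat_lit 369) (nat_lit 350) (nat_lit 301)))) (XT.nd (nat_lit 78) (nat_lit 1292) (nat_lit 0) (XT.lf (nat_lit 0) (nat_lit 72550852) (nat_lit 1140) (nat_lit 7764633710) (nat_lit 1216) (nat_lit 447934592) (nat_lit 385) (nat_lit 5) (nat_lit 400) (nat_lit 5) (nat_lit 401) (nat_lit 5) (nat_lit 370) (nat_lit 350) (nat_lit 300)) (XT.nd (nat_lit 78) (nat_lit 1216) (nat_lit 0) (XT.lf (nat_lit 0) (nat_lit 1501516457) (nat_lit 1216) (nat_lit 3286302595) (nat_lit 76) (nat_lit 3598933818) (nat_lit 384) (nat_lit 5) (nat_lit 400) (nat_lit 5) (nat_lit 385) (nat_lit 5)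 (nat_lit 371) (nat_lit 350) (nat_lit 299)) (XT.lf (nat_lit 0) (nat_lit 1774636911) (nat_lit 1216) (nat_lit 1695214501) (nat_lit 1292) (nat_lit 5022369031) (nat_lit 368) (nat_lit 5) (nat_lit 384) (nat_lit 5) (nat_lit 385) (nat_lit 5) (nat_lit 372) (nat_lit 350) (nat_lit 298))))) (XT.nd (nat_lit 234) (nat_lit 608) (nat_lit 0) (XT.nd (nat_lit 78) (nat_lit 1520) (nat_lit 0) (XT.lf (nat_lit 0) (nat_lit 5498431404) (nat_lit 1292) (nat_lit 1604059894) (nat_lit 76) (nat_lit 1498324897) (nat_lit 368) (nat_lit 5) (nat_lit 385) (nat_lit 5) (nat_lit 369) (nat_lit 5) (nat_lit 373) (nat_lit 350) (nat_lit 297)) (XT.nd (nat_lit 78) (nat_lit 684) (nat_lit 0) (XT.lf (nat_lit 0) (nat_lit 3674762900) (nat_lit 836) (nat_lit 3919929606) (nat_lit 912) (nat_lit 1117772601) (nat_lit 357) (nat_lit 5) (nat_lit 368) (nat_lit 5) (nat_lit 369) (nat_lit 5) (nat_lit 374) (nat_lit 350) (nat_lit 296)) (XT.lf (nat_lit 0) (nat_lit 270568821)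 (nat_lit 608) (nat_lit 611876645) (nat_lit 684) (nat_lit 7945526539) (nat_lit 348) (nat_lit 5) (nat_lit 356) (nat_lit 5) (nat_lit 357) (nat_lit 5) (nat_lit 375) (nat_lit 350) (nat_lit 295)))) (XT.nd (nat_lit 78) (nat_lit 608) (nat_lit 0) (XT.lf (nat_lit 0) (nat_lit 2954534580) (nat_lit 684) (nat_lit 3186903585) (nat_lit 76) (nat_lit 2804144013) (nat_lit 348) (nat_lit 5) (nat_lit 357) (nat_lit 5) (nat_lit 349) (nat_lit 5) (nat_lit 376) (nat_lit 350) (nat_lit 294)) (XT.nd (nat_lit 78) (nat_lit 0) (nat_lit 0) (XT.lf (nat_lit 0) (nat_lit 2341232338) (nat_lit 608) (nat_lit 2733481429) (nat_lit 684) (nat_lit 3992429069) (nat_lit 340) (nat_lit 5) (nat_lit 348) (nat_lit 5) (nat_lit 349) (nat_lit 5) (nat_lit 377) (nat_lit 350) (nat_lit 293)) (XT.lf (nat_lit 0) (nat_lit 7256651620) (nat_lit 684) (nat_lit 1142558441) (nat_lit 76) (nat_lit 793195654) (nat_lit 340) (nat_lit 5) (nat_lit 349) (nat_lit 5) (nat_lit 341)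 (nat_lit 5) (nat_lit 378) (nat_lit 350) (nat_lit 292)))))) (XT.nd (nat_lit 468) (nat_lit 1976) (nat_lit 0) (XT.nd (nat_lit 234) (nat_lit 1140) (nat_lit 0) (XT.nd (nat_lit 78) (nat_lit 608) (nat_lit 0) (XT.lf (nat_lit 0) (nat_lit 210328959) (nat_lit 608) (nat_lit 4693652867) (nat_lit 76) (nat_lit 4416453847) (nat_lit 332) (nat_lit 5) (nat_lit 340) (nat_lit 5) (nat_lit 333) (nat_lit 5) (nat_lit 379) (nat_lit 350) (nat_lit 291)) (XT.nd (nat_lit 78) (nat_lit 0) (nat_lit 0) (XT.lf (nat_lit 0) (nat_lit 1099814325) (nat_lit 608) (nat_lit 1264084334) (nat_lit 684) (nat_lit 7088372568) (nat_lit 324) (nat_lit 5) (nat_lit 332) (nat_lit 5) (nat_lit 333) (nat_lit 5) (nat_lit 380) (nat_lit 350) (nat_lit 290)) (XT.lf (nat_lit 0) (nat_lit 4614347116) (nat_lit 684) (nat_lit 2491459249) (nat_lit 76) (nat_lit 2481287332) (nat_lit 324) (nat_lit 5) (nat_lit 333) (nat_lit 5) (nat_lit 325) (nat_lit 5) (nat_lit 381) (nat_lit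 350) (nat_lit 289)))) (XT.nd (nat_lit 78) (nat_lit 608) (nat_lit 0) (XT.lf (nat_lit 0) (nat_lit 3559828988) (nat_lit 532) (nat_lit 3380883197) (nat_lit 608) (nat_lit 2784996562) (nat_lit 317) (nat_lit 5) (nat_lit 324) (nat_lit 5) (nat_lit 325) (nat_lit 5) (nat_lit 382) (nat_lit 350) (nat_lit 288)) (XT.nd (nat_lit 78) (nat_lit 608) (nat_lit 0) (XT.lf (nat_lit 0) (nat_lit 9328994922) (nat_lit 608) (nat_lit 71787527) (nat_lit 76) (nat_lit 467935998) (nat_lit 317) (nat_lit 5) (nat_lit 325) (nat_lit 5) (nat_lit 318) (nat_lit 5) (nat_lit 383) (nat_lit 350) (nat_lit 287)) (XT.lf (nat_lit 0) (nat_lit 1795880408) (nat_lit 608) (nat_lit 3780168463) (nat_lit 76) (nat_lit 4437731242) (nat_lit 309) (nat_lit 5) (nat_lit 317) (nat_lit 5) (nat_lit 310) (nat_lit 5) (nat_lit 384) (nat_lit 350) (nat_lit 286))))) (XT.nd (nat_lit 234) (nat_lit 988) (nat_lit 0) (XT.nd (nat_lit 78) (nat_lit 532) (nat_lit 0) (XT.lf (nat_lit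 0) (nat_lit 2569041063) (nat_lit 456) (nat_lit 1610835944) (nat_lit 532) (nat_lit 5983481136) (nat_lit 303) (nat_lit 5) (nat_lit 309) (nat_lit 5) (nat_lit 310) (nat_lit 5) (nat_lit 385) (nat_lit 350) (nat_lit 285)) (XT.nd (nat_lit 78) (nat_lit 532) (nat_lit 0) (XT.lf (nat_lit 0) (nat_lit 6662058709) (nat_lit 532) (nat_lit 1197021167) (nat_lit 76) (nat_lit 2457543681) (nat_lit 303) (nat_lit 5) (nat_lit 310) (nat_lit 5) (nat_lit 304) (nat_lit 5) (nat_lit 386) (nat_lit 350) (nat_lit 284)) (XT.lf (nat_lit 0) (nat_lit 5440855925) (nat_lit 532) (nat_lit 3811478068) (nat_lit 608) (nat_lit 1221144096) (nat_lit 296) (nat_lit 5) (nat_lit 303) (nat_lit 5) (nat_lit 304) (nat_lit 5) (nat_lit 387) (nat_lit 350) (nat_lit 283)))) (XT.nd (nat_lit 78) (nat_lit 456) (nat_lit 0) (XT.lf (nat_lit 0) (nat_lit 1257643280) (nat_lit 532) (nat_lit 8993090514) (nat_lit 76) (nat_lit 384010483) (nat_lit 289) (nat_lit 5) (nat_lit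 296) (nat_lit 5) (nat_lit 290) (nat_lit 5) (nat_lit 388) (nat_lit 350) (nat_lit 282)) (XT.nd (nat_lit 78) (nat_lit 456) (nat_lit 0) (XT.lf (nat_lit 0) (nat_lit 3841493502) (nat_lit 532) (nat_lit 2272697099) (nat_lit 76) (nat_lit 4684637845) (nat_lit 289) (nat_lit 5) (nat_lit 296) (nat_lit 5) (nat_lit 290) (nat_lit 5) (nat_lit 389) (nat_lit 350) (nat_lit 281)) (XT.lf (nat_lit 0) (nat_lit 4699889877) (nat_lit 456) (nat_lit 1815315359) (nat_lit 532) (nat_lit 4452259523) (nat_lit 283) (nat_lit 5) (nat_lit 289) (nat_lit 5) (nat_lit 290) (nat_lit 5) (nat_lit 390) (nat_lit 350) (nat_lit 280))))))))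
noncomputable def xc70 : XT := (XT.nd (nat_lit 1794) (nat_lit 3344) (nat_lit 0) (XT.nd (nat_lit 858) (nat_lit 2584) (nat_lit 0) (XT.nd (nat_lit 390) (nat_lit 1596) (nat_lit 0) (XT.nd (nat_lit 156) (nat_lit 836) (nat_lit 0) (XT.nd (nat_lit 78) (nat_lit 76) (nat_lit 0) (XT.lf (nat_lit 0) (nat_lit 735162611) (nat_lit 380) (nat_lit 8556974013) (nat_lit 456) (nat_lit 1848333288) (nat_lit 278) (nat_lit 5) (nat_lit 283) (nat_lit 5) (nat_lit 284) (nat_lit 5) (nat_lit 391) (nat_lit 350) (nat_lit 279)) (XT.lf (nat_lit 0) (nat_lit 867214792) (nat_lit 456) (nat_lit 3308764053) (nat_lit 76) (nat_lit 7140952769) (nat_lit 277) (nat_lit 5) (nat_lit 283) (nat_lit 5) (nat_lit 278) (nat_lit 5) (nat_lit 392) (nat_lit 350) (nat_lit 278))) (XT.nd (nat_lit 78) (nat_lit 380) (nat_lit 0) (XT.lf (nat_lit 0) (nat_lit 3638249351) (nat_lit 532) (nat_lit 7481423674) (nat_lit 76) (nat_lit 378130039) (nat_lit 271) (nat_lit 5) (nat_lit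 278) (nat_lit 5) (nat_lit 272) (nat_lit 5) (nat_lit 393) (nat_lit 350) (nat_lit 277)) (XT.nd (nat_lit 78) (nat_lit 380) (nat_lit 0) (XT.lf (nat_lit 0) (nat_lit 6536751618) (nat_lit 532) (nat_lit 136727373) (nat_lit 76) (nat_lit 5009291566) (nat_lit 271) (nat_lit 5) (nat_lit 278) (nat_lit 5) (nat_lit 272) (nat_lit 5) (nat_lit 394) (nat_lit 350) (nat_lit 276)) (XT.lf (nat_lit 0) (nat_lit 7535494754) (nat_lit 380) (nat_lit 2029293194) (nat_lit 456) (nat_lit 2307221760) (nat_lit 266) (nat_lit 5) (nat_lit 271) (nat_lit 5) (nat_lit 272) (nat_lit 5) (nat_lit 395) (nat_lit 350) (nat_lit 275))))) (XT.nd (nat_lit 234) (nat_lit 760) (nat_lit 0) (XT.nd (nat_lit 78) (nat_lit 380) (nat_lit 0) (XT.lf (nat_lit 0) (nat_lit 635837807) (nat_lit 456) (nat_lit 8699357916) (nat_lit 76) (nat_lit 2730618456) (nat_lit 260) (nat_lit 5) (nat_lit 266) (nat_lit 5) (nat_lit 261) (nat_lit 5) (nat_lit 396) (nat_lit 350) (nat_lit 274))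 (XT.nd (nat_lit 78) (nat_lit 380) (nat_lit 0) (XT.lf (nat_lit 0) (nat_lit 3655856489) (nat_lit 456) (nat_lit 958518331) (nat_lit 76) (nat_lit 7649321446) (nat_lit 260) (nat_lit 5) (nat_lit 266) (nat_lit 5) (nat_lit 261) (nat_lit 5) (nat_lit 397) (nat_lit 350) (nat_lit 273)) (XT.lf (nat_lit 0) (nat_lit 6809395363) (nat_lit 456) (nat_lit 5355168108) (nat_lit 76) (nat_lit 301663753) (nat_lit 255) (nat_lit 5) (nat_lit 261) (nat_lit 5) (nat_lit 256) (nat_lit 5) (nat_lit 398) (nat_lit 350) (nat_lit 272)))) (XT.nd (nat_lit 78) (nat_lit 380) (nat_lit 0) (XT.lf (nat_lit 0) (nat_lit 2735819618) (nat_lit 380) (nat_lit 7375407308) (nat_lit 456) (nat_lit 2561996591) (nat_lit 250) (nat_lit 5) (nat_lit 255) (nat_lit 5) (nat_lit 256) (nat_lit 5) (nat_lit 399) (nat_lit 350) (nat_lit 271)) (XT.nd (nat_lit 78) (nat_lit 304) (nat_lit 0) (XT.lf (nat_lit 0) (nat_lit 640179827) (nat_lit 456) (nat_lit 1751823837) (nat_lit 76)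 (nat_lit 10493444438) (nat_lit 249) (nat_lit 5) (nat_lit 255) (nat_lit 5) (nat_lit 250) (nat_lit 5) (nat_lit 400) (nat_lit 350) (nat_lit 270)) (XT.lf (nat_lit 0) (nat_lit 3951820045) (nat_lit 380) (nat_lit 6382280410) (nat_lit 76) (nat_lit 2767231217) (nat_lit 245) (nat_lit 5) (nat_lit 250) (nat_lit 5) (nat_lit 246) (nat_lit 5) (nat_lit 401) (nat_lit 350) (nat_lit 269)))))) (XT.nd (nat_lit 468) (nat_lit 1216) (nat_lit 0) (XT.nd (nat_lit 234) (nat_lit 608) (nat_lit 0) (XT.nd (nat_lit 78) (nat_lit 380) (nat_lit 0) (XT.lf (nat_lit 0) (nat_lit 2135687900) (nat_lit 380) (nat_lit 5262415908) (nat_lit 456) (nat_lit 5924529112) (nat_lit 240) (nat_lit 5) (nat_lit 245) (nat_lit 5) (nat_lit 246) (nat_lit 5) (nat_lit 402) (nat_lit 350) (nat_lit 268)) (XT.nd (nat_lit 78) (nat_lit 380) (nat_lit 0) (XT.lf (nat_lit 0) (nat_lit 10986000812) (nat_lit 456) (nat_lit 2548104693) (nat_lit 76) (nat_lit 15320957) (nat_lit 240)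 (nat_lit 5) (nat_lit 246) (nat_lit 5) (nat_lit 241) (nat_lit 5) (nat_lit 403) (nat_lit 350) (nat_lit 267)) (XT.lf (nat_lit 0) (nat_lit 969600028) (nat_lit 380) (nat_lit 7405599762) (nat_lit 76) (nat_lit 5404906241) (nat_lit 235) (nat_lit 5) (nat_lit 240) (nat_lit 5) (nat_lit 236) (nat_lit 5) (nat_lit 404) (nat_lit 350) (nat_lit 266)))) (XT.nd (nat_lit 78) (nat_lit 304) (nat_lit 0) (XT.lf (nat_lit 0) (nat_lit 1566817341) (nat_lit 304) (nat_lit 3005740022) (nat_lit 380) (nat_lit 9443923315) (nat_lit 231) (nat_lit 5) (nat_lit 235) (nat_lit 5) (nat_lit 236) (nat_lit 5) (nat_lit 405) (nat_lit 350) (nat_lit 265)) (XT.nd (nat_lit 78) (nat_lit 304) (nat_lit 0) (XT.lf (nat_lit 0) (nat_lit 8358072091) (nat_lit 380) (nat_lit 3360975716) (nat_lit 76) (nat_lit 2538664697) (nat_lit 231) (nat_lit 5) (nat_lit 236) (nat_lit 5) (nat_lit 232) (nat_lit 5) (nat_lit 406) (nat_lit 350) (nat_lit 264)) (XT.lf (nat_lit 0) (nat_lit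 6051340121) (nat_lit 304) (nat_lit 6269154971) (nat_lit 380) (nat_lit 2183785907) (nat_lit 227) (nat_lit 5) (nat_lit 231) (nat_lit 5) (nat_lit 232) (nat_lit 5) (nat_lit 407) (nat_lit 350) (nat_lit 263))))) (XT.nd (nat_lit 234) (nat_lit 608) (nat_lit 0) (XT.nd (nat_lit 78) (nat_lit 228) (nat_lit 0) (XT.lf (nat_lit 0) (nat_lit 1024065463) (nat_lit 304) (nat_lit 607061066) (nat_lit 380) (nat_lit 13126056444) (nat_lit 222) (nat_lit 5) (nat_lit 226) (nat_lit 5) (nat_lit 227) (nat_lit 5) (nat_lit 408) (nat_lit 350) (nat_lit 262)) (XT.nd (nat_lit 78) (nat_lit 228) (nat_lit 0) (XT.lf (nat_lit 0) (nat_lit 5628787988) (nat_lit 380) (nat_lit 4166851569) (nat_lit 76) (nat_lit 5218017993) (nat_lit 222) (nat_lit 5) (nat_lit 227) (nat_lit 5) (nat_lit 223) (nat_lit 5) (nat_lit 409) (nat_lit 350) (nat_lit 261)) (XT.lf (nat_lit 0) (nat_lit 5756104828) (nat_lit 228) (nat_lit 4028087461) (nat_lit 304) (nat_lit 5492499687)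 (nat_lit 219) (nat_lit 5) (nat_lit 222) (nat_lit 5) (nat_lit 223) (nat_lit 5) (nat_lit 410) (nat_lit 350) (nat_lit 260)))) (XT.nd (nat_lit 78) (nat_lit 304) (nat_lit 0) (XT.lf (nat_lit 0) (nat_lit 469348539) (nat_lit 304) (nat_lit 13636982121) (nat_lit 380) (nat_lit 1440024614) (nat_lit 215) (nat_lit 5) (nat_lit 219) (nat_lit 5) (nat_lit 220) (nat_lit 5) (nat_lit 411) (nat_lit 350) (nat_lit 259)) (XT.nd (nat_lit 78) (nat_lit 228) (nat_lit 0) (XT.lf (nat_lit 0) (nat_lit 2794430900) (nat_lit 380) (nat_lit 4971116072) (nat_lit 76) (nat_lit 8054360361) (nat_lit 214) (nat_lit 5) (nat_lit 219) (nat_lit 5) (nat_lit 215) (nat_lit 5) (nat_lit 412) (nat_lit 350) (nat_lit 258)) (XT.lf (nat_lit 0) (nat_lit 5495076025) (nat_lit 228) (nat_lit 1662182891) (nat_lit 304) (nat_lit 8943070850) (nat_lit 211) (nat_lit 5) (nat_lit 214) (nat_lit 5) (nat_lit 215) (nat_lit 5) (nat_lit 413) (nat_lit 350) (nat_lit 257))))))) (XT.nd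 (nat_lit 936) (nat_lit 1292) (nat_lit 0) (XT.nd (nat_lit 468) (nat_lit 912) (nat_lit 0) (XT.nd (nat_lit 234) (nat_lit 532) (nat_lit 0) (XT.nd (nat_lit 78) (nat_lit 608) (nat_lit 0) (XT.lf (nat_lit 0) (nat_lit 11723766366) (nat_lit 304) (nat_lit 91484560) (nat_lit 76) (nat_lit 4571730109) (nat_lit 211) (nat_lit 5) (nat_lit 215) (nat_lit 5) (nat_lit 212) (nat_lit 5) (nat_lit 414) (nat_lit 350) (nat_lit 256)) (XT.nd (nat_lit 78) (nat_lit 304) (nat_lit 0) (XT.lf (nat_lit 0) (nat_lit 10898933332) (nat_lit 304) (nat_lit 5627858841) (nat_lit 380) (nat_lit 152453975) (nat_lit 207) (nat_lit 5) (nat_lit 211) (nat_lit 5) (nat_lit 212) (nat_lit 5) (nat_lit 415) (nat_lit 350) (nat_lit 255)) (XT.lf (nat_lit 0) (nat_lit 4443844865) (nat_lit 304) (nat_lit 11720903661) (nat_lit 76) (nat_lit 813097756) (nat_lit 203) (nat_lit 5) (nat_lit 207) (nat_lit 5) (nat_lit 204) (nat_lit 5) (nat_lit 416) (nat_lit 350) (nat_lit 254))))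 (XT.nd (nat_lit 78) (nat_lit 532) (nat_lit 0) (XT.lf (nat_lit 0) (nat_lit 9268190271) (nat_lit 304) (nat_lit 632894142) (nat_lit 76) (nat_lit 7381478070) (nat_lit 203) (nat_lit 5) (nat_lit 207) (nat_lit 5) (nat_lit 204) (nat_lit 5) (nat_lit 417) (nat_lit 350) (nat_lit 253)) (XT.nd (nat_lit 78) (nat_lit 304) (nat_lit 0) (XT.lf (nat_lit 0) (nat_lit 10967560083) (nat_lit 228) (nat_lit 3354310187) (nat_lit 304) (nat_lit 3272011773) (nat_lit 200) (nat_lit 5) (nat_lit 203) (nat_lit 5) (nat_lit 204) (nat_lit 5) (nat_lit 418) (nat_lit 350) (nat_lit 252)) (XT.lf (nat_lit 0) (nat_lit 1648679987) (nat_lit 304) (nat_lit 12882582623) (nat_lit 76) (nat_lit 3380787680) (nat_lit 196) (nat_lit 5) (nat_lit 200) (nat_lit 5) (nat_lit 197) (nat_lit 5) (nat_lit 419) (nat_lit 350) (nat_lit 251))))) (XT.nd (nat_lit 234) (nat_lit 456) (nat_lit 0) (XT.nd (nat_lit 78) (nat_lit 456) (nat_lit 0) (XT.lf (nat_lit 0) (nat_lit 6731417662)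 (nat_lit 304) (nat_lit 1167699609) (nat_lit 76) (nat_lit 10337268748) (nat_lit 196) (nat_lit 5) (nat_lit 200) (nat_lit 5) (nat_lit 197) (nat_lit 5) (nat_lit 420) (nat_lit 350) (nat_lit 250)) (XT.nd (nat_lit 78) (nat_lit 228) (nat_lit 0) (XT.lf (nat_lit 0) (nat_lit 11081433776) (nat_lit 228) (nat_lit 971728125) (nat_lit 304) (nat_lit 6514694185) (nat_lit 193) (nat_lit 5) (nat_lit 196) (nat_lit 5) (nat_lit 197) (nat_lit 5) (nat_lit 421) (nat_lit 350) (nat_lit 249)) (XT.lf (nat_lit 0) (nat_lit 4814066779) (nat_lit 228) (nat_lit 12818061384) (nat_lit 304) (nat_lit 1274215003) (nat_lit 190) (nat_lit 5) (nat_lit 193) (nat_lit 5) (nat_lit 194) (nat_lit 5) (nat_lit 422) (nat_lit 350) (nat_lit 248)))) (XT.nd (nat_lit 78) (nat_lit 380) (nat_lit 0) (XT.lf (nat_lit 0) (nat_lit 4109185807) (nat_lit 304) (nat_lit 1699324325) (nat_lit 76) (nat_lit 13443300467) (nat_lit 189) (nat_lit 5) (nat_lit 193) (nat_lit 5) (nat_lit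 190) (nat_lit 5) (nat_lit 423) (nat_lit 350) (nat_lit 247)) (XT.nd (nat_lit 78) (nat_lit 152) (nat_lit 0) (XT.lf (nat_lit 0) (nat_lit 9731930847) (nat_lit 304) (nat_lit 8379763815) (nat_lit 76) (nat_lit 1492465335) (nat_lit 186) (nat_lit 5) (nat_lit 190) (nat_lit 5) (nat_lit 187) (nat_lit 5) (nat_lit 424) (nat_lit 350) (nat_lit 246)) (XT.lf (nat_lit 0) (nat_lit 4603471978) (nat_lit 152) (nat_lit 11019877919) (nat_lit 228) (nat_lit 4340730230) (nat_lit 184) (nat_lit 5) (nat_lit 186) (nat_lit 5) (nat_lit 187) (nat_lit 5) (nat_lit 425) (nat_lit 350) (nat_lit 245)))))) (XT.nd (nat_lit 468) (nat_lit 380) (nat_lit 0) (XT.nd (nat_lit 234) (nat_lit 456) (nat_lit 0) (XT.nd (nat_lit 78) (nat_lit 380) (nat_lit 0) (XT.lf (nat_lit 0) (nat_lit 1396654448) (nat_lit 228) (nat_lit 2230990655) (nat_lit 76) (nat_lit 16704769056) (nat_lit 183) (nat_lit 5) (nat_lit 186) (nat_lit 5) (nat_lit 184) (nat_lit 5) (nat_lit 426)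 (nat_lit 350) (nat_lit 244)) (XT.nd (nat_lit 78) (nat_lit 152) (nat_lit 0) (XT.lf (nat_lit 0) (nat_lit 7350111094) (nat_lit 304) (nat_lit 9306555344) (nat_lit 76) (nat_lit 4049906603) (nat_lit 180) (nat_lit 5) (nat_lit 184) (nat_lit 5) (nat_lit 181) (nat_lit 5) (nat_lit 427) (nat_lit 350) (nat_lit 243)) (XT.lf (nat_lit 0) (nat_lit 4412385256) (nat_lit 152) (nat_lit 9152489544) (nat_lit 228) (nat_lit 7524600789) (nat_lit 178) (nat_lit 5) (nat_lit 180) (nat_lit 5) (nat_lit 181) (nat_lit 5) (nat_lit 428) (nat_lit 350) (nat_lit 242)))) (XT.nd (nat_lit 78) (nat_lit 456) (nat_lit 0) (XT.lf (nat_lit 0) (nat_lit 18701998380) (nat_lit 152) (nat_lit 1339911753) (nat_lit 228) (nat_lit 1439680220) (nat_lit 178) (nat_lit 5) (nat_lit 180) (nat_lit 5) (nat_lit 181) (nat_lit 5) (nat_lit 429) (nat_lit 350) (nat_lit 241)) (XT.nd (nat_lit 78) (nat_lit 152) (nat_lit 0) (XT.lf (nat_lit 0) (nat_lit 4894027930) (nat_lit 304)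 (nat_lit 10261812113) (nat_lit 76) (nat_lit 6723422862) (nat_lit 174) (nat_lit 5) (nat_lit 178) (nat_lit 5) (nat_lit 175) (nat_lit 5) (nat_lit 430) (nat_lit 350) (nat_lit 240)) (XT.lf (nat_lit 0) (nat_lit 4239083553) (nat_lit 152) (nat_lit 7214389118) (nat_lit 228) (nat_lit 10833025490) (nat_lit 172) (nat_lit 5) (nat_lit 174) (nat_lit 5) (nat_lit 175) (nat_lit 5) (nat_lit 431) (nat_lit 350) (nat_lit 239))))) (XT.nd (nat_lit 46800) (nat_lit 0) (nat_lit 22952) (XT.nd (nat_lit 78) (nat_lit 380) (nat_lit 0) (XT.lf (nat_lit 0) (nat_lit 18306019736) (nat_lit 228) (nat_lit 3359071120) (nat_lit 76) (nat_lit 1037970050) (nat_lit 172) (nat_lit 5) (nat_lit 175) (nat_lit 5) (nat_lit 173) (nat_lit 5) (nat_lit 432) (nat_lit 350) (nat_lit 238)) (XT.nd (nat_lit 78) (nat_lit 152) (nat_lit 0) (XT.lf (nat_lit 0) (nat_lit 2358863957) (nat_lit 228) (nat_lit 11249849575) (nat_lit 76) (nat_lit 9517651451) (nat_lit 169) (nat_lit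 5) (nat_lit 172) (nat_lit 5) (nat_lit 170) (nat_lit 5) (nat_lit 433) (nat_lit 350) (nat_lit 237)) (XT.lf (nat_lit 0) (nat_lit 4082043268) (nat_lit 152) (nat_lit 5203466037) (nat_lit 228) (nat_lit 14273859647) (nat_lit 167) (nat_lit 5) (nat_lit 169) (nat_lit 5) (nat_lit 170) (nat_lit 5) (nat_lit 434) (nat_lit 350) (nat_lit 236)))) (XT.nd (nat_lit 78) (nat_lit 0) (nat_lit 0) (XT.lf (nat_lit 0) (nat_lit 724507910) (nat_lit 0) (nat_lit 724507910) (nat_lit 684) (nat_lit 2027433750) (nat_lit 469) (nat_lit 5) (nat_lit 469) (nat_lit 3) (nat_lit 478) (nat_lit 3) (nat_lit 351) (nat_lit 351) (nat_lit 318)) (XT.nd (nat_lit 78) (nat_lit 0) (nat_lit 0) (XT.lf (nat_lit 0) (nat_lit 4816783910) (nat_lit 684) (nat_lit 2010585070) (nat_lit 760) (nat_lit 173565195) (nat_lit 469) (nat_lit 5) (nat_lit 478) (nat_lit 3) (nat_lit 479) (nat_lit 5) (nat_lit 352) (nat_lit 351) (nat_lit 317)) (XT.lf (nat_lit 76) (nat_lit 1564590884)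 (nat_lit 0) (nat_lit 5185125202) (nat_lit 760) (nat_lit 301995653) (nat_lit 470) (nat_lit 5) (nat_lit 469) (nat_lit 5) (nat_lit 479) (nat_lit 5) (nat_lit 353) (nat_lit 351) (nat_lit 316))))))))
noncomputable def xc71 : XT := (XT.nd (nat_lit 1872) (nat_lit 7828) (nat_lit 0) (XT.nd (nat_lit 936) (nat_lit 6840) (nat_lit 0) (XT.nd (nat_lit 468) (nat_lit 836) (nat_lit 0) (XT.nd (nat_lit 234) (nat_lit 760) (nat_lit 0) (XT.nd (nat_lit 78) (nat_lit 0) (nat_lit 0) (XT.lf (nat_lit 0) (nat_lit 1553466091) (nat_lit 760) (nat_lit 1871249087) (nat_lit 836) (nat_lit 3680362119) (nat_lit 459) (nat_lit 5) (nat_lit 469) (nat_lit 5) (nat_lit 470) (nat_lit 5) (nat_lit 354) (nat_lit 351) (nat_lit 315)) (XT.nd (nat_lit 78) (nat_lit 0) (nat_lit 76) (XT.lf (nat_lit 76) (nat_lit 1847173753) (nat_lit 0) (nat_lit 1559468292) (nat_lit 836) (nat_lit 3754868467) (nat_lit 460) (nat_lit 5) (nat_lit 459) (nat_lit 5) (nat_lit 470) (nat_lit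 5) (nat_lit 355) (nat_lit 351) (nat_lit 314)) (XT.lf (nat_lit 0) (nat_lit 5270277185) (nat_lit 760) (nat_lit 1548145784) (nat_lit 836) (nat_lit 402567839) (nat_lit 460) (nat_lit 5) (nat_lit 470) (nat_lit 5) (nat_lit 471) (nat_lit 5) (nat_lit 356) (nat_lit 351) (nat_lit 313)))) (XT.nd (nat_lit 78) (nat_lit 836) (nat_lit 0) (XT.lf (nat_lit 76) (nat_lit 2321156936) (nat_lit 0) (nat_lit 4840692484) (nat_lit 836) (nat_lit 121245253) (nat_lit 461) (nat_lit 5) (nat_lit 460) (nat_lit 5) (nat_lit 471) (nat_lit 5) (nat_lit 357) (nat_lit 351) (nat_lit 312)) (XT.nd (nat_lit 78) (nat_lit 0) (nat_lit 0) (XT.lf (nat_lit 0) (nat_lit 1679666634) (nat_lit 836) (nat_lit 1066049768) (nat_lit 912) (nat_lit 4602307887) (nat_lit 449) (nat_lit 5) (nat_lit 460) (nat_lit 5) (nat_lit 461) (nat_lit 5) (nat_lit 358) (nat_lit 351) (nat_lit 311)) (XT.lf (nat_lit 76) (nat_lit 2963905750) (nat_lit 0) (nat_lit 533818188) (nat_lit 912)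 (nat_lit 3918175193) (nat_lit 450) (nat_lit 5) (nat_lit 449) (nat_lit 5) (nat_lit 461) (nat_lit 5) (nat_lit 359) (nat_lit 351) (nat_lit 310))))) (XT.nd (nat_lit 234) (nat_lit 0) (nat_lit 76) (XT.nd (nat_lit 78) (nat_lit 912) (nat_lit 0) (XT.lf (nat_lit 0) (nat_lit 5336700392) (nat_lit 836) (nat_lit 406867803) (nat_lit 912) (nat_lit 1743250701) (nat_lit 450) (nat_lit 5) (nat_lit 461) (nat_lit 5) (nat_lit 462) (nat_lit 5) (nat_lit 360) (nat_lit 351) (nat_lit 309)) (XT.nd (nat_lit 78) (nat_lit 912) (nat_lit 0) (XT.lf (nat_lit 76) (nat_lit 3788329523) (nat_lit 0) (nat_lit 3424739276) (nat_lit 912) (nat_lit 347330775) (nat_lit 451) (nat_lit 5) (nat_lit 450) (nat_lit 5) (nat_lit 462) (nat_lit 5) (nat_lit 361) (nat_lit 351) (nat_lit 308)) (XT.lf (nat_lit 76) (nat_lit 434896290) (nat_lit 0) (nat_lit 994815943) (nat_lit 988) (nat_lit 6207551274) (nat_lit 439) (nat_lit 5) (nat_lit 438) (nat_lit 5) (nat_lit 451)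 (nat_lit 5) (nat_lit 362) (nat_lit 351) (nat_lit 307)))) (XT.nd (nat_lit 78) (nat_lit 0) (nat_lit 0) (XT.lf (nat_lit 0) (nat_lit 3248834096) (nat_lit 912) (nat_lit 2930391309) (nat_lit 988) (nat_lit 1537232328) (nat_lit 439) (nat_lit 5) (nat_lit 451) (nat_lit 5) (nat_lit 452) (nat_lit 5) (nat_lit 363) (nat_lit 351) (nat_lit 306)) (XT.nd (nat_lit 78) (nat_lit 0) (nat_lit 0) (XT.lf (nat_lit 76) (nat_lit 1447178431) (nat_lit 0) (nat_lit 3643563519) (nat_lit 988) (nat_lit 2708239466) (nat_lit 440) (nat_lit 5) (nat_lit 439) (nat_lit 5) (nat_lit 452) (nat_lit 5) (nat_lit 364) (nat_lit 351) (nat_lit 305)) (XT.lf (nat_lit 76) (nat_lit 5975591492) (nat_lit 0) (nat_lit 987586352) (nat_lit 988) (nat_lit 921544841) (nat_lit 440) (nat_lit 5) (nat_lit 439) (nat_lit 5) (nat_lit 452) (nat_lit 5) (nat_lit 365) (nat_lit 351) (nat_lit 304)))))) (XT.nd (nat_lit 468) (nat_lit 2736) (nat_lit 0) (XT.nd (nat_lit 234) (nat_lit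 2280) (nat_lit 0) (XT.nd (nat_lit 78) (nat_lit 988) (nat_lit 0) (XT.lf (nat_lit 0) (nat_lit 890492741) (nat_lit 988) (nat_lit 5321216602) (nat_lit 76) (nat_lit 1761371795) (nat_lit 427) (nat_lit 5) (nat_lit 440) (nat_lit 5) (nat_lit 428) (nat_lit 5) (nat_lit 366) (nat_lit 351) (nat_lit 303)) (XT.nd (nat_lit 78) (nat_lit 988) (nat_lit 0) (XT.lf (nat_lit 0) (nat_lit 2715638663) (nat_lit 988) (nat_lit 735494749) (nat_lit 76) (nat_lit 4613365124) (nat_lit 427) (nat_lit 5) (nat_lit 440) (nat_lit 5) (nat_lit 428) (nat_lit 5) (nat_lit 367) (nat_lit 351) (nat_lit 302)) (XT.lf (nat_lit 0) (nat_lit 4025857693) (nat_lit 988) (nat_lit 557916112) (nat_lit 1064) (nat_lit 3575237607) (nat_lit 414) (nat_lit 5) (nat_lit 427) (nat_lit 5) (nat_lit 428) (nat_lit 5) (nat_lit 368) (nat_lit 351) (nat_lit 301)))) (XT.nd (nat_lit 78) (nat_lit 1216) (nat_lit 0) (XT.lf (nat_lit 0) (nat_lit 636379034) (nat_lit 1064) (nat_lit 5859183853)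 (nat_lit 1140) (nat_lit 1761168490) (nat_lit 400) (nat_lit 5) (nat_lit 414) (nat_lit 5) (nat_lit 415) (nat_lit 5) (nat_lit 369) (nat_lit 351) (nat_lit 300)) (XT.nd (nat_lit 78) (nat_lit 1140) (nat_lit 0) (XT.lf (nat_lit 0) (nat_lit 104172944) (nat_lit 1140) (nat_lit 2771611086) (nat_lit 76) (nat_lit 5481599627) (nat_lit 399) (nat_lit 5) (nat_lit 414) (nat_lit 5) (nat_lit 400) (nat_lit 5) (nat_lit 370) (nat_lit 351) (nat_lit 299)) (XT.lf (nat_lit 0) (nat_lit 1966322082) (nat_lit 1216) (nat_lit 6256432052) (nat_lit 76) (nat_lit 238490896) (nat_lit 384) (nat_lit 5) (nat_lit 400) (nat_lit 5) (nat_lit 385) (nat_lit 5) (nat_lit 371) (nat_lit 351) (nat_lit 298))))) (XT.nd (nat_lit 234) (nat_lit 684) (nat_lit 0) (XT.nd (nat_lit 78) (nat_lit 2052) (nat_lit 0) (XT.lf (nat_lit 0) (nat_lit 3894806291) (nat_lit 1216) (nat_lit 1250835067) (nat_lit 76) (nat_lit 3422266767) (nat_lit 384) (nat_lit 5) (nat_lit 400) (nat_lit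 5) (nat_lit 385) (nat_lit 5) (nat_lit 372) (nat_lit 351) (nat_lit 297)) (XT.nd (nat_lit 78) (nat_lit 836) (nat_lit 0) (XT.lf (nat_lit 0) (nat_lit 3941010500) (nat_lit 1216) (nat_lit 1933098069) (nat_lit 1292) (nat_lit 2803873638) (nat_lit 368) (nat_lit 5) (nat_lit 384) (nat_lit 5) (nat_lit 385) (nat_lit 5) (nat_lit 373) (nat_lit 351) (nat_lit 296)) (XT.lf (nat_lit 0) (nat_lit 477462655) (nat_lit 836) (nat_lit 7421932515) (nat_lit 912) (nat_lit 892365185) (nat_lit 357) (nat_lit 5) (nat_lit 368) (nat_lit 5) (nat_lit 369) (nat_lit 5) (nat_lit 374) (nat_lit 351) (nat_lit 295)))) (XT.nd (nat_lit 78) (nat_lit 608) (nat_lit 0) (XT.lf (nat_lit 0) (nat_lit 1079420323) (nat_lit 912) (nat_lit 3034277707) (nat_lit 76) (nat_lit 4794225242) (nat_lit 356) (nat_lit 5) (nat_lit 368) (nat_lit 5) (nat_lit 357) (nat_lit 5) (nat_lit 375) (nat_lit 351) (nat_lit 294)) (XT.nd (nat_lit 78) (nat_lit 0) (nat_lit 0) (XT.lf (nat_lit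 0) (nat_lit 2401159803) (nat_lit 608) (nat_lit 672103273) (nat_lit 684) (nat_lit 5954617761) (nat_lit 348) (nat_lit 5) (nat_lit 356) (nat_lit 5) (nat_lit 357) (nat_lit 5) (nat_lit 376) (nat_lit 351) (nat_lit 293)) (XT.lf (nat_lit 0) (nat_lit 5144084951) (nat_lit 684) (nat_lit 1158426491) (nat_lit 76) (nat_lit 2848410772) (nat_lit 348) (nat_lit 5) (nat_lit 357) (nat_lit 5) (nat_lit 349) (nat_lit 5) (nat_lit 377) (nat_lit 351) (nat_lit 292))))))) (XT.nd (nat_lit 936) (nat_lit 3344) (nat_lit 0) (XT.nd (nat_lit 468) (nat_lit 2128) (nat_lit 0) (XT.nd (nat_lit 234) (nat_lit 1140) (nat_lit 0) (XT.nd (nat_lit 78) (nat_lit 608) (nat_lit 0) (XT.lf (nat_lit 0) (nat_lit 4514729155) (nat_lit 608) (nat_lit 2772166499) (nat_lit 684) (nat_lit 1990463253) (nat_lit 340) (nat_lit 5) (nat_lit 348) (nat_lit 5) (nat_lit 349) (nat_lit 5) (nat_lit 378) (nat_lit 351) (nat_lit 291)) (XT.nd (nat_lit 78) (nat_lit 0) (nat_lit 0)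 (XT.lf (nat_lit 0) (nat_lit 74387950) (nat_lit 608) (nat_lit 8465461649) (nat_lit 76) (nat_lit 868024026) (nat_lit 332) (nat_lit 5) (nat_lit 340) (nat_lit 5) (nat_lit 333) (nat_lit 5) (nat_lit 379) (nat_lit 351) (nat_lit 290)) (XT.lf (nat_lit 0) (nat_lit 2198153160) (nat_lit 608) (nat_lit 2714036460) (nat_lit 76) (nat_lit 4628413693) (nat_lit 332) (nat_lit 5) (nat_lit 340) (nat_lit 5) (nat_lit 333) (nat_lit 5) (nat_lit 380) (nat_lit 351) (nat_lit 289)))) (XT.nd (nat_lit 78) (nat_lit 532) (nat_lit 0) (XT.lf (nat_lit 0) (nat_lit 3232446258) (nat_lit 608) (nat_lit 1146352683) (nat_lit 684) (nat_lit 5298720923) (nat_lit 324) (nat_lit 5) (nat_lit 332) (nat_lit 5) (nat_lit 333) (nat_lit 5) (nat_lit 381) (nat_lit 351) (nat_lit 288)) (XT.nd (nat_lit 78) (nat_lit 532) (nat_lit 0) (XT.lf (nat_lit 0) (nat_lit 6641592642) (nat_lit 684) (nat_lit 472551804) (nat_lit 76) (nat_lit 2703897609) (nat_lit 324) (nat_lit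 5) (nat_lit 333) (nat_lit 5) (nat_lit 325) (nat_lit 5) (nat_lit 382) (nat_lit 351) (nat_lit 287)) (XT.lf (nat_lit 0) (nat_lit 5739749088) (nat_lit 532) (nat_lit 3262913691) (nat_lit 608) (nat_lit 959205354) (nat_lit 317) (nat_lit 5) (nat_lit 324) (nat_lit 5) (nat_lit 325) (nat_lit 5) (nat_lit 383) (nat_lit 351) (nat_lit 286))))) (XT.nd (nat_lit 234) (nat_lit 1064) (nat_lit 0) (XT.nd (nat_lit 78) (nat_lit 456) (nat_lit 0) (XT.lf (nat_lit 0) (nat_lit 1294267145) (nat_lit 608) (nat_lit 8092463725) (nat_lit 76) (nat_lit 723029410) (nat_lit 309) (nat_lit 5) (nat_lit 317) (nat_lit 5) (nat_lit 310) (nat_lit 5) (nat_lit 384) (nat_lit 351) (nat_lit 285)) (XT.nd (nat_lit 78) (nat_lit 456) (nat_lit 0) (XT.lf (nat_lit 0) (nat_lit 3636229208) (nat_lit 608) (nat_lit 1813573735) (nat_lit 76) (nat_lit 4810796402) (nat_lit 309) (nat_lit 5) (nat_lit 317) (nat_lit 5) (nat_lit 310) (nat_lit 5) (nat_lit 385) (nat_lit 351)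 (nat_lit 284)) (XT.lf (nat_lit 0) (nat_lit 4705719923) (nat_lit 456) (nat_lit 1353790815) (nat_lit 532) (nat_lit 4356121027) (nat_lit 303) (nat_lit 5) (nat_lit 309) (nat_lit 5) (nat_lit 310) (nat_lit 5) (nat_lit 386) (nat_lit 351) (nat_lit 283)))) (XT.nd (nat_lit 78) (nat_lit 532) (nat_lit 0) (XT.lf (nat_lit 0) (nat_lit 831150376) (nat_lit 532) (nat_lit 7744752654) (nat_lit 608) (nat_lit 1998799756) (nat_lit 296) (nat_lit 5) (nat_lit 303) (nat_lit 5) (nat_lit 304) (nat_lit 5) (nat_lit 387) (nat_lit 351) (nat_lit 282)) (XT.nd (nat_lit 78) (nat_lit 456) (nat_lit 0) (XT.lf (nat_lit 0) (nat_lit 459153649) (nat_lit 608) (nat_lit 3110042100) (nat_lit 76) (nat_lit 7168077751) (nat_lit 295) (nat_lit 5) (nat_lit 303) (nat_lit 5) (nat_lit 296) (nat_lit 5) (nat_lit 388) (nat_lit 351) (nat_lit 281)) (XT.lf (nat_lit 0) (nat_lit 2961728579) (nat_lit 532) (nat_lit 7175382753) (nat_lit 76) (nat_lit 766684594) (nat_lit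 289) (nat_lit 5) (nat_lit 296) (nat_lit 5) (nat_lit 290) (nat_lit 5) (nat_lit 389) (nat_lit 351) (nat_lit 280)))))) (XT.nd (nat_lit 468) (nat_lit 1596) (nat_lit 0) (XT.nd (nat_lit 234) (nat_lit 912) (nat_lit 0) (XT.nd (nat_lit 78) (nat_lit 836) (nat_lit 0) (XT.lf (nat_lit 0) (nat_lit 5574559666) (nat_lit 532) (nat_lit 314178521) (nat_lit 76) (nat_lit 5185520472) (nat_lit 289) (nat_lit 5) (nat_lit 296) (nat_lit 5) (nat_lit 290) (nat_lit 5) (nat_lit 390) (nat_lit 351) (nat_lit 279)) (XT.nd (nat_lit 78) (nat_lit 380) (nat_lit 0) (XT.lf (nat_lit 0) (nat_lit 6847716462) (nat_lit 456) (nat_lit 1452936156) (nat_lit 532) (nat_lit 2948136347) (nat_lit 283) (nat_lit 5) (nat_lit 289) (nat_lit 5) (nat_lit 290) (nat_lit 5) (nat_lit 391) (nat_lit 351) (nat_lit 278)) (XT.lf (nat_lit 0) (nat_lit 2787637043) (nat_lit 380) (nat_lit 8350352318) (nat_lit 456) (nat_lit 289681990) (nat_lit 278) (nat_lit 5) (nat_lit 283) (nat_lit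 5) (nat_lit 284) (nat_lit 5) (nat_lit 392) (nat_lit 351) (nat_lit 277)))) (XT.nd (nat_lit 78) (nat_lit 836) (nat_lit 0) (XT.lf (nat_lit 0) (nat_lit 2429740330) (nat_lit 456) (nat_lit 1406166311) (nat_lit 76) (nat_lit 7774437648) (nat_lit 277) (nat_lit 5) (nat_lit 283) (nat_lit 5) (nat_lit 278) (nat_lit 5) (nat_lit 393) (nat_lit 351) (nat_lit 276)) (XT.nd (nat_lit 78) (nat_lit 380) (nat_lit 0) (XT.lf (nat_lit 0) (nat_lit 5262739298) (nat_lit 532) (nat_lit 5682839093) (nat_lit 76) (nat_lit 851698491) (nat_lit 271) (nat_lit 5) (nat_lit 278) (nat_lit 5) (nat_lit 272) (nat_lit 5) (nat_lit 394) (nat_lit 351) (nat_lit 275)) (XT.lf (nat_lit 0) (nat_lit 1859561717) (nat_lit 380) (nat_lit 6362373973) (nat_lit 456) (nat_lit 3766645540) (nat_lit 266) (nat_lit 5) (nat_lit 271) (nat_lit 5) (nat_lit 272) (nat_lit 5) (nat_lit 395) (nat_lit 351) (nat_lit 274))))) (XT.nd (nat_lit 234) (nat_lit 760) (nat_lit 0) (XT.nd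 (nat_lit 78) (nat_lit 836) (nat_lit 0) (XT.lf (nat_lit 0) (nat_lit 9706407839) (nat_lit 380) (nat_lit 1592374428) (nat_lit 456) (nat_lit 885976211) (nat_lit 266) (nat_lit 5) (nat_lit 271) (nat_lit 5) (nat_lit 272) (nat_lit 5) (nat_lit 396) (nat_lit 351) (nat_lit 273)) (XT.nd (nat_lit 78) (nat_lit 380) (nat_lit 0) (XT.lf (nat_lit 0) (nat_lit 2097484583) (nat_lit 456) (nat_lit 6967599851) (nat_lit 76) (nat_lit 3319427022) (nat_lit 260) (nat_lit 5) (nat_lit 266) (nat_lit 5) (nat_lit 261) (nat_lit 5) (nat_lit 397) (nat_lit 351) (nat_lit 272)) (XT.lf (nat_lit 0) (nat_lit 966279581) (nat_lit 380) (nat_lit 4209096064) (nat_lit 456) (nat_lit 7413936204) (nat_lit 255) (nat_lit 5) (nat_lit 260) (nat_lit 5) (nat_lit 261) (nat_lit 5) (nat_lit 398) (nat_lit 351) (nat_lit 271)))) (XT.nd (nat_lit 78) (nat_lit 760) (nat_lit 0) (XT.lf (nat_lit 0) (nat_lit 8397021811) (nat_lit 456) (nat_lit 3563914879) (nat_lit 76) (nat_lit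 837777014) (nat_lit 255) (nat_lit 5) (nat_lit 261) (nat_lit 5) (nat_lit 256) (nat_lit 5) (nat_lit 399) (nat_lit 351) (nat_lit 270)) (XT.nd (nat_lit 78) (nat_lit 380) (nat_lit 0) (XT.lf (nat_lit 0) (nat_lit 4750666123) (nat_lit 380) (nat_lit 7025529593) (nat_lit 456) (nat_lit 1236375547) (nat_lit 250) (nat_lit 5) (nat_lit 255) (nat_lit 5) (nat_lit 256) (nat_lit 5) (nat_lit 400) (nat_lit 351) (nat_lit 269)) (XT.lf (nat_lit 0) (nat_lit 100633095) (nat_lit 304) (nat_lit 1894781112) (nat_lit 380) (nat_lit 11236516469) (nat_lit 245) (nat_lit 5) (nat_lit 249) (nat_lit 5) (nat_lit 250) (nat_lit 5) (nat_lit 401) (nat_lit 351) (nat_lit 268))))))))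
noncomputable def xc72 : XT := (XT.nd (nat_lit 1794) (nat_lit 1292) (nat_lit 0) (XT.nd (nat_lit 858) (nat_lit 1976) (nat_lit 0) (XT.nd (nat_lit 390) (nat_lit 1216) (nat_lit 0) (XT.nd (nat_lit 156) (nat_lit 684) (nat_lit 0) (XT.nd (nat_lit 78) (nat_lit 380) (nat_lit 0) (XT.lf (nat_lit 0) (nat_lit 5390145062) (nat_lit 380) (nat_lit 4655409667) (nat_lit 76) (nat_lit 3409223780) (nat_lit 245) (nat_lit 5) (nat_lit 250) (nat_lit 5) (nat_lit 246) (nat_lit 5) (nat_lit 402) (nat_lit 351) (nat_lit 267)) (XT.lf (nat_lit 0) (nat_lit 4099290445) (nat_lit 380) (nat_lit 4820346440) (nat_lit 456) (nat_lit 4763687323) (nat_lit 240) (nat_lit 5) (nat_lit 245) (nat_lit 5) (nat_lit 246) (nat_lit 5) (nat_lit 403) (nat_lit 351) (nat_lit 266))) (XT.nd (nat_lit 78) (nat_lit 684) (nat_lit 0) (XT.lf (nat_lit 0) (nat_lit 12582917704) (nat_lit 456) (nat_lit 748089000) (nat_lit 76) (nat_lit 586882446) (nat_lit 240) (nat_lit 5) (nat_lit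 246) (nat_lit 5) (nat_lit 241) (nat_lit 5) (nat_lit 404) (nat_lit 351) (nat_lit 265)) (XT.nd (nat_lit 78) (nat_lit 304) (nat_lit 0) (XT.lf (nat_lit 0) (nat_lit 2259332259) (nat_lit 380) (nat_lit 5744616284) (nat_lit 76) (nat_lit 6151741341) (nat_lit 235) (nat_lit 5) (nat_lit 240) (nat_lit 5) (nat_lit 236) (nat_lit 5) (nat_lit 405) (nat_lit 351) (nat_lit 264)) (XT.lf (nat_lit 0) (nat_lit 3478511062) (nat_lit 304) (nat_lit 2473073992) (nat_lit 380) (nat_lit 8448134515) (nat_lit 231) (nat_lit 5) (nat_lit 235) (nat_lit 5) (nat_lit 236) (nat_lit 5) (nat_lit 406) (nat_lit 351) (nat_lit 263))))) (XT.nd (nat_lit 234) (nat_lit 532) (nat_lit 0) (XT.nd (nat_lit 78) (nat_lit 684) (nat_lit 0) (XT.lf (nat_lit 0) (nat_lit 9820307528) (nat_lit 380) (nat_lit 1621069426) (nat_lit 76) (nat_lit 3207722126) (nat_lit 231) (nat_lit 5) (nat_lit 236) (nat_lit 5) (nat_lit 232) (nat_lit 5) (nat_lit 407) (nat_lit 351) (nat_lit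 262)) (XT.nd (nat_lit 78) (nat_lit 380) (nat_lit 0) (XT.lf (nat_lit 0) (nat_lit 8055569459) (nat_lit 304) (nat_lit 5828268352) (nat_lit 380) (nat_lit 1019759782) (nat_lit 227) (nat_lit 5) (nat_lit 231) (nat_lit 5) (nat_lit 232) (nat_lit 5) (nat_lit 408) (nat_lit 351) (nat_lit 261)) (XT.lf (nat_lit 0) (nat_lit 2868218668) (nat_lit 380) (nat_lit 12281040543) (nat_lit 76) (nat_lit 14994501) (nat_lit 222) (nat_lit 5) (nat_lit 227) (nat_lit 5) (nat_lit 223) (nat_lit 5) (nat_lit 409) (nat_lit 351) (nat_lit 260)))) (XT.nd (nat_lit 78) (nat_lit 532) (nat_lit 0) (XT.lf (nat_lit 0) (nat_lit 6957038859) (nat_lit 380) (nat_lit 2487915381) (nat_lit 76) (nat_lit 5984331421) (nat_lit 222) (nat_lit 5) (nat_lit 227) (nat_lit 5) (nat_lit 223) (nat_lit 5) (nat_lit 410) (nat_lit 351) (nat_lit 259)) (XT.nd (nat_lit 78) (nat_lit 304) (nat_lit 0) (XT.lf (nat_lit 0) (nat_lit 7715044005) (nat_lit 228) (nat_lit 3505463309) (nat_lit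 304) (nat_lit 4480201743) (nat_lit 219) (nat_lit 5) (nat_lit 222) (nat_lit 5) (nat_lit 223) (nat_lit 5) (nat_lit 411) (nat_lit 351) (nat_lit 258)) (XT.lf (nat_lit 0) (nat_lit 2279995522) (nat_lit 304) (nat_lit 13382304127) (nat_lit 380) (nat_lit 316462912) (nat_lit 215) (nat_lit 5) (nat_lit 219) (nat_lit 5) (nat_lit 220) (nat_lit 5) (nat_lit 412) (nat_lit 351) (nat_lit 257)))))) (XT.nd (nat_lit 468) (nat_lit 836) (nat_lit 0) (XT.nd (nat_lit 234) (nat_lit 532) (nat_lit 0) (XT.nd (nat_lit 78) (nat_lit 532) (nat_lit 0) (XT.lf (nat_lit 0) (nat_lit 3988938295) (nat_lit 380) (nat_lit 3353905609) (nat_lit 76) (nat_lit 8918340415) (nat_lit 214) (nat_lit 5) (nat_lit 219) (nat_lit 5) (nat_lit 215) (nat_lit 5) (nat_lit 413) (nat_lit 351) (nat_lit 256)) (XT.nd (nat_lit 78) (nat_lit 304) (nat_lit 0) (XT.lf (nat_lit 0) (nat_lit 7408955154) (nat_lit 228) (nat_lit 1058158972) (nat_lit 304) (nat_lit 8083371410) (nat_lit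 211) (nat_lit 5) (nat_lit 214) (nat_lit 5) (nat_lit 215) (nat_lit 5) (nat_lit 414) (nat_lit 351) (nat_lit 255)) (XT.lf (nat_lit 0) (nat_lit 1662083147) (nat_lit 304) (nat_lit 11498715915) (nat_lit 380) (nat_lit 3685231813) (nat_lit 207) (nat_lit 5) (nat_lit 211) (nat_lit 5) (nat_lit 212) (nat_lit 5) (nat_lit 415) (nat_lit 351) (nat_lit 254)))) (XT.nd (nat_lit 78) (nat_lit 456) (nat_lit 0) (XT.lf (nat_lit 0) (nat_lit 911083575) (nat_lit 380) (nat_lit 4224037991) (nat_lit 76) (nat_lit 12012595840) (nat_lit 206) (nat_lit 5) (nat_lit 211) (nat_lit 5) (nat_lit 207) (nat_lit 5) (nat_lit 416) (nat_lit 351) (nat_lit 253)) (XT.nd (nat_lit 78) (nat_lit 228) (nat_lit 0) (XT.lf (nat_lit 0) (nat_lit 5633987422) (nat_lit 304) (nat_lit 10336136221) (nat_lit 76) (nat_lit 1485353211) (nat_lit 203) (nat_lit 5) (nat_lit 207) (nat_lit 5) (nat_lit 204) (nat_lit 5) (nat_lit 417) (nat_lit 351) (nat_lit 252)) (XT.lf (nat_lit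 0) (nat_lit 1054516398) (nat_lit 228) (nat_lit 9527902073) (nat_lit 304) (nat_lit 7187535411) (nat_lit 200) (nat_lit 5) (nat_lit 203) (nat_lit 5) (nat_lit 204) (nat_lit 5) (nat_lit 418) (nat_lit 351) (nat_lit 251))))) (XT.nd (nat_lit 234) (nat_lit 304) (nat_lit 0) (XT.nd (nat_lit 78) (nat_lit 532) (nat_lit 0) (XT.lf (nat_lit 0) (nat_lit 12965879190) (nat_lit 228) (nat_lit 2797854452) (nat_lit 304) (nat_lit 2327598644) (nat_lit 200) (nat_lit 5) (nat_lit 203) (nat_lit 5) (nat_lit 204) (nat_lit 5) (nat_lit 419) (nat_lit 351) (nat_lit 250)) (XT.nd (nat_lit 78) (nat_lit 228) (nat_lit 0) (XT.lf (nat_lit 0) (nat_lit 2713066333) (nat_lit 304) (nat_lit 11572120260) (nat_lit 76) (nat_lit 4133777428) (nat_lit 196) (nat_lit 5) (nat_lit 200) (nat_lit 5) (nat_lit 197) (nat_lit 5) (nat_lit 420) (nat_lit 351) (nat_lit 249)) (XT.lf (nat_lit 0) (nat_lit 453635881) (nat_lit 228) (nat_lit 7469449932) (nat_lit 304) (nat_lit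 10830700018) (nat_lit 193) (nat_lit 5) (nat_lit 196) (nat_lit 5) (nat_lit 197) (nat_lit 5) (nat_lit 421) (nat_lit 351) (nat_lit 248)))) (XT.nd (nat_lit 78) (nat_lit 304) (nat_lit 0) (XT.lf (nat_lit 0) (nat_lit 13045239097) (nat_lit 228) (nat_lit 341864359) (nat_lit 304) (nat_lit 5708617913) (nat_lit 193) (nat_lit 5) (nat_lit 196) (nat_lit 5) (nat_lit 197) (nat_lit 5) (nat_lit 422) (nat_lit 351) (nat_lit 247)) (XT.nd (nat_lit 78) (nat_lit 76) (nat_lit 0) (XT.lf (nat_lit 0) (nat_lit 6596469003) (nat_lit 228) (nat_lit 12530544543) (nat_lit 304) (nat_lit 317542269) (nat_lit 190) (nat_lit 5) (nat_lit 193) (nat_lit 5) (nat_lit 194) (nat_lit 5) (nat_lit 423) (nat_lit 351) (nat_lit 246)) (XT.lf (nat_lit 0) (nat_lit 5179534311) (nat_lit 304) (nat_lit 141183388) (nat_lit 76) (nat_lit 14480235031) (nat_lit 189) (nat_lit 5) (nat_lit 193) (nat_lit 5) (nat_lit 190) (nat_lit 5) (nat_lit 424) (nat_lit 351) (nat_lit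 245))))))) (XT.nd (nat_lit 47658) (nat_lit 0) (nat_lit 19304) (XT.nd (nat_lit 468) (nat_lit 456) (nat_lit 0) (XT.nd (nat_lit 234) (nat_lit 380) (nat_lit 0) (XT.nd (nat_lit 78) (nat_lit 228) (nat_lit 0) (XT.lf (nat_lit 0) (nat_lit 10965023554) (nat_lit 304) (nat_lit 7016097914) (nat_lit 76) (nat_lit 2182929285) (nat_lit 186) (nat_lit 5) (nat_lit 190) (nat_lit 5) (nat_lit 187) (nat_lit 5) (nat_lit 425) (nat_lit 351) (nat_lit 244)) (XT.nd (nat_lit 78) (nat_lit 76) (nat_lit 0) (XT.lf (nat_lit 0) (nat_lit 6340801042) (nat_lit 152) (nat_lit 10680345169) (nat_lit 228) (nat_lit 3513983444) (nat_lit 184) (nat_lit 5) (nat_lit 186) (nat_lit 5) (nat_lit 187) (nat_lit 5) (nat_lit 426) (nat_lit 351) (nat_lit 243)) (XT.lf (nat_lit 0) (nat_lit 2349519893) (nat_lit 228) (nat_lit 727144830) (nat_lit 76) (nat_lit 17838392887) (nat_lit 183) (nat_lit 5) (nat_lit 186) (nat_lit 5) (nat_lit 184) (nat_lit 5) (nat_lit 427) (nat_lit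 351) (nat_lit 242)))) (XT.nd (nat_lit 78) (nat_lit 152) (nat_lit 0) (XT.lf (nat_lit 0) (nat_lit 8476304271) (nat_lit 304) (nat_lit 8009700492) (nat_lit 76) (nat_lit 4814594775) (nat_lit 180) (nat_lit 5) (nat_lit 184) (nat_lit 5) (nat_lit 181) (nat_lit 5) (nat_lit 428) (nat_lit 351) (nat_lit 241)) (XT.nd (nat_lit 78) (nat_lit 0) (nat_lit 0) (XT.lf (nat_lit 0) (nat_lit 6105356841) (nat_lit 152) (nat_lit 8760776174) (nat_lit 228) (nat_lit 6829197483) (nat_lit 178) (nat_lit 5) (nat_lit 180) (nat_lit 5) (nat_lit 181) (nat_lit 5) (nat_lit 429) (nat_lit 351) (nat_lit 240)) (XT.lf (nat_lit 0) (nat_lit 20778203989) (nat_lit 152) (nat_lit 733227497) (nat_lit 228) (nat_lit 588558656) (nat_lit 178) (nat_lit 5) (nat_lit 180) (nat_lit 5) (nat_lit 181) (nat_lit 5) (nat_lit 430) (nat_lit 351) (nat_lit 239))))) (XT.nd (nat_lit 46956) (nat_lit 0) (nat_lit 21736) (XT.nd (nat_lit 78) (nat_lit 152) (nat_lit 0) (XT.lf (nat_lit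 0) (nat_lit 5913021862) (nat_lit 304) (nat_lit 9032381943) (nat_lit 76) (nat_lit 7564071795) (nat_lit 174) (nat_lit 5) (nat_lit 178) (nat_lit 5) (nat_lit 175) (nat_lit 5) (nat_lit 431) (nat_lit 351) (nat_lit 238)) (XT.nd (nat_lit 78) (nat_lit 0) (nat_lit 0) (XT.lf (nat_lit 0) (nat_lit 5888469176) (nat_lit 152) (nat_lit 6770010113) (nat_lit 228) (nat_lit 10270771744) (nat_lit 172) (nat_lit 5) (nat_lit 174) (nat_lit 5) (nat_lit 175) (nat_lit 5) (nat_lit 432) (nat_lit 351) (nat_lit 237)) (XT.lf (nat_lit 0) (nat_lit 19697680478) (nat_lit 228) (nat_lit 1963044153) (nat_lit 76) (nat_lit 1698153698) (nat_lit 172) (nat_lit 5) (nat_lit 175) (nat_lit 5) (nat_lit 173) (nat_lit 5) (nat_lit 433) (nat_lit 351) (nat_lit 236)))) (XT.nd (nat_lit 78) (nat_lit 836) (nat_lit 0) (XT.lf (nat_lit 0) (nat_lit 1674028235) (nat_lit 0) (nat_lit 1674028235) (nat_lit 684) (nat_lit 177019482) (nat_lit 469) (nat_lit 5) (nat_lit 469)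 (nat_lit 3) (nat_lit 478) (nat_lit 3) (nat_lit 352) (nat_lit 352) (nat_lit 316)) (XT.nd (nat_lit 78) (nat_lit 0) (nat_lit 76) (XT.lf (nat_lit 0) (nat_lit 1431177096) (nat_lit 836) (nat_lit 173565195) (nat_lit 836) (nat_lit 5497760089) (nat_lit 458) (nat_lit 3) (nat_lit 469) (nat_lit 3) (nat_lit 469) (nat_lit 5) (nat_lit 353) (nat_lit 352) (nat_lit 315)) (XT.lf (nat_lit 0) (nat_lit 3229298142) (nat_lit 760) (nat_lit 3670363487) (nat_lit 836) (nat_lit 257662649) (nat_lit 459) (nat_lit 5) (nat_lit 469) (nat_lit 5) (nat_lit 470) (nat_lit 5) (nat_lit 354) (nat_lit 352) (nat_lit 314)))))) (XT.nd (nat_lit 468) (nat_lit 1672) (nat_lit 0) (XT.nd (nat_lit 234) (nat_lit 0) (nat_lit 76) (XT.nd (nat_lit 78) (nat_lit 836) (nat_lit 0) (XT.lf (nat_lit 0) (nat_lit 5031413619) (nat_lit 760) (nat_lit 6628366) (nat_lit 836) (nat_lit 2177247324) (nat_lit 459) (nat_lit 5) (nat_lit 469) (nat_lit 5) (nat_lit 470) (nat_lit 5)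 (nat_lit 355) (nat_lit 352) (nat_lit 313)) (XT.nd (nat_lit 78) (nat_lit 836) (nat_lit 0) (XT.lf (nat_lit 76) (nat_lit 3804516196) (nat_lit 0) (nat_lit 3054009099) (nat_lit 836) (nat_lit 417340013) (nat_lit 460) (nat_lit 5) (nat_lit 459) (nat_lit 5) (nat_lit 470) (nat_lit 5) (nat_lit 356) (nat_lit 352) (nat_lit 312)) (XT.lf (nat_lit 76) (nat_lit 347506018) (nat_lit 0) (nat_lit 966020995) (nat_lit 912) (nat_lit 6026166301) (nat_lit 449) (nat_lit 5) (nat_lit 448) (nat_lit 5) (nat_lit 460) (nat_lit 5) (nat_lit 357) (nat_lit 352) (nat_lit 311)))) (XT.nd (nat_lit 78) (nat_lit 0) (nat_lit 0) (XT.lf (nat_lit 0) (nat_lit 3071784076) (nat_lit 836) (nat_lit 3107609919) (nat_lit 912) (nat_lit 1226402638) (nat_lit 449) (nat_lit 5) (nat_lit 460) (nat_lit 5) (nat_lit 461) (nat_lit 5) (nat_lit 358) (nat_lit 352) (nat_lit 310)) (XT.nd (nat_lit 78) (nat_lit 0) (nat_lit 0) (XT.lf (nat_lit 76) (nat_lit 862473957) (nat_lit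 0) (nat_lit 3977067262) (nat_lit 912) (nat_lit 2635639261) (nat_lit 450) (nat_lit 5) (nat_lit 449) (nat_lit 5) (nat_lit 461) (nat_lit 5) (nat_lit 359) (nat_lit 352) (nat_lit 309)) (XT.lf (nat_lit 76) (nat_lit 4977442528) (nat_lit 0) (nat_lit 1654581670) (nat_lit 912) (nat_lit 915470851) (nat_lit 450) (nat_lit 5) (nat_lit 449) (nat_lit 5) (nat_lit 461) (nat_lit 5) (nat_lit 360) (nat_lit 352) (nat_lit 308))))) (XT.nd (nat_lit 234) (nat_lit 912) (nat_lit 0) (XT.nd (nat_lit 78) (nat_lit 0) (nat_lit 0) (XT.lf (nat_lit 0) (nat_lit 803762606) (nat_lit 912) (nat_lit 6052081425) (nat_lit 988) (nat_lit 766962998) (nat_lit 438) (nat_lit 5) (nat_lit 450) (nat_lit 5) (nat_lit 451) (nat_lit 5) (nat_lit 361) (nat_lit 352) (nat_lit 307)) (XT.nd (nat_lit 78) (nat_lit 0) (nat_lit 0) (XT.lf (nat_lit 0) (nat_lit 2541772694) (nat_lit 912) (nat_lit 1876404357) (nat_lit 988) (nat_lit 3282361407) (nat_lit 438) (nat_lit 5) (nat_lit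 450) (nat_lit 5) (nat_lit 451) (nat_lit 5) (nat_lit 362) (nat_lit 352) (nat_lit 306)) (XT.lf (nat_lit 76) (nat_lit 2433671381) (nat_lit 0) (nat_lit 1866313834) (nat_lit 988) (nat_lit 3481574749) (nat_lit 439) (nat_lit 5) (nat_lit 438) (nat_lit 5) (nat_lit 451) (nat_lit 5) (nat_lit 363) (nat_lit 352) (nat_lit 305)))) (XT.nd (nat_lit 78) (nat_lit 988) (nat_lit 0) (XT.lf (nat_lit 0) (nat_lit 6083474971) (nat_lit 912) (nat_lit 1000205827) (nat_lit 988) (nat_lit 782155392) (nat_lit 439) (nat_lit 5) (nat_lit 451) (nat_lit 5) (nat_lit 452) (nat_lit 5) (nat_lit 364) (nat_lit 352) (nat_lit 304)) (XT.nd (nat_lit 78) (nat_lit 988) (nat_lit 0) (XT.lf (nat_lit 76) (nat_lit 3488905738) (nat_lit 0) (nat_lit 4431219751) (nat_lit 988) (nat_lit 32525531) (nat_lit 440) (nat_lit 5) (nat_lit 439) (nat_lit 5) (nat_lit 452) (nat_lit 5) (nat_lit 365) (nat_lit 352) (nat_lit 303)) (XT.lf (nat_lit 76) (nat_lit 35756816) (nat_lit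 0) (nat_lit 1658347829) (nat_lit 1064) (nat_lit 6348690236) (nat_lit 427) (nat_lit 5) (nat_lit 426) (nat_lit 5) (nat_lit 440) (nat_lit 5) (nat_lit 366) (nat_lit 352) (nat_lit 302))))))))
noncomputable def xc73 : XT := (XT.nd (nat_lit 1794) (nat_lit 6156) (nat_lit 0) (XT.nd (nat_lit 858) (nat_lit 4028) (nat_lit 0) (XT.nd (nat_lit 390) (nat_lit 3876) (nat_lit 0) (XT.nd (nat_lit 156) (nat_lit 1140) (nat_lit 0) (XT.nd (nat_lit 78) (nat_lit 988) (nat_lit 0) (XT.lf (nat_lit 0) (nat_lit 3478450320) (nat_lit 988) (nat_lit 3425325922) (nat_lit 76) (nat_lit 1231660045) (nat_lit 427) (nat_lit 5) (nat_lit 440) (nat_lit 5) (nat_lit 428) (nat_lit 5) (nat_lit 367) (nat_lit 352) (nat_lit 301)) (XT.lf (nat_lit 0) (nat_lit 1262738437) (nat_lit 988) (nat_lit 4033151092) (nat_lit 1064) (nat_lit 2935580512) (nat_lit 414) (nat_lit 5) (nat_lit 427) (nat_lit 5) (nat_lit 428) (nat_lit 5) (nat_lit 368) (nat_lit 352) (nat_lit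 300))) (XT.nd (nat_lit 78) (nat_lit 1140) (nat_lit 0) (XT.lf (nat_lit 0) (nat_lit 6122725609) (nat_lit 988) (nat_lit 1031773801) (nat_lit 1064) (nat_lit 1176285973) (nat_lit 414) (nat_lit 5) (nat_lit 427) (nat_lit 5) (nat_lit 428) (nat_lit 5) (nat_lit 369) (nat_lit 352) (nat_lit 299)) (XT.nd (nat_lit 78) (nat_lit 0) (nat_lit 0) (XT.lf (nat_lit 0) (nat_lit 622556807) (nat_lit 1140) (nat_lit 5750387266) (nat_lit 76) (nat_lit 2059977486) (nat_lit 399) (nat_lit 5) (nat_lit 414) (nat_lit 5) (nat_lit 400) (nat_lit 5) (nat_lit 370) (nat_lit 352) (nat_lit 298)) (XT.lf (nat_lit 0) (nat_lit 2438523967) (nat_lit 1140) (nat_lit 834236761) (nat_lit 76) (nat_lit 5265407663) (nat_lit 399) (nat_lit 5) (nat_lit 414) (nat_lit 5) (nat_lit 400) (nat_lit 5) (nat_lit 371) (nat_lit 352) (nat_lit 297))))) (XT.nd (nat_lit 234) (nat_lit 1520) (nat_lit 0) (XT.nd (nat_lit 78) (nat_lit 1216) (nat_lit 0) (XT.lf (nat_lit 0) (nat_lit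 4274151517) (nat_lit 1140) (nat_lit 31310072) (nat_lit 1216) (nat_lit 4341216296) (nat_lit 384) (nat_lit 5) (nat_lit 399) (nat_lit 5) (nat_lit 400) (nat_lit 5) (nat_lit 372) (nat_lit 352) (nat_lit 296)) (XT.nd (nat_lit 78) (nat_lit 0) (nat_lit 0) (XT.lf (nat_lit 0) (nat_lit 737585863) (nat_lit 1216) (nat_lit 5494600252) (nat_lit 1292) (nat_lit 2526143185) (nat_lit 368) (nat_lit 5) (nat_lit 384) (nat_lit 5) (nat_lit 385) (nat_lit 5) (nat_lit 373) (nat_lit 352) (nat_lit 295)) (XT.lf (nat_lit 0) (nat_lit 6051072734) (nat_lit 1216) (nat_lit 2167382022) (nat_lit 1292) (nat_lit 654823230) (nat_lit 368) (nat_lit 5) (nat_lit 384) (nat_lit 5) (nat_lit 385) (nat_lit 5) (nat_lit 374) (nat_lit 352) (nat_lit 294)))) (XT.nd (nat_lit 78) (nat_lit 608) (nat_lit 0) (XT.lf (nat_lit 0) (nat_lit 1242741244) (nat_lit 912) (nat_lit 6473834527) (nat_lit 76) (nat_lit 1274884202) (nat_lit 356) (nat_lit 5) (nat_lit 368) (nat_lit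 5) (nat_lit 357) (nat_lit 5) (nat_lit 375) (nat_lit 352) (nat_lit 293)) (XT.nd (nat_lit 78) (nat_lit 608) (nat_lit 0) (XT.lf (nat_lit 0) (nat_lit 3193299757) (nat_lit 912) (nat_lit 1104862537) (nat_lit 76) (nat_lit 4814553771) (nat_lit 356) (nat_lit 5) (nat_lit 368) (nat_lit 5) (nat_lit 357) (nat_lit 5) (nat_lit 376) (nat_lit 352) (nat_lit 292)) (XT.lf (nat_lit 0) (nat_lit 4473829829) (nat_lit 608) (nat_lit 731733173) (nat_lit 684) (nat_lit 4031951200) (nat_lit 348) (nat_lit 5) (nat_lit 356) (nat_lit 5) (nat_lit 357) (nat_lit 5) (nat_lit 377) (nat_lit 352) (nat_lit 291)))))) (XT.nd (nat_lit 468) (nat_lit 1672) (nat_lit 0) (XT.nd (nat_lit 234) (nat_lit 1140) (nat_lit 0) (XT.nd (nat_lit 78) (nat_lit 608) (nat_lit 0) (XT.lf (nat_lit 0) (nat_lit 825073957) (nat_lit 608) (nat_lit 6461577914) (nat_lit 684) (nat_lit 2079150679) (nat_lit 340) (nat_lit 5) (nat_lit 348) (nat_lit 5) (nat_lit 349) (nat_lit 5) (nat_lit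 378) (nat_lit 352) (nat_lit 290)) (XT.nd (nat_lit 78) (nat_lit 608) (nat_lit 0) (XT.lf (nat_lit 0) (nat_lit 6632695157) (nat_lit 608) (nat_lit 2814498831) (nat_lit 684) (nat_lit 50234943) (nat_lit 340) (nat_lit 5) (nat_lit 348) (nat_lit 5) (nat_lit 349) (nat_lit 5) (nat_lit 379) (nat_lit 352) (nat_lit 289)) (XT.lf (nat_lit 0) (nat_lit 2000419911) (nat_lit 608) (nat_lit 6660759485) (nat_lit 76) (nat_lit 971216428) (nat_lit 332) (nat_lit 5) (nat_lit 340) (nat_lit 5) (nat_lit 333) (nat_lit 5) (nat_lit 380) (nat_lit 352) (nat_lit 288)))) (XT.nd (nat_lit 78) (nat_lit 1140) (nat_lit 0) (XT.lf (nat_lit 0) (nat_lit 4131865059) (nat_lit 608) (nat_lit 796752687) (nat_lit 76) (nat_lit 4842170648) (nat_lit 332) (nat_lit 5) (nat_lit 340) (nat_lit 5) (nat_lit 333) (nat_lit 5) (nat_lit 381) (nat_lit 352) (nat_lit 287)) (XT.nd (nat_lit 78) (nat_lit 532) (nat_lit 0) (XT.lf (nat_lit 0) (nat_lit 5308529367) (nat_lit 608)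 (nat_lit 1034024270) (nat_lit 684) (nat_lit 3570320102) (nat_lit 324) (nat_lit 5) (nat_lit 332) (nat_lit 5) (nat_lit 333) (nat_lit 5) (nat_lit 382) (nat_lit 352) (nat_lit 286)) (XT.lf (nat_lit 0) (nat_lit 1516327735) (nat_lit 532) (nat_lit 7119477954) (nat_lit 608) (nat_lit 1422928669) (nat_lit 317) (nat_lit 5) (nat_lit 324) (nat_lit 5) (nat_lit 325) (nat_lit 5) (nat_lit 383) (nat_lit 352) (nat_lit 285))))) (XT.nd (nat_lit 234) (nat_lit 608) (nat_lit 0) (XT.nd (nat_lit 78) (nat_lit 988) (nat_lit 0) (XT.lf (nat_lit 0) (nat_lit 795915324) (nat_lit 608) (nat_lit 2350046819) (nat_lit 76) (nat_lit 7062108414) (nat_lit 316) (nat_lit 5) (nat_lit 324) (nat_lit 5) (nat_lit 317) (nat_lit 5) (nat_lit 384) (nat_lit 352) (nat_lit 284)) (XT.nd (nat_lit 78) (nat_lit 456) (nat_lit 0) (XT.lf (nat_lit 0) (nat_lit 3067534371) (nat_lit 608) (nat_lit 6315820372) (nat_lit 76) (nat_lit 977665169) (nat_lit 309) (nat_lit 5)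 (nat_lit 317) (nat_lit 5) (nat_lit 310) (nat_lit 5) (nat_lit 385) (nat_lit 352) (nat_lit 283)) (XT.lf (nat_lit 0) (nat_lit 94461625) (nat_lit 456) (nat_lit 5335684047) (nat_lit 532) (nat_lit 5087726766) (nat_lit 303) (nat_lit 5) (nat_lit 309) (nat_lit 5) (nat_lit 310) (nat_lit 5) (nat_lit 386) (nat_lit 352) (nat_lit 282)))) (XT.nd (nat_lit 78) (nat_lit 608) (nat_lit 0) (XT.lf (nat_lit 0) (nat_lit 6788269244) (nat_lit 456) (nat_lit 1106563831) (nat_lit 532) (nat_lit 2783661532) (nat_lit 303) (nat_lit 5) (nat_lit 309) (nat_lit 5) (nat_lit 310) (nat_lit 5) (nat_lit 387) (nat_lit 352) (nat_lit 281)) (XT.nd (nat_lit 78) (nat_lit 76) (nat_lit 0) (XT.lf (nat_lit 0) (nat_lit 2824809498) (nat_lit 532) (nat_lit 7635357263) (nat_lit 608) (nat_lit 382967509) (nat_lit 296) (nat_lit 5) (nat_lit 303) (nat_lit 5) (nat_lit 304) (nat_lit 5) (nat_lit 388) (nat_lit 352) (nat_lit 280)) (XT.lf (nat_lit 0) (nat_lit 2068166529)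 (nat_lit 608) (nat_lit 1260211876) (nat_lit 76) (nat_lit 7683156151) (nat_lit 295) (nat_lit 5) (nat_lit 303) (nat_lit 5) (nat_lit 296) (nat_lit 5) (nat_lit 389) (nat_lit 352) (nat_lit 279))))))) (XT.nd (nat_lit 936) (nat_lit 2660) (nat_lit 0) (XT.nd (nat_lit 468) (nat_lit 1672) (nat_lit 0) (XT.nd (nat_lit 234) (nat_lit 912) (nat_lit 0) (XT.nd (nat_lit 78) (nat_lit 456) (nat_lit 0) (XT.lf (nat_lit 0) (nat_lit 4621280785) (nat_lit 532) (nat_lit 5422974827) (nat_lit 76) (nat_lit 1139533182) (nat_lit 289) (nat_lit 5) (nat_lit 296) (nat_lit 5) (nat_lit 290) (nat_lit 5) (nat_lit 390) (nat_lit 352) (nat_lit 278)) (XT.nd (nat_lit 78) (nat_lit 0) (nat_lit 0) (XT.lf (nat_lit 0) (nat_lit 1618334304) (nat_lit 456) (nat_lit 5663970366) (nat_lit 532) (nat_lit 4077966502) (nat_lit 283) (nat_lit 5) (nat_lit 289) (nat_lit 5) (nat_lit 290) (nat_lit 5) (nat_lit 391) (nat_lit 352) (nat_lit 277)) (XT.lf (nat_lit 0) (nat_lit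 8944777599) (nat_lit 456) (nat_lit 1103613822) (nat_lit 532) (nat_lit 1492899636) (nat_lit 283) (nat_lit 5) (nat_lit 289) (nat_lit 5) (nat_lit 290) (nat_lit 5) (nat_lit 392) (nat_lit 352) (nat_lit 276)))) (XT.nd (nat_lit 78) (nat_lit 456) (nat_lit 0) (XT.lf (nat_lit 0) (nat_lit 1199206273) (nat_lit 456) (nat_lit 6952813157) (nat_lit 76) (nat_lit 3573815413) (nat_lit 277) (nat_lit 5) (nat_lit 283) (nat_lit 5) (nat_lit 278) (nat_lit 5) (nat_lit 393) (nat_lit 352) (nat_lit 275)) (XT.nd (nat_lit 78) (nat_lit 0) (nat_lit 0) (XT.lf (nat_lit 0) (nat_lit 447323259) (nat_lit 456) (nat_lit 3507916412) (nat_lit 532) (nat_lit 7959836733) (nat_lit 271) (nat_lit 5) (nat_lit 277) (nat_lit 5) (nat_lit 278) (nat_lit 5) (nat_lit 394) (nat_lit 352) (nat_lit 274)) (XT.lf (nat_lit 0) (nat_lit 6848977088) (nat_lit 532) (nat_lit 3946427017) (nat_lit 76) (nat_lit 1312940415) (nat_lit 271) (nat_lit 5) (nat_lit 278) (nat_lit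 5) (nat_lit 272) (nat_lit 5) (nat_lit 395) (nat_lit 352) (nat_lit 273))))) (XT.nd (nat_lit 234) (nat_lit 836) (nat_lit 0) (XT.nd (nat_lit 78) (nat_lit 456) (nat_lit 0) (XT.lf (nat_lit 0) (nat_lit 3803550746) (nat_lit 380) (nat_lit 6069946589) (nat_lit 456) (nat_lit 2432594224) (nat_lit 266) (nat_lit 5) (nat_lit 271) (nat_lit 5) (nat_lit 272) (nat_lit 5) (nat_lit 396) (nat_lit 352) (nat_lit 272)) (XT.nd (nat_lit 78) (nat_lit 380) (nat_lit 0) (XT.lf (nat_lit 0) (nat_lit 482740591) (nat_lit 456) (nat_lit 683308391) (nat_lit 76) (nat_lit 11343190747) (nat_lit 265) (nat_lit 5) (nat_lit 271) (nat_lit 5) (nat_lit 266) (nat_lit 5) (nat_lit 397) (nat_lit 352) (nat_lit 271)) (XT.lf (nat_lit 0) (nat_lit 3520171248) (nat_lit 456) (nat_lit 5298280403) (nat_lit 76) (nat_lit 3896802284) (nat_lit 260) (nat_lit 5) (nat_lit 266) (nat_lit 5) (nat_lit 261) (nat_lit 5) (nat_lit 398) (nat_lit 352) (nat_lit 270)))) (XT.nd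 (nat_lit 78) (nat_lit 456) (nat_lit 0) (XT.lf (nat_lit 0) (nat_lit 2855200241) (nat_lit 380) (nat_lit 3813472886) (nat_lit 456) (nat_lit 6258176991) (nat_lit 255) (nat_lit 5) (nat_lit 260) (nat_lit 5) (nat_lit 261) (nat_lit 5) (nat_lit 399) (nat_lit 352) (nat_lit 269)) (XT.nd (nat_lit 78) (nat_lit 456) (nat_lit 0) (XT.lf (nat_lit 0) (nat_lit 9952867414) (nat_lit 456) (nat_lit 1830971573) (nat_lit 76) (nat_lit 1359718080) (nat_lit 255) (nat_lit 5) (nat_lit 261) (nat_lit 5) (nat_lit 256) (nat_lit 5) (nat_lit 400) (nat_lit 352) (nat_lit 268)) (XT.lf (nat_lit 0) (nat_lit 47559458) (nat_lit 456) (nat_lit 6649901600) (nat_lit 76) (nat_lit 6666969293) (nat_lit 249) (nat_lit 5) (nat_lit 255) (nat_lit 5) (nat_lit 250) (nat_lit 5) (nat_lit 401) (nat_lit 352) (nat_lit 267)))))) (XT.nd (nat_lit 468) (nat_lit 1292) (nat_lit 0) (XT.nd (nat_lit 234) (nat_lit 684) (nat_lit 0) (XT.nd (nat_lit 78) (nat_lit 380) (nat_lit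 0) (XT.lf (nat_lit 0) (nat_lit 1933157525) (nat_lit 304) (nat_lit 1398129072) (nat_lit 380) (nat_lit 10259321700) (nat_lit 245) (nat_lit 5) (nat_lit 249) (nat_lit 5) (nat_lit 250) (nat_lit 5) (nat_lit 402) (nat_lit 352) (nat_lit 266)) (XT.nd (nat_lit 78) (nat_lit 380) (nat_lit 0) (XT.lf (nat_lit 0) (nat_lit 6795859610) (nat_lit 380) (nat_lit 2986853317) (nat_lit 76) (nat_lit 4038388632) (nat_lit 245) (nat_lit 5) (nat_lit 250) (nat_lit 5) (nat_lit 246) (nat_lit 5) (nat_lit 403) (nat_lit 352) (nat_lit 265)) (XT.lf (nat_lit 0) (nat_lit 6012760165) (nat_lit 380) (nat_lit 4399454011) (nat_lit 456) (nat_lit 3644860113) (nat_lit 240) (nat_lit 5) (nat_lit 245) (nat_lit 5) (nat_lit 246) (nat_lit 5) (nat_lit 404) (nat_lit 352) (nat_lit 264)))) (XT.nd (nat_lit 78) (nat_lit 380) (nat_lit 0) (XT.lf (nat_lit 0) (nat_lit 1018077100) (nat_lit 304) (nat_lit 13146701060) (nat_lit 380) (nat_lit 134516476) (nat_lit 236)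 (nat_lit 5) (nat_lit 240) (nat_lit 5) (nat_lit 241) (nat_lit 5) (nat_lit 405) (nat_lit 352) (nat_lit 263)) (XT.nd (nat_lit 78) (nat_lit 304) (nat_lit 0) (XT.lf (nat_lit 0) (nat_lit 3515390322) (nat_lit 380) (nat_lit 4141903901) (nat_lit 76) (nat_lit 6887418017) (nat_lit 235) (nat_lit 5) (nat_lit 240) (nat_lit 5) (nat_lit 236) (nat_lit 5) (nat_lit 406) (nat_lit 352) (nat_lit 262)) (XT.lf (nat_lit 0) (nat_lit 5340514807) (nat_lit 304) (nat_lit 1960181444) (nat_lit 380) (nat_lit 7495897996) (nat_lit 231) (nat_lit 5) (nat_lit 235) (nat_lit 5) (nat_lit 236) (nat_lit 5) (nat_lit 407) (nat_lit 352) (nat_lit 261))))) (XT.nd (nat_lit 234) (nat_lit 608) (nat_lit 0) (XT.nd (nat_lit 78) (nat_lit 380) (nat_lit 0) (XT.lf (nat_lit 0) (nat_lit 66669257) (nat_lit 304) (nat_lit 11190836966) (nat_lit 380) (nat_lit 3796788145) (nat_lit 227) (nat_lit 5) (nat_lit 231) (nat_lit 5) (nat_lit 232) (nat_lit 5) (nat_lit 408) (nat_lit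 352) (nat_lit 260)) (XT.nd (nat_lit 78) (nat_lit 304) (nat_lit 0) (XT.lf (nat_lit 0) (nat_lit 106487211) (nat_lit 380) (nat_lit 5302697559) (nat_lit 76) (nat_lit 9907733340) (nat_lit 226) (nat_lit 5) (nat_lit 231) (nat_lit 5) (nat_lit 227) (nat_lit 5) (nat_lit 409) (nat_lit 352) (nat_lit 259)) (XT.lf (nat_lit 0) (nat_lit 4079883899) (nat_lit 380) (nat_lit 10898072016) (nat_lit 76) (nat_lit 607456848) (nat_lit 222) (nat_lit 5) (nat_lit 227) (nat_lit 5) (nat_lit 223) (nat_lit 5) (nat_lit 410) (nat_lit 352) (nat_lit 258)))) (XT.nd (nat_lit 78) (nat_lit 608) (nat_lit 0) (XT.lf (nat_lit 0) (nat_lit 8258583686) (nat_lit 380) (nat_lit 862164742) (nat_lit 76) (nat_lit 6738630793) (nat_lit 222) (nat_lit 5) (nat_lit 227) (nat_lit 5) (nat_lit 223) (nat_lit 5) (nat_lit 411) (nat_lit 352) (nat_lit 257)) (XT.nd (nat_lit 78) (nat_lit 380) (nat_lit 0) (XT.lf (nat_lit 0) (nat_lit 9630212954) (nat_lit 228) (nat_lit 3004098058)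 (nat_lit 304) (nat_lit 3505103663) (nat_lit 219) (nat_lit 5) (nat_lit 222) (nat_lit 5) (nat_lit 223) (nat_lit 5) (nat_lit 412) (nat_lit 352) (nat_lit 256)) (XT.lf (nat_lit 0) (nat_lit 758728517) (nat_lit 380) (nat_lit 12391699720) (nat_lit 76) (nat_lit 3275441457) (nat_lit 214) (nat_lit 5) (nat_lit 219) (nat_lit 5) (nat_lit 215) (nat_lit 5) (nat_lit 413) (nat_lit 352) (nat_lit 255))))))))
noncomputable def xc74 : XT := (XT.nd (nat_lit 48594) (nat_lit 0) (nat_lit 12768) (XT.nd (nat_lit 858) (nat_lit 1292) (nat_lit 0) (XT.nd (nat_lit 390) (nat_lit 1064) (nat_lit 0) (XT.nd (nat_lit 156) (nat_lit 608) (nat_lit 0) (XT.nd (nat_lit 78) (nat_lit 228) (nat_lit 0) (XT.lf (nat_lit 0) (nat_lit 5155523655) (nat_lit 380) (nat_lit 1789574200) (nat_lit 76) (nat_lit 9772514478) (nat_lit 214) (nat_lit 5) (nat_lit 219) (nat_lit 5) (nat_lit 215) (nat_lit 5) (nat_lit 414) (nat_lit 352) (nat_lit 254)) (XT.lf (nat_lit 0) (nat_lit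 9279849361) (nat_lit 228) (nat_lit 473550263) (nat_lit 304) (nat_lit 7262632316) (nat_lit 211) (nat_lit 5) (nat_lit 214) (nat_lit 5) (nat_lit 215) (nat_lit 5) (nat_lit 415) (nat_lit 352) (nat_lit 253))) (XT.nd (nat_lit 78) (nat_lit 304) (nat_lit 0) (XT.lf (nat_lit 0) (nat_lit 3369206070) (nat_lit 304) (nat_lit 11210305662) (nat_lit 380) (nat_lit 2741183408) (nat_lit 207) (nat_lit 5) (nat_lit 211) (nat_lit 5) (nat_lit 212) (nat_lit 5) (nat_lit 416) (nat_lit 352) (nat_lit 252)) (XT.nd (nat_lit 78) (nat_lit 228) (nat_lit 0) (XT.lf (nat_lit 0) (nat_lit 1942325024) (nat_lit 380) (nat_lit 2721788667) (nat_lit 76) (nat_lit 12967917969) (nat_lit 206) (nat_lit 5) (nat_lit 211) (nat_lit 5) (nat_lit 207) (nat_lit 5) (nat_lit 417) (nat_lit 352) (nat_lit 251)) (XT.lf (nat_lit 0) (nat_lit 6799168050) (nat_lit 304) (nat_lit 9009501908) (nat_lit 76) (nat_lit 2140586371) (nat_lit 203) (nat_lit 5) (nat_lit 207) (nat_lit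 5) (nat_lit 204) (nat_lit 5) (nat_lit 418) (nat_lit 352) (nat_lit 250))))) (XT.nd (nat_lit 234) (nat_lit 532) (nat_lit 0) (XT.nd (nat_lit 78) (nat_lit 304) (nat_lit 0) (XT.lf (nat_lit 0) (nat_lit 2706824031) (nat_lit 228) (nat_lit 9175792495) (nat_lit 304) (nat_lit 6390954209) (nat_lit 200) (nat_lit 5) (nat_lit 203) (nat_lit 5) (nat_lit 204) (nat_lit 5) (nat_lit 419) (nat_lit 352) (nat_lit 249)) (XT.nd (nat_lit 78) (nat_lit 304) (nat_lit 0) (XT.lf (nat_lit 0) (nat_lit 14928323664) (nat_lit 228) (nat_lit 2262424415) (nat_lit 304) (nat_lit 1414701103) (nat_lit 200) (nat_lit 5) (nat_lit 203) (nat_lit 5) (nat_lit 204) (nat_lit 5) (nat_lit 420) (nat_lit 352) (nat_lit 248)) (XT.lf (nat_lit 0) (nat_lit 3751123368) (nat_lit 304) (nat_lit 10319755315) (nat_lit 76) (nat_lit 4871954307) (nat_lit 196) (nat_lit 5) (nat_lit 200) (nat_lit 5) (nat_lit 197) (nat_lit 5) (nat_lit 421) (nat_lit 352) (nat_lit 247)))) (XT.nd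 (nat_lit 78) (nat_lit 304) (nat_lit 0) (XT.lf (nat_lit 0) (nat_lit 2051091858) (nat_lit 228) (nat_lit 7053712449) (nat_lit 304) (nat_lit 10183274321) (nat_lit 193) (nat_lit 5) (nat_lit 196) (nat_lit 5) (nat_lit 197) (nat_lit 5) (nat_lit 422) (nat_lit 352) (nat_lit 246)) (XT.nd (nat_lit 78) (nat_lit 304) (nat_lit 0) (XT.lf (nat_lit 0) (nat_lit 14707832997) (nat_lit 304) (nat_lit 4669371821) (nat_lit 76) (nat_lit 263814698) (nat_lit 193) (nat_lit 5) (nat_lit 197) (nat_lit 5) (nat_lit 194) (nat_lit 5) (nat_lit 423) (nat_lit 352) (nat_lit 245)) (XT.lf (nat_lit 0) (nat_lit 598802029) (nat_lit 304) (nat_lit 11668132358) (nat_lit 76) (nat_lit 7733467773) (nat_lit 189) (nat_lit 5) (nat_lit 193) (nat_lit 5) (nat_lit 190) (nat_lit 5) (nat_lit 424) (nat_lit 352) (nat_lit 244)))))) (XT.nd (nat_lit 468) (nat_lit 456) (nat_lit 0) (XT.nd (nat_lit 234) (nat_lit 456) (nat_lit 0) (XT.nd (nat_lit 78) (nat_lit 152) (nat_lit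 0) (XT.lf (nat_lit 0) (nat_lit 1398623857) (nat_lit 228) (nat_lit 4842447980) (nat_lit 304) (nat_lit 14126724929) (nat_lit 186) (nat_lit 5) (nat_lit 189) (nat_lit 5) (nat_lit 190) (nat_lit 5) (nat_lit 425) (nat_lit 352) (nat_lit 243)) (XT.nd (nat_lit 78) (nat_lit 152) (nat_lit 0) (XT.lf (nat_lit 0) (nat_lit 12181084056) (nat_lit 304) (nat_lit 5704233019) (nat_lit 76) (nat_lit 2857041907) (nat_lit 186) (nat_lit 5) (nat_lit 190) (nat_lit 5) (nat_lit 187) (nat_lit 5) (nat_lit 426) (nat_lit 352) (nat_lit 242)) (XT.lf (nat_lit 0) (nat_lit 8038447927) (nat_lit 152) (nat_lit 10369094587) (nat_lit 228) (nat_lit 2717368173) (nat_lit 184) (nat_lit 5) (nat_lit 186) (nat_lit 5) (nat_lit 187) (nat_lit 5) (nat_lit 427) (nat_lit 352) (nat_lit 241)))) (XT.nd (nat_lit 78) (nat_lit 152) (nat_lit 0) (XT.lf (nat_lit 0) (nat_lit 746208646) (nat_lit 228) (nat_lit 2539642505) (nat_lit 304) (nat_lit 18230682817) (nat_lit 180)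 (nat_lit 5) (nat_lit 183) (nat_lit 5) (nat_lit 184) (nat_lit 5) (nat_lit 428) (nat_lit 352) (nat_lit 240)) (XT.nd (nat_lit 78) (nat_lit 152) (nat_lit 0) (XT.lf (nat_lit 0) (nat_lit 9584292942) (nat_lit 304) (nat_lit 6764411798) (nat_lit 76) (nat_lit 5565301798) (nat_lit 180) (nat_lit 5) (nat_lit 184) (nat_lit 5) (nat_lit 181) (nat_lit 5) (nat_lit 429) (nat_lit 352) (nat_lit 239)) (XT.lf (nat_lit 0) (nat_lit 7759532748) (nat_lit 152) (nat_lit 8395559063) (nat_lit 228) (nat_lit 6165809359) (nat_lit 178) (nat_lit 5) (nat_lit 180) (nat_lit 5) (nat_lit 181) (nat_lit 5) (nat_lit 430) (nat_lit 352) (nat_lit 238))))) (XT.nd (nat_lit 47034) (nat_lit 0) (nat_lit 21736) (XT.nd (nat_lit 78) (nat_lit 152) (nat_lit 0) (XT.lf (nat_lit 0) (nat_lit 90778563) (nat_lit 228) (nat_lit 142233415) (nat_lit 304) (nat_lit 22505330750) (nat_lit 174) (nat_lit 5) (nat_lit 177) (nat_lit 5) (nat_lit 178) (nat_lit 5) (nat_lit 431)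 (nat_lit 352) (nat_lit 237)) (XT.nd (nat_lit 78) (nat_lit 152) (nat_lit 0) (XT.lf (nat_lit 0) (nat_lit 6912519308) (nat_lit 304) (nat_lit 7854315288) (nat_lit 76) (nat_lit 8393262067) (nat_lit 174) (nat_lit 5) (nat_lit 178) (nat_lit 5) (nat_lit 175) (nat_lit 5) (nat_lit 432) (nat_lit 352) (nat_lit 236)) (XT.lf (nat_lit 0) (nat_lit 7499955108) (nat_lit 152) (nat_lit 6350232974) (nat_lit 228) (nat_lit 9742581849) (nat_lit 172) (nat_lit 5) (nat_lit 174) (nat_lit 5) (nat_lit 175) (nat_lit 5) (nat_lit 433) (nat_lit 352) (nat_lit 235)))) (XT.nd (nat_lit 78) (nat_lit 0) (nat_lit 0) (XT.lf (nat_lit 0) (nat_lit 1587598059) (nat_lit 836) (nat_lit 995145823) (nat_lit 836) (nat_lit 995145823) (nat_lit 458) (nat_lit 3) (nat_lit 469) (nat_lit 3) (nat_lit 469) (nat_lit 5) (nat_lit 353) (nat_lit 353) (nat_lit 314)) (XT.nd (nat_lit 78) (nat_lit 0) (nat_lit 0) (XT.lf (nat_lit 76) (nat_lit 1619194374) (nat_lit 0) (nat_lit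 3300327791) (nat_lit 836) (nat_lit 2292692994) (nat_lit 459) (nat_lit 5) (nat_lit 458) (nat_lit 3) (nat_lit 469) (nat_lit 5) (nat_lit 354) (nat_lit 353) (nat_lit 313)) (XT.lf (nat_lit 76) (nat_lit 5343302415) (nat_lit 0) (nat_lit 1327032418) (nat_lit 836) (nat_lit 601384440) (nat_lit 459) (nat_lit 5) (nat_lit 458) (nat_lit 3) (nat_lit 469) (nat_lit 5) (nat_lit 355) (nat_lit 353) (nat_lit 312))))))) (XT.nd (nat_lit 936) (nat_lit 6536) (nat_lit 0) (XT.nd (nat_lit 468) (nat_lit 836) (nat_lit 0) (XT.nd (nat_lit 234) (nat_lit 836) (nat_lit 0) (XT.nd (nat_lit 78) (nat_lit 0) (nat_lit 0) (XT.lf (nat_lit 0) (nat_lit 1078753769) (nat_lit 836) (nat_lit 5505194204) (nat_lit 912) (nat_lit 749921131) (nat_lit 448) (nat_lit 5) (nat_lit 459) (nat_lit 5) (nat_lit 460) (nat_lit 5) (nat_lit 356) (nat_lit 353) (nat_lit 311)) (XT.nd (nat_lit 78) (nat_lit 0) (nat_lit 0) (XT.lf (nat_lit 0) (nat_lit 2767187701) (nat_lit 836)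 (nat_lit 1715148098) (nat_lit 912) (nat_lit 2916269637) (nat_lit 448) (nat_lit 5) (nat_lit 459) (nat_lit 5) (nat_lit 460) (nat_lit 5) (nat_lit 357) (nat_lit 353) (nat_lit 310)) (XT.lf (nat_lit 76) (nat_lit 2195942476) (nat_lit 0) (nat_lit 2270444645) (nat_lit 912) (nat_lit 3000093364) (nat_lit 449) (nat_lit 5) (nat_lit 448) (nat_lit 5) (nat_lit 460) (nat_lit 5) (nat_lit 358) (nat_lit 353) (nat_lit 309)))) (XT.nd (nat_lit 78) (nat_lit 912) (nat_lit 0) (XT.lf (nat_lit 0) (nat_lit 6174805519) (nat_lit 836) (nat_lit 1313774872) (nat_lit 912) (nat_lit 49064103) (nat_lit 449) (nat_lit 5) (nat_lit 460) (nat_lit 5) (nat_lit 461) (nat_lit 5) (nat_lit 359) (nat_lit 353) (nat_lit 308)) (XT.nd (nat_lit 78) (nat_lit 0) (nat_lit 0) (XT.lf (nat_lit 0) (nat_lit 308519950) (nat_lit 912) (nat_lit 4857315666) (nat_lit 988) (nat_lit 2445275502) (nat_lit 437) (nat_lit 5) (nat_lit 449) (nat_lit 5) (nat_lit 450) (nat_lit 5)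 (nat_lit 360) (nat_lit 353) (nat_lit 307)) (XT.lf (nat_lit 0) (nat_lit 1959207460) (nat_lit 912) (nat_lit 766559335) (nat_lit 988) (nat_lit 4961912756) (nat_lit 437) (nat_lit 5) (nat_lit 449) (nat_lit 5) (nat_lit 450) (nat_lit 5) (nat_lit 361) (nat_lit 353) (nat_lit 306))))) (XT.nd (nat_lit 234) (nat_lit 836) (nat_lit 0) (XT.nd (nat_lit 78) (nat_lit 0) (nat_lit 76) (XT.lf (nat_lit 76) (nat_lit 3479006895) (nat_lit 0) (nat_lit 158687572) (nat_lit 988) (nat_lit 4129502204) (nat_lit 438) (nat_lit 5) (nat_lit 437) (nat_lit 5) (nat_lit 450) (nat_lit 5) (nat_lit 362) (nat_lit 353) (nat_lit 305)) (XT.nd (nat_lit 78) (nat_lit 0) (nat_lit 0) (XT.lf (nat_lit 0) (nat_lit 5344524497) (nat_lit 912) (nat_lit 42425135) (nat_lit 988) (nat_lit 2462810021) (nat_lit 438) (nat_lit 5) (nat_lit 450) (nat_lit 5) (nat_lit 451) (nat_lit 5) (nat_lit 363) (nat_lit 353) (nat_lit 304)) (XT.lf (nat_lit 76) (nat_lit 4378420803) (nat_lit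 0) (nat_lit 2715642312) (nat_lit 988) (nat_lit 840991297) (nat_lit 439) (nat_lit 5) (nat_lit 438) (nat_lit 5) (nat_lit 451) (nat_lit 5) (nat_lit 364) (nat_lit 353) (nat_lit 303)))) (XT.nd (nat_lit 78) (nat_lit 0) (nat_lit 0) (XT.lf (nat_lit 0) (nat_lit 814221498) (nat_lit 988) (nat_lit 7142742383) (nat_lit 1064) (nat_lit 66949913) (nat_lit 426) (nat_lit 5) (nat_lit 439) (nat_lit 5) (nat_lit 440) (nat_lit 5) (nat_lit 365) (nat_lit 353) (nat_lit 302)) (XT.nd (nat_lit 78) (nat_lit 0) (nat_lit 0) (XT.lf (nat_lit 0) (nat_lit 2515142703) (nat_lit 988) (nat_lit 2663024930) (nat_lit 1064) (nat_lit 2936632871) (nat_lit 426) (nat_lit 5) (nat_lit 439) (nat_lit 5) (nat_lit 440) (nat_lit 5) (nat_lit 366) (nat_lit 353) (nat_lit 301)) (XT.lf (nat_lit 76) (nat_lit 1952176367) (nat_lit 0) (nat_lit 2284939865) (nat_lit 1064) (nat_lit 3972196843) (nat_lit 427) (nat_lit 5) (nat_lit 426) (nat_lit 5) (nat_lit 440) (nat_lit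 5) (nat_lit 367) (nat_lit 353) (nat_lit 300)))))) (XT.nd (nat_lit 468) (nat_lit 3344) (nat_lit 0) (XT.nd (nat_lit 234) (nat_lit 2204) (nat_lit 0) (XT.nd (nat_lit 78) (nat_lit 1064) (nat_lit 0) (XT.lf (nat_lit 0) (nat_lit 5997020812) (nat_lit 988) (nat_lit 1590554191) (nat_lit 76) (nat_lit 719497863) (nat_lit 427) (nat_lit 5) (nat_lit 440) (nat_lit 5) (nat_lit 428) (nat_lit 5) (nat_lit 368) (nat_lit 353) (nat_lit 299)) (XT.nd (nat_lit 78) (nat_lit 76) (nat_lit 0) (XT.lf (nat_lit 0) (nat_lit 3219156692) (nat_lit 988) (nat_lit 4597951650) (nat_lit 1064) (nat_lit 590435538) (nat_lit 414) (nat_lit 5) (nat_lit 427) (nat_lit 5) (nat_lit 428) (nat_lit 5) (nat_lit 369) (nat_lit 353) (nat_lit 298)) (XT.lf (nat_lit 0) (nat_lit 1128311952) (nat_lit 1064) (nat_lit 353900959) (nat_lit 76) (nat_lit 7029358095) (nat_lit 413) (nat_lit 5) (nat_lit 427) (nat_lit 5) (nat_lit 414) (nat_lit 5) (nat_lit 370) (nat_lit 353)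 (nat_lit 297)))) (XT.nd (nat_lit 78) (nat_lit 1140) (nat_lit 0) (XT.lf (nat_lit 0) (nat_lit 2904559564) (nat_lit 1140) (nat_lit 3961226402) (nat_lit 76) (nat_lit 1752223459) (nat_lit 399) (nat_lit 5) (nat_lit 414) (nat_lit 5) (nat_lit 400) (nat_lit 5) (nat_lit 371) (nat_lit 353) (nat_lit 296)) (XT.nd (nat_lit 78) (nat_lit 0) (nat_lit 0) (XT.lf (nat_lit 0) (nat_lit 1066075498) (nat_lit 1140) (nat_lit 3653255892) (nat_lit 1216) (nat_lit 4008752502) (nat_lit 384) (nat_lit 5) (nat_lit 399) (nat_lit 5) (nat_lit 400) (nat_lit 5) (nat_lit 372) (nat_lit 353) (nat_lit 295)) (XT.lf (nat_lit 0) (nat_lit 6288240528) (nat_lit 1140) (nat_lit 297914871) (nat_lit 1216) (nat_lit 2255376924) (nat_lit 384) (nat_lit 5) (nat_lit 399) (nat_lit 5) (nat_lit 400) (nat_lit 5) (nat_lit 373) (nat_lit 353) (nat_lit 294))))) (XT.nd (nat_lit 234) (nat_lit 1216) (nat_lit 0) (XT.nd (nat_lit 78) (nat_lit 912) (nat_lit 0) (XT.lf (nat_lit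 0) (nat_lit 2693530835) (nat_lit 1216) (nat_lit 5830594580) (nat_lit 1292) (nat_lit 433804552) (nat_lit 368) (nat_lit 5) (nat_lit 384) (nat_lit 5) (nat_lit 385) (nat_lit 5) (nat_lit 374) (nat_lit 353) (nat_lit 293)) (XT.nd (nat_lit 78) (nat_lit 836) (nat_lit 0) (XT.lf (nat_lit 0) (nat_lit 1402591469) (nat_lit 1292) (nat_lit 981819776) (nat_lit 76) (nat_lit 6693342640) (nat_lit 367) (nat_lit 5) (nat_lit 384) (nat_lit 5) (nat_lit 368) (nat_lit 5) (nat_lit 375) (nat_lit 353) (nat_lit 292)) (XT.lf (nat_lit 0) (nat_lit 3300894184) (nat_lit 912) (nat_lit 4706453931) (nat_lit 76) (nat_lit 1193229537) (nat_lit 356) (nat_lit 5) (nat_lit 368) (nat_lit 5) (nat_lit 357) (nat_lit 5) (nat_lit 376) (nat_lit 353) (nat_lit 291)))) (XT.nd (nat_lit 78) (nat_lit 608) (nat_lit 0) (XT.lf (nat_lit 0) (nat_lit 781707290) (nat_lit 608) (nat_lit 4476916100) (nat_lit 684) (nat_lit 4068388419) (nat_lit 348) (nat_lit 5) (nat_lit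 356) (nat_lit 5) (nat_lit 357) (nat_lit 5) (nat_lit 377) (nat_lit 353) (nat_lit 290)) (XT.nd (nat_lit 78) (nat_lit 608) (nat_lit 0) (XT.lf (nat_lit 0) (nat_lit 6493835309) (nat_lit 608) (nat_lit 790886413) (nat_lit 684) (nat_lit 2172228151) (nat_lit 348) (nat_lit 5) (nat_lit 356) (nat_lit 5) (nat_lit 357) (nat_lit 5) (nat_lit 378) (nat_lit 353) (nat_lit 289)) (XT.lf (nat_lit 0) (nat_lit 2774606883) (nat_lit 608) (nat_lit 6615781888) (nat_lit 684) (nat_lit 199833735) (nat_lit 340) (nat_lit 5) (nat_lit 348) (nat_lit 5) (nat_lit 349) (nat_lit 5) (nat_lit 379) (nat_lit 353) (nat_lit 288))))))))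
noncomputable def xc75 : XT := (XT.nd (nat_lit 1872) (nat_lit 4484) (nat_lit 0) (XT.nd (nat_lit 936) (nat_lit 3344) (nat_lit 0) (XT.nd (nat_lit 468) (nat_lit 2052) (nat_lit 0) (XT.nd (nat_lit 234) (nat_lit 608) (nat_lit 0) (XT.nd (nat_lit 78) (nat_lit 1140) (nat_lit 0) (XT.lf (nat_lit 0) (nat_lit 1797619205) (nat_lit 684) (nat_lit 1044673460) (nat_lit 76) (nat_lit 6884623510) (nat_lit 339) (nat_lit 5) (nat_lit 348) (nat_lit 5) (nat_lit 340) (nat_lit 5) (nat_lit 380) (nat_lit 353) (nat_lit 287)) (XT.nd (nat_lit 78) (nat_lit 608) (nat_lit 0) (XT.lf (nat_lit 0) (nat_lit 3873798823) (nat_lit 608) (nat_lit 4920092108) (nat_lit 76) (nat_lit 1073075779) (nat_lit 332) (nat_lit 5) (nat_lit 340) (nat_lit 5) (nat_lit 333) (nat_lit 5) (nat_lit 381) (nat_lit 353) (nat_lit 286)) (XT.lf (nat_lit 0) (nat_lit 1084477831) (nat_lit 608) (nat_lit 4942317663) (nat_lit 684) (nat_lit 3983987318) (nat_lit 324) (nat_lit 5) (nat_lit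 332) (nat_lit 5) (nat_lit 333) (nat_lit 5) (nat_lit 382) (nat_lit 353) (nat_lit 285)))) (XT.nd (nat_lit 78) (nat_lit 608) (nat_lit 0) (XT.lf (nat_lit 0) (nat_lit 7333285974) (nat_lit 608) (nat_lit 926748275) (nat_lit 684) (nat_lit 1898409581) (nat_lit 324) (nat_lit 5) (nat_lit 332) (nat_lit 5) (nat_lit 333) (nat_lit 5) (nat_lit 383) (nat_lit 353) (nat_lit 284)) (XT.nd (nat_lit 78) (nat_lit 0) (nat_lit 0) (XT.lf (nat_lit 0) (nat_lit 276204054) (nat_lit 608) (nat_lit 6853290697) (nat_lit 76) (nat_lit 3180027656) (nat_lit 316) (nat_lit 5) (nat_lit 324) (nat_lit 5) (nat_lit 317) (nat_lit 5) (nat_lit 384) (nat_lit 353) (nat_lit 283)) (XT.lf (nat_lit 0) (nat_lit 2483114266) (nat_lit 608) (nat_lit 545499948) (nat_lit 76) (nat_lit 7435798814) (nat_lit 316) (nat_lit 5) (nat_lit 324) (nat_lit 5) (nat_lit 317) (nat_lit 5) (nat_lit 385) (nat_lit 353) (nat_lit 282))))) (XT.nd (nat_lit 234) (nat_lit 1064) (nat_lit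 0) (XT.nd (nat_lit 78) (nat_lit 456) (nat_lit 0) (XT.lf (nat_lit 0) (nat_lit 4794435708) (nat_lit 608) (nat_lit 4601800531) (nat_lit 76) (nat_lit 1226568011) (nat_lit 309) (nat_lit 5) (nat_lit 317) (nat_lit 5) (nat_lit 310) (nat_lit 5) (nat_lit 386) (nat_lit 353) (nat_lit 281)) (XT.nd (nat_lit 78) (nat_lit 0) (nat_lit 0) (XT.lf (nat_lit 0) (nat_lit 1982128215) (nat_lit 456) (nat_lit 5216297570) (nat_lit 532) (nat_lit 3586821553) (nat_lit 303) (nat_lit 5) (nat_lit 309) (nat_lit 5) (nat_lit 310) (nat_lit 5) (nat_lit 387) (nat_lit 353) (nat_lit 280)) (XT.lf (nat_lit 0) (nat_lit 8821852023) (nat_lit 456) (nat_lit 868443272) (nat_lit 532) (nat_lit 1261795634) (nat_lit 303) (nat_lit 5) (nat_lit 309) (nat_lit 5) (nat_lit 310) (nat_lit 5) (nat_lit 388) (nat_lit 353) (nat_lit 279)))) (XT.nd (nat_lit 78) (nat_lit 456) (nat_lit 0) (XT.lf (nat_lit 0) (nat_lit 1162015752) (nat_lit 608) (nat_lit 6368547335) (nat_lit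 76) (nat_lit 3591515714) (nat_lit 295) (nat_lit 5) (nat_lit 303) (nat_lit 5) (nat_lit 296) (nat_lit 5) (nat_lit 389) (nat_lit 353) (nat_lit 278)) (XT.nd (nat_lit 78) (nat_lit 0) (nat_lit 0) (XT.lf (nat_lit 0) (nat_lit 544188638) (nat_lit 456) (nat_lit 3094919029) (nat_lit 532) (nat_lit 7657506041) (nat_lit 289) (nat_lit 5) (nat_lit 295) (nat_lit 5) (nat_lit 296) (nat_lit 5) (nat_lit 390) (nat_lit 353) (nat_lit 277)) (XT.lf (nat_lit 0) (nat_lit 6240454931) (nat_lit 532) (nat_lit 3730946936) (nat_lit 76) (nat_lit 1503484519) (nat_lit 289) (nat_lit 5) (nat_lit 296) (nat_lit 5) (nat_lit 290) (nat_lit 5) (nat_lit 391) (nat_lit 353) (nat_lit 276)))))) (XT.nd (nat_lit 468) (nat_lit 1596) (nat_lit 0) (XT.nd (nat_lit 234) (nat_lit 836) (nat_lit 0) (XT.nd (nat_lit 78) (nat_lit 456) (nat_lit 0) (XT.lf (nat_lit 0) (nat_lit 3503417967) (nat_lit 456) (nat_lit 5452423051) (nat_lit 532) (nat_lit 2701586273) (nat_lit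 283) (nat_lit 5) (nat_lit 289) (nat_lit 5) (nat_lit 290) (nat_lit 5) (nat_lit 392) (nat_lit 353) (nat_lit 275)) (XT.nd (nat_lit 78) (nat_lit 456) (nat_lit 0) (XT.lf (nat_lit 0) (nat_lit 10996163290) (nat_lit 456) (nat_lit 766366483) (nat_lit 532) (nat_lit 82619417) (nat_lit 283) (nat_lit 5) (nat_lit 289) (nat_lit 5) (nat_lit 290) (nat_lit 5) (nat_lit 393) (nat_lit 353) (nat_lit 274)) (XT.lf (nat_lit 0) (nat_lit 2641305944) (nat_lit 456) (nat_lit 5329411462) (nat_lit 76) (nat_lit 4064708778) (nat_lit 277) (nat_lit 5) (nat_lit 283) (nat_lit 5) (nat_lit 278) (nat_lit 5) (nat_lit 394) (nat_lit 353) (nat_lit 273)))) (XT.nd (nat_lit 78) (nat_lit 380) (nat_lit 0) (XT.lf (nat_lit 0) (nat_lit 2274768398) (nat_lit 456) (nat_lit 3181734414) (nat_lit 532) (nat_lit 6774547704) (nat_lit 271) (nat_lit 5) (nat_lit 277) (nat_lit 5) (nat_lit 278) (nat_lit 5) (nat_lit 395) (nat_lit 353) (nat_lit 272)) (XT.nd (nat_lit 78)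 (nat_lit 380) (nat_lit 0) (XT.lf (nat_lit 0) (nat_lit 8400808555) (nat_lit 532) (nat_lit 2267386282) (nat_lit 76) (nat_lit 1763009154) (nat_lit 271) (nat_lit 5) (nat_lit 278) (nat_lit 5) (nat_lit 272) (nat_lit 5) (nat_lit 396) (nat_lit 353) (nat_lit 271)) (XT.lf (nat_lit 0) (nat_lit 5697468917) (nat_lit 380) (nat_lit 5796489700) (nat_lit 456) (nat_lit 1141587999) (nat_lit 266) (nat_lit 5) (nat_lit 271) (nat_lit 5) (nat_lit 272) (nat_lit 5) (nat_lit 397) (nat_lit 353) (nat_lit 270))))) (XT.nd (nat_lit 234) (nat_lit 760) (nat_lit 0) (XT.nd (nat_lit 78) (nat_lit 380) (nat_lit 0) (XT.lf (nat_lit 0) (nat_lit 1070903017) (nat_lit 380) (nat_lit 735029317) (nat_lit 456) (nat_lit 11039323301) (nat_lit 260) (nat_lit 5) (nat_lit 265) (nat_lit 5) (nat_lit 266) (nat_lit 5) (nat_lit 398) (nat_lit 353) (nat_lit 269)) (XT.nd (nat_lit 78) (nat_lit 380) (nat_lit 0) (XT.lf (nat_lit 0) (nat_lit 4907482605) (nat_lit 456)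 (nat_lit 3686706198) (nat_lit 76) (nat_lit 4464071564) (nat_lit 260) (nat_lit 5) (nat_lit 266) (nat_lit 5) (nat_lit 261) (nat_lit 5) (nat_lit 399) (nat_lit 353) (nat_lit 268)) (XT.lf (nat_lit 0) (nat_lit 4694020800) (nat_lit 380) (nat_lit 3435939981) (nat_lit 456) (nat_lit 5146858017) (nat_lit 255) (nat_lit 5) (nat_lit 260) (nat_lit 5) (nat_lit 261) (nat_lit 5) (nat_lit 400) (nat_lit 353) (nat_lit 267)))) (XT.nd (nat_lit 78) (nat_lit 760) (nat_lit 0) (XT.lf (nat_lit 0) (nat_lit 11480537184) (nat_lit 456) (nat_lit 151655501) (nat_lit 76) (nat_lit 1868798581) (nat_lit 255) (nat_lit 5) (nat_lit 261) (nat_lit 5) (nat_lit 256) (nat_lit 5) (nat_lit 401) (nat_lit 353) (nat_lit 266)) (XT.nd (nat_lit 78) (nat_lit 304) (nat_lit 0) (XT.lf (nat_lit 0) (nat_lit 1270756765) (nat_lit 456) (nat_lit 5107840205) (nat_lit 76) (nat_lit 7350113176) (nat_lit 249) (nat_lit 5) (nat_lit 255) (nat_lit 5) (nat_lit 250) (nat_lit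 5) (nat_lit 402) (nat_lit 353) (nat_lit 265)) (XT.lf (nat_lit 0) (nat_lit 3715636592) (nat_lit 304) (nat_lit 918350376) (nat_lit 380) (nat_lit 9328256725) (nat_lit 245) (nat_lit 5) (nat_lit 249) (nat_lit 5) (nat_lit 250) (nat_lit 5) (nat_lit 403) (nat_lit 353) (nat_lit 264))))))) (XT.nd (nat_lit 936) (nat_lit 2128) (nat_lit 0) (XT.nd (nat_lit 468) (nat_lit 988) (nat_lit 0) (XT.nd (nat_lit 234) (nat_lit 608) (nat_lit 0) (XT.nd (nat_lit 78) (nat_lit 760) (nat_lit 0) (XT.lf (nat_lit 0) (nat_lit 8172334319) (nat_lit 380) (nat_lit 1372039424) (nat_lit 76) (nat_lit 4656182895) (nat_lit 245) (nat_lit 5) (nat_lit 250) (nat_lit 5) (nat_lit 246) (nat_lit 5) (nat_lit 404) (nat_lit 353) (nat_lit 263)) (XT.nd (nat_lit 78) (nat_lit 380) (nat_lit 0) (XT.lf (nat_lit 0) (nat_lit 7880852468) (nat_lit 380) (nat_lit 3998396984) (nat_lit 456) (nat_lit 2564897000) (nat_lit 240) (nat_lit 5) (nat_lit 245) (nat_lit 5) (nat_lit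 246) (nat_lit 5) (nat_lit 405) (nat_lit 353) (nat_lit 262)) (XT.lf (nat_lit 0) (nat_lit 1017819729) (nat_lit 380) (nat_lit 11954971855) (nat_lit 76) (nat_lit 1720911805) (nat_lit 235) (nat_lit 5) (nat_lit 240) (nat_lit 5) (nat_lit 236) (nat_lit 5) (nat_lit 406) (nat_lit 353) (nat_lit 261)))) (XT.nd (nat_lit 78) (nat_lit 608) (nat_lit 0) (XT.lf (nat_lit 0) (nat_lit 4740918102) (nat_lit 380) (nat_lit 2593005327) (nat_lit 76) (nat_lit 7613528195) (nat_lit 235) (nat_lit 5) (nat_lit 240) (nat_lit 5) (nat_lit 236) (nat_lit 5) (nat_lit 407) (nat_lit 353) (nat_lit 260)) (XT.nd (nat_lit 78) (nat_lit 304) (nat_lit 0) (XT.lf (nat_lit 0) (nat_lit 7157482454) (nat_lit 304) (nat_lit 1465603186) (nat_lit 380) (nat_lit 6584305378) (nat_lit 231) (nat_lit 5) (nat_lit 235) (nat_lit 5) (nat_lit 236) (nat_lit 5) (nat_lit 408) (nat_lit 353) (nat_lit 259)) (XT.lf (nat_lit 0) (nat_lit 1736688093) (nat_lit 304) (nat_lit 10950973416)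 (nat_lit 380) (nat_lit 2785488787) (nat_lit 227) (nat_lit 5) (nat_lit 231) (nat_lit 5) (nat_lit 232) (nat_lit 5) (nat_lit 409) (nat_lit 353) (nat_lit 258))))) (XT.nd (nat_lit 234) (nat_lit 380) (nat_lit 0) (XT.nd (nat_lit 78) (nat_lit 532) (nat_lit 0) (XT.lf (nat_lit 0) (nat_lit 1180794681) (nat_lit 380) (nat_lit 3821025552) (nat_lit 76) (nat_lit 10742472035) (nat_lit 226) (nat_lit 5) (nat_lit 231) (nat_lit 5) (nat_lit 227) (nat_lit 5) (nat_lit 410) (nat_lit 353) (nat_lit 257)) (XT.nd (nat_lit 78) (nat_lit 228) (nat_lit 0) (XT.lf (nat_lit 0) (nat_lit 5263283970) (nat_lit 380) (nat_lit 9574151944) (nat_lit 76) (nat_lit 1183709126) (nat_lit 222) (nat_lit 5) (nat_lit 227) (nat_lit 5) (nat_lit 223) (nat_lit 5) (nat_lit 411) (nat_lit 353) (nat_lit 256)) (XT.lf (nat_lit 0) (nat_lit 728974092) (nat_lit 228) (nat_lit 8814474987) (nat_lit 304) (nat_lit 6760598282) (nat_lit 219) (nat_lit 5) (nat_lit 222) (nat_lit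 5) (nat_lit 223) (nat_lit 5) (nat_lit 412) (nat_lit 353) (nat_lit 255)))) (XT.nd (nat_lit 78) (nat_lit 380) (nat_lit 0) (XT.lf (nat_lit 0) (nat_lit 11506184691) (nat_lit 228) (nat_lit 2522509104) (nat_lit 304) (nat_lit 2564442716) (nat_lit 219) (nat_lit 5) (nat_lit 222) (nat_lit 5) (nat_lit 223) (nat_lit 5) (nat_lit 413) (nat_lit 353) (nat_lit 254)) (XT.nd (nat_lit 78) (nat_lit 0) (nat_lit 0) (XT.lf (nat_lit 0) (nat_lit 1797914849) (nat_lit 380) (nat_lit 11146995782) (nat_lit 76) (nat_lit 3943242420) (nat_lit 214) (nat_lit 5) (nat_lit 219) (nat_lit 5) (nat_lit 215) (nat_lit 5) (nat_lit 414) (nat_lit 353) (nat_lit 253)) (XT.lf (nat_lit 0) (nat_lit 6297009244) (nat_lit 380) (nat_lit 273887708) (nat_lit 76) (nat_lit 10618639154) (nat_lit 214) (nat_lit 5) (nat_lit 219) (nat_lit 5) (nat_lit 215) (nat_lit 5) (nat_lit 415) (nat_lit 353) (nat_lit 252)))))) (XT.nd (nat_lit 468) (nat_lit 1064) (nat_lit 0) (XT.nd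 (nat_lit 234) (nat_lit 456) (nat_lit 0) (XT.nd (nat_lit 78) (nat_lit 380) (nat_lit 0) (XT.lf (nat_lit 0) (nat_lit 11019913091) (nat_lit 304) (nat_lit 6385985938) (nat_lit 76) (nat_lit 91396525) (nat_lit 211) (nat_lit 5) (nat_lit 215) (nat_lit 5) (nat_lit 212) (nat_lit 5) (nat_lit 416) (nat_lit 353) (nat_lit 251)) (XT.nd (nat_lit 78) (nat_lit 76) (nat_lit 0) (XT.lf (nat_lit 0) (nat_lit 5032409152) (nat_lit 304) (nat_lit 10949601230) (nat_lit 380) (nat_lit 1829352213) (nat_lit 207) (nat_lit 5) (nat_lit 211) (nat_lit 5) (nat_lit 212) (nat_lit 5) (nat_lit 417) (nat_lit 353) (nat_lit 250)) (XT.lf (nat_lit 0) (nat_lit 2946875236) (nat_lit 380) (nat_lit 1267981432) (nat_lit 76) (nat_lit 13917747527) (nat_lit 206) (nat_lit 5) (nat_lit 211) (nat_lit 5) (nat_lit 207) (nat_lit 5) (nat_lit 418) (nat_lit 353) (nat_lit 249)))) (XT.nd (nat_lit 78) (nat_lit 228) (nat_lit 0) (XT.lf (nat_lit 0) (nat_lit 7942120381) (nat_lit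 304) (nat_lit 7737022897) (nat_lit 76) (nat_lit 2780421422) (nat_lit 203) (nat_lit 5) (nat_lit 207) (nat_lit 5) (nat_lit 204) (nat_lit 5) (nat_lit 419) (nat_lit 353) (nat_lit 248)) (XT.nd (nat_lit 78) (nat_lit 0) (nat_lit 0) (XT.lf (nat_lit 0) (nat_lit 4315667681) (nat_lit 228) (nat_lit 8849740375) (nat_lit 304) (nat_lit 5628580408) (nat_lit 200) (nat_lit 5) (nat_lit 203) (nat_lit 5) (nat_lit 204) (nat_lit 5) (nat_lit 420) (nat_lit 353) (nat_lit 247)) (XT.lf (nat_lit 0) (nat_lit 16859317966) (nat_lit 228) (nat_lit 1746485600) (nat_lit 304) (nat_lit 530829101) (nat_lit 200) (nat_lit 5) (nat_lit 203) (nat_lit 5) (nat_lit 204) (nat_lit 5) (nat_lit 421) (nat_lit 353) (nat_lit 246))))) (XT.nd (nat_lit 234) (nat_lit 532) (nat_lit 0) (XT.nd (nat_lit 78) (nat_lit 228) (nat_lit 0) (XT.lf (nat_lit 0) (nat_lit 4765405627) (nat_lit 304) (nat_lit 9121638904) (nat_lit 76) (nat_lit 5597020992) (nat_lit 196) (nat_lit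 5) (nat_lit 200) (nat_lit 5) (nat_lit 197) (nat_lit 5) (nat_lit 422) (nat_lit 353) (nat_lit 245)) (XT.nd (nat_lit 78) (nat_lit 0) (nat_lit 0) (XT.lf (nat_lit 0) (nat_lit 3605552222) (nat_lit 228) (nat_lit 6662231184) (nat_lit 304) (nat_lit 9572242532) (nat_lit 193) (nat_lit 5) (nat_lit 196) (nat_lit 5) (nat_lit 197) (nat_lit 5) (nat_lit 423) (nat_lit 353) (nat_lit 244)) (XT.lf (nat_lit 0) (nat_lit 16018613876) (nat_lit 304) (nat_lit 3339719614) (nat_lit 76) (nat_lit 845830235) (nat_lit 193) (nat_lit 5) (nat_lit 197) (nat_lit 5) (nat_lit 194) (nat_lit 5) (nat_lit 424) (nat_lit 353) (nat_lit 243)))) (XT.nd (nat_lit 78) (nat_lit 228) (nat_lit 0) (XT.lf (nat_lit 0) (nat_lit 1483471983) (nat_lit 304) (nat_lit 10545602971) (nat_lit 76) (nat_lit 8545338095) (nat_lit 189) (nat_lit 5) (nat_lit 193) (nat_lit 5) (nat_lit 190) (nat_lit 5) (nat_lit 425) (nat_lit 353) (nat_lit 242)) (XT.nd (nat_lit 78) (nat_lit 0)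 (nat_lit 0) (XT.lf (nat_lit 0) (nat_lit 2898718937) (nat_lit 228) (nat_lit 4385063586) (nat_lit 304) (nat_lit 13669383791) (nat_lit 186) (nat_lit 5) (nat_lit 189) (nat_lit 5) (nat_lit 190) (nat_lit 5) (nat_lit 426) (nat_lit 353) (nat_lit 241)) (XT.lf (nat_lit 0) (nat_lit 13382702642) (nat_lit 304) (nat_lit 4440401171) (nat_lit 76) (nat_lit 3516440357) (nat_lit 186) (nat_lit 5) (nat_lit 190) (nat_lit 5) (nat_lit 187) (nat_lit 5) (nat_lit 427) (nat_lit 353) (nat_lit 240))))))))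
noncomputable def xc76 : XT := (XT.nd (nat_lit 48672) (nat_lit 0) (nat_lit 7828) (XT.nd (nat_lit 47736) (nat_lit 0) (nat_lit 18164) (XT.nd (nat_lit 390) (nat_lit 0) (nat_lit 0) (XT.nd (nat_lit 156) (nat_lit 456) (nat_lit 0) (XT.nd (nat_lit 78) (nat_lit 304) (nat_lit 0) (XT.lf (nat_lit 0) (nat_lit 9700491980) (nat_lit 152) (nat_lit 10084766410) (nat_lit 228) (nat_lit 1948634931) (nat_lit 184) (nat_lit 5) (nat_lit 186) (nat_lit 5) (nat_lit 187) (nat_lit 5) (nat_lit 428) (nat_lit 353) (nat_lit 239)) (XT.lf (nat_lit 0) (nat_lit 2191984082) (nat_lit 228) (nat_lit 2015506416) (nat_lit 304) (nat_lit 17929847575) (nat_lit 180) (nat_lit 5) (nat_lit 183) (nat_lit 5) (nat_lit 184) (nat_lit 5) (nat_lit 429) (nat_lit 353) (nat_lit 238))) (XT.nd (nat_lit 78) (nat_lit 456) (nat_lit 0) (XT.lf (nat_lit 0) (nat_lit 10676515426) (nat_lit 304) (nat_lit 5567042796) (nat_lit 76) (nat_lit 6303727700) (nat_lit 180) (nat_lit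 5) (nat_lit 184) (nat_lit 5) (nat_lit 181) (nat_lit 5) (nat_lit 430) (nat_lit 353) (nat_lit 237)) (XT.nd (nat_lit 78) (nat_lit 304) (nat_lit 0) (XT.lf (nat_lit 0) (nat_lit 9378891641) (nat_lit 152) (nat_lit 8055437527) (nat_lit 228) (nat_lit 5532361499) (nat_lit 178) (nat_lit 5) (nat_lit 180) (nat_lit 5) (nat_lit 181) (nat_lit 5) (nat_lit 431) (nat_lit 353) (nat_lit 236)) (XT.lf (nat_lit 0) (nat_lit 1036756019) (nat_lit 304) (nat_lit 21918749719) (nat_lit 76) (nat_lit 441084661) (nat_lit 174) (nat_lit 5) (nat_lit 178) (nat_lit 5) (nat_lit 175) (nat_lit 5) (nat_lit 432) (nat_lit 353) (nat_lit 235))))) (XT.nd (nat_lit 47112) (nat_lit 0) (nat_lit 20748) (XT.nd (nat_lit 46956) (nat_lit 0) (nat_lit 20748) (XT.lf (nat_lit 0) (nat_lit 7894809385) (nat_lit 304) (nat_lit 6724087350) (nat_lit 76) (nat_lit 9212755394) (nat_lit 174) (nat_lit 5) (nat_lit 178) (nat_lit 5) (nat_lit 175) (nat_lit 5) (nat_lit 433) (nat_lit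 353) (nat_lit 234)) (XT.nd (nat_lit 78) (nat_lit 836) (nat_lit 0) (XT.lf (nat_lit 0) (nat_lit 3300199336) (nat_lit 836) (nat_lit 167538930) (nat_lit 836) (nat_lit 167538930) (nat_lit 458) (nat_lit 3) (nat_lit 469) (nat_lit 3) (nat_lit 469) (nat_lit 5) (nat_lit 354) (nat_lit 354) (nat_lit 312)) (XT.lf (nat_lit 0) (nat_lit 966059375) (nat_lit 836) (nat_lit 3974694574) (nat_lit 912) (nat_lit 2390065092) (nat_lit 447) (nat_lit 5) (nat_lit 458) (nat_lit 3) (nat_lit 459) (nat_lit 5) (nat_lit 355) (nat_lit 354) (nat_lit 311)))) (XT.nd (nat_lit 78) (nat_lit 0) (nat_lit 0) (XT.lf (nat_lit 0) (nat_lit 2578537277) (nat_lit 836) (nat_lit 268259817) (nat_lit 912) (nat_lit 4547676106) (nat_lit 447) (nat_lit 5) (nat_lit 458) (nat_lit 3) (nat_lit 459) (nat_lit 5) (nat_lit 356) (nat_lit 354) (nat_lit 310)) (XT.nd (nat_lit 78) (nat_lit 0) (nat_lit 76) (XT.lf (nat_lit 76) (nat_lit 3586605453) (nat_lit 0) (nat_lit 626317686)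 (nat_lit 912) (nat_lit 3247907835) (nat_lit 448) (nat_lit 5) (nat_lit 447) (nat_lit 5) (nat_lit 459) (nat_lit 5) (nat_lit 357) (nat_lit 354) (nat_lit 309)) (XT.lf (nat_lit 0) (nat_lit 5855821011) (nat_lit 836) (nat_lit 16947145) (nat_lit 912) (nat_lit 1657626913) (nat_lit 448) (nat_lit 5) (nat_lit 459) (nat_lit 5) (nat_lit 460) (nat_lit 5) (nat_lit 358) (nat_lit 354) (nat_lit 308)))))) (XT.nd (nat_lit 468) (nat_lit 912) (nat_lit 0) (XT.nd (nat_lit 234) (nat_lit 836) (nat_lit 0) (XT.nd (nat_lit 78) (nat_lit 912) (nat_lit 0) (XT.lf (nat_lit 76) (nat_lit 3994322662) (nat_lit 0) (nat_lit 3540785357) (nat_lit 912) (nat_lit 67325002) (nat_lit 449) (nat_lit 5) (nat_lit 448) (nat_lit 5) (nat_lit 460) (nat_lit 5) (nat_lit 359) (nat_lit 354) (nat_lit 307)) (XT.nd (nat_lit 78) (nat_lit 0) (nat_lit 76) (XT.lf (nat_lit 76) (nat_lit 408076566) (nat_lit 0) (nat_lit 1096475472) (nat_lit 988) (nat_lit 6173200061) (nat_lit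 437) (nat_lit 5) (nat_lit 436) (nat_lit 5) (nat_lit 449) (nat_lit 5) (nat_lit 360) (nat_lit 354) (nat_lit 306)) (XT.lf (nat_lit 0) (nat_lit 3117525432) (nat_lit 912) (nat_lit 3186015044) (nat_lit 988) (nat_lit 1451911479) (nat_lit 437) (nat_lit 5) (nat_lit 449) (nat_lit 5) (nat_lit 450) (nat_lit 5) (nat_lit 361) (nat_lit 354) (nat_lit 305)))) (XT.nd (nat_lit 78) (nat_lit 912) (nat_lit 0) (XT.lf (nat_lit 76) (nat_lit 993936338) (nat_lit 0) (nat_lit 3751805439) (nat_lit 988) (nat_lit 3090735418) (nat_lit 438) (nat_lit 5) (nat_lit 437) (nat_lit 5) (nat_lit 450) (nat_lit 5) (nat_lit 362) (nat_lit 354) (nat_lit 304)) (XT.nd (nat_lit 78) (nat_lit 912) (nat_lit 0) (XT.lf (nat_lit 76) (nat_lit 5330179208) (nat_lit 0) (nat_lit 1072470210) (nat_lit 988) (nat_lit 1517888430) (nat_lit 438) (nat_lit 5) (nat_lit 437) (nat_lit 5) (nat_lit 450) (nat_lit 5) (nat_lit 363) (nat_lit 354) (nat_lit 303)) (XT.lf (nat_lit 0)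 (nat_lit 82600948) (nat_lit 988) (nat_lit 6235796429) (nat_lit 1064) (nat_lit 1689219982) (nat_lit 425) (nat_lit 5) (nat_lit 438) (nat_lit 5) (nat_lit 439) (nat_lit 5) (nat_lit 364) (nat_lit 354) (nat_lit 302))))) (XT.nd (nat_lit 234) (nat_lit 912) (nat_lit 0) (XT.nd (nat_lit 78) (nat_lit 0) (nat_lit 0) (XT.lf (nat_lit 0) (nat_lit 1687646197) (nat_lit 988) (nat_lit 1840221622) (nat_lit 1064) (nat_lit 4569379101) (nat_lit 425) (nat_lit 5) (nat_lit 438) (nat_lit 5) (nat_lit 439) (nat_lit 5) (nat_lit 365) (nat_lit 354) (nat_lit 301)) (XT.nd (nat_lit 78) (nat_lit 0) (nat_lit 76) (XT.lf (nat_lit 76) (nat_lit 2705295245) (nat_lit 0) (nat_lit 613022607) (nat_lit 1064) (nat_lit 4871923265) (nat_lit 426) (nat_lit 5) (nat_lit 425) (nat_lit 5) (nat_lit 439) (nat_lit 5) (nat_lit 366) (nat_lit 354) (nat_lit 300)) (XT.lf (nat_lit 0) (nat_lit 4992322189) (nat_lit 988) (nat_lit 919642347) (nat_lit 1064) (nat_lit 2374228227)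 (nat_lit 426) (nat_lit 5) (nat_lit 439) (nat_lit 5) (nat_lit 440) (nat_lit 5) (nat_lit 367) (nat_lit 354) (nat_lit 299)))) (XT.nd (nat_lit 78) (nat_lit 988) (nat_lit 0) (XT.lf (nat_lit 76) (nat_lit 3816139759) (nat_lit 0) (nat_lit 2897216593) (nat_lit 1064) (nat_lit 1671762315) (nat_lit 427) (nat_lit 5) (nat_lit 426) (nat_lit 5) (nat_lit 440) (nat_lit 5) (nat_lit 368) (nat_lit 354) (nat_lit 298)) (XT.nd (nat_lit 78) (nat_lit 76) (nat_lit 0) (XT.lf (nat_lit 0) (nat_lit 191780790) (nat_lit 988) (nat_lit 8262625213) (nat_lit 1064) (nat_lit 33554814) (nat_lit 414) (nat_lit 5) (nat_lit 427) (nat_lit 5) (nat_lit 428) (nat_lit 5) (nat_lit 369) (nat_lit 354) (nat_lit 297)) (XT.lf (nat_lit 0) (nat_lit 1652499460) (nat_lit 1064) (nat_lit 3485033477) (nat_lit 76) (nat_lit 3454949208) (nat_lit 413) (nat_lit 5) (nat_lit 427) (nat_lit 5) (nat_lit 414) (nat_lit 5) (nat_lit 370) (nat_lit 354) (nat_lit 296))))))) (XT.nd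 (nat_lit 936) (nat_lit 4180) (nat_lit 0) (XT.nd (nat_lit 468) (nat_lit 1824) (nat_lit 0) (XT.nd (nat_lit 234) (nat_lit 2128) (nat_lit 0) (XT.nd (nat_lit 78) (nat_lit 1140) (nat_lit 0) (XT.lf (nat_lit 0) (nat_lit 1463218589) (nat_lit 1064) (nat_lit 1896290496) (nat_lit 1140) (nat_lit 5341488618) (nat_lit 399) (nat_lit 5) (nat_lit 413) (nat_lit 5) (nat_lit 414) (nat_lit 5) (nat_lit 371) (nat_lit 354) (nat_lit 295)) (XT.nd (nat_lit 78) (nat_lit 1140) (nat_lit 0) (XT.lf (nat_lit 0) (nat_lit 5125098230) (nat_lit 1140) (nat_lit 2230998737) (nat_lit 76) (nat_lit 1456450684) (nat_lit 399) (nat_lit 5) (nat_lit 414) (nat_lit 5) (nat_lit 400) (nat_lit 5) (nat_lit 372) (nat_lit 354) (nat_lit 294)) (XT.lf (nat_lit 0) (nat_lit 2928994137) (nat_lit 1140) (nat_lit 4020781236) (nat_lit 1216) (nat_lit 1977485115) (nat_lit 384) (nat_lit 5) (nat_lit 399) (nat_lit 5) (nat_lit 400) (nat_lit 5) (nat_lit 373) (nat_lit 354)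 (nat_lit 293)))) (XT.nd (nat_lit 78) (nat_lit 2128) (nat_lit 0) (XT.lf (nat_lit 0) (nat_lit 8254495874) (nat_lit 1140) (nat_lit 557267527) (nat_lit 1216) (nat_lit 234174192) (nat_lit 384) (nat_lit 5) (nat_lit 399) (nat_lit 5) (nat_lit 400) (nat_lit 5) (nat_lit 374) (nat_lit 354) (nat_lit 292)) (XT.nd (nat_lit 78) (nat_lit 836) (nat_lit 0) (XT.lf (nat_lit 0) (nat_lit 1565684914) (nat_lit 1292) (nat_lit 4585348404) (nat_lit 76) (nat_lit 3015649865) (nat_lit 367) (nat_lit 5) (nat_lit 384) (nat_lit 5) (nat_lit 368) (nat_lit 5) (nat_lit 375) (nat_lit 354) (nat_lit 291)) (XT.lf (nat_lit 0) (nat_lit 813025253) (nat_lit 836) (nat_lit 2584881161) (nat_lit 912) (nat_lit 5893582972) (nat_lit 356) (nat_lit 5) (nat_lit 367) (nat_lit 5) (nat_lit 368) (nat_lit 5) (nat_lit 376) (nat_lit 354) (nat_lit 290))))) (XT.nd (nat_lit 234) (nat_lit 1216) (nat_lit 0) (XT.nd (nat_lit 78) (nat_lit 608) (nat_lit 0) (XT.lf (nat_lit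 0) (nat_lit 5304785467) (nat_lit 912) (nat_lit 2998655530) (nat_lit 76) (nat_lit 1116008050) (nat_lit 356) (nat_lit 5) (nat_lit 368) (nat_lit 5) (nat_lit 357) (nat_lit 5) (nat_lit 377) (nat_lit 354) (nat_lit 289)) (XT.nd (nat_lit 78) (nat_lit 0) (nat_lit 0) (XT.lf (nat_lit 0) (nat_lit 2636023154) (nat_lit 608) (nat_lit 4647341297) (nat_lit 684) (nat_lit 2267448241) (nat_lit 348) (nat_lit 5) (nat_lit 356) (nat_lit 5) (nat_lit 357) (nat_lit 5) (nat_lit 378) (nat_lit 354) (nat_lit 288)) (XT.lf (nat_lit 0) (nat_lit 8466188859) (nat_lit 608) (nat_lit 849678747) (nat_lit 684) (nat_lit 370412636) (nat_lit 348) (nat_lit 5) (nat_lit 356) (nat_lit 5) (nat_lit 357) (nat_lit 5) (nat_lit 379) (nat_lit 354) (nat_lit 287)))) (XT.nd (nat_lit 78) (nat_lit 532) (nat_lit 0) (XT.lf (nat_lit 0) (nat_lit 1592703755) (nat_lit 684) (nat_lit 5168100733) (nat_lit 76) (nat_lit 3063348568) (nat_lit 339) (nat_lit 5) (nat_lit 348)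 (nat_lit 5) (nat_lit 340) (nat_lit 5) (nat_lit 380) (nat_lit 354) (nat_lit 286)) (XT.nd (nat_lit 78) (nat_lit 0) (nat_lit 0) (XT.lf (nat_lit 0) (nat_lit 734439060) (nat_lit 532) (nat_lit 2866417184) (nat_lit 608) (nat_lit 6365388163) (nat_lit 332) (nat_lit 5) (nat_lit 339) (nat_lit 5) (nat_lit 340) (nat_lit 5) (nat_lit 381) (nat_lit 354) (nat_lit 285)) (XT.lf (nat_lit 0) (nat_lit 5699284457) (nat_lit 608) (nat_lit 3238596783) (nat_lit 76) (nat_lit 1173816321) (nat_lit 332) (nat_lit 5) (nat_lit 340) (nat_lit 5) (nat_lit 333) (nat_lit 5) (nat_lit 382) (nat_lit 354) (nat_lit 284)))))) (XT.nd (nat_lit 468) (nat_lit 1976) (nat_lit 0) (XT.nd (nat_lit 234) (nat_lit 988) (nat_lit 0) (XT.nd (nat_lit 78) (nat_lit 608) (nat_lit 0) (XT.lf (nat_lit 0) (nat_lit 2928177920) (nat_lit 608) (nat_lit 4956318529) (nat_lit 684) (nat_lit 2376302933) (nat_lit 324) (nat_lit 5) (nat_lit 332) (nat_lit 5) (nat_lit 333) (nat_lit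 5) (nat_lit 383) (nat_lit 354) (nat_lit 283)) (XT.nd (nat_lit 78) (nat_lit 608) (nat_lit 0) (XT.lf (nat_lit 0) (nat_lit 9311697907) (nat_lit 608) (nat_lit 824192798) (nat_lit 684) (nat_lit 278464777) (nat_lit 324) (nat_lit 5) (nat_lit 332) (nat_lit 5) (nat_lit 333) (nat_lit 5) (nat_lit 384) (nat_lit 354) (nat_lit 282)) (XT.lf (nat_lit 0) (nat_lit 1899365402) (nat_lit 608) (nat_lit 5238454199) (nat_lit 76) (nat_lit 3432542222) (nat_lit 316) (nat_lit 5) (nat_lit 324) (nat_lit 5) (nat_lit 317) (nat_lit 5) (nat_lit 385) (nat_lit 354) (nat_lit 281)))) (XT.nd (nat_lit 78) (nat_lit 456) (nat_lit 0) (XT.lf (nat_lit 0) (nat_lit 1229540652) (nat_lit 532) (nat_lit 2907726163) (nat_lit 608) (nat_lit 6593688830) (nat_lit 309) (nat_lit 5) (nat_lit 316) (nat_lit 5) (nat_lit 317) (nat_lit 5) (nat_lit 386) (nat_lit 354) (nat_lit 280)) (XT.nd (nat_lit 78) (nat_lit 456) (nat_lit 0) (XT.lf (nat_lit 0) (nat_lit 6479295554)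 (nat_lit 608) (nat_lit 2945628463) (nat_lit 76) (nat_lit 1470333557) (nat_lit 309) (nat_lit 5) (nat_lit 317) (nat_lit 5) (nat_lit 310) (nat_lit 5) (nat_lit 387) (nat_lit 354) (nat_lit 279)) (XT.lf (nat_lit 0) (nat_lit 3818227694) (nat_lit 456) (nat_lit 5109371474) (nat_lit 532) (nat_lit 2135808973) (nat_lit 303) (nat_lit 5) (nat_lit 309) (nat_lit 5) (nat_lit 310) (nat_lit 5) (nat_lit 388) (nat_lit 354) (nat_lit 278))))) (XT.nd (nat_lit 234) (nat_lit 912) (nat_lit 0) (XT.nd (nat_lit 78) (nat_lit 988) (nat_lit 0) (XT.lf (nat_lit 0) (nat_lit 209403563) (nat_lit 532) (nat_lit 427235700) (nat_lit 76) (nat_lit 10599878418) (nat_lit 302) (nat_lit 5) (nat_lit 309) (nat_lit 5) (nat_lit 303) (nat_lit 5) (nat_lit 389) (nat_lit 354) (nat_lit 277)) (XT.nd (nat_lit 78) (nat_lit 456) (nat_lit 0) (XT.lf (nat_lit 0) (nat_lit 2656745223) (nat_lit 608) (nat_lit 4781363181) (nat_lit 76) (nat_lit 3973836691) (nat_lit 295)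 (nat_lit 5) (nat_lit 303) (nat_lit 5) (nat_lit 296) (nat_lit 5) (nat_lit 390) (nat_lit 354) (nat_lit 276)) (XT.lf (nat_lit 0) (nat_lit 2321321139) (nat_lit 456) (nat_lit 2861234253) (nat_lit 532) (nat_lit 6409928493) (nat_lit 289) (nat_lit 5) (nat_lit 295) (nat_lit 5) (nat_lit 296) (nat_lit 5) (nat_lit 391) (nat_lit 354) (nat_lit 275)))) (XT.nd (nat_lit 78) (nat_lit 912) (nat_lit 0) (XT.lf (nat_lit 0) (nat_lit 7823215495) (nat_lit 532) (nat_lit 2094626559) (nat_lit 76) (nat_lit 1859424516) (nat_lit 289) (nat_lit 5) (nat_lit 296) (nat_lit 5) (nat_lit 290) (nat_lit 5) (nat_lit 392) (nat_lit 354) (nat_lit 274)) (XT.nd (nat_lit 78) (nat_lit 456) (nat_lit 0) (XT.lf (nat_lit 0) (nat_lit 5339629597) (nat_lit 456) (nat_lit 5256427049) (nat_lit 532) (nat_lit 1369947251) (nat_lit 283) (nat_lit 5) (nat_lit 289) (nat_lit 5) (nat_lit 290) (nat_lit 5) (nat_lit 393) (nat_lit 354) (nat_lit 273)) (XT.lf (nat_lit 0) (nat_lit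 850409213) (nat_lit 380) (nat_lit 419104712) (nat_lit 456) (nat_lit 10890425741) (nat_lit 277) (nat_lit 5) (nat_lit 282) (nat_lit 5) (nat_lit 283) (nat_lit 5) (nat_lit 394) (nat_lit 354) (nat_lit 272))))))))
noncomputable def xc77 : XT := (XT.nd (nat_lit 1794) (nat_lit 2812) (nat_lit 0) (XT.nd (nat_lit 858) (nat_lit 2204) (nat_lit 0) (XT.nd (nat_lit 390) (nat_lit 1520) (nat_lit 0) (XT.nd (nat_lit 156) (nat_lit 836) (nat_lit 0) (XT.nd (nat_lit 78) (nat_lit 456) (nat_lit 0) (XT.lf (nat_lit 0) (nat_lit 4045951364) (nat_lit 456) (nat_lit 3762471212) (nat_lit 76) (nat_lit 4548304206) (nat_lit 277) (nat_lit 5) (nat_lit 283) (nat_lit 5) (nat_lit 278) (nat_lit 5) (nat_lit 395) (nat_lit 354) (nat_lit 271)) (XT.lf (nat_lit 0) (nat_lit 4052904410) (nat_lit 456) (nat_lit 2870532201) (nat_lit 532) (nat_lit 5635448260) (nat_lit 271) (nat_lit 5) (nat_lit 277) (nat_lit 5) (nat_lit 278) (nat_lit 5) (nat_lit 396) (nat_lit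 354) (nat_lit 270))) (XT.nd (nat_lit 78) (nat_lit 836) (nat_lit 0) (XT.lf (nat_lit 0) (nat_lit 9921908272) (nat_lit 532) (nat_lit 641154364) (nat_lit 76) (nat_lit 2203005212) (nat_lit 271) (nat_lit 5) (nat_lit 278) (nat_lit 5) (nat_lit 272) (nat_lit 5) (nat_lit 397) (nat_lit 354) (nat_lit 269)) (XT.nd (nat_lit 78) (nat_lit 380) (nat_lit 0) (XT.lf (nat_lit 0) (nat_lit 107706576) (nat_lit 456) (nat_lit 5432185639) (nat_lit 76) (nat_lit 7437241960) (nat_lit 265) (nat_lit 5) (nat_lit 271) (nat_lit 5) (nat_lit 266) (nat_lit 5) (nat_lit 398) (nat_lit 354) (nat_lit 268)) (XT.lf (nat_lit 0) (nat_lit 2789068200) (nat_lit 380) (nat_lit 311130331) (nat_lit 456) (nat_lit 10093212126) (nat_lit 260) (nat_lit 5) (nat_lit 265) (nat_lit 5) (nat_lit 266) (nat_lit 5) (nat_lit 399) (nat_lit 354) (nat_lit 267))))) (XT.nd (nat_lit 234) (nat_lit 760) (nat_lit 0) (XT.nd (nat_lit 78) (nat_lit 760) (nat_lit 0) (XT.lf (nat_lit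 0) (nat_lit 6262838122) (nat_lit 456) (nat_lit 2128420009) (nat_lit 76) (nat_lit 5022506116) (nat_lit 260) (nat_lit 5) (nat_lit 266) (nat_lit 5) (nat_lit 261) (nat_lit 5) (nat_lit 400) (nat_lit 354) (nat_lit 266)) (XT.nd (nat_lit 78) (nat_lit 380) (nat_lit 0) (XT.lf (nat_lit 0) (nat_lit 6487367158) (nat_lit 380) (nat_lit 3075320291) (nat_lit 456) (nat_lit 4076771078) (nat_lit 255) (nat_lit 5) (nat_lit 260) (nat_lit 5) (nat_lit 261) (nat_lit 5) (nat_lit 401) (nat_lit 354) (nat_lit 265)) (XT.lf (nat_lit 0) (nat_lit 1507912077) (nat_lit 380) (nat_lit 11490065508) (nat_lit 456) (nat_lit 872852690) (nat_lit 250) (nat_lit 5) (nat_lit 255) (nat_lit 5) (nat_lit 256) (nat_lit 5) (nat_lit 402) (nat_lit 354) (nat_lit 264)))) (XT.nd (nat_lit 78) (nat_lit 684) (nat_lit 0) (XT.lf (nat_lit 0) (nat_lit 2460515365) (nat_lit 456) (nat_lit 3619489547) (nat_lit 76) (nat_lit 8026017462) (nat_lit 249) (nat_lit 5) (nat_lit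 255) (nat_lit 5) (nat_lit 250) (nat_lit 5) (nat_lit 403) (nat_lit 354) (nat_lit 263)) (XT.nd (nat_lit 78) (nat_lit 380) (nat_lit 0) (XT.lf (nat_lit 0) (nat_lit 5452597575) (nat_lit 304) (nat_lit 454127328) (nat_lit 380) (nat_lit 8440374551) (nat_lit 245) (nat_lit 5) (nat_lit 249) (nat_lit 5) (nat_lit 250) (nat_lit 5) (nat_lit 404) (nat_lit 354) (nat_lit 262)) (XT.lf (nat_lit 0) (nat_lit 197226840) (nat_lit 380) (nat_lit 9327460320) (nat_lit 456) (nat_lit 5068670694) (nat_lit 240) (nat_lit 5) (nat_lit 245) (nat_lit 5) (nat_lit 246) (nat_lit 5) (nat_lit 405) (nat_lit 354) (nat_lit 261)))))) (XT.nd (nat_lit 468) (nat_lit 1140) (nat_lit 0) (XT.nd (nat_lit 234) (nat_lit 684) (nat_lit 0) (XT.nd (nat_lit 78) (nat_lit 380) (nat_lit 0) (XT.lf (nat_lit 0) (nat_lit 9708106110) (nat_lit 380) (nat_lit 3615906960) (nat_lit 456) (nat_lit 1520806191) (nat_lit 240) (nat_lit 5) (nat_lit 245) (nat_lit 5) (nat_lit 246)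 (nat_lit 5) (nat_lit 406) (nat_lit 354) (nat_lit 260)) (XT.nd (nat_lit 78) (nat_lit 0) (nat_lit 0) (XT.lf (nat_lit 0) (nat_lit 2135797108) (nat_lit 380) (nat_lit 10689198011) (nat_lit 76) (nat_lit 2276896089) (nat_lit 235) (nat_lit 5) (nat_lit 240) (nat_lit 5) (nat_lit 236) (nat_lit 5) (nat_lit 407) (nat_lit 354) (nat_lit 259)) (XT.lf (nat_lit 0) (nat_lit 5938915341) (nat_lit 380) (nat_lit 1093685777) (nat_lit 76) (nat_lit 8331600964) (nat_lit 235) (nat_lit 5) (nat_lit 240) (nat_lit 5) (nat_lit 236) (nat_lit 5) (nat_lit 408) (nat_lit 354) (nat_lit 258)))) (XT.nd (nat_lit 78) (nat_lit 380) (nat_lit 0) (XT.lf (nat_lit 0) (nat_lit 8933854778) (nat_lit 304) (nat_lit 987954069) (nat_lit 380) (nat_lit 5710602984) (nat_lit 231) (nat_lit 5) (nat_lit 235) (nat_lit 5) (nat_lit 236) (nat_lit 5) (nat_lit 409) (nat_lit 354) (nat_lit 257)) (XT.nd (nat_lit 78) (nat_lit 76) (nat_lit 0) (XT.lf (nat_lit 0) (nat_lit 3361056395)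 (nat_lit 304) (nat_lit 10736955103) (nat_lit 380) (nat_lit 1808441704) (nat_lit 227) (nat_lit 5) (nat_lit 231) (nat_lit 5) (nat_lit 232) (nat_lit 5) (nat_lit 410) (nat_lit 354) (nat_lit 256)) (XT.lf (nat_lit 0) (nat_lit 2225845116) (nat_lit 380) (nat_lit 2389089315) (nat_lit 76) (nat_lit 11571397808) (nat_lit 226) (nat_lit 5) (nat_lit 231) (nat_lit 5) (nat_lit 227) (nat_lit 5) (nat_lit 411) (nat_lit 354) (nat_lit 255))))) (XT.nd (nat_lit 234) (nat_lit 608) (nat_lit 0) (XT.nd (nat_lit 78) (nat_lit 228) (nat_lit 0) (XT.lf (nat_lit 0) (nat_lit 6421280099) (nat_lit 380) (nat_lit 8305280514) (nat_lit 76) (nat_lit 1745215849) (nat_lit 222) (nat_lit 5) (nat_lit 227) (nat_lit 5) (nat_lit 223) (nat_lit 5) (nat_lit 412) (nat_lit 354) (nat_lit 254)) (XT.nd (nat_lit 78) (nat_lit 0) (nat_lit 0) (XT.lf (nat_lit 0) (nat_lit 2291683459) (nat_lit 228) (nat_lit 8523849143) (nat_lit 304) (nat_lit 5948062777) (nat_lit 219)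 (nat_lit 5) (nat_lit 222) (nat_lit 5) (nat_lit 223) (nat_lit 5) (nat_lit 413) (nat_lit 354) (nat_lit 253)) (XT.lf (nat_lit 0) (nat_lit 13347331537) (nat_lit 228) (nat_lit 2059291083) (nat_lit 304) (nat_lit 1655595946) (nat_lit 219) (nat_lit 5) (nat_lit 222) (nat_lit 5) (nat_lit 223) (nat_lit 5) (nat_lit 414) (nat_lit 354) (nat_lit 252)))) (XT.nd (nat_lit 78) (nat_lit 228) (nat_lit 0) (XT.lf (nat_lit 0) (nat_lit 2809929847) (nat_lit 380) (nat_lit 9957741852) (nat_lit 76) (nat_lit 4598383617) (nat_lit 214) (nat_lit 5) (nat_lit 219) (nat_lit 5) (nat_lit 215) (nat_lit 5) (nat_lit 415) (nat_lit 354) (nat_lit 251)) (XT.nd (nat_lit 78) (nat_lit 0) (nat_lit 0) (XT.lf (nat_lit 0) (nat_lit 1221007154) (nat_lit 228) (nat_lit 6206821817) (nat_lit 304) (nat_lit 10249135936) (nat_lit 211) (nat_lit 5) (nat_lit 214) (nat_lit 5) (nat_lit 215) (nat_lit 5) (nat_lit 416) (nat_lit 354) (nat_lit 250)) (XT.lf (nat_lit 0) (nat_lit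 12272934929) (nat_lit 304) (nat_lit 5090532334) (nat_lit 76) (nat_lit 631074424) (nat_lit 211) (nat_lit 5) (nat_lit 215) (nat_lit 5) (nat_lit 212) (nat_lit 5) (nat_lit 417) (nat_lit 354) (nat_lit 249))))))) (XT.nd (nat_lit 936) (nat_lit 760) (nat_lit 0) (XT.nd (nat_lit 468) (nat_lit 912) (nat_lit 0) (XT.nd (nat_lit 234) (nat_lit 532) (nat_lit 0) (XT.nd (nat_lit 78) (nat_lit 304) (nat_lit 0) (XT.lf (nat_lit 0) (nat_lit 6655835852) (nat_lit 304) (nat_lit 10715346689) (nat_lit 380) (nat_lit 947229577) (nat_lit 207) (nat_lit 5) (nat_lit 211) (nat_lit 5) (nat_lit 212) (nat_lit 5) (nat_lit 418) (nat_lit 354) (nat_lit 248)) (XT.nd (nat_lit 78) (nat_lit 0) (nat_lit 0) (XT.lf (nat_lit 0) (nat_lit 144110395) (nat_lit 228) (nat_lit 3784516467) (nat_lit 304) (nat_lit 14721155098) (nat_lit 203) (nat_lit 5) (nat_lit 206) (nat_lit 5) (nat_lit 207) (nat_lit 5) (nat_lit 419) (nat_lit 354) (nat_lit 247)) (XT.lf (nat_lit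 0) (nat_lit 9065460144) (nat_lit 304) (nat_lit 6514930485) (nat_lit 76) (nat_lit 3406408728) (nat_lit 203) (nat_lit 5) (nat_lit 207) (nat_lit 5) (nat_lit 204) (nat_lit 5) (nat_lit 420) (nat_lit 354) (nat_lit 246)))) (XT.nd (nat_lit 78) (nat_lit 304) (nat_lit 0) (XT.lf (nat_lit 0) (nat_lit 5885083918) (nat_lit 228) (nat_lit 8548425259) (nat_lit 304) (nat_lit 4898104776) (nat_lit 200) (nat_lit 5) (nat_lit 203) (nat_lit 5) (nat_lit 204) (nat_lit 5) (nat_lit 421) (nat_lit 354) (nat_lit 245)) (XT.nd (nat_lit 78) (nat_lit 228) (nat_lit 0) (XT.lf (nat_lit 0) (nat_lit 320015958) (nat_lit 304) (nat_lit 925334299) (nat_lit 76) (nat_lit 18439856038) (nat_lit 199) (nat_lit 5) (nat_lit 203) (nat_lit 5) (nat_lit 200) (nat_lit 5) (nat_lit 422) (nat_lit 354) (nat_lit 244)) (XT.lf (nat_lit 0) (nat_lit 5758352297) (nat_lit 304) (nat_lit 7974127669) (nat_lit 76) (nat_lit 6310607987) (nat_lit 196) (nat_lit 5) (nat_lit 200)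 (nat_lit 5) (nat_lit 197) (nat_lit 5) (nat_lit 423) (nat_lit 354) (nat_lit 243))))) (XT.nd (nat_lit 234) (nat_lit 380) (nat_lit 0) (XT.nd (nat_lit 78) (nat_lit 304) (nat_lit 0) (XT.lf (nat_lit 0) (nat_lit 5120946246) (nat_lit 228) (nat_lit 6293625465) (nat_lit 304) (nat_lit 8995492361) (nat_lit 193) (nat_lit 5) (nat_lit 196) (nat_lit 5) (nat_lit 197) (nat_lit 5) (nat_lit 424) (nat_lit 354) (nat_lit 242)) (XT.nd (nat_lit 78) (nat_lit 304) (nat_lit 0) (XT.lf (nat_lit 0) (nat_lit 17318802690) (nat_lit 304) (nat_lit 2054546548) (nat_lit 76) (nat_lit 1412350487) (nat_lit 193) (nat_lit 5) (nat_lit 197) (nat_lit 5) (nat_lit 194) (nat_lit 5) (nat_lit 425) (nat_lit 354) (nat_lit 241)) (XT.lf (nat_lit 0) (nat_lit 2344929571) (nat_lit 304) (nat_lit 9473929437) (nat_lit 76) (nat_lit 9348277829) (nat_lit 189) (nat_lit 5) (nat_lit 193) (nat_lit 5) (nat_lit 190) (nat_lit 5) (nat_lit 426) (nat_lit 354) (nat_lit 240))))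 (XT.nd (nat_lit 78) (nat_lit 152) (nat_lit 0) (XT.lf (nat_lit 0) (nat_lit 4360113877) (nat_lit 228) (nat_lit 3948552684) (nat_lit 304) (nat_lit 13248903625) (nat_lit 186) (nat_lit 5) (nat_lit 189) (nat_lit 5) (nat_lit 190) (nat_lit 5) (nat_lit 427) (nat_lit 354) (nat_lit 239)) (XT.nd (nat_lit 78) (nat_lit 152) (nat_lit 0) (XT.lf (nat_lit 0) (nat_lit 14572369285) (nat_lit 304) (nat_lit 3221026874) (nat_lit 76) (nat_lit 4162688769) (nat_lit 186) (nat_lit 5) (nat_lit 190) (nat_lit 5) (nat_lit 187) (nat_lit 5) (nat_lit 428) (nat_lit 354) (nat_lit 238)) (XT.lf (nat_lit 0) (nat_lit 11330832421) (nat_lit 152) (nat_lit 9826086841) (nat_lit 228) (nat_lit 1205647765) (nat_lit 184) (nat_lit 5) (nat_lit 186) (nat_lit 5) (nat_lit 187) (nat_lit 5) (nat_lit 429) (nat_lit 354) (nat_lit 237)))))) (XT.nd (nat_lit 47424) (nat_lit 0) (nat_lit 19912) (XT.nd (nat_lit 234) (nat_lit 304) (nat_lit 0) (XT.nd (nat_lit 78) (nat_lit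 152) (nat_lit 0) (XT.lf (nat_lit 0) (nat_lit 3599424419) (nat_lit 228) (nat_lit 1510107375) (nat_lit 304) (nat_lit 17668651922) (nat_lit 180) (nat_lit 5) (nat_lit 183) (nat_lit 5) (nat_lit 184) (nat_lit 5) (nat_lit 430) (nat_lit 354) (nat_lit 236)) (XT.nd (nat_lit 78) (nat_lit 152) (nat_lit 0) (XT.lf (nat_lit 0) (nat_lit 11755311875) (nat_lit 304) (nat_lit 4414135751) (nat_lit 76) (nat_lit 7031501845) (nat_lit 180) (nat_lit 5) (nat_lit 184) (nat_lit 5) (nat_lit 181) (nat_lit 5) (nat_lit 431) (nat_lit 354) (nat_lit 235)) (XT.lf (nat_lit 0) (nat_lit 10967236344) (nat_lit 152) (nat_lit 7739094895) (nat_lit 228) (nat_lit 4926890982) (nat_lit 178) (nat_lit 5) (nat_lit 180) (nat_lit 5) (nat_lit 181) (nat_lit 5) (nat_lit 432) (nat_lit 354) (nat_lit 234)))) (XT.nd (nat_lit 47034) (nat_lit 0) (nat_lit 20748) (XT.lf (nat_lit 0) (nat_lit 1820202872) (nat_lit 304) (nat_lit 21250237068) (nat_lit 76) (nat_lit 1005477847)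 (nat_lit 174) (nat_lit 5) (nat_lit 178) (nat_lit 5) (nat_lit 175) (nat_lit 5) (nat_lit 433) (nat_lit 354) (nat_lit 233)) (XT.nd (nat_lit 78) (nat_lit 0) (nat_lit 0) (XT.lf (nat_lit 0) (nat_lit 629442282) (nat_lit 0) (nat_lit 629442282) (nat_lit 836) (nat_lit 2437632074) (nat_lit 447) (nat_lit 5) (nat_lit 447) (nat_lit 3) (nat_lit 458) (nat_lit 3) (nat_lit 355) (nat_lit 355) (nat_lit 310)) (XT.lf (nat_lit 0) (nat_lit 4088124671) (nat_lit 836) (nat_lit 2431745852) (nat_lit 912) (nat_lit 938080585) (nat_lit 447) (nat_lit 5) (nat_lit 458) (nat_lit 3) (nat_lit 459) (nat_lit 5) (nat_lit 356) (nat_lit 355) (nat_lit 309))))) (XT.nd (nat_lit 234) (nat_lit 0) (nat_lit 0) (XT.nd (nat_lit 78) (nat_lit 836) (nat_lit 0) (XT.lf (nat_lit 76) (nat_lit 1364086907) (nat_lit 0) (nat_lit 4307912628) (nat_lit 912) (nat_lit 1853824676) (nat_lit 448) (nat_lit 5) (nat_lit 447) (nat_lit 5) (nat_lit 459) (nat_lit 5) (nat_lit 357)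 (nat_lit 355) (nat_lit 308)) (XT.nd (nat_lit 78) (nat_lit 836) (nat_lit 0) (XT.lf (nat_lit 76) (nat_lit 5292158552) (nat_lit 0) (nat_lit 1978040669) (nat_lit 912) (nat_lit 326530031) (nat_lit 448) (nat_lit 5) (nat_lit 447) (nat_lit 5) (nat_lit 459) (nat_lit 5) (nat_lit 358) (nat_lit 355) (nat_lit 307)) (XT.lf (nat_lit 0) (nat_lit 1186135317) (nat_lit 912) (nat_lit 6018225551) (nat_lit 988) (nat_lit 466124772) (nat_lit 436) (nat_lit 5) (nat_lit 448) (nat_lit 5) (nat_lit 449) (nat_lit 5) (nat_lit 359) (nat_lit 355) (nat_lit 306)))) (XT.nd (nat_lit 78) (nat_lit 0) (nat_lit 0) (XT.lf (nat_lit 0) (nat_lit 2725660981) (nat_lit 912) (nat_lit 2027038708) (nat_lit 988) (nat_lit 2994016743) (nat_lit 436) (nat_lit 5) (nat_lit 448) (nat_lit 5) (nat_lit 449) (nat_lit 5) (nat_lit 360) (nat_lit 355) (nat_lit 305)) (XT.nd (nat_lit 78) (nat_lit 0) (nat_lit 76) (XT.lf (nat_lit 76) (nat_lit 2092411865) (nat_lit 0) (nat_lit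 2185633962) (nat_lit 988) (nat_lit 3548188118) (nat_lit 437) (nat_lit 5) (nat_lit 436) (nat_lit 5) (nat_lit 449) (nat_lit 5) (nat_lit 361) (nat_lit 355) (nat_lit 304)) (XT.lf (nat_lit 0) (nat_lit 5850083981) (nat_lit 912) (nat_lit 1568879790) (nat_lit 988) (nat_lit 489980759) (nat_lit 437) (nat_lit 5) (nat_lit 449) (nat_lit 5) (nat_lit 450) (nat_lit 5) (nat_lit 362) (nat_lit 355) (nat_lit 303))))))))
noncomputable def xc78 : XT := (XT.nd (nat_lit 1794) (nat_lit 6460) (nat_lit 0) (XT.nd (nat_lit 858) (nat_lit 6308) (nat_lit 0) (XT.nd (nat_lit 390) (nat_lit 1900) (nat_lit 0) (XT.nd (nat_lit 156) (nat_lit 0) (nat_lit 76) (XT.nd (nat_lit 78) (nat_lit 988) (nat_lit 0) (XT.lf (nat_lit 76) (nat_lit 2719678803) (nat_lit 0) (nat_lit 4746905243) (nat_lit 988) (nat_lit 527633364) (nat_lit 438) (nat_lit 5) (nat_lit 437) (nat_lit 5) (nat_lit 450) (nat_lit 5) (nat_lit 363) (nat_lit 355) (nat_lit 302)) (XT.lf (nat_lit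 0) (nat_lit 995237749) (nat_lit 988) (nat_lit 956197045) (nat_lit 1064) (nat_lit 6131325404) (nat_lit 424) (nat_lit 5) (nat_lit 437) (nat_lit 5) (nat_lit 438) (nat_lit 5) (nat_lit 364) (nat_lit 355) (nat_lit 301))) (XT.nd (nat_lit 78) (nat_lit 0) (nat_lit 0) (XT.lf (nat_lit 0) (nat_lit 2548150959) (nat_lit 988) (nat_lit 4660943769) (nat_lit 1064) (nat_lit 964858993) (nat_lit 425) (nat_lit 5) (nat_lit 438) (nat_lit 5) (nat_lit 439) (nat_lit 5) (nat_lit 365) (nat_lit 355) (nat_lit 300)) (XT.nd (nat_lit 78) (nat_lit 0) (nat_lit 0) (XT.lf (nat_lit 0) (nat_lit 4129607605) (nat_lit 988) (nat_lit 184819967) (nat_lit 1064) (nat_lit 3953996795) (nat_lit 425) (nat_lit 5) (nat_lit 438) (nat_lit 5) (nat_lit 439) (nat_lit 5) (nat_lit 366) (nat_lit 355) (nat_lit 299)) (XT.lf (nat_lit 76) (nat_lit 4480291736) (nat_lit 0) (nat_lit 1275539429) (nat_lit 1064) (nat_lit 2609978271) (nat_lit 426) (nat_lit 5) (nat_lit 425)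 (nat_lit 5) (nat_lit 439) (nat_lit 5) (nat_lit 367) (nat_lit 355) (nat_lit 298))))) (XT.nd (nat_lit 234) (nat_lit 988) (nat_lit 0) (XT.nd (nat_lit 78) (nat_lit 1064) (nat_lit 0) (XT.lf (nat_lit 76) (nat_lit 786730306) (nat_lit 0) (nat_lit 6626780434) (nat_lit 1064) (nat_lit 1053125239) (nat_lit 427) (nat_lit 5) (nat_lit 426) (nat_lit 5) (nat_lit 440) (nat_lit 5) (nat_lit 368) (nat_lit 355) (nat_lit 297)) (XT.nd (nat_lit 78) (nat_lit 0) (nat_lit 0) (XT.lf (nat_lit 0) (nat_lit 547886274) (nat_lit 1064) (nat_lit 2943230530) (nat_lit 1140) (nat_lit 5078965966) (nat_lit 412) (nat_lit 5) (nat_lit 426) (nat_lit 5) (nat_lit 427) (nat_lit 5) (nat_lit 369) (nat_lit 355) (nat_lit 296)) (XT.lf (nat_lit 76) (nat_lit 1929362154) (nat_lit 0) (nat_lit 222168850) (nat_lit 1140) (nat_lit 6525516061) (nat_lit 413) (nat_lit 5) (nat_lit 412) (nat_lit 5) (nat_lit 427) (nat_lit 5) (nat_lit 370) (nat_lit 355) (nat_lit 295))))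 (XT.nd (nat_lit 78) (nat_lit 1064) (nat_lit 0) (XT.lf (nat_lit 0) (nat_lit 3821766117) (nat_lit 1064) (nat_lit 1842803983) (nat_lit 76) (nat_lit 3122095759) (nat_lit 413) (nat_lit 5) (nat_lit 427) (nat_lit 5) (nat_lit 414) (nat_lit 5) (nat_lit 371) (nat_lit 355) (nat_lit 294)) (XT.nd (nat_lit 78) (nat_lit 0) (nat_lit 0) (XT.lf (nat_lit 0) (nat_lit 3236770346) (nat_lit 1064) (nat_lit 2298103596) (nat_lit 1140) (nat_lit 3364916305) (nat_lit 399) (nat_lit 5) (nat_lit 413) (nat_lit 5) (nat_lit 414) (nat_lit 5) (nat_lit 372) (nat_lit 355) (nat_lit 293)) (XT.lf (nat_lit 0) (nat_lit 7289787060) (nat_lit 1140) (nat_lit 555008107) (nat_lit 76) (nat_lit 1171800838) (nat_lit 399) (nat_lit 5) (nat_lit 414) (nat_lit 5) (nat_lit 400) (nat_lit 5) (nat_lit 373) (nat_lit 355) (nat_lit 292)))))) (XT.nd (nat_lit 468) (nat_lit 2432) (nat_lit 0) (XT.nd (nat_lit 234) (nat_lit 1444) (nat_lit 0) (XT.nd (nat_lit 78) (nat_lit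 1292) (nat_lit 0) (XT.lf (nat_lit 0) (nat_lit 4742697097) (nat_lit 1140) (nat_lit 4384526236) (nat_lit 1216) (nat_lit 8786329) (nat_lit 384) (nat_lit 5) (nat_lit 399) (nat_lit 5) (nat_lit 400) (nat_lit 5) (nat_lit 374) (nat_lit 355) (nat_lit 291)) (XT.nd (nat_lit 78) (nat_lit 0) (nat_lit 0) (XT.lf (nat_lit 0) (nat_lit 919055212) (nat_lit 1216) (nat_lit 783819861) (nat_lit 1292) (nat_lit 7556329170) (nat_lit 367) (nat_lit 5) (nat_lit 383) (nat_lit 5) (nat_lit 384) (nat_lit 5) (nat_lit 375) (nat_lit 355) (nat_lit 290)) (XT.lf (nat_lit 0) (nat_lit 3501414593) (nat_lit 1292) (nat_lit 2967147136) (nat_lit 76) (nat_lit 2916459176) (nat_lit 367) (nat_lit 5) (nat_lit 384) (nat_lit 5) (nat_lit 368) (nat_lit 5) (nat_lit 376) (nat_lit 355) (nat_lit 289)))) (XT.nd (nat_lit 78) (nat_lit 608) (nat_lit 0) (XT.lf (nat_lit 0) (nat_lit 2575964380) (nat_lit 836) (nat_lit 2774337945) (nat_lit 912) (nat_lit 4164417981) (nat_lit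 356) (nat_lit 5) (nat_lit 367) (nat_lit 5) (nat_lit 368) (nat_lit 5) (nat_lit 377) (nat_lit 355) (nat_lit 288)) (XT.nd (nat_lit 78) (nat_lit 608) (nat_lit 0) (XT.lf (nat_lit 0) (nat_lit 7259446477) (nat_lit 912) (nat_lit 1345762883) (nat_lit 76) (nat_lit 1042957635) (nat_lit 356) (nat_lit 5) (nat_lit 368) (nat_lit 5) (nat_lit 357) (nat_lit 5) (nat_lit 378) (nat_lit 355) (nat_lit 287)) (XT.lf (nat_lit 0) (nat_lit 4440869374) (nat_lit 608) (nat_lit 4820805945) (nat_lit 684) (nat_lit 522867456) (nat_lit 348) (nat_lit 5) (nat_lit 356) (nat_lit 5) (nat_lit 357) (nat_lit 5) (nat_lit 379) (nat_lit 355) (nat_lit 286))))) (XT.nd (nat_lit 234) (nat_lit 1216) (nat_lit 0) (XT.nd (nat_lit 78) (nat_lit 532) (nat_lit 0) (XT.lf (nat_lit 0) (nat_lit 465905562) (nat_lit 608) (nat_lit 889962623) (nat_lit 684) (nat_lit 8569212040) (nat_lit 339) (nat_lit 5) (nat_lit 347) (nat_lit 5) (nat_lit 348) (nat_lit 5) (nat_lit 380)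 (nat_lit 355) (nat_lit 285)) (XT.nd (nat_lit 78) (nat_lit 532) (nat_lit 0) (XT.lf (nat_lit 0) (nat_lit 3331988349) (nat_lit 684) (nat_lit 3579336791) (nat_lit 76) (nat_lit 3156807404) (nat_lit 339) (nat_lit 5) (nat_lit 348) (nat_lit 5) (nat_lit 340) (nat_lit 5) (nat_lit 381) (nat_lit 355) (nat_lit 284)) (XT.lf (nat_lit 0) (nat_lit 2483183048) (nat_lit 532) (nat_lit 2884533472) (nat_lit 608) (nat_lit 4847750180) (nat_lit 332) (nat_lit 5) (nat_lit 339) (nat_lit 5) (nat_lit 340) (nat_lit 5) (nat_lit 382) (nat_lit 355) (nat_lit 283)))) (XT.nd (nat_lit 78) (nat_lit 1216) (nat_lit 0) (XT.lf (nat_lit 0) (nat_lit 7481415474) (nat_lit 608) (nat_lit 1611654311) (nat_lit 76) (nat_lit 1273644129) (nat_lit 332) (nat_lit 5) (nat_lit 340) (nat_lit 5) (nat_lit 333) (nat_lit 5) (nat_lit 383) (nat_lit 355) (nat_lit 282)) (XT.nd (nat_lit 78) (nat_lit 608) (nat_lit 0) (XT.lf (nat_lit 0) (nat_lit 4723220688) (nat_lit 608)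 (nat_lit 4978446992) (nat_lit 684) (nat_lit 819536593) (nat_lit 324) (nat_lit 5) (nat_lit 332) (nat_lit 5) (nat_lit 333) (nat_lit 5) (nat_lit 384) (nat_lit 355) (nat_lit 281)) (XT.lf (nat_lit 0) (nat_lit 566389208) (nat_lit 532) (nat_lit 707625845) (nat_lit 608) (nat_lit 9406196699) (nat_lit 316) (nat_lit 5) (nat_lit 323) (nat_lit 5) (nat_lit 324) (nat_lit 5) (nat_lit 385) (nat_lit 355) (nat_lit 280))))))) (XT.nd (nat_lit 936) (nat_lit 3040) (nat_lit 0) (XT.nd (nat_lit 468) (nat_lit 1824) (nat_lit 0) (XT.nd (nat_lit 234) (nat_lit 1064) (nat_lit 0) (XT.nd (nat_lit 78) (nat_lit 532) (nat_lit 0) (XT.lf (nat_lit 0) (nat_lit 3478521146) (nat_lit 608) (nat_lit 3679673036) (nat_lit 76) (nat_lit 3683613253) (nat_lit 316) (nat_lit 5) (nat_lit 324) (nat_lit 5) (nat_lit 317) (nat_lit 5) (nat_lit 386) (nat_lit 355) (nat_lit 279)) (XT.nd (nat_lit 78) (nat_lit 0) (nat_lit 0) (XT.lf (nat_lit 0) (nat_lit 2965538772)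 (nat_lit 532) (nat_lit 2790018546) (nat_lit 608) (nat_lit 5252501823) (nat_lit 309) (nat_lit 5) (nat_lit 316) (nat_lit 5) (nat_lit 317) (nat_lit 5) (nat_lit 387) (nat_lit 355) (nat_lit 278)) (XT.lf (nat_lit 0) (nat_lit 8126239955) (nat_lit 608) (nat_lit 1342767150) (nat_lit 76) (nat_lit 1709531231) (nat_lit 309) (nat_lit 5) (nat_lit 317) (nat_lit 5) (nat_lit 310) (nat_lit 5) (nat_lit 388) (nat_lit 355) (nat_lit 277)))) (XT.nd (nat_lit 78) (nat_lit 608) (nat_lit 0) (XT.lf (nat_lit 0) (nat_lit 5607424004) (nat_lit 456) (nat_lit 5014358694) (nat_lit 532) (nat_lit 730737020) (nat_lit 303) (nat_lit 5) (nat_lit 309) (nat_lit 5) (nat_lit 310) (nat_lit 5) (nat_lit 389) (nat_lit 355) (nat_lit 276)) (XT.nd (nat_lit 78) (nat_lit 0) (nat_lit 0) (XT.lf (nat_lit 0) (nat_lit 1237807934) (nat_lit 532) (nat_lit 388298523) (nat_lit 608) (nat_lit 9905194130) (nat_lit 295) (nat_lit 5) (nat_lit 302) (nat_lit 5) (nat_lit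 303) (nat_lit 5) (nat_lit 390) (nat_lit 355) (nat_lit 275)) (XT.lf (nat_lit 0) (nat_lit 4112514126) (nat_lit 608) (nat_lit 3248641787) (nat_lit 76) (nat_lit 4351865539) (nat_lit 295) (nat_lit 5) (nat_lit 303) (nat_lit 5) (nat_lit 296) (nat_lit 5) (nat_lit 391) (nat_lit 355) (nat_lit 274))))) (XT.nd (nat_lit 234) (nat_lit 912) (nat_lit 0) (XT.nd (nat_lit 78) (nat_lit 456) (nat_lit 0) (XT.lf (nat_lit 0) (nat_lit 4050690099) (nat_lit 456) (nat_lit 2639283225) (nat_lit 532) (nat_lit 5209726839) (nat_lit 289) (nat_lit 5) (nat_lit 295) (nat_lit 5) (nat_lit 296) (nat_lit 5) (nat_lit 392) (nat_lit 355) (nat_lit 273)) (XT.nd (nat_lit 78) (nat_lit 456) (nat_lit 0) (XT.lf (nat_lit 0) (nat_lit 9373348774) (nat_lit 532) (nat_lit 509573203) (nat_lit 76) (nat_lit 2208199486) (nat_lit 289) (nat_lit 5) (nat_lit 296) (nat_lit 5) (nat_lit 290) (nat_lit 5) (nat_lit 393) (nat_lit 355) (nat_lit 272)) (XT.lf (nat_lit 0) (nat_lit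 7131554832) (nat_lit 456) (nat_lit 5075191882) (nat_lit 532) (nat_lit 79453050) (nat_lit 283) (nat_lit 5) (nat_lit 289) (nat_lit 5) (nat_lit 290) (nat_lit 5) (nat_lit 394) (nat_lit 355) (nat_lit 271)))) (XT.nd (nat_lit 78) (nat_lit 456) (nat_lit 0) (XT.lf (nat_lit 0) (nat_lit 2517389843) (nat_lit 380) (nat_lit 73569319) (nat_lit 456) (nat_lit 9895277900) (nat_lit 277) (nat_lit 5) (nat_lit 282) (nat_lit 5) (nat_lit 283) (nat_lit 5) (nat_lit 395) (nat_lit 355) (nat_lit 270)) (XT.nd (nat_lit 78) (nat_lit 456) (nat_lit 0) (XT.lf (nat_lit 0) (nat_lit 5416652407) (nat_lit 456) (nat_lit 2247649436) (nat_lit 76) (nat_lit 5025647067) (nat_lit 277) (nat_lit 5) (nat_lit 283) (nat_lit 5) (nat_lit 278) (nat_lit 5) (nat_lit 396) (nat_lit 355) (nat_lit 269)) (XT.lf (nat_lit 0) (nat_lit 5786229652) (nat_lit 456) (nat_lit 2573337538) (nat_lit 532) (nat_lit 4539231403) (nat_lit 271) (nat_lit 5) (nat_lit 277) (nat_lit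 5) (nat_lit 278) (nat_lit 5) (nat_lit 397) (nat_lit 355) (nat_lit 268)))))) (XT.nd (nat_lit 468) (nat_lit 1368) (nat_lit 0) (XT.nd (nat_lit 234) (nat_lit 836) (nat_lit 0) (XT.nd (nat_lit 78) (nat_lit 456) (nat_lit 0) (XT.lf (nat_lit 0) (nat_lit 955247754) (nat_lit 380) (nat_lit 10469725528) (nat_lit 456) (nat_lit 1687914368) (nat_lit 266) (nat_lit 5) (nat_lit 271) (nat_lit 5) (nat_lit 272) (nat_lit 5) (nat_lit 398) (nat_lit 355) (nat_lit 267)) (XT.nd (nat_lit 78) (nat_lit 380) (nat_lit 0) (XT.lf (nat_lit 0) (nat_lit 1299171752) (nat_lit 456) (nat_lit 3990163426) (nat_lit 76) (nat_lit 8041466005) (nat_lit 265) (nat_lit 5) (nat_lit 271) (nat_lit 5) (nat_lit 266) (nat_lit 5) (nat_lit 399) (nat_lit 355) (nat_lit 266)) (XT.lf (nat_lit 0) (nat_lit 4363066745) (nat_lit 456) (nat_lit 9093113228) (nat_lit 76) (nat_lit 97937136) (nat_lit 260) (nat_lit 5) (nat_lit 266) (nat_lit 5) (nat_lit 261) (nat_lit 5) (nat_lit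 400) (nat_lit 355) (nat_lit 265)))) (XT.nd (nat_lit 78) (nat_lit 836) (nat_lit 0) (XT.lf (nat_lit 0) (nat_lit 7589502640) (nat_lit 456) (nat_lit 619186197) (nat_lit 76) (nat_lit 5573324956) (nat_lit 260) (nat_lit 5) (nat_lit 266) (nat_lit 5) (nat_lit 261) (nat_lit 5) (nat_lit 401) (nat_lit 355) (nat_lit 264)) (XT.nd (nat_lit 78) (nat_lit 456) (nat_lit 0) (XT.lf (nat_lit 0) (nat_lit 8239652169) (nat_lit 380) (nat_lit 2730500166) (nat_lit 456) (nat_lit 3044872419) (nat_lit 255) (nat_lit 5) (nat_lit 260) (nat_lit 5) (nat_lit 261) (nat_lit 5) (nat_lit 402) (nat_lit 355) (nat_lit 263)) (XT.lf (nat_lit 0) (nat_lit 236598307) (nat_lit 456) (nat_lit 11131390955) (nat_lit 76) (nat_lit 2885682391) (nat_lit 249) (nat_lit 5) (nat_lit 255) (nat_lit 5) (nat_lit 250) (nat_lit 5) (nat_lit 403) (nat_lit 355) (nat_lit 262))))) (XT.nd (nat_lit 234) (nat_lit 684) (nat_lit 0) (XT.nd (nat_lit 78) (nat_lit 684) (nat_lit 0)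 (XT.lf (nat_lit 0) (nat_lit 3619858111) (nat_lit 456) (nat_lit 2180722113) (nat_lit 76) (nat_lit 8696057002) (nat_lit 249) (nat_lit 5) (nat_lit 255) (nat_lit 5) (nat_lit 250) (nat_lit 5) (nat_lit 404) (nat_lit 355) (nat_lit 261)) (XT.nd (nat_lit 78) (nat_lit 380) (nat_lit 0) (XT.lf (nat_lit 0) (nat_lit 7148357503) (nat_lit 304) (nat_lit 4207403) (nat_lit 380) (nat_lit 7592888383) (nat_lit 245) (nat_lit 5) (nat_lit 249) (nat_lit 5) (nat_lit 250) (nat_lit 5) (nat_lit 405) (nat_lit 355) (nat_lit 260)) (XT.lf (nat_lit 0) (nat_lit 1747636915) (nat_lit 380) (nat_lit 9119476427) (nat_lit 456) (nat_lit 4132344680) (nat_lit 240) (nat_lit 5) (nat_lit 245) (nat_lit 5) (nat_lit 246) (nat_lit 5) (nat_lit 406) (nat_lit 355) (nat_lit 259)))) (XT.nd (nat_lit 78) (nat_lit 684) (nat_lit 0) (XT.lf (nat_lit 0) (nat_lit 11498857323) (nat_lit 380) (nat_lit 3250784458) (nat_lit 456) (nat_lit 509744809) (nat_lit 240) (nat_lit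 5) (nat_lit 245) (nat_lit 5) (nat_lit 246) (nat_lit 5) (nat_lit 407) (nat_lit 355) (nat_lit 258)) (XT.nd (nat_lit 78) (nat_lit 304) (nat_lit 0) (XT.lf (nat_lit 0) (nat_lit 3224890144) (nat_lit 380) (nat_lit 9478699476) (nat_lit 76) (nat_lit 2820607751) (nat_lit 235) (nat_lit 5) (nat_lit 240) (nat_lit 5) (nat_lit 236) (nat_lit 5) (nat_lit 408) (nat_lit 355) (nat_lit 257)) (XT.lf (nat_lit 0) (nat_lit 367247123) (nat_lit 304) (nat_lit 6748530079) (nat_lit 380) (nat_lit 8679390111) (nat_lit 231) (nat_lit 5) (nat_lit 235) (nat_lit 5) (nat_lit 236) (nat_lit 5) (nat_lit 409) (nat_lit 355) (nat_lit 256))))))))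
noncomputable def xc79 : XT := (XT.nd (nat_lit 48906) (nat_lit 0) (nat_lit 12920) (XT.nd (nat_lit 936) (nat_lit 1900) (nat_lit 0) (XT.nd (nat_lit 468) (nat_lit 1216) (nat_lit 0) (XT.nd (nat_lit 234) (nat_lit 532) (nat_lit 0) (XT.nd (nat_lit 78) (nat_lit 380) (nat_lit 0) (XT.lf (nat_lit 0) (nat_lit 10673873295) (nat_lit 304) (nat_lit 525918441) (nat_lit 380) (nat_lit 4872182591) (nat_lit 231) (nat_lit 5) (nat_lit 235) (nat_lit 5) (nat_lit 236) (nat_lit 5) (nat_lit 410) (nat_lit 355) (nat_lit 255)) (XT.nd (nat_lit 78) (nat_lit 76) (nat_lit 0) (XT.lf (nat_lit 0) (nat_lit 4943901149) (nat_lit 304) (nat_lit 10547660687) (nat_lit 380) (nat_lit 862966661) (nat_lit 227) (nat_lit 5) (nat_lit 231) (nat_lit 5) (nat_lit 232) (nat_lit 5) (nat_lit 411) (nat_lit 355) (nat_lit 254)) (XT.lf (nat_lit 0) (nat_lit 3244290367) (nat_lit 380) (nat_lit 1002974264) (nat_lit 76) (nat_lit 12396107479) (nat_lit 226) (nat_lit 5)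 (nat_lit 231) (nat_lit 5) (nat_lit 227) (nat_lit 5) (nat_lit 412) (nat_lit 355) (nat_lit 253)))) (XT.nd (nat_lit 78) (nat_lit 228) (nat_lit 0) (XT.lf (nat_lit 0) (nat_lit 7556606418) (nat_lit 380) (nat_lit 7087669218) (nat_lit 76) (nat_lit 2293373483) (nat_lit 222) (nat_lit 5) (nat_lit 227) (nat_lit 5) (nat_lit 223) (nat_lit 5) (nat_lit 413) (nat_lit 355) (nat_lit 252)) (XT.nd (nat_lit 78) (nat_lit 0) (nat_lit 0) (XT.lf (nat_lit 0) (nat_lit 3812823580) (nat_lit 228) (nat_lit 8256367245) (nat_lit 304) (nat_lit 5169436649) (nat_lit 219) (nat_lit 5) (nat_lit 222) (nat_lit 5) (nat_lit 223) (nat_lit 5) (nat_lit 414) (nat_lit 355) (nat_lit 251)) (XT.lf (nat_lit 0) (nat_lit 15157838490) (nat_lit 228) (nat_lit 1613111201) (nat_lit 304) (nat_lit 776071581) (nat_lit 219) (nat_lit 5) (nat_lit 222) (nat_lit 5) (nat_lit 223) (nat_lit 5) (nat_lit 415) (nat_lit 355) (nat_lit 250))))) (XT.nd (nat_lit 234) (nat_lit 608)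 (nat_lit 0) (XT.nd (nat_lit 78) (nat_lit 228) (nat_lit 0) (XT.lf (nat_lit 0) (nat_lit 3797307725) (nat_lit 380) (nat_lit 8820274840) (nat_lit 76) (nat_lit 5242362012) (nat_lit 214) (nat_lit 5) (nat_lit 219) (nat_lit 5) (nat_lit 215) (nat_lit 5) (nat_lit 416) (nat_lit 355) (nat_lit 249)) (XT.nd (nat_lit 78) (nat_lit 0) (nat_lit 0) (XT.lf (nat_lit 0) (nat_lit 2679756251) (nat_lit 228) (nat_lit 5861354546) (nat_lit 304) (nat_lit 9639449647) (nat_lit 211) (nat_lit 5) (nat_lit 214) (nat_lit 5) (nat_lit 215) (nat_lit 5) (nat_lit 417) (nat_lit 355) (nat_lit 248)) (XT.lf (nat_lit 0) (nat_lit 13510596486) (nat_lit 304) (nat_lit 3841576909) (nat_lit 76) (nat_lit 1156120337) (nat_lit 211) (nat_lit 5) (nat_lit 215) (nat_lit 5) (nat_lit 212) (nat_lit 5) (nat_lit 418) (nat_lit 355) (nat_lit 247)))) (XT.nd (nat_lit 78) (nat_lit 304) (nat_lit 0) (XT.lf (nat_lit 0) (nat_lit 8243440446) (nat_lit 304) (nat_lit 10506368237)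 (nat_lit 380) (nat_lit 92431079) (nat_lit 207) (nat_lit 5) (nat_lit 211) (nat_lit 5) (nat_lit 212) (nat_lit 5) (nat_lit 419) (nat_lit 355) (nat_lit 246)) (XT.nd (nat_lit 78) (nat_lit 0) (nat_lit 0) (XT.lf (nat_lit 0) (nat_lit 1539821818) (nat_lit 228) (nat_lit 3360796658) (nat_lit 304) (nat_lit 14283032959) (nat_lit 203) (nat_lit 5) (nat_lit 206) (nat_lit 5) (nat_lit 207) (nat_lit 5) (nat_lit 420) (nat_lit 355) (nat_lit 245)) (XT.lf (nat_lit 0) (nat_lit 10171693108) (nat_lit 304) (nat_lit 5339652508) (nat_lit 76) (nat_lit 4020029648) (nat_lit 203) (nat_lit 5) (nat_lit 207) (nat_lit 5) (nat_lit 204) (nat_lit 5) (nat_lit 421) (nat_lit 355) (nat_lit 244)))))) (XT.nd (nat_lit 468) (nat_lit 836) (nat_lit 0) (XT.nd (nat_lit 234) (nat_lit 532) (nat_lit 0) (XT.nd (nat_lit 78) (nat_lit 304) (nat_lit 0) (XT.lf (nat_lit 0) (nat_lit 7418923839) (nat_lit 228) (nat_lit 8270607748) (nat_lit 304) (nat_lit 4197340271)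 (nat_lit 200) (nat_lit 5) (nat_lit 203) (nat_lit 5) (nat_lit 204) (nat_lit 5) (nat_lit 422) (nat_lit 355) (nat_lit 243)) (XT.nd (nat_lit 78) (nat_lit 0) (nat_lit 0) (XT.lf (nat_lit 0) (nat_lit 388297544) (nat_lit 228) (nat_lit 752008552) (nat_lit 304) (nat_lit 19111135698) (nat_lit 196) (nat_lit 5) (nat_lit 199) (nat_lit 5) (nat_lit 200) (nat_lit 5) (nat_lit 423) (nat_lit 355) (nat_lit 242)) (XT.lf (nat_lit 0) (nat_lit 6732294780) (nat_lit 304) (nat_lit 6873771518) (nat_lit 76) (nat_lit 7014278537) (nat_lit 196) (nat_lit 5) (nat_lit 200) (nat_lit 5) (nat_lit 197) (nat_lit 5) (nat_lit 424) (nat_lit 355) (nat_lit 241)))) (XT.nd (nat_lit 78) (nat_lit 304) (nat_lit 0) (XT.lf (nat_lit 0) (nat_lit 6601021477) (nat_lit 228) (nat_lit 5946594231) (nat_lit 304) (nat_lit 8451032081) (nat_lit 193) (nat_lit 5) (nat_lit 196) (nat_lit 5) (nat_lit 197) (nat_lit 5) (nat_lit 425) (nat_lit 355) (nat_lit 240)) (XT.nd (nat_lit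 78) (nat_lit 304) (nat_lit 0) (XT.lf (nat_lit 0) (nat_lit 18610947030) (nat_lit 304) (nat_lit 810343888) (nat_lit 76) (nat_lit 1964802390) (nat_lit 193) (nat_lit 5) (nat_lit 197) (nat_lit 5) (nat_lit 194) (nat_lit 5) (nat_lit 426) (nat_lit 355) (nat_lit 239)) (XT.lf (nat_lit 0) (nat_lit 3185334418) (nat_lit 304) (nat_lit 8449784964) (nat_lit 76) (nat_lit 10143929850) (nat_lit 189) (nat_lit 5) (nat_lit 193) (nat_lit 5) (nat_lit 190) (nat_lit 5) (nat_lit 427) (nat_lit 355) (nat_lit 238))))) (XT.nd (nat_lit 234) (nat_lit 456) (nat_lit 0) (XT.nd (nat_lit 78) (nat_lit 152) (nat_lit 0) (XT.lf (nat_lit 0) (nat_lit 5786452567) (nat_lit 228) (nat_lit 3531555585) (nat_lit 304) (nat_lit 12863486692) (nat_lit 186) (nat_lit 5) (nat_lit 189) (nat_lit 5) (nat_lit 190) (nat_lit 5) (nat_lit 428) (nat_lit 355) (nat_lit 237)) (XT.nd (nat_lit 78) (nat_lit 152) (nat_lit 0) (XT.lf (nat_lit 0) (nat_lit 15752480851) (nat_lit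 304) (nat_lit 2042715338) (nat_lit 76) (nat_lit 4797283072) (nat_lit 186) (nat_lit 5) (nat_lit 190) (nat_lit 5) (nat_lit 187) (nat_lit 5) (nat_lit 429) (nat_lit 355) (nat_lit 236)) (XT.lf (nat_lit 0) (nat_lit 12933200302) (nat_lit 152) (nat_lit 9591863356) (nat_lit 228) (nat_lit 486377275) (nat_lit 184) (nat_lit 5) (nat_lit 186) (nat_lit 5) (nat_lit 187) (nat_lit 5) (nat_lit 430) (nat_lit 355) (nat_lit 235)))) (XT.nd (nat_lit 78) (nat_lit 152) (nat_lit 0) (XT.lf (nat_lit 0) (nat_lit 4972070000) (nat_lit 228) (nat_lit 1022029286) (nat_lit 304) (nat_lit 17445491497) (nat_lit 180) (nat_lit 5) (nat_lit 183) (nat_lit 5) (nat_lit 184) (nat_lit 5) (nat_lit 431) (nat_lit 355) (nat_lit 234)) (XT.nd (nat_lit 78) (nat_lit 152) (nat_lit 0) (XT.lf (nat_lit 0) (nat_lit 12822931158) (nat_lit 304) (nat_lit 3302410205) (nat_lit 76) (nat_lit 7750187794) (nat_lit 180) (nat_lit 5) (nat_lit 184) (nat_lit 5) (nat_lit 181)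 (nat_lit 5) (nat_lit 432) (nat_lit 355) (nat_lit 233)) (XT.lf (nat_lit 0) (nat_lit 12528205507) (nat_lit 152) (nat_lit 7445293797) (nat_lit 228) (nat_lit 4347540239) (nat_lit 178) (nat_lit 5) (nat_lit 180) (nat_lit 5) (nat_lit 181) (nat_lit 5) (nat_lit 433) (nat_lit 355) (nat_lit 232))))))) (XT.nd (nat_lit 936) (nat_lit 5700) (nat_lit 0) (XT.nd (nat_lit 468) (nat_lit 912) (nat_lit 0) (XT.nd (nat_lit 234) (nat_lit 0) (nat_lit 0) (XT.nd (nat_lit 78) (nat_lit 912) (nat_lit 0) (XT.lf (nat_lit 0) (nat_lit 1402699730) (nat_lit 0) (nat_lit 1402699730) (nat_lit 836) (nat_lit 956750228) (nat_lit 447) (nat_lit 5) (nat_lit 447) (nat_lit 3) (nat_lit 458) (nat_lit 3) (nat_lit 356) (nat_lit 356) (nat_lit 308)) (XT.nd (nat_lit 78) (nat_lit 912) (nat_lit 0) (XT.lf (nat_lit 0) (nat_lit 6651552602) (nat_lit 0) (nat_lit 479351495) (nat_lit 836) (nat_lit 463181473) (nat_lit 447) (nat_lit 5) (nat_lit 447) (nat_lit 3) (nat_lit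 458) (nat_lit 3) (nat_lit 357) (nat_lit 356) (nat_lit 307)) (XT.lf (nat_lit 0) (nat_lit 1001516821) (nat_lit 912) (nat_lit 4719629977) (nat_lit 988) (nat_lit 1944791895) (nat_lit 435) (nat_lit 5) (nat_lit 447) (nat_lit 5) (nat_lit 448) (nat_lit 5) (nat_lit 358) (nat_lit 356) (nat_lit 306)))) (XT.nd (nat_lit 78) (nat_lit 0) (nat_lit 0) (XT.lf (nat_lit 0) (nat_lit 2460233306) (nat_lit 912) (nat_lit 808722669) (nat_lit 988) (nat_lit 4472072255) (nat_lit 435) (nat_lit 5) (nat_lit 447) (nat_lit 5) (nat_lit 448) (nat_lit 5) (nat_lit 359) (nat_lit 356) (nat_lit 305)) (XT.nd (nat_lit 78) (nat_lit 0) (nat_lit 76) (XT.lf (nat_lit 76) (nat_lit 3253116933) (nat_lit 0) (nat_lit 687495113) (nat_lit 988) (nat_lit 3878421383) (nat_lit 436) (nat_lit 5) (nat_lit 435) (nat_lit 5) (nat_lit 448) (nat_lit 5) (nat_lit 360) (nat_lit 356) (nat_lit 304)) (XT.lf (nat_lit 0) (nat_lit 5440716293) (nat_lit 912) (nat_lit 496136816)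 (nat_lit 988) (nat_lit 1963266251) (nat_lit 436) (nat_lit 5) (nat_lit 448) (nat_lit 5) (nat_lit 449) (nat_lit 5) (nat_lit 361) (nat_lit 356) (nat_lit 303))))) (XT.nd (nat_lit 234) (nat_lit 0) (nat_lit 76) (XT.nd (nat_lit 78) (nat_lit 988) (nat_lit 0) (XT.lf (nat_lit 76) (nat_lit 3731292244) (nat_lit 0) (nat_lit 3246833319) (nat_lit 988) (nat_lit 1005743249) (nat_lit 437) (nat_lit 5) (nat_lit 436) (nat_lit 5) (nat_lit 449) (nat_lit 5) (nat_lit 362) (nat_lit 356) (nat_lit 302)) (XT.nd (nat_lit 78) (nat_lit 0) (nat_lit 76) (XT.lf (nat_lit 0) (nat_lit 437312341) (nat_lit 988) (nat_lit 10178750) (nat_lit 1064) (nat_lit 7623836589) (nat_lit 423) (nat_lit 5) (nat_lit 436) (nat_lit 5) (nat_lit 437) (nat_lit 5) (nat_lit 363) (nat_lit 356) (nat_lit 301)) (XT.lf (nat_lit 0) (nat_lit 1921661745) (nat_lit 988) (nat_lit 3780129550) (nat_lit 1064) (nat_lit 2458773784) (nat_lit 424) (nat_lit 5) (nat_lit 437) (nat_lit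 5) (nat_lit 438) (nat_lit 5) (nat_lit 364) (nat_lit 356) (nat_lit 300)))) (XT.nd (nat_lit 78) (nat_lit 0) (nat_lit 76) (XT.lf (nat_lit 76) (nat_lit 626785876) (nat_lit 0) (nat_lit 2787362407) (nat_lit 1064) (nat_lit 4839423119) (nat_lit 425) (nat_lit 5) (nat_lit 424) (nat_lit 5) (nat_lit 438) (nat_lit 5) (nat_lit 365) (nat_lit 356) (nat_lit 299)) (XT.nd (nat_lit 78) (nat_lit 0) (nat_lit 0) (XT.lf (nat_lit 0) (nat_lit 4946277062) (nat_lit 988) (nat_lit 3139987321) (nat_lit 1064) (nat_lit 263257501) (nat_lit 425) (nat_lit 5) (nat_lit 438) (nat_lit 5) (nat_lit 439) (nat_lit 5) (nat_lit 366) (nat_lit 356) (nat_lit 298)) (XT.lf (nat_lit 76) (nat_lit 1450349362) (nat_lit 0) (nat_lit 5071147897) (nat_lit 1064) (nat_lit 1926939796) (nat_lit 426) (nat_lit 5) (nat_lit 425) (nat_lit 5) (nat_lit 439) (nat_lit 5) (nat_lit 367) (nat_lit 356) (nat_lit 297)))))) (XT.nd (nat_lit 468) (nat_lit 3876) (nat_lit 0) (XT.nd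 (nat_lit 234) (nat_lit 988) (nat_lit 0) (XT.nd (nat_lit 78) (nat_lit 988) (nat_lit 0) (XT.lf (nat_lit 76) (nat_lit 6211304913) (nat_lit 0) (nat_lit 1920956280) (nat_lit 1064) (nat_lit 418409874) (nat_lit 426) (nat_lit 5) (nat_lit 425) (nat_lit 5) (nat_lit 439) (nat_lit 5) (nat_lit 368) (nat_lit 356) (nat_lit 296)) (XT.nd (nat_lit 78) (nat_lit 0) (nat_lit 0) (XT.lf (nat_lit 0) (nat_lit 1107516410) (nat_lit 1064) (nat_lit 6204472324) (nat_lit 1140) (nat_lit 1343827075) (nat_lit 412) (nat_lit 5) (nat_lit 426) (nat_lit 5) (nat_lit 427) (nat_lit 5) (nat_lit 369) (nat_lit 356) (nat_lit 295)) (XT.lf (nat_lit 0) (nat_lit 2672156487) (nat_lit 1064) (nat_lit 1385504595) (nat_lit 1140) (nat_lit 4706289163) (nat_lit 412) (nat_lit 5) (nat_lit 426) (nat_lit 5) (nat_lit 427) (nat_lit 5) (nat_lit 370) (nat_lit 356) (nat_lit 294)))) (XT.nd (nat_lit 78) (nat_lit 988) (nat_lit 0) (XT.lf (nat_lit 76) (nat_lit 3617128392)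 (nat_lit 0) (nat_lit 661056410) (nat_lit 1140) (nat_lit 4597310440) (nat_lit 413) (nat_lit 5) (nat_lit 412) (nat_lit 5) (nat_lit 427) (nat_lit 5) (nat_lit 371) (nat_lit 356) (nat_lit 293)) (XT.nd (nat_lit 78) (nat_lit 1064) (nat_lit 0) (XT.lf (nat_lit 0) (nat_lit 5934431800) (nat_lit 1064) (nat_lit 251579951) (nat_lit 76) (nat_lit 2804313703) (nat_lit 413) (nat_lit 5) (nat_lit 427) (nat_lit 5) (nat_lit 414) (nat_lit 5) (nat_lit 372) (nat_lit 356) (nat_lit 292)) (XT.lf (nat_lit 0) (nat_lit 4964239370) (nat_lit 1064) (nat_lit 2692171019) (nat_lit 1140) (nat_lit 1451708858) (nat_lit 399) (nat_lit 5) (nat_lit 413) (nat_lit 5) (nat_lit 414) (nat_lit 5) (nat_lit 373) (nat_lit 356) (nat_lit 291))))) (XT.nd (nat_lit 234) (nat_lit 1444) (nat_lit 0) (XT.nd (nat_lit 78) (nat_lit 1216) (nat_lit 0) (XT.lf (nat_lit 0) (nat_lit 180967253) (nat_lit 1216) (nat_lit 8139157335) (nat_lit 76) (nat_lit 909736010) (nat_lit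 383) (nat_lit 5) (nat_lit 399) (nat_lit 5) (nat_lit 384) (nat_lit 5) (nat_lit 374) (nat_lit 356) (nat_lit 290)) (XT.nd (nat_lit 78) (nat_lit 1216) (nat_lit 0) (XT.lf (nat_lit 0) (nat_lit 1865430853) (nat_lit 1216) (nat_lit 2860959367) (nat_lit 76) (nat_lit 4627473216) (nat_lit 383) (nat_lit 5) (nat_lit 399) (nat_lit 5) (nat_lit 384) (nat_lit 5) (nat_lit 375) (nat_lit 356) (nat_lit 289)) (XT.lf (nat_lit 0) (nat_lit 2594378081) (nat_lit 1216) (nat_lit 995135228) (nat_lit 1292) (nat_lit 5892400500) (nat_lit 367) (nat_lit 5) (nat_lit 383) (nat_lit 5) (nat_lit 384) (nat_lit 5) (nat_lit 376) (nat_lit 356) (nat_lit 288)))) (XT.nd (nat_lit 78) (nat_lit 1444) (nat_lit 0) (XT.lf (nat_lit 0) (nat_lit 5386793660) (nat_lit 1292) (nat_lit 1401187735) (nat_lit 76) (nat_lit 2825180037) (nat_lit 367) (nat_lit 5) (nat_lit 384) (nat_lit 5) (nat_lit 368) (nat_lit 5) (nat_lit 377) (nat_lit 356) (nat_lit 287)) (XT.nd (nat_lit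 78) (nat_lit 608) (nat_lit 0) (XT.lf (nat_lit 0) (nat_lit 4291991892) (nat_lit 836) (nat_lit 2963054321) (nat_lit 912) (nat_lit 2492788657) (nat_lit 356) (nat_lit 5) (nat_lit 367) (nat_lit 5) (nat_lit 368) (nat_lit 5) (nat_lit 378) (nat_lit 356) (nat_lit 286)) (XT.lf (nat_lit 0) (nat_lit 261777919) (nat_lit 608) (nat_lit 8910415719) (nat_lit 684) (nat_lit 714569454) (nat_lit 348) (nat_lit 5) (nat_lit 356) (nat_lit 5) (nat_lit 357) (nat_lit 5) (nat_lit 379) (nat_lit 356) (nat_lit 285))))))))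
noncomputable def xc80 : XT := (XT.nd (nat_lit 1794) (nat_lit 4712) (nat_lit 0) (XT.nd (nat_lit 858) (nat_lit 3572) (nat_lit 0) (XT.nd (nat_lit 390) (nat_lit 2280) (nat_lit 0) (XT.nd (nat_lit 156) (nat_lit 532) (nat_lit 0) (XT.nd (nat_lit 78) (nat_lit 608) (nat_lit 0) (XT.lf (nat_lit 0) (nat_lit 1147168943) (nat_lit 684) (nat_lit 3838767144) (nat_lit 76) (nat_lit 5042041879) (nat_lit 347) (nat_lit 5) (nat_lit 356) (nat_lit 5) (nat_lit 348) (nat_lit 5) (nat_lit 380) (nat_lit 356) (nat_lit 284)) (XT.lf (nat_lit 0) (nat_lit 2123647385) (nat_lit 608) (nat_lit 915118401) (nat_lit 684) (nat_lit 7134800199) (nat_lit 339) (nat_lit 5) (nat_lit 347) (nat_lit 5) (nat_lit 348) (nat_lit 5) (nat_lit 381) (nat_lit 356) (nat_lit 283))) (XT.nd (nat_lit 78) (nat_lit 532) (nat_lit 0) (XT.lf (nat_lit 0) (nat_lit 5026352260) (nat_lit 684) (nat_lit 2043011585) (nat_lit 76) (nat_lit 3252980547) (nat_lit 339) (nat_lit 5) (nat_lit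 348) (nat_lit 5) (nat_lit 340) (nat_lit 5) (nat_lit 382) (nat_lit 356) (nat_lit 282)) (XT.nd (nat_lit 78) (nat_lit 0) (nat_lit 0) (XT.lf (nat_lit 0) (nat_lit 4185269092) (nat_lit 532) (nat_lit 2907089622) (nat_lit 608) (nat_lit 3382663666) (nat_lit 332) (nat_lit 5) (nat_lit 339) (nat_lit 5) (nat_lit 340) (nat_lit 5) (nat_lit 383) (nat_lit 356) (nat_lit 281)) (XT.lf (nat_lit 0) (nat_lit 9224523678) (nat_lit 608) (nat_lit 34873979) (nat_lit 76) (nat_lit 1372757702) (nat_lit 332) (nat_lit 5) (nat_lit 340) (nat_lit 5) (nat_lit 333) (nat_lit 5) (nat_lit 384) (nat_lit 356) (nat_lit 280))))) (XT.nd (nat_lit 234) (nat_lit 1064) (nat_lit 0) (XT.nd (nat_lit 78) (nat_lit 532) (nat_lit 0) (XT.lf (nat_lit 0) (nat_lit 677002026) (nat_lit 684) (nat_lit 4324666014) (nat_lit 76) (nat_lit 5790276204) (nat_lit 323) (nat_lit 5) (nat_lit 332) (nat_lit 5) (nat_lit 324) (nat_lit 5) (nat_lit 385) (nat_lit 356) (nat_lit 279))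 (XT.nd (nat_lit 78) (nat_lit 0) (nat_lit 0) (XT.lf (nat_lit 0) (nat_lit 2206453713) (nat_lit 532) (nat_lit 582211765) (nat_lit 608) (nat_lit 8167659727) (nat_lit 316) (nat_lit 5) (nat_lit 323) (nat_lit 5) (nat_lit 324) (nat_lit 5) (nat_lit 386) (nat_lit 356) (nat_lit 278)) (XT.lf (nat_lit 0) (nat_lit 5017672503) (nat_lit 608) (nat_lit 2172630114) (nat_lit 76) (nat_lit 3933715169) (nat_lit 316) (nat_lit 5) (nat_lit 324) (nat_lit 5) (nat_lit 317) (nat_lit 5) (nat_lit 387) (nat_lit 356) (nat_lit 277)))) (XT.nd (nat_lit 78) (nat_lit 532) (nat_lit 0) (XT.lf (nat_lit 0) (nat_lit 4656080861) (nat_lit 532) (nat_lit 2680544060) (nat_lit 608) (nat_lit 3959423968) (nat_lit 309) (nat_lit 5) (nat_lit 316) (nat_lit 5) (nat_lit 317) (nat_lit 5) (nat_lit 388) (nat_lit 356) (nat_lit 276)) (XT.nd (nat_lit 78) (nat_lit 76) (nat_lit 0) (XT.lf (nat_lit 0) (nat_lit 215297704) (nat_lit 456) (nat_lit 9525981352) (nat_lit 532)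 (nat_lit 1731477872) (nat_lit 303) (nat_lit 5) (nat_lit 309) (nat_lit 5) (nat_lit 310) (nat_lit 5) (nat_lit 389) (nat_lit 356) (nat_lit 275)) (XT.lf (nat_lit 0) (nat_lit 619816522) (nat_lit 532) (nat_lit 4304673164) (nat_lit 76) (nat_lit 6728089017) (nat_lit 302) (nat_lit 5) (nat_lit 309) (nat_lit 5) (nat_lit 303) (nat_lit 5) (nat_lit 390) (nat_lit 356) (nat_lit 274)))))) (XT.nd (nat_lit 468) (nat_lit 1672) (nat_lit 0) (XT.nd (nat_lit 234) (nat_lit 912) (nat_lit 0) (XT.nd (nat_lit 78) (nat_lit 456) (nat_lit 0) (XT.lf (nat_lit 0) (nat_lit 2864741983) (nat_lit 532) (nat_lit 143671121) (nat_lit 608) (nat_lit 8828820798) (nat_lit 295) (nat_lit 5) (nat_lit 302) (nat_lit 5) (nat_lit 303) (nat_lit 5) (nat_lit 391) (nat_lit 356) (nat_lit 273)) (XT.nd (nat_lit 78) (nat_lit 456) (nat_lit 0) (XT.lf (nat_lit 0) (nat_lit 5532964246) (nat_lit 608) (nat_lit 1766157323) (nat_lit 76) (nat_lit 4726378285) (nat_lit 295)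 (nat_lit 5) (nat_lit 303) (nat_lit 5) (nat_lit 296) (nat_lit 5) (nat_lit 392) (nat_lit 356) (nat_lit 272)) (XT.lf (nat_lit 0) (nat_lit 5736664876) (nat_lit 456) (nat_lit 2428341961) (nat_lit 532) (nat_lit 4053454303) (nat_lit 289) (nat_lit 5) (nat_lit 295) (nat_lit 5) (nat_lit 296) (nat_lit 5) (nat_lit 393) (nat_lit 356) (nat_lit 271)))) (XT.nd (nat_lit 78) (nat_lit 456) (nat_lit 0) (XT.lf (nat_lit 0) (nat_lit 1048903895) (nat_lit 456) (nat_lit 9855653407) (nat_lit 532) (nat_lit 1511797563) (nat_lit 283) (nat_lit 5) (nat_lit 289) (nat_lit 5) (nat_lit 290) (nat_lit 5) (nat_lit 394) (nat_lit 356) (nat_lit 270)) (XT.nd (nat_lit 78) (nat_lit 380) (nat_lit 0) (XT.lf (nat_lit 0) (nat_lit 1150421471) (nat_lit 532) (nat_lit 3745937040) (nat_lit 76) (nat_lit 7721531011) (nat_lit 282) (nat_lit 5) (nat_lit 289) (nat_lit 5) (nat_lit 283) (nat_lit 5) (nat_lit 395) (nat_lit 356) (nat_lit 269)) (XT.lf (nat_lit 0) (nat_lit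 3880893996) (nat_lit 456) (nat_lit 8686896933) (nat_lit 76) (nat_lit 256667063) (nat_lit 277) (nat_lit 5) (nat_lit 283) (nat_lit 5) (nat_lit 278) (nat_lit 5) (nat_lit 396) (nat_lit 356) (nat_lit 268))))) (XT.nd (nat_lit 234) (nat_lit 836) (nat_lit 0) (XT.nd (nat_lit 78) (nat_lit 836) (nat_lit 0) (XT.lf (nat_lit 0) (nat_lit 6756758258) (nat_lit 456) (nat_lit 780819411) (nat_lit 76) (nat_lit 5497741520) (nat_lit 277) (nat_lit 5) (nat_lit 283) (nat_lit 5) (nat_lit 278) (nat_lit 5) (nat_lit 397) (nat_lit 356) (nat_lit 267)) (XT.nd (nat_lit 78) (nat_lit 380) (nat_lit 0) (XT.lf (nat_lit 0) (nat_lit 7479034290) (nat_lit 456) (nat_lit 2289230633) (nat_lit 532) (nat_lit 3482760306) (nat_lit 271) (nat_lit 5) (nat_lit 277) (nat_lit 5) (nat_lit 278) (nat_lit 5) (nat_lit 398) (nat_lit 356) (nat_lit 266)) (XT.lf (nat_lit 0) (nat_lit 2519186348) (nat_lit 380) (nat_lit 10390851302) (nat_lit 456) (nat_lit 561967174)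 (nat_lit 266) (nat_lit 5) (nat_lit 271) (nat_lit 5) (nat_lit 272) (nat_lit 5) (nat_lit 399) (nat_lit 356) (nat_lit 265)))) (XT.nd (nat_lit 78) (nat_lit 760) (nat_lit 0) (XT.lf (nat_lit 0) (nat_lit 2458171391) (nat_lit 456) (nat_lit 2597013410) (nat_lit 76) (nat_lit 8641939682) (nat_lit 265) (nat_lit 5) (nat_lit 271) (nat_lit 5) (nat_lit 266) (nat_lit 5) (nat_lit 400) (nat_lit 356) (nat_lit 264)) (XT.nd (nat_lit 78) (nat_lit 380) (nat_lit 0) (XT.lf (nat_lit 0) (nat_lit 5599569791) (nat_lit 456) (nat_lit 7838638263) (nat_lit 76) (nat_lit 489364237) (nat_lit 260) (nat_lit 5) (nat_lit 266) (nat_lit 5) (nat_lit 261) (nat_lit 5) (nat_lit 401) (nat_lit 356) (nat_lit 263)) (XT.lf (nat_lit 0) (nat_lit 861840649) (nat_lit 380) (nat_lit 8037040390) (nat_lit 456) (nat_lit 5264142368) (nat_lit 255) (nat_lit 5) (nat_lit 260) (nat_lit 5) (nat_lit 261) (nat_lit 5) (nat_lit 402) (nat_lit 356) (nat_lit 262))))))) (XT.nd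 (nat_lit 936) (nat_lit 2204) (nat_lit 0) (XT.nd (nat_lit 468) (nat_lit 1292) (nat_lit 0) (XT.nd (nat_lit 234) (nat_lit 760) (nat_lit 0) (XT.nd (nat_lit 78) (nat_lit 456) (nat_lit 0) (XT.lf (nat_lit 0) (nat_lit 9955089446) (nat_lit 380) (nat_lit 2400425602) (nat_lit 456) (nat_lit 2048272706) (nat_lit 255) (nat_lit 5) (nat_lit 260) (nat_lit 5) (nat_lit 261) (nat_lit 5) (nat_lit 403) (nat_lit 356) (nat_lit 261)) (XT.nd (nat_lit 78) (nat_lit 0) (nat_lit 0) (XT.lf (nat_lit 0) (nat_lit 1297606242) (nat_lit 456) (nat_lit 9963049072) (nat_lit 76) (nat_lit 3389009190) (nat_lit 249) (nat_lit 5) (nat_lit 255) (nat_lit 5) (nat_lit 250) (nat_lit 5) (nat_lit 404) (nat_lit 356) (nat_lit 260)) (XT.lf (nat_lit 0) (nat_lit 4751667433) (nat_lit 456) (nat_lit 787615998) (nat_lit 76) (nat_lit 9361556505) (nat_lit 249) (nat_lit 5) (nat_lit 255) (nat_lit 5) (nat_lit 250) (nat_lit 5) (nat_lit 405) (nat_lit 356) (nat_lit 259))))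 (XT.nd (nat_lit 78) (nat_lit 456) (nat_lit 0) (XT.lf (nat_lit 0) (nat_lit 8378594327) (nat_lit 380) (nat_lit 6354719776) (nat_lit 76) (nat_lit 424159212) (nat_lit 245) (nat_lit 5) (nat_lit 250) (nat_lit 5) (nat_lit 246) (nat_lit 5) (nat_lit 406) (nat_lit 356) (nat_lit 258)) (XT.nd (nat_lit 78) (nat_lit 76) (nat_lit 0) (XT.lf (nat_lit 0) (nat_lit 3255899061) (nat_lit 380) (nat_lit 8933255175) (nat_lit 456) (nat_lit 3230406702) (nat_lit 240) (nat_lit 5) (nat_lit 245) (nat_lit 5) (nat_lit 246) (nat_lit 5) (nat_lit 407) (nat_lit 356) (nat_lit 257)) (XT.lf (nat_lit 0) (nat_lit 461799621) (nat_lit 456) (nat_lit 2435431949) (nat_lit 76) (nat_lit 12790790285) (nat_lit 239) (nat_lit 5) (nat_lit 245) (nat_lit 5) (nat_lit 240) (nat_lit 5) (nat_lit 408) (nat_lit 356) (nat_lit 256))))) (XT.nd (nat_lit 234) (nat_lit 684) (nat_lit 0) (XT.nd (nat_lit 78) (nat_lit 304) (nat_lit 0) (XT.lf (nat_lit 0) (nat_lit 4287815680)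 (nat_lit 380) (nat_lit 8319781664) (nat_lit 76) (nat_lit 3353340583) (nat_lit 235) (nat_lit 5) (nat_lit 240) (nat_lit 5) (nat_lit 236) (nat_lit 5) (nat_lit 409) (nat_lit 356) (nat_lit 255)) (XT.nd (nat_lit 78) (nat_lit 0) (nat_lit 0) (XT.lf (nat_lit 0) (nat_lit 1807393541) (nat_lit 304) (nat_lit 6473632339) (nat_lit 380) (nat_lit 7959443191) (nat_lit 231) (nat_lit 5) (nat_lit 235) (nat_lit 5) (nat_lit 236) (nat_lit 5) (nat_lit 410) (nat_lit 356) (nat_lit 254)) (XT.lf (nat_lit 0) (nat_lit 12381593382) (nat_lit 304) (nat_lit 78245857) (nat_lit 380) (nat_lit 4066572706) (nat_lit 231) (nat_lit 5) (nat_lit 235) (nat_lit 5) (nat_lit 236) (nat_lit 5) (nat_lit 411) (nat_lit 356) (nat_lit 253)))) (XT.nd (nat_lit 78) (nat_lit 304) (nat_lit 0) (XT.lf (nat_lit 0) (nat_lit 52440470) (nat_lit 380) (nat_lit 10329074051) (nat_lit 76) (nat_lit 6436187617) (nat_lit 226) (nat_lit 5) (nat_lit 231) (nat_lit 5) (nat_lit 227)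 (nat_lit 5) (nat_lit 412) (nat_lit 356) (nat_lit 252)) (XT.nd (nat_lit 78) (nat_lit 0) (nat_lit 0) (XT.lf (nat_lit 0) (nat_lit 347828649) (nat_lit 304) (nat_lit 3894174122) (nat_lit 380) (nat_lit 12873658991) (nat_lit 222) (nat_lit 5) (nat_lit 226) (nat_lit 5) (nat_lit 227) (nat_lit 5) (nat_lit 413) (nat_lit 356) (nat_lit 251)) (XT.lf (nat_lit 0) (nat_lit 8671878384) (nat_lit 380) (nat_lit 5917728164) (nat_lit 76) (nat_lit 2829514832) (nat_lit 222) (nat_lit 5) (nat_lit 227) (nat_lit 5) (nat_lit 223) (nat_lit 5) (nat_lit 414) (nat_lit 356) (nat_lit 250)))))) (XT.nd (nat_lit 468) (nat_lit 988) (nat_lit 0) (XT.nd (nat_lit 234) (nat_lit 608) (nat_lit 0) (XT.nd (nat_lit 78) (nat_lit 380) (nat_lit 0) (XT.lf (nat_lit 0) (nat_lit 5296224799) (nat_lit 228) (nat_lit 8010894558) (nat_lit 304) (nat_lit 4422391357) (nat_lit 219) (nat_lit 5) (nat_lit 222) (nat_lit 5) (nat_lit 223) (nat_lit 5) (nat_lit 415) (nat_lit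 356) (nat_lit 249)) (XT.nd (nat_lit 78) (nat_lit 304) (nat_lit 0) (XT.lf (nat_lit 0) (nat_lit 75006306) (nat_lit 304) (nat_lit 1106941101) (nat_lit 76) (nat_lit 16865952166) (nat_lit 218) (nat_lit 5) (nat_lit 222) (nat_lit 5) (nat_lit 219) (nat_lit 5) (nat_lit 416) (nat_lit 356) (nat_lit 248)) (XT.lf (nat_lit 0) (nat_lit 4762466454) (nat_lit 380) (nat_lit 7731127530) (nat_lit 76) (nat_lit 5876611745) (nat_lit 214) (nat_lit 5) (nat_lit 219) (nat_lit 5) (nat_lit 215) (nat_lit 5) (nat_lit 417) (nat_lit 356) (nat_lit 247)))) (XT.nd (nat_lit 78) (nat_lit 380) (nat_lit 0) (XT.lf (nat_lit 0) (nat_lit 4100632381) (nat_lit 228) (nat_lit 5536043401) (nat_lit 304) (nat_lit 9064121526) (nat_lit 211) (nat_lit 5) (nat_lit 214) (nat_lit 5) (nat_lit 215) (nat_lit 5) (nat_lit 418) (nat_lit 356) (nat_lit 246)) (XT.nd (nat_lit 78) (nat_lit 380) (nat_lit 0) (XT.lf (nat_lit 0) (nat_lit 14735476554) (nat_lit 304) (nat_lit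 2635614494) (nat_lit 76) (nat_lit 1667864632) (nat_lit 211) (nat_lit 5) (nat_lit 215) (nat_lit 5) (nat_lit 212) (nat_lit 5) (nat_lit 419) (nat_lit 356) (nat_lit 245)) (XT.lf (nat_lit 0) (nat_lit 722923599) (nat_lit 380) (nat_lit 9591346081) (nat_lit 76) (nat_lit 9068776635) (nat_lit 206) (nat_lit 5) (nat_lit 211) (nat_lit 5) (nat_lit 207) (nat_lit 5) (nat_lit 420) (nat_lit 356) (nat_lit 244))))) (XT.nd (nat_lit 234) (nat_lit 532) (nat_lit 0) (XT.nd (nat_lit 78) (nat_lit 228) (nat_lit 0) (XT.lf (nat_lit 0) (nat_lit 2897533215) (nat_lit 228) (nat_lit 2955205906) (nat_lit 304) (nat_lit 13882268795) (nat_lit 203) (nat_lit 5) (nat_lit 206) (nat_lit 5) (nat_lit 207) (nat_lit 5) (nat_lit 421) (nat_lit 356) (nat_lit 243)) (XT.nd (nat_lit 78) (nat_lit 228) (nat_lit 0) (XT.lf (nat_lit 0) (nat_lit 11263222598) (nat_lit 304) (nat_lit 4207801464) (nat_lit 76) (nat_lit 4622701098) (nat_lit 203) (nat_lit 5) (nat_lit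 207) (nat_lit 5) (nat_lit 204) (nat_lit 5) (nat_lit 422) (nat_lit 356) (nat_lit 242)) (XT.lf (nat_lit 0) (nat_lit 8920865107) (nat_lit 228) (nat_lit 8015125011) (nat_lit 304) (nat_lit 3524214717) (nat_lit 200) (nat_lit 5) (nat_lit 203) (nat_lit 5) (nat_lit 204) (nat_lit 5) (nat_lit 423) (nat_lit 356) (nat_lit 241)))) (XT.nd (nat_lit 78) (nat_lit 228) (nat_lit 0) (XT.lf (nat_lit 0) (nat_lit 1682216542) (nat_lit 228) (nat_lit 265259169) (nat_lit 304) (nat_lit 18888320524) (nat_lit 196) (nat_lit 5) (nat_lit 199) (nat_lit 5) (nat_lit 200) (nat_lit 5) (nat_lit 424) (nat_lit 356) (nat_lit 240)) (XT.nd (nat_lit 78) (nat_lit 228) (nat_lit 0) (XT.lf (nat_lit 0) (nat_lit 7689463844) (nat_lit 304) (nat_lit 5817302054) (nat_lit 76) (nat_lit 7709533276) (nat_lit 196) (nat_lit 5) (nat_lit 200) (nat_lit 5) (nat_lit 197) (nat_lit 5) (nat_lit 425) (nat_lit 356) (nat_lit 239)) (XT.lf (nat_lit 0) (nat_lit 8049355490) (nat_lit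 228) (nat_lit 5619911467) (nat_lit 304) (nat_lit 7936983582) (nat_lit 193) (nat_lit 5) (nat_lit 196) (nat_lit 5) (nat_lit 197) (nat_lit 5) (nat_lit 426) (nat_lit 356) (nat_lit 238))))))))
noncomputable def xc81 : XT := (XT.nd (nat_lit 48906) (nat_lit 0) (nat_lit 7752) (XT.nd (nat_lit 47970) (nat_lit 0) (nat_lit 17556) (XT.nd (nat_lit 390) (nat_lit 228) (nat_lit 0) (XT.nd (nat_lit 156) (nat_lit 456) (nat_lit 0) (XT.nd (nat_lit 78) (nat_lit 76) (nat_lit 0) (XT.lf (nat_lit 0) (nat_lit 404109987) (nat_lit 228) (nat_lit 19497280998) (nat_lit 304) (nat_lit 2104321656) (nat_lit 190) (nat_lit 5) (nat_lit 193) (nat_lit 5) (nat_lit 194) (nat_lit 5) (nat_lit 427) (nat_lit 356) (nat_lit 237)) (XT.lf (nat_lit 0) (nat_lit 4006746991) (nat_lit 304) (nat_lit 7470021509) (nat_lit 76) (nat_lit 10933876633) (nat_lit 189) (nat_lit 5) (nat_lit 193) (nat_lit 5) (nat_lit 190) (nat_lit 5) (nat_lit 428) (nat_lit 356) (nat_lit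 236))) (XT.nd (nat_lit 78) (nat_lit 228) (nat_lit 0) (XT.lf (nat_lit 0) (nat_lit 7181212393) (nat_lit 228) (nat_lit 3132785805) (nat_lit 304) (nat_lit 12511447997) (nat_lit 186) (nat_lit 5) (nat_lit 189) (nat_lit 5) (nat_lit 190) (nat_lit 5) (nat_lit 429) (nat_lit 356) (nat_lit 235)) (XT.nd (nat_lit 78) (nat_lit 228) (nat_lit 0) (XT.lf (nat_lit 0) (nat_lit 16925347941) (nat_lit 304) (nat_lit 902241361) (nat_lit 76) (nat_lit 5421655557) (nat_lit 186) (nat_lit 5) (nat_lit 190) (nat_lit 5) (nat_lit 187) (nat_lit 5) (nat_lit 430) (nat_lit 356) (nat_lit 234)) (XT.lf (nat_lit 0) (nat_lit 206986548) (nat_lit 228) (nat_lit 9171903574) (nat_lit 76) (nat_lit 14302093125) (nat_lit 183) (nat_lit 5) (nat_lit 186) (nat_lit 5) (nat_lit 184) (nat_lit 5) (nat_lit 431) (nat_lit 356) (nat_lit 233))))) (XT.nd (nat_lit 47346) (nat_lit 0) (nat_lit 19304) (XT.nd (nat_lit 78) (nat_lit 0) (nat_lit 0) (XT.lf (nat_lit 0) (nat_lit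 6313298126) (nat_lit 228) (nat_lit 549927123) (nat_lit 304) (nat_lit 17258874167) (nat_lit 180) (nat_lit 5) (nat_lit 183) (nat_lit 5) (nat_lit 184) (nat_lit 5) (nat_lit 432) (nat_lit 356) (nat_lit 232)) (XT.nd (nat_lit 47190) (nat_lit 0) (nat_lit 19304) (XT.lf (nat_lit 0) (nat_lit 13881537394) (nat_lit 304) (nat_lit 2228752172) (nat_lit 76) (nat_lit 8461287917) (nat_lit 180) (nat_lit 5) (nat_lit 184) (nat_lit 5) (nat_lit 181) (nat_lit 5) (nat_lit 433) (nat_lit 356) (nat_lit 231)) (XT.lf (nat_lit 0) (nat_lit 469997621) (nat_lit 988) (nat_lit 1681107061) (nat_lit 988) (nat_lit 1681107061) (nat_lit 434) (nat_lit 3) (nat_lit 447) (nat_lit 3) (nat_lit 447) (nat_lit 5) (nat_lit 357) (nat_lit 357) (nat_lit 306)))) (XT.nd (nat_lit 78) (nat_lit 0) (nat_lit 76) (XT.lf (nat_lit 76) (nat_lit 479351495) (nat_lit 0) (nat_lit 1846266806) (nat_lit 988) (nat_lit 5412625844) (nat_lit 435) (nat_lit 5) (nat_lit 434) (nat_lit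 3) (nat_lit 447) (nat_lit 5) (nat_lit 358) (nat_lit 357) (nat_lit 305)) (XT.nd (nat_lit 78) (nat_lit 0) (nat_lit 0) (XT.lf (nat_lit 0) (nat_lit 3740296607) (nat_lit 912) (nat_lit 3344954622) (nat_lit 988) (nat_lit 729403597) (nat_lit 435) (nat_lit 5) (nat_lit 447) (nat_lit 5) (nat_lit 448) (nat_lit 5) (nat_lit 359) (nat_lit 357) (nat_lit 304)) (XT.lf (nat_lit 76) (nat_lit 651836547) (nat_lit 0) (nat_lit 4518308717) (nat_lit 988) (nat_lit 2724030664) (nat_lit 436) (nat_lit 5) (nat_lit 435) (nat_lit 5) (nat_lit 448) (nat_lit 5) (nat_lit 360) (nat_lit 357) (nat_lit 303)))))) (XT.nd (nat_lit 468) (nat_lit 912) (nat_lit 0) (XT.nd (nat_lit 234) (nat_lit 0) (nat_lit 0) (XT.nd (nat_lit 78) (nat_lit 912) (nat_lit 0) (XT.lf (nat_lit 76) (nat_lit 4808379294) (nat_lit 0) (nat_lit 1817704970) (nat_lit 988) (nat_lit 1350502552) (nat_lit 436) (nat_lit 5) (nat_lit 435) (nat_lit 5) (nat_lit 448) (nat_lit 5) (nat_lit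 361) (nat_lit 357) (nat_lit 302)) (XT.nd (nat_lit 78) (nat_lit 0) (nat_lit 0) (XT.lf (nat_lit 0) (nat_lit 32741275) (nat_lit 988) (nat_lit 7053678510) (nat_lit 1064) (nat_lit 975938825) (nat_lit 423) (nat_lit 5) (nat_lit 436) (nat_lit 5) (nat_lit 437) (nat_lit 5) (nat_lit 362) (nat_lit 357) (nat_lit 301)) (XT.lf (nat_lit 0) (nat_lit 1432410044) (nat_lit 988) (nat_lit 2835840825) (nat_lit 1064) (nat_lit 3881989409) (nat_lit 423) (nat_lit 5) (nat_lit 436) (nat_lit 5) (nat_lit 437) (nat_lit 5) (nat_lit 363) (nat_lit 357) (nat_lit 300)))) (XT.nd (nat_lit 78) (nat_lit 0) (nat_lit 76) (XT.lf (nat_lit 76) (nat_lit 1508619721) (nat_lit 0) (nat_lit 1333120705) (nat_lit 1064) (nat_lit 5399987822) (nat_lit 424) (nat_lit 5) (nat_lit 423) (nat_lit 5) (nat_lit 437) (nat_lit 5) (nat_lit 364) (nat_lit 357) (nat_lit 299)) (XT.nd (nat_lit 78) (nat_lit 0) (nat_lit 0) (XT.lf (nat_lit 0) (nat_lit 4292931357) (nat_lit 988)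 (nat_lit 2340681026) (nat_lit 1064) (nat_lit 1702361057) (nat_lit 424) (nat_lit 5) (nat_lit 437) (nat_lit 5) (nat_lit 438) (nat_lit 5) (nat_lit 365) (nat_lit 357) (nat_lit 298)) (XT.lf (nat_lit 76) (nat_lit 2183217820) (nat_lit 0) (nat_lit 3594368312) (nat_lit 1064) (nat_lit 2655762010) (nat_lit 425) (nat_lit 5) (nat_lit 424) (nat_lit 5) (nat_lit 438) (nat_lit 5) (nat_lit 366) (nat_lit 357) (nat_lit 297))))) (XT.nd (nat_lit 234) (nat_lit 0) (nat_lit 76) (XT.nd (nat_lit 78) (nat_lit 988) (nat_lit 0) (XT.lf (nat_lit 76) (nat_lit 6861401813) (nat_lit 0) (nat_lit 425763818) (nat_lit 1064) (nat_lit 1247066903) (nat_lit 425) (nat_lit 5) (nat_lit 424) (nat_lit 5) (nat_lit 438) (nat_lit 5) (nat_lit 367) (nat_lit 357) (nat_lit 296)) (XT.nd (nat_lit 78) (nat_lit 0) (nat_lit 0) (XT.lf (nat_lit 0) (nat_lit 214733485) (nat_lit 1064) (nat_lit 5595847130) (nat_lit 1140) (nat_lit 2827059354) (nat_lit 411) (nat_lit 5)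 (nat_lit 425) (nat_lit 5) (nat_lit 426) (nat_lit 5) (nat_lit 368) (nat_lit 357) (nat_lit 295)) (XT.lf (nat_lit 0) (nat_lit 1675264826) (nat_lit 1064) (nat_lit 858700989) (nat_lit 1140) (nat_lit 6210415144) (nat_lit 411) (nat_lit 5) (nat_lit 425) (nat_lit 5) (nat_lit 426) (nat_lit 5) (nat_lit 369) (nat_lit 357) (nat_lit 294)))) (XT.nd (nat_lit 78) (nat_lit 0) (nat_lit 0) (XT.lf (nat_lit 0) (nat_lit 3187182314) (nat_lit 1064) (nat_lit 4792526055) (nat_lit 1140) (nat_lit 874388702) (nat_lit 412) (nat_lit 5) (nat_lit 426) (nat_lit 5) (nat_lit 427) (nat_lit 5) (nat_lit 370) (nat_lit 357) (nat_lit 293)) (XT.nd (nat_lit 78) (nat_lit 0) (nat_lit 0) (XT.lf (nat_lit 76) (nat_lit 126941764) (nat_lit 0) (nat_lit 4613435010) (nat_lit 1140) (nat_lit 4226850310) (nat_lit 413) (nat_lit 5) (nat_lit 412) (nat_lit 5) (nat_lit 427) (nat_lit 5) (nat_lit 371) (nat_lit 357) (nat_lit 292)) (XT.lf (nat_lit 76) (nat_lit 5261965528)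 (nat_lit 0) (nat_lit 1088299258) (nat_lit 1140) (nat_lit 2733183280) (nat_lit 413) (nat_lit 5) (nat_lit 412) (nat_lit 5) (nat_lit 427) (nat_lit 5) (nat_lit 372) (nat_lit 357) (nat_lit 291))))))) (XT.nd (nat_lit 936) (nat_lit 3800) (nat_lit 0) (XT.nd (nat_lit 468) (nat_lit 1824) (nat_lit 0) (XT.nd (nat_lit 234) (nat_lit 2052) (nat_lit 0) (XT.nd (nat_lit 78) (nat_lit 1216) (nat_lit 0) (XT.lf (nat_lit 0) (nat_lit 1318595035) (nat_lit 1064) (nat_lit 6689863456) (nat_lit 1140) (nat_lit 1194696914) (nat_lit 399) (nat_lit 5) (nat_lit 413) (nat_lit 5) (nat_lit 414) (nat_lit 5) (nat_lit 373) (nat_lit 357) (nat_lit 290)) (XT.nd (nat_lit 78) (nat_lit 1140) (nat_lit 0) (XT.lf (nat_lit 0) (nat_lit 395404748) (nat_lit 1140) (nat_lit 2679999437) (nat_lit 76) (nat_lit 6250545232) (nat_lit 398) (nat_lit 5) (nat_lit 413) (nat_lit 5) (nat_lit 399) (nat_lit 5) (nat_lit 374) (nat_lit 357) (nat_lit 289)) (XT.lf (nat_lit 0)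 (nat_lit 2006109063) (nat_lit 1216) (nat_lit 6767734402) (nat_lit 76) (nat_lit 678321567) (nat_lit 383) (nat_lit 5) (nat_lit 399) (nat_lit 5) (nat_lit 384) (nat_lit 5) (nat_lit 375) (nat_lit 357) (nat_lit 288)))) (XT.nd (nat_lit 78) (nat_lit 2052) (nat_lit 0) (XT.lf (nat_lit 0) (nat_lit 3688105227) (nat_lit 1216) (nat_lit 1378246737) (nat_lit 76) (nat_lit 4515126031) (nat_lit 383) (nat_lit 5) (nat_lit 399) (nat_lit 5) (nat_lit 384) (nat_lit 5) (nat_lit 376) (nat_lit 357) (nat_lit 287)) (XT.nd (nat_lit 78) (nat_lit 836) (nat_lit 0) (XT.lf (nat_lit 0) (nat_lit 4225372977) (nat_lit 1216) (nat_lit 1202009524) (nat_lit 1292) (nat_lit 4287083210) (nat_lit 367) (nat_lit 5) (nat_lit 383) (nat_lit 5) (nat_lit 384) (nat_lit 5) (nat_lit 377) (nat_lit 357) (nat_lit 286)) (XT.lf (nat_lit 0) (nat_lit 119071697) (nat_lit 836) (nat_lit 7108608387) (nat_lit 912) (nat_lit 2623497713) (nat_lit 356) (nat_lit 5) (nat_lit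 367) (nat_lit 5) (nat_lit 368) (nat_lit 5) (nat_lit 378) (nat_lit 357) (nat_lit 285))))) (XT.nd (nat_lit 234) (nat_lit 1140) (nat_lit 0) (XT.nd (nat_lit 78) (nat_lit 684) (nat_lit 0) (XT.lf (nat_lit 0) (nat_lit 5965429358) (nat_lit 836) (nat_lit 3151376847) (nat_lit 912) (nat_lit 874140453) (nat_lit 356) (nat_lit 5) (nat_lit 367) (nat_lit 5) (nat_lit 368) (nat_lit 5) (nat_lit 379) (nat_lit 357) (nat_lit 284)) (XT.nd (nat_lit 78) (nat_lit 0) (nat_lit 0) (XT.lf (nat_lit 0) (nat_lit 904776285) (nat_lit 684) (nat_lit 8294970896) (nat_lit 76) (nat_lit 935038432) (nat_lit 347) (nat_lit 5) (nat_lit 356) (nat_lit 5) (nat_lit 348) (nat_lit 5) (nat_lit 380) (nat_lit 357) (nat_lit 283)) (XT.lf (nat_lit 0) (nat_lit 2760633220) (nat_lit 684) (nat_lit 2389183666) (nat_lit 76) (nat_lit 5131628943) (nat_lit 347) (nat_lit 5) (nat_lit 356) (nat_lit 5) (nat_lit 348) (nat_lit 5) (nat_lit 381) (nat_lit 357) (nat_lit 282))))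 (XT.nd (nat_lit 78) (nat_lit 532) (nat_lit 0) (XT.lf (nat_lit 0) (nat_lit 3736762647) (nat_lit 608) (nat_lit 941117433) (nat_lit 684) (nat_lit 5754454345) (nat_lit 339) (nat_lit 5) (nat_lit 347) (nat_lit 5) (nat_lit 348) (nat_lit 5) (nat_lit 382) (nat_lit 357) (nat_lit 281)) (XT.nd (nat_lit 78) (nat_lit 532) (nat_lit 0) (XT.lf (nat_lit 0) (nat_lit 6680021762) (nat_lit 684) (nat_lit 554952031) (nat_lit 76) (nat_lit 3351954563) (nat_lit 339) (nat_lit 5) (nat_lit 348) (nat_lit 5) (nat_lit 340) (nat_lit 5) (nat_lit 383) (nat_lit 357) (nat_lit 280)) (XT.lf (nat_lit 0) (nat_lit 5844987361) (nat_lit 532) (nat_lit 2933995162) (nat_lit 608) (nat_lit 1966074937) (nat_lit 332) (nat_lit 5) (nat_lit 339) (nat_lit 5) (nat_lit 340) (nat_lit 5) (nat_lit 384) (nat_lit 357) (nat_lit 279)))))) (XT.nd (nat_lit 468) (nat_lit 1596) (nat_lit 0) (XT.nd (nat_lit 234) (nat_lit 988) (nat_lit 0) (XT.nd (nat_lit 78) (nat_lit 532)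 (nat_lit 0) (XT.lf (nat_lit 0) (nat_lit 38903729) (nat_lit 684) (nat_lit 9382424401) (nat_lit 76) (nat_lit 1486395827) (nat_lit 323) (nat_lit 5) (nat_lit 332) (nat_lit 5) (nat_lit 324) (nat_lit 5) (nat_lit 385) (nat_lit 357) (nat_lit 278)) (XT.nd (nat_lit 78) (nat_lit 532) (nat_lit 0) (XT.lf (nat_lit 0) (nat_lit 2115591703) (nat_lit 684) (nat_lit 2909356644) (nat_lit 76) (nat_lit 6048205836) (nat_lit 323) (nat_lit 5) (nat_lit 332) (nat_lit 5) (nat_lit 324) (nat_lit 5) (nat_lit 386) (nat_lit 357) (nat_lit 277)) (XT.lf (nat_lit 0) (nat_lit 3802549132) (nat_lit 532) (nat_lit 461453163) (nat_lit 608) (nat_lit 6979262361) (nat_lit 316) (nat_lit 5) (nat_lit 323) (nat_lit 5) (nat_lit 324) (nat_lit 5) (nat_lit 387) (nat_lit 357) (nat_lit 276)))) (XT.nd (nat_lit 78) (nat_lit 988) (nat_lit 0) (XT.lf (nat_lit 0) (nat_lit 6520635256) (nat_lit 608) (nat_lit 713223181) (nat_lit 76) (nat_lit 4183306905) (nat_lit 316)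 (nat_lit 5) (nat_lit 324) (nat_lit 5) (nat_lit 317) (nat_lit 5) (nat_lit 388) (nat_lit 357) (nat_lit 275)) (XT.nd (nat_lit 78) (nat_lit 456) (nat_lit 0) (XT.lf (nat_lit 0) (nat_lit 6305402202) (nat_lit 532) (nat_lit 2578874377) (nat_lit 608) (nat_lit 2710827188) (nat_lit 309) (nat_lit 5) (nat_lit 316) (nat_lit 5) (nat_lit 317) (nat_lit 5) (nat_lit 389) (nat_lit 357) (nat_lit 274)) (XT.lf (nat_lit 0) (nat_lit 1754298138) (nat_lit 456) (nat_lit 9584536679) (nat_lit 532) (nat_lit 438945297) (nat_lit 303) (nat_lit 5) (nat_lit 309) (nat_lit 5) (nat_lit 310) (nat_lit 5) (nat_lit 390) (nat_lit 357) (nat_lit 273))))) (XT.nd (nat_lit 234) (nat_lit 988) (nat_lit 0) (XT.nd (nat_lit 78) (nat_lit 532) (nat_lit 0) (XT.lf (nat_lit 0) (nat_lit 1918256964) (nat_lit 532) (nat_lit 2920437544) (nat_lit 76) (nat_lit 7125066179) (nat_lit 302) (nat_lit 5) (nat_lit 309) (nat_lit 5) (nat_lit 303) (nat_lit 5) (nat_lit 391) (nat_lit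 357) (nat_lit 272)) (XT.nd (nat_lit 78) (nat_lit 0) (nat_lit 0) (XT.lf (nat_lit 0) (nat_lit 4356538833) (nat_lit 608) (nat_lit 7706318251) (nat_lit 76) (nat_lit 91757634) (nat_lit 295) (nat_lit 5) (nat_lit 303) (nat_lit 5) (nat_lit 296) (nat_lit 5) (nat_lit 392) (nat_lit 357) (nat_lit 271)) (XT.lf (nat_lit 0) (nat_lit 6921570477) (nat_lit 608) (nat_lit 329893558) (nat_lit 76) (nat_lit 5098122296) (nat_lit 295) (nat_lit 5) (nat_lit 303) (nat_lit 5) (nat_lit 296) (nat_lit 5) (nat_lit 393) (nat_lit 357) (nat_lit 270)))) (XT.nd (nat_lit 78) (nat_lit 532) (nat_lit 0) (XT.lf (nat_lit 0) (nat_lit 7383412831) (nat_lit 456) (nat_lit 2227726519) (nat_lit 532) (nat_lit 2937840154) (nat_lit 289) (nat_lit 5) (nat_lit 295) (nat_lit 5) (nat_lit 296) (nat_lit 5) (nat_lit 394) (nat_lit 357) (nat_lit 269)) (XT.nd (nat_lit 78) (nat_lit 76) (nat_lit 0) (XT.lf (nat_lit 0) (nat_lit 2573640920) (nat_lit 456) (nat_lit 9841155896)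 (nat_lit 532) (nat_lit 338555610) (nat_lit 283) (nat_lit 5) (nat_lit 289) (nat_lit 5) (nat_lit 290) (nat_lit 5) (nat_lit 395) (nat_lit 357) (nat_lit 268)) (XT.lf (nat_lit 0) (nat_lit 2344950313) (nat_lit 532) (nat_lit 2385451944) (nat_lit 76) (nat_lit 8231223464) (nat_lit 282) (nat_lit 5) (nat_lit 289) (nat_lit 5) (nat_lit 283) (nat_lit 5) (nat_lit 396) (nat_lit 357) (nat_lit 267))))))))
noncomputable def xc82 : XT := (XT.nd (nat_lit 1794) (nat_lit 2052) (nat_lit 0) (XT.nd (nat_lit 858) (nat_lit 2584) (nat_lit 0) (XT.nd (nat_lit 390) (nat_lit 1520) (nat_lit 0) (XT.nd (nat_lit 156) (nat_lit 456) (nat_lit 0) (XT.nd (nat_lit 78) (nat_lit 456) (nat_lit 0) (XT.lf (nat_lit 0) (nat_lit 5140627883) (nat_lit 456) (nat_lit 7457931503) (nat_lit 76) (nat_lit 576333134) (nat_lit 277) (nat_lit 5) (nat_lit 283) (nat_lit 5) (nat_lit 278) (nat_lit 5) (nat_lit 397) (nat_lit 357) (nat_lit 266)) (XT.lf (nat_lit 0) (nat_lit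 654718661) (nat_lit 456) (nat_lit 7421042763) (nat_lit 532) (nat_lit 5317128329) (nat_lit 271) (nat_lit 5) (nat_lit 277) (nat_lit 5) (nat_lit 278) (nat_lit 5) (nat_lit 398) (nat_lit 357) (nat_lit 265))) (XT.nd (nat_lit 78) (nat_lit 456) (nat_lit 0) (XT.lf (nat_lit 0) (nat_lit 9135413753) (nat_lit 456) (nat_lit 2017341023) (nat_lit 532) (nat_lit 2463057953) (nat_lit 271) (nat_lit 5) (nat_lit 277) (nat_lit 5) (nat_lit 278) (nat_lit 5) (nat_lit 399) (nat_lit 357) (nat_lit 264)) (XT.nd (nat_lit 78) (nat_lit 0) (nat_lit 0) (XT.lf (nat_lit 0) (nat_lit 519871208) (nat_lit 456) (nat_lit 9807047816) (nat_lit 76) (nat_lit 3516790793) (nat_lit 265) (nat_lit 5) (nat_lit 271) (nat_lit 5) (nat_lit 266) (nat_lit 5) (nat_lit 400) (nat_lit 357) (nat_lit 263)) (XT.lf (nat_lit 0) (nat_lit 3587647033) (nat_lit 456) (nat_lit 1248912955) (nat_lit 76) (nat_lit 9239806315) (nat_lit 265) (nat_lit 5) (nat_lit 271) (nat_lit 5)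 (nat_lit 266) (nat_lit 5) (nat_lit 401) (nat_lit 357) (nat_lit 262))))) (XT.nd (nat_lit 234) (nat_lit 760) (nat_lit 0) (XT.nd (nat_lit 78) (nat_lit 380) (nat_lit 0) (XT.lf (nat_lit 0) (nat_lit 6809701332) (nat_lit 456) (nat_lit 6634200501) (nat_lit 76) (nat_lit 870233294) (nat_lit 260) (nat_lit 5) (nat_lit 266) (nat_lit 5) (nat_lit 261) (nat_lit 5) (nat_lit 402) (nat_lit 357) (nat_lit 261)) (XT.nd (nat_lit 78) (nat_lit 0) (nat_lit 0) (XT.lf (nat_lit 0) (nat_lit 2313179083) (nat_lit 380) (nat_lit 7878161728) (nat_lit 456) (nat_lit 4365808497) (nat_lit 255) (nat_lit 5) (nat_lit 260) (nat_lit 5) (nat_lit 261) (nat_lit 5) (nat_lit 403) (nat_lit 357) (nat_lit 260)) (XT.lf (nat_lit 0) (nat_lit 11637706415) (nat_lit 380) (nat_lit 2084098687) (nat_lit 456) (nat_lit 1084227545) (nat_lit 255) (nat_lit 5) (nat_lit 260) (nat_lit 5) (nat_lit 261) (nat_lit 5) (nat_lit 404) (nat_lit 357) (nat_lit 259)))) (XT.nd (nat_lit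 78) (nat_lit 304) (nat_lit 0) (XT.lf (nat_lit 0) (nat_lit 2329945670) (nat_lit 456) (nat_lit 8845894158) (nat_lit 76) (nat_lit 3883512274) (nat_lit 249) (nat_lit 5) (nat_lit 255) (nat_lit 5) (nat_lit 250) (nat_lit 5) (nat_lit 405) (nat_lit 357) (nat_lit 258)) (XT.nd (nat_lit 78) (nat_lit 0) (nat_lit 0) (XT.lf (nat_lit 0) (nat_lit 574773745) (nat_lit 304) (nat_lit 5289445721) (nat_lit 380) (nat_lit 9454545608) (nat_lit 245) (nat_lit 5) (nat_lit 249) (nat_lit 5) (nat_lit 250) (nat_lit 5) (nat_lit 406) (nat_lit 357) (nat_lit 257)) (XT.lf (nat_lit 0) (nat_lit 9583382385) (nat_lit 380) (nat_lit 5159512348) (nat_lit 76) (nat_lit 840699874) (nat_lit 245) (nat_lit 5) (nat_lit 250) (nat_lit 5) (nat_lit 246) (nat_lit 5) (nat_lit 407) (nat_lit 357) (nat_lit 256)))))) (XT.nd (nat_lit 468) (nat_lit 1140) (nat_lit 0) (XT.nd (nat_lit 234) (nat_lit 684) (nat_lit 0) (XT.nd (nat_lit 78) (nat_lit 380) (nat_lit 0) (XT.lf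 (nat_lit 0) (nat_lit 4725838300) (nat_lit 380) (nat_lit 8767842005) (nat_lit 456) (nat_lit 2360301919) (nat_lit 240) (nat_lit 5) (nat_lit 245) (nat_lit 5) (nat_lit 246) (nat_lit 5) (nat_lit 408) (nat_lit 357) (nat_lit 255)) (XT.nd (nat_lit 78) (nat_lit 304) (nat_lit 0) (XT.lf (nat_lit 0) (nat_lit 1396184678) (nat_lit 456) (nat_lit 1157881071) (nat_lit 76) (nat_lit 13576980829) (nat_lit 239) (nat_lit 5) (nat_lit 245) (nat_lit 5) (nat_lit 240) (nat_lit 5) (nat_lit 409) (nat_lit 357) (nat_lit 254)) (XT.lf (nat_lit 0) (nat_lit 5327166364) (nat_lit 380) (nat_lit 7208946424) (nat_lit 76) (nat_lit 3876331790) (nat_lit 235) (nat_lit 5) (nat_lit 240) (nat_lit 5) (nat_lit 236) (nat_lit 5) (nat_lit 410) (nat_lit 357) (nat_lit 253)))) (XT.nd (nat_lit 78) (nat_lit 380) (nat_lit 0) (XT.lf (nat_lit 0) (nat_lit 3208706500) (nat_lit 304) (nat_lit 6217889720) (nat_lit 380) (nat_lit 7274172736) (nat_lit 231) (nat_lit 5)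 (nat_lit 235) (nat_lit 5) (nat_lit 236) (nat_lit 5) (nat_lit 411) (nat_lit 357) (nat_lit 252)) (XT.nd (nat_lit 78) (nat_lit 380) (nat_lit 0) (XT.lf (nat_lit 0) (nat_lit 13708068222) (nat_lit 380) (nat_lit 2938601874) (nat_lit 76) (nat_lit 349301192) (nat_lit 231) (nat_lit 5) (nat_lit 236) (nat_lit 5) (nat_lit 232) (nat_lit 5) (nat_lit 412) (nat_lit 357) (nat_lit 251)) (XT.lf (nat_lit 0) (nat_lit 924926453) (nat_lit 380) (nat_lit 9304863990) (nat_lit 76) (nat_lit 7066315377) (nat_lit 226) (nat_lit 5) (nat_lit 231) (nat_lit 5) (nat_lit 227) (nat_lit 5) (nat_lit 413) (nat_lit 357) (nat_lit 250))))) (XT.nd (nat_lit 234) (nat_lit 608) (nat_lit 0) (XT.nd (nat_lit 78) (nat_lit 228) (nat_lit 0) (XT.lf (nat_lit 0) (nat_lit 1679266553) (nat_lit 304) (nat_lit 3548240968) (nat_lit 380) (nat_lit 12375876754) (nat_lit 222) (nat_lit 5) (nat_lit 226) (nat_lit 5) (nat_lit 227) (nat_lit 5) (nat_lit 414) (nat_lit 357)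 (nat_lit 249)) (XT.nd (nat_lit 78) (nat_lit 228) (nat_lit 0) (XT.lf (nat_lit 0) (nat_lit 9769600739) (nat_lit 380) (nat_lit 4792054118) (nat_lit 76) (nat_lit 3354913185) (nat_lit 222) (nat_lit 5) (nat_lit 227) (nat_lit 5) (nat_lit 223) (nat_lit 5) (nat_lit 415) (nat_lit 357) (nat_lit 248)) (XT.lf (nat_lit 0) (nat_lit 6745540906) (nat_lit 228) (nat_lit 7786367306) (nat_lit 304) (nat_lit 3704720566) (nat_lit 219) (nat_lit 5) (nat_lit 222) (nat_lit 5) (nat_lit 223) (nat_lit 5) (nat_lit 416) (nat_lit 357) (nat_lit 247)))) (XT.nd (nat_lit 78) (nat_lit 228) (nat_lit 0) (XT.lf (nat_lit 0) (nat_lit 131368119) (nat_lit 304) (nat_lit 756616493) (nat_lit 380) (nat_lit 17677030105) (nat_lit 214) (nat_lit 5) (nat_lit 218) (nat_lit 5) (nat_lit 219) (nat_lit 5) (nat_lit 417) (nat_lit 357) (nat_lit 246)) (XT.nd (nat_lit 78) (nat_lit 228) (nat_lit 0) (XT.lf (nat_lit 0) (nat_lit 5707715315) (nat_lit 380) (nat_lit 6687016908)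 (nat_lit 76) (nat_lit 6502508432) (nat_lit 214) (nat_lit 5) (nat_lit 219) (nat_lit 5) (nat_lit 215) (nat_lit 5) (nat_lit 418) (nat_lit 357) (nat_lit 245)) (XT.lf (nat_lit 0) (nat_lit 5487185561) (nat_lit 228) (nat_lit 5229741084) (nat_lit 304) (nat_lit 8521160065) (nat_lit 211) (nat_lit 5) (nat_lit 214) (nat_lit 5) (nat_lit 215) (nat_lit 5) (nat_lit 419) (nat_lit 357) (nat_lit 244))))))) (XT.nd (nat_lit 48282) (nat_lit 0) (nat_lit 17176) (XT.nd (nat_lit 468) (nat_lit 912) (nat_lit 0) (XT.nd (nat_lit 234) (nat_lit 532) (nat_lit 0) (XT.nd (nat_lit 78) (nat_lit 608) (nat_lit 0) (XT.lf (nat_lit 0) (nat_lit 15950056801) (nat_lit 304) (nat_lit 1469316050) (nat_lit 76) (nat_lit 2167576021) (nat_lit 211) (nat_lit 5) (nat_lit 215) (nat_lit 5) (nat_lit 212) (nat_lit 5) (nat_lit 420) (nat_lit 357) (nat_lit 243)) (XT.nd (nat_lit 78) (nat_lit 228) (nat_lit 0) (XT.lf (nat_lit 0) (nat_lit 1514023918) (nat_lit 380)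 (nat_lit 8630616243) (nat_lit 76) (nat_lit 9796815164) (nat_lit 206) (nat_lit 5) (nat_lit 211) (nat_lit 5) (nat_lit 207) (nat_lit 5) (nat_lit 421) (nat_lit 357) (nat_lit 242)) (XT.lf (nat_lit 0) (nat_lit 4220689527) (nat_lit 228) (nat_lit 2566517704) (nat_lit 304) (nat_lit 13517084344) (nat_lit 203) (nat_lit 5) (nat_lit 206) (nat_lit 5) (nat_lit 207) (nat_lit 5) (nat_lit 422) (nat_lit 357) (nat_lit 241)))) (XT.nd (nat_lit 78) (nat_lit 532) (nat_lit 0) (XT.lf (nat_lit 0) (nat_lit 12342356618) (nat_lit 304) (nat_lit 3116163307) (nat_lit 76) (nat_lit 5215779870) (nat_lit 203) (nat_lit 5) (nat_lit 207) (nat_lit 5) (nat_lit 204) (nat_lit 5) (nat_lit 423) (nat_lit 357) (nat_lit 240)) (XT.nd (nat_lit 78) (nat_lit 304) (nat_lit 0) (XT.lf (nat_lit 0) (nat_lit 10394423339) (nat_lit 228) (nat_lit 7780886548) (nat_lit 304) (nat_lit 2876763892) (nat_lit 200) (nat_lit 5) (nat_lit 203) (nat_lit 5) (nat_lit 204) (nat_lit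 5) (nat_lit 424) (nat_lit 357) (nat_lit 239)) (XT.lf (nat_lit 0) (nat_lit 2736477751) (nat_lit 304) (nat_lit 18499655309) (nat_lit 76) (nat_lit 202819728) (nat_lit 196) (nat_lit 5) (nat_lit 200) (nat_lit 5) (nat_lit 197) (nat_lit 5) (nat_lit 425) (nat_lit 357) (nat_lit 238))))) (XT.nd (nat_lit 234) (nat_lit 456) (nat_lit 0) (XT.nd (nat_lit 78) (nat_lit 456) (nat_lit 0) (XT.lf (nat_lit 0) (nat_lit 8631996397) (nat_lit 304) (nat_lit 4801621652) (nat_lit 76) (nat_lit 8397814640) (nat_lit 196) (nat_lit 5) (nat_lit 200) (nat_lit 5) (nat_lit 197) (nat_lit 5) (nat_lit 426) (nat_lit 357) (nat_lit 237)) (XT.nd (nat_lit 78) (nat_lit 228) (nat_lit 0) (XT.lf (nat_lit 0) (nat_lit 9469366996) (nat_lit 228) (nat_lit 5312421913) (nat_lit 304) (nat_lit 7451575829) (nat_lit 193) (nat_lit 5) (nat_lit 196) (nat_lit 5) (nat_lit 197) (nat_lit 5) (nat_lit 427) (nat_lit 357) (nat_lit 236)) (XT.lf (nat_lit 0) (nat_lit 1599545049)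 (nat_lit 228) (nat_lit 19596689936) (nat_lit 304) (nat_lit 1448714967) (nat_lit 190) (nat_lit 5) (nat_lit 193) (nat_lit 5) (nat_lit 194) (nat_lit 5) (nat_lit 428) (nat_lit 357) (nat_lit 235)))) (XT.nd (nat_lit 78) (nat_lit 380) (nat_lit 0) (XT.lf (nat_lit 0) (nat_lit 4811135036) (nat_lit 304) (nat_lit 6531659148) (nat_lit 76) (nat_lit 11719644735) (nat_lit 189) (nat_lit 5) (nat_lit 193) (nat_lit 5) (nat_lit 190) (nat_lit 5) (nat_lit 429) (nat_lit 357) (nat_lit 234)) (XT.nd (nat_lit 78) (nat_lit 152) (nat_lit 0) (XT.lf (nat_lit 0) (nat_lit 8547715076) (nat_lit 228) (nat_lit 2751025720) (nat_lit 304) (nat_lit 12191209106) (nat_lit 186) (nat_lit 5) (nat_lit 189) (nat_lit 5) (nat_lit 190) (nat_lit 5) (nat_lit 430) (nat_lit 357) (nat_lit 233)) (XT.lf (nat_lit 0) (nat_lit 207510431) (nat_lit 152) (nat_lit 17887685666) (nat_lit 228) (nat_lit 5831663477) (nat_lit 184) (nat_lit 5) (nat_lit 186) (nat_lit 5) (nat_lit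 187) (nat_lit 5) (nat_lit 431) (nat_lit 357) (nat_lit 232)))))) (XT.nd (nat_lit 468) (nat_lit 912) (nat_lit 0) (XT.nd (nat_lit 234) (nat_lit 912) (nat_lit 0) (XT.nd (nat_lit 78) (nat_lit 0) (nat_lit 0) (XT.lf (nat_lit 0) (nat_lit 1837873234) (nat_lit 988) (nat_lit 1034345795) (nat_lit 988) (nat_lit 1034345795) (nat_lit 434) (nat_lit 3) (nat_lit 447) (nat_lit 3) (nat_lit 447) (nat_lit 5) (nat_lit 358) (nat_lit 358) (nat_lit 304)) (XT.nd (nat_lit 78) (nat_lit 0) (nat_lit 0) (XT.lf (nat_lit 76) (nat_lit 1874450515) (nat_lit 0) (nat_lit 3162899296) (nat_lit 988) (nat_lit 2853782769) (nat_lit 435) (nat_lit 5) (nat_lit 434) (nat_lit 3) (nat_lit 447) (nat_lit 5) (nat_lit 359) (nat_lit 358) (nat_lit 303)) (XT.lf (nat_lit 76) (nat_lit 5951881098) (nat_lit 0) (nat_lit 458271444) (nat_lit 988) (nat_lit 1562212518) (nat_lit 435) (nat_lit 5) (nat_lit 434) (nat_lit 3) (nat_lit 447) (nat_lit 5) (nat_lit 360) (nat_lit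 358) (nat_lit 302)))) (XT.nd (nat_lit 78) (nat_lit 988) (nat_lit 0) (XT.lf (nat_lit 76) (nat_lit 2086604122) (nat_lit 0) (nat_lit 5731124973) (nat_lit 988) (nat_lit 238497727) (nat_lit 436) (nat_lit 5) (nat_lit 435) (nat_lit 5) (nat_lit 448) (nat_lit 5) (nat_lit 361) (nat_lit 358) (nat_lit 301)) (XT.nd (nat_lit 78) (nat_lit 0) (nat_lit 76) (XT.lf (nat_lit 0) (nat_lit 1079968355) (nat_lit 988) (nat_lit 1827252486) (nat_lit 1064) (nat_lit 5235749452) (nat_lit 422) (nat_lit 5) (nat_lit 435) (nat_lit 5) (nat_lit 436) (nat_lit 5) (nat_lit 362) (nat_lit 358) (nat_lit 300)) (XT.lf (nat_lit 0) (nat_lit 2410530454) (nat_lit 988) (nat_lit 5775623635) (nat_lit 1064) (nat_lit 46771072) (nat_lit 423) (nat_lit 5) (nat_lit 436) (nat_lit 5) (nat_lit 437) (nat_lit 5) (nat_lit 363) (nat_lit 358) (nat_lit 299))))) (XT.nd (nat_lit 234) (nat_lit 988) (nat_lit 0) (XT.nd (nat_lit 78) (nat_lit 0) (nat_lit 0) (XT.lf (nat_lit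 0) (nat_lit 3782961899) (nat_lit 988) (nat_lit 1474639127) (nat_lit 1064) (nat_lit 3067919073) (nat_lit 423) (nat_lit 5) (nat_lit 436) (nat_lit 5) (nat_lit 437) (nat_lit 5) (nat_lit 364) (nat_lit 358) (nat_lit 298)) (XT.nd (nat_lit 78) (nat_lit 0) (nat_lit 76) (XT.lf (nat_lit 76) (nat_lit 2985976050) (nat_lit 0) (nat_lit 2195151288) (nat_lit 1064) (nat_lit 3240228718) (nat_lit 424) (nat_lit 5) (nat_lit 423) (nat_lit 5) (nat_lit 437) (nat_lit 5) (nat_lit 365) (nat_lit 358) (nat_lit 297)) (XT.lf (nat_lit 0) (nat_lit 6602527818) (nat_lit 988) (nat_lit 947189127) (nat_lit 1064) (nat_lit 970911442) (nat_lit 424) (nat_lit 5) (nat_lit 437) (nat_lit 5) (nat_lit 438) (nat_lit 5) (nat_lit 366) (nat_lit 358) (nat_lit 296)))) (XT.nd (nat_lit 78) (nat_lit 1064) (nat_lit 0) (XT.lf (nat_lit 76) (nat_lit 3698076564) (nat_lit 0) (nat_lit 4384059134) (nat_lit 1064) (nat_lit 540276229) (nat_lit 425) (nat_lit 5) (nat_lit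 424) (nat_lit 5) (nat_lit 438) (nat_lit 5) (nat_lit 367) (nat_lit 358) (nat_lit 295)) (XT.nd (nat_lit 78) (nat_lit 0) (nat_lit 76) (XT.lf (nat_lit 0) (nat_lit 830220064) (nat_lit 1064) (nat_lit 261932853) (nat_lit 1140) (nat_lit 7635787984) (nat_lit 410) (nat_lit 5) (nat_lit 424) (nat_lit 5) (nat_lit 425) (nat_lit 5) (nat_lit 368) (nat_lit 358) (nat_lit 294)) (XT.lf (nat_lit 0) (nat_lit 2257891385) (nat_lit 1064) (nat_lit 4262068681) (nat_lit 1140) (nat_lit 2315707624) (nat_lit 411) (nat_lit 5) (nat_lit 425) (nat_lit 5) (nat_lit 426) (nat_lit 5) (nat_lit 369) (nat_lit 358) (nat_lit 293))))))))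
noncomputable def xc83 : XT := (XT.nd (nat_lit 1872) (nat_lit 5776) (nat_lit 0) (XT.nd (nat_lit 936) (nat_lit 3952) (nat_lit 0) (XT.nd (nat_lit 468) (nat_lit 3876) (nat_lit 0) (XT.nd (nat_lit 234) (nat_lit 988) (nat_lit 0) (XT.nd (nat_lit 78) (nat_lit 0) (nat_lit 76) (XT.lf (nat_lit 76) (nat_lit 584867218) (nat_lit 0) (nat_lit 3123671727) (nat_lit 1140) (nat_lit 5238682957) (nat_lit 412) (nat_lit 5) (nat_lit 411) (nat_lit 5) (nat_lit 426) (nat_lit 5) (nat_lit 370) (nat_lit 358) (nat_lit 292)) (XT.nd (nat_lit 78) (nat_lit 0) (nat_lit 0) (XT.lf (nat_lit 0) (nat_lit 5211764144) (nat_lit 1064) (nat_lit 3429957753) (nat_lit 1140) (nat_lit 420129095) (nat_lit 412) (nat_lit 5) (nat_lit 426) (nat_lit 5) (nat_lit 427) (nat_lit 5) (nat_lit 371) (nat_lit 358) (nat_lit 291)) (XT.lf (nat_lit 76) (nat_lit 1622326022) (nat_lit 0) (nat_lit 5147382871) (nat_lit 1140) (nat_lit 2409921380) (nat_lit 413) (nat_lit 5) (nat_lit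 412) (nat_lit 5) (nat_lit 427) (nat_lit 5) (nat_lit 372) (nat_lit 358) (nat_lit 290)))) (XT.nd (nat_lit 78) (nat_lit 1064) (nat_lit 0) (XT.lf (nat_lit 76) (nat_lit 6867956538) (nat_lit 0) (nat_lit 1504972323) (nat_lit 1140) (nat_lit 928057963) (nat_lit 413) (nat_lit 5) (nat_lit 412) (nat_lit 5) (nat_lit 427) (nat_lit 5) (nat_lit 373) (nat_lit 358) (nat_lit 289)) (XT.nd (nat_lit 78) (nat_lit 0) (nat_lit 0) (XT.lf (nat_lit 0) (nat_lit 600743298) (nat_lit 1140) (nat_lit 6581284536) (nat_lit 76) (nat_lit 2243359027) (nat_lit 398) (nat_lit 5) (nat_lit 413) (nat_lit 5) (nat_lit 399) (nat_lit 5) (nat_lit 374) (nat_lit 358) (nat_lit 288)) (XT.lf (nat_lit 0) (nat_lit 2161896886) (nat_lit 1140) (nat_lit 1276919844) (nat_lit 76) (nat_lit 6114272269) (nat_lit 398) (nat_lit 5) (nat_lit 413) (nat_lit 5) (nat_lit 399) (nat_lit 5) (nat_lit 375) (nat_lit 358) (nat_lit 287))))) (XT.nd (nat_lit 234) (nat_lit 1520) (nat_lit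 0) (XT.nd (nat_lit 78) (nat_lit 1216) (nat_lit 0) (XT.lf (nat_lit 0) (nat_lit 3781546169) (nat_lit 1216) (nat_lit 5447910696) (nat_lit 76) (nat_lit 454815503) (nat_lit 383) (nat_lit 5) (nat_lit 399) (nat_lit 5) (nat_lit 384) (nat_lit 5) (nat_lit 376) (nat_lit 358) (nat_lit 286)) (XT.nd (nat_lit 78) (nat_lit 0) (nat_lit 0) (XT.lf (nat_lit 0) (nat_lit 60078932) (nat_lit 1216) (nat_lit 5404541951) (nat_lit 1292) (nat_lit 4354325277) (nat_lit 367) (nat_lit 5) (nat_lit 383) (nat_lit 5) (nat_lit 384) (nat_lit 5) (nat_lit 377) (nat_lit 358) (nat_lit 285)) (XT.lf (nat_lit 0) (nat_lit 5816139778) (nat_lit 1216) (nat_lit 1404928362) (nat_lit 1292) (nat_lit 2735905617) (nat_lit 367) (nat_lit 5) (nat_lit 383) (nat_lit 5) (nat_lit 384) (nat_lit 5) (nat_lit 378) (nat_lit 358) (nat_lit 284)))) (XT.nd (nat_lit 78) (nat_lit 684) (nat_lit 0) (XT.lf (nat_lit 0) (nat_lit 1622330943) (nat_lit 836) (nat_lit 7418401490) (nat_lit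 912) (nat_lit 1058094040) (nat_lit 356) (nat_lit 5) (nat_lit 367) (nat_lit 5) (nat_lit 368) (nat_lit 5) (nat_lit 379) (nat_lit 358) (nat_lit 283)) (XT.nd (nat_lit 78) (nat_lit 608) (nat_lit 0) (XT.lf (nat_lit 0) (nat_lit 682278597) (nat_lit 912) (nat_lit 2650473036) (nat_lit 76) (nat_lit 6911230854) (nat_lit 355) (nat_lit 5) (nat_lit 367) (nat_lit 5) (nat_lit 356) (nat_lit 5) (nat_lit 380) (nat_lit 358) (nat_lit 282)) (XT.lf (nat_lit 0) (nat_lit 2464977057) (nat_lit 684) (nat_lit 7024648671) (nat_lit 76) (nat_lit 903211728) (nat_lit 347) (nat_lit 5) (nat_lit 356) (nat_lit 5) (nat_lit 348) (nat_lit 5) (nat_lit 381) (nat_lit 358) (nat_lit 281)))))) (XT.nd (nat_lit 468) (nat_lit 2128) (nat_lit 0) (XT.nd (nat_lit 234) (nat_lit 684) (nat_lit 0) (XT.nd (nat_lit 78) (nat_lit 1140) (nat_lit 0) (XT.lf (nat_lit 0) (nat_lit 4331857540) (nat_lit 684) (nat_lit 985935534) (nat_lit 76) (nat_lit 5227443970) (nat_lit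 347) (nat_lit 5) (nat_lit 356) (nat_lit 5) (nat_lit 348) (nat_lit 5) (nat_lit 382) (nat_lit 358) (nat_lit 280)) (XT.nd (nat_lit 78) (nat_lit 532) (nat_lit 0) (XT.lf (nat_lit 0) (nat_lit 5309329133) (nat_lit 608) (nat_lit 967979932) (nat_lit 684) (nat_lit 4424222615) (nat_lit 339) (nat_lit 5) (nat_lit 347) (nat_lit 5) (nat_lit 348) (nat_lit 5) (nat_lit 383) (nat_lit 358) (nat_lit 279)) (XT.lf (nat_lit 0) (nat_lit 906499353) (nat_lit 532) (nat_lit 7399244423) (nat_lit 608) (nat_lit 2556032789) (nat_lit 332) (nat_lit 5) (nat_lit 339) (nat_lit 5) (nat_lit 340) (nat_lit 5) (nat_lit 384) (nat_lit 358) (nat_lit 278)))) (XT.nd (nat_lit 78) (nat_lit 684) (nat_lit 0) (XT.lf (nat_lit 0) (nat_lit 7466430107) (nat_lit 532) (nat_lit 2965169745) (nat_lit 608) (nat_lit 594131896) (nat_lit 332) (nat_lit 5) (nat_lit 339) (nat_lit 5) (nat_lit 340) (nat_lit 5) (nat_lit 385) (nat_lit 358) (nat_lit 277)) (XT.nd (nat_lit 78)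 (nat_lit 0) (nat_lit 0) (XT.lf (nat_lit 0) (nat_lit 1417041341) (nat_lit 684) (nat_lit 8163849220) (nat_lit 76) (nat_lit 1612755999) (nat_lit 323) (nat_lit 5) (nat_lit 332) (nat_lit 5) (nat_lit 324) (nat_lit 5) (nat_lit 386) (nat_lit 358) (nat_lit 276)) (XT.lf (nat_lit 0) (nat_lit 3515924018) (nat_lit 684) (nat_lit 1540280146) (nat_lit 76) (nat_lit 6309038708) (nat_lit 323) (nat_lit 5) (nat_lit 332) (nat_lit 5) (nat_lit 324) (nat_lit 5) (nat_lit 387) (nat_lit 358) (nat_lit 275))))) (XT.nd (nat_lit 234) (nat_lit 1064) (nat_lit 0) (XT.nd (nat_lit 78) (nat_lit 532) (nat_lit 0) (XT.lf (nat_lit 0) (nat_lit 5358704792) (nat_lit 532) (nat_lit 345006481) (nat_lit 608) (nat_lit 5837497656) (nat_lit 316) (nat_lit 5) (nat_lit 323) (nat_lit 5) (nat_lit 324) (nat_lit 5) (nat_lit 388) (nat_lit 358) (nat_lit 274)) (XT.nd (nat_lit 78) (nat_lit 0) (nat_lit 0) (XT.lf (nat_lit 0) (nat_lit 716428597) (nat_lit 532) (nat_lit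 7281509882) (nat_lit 608) (nat_lit 3723291298) (nat_lit 309) (nat_lit 5) (nat_lit 316) (nat_lit 5) (nat_lit 317) (nat_lit 5) (nat_lit 389) (nat_lit 358) (nat_lit 273)) (XT.lf (nat_lit 0) (nat_lit 7917543735) (nat_lit 532) (nat_lit 2484607085) (nat_lit 608) (nat_lit 1503265683) (nat_lit 309) (nat_lit 5) (nat_lit 316) (nat_lit 5) (nat_lit 317) (nat_lit 5) (nat_lit 390) (nat_lit 358) (nat_lit 272)))) (XT.nd (nat_lit 78) (nat_lit 532) (nat_lit 0) (XT.lf (nat_lit 0) (nat_lit 799277588) (nat_lit 532) (nat_lit 8850543535) (nat_lit 76) (nat_lit 2444145709) (nat_lit 302) (nat_lit 5) (nat_lit 309) (nat_lit 5) (nat_lit 303) (nat_lit 5) (nat_lit 391) (nat_lit 358) (nat_lit 271)) (XT.nd (nat_lit 78) (nat_lit 532) (nat_lit 0) (XT.lf (nat_lit 0) (nat_lit 3182182226) (nat_lit 532) (nat_lit 1581548817) (nat_lit 76) (nat_lit 7522751138) (nat_lit 302) (nat_lit 5) (nat_lit 309) (nat_lit 5) (nat_lit 303) (nat_lit 5) (nat_lit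 392) (nat_lit 358) (nat_lit 270)) (XT.lf (nat_lit 0) (nat_lit 5674242088) (nat_lit 608) (nat_lit 6491635483) (nat_lit 76) (nat_lit 317765376) (nat_lit 295) (nat_lit 5) (nat_lit 303) (nat_lit 5) (nat_lit 296) (nat_lit 5) (nat_lit 393) (nat_lit 358) (nat_lit 269))))))) (XT.nd (nat_lit 936) (nat_lit 2736) (nat_lit 0) (XT.nd (nat_lit 468) (nat_lit 1216) (nat_lit 0) (XT.nd (nat_lit 234) (nat_lit 836) (nat_lit 0) (XT.nd (nat_lit 78) (nat_lit 532) (nat_lit 0) (XT.lf (nat_lit 0) (nat_lit 1085144236) (nat_lit 456) (nat_lit 7206938493) (nat_lit 532) (nat_lit 4393105238) (nat_lit 289) (nat_lit 5) (nat_lit 295) (nat_lit 5) (nat_lit 296) (nat_lit 5) (nat_lit 394) (nat_lit 358) (nat_lit 268)) (XT.nd (nat_lit 78) (nat_lit 532) (nat_lit 0) (XT.lf (nat_lit 0) (nat_lit 8994912397) (nat_lit 456) (nat_lit 2036790665) (nat_lit 532) (nat_lit 1859778942) (nat_lit 289) (nat_lit 5) (nat_lit 295) (nat_lit 5) (nat_lit 296) (nat_lit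 5) (nat_lit 395) (nat_lit 358) (nat_lit 267)) (XT.lf (nat_lit 0) (nat_lit 784321672) (nat_lit 532) (nat_lit 9051786538) (nat_lit 76) (nat_lit 3266158471) (nat_lit 282) (nat_lit 5) (nat_lit 289) (nat_lit 5) (nat_lit 283) (nat_lit 5) (nat_lit 396) (nat_lit 358) (nat_lit 266)))) (XT.nd (nat_lit 78) (nat_lit 836) (nat_lit 0) (XT.lf (nat_lit 0) (nat_lit 3508725346) (nat_lit 532) (nat_lit 1068700669) (nat_lit 76) (nat_lit 8740245682) (nat_lit 282) (nat_lit 5) (nat_lit 289) (nat_lit 5) (nat_lit 283) (nat_lit 5) (nat_lit 397) (nat_lit 358) (nat_lit 265)) (XT.nd (nat_lit 78) (nat_lit 456) (nat_lit 0) (XT.lf (nat_lit 0) (nat_lit 6372523284) (nat_lit 456) (nat_lit 6277604656) (nat_lit 76) (nat_lit 887681059) (nat_lit 277) (nat_lit 5) (nat_lit 283) (nat_lit 5) (nat_lit 278) (nat_lit 5) (nat_lit 398) (nat_lit 358) (nat_lit 264)) (XT.lf (nat_lit 0) (nat_lit 2064659672) (nat_lit 456) (nat_lit 7313026930) (nat_lit 532)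 (nat_lit 4385200274) (nat_lit 271) (nat_lit 5) (nat_lit 277) (nat_lit 5) (nat_lit 278) (nat_lit 5) (nat_lit 399) (nat_lit 358) (nat_lit 263))))) (XT.nd (nat_lit 234) (nat_lit 380) (nat_lit 0) (XT.nd (nat_lit 78) (nat_lit 836) (nat_lit 0) (XT.lf (nat_lit 0) (nat_lit 10759281458) (nat_lit 456) (nat_lit 1756844637) (nat_lit 532) (nat_lit 1477297356) (nat_lit 271) (nat_lit 5) (nat_lit 277) (nat_lit 5) (nat_lit 278) (nat_lit 5) (nat_lit 400) (nat_lit 358) (nat_lit 262)) (XT.nd (nat_lit 78) (nat_lit 380) (nat_lit 0) (XT.lf (nat_lit 0) (nat_lit 1560448412) (nat_lit 456) (nat_lit 8716782690) (nat_lit 76) (nat_lit 3951040578) (nat_lit 265) (nat_lit 5) (nat_lit 271) (nat_lit 5) (nat_lit 266) (nat_lit 5) (nat_lit 401) (nat_lit 358) (nat_lit 261)) (XT.lf (nat_lit 0) (nat_lit 58921425) (nat_lit 380) (nat_lit 4632048657) (nat_lit 456) (nat_lit 9777816401) (nat_lit 260) (nat_lit 5) (nat_lit 265) (nat_lit 5) (nat_lit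 266) (nat_lit 5) (nat_lit 402) (nat_lit 358) (nat_lit 260)))) (XT.nd (nat_lit 78) (nat_lit 380) (nat_lit 0) (XT.lf (nat_lit 0) (nat_lit 7996313464) (nat_lit 456) (nat_lit 5476268358) (nat_lit 76) (nat_lit 1241507726) (nat_lit 260) (nat_lit 5) (nat_lit 266) (nat_lit 5) (nat_lit 261) (nat_lit 5) (nat_lit 403) (nat_lit 358) (nat_lit 259)) (XT.nd (nat_lit 78) (nat_lit 0) (nat_lit 0) (XT.lf (nat_lit 0) (nat_lit 3726229103) (nat_lit 380) (nat_lit 7737477762) (nat_lit 456) (nat_lit 3501158148) (nat_lit 255) (nat_lit 5) (nat_lit 260) (nat_lit 5) (nat_lit 261) (nat_lit 5) (nat_lit 404) (nat_lit 358) (nat_lit 258)) (XT.lf (nat_lit 0) (nat_lit 13291356683) (nat_lit 380) (nat_lit 1780574251) (nat_lit 456) (nat_lit 150128543) (nat_lit 255) (nat_lit 5) (nat_lit 260) (nat_lit 5) (nat_lit 261) (nat_lit 5) (nat_lit 405) (nat_lit 358) (nat_lit 257)))))) (XT.nd (nat_lit 468) (nat_lit 1216) (nat_lit 0) (XT.nd (nat_lit 234)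 (nat_lit 760) (nat_lit 0) (XT.nd (nat_lit 78) (nat_lit 304) (nat_lit 0) (XT.lf (nat_lit 0) (nat_lit 3336229412) (nat_lit 456) (nat_lit 7776511451) (nat_lit 76) (nat_lit 4370300240) (nat_lit 249) (nat_lit 5) (nat_lit 255) (nat_lit 5) (nat_lit 250) (nat_lit 5) (nat_lit 406) (nat_lit 358) (nat_lit 256)) (XT.nd (nat_lit 78) (nat_lit 0) (nat_lit 0) (XT.lf (nat_lit 0) (nat_lit 1913690611) (nat_lit 304) (nat_lit 5048272186) (nat_lit 380) (nat_lit 8788710727) (nat_lit 245) (nat_lit 5) (nat_lit 249) (nat_lit 5) (nat_lit 250) (nat_lit 5) (nat_lit 407) (nat_lit 358) (nat_lit 255)) (XT.lf (nat_lit 0) (nat_lit 10769583290) (nat_lit 380) (nat_lit 4008002100) (nat_lit 76) (nat_lit 1246556072) (nat_lit 245) (nat_lit 5) (nat_lit 250) (nat_lit 5) (nat_lit 246) (nat_lit 5) (nat_lit 408) (nat_lit 358) (nat_lit 254)))) (XT.nd (nat_lit 78) (nat_lit 380) (nat_lit 0) (XT.lf (nat_lit 0) (nat_lit 6161102247) (nat_lit 380) (nat_lit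 8622345994) (nat_lit 456) (nat_lit 1519604723) (nat_lit 240) (nat_lit 5) (nat_lit 245) (nat_lit 5) (nat_lit 246) (nat_lit 5) (nat_lit 409) (nat_lit 358) (nat_lit 253)) (XT.nd (nat_lit 78) (nat_lit 0) (nat_lit 0) (XT.lf (nat_lit 0) (nat_lit 82066995) (nat_lit 304) (nat_lit 2224480920) (nat_lit 380) (nat_lit 14282375731) (nat_lit 235) (nat_lit 5) (nat_lit 239) (nat_lit 5) (nat_lit 240) (nat_lit 5) (nat_lit 410) (nat_lit 358) (nat_lit 252)) (XT.lf (nat_lit 0) (nat_lit 6345418733) (nat_lit 380) (nat_lit 6142880300) (nat_lit 76) (nat_lit 4390765761) (nat_lit 235) (nat_lit 5) (nat_lit 240) (nat_lit 5) (nat_lit 236) (nat_lit 5) (nat_lit 411) (nat_lit 358) (nat_lit 251))))) (XT.nd (nat_lit 234) (nat_lit 532) (nat_lit 0) (XT.nd (nat_lit 78) (nat_lit 380) (nat_lit 0) (XT.lf (nat_lit 0) (nat_lit 4574730305) (nat_lit 304) (nat_lit 5980303884) (nat_lit 380) (nat_lit 6621388634) (nat_lit 231) (nat_lit 5) (nat_lit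 235) (nat_lit 5) (nat_lit 236) (nat_lit 5) (nat_lit 412) (nat_lit 358) (nat_lit 250)) (XT.nd (nat_lit 78) (nat_lit 380) (nat_lit 0) (XT.lf (nat_lit 0) (nat_lit 14944278238) (nat_lit 380) (nat_lit 1773308583) (nat_lit 76) (nat_lit 763514567) (nat_lit 231) (nat_lit 5) (nat_lit 236) (nat_lit 5) (nat_lit 232) (nat_lit 5) (nat_lit 413) (nat_lit 358) (nat_lit 249)) (XT.lf (nat_lit 0) (nat_lit 1773593060) (nat_lit 380) (nat_lit 8326509407) (nat_lit 76) (nat_lit 7690258963) (nat_lit 226) (nat_lit 5) (nat_lit 231) (nat_lit 5) (nat_lit 227) (nat_lit 5) (nat_lit 414) (nat_lit 358) (nat_lit 248)))) (XT.nd (nat_lit 78) (nat_lit 228) (nat_lit 0) (XT.lf (nat_lit 0) (nat_lit 2974816616) (nat_lit 304) (nat_lit 3218494043) (nat_lit 380) (nat_lit 11913905807) (nat_lit 222) (nat_lit 5) (nat_lit 226) (nat_lit 5) (nat_lit 227) (nat_lit 5) (nat_lit 415) (nat_lit 358) (nat_lit 247)) (XT.nd (nat_lit 78) (nat_lit 228) (nat_lit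 0) (XT.lf (nat_lit 0) (nat_lit 10852175050) (nat_lit 380) (nat_lit 3707419199) (nat_lit 76) (nat_lit 3870786245) (nat_lit 222) (nat_lit 5) (nat_lit 227) (nat_lit 5) (nat_lit 223) (nat_lit 5) (nat_lit 416) (nat_lit 358) (nat_lit 246)) (XT.lf (nat_lit 0) (nat_lit 8164260572) (nat_lit 228) (nat_lit 7581788762) (nat_lit 304) (nat_lit 3014332791) (nat_lit 219) (nat_lit 5) (nat_lit 222) (nat_lit 5) (nat_lit 223) (nat_lit 5) (nat_lit 417) (nat_lit 358) (nat_lit 245))))))))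
noncomputable def xc84 : XT := (XT.nd (nat_lit 49218) (nat_lit 0) (nat_lit 9348) (XT.nd (nat_lit 858) (nat_lit 532) (nat_lit 0) (XT.nd (nat_lit 390) (nat_lit 988) (nat_lit 0) (XT.nd (nat_lit 156) (nat_lit 608) (nat_lit 0) (XT.nd (nat_lit 78) (nat_lit 0) (nat_lit 0) (XT.lf (nat_lit 0) (nat_lit 1355224953) (nat_lit 304) (nat_lit 334124480) (nat_lit 380) (nat_lit 17409373967) (nat_lit 214) (nat_lit 5) (nat_lit 218) (nat_lit 5) (nat_lit 219) (nat_lit 5) (nat_lit 418) (nat_lit 358) (nat_lit 244)) (XT.lf (nat_lit 0) (nat_lit 6635262042) (nat_lit 380) (nat_lit 5684833138) (nat_lit 76) (nat_lit 7121373236) (nat_lit 214) (nat_lit 5) (nat_lit 219) (nat_lit 5) (nat_lit 215) (nat_lit 5) (nat_lit 419) (nat_lit 358) (nat_lit 243))) (XT.nd (nat_lit 78) (nat_lit 380) (nat_lit 0) (XT.lf (nat_lit 0) (nat_lit 6842803303) (nat_lit 228) (nat_lit 4941366450) (nat_lit 304) (nat_lit 8008687498) (nat_lit 211) (nat_lit 5) (nat_lit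 214) (nat_lit 5) (nat_lit 215) (nat_lit 5) (nat_lit 420) (nat_lit 358) (nat_lit 242)) (XT.nd (nat_lit 78) (nat_lit 380) (nat_lit 0) (XT.lf (nat_lit 0) (nat_lit 17156728881) (nat_lit 304) (nat_lit 339517805) (nat_lit 76) (nat_lit 2656465541) (nat_lit 211) (nat_lit 5) (nat_lit 215) (nat_lit 5) (nat_lit 212) (nat_lit 5) (nat_lit 421) (nat_lit 358) (nat_lit 241)) (XT.lf (nat_lit 0) (nat_lit 2284689815) (nat_lit 380) (nat_lit 7712731809) (nat_lit 76) (nat_lit 10520520006) (nat_lit 206) (nat_lit 5) (nat_lit 211) (nat_lit 5) (nat_lit 207) (nat_lit 5) (nat_lit 422) (nat_lit 358) (nat_lit 240))))) (XT.nd (nat_lit 234) (nat_lit 532) (nat_lit 0) (XT.nd (nat_lit 78) (nat_lit 228) (nat_lit 0) (XT.lf (nat_lit 0) (nat_lit 5512575851) (nat_lit 228) (nat_lit 2193570377) (nat_lit 304) (nat_lit 13185814411) (nat_lit 203) (nat_lit 5) (nat_lit 206) (nat_lit 5) (nat_lit 207) (nat_lit 5) (nat_lit 423) (nat_lit 358) (nat_lit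 239)) (XT.nd (nat_lit 78) (nat_lit 228) (nat_lit 0) (XT.lf (nat_lit 0) (nat_lit 13411314604) (nat_lit 304) (nat_lit 2061686851) (nat_lit 76) (nat_lit 5800566715) (nat_lit 203) (nat_lit 5) (nat_lit 207) (nat_lit 5) (nat_lit 204) (nat_lit 5) (nat_lit 424) (nat_lit 358) (nat_lit 238)) (XT.lf (nat_lit 0) (nat_lit 11842962871) (nat_lit 228) (nat_lit 7566870205) (nat_lit 304) (nat_lit 2253124999) (nat_lit 200) (nat_lit 5) (nat_lit 203) (nat_lit 5) (nat_lit 204) (nat_lit 5) (nat_lit 425) (nat_lit 358) (nat_lit 237)))) (XT.nd (nat_lit 78) (nat_lit 228) (nat_lit 0) (XT.lf (nat_lit 0) (nat_lit 3509687267) (nat_lit 304) (nat_lit 17899111509) (nat_lit 76) (nat_lit 652589141) (nat_lit 196) (nat_lit 5) (nat_lit 200) (nat_lit 5) (nat_lit 197) (nat_lit 5) (nat_lit 426) (nat_lit 358) (nat_lit 236)) (XT.nd (nat_lit 78) (nat_lit 228) (nat_lit 0) (XT.lf (nat_lit 0) (nat_lit 9561941904) (nat_lit 304) (nat_lit 3823793157)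 (nat_lit 76) (nat_lit 9080511040) (nat_lit 196) (nat_lit 5) (nat_lit 200) (nat_lit 5) (nat_lit 197) (nat_lit 5) (nat_lit 427) (nat_lit 358) (nat_lit 235)) (XT.lf (nat_lit 0) (nat_lit 10864326355) (nat_lit 228) (nat_lit 5023037007) (nat_lit 304) (nat_lit 6993138693) (nat_lit 193) (nat_lit 5) (nat_lit 196) (nat_lit 5) (nat_lit 197) (nat_lit 5) (nat_lit 428) (nat_lit 358) (nat_lit 234)))))) (XT.nd (nat_lit 47892) (nat_lit 0) (nat_lit 17024) (XT.nd (nat_lit 47658) (nat_lit 0) (nat_lit 17860) (XT.nd (nat_lit 78) (nat_lit 304) (nat_lit 0) (XT.lf (nat_lit 0) (nat_lit 2762916227) (nat_lit 228) (nat_lit 19726951374) (nat_lit 304) (nat_lit 814698484) (nat_lit 190) (nat_lit 5) (nat_lit 193) (nat_lit 5) (nat_lit 194) (nat_lit 5) (nat_lit 429) (nat_lit 358) (nat_lit 233)) (XT.nd (nat_lit 78) (nat_lit 228) (nat_lit 0) (XT.lf (nat_lit 0) (nat_lit 5600379667) (nat_lit 304) (nat_lit 5631876047) (nat_lit 76) (nat_lit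 12502709054) (nat_lit 189) (nat_lit 5) (nat_lit 193) (nat_lit 5) (nat_lit 190) (nat_lit 5) (nat_lit 430) (nat_lit 358) (nat_lit 232)) (XT.lf (nat_lit 0) (nat_lit 9889136924) (nat_lit 228) (nat_lit 2385122465) (nat_lit 304) (nat_lit 11901292319) (nat_lit 186) (nat_lit 5) (nat_lit 189) (nat_lit 5) (nat_lit 190) (nat_lit 5) (nat_lit 431) (nat_lit 358) (nat_lit 231)))) (XT.nd (nat_lit 78) (nat_lit 988) (nat_lit 0) (XT.lf (nat_lit 0) (nat_lit 3169072854) (nat_lit 988) (nat_lit 408203506) (nat_lit 988) (nat_lit 408203506) (nat_lit 434) (nat_lit 3) (nat_lit 447) (nat_lit 3) (nat_lit 447) (nat_lit 5) (nat_lit 359) (nat_lit 359) (nat_lit 302)) (XT.nd (nat_lit 78) (nat_lit 988) (nat_lit 0) (XT.lf (nat_lit 76) (nat_lit 3232143618) (nat_lit 0) (nat_lit 4446630167) (nat_lit 988) (nat_lit 374383668) (nat_lit 435) (nat_lit 5) (nat_lit 434) (nat_lit 3) (nat_lit 447) (nat_lit 5) (nat_lit 360) (nat_lit 359) (nat_lit 301))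 (XT.lf (nat_lit 0) (nat_lit 864028719) (nat_lit 988) (nat_lit 753483243) (nat_lit 1064) (nat_lit 6521236812) (nat_lit 421) (nat_lit 5) (nat_lit 434) (nat_lit 3) (nat_lit 435) (nat_lit 5) (nat_lit 361) (nat_lit 359) (nat_lit 300))))) (XT.nd (nat_lit 234) (nat_lit 912) (nat_lit 0) (XT.nd (nat_lit 78) (nat_lit 0) (nat_lit 0) (XT.lf (nat_lit 0) (nat_lit 2131803259) (nat_lit 988) (nat_lit 4765155891) (nat_lit 1064) (nat_lit 1329845447) (nat_lit 422) (nat_lit 5) (nat_lit 435) (nat_lit 5) (nat_lit 436) (nat_lit 5) (nat_lit 362) (nat_lit 359) (nat_lit 299)) (XT.nd (nat_lit 78) (nat_lit 0) (nat_lit 0) (XT.lf (nat_lit 0) (nat_lit 3415923086) (nat_lit 988) (nat_lit 541104890) (nat_lit 1064) (nat_lit 4361124756) (nat_lit 422) (nat_lit 5) (nat_lit 435) (nat_lit 5) (nat_lit 436) (nat_lit 5) (nat_lit 363) (nat_lit 359) (nat_lit 298)) (XT.lf (nat_lit 76) (nat_lit 3859325491) (nat_lit 0) (nat_lit 872274208) (nat_lit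 1064) (nat_lit 3680850617) (nat_lit 423) (nat_lit 5) (nat_lit 422) (nat_lit 5) (nat_lit 436) (nat_lit 5) (nat_lit 364) (nat_lit 359) (nat_lit 297)))) (XT.nd (nat_lit 78) (nat_lit 988) (nat_lit 0) (XT.lf (nat_lit 0) (nat_lit 6071565804) (nat_lit 988) (nat_lit 155623591) (nat_lit 1064) (nat_lit 2282842857) (nat_lit 423) (nat_lit 5) (nat_lit 436) (nat_lit 5) (nat_lit 437) (nat_lit 5) (nat_lit 365) (nat_lit 359) (nat_lit 296)) (XT.nd (nat_lit 78) (nat_lit 988) (nat_lit 0) (XT.lf (nat_lit 76) (nat_lit 4425444800) (nat_lit 0) (nat_lit 3035854503) (nat_lit 1064) (nat_lit 1148955289) (nat_lit 424) (nat_lit 5) (nat_lit 423) (nat_lit 5) (nat_lit 437) (nat_lit 5) (nat_lit 366) (nat_lit 359) (nat_lit 295)) (XT.lf (nat_lit 0) (nat_lit 142883046) (nat_lit 1064) (nat_lit 8303734043) (nat_lit 1140) (nat_lit 267800641) (nat_lit 410) (nat_lit 5) (nat_lit 424) (nat_lit 5) (nat_lit 425) (nat_lit 5) (nat_lit 367) (nat_lit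 359) (nat_lit 294))))))) (XT.nd (nat_lit 936) (nat_lit 4408) (nat_lit 0) (XT.nd (nat_lit 468) (nat_lit 3268) (nat_lit 0) (XT.nd (nat_lit 234) (nat_lit 0) (nat_lit 76) (XT.nd (nat_lit 78) (nat_lit 0) (nat_lit 0) (XT.lf (nat_lit 0) (nat_lit 1483145534) (nat_lit 1064) (nat_lit 3660176744) (nat_lit 1140) (nat_lit 3677059354) (nat_lit 410) (nat_lit 5) (nat_lit 424) (nat_lit 5) (nat_lit 425) (nat_lit 5) (nat_lit 368) (nat_lit 359) (nat_lit 293)) (XT.nd (nat_lit 78) (nat_lit 0) (nat_lit 76) (XT.lf (nat_lit 76) (nat_lit 1117589603) (nat_lit 0) (nat_lit 1717960633) (nat_lit 1140) (nat_lit 6094816185) (nat_lit 411) (nat_lit 5) (nat_lit 410) (nat_lit 5) (nat_lit 425) (nat_lit 5) (nat_lit 369) (nat_lit 359) (nat_lit 292)) (XT.lf (nat_lit 0) (nat_lit 4245428198) (nat_lit 1064) (nat_lit 2974477954) (nat_lit 1140) (nat_lit 1823237567) (nat_lit 411) (nat_lit 5) (nat_lit 425) (nat_lit 5) (nat_lit 426) (nat_lit 5) (nat_lit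 370) (nat_lit 359) (nat_lit 291)))) (XT.nd (nat_lit 78) (nat_lit 0) (nat_lit 0) (XT.lf (nat_lit 76) (nat_lit 2003989034) (nat_lit 0) (nat_lit 3693162448) (nat_lit 1140) (nat_lit 3462166386) (nat_lit 412) (nat_lit 5) (nat_lit 411) (nat_lit 5) (nat_lit 426) (nat_lit 5) (nat_lit 371) (nat_lit 359) (nat_lit 290)) (XT.nd (nat_lit 78) (nat_lit 0) (nat_lit 76) (XT.lf (nat_lit 76) (nat_lit 7165972995) (nat_lit 0) (nat_lit 20577679) (nat_lit 1140) (nat_lit 2092602840) (nat_lit 412) (nat_lit 5) (nat_lit 411) (nat_lit 5) (nat_lit 426) (nat_lit 5) (nat_lit 372) (nat_lit 359) (nat_lit 289)) (XT.lf (nat_lit 76) (nat_lit 3076949243) (nat_lit 0) (nat_lit 5674643277) (nat_lit 1140) (nat_lit 650062890) (nat_lit 413) (nat_lit 5) (nat_lit 412) (nat_lit 5) (nat_lit 427) (nat_lit 5) (nat_lit 373) (nat_lit 359) (nat_lit 288))))) (XT.nd (nat_lit 234) (nat_lit 1216) (nat_lit 0) (XT.nd (nat_lit 78) (nat_lit 1064) (nat_lit 0)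 (XT.lf (nat_lit 0) (nat_lit 806835058) (nat_lit 1140) (nat_lit 1097118517) (nat_lit 1216) (nat_lit 7624016063) (nat_lit 397) (nat_lit 5) (nat_lit 412) (nat_lit 5) (nat_lit 413) (nat_lit 5) (nat_lit 374) (nat_lit 359) (nat_lit 287)) (XT.nd (nat_lit 78) (nat_lit 1140) (nat_lit 0) (XT.lf (nat_lit 0) (nat_lit 2322289865) (nat_lit 1140) (nat_lit 5338451640) (nat_lit 76) (nat_lit 1996301235) (nat_lit 398) (nat_lit 5) (nat_lit 413) (nat_lit 5) (nat_lit 399) (nat_lit 5) (nat_lit 375) (nat_lit 359) (nat_lit 286)) (XT.lf (nat_lit 0) (nat_lit 84748079) (nat_lit 1140) (nat_lit 3796727420) (nat_lit 1216) (nat_lit 5908564519) (nat_lit 383) (nat_lit 5) (nat_lit 398) (nat_lit 5) (nat_lit 399) (nat_lit 5) (nat_lit 376) (nat_lit 359) (nat_lit 285)))) (XT.nd (nat_lit 78) (nat_lit 1216) (nat_lit 0) (XT.lf (nat_lit 0) (nat_lit 5511783800) (nat_lit 1216) (nat_lit 4175910429) (nat_lit 76) (nat_lit 238602573) (nat_lit 383)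 (nat_lit 5) (nat_lit 399) (nat_lit 5) (nat_lit 384) (nat_lit 5) (nat_lit 377) (nat_lit 359) (nat_lit 284)) (XT.nd (nat_lit 78) (nat_lit 0) (nat_lit 0) (XT.lf (nat_lit 0) (nat_lit 1483245972) (nat_lit 1216) (nat_lit 5728676804) (nat_lit 1292) (nat_lit 2854090871) (nat_lit 367) (nat_lit 5) (nat_lit 383) (nat_lit 5) (nat_lit 384) (nat_lit 5) (nat_lit 378) (nat_lit 359) (nat_lit 283)) (XT.lf (nat_lit 0) (nat_lit 7370589671) (nat_lit 1216) (nat_lit 1604356402) (nat_lit 1292) (nat_lit 1234619519) (nat_lit 367) (nat_lit 5) (nat_lit 383) (nat_lit 5) (nat_lit 384) (nat_lit 5) (nat_lit 379) (nat_lit 359) (nat_lit 282)))))) (XT.nd (nat_lit 468) (nat_lit 1748) (nat_lit 0) (XT.nd (nat_lit 234) (nat_lit 1140) (nat_lit 0) (XT.nd (nat_lit 78) (nat_lit 608) (nat_lit 0) (XT.lf (nat_lit 0) (nat_lit 450919010) (nat_lit 912) (nat_lit 7276474481) (nat_lit 76) (nat_lit 2629127384) (nat_lit 355) (nat_lit 5) (nat_lit 367) (nat_lit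 5) (nat_lit 356) (nat_lit 5) (nat_lit 380) (nat_lit 359) (nat_lit 281)) (XT.nd (nat_lit 78) (nat_lit 608) (nat_lit 0) (XT.lf (nat_lit 0) (nat_lit 2177979217) (nat_lit 912) (nat_lit 1328201075) (nat_lit 76) (nat_lit 7000864702) (nat_lit 355) (nat_lit 5) (nat_lit 367) (nat_lit 5) (nat_lit 356) (nat_lit 5) (nat_lit 381) (nat_lit 359) (nat_lit 280)) (XT.lf (nat_lit 0) (nat_lit 3983980082) (nat_lit 684) (nat_lit 5803423430) (nat_lit 76) (nat_lit 873867457) (nat_lit 347) (nat_lit 5) (nat_lit 356) (nat_lit 5) (nat_lit 348) (nat_lit 5) (nat_lit 382) (nat_lit 359) (nat_lit 279)))) (XT.nd (nat_lit 78) (nat_lit 532) (nat_lit 0) (XT.lf (nat_lit 0) (nat_lit 382201519) (nat_lit 608) (nat_lit 5486250471) (nat_lit 684) (nat_lit 4950943003) (nat_lit 339) (nat_lit 5) (nat_lit 347) (nat_lit 5) (nat_lit 348) (nat_lit 5) (nat_lit 383) (nat_lit 359) (nat_lit 278)) (XT.nd (nat_lit 78) (nat_lit 532) (nat_lit 0) (XT.lf (nat_lit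 0) (nat_lit 6845236028) (nat_lit 608) (nat_lit 995727008) (nat_lit 684) (nat_lit 3140354554) (nat_lit 339) (nat_lit 5) (nat_lit 347) (nat_lit 5) (nat_lit 348) (nat_lit 5) (nat_lit 384) (nat_lit 359) (nat_lit 277)) (XT.lf (nat_lit 0) (nat_lit 2337668242) (nat_lit 532) (nat_lit 7566032172) (nat_lit 608) (nat_lit 1243465920) (nat_lit 332) (nat_lit 5) (nat_lit 339) (nat_lit 5) (nat_lit 340) (nat_lit 5) (nat_lit 385) (nat_lit 359) (nat_lit 276))))) (XT.nd (nat_lit 234) (nat_lit 1064) (nat_lit 0) (XT.nd (nat_lit 78) (nat_lit 608) (nat_lit 0) (XT.lf (nat_lit 0) (nat_lit 722450292) (nat_lit 608) (nat_lit 2270797093) (nat_lit 76) (nat_lit 8323758850) (nat_lit 331) (nat_lit 5) (nat_lit 339) (nat_lit 5) (nat_lit 332) (nat_lit 5) (nat_lit 386) (nat_lit 359) (nat_lit 275)) (XT.nd (nat_lit 78) (nat_lit 0) (nat_lit 0) (XT.lf (nat_lit 0) (nat_lit 2757479343) (nat_lit 684) (nat_lit 6994825670) (nat_lit 76) (nat_lit 1738213142)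 (nat_lit 323) (nat_lit 5) (nat_lit 332) (nat_lit 5) (nat_lit 324) (nat_lit 5) (nat_lit 387) (nat_lit 359) (nat_lit 274)) (XT.lf (nat_lit 0) (nat_lit 4881524807) (nat_lit 684) (nat_lit 213732214) (nat_lit 76) (nat_lit 6573139445) (nat_lit 323) (nat_lit 5) (nat_lit 332) (nat_lit 5) (nat_lit 324) (nat_lit 5) (nat_lit 388) (nat_lit 359) (nat_lit 273)))) (XT.nd (nat_lit 78) (nat_lit 532) (nat_lit 0) (XT.lf (nat_lit 0) (nat_lit 6878763877) (nat_lit 532) (nat_lit 232545593) (nat_lit 608) (nat_lit 4739041121) (nat_lit 316) (nat_lit 5) (nat_lit 323) (nat_lit 5) (nat_lit 324) (nat_lit 5) (nat_lit 389) (nat_lit 359) (nat_lit 272)) (XT.nd (nat_lit 78) (nat_lit 0) (nat_lit 0) (XT.lf (nat_lit 0) (nat_lit 2119454917) (nat_lit 532) (nat_lit 7333320690) (nat_lit 608) (nat_lit 2583644094) (nat_lit 309) (nat_lit 5) (nat_lit 316) (nat_lit 5) (nat_lit 317) (nat_lit 5) (nat_lit 390) (nat_lit 359) (nat_lit 271)) (XT.lf (nat_lit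 0) (nat_lit 9496364670) (nat_lit 532) (nat_lit 2397364240) (nat_lit 608) (nat_lit 333464679) (nat_lit 309) (nat_lit 5) (nat_lit 316) (nat_lit 5) (nat_lit 317) (nat_lit 5) (nat_lit 391) (nat_lit 359) (nat_lit 270))))))))
noncomputable def xc85 : XT := (XT.nd (nat_lit 1794) (nat_lit 3192) (nat_lit 0) (XT.nd (nat_lit 858) (nat_lit 2584) (nat_lit 0) (XT.nd (nat_lit 390) (nat_lit 1824) (nat_lit 0) (XT.nd (nat_lit 156) (nat_lit 988) (nat_lit 0) (XT.nd (nat_lit 78) (nat_lit 0) (nat_lit 0) (XT.lf (nat_lit 0) (nat_lit 1994496258) (nat_lit 532) (nat_lit 7731106586) (nat_lit 76) (nat_lit 2696045782) (nat_lit 302) (nat_lit 5) (nat_lit 309) (nat_lit 5) (nat_lit 303) (nat_lit 5) (nat_lit 392) (nat_lit 359) (nat_lit 269)) (XT.lf (nat_lit 0) (nat_lit 4414774239) (nat_lit 532) (nat_lit 284380471) (nat_lit 76) (nat_lit 7921808140) (nat_lit 302) (nat_lit 5) (nat_lit 309) (nat_lit 5) (nat_lit 303) (nat_lit 5) (nat_lit 393)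 (nat_lit 359) (nat_lit 268))) (XT.nd (nat_lit 78) (nat_lit 456) (nat_lit 0) (XT.lf (nat_lit 0) (nat_lit 6963337378) (nat_lit 608) (nat_lit 5323511218) (nat_lit 76) (nat_lit 537737598) (nat_lit 295) (nat_lit 5) (nat_lit 303) (nat_lit 5) (nat_lit 296) (nat_lit 5) (nat_lit 394) (nat_lit 359) (nat_lit 267)) (XT.nd (nat_lit 78) (nat_lit 0) (nat_lit 0) (XT.lf (nat_lit 0) (nat_lit 2467210389) (nat_lit 456) (nat_lit 7172886793) (nat_lit 532) (nat_lit 3392668865) (nat_lit 289) (nat_lit 5) (nat_lit 295) (nat_lit 5) (nat_lit 296) (nat_lit 5) (nat_lit 395) (nat_lit 359) (nat_lit 266)) (XT.lf (nat_lit 0) (nat_lit 10574965426) (nat_lit 456) (nat_lit 1854923652) (nat_lit 532) (nat_lit 816320339) (nat_lit 289) (nat_lit 5) (nat_lit 295) (nat_lit 5) (nat_lit 296) (nat_lit 5) (nat_lit 396) (nat_lit 359) (nat_lit 265))))) (XT.nd (nat_lit 234) (nat_lit 912) (nat_lit 0) (XT.nd (nat_lit 78) (nat_lit 380) (nat_lit 0) (XT.lf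 (nat_lit 0) (nat_lit 1869430471) (nat_lit 532) (nat_lit 7975461655) (nat_lit 76) (nat_lit 3618595181) (nat_lit 282) (nat_lit 5) (nat_lit 289) (nat_lit 5) (nat_lit 283) (nat_lit 5) (nat_lit 397) (nat_lit 359) (nat_lit 264)) (XT.nd (nat_lit 78) (nat_lit 0) (nat_lit 0) (XT.lf (nat_lit 0) (nat_lit 211994979) (nat_lit 380) (nat_lit 4434689320) (nat_lit 456) (nat_lit 9039536633) (nat_lit 277) (nat_lit 5) (nat_lit 282) (nat_lit 5) (nat_lit 283) (nat_lit 5) (nat_lit 398) (nat_lit 359) (nat_lit 263)) (XT.lf (nat_lit 0) (nat_lit 7579512504) (nat_lit 456) (nat_lit 5142467066) (nat_lit 76) (nat_lit 1191489293) (nat_lit 277) (nat_lit 5) (nat_lit 283) (nat_lit 5) (nat_lit 278) (nat_lit 5) (nat_lit 399) (nat_lit 359) (nat_lit 262)))) (XT.nd (nat_lit 78) (nat_lit 456) (nat_lit 0) (XT.lf (nat_lit 0) (nat_lit 3437090037) (nat_lit 456) (nat_lit 7220751119) (nat_lit 532) (nat_lit 3487967607) (nat_lit 271) (nat_lit 5) (nat_lit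 277) (nat_lit 5) (nat_lit 278) (nat_lit 5) (nat_lit 400) (nat_lit 359) (nat_lit 261)) (XT.nd (nat_lit 78) (nat_lit 456) (nat_lit 0) (XT.lf (nat_lit 0) (nat_lit 12354380849) (nat_lit 456) (nat_lit 1506961026) (nat_lit 532) (nat_lit 522792320) (nat_lit 271) (nat_lit 5) (nat_lit 277) (nat_lit 5) (nat_lit 278) (nat_lit 5) (nat_lit 401) (nat_lit 359) (nat_lit 260)) (XT.lf (nat_lit 0) (nat_lit 2573404826) (nat_lit 456) (nat_lit 7673284229) (nat_lit 76) (nat_lit 4379446487) (nat_lit 265) (nat_lit 5) (nat_lit 271) (nat_lit 5) (nat_lit 266) (nat_lit 5) (nat_lit 402) (nat_lit 359) (nat_lit 259)))))) (XT.nd (nat_lit 468) (nat_lit 1064) (nat_lit 0) (XT.nd (nat_lit 234) (nat_lit 760) (nat_lit 0) (XT.nd (nat_lit 78) (nat_lit 380) (nat_lit 0) (XT.lf (nat_lit 0) (nat_lit 1352896874) (nat_lit 380) (nat_lit 4429226678) (nat_lit 456) (nat_lit 9092213795) (nat_lit 260) (nat_lit 5) (nat_lit 265) (nat_lit 5) (nat_lit 266)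 (nat_lit 5) (nat_lit 403) (nat_lit 359) (nat_lit 258)) (XT.nd (nat_lit 78) (nat_lit 380) (nat_lit 0) (XT.lf (nat_lit 0) (nat_lit 9162134711) (nat_lit 456) (nat_lit 4361493200) (nat_lit 76) (nat_lit 1604106368) (nat_lit 260) (nat_lit 5) (nat_lit 266) (nat_lit 5) (nat_lit 261) (nat_lit 5) (nat_lit 404) (nat_lit 359) (nat_lit 257)) (XT.lf (nat_lit 0) (nat_lit 5104539349) (nat_lit 380) (nat_lit 7614216273) (nat_lit 456) (nat_lit 2667721214) (nat_lit 255) (nat_lit 5) (nat_lit 260) (nat_lit 5) (nat_lit 261) (nat_lit 5) (nat_lit 405) (nat_lit 359) (nat_lit 256)))) (XT.nd (nat_lit 78) (nat_lit 684) (nat_lit 0) (XT.lf (nat_lit 0) (nat_lit 741743012) (nat_lit 456) (nat_lit 739723539) (nat_lit 76) (nat_lit 14170498564) (nat_lit 254) (nat_lit 5) (nat_lit 260) (nat_lit 5) (nat_lit 255) (nat_lit 5) (nat_lit 406) (nat_lit 359) (nat_lit 255)) (XT.nd (nat_lit 78) (nat_lit 304) (nat_lit 0) (XT.lf (nat_lit 0) (nat_lit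 4318949316) (nat_lit 456) (nat_lit 6751667920) (nat_lit 76) (nat_lit 4850436110) (nat_lit 249) (nat_lit 5) (nat_lit 255) (nat_lit 5) (nat_lit 250) (nat_lit 5) (nat_lit 407) (nat_lit 359) (nat_lit 254)) (XT.lf (nat_lit 0) (nat_lit 3216905508) (nat_lit 304) (nat_lit 4822816867) (nat_lit 380) (nat_lit 8157404333) (nat_lit 245) (nat_lit 5) (nat_lit 249) (nat_lit 5) (nat_lit 250) (nat_lit 5) (nat_lit 408) (nat_lit 359) (nat_lit 253))))) (XT.nd (nat_lit 234) (nat_lit 304) (nat_lit 0) (XT.nd (nat_lit 78) (nat_lit 760) (nat_lit 0) (XT.lf (nat_lit 0) (nat_lit 11939781199) (nat_lit 380) (nat_lit 2896933257) (nat_lit 76) (nat_lit 1642737938) (nat_lit 245) (nat_lit 5) (nat_lit 250) (nat_lit 5) (nat_lit 246) (nat_lit 5) (nat_lit 409) (nat_lit 359) (nat_lit 252)) (XT.nd (nat_lit 78) (nat_lit 380) (nat_lit 0) (XT.lf (nat_lit 0) (nat_lit 7565172564) (nat_lit 380) (nat_lit 8495936469) (nat_lit 456) (nat_lit 706010799)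 (nat_lit 240) (nat_lit 5) (nat_lit 245) (nat_lit 5) (nat_lit 246) (nat_lit 5) (nat_lit 410) (nat_lit 359) (nat_lit 251)) (XT.lf (nat_lit 0) (nat_lit 1308414315) (nat_lit 304) (nat_lit 1896974702) (nat_lit 380) (nat_lit 13856312997) (nat_lit 235) (nat_lit 5) (nat_lit 239) (nat_lit 5) (nat_lit 240) (nat_lit 5) (nat_lit 411) (nat_lit 359) (nat_lit 250)))) (XT.nd (nat_lit 78) (nat_lit 304) (nat_lit 0) (XT.lf (nat_lit 0) (nat_lit 7344940856) (nat_lit 380) (nat_lit 5118443439) (nat_lit 76) (nat_lit 4897777657) (nat_lit 235) (nat_lit 5) (nat_lit 240) (nat_lit 5) (nat_lit 236) (nat_lit 5) (nat_lit 412) (nat_lit 359) (nat_lit 249)) (XT.nd (nat_lit 78) (nat_lit 0) (nat_lit 0) (XT.lf (nat_lit 0) (nat_lit 5908845256) (nat_lit 304) (nat_lit 5759936841) (nat_lit 380) (nat_lit 5999020504) (nat_lit 231) (nat_lit 5) (nat_lit 235) (nat_lit 5) (nat_lit 236) (nat_lit 5) (nat_lit 413) (nat_lit 359) (nat_lit 248)) (XT.lf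 (nat_lit 0) (nat_lit 16170218017) (nat_lit 380) (nat_lit 645009729) (nat_lit 76) (nat_lit 1166978341) (nat_lit 231) (nat_lit 5) (nat_lit 236) (nat_lit 5) (nat_lit 232) (nat_lit 5) (nat_lit 414) (nat_lit 359) (nat_lit 247))))))) (XT.nd (nat_lit 936) (nat_lit 836) (nat_lit 0) (XT.nd (nat_lit 468) (nat_lit 1064) (nat_lit 0) (XT.nd (nat_lit 234) (nat_lit 608) (nat_lit 0) (XT.nd (nat_lit 78) (nat_lit 304) (nat_lit 0) (XT.lf (nat_lit 0) (nat_lit 2600595567) (nat_lit 380) (nat_lit 7390989860) (nat_lit 76) (nat_lit 8309273004) (nat_lit 226) (nat_lit 5) (nat_lit 231) (nat_lit 5) (nat_lit 227) (nat_lit 5) (nat_lit 415) (nat_lit 359) (nat_lit 246)) (XT.nd (nat_lit 78) (nat_lit 0) (nat_lit 0) (XT.lf (nat_lit 0) (nat_lit 4237755210) (nat_lit 304) (nat_lit 2903894039) (nat_lit 380) (nat_lit 11485907532) (nat_lit 222) (nat_lit 5) (nat_lit 226) (nat_lit 5) (nat_lit 227) (nat_lit 5) (nat_lit 416) (nat_lit 359) (nat_lit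 245)) (XT.lf (nat_lit 0) (nat_lit 11921906847) (nat_lit 380) (nat_lit 2660760220) (nat_lit 76) (nat_lit 4378299846) (nat_lit 222) (nat_lit 5) (nat_lit 227) (nat_lit 5) (nat_lit 223) (nat_lit 5) (nat_lit 417) (nat_lit 359) (nat_lit 244)))) (XT.nd (nat_lit 78) (nat_lit 380) (nat_lit 0) (XT.lf (nat_lit 0) (nat_lit 9555718164) (nat_lit 228) (nat_lit 7396225587) (nat_lit 304) (nat_lit 2349244449) (nat_lit 219) (nat_lit 5) (nat_lit 222) (nat_lit 5) (nat_lit 223) (nat_lit 5) (nat_lit 418) (nat_lit 359) (nat_lit 243)) (XT.nd (nat_lit 78) (nat_lit 0) (nat_lit 0) (XT.lf (nat_lit 0) (nat_lit 2471008421) (nat_lit 380) (nat_lit 17104733804) (nat_lit 76) (nat_lit 74013522) (nat_lit 214) (nat_lit 5) (nat_lit 219) (nat_lit 5) (nat_lit 215) (nat_lit 5) (nat_lit 419) (nat_lit 359) (nat_lit 242)) (XT.lf (nat_lit 0) (nat_lit 7547219580) (nat_lit 380) (nat_lit 4721629168) (nat_lit 76) (nat_lit 7734476731) (nat_lit 214) (nat_lit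 5) (nat_lit 219) (nat_lit 5) (nat_lit 215) (nat_lit 5) (nat_lit 420) (nat_lit 359) (nat_lit 241))))) (XT.nd (nat_lit 234) (nat_lit 456) (nat_lit 0) (XT.nd (nat_lit 78) (nat_lit 380) (nat_lit 0) (XT.lf (nat_lit 0) (nat_lit 8170721181) (nat_lit 228) (nat_lit 4669900716) (nat_lit 304) (nat_lit 7524933260) (nat_lit 211) (nat_lit 5) (nat_lit 214) (nat_lit 5) (nat_lit 215) (nat_lit 5) (nat_lit 421) (nat_lit 359) (nat_lit 240)) (XT.nd (nat_lit 78) (nat_lit 76) (nat_lit 0) (XT.lf (nat_lit 0) (nat_lit 771850587) (nat_lit 304) (nat_lit 17593370077) (nat_lit 380) (nat_lit 2371259232) (nat_lit 207) (nat_lit 5) (nat_lit 211) (nat_lit 5) (nat_lit 212) (nat_lit 5) (nat_lit 422) (nat_lit 359) (nat_lit 239)) (XT.lf (nat_lit 0) (nat_lit 3036843649) (nat_lit 380) (nat_lit 6834864143) (nat_lit 76) (nat_lit 11241263693) (nat_lit 206) (nat_lit 5) (nat_lit 211) (nat_lit 5) (nat_lit 207) (nat_lit 5) (nat_lit 423) (nat_lit 359)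 (nat_lit 238)))) (XT.nd (nat_lit 78) (nat_lit 228) (nat_lit 0) (XT.lf (nat_lit 0) (nat_lit 6776327750) (nat_lit 228) (nat_lit 1835263190) (nat_lit 304) (nat_lit 12886900708) (nat_lit 203) (nat_lit 5) (nat_lit 206) (nat_lit 5) (nat_lit 207) (nat_lit 5) (nat_lit 424) (nat_lit 359) (nat_lit 237)) (XT.nd (nat_lit 78) (nat_lit 228) (nat_lit 0) (XT.lf (nat_lit 0) (nat_lit 14472233820) (nat_lit 304) (nat_lit 1041473779) (nat_lit 76) (nat_lit 6378310222) (nat_lit 203) (nat_lit 5) (nat_lit 207) (nat_lit 5) (nat_lit 204) (nat_lit 5) (nat_lit 425) (nat_lit 359) (nat_lit 236)) (XT.lf (nat_lit 0) (nat_lit 13269706967) (nat_lit 228) (nat_lit 7372118428) (nat_lit 304) (nat_lit 1651530503) (nat_lit 200) (nat_lit 5) (nat_lit 203) (nat_lit 5) (nat_lit 204) (nat_lit 5) (nat_lit 426) (nat_lit 359) (nat_lit 235)))))) (XT.nd (nat_lit 47970) (nat_lit 0) (nat_lit 17632) (XT.nd (nat_lit 234) (nat_lit 304) (nat_lit 0) (XT.nd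 (nat_lit 78) (nat_lit 228) (nat_lit 0) (XT.lf (nat_lit 0) (nat_lit 4266420229) (nat_lit 304) (nat_lit 17346883743) (nat_lit 76) (nat_lit 1090382312) (nat_lit 196) (nat_lit 5) (nat_lit 200) (nat_lit 5) (nat_lit 197) (nat_lit 5) (nat_lit 427) (nat_lit 359) (nat_lit 234)) (XT.nd (nat_lit 78) (nat_lit 228) (nat_lit 0) (XT.lf (nat_lit 0) (nat_lit 10481268456) (nat_lit 304) (nat_lit 2881030145) (nat_lit 76) (nat_lit 9758960835) (nat_lit 196) (nat_lit 5) (nat_lit 200) (nat_lit 5) (nat_lit 197) (nat_lit 5) (nat_lit 428) (nat_lit 359) (nat_lit 233)) (XT.lf (nat_lit 0) (nat_lit 12237365533) (nat_lit 228) (nat_lit 4750731075) (nat_lit 304) (nat_lit 6560097139) (nat_lit 193) (nat_lit 5) (nat_lit 196) (nat_lit 5) (nat_lit 197) (nat_lit 5) (nat_lit 429) (nat_lit 359) (nat_lit 232)))) (XT.nd (nat_lit 78) (nat_lit 76) (nat_lit 0) (XT.lf (nat_lit 0) (nat_lit 3897160889) (nat_lit 228) (nat_lit 19887391020) (nat_lit 304)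 (nat_lit 200551510) (nat_lit 190) (nat_lit 5) (nat_lit 193) (nat_lit 5) (nat_lit 194) (nat_lit 5) (nat_lit 430) (nat_lit 359) (nat_lit 231)) (XT.nd (nat_lit 47580) (nat_lit 0) (nat_lit 17632) (XT.lf (nat_lit 0) (nat_lit 6376281133) (nat_lit 304) (nat_lit 4767999004) (nat_lit 76) (nat_lit 13284496874) (nat_lit 189) (nat_lit 5) (nat_lit 193) (nat_lit 5) (nat_lit 190) (nat_lit 5) (nat_lit 431) (nat_lit 359) (nat_lit 230)) (XT.lf (nat_lit 0) (nat_lit 197047684) (nat_lit 0) (nat_lit 197047684) (nat_lit 988) (nat_lit 3674633823) (nat_lit 421) (nat_lit 5) (nat_lit 421) (nat_lit 3) (nat_lit 434) (nat_lit 3) (nat_lit 360) (nat_lit 360) (nat_lit 300))))) (XT.nd (nat_lit 234) (nat_lit 0) (nat_lit 76) (XT.nd (nat_lit 78) (nat_lit 0) (nat_lit 0) (XT.lf (nat_lit 0) (nat_lit 1992500522) (nat_lit 988) (nat_lit 3688007591) (nat_lit 1064) (nat_lit 2543237538) (nat_lit 421) (nat_lit 5) (nat_lit 434) (nat_lit 3) (nat_lit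 435) (nat_lit 5) (nat_lit 361) (nat_lit 360) (nat_lit 299)) (XT.nd (nat_lit 78) (nat_lit 0) (nat_lit 76) (XT.lf (nat_lit 76) (nat_lit 469906973) (nat_lit 0) (nat_lit 2726104262) (nat_lit 1064) (nat_lit 5117718153) (nat_lit 422) (nat_lit 5) (nat_lit 421) (nat_lit 5) (nat_lit 435) (nat_lit 5) (nat_lit 362) (nat_lit 360) (nat_lit 298)) (XT.lf (nat_lit 0) (nat_lit 4432219181) (nat_lit 988) (nat_lit 3606202635) (nat_lit 1064) (nat_lit 368093063) (nat_lit 422) (nat_lit 5) (nat_lit 435) (nat_lit 5) (nat_lit 436) (nat_lit 5) (nat_lit 363) (nat_lit 360) (nat_lit 297)))) (XT.nd (nat_lit 78) (nat_lit 0) (nat_lit 0) (XT.lf (nat_lit 76) (nat_lit 720713972) (nat_lit 0) (nat_lit 4975936909) (nat_lit 1064) (nat_lit 2805698930) (nat_lit 423) (nat_lit 5) (nat_lit 422) (nat_lit 5) (nat_lit 436) (nat_lit 5) (nat_lit 364) (nat_lit 360) (nat_lit 296)) (XT.nd (nat_lit 78) (nat_lit 0) (nat_lit 76) (XT.lf (nat_lit 76) (nat_lit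 5226701498) (nat_lit 0) (nat_lit 1766957068) (nat_lit 1064) (nat_lit 1607561933) (nat_lit 423) (nat_lit 5) (nat_lit 422) (nat_lit 5) (nat_lit 436) (nat_lit 5) (nat_lit 365) (nat_lit 360) (nat_lit 295)) (XT.lf (nat_lit 76) (nat_lit 1147089869) (nat_lit 0) (nat_lit 7167903984) (nat_lit 1064) (nat_lit 388500934) (nat_lit 424) (nat_lit 5) (nat_lit 423) (nat_lit 5) (nat_lit 437) (nat_lit 5) (nat_lit 366) (nat_lit 360) (nat_lit 294))))))))
noncomputable def xc86 : XT := (XT.nd (nat_lit 1794) (nat_lit 6156) (nat_lit 0) (XT.nd (nat_lit 858) (nat_lit 5092) (nat_lit 0) (XT.nd (nat_lit 390) (nat_lit 1976) (nat_lit 0) (XT.nd (nat_lit 156) (nat_lit 0) (nat_lit 76) (XT.nd (nat_lit 78) (nat_lit 0) (nat_lit 0) (XT.lf (nat_lit 0) (nat_lit 862267799) (nat_lit 1064) (nat_lit 2986324318) (nat_lit 1140) (nat_lit 4959633420) (nat_lit 409) (nat_lit 5) (nat_lit 423) (nat_lit 5) (nat_lit 424) (nat_lit 5) (nat_lit 367) (nat_lit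 360) (nat_lit 293)) (XT.lf (nat_lit 76) (nat_lit 1725574405) (nat_lit 0) (nat_lit 395073435) (nat_lit 1140) (nat_lit 6795998073) (nat_lit 410) (nat_lit 5) (nat_lit 409) (nat_lit 5) (nat_lit 424) (nat_lit 5) (nat_lit 368) (nat_lit 360) (nat_lit 292))) (XT.nd (nat_lit 78) (nat_lit 0) (nat_lit 0) (XT.lf (nat_lit 0) (nat_lit 3439951177) (nat_lit 1064) (nat_lit 2444183752) (nat_lit 1140) (nat_lit 3143488814) (nat_lit 410) (nat_lit 5) (nat_lit 424) (nat_lit 5) (nat_lit 425) (nat_lit 5) (nat_lit 369) (nat_lit 360) (nat_lit 291)) (XT.nd (nat_lit 78) (nat_lit 0) (nat_lit 76) (XT.lf (nat_lit 76) (nat_lit 2463917563) (nat_lit 0) (nat_lit 2325931509) (nat_lit 1140) (nat_lit 4352351371) (nat_lit 411) (nat_lit 5) (nat_lit 410) (nat_lit 5) (nat_lit 425) (nat_lit 5) (nat_lit 370) (nat_lit 360) (nat_lit 290)) (XT.lf (nat_lit 0) (nat_lit 6182386737) (nat_lit 1064) (nat_lit 1729512286) (nat_lit 1140) (nat_lit 1348251137)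 (nat_lit 411) (nat_lit 5) (nat_lit 425) (nat_lit 5) (nat_lit 426) (nat_lit 5) (nat_lit 371) (nat_lit 360) (nat_lit 289))))) (XT.nd (nat_lit 234) (nat_lit 1064) (nat_lit 0) (XT.nd (nat_lit 78) (nat_lit 1064) (nat_lit 0) (XT.lf (nat_lit 76) (nat_lit 3385228320) (nat_lit 0) (nat_lit 4252426139) (nat_lit 1140) (nat_lit 1743355292) (nat_lit 412) (nat_lit 5) (nat_lit 411) (nat_lit 5) (nat_lit 426) (nat_lit 5) (nat_lit 372) (nat_lit 360) (nat_lit 288)) (XT.nd (nat_lit 78) (nat_lit 1064) (nat_lit 0) (XT.lf (nat_lit 76) (nat_lit 8663592588) (nat_lit 0) (nat_lit 456601628) (nat_lit 1140) (nat_lit 385792493) (nat_lit 412) (nat_lit 5) (nat_lit 411) (nat_lit 5) (nat_lit 426) (nat_lit 5) (nat_lit 373) (nat_lit 360) (nat_lit 287)) (XT.lf (nat_lit 0) (nat_lit 1036784061) (nat_lit 1140) (nat_lit 5149065469) (nat_lit 1216) (nat_lit 3447250133) (nat_lit 397) (nat_lit 5) (nat_lit 412) (nat_lit 5) (nat_lit 413) (nat_lit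 5) (nat_lit 374) (nat_lit 360) (nat_lit 286)))) (XT.nd (nat_lit 78) (nat_lit 1064) (nat_lit 0) (XT.lf (nat_lit 76) (nat_lit 193100694) (nat_lit 0) (nat_lit 2283759907) (nat_lit 1216) (nat_lit 7287573512) (nat_lit 398) (nat_lit 5) (nat_lit 397) (nat_lit 5) (nat_lit 413) (nat_lit 5) (nat_lit 375) (nat_lit 360) (nat_lit 285)) (XT.nd (nat_lit 78) (nat_lit 1140) (nat_lit 0) (XT.lf (nat_lit 0) (nat_lit 3997693567) (nat_lit 1140) (nat_lit 4141011228) (nat_lit 76) (nat_lit 1759877176) (nat_lit 398) (nat_lit 5) (nat_lit 413) (nat_lit 5) (nat_lit 399) (nat_lit 5) (nat_lit 376) (nat_lit 360) (nat_lit 284)) (XT.lf (nat_lit 0) (nat_lit 1431574738) (nat_lit 1140) (nat_lit 4138233133) (nat_lit 1216) (nat_lit 4466776704) (nat_lit 383) (nat_lit 5) (nat_lit 398) (nat_lit 5) (nat_lit 399) (nat_lit 5) (nat_lit 377) (nat_lit 360) (nat_lit 283)))))) (XT.nd (nat_lit 468) (nat_lit 2356) (nat_lit 0) (XT.nd (nat_lit 234) (nat_lit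 1444) (nat_lit 0) (XT.nd (nat_lit 78) (nat_lit 1292) (nat_lit 0) (XT.lf (nat_lit 0) (nat_lit 7201118130) (nat_lit 1216) (nat_lit 2948150142) (nat_lit 76) (nat_lit 29098010) (nat_lit 383) (nat_lit 5) (nat_lit 399) (nat_lit 5) (nat_lit 384) (nat_lit 5) (nat_lit 378) (nat_lit 360) (nat_lit 282)) (XT.nd (nat_lit 78) (nat_lit 76) (nat_lit 0) (XT.lf (nat_lit 0) (nat_lit 2867515875) (nat_lit 1216) (nat_lit 6053236321) (nat_lit 1292) (nat_lit 1402467708) (nat_lit 367) (nat_lit 5) (nat_lit 383) (nat_lit 5) (nat_lit 384) (nat_lit 5) (nat_lit 379) (nat_lit 360) (nat_lit 281)) (XT.lf (nat_lit 0) (nat_lit 216504762) (nat_lit 1292) (nat_lit 1582047721) (nat_lit 76) (nat_lit 8673766349) (nat_lit 366) (nat_lit 5) (nat_lit 383) (nat_lit 5) (nat_lit 367) (nat_lit 5) (nat_lit 380) (nat_lit 360) (nat_lit 280)))) (XT.nd (nat_lit 78) (nat_lit 608) (nat_lit 0) (XT.lf (nat_lit 0) (nat_lit 1896710913) (nat_lit 912) (nat_lit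 6133811286) (nat_lit 76) (nat_lit 2593726373) (nat_lit 355) (nat_lit 5) (nat_lit 367) (nat_lit 5) (nat_lit 356) (nat_lit 5) (nat_lit 381) (nat_lit 360) (nat_lit 279)) (XT.nd (nat_lit 78) (nat_lit 608) (nat_lit 0) (XT.lf (nat_lit 0) (nat_lit 3633866488) (nat_lit 912) (nat_lit 46729215) (nat_lit 76) (nat_lit 7099944203) (nat_lit 355) (nat_lit 5) (nat_lit 367) (nat_lit 5) (nat_lit 356) (nat_lit 5) (nat_lit 382) (nat_lit 360) (nat_lit 278)) (XT.lf (nat_lit 0) (nat_lit 5465601202) (nat_lit 684) (nat_lit 4627762063) (nat_lit 76) (nat_lit 846882781) (nat_lit 347) (nat_lit 5) (nat_lit 356) (nat_lit 5) (nat_lit 348) (nat_lit 5) (nat_lit 383) (nat_lit 360) (nat_lit 277))))) (XT.nd (nat_lit 234) (nat_lit 1140) (nat_lit 0) (XT.nd (nat_lit 78) (nat_lit 608) (nat_lit 0) (XT.lf (nat_lit 0) (nat_lit 1730198653) (nat_lit 608) (nat_lit 5649583303) (nat_lit 684) (nat_lit 3724136594) (nat_lit 339) (nat_lit 5) (nat_lit 347)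 (nat_lit 5) (nat_lit 348) (nat_lit 5) (nat_lit 384) (nat_lit 360) (nat_lit 276)) (XT.nd (nat_lit 78) (nat_lit 608) (nat_lit 0) (XT.lf (nat_lit 0) (nat_lit 8348196107) (nat_lit 608) (nat_lit 1024380680) (nat_lit 684) (nat_lit 1899288783) (nat_lit 339) (nat_lit 5) (nat_lit 347) (nat_lit 5) (nat_lit 348) (nat_lit 5) (nat_lit 385) (nat_lit 360) (nat_lit 275)) (XT.lf (nat_lit 0) (nat_lit 28168830) (nat_lit 608) (nat_lit 7712538380) (nat_lit 76) (nat_lit 3702725070) (nat_lit 331) (nat_lit 5) (nat_lit 339) (nat_lit 5) (nat_lit 332) (nat_lit 5) (nat_lit 386) (nat_lit 360) (nat_lit 274)))) (XT.nd (nat_lit 78) (nat_lit 1140) (nat_lit 0) (XT.lf (nat_lit 0) (nat_lit 1990673602) (nat_lit 608) (nat_lit 1029277209) (nat_lit 76) (nat_lit 8599169118) (nat_lit 331) (nat_lit 5) (nat_lit 339) (nat_lit 5) (nat_lit 332) (nat_lit 5) (nat_lit 387) (nat_lit 360) (nat_lit 273)) (XT.nd (nat_lit 78) (nat_lit 532) (nat_lit 0) (XT.lf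 (nat_lit 0) (nat_lit 4063624178) (nat_lit 684) (nat_lit 5871897298) (nat_lit 76) (nat_lit 1863009610) (nat_lit 323) (nat_lit 5) (nat_lit 332) (nat_lit 5) (nat_lit 324) (nat_lit 5) (nat_lit 388) (nat_lit 360) (nat_lit 272)) (XT.lf (nat_lit 0) (nat_lit 1095181257) (nat_lit 532) (nat_lit 5131103696) (nat_lit 608) (nat_lit 5756213974) (nat_lit 316) (nat_lit 5) (nat_lit 323) (nat_lit 5) (nat_lit 324) (nat_lit 5) (nat_lit 389) (nat_lit 360) (nat_lit 271))))))) (XT.nd (nat_lit 936) (nat_lit 2736) (nat_lit 0) (XT.nd (nat_lit 468) (nat_lit 1824) (nat_lit 0) (XT.nd (nat_lit 234) (nat_lit 988) (nat_lit 0) (XT.nd (nat_lit 78) (nat_lit 608) (nat_lit 0) (XT.lf (nat_lit 0) (nat_lit 8366395472) (nat_lit 532) (nat_lit 123760737) (nat_lit 608) (nat_lit 3680739676) (nat_lit 316) (nat_lit 5) (nat_lit 323) (nat_lit 5) (nat_lit 324) (nat_lit 5) (nat_lit 390) (nat_lit 360) (nat_lit 270)) (XT.nd (nat_lit 78) (nat_lit 76) (nat_lit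 0) (XT.lf (nat_lit 0) (nat_lit 3485266354) (nat_lit 532) (nat_lit 7396251324) (nat_lit 608) (nat_lit 1481639850) (nat_lit 309) (nat_lit 5) (nat_lit 316) (nat_lit 5) (nat_lit 317) (nat_lit 5) (nat_lit 391) (nat_lit 360) (nat_lit 269)) (XT.lf (nat_lit 0) (nat_lit 786046319) (nat_lit 608) (nat_lit 1522807159) (nat_lit 76) (nat_lit 10251570590) (nat_lit 308) (nat_lit 5) (nat_lit 316) (nat_lit 5) (nat_lit 309) (nat_lit 5) (nat_lit 392) (nat_lit 360) (nat_lit 268)))) (XT.nd (nat_lit 78) (nat_lit 532) (nat_lit 0) (XT.lf (nat_lit 0) (nat_lit 3158337501) (nat_lit 532) (nat_lit 6657588511) (nat_lit 76) (nat_lit 2945251882) (nat_lit 302) (nat_lit 5) (nat_lit 309) (nat_lit 5) (nat_lit 303) (nat_lit 5) (nat_lit 393) (nat_lit 360) (nat_lit 267)) (XT.nd (nat_lit 78) (nat_lit 0) (nat_lit 0) (XT.lf (nat_lit 0) (nat_lit 993911323) (nat_lit 532) (nat_lit 4634711056) (nat_lit 608) (nat_lit 7338527208) (nat_lit 295) (nat_lit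 5) (nat_lit 302) (nat_lit 5) (nat_lit 303) (nat_lit 5) (nat_lit 394) (nat_lit 360) (nat_lit 266)) (XT.lf (nat_lit 0) (nat_lit 8226877925) (nat_lit 608) (nat_lit 4198577730) (nat_lit 76) (nat_lit 752228913) (nat_lit 295) (nat_lit 5) (nat_lit 303) (nat_lit 5) (nat_lit 296) (nat_lit 5) (nat_lit 395) (nat_lit 360) (nat_lit 265))))) (XT.nd (nat_lit 234) (nat_lit 836) (nat_lit 0) (XT.nd (nat_lit 78) (nat_lit 532) (nat_lit 0) (XT.lf (nat_lit 0) (nat_lit 3813271028) (nat_lit 456) (nat_lit 7152179482) (nat_lit 532) (nat_lit 2427214007) (nat_lit 289) (nat_lit 5) (nat_lit 295) (nat_lit 5) (nat_lit 296) (nat_lit 5) (nat_lit 396) (nat_lit 360) (nat_lit 264)) (XT.nd (nat_lit 78) (nat_lit 456) (nat_lit 0) (XT.lf (nat_lit 0) (nat_lit 191528666) (nat_lit 532) (nat_lit 1488085412) (nat_lit 76) (nat_lit 11933746150) (nat_lit 288) (nat_lit 5) (nat_lit 295) (nat_lit 5) (nat_lit 289) (nat_lit 5) (nat_lit 397) (nat_lit 360)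 (nat_lit 263)) (XT.lf (nat_lit 0) (nat_lit 2926153548) (nat_lit 532) (nat_lit 6944220764) (nat_lit 76) (nat_lit 3966998410) (nat_lit 282) (nat_lit 5) (nat_lit 289) (nat_lit 5) (nat_lit 283) (nat_lit 5) (nat_lit 398) (nat_lit 360) (nat_lit 262)))) (XT.nd (nat_lit 78) (nat_lit 456) (nat_lit 0) (XT.lf (nat_lit 0) (nat_lit 1476403640) (nat_lit 380) (nat_lit 4293269626) (nat_lit 456) (nat_lit 8297626640) (nat_lit 277) (nat_lit 5) (nat_lit 282) (nat_lit 5) (nat_lit 283) (nat_lit 5) (nat_lit 399) (nat_lit 360) (nat_lit 261)) (XT.nd (nat_lit 78) (nat_lit 456) (nat_lit 0) (XT.lf (nat_lit 0) (nat_lit 8764399548) (nat_lit 456) (nat_lit 4049247695) (nat_lit 76) (nat_lit 1488500635) (nat_lit 277) (nat_lit 5) (nat_lit 283) (nat_lit 5) (nat_lit 278) (nat_lit 5) (nat_lit 400) (nat_lit 360) (nat_lit 260)) (XT.lf (nat_lit 0) (nat_lit 4775465793) (nat_lit 456) (nat_lit 7143597973) (nat_lit 532) (nat_lit 2622874638) (nat_lit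 271) (nat_lit 5) (nat_lit 277) (nat_lit 5) (nat_lit 278) (nat_lit 5) (nat_lit 401) (nat_lit 360) (nat_lit 259)))))) (XT.nd (nat_lit 468) (nat_lit 1064) (nat_lit 0) (XT.nd (nat_lit 234) (nat_lit 836) (nat_lit 0) (XT.nd (nat_lit 78) (nat_lit 760) (nat_lit 0) (XT.lf (nat_lit 0) (nat_lit 395147083) (nat_lit 532) (nat_lit 867813455) (nat_lit 76) (nat_lit 13525159499) (nat_lit 270) (nat_lit 5) (nat_lit 277) (nat_lit 5) (nat_lit 271) (nat_lit 5) (nat_lit 402) (nat_lit 360) (nat_lit 258)) (XT.nd (nat_lit 78) (nat_lit 380) (nat_lit 0) (XT.lf (nat_lit 0) (nat_lit 3561289373) (nat_lit 456) (nat_lit 6673393263) (nat_lit 76) (nat_lit 4802916499) (nat_lit 265) (nat_lit 5) (nat_lit 271) (nat_lit 5) (nat_lit 266) (nat_lit 5) (nat_lit 403) (nat_lit 360) (nat_lit 257)) (XT.lf (nat_lit 0) (nat_lit 2611513571) (nat_lit 380) (nat_lit 4239939807) (nat_lit 456) (nat_lit 8442238105) (nat_lit 260) (nat_lit 5) (nat_lit 265) (nat_lit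 5) (nat_lit 266) (nat_lit 5) (nat_lit 404) (nat_lit 360) (nat_lit 256)))) (XT.nd (nat_lit 78) (nat_lit 836) (nat_lit 0) (XT.lf (nat_lit 0) (nat_lit 10309778320) (nat_lit 456) (nat_lit 3286698248) (nat_lit 76) (nat_lit 1958906353) (nat_lit 260) (nat_lit 5) (nat_lit 266) (nat_lit 5) (nat_lit 261) (nat_lit 5) (nat_lit 405) (nat_lit 360) (nat_lit 255)) (XT.nd (nat_lit 78) (nat_lit 456) (nat_lit 0) (XT.lf (nat_lit 0) (nat_lit 6451495280) (nat_lit 380) (nat_lit 7507657540) (nat_lit 456) (nat_lit 1863153286) (nat_lit 255) (nat_lit 5) (nat_lit 260) (nat_lit 5) (nat_lit 261) (nat_lit 5) (nat_lit 406) (nat_lit 360) (nat_lit 254)) (XT.lf (nat_lit 0) (nat_lit 422129273) (nat_lit 380) (nat_lit 1187999367) (nat_lit 456) (nat_lit 14486011427) (nat_lit 249) (nat_lit 5) (nat_lit 254) (nat_lit 5) (nat_lit 255) (nat_lit 5) (nat_lit 407) (nat_lit 360) (nat_lit 253))))) (XT.nd (nat_lit 234) (nat_lit 760) (nat_lit 0) (XT.nd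 (nat_lit 78) (nat_lit 304) (nat_lit 0) (XT.lf (nat_lit 0) (nat_lit 5280484070) (nat_lit 456) (nat_lit 5768301402) (nat_lit 76) (nat_lit 5324940486) (nat_lit 249) (nat_lit 5) (nat_lit 255) (nat_lit 5) (nat_lit 250) (nat_lit 5) (nat_lit 408) (nat_lit 360) (nat_lit 252)) (XT.nd (nat_lit 78) (nat_lit 0) (nat_lit 0) (XT.lf (nat_lit 0) (nat_lit 4487702596) (nat_lit 304) (nat_lit 4612233691) (nat_lit 380) (nat_lit 7558533555) (nat_lit 245) (nat_lit 5) (nat_lit 249) (nat_lit 5) (nat_lit 250) (nat_lit 5) (nat_lit 409) (nat_lit 360) (nat_lit 251)) (XT.lf (nat_lit 0) (nat_lit 13096457441) (nat_lit 380) (nat_lit 1823214517) (nat_lit 76) (nat_lit 2030209523) (nat_lit 245) (nat_lit 5) (nat_lit 250) (nat_lit 5) (nat_lit 246) (nat_lit 5) (nat_lit 410) (nat_lit 360) (nat_lit 250)))) (XT.nd (nat_lit 78) (nat_lit 304) (nat_lit 0) (XT.lf (nat_lit 0) (nat_lit 81057179) (nat_lit 456) (nat_lit 8305964122) (nat_lit 76) (nat_lit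 8859500087) (nat_lit 239) (nat_lit 5) (nat_lit 245) (nat_lit 5) (nat_lit 240) (nat_lit 5) (nat_lit 411) (nat_lit 360) (nat_lit 249)) (XT.nd (nat_lit 78) (nat_lit 0) (nat_lit 0) (XT.lf (nat_lit 0) (nat_lit 2501296031) (nat_lit 304) (nat_lit 1582274324) (nat_lit 380) (nat_lit 13466522130) (nat_lit 235) (nat_lit 5) (nat_lit 239) (nat_lit 5) (nat_lit 240) (nat_lit 5) (nat_lit 412) (nat_lit 360) (nat_lit 248)) (XT.lf (nat_lit 0) (nat_lit 8327999573) (nat_lit 380) (nat_lit 4132659132) (nat_lit 76) (nat_lit 5398456790) (nat_lit 235) (nat_lit 5) (nat_lit 240) (nat_lit 5) (nat_lit 236) (nat_lit 5) (nat_lit 413) (nat_lit 360) (nat_lit 247))))))))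
noncomputable def xc87 : XT := (XT.nd (nat_lit 49452) (nat_lit 0) (nat_lit 9652) (XT.nd (nat_lit 936) (nat_lit 1064) (nat_lit 0) (XT.nd (nat_lit 468) (nat_lit 1216) (nat_lit 0) (XT.nd (nat_lit 234) (nat_lit 532) (nat_lit 0) (XT.nd (nat_lit 78) (nat_lit 380) (nat_lit 0) (XT.lf (nat_lit 0) (nat_lit 7214278247) (nat_lit 304) (nat_lit 5555907573) (nat_lit 380) (nat_lit 5405110651) (nat_lit 231) (nat_lit 5) (nat_lit 235) (nat_lit 5) (nat_lit 236) (nat_lit 5) (nat_lit 414) (nat_lit 360) (nat_lit 246)) (XT.nd (nat_lit 78) (nat_lit 76) (nat_lit 0) (XT.lf (nat_lit 0) (nat_lit 458257520) (nat_lit 304) (nat_lit 16934445444) (nat_lit 380) (nat_lit 1106847953) (nat_lit 227) (nat_lit 5) (nat_lit 231) (nat_lit 5) (nat_lit 232) (nat_lit 5) (nat_lit 415) (nat_lit 360) (nat_lit 245)) (XT.lf (nat_lit 0) (nat_lit 3407989167) (nat_lit 380) (nat_lit 6495446647) (nat_lit 76) (nat_lit 8924567099) (nat_lit 226) (nat_lit 5) (nat_lit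 231) (nat_lit 5) (nat_lit 227) (nat_lit 5) (nat_lit 416) (nat_lit 360) (nat_lit 244)))) (XT.nd (nat_lit 78) (nat_lit 228) (nat_lit 0) (XT.lf (nat_lit 0) (nat_lit 5471207119) (nat_lit 304) (nat_lit 2603458005) (nat_lit 380) (nat_lit 11090155369) (nat_lit 222) (nat_lit 5) (nat_lit 226) (nat_lit 5) (nat_lit 227) (nat_lit 5) (nat_lit 417) (nat_lit 360) (nat_lit 243)) (XT.nd (nat_lit 78) (nat_lit 228) (nat_lit 0) (XT.lf (nat_lit 0) (nat_lit 12981012394) (nat_lit 380) (nat_lit 1649168609) (nat_lit 76) (nat_lit 4878571466) (nat_lit 222) (nat_lit 5) (nat_lit 227) (nat_lit 5) (nat_lit 223) (nat_lit 5) (nat_lit 418) (nat_lit 360) (nat_lit 242)) (XT.lf (nat_lit 0) (nat_lit 10923103985) (nat_lit 228) (nat_lit 7228804373) (nat_lit 304) (nat_lit 1707573299) (nat_lit 219) (nat_lit 5) (nat_lit 222) (nat_lit 5) (nat_lit 223) (nat_lit 5) (nat_lit 419) (nat_lit 360) (nat_lit 241))))) (XT.nd (nat_lit 234) (nat_lit 608)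 (nat_lit 0) (XT.nd (nat_lit 78) (nat_lit 228) (nat_lit 0) (XT.lf (nat_lit 0) (nat_lit 3237274282) (nat_lit 380) (nat_lit 16517148668) (nat_lit 76) (nat_lit 464061400) (nat_lit 214) (nat_lit 5) (nat_lit 219) (nat_lit 5) (nat_lit 215) (nat_lit 5) (nat_lit 420) (nat_lit 360) (nat_lit 240)) (XT.nd (nat_lit 78) (nat_lit 228) (nat_lit 0) (XT.lf (nat_lit 0) (nat_lit 8445612487) (nat_lit 380) (nat_lit 3794610907) (nat_lit 76) (nat_lit 8343042560) (nat_lit 214) (nat_lit 5) (nat_lit 219) (nat_lit 5) (nat_lit 215) (nat_lit 5) (nat_lit 421) (nat_lit 360) (nat_lit 239)) (XT.lf (nat_lit 0) (nat_lit 9474032824) (nat_lit 228) (nat_lit 4414383894) (nat_lit 304) (nat_lit 7068227810) (nat_lit 211) (nat_lit 5) (nat_lit 214) (nat_lit 5) (nat_lit 215) (nat_lit 5) (nat_lit 422) (nat_lit 360) (nat_lit 238)))) (XT.nd (nat_lit 78) (nat_lit 304) (nat_lit 0) (XT.lf (nat_lit 0) (nat_lit 1858738510) (nat_lit 304) (nat_lit 17714633967)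 (nat_lit 380) (nat_lit 1765485960) (nat_lit 207) (nat_lit 5) (nat_lit 211) (nat_lit 5) (nat_lit 212) (nat_lit 5) (nat_lit 423) (nat_lit 360) (nat_lit 237)) (XT.nd (nat_lit 78) (nat_lit 228) (nat_lit 0) (XT.lf (nat_lit 0) (nat_lit 3772319907) (nat_lit 380) (nat_lit 5994335913) (nat_lit 76) (nat_lit 11960373681) (nat_lit 206) (nat_lit 5) (nat_lit 211) (nat_lit 5) (nat_lit 207) (nat_lit 5) (nat_lit 424) (nat_lit 360) (nat_lit 236)) (XT.lf (nat_lit 0) (nat_lit 8014941010) (nat_lit 228) (nat_lit 1490552683) (nat_lit 304) (nat_lit 12618886054) (nat_lit 203) (nat_lit 5) (nat_lit 206) (nat_lit 5) (nat_lit 207) (nat_lit 5) (nat_lit 425) (nat_lit 360) (nat_lit 235)))))) (XT.nd (nat_lit 48048) (nat_lit 0) (nat_lit 16644) (XT.nd (nat_lit 234) (nat_lit 532) (nat_lit 0) (XT.nd (nat_lit 78) (nat_lit 532) (nat_lit 0) (XT.lf (nat_lit 0) (nat_lit 15527175440) (nat_lit 304) (nat_lit 52769197) (nat_lit 76) (nat_lit 6950210481)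 (nat_lit 203) (nat_lit 5) (nat_lit 207) (nat_lit 5) (nat_lit 204) (nat_lit 5) (nat_lit 426) (nat_lit 360) (nat_lit 234)) (XT.nd (nat_lit 78) (nat_lit 304) (nat_lit 0) (XT.lf (nat_lit 0) (nat_lit 14677747473) (nat_lit 228) (nat_lit 7195734725) (nat_lit 304) (nat_lit 1070302315) (nat_lit 200) (nat_lit 5) (nat_lit 203) (nat_lit 5) (nat_lit 204) (nat_lit 5) (nat_lit 427) (nat_lit 360) (nat_lit 233)) (XT.lf (nat_lit 0) (nat_lit 5008459725) (nat_lit 304) (nat_lit 16840613744) (nat_lit 76) (nat_lit 1517301998) (nat_lit 196) (nat_lit 5) (nat_lit 200) (nat_lit 5) (nat_lit 197) (nat_lit 5) (nat_lit 428) (nat_lit 360) (nat_lit 232)))) (XT.nd (nat_lit 78) (nat_lit 532) (nat_lit 0) (XT.lf (nat_lit 0) (nat_lit 11391868538) (nat_lit 304) (nat_lit 1970687737) (nat_lit 76) (nat_lit 10434456084) (nat_lit 196) (nat_lit 5) (nat_lit 200) (nat_lit 5) (nat_lit 197) (nat_lit 5) (nat_lit 429) (nat_lit 360) (nat_lit 231)) (XT.nd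 (nat_lit 78) (nat_lit 304) (nat_lit 0) (XT.lf (nat_lit 0) (nat_lit 13591487524) (nat_lit 228) (nat_lit 4494537725) (nat_lit 304) (nat_lit 6150965738) (nat_lit 193) (nat_lit 5) (nat_lit 196) (nat_lit 5) (nat_lit 197) (nat_lit 5) (nat_lit 430) (nat_lit 360) (nat_lit 230)) (XT.lf (nat_lit 0) (nat_lit 387647369) (nat_lit 304) (nat_lit 19685844347) (nat_lit 76) (nat_lit 4613518839) (nat_lit 189) (nat_lit 5) (nat_lit 193) (nat_lit 5) (nat_lit 190) (nat_lit 5) (nat_lit 431) (nat_lit 360) (nat_lit 229))))) (XT.nd (nat_lit 234) (nat_lit 988) (nat_lit 0) (XT.nd (nat_lit 78) (nat_lit 0) (nat_lit 0) (XT.lf (nat_lit 0) (nat_lit 781124108) (nat_lit 0) (nat_lit 781124108) (nat_lit 988) (nat_lit 2593852952) (nat_lit 421) (nat_lit 5) (nat_lit 421) (nat_lit 3) (nat_lit 434) (nat_lit 3) (nat_lit 361) (nat_lit 361) (nat_lit 298)) (XT.nd (nat_lit 78) (nat_lit 0) (nat_lit 0) (XT.lf (nat_lit 0) (nat_lit 4286784878) (nat_lit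 988) (nat_lit 2597846716) (nat_lit 1064) (nat_lit 1518791146) (nat_lit 421) (nat_lit 5) (nat_lit 434) (nat_lit 3) (nat_lit 435) (nat_lit 5) (nat_lit 362) (nat_lit 361) (nat_lit 297)) (XT.lf (nat_lit 76) (nat_lit 1673032726) (nat_lit 0) (nat_lit 3799715061) (nat_lit 1064) (nat_lit 3024967797) (nat_lit 422) (nat_lit 5) (nat_lit 421) (nat_lit 5) (nat_lit 435) (nat_lit 5) (nat_lit 363) (nat_lit 361) (nat_lit 296)))) (XT.nd (nat_lit 78) (nat_lit 988) (nat_lit 0) (XT.lf (nat_lit 76) (nat_lit 6102546786) (nat_lit 0) (nat_lit 576258083) (nat_lit 1064) (nat_lit 1916496884) (nat_lit 422) (nat_lit 5) (nat_lit 421) (nat_lit 5) (nat_lit 435) (nat_lit 5) (nat_lit 364) (nat_lit 361) (nat_lit 295)) (XT.nd (nat_lit 78) (nat_lit 1064) (nat_lit 0) (XT.lf (nat_lit 76) (nat_lit 1957477374) (nat_lit 0) (nat_lit 5968433107) (nat_lit 1064) (nat_lit 769759022) (nat_lit 423) (nat_lit 5) (nat_lit 422) (nat_lit 5) (nat_lit 436)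 (nat_lit 5) (nat_lit 365) (nat_lit 361) (nat_lit 294)) (XT.lf (nat_lit 0) (nat_lit 394715666) (nat_lit 1064) (nat_lit 2239922600) (nat_lit 1140) (nat_lit 6164550520) (nat_lit 408) (nat_lit 5) (nat_lit 422) (nat_lit 5) (nat_lit 423) (nat_lit 5) (nat_lit 366) (nat_lit 361) (nat_lit 293))))))) (XT.nd (nat_lit 936) (nat_lit 5092) (nat_lit 0) (XT.nd (nat_lit 468) (nat_lit 1976) (nat_lit 0) (XT.nd (nat_lit 234) (nat_lit 0) (nat_lit 76) (XT.nd (nat_lit 78) (nat_lit 0) (nat_lit 0) (XT.lf (nat_lit 0) (nat_lit 1571340758) (nat_lit 1064) (nat_lit 6504829188) (nat_lit 1140) (nat_lit 829634433) (nat_lit 409) (nat_lit 5) (nat_lit 423) (nat_lit 5) (nat_lit 424) (nat_lit 5) (nat_lit 367) (nat_lit 361) (nat_lit 292)) (XT.nd (nat_lit 78) (nat_lit 0) (nat_lit 0) (XT.lf (nat_lit 0) (nat_lit 2794629267) (nat_lit 1064) (nat_lit 1838611781) (nat_lit 1140) (nat_lit 4382036452) (nat_lit 409) (nat_lit 5) (nat_lit 423) (nat_lit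 5) (nat_lit 424) (nat_lit 5) (nat_lit 368) (nat_lit 361) (nat_lit 291)) (XT.lf (nat_lit 76) (nat_lit 3002513489) (nat_lit 0) (nat_lit 1044495387) (nat_lit 1140) (nat_lit 5081254166) (nat_lit 410) (nat_lit 5) (nat_lit 409) (nat_lit 5) (nat_lit 424) (nat_lit 5) (nat_lit 369) (nat_lit 361) (nat_lit 290)))) (XT.nd (nat_lit 78) (nat_lit 0) (nat_lit 0) (XT.lf (nat_lit 0) (nat_lit 5345686499) (nat_lit 1064) (nat_lit 1267817215) (nat_lit 1140) (nat_lit 2630872637) (nat_lit 410) (nat_lit 5) (nat_lit 424) (nat_lit 5) (nat_lit 425) (nat_lit 5) (nat_lit 370) (nat_lit 361) (nat_lit 289)) (XT.nd (nat_lit 78) (nat_lit 0) (nat_lit 76) (XT.lf (nat_lit 76) (nat_lit 3775275256) (nat_lit 0) (nat_lit 2920200035) (nat_lit 1140) (nat_lit 2668133243) (nat_lit 411) (nat_lit 5) (nat_lit 410) (nat_lit 5) (nat_lit 425) (nat_lit 5) (nat_lit 371) (nat_lit 361) (nat_lit 288)) (XT.lf (nat_lit 0) (nat_lit 8073575837) (nat_lit 1064)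 (nat_lit 523786186) (nat_lit 1140) (nat_lit 889421118) (nat_lit 411) (nat_lit 5) (nat_lit 425) (nat_lit 5) (nat_lit 426) (nat_lit 5) (nat_lit 372) (nat_lit 361) (nat_lit 287))))) (XT.nd (nat_lit 234) (nat_lit 988) (nat_lit 0) (XT.nd (nat_lit 78) (nat_lit 1140) (nat_lit 0) (XT.lf (nat_lit 76) (nat_lit 4732067114) (nat_lit 0) (nat_lit 4802723796) (nat_lit 1140) (nat_lit 77608929) (nat_lit 412) (nat_lit 5) (nat_lit 411) (nat_lit 5) (nat_lit 426) (nat_lit 5) (nat_lit 373) (nat_lit 361) (nat_lit 286)) (XT.nd (nat_lit 78) (nat_lit 0) (nat_lit 76) (XT.lf (nat_lit 76) (nat_lit 385231452) (nat_lit 0) (nat_lit 864317403) (nat_lit 1216) (nat_lit 8492557215) (nat_lit 397) (nat_lit 5) (nat_lit 396) (nat_lit 5) (nat_lit 412) (nat_lit 5) (nat_lit 374) (nat_lit 361) (nat_lit 285)) (XT.lf (nat_lit 0) (nat_lit 2663969418) (nat_lit 1140) (nat_lit 4022600853) (nat_lit 1216) (nat_lit 3187639927) (nat_lit 397) (nat_lit 5)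 (nat_lit 412) (nat_lit 5) (nat_lit 413) (nat_lit 5) (nat_lit 375) (nat_lit 361) (nat_lit 284)))) (XT.nd (nat_lit 78) (nat_lit 1064) (nat_lit 0) (XT.lf (nat_lit 76) (nat_lit 1467272092) (nat_lit 0) (nat_lit 2645680769) (nat_lit 1216) (nat_lit 5897560681) (nat_lit 398) (nat_lit 5) (nat_lit 397) (nat_lit 5) (nat_lit 413) (nat_lit 5) (nat_lit 376) (nat_lit 361) (nat_lit 283)) (XT.nd (nat_lit 78) (nat_lit 1140) (nat_lit 0) (XT.lf (nat_lit 0) (nat_lit 5631183622) (nat_lit 1140) (nat_lit 2985579052) (nat_lit 76) (nat_lit 1533369980) (nat_lit 398) (nat_lit 5) (nat_lit 413) (nat_lit 5) (nat_lit 399) (nat_lit 5) (nat_lit 377) (nat_lit 361) (nat_lit 282)) (XT.lf (nat_lit 0) (nat_lit 2741638783) (nat_lit 1140) (nat_lit 4476918624) (nat_lit 1216) (nat_lit 3074675047) (nat_lit 383) (nat_lit 5) (nat_lit 398) (nat_lit 5) (nat_lit 399) (nat_lit 5) (nat_lit 378) (nat_lit 361) (nat_lit 281)))))) (XT.nd (nat_lit 468) (nat_lit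 2356) (nat_lit 0) (XT.nd (nat_lit 234) (nat_lit 1444) (nat_lit 0) (XT.nd (nat_lit 78) (nat_lit 1292) (nat_lit 0) (XT.lf (nat_lit 0) (nat_lit 8677635760) (nat_lit 1140) (nat_lit 177722371) (nat_lit 1216) (nat_lit 1585212946) (nat_lit 383) (nat_lit 5) (nat_lit 398) (nat_lit 5) (nat_lit 399) (nat_lit 5) (nat_lit 379) (nat_lit 361) (nat_lit 280)) (XT.nd (nat_lit 78) (nat_lit 0) (nat_lit 0) (XT.lf (nat_lit 0) (nat_lit 4372917) (nat_lit 1292) (nat_lit 6374349989) (nat_lit 76) (nat_lit 4211988377) (nat_lit 366) (nat_lit 5) (nat_lit 383) (nat_lit 5) (nat_lit 367) (nat_lit 5) (nat_lit 380) (nat_lit 361) (nat_lit 279)) (XT.lf (nat_lit 0) (nat_lit 1602345968) (nat_lit 1292) (nat_lit 375975810) (nat_lit 76) (nat_lit 8766786237) (nat_lit 366) (nat_lit 5) (nat_lit 383) (nat_lit 5) (nat_lit 367) (nat_lit 5) (nat_lit 381) (nat_lit 361) (nat_lit 278)))) (XT.nd (nat_lit 78) (nat_lit 608) (nat_lit 0) (XT.lf (nat_lit 0)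 (nat_lit 3303658741) (nat_lit 912) (nat_lit 5034992720) (nat_lit 76) (nat_lit 2563823174) (nat_lit 355) (nat_lit 5) (nat_lit 367) (nat_lit 5) (nat_lit 356) (nat_lit 5) (nat_lit 382) (nat_lit 361) (nat_lit 277)) (XT.nd (nat_lit 78) (nat_lit 0) (nat_lit 0) (XT.lf (nat_lit 0) (nat_lit 1221167117) (nat_lit 608) (nat_lit 3844178729) (nat_lit 684) (nat_lit 5998936357) (nat_lit 347) (nat_lit 5) (nat_lit 355) (nat_lit 5) (nat_lit 356) (nat_lit 5) (nat_lit 383) (nat_lit 361) (nat_lit 276)) (XT.lf (nat_lit 0) (nat_lit 6913480745) (nat_lit 684) (nat_lit 3494312835) (nat_lit 76) (nat_lit 822142503) (nat_lit 347) (nat_lit 5) (nat_lit 356) (nat_lit 5) (nat_lit 348) (nat_lit 5) (nat_lit 384) (nat_lit 361) (nat_lit 275))))) (XT.nd (nat_lit 234) (nat_lit 1140) (nat_lit 0) (XT.nd (nat_lit 78) (nat_lit 608) (nat_lit 0) (XT.lf (nat_lit 0) (nat_lit 3041913350) (nat_lit 608) (nat_lit 5817888145) (nat_lit 684) (nat_lit 2539475831)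 (nat_lit 339) (nat_lit 5) (nat_lit 347) (nat_lit 5) (nat_lit 348) (nat_lit 5) (nat_lit 385) (nat_lit 361) (nat_lit 274)) (XT.nd (nat_lit 78) (nat_lit 608) (nat_lit 0) (XT.lf (nat_lit 0) (nat_lit 9821757269) (nat_lit 608) (nat_lit 1053963889) (nat_lit 684) (nat_lit 697641368) (nat_lit 339) (nat_lit 5) (nat_lit 347) (nat_lit 5) (nat_lit 348) (nat_lit 5) (nat_lit 386) (nat_lit 361) (nat_lit 273)) (XT.lf (nat_lit 0) (nat_lit 1239256420) (nat_lit 608) (nat_lit 6672415699) (nat_lit 76) (nat_lit 3838755854) (nat_lit 331) (nat_lit 5) (nat_lit 339) (nat_lit 5) (nat_lit 332) (nat_lit 5) (nat_lit 387) (nat_lit 361) (nat_lit 272)))) (XT.nd (nat_lit 78) (nat_lit 532) (nat_lit 0) (XT.lf (nat_lit 0) (nat_lit 177778457) (nat_lit 608) (nat_lit 3049317010) (nat_lit 684) (nat_lit 8705297009) (nat_lit 323) (nat_lit 5) (nat_lit 331) (nat_lit 5) (nat_lit 332) (nat_lit 5) (nat_lit 388) (nat_lit 361) (nat_lit 271)) (XT.nd (nat_lit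 78) (nat_lit 532) (nat_lit 0) (XT.lf (nat_lit 0) (nat_lit 5338724020) (nat_lit 684) (nat_lit 4791787705) (nat_lit 76) (nat_lit 1987379560) (nat_lit 323) (nat_lit 5) (nat_lit 332) (nat_lit 5) (nat_lit 324) (nat_lit 5) (nat_lit 389) (nat_lit 361) (nat_lit 270)) (XT.lf (nat_lit 0) (nat_lit 2371986868) (nat_lit 532) (nat_lit 5172647269) (nat_lit 608) (nat_lit 4763392939) (nat_lit 316) (nat_lit 5) (nat_lit 323) (nat_lit 5) (nat_lit 324) (nat_lit 5) (nat_lit 390) (nat_lit 361) (nat_lit 269))))))))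
noncomputable def xc88 : XT := (XT.nd (nat_lit 1794) (nat_lit 3496) (nat_lit 0) (XT.nd (nat_lit 858) (nat_lit 3192) (nat_lit 0) (XT.nd (nat_lit 390) (nat_lit 1368) (nat_lit 0) (XT.nd (nat_lit 156) (nat_lit 1064) (nat_lit 0) (XT.nd (nat_lit 78) (nat_lit 532) (nat_lit 0) (XT.lf (nat_lit 0) (nat_lit 9825105951) (nat_lit 532) (nat_lit 18357503) (nat_lit 608) (nat_lit 2659601231) (nat_lit 316) (nat_lit 5) (nat_lit 323) (nat_lit 5) (nat_lit 324) (nat_lit 5) (nat_lit 391) (nat_lit 361) (nat_lit 268)) (XT.lf (nat_lit 0) (nat_lit 4817298933) (nat_lit 532) (nat_lit 7470086279) (nat_lit 608) (nat_lit 414284383) (nat_lit 309) (nat_lit 5) (nat_lit 316) (nat_lit 5) (nat_lit 317) (nat_lit 5) (nat_lit 392) (nat_lit 361) (nat_lit 267))) (XT.nd (nat_lit 78) (nat_lit 988) (nat_lit 0) (XT.lf (nat_lit 0) (nat_lit 1867986300) (nat_lit 608) (nat_lit 355705062) (nat_lit 76) (nat_lit 10681794670) (nat_lit 308) (nat_lit 5) (nat_lit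 316) (nat_lit 5) (nat_lit 309) (nat_lit 5) (nat_lit 393) (nat_lit 361) (nat_lit 266)) (XT.nd (nat_lit 78) (nat_lit 532) (nat_lit 0) (XT.lf (nat_lit 0) (nat_lit 4293719501) (nat_lit 532) (nat_lit 5626803138) (nat_lit 76) (nat_lit 3192271637) (nat_lit 302) (nat_lit 5) (nat_lit 309) (nat_lit 5) (nat_lit 303) (nat_lit 5) (nat_lit 394) (nat_lit 361) (nat_lit 265)) (XT.lf (nat_lit 0) (nat_lit 2242177839) (nat_lit 532) (nat_lit 4577337899) (nat_lit 608) (nat_lit 6505987297) (nat_lit 295) (nat_lit 5) (nat_lit 302) (nat_lit 5) (nat_lit 303) (nat_lit 5) (nat_lit 395) (nat_lit 361) (nat_lit 264))))) (XT.nd (nat_lit 234) (nat_lit 836) (nat_lit 0) (XT.nd (nat_lit 78) (nat_lit 532) (nat_lit 0) (XT.lf (nat_lit 0) (nat_lit 9467784014) (nat_lit 608) (nat_lit 3113639760) (nat_lit 76) (nat_lit 961768338) (nat_lit 295) (nat_lit 5) (nat_lit 303) (nat_lit 5) (nat_lit 296) (nat_lit 5) (nat_lit 396) (nat_lit 361) (nat_lit 263))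 (XT.nd (nat_lit 78) (nat_lit 76) (nat_lit 0) (XT.lf (nat_lit 0) (nat_lit 5126692937) (nat_lit 456) (nat_lit 7144392227) (nat_lit 532) (nat_lit 1494059154) (nat_lit 289) (nat_lit 5) (nat_lit 295) (nat_lit 5) (nat_lit 296) (nat_lit 5) (nat_lit 397) (nat_lit 361) (nat_lit 262)) (XT.lf (nat_lit 0) (nat_lit 1154887293) (nat_lit 532) (nat_lit 349568847) (nat_lit 76) (nat_lit 12488576512) (nat_lit 288) (nat_lit 5) (nat_lit 295) (nat_lit 5) (nat_lit 289) (nat_lit 5) (nat_lit 398) (nat_lit 361) (nat_lit 261)))) (XT.nd (nat_lit 78) (nat_lit 380) (nat_lit 0) (XT.lf (nat_lit 0) (nat_lit 3957137478) (nat_lit 532) (nat_lit 5954974816) (nat_lit 76) (nat_lit 4312085629) (nat_lit 282) (nat_lit 5) (nat_lit 289) (nat_lit 5) (nat_lit 283) (nat_lit 5) (nat_lit 399) (nat_lit 361) (nat_lit 260)) (XT.nd (nat_lit 78) (nat_lit 0) (nat_lit 0) (XT.lf (nat_lit 0) (nat_lit 2706527412) (nat_lit 380) (nat_lit 4163362490) (nat_lit 456)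 (nat_lit 7591615208) (nat_lit 277) (nat_lit 5) (nat_lit 282) (nat_lit 5) (nat_lit 283) (nat_lit 5) (nat_lit 400) (nat_lit 361) (nat_lit 259)) (XT.lf (nat_lit 0) (nat_lit 9929868691) (nat_lit 456) (nat_lit 2994842967) (nat_lit 76) (nat_lit 1779424541) (nat_lit 277) (nat_lit 5) (nat_lit 283) (nat_lit 5) (nat_lit 278) (nat_lit 5) (nat_lit 401) (nat_lit 361) (nat_lit 258)))))) (XT.nd (nat_lit 468) (nat_lit 1520) (nat_lit 0) (XT.nd (nat_lit 234) (nat_lit 760) (nat_lit 0) (XT.nd (nat_lit 78) (nat_lit 456) (nat_lit 0) (XT.lf (nat_lit 0) (nat_lit 6083083670) (nat_lit 456) (nat_lit 7080994158) (nat_lit 532) (nat_lit 1787495464) (nat_lit 271) (nat_lit 5) (nat_lit 277) (nat_lit 5) (nat_lit 278) (nat_lit 5) (nat_lit 402) (nat_lit 361) (nat_lit 257)) (XT.nd (nat_lit 78) (nat_lit 0) (nat_lit 0) (XT.lf (nat_lit 0) (nat_lit 258963322) (nat_lit 380) (nat_lit 1020652443) (nat_lit 456) (nat_lit 13925969446) (nat_lit 265)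 (nat_lit 5) (nat_lit 270) (nat_lit 5) (nat_lit 271) (nat_lit 5) (nat_lit 403) (nat_lit 361) (nat_lit 256)) (XT.lf (nat_lit 0) (nat_lit 4526533562) (nat_lit 456) (nat_lit 5714117738) (nat_lit 76) (nat_lit 5222323645) (nat_lit 265) (nat_lit 5) (nat_lit 271) (nat_lit 5) (nat_lit 266) (nat_lit 5) (nat_lit 404) (nat_lit 361) (nat_lit 255)))) (XT.nd (nat_lit 78) (nat_lit 380) (nat_lit 0) (XT.lf (nat_lit 0) (nat_lit 3837968877) (nat_lit 380) (nat_lit 4063467843) (nat_lit 456) (nat_lit 7825732316) (nat_lit 260) (nat_lit 5) (nat_lit 265) (nat_lit 5) (nat_lit 266) (nat_lit 5) (nat_lit 405) (nat_lit 361) (nat_lit 254)) (XT.nd (nat_lit 78) (nat_lit 380) (nat_lit 0) (XT.lf (nat_lit 0) (nat_lit 11441750119) (nat_lit 456) (nat_lit 2248868101) (nat_lit 76) (nat_lit 2306745835) (nat_lit 260) (nat_lit 5) (nat_lit 266) (nat_lit 5) (nat_lit 261) (nat_lit 5) (nat_lit 406) (nat_lit 361) (nat_lit 253)) (XT.lf (nat_lit 0) (nat_lit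 7770329752) (nat_lit 380) (nat_lit 7417131567) (nat_lit 456) (nat_lit 1085227953) (nat_lit 255) (nat_lit 5) (nat_lit 260) (nat_lit 5) (nat_lit 261) (nat_lit 5) (nat_lit 407) (nat_lit 361) (nat_lit 252))))) (XT.nd (nat_lit 234) (nat_lit 760) (nat_lit 0) (XT.nd (nat_lit 78) (nat_lit 304) (nat_lit 0) (XT.lf (nat_lit 0) (nat_lit 1565161826) (nat_lit 380) (nat_lit 897873460) (nat_lit 456) (nat_lit 14091850900) (nat_lit 249) (nat_lit 5) (nat_lit 254) (nat_lit 5) (nat_lit 255) (nat_lit 5) (nat_lit 408) (nat_lit 361) (nat_lit 251)) (XT.nd (nat_lit 78) (nat_lit 304) (nat_lit 0) (XT.lf (nat_lit 0) (nat_lit 6223106599) (nat_lit 456) (nat_lit 4823510350) (nat_lit 76) (nat_lit 5794794547) (nat_lit 249) (nat_lit 5) (nat_lit 255) (nat_lit 5) (nat_lit 250) (nat_lit 5) (nat_lit 409) (nat_lit 361) (nat_lit 250)) (XT.lf (nat_lit 0) (nat_lit 5729214552) (nat_lit 304) (nat_lit 4415726838) (nat_lit 380) (nat_lit 6990122338)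 (nat_lit 245) (nat_lit 5) (nat_lit 249) (nat_lit 5) (nat_lit 250) (nat_lit 5) (nat_lit 410) (nat_lit 361) (nat_lit 249)))) (XT.nd (nat_lit 78) (nat_lit 760) (nat_lit 0) (XT.lf (nat_lit 0) (nat_lit 14241997792) (nat_lit 380) (nat_lit 783908938) (nat_lit 76) (nat_lit 2409891798) (nat_lit 245) (nat_lit 5) (nat_lit 250) (nat_lit 5) (nat_lit 246) (nat_lit 5) (nat_lit 411) (nat_lit 361) (nat_lit 248)) (XT.nd (nat_lit 78) (nat_lit 304) (nat_lit 0) (XT.lf (nat_lit 0) (nat_lit 831964892) (nat_lit 456) (nat_lit 7456970400) (nat_lit 76) (nat_lit 9452527458) (nat_lit 239) (nat_lit 5) (nat_lit 245) (nat_lit 5) (nat_lit 240) (nat_lit 5) (nat_lit 412) (nat_lit 361) (nat_lit 247)) (XT.lf (nat_lit 0) (nat_lit 3663741158) (nat_lit 304) (nat_lit 1279464847) (nat_lit 380) (nat_lit 13111275398) (nat_lit 235) (nat_lit 5) (nat_lit 239) (nat_lit 5) (nat_lit 240) (nat_lit 5) (nat_lit 413) (nat_lit 361) (nat_lit 246))))))) (XT.nd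 (nat_lit 936) (nat_lit 1292) (nat_lit 0) (XT.nd (nat_lit 468) (nat_lit 1216) (nat_lit 0) (XT.nd (nat_lit 234) (nat_lit 380) (nat_lit 0) (XT.nd (nat_lit 78) (nat_lit 608) (nat_lit 0) (XT.lf (nat_lit 0) (nat_lit 9296767350) (nat_lit 380) (nat_lit 3182703937) (nat_lit 76) (nat_lit 5893849840) (nat_lit 235) (nat_lit 5) (nat_lit 240) (nat_lit 5) (nat_lit 236) (nat_lit 5) (nat_lit 414) (nat_lit 361) (nat_lit 245)) (XT.nd (nat_lit 78) (nat_lit 304) (nat_lit 0) (XT.lf (nat_lit 0) (nat_lit 8494112790) (nat_lit 304) (nat_lit 5367388861) (nat_lit 380) (nat_lit 4837807407) (nat_lit 231) (nat_lit 5) (nat_lit 235) (nat_lit 5) (nat_lit 236) (nat_lit 5) (nat_lit 415) (nat_lit 361) (nat_lit 244)) (XT.lf (nat_lit 0) (nat_lit 1542643014) (nat_lit 304) (nat_lit 17073030349) (nat_lit 380) (nat_lit 417828402) (nat_lit 227) (nat_lit 5) (nat_lit 231) (nat_lit 5) (nat_lit 232) (nat_lit 5) (nat_lit 416) (nat_lit 361) (nat_lit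 243)))) (XT.nd (nat_lit 78) (nat_lit 304) (nat_lit 0) (XT.lf (nat_lit 0) (nat_lit 4197735424) (nat_lit 380) (nat_lit 5637173173) (nat_lit 76) (nat_lit 9537309206) (nat_lit 226) (nat_lit 5) (nat_lit 231) (nat_lit 5) (nat_lit 227) (nat_lit 5) (nat_lit 417) (nat_lit 361) (nat_lit 242)) (XT.nd (nat_lit 78) (nat_lit 0) (nat_lit 0) (XT.lf (nat_lit 0) (nat_lit 6678155335) (nat_lit 304) (nat_lit 2316256008) (nat_lit 380) (nat_lit 10725028577) (nat_lit 222) (nat_lit 5) (nat_lit 226) (nat_lit 5) (nat_lit 227) (nat_lit 5) (nat_lit 418) (nat_lit 361) (nat_lit 241)) (XT.lf (nat_lit 0) (nat_lit 14031625104) (nat_lit 380) (nat_lit 669880902) (nat_lit 76) (nat_lit 5372673568) (nat_lit 222) (nat_lit 5) (nat_lit 227) (nat_lit 5) (nat_lit 223) (nat_lit 5) (nat_lit 419) (nat_lit 361) (nat_lit 240))))) (XT.nd (nat_lit 234) (nat_lit 608) (nat_lit 0) (XT.nd (nat_lit 78) (nat_lit 380) (nat_lit 0) (XT.lf (nat_lit 0) (nat_lit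 12269473961) (nat_lit 228) (nat_lit 7078708393) (nat_lit 304) (nat_lit 1087532251) (nat_lit 219) (nat_lit 5) (nat_lit 222) (nat_lit 5) (nat_lit 223) (nat_lit 5) (nat_lit 420) (nat_lit 361) (nat_lit 239)) (XT.nd (nat_lit 78) (nat_lit 0) (nat_lit 0) (XT.lf (nat_lit 0) (nat_lit 3986796704) (nat_lit 380) (nat_lit 15975122220) (nat_lit 76) (nat_lit 843547832) (nat_lit 214) (nat_lit 5) (nat_lit 219) (nat_lit 5) (nat_lit 215) (nat_lit 5) (nat_lit 421) (nat_lit 361) (nat_lit 238)) (XT.lf (nat_lit 0) (nat_lit 9332382992) (nat_lit 380) (nat_lit 2901127963) (nat_lit 76) (nat_lit 8948250914) (nat_lit 214) (nat_lit 5) (nat_lit 219) (nat_lit 5) (nat_lit 215) (nat_lit 5) (nat_lit 422) (nat_lit 361) (nat_lit 237)))) (XT.nd (nat_lit 78) (nat_lit 380) (nat_lit 0) (XT.lf (nat_lit 0) (nat_lit 10755699381) (nat_lit 228) (nat_lit 4173911420) (nat_lit 304) (nat_lit 6636996816) (nat_lit 211) (nat_lit 5) (nat_lit 214) (nat_lit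 5) (nat_lit 215) (nat_lit 5) (nat_lit 423) (nat_lit 361) (nat_lit 236)) (XT.nd (nat_lit 78) (nat_lit 76) (nat_lit 0) (XT.lf (nat_lit 0) (nat_lit 2917170480) (nat_lit 304) (nat_lit 17862872673) (nat_lit 380) (nat_lit 1180396952) (nat_lit 207) (nat_lit 5) (nat_lit 211) (nat_lit 5) (nat_lit 212) (nat_lit 5) (nat_lit 424) (nat_lit 361) (nat_lit 235)) (XT.lf (nat_lit 0) (nat_lit 4492870924) (nat_lit 380) (nat_lit 5188612070) (nat_lit 76) (nat_lit 12679135949) (nat_lit 206) (nat_lit 5) (nat_lit 211) (nat_lit 5) (nat_lit 207) (nat_lit 5) (nat_lit 425) (nat_lit 361) (nat_lit 234)))))) (XT.nd (nat_lit 468) (nat_lit 304) (nat_lit 0) (XT.nd (nat_lit 234) (nat_lit 532) (nat_lit 0) (XT.nd (nat_lit 78) (nat_lit 228) (nat_lit 0) (XT.lf (nat_lit 0) (nat_lit 9231280867) (nat_lit 228) (nat_lit 1158449203) (nat_lit 304) (nat_lit 12380408922) (nat_lit 203) (nat_lit 5) (nat_lit 206) (nat_lit 5) (nat_lit 207) (nat_lit 5)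 (nat_lit 426) (nat_lit 361) (nat_lit 233)) (XT.nd (nat_lit 78) (nat_lit 0) (nat_lit 0) (XT.lf (nat_lit 0) (nat_lit 925099308) (nat_lit 228) (nat_lit 15661923619) (nat_lit 304) (nat_lit 6601215879) (nat_lit 200) (nat_lit 5) (nat_lit 203) (nat_lit 5) (nat_lit 204) (nat_lit 5) (nat_lit 427) (nat_lit 361) (nat_lit 232)) (XT.lf (nat_lit 0) (nat_lit 16070053973) (nat_lit 228) (nat_lit 7036880350) (nat_lit 304) (nat_lit 507846296) (nat_lit 200) (nat_lit 5) (nat_lit 203) (nat_lit 5) (nat_lit 204) (nat_lit 5) (nat_lit 428) (nat_lit 361) (nat_lit 231)))) (XT.nd (nat_lit 78) (nat_lit 228) (nat_lit 0) (XT.lf (nat_lit 0) (nat_lit 5737511602) (nat_lit 304) (nat_lit 16378091076) (nat_lit 76) (nat_lit 1934400110) (nat_lit 196) (nat_lit 5) (nat_lit 200) (nat_lit 5) (nat_lit 197) (nat_lit 5) (nat_lit 429) (nat_lit 361) (nat_lit 230)) (XT.nd (nat_lit 78) (nat_lit 228) (nat_lit 0) (XT.lf (nat_lit 0) (nat_lit 12295564482)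 (nat_lit 304) (nat_lit 1090253922) (nat_lit 76) (nat_lit 11108246127) (nat_lit 196) (nat_lit 5) (nat_lit 200) (nat_lit 5) (nat_lit 197) (nat_lit 5) (nat_lit 430) (nat_lit 361) (nat_lit 229)) (XT.lf (nat_lit 0) (nat_lit 14929575278) (nat_lit 228) (nat_lit 4253546463) (nat_lit 304) (nat_lit 5764343504) (nat_lit 193) (nat_lit 5) (nat_lit 196) (nat_lit 5) (nat_lit 197) (nat_lit 5) (nat_lit 431) (nat_lit 361) (nat_lit 228))))) (XT.nd (nat_lit 47814) (nat_lit 0) (nat_lit 16568) (XT.nd (nat_lit 47658) (nat_lit 0) (nat_lit 17632) (XT.lf (nat_lit 0) (nat_lit 955582322) (nat_lit 304) (nat_lit 19331230874) (nat_lit 76) (nat_lit 5124118509) (nat_lit 189) (nat_lit 5) (nat_lit 193) (nat_lit 5) (nat_lit 190) (nat_lit 5) (nat_lit 432) (nat_lit 361) (nat_lit 227)) (XT.nd (nat_lit 78) (nat_lit 0) (nat_lit 0) (XT.lf (nat_lit 0) (nat_lit 1349533788) (nat_lit 0) (nat_lit 1349533788) (nat_lit 988) (nat_lit 1549018068) (nat_lit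 421) (nat_lit 5) (nat_lit 421) (nat_lit 3) (nat_lit 434) (nat_lit 3) (nat_lit 362) (nat_lit 362) (nat_lit 296)) (XT.lf (nat_lit 0) (nat_lit 6521627788) (nat_lit 988) (nat_lit 1543911909) (nat_lit 1064) (nat_lit 526798544) (nat_lit 421) (nat_lit 5) (nat_lit 434) (nat_lit 3) (nat_lit 435) (nat_lit 5) (nat_lit 363) (nat_lit 362) (nat_lit 295)))) (XT.nd (nat_lit 78) (nat_lit 1064) (nat_lit 0) (XT.lf (nat_lit 76) (nat_lit 2843997148) (nat_lit 0) (nat_lit 4848599218) (nat_lit 1064) (nat_lit 998380700) (nat_lit 422) (nat_lit 5) (nat_lit 421) (nat_lit 5) (nat_lit 435) (nat_lit 5) (nat_lit 364) (nat_lit 362) (nat_lit 294)) (XT.nd (nat_lit 78) (nat_lit 0) (nat_lit 76) (XT.lf (nat_lit 0) (nat_lit 80080593) (nat_lit 1064) (nat_lit 1420319395) (nat_lit 1140) (nat_lit 7292863493) (nat_lit 407) (nat_lit 5) (nat_lit 421) (nat_lit 5) (nat_lit 422) (nat_lit 5) (nat_lit 365) (nat_lit 362) (nat_lit 293)) (XT.lf (nat_lit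 0) (nat_lit 1182031305) (nat_lit 1064) (nat_lit 5748332520) (nat_lit 1140) (nat_lit 1967622054) (nat_lit 408) (nat_lit 5) (nat_lit 422) (nat_lit 5) (nat_lit 423) (nat_lit 5) (nat_lit 366) (nat_lit 362) (nat_lit 292))))))))
noncomputable def xc89 : XT := (XT.nd (nat_lit 1794) (nat_lit 6384) (nat_lit 0) (XT.nd (nat_lit 858) (nat_lit 5548) (nat_lit 0) (XT.nd (nat_lit 390) (nat_lit 912) (nat_lit 0) (XT.nd (nat_lit 156) (nat_lit 0) (nat_lit 76) (XT.nd (nat_lit 78) (nat_lit 0) (nat_lit 76) (XT.lf (nat_lit 0) (nat_lit 2308898596) (nat_lit 1064) (nat_lit 1157232902) (nat_lit 1140) (nat_lit 5539962708) (nat_lit 408) (nat_lit 5) (nat_lit 422) (nat_lit 5) (nat_lit 423) (nat_lit 5) (nat_lit 367) (nat_lit 362) (nat_lit 291)) (XT.lf (nat_lit 0) (nat_lit 3469445480) (nat_lit 1064) (nat_lit 5498709727) (nat_lit 1140) (nat_lit 149294368) (nat_lit 409) (nat_lit 5) (nat_lit 423) (nat_lit 5) (nat_lit 424) (nat_lit 5) (nat_lit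 368) (nat_lit 362) (nat_lit 290))) (XT.nd (nat_lit 78) (nat_lit 0) (nat_lit 0) (XT.lf (nat_lit 0) (nat_lit 4675521057) (nat_lit 1064) (nat_lit 727494080) (nat_lit 1140) (nat_lit 3828809101) (nat_lit 409) (nat_lit 5) (nat_lit 423) (nat_lit 5) (nat_lit 424) (nat_lit 5) (nat_lit 369) (nat_lit 362) (nat_lit 289)) (XT.nd (nat_lit 78) (nat_lit 0) (nat_lit 76) (XT.lf (nat_lit 76) (nat_lit 4247430869) (nat_lit 0) (nat_lit 1676800886) (nat_lit 1140) (nat_lit 3425204800) (nat_lit 410) (nat_lit 5) (nat_lit 409) (nat_lit 5) (nat_lit 424) (nat_lit 5) (nat_lit 370) (nat_lit 362) (nat_lit 288)) (XT.lf (nat_lit 0) (nat_lit 7205120895) (nat_lit 1064) (nat_lit 127897119) (nat_lit 1140) (nat_lit 2137717714) (nat_lit 410) (nat_lit 5) (nat_lit 424) (nat_lit 5) (nat_lit 425) (nat_lit 5) (nat_lit 371) (nat_lit 362) (nat_lit 287))))) (XT.nd (nat_lit 234) (nat_lit 0) (nat_lit 0) (XT.nd (nat_lit 78) (nat_lit 1064) (nat_lit 0)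 (XT.lf (nat_lit 76) (nat_lit 5054939552) (nat_lit 0) (nat_lit 3502188712) (nat_lit 1140) (nat_lit 1037564865) (nat_lit 411) (nat_lit 5) (nat_lit 410) (nat_lit 5) (nat_lit 425) (nat_lit 5) (nat_lit 372) (nat_lit 362) (nat_lit 286)) (XT.nd (nat_lit 78) (nat_lit 0) (nat_lit 0) (XT.lf (nat_lit 0) (nat_lit 202916958) (nat_lit 1140) (nat_lit 9066177249) (nat_lit 1216) (nat_lit 453808699) (nat_lit 396) (nat_lit 5) (nat_lit 411) (nat_lit 5) (nat_lit 412) (nat_lit 5) (nat_lit 373) (nat_lit 362) (nat_lit 285)) (XT.lf (nat_lit 0) (nat_lit 1509445962) (nat_lit 1140) (nat_lit 3820575838) (nat_lit 1216) (nat_lit 4523138386) (nat_lit 396) (nat_lit 5) (nat_lit 411) (nat_lit 5) (nat_lit 412) (nat_lit 5) (nat_lit 374) (nat_lit 362) (nat_lit 284)))) (XT.nd (nat_lit 78) (nat_lit 0) (nat_lit 76) (XT.lf (nat_lit 76) (nat_lit 1590369227) (nat_lit 0) (nat_lit 1249715540) (nat_lit 1216) (nat_lit 7147693002) (nat_lit 397) (nat_lit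 5) (nat_lit 396) (nat_lit 5) (nat_lit 412) (nat_lit 5) (nat_lit 375) (nat_lit 362) (nat_lit 283)) (XT.nd (nat_lit 78) (nat_lit 0) (nat_lit 0) (XT.lf (nat_lit 0) (nat_lit 4248348708) (nat_lit 1140) (nat_lit 2935873299) (nat_lit 1216) (nat_lit 2941080691) (nat_lit 397) (nat_lit 5) (nat_lit 412) (nat_lit 5) (nat_lit 413) (nat_lit 5) (nat_lit 376) (nat_lit 362) (nat_lit 282)) (XT.lf (nat_lit 76) (nat_lit 2706858525) (nat_lit 0) (nat_lit 3001616434) (nat_lit 1216) (nat_lit 4558189984) (nat_lit 398) (nat_lit 5) (nat_lit 397) (nat_lit 5) (nat_lit 413) (nat_lit 5) (nat_lit 377) (nat_lit 362) (nat_lit 281)))))) (XT.nd (nat_lit 468) (nat_lit 2432) (nat_lit 0) (XT.nd (nat_lit 234) (nat_lit 2128) (nat_lit 0) (XT.nd (nat_lit 78) (nat_lit 1140) (nat_lit 0) (XT.lf (nat_lit 0) (nat_lit 7226793885) (nat_lit 1140) (nat_lit 1868941773) (nat_lit 76) (nat_lit 1316100732) (nat_lit 398) (nat_lit 5) (nat_lit 413) (nat_lit 5)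 (nat_lit 399) (nat_lit 5) (nat_lit 378) (nat_lit 362) (nat_lit 280)) (XT.nd (nat_lit 78) (nat_lit 0) (nat_lit 0) (XT.lf (nat_lit 0) (nat_lit 4018267061) (nat_lit 1140) (nat_lit 4813449293) (nat_lit 1216) (nat_lit 1728415007) (nat_lit 383) (nat_lit 5) (nat_lit 398) (nat_lit 5) (nat_lit 399) (nat_lit 5) (nat_lit 379) (nat_lit 362) (nat_lit 279)) (XT.lf (nat_lit 0) (nat_lit 10097556206) (nat_lit 1140) (nat_lit 379387158) (nat_lit 1216) (nat_lit 236167110) (nat_lit 383) (nat_lit 5) (nat_lit 398) (nat_lit 5) (nat_lit 399) (nat_lit 5) (nat_lit 380) (nat_lit 362) (nat_lit 278)))) (XT.nd (nat_lit 78) (nat_lit 836) (nat_lit 0) (XT.lf (nat_lit 0) (nat_lit 1343675039) (nat_lit 1292) (nat_lit 5348557826) (nat_lit 76) (nat_lit 4176024628) (nat_lit 366) (nat_lit 5) (nat_lit 383) (nat_lit 5) (nat_lit 367) (nat_lit 5) (nat_lit 381) (nat_lit 362) (nat_lit 277)) (XT.nd (nat_lit 78) (nat_lit 0) (nat_lit 0) (XT.lf (nat_lit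 0) (nat_lit 810128847) (nat_lit 836) (nat_lit 2148240910) (nat_lit 912) (nat_lit 8069852897) (nat_lit 355) (nat_lit 5) (nat_lit 366) (nat_lit 5) (nat_lit 367) (nat_lit 5) (nat_lit 382) (nat_lit 362) (nat_lit 276)) (XT.lf (nat_lit 0) (nat_lit 4675316811) (nat_lit 912) (nat_lit 3976849453) (nat_lit 76) (nat_lit 2539206160) (nat_lit 355) (nat_lit 5) (nat_lit 367) (nat_lit 5) (nat_lit 356) (nat_lit 5) (nat_lit 383) (nat_lit 362) (nat_lit 275))))) (XT.nd (nat_lit 234) (nat_lit 1216) (nat_lit 0) (XT.nd (nat_lit 78) (nat_lit 608) (nat_lit 0) (XT.lf (nat_lit 0) (nat_lit 2455140345) (nat_lit 608) (nat_lit 4009159218) (nat_lit 684) (nat_lit 4894501306) (nat_lit 347) (nat_lit 5) (nat_lit 355) (nat_lit 5) (nat_lit 356) (nat_lit 5) (nat_lit 384) (nat_lit 362) (nat_lit 274)) (XT.nd (nat_lit 78) (nat_lit 608) (nat_lit 0) (XT.lf (nat_lit 0) (nat_lit 8331094902) (nat_lit 684) (nat_lit 2399894327) (nat_lit 76) (nat_lit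 799538645) (nat_lit 347) (nat_lit 5) (nat_lit 356) (nat_lit 5) (nat_lit 348) (nat_lit 5) (nat_lit 385) (nat_lit 362) (nat_lit 273)) (XT.lf (nat_lit 0) (nat_lit 4320661311) (nat_lit 608) (nat_lit 5991310021) (nat_lit 684) (nat_lit 1393693039) (nat_lit 339) (nat_lit 5) (nat_lit 347) (nat_lit 5) (nat_lit 348) (nat_lit 5) (nat_lit 386) (nat_lit 362) (nat_lit 272)))) (XT.nd (nat_lit 78) (nat_lit 1140) (nat_lit 0) (XT.lf (nat_lit 0) (nat_lit 458676619) (nat_lit 684) (nat_lit 621192153) (nat_lit 76) (nat_lit 10806005091) (nat_lit 338) (nat_lit 5) (nat_lit 347) (nat_lit 5) (nat_lit 339) (nat_lit 5) (nat_lit 387) (nat_lit 362) (nat_lit 271)) (XT.nd (nat_lit 78) (nat_lit 608) (nat_lit 0) (XT.lf (nat_lit 0) (nat_lit 2417203766) (nat_lit 608) (nat_lit 5674078573) (nat_lit 76) (nat_lit 3977435384) (nat_lit 331) (nat_lit 5) (nat_lit 339) (nat_lit 5) (nat_lit 332) (nat_lit 5) (nat_lit 388) (nat_lit 362) (nat_lit 270))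 (XT.lf (nat_lit 0) (nat_lit 1369871314) (nat_lit 608) (nat_lit 3072988228) (nat_lit 684) (nat_lit 7813936173) (nat_lit 323) (nat_lit 5) (nat_lit 331) (nat_lit 5) (nat_lit 332) (nat_lit 5) (nat_lit 389) (nat_lit 362) (nat_lit 269))))))) (XT.nd (nat_lit 936) (nat_lit 2888) (nat_lit 0) (XT.nd (nat_lit 468) (nat_lit 1900) (nat_lit 0) (XT.nd (nat_lit 234) (nat_lit 1064) (nat_lit 0) (XT.nd (nat_lit 78) (nat_lit 532) (nat_lit 0) (XT.lf (nat_lit 0) (nat_lit 6585878969) (nat_lit 684) (nat_lit 3751389662) (nat_lit 76) (nat_lit 2111549596) (nat_lit 323) (nat_lit 5) (nat_lit 332) (nat_lit 5) (nat_lit 324) (nat_lit 5) (nat_lit 390) (nat_lit 362) (nat_lit 268)) (XT.nd (nat_lit 78) (nat_lit 0) (nat_lit 0) (XT.lf (nat_lit 0) (nat_lit 3615688819) (nat_lit 532) (nat_lit 5221888769) (nat_lit 608) (nat_lit 3807692168) (nat_lit 316) (nat_lit 5) (nat_lit 323) (nat_lit 5) (nat_lit 324) (nat_lit 5) (nat_lit 391) (nat_lit 362)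 (nat_lit 267)) (XT.lf (nat_lit 0) (nat_lit 11175112558) (nat_lit 608) (nat_lit 1589647645) (nat_lit 76) (nat_lit 82306067) (nat_lit 316) (nat_lit 5) (nat_lit 324) (nat_lit 5) (nat_lit 317) (nat_lit 5) (nat_lit 392) (nat_lit 362) (nat_lit 266)))) (XT.nd (nat_lit 78) (nat_lit 456) (nat_lit 0) (XT.lf (nat_lit 0) (nat_lit 609146404) (nat_lit 608) (nat_lit 6939337518) (nat_lit 76) (nat_lit 5503532837) (nat_lit 308) (nat_lit 5) (nat_lit 316) (nat_lit 5) (nat_lit 309) (nat_lit 5) (nat_lit 393) (nat_lit 362) (nat_lit 265)) (XT.nd (nat_lit 78) (nat_lit 0) (nat_lit 0) (XT.lf (nat_lit 0) (nat_lit 792250869) (nat_lit 456) (nat_lit 2136995098) (nat_lit 532) (nat_lit 10333248043) (nat_lit 302) (nat_lit 5) (nat_lit 308) (nat_lit 5) (nat_lit 309) (nat_lit 5) (nat_lit 394) (nat_lit 362) (nat_lit 264)) (XT.lf (nat_lit 0) (nat_lit 5403426434) (nat_lit 532) (nat_lit 4635730684) (nat_lit 76) (nat_lit 3437594125) (nat_lit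 302) (nat_lit 5) (nat_lit 309) (nat_lit 5) (nat_lit 303) (nat_lit 5) (nat_lit 395) (nat_lit 362) (nat_lit 263))))) (XT.nd (nat_lit 234) (nat_lit 912) (nat_lit 0) (XT.nd (nat_lit 78) (nat_lit 456) (nat_lit 0) (XT.lf (nat_lit 0) (nat_lit 3457948383) (nat_lit 532) (nat_lit 4529518542) (nat_lit 608) (nat_lit 5708900229) (nat_lit 295) (nat_lit 5) (nat_lit 302) (nat_lit 5) (nat_lit 303) (nat_lit 5) (nat_lit 396) (nat_lit 362) (nat_lit 262)) (XT.nd (nat_lit 78) (nat_lit 456) (nat_lit 0) (XT.lf (nat_lit 0) (nat_lit 10688851892) (nat_lit 608) (nat_lit 2065663996) (nat_lit 76) (nat_lit 1166860957) (nat_lit 295) (nat_lit 5) (nat_lit 303) (nat_lit 5) (nat_lit 296) (nat_lit 5) (nat_lit 397) (nat_lit 362) (nat_lit 261)) (XT.lf (nat_lit 0) (nat_lit 6410688634) (nat_lit 456) (nat_lit 7149135305) (nat_lit 532) (nat_lit 590656522) (nat_lit 289) (nat_lit 5) (nat_lit 295) (nat_lit 5) (nat_lit 296) (nat_lit 5) (nat_lit 398)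 (nat_lit 362) (nat_lit 260)))) (XT.nd (nat_lit 78) (nat_lit 380) (nat_lit 0) (XT.lf (nat_lit 0) (nat_lit 770214703) (nat_lit 456) (nat_lit 1329364860) (nat_lit 532) (nat_lit 12285942699) (nat_lit 282) (nat_lit 5) (nat_lit 288) (nat_lit 5) (nat_lit 289) (nat_lit 5) (nat_lit 399) (nat_lit 362) (nat_lit 259)) (XT.nd (nat_lit 78) (nat_lit 380) (nat_lit 0) (XT.lf (nat_lit 0) (nat_lit 4964907427) (nat_lit 532) (nat_lit 5004797054) (nat_lit 76) (nat_lit 4654547705) (nat_lit 282) (nat_lit 5) (nat_lit 289) (nat_lit 5) (nat_lit 283) (nat_lit 5) (nat_lit 400) (nat_lit 362) (nat_lit 258)) (XT.lf (nat_lit 0) (nat_lit 3905483310) (nat_lit 380) (nat_lit 4044408878) (nat_lit 456) (nat_lit 6919240908) (nat_lit 277) (nat_lit 5) (nat_lit 282) (nat_lit 5) (nat_lit 283) (nat_lit 5) (nat_lit 401) (nat_lit 362) (nat_lit 257)))))) (XT.nd (nat_lit 468) (nat_lit 1596) (nat_lit 0) (XT.nd (nat_lit 234) (nat_lit 380) (nat_lit 0)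 (XT.nd (nat_lit 78) (nat_lit 912) (nat_lit 0) (XT.lf (nat_lit 0) (nat_lit 11078492583) (nat_lit 456) (nat_lit 1976306544) (nat_lit 76) (nat_lit 2064939324) (nat_lit 277) (nat_lit 5) (nat_lit 283) (nat_lit 5) (nat_lit 278) (nat_lit 5) (nat_lit 402) (nat_lit 362) (nat_lit 256)) (XT.nd (nat_lit 78) (nat_lit 456) (nat_lit 0) (XT.lf (nat_lit 0) (nat_lit 7363091405) (nat_lit 456) (nat_lit 7032408097) (nat_lit 532) (nat_lit 979526009) (nat_lit 271) (nat_lit 5) (nat_lit 277) (nat_lit 5) (nat_lit 278) (nat_lit 5) (nat_lit 403) (nat_lit 362) (nat_lit 255)) (XT.lf (nat_lit 0) (nat_lit 1370135471) (nat_lit 380) (nat_lit 778651578) (nat_lit 456) (nat_lit 13488042234) (nat_lit 265) (nat_lit 5) (nat_lit 270) (nat_lit 5) (nat_lit 271) (nat_lit 5) (nat_lit 404) (nat_lit 362) (nat_lit 254)))) (XT.nd (nat_lit 78) (nat_lit 380) (nat_lit 0) (XT.lf (nat_lit 0) (nat_lit 5471459088) (nat_lit 456) (nat_lit 4792622689) (nat_lit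 76) (nat_lit 5638508530) (nat_lit 265) (nat_lit 5) (nat_lit 271) (nat_lit 5) (nat_lit 266) (nat_lit 5) (nat_lit 405) (nat_lit 362) (nat_lit 253)) (XT.nd (nat_lit 78) (nat_lit 0) (nat_lit 0) (XT.lf (nat_lit 0) (nat_lit 5035311636) (nat_lit 380) (nat_lit 3899133629) (nat_lit 456) (nat_lit 7240659878) (nat_lit 260) (nat_lit 5) (nat_lit 265) (nat_lit 5) (nat_lit 266) (nat_lit 5) (nat_lit 406) (nat_lit 362) (nat_lit 252)) (XT.lf (nat_lit 0) (nat_lit 12560455964) (nat_lit 456) (nat_lit 1245138843) (nat_lit 76) (nat_lit 2648426569) (nat_lit 260) (nat_lit 5) (nat_lit 266) (nat_lit 5) (nat_lit 261) (nat_lit 5) (nat_lit 407) (nat_lit 362) (nat_lit 251))))) (XT.nd (nat_lit 234) (nat_lit 760) (nat_lit 0) (XT.nd (nat_lit 78) (nat_lit 456) (nat_lit 0) (XT.lf (nat_lit 0) (nat_lit 9064133030) (nat_lit 380) (nat_lit 7342015483) (nat_lit 456) (nat_lit 331829536) (nat_lit 255) (nat_lit 5) (nat_lit 260) (nat_lit 5) (nat_lit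 261) (nat_lit 5) (nat_lit 408) (nat_lit 362) (nat_lit 250)) (XT.nd (nat_lit 78) (nat_lit 0) (nat_lit 0) (XT.lf (nat_lit 0) (nat_lit 2677597569) (nat_lit 380) (nat_lit 617744071) (nat_lit 456) (nat_lit 13733438673) (nat_lit 249) (nat_lit 5) (nat_lit 254) (nat_lit 5) (nat_lit 255) (nat_lit 5) (nat_lit 409) (nat_lit 362) (nat_lit 249)) (XT.lf (nat_lit 0) (nat_lit 7148991057) (nat_lit 456) (nat_lit 3914544161) (nat_lit 76) (nat_lit 6260942886) (nat_lit 249) (nat_lit 5) (nat_lit 255) (nat_lit 5) (nat_lit 250) (nat_lit 5) (nat_lit 410) (nat_lit 362) (nat_lit 248)))) (XT.nd (nat_lit 78) (nat_lit 456) (nat_lit 0) (XT.lf (nat_lit 0) (nat_lit 6944432375) (nat_lit 304) (nat_lit 4232547909) (nat_lit 380) (nat_lit 6450304636) (nat_lit 245) (nat_lit 5) (nat_lit 249) (nat_lit 5) (nat_lit 250) (nat_lit 5) (nat_lit 411) (nat_lit 362) (nat_lit 247)) (XT.nd (nat_lit 78) (nat_lit 76) (nat_lit 0) (XT.lf (nat_lit 0) (nat_lit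 228229190) (nat_lit 380) (nat_lit 15152664045) (nat_lit 456) (nat_lit 2556630182) (nat_lit 240) (nat_lit 5) (nat_lit 245) (nat_lit 5) (nat_lit 246) (nat_lit 5) (nat_lit 412) (nat_lit 362) (nat_lit 246)) (XT.lf (nat_lit 0) (nat_lit 1562434251) (nat_lit 456) (nat_lit 6645546470) (nat_lit 76) (nat_lit 10044560599) (nat_lit 239) (nat_lit 5) (nat_lit 245) (nat_lit 5) (nat_lit 240) (nat_lit 5) (nat_lit 413) (nat_lit 362) (nat_lit 245))))))))
noncomputable def xc90 : XT := (XT.nd (nat_lit 49530) (nat_lit 0) (nat_lit 9652) (XT.nd (nat_lit 858) (nat_lit 1140) (nat_lit 0) (XT.nd (nat_lit 390) (nat_lit 1140) (nat_lit 0) (XT.nd (nat_lit 156) (nat_lit 684) (nat_lit 0) (XT.nd (nat_lit 78) (nat_lit 0) (nat_lit 0) (XT.lf (nat_lit 0) (nat_lit 4798638073) (nat_lit 304) (nat_lit 987678458) (nat_lit 380) (nat_lit 12788954884) (nat_lit 235) (nat_lit 5) (nat_lit 239) (nat_lit 5) (nat_lit 240) (nat_lit 5) (nat_lit 414) (nat_lit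 362) (nat_lit 244)) (XT.lf (nat_lit 0) (nat_lit 10253328763) (nat_lit 380) (nat_lit 2265898345) (nat_lit 76) (nat_lit 6384963900) (nat_lit 235) (nat_lit 5) (nat_lit 240) (nat_lit 5) (nat_lit 236) (nat_lit 5) (nat_lit 415) (nat_lit 362) (nat_lit 243))) (XT.nd (nat_lit 78) (nat_lit 380) (nat_lit 0) (XT.lf (nat_lit 0) (nat_lit 9751298504) (nat_lit 304) (nat_lit 5193604287) (nat_lit 380) (nat_lit 4295358856) (nat_lit 231) (nat_lit 5) (nat_lit 235) (nat_lit 5) (nat_lit 236) (nat_lit 5) (nat_lit 416) (nat_lit 362) (nat_lit 242)) (XT.nd (nat_lit 78) (nat_lit 0) (nat_lit 0) (XT.lf (nat_lit 0) (nat_lit 245516801) (nat_lit 380) (nat_lit 16988984615) (nat_lit 76) (nat_lit 2350105046) (nat_lit 226) (nat_lit 5) (nat_lit 231) (nat_lit 5) (nat_lit 227) (nat_lit 5) (nat_lit 417) (nat_lit 362) (nat_lit 241)) (XT.lf (nat_lit 0) (nat_lit 4971708379) (nat_lit 380) (nat_lit 4813605859) (nat_lit 76) (nat_lit 10148628872)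 (nat_lit 226) (nat_lit 5) (nat_lit 231) (nat_lit 5) (nat_lit 227) (nat_lit 5) (nat_lit 418) (nat_lit 362) (nat_lit 240))))) (XT.nd (nat_lit 234) (nat_lit 608) (nat_lit 0) (XT.nd (nat_lit 78) (nat_lit 228) (nat_lit 0) (XT.lf (nat_lit 0) (nat_lit 7861450322) (nat_lit 304) (nat_lit 2041407995) (nat_lit 380) (nat_lit 10389006361) (nat_lit 222) (nat_lit 5) (nat_lit 226) (nat_lit 5) (nat_lit 227) (nat_lit 5) (nat_lit 419) (nat_lit 362) (nat_lit 239)) (XT.nd (nat_lit 78) (nat_lit 0) (nat_lit 0) (XT.lf (nat_lit 0) (nat_lit 285297424) (nat_lit 228) (nat_lit 14793246652) (nat_lit 304) (nat_lit 5579081778) (nat_lit 219) (nat_lit 5) (nat_lit 222) (nat_lit 5) (nat_lit 223) (nat_lit 5) (nat_lit 420) (nat_lit 362) (nat_lit 238)) (XT.lf (nat_lit 0) (nat_lit 13597758816) (nat_lit 228) (nat_lit 6945174546) (nat_lit 304) (nat_lit 487423515) (nat_lit 219) (nat_lit 5) (nat_lit 222) (nat_lit 5) (nat_lit 223) (nat_lit 5) (nat_lit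 421) (nat_lit 362) (nat_lit 237)))) (XT.nd (nat_lit 78) (nat_lit 228) (nat_lit 0) (XT.lf (nat_lit 0) (nat_lit 4721354129) (nat_lit 380) (nat_lit 15476394070) (nat_lit 76) (nat_lit 1213433953) (nat_lit 214) (nat_lit 5) (nat_lit 219) (nat_lit 5) (nat_lit 215) (nat_lit 5) (nat_lit 422) (nat_lit 362) (nat_lit 236)) (XT.nd (nat_lit 78) (nat_lit 228) (nat_lit 0) (XT.lf (nat_lit 0) (nat_lit 10209396738) (nat_lit 380) (nat_lit 2038664893) (nat_lit 76) (nat_lit 9551241826) (nat_lit 214) (nat_lit 5) (nat_lit 219) (nat_lit 5) (nat_lit 215) (nat_lit 5) (nat_lit 423) (nat_lit 362) (nat_lit 235)) (XT.lf (nat_lit 0) (nat_lit 12018558478) (nat_lit 228) (nat_lit 3947630986) (nat_lit 304) (nat_lit 6229755671) (nat_lit 211) (nat_lit 5) (nat_lit 214) (nat_lit 5) (nat_lit 215) (nat_lit 5) (nat_lit 424) (nat_lit 362) (nat_lit 234)))))) (XT.nd (nat_lit 468) (nat_lit 0) (nat_lit 0) (XT.nd (nat_lit 234) (nat_lit 532) (nat_lit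 0) (XT.nd (nat_lit 78) (nat_lit 304) (nat_lit 0) (XT.lf (nat_lit 0) (nat_lit 3949798059) (nat_lit 304) (nat_lit 18037555806) (nat_lit 380) (nat_lit 614382161) (nat_lit 207) (nat_lit 5) (nat_lit 211) (nat_lit 5) (nat_lit 212) (nat_lit 5) (nat_lit 425) (nat_lit 362) (nat_lit 233)) (XT.nd (nat_lit 78) (nat_lit 228) (nat_lit 0) (XT.lf (nat_lit 0) (nat_lit 5200172293) (nat_lit 380) (nat_lit 4415291339) (nat_lit 76) (nat_lit 13398798422) (nat_lit 206) (nat_lit 5) (nat_lit 211) (nat_lit 5) (nat_lit 207) (nat_lit 5) (nat_lit 426) (nat_lit 362) (nat_lit 232)) (XT.lf (nat_lit 0) (nat_lit 10428090748) (nat_lit 228) (nat_lit 838013632) (nat_lit 304) (nat_lit 12170198310) (nat_lit 203) (nat_lit 5) (nat_lit 206) (nat_lit 5) (nat_lit 207) (nat_lit 5) (nat_lit 427) (nat_lit 362) (nat_lit 231)))) (XT.nd (nat_lit 78) (nat_lit 304) (nat_lit 0) (XT.lf (nat_lit 0) (nat_lit 1877098963) (nat_lit 228) (nat_lit 15767969272)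 (nat_lit 304) (nat_lit 6222004696) (nat_lit 200) (nat_lit 5) (nat_lit 203) (nat_lit 5) (nat_lit 204) (nat_lit 5) (nat_lit 428) (nat_lit 362) (nat_lit 230)) (XT.nd (nat_lit 78) (nat_lit 228) (nat_lit 0) (XT.lf (nat_lit 0) (nat_lit 36624045) (nat_lit 304) (nat_lit 6857777297) (nat_lit 76) (nat_lit 17412488586) (nat_lit 199) (nat_lit 5) (nat_lit 203) (nat_lit 5) (nat_lit 200) (nat_lit 5) (nat_lit 429) (nat_lit 362) (nat_lit 229)) (XT.lf (nat_lit 0) (nat_lit 6455209657) (nat_lit 304) (nat_lit 15957245025) (nat_lit 76) (nat_lit 2342681008) (nat_lit 196) (nat_lit 5) (nat_lit 200) (nat_lit 5) (nat_lit 197) (nat_lit 5) (nat_lit 430) (nat_lit 362) (nat_lit 228))))) (XT.nd (nat_lit 47970) (nat_lit 0) (nat_lit 16036) (XT.nd (nat_lit 47814) (nat_lit 0) (nat_lit 17100) (XT.lf (nat_lit 0) (nat_lit 13194113657) (nat_lit 304) (nat_lit 237341362) (nat_lit 76) (nat_lit 11781540982) (nat_lit 196) (nat_lit 5) (nat_lit 200)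 (nat_lit 5) (nat_lit 197) (nat_lit 5) (nat_lit 431) (nat_lit 362) (nat_lit 227)) (XT.nd (nat_lit 78) (nat_lit 0) (nat_lit 0) (XT.lf (nat_lit 0) (nat_lit 1903711910) (nat_lit 0) (nat_lit 1903711910) (nat_lit 988) (nat_lit 537282868) (nat_lit 421) (nat_lit 5) (nat_lit 421) (nat_lit 3) (nat_lit 434) (nat_lit 3) (nat_lit 363) (nat_lit 363) (nat_lit 294)) (XT.lf (nat_lit 0) (nat_lit 8262818748) (nat_lit 0) (nat_lit 444059049) (nat_lit 988) (nat_lit 83542557) (nat_lit 421) (nat_lit 5) (nat_lit 421) (nat_lit 3) (nat_lit 434) (nat_lit 3) (nat_lit 364) (nat_lit 363) (nat_lit 293)))) (XT.nd (nat_lit 78) (nat_lit 0) (nat_lit 0) (XT.lf (nat_lit 0) (nat_lit 948581618) (nat_lit 1064) (nat_lit 4917122800) (nat_lit 1140) (nat_lit 3027593090) (nat_lit 407) (nat_lit 5) (nat_lit 421) (nat_lit 5) (nat_lit 422) (nat_lit 5) (nat_lit 365) (nat_lit 363) (nat_lit 292)) (XT.nd (nat_lit 78) (nat_lit 0) (nat_lit 76) (XT.lf (nat_lit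 0) (nat_lit 1982334737) (nat_lit 1064) (nat_lit 399451736) (nat_lit 1140) (nat_lit 6618279362) (nat_lit 407) (nat_lit 5) (nat_lit 421) (nat_lit 5) (nat_lit 422) (nat_lit 5) (nat_lit 366) (nat_lit 363) (nat_lit 291)) (XT.lf (nat_lit 0) (nat_lit 3064425700) (nat_lit 1064) (nat_lit 4804386985) (nat_lit 1140) (nat_lit 1240704767) (nat_lit 408) (nat_lit 5) (nat_lit 422) (nat_lit 5) (nat_lit 423) (nat_lit 5) (nat_lit 367) (nat_lit 363) (nat_lit 290))))))) (XT.nd (nat_lit 936) (nat_lit 5472) (nat_lit 0) (XT.nd (nat_lit 468) (nat_lit 0) (nat_lit 76) (XT.nd (nat_lit 234) (nat_lit 988) (nat_lit 0) (XT.nd (nat_lit 78) (nat_lit 0) (nat_lit 0) (XT.lf (nat_lit 0) (nat_lit 4171304831) (nat_lit 1064) (nat_lit 108070753) (nat_lit 1140) (nat_lit 4943107269) (nat_lit 408) (nat_lit 5) (nat_lit 422) (nat_lit 5) (nat_lit 423) (nat_lit 5) (nat_lit 368) (nat_lit 363) (nat_lit 289)) (XT.nd (nat_lit 78) (nat_lit 0) (nat_lit 76)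 (XT.lf (nat_lit 76) (nat_lit 4802107723) (nat_lit 0) (nat_lit 521142224) (nat_lit 1140) (nat_lit 4015231483) (nat_lit 409) (nat_lit 5) (nat_lit 408) (nat_lit 5) (nat_lit 423) (nat_lit 5) (nat_lit 369) (nat_lit 363) (nat_lit 288)) (XT.lf (nat_lit 76) (nat_lit 356973983) (nat_lit 0) (nat_lit 6156138882) (nat_lit 1140) (nat_lit 2944746316) (nat_lit 410) (nat_lit 5) (nat_lit 409) (nat_lit 5) (nat_lit 424) (nat_lit 5) (nat_lit 370) (nat_lit 363) (nat_lit 287)))) (XT.nd (nat_lit 78) (nat_lit 1064) (nat_lit 0) (XT.lf (nat_lit 76) (nat_lit 5463403117) (nat_lit 0) (nat_lit 2293577376) (nat_lit 1140) (nat_lit 1823288505) (nat_lit 410) (nat_lit 5) (nat_lit 409) (nat_lit 5) (nat_lit 424) (nat_lit 5) (nat_lit 371) (nat_lit 363) (nat_lit 286)) (XT.nd (nat_lit 78) (nat_lit 1140) (nat_lit 0) (XT.lf (nat_lit 76) (nat_lit 998077248) (nat_lit 0) (nat_lit 8034321991) (nat_lit 1140) (nat_lit 674124819) (nat_lit 411) (nat_lit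 5) (nat_lit 410) (nat_lit 5) (nat_lit 425) (nat_lit 5) (nat_lit 372) (nat_lit 363) (nat_lit 285)) (XT.lf (nat_lit 0) (nat_lit 533114394) (nat_lit 1140) (nat_lit 3534759657) (nat_lit 1216) (nat_lit 5767539494) (nat_lit 395) (nat_lit 5) (nat_lit 410) (nat_lit 5) (nat_lit 411) (nat_lit 5) (nat_lit 373) (nat_lit 363) (nat_lit 284))))) (XT.nd (nat_lit 234) (nat_lit 0) (nat_lit 76) (XT.nd (nat_lit 78) (nat_lit 0) (nat_lit 0) (XT.lf (nat_lit 0) (nat_lit 1750580484) (nat_lit 1140) (nat_lit 8167872796) (nat_lit 1216) (nat_lit 49889433) (nat_lit 396) (nat_lit 5) (nat_lit 411) (nat_lit 5) (nat_lit 412) (nat_lit 5) (nat_lit 374) (nat_lit 363) (nat_lit 283)) (XT.nd (nat_lit 78) (nat_lit 0) (nat_lit 0) (XT.lf (nat_lit 0) (nat_lit 3051405086) (nat_lit 1140) (nat_lit 2798989453) (nat_lit 1216) (nat_lit 4253460182) (nat_lit 396) (nat_lit 5) (nat_lit 411) (nat_lit 5) (nat_lit 412) (nat_lit 5) (nat_lit 375) (nat_lit 363)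 (nat_lit 282)) (XT.lf (nat_lit 76) (nat_lit 2763144713) (nat_lit 0) (nat_lit 1626040651) (nat_lit 1216) (nat_lit 5854308795) (nat_lit 397) (nat_lit 5) (nat_lit 396) (nat_lit 5) (nat_lit 412) (nat_lit 5) (nat_lit 376) (nat_lit 363) (nat_lit 281)))) (XT.nd (nat_lit 78) (nat_lit 0) (nat_lit 0) (XT.lf (nat_lit 0) (nat_lit 5793897206) (nat_lit 1140) (nat_lit 1885853938) (nat_lit 1216) (nat_lit 2706767694) (nat_lit 397) (nat_lit 5) (nat_lit 412) (nat_lit 5) (nat_lit 413) (nat_lit 5) (nat_lit 377) (nat_lit 363) (nat_lit 280)) (XT.nd (nat_lit 78) (nat_lit 0) (nat_lit 76) (XT.lf (nat_lit 76) (nat_lit 3915002042) (nat_lit 0) (nat_lit 3352354193) (nat_lit 1216) (nat_lit 3265679847) (nat_lit 398) (nat_lit 5) (nat_lit 397) (nat_lit 5) (nat_lit 413) (nat_lit 5) (nat_lit 378) (nat_lit 363) (nat_lit 279)) (XT.lf (nat_lit 0) (nat_lit 8788375490) (nat_lit 1140) (nat_lit 788046457) (nat_lit 76) (nat_lit 1107426202) (nat_lit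 398) (nat_lit 5) (nat_lit 413) (nat_lit 5) (nat_lit 399) (nat_lit 5) (nat_lit 379) (nat_lit 363) (nat_lit 278)))))) (XT.nd (nat_lit 468) (nat_lit 1824) (nat_lit 0) (XT.nd (nat_lit 234) (nat_lit 1444) (nat_lit 0) (XT.nd (nat_lit 78) (nat_lit 1292) (nat_lit 0) (XT.lf (nat_lit 0) (nat_lit 5264631940) (nat_lit 1140) (nat_lit 5148467447) (nat_lit 1216) (nat_lit 424342968) (nat_lit 383) (nat_lit 5) (nat_lit 398) (nat_lit 5) (nat_lit 399) (nat_lit 5) (nat_lit 380) (nat_lit 363) (nat_lit 277)) (XT.nd (nat_lit 78) (nat_lit 0) (nat_lit 0) (XT.lf (nat_lit 0) (nat_lit 496724684) (nat_lit 1216) (nat_lit 560287960) (nat_lit 1292) (nat_lit 9938695752) (nat_lit 366) (nat_lit 5) (nat_lit 382) (nat_lit 5) (nat_lit 383) (nat_lit 5) (nat_lit 381) (nat_lit 363) (nat_lit 276)) (XT.lf (nat_lit 0) (nat_lit 2646282335) (nat_lit 1292) (nat_lit 4361853978) (nat_lit 76) (nat_lit 4148299994) (nat_lit 366) (nat_lit 5) (nat_lit 383)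 (nat_lit 5) (nat_lit 367) (nat_lit 5) (nat_lit 382) (nat_lit 363) (nat_lit 275)))) (XT.nd (nat_lit 78) (nat_lit 608) (nat_lit 0) (XT.lf (nat_lit 0) (nat_lit 1970346623) (nat_lit 836) (nat_lit 2313224438) (nat_lit 912) (nat_lit 7038404766) (nat_lit 355) (nat_lit 5) (nat_lit 366) (nat_lit 5) (nat_lit 367) (nat_lit 5) (nat_lit 383) (nat_lit 363) (nat_lit 274)) (XT.nd (nat_lit 78) (nat_lit 608) (nat_lit 0) (XT.lf (nat_lit 0) (nat_lit 6015075145) (nat_lit 912) (nat_lit 2956374516) (nat_lit 76) (nat_lit 2519678971) (nat_lit 355) (nat_lit 5) (nat_lit 367) (nat_lit 5) (nat_lit 356) (nat_lit 5) (nat_lit 384) (nat_lit 363) (nat_lit 273)) (XT.lf (nat_lit 0) (nat_lit 3657400658) (nat_lit 608) (nat_lit 4176238714) (nat_lit 684) (nat_lit 3830663197) (nat_lit 347) (nat_lit 5) (nat_lit 355) (nat_lit 5) (nat_lit 356) (nat_lit 5) (nat_lit 385) (nat_lit 363) (nat_lit 272))))) (XT.nd (nat_lit 234) (nat_lit 608) (nat_lit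 0) (XT.nd (nat_lit 78) (nat_lit 1216) (nat_lit 0) (XT.lf (nat_lit 0) (nat_lit 9721766494) (nat_lit 684) (nat_lit 1341484998) (nat_lit 76) (nat_lit 778970055) (nat_lit 347) (nat_lit 5) (nat_lit 356) (nat_lit 5) (nat_lit 348) (nat_lit 5) (nat_lit 386) (nat_lit 363) (nat_lit 271)) (XT.nd (nat_lit 78) (nat_lit 608) (nat_lit 0) (XT.lf (nat_lit 0) (nat_lit 5569604896) (nat_lit 608) (nat_lit 6169998545) (nat_lit 684) (nat_lit 283682672) (nat_lit 339) (nat_lit 5) (nat_lit 347) (nat_lit 5) (nat_lit 348) (nat_lit 5) (nat_lit 387) (nat_lit 363) (nat_lit 270)) (XT.lf (nat_lit 0) (nat_lit 478044059) (nat_lit 532) (nat_lit 1095439545) (nat_lit 608) (nat_lit 10635935074) (nat_lit 331) (nat_lit 5) (nat_lit 338) (nat_lit 5) (nat_lit 339) (nat_lit 5) (nat_lit 388) (nat_lit 363) (nat_lit 269)))) (XT.nd (nat_lit 78) (nat_lit 608) (nat_lit 0) (XT.lf (nat_lit 0) (nat_lit 3565004687) (nat_lit 608) (nat_lit 4714590687) (nat_lit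 76) (nat_lit 4118925337) (nat_lit 331) (nat_lit 5) (nat_lit 339) (nat_lit 5) (nat_lit 332) (nat_lit 5) (nat_lit 389) (nat_lit 363) (nat_lit 268)) (XT.nd (nat_lit 78) (nat_lit 0) (nat_lit 0) (XT.lf (nat_lit 0) (nat_lit 2529602107) (nat_lit 608) (nat_lit 3101262055) (nat_lit 684) (nat_lit 6961993859) (nat_lit 323) (nat_lit 5) (nat_lit 331) (nat_lit 5) (nat_lit 332) (nat_lit 5) (nat_lit 390) (nat_lit 363) (nat_lit 267)) (XT.lf (nat_lit 0) (nat_lit 7808050709) (nat_lit 684) (nat_lit 2747754827) (nat_lit 76) (nat_lit 2235739376) (nat_lit 323) (nat_lit 5) (nat_lit 332) (nat_lit 5) (nat_lit 324) (nat_lit 5) (nat_lit 391) (nat_lit 363) (nat_lit 266))))))))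
noncomputable def xc91 : XT := (XT.nd (nat_lit 1872) (nat_lit 2736) (nat_lit 0) (XT.nd (nat_lit 936) (nat_lit 3192) (nat_lit 0) (XT.nd (nat_lit 468) (nat_lit 1368) (nat_lit 0) (XT.nd (nat_lit 234) (nat_lit 988) (nat_lit 0) (XT.nd (nat_lit 78) (nat_lit 608) (nat_lit 0) (XT.lf (nat_lit 0) (nat_lit 4829393100) (nat_lit 532) (nat_lit 5278688783) (nat_lit 608) (nat_lit 2886384656) (nat_lit 316) (nat_lit 5) (nat_lit 323) (nat_lit 5) (nat_lit 324) (nat_lit 5) (nat_lit 392) (nat_lit 363) (nat_lit 265)) (XT.nd (nat_lit 78) (nat_lit 608) (nat_lit 0) (XT.lf (nat_lit 0) (nat_lit 12487392004) (nat_lit 608) (nat_lit 535943828) (nat_lit 76) (nat_lit 179831643) (nat_lit 316) (nat_lit 5) (nat_lit 324) (nat_lit 5) (nat_lit 317) (nat_lit 5) (nat_lit 393) (nat_lit 363) (nat_lit 264)) (XT.lf (nat_lit 0) (nat_lit 1595968834) (nat_lit 608) (nat_lit 6037646365) (nat_lit 76) (nat_lit 5780905621) (nat_lit 308) (nat_lit 5) (nat_lit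 316) (nat_lit 5) (nat_lit 309) (nat_lit 5) (nat_lit 394) (nat_lit 363) (nat_lit 263)))) (XT.nd (nat_lit 78) (nat_lit 532) (nat_lit 0) (XT.lf (nat_lit 0) (nat_lit 1915008582) (nat_lit 456) (nat_lit 2053016831) (nat_lit 532) (nat_lit 9663816356) (nat_lit 302) (nat_lit 5) (nat_lit 308) (nat_lit 5) (nat_lit 309) (nat_lit 5) (nat_lit 395) (nat_lit 363) (nat_lit 262)) (XT.nd (nat_lit 78) (nat_lit 532) (nat_lit 0) (XT.lf (nat_lit 0) (nat_lit 6490117169) (nat_lit 532) (nat_lit 3681507716) (nat_lit 76) (nat_lit 3681691257) (nat_lit 302) (nat_lit 5) (nat_lit 309) (nat_lit 5) (nat_lit 303) (nat_lit 5) (nat_lit 396) (nat_lit 363) (nat_lit 261)) (XT.lf (nat_lit 0) (nat_lit 4644263146) (nat_lit 532) (nat_lit 4490892369) (nat_lit 608) (nat_lit 4944860717) (nat_lit 295) (nat_lit 5) (nat_lit 302) (nat_lit 5) (nat_lit 303) (nat_lit 5) (nat_lit 397) (nat_lit 363) (nat_lit 260))))) (XT.nd (nat_lit 234) (nat_lit 380) (nat_lit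 0) (XT.nd (nat_lit 78) (nat_lit 988) (nat_lit 0) (XT.lf (nat_lit 0) (nat_lit 11892762202) (nat_lit 608) (nat_lit 1051769124) (nat_lit 76) (nat_lit 1367989482) (nat_lit 295) (nat_lit 5) (nat_lit 303) (nat_lit 5) (nat_lit 296) (nat_lit 5) (nat_lit 398) (nat_lit 363) (nat_lit 259)) (XT.nd (nat_lit 78) (nat_lit 456) (nat_lit 0) (XT.lf (nat_lit 0) (nat_lit 279846730) (nat_lit 532) (nat_lit 6883379290) (nat_lit 76) (nat_lit 7385653757) (nat_lit 288) (nat_lit 5) (nat_lit 295) (nat_lit 5) (nat_lit 289) (nat_lit 5) (nat_lit 399) (nat_lit 363) (nat_lit 258)) (XT.lf (nat_lit 0) (nat_lit 1865464075) (nat_lit 456) (nat_lit 1158235509) (nat_lit 532) (nat_lit 11767554366) (nat_lit 282) (nat_lit 5) (nat_lit 288) (nat_lit 5) (nat_lit 289) (nat_lit 5) (nat_lit 400) (nat_lit 363) (nat_lit 257)))) (XT.nd (nat_lit 78) (nat_lit 380) (nat_lit 0) (XT.lf (nat_lit 0) (nat_lit 5951875033) (nat_lit 532) (nat_lit 4090913248) (nat_lit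 76) (nat_lit 4995050860) (nat_lit 282) (nat_lit 5) (nat_lit 289) (nat_lit 5) (nat_lit 283) (nat_lit 5) (nat_lit 401) (nat_lit 363) (nat_lit 256)) (XT.nd (nat_lit 78) (nat_lit 0) (nat_lit 0) (XT.lf (nat_lit 0) (nat_lit 5076243883) (nat_lit 380) (nat_lit 3935884903) (nat_lit 456) (nat_lit 6278366108) (nat_lit 277) (nat_lit 5) (nat_lit 282) (nat_lit 5) (nat_lit 283) (nat_lit 5) (nat_lit 402) (nat_lit 363) (nat_lit 255)) (XT.lf (nat_lit 0) (nat_lit 12212739935) (nat_lit 456) (nat_lit 990839672) (nat_lit 76) (nat_lit 2345694220) (nat_lit 277) (nat_lit 5) (nat_lit 283) (nat_lit 5) (nat_lit 278) (nat_lit 5) (nat_lit 403) (nat_lit 363) (nat_lit 254)))))) (XT.nd (nat_lit 468) (nat_lit 1444) (nat_lit 0) (XT.nd (nat_lit 234) (nat_lit 836) (nat_lit 0) (XT.nd (nat_lit 78) (nat_lit 456) (nat_lit 0) (XT.lf (nat_lit 0) (nat_lit 8618497509) (nat_lit 456) (nat_lit 6997347833) (nat_lit 532) (nat_lit 196776509) (nat_lit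 271) (nat_lit 5) (nat_lit 277) (nat_lit 5) (nat_lit 278) (nat_lit 5) (nat_lit 404) (nat_lit 363) (nat_lit 253)) (XT.nd (nat_lit 78) (nat_lit 0) (nat_lit 0) (XT.lf (nat_lit 0) (nat_lit 2451302924) (nat_lit 380) (nat_lit 545040216) (nat_lit 456) (nat_lit 13086098248) (nat_lit 265) (nat_lit 5) (nat_lit 270) (nat_lit 5) (nat_lit 271) (nat_lit 5) (nat_lit 405) (nat_lit 363) (nat_lit 252)) (XT.lf (nat_lit 0) (nat_lit 6398285036) (nat_lit 456) (nat_lit 3906220785) (nat_lit 76) (nat_lit 6052281730) (nat_lit 265) (nat_lit 5) (nat_lit 271) (nat_lit 5) (nat_lit 266) (nat_lit 5) (nat_lit 406) (nat_lit 363) (nat_lit 251)))) (XT.nd (nat_lit 78) (nat_lit 456) (nat_lit 0) (XT.lf (nat_lit 0) (nat_lit 6206451760) (nat_lit 380) (nat_lit 3746300635) (nat_lit 456) (nat_lit 6685097689) (nat_lit 260) (nat_lit 5) (nat_lit 265) (nat_lit 5) (nat_lit 266) (nat_lit 5) (nat_lit 407) (nat_lit 363) (nat_lit 250)) (XT.nd (nat_lit 78)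 (nat_lit 456) (nat_lit 0) (XT.lf (nat_lit 0) (nat_lit 13668208790) (nat_lit 456) (nat_lit 272788700) (nat_lit 76) (nat_lit 2984716352) (nat_lit 260) (nat_lit 5) (nat_lit 266) (nat_lit 5) (nat_lit 261) (nat_lit 5) (nat_lit 408) (nat_lit 363) (nat_lit 249)) (XT.lf (nat_lit 0) (nat_lit 391266809) (nat_lit 456) (nat_lit 6886513261) (nat_lit 76) (nat_lit 9940644430) (nat_lit 254) (nat_lit 5) (nat_lit 260) (nat_lit 5) (nat_lit 255) (nat_lit 5) (nat_lit 409) (nat_lit 363) (nat_lit 248))))) (XT.nd (nat_lit 234) (nat_lit 760) (nat_lit 0) (XT.nd (nat_lit 78) (nat_lit 304) (nat_lit 0) (XT.lf (nat_lit 0) (nat_lit 3762243422) (nat_lit 380) (nat_lit 346837621) (nat_lit 456) (nat_lit 13409116304) (nat_lit 249) (nat_lit 5) (nat_lit 254) (nat_lit 5) (nat_lit 255) (nat_lit 5) (nat_lit 410) (nat_lit 363) (nat_lit 247)) (XT.nd (nat_lit 78) (nat_lit 304) (nat_lit 0) (XT.lf (nat_lit 0) (nat_lit 8060219446) (nat_lit 456) (nat_lit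 3038794041) (nat_lit 76) (nat_lit 6724296201) (nat_lit 249) (nat_lit 5) (nat_lit 255) (nat_lit 5) (nat_lit 250) (nat_lit 5) (nat_lit 411) (nat_lit 363) (nat_lit 246)) (XT.lf (nat_lit 0) (nat_lit 8136214669) (nat_lit 304) (nat_lit 4061993255) (nat_lit 380) (nat_lit 5937317996) (nat_lit 245) (nat_lit 5) (nat_lit 249) (nat_lit 5) (nat_lit 250) (nat_lit 5) (nat_lit 412) (nat_lit 363) (nat_lit 245)))) (XT.nd (nat_lit 78) (nat_lit 380) (nat_lit 0) (XT.lf (nat_lit 0) (nat_lit 1226427525) (nat_lit 380) (nat_lit 15294138764) (nat_lit 456) (nat_lit 1934735444) (nat_lit 240) (nat_lit 5) (nat_lit 245) (nat_lit 5) (nat_lit 246) (nat_lit 5) (nat_lit 413) (nat_lit 363) (nat_lit 244)) (XT.nd (nat_lit 78) (nat_lit 304) (nat_lit 0) (XT.lf (nat_lit 0) (nat_lit 2274318508) (nat_lit 456) (nat_lit 5869200693) (nat_lit 76) (nat_lit 10636648022) (nat_lit 239) (nat_lit 5) (nat_lit 245) (nat_lit 5) (nat_lit 240) (nat_lit 5) (nat_lit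 414) (nat_lit 363) (nat_lit 243)) (XT.lf (nat_lit 0) (nat_lit 5908743581) (nat_lit 304) (nat_lit 706091606) (nat_lit 380) (nat_lit 12498046496) (nat_lit 235) (nat_lit 5) (nat_lit 239) (nat_lit 5) (nat_lit 240) (nat_lit 5) (nat_lit 415) (nat_lit 363) (nat_lit 242))))))) (XT.nd (nat_lit 936) (nat_lit 532) (nat_lit 0) (XT.nd (nat_lit 468) (nat_lit 988) (nat_lit 0) (XT.nd (nat_lit 234) (nat_lit 532) (nat_lit 0) (XT.nd (nat_lit 78) (nat_lit 684) (nat_lit 0) (XT.lf (nat_lit 0) (nat_lit 11199686655) (nat_lit 380) (nat_lit 1379697985) (nat_lit 76) (nat_lit 6872769358) (nat_lit 235) (nat_lit 5) (nat_lit 240) (nat_lit 5) (nat_lit 236) (nat_lit 5) (nat_lit 416) (nat_lit 363) (nat_lit 241)) (XT.nd (nat_lit 78) (nat_lit 380) (nat_lit 0) (XT.lf (nat_lit 0) (nat_lit 10988660090) (nat_lit 304) (nat_lit 5033825423) (nat_lit 380) (nat_lit 3776106913) (nat_lit 231) (nat_lit 5) (nat_lit 235) (nat_lit 5) (nat_lit 236) (nat_lit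 5) (nat_lit 417) (nat_lit 363) (nat_lit 240)) (XT.lf (nat_lit 0) (nat_lit 882048219) (nat_lit 380) (nat_lit 16534884728) (nat_lit 76) (nat_lit 2736336731) (nat_lit 226) (nat_lit 5) (nat_lit 231) (nat_lit 5) (nat_lit 227) (nat_lit 5) (nat_lit 418) (nat_lit 363) (nat_lit 239)))) (XT.nd (nat_lit 78) (nat_lit 532) (nat_lit 0) (XT.lf (nat_lit 0) (nat_lit 5731700323) (nat_lit 380) (nat_lit 4022315563) (nat_lit 76) (nat_lit 10759620296) (nat_lit 226) (nat_lit 5) (nat_lit 231) (nat_lit 5) (nat_lit 227) (nat_lit 5) (nat_lit 419) (nat_lit 363) (nat_lit 238)) (XT.nd (nat_lit 78) (nat_lit 228) (nat_lit 0) (XT.lf (nat_lit 0) (nat_lit 9023818789) (nat_lit 304) (nat_lit 1778080819) (nat_lit 380) (nat_lit 10080662344) (nat_lit 222) (nat_lit 5) (nat_lit 226) (nat_lit 5) (nat_lit 227) (nat_lit 5) (nat_lit 420) (nat_lit 363) (nat_lit 237)) (XT.lf (nat_lit 0) (nat_lit 1226089974) (nat_lit 228) (nat_lit 14901223567) (nat_lit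 304) (nat_lit 5132148694) (nat_lit 219) (nat_lit 5) (nat_lit 222) (nat_lit 5) (nat_lit 223) (nat_lit 5) (nat_lit 421) (nat_lit 363) (nat_lit 236))))) (XT.nd (nat_lit 234) (nat_lit 608) (nat_lit 0) (XT.nd (nat_lit 78) (nat_lit 304) (nat_lit 0) (XT.lf (nat_lit 0) (nat_lit 92525483) (nat_lit 304) (nat_lit 6734030667) (nat_lit 76) (nat_lit 14817312963) (nat_lit 218) (nat_lit 5) (nat_lit 222) (nat_lit 5) (nat_lit 219) (nat_lit 5) (nat_lit 422) (nat_lit 363) (nat_lit 235)) (XT.nd (nat_lit 78) (nat_lit 0) (nat_lit 0) (XT.lf (nat_lit 0) (nat_lit 5442647429) (nat_lit 380) (nat_lit 15018844233) (nat_lit 76) (nat_lit 1574636375) (nat_lit 214) (nat_lit 5) (nat_lit 219) (nat_lit 5) (nat_lit 215) (nat_lit 5) (nat_lit 423) (nat_lit 363) (nat_lit 234)) (XT.lf (nat_lit 0) (nat_lit 11078448228) (nat_lit 380) (nat_lit 1204832938) (nat_lit 76) (nat_lit 10153118307) (nat_lit 214) (nat_lit 5) (nat_lit 219) (nat_lit 5) (nat_lit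 215) (nat_lit 5) (nat_lit 424) (nat_lit 363) (nat_lit 233)))) (XT.nd (nat_lit 78) (nat_lit 380) (nat_lit 0) (XT.lf (nat_lit 0) (nat_lit 13265332704) (nat_lit 228) (nat_lit 3734739550) (nat_lit 304) (nat_lit 5845104322) (nat_lit 211) (nat_lit 5) (nat_lit 214) (nat_lit 5) (nat_lit 215) (nat_lit 5) (nat_lit 425) (nat_lit 363) (nat_lit 232)) (XT.nd (nat_lit 78) (nat_lit 76) (nat_lit 0) (XT.lf (nat_lit 0) (nat_lit 4959151144) (nat_lit 304) (nat_lit 18238213965) (nat_lit 380) (nat_lit 65911278) (nat_lit 207) (nat_lit 5) (nat_lit 211) (nat_lit 5) (nat_lit 212) (nat_lit 5) (nat_lit 426) (nat_lit 363) (nat_lit 231)) (XT.lf (nat_lit 0) (nat_lit 5895827987) (nat_lit 380) (nat_lit 3672098186) (nat_lit 76) (nat_lit 14120574227) (nat_lit 206) (nat_lit 5) (nat_lit 211) (nat_lit 5) (nat_lit 207) (nat_lit 5) (nat_lit 427) (nat_lit 363) (nat_lit 230)))))) (XT.nd (nat_lit 48360) (nat_lit 0) (nat_lit 15808) (XT.nd (nat_lit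 48126) (nat_lit 0) (nat_lit 15732) (XT.nd (nat_lit 78) (nat_lit 304) (nat_lit 0) (XT.lf (nat_lit 0) (nat_lit 11608000542) (nat_lit 228) (nat_lit 528354297) (nat_lit 304) (nat_lit 11987068912) (nat_lit 203) (nat_lit 5) (nat_lit 206) (nat_lit 5) (nat_lit 207) (nat_lit 5) (nat_lit 428) (nat_lit 363) (nat_lit 229)) (XT.nd (nat_lit 78) (nat_lit 76) (nat_lit 0) (XT.lf (nat_lit 0) (nat_lit 2804603067) (nat_lit 228) (nat_lit 15898080595) (nat_lit 304) (nat_lit 5864553554) (nat_lit 200) (nat_lit 5) (nat_lit 203) (nat_lit 5) (nat_lit 204) (nat_lit 5) (nat_lit 429) (nat_lit 363) (nat_lit 228)) (XT.lf (nat_lit 0) (nat_lit 555677826) (nat_lit 304) (nat_lit 6207385658) (nat_lit 76) (nat_lit 18257494490) (nat_lit 199) (nat_lit 5) (nat_lit 203) (nat_lit 5) (nat_lit 200) (nat_lit 5) (nat_lit 430) (nat_lit 363) (nat_lit 227)))) (XT.nd (nat_lit 78) (nat_lit 0) (nat_lit 0) (XT.lf (nat_lit 0) (nat_lit 435393857) (nat_lit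 1140) (nat_lit 2005236865) (nat_lit 1140) (nat_lit 2005236865) (nat_lit 406) (nat_lit 3) (nat_lit 421) (nat_lit 3) (nat_lit 421) (nat_lit 5) (nat_lit 364) (nat_lit 364) (nat_lit 292)) (XT.nd (nat_lit 78) (nat_lit 0) (nat_lit 76) (XT.lf (nat_lit 76) (nat_lit 444059049) (nat_lit 0) (nat_lit 1374861861) (nat_lit 1140) (nat_lit 7178138150) (nat_lit 407) (nat_lit 5) (nat_lit 406) (nat_lit 3) (nat_lit 421) (nat_lit 5) (nat_lit 365) (nat_lit 364) (nat_lit 291)) (XT.lf (nat_lit 0) (nat_lit 2821555305) (nat_lit 1064) (nat_lit 4032134308) (nat_lit 1140) (nat_lit 2251071334) (nat_lit 407) (nat_lit 5) (nat_lit 421) (nat_lit 5) (nat_lit 422) (nat_lit 5) (nat_lit 366) (nat_lit 364) (nat_lit 290))))) (XT.nd (nat_lit 234) (nat_lit 0) (nat_lit 76) (XT.nd (nat_lit 78) (nat_lit 0) (nat_lit 76) (XT.lf (nat_lit 76) (nat_lit 602755948) (nat_lit 0) (nat_lit 3235635353) (nat_lit 1140) (nat_lit 5377778912) (nat_lit 408) (nat_lit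 5) (nat_lit 407) (nat_lit 5) (nat_lit 422) (nat_lit 5) (nat_lit 367) (nat_lit 364) (nat_lit 289)) (XT.nd (nat_lit 78) (nat_lit 0) (nat_lit 0) (XT.lf (nat_lit 0) (nat_lit 4897270391) (nat_lit 1064) (nat_lit 3896208753) (nat_lit 1140) (nat_lit 537096473) (nat_lit 408) (nat_lit 5) (nat_lit 422) (nat_lit 5) (nat_lit 423) (nat_lit 5) (nat_lit 368) (nat_lit 364) (nat_lit 288)) (XT.lf (nat_lit 76) (nat_lit 928464857) (nat_lit 0) (nat_lit 5067109839) (nat_lit 1140) (nat_lit 3452608722) (nat_lit 409) (nat_lit 5) (nat_lit 408) (nat_lit 5) (nat_lit 423) (nat_lit 5) (nat_lit 369) (nat_lit 364) (nat_lit 287)))) (XT.nd (nat_lit 78) (nat_lit 0) (nat_lit 76) (XT.lf (nat_lit 76) (nat_lit 5957814719) (nat_lit 0) (nat_lit 1175833719) (nat_lit 1140) (nat_lit 2435466405) (nat_lit 409) (nat_lit 5) (nat_lit 408) (nat_lit 5) (nat_lit 423) (nat_lit 5) (nat_lit 370) (nat_lit 364) (nat_lit 286)) (XT.nd (nat_lit 78) (nat_lit 0)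 (nat_lit 0) (XT.lf (nat_lit 76) (nat_lit 1424527204) (nat_lit 0) (nat_lit 6890796314) (nat_lit 1140) (nat_lit 1378066920) (nat_lit 410) (nat_lit 5) (nat_lit 409) (nat_lit 5) (nat_lit 424) (nat_lit 5) (nat_lit 371) (nat_lit 364) (nat_lit 285)) (XT.lf (nat_lit 76) (nat_lit 6653367348) (nat_lit 0) (nat_lit 2896339325) (nat_lit 1140) (nat_lit 271169892) (nat_lit 410) (nat_lit 5) (nat_lit 409) (nat_lit 5) (nat_lit 424) (nat_lit 5) (nat_lit 372) (nat_lit 364) (nat_lit 284))))))))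
noncomputable def xc92 : XT := (XT.nd (nat_lit 1794) (nat_lit 6232) (nat_lit 0) (XT.nd (nat_lit 858) (nat_lit 4408) (nat_lit 0) (XT.nd (nat_lit 390) (nat_lit 2204) (nat_lit 0) (XT.nd (nat_lit 156) (nat_lit 0) (nat_lit 0) (XT.nd (nat_lit 78) (nat_lit 0) (nat_lit 0) (XT.lf (nat_lit 0) (nat_lit 854105705) (nat_lit 1140) (nat_lit 7865051335) (nat_lit 1216) (nat_lit 1232715824) (nat_lit 395) (nat_lit 5) (nat_lit 410) (nat_lit 5) (nat_lit 411) (nat_lit 5) (nat_lit 373) (nat_lit 364) (nat_lit 283)) (XT.lf (nat_lit 0) (nat_lit 2039306883) (nat_lit 1140) (nat_lit 2574807906) (nat_lit 1216) (nat_lit 5471655191) (nat_lit 395) (nat_lit 5) (nat_lit 410) (nat_lit 5) (nat_lit 411) (nat_lit 5) (nat_lit 374) (nat_lit 364) (nat_lit 282))) (XT.nd (nat_lit 78) (nat_lit 0) (nat_lit 76) (XT.lf (nat_lit 76) (nat_lit 2910546528) (nat_lit 0) (nat_lit 348989317) (nat_lit 1216) (nat_lit 6964164012) (nat_lit 396) (nat_lit 5) (nat_lit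 395) (nat_lit 5) (nat_lit 411) (nat_lit 5) (nat_lit 375) (nat_lit 364) (nat_lit 281)) (XT.nd (nat_lit 78) (nat_lit 0) (nat_lit 0) (XT.lf (nat_lit 0) (nat_lit 4553707673) (nat_lit 1140) (nat_lit 1811978214) (nat_lit 1216) (nat_lit 3998961662) (nat_lit 396) (nat_lit 5) (nat_lit 411) (nat_lit 5) (nat_lit 412) (nat_lit 5) (nat_lit 376) (nat_lit 364) (nat_lit 280)) (XT.lf (nat_lit 76) (nat_lit 3906520164) (nat_lit 0) (nat_lit 1994205079) (nat_lit 1216) (nat_lit 4608677812) (nat_lit 397) (nat_lit 5) (nat_lit 396) (nat_lit 5) (nat_lit 412) (nat_lit 5) (nat_lit 377) (nat_lit 364) (nat_lit 279))))) (XT.nd (nat_lit 234) (nat_lit 1292) (nat_lit 0) (XT.nd (nat_lit 78) (nat_lit 1064) (nat_lit 0) (XT.lf (nat_lit 0) (nat_lit 7304407531) (nat_lit 1140) (nat_lit 869665337) (nat_lit 1216) (nat_lit 2483940733) (nat_lit 397) (nat_lit 5) (nat_lit 412) (nat_lit 5) (nat_lit 413) (nat_lit 5) (nat_lit 378) (nat_lit 364) (nat_lit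 278)) (XT.nd (nat_lit 78) (nat_lit 1064) (nat_lit 0) (XT.lf (nat_lit 76) (nat_lit 5094699026) (nat_lit 0) (nat_lit 3698649454) (nat_lit 1216) (nat_lit 2016439537) (nat_lit 398) (nat_lit 5) (nat_lit 397) (nat_lit 5) (nat_lit 413) (nat_lit 5) (nat_lit 379) (nat_lit 364) (nat_lit 277)) (XT.lf (nat_lit 0) (nat_lit 265184053) (nat_lit 1140) (nat_lit 10056973853) (nat_lit 1216) (nat_lit 644101751) (nat_lit 383) (nat_lit 5) (nat_lit 398) (nat_lit 5) (nat_lit 399) (nat_lit 5) (nat_lit 380) (nat_lit 364) (nat_lit 276)))) (XT.nd (nat_lit 78) (nat_lit 1216) (nat_lit 0) (XT.lf (nat_lit 0) (nat_lit 824604375) (nat_lit 1216) (nat_lit 4649662822) (nat_lit 76) (nat_lit 5650830009) (nat_lit 382) (nat_lit 5) (nat_lit 398) (nat_lit 5) (nat_lit 383) (nat_lit 5) (nat_lit 381) (nat_lit 364) (nat_lit 275)) (XT.nd (nat_lit 78) (nat_lit 0) (nat_lit 0) (XT.lf (nat_lit 0) (nat_lit 1587108578) (nat_lit 1216) (nat_lit 728601919)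 (nat_lit 1292) (nat_lit 8973059527) (nat_lit 366) (nat_lit 5) (nat_lit 382) (nat_lit 5) (nat_lit 383) (nat_lit 5) (nat_lit 382) (nat_lit 364) (nat_lit 274)) (XT.lf (nat_lit 0) (nat_lit 3915506836) (nat_lit 1292) (nat_lit 3411400724) (nat_lit 76) (nat_lit 4128526755) (nat_lit 366) (nat_lit 5) (nat_lit 383) (nat_lit 5) (nat_lit 367) (nat_lit 5) (nat_lit 383) (nat_lit 364) (nat_lit 273)))))) (XT.nd (nat_lit 468) (nat_lit 1748) (nat_lit 0) (XT.nd (nat_lit 234) (nat_lit 1216) (nat_lit 0) (XT.nd (nat_lit 78) (nat_lit 608) (nat_lit 0) (XT.lf (nat_lit 0) (nat_lit 3100164827) (nat_lit 836) (nat_lit 2477386276) (nat_lit 912) (nat_lit 6049119811) (nat_lit 355) (nat_lit 5) (nat_lit 366) (nat_lit 5) (nat_lit 367) (nat_lit 5) (nat_lit 384) (nat_lit 364) (nat_lit 272)) (XT.nd (nat_lit 78) (nat_lit 608) (nat_lit 0) (XT.lf (nat_lit 0) (nat_lit 7326170089) (nat_lit 912) (nat_lit 1970713389) (nat_lit 76) (nat_lit 2505059732)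 (nat_lit 355) (nat_lit 5) (nat_lit 367) (nat_lit 5) (nat_lit 356) (nat_lit 5) (nat_lit 385) (nat_lit 364) (nat_lit 271)) (XT.lf (nat_lit 0) (nat_lit 4830942174) (nat_lit 608) (nat_lit 4345643813) (nat_lit 684) (nat_lit 2804407537) (nat_lit 347) (nat_lit 5) (nat_lit 355) (nat_lit 5) (nat_lit 356) (nat_lit 5) (nat_lit 386) (nat_lit 364) (nat_lit 270)))) (XT.nd (nat_lit 78) (nat_lit 1216) (nat_lit 0) (XT.lf (nat_lit 0) (nat_lit 11088675163) (nat_lit 684) (nat_lit 316213327) (nat_lit 76) (nat_lit 760342033) (nat_lit 347) (nat_lit 5) (nat_lit 356) (nat_lit 5) (nat_lit 348) (nat_lit 5) (nat_lit 387) (nat_lit 364) (nat_lit 269)) (XT.nd (nat_lit 78) (nat_lit 532) (nat_lit 0) (XT.lf (nat_lit 0) (nat_lit 778024544) (nat_lit 684) (nat_lit 5568226977) (nat_lit 76) (nat_lit 6005881959) (nat_lit 338) (nat_lit 5) (nat_lit 347) (nat_lit 5) (nat_lit 339) (nat_lit 5) (nat_lit 388) (nat_lit 364) (nat_lit 268)) (XT.lf (nat_lit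 0) (nat_lit 1558089790) (nat_lit 532) (nat_lit 1106353163) (nat_lit 608) (nat_lit 9879945640) (nat_lit 331) (nat_lit 5) (nat_lit 338) (nat_lit 5) (nat_lit 339) (nat_lit 5) (nat_lit 389) (nat_lit 364) (nat_lit 267))))) (XT.nd (nat_lit 234) (nat_lit 1140) (nat_lit 0) (XT.nd (nat_lit 78) (nat_lit 608) (nat_lit 0) (XT.lf (nat_lit 0) (nat_lit 4685513889) (nat_lit 608) (nat_lit 3791168153) (nat_lit 76) (nat_lit 4263387518) (nat_lit 331) (nat_lit 5) (nat_lit 339) (nat_lit 5) (nat_lit 332) (nat_lit 5) (nat_lit 390) (nat_lit 364) (nat_lit 266)) (XT.nd (nat_lit 78) (nat_lit 0) (nat_lit 0) (XT.lf (nat_lit 0) (nat_lit 3659910618) (nat_lit 608) (nat_lit 3134053127) (nat_lit 684) (nat_lit 6146854807) (nat_lit 323) (nat_lit 5) (nat_lit 331) (nat_lit 5) (nat_lit 332) (nat_lit 5) (nat_lit 391) (nat_lit 364) (nat_lit 265)) (XT.lf (nat_lit 0) (nat_lit 9008071635) (nat_lit 684) (nat_lit 1778084046) (nat_lit 76) (nat_lit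 2360162196) (nat_lit 323) (nat_lit 5) (nat_lit 332) (nat_lit 5) (nat_lit 324) (nat_lit 5) (nat_lit 392) (nat_lit 364) (nat_lit 264)))) (XT.nd (nat_lit 78) (nat_lit 608) (nat_lit 0) (XT.lf (nat_lit 0) (nat_lit 6016063580) (nat_lit 532) (nat_lit 5342924978) (nat_lit 608) (nat_lit 1996882051) (nat_lit 316) (nat_lit 5) (nat_lit 323) (nat_lit 5) (nat_lit 324) (nat_lit 5) (nat_lit 393) (nat_lit 364) (nat_lit 263)) (XT.nd (nat_lit 78) (nat_lit 0) (nat_lit 0) (XT.lf (nat_lit 0) (nat_lit 212009976) (nat_lit 608) (nat_lit 13077747927) (nat_lit 76) (nat_lit 281671033) (nat_lit 308) (nat_lit 5) (nat_lit 316) (nat_lit 5) (nat_lit 309) (nat_lit 5) (nat_lit 394) (nat_lit 364) (nat_lit 262)) (XT.lf (nat_lit 0) (nat_lit 2556797317) (nat_lit 608) (nat_lit 5172615630) (nat_lit 76) (nat_lit 6060155015) (nat_lit 308) (nat_lit 5) (nat_lit 316) (nat_lit 5) (nat_lit 309) (nat_lit 5) (nat_lit 395) (nat_lit 364) (nat_lit 261)))))))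 (XT.nd (nat_lit 936) (nat_lit 2964) (nat_lit 0) (XT.nd (nat_lit 468) (nat_lit 1292) (nat_lit 0) (XT.nd (nat_lit 234) (nat_lit 988) (nat_lit 0) (XT.nd (nat_lit 78) (nat_lit 532) (nat_lit 0) (XT.lf (nat_lit 0) (nat_lit 3008362494) (nat_lit 456) (nat_lit 1975020080) (nat_lit 532) (nat_lit 9030524957) (nat_lit 302) (nat_lit 5) (nat_lit 308) (nat_lit 5) (nat_lit 309) (nat_lit 5) (nat_lit 396) (nat_lit 364) (nat_lit 260)) (XT.nd (nat_lit 78) (nat_lit 532) (nat_lit 0) (XT.lf (nat_lit 0) (nat_lit 7556333495) (nat_lit 532) (nat_lit 2761417658) (nat_lit 76) (nat_lit 3925019089) (nat_lit 302) (nat_lit 5) (nat_lit 309) (nat_lit 5) (nat_lit 303) (nat_lit 5) (nat_lit 397) (nat_lit 364) (nat_lit 259)) (XT.lf (nat_lit 0) (nat_lit 5804023042) (nat_lit 532) (nat_lit 4461125098) (nat_lit 608) (nat_lit 4211590440) (nat_lit 295) (nat_lit 5) (nat_lit 302) (nat_lit 5) (nat_lit 303) (nat_lit 5) (nat_lit 398) (nat_lit 364) (nat_lit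 258)))) (XT.nd (nat_lit 78) (nat_lit 988) (nat_lit 0) (XT.lf (nat_lit 0) (nat_lit 13082087959) (nat_lit 608) (nat_lit 69216447) (nat_lit 76) (nat_lit 1565615740) (nat_lit 295) (nat_lit 5) (nat_lit 303) (nat_lit 5) (nat_lit 296) (nat_lit 5) (nat_lit 399) (nat_lit 364) (nat_lit 257)) (XT.nd (nat_lit 78) (nat_lit 456) (nat_lit 0) (XT.lf (nat_lit 0) (nat_lit 1114287317) (nat_lit 532) (nat_lit 6069277212) (nat_lit 76) (nat_lit 7777000285) (nat_lit 288) (nat_lit 5) (nat_lit 295) (nat_lit 5) (nat_lit 289) (nat_lit 5) (nat_lit 400) (nat_lit 364) (nat_lit 256)) (XT.lf (nat_lit 0) (nat_lit 2932025538) (nat_lit 456) (nat_lit 994085133) (nat_lit 532) (nat_lit 11284529896) (nat_lit 282) (nat_lit 5) (nat_lit 288) (nat_lit 5) (nat_lit 289) (nat_lit 5) (nat_lit 401) (nat_lit 364) (nat_lit 255))))) (XT.nd (nat_lit 234) (nat_lit 912) (nat_lit 0) (XT.nd (nat_lit 78) (nat_lit 380) (nat_lit 0) (XT.lf (nat_lit 0) (nat_lit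 6920345868) (nat_lit 532) (nat_lit 3210692471) (nat_lit 76) (nat_lit 5334238538) (nat_lit 282) (nat_lit 5) (nat_lit 289) (nat_lit 5) (nat_lit 283) (nat_lit 5) (nat_lit 402) (nat_lit 364) (nat_lit 254)) (XT.nd (nat_lit 78) (nat_lit 0) (nat_lit 0) (XT.lf (nat_lit 0) (nat_lit 6221646549) (nat_lit 380) (nat_lit 3837299897) (nat_lit 456) (nat_lit 5666969682) (nat_lit 277) (nat_lit 5) (nat_lit 282) (nat_lit 5) (nat_lit 283) (nat_lit 5) (nat_lit 403) (nat_lit 364) (nat_lit 253)) (XT.lf (nat_lit 0) (nat_lit 13334982793) (nat_lit 456) (nat_lit 35782066) (nat_lit 76) (nat_lit 2622311363) (nat_lit 277) (nat_lit 5) (nat_lit 283) (nat_lit 5) (nat_lit 278) (nat_lit 5) (nat_lit 404) (nat_lit 364) (nat_lit 252)))) (XT.nd (nat_lit 78) (nat_lit 380) (nat_lit 0) (XT.lf (nat_lit 0) (nat_lit 551852638) (nat_lit 532) (nat_lit 6417933765) (nat_lit 76) (nat_lit 9294755228) (nat_lit 270) (nat_lit 5) (nat_lit 277) (nat_lit 5)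 (nat_lit 271) (nat_lit 5) (nat_lit 405) (nat_lit 364) (nat_lit 251)) (XT.nd (nat_lit 78) (nat_lit 0) (nat_lit 0) (XT.lf (nat_lit 0) (nat_lit 3505201507) (nat_lit 380) (nat_lit 319171694) (nat_lit 456) (nat_lit 12718397235) (nat_lit 265) (nat_lit 5) (nat_lit 270) (nat_lit 5) (nat_lit 271) (nat_lit 5) (nat_lit 406) (nat_lit 364) (nat_lit 250)) (XT.lf (nat_lit 0) (nat_lit 7309134686) (nat_lit 456) (nat_lit 3052363405) (nat_lit 76) (nat_lit 6464426055) (nat_lit 265) (nat_lit 5) (nat_lit 271) (nat_lit 5) (nat_lit 266) (nat_lit 5) (nat_lit 407) (nat_lit 364) (nat_lit 249)))))) (XT.nd (nat_lit 468) (nat_lit 1444) (nat_lit 0) (XT.nd (nat_lit 234) (nat_lit 684) (nat_lit 0) (XT.nd (nat_lit 78) (nat_lit 456) (nat_lit 0) (XT.lf (nat_lit 0) (nat_lit 7354169278) (nat_lit 380) (nat_lit 3604370677) (nat_lit 456) (nat_lit 6157229482) (nat_lit 260) (nat_lit 5) (nat_lit 265) (nat_lit 5) (nat_lit 266) (nat_lit 5) (nat_lit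 408) (nat_lit 364) (nat_lit 248)) (XT.nd (nat_lit 78) (nat_lit 76) (nat_lit 0) (XT.lf (nat_lit 0) (nat_lit 684120442) (nat_lit 380) (nat_lit 14089691045) (nat_lit 456) (nat_lit 2638807077) (nat_lit 255) (nat_lit 5) (nat_lit 260) (nat_lit 5) (nat_lit 261) (nat_lit 5) (nat_lit 409) (nat_lit 364) (nat_lit 247)) (XT.lf (nat_lit 0) (nat_lit 1087689315) (nat_lit 456) (nat_lit 6137069760) (nat_lit 76) (nat_lit 10489677627) (nat_lit 254) (nat_lit 5) (nat_lit 260) (nat_lit 5) (nat_lit 255) (nat_lit 5) (nat_lit 410) (nat_lit 364) (nat_lit 246)))) (XT.nd (nat_lit 78) (nat_lit 304) (nat_lit 0) (XT.lf (nat_lit 0) (nat_lit 4821776694) (nat_lit 380) (nat_lit 84418947) (nat_lit 456) (nat_lit 13117332362) (nat_lit 249) (nat_lit 5) (nat_lit 254) (nat_lit 5) (nat_lit 255) (nat_lit 5) (nat_lit 411) (nat_lit 364) (nat_lit 245)) (XT.nd (nat_lit 78) (nat_lit 304) (nat_lit 0) (XT.lf (nat_lit 0) (nat_lit 8958787889) (nat_lit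 456) (nat_lit 2193784382) (nat_lit 76) (nat_lit 7185733851) (nat_lit 249) (nat_lit 5) (nat_lit 255) (nat_lit 5) (nat_lit 250) (nat_lit 5) (nat_lit 412) (nat_lit 364) (nat_lit 244)) (XT.lf (nat_lit 0) (nat_lit 9307296418) (nat_lit 304) (nat_lit 3903401464) (nat_lit 380) (nat_lit 5449497504) (nat_lit 245) (nat_lit 5) (nat_lit 249) (nat_lit 5) (nat_lit 250) (nat_lit 5) (nat_lit 413) (nat_lit 364) (nat_lit 243))))) (XT.nd (nat_lit 234) (nat_lit 684) (nat_lit 0) (XT.nd (nat_lit 78) (nat_lit 380) (nat_lit 0) (XT.lf (nat_lit 0) (nat_lit 2197664179) (nat_lit 380) (nat_lit 15457831245) (nat_lit 456) (nat_lit 1334285996) (nat_lit 240) (nat_lit 5) (nat_lit 245) (nat_lit 5) (nat_lit 246) (nat_lit 5) (nat_lit 414) (nat_lit 364) (nat_lit 242)) (XT.nd (nat_lit 78) (nat_lit 304) (nat_lit 0) (XT.lf (nat_lit 0) (nat_lit 2969384927) (nat_lit 456) (nat_lit 5125574412) (nat_lit 76) (nat_lit 11229807794) (nat_lit 239) (nat_lit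 5) (nat_lit 245) (nat_lit 5) (nat_lit 240) (nat_lit 5) (nat_lit 415) (nat_lit 364) (nat_lit 241)) (XT.lf (nat_lit 0) (nat_lit 6996691500) (nat_lit 304) (nat_lit 433922289) (nat_lit 380) (nat_lit 12237134338) (nat_lit 235) (nat_lit 5) (nat_lit 239) (nat_lit 5) (nat_lit 240) (nat_lit 5) (nat_lit 416) (nat_lit 364) (nat_lit 240)))) (XT.nd (nat_lit 78) (nat_lit 684) (nat_lit 0) (XT.lf (nat_lit 0) (nat_lit 12137767960) (nat_lit 380) (nat_lit 521685294) (nat_lit 76) (nat_lit 7358202642) (nat_lit 235) (nat_lit 5) (nat_lit 240) (nat_lit 5) (nat_lit 236) (nat_lit 5) (nat_lit 417) (nat_lit 364) (nat_lit 239)) (XT.nd (nat_lit 78) (nat_lit 380) (nat_lit 0) (XT.lf (nat_lit 0) (nat_lit 12208905840) (nat_lit 304) (nat_lit 4887369178) (nat_lit 380) (nat_lit 3278481733) (nat_lit 231) (nat_lit 5) (nat_lit 235) (nat_lit 5) (nat_lit 236) (nat_lit 5) (nat_lit 418) (nat_lit 364) (nat_lit 238)) (XT.lf (nat_lit 0) (nat_lit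 1501558883) (nat_lit 380) (nat_lit 16122486151) (nat_lit 76) (nat_lit 3116031258) (nat_lit 226) (nat_lit 5) (nat_lit 231) (nat_lit 5) (nat_lit 227) (nat_lit 5) (nat_lit 419) (nat_lit 364) (nat_lit 237))))))))
noncomputable def xc93 : XT := (XT.nd (nat_lit 49764) (nat_lit 0) (nat_lit 6764) (XT.nd (nat_lit 48828) (nat_lit 0) (nat_lit 14744) (XT.nd (nat_lit 390) (nat_lit 1064) (nat_lit 0) (XT.nd (nat_lit 156) (nat_lit 608) (nat_lit 0) (XT.nd (nat_lit 78) (nat_lit 304) (nat_lit 0) (XT.lf (nat_lit 0) (nat_lit 6479427272) (nat_lit 380) (nat_lit 3260999478) (nat_lit 76) (nat_lit 11371345239) (nat_lit 226) (nat_lit 5) (nat_lit 231) (nat_lit 5) (nat_lit 227) (nat_lit 5) (nat_lit 420) (nat_lit 364) (nat_lit 236)) (XT.lf (nat_lit 0) (nat_lit 10167871987) (nat_lit 304) (nat_lit 1525485441) (nat_lit 380) (nat_lit 9798659358) (nat_lit 222) (nat_lit 5) (nat_lit 226) (nat_lit 5) (nat_lit 227) (nat_lit 5) (nat_lit 421)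 (nat_lit 364) (nat_lit 235))) (XT.nd (nat_lit 78) (nat_lit 380) (nat_lit 0) (XT.lf (nat_lit 0) (nat_lit 2141592278) (nat_lit 228) (nat_lit 15031717259) (nat_lit 304) (nat_lit 4707071268) (nat_lit 219) (nat_lit 5) (nat_lit 222) (nat_lit 5) (nat_lit 223) (nat_lit 5) (nat_lit 422) (nat_lit 364) (nat_lit 234)) (XT.nd (nat_lit 78) (nat_lit 304) (nat_lit 0) (XT.lf (nat_lit 0) (nat_lit 646507746) (nat_lit 304) (nat_lit 6071955668) (nat_lit 76) (nat_lit 15558185578) (nat_lit 218) (nat_lit 5) (nat_lit 222) (nat_lit 5) (nat_lit 219) (nat_lit 5) (nat_lit 423) (nat_lit 364) (nat_lit 233)) (XT.lf (nat_lit 0) (nat_lit 6152305093) (nat_lit 380) (nat_lit 14600485383) (nat_lit 76) (nat_lit 1928030054) (nat_lit 214) (nat_lit 5) (nat_lit 219) (nat_lit 5) (nat_lit 215) (nat_lit 5) (nat_lit 424) (nat_lit 364) (nat_lit 232))))) (XT.nd (nat_lit 234) (nat_lit 456) (nat_lit 0) (XT.nd (nat_lit 78) (nat_lit 608) (nat_lit 0) (XT.lf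 (nat_lit 0) (nat_lit 11941265987) (nat_lit 380) (nat_lit 397362220) (nat_lit 76) (nat_lit 10754949321) (nat_lit 214) (nat_lit 5) (nat_lit 219) (nat_lit 5) (nat_lit 215) (nat_lit 5) (nat_lit 425) (nat_lit 364) (nat_lit 231)) (XT.nd (nat_lit 78) (nat_lit 380) (nat_lit 0) (XT.lf (nat_lit 0) (nat_lit 14498637649) (nat_lit 228) (nat_lit 3534480514) (nat_lit 304) (nat_lit 5481722398) (nat_lit 211) (nat_lit 5) (nat_lit 214) (nat_lit 5) (nat_lit 215) (nat_lit 5) (nat_lit 426) (nat_lit 364) (nat_lit 230)) (XT.lf (nat_lit 0) (nat_lit 457368682) (nat_lit 380) (nat_lit 18002448945) (nat_lit 76) (nat_lit 5485658653) (nat_lit 206) (nat_lit 5) (nat_lit 211) (nat_lit 5) (nat_lit 207) (nat_lit 5) (nat_lit 427) (nat_lit 364) (nat_lit 229)))) (XT.nd (nat_lit 78) (nat_lit 456) (nat_lit 0) (XT.lf (nat_lit 0) (nat_lit 6581375204) (nat_lit 380) (nat_lit 2956875239) (nat_lit 76) (nat_lit 14845644798) (nat_lit 206) (nat_lit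 5) (nat_lit 211) (nat_lit 5) (nat_lit 207) (nat_lit 5) (nat_lit 428) (nat_lit 364) (nat_lit 228)) (XT.nd (nat_lit 78) (nat_lit 228) (nat_lit 0) (XT.lf (nat_lit 0) (nat_lit 12773534432) (nat_lit 228) (nat_lit 228624058) (nat_lit 304) (nat_lit 11829916584) (nat_lit 203) (nat_lit 5) (nat_lit 206) (nat_lit 5) (nat_lit 207) (nat_lit 5) (nat_lit 429) (nat_lit 364) (nat_lit 227)) (XT.lf (nat_lit 0) (nat_lit 3709922360) (nat_lit 228) (nat_lit 16051780714) (nat_lit 304) (nat_lit 5527613092) (nat_lit 200) (nat_lit 5) (nat_lit 203) (nat_lit 5) (nat_lit 204) (nat_lit 5) (nat_lit 430) (nat_lit 364) (nat_lit 226)))))) (XT.nd (nat_lit 468) (nat_lit 912) (nat_lit 0) (XT.nd (nat_lit 234) (nat_lit 0) (nat_lit 76) (XT.nd (nat_lit 78) (nat_lit 0) (nat_lit 0) (XT.lf (nat_lit 0) (nat_lit 1370311040) (nat_lit 1140) (nat_lit 1590638457) (nat_lit 1140) (nat_lit 1590638457) (nat_lit 406) (nat_lit 3) (nat_lit 421) (nat_lit 3)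 (nat_lit 421) (nat_lit 5) (nat_lit 365) (nat_lit 365) (nat_lit 290)) (XT.nd (nat_lit 78) (nat_lit 0) (nat_lit 76) (XT.lf (nat_lit 76) (nat_lit 1397582916) (nat_lit 0) (nat_lit 2274953840) (nat_lit 1140) (nat_lit 5540462630) (nat_lit 407) (nat_lit 5) (nat_lit 406) (nat_lit 3) (nat_lit 421) (nat_lit 5) (nat_lit 366) (nat_lit 365) (nat_lit 289)) (XT.lf (nat_lit 0) (nat_lit 4644835425) (nat_lit 1064) (nat_lit 3179866010) (nat_lit 1140) (nat_lit 1501043336) (nat_lit 407) (nat_lit 5) (nat_lit 421) (nat_lit 5) (nat_lit 422) (nat_lit 5) (nat_lit 367) (nat_lit 365) (nat_lit 288)))) (XT.nd (nat_lit 78) (nat_lit 0) (nat_lit 0) (XT.lf (nat_lit 76) (nat_lit 1584529460) (nat_lit 0) (nat_lit 4066270817) (nat_lit 1140) (nat_lit 3790937325) (nat_lit 408) (nat_lit 5) (nat_lit 407) (nat_lit 5) (nat_lit 422) (nat_lit 5) (nat_lit 368) (nat_lit 365) (nat_lit 287)) (XT.nd (nat_lit 78) (nat_lit 0) (nat_lit 76) (XT.lf (nat_lit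 76) (nat_lit 6538606369) (nat_lit 0) (nat_lit 147981072) (nat_lit 1140) (nat_lit 2874633477) (nat_lit 408) (nat_lit 5) (nat_lit 407) (nat_lit 5) (nat_lit 422) (nat_lit 5) (nat_lit 369) (nat_lit 365) (nat_lit 286)) (XT.lf (nat_lit 76) (nat_lit 1938497215) (nat_lit 0) (nat_lit 5839567045) (nat_lit 1140) (nat_lit 1905485991) (nat_lit 409) (nat_lit 5) (nat_lit 408) (nat_lit 5) (nat_lit 423) (nat_lit 5) (nat_lit 370) (nat_lit 365) (nat_lit 285))))) (XT.nd (nat_lit 234) (nat_lit 0) (nat_lit 76) (XT.nd (nat_lit 78) (nat_lit 1064) (nat_lit 0) (XT.lf (nat_lit 76) (nat_lit 7090120435) (nat_lit 0) (nat_lit 1813481459) (nat_lit 1140) (nat_lit 905908074) (nat_lit 409) (nat_lit 5) (nat_lit 408) (nat_lit 5) (nat_lit 423) (nat_lit 5) (nat_lit 371) (nat_lit 365) (nat_lit 284)) (XT.nd (nat_lit 78) (nat_lit 0) (nat_lit 0) (XT.lf (nat_lit 0) (nat_lit 137864071) (nat_lit 1140) (nat_lit 7476666526) (nat_lit 1216) (nat_lit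 2324183624) (nat_lit 394) (nat_lit 5) (nat_lit 409) (nat_lit 5) (nat_lit 410) (nat_lit 5) (nat_lit 372) (nat_lit 365) (nat_lit 283)) (XT.lf (nat_lit 0) (nat_lit 1211169741) (nat_lit 1140) (nat_lit 2263132771) (nat_lit 1216) (nat_lit 6596730162) (nat_lit 394) (nat_lit 5) (nat_lit 409) (nat_lit 5) (nat_lit 410) (nat_lit 5) (nat_lit 373) (nat_lit 365) (nat_lit 282)))) (XT.nd (nat_lit 78) (nat_lit 0) (nat_lit 0) (XT.lf (nat_lit 0) (nat_lit 2326524077) (nat_lit 1140) (nat_lit 7066056719) (nat_lit 1216) (nat_lit 814444399) (nat_lit 395) (nat_lit 5) (nat_lit 410) (nat_lit 5) (nat_lit 411) (nat_lit 5) (nat_lit 374) (nat_lit 365) (nat_lit 281)) (XT.nd (nat_lit 78) (nat_lit 0) (nat_lit 0) (XT.lf (nat_lit 0) (nat_lit 3505141624) (nat_lit 1140) (nat_lit 1647250050) (nat_lit 1216) (nat_lit 5193811740) (nat_lit 395) (nat_lit 5) (nat_lit 410) (nat_lit 5) (nat_lit 411) (nat_lit 5) (nat_lit 375) (nat_lit 365) (nat_lit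 280)) (XT.lf (nat_lit 76) (nat_lit 3992814016) (nat_lit 0) (nat_lit 737815220) (nat_lit 1216) (nat_lit 5758582397) (nat_lit 396) (nat_lit 5) (nat_lit 395) (nat_lit 5) (nat_lit 411) (nat_lit 5) (nat_lit 376) (nat_lit 365) (nat_lit 279))))))) (XT.nd (nat_lit 936) (nat_lit 3800) (nat_lit 0) (XT.nd (nat_lit 468) (nat_lit 3268) (nat_lit 0) (XT.nd (nat_lit 234) (nat_lit 1064) (nat_lit 0) (XT.nd (nat_lit 78) (nat_lit 0) (nat_lit 0) (XT.lf (nat_lit 0) (nat_lit 6020095917) (nat_lit 1140) (nat_lit 856835324) (nat_lit 1216) (nat_lit 3758762424) (nat_lit 396) (nat_lit 5) (nat_lit 411) (nat_lit 5) (nat_lit 412) (nat_lit 5) (nat_lit 377) (nat_lit 365) (nat_lit 278)) (XT.nd (nat_lit 78) (nat_lit 0) (nat_lit 76) (XT.lf (nat_lit 76) (nat_lit 5023320925) (nat_lit 0) (nat_lit 2355080537) (nat_lit 1216) (nat_lit 3407264052) (nat_lit 397) (nat_lit 5) (nat_lit 396) (nat_lit 5) (nat_lit 412) (nat_lit 5) (nat_lit 378) (nat_lit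 365) (nat_lit 277)) (XT.lf (nat_lit 76) (nat_lit 117725108) (nat_lit 0) (nat_lit 8666908034) (nat_lit 1216) (nat_lit 2155288066) (nat_lit 398) (nat_lit 5) (nat_lit 397) (nat_lit 5) (nat_lit 413) (nat_lit 5) (nat_lit 379) (nat_lit 365) (nat_lit 276)))) (XT.nd (nat_lit 78) (nat_lit 1140) (nat_lit 0) (XT.lf (nat_lit 76) (nat_lit 6248809601) (nat_lit 0) (nat_lit 4041227973) (nat_lit 1216) (nat_lit 807057424) (nat_lit 398) (nat_lit 5) (nat_lit 397) (nat_lit 5) (nat_lit 413) (nat_lit 5) (nat_lit 380) (nat_lit 365) (nat_lit 275)) (XT.nd (nat_lit 78) (nat_lit 0) (nat_lit 0) (XT.lf (nat_lit 0) (nat_lit 566170284) (nat_lit 1216) (nat_lit 9961235006) (nat_lit 76) (nat_lit 731533997) (nat_lit 382) (nat_lit 5) (nat_lit 398) (nat_lit 5) (nat_lit 383) (nat_lit 5) (nat_lit 381) (nat_lit 365) (nat_lit 274)) (XT.lf (nat_lit 0) (nat_lit 2030555400) (nat_lit 1216) (nat_lit 3765370549) (nat_lit 76) (nat_lit 5627487786) (nat_lit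 382) (nat_lit 5) (nat_lit 398) (nat_lit 5) (nat_lit 383) (nat_lit 5) (nat_lit 382) (nat_lit 365) (nat_lit 273))))) (XT.nd (nat_lit 234) (nat_lit 1216) (nat_lit 0) (XT.nd (nat_lit 78) (nat_lit 836) (nat_lit 0) (XT.lf (nat_lit 0) (nat_lit 2648466913) (nat_lit 1216) (nat_lit 893268272) (nat_lit 1292) (nat_lit 8051001339) (nat_lit 366) (nat_lit 5) (nat_lit 382) (nat_lit 5) (nat_lit 383) (nat_lit 5) (nat_lit 383) (nat_lit 365) (nat_lit 272)) (XT.nd (nat_lit 78) (nat_lit 836) (nat_lit 0) (XT.lf (nat_lit 0) (nat_lit 5154506616) (nat_lit 1292) (nat_lit 2494505426) (nat_lit 76) (nat_lit 4116439265) (nat_lit 366) (nat_lit 5) (nat_lit 383) (nat_lit 5) (nat_lit 367) (nat_lit 5) (nat_lit 384) (nat_lit 365) (nat_lit 271)) (XT.lf (nat_lit 0) (nat_lit 4202414569) (nat_lit 836) (nat_lit 2641033065) (nat_lit 912) (nat_lit 5099066308) (nat_lit 355) (nat_lit 5) (nat_lit 366) (nat_lit 5) (nat_lit 367) (nat_lit 5) (nat_lit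 385) (nat_lit 365) (nat_lit 270)))) (XT.nd (nat_lit 78) (nat_lit 1216) (nat_lit 0) (XT.lf (nat_lit 0) (nat_lit 8611694366) (nat_lit 912) (nat_lit 1017154649) (nat_lit 76) (nat_lit 2495180316) (nat_lit 355) (nat_lit 5) (nat_lit 367) (nat_lit 5) (nat_lit 356) (nat_lit 5) (nat_lit 386) (nat_lit 365) (nat_lit 269)) (XT.nd (nat_lit 78) (nat_lit 608) (nat_lit 0) (XT.lf (nat_lit 0) (nat_lit 5978622344) (nat_lit 608) (nat_lit 4517598515) (nat_lit 684) (nat_lit 1812872352) (nat_lit 347) (nat_lit 5) (nat_lit 355) (nat_lit 5) (nat_lit 356) (nat_lit 5) (nat_lit 387) (nat_lit 365) (nat_lit 268)) (XT.lf (nat_lit 0) (nat_lit 692157998) (nat_lit 608) (nat_lit 11749362465) (nat_lit 684) (nat_lit 58061424) (nat_lit 339) (nat_lit 5) (nat_lit 347) (nat_lit 5) (nat_lit 348) (nat_lit 5) (nat_lit 388) (nat_lit 365) (nat_lit 267)))))) (XT.nd (nat_lit 468) (nat_lit 2052) (nat_lit 0) (XT.nd (nat_lit 234) (nat_lit 1140) (nat_lit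 0) (XT.nd (nat_lit 78) (nat_lit 532) (nat_lit 0) (XT.lf (nat_lit 0) (nat_lit 1804773667) (nat_lit 684) (nat_lit 4720799342) (nat_lit 76) (nat_lit 6167022224) (nat_lit 338) (nat_lit 5) (nat_lit 347) (nat_lit 5) (nat_lit 339) (nat_lit 5) (nat_lit 389) (nat_lit 365) (nat_lit 266)) (XT.nd (nat_lit 78) (nat_lit 0) (nat_lit 0) (XT.lf (nat_lit 0) (nat_lit 2609361100) (nat_lit 532) (nat_lit 1118854184) (nat_lit 608) (nat_lit 9162989795) (nat_lit 331) (nat_lit 5) (nat_lit 338) (nat_lit 5) (nat_lit 339) (nat_lit 5) (nat_lit 390) (nat_lit 365) (nat_lit 265)) (XT.lf (nat_lit 0) (nat_lit 5781455930) (nat_lit 608) (nat_lit 2901170278) (nat_lit 76) (nat_lit 4410984140) (nat_lit 331) (nat_lit 5) (nat_lit 339) (nat_lit 5) (nat_lit 332) (nat_lit 5) (nat_lit 391) (nat_lit 365) (nat_lit 264)))) (XT.nd (nat_lit 78) (nat_lit 532) (nat_lit 0) (XT.lf (nat_lit 0) (nat_lit 4763600337) (nat_lit 608) (nat_lit 3171286343) (nat_lit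 684) (nat_lit 5366043307) (nat_lit 323) (nat_lit 5) (nat_lit 331) (nat_lit 5) (nat_lit 332) (nat_lit 5) (nat_lit 392) (nat_lit 365) (nat_lit 263)) (XT.nd (nat_lit 78) (nat_lit 532) (nat_lit 0) (XT.lf (nat_lit 0) (nat_lit 10188653500) (nat_lit 684) (nat_lit 839718183) (nat_lit 76) (nat_lit 2485025540) (nat_lit 323) (nat_lit 5) (nat_lit 332) (nat_lit 5) (nat_lit 324) (nat_lit 5) (nat_lit 393) (nat_lit 365) (nat_lit 262)) (XT.lf (nat_lit 0) (nat_lit 7178531241) (nat_lit 532) (nat_lit 5414491389) (nat_lit 608) (nat_lit 1136726165) (nat_lit 316) (nat_lit 5) (nat_lit 323) (nat_lit 5) (nat_lit 324) (nat_lit 5) (nat_lit 394) (nat_lit 365) (nat_lit 261))))) (XT.nd (nat_lit 234) (nat_lit 988) (nat_lit 0) (XT.nd (nat_lit 78) (nat_lit 456) (nat_lit 0) (XT.lf (nat_lit 0) (nat_lit 1104728934) (nat_lit 608) (nat_lit 12454390922) (nat_lit 76) (nat_lit 392861189) (nat_lit 308) (nat_lit 5) (nat_lit 316) (nat_lit 5) (nat_lit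 309) (nat_lit 5) (nat_lit 395) (nat_lit 365) (nat_lit 260)) (XT.nd (nat_lit 78) (nat_lit 456) (nat_lit 0) (XT.lf (nat_lit 0) (nat_lit 3494043623) (nat_lit 608) (nat_lit 4341687844) (nat_lit 76) (nat_lit 6341707262) (nat_lit 308) (nat_lit 5) (nat_lit 316) (nat_lit 5) (nat_lit 309) (nat_lit 5) (nat_lit 396) (nat_lit 365) (nat_lit 259)) (XT.lf (nat_lit 0) (nat_lit 4075051916) (nat_lit 456) (nat_lit 1902696306) (nat_lit 532) (nat_lit 8431230610) (nat_lit 302) (nat_lit 5) (nat_lit 308) (nat_lit 5) (nat_lit 309) (nat_lit 5) (nat_lit 397) (nat_lit 365) (nat_lit 258)))) (XT.nd (nat_lit 78) (nat_lit 988) (nat_lit 0) (XT.lf (nat_lit 0) (nat_lit 8604507911) (nat_lit 532) (nat_lit 1872881840) (nat_lit 76) (nat_lit 4168019066) (nat_lit 302) (nat_lit 5) (nat_lit 309) (nat_lit 5) (nat_lit 303) (nat_lit 5) (nat_lit 398) (nat_lit 365) (nat_lit 257)) (XT.nd (nat_lit 78) (nat_lit 456) (nat_lit 0) (XT.lf (nat_lit 0) (nat_lit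 6939998764) (nat_lit 532) (nat_lit 4439907440) (nat_lit 608) (nat_lit 3506930424) (nat_lit 295) (nat_lit 5) (nat_lit 302) (nat_lit 5) (nat_lit 303) (nat_lit 5) (nat_lit 399) (nat_lit 365) (nat_lit 256)) (XT.lf (nat_lit 0) (nat_lit 902204246) (nat_lit 456) (nat_lit 13365770413) (nat_lit 532) (nat_lit 866650369) (nat_lit 289) (nat_lit 5) (nat_lit 295) (nat_lit 5) (nat_lit 296) (nat_lit 5) (nat_lit 400) (nat_lit 365) (nat_lit 255))))))))
noncomputable def xc94 : XT := (XT.nd (nat_lit 1794) (nat_lit 1216) (nat_lit 0) (XT.nd (nat_lit 858) (nat_lit 2660) (nat_lit 0) (XT.nd (nat_lit 390) (nat_lit 1292) (nat_lit 0) (XT.nd (nat_lit 156) (nat_lit 836) (nat_lit 0) (XT.nd (nat_lit 78) (nat_lit 456) (nat_lit 0) (XT.lf (nat_lit 0) (nat_lit 1926342749) (nat_lit 532) (nat_lit 5289338885) (nat_lit 76) (nat_lit 8170341321) (nat_lit 288) (nat_lit 5) (nat_lit 295) (nat_lit 5) (nat_lit 289) (nat_lit 5) (nat_lit 401) (nat_lit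 365) (nat_lit 254)) (XT.lf (nat_lit 0) (nat_lit 3972571412) (nat_lit 456) (nat_lit 836427771) (nat_lit 532) (nat_lit 10835007445) (nat_lit 282) (nat_lit 5) (nat_lit 288) (nat_lit 5) (nat_lit 289) (nat_lit 5) (nat_lit 402) (nat_lit 365) (nat_lit 253))) (XT.nd (nat_lit 78) (nat_lit 836) (nat_lit 0) (XT.lf (nat_lit 0) (nat_lit 7872526501) (nat_lit 532) (nat_lit 2361638399) (nat_lit 76) (nat_lit 5672733177) (nat_lit 282) (nat_lit 5) (nat_lit 289) (nat_lit 5) (nat_lit 283) (nat_lit 5) (nat_lit 403) (nat_lit 365) (nat_lit 252)) (XT.nd (nat_lit 78) (nat_lit 456) (nat_lit 0) (XT.lf (nat_lit 0) (nat_lit 7344402411) (nat_lit 380) (nat_lit 3748194600) (nat_lit 456) (nat_lit 5083140135) (nat_lit 277) (nat_lit 5) (nat_lit 282) (nat_lit 5) (nat_lit 283) (nat_lit 5) (nat_lit 404) (nat_lit 365) (nat_lit 251)) (XT.lf (nat_lit 0) (nat_lit 909137248) (nat_lit 456) (nat_lit 13547105377) (nat_lit 532) (nat_lit 1994989574)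 (nat_lit 271) (nat_lit 5) (nat_lit 277) (nat_lit 5) (nat_lit 278) (nat_lit 5) (nat_lit 405) (nat_lit 365) (nat_lit 250))))) (XT.nd (nat_lit 234) (nat_lit 836) (nat_lit 0) (XT.nd (nat_lit 78) (nat_lit 380) (nat_lit 0) (XT.lf (nat_lit 0) (nat_lit 1275899433) (nat_lit 532) (nat_lit 5677239593) (nat_lit 76) (nat_lit 9778114118) (nat_lit 270) (nat_lit 5) (nat_lit 277) (nat_lit 5) (nat_lit 271) (nat_lit 5) (nat_lit 406) (nat_lit 365) (nat_lit 249)) (XT.nd (nat_lit 78) (nat_lit 0) (nat_lit 0) (XT.lf (nat_lit 0) (nat_lit 4534440402) (nat_lit 380) (nat_lit 100431520) (nat_lit 456) (nat_lit 12383308602) (nat_lit 265) (nat_lit 5) (nat_lit 270) (nat_lit 5) (nat_lit 271) (nat_lit 5) (nat_lit 407) (nat_lit 365) (nat_lit 248)) (XT.lf (nat_lit 0) (nat_lit 8206041961) (nat_lit 456) (nat_lit 2228632201) (nat_lit 76) (nat_lit 6875698711) (nat_lit 265) (nat_lit 5) (nat_lit 271) (nat_lit 5) (nat_lit 266) (nat_lit 5) (nat_lit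 408) (nat_lit 365) (nat_lit 247)))) (XT.nd (nat_lit 78) (nat_lit 456) (nat_lit 0) (XT.lf (nat_lit 0) (nat_lit 8481122912) (nat_lit 380) (nat_lit 3472781770) (nat_lit 456) (nat_lit 5655339582) (nat_lit 260) (nat_lit 5) (nat_lit 265) (nat_lit 5) (nat_lit 266) (nat_lit 5) (nat_lit 409) (nat_lit 365) (nat_lit 246)) (XT.nd (nat_lit 78) (nat_lit 76) (nat_lit 0) (XT.lf (nat_lit 0) (nat_lit 1619607488) (nat_lit 380) (nat_lit 14255643498) (nat_lit 456) (nat_lit 2039999382) (nat_lit 255) (nat_lit 5) (nat_lit 260) (nat_lit 5) (nat_lit 261) (nat_lit 5) (nat_lit 410) (nat_lit 365) (nat_lit 245)) (XT.lf (nat_lit 0) (nat_lit 1765700804) (nat_lit 456) (nat_lit 5420023497) (nat_lit 76) (nat_lit 11040784077) (nat_lit 254) (nat_lit 5) (nat_lit 260) (nat_lit 5) (nat_lit 255) (nat_lit 5) (nat_lit 411) (nat_lit 365) (nat_lit 244)))))) (XT.nd (nat_lit 468) (nat_lit 1216) (nat_lit 0) (XT.nd (nat_lit 234) (nat_lit 760) (nat_lit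 0) (XT.nd (nat_lit 78) (nat_lit 304) (nat_lit 0) (XT.lf (nat_lit 0) (nat_lit 5690178554) (nat_lit 456) (nat_lit 12688061726) (nat_lit 76) (nat_lit 166889652) (nat_lit 249) (nat_lit 5) (nat_lit 255) (nat_lit 5) (nat_lit 250) (nat_lit 5) (nat_lit 412) (nat_lit 365) (nat_lit 243)) (XT.nd (nat_lit 78) (nat_lit 304) (nat_lit 0) (XT.lf (nat_lit 0) (nat_lit 9846612569) (nat_lit 456) (nat_lit 1377164621) (nat_lit 76) (nat_lit 7646106286) (nat_lit 249) (nat_lit 5) (nat_lit 255) (nat_lit 5) (nat_lit 250) (nat_lit 5) (nat_lit 413) (nat_lit 365) (nat_lit 242)) (XT.lf (nat_lit 0) (nat_lit 10460297297) (nat_lit 304) (nat_lit 3756150987) (nat_lit 380) (nat_lit 4985270080) (nat_lit 245) (nat_lit 5) (nat_lit 249) (nat_lit 5) (nat_lit 250) (nat_lit 5) (nat_lit 414) (nat_lit 365) (nat_lit 241)))) (XT.nd (nat_lit 78) (nat_lit 380) (nat_lit 0) (XT.lf (nat_lit 0) (nat_lit 3144397035) (nat_lit 380) (nat_lit 15643376266) (nat_lit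 456) (nat_lit 753623171) (nat_lit 240) (nat_lit 5) (nat_lit 245) (nat_lit 5) (nat_lit 246) (nat_lit 5) (nat_lit 415) (nat_lit 365) (nat_lit 240)) (XT.nd (nat_lit 78) (nat_lit 304) (nat_lit 0) (XT.lf (nat_lit 0) (nat_lit 3649320339) (nat_lit 456) (nat_lit 4412434018) (nat_lit 76) (nat_lit 11825030175) (nat_lit 239) (nat_lit 5) (nat_lit 245) (nat_lit 5) (nat_lit 240) (nat_lit 5) (nat_lit 416) (nat_lit 365) (nat_lit 239)) (XT.lf (nat_lit 0) (nat_lit 8065000777) (nat_lit 304) (nat_lit 170427501) (nat_lit 380) (nat_lit 12004895410) (nat_lit 235) (nat_lit 5) (nat_lit 239) (nat_lit 5) (nat_lit 240) (nat_lit 5) (nat_lit 417) (nat_lit 365) (nat_lit 238))))) (XT.nd (nat_lit 234) (nat_lit 532) (nat_lit 0) (XT.nd (nat_lit 78) (nat_lit 380) (nat_lit 0) (XT.lf (nat_lit 0) (nat_lit 316616660) (nat_lit 304) (nat_lit 12755856087) (nat_lit 380) (nat_lit 7528595674) (nat_lit 231) (nat_lit 5) (nat_lit 235) (nat_lit 5) (nat_lit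 236) (nat_lit 5) (nat_lit 418) (nat_lit 365) (nat_lit 237)) (XT.nd (nat_lit 78) (nat_lit 380) (nat_lit 0) (XT.lf (nat_lit 0) (nat_lit 13414635686) (nat_lit 304) (nat_lit 4753595299) (nat_lit 380) (nat_lit 2800996438) (nat_lit 231) (nat_lit 5) (nat_lit 235) (nat_lit 5) (nat_lit 236) (nat_lit 5) (nat_lit 419) (nat_lit 365) (nat_lit 236)) (XT.lf (nat_lit 0) (nat_lit 2105611415) (nat_lit 380) (nat_lit 15749864084) (nat_lit 76) (nat_lit 3490032909) (nat_lit 226) (nat_lit 5) (nat_lit 231) (nat_lit 5) (nat_lit 227) (nat_lit 5) (nat_lit 420) (nat_lit 365) (nat_lit 235)))) (XT.nd (nat_lit 78) (nat_lit 532) (nat_lit 0) (XT.lf (nat_lit 0) (nat_lit 7216534135) (nat_lit 380) (nat_lit 2527473490) (nat_lit 76) (nat_lit 11984835803) (nat_lit 226) (nat_lit 5) (nat_lit 231) (nat_lit 5) (nat_lit 227) (nat_lit 5) (nat_lit 421) (nat_lit 365) (nat_lit 234)) (XT.nd (nat_lit 78) (nat_lit 228) (nat_lit 0) (XT.lf (nat_lit 0)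 (nat_lit 11296113571) (nat_lit 304) (nat_lit 1282874282) (nat_lit 380) (nat_lit 9541744546) (nat_lit 222) (nat_lit 5) (nat_lit 226) (nat_lit 5) (nat_lit 227) (nat_lit 5) (nat_lit 422) (nat_lit 365) (nat_lit 233)) (XT.lf (nat_lit 0) (nat_lit 3034117550) (nat_lit 228) (nat_lit 15184296626) (nat_lit 304) (nat_lit 4302480893) (nat_lit 219) (nat_lit 5) (nat_lit 222) (nat_lit 5) (nat_lit 223) (nat_lit 5) (nat_lit 423) (nat_lit 365) (nat_lit 232))))))) (XT.nd (nat_lit 48984) (nat_lit 0) (nat_lit 13528) (XT.nd (nat_lit 468) (nat_lit 228) (nat_lit 0) (XT.nd (nat_lit 234) (nat_lit 380) (nat_lit 0) (XT.nd (nat_lit 78) (nat_lit 532) (nat_lit 0) (XT.lf (nat_lit 0) (nat_lit 1185467970) (nat_lit 304) (nat_lit 5439621059) (nat_lit 76) (nat_lit 16304272483) (nat_lit 218) (nat_lit 5) (nat_lit 222) (nat_lit 5) (nat_lit 219) (nat_lit 5) (nat_lit 424) (nat_lit 365) (nat_lit 231)) (XT.nd (nat_lit 78) (nat_lit 228) (nat_lit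 0) (XT.lf (nat_lit 0) (nat_lit 6851888141) (nat_lit 380) (nat_lit 14219455570) (nat_lit 76) (nat_lit 2274451019) (nat_lit 214) (nat_lit 5) (nat_lit 219) (nat_lit 5) (nat_lit 215) (nat_lit 5) (nat_lit 425) (nat_lit 365) (nat_lit 230)) (XT.lf (nat_lit 0) (nat_lit 393585904) (nat_lit 228) (nat_lit 12409714941) (nat_lit 304) (nat_lit 10967970102) (nat_lit 211) (nat_lit 5) (nat_lit 214) (nat_lit 5) (nat_lit 215) (nat_lit 5) (nat_lit 426) (nat_lit 365) (nat_lit 229)))) (XT.nd (nat_lit 78) (nat_lit 380) (nat_lit 0) (XT.lf (nat_lit 0) (nat_lit 15720989523) (nat_lit 228) (nat_lit 3346141076) (nat_lit 304) (nat_lit 5138364612) (nat_lit 211) (nat_lit 5) (nat_lit 214) (nat_lit 5) (nat_lit 215) (nat_lit 5) (nat_lit 427) (nat_lit 365) (nat_lit 228)) (XT.nd (nat_lit 78) (nat_lit 0) (nat_lit 0) (XT.lf (nat_lit 0) (nat_lit 964946419) (nat_lit 380) (nat_lit 17741176887) (nat_lit 76) (nat_lit 5942901562) (nat_lit 206)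 (nat_lit 5) (nat_lit 211) (nat_lit 5) (nat_lit 207) (nat_lit 5) (nat_lit 428) (nat_lit 365) (nat_lit 227)) (XT.lf (nat_lit 0) (nat_lit 7258288961) (nat_lit 380) (nat_lit 2267576131) (nat_lit 76) (nat_lit 15575162831) (nat_lit 206) (nat_lit 5) (nat_lit 211) (nat_lit 5) (nat_lit 207) (nat_lit 5) (nat_lit 429) (nat_lit 365) (nat_lit 226))))) (XT.nd (nat_lit 48282) (nat_lit 0) (nat_lit 15504) (XT.nd (nat_lit 48126) (nat_lit 0) (nat_lit 15428) (XT.lf (nat_lit 0) (nat_lit 13865731685) (nat_lit 304) (nat_lit 11636327434) (nat_lit 76) (nat_lit 60772954) (nat_lit 203) (nat_lit 5) (nat_lit 207) (nat_lit 5) (nat_lit 204) (nat_lit 5) (nat_lit 430) (nat_lit 365) (nat_lit 225)) (XT.nd (nat_lit 78) (nat_lit 0) (nat_lit 0) (XT.lf (nat_lit 0) (nat_lit 2280357468) (nat_lit 1140) (nat_lit 1190855005) (nat_lit 1140) (nat_lit 1190855005) (nat_lit 406) (nat_lit 3) (nat_lit 421) (nat_lit 3) (nat_lit 421) (nat_lit 5) (nat_lit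 366) (nat_lit 366) (nat_lit 288)) (XT.lf (nat_lit 76) (nat_lit 2325741053) (nat_lit 0) (nat_lit 3152747297) (nat_lit 1140) (nat_lit 3960027753) (nat_lit 407) (nat_lit 5) (nat_lit 406) (nat_lit 3) (nat_lit 421) (nat_lit 5) (nat_lit 367) (nat_lit 366) (nat_lit 287)))) (XT.nd (nat_lit 78) (nat_lit 0) (nat_lit 0) (XT.lf (nat_lit 0) (nat_lit 6423009275) (nat_lit 1064) (nat_lit 2357897181) (nat_lit 1140) (nat_lit 775445796) (nat_lit 407) (nat_lit 5) (nat_lit 421) (nat_lit 5) (nat_lit 422) (nat_lit 5) (nat_lit 368) (nat_lit 366) (nat_lit 286)) (XT.nd (nat_lit 78) (nat_lit 0) (nat_lit 0) (XT.lf (nat_lit 76) (nat_lit 2540436382) (nat_lit 0) (nat_lit 4879715632) (nat_lit 1140) (nat_lit 2256842885) (nat_lit 408) (nat_lit 5) (nat_lit 407) (nat_lit 5) (nat_lit 422) (nat_lit 5) (nat_lit 369) (nat_lit 366) (nat_lit 285)) (XT.lf (nat_lit 76) (nat_lit 7616678189) (nat_lit 0) (nat_lit 823737679) (nat_lit 1140) (nat_lit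 1361044753) (nat_lit 408) (nat_lit 5) (nat_lit 407) (nat_lit 5) (nat_lit 422) (nat_lit 5) (nat_lit 370) (nat_lit 366) (nat_lit 284)))))) (XT.nd (nat_lit 468) (nat_lit 912) (nat_lit 0) (XT.nd (nat_lit 234) (nat_lit 0) (nat_lit 76) (XT.nd (nat_lit 78) (nat_lit 1140) (nat_lit 0) (XT.lf (nat_lit 76) (nat_lit 2922449485) (nat_lit 0) (nat_lit 6599581948) (nat_lit 1140) (nat_lit 406706568) (nat_lit 409) (nat_lit 5) (nat_lit 408) (nat_lit 5) (nat_lit 423) (nat_lit 5) (nat_lit 371) (nat_lit 366) (nat_lit 283)) (XT.nd (nat_lit 78) (nat_lit 0) (nat_lit 76) (XT.lf (nat_lit 0) (nat_lit 566270045) (nat_lit 1140) (nat_lit 1863691711) (nat_lit 1216) (nat_lit 7629668169) (nat_lit 393) (nat_lit 5) (nat_lit 408) (nat_lit 5) (nat_lit 409) (nat_lit 5) (nat_lit 372) (nat_lit 366) (nat_lit 282)) (XT.lf (nat_lit 0) (nat_lit 1583771337) (nat_lit 1140) (nat_lit 6733280238) (nat_lit 1216) (nat_lit 1876570932) (nat_lit 394) (nat_lit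 5) (nat_lit 409) (nat_lit 5) (nat_lit 410) (nat_lit 5) (nat_lit 373) (nat_lit 366) (nat_lit 281)))) (XT.nd (nat_lit 78) (nat_lit 0) (nat_lit 76) (XT.lf (nat_lit 0) (nat_lit 2647282837) (nat_lit 1140) (nat_lit 1391525507) (nat_lit 1216) (nat_lit 6292361969) (nat_lit 394) (nat_lit 5) (nat_lit 409) (nat_lit 5) (nat_lit 410) (nat_lit 5) (nat_lit 374) (nat_lit 366) (nat_lit 280)) (XT.nd (nat_lit 78) (nat_lit 0) (nat_lit 0) (XT.lf (nat_lit 0) (nat_lit 3760063037) (nat_lit 1140) (nat_lit 6302502407) (nat_lit 1216) (nat_lit 409758209) (nat_lit 395) (nat_lit 5) (nat_lit 410) (nat_lit 5) (nat_lit 411) (nat_lit 5) (nat_lit 375) (nat_lit 366) (nat_lit 279)) (XT.lf (nat_lit 0) (nat_lit 4934318433) (nat_lit 1140) (nat_lit 749545208) (nat_lit 1216) (nat_lit 4933005197) (nat_lit 395) (nat_lit 5) (nat_lit 410) (nat_lit 5) (nat_lit 411) (nat_lit 5) (nat_lit 376) (nat_lit 366) (nat_lit 278))))) (XT.nd (nat_lit 234) (nat_lit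 1064) (nat_lit 0) (XT.nd (nat_lit 78) (nat_lit 0) (nat_lit 76) (XT.lf (nat_lit 76) (nat_lit 5050435266) (nat_lit 0) (nat_lit 1116586705) (nat_lit 1216) (nat_lit 4598031795) (nat_lit 396) (nat_lit 5) (nat_lit 395) (nat_lit 5) (nat_lit 411) (nat_lit 5) (nat_lit 377) (nat_lit 366) (nat_lit 277)) (XT.nd (nat_lit 78) (nat_lit 0) (nat_lit 0) (XT.lf (nat_lit 76) (nat_lit 70385773) (nat_lit 0) (nat_lit 7384431986) (nat_lit 1216) (nat_lit 3462323147) (nat_lit 397) (nat_lit 5) (nat_lit 396) (nat_lit 5) (nat_lit 412) (nat_lit 5) (nat_lit 378) (nat_lit 366) (nat_lit 276)) (XT.lf (nat_lit 76) (nat_lit 6116244283) (nat_lit 0) (nat_lit 2709500797) (nat_lit 1216) (nat_lit 2246710652) (nat_lit 397) (nat_lit 5) (nat_lit 396) (nat_lit 5) (nat_lit 412) (nat_lit 5) (nat_lit 379) (nat_lit 366) (nat_lit 275)))) (XT.nd (nat_lit 78) (nat_lit 1216) (nat_lit 0) (XT.lf (nat_lit 76) (nat_lit 1093363273) (nat_lit 0) (nat_lit 9151788125)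 (nat_lit 1216) (nat_lit 987058068) (nat_lit 398) (nat_lit 5) (nat_lit 397) (nat_lit 5) (nat_lit 413) (nat_lit 5) (nat_lit 380) (nat_lit 366) (nat_lit 274)) (XT.nd (nat_lit 78) (nat_lit 0) (nat_lit 76) (XT.lf (nat_lit 0) (nat_lit 358573793) (nat_lit 1216) (nat_lit 4018593283) (nat_lit 1292) (nat_lit 7017871836) (nat_lit 381) (nat_lit 5) (nat_lit 397) (nat_lit 5) (nat_lit 398) (nat_lit 5) (nat_lit 381) (nat_lit 366) (nat_lit 273)) (XT.lf (nat_lit 0) (nat_lit 1729964027) (nat_lit 1216) (nat_lit 9266108796) (nat_lit 76) (nat_lit 566230383) (nat_lit 382) (nat_lit 5) (nat_lit 398) (nat_lit 5) (nat_lit 383) (nat_lit 5) (nat_lit 382) (nat_lit 366) (nat_lit 272))))))))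
noncomputable def xc95 : XT := (XT.nd (nat_lit 1872) (nat_lit 4940) (nat_lit 0) (XT.nd (nat_lit 936) (nat_lit 3420) (nat_lit 0) (XT.nd (nat_lit 468) (nat_lit 2356) (nat_lit 0) (XT.nd (nat_lit 234) (nat_lit 1444) (nat_lit 0) (XT.nd (nat_lit 78) (nat_lit 1216) (nat_lit 0) (XT.lf (nat_lit 0) (nat_lit 3204878504) (nat_lit 1216) (nat_lit 2913318792) (nat_lit 76) (nat_lit 5614516658) (nat_lit 382) (nat_lit 5) (nat_lit 398) (nat_lit 5) (nat_lit 383) (nat_lit 5) (nat_lit 383) (nat_lit 366) (nat_lit 271)) (XT.nd (nat_lit 78) (nat_lit 0) (nat_lit 0) (XT.lf (nat_lit 0) (nat_lit 3683472883) (nat_lit 1216) (nat_lit 1054676835) (nat_lit 1292) (nat_lit 7169664027) (nat_lit 366) (nat_lit 5) (nat_lit 382) (nat_lit 5) (nat_lit 383) (nat_lit 5) (nat_lit 384) (nat_lit 366) (nat_lit 270)) (XT.lf (nat_lit 0) (nat_lit 6366295717) (nat_lit 1292) (nat_lit 1608611661) (nat_lit 76) (nat_lit 4111792852) (nat_lit 366) (nat_lit 5)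 (nat_lit 383) (nat_lit 5) (nat_lit 367) (nat_lit 5) (nat_lit 385) (nat_lit 366) (nat_lit 269)))) (XT.nd (nat_lit 78) (nat_lit 608) (nat_lit 0) (XT.lf (nat_lit 0) (nat_lit 5279797024) (nat_lit 836) (nat_lit 2804461625) (nat_lit 912) (nat_lit 4185465484) (nat_lit 355) (nat_lit 5) (nat_lit 366) (nat_lit 5) (nat_lit 367) (nat_lit 5) (nat_lit 386) (nat_lit 366) (nat_lit 268)) (XT.nd (nat_lit 78) (nat_lit 608) (nat_lit 0) (XT.lf (nat_lit 0) (nat_lit 9874606583) (nat_lit 912) (nat_lit 93121130) (nat_lit 76) (nat_lit 2489885656) (nat_lit 355) (nat_lit 5) (nat_lit 367) (nat_lit 5) (nat_lit 356) (nat_lit 5) (nat_lit 387) (nat_lit 366) (nat_lit 267)) (XT.lf (nat_lit 0) (nat_lit 7103170857) (nat_lit 608) (nat_lit 4692324686) (nat_lit 684) (nat_lit 853338822) (nat_lit 347) (nat_lit 5) (nat_lit 355) (nat_lit 5) (nat_lit 356) (nat_lit 5) (nat_lit 388) (nat_lit 366) (nat_lit 266))))) (XT.nd (nat_lit 234) (nat_lit 1140)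 (nat_lit 0) (XT.nd (nat_lit 78) (nat_lit 532) (nat_lit 0) (XT.lf (nat_lit 0) (nat_lit 915546608) (nat_lit 684) (nat_lit 11176145096) (nat_lit 76) (nat_lit 753669399) (nat_lit 338) (nat_lit 5) (nat_lit 347) (nat_lit 5) (nat_lit 339) (nat_lit 5) (nat_lit 389) (nat_lit 366) (nat_lit 265)) (XT.nd (nat_lit 78) (nat_lit 532) (nat_lit 0) (XT.lf (nat_lit 0) (nat_lit 2804725517) (nat_lit 684) (nat_lit 3906183861) (nat_lit 76) (nat_lit 6334089453) (nat_lit 338) (nat_lit 5) (nat_lit 347) (nat_lit 5) (nat_lit 339) (nat_lit 5) (nat_lit 390) (nat_lit 366) (nat_lit 264)) (XT.lf (nat_lit 0) (nat_lit 3634506498) (nat_lit 532) (nat_lit 1132917902) (nat_lit 608) (nat_lit 8482695953) (nat_lit 331) (nat_lit 5) (nat_lit 338) (nat_lit 5) (nat_lit 339) (nat_lit 5) (nat_lit 391) (nat_lit 366) (nat_lit 263)))) (XT.nd (nat_lit 78) (nat_lit 1140) (nat_lit 0) (XT.lf (nat_lit 0) (nat_lit 6855433707) (nat_lit 608) (nat_lit 2042090843)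 (nat_lit 76) (nat_lit 4561878086) (nat_lit 331) (nat_lit 5) (nat_lit 339) (nat_lit 5) (nat_lit 332) (nat_lit 5) (nat_lit 392) (nat_lit 366) (nat_lit 262)) (XT.nd (nat_lit 78) (nat_lit 532) (nat_lit 0) (XT.lf (nat_lit 0) (nat_lit 5843347258) (nat_lit 608) (nat_lit 3212896441) (nat_lit 684) (nat_lit 4617214876) (nat_lit 323) (nat_lit 5) (nat_lit 331) (nat_lit 5) (nat_lit 332) (nat_lit 5) (nat_lit 393) (nat_lit 366) (nat_lit 261)) (XT.lf (nat_lit 0) (nat_lit 71261098) (nat_lit 532) (nat_lit 11281819504) (nat_lit 608) (nat_lit 2539955512) (nat_lit 316) (nat_lit 5) (nat_lit 323) (nat_lit 5) (nat_lit 324) (nat_lit 5) (nat_lit 394) (nat_lit 366) (nat_lit 260)))))) (XT.nd (nat_lit 468) (nat_lit 1824) (nat_lit 0) (XT.nd (nat_lit 234) (nat_lit 988) (nat_lit 0) (XT.nd (nat_lit 78) (nat_lit 608) (nat_lit 0) (XT.lf (nat_lit 0) (nat_lit 8319502933) (nat_lit 532) (nat_lit 5493297759) (nat_lit 608) (nat_lit 303580945)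 (nat_lit 316) (nat_lit 5) (nat_lit 323) (nat_lit 5) (nat_lit 324) (nat_lit 5) (nat_lit 395) (nat_lit 366) (nat_lit 259)) (XT.nd (nat_lit 78) (nat_lit 0) (nat_lit 0) (XT.lf (nat_lit 0) (nat_lit 1973348848) (nat_lit 608) (nat_lit 11870637936) (nat_lit 76) (nat_lit 501489351) (nat_lit 308) (nat_lit 5) (nat_lit 316) (nat_lit 5) (nat_lit 309) (nat_lit 5) (nat_lit 396) (nat_lit 366) (nat_lit 258)) (XT.lf (nat_lit 0) (nat_lit 4410008665) (nat_lit 608) (nat_lit 3542438757) (nat_lit 76) (nat_lit 6625980157) (nat_lit 308) (nat_lit 5) (nat_lit 316) (nat_lit 5) (nat_lit 309) (nat_lit 5) (nat_lit 397) (nat_lit 366) (nat_lit 257)))) (XT.nd (nat_lit 78) (nat_lit 532) (nat_lit 0) (XT.lf (nat_lit 0) (nat_lit 5117690453) (nat_lit 456) (nat_lit 1835755725) (nat_lit 532) (nat_lit 7863911053) (nat_lit 302) (nat_lit 5) (nat_lit 308) (nat_lit 5) (nat_lit 309) (nat_lit 5) (nat_lit 398) (nat_lit 366) (nat_lit 256)) (XT.nd (nat_lit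 78) (nat_lit 532) (nat_lit 0) (XT.lf (nat_lit 0) (nat_lit 9636970994) (nat_lit 532) (nat_lit 1013451038) (nat_lit 76) (nat_lit 4411119214) (nat_lit 302) (nat_lit 5) (nat_lit 309) (nat_lit 5) (nat_lit 303) (nat_lit 5) (nat_lit 399) (nat_lit 366) (nat_lit 255)) (XT.lf (nat_lit 0) (nat_lit 8054839345) (nat_lit 532) (nat_lit 4426953837) (nat_lit 608) (nat_lit 2828833852) (nat_lit 295) (nat_lit 5) (nat_lit 302) (nat_lit 5) (nat_lit 303) (nat_lit 5) (nat_lit 400) (nat_lit 366) (nat_lit 254))))) (XT.nd (nat_lit 234) (nat_lit 836) (nat_lit 0) (XT.nd (nat_lit 78) (nat_lit 532) (nat_lit 0) (XT.lf (nat_lit 0) (nat_lit 1848222259) (nat_lit 456) (nat_lit 13596328742) (nat_lit 532) (nat_lit 121656664) (nat_lit 289) (nat_lit 5) (nat_lit 295) (nat_lit 5) (nat_lit 296) (nat_lit 5) (nat_lit 401) (nat_lit 366) (nat_lit 253)) (XT.nd (nat_lit 78) (nat_lit 456) (nat_lit 0) (XT.lf (nat_lit 0) (nat_lit 2718063479) (nat_lit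 532) (nat_lit 4541226099) (nat_lit 76) (nat_lit 8566296151) (nat_lit 288) (nat_lit 5) (nat_lit 295) (nat_lit 5) (nat_lit 289) (nat_lit 5) (nat_lit 402) (nat_lit 366) (nat_lit 252)) (XT.lf (nat_lit 0) (nat_lit 4989651380) (nat_lit 456) (nat_lit 684802803) (nat_lit 532) (nat_lit 10417237093) (nat_lit 282) (nat_lit 5) (nat_lit 288) (nat_lit 5) (nat_lit 289) (nat_lit 5) (nat_lit 403) (nat_lit 366) (nat_lit 251)))) (XT.nd (nat_lit 78) (nat_lit 836) (nat_lit 0) (XT.lf (nat_lit 0) (nat_lit 8810531173) (nat_lit 532) (nat_lit 1541381088) (nat_lit 76) (nat_lit 6011137891) (nat_lit 282) (nat_lit 5) (nat_lit 289) (nat_lit 5) (nat_lit 283) (nat_lit 5) (nat_lit 404) (nat_lit 366) (nat_lit 250)) (XT.nd (nat_lit 78) (nat_lit 456) (nat_lit 0) (XT.lf (nat_lit 0) (nat_lit 8447104608) (nat_lit 380) (nat_lit 3668139455) (nat_lit 456) (nat_lit 4525069124) (nat_lit 277) (nat_lit 5) (nat_lit 282) (nat_lit 5) (nat_lit 283) (nat_lit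 5) (nat_lit 405) (nat_lit 366) (nat_lit 249)) (XT.lf (nat_lit 0) (nat_lit 1828791678) (nat_lit 456) (nat_lit 13741288737) (nat_lit 532) (nat_lit 1354284234) (nat_lit 271) (nat_lit 5) (nat_lit 277) (nat_lit 5) (nat_lit 278) (nat_lit 5) (nat_lit 406) (nat_lit 366) (nat_lit 248))))))) (XT.nd (nat_lit 936) (nat_lit 2204) (nat_lit 0) (XT.nd (nat_lit 468) (nat_lit 1444) (nat_lit 0) (XT.nd (nat_lit 234) (nat_lit 836) (nat_lit 0) (XT.nd (nat_lit 78) (nat_lit 380) (nat_lit 0) (XT.lf (nat_lit 0) (nat_lit 1981054741) (nat_lit 532) (nat_lit 4967895941) (nat_lit 76) (nat_lit 10264233707) (nat_lit 270) (nat_lit 5) (nat_lit 277) (nat_lit 5) (nat_lit 271) (nat_lit 5) (nat_lit 407) (nat_lit 366) (nat_lit 247)) (XT.nd (nat_lit 78) (nat_lit 0) (nat_lit 0) (XT.lf (nat_lit 0) (nat_lit 5430820052) (nat_lit 456) (nat_lit 11968615133) (nat_lit 76) (nat_lit 109583695) (nat_lit 265) (nat_lit 5) (nat_lit 271) (nat_lit 5) (nat_lit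 266) (nat_lit 5) (nat_lit 408) (nat_lit 366) (nat_lit 246)) (XT.lf (nat_lit 0) (nat_lit 9090957534) (nat_lit 456) (nat_lit 1432731147) (nat_lit 76) (nat_lit 7286833349) (nat_lit 265) (nat_lit 5) (nat_lit 271) (nat_lit 5) (nat_lit 266) (nat_lit 5) (nat_lit 409) (nat_lit 366) (nat_lit 245)))) (XT.nd (nat_lit 78) (nat_lit 456) (nat_lit 0) (XT.lf (nat_lit 0) (nat_lit 9589858188) (nat_lit 380) (nat_lit 3351006106) (nat_lit 456) (nat_lit 5177807024) (nat_lit 260) (nat_lit 5) (nat_lit 265) (nat_lit 5) (nat_lit 266) (nat_lit 5) (nat_lit 410) (nat_lit 366) (nat_lit 244)) (XT.nd (nat_lit 78) (nat_lit 76) (nat_lit 0) (XT.lf (nat_lit 0) (nat_lit 2530636501) (nat_lit 380) (nat_lit 14441312352) (nat_lit 456) (nat_lit 1462145816) (nat_lit 255) (nat_lit 5) (nat_lit 260) (nat_lit 5) (nat_lit 261) (nat_lit 5) (nat_lit 411) (nat_lit 366) (nat_lit 243)) (XT.lf (nat_lit 0) (nat_lit 2427005139) (nat_lit 456) (nat_lit 4733196023)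 (nat_lit 76) (nat_lit 11594852468) (nat_lit 254) (nat_lit 5) (nat_lit 260) (nat_lit 5) (nat_lit 255) (nat_lit 5) (nat_lit 412) (nat_lit 366) (nat_lit 242))))) (XT.nd (nat_lit 234) (nat_lit 760) (nat_lit 0) (XT.nd (nat_lit 78) (nat_lit 304) (nat_lit 0) (XT.lf (nat_lit 0) (nat_lit 6461914049) (nat_lit 456) (nat_lit 12211972226) (nat_lit 76) (nat_lit 409566651) (nat_lit 249) (nat_lit 5) (nat_lit 255) (nat_lit 5) (nat_lit 250) (nat_lit 5) (nat_lit 413) (nat_lit 366) (nat_lit 241)) (XT.nd (nat_lit 78) (nat_lit 304) (nat_lit 0) (XT.lf (nat_lit 0) (nat_lit 10725535352) (nat_lit 456) (nat_lit 586701548) (nat_lit 76) (nat_lit 8106237348) (nat_lit 249) (nat_lit 5) (nat_lit 255) (nat_lit 5) (nat_lit 250) (nat_lit 5) (nat_lit 414) (nat_lit 366) (nat_lit 240)) (XT.lf (nat_lit 0) (nat_lit 11597729541) (nat_lit 304) (nat_lit 3619657912) (nat_lit 380) (nat_lit 4543149090) (nat_lit 245) (nat_lit 5) (nat_lit 249) (nat_lit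 5) (nat_lit 250) (nat_lit 5) (nat_lit 415) (nat_lit 366) (nat_lit 239)))) (XT.nd (nat_lit 78) (nat_lit 380) (nat_lit 0) (XT.lf (nat_lit 0) (nat_lit 4068970186) (nat_lit 380) (nat_lit 15850456877) (nat_lit 456) (nat_lit 191170688) (nat_lit 240) (nat_lit 5) (nat_lit 245) (nat_lit 5) (nat_lit 246) (nat_lit 5) (nat_lit 416) (nat_lit 366) (nat_lit 238)) (XT.nd (nat_lit 78) (nat_lit 304) (nat_lit 0) (XT.lf (nat_lit 0) (nat_lit 4315736384) (nat_lit 456) (nat_lit 3727663456) (nat_lit 76) (nat_lit 12423280135) (nat_lit 239) (nat_lit 5) (nat_lit 245) (nat_lit 5) (nat_lit 240) (nat_lit 5) (nat_lit 417) (nat_lit 366) (nat_lit 237)) (XT.lf (nat_lit 0) (nat_lit 9031802014) (nat_lit 380) (nat_lit 11715813467) (nat_lit 76) (nat_lit 83438591) (nat_lit 235) (nat_lit 5) (nat_lit 240) (nat_lit 5) (nat_lit 236) (nat_lit 5) (nat_lit 418) (nat_lit 366) (nat_lit 236)))))) (XT.nd (nat_lit 468) (nat_lit 988) (nat_lit 0) (XT.nd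 (nat_lit 234) (nat_lit 532) (nat_lit 0) (XT.nd (nat_lit 78) (nat_lit 380) (nat_lit 0) (XT.lf (nat_lit 0) (nat_lit 1141127461) (nat_lit 304) (nat_lit 12866303658) (nat_lit 380) (nat_lit 7195385828) (nat_lit 231) (nat_lit 5) (nat_lit 235) (nat_lit 5) (nat_lit 236) (nat_lit 5) (nat_lit 419) (nat_lit 366) (nat_lit 235)) (XT.nd (nat_lit 78) (nat_lit 380) (nat_lit 0) (XT.lf (nat_lit 0) (nat_lit 14608348836) (nat_lit 304) (nat_lit 4631904020) (nat_lit 380) (nat_lit 2342242141) (nat_lit 231) (nat_lit 5) (nat_lit 235) (nat_lit 5) (nat_lit 236) (nat_lit 5) (nat_lit 420) (nat_lit 366) (nat_lit 234)) (XT.lf (nat_lit 0) (nat_lit 2695696306) (nat_lit 380) (nat_lit 15415218285) (nat_lit 76) (nat_lit 3859151573) (nat_lit 226) (nat_lit 5) (nat_lit 231) (nat_lit 5) (nat_lit 227) (nat_lit 5) (nat_lit 421) (nat_lit 366) (nat_lit 233)))) (XT.nd (nat_lit 78) (nat_lit 532) (nat_lit 0) (XT.lf (nat_lit 0) (nat_lit 7944599623)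 (nat_lit 380) (nat_lit 1819664955) (nat_lit 76) (nat_lit 12601097069) (nat_lit 226) (nat_lit 5) (nat_lit 231) (nat_lit 5) (nat_lit 227) (nat_lit 5) (nat_lit 422) (nat_lit 366) (nat_lit 232)) (XT.nd (nat_lit 78) (nat_lit 228) (nat_lit 0) (XT.lf (nat_lit 0) (nat_lit 12410947043) (nat_lit 304) (nat_lit 1049538735) (nat_lit 380) (nat_lit 9308744744) (nat_lit 222) (nat_lit 5) (nat_lit 226) (nat_lit 5) (nat_lit 227) (nat_lit 5) (nat_lit 423) (nat_lit 366) (nat_lit 231)) (XT.lf (nat_lit 0) (nat_lit 3905872063) (nat_lit 228) (nat_lit 15358581155) (nat_lit 304) (nat_lit 3917084103) (nat_lit 219) (nat_lit 5) (nat_lit 222) (nat_lit 5) (nat_lit 223) (nat_lit 5) (nat_lit 424) (nat_lit 366) (nat_lit 230))))) (XT.nd (nat_lit 234) (nat_lit 380) (nat_lit 0) (XT.nd (nat_lit 78) (nat_lit 532) (nat_lit 0) (XT.lf (nat_lit 0) (nat_lit 1710771843) (nat_lit 304) (nat_lit 4835071659) (nat_lit 76) (nat_lit 17056706660) (nat_lit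 218) (nat_lit 5) (nat_lit 222) (nat_lit 5) (nat_lit 219) (nat_lit 5) (nat_lit 425) (nat_lit 366) (nat_lit 229)) (XT.nd (nat_lit 78) (nat_lit 228) (nat_lit 0) (XT.lf (nat_lit 0) (nat_lit 7542894776) (nat_lit 380) (nat_lit 13874011361) (nat_lit 76) (nat_lit 2614698936) (nat_lit 214) (nat_lit 5) (nat_lit 219) (nat_lit 5) (nat_lit 215) (nat_lit 5) (nat_lit 426) (nat_lit 366) (nat_lit 228)) (XT.lf (nat_lit 0) (nat_lit 1169852457) (nat_lit 228) (nat_lit 12496206531) (nat_lit 304) (nat_lit 10803990314) (nat_lit 211) (nat_lit 5) (nat_lit 214) (nat_lit 5) (nat_lit 215) (nat_lit 5) (nat_lit 427) (nat_lit 366) (nat_lit 227)))) (XT.nd (nat_lit 78) (nat_lit 380) (nat_lit 0) (XT.lf (nat_lit 0) (nat_lit 16934812389) (nat_lit 228) (nat_lit 3169049718) (nat_lit 304) (nat_lit 4813856432) (nat_lit 211) (nat_lit 5) (nat_lit 214) (nat_lit 5) (nat_lit 215) (nat_lit 5) (nat_lit 428) (nat_lit 366) (nat_lit 226)) (XT.nd (nat_lit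 78) (nat_lit 0) (nat_lit 0) (XT.lf (nat_lit 0) (nat_lit 1459402095) (nat_lit 380) (nat_lit 17518067179) (nat_lit 76) (nat_lit 6397061123) (nat_lit 206) (nat_lit 5) (nat_lit 211) (nat_lit 5) (nat_lit 207) (nat_lit 5) (nat_lit 429) (nat_lit 366) (nat_lit 225)) (XT.lf (nat_lit 0) (nat_lit 7927986449) (nat_lit 380) (nat_lit 1602258740) (nat_lit 76) (nat_lit 16310255108) (nat_lit 206) (nat_lit 5) (nat_lit 211) (nat_lit 5) (nat_lit 207) (nat_lit 5) (nat_lit 430) (nat_lit 366) (nat_lit 224))))))))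
noncomputable def xc96 : XT := (XT.nd (nat_lit 1794) (nat_lit 6992) (nat_lit 0) (XT.nd (nat_lit 858) (nat_lit 3496) (nat_lit 0) (XT.nd (nat_lit 390) (nat_lit 0) (nat_lit 76) (XT.nd (nat_lit 156) (nat_lit 1064) (nat_lit 0) (XT.nd (nat_lit 78) (nat_lit 0) (nat_lit 0) (XT.lf (nat_lit 0) (nat_lit 3167824746) (nat_lit 1140) (nat_lit 804766530) (nat_lit 1140) (nat_lit 804766530) (nat_lit 406) (nat_lit 3) (nat_lit 421) (nat_lit 3) (nat_lit 421) (nat_lit 5) (nat_lit 367) (nat_lit 367) (nat_lit 286)) (XT.lf (nat_lit 76) (nat_lit 3230870670) (nat_lit 0) (nat_lit 4010403372) (nat_lit 1140) (nat_lit 2432444613) (nat_lit 407) (nat_lit 5) (nat_lit 406) (nat_lit 3) (nat_lit 421) (nat_lit 5) (nat_lit 368) (nat_lit 367) (nat_lit 285))) (XT.nd (nat_lit 78) (nat_lit 1140) (nat_lit 0) (XT.lf (nat_lit 0) (nat_lit 8160452864) (nat_lit 1064) (nat_lit 1563929779) (nat_lit 1140) (nat_lit 72317577) (nat_lit 407) (nat_lit 5) (nat_lit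 421) (nat_lit 5) (nat_lit 422) (nat_lit 5) (nat_lit 369) (nat_lit 367) (nat_lit 284)) (XT.nd (nat_lit 78) (nat_lit 1140) (nat_lit 0) (XT.lf (nat_lit 76) (nat_lit 3472876297) (nat_lit 0) (nat_lit 5677871349) (nat_lit 1140) (nat_lit 771317368) (nat_lit 408) (nat_lit 5) (nat_lit 407) (nat_lit 5) (nat_lit 422) (nat_lit 5) (nat_lit 370) (nat_lit 367) (nat_lit 283)) (XT.lf (nat_lit 0) (nat_lit 104044290) (nat_lit 1140) (nat_lit 1376135699) (nat_lit 1216) (nat_lit 8571371779) (nat_lit 392) (nat_lit 5) (nat_lit 407) (nat_lit 5) (nat_lit 408) (nat_lit 5) (nat_lit 371) (nat_lit 367) (nat_lit 282))))) (XT.nd (nat_lit 234) (nat_lit 0) (nat_lit 76) (XT.nd (nat_lit 78) (nat_lit 0) (nat_lit 0) (XT.lf (nat_lit 0) (nat_lit 1027273921) (nat_lit 1140) (nat_lit 6311178411) (nat_lit 1216) (nat_lit 2845128394) (nat_lit 393) (nat_lit 5) (nat_lit 408) (nat_lit 5) (nat_lit 409) (nat_lit 5) (nat_lit 372) (nat_lit 367) (nat_lit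 281)) (XT.nd (nat_lit 78) (nat_lit 0) (nat_lit 76) (XT.lf (nat_lit 0) (nat_lit 1979381726) (nat_lit 1140) (nat_lit 1044581139) (nat_lit 1216) (nat_lit 7295572250) (nat_lit 393) (nat_lit 5) (nat_lit 408) (nat_lit 5) (nat_lit 409) (nat_lit 5) (nat_lit 373) (nat_lit 367) (nat_lit 280)) (XT.lf (nat_lit 0) (nat_lit 2990292248) (nat_lit 1140) (nat_lit 6023141512) (nat_lit 1216) (nat_lit 1445227189) (nat_lit 394) (nat_lit 5) (nat_lit 409) (nat_lit 5) (nat_lit 410) (nat_lit 5) (nat_lit 374) (nat_lit 367) (nat_lit 279)))) (XT.nd (nat_lit 78) (nat_lit 0) (nat_lit 76) (XT.lf (nat_lit 0) (nat_lit 4046126342) (nat_lit 1140) (nat_lit 547701241) (nat_lit 1216) (nat_lit 6007695089) (nat_lit 394) (nat_lit 5) (nat_lit 409) (nat_lit 5) (nat_lit 410) (nat_lit 5) (nat_lit 375) (nat_lit 367) (nat_lit 278)) (XT.nd (nat_lit 78) (nat_lit 0) (nat_lit 0) (XT.lf (nat_lit 0) (nat_lit 5158323724) (nat_lit 1140) (nat_lit 5572041225)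 (nat_lit 1216) (nat_lit 17564649) (nat_lit 395) (nat_lit 5) (nat_lit 410) (nat_lit 5) (nat_lit 411) (nat_lit 5) (nat_lit 376) (nat_lit 367) (nat_lit 277)) (XT.lf (nat_lit 76) (nat_lit 123124686) (nat_lit 0) (nat_lit 6208425099) (nat_lit 1216) (nat_lit 4566349065) (nat_lit 396) (nat_lit 5) (nat_lit 395) (nat_lit 5) (nat_lit 411) (nat_lit 5) (nat_lit 377) (nat_lit 367) (nat_lit 276)))))) (XT.nd (nat_lit 468) (nat_lit 2660) (nat_lit 0) (XT.nd (nat_lit 234) (nat_lit 1064) (nat_lit 0) (XT.nd (nat_lit 78) (nat_lit 0) (nat_lit 76) (XT.lf (nat_lit 76) (nat_lit 6085949483) (nat_lit 0) (nat_lit 1486248910) (nat_lit 1216) (nat_lit 3479202012) (nat_lit 396) (nat_lit 5) (nat_lit 395) (nat_lit 5) (nat_lit 411) (nat_lit 5) (nat_lit 378) (nat_lit 367) (nat_lit 275)) (XT.nd (nat_lit 78) (nat_lit 0) (nat_lit 0) (XT.lf (nat_lit 76) (nat_lit 987277667) (nat_lit 0) (nat_lit 7881467706) (nat_lit 1216) (nat_lit 2340201268)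 (nat_lit 397) (nat_lit 5) (nat_lit 396) (nat_lit 5) (nat_lit 412) (nat_lit 5) (nat_lit 379) (nat_lit 367) (nat_lit 274)) (XT.lf (nat_lit 76) (nat_lit 7187867845) (nat_lit 0) (nat_lit 3058264230) (nat_lit 1216) (nat_lit 1123828889) (nat_lit 397) (nat_lit 5) (nat_lit 396) (nat_lit 5) (nat_lit 412) (nat_lit 5) (nat_lit 380) (nat_lit 367) (nat_lit 273)))) (XT.nd (nat_lit 78) (nat_lit 0) (nat_lit 0) (XT.lf (nat_lit 0) (nat_lit 142607803) (nat_lit 1216) (nat_lit 9494258136) (nat_lit 1292) (nat_lit 1898419835) (nat_lit 381) (nat_lit 5) (nat_lit 397) (nat_lit 5) (nat_lit 398) (nat_lit 5) (nat_lit 381) (nat_lit 367) (nat_lit 272)) (XT.nd (nat_lit 78) (nat_lit 0) (nat_lit 76) (XT.lf (nat_lit 0) (nat_lit 1475582195) (nat_lit 1216) (nat_lit 3227519439) (nat_lit 1292) (nat_lit 7000600910) (nat_lit 381) (nat_lit 5) (nat_lit 397) (nat_lit 5) (nat_lit 398) (nat_lit 5) (nat_lit 382) (nat_lit 367) (nat_lit 271)) (XT.lf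 (nat_lit 0) (nat_lit 2862840076) (nat_lit 1216) (nat_lit 8607186358) (nat_lit 76) (nat_lit 406716555) (nat_lit 382) (nat_lit 5) (nat_lit 398) (nat_lit 5) (nat_lit 383) (nat_lit 5) (nat_lit 383) (nat_lit 367) (nat_lit 270))))) (XT.nd (nat_lit 234) (nat_lit 1520) (nat_lit 0) (XT.nd (nat_lit 78) (nat_lit 1216) (nat_lit 0) (XT.lf (nat_lit 0) (nat_lit 4350517217) (nat_lit 1216) (nat_lit 2091101168) (nat_lit 76) (nat_lit 5611592217) (nat_lit 382) (nat_lit 5) (nat_lit 398) (nat_lit 5) (nat_lit 383) (nat_lit 5) (nat_lit 384) (nat_lit 367) (nat_lit 269)) (XT.nd (nat_lit 78) (nat_lit 0) (nat_lit 0) (XT.lf (nat_lit 0) (nat_lit 4694676441) (nat_lit 1216) (nat_lit 1213200461) (nat_lit 1292) (nat_lit 6326343775) (nat_lit 366) (nat_lit 5) (nat_lit 382) (nat_lit 5) (nat_lit 383) (nat_lit 5) (nat_lit 385) (nat_lit 367) (nat_lit 268)) (XT.lf (nat_lit 0) (nat_lit 7553753532) (nat_lit 1292) (nat_lit 751290853) (nat_lit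 76) (nat_lit 4114362783) (nat_lit 366) (nat_lit 5) (nat_lit 383) (nat_lit 5) (nat_lit 367) (nat_lit 5) (nat_lit 386) (nat_lit 367) (nat_lit 267)))) (XT.nd (nat_lit 78) (nat_lit 684) (nat_lit 0) (XT.lf (nat_lit 0) (nat_lit 6334891865) (nat_lit 836) (nat_lit 2967959758) (nat_lit 912) (nat_lit 3305682278) (nat_lit 355) (nat_lit 5) (nat_lit 366) (nat_lit 5) (nat_lit 367) (nat_lit 5) (nat_lit 387) (nat_lit 367) (nat_lit 266)) (XT.nd (nat_lit 78) (nat_lit 76) (nat_lit 0) (XT.lf (nat_lit 0) (nat_lit 819836385) (nat_lit 608) (nat_lit 10305784617) (nat_lit 684) (nat_lit 1677077483) (nat_lit 347) (nat_lit 5) (nat_lit 355) (nat_lit 5) (nat_lit 356) (nat_lit 5) (nat_lit 388) (nat_lit 367) (nat_lit 265)) (XT.lf (nat_lit 0) (nat_lit 75279368) (nat_lit 684) (nat_lit 4794002963) (nat_lit 76) (nat_lit 8131158521) (nat_lit 346) (nat_lit 5) (nat_lit 355) (nat_lit 5) (nat_lit 347) (nat_lit 5) (nat_lit 389) (nat_lit 367)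 (nat_lit 264))))))) (XT.nd (nat_lit 936) (nat_lit 3116) (nat_lit 0) (XT.nd (nat_lit 468) (nat_lit 1596) (nat_lit 0) (XT.nd (nat_lit 234) (nat_lit 1140) (nat_lit 0) (XT.nd (nat_lit 78) (nat_lit 532) (nat_lit 0) (XT.lf (nat_lit 0) (nat_lit 1861273822) (nat_lit 684) (nat_lit 10583041622) (nat_lit 76) (nat_lit 758858668) (nat_lit 338) (nat_lit 5) (nat_lit 347) (nat_lit 5) (nat_lit 339) (nat_lit 5) (nat_lit 390) (nat_lit 367) (nat_lit 263)) (XT.nd (nat_lit 78) (nat_lit 532) (nat_lit 0) (XT.lf (nat_lit 0) (nat_lit 3780382637) (nat_lit 684) (nat_lit 3122021973) (nat_lit 76) (nat_lit 6507198726) (nat_lit 338) (nat_lit 5) (nat_lit 347) (nat_lit 5) (nat_lit 339) (nat_lit 5) (nat_lit 391) (nat_lit 367) (nat_lit 262)) (XT.lf (nat_lit 0) (nat_lit 4636052358) (nat_lit 532) (nat_lit 1148523021) (nat_lit 608) (nat_lit 7836824737) (nat_lit 331) (nat_lit 5) (nat_lit 338) (nat_lit 5) (nat_lit 339) (nat_lit 5) (nat_lit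 392) (nat_lit 367) (nat_lit 261)))) (XT.nd (nat_lit 78) (nat_lit 1140) (nat_lit 0) (XT.lf (nat_lit 0) (nat_lit 7909936475) (nat_lit 608) (nat_lit 1211549870) (nat_lit 76) (nat_lit 4716233177) (nat_lit 331) (nat_lit 5) (nat_lit 339) (nat_lit 5) (nat_lit 332) (nat_lit 5) (nat_lit 393) (nat_lit 367) (nat_lit 260)) (XT.nd (nat_lit 78) (nat_lit 532) (nat_lit 0) (XT.lf (nat_lit 0) (nat_lit 6901708201) (nat_lit 608) (nat_lit 3258827597) (nat_lit 684) (nat_lit 3898148391) (nat_lit 323) (nat_lit 5) (nat_lit 331) (nat_lit 5) (nat_lit 332) (nat_lit 5) (nat_lit 394) (nat_lit 367) (nat_lit 259)) (XT.lf (nat_lit 0) (nat_lit 972055004) (nat_lit 532) (nat_lit 11539081496) (nat_lit 608) (nat_lit 1774166794) (nat_lit 316) (nat_lit 5) (nat_lit 323) (nat_lit 5) (nat_lit 324) (nat_lit 5) (nat_lit 395) (nat_lit 367) (nat_lit 258))))) (XT.nd (nat_lit 234) (nat_lit 988) (nat_lit 0) (XT.nd (nat_lit 78) (nat_lit 532) (nat_lit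 0) (XT.lf (nat_lit 0) (nat_lit 494925124) (nat_lit 608) (nat_lit 5079346034) (nat_lit 76) (nat_lit 8941646747) (nat_lit 315) (nat_lit 5) (nat_lit 323) (nat_lit 5) (nat_lit 316) (nat_lit 5) (nat_lit 396) (nat_lit 367) (nat_lit 257)) (XT.nd (nat_lit 78) (nat_lit 0) (nat_lit 0) (XT.lf (nat_lit 0) (nat_lit 2820067501) (nat_lit 608) (nat_lit 11324330159) (nat_lit 76) (nat_lit 607817213) (nat_lit 308) (nat_lit 5) (nat_lit 316) (nat_lit 5) (nat_lit 309) (nat_lit 5) (nat_lit 397) (nat_lit 367) (nat_lit 256)) (XT.lf (nat_lit 0) (nat_lit 5306889690) (nat_lit 608) (nat_lit 2772569284) (nat_lit 76) (nat_lit 6913384010) (nat_lit 308) (nat_lit 5) (nat_lit 316) (nat_lit 5) (nat_lit 309) (nat_lit 5) (nat_lit 398) (nat_lit 367) (nat_lit 255)))) (XT.nd (nat_lit 78) (nat_lit 532) (nat_lit 0) (XT.lf (nat_lit 0) (nat_lit 6138774168) (nat_lit 456) (nat_lit 1773926268) (nat_lit 532) (nat_lit 7326657986) (nat_lit 302) (nat_lit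 5) (nat_lit 308) (nat_lit 5) (nat_lit 309) (nat_lit 5) (nat_lit 399) (nat_lit 367) (nat_lit 254)) (XT.nd (nat_lit 78) (nat_lit 532) (nat_lit 0) (XT.lf (nat_lit 0) (nat_lit 10655958383) (nat_lit 532) (nat_lit 180797489) (nat_lit 76) (nat_lit 4654735264) (nat_lit 302) (nat_lit 5) (nat_lit 309) (nat_lit 5) (nat_lit 303) (nat_lit 5) (nat_lit 400) (nat_lit 367) (nat_lit 253)) (XT.lf (nat_lit 0) (nat_lit 9151080262) (nat_lit 532) (nat_lit 4422001281) (nat_lit 608) (nat_lit 2175359264) (nat_lit 295) (nat_lit 5) (nat_lit 302) (nat_lit 5) (nat_lit 303) (nat_lit 5) (nat_lit 401) (nat_lit 367) (nat_lit 252)))))) (XT.nd (nat_lit 468) (nat_lit 1292) (nat_lit 0) (XT.nd (nat_lit 234) (nat_lit 836) (nat_lit 0) (XT.nd (nat_lit 78) (nat_lit 456) (nat_lit 0) (XT.lf (nat_lit 0) (nat_lit 589692647) (nat_lit 532) (nat_lit 13247938940) (nat_lit 76) (nat_lit 2174221829) (nat_lit 288) (nat_lit 5) (nat_lit 295) (nat_lit 5) (nat_lit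 289) (nat_lit 5) (nat_lit 402) (nat_lit 367) (nat_lit 251)) (XT.nd (nat_lit 78) (nat_lit 456) (nat_lit 0) (XT.lf (nat_lit 0) (nat_lit 3491405221) (nat_lit 532) (nat_lit 3822723555) (nat_lit 76) (nat_lit 8965470530) (nat_lit 288) (nat_lit 5) (nat_lit 295) (nat_lit 5) (nat_lit 289) (nat_lit 5) (nat_lit 403) (nat_lit 367) (nat_lit 250)) (XT.lf (nat_lit 0) (nat_lit 5985700451) (nat_lit 456) (nat_lit 538773411) (nat_lit 532) (nat_lit 10029574571) (nat_lit 282) (nat_lit 5) (nat_lit 288) (nat_lit 5) (nat_lit 289) (nat_lit 5) (nat_lit 404) (nat_lit 367) (nat_lit 249)))) (XT.nd (nat_lit 78) (nat_lit 836) (nat_lit 0) (XT.lf (nat_lit 0) (nat_lit 9736388137) (nat_lit 532) (nat_lit 747669214) (nat_lit 76) (nat_lit 6350038074) (nat_lit 282) (nat_lit 5) (nat_lit 289) (nat_lit 5) (nat_lit 283) (nat_lit 5) (nat_lit 405) (nat_lit 367) (nat_lit 248)) (XT.nd (nat_lit 78) (nat_lit 456) (nat_lit 0) (XT.lf (nat_lit 0) (nat_lit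 9532236216) (nat_lit 380) (nat_lit 3596732998) (nat_lit 456) (nat_lit 3991045332) (nat_lit 277) (nat_lit 5) (nat_lit 282) (nat_lit 5) (nat_lit 283) (nat_lit 5) (nat_lit 406) (nat_lit 367) (nat_lit 247)) (XT.lf (nat_lit 0) (nat_lit 2724809461) (nat_lit 456) (nat_lit 13953480457) (nat_lit 532) (nat_lit 734572458) (nat_lit 271) (nat_lit 5) (nat_lit 277) (nat_lit 5) (nat_lit 278) (nat_lit 5) (nat_lit 407) (nat_lit 367) (nat_lit 246))))) (XT.nd (nat_lit 234) (nat_lit 836) (nat_lit 0) (XT.nd (nat_lit 78) (nat_lit 380) (nat_lit 0) (XT.lf (nat_lit 0) (nat_lit 2669083165) (nat_lit 532) (nat_lit 4287768110) (nat_lit 76) (nat_lit 10753870742) (nat_lit 270) (nat_lit 5) (nat_lit 277) (nat_lit 5) (nat_lit 271) (nat_lit 5) (nat_lit 408) (nat_lit 367) (nat_lit 245)) (XT.nd (nat_lit 78) (nat_lit 0) (nat_lit 0) (XT.lf (nat_lit 0) (nat_lit 6213875056) (nat_lit 456) (nat_lit 11490042499) (nat_lit 76) (nat_lit 311767979)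 (nat_lit 265) (nat_lit 5) (nat_lit 271) (nat_lit 5) (nat_lit 266) (nat_lit 5) (nat_lit 409) (nat_lit 367) (nat_lit 244)) (XT.lf (nat_lit 0) (nat_lit 9965754612) (nat_lit 456) (nat_lit 662479015) (nat_lit 76) (nat_lit 7698542013) (nat_lit 265) (nat_lit 5) (nat_lit 271) (nat_lit 5) (nat_lit 266) (nat_lit 5) (nat_lit 410) (nat_lit 367) (nat_lit 243)))) (XT.nd (nat_lit 78) (nat_lit 456) (nat_lit 0) (XT.lf (nat_lit 0) (nat_lit 10682815117) (nat_lit 380) (nat_lit 3238548150) (nat_lit 456) (nat_lit 4723100000) (nat_lit 260) (nat_lit 5) (nat_lit 265) (nat_lit 5) (nat_lit 266) (nat_lit 5) (nat_lit 411) (nat_lit 367) (nat_lit 242)) (XT.nd (nat_lit 78) (nat_lit 76) (nat_lit 0) (XT.lf (nat_lit 0) (nat_lit 3419488755) (nat_lit 380) (nat_lit 14646443087) (nat_lit 456) (nat_lit 903640932) (nat_lit 255) (nat_lit 5) (nat_lit 260) (nat_lit 5) (nat_lit 261) (nat_lit 5) (nat_lit 412) (nat_lit 367) (nat_lit 241)) (XT.lf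 (nat_lit 0) (nat_lit 3073227784) (nat_lit 456) (nat_lit 4074524376) (nat_lit 76) (nat_lit 12152750704) (nat_lit 254) (nat_lit 5) (nat_lit 260) (nat_lit 5) (nat_lit 255) (nat_lit 5) (nat_lit 413) (nat_lit 367) (nat_lit 240))))))))
noncomputable def xc97 : XT := (XT.nd (nat_lit 50076) (nat_lit 0) (nat_lit 7372) (XT.nd (nat_lit 858) (nat_lit 836) (nat_lit 0) (XT.nd (nat_lit 390) (nat_lit 1292) (nat_lit 0) (XT.nd (nat_lit 156) (nat_lit 456) (nat_lit 0) (XT.nd (nat_lit 78) (nat_lit 304) (nat_lit 0) (XT.lf (nat_lit 0) (nat_lit 7222300020) (nat_lit 456) (nat_lit 11770779925) (nat_lit 76) (nat_lit 645880712) (nat_lit 249) (nat_lit 5) (nat_lit 255) (nat_lit 5) (nat_lit 250) (nat_lit 5) (nat_lit 414) (nat_lit 367) (nat_lit 239)) (XT.lf (nat_lit 0) (nat_lit 183304895) (nat_lit 304) (nat_lit 11415786274) (nat_lit 380) (nat_lit 8385383613) (nat_lit 245) (nat_lit 5) (nat_lit 249) (nat_lit 5) (nat_lit 250) (nat_lit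 5) (nat_lit 415) (nat_lit 367) (nat_lit 238))) (XT.nd (nat_lit 78) (nat_lit 456) (nat_lit 0) (XT.lf (nat_lit 0) (nat_lit 12722005405) (nat_lit 304) (nat_lit 3493373859) (nat_lit 380) (nat_lit 4121729270) (nat_lit 245) (nat_lit 5) (nat_lit 249) (nat_lit 5) (nat_lit 250) (nat_lit 5) (nat_lit 416) (nat_lit 367) (nat_lit 237)) (XT.nd (nat_lit 78) (nat_lit 0) (nat_lit 0) (XT.lf (nat_lit 0) (nat_lit 347651518) (nat_lit 456) (nat_lit 15727640328) (nat_lit 76) (nat_lit 4622459170) (nat_lit 239) (nat_lit 5) (nat_lit 245) (nat_lit 5) (nat_lit 240) (nat_lit 5) (nat_lit 417) (nat_lit 367) (nat_lit 236)) (XT.lf (nat_lit 0) (nat_lit 4970174481) (nat_lit 456) (nat_lit 3069257161) (nat_lit 76) (nat_lit 13025499752) (nat_lit 239) (nat_lit 5) (nat_lit 245) (nat_lit 5) (nat_lit 240) (nat_lit 5) (nat_lit 418) (nat_lit 367) (nat_lit 235))))) (XT.nd (nat_lit 234) (nat_lit 684) (nat_lit 0) (XT.nd (nat_lit 78) (nat_lit 304)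 (nat_lit 0) (XT.lf (nat_lit 0) (nat_lit 9822124805) (nat_lit 380) (nat_lit 11291454400) (nat_lit 76) (nat_lit 326825428) (nat_lit 235) (nat_lit 5) (nat_lit 240) (nat_lit 5) (nat_lit 236) (nat_lit 5) (nat_lit 419) (nat_lit 367) (nat_lit 234)) (XT.nd (nat_lit 78) (nat_lit 0) (nat_lit 0) (XT.lf (nat_lit 0) (nat_lit 1943588546) (nat_lit 304) (nat_lit 12995691664) (nat_lit 380) (nat_lit 6884272461) (nat_lit 231) (nat_lit 5) (nat_lit 235) (nat_lit 5) (nat_lit 236) (nat_lit 5) (nat_lit 420) (nat_lit 367) (nat_lit 233)) (XT.lf (nat_lit 0) (nat_lit 15792451011) (nat_lit 304) (nat_lit 4521733855) (nat_lit 380) (nat_lit 1900883248) (nat_lit 231) (nat_lit 5) (nat_lit 235) (nat_lit 5) (nat_lit 236) (nat_lit 5) (nat_lit 421) (nat_lit 367) (nat_lit 232)))) (XT.nd (nat_lit 78) (nat_lit 304) (nat_lit 0) (XT.lf (nat_lit 0) (nat_lit 3273236578) (nat_lit 380) (nat_lit 15116866349) (nat_lit 76) (nat_lit 4224165141) (nat_lit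 226) (nat_lit 5) (nat_lit 231) (nat_lit 5) (nat_lit 227) (nat_lit 5) (nat_lit 422) (nat_lit 367) (nat_lit 231)) (XT.nd (nat_lit 78) (nat_lit 304) (nat_lit 0) (XT.lf (nat_lit 0) (nat_lit 8665140896) (nat_lit 380) (nat_lit 1135605890) (nat_lit 76) (nat_lit 13221109612) (nat_lit 226) (nat_lit 5) (nat_lit 231) (nat_lit 5) (nat_lit 227) (nat_lit 5) (nat_lit 423) (nat_lit 367) (nat_lit 230)) (XT.lf (nat_lit 0) (nat_lit 13514682812) (nat_lit 304) (nat_lit 824806803) (nat_lit 380) (nat_lit 9098562145) (nat_lit 222) (nat_lit 5) (nat_lit 226) (nat_lit 5) (nat_lit 227) (nat_lit 5) (nat_lit 424) (nat_lit 367) (nat_lit 229)))))) (XT.nd (nat_lit 48750) (nat_lit 0) (nat_lit 13756) (XT.nd (nat_lit 234) (nat_lit 228) (nat_lit 0) (XT.nd (nat_lit 78) (nat_lit 380) (nat_lit 0) (XT.lf (nat_lit 0) (nat_lit 4758962060) (nat_lit 228) (nat_lit 15554238798) (nat_lit 304) (nat_lit 3549658163) (nat_lit 219) (nat_lit 5) (nat_lit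 222) (nat_lit 5) (nat_lit 223) (nat_lit 5) (nat_lit 425) (nat_lit 367) (nat_lit 228)) (XT.nd (nat_lit 78) (nat_lit 304) (nat_lit 0) (XT.lf (nat_lit 0) (nat_lit 2223721764) (nat_lit 304) (nat_lit 4256457080) (nat_lit 76) (nat_lit 17816599021) (nat_lit 218) (nat_lit 5) (nat_lit 222) (nat_lit 5) (nat_lit 219) (nat_lit 5) (nat_lit 426) (nat_lit 367) (nat_lit 227)) (XT.lf (nat_lit 0) (nat_lit 8226764794) (nat_lit 380) (nat_lit 13562521383) (nat_lit 76) (nat_lit 2949539552) (nat_lit 214) (nat_lit 5) (nat_lit 219) (nat_lit 5) (nat_lit 215) (nat_lit 5) (nat_lit 427) (nat_lit 367) (nat_lit 226)))) (XT.nd (nat_lit 78) (nat_lit 0) (nat_lit 0) (XT.lf (nat_lit 0) (nat_lit 1925523934) (nat_lit 228) (nat_lit 12601698950) (nat_lit 304) (nat_lit 10663392434) (nat_lit 211) (nat_lit 5) (nat_lit 214) (nat_lit 5) (nat_lit 215) (nat_lit 5) (nat_lit 428) (nat_lit 367) (nat_lit 225)) (XT.nd (nat_lit 48360) (nat_lit 0) (nat_lit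 14820) (XT.lf (nat_lit 0) (nat_lit 18142445017) (nat_lit 228) (nat_lit 3002573853) (nat_lit 304) (nat_lit 4507089999) (nat_lit 211) (nat_lit 5) (nat_lit 214) (nat_lit 5) (nat_lit 215) (nat_lit 5) (nat_lit 429) (nat_lit 367) (nat_lit 224)) (XT.lf (nat_lit 0) (nat_lit 4034898845) (nat_lit 1140) (nat_lit 431309258) (nat_lit 1140) (nat_lit 431309258) (nat_lit 406) (nat_lit 3) (nat_lit 421) (nat_lit 3) (nat_lit 421) (nat_lit 5) (nat_lit 368) (nat_lit 368) (nat_lit 284))))) (XT.nd (nat_lit 234) (nat_lit 0) (nat_lit 0) (XT.nd (nat_lit 78) (nat_lit 1064) (nat_lit 0) (XT.lf (nat_lit 76) (nat_lit 4115201243) (nat_lit 0) (nat_lit 4849985579) (nat_lit 1140) (nat_lit 953543155) (nat_lit 407) (nat_lit 5) (nat_lit 406) (nat_lit 3) (nat_lit 421) (nat_lit 5) (nat_lit 369) (nat_lit 368) (nat_lit 283)) (XT.nd (nat_lit 78) (nat_lit 1064) (nat_lit 0) (XT.lf (nat_lit 76) (nat_lit 9244976072) (nat_lit 0) (nat_lit 622350947)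 (nat_lit 1140) (nat_lit 179412390) (nat_lit 407) (nat_lit 5) (nat_lit 406) (nat_lit 3) (nat_lit 421) (nat_lit 5) (nat_lit 370) (nat_lit 368) (nat_lit 282)) (XT.lf (nat_lit 0) (nat_lit 656545568) (nat_lit 1140) (nat_lit 5799382412) (nat_lit 1216) (nat_lit 3720963096) (nat_lit 392) (nat_lit 5) (nat_lit 407) (nat_lit 5) (nat_lit 408) (nat_lit 5) (nat_lit 371) (nat_lit 368) (nat_lit 281)))) (XT.nd (nat_lit 78) (nat_lit 0) (nat_lit 76) (XT.lf (nat_lit 0) (nat_lit 1500854689) (nat_lit 1140) (nat_lit 606113788) (nat_lit 1216) (nat_lit 8204319172) (nat_lit 392) (nat_lit 5) (nat_lit 407) (nat_lit 5) (nat_lit 408) (nat_lit 5) (nat_lit 372) (nat_lit 368) (nat_lit 280)) (XT.nd (nat_lit 78) (nat_lit 0) (nat_lit 0) (XT.lf (nat_lit 0) (nat_lit 2413551925) (nat_lit 1140) (nat_lit 5650978498) (nat_lit 1216) (nat_lit 2383893931) (nat_lit 393) (nat_lit 5) (nat_lit 408) (nat_lit 5) (nat_lit 409) (nat_lit 5) (nat_lit 373)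 (nat_lit 368) (nat_lit 279)) (XT.lf (nat_lit 0) (nat_lit 3354743553) (nat_lit 1140) (nat_lit 251127053) (nat_lit 1216) (nat_lit 6983771150) (nat_lit 393) (nat_lit 5) (nat_lit 408) (nat_lit 5) (nat_lit 409) (nat_lit 5) (nat_lit 374) (nat_lit 368) (nat_lit 278))))))) (XT.nd (nat_lit 936) (nat_lit 4408) (nat_lit 0) (XT.nd (nat_lit 468) (nat_lit 2128) (nat_lit 0) (XT.nd (nat_lit 234) (nat_lit 0) (nat_lit 76) (XT.nd (nat_lit 78) (nat_lit 0) (nat_lit 0) (XT.lf (nat_lit 0) (nat_lit 4360996181) (nat_lit 1140) (nat_lit 5344059028) (nat_lit 1216) (nat_lit 1028935715) (nat_lit 394) (nat_lit 5) (nat_lit 409) (nat_lit 5) (nat_lit 410) (nat_lit 5) (nat_lit 375) (nat_lit 368) (nat_lit 277)) (XT.nd (nat_lit 78) (nat_lit 0) (nat_lit 0) (XT.lf (nat_lit 76) (nat_lit 275987928) (nat_lit 0) (nat_lit 5137859794) (nat_lit 1216) (nat_lit 5468330502) (nat_lit 395) (nat_lit 5) (nat_lit 394) (nat_lit 5) (nat_lit 410) (nat_lit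 5) (nat_lit 376) (nat_lit 368) (nat_lit 276)) (XT.lf (nat_lit 76) (nat_lit 6157898731) (nat_lit 0) (nat_lit 370403453) (nat_lit 1216) (nat_lit 4505608441) (nat_lit 395) (nat_lit 5) (nat_lit 394) (nat_lit 5) (nat_lit 410) (nat_lit 5) (nat_lit 377) (nat_lit 368) (nat_lit 275)))) (XT.nd (nat_lit 78) (nat_lit 0) (nat_lit 0) (XT.lf (nat_lit 76) (nat_lit 985071979) (nat_lit 0) (nat_lit 6721051254) (nat_lit 1216) (nat_lit 3483173774) (nat_lit 396) (nat_lit 5) (nat_lit 395) (nat_lit 5) (nat_lit 411) (nat_lit 5) (nat_lit 378) (nat_lit 368) (nat_lit 274)) (XT.nd (nat_lit 78) (nat_lit 0) (nat_lit 76) (XT.lf (nat_lit 76) (nat_lit 7101783844) (nat_lit 0) (nat_lit 1847703758) (nat_lit 1216) (nat_lit 2398951118) (nat_lit 396) (nat_lit 5) (nat_lit 395) (nat_lit 5) (nat_lit 411) (nat_lit 5) (nat_lit 379) (nat_lit 368) (nat_lit 273)) (XT.lf (nat_lit 76) (nat_lit 1879164185) (nat_lit 0) (nat_lit 8377599513) (nat_lit 1216)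 (nat_lit 1254792663) (nat_lit 397) (nat_lit 5) (nat_lit 396) (nat_lit 5) (nat_lit 412) (nat_lit 5) (nat_lit 380) (nat_lit 368) (nat_lit 272))))) (XT.nd (nat_lit 234) (nat_lit 1140) (nat_lit 0) (XT.nd (nat_lit 78) (nat_lit 1140) (nat_lit 0) (XT.lf (nat_lit 76) (nat_lit 8240657461) (nat_lit 0) (nat_lit 3402136210) (nat_lit 1216) (nat_lit 35587793) (nat_lit 397) (nat_lit 5) (nat_lit 396) (nat_lit 5) (nat_lit 412) (nat_lit 5) (nat_lit 381) (nat_lit 368) (nat_lit 271)) (XT.nd (nat_lit 78) (nat_lit 0) (nat_lit 0) (XT.lf (nat_lit 0) (nat_lit 1220916316) (nat_lit 1216) (nat_lit 8894006615) (nat_lit 1292) (nat_lit 1734200507) (nat_lit 381) (nat_lit 5) (nat_lit 397) (nat_lit 5) (nat_lit 398) (nat_lit 5) (nat_lit 382) (nat_lit 368) (nat_lit 270)) (XT.lf (nat_lit 0) (nat_lit 2562597505) (nat_lit 1216) (nat_lit 2465044765) (nat_lit 1292) (nat_lit 6995888915) (nat_lit 381) (nat_lit 5) (nat_lit 397) (nat_lit 5) (nat_lit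 398) (nat_lit 5) (nat_lit 383) (nat_lit 368) (nat_lit 269)))) (XT.nd (nat_lit 78) (nat_lit 1216) (nat_lit 0) (XT.lf (nat_lit 0) (nat_lit 3967649897) (nat_lit 1216) (nat_lit 7982278466) (nat_lit 76) (nat_lit 252549177) (nat_lit 382) (nat_lit 5) (nat_lit 398) (nat_lit 5) (nat_lit 383) (nat_lit 5) (nat_lit 384) (nat_lit 368) (nat_lit 268)) (XT.nd (nat_lit 78) (nat_lit 1216) (nat_lit 0) (XT.lf (nat_lit 0) (nat_lit 5470279936) (nat_lit 1216) (nat_lit 1296432764) (nat_lit 76) (nat_lit 5618416804) (nat_lit 382) (nat_lit 5) (nat_lit 398) (nat_lit 5) (nat_lit 383) (nat_lit 5) (nat_lit 385) (nat_lit 368) (nat_lit 267)) (XT.lf (nat_lit 0) (nat_lit 5684512277) (nat_lit 1216) (nat_lit 1369196173) (nat_lit 1292) (nat_lit 5518480989) (nat_lit 366) (nat_lit 5) (nat_lit 382) (nat_lit 5) (nat_lit 383) (nat_lit 5) (nat_lit 386) (nat_lit 368) (nat_lit 266)))))) (XT.nd (nat_lit 468) (nat_lit 2280) (nat_lit 0) (XT.nd (nat_lit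 234) (nat_lit 684) (nat_lit 0) (XT.nd (nat_lit 78) (nat_lit 608) (nat_lit 0) (XT.lf (nat_lit 0) (nat_lit 81353122) (nat_lit 836) (nat_lit 8639062581) (nat_lit 912) (nat_lit 4043372193) (nat_lit 355) (nat_lit 5) (nat_lit 366) (nat_lit 5) (nat_lit 367) (nat_lit 5) (nat_lit 387) (nat_lit 368) (nat_lit 265)) (XT.nd (nat_lit 78) (nat_lit 608) (nat_lit 0) (XT.lf (nat_lit 0) (nat_lit 7370165250) (nat_lit 836) (nat_lit 3131807000) (nat_lit 912) (nat_lit 2457216616) (nat_lit 355) (nat_lit 5) (nat_lit 366) (nat_lit 5) (nat_lit 367) (nat_lit 5) (nat_lit 388) (nat_lit 368) (nat_lit 264)) (XT.lf (nat_lit 0) (nat_lit 1709414078) (nat_lit 608) (nat_lit 10650830075) (nat_lit 684) (nat_lit 799509649) (nat_lit 347) (nat_lit 5) (nat_lit 355) (nat_lit 5) (nat_lit 356) (nat_lit 5) (nat_lit 389) (nat_lit 368) (nat_lit 263)))) (XT.nd (nat_lit 78) (nat_lit 608) (nat_lit 0) (XT.lf (nat_lit 0) (nat_lit 960813354) (nat_lit 684)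 (nat_lit 4080455202) (nat_lit 76) (nat_lit 8322687253) (nat_lit 346) (nat_lit 5) (nat_lit 355) (nat_lit 5) (nat_lit 347) (nat_lit 5) (nat_lit 390) (nat_lit 368) (nat_lit 262)) (XT.nd (nat_lit 78) (nat_lit 0) (nat_lit 0) (XT.lf (nat_lit 0) (nat_lit 2782660925) (nat_lit 684) (nat_lit 10025438304) (nat_lit 76) (nat_lit 765203640) (nat_lit 338) (nat_lit 5) (nat_lit 347) (nat_lit 5) (nat_lit 339) (nat_lit 5) (nat_lit 391) (nat_lit 368) (nat_lit 261)) (XT.lf (nat_lit 0) (nat_lit 4734132843) (nat_lit 684) (nat_lit 2366076256) (nat_lit 76) (nat_lit 6686472175) (nat_lit 338) (nat_lit 5) (nat_lit 347) (nat_lit 5) (nat_lit 339) (nat_lit 5) (nat_lit 392) (nat_lit 368) (nat_lit 260))))) (XT.nd (nat_lit 234) (nat_lit 1140) (nat_lit 0) (XT.nd (nat_lit 78) (nat_lit 608) (nat_lit 0) (XT.lf (nat_lit 0) (nat_lit 5616410830) (nat_lit 532) (nat_lit 1165651519) (nat_lit 608) (nat_lit 7223261278) (nat_lit 331) (nat_lit 5)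 (nat_lit 338) (nat_lit 5) (nat_lit 339) (nat_lit 5) (nat_lit 393) (nat_lit 368) (nat_lit 259)) (XT.nd (nat_lit 78) (nat_lit 608) (nat_lit 0) (XT.lf (nat_lit 0) (nat_lit 8947347452) (nat_lit 608) (nat_lit 407285848) (nat_lit 76) (nat_lit 4874214422) (nat_lit 331) (nat_lit 5) (nat_lit 339) (nat_lit 5) (nat_lit 332) (nat_lit 5) (nat_lit 394) (nat_lit 368) (nat_lit 258)) (XT.lf (nat_lit 0) (nat_lit 7941128685) (nat_lit 608) (nat_lit 3309033052) (nat_lit 684) (nat_lit 3206738681) (nat_lit 323) (nat_lit 5) (nat_lit 331) (nat_lit 5) (nat_lit 332) (nat_lit 5) (nat_lit 395) (nat_lit 368) (nat_lit 257)))) (XT.nd (nat_lit 78) (nat_lit 608) (nat_lit 0) (XT.lf (nat_lit 0) (nat_lit 1848286191) (nat_lit 532) (nat_lit 11808722135) (nat_lit 608) (nat_lit 1033737935) (nat_lit 316) (nat_lit 5) (nat_lit 323) (nat_lit 5) (nat_lit 324) (nat_lit 5) (nat_lit 396) (nat_lit 368) (nat_lit 256)) (XT.nd (nat_lit 78) (nat_lit 532)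 (nat_lit 0) (XT.lf (nat_lit 0) (nat_lit 1265274642) (nat_lit 608) (nat_lit 4394292840) (nat_lit 76) (nat_lit 9269162907) (nat_lit 315) (nat_lit 5) (nat_lit 323) (nat_lit 5) (nat_lit 316) (nat_lit 5) (nat_lit 397) (nat_lit 368) (nat_lit 255)) (XT.lf (nat_lit 0) (nat_lit 3646980948) (nat_lit 608) (nat_lit 10813436146) (nat_lit 76) (nat_lit 712094883) (nat_lit 308) (nat_lit 5) (nat_lit 316) (nat_lit 5) (nat_lit 309) (nat_lit 5) (nat_lit 398) (nat_lit 368) (nat_lit 254))))))))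
noncomputable def xc98 : XT := (XT.nd (nat_lit 1794) (nat_lit 1520) (nat_lit 0) (XT.nd (nat_lit 858) (nat_lit 2964) (nat_lit 0) (XT.nd (nat_lit 390) (nat_lit 1368) (nat_lit 0) (XT.nd (nat_lit 156) (nat_lit 1064) (nat_lit 0) (XT.nd (nat_lit 78) (nat_lit 456) (nat_lit 0) (XT.lf (nat_lit 0) (nat_lit 6186787082) (nat_lit 608) (nat_lit 2029897899) (nat_lit 76) (nat_lit 7204322572) (nat_lit 308) (nat_lit 5) (nat_lit 316) (nat_lit 5) (nat_lit 309) (nat_lit 5) (nat_lit 399) (nat_lit 368) (nat_lit 253)) (XT.lf (nat_lit 0) (nat_lit 7140689304) (nat_lit 456) (nat_lit 1716952587) (nat_lit 532) (nat_lit 6817670471) (nat_lit 302) (nat_lit 5) (nat_lit 308) (nat_lit 5) (nat_lit 309) (nat_lit 5) (nat_lit 400) (nat_lit 368) (nat_lit 252))) (XT.nd (nat_lit 78) (nat_lit 532) (nat_lit 0) (XT.lf (nat_lit 0) (nat_lit 639777014) (nat_lit 532) (nat_lit 11029990310) (nat_lit 608) (nat_lit 4265644641) (nat_lit 295) (nat_lit 5)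 (nat_lit 302) (nat_lit 5) (nat_lit 303) (nat_lit 5) (nat_lit 401) (nat_lit 368) (nat_lit 251)) (XT.nd (nat_lit 78) (nat_lit 532) (nat_lit 0) (XT.lf (nat_lit 0) (nat_lit 10231151116) (nat_lit 532) (nat_lit 4424808204) (nat_lit 608) (nat_lit 1544664153) (nat_lit 295) (nat_lit 5) (nat_lit 302) (nat_lit 5) (nat_lit 303) (nat_lit 5) (nat_lit 402) (nat_lit 368) (nat_lit 250)) (XT.lf (nat_lit 0) (nat_lit 1279033754) (nat_lit 532) (nat_lit 12815533101) (nat_lit 76) (nat_lit 2377492654) (nat_lit 288) (nat_lit 5) (nat_lit 295) (nat_lit 5) (nat_lit 289) (nat_lit 5) (nat_lit 403) (nat_lit 368) (nat_lit 249))))) (XT.nd (nat_lit 234) (nat_lit 532) (nat_lit 0) (XT.nd (nat_lit 78) (nat_lit 836) (nat_lit 0) (XT.lf (nat_lit 0) (nat_lit 4248235075) (nat_lit 532) (nat_lit 3131731468) (nat_lit 76) (nat_lit 9368458112) (nat_lit 288) (nat_lit 5) (nat_lit 295) (nat_lit 5) (nat_lit 289) (nat_lit 5) (nat_lit 404) (nat_lit 368)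 (nat_lit 248)) (XT.nd (nat_lit 78) (nat_lit 380) (nat_lit 0) (XT.lf (nat_lit 0) (nat_lit 6963046495) (nat_lit 456) (nat_lit 397925135) (nat_lit 532) (nat_lit 9670475348) (nat_lit 282) (nat_lit 5) (nat_lit 288) (nat_lit 5) (nat_lit 289) (nat_lit 5) (nat_lit 405) (nat_lit 368) (nat_lit 247)) (XT.lf (nat_lit 0) (nat_lit 22067883) (nat_lit 380) (nat_lit 10630189895) (nat_lit 456) (nat_lit 6668147170) (nat_lit 277) (nat_lit 5) (nat_lit 282) (nat_lit 5) (nat_lit 283) (nat_lit 5) (nat_lit 406) (nat_lit 368) (nat_lit 246)))) (XT.nd (nat_lit 78) (nat_lit 532) (nat_lit 0) (XT.lf (nat_lit 0) (nat_lit 10602177730) (nat_lit 380) (nat_lit 3533600358) (nat_lit 456) (nat_lit 3479448702) (nat_lit 277) (nat_lit 5) (nat_lit 282) (nat_lit 5) (nat_lit 283) (nat_lit 5) (nat_lit 407) (nat_lit 368) (nat_lit 245)) (XT.nd (nat_lit 78) (nat_lit 76) (nat_lit 0) (XT.lf (nat_lit 0) (nat_lit 3599422095) (nat_lit 456) (nat_lit 14183521440)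 (nat_lit 532) (nat_lit 134175564) (nat_lit 271) (nat_lit 5) (nat_lit 277) (nat_lit 5) (nat_lit 278) (nat_lit 5) (nat_lit 408) (nat_lit 368) (nat_lit 244)) (XT.lf (nat_lit 0) (nat_lit 3341668414) (nat_lit 532) (nat_lit 3634833891) (nat_lit 76) (nat_lit 11247765990) (nat_lit 270) (nat_lit 5) (nat_lit 277) (nat_lit 5) (nat_lit 271) (nat_lit 5) (nat_lit 409) (nat_lit 368) (nat_lit 243)))))) (XT.nd (nat_lit 468) (nat_lit 1368) (nat_lit 0) (XT.nd (nat_lit 234) (nat_lit 836) (nat_lit 0) (XT.nd (nat_lit 78) (nat_lit 380) (nat_lit 0) (XT.lf (nat_lit 0) (nat_lit 6984823689) (nat_lit 456) (nat_lit 11045196137) (nat_lit 76) (nat_lit 508600303) (nat_lit 265) (nat_lit 5) (nat_lit 271) (nat_lit 5) (nat_lit 266) (nat_lit 5) (nat_lit 410) (nat_lit 368) (nat_lit 242)) (XT.nd (nat_lit 78) (nat_lit 0) (nat_lit 0) (XT.lf (nat_lit 0) (nat_lit 85873417) (nat_lit 380) (nat_lit 10747186466) (nat_lit 456) (nat_lit 8026469046)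 (nat_lit 260) (nat_lit 5) (nat_lit 265) (nat_lit 5) (nat_lit 266) (nat_lit 5) (nat_lit 411) (nat_lit 368) (nat_lit 241)) (XT.lf (nat_lit 0) (nat_lit 11762335467) (nat_lit 380) (nat_lit 3134942846) (nat_lit 456) (nat_lit 4289770627) (nat_lit 260) (nat_lit 5) (nat_lit 265) (nat_lit 5) (nat_lit 266) (nat_lit 5) (nat_lit 412) (nat_lit 368) (nat_lit 240)))) (XT.nd (nat_lit 78) (nat_lit 456) (nat_lit 0) (XT.lf (nat_lit 0) (nat_lit 4288340887) (nat_lit 380) (nat_lit 14870822113) (nat_lit 456) (nat_lit 362959360) (nat_lit 255) (nat_lit 5) (nat_lit 260) (nat_lit 5) (nat_lit 261) (nat_lit 5) (nat_lit 413) (nat_lit 368) (nat_lit 239)) (XT.nd (nat_lit 78) (nat_lit 380) (nat_lit 0) (XT.lf (nat_lit 0) (nat_lit 3705920885) (nat_lit 456) (nat_lit 3442054172) (nat_lit 76) (nat_lit 12715328004) (nat_lit 254) (nat_lit 5) (nat_lit 260) (nat_lit 5) (nat_lit 255) (nat_lit 5) (nat_lit 414) (nat_lit 368) (nat_lit 238)) (XT.lf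 (nat_lit 0) (nat_lit 7972976514) (nat_lit 456) (nat_lit 11362708613) (nat_lit 76) (nat_lit 876424125) (nat_lit 249) (nat_lit 5) (nat_lit 255) (nat_lit 5) (nat_lit 250) (nat_lit 5) (nat_lit 415) (nat_lit 368) (nat_lit 237))))) (XT.nd (nat_lit 234) (nat_lit 608) (nat_lit 0) (XT.nd (nat_lit 78) (nat_lit 456) (nat_lit 0) (XT.lf (nat_lit 0) (nat_lit 942536059) (nat_lit 304) (nat_lit 11530227056) (nat_lit 380) (nat_lit 8095474935) (nat_lit 245) (nat_lit 5) (nat_lit 249) (nat_lit 5) (nat_lit 250) (nat_lit 5) (nat_lit 416) (nat_lit 368) (nat_lit 236)) (XT.nd (nat_lit 78) (nat_lit 456) (nat_lit 0) (XT.lf (nat_lit 0) (nat_lit 13835444224) (nat_lit 304) (nat_lit 3376784001) (nat_lit 380) (nat_lit 3719681938) (nat_lit 245) (nat_lit 5) (nat_lit 249) (nat_lit 5) (nat_lit 250) (nat_lit 5) (nat_lit 417) (nat_lit 368) (nat_lit 235)) (XT.lf (nat_lit 0) (nat_lit 867756796) (nat_lit 456) (nat_lit 15451667404) (nat_lit 76)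 (nat_lit 4983969074) (nat_lit 239) (nat_lit 5) (nat_lit 245) (nat_lit 5) (nat_lit 240) (nat_lit 5) (nat_lit 418) (nat_lit 368) (nat_lit 234)))) (XT.nd (nat_lit 78) (nat_lit 608) (nat_lit 0) (XT.lf (nat_lit 0) (nat_lit 5614110524) (nat_lit 456) (nat_lit 2435313387) (nat_lit 76) (nat_lit 13632610501) (nat_lit 239) (nat_lit 5) (nat_lit 245) (nat_lit 5) (nat_lit 240) (nat_lit 5) (nat_lit 419) (nat_lit 368) (nat_lit 233)) (XT.nd (nat_lit 78) (nat_lit 304) (nat_lit 0) (XT.lf (nat_lit 0) (nat_lit 10606343391) (nat_lit 380) (nat_lit 10898900575) (nat_lit 76) (nat_lit 563686161) (nat_lit 235) (nat_lit 5) (nat_lit 240) (nat_lit 5) (nat_lit 236) (nat_lit 5) (nat_lit 420) (nat_lit 368) (nat_lit 232)) (XT.lf (nat_lit 0) (nat_lit 2726024077) (nat_lit 304) (nat_lit 13143691263) (nat_lit 380) (nat_lit 6594076211) (nat_lit 231) (nat_lit 5) (nat_lit 235) (nat_lit 5) (nat_lit 236) (nat_lit 5) (nat_lit 421) (nat_lit 368)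 (nat_lit 231))))))) (XT.nd (nat_lit 49296) (nat_lit 0) (nat_lit 12844) (XT.nd (nat_lit 468) (nat_lit 532) (nat_lit 0) (XT.nd (nat_lit 234) (nat_lit 608) (nat_lit 0) (XT.nd (nat_lit 78) (nat_lit 380) (nat_lit 0) (XT.lf (nat_lit 0) (nat_lit 16969261313) (nat_lit 304) (nat_lit 4422559510) (nat_lit 380) (nat_lit 1475653023) (nat_lit 231) (nat_lit 5) (nat_lit 235) (nat_lit 5) (nat_lit 236) (nat_lit 5) (nat_lit 422) (nat_lit 368) (nat_lit 230)) (XT.nd (nat_lit 78) (nat_lit 0) (nat_lit 0) (XT.lf (nat_lit 0) (nat_lit 3839592204) (nat_lit 380) (nat_lit 14853237374) (nat_lit 76) (nat_lit 4585821776) (nat_lit 226) (nat_lit 5) (nat_lit 231) (nat_lit 5) (nat_lit 227) (nat_lit 5) (nat_lit 423) (nat_lit 368) (nat_lit 229)) (XT.lf (nat_lit 0) (nat_lit 9379617966) (nat_lit 380) (nat_lit 473426528) (nat_lit 76) (nat_lit 13845831911) (nat_lit 226) (nat_lit 5) (nat_lit 231) (nat_lit 5) (nat_lit 227) (nat_lit 5) (nat_lit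 424) (nat_lit 368) (nat_lit 228)))) (XT.nd (nat_lit 78) (nat_lit 304) (nat_lit 0) (XT.lf (nat_lit 0) (nat_lit 14609544879) (nat_lit 304) (nat_lit 608040880) (nat_lit 380) (nat_lit 8910170210) (nat_lit 222) (nat_lit 5) (nat_lit 226) (nat_lit 5) (nat_lit 227) (nat_lit 5) (nat_lit 425) (nat_lit 368) (nat_lit 227)) (XT.nd (nat_lit 78) (nat_lit 76) (nat_lit 0) (XT.lf (nat_lit 0) (nat_lit 5595400291) (nat_lit 228) (nat_lit 15770983983) (nat_lit 304) (nat_lit 3199046895) (nat_lit 219) (nat_lit 5) (nat_lit 222) (nat_lit 5) (nat_lit 223) (nat_lit 5) (nat_lit 426) (nat_lit 368) (nat_lit 226)) (XT.lf (nat_lit 0) (nat_lit 2725560917) (nat_lit 304) (nat_lit 3702025494) (nat_lit 76) (nat_lit 18585040964) (nat_lit 218) (nat_lit 5) (nat_lit 222) (nat_lit 5) (nat_lit 219) (nat_lit 5) (nat_lit 427) (nat_lit 368) (nat_lit 225))))) (XT.nd (nat_lit 48594) (nat_lit 0) (nat_lit 13680) (XT.nd (nat_lit 78) (nat_lit 228) (nat_lit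 0) (XT.lf (nat_lit 0) (nat_lit 8904883767) (nat_lit 380) (nat_lit 13283460255) (nat_lit 76) (nat_lit 3279706998) (nat_lit 214) (nat_lit 5) (nat_lit 219) (nat_lit 5) (nat_lit 215) (nat_lit 5) (nat_lit 428) (nat_lit 368) (nat_lit 224)) (XT.nd (nat_lit 48438) (nat_lit 0) (nat_lit 14820) (XT.lf (nat_lit 0) (nat_lit 2662501551) (nat_lit 228) (nat_lit 12725820446) (nat_lit 304) (nat_lit 10545253307) (nat_lit 211) (nat_lit 5) (nat_lit 214) (nat_lit 5) (nat_lit 215) (nat_lit 5) (nat_lit 429) (nat_lit 368) (nat_lit 223)) (XT.lf (nat_lit 0) (nat_lit 4883666949) (nat_lit 1140) (nat_lit 69472149) (nat_lit 1140) (nat_lit 69472149) (nat_lit 406) (nat_lit 3) (nat_lit 421) (nat_lit 3) (nat_lit 421) (nat_lit 5) (nat_lit 369) (nat_lit 369) (nat_lit 282)))) (XT.nd (nat_lit 78) (nat_lit 0) (nat_lit 0) (XT.lf (nat_lit 0) (nat_lit 471262340) (nat_lit 1140) (nat_lit 5197445040) (nat_lit 1216) (nat_lit 4504840331) (nat_lit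 391) (nat_lit 5) (nat_lit 406) (nat_lit 3) (nat_lit 407) (nat_lit 5) (nat_lit 370) (nat_lit 369) (nat_lit 281)) (XT.nd (nat_lit 78) (nat_lit 0) (nat_lit 76) (XT.lf (nat_lit 0) (nat_lit 1211283595) (nat_lit 1140) (nat_lit 75740329) (nat_lit 1216) (nat_lit 9019396787) (nat_lit 391) (nat_lit 5) (nat_lit 406) (nat_lit 3) (nat_lit 407) (nat_lit 5) (nat_lit 371) (nat_lit 369) (nat_lit 280)) (XT.lf (nat_lit 0) (nat_lit 2029338119) (nat_lit 1140) (nat_lit 5185688174) (nat_lit 1216) (nat_lit 3226578630) (nat_lit 392) (nat_lit 5) (nat_lit 407) (nat_lit 5) (nat_lit 408) (nat_lit 5) (nat_lit 372) (nat_lit 369) (nat_lit 279)))))) (XT.nd (nat_lit 468) (nat_lit 912) (nat_lit 0) (XT.nd (nat_lit 234) (nat_lit 0) (nat_lit 152) (XT.nd (nat_lit 78) (nat_lit 0) (nat_lit 76) (XT.lf (nat_lit 76) (nat_lit 143231458) (nat_lit 0) (nat_lit 2717711316) (nat_lit 1216) (nat_lit 7720231632) (nat_lit 393) (nat_lit 5) (nat_lit 392)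 (nat_lit 5) (nat_lit 408) (nat_lit 5) (nat_lit 373) (nat_lit 369) (nat_lit 278)) (XT.nd (nat_lit 78) (nat_lit 0) (nat_lit 0) (XT.lf (nat_lit 0) (nat_lit 3763609333) (nat_lit 1140) (nat_lit 5019739387) (nat_lit 1216) (nat_lit 1940198840) (nat_lit 393) (nat_lit 5) (nat_lit 408) (nat_lit 5) (nat_lit 409) (nat_lit 5) (nat_lit 374) (nat_lit 369) (nat_lit 277)) (XT.lf (nat_lit 76) (nat_lit 529109070) (nat_lit 0) (nat_lit 4171800627) (nat_lit 1216) (nat_lit 6169055597) (nat_lit 394) (nat_lit 5) (nat_lit 393) (nat_lit 5) (nat_lit 409) (nat_lit 5) (nat_lit 375) (nat_lit 369) (nat_lit 276)))) (XT.nd (nat_lit 78) (nat_lit 0) (nat_lit 0) (XT.lf (nat_lit 0) (nat_lit 5699286869) (nat_lit 1140) (nat_lit 4693958770) (nat_lit 1216) (nat_lit 626541188) (nat_lit 394) (nat_lit 5) (nat_lit 409) (nat_lit 5) (nat_lit 410) (nat_lit 5) (nat_lit 376) (nat_lit 369) (nat_lit 275)) (XT.nd (nat_lit 78) (nat_lit 0) (nat_lit 0) (XT.lf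 (nat_lit 76) (nat_lit 1086744281) (nat_lit 0) (nat_lit 5669524812) (nat_lit 1216) (nat_lit 4416974301) (nat_lit 395) (nat_lit 5) (nat_lit 394) (nat_lit 5) (nat_lit 410) (nat_lit 5) (nat_lit 377) (nat_lit 369) (nat_lit 274)) (XT.lf (nat_lit 76) (nat_lit 7121739299) (nat_lit 0) (nat_lit 748048783) (nat_lit 1216) (nat_lit 3460770756) (nat_lit 395) (nat_lit 5) (nat_lit 394) (nat_lit 5) (nat_lit 410) (nat_lit 5) (nat_lit 378) (nat_lit 369) (nat_lit 273))))) (XT.nd (nat_lit 234) (nat_lit 1140) (nat_lit 0) (XT.nd (nat_lit 78) (nat_lit 0) (nat_lit 0) (XT.lf (nat_lit 76) (nat_lit 1823610426) (nat_lit 0) (nat_lit 7230321025) (nat_lit 1216) (nat_lit 2437545730) (nat_lit 396) (nat_lit 5) (nat_lit 395) (nat_lit 5) (nat_lit 411) (nat_lit 5) (nat_lit 379) (nat_lit 369) (nat_lit 272)) (XT.nd (nat_lit 78) (nat_lit 0) (nat_lit 76) (XT.lf (nat_lit 76) (nat_lit 8100260939) (nat_lit 0) (nat_lit 2201812768) (nat_lit 1216)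 (nat_lit 1354295131) (nat_lit 396) (nat_lit 5) (nat_lit 395) (nat_lit 5) (nat_lit 411) (nat_lit 5) (nat_lit 380) (nat_lit 369) (nat_lit 271)) (XT.lf (nat_lit 76) (nat_lit 2748309578) (nat_lit 0) (nat_lit 8873708133) (nat_lit 1216) (nat_lit 203158808) (nat_lit 397) (nat_lit 5) (nat_lit 396) (nat_lit 5) (nat_lit 412) (nat_lit 5) (nat_lit 381) (nat_lit 369) (nat_lit 270)))) (XT.nd (nat_lit 78) (nat_lit 0) (nat_lit 76) (XT.lf (nat_lit 0) (nat_lit 1000974322) (nat_lit 1216) (nat_lit 2730769198) (nat_lit 1292) (nat_lit 8265892524) (nat_lit 380) (nat_lit 5) (nat_lit 396) (nat_lit 5) (nat_lit 397) (nat_lit 5) (nat_lit 382) (nat_lit 369) (nat_lit 269)) (XT.nd (nat_lit 78) (nat_lit 0) (nat_lit 0) (XT.lf (nat_lit 0) (nat_lit 2269920354) (nat_lit 1216) (nat_lit 8326554720) (nat_lit 1292) (nat_lit 1577750772) (nat_lit 381) (nat_lit 5) (nat_lit 397) (nat_lit 5) (nat_lit 398) (nat_lit 5) (nat_lit 383) (nat_lit 369)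 (nat_lit 268)) (XT.lf (nat_lit 0) (nat_lit 3622365283) (nat_lit 1216) (nat_lit 1729023201) (nat_lit 1292) (nat_lit 7003361941) (nat_lit 381) (nat_lit 5) (nat_lit 397) (nat_lit 5) (nat_lit 398) (nat_lit 5) (nat_lit 384) (nat_lit 369) (nat_lit 267))))))))
noncomputable def xc99 : XT := (XT.nd (nat_lit 1872) (nat_lit 4788) (nat_lit 0) (XT.nd (nat_lit 936) (nat_lit 3496) (nat_lit 0) (XT.nd (nat_lit 468) (nat_lit 1748) (nat_lit 0) (XT.nd (nat_lit 234) (nat_lit 1520) (nat_lit 0) (XT.nd (nat_lit 78) (nat_lit 1216) (nat_lit 0) (XT.lf (nat_lit 0) (nat_lit 5047113571) (nat_lit 1216) (nat_lit 7389318238) (nat_lit 76) (nat_lit 103307032) (nat_lit 382) (nat_lit 5) (nat_lit 398) (nat_lit 5) (nat_lit 383) (nat_lit 5) (nat_lit 385) (nat_lit 369) (nat_lit 266)) (XT.nd (nat_lit 78) (nat_lit 1216) (nat_lit 0) (XT.lf (nat_lit 0) (nat_lit 6566848700) (nat_lit 1216) (nat_lit 527142658) (nat_lit 76) (nat_lit 5634718220) (nat_lit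 382) (nat_lit 5) (nat_lit 398) (nat_lit 5) (nat_lit 383) (nat_lit 5) (nat_lit 386) (nat_lit 369) (nat_lit 265)) (XT.lf (nat_lit 0) (nat_lit 6655307371) (nat_lit 1216) (nat_lit 1523006246) (nat_lit 1292) (nat_lit 4743651688) (nat_lit 366) (nat_lit 5) (nat_lit 382) (nat_lit 5) (nat_lit 383) (nat_lit 5) (nat_lit 387) (nat_lit 369) (nat_lit 264)))) (XT.nd (nat_lit 78) (nat_lit 684) (nat_lit 0) (XT.lf (nat_lit 0) (nat_lit 904402093) (nat_lit 836) (nat_lit 8970864021) (nat_lit 912) (nat_lit 3244638281) (nat_lit 355) (nat_lit 5) (nat_lit 366) (nat_lit 5) (nat_lit 367) (nat_lit 5) (nat_lit 388) (nat_lit 369) (nat_lit 263)) (XT.nd (nat_lit 78) (nat_lit 684) (nat_lit 0) (XT.lf (nat_lit 0) (nat_lit 8387977370) (nat_lit 836) (nat_lit 3296275348) (nat_lit 912) (nat_lit 1637695174) (nat_lit 355) (nat_lit 5) (nat_lit 366) (nat_lit 5) (nat_lit 367) (nat_lit 5) (nat_lit 389) (nat_lit 369) (nat_lit 262)) (XT.lf (nat_lit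 0) (nat_lit 50123544) (nat_lit 684) (nat_lit 10953538009) (nat_lit 76) (nat_lit 2525395868) (nat_lit 346) (nat_lit 5) (nat_lit 355) (nat_lit 5) (nat_lit 347) (nat_lit 5) (nat_lit 390) (nat_lit 369) (nat_lit 261))))) (XT.nd (nat_lit 234) (nat_lit 1140) (nat_lit 0) (XT.nd (nat_lit 78) (nat_lit 608) (nat_lit 0) (XT.lf (nat_lit 0) (nat_lit 1822209727) (nat_lit 684) (nat_lit 3394717430) (nat_lit 76) (nat_lit 8522970167) (nat_lit 346) (nat_lit 5) (nat_lit 355) (nat_lit 5) (nat_lit 347) (nat_lit 5) (nat_lit 391) (nat_lit 369) (nat_lit 260)) (XT.nd (nat_lit 78) (nat_lit 0) (nat_lit 0) (XT.lf (nat_lit 0) (nat_lit 3682003594) (nat_lit 684) (nat_lit 9501340894) (nat_lit 76) (nat_lit 772681582) (nat_lit 338) (nat_lit 5) (nat_lit 347) (nat_lit 5) (nat_lit 339) (nat_lit 5) (nat_lit 392) (nat_lit 369) (nat_lit 259)) (XT.lf (nat_lit 0) (nat_lit 5668256674) (nat_lit 684) (nat_lit 1636223049) (nat_lit 76) (nat_lit 6872038994)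 (nat_lit 338) (nat_lit 5) (nat_lit 347) (nat_lit 5) (nat_lit 339) (nat_lit 5) (nat_lit 393) (nat_lit 369) (nat_lit 258)))) (XT.nd (nat_lit 78) (nat_lit 608) (nat_lit 0) (XT.lf (nat_lit 0) (nat_lit 6577887321) (nat_lit 532) (nat_lit 1184288524) (nat_lit 608) (nat_lit 6640007943) (nat_lit 331) (nat_lit 5) (nat_lit 338) (nat_lit 5) (nat_lit 339) (nat_lit 5) (nat_lit 394) (nat_lit 369) (nat_lit 257)) (XT.nd (nat_lit 78) (nat_lit 0) (nat_lit 0) (XT.lf (nat_lit 0) (nat_lit 380272089) (nat_lit 608) (nat_lit 9593334324) (nat_lit 684) (nat_lit 4659371584) (nat_lit 323) (nat_lit 5) (nat_lit 331) (nat_lit 5) (nat_lit 332) (nat_lit 5) (nat_lit 395) (nat_lit 369) (nat_lit 256)) (XT.lf (nat_lit 0) (nat_lit 8963950385) (nat_lit 608) (nat_lit 3363474774) (nat_lit 684) (nat_lit 2540989515) (nat_lit 323) (nat_lit 5) (nat_lit 331) (nat_lit 5) (nat_lit 332) (nat_lit 5) (nat_lit 396) (nat_lit 369) (nat_lit 255)))))) (XT.nd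 (nat_lit 468) (nat_lit 1368) (nat_lit 0) (XT.nd (nat_lit 234) (nat_lit 988) (nat_lit 0) (XT.nd (nat_lit 78) (nat_lit 608) (nat_lit 0) (XT.lf (nat_lit 0) (nat_lit 2702179058) (nat_lit 532) (nat_lit 12090845231) (nat_lit 608) (nat_lit 316655188) (nat_lit 316) (nat_lit 5) (nat_lit 323) (nat_lit 5) (nat_lit 324) (nat_lit 5) (nat_lit 397) (nat_lit 369) (nat_lit 254)) (XT.nd (nat_lit 78) (nat_lit 532) (nat_lit 0) (XT.lf (nat_lit 0) (nat_lit 2015365754) (nat_lit 608) (nat_lit 3736760162) (nat_lit 76) (nat_lit 9603102398) (nat_lit 315) (nat_lit 5) (nat_lit 323) (nat_lit 5) (nat_lit 316) (nat_lit 5) (nat_lit 398) (nat_lit 369) (nat_lit 253)) (XT.lf (nat_lit 0) (nat_lit 4456090086) (nat_lit 608) (nat_lit 10336044605) (nat_lit 76) (nat_lit 814561653) (nat_lit 308) (nat_lit 5) (nat_lit 316) (nat_lit 5) (nat_lit 309) (nat_lit 5) (nat_lit 399) (nat_lit 369) (nat_lit 252)))) (XT.nd (nat_lit 78) (nat_lit 988) (nat_lit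 0) (XT.lf (nat_lit 0) (nat_lit 7051710801) (nat_lit 608) (nat_lit 1312353452) (nat_lit 76) (nat_lit 7499193923) (nat_lit 308) (nat_lit 5) (nat_lit 316) (nat_lit 5) (nat_lit 309) (nat_lit 5) (nat_lit 400) (nat_lit 369) (nat_lit 251)) (XT.nd (nat_lit 78) (nat_lit 532) (nat_lit 0) (XT.lf (nat_lit 0) (nat_lit 8125719589) (nat_lit 456) (nat_lit 1664595136) (nat_lit 532) (nat_lit 6335248700) (nat_lit 302) (nat_lit 5) (nat_lit 308) (nat_lit 5) (nat_lit 309) (nat_lit 5) (nat_lit 401) (nat_lit 369) (nat_lit 250)) (XT.lf (nat_lit 0) (nat_lit 1441046485) (nat_lit 532) (nat_lit 11234819033) (nat_lit 608) (nat_lit 3717928650) (nat_lit 295) (nat_lit 5) (nat_lit 302) (nat_lit 5) (nat_lit 303) (nat_lit 5) (nat_lit 402) (nat_lit 369) (nat_lit 249))))) (XT.nd (nat_lit 234) (nat_lit 836) (nat_lit 0) (XT.nd (nat_lit 78) (nat_lit 532) (nat_lit 0) (XT.lf (nat_lit 0) (nat_lit 11297382893) (nat_lit 532) (nat_lit 4435153434)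 (nat_lit 608) (nat_lit 934998903) (nat_lit 295) (nat_lit 5) (nat_lit 302) (nat_lit 5) (nat_lit 303) (nat_lit 5) (nat_lit 403) (nat_lit 369) (nat_lit 248)) (XT.nd (nat_lit 78) (nat_lit 0) (nat_lit 0) (XT.lf (nat_lit 0) (nat_lit 1950499618) (nat_lit 532) (nat_lit 12417791528) (nat_lit 76) (nat_lit 2578937303) (nat_lit 288) (nat_lit 5) (nat_lit 295) (nat_lit 5) (nat_lit 289) (nat_lit 5) (nat_lit 404) (nat_lit 369) (nat_lit 247)) (XT.lf (nat_lit 0) (nat_lit 4990337323) (nat_lit 532) (nat_lit 2466258590) (nat_lit 76) (nat_lit 9775841825) (nat_lit 288) (nat_lit 5) (nat_lit 295) (nat_lit 5) (nat_lit 289) (nat_lit 5) (nat_lit 405) (nat_lit 369) (nat_lit 246)))) (XT.nd (nat_lit 78) (nat_lit 380) (nat_lit 0) (XT.lf (nat_lit 0) (nat_lit 7923917371) (nat_lit 456) (nat_lit 261864513) (nat_lit 532) (nat_lit 9338489072) (nat_lit 282) (nat_lit 5) (nat_lit 288) (nat_lit 5) (nat_lit 289) (nat_lit 5) (nat_lit 406) (nat_lit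 369) (nat_lit 245)) (XT.nd (nat_lit 78) (nat_lit 0) (nat_lit 0) (XT.lf (nat_lit 0) (nat_lit 783870140) (nat_lit 380) (nat_lit 10783042553) (nat_lit 456) (nat_lit 6255251789) (nat_lit 277) (nat_lit 5) (nat_lit 282) (nat_lit 5) (nat_lit 283) (nat_lit 5) (nat_lit 407) (nat_lit 369) (nat_lit 244)) (XT.lf (nat_lit 0) (nat_lit 11659214150) (nat_lit 380) (nat_lit 3478391825) (nat_lit 456) (nat_lit 2988744982) (nat_lit 277) (nat_lit 5) (nat_lit 282) (nat_lit 5) (nat_lit 283) (nat_lit 5) (nat_lit 408) (nat_lit 369) (nat_lit 243))))))) (XT.nd (nat_lit 936) (nat_lit 1900) (nat_lit 0) (XT.nd (nat_lit 468) (nat_lit 1140) (nat_lit 0) (XT.nd (nat_lit 234) (nat_lit 836) (nat_lit 0) (XT.nd (nat_lit 78) (nat_lit 380) (nat_lit 0) (XT.lf (nat_lit 0) (nat_lit 439751065) (nat_lit 532) (nat_lit 13987096277) (nat_lit 76) (nat_lit 4010567532) (nat_lit 270) (nat_lit 5) (nat_lit 277) (nat_lit 5) (nat_lit 271) (nat_lit 5) (nat_lit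 409) (nat_lit 369) (nat_lit 242)) (XT.nd (nat_lit 78) (nat_lit 380) (nat_lit 0) (XT.lf (nat_lit 0) (nat_lit 4000418565) (nat_lit 532) (nat_lit 3007176803) (nat_lit 76) (nat_lit 11746645973) (nat_lit 270) (nat_lit 5) (nat_lit 277) (nat_lit 5) (nat_lit 271) (nat_lit 5) (nat_lit 410) (nat_lit 369) (nat_lit 241)) (XT.lf (nat_lit 0) (nat_lit 7745346230) (nat_lit 456) (nat_lit 10632327648) (nat_lit 76) (nat_lit 700575520) (nat_lit 265) (nat_lit 5) (nat_lit 271) (nat_lit 5) (nat_lit 266) (nat_lit 5) (nat_lit 411) (nat_lit 369) (nat_lit 240)))) (XT.nd (nat_lit 78) (nat_lit 456) (nat_lit 0) (XT.lf (nat_lit 0) (nat_lit 825377675) (nat_lit 380) (nat_lit 10874687741) (nat_lit 456) (nat_lit 7708988970) (nat_lit 260) (nat_lit 5) (nat_lit 265) (nat_lit 5) (nat_lit 266) (nat_lit 5) (nat_lit 412) (nat_lit 369) (nat_lit 239)) (XT.nd (nat_lit 78) (nat_lit 456) (nat_lit 0) (XT.lf (nat_lit 0) (nat_lit 12830669663) (nat_lit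 380) (nat_lit 3039753928) (nat_lit 456) (nat_lit 3876450010) (nat_lit 260) (nat_lit 5) (nat_lit 265) (nat_lit 5) (nat_lit 266) (nat_lit 5) (nat_lit 413) (nat_lit 369) (nat_lit 238)) (XT.lf (nat_lit 0) (nat_lit 158200640) (nat_lit 456) (nat_lit 14954477051) (nat_lit 76) (nat_lit 4979473540) (nat_lit 254) (nat_lit 5) (nat_lit 260) (nat_lit 5) (nat_lit 255) (nat_lit 5) (nat_lit 414) (nat_lit 369) (nat_lit 237))))) (XT.nd (nat_lit 234) (nat_lit 456) (nat_lit 0) (XT.nd (nat_lit 78) (nat_lit 684) (nat_lit 0) (XT.lf (nat_lit 0) (nat_lit 4326568083) (nat_lit 456) (nat_lit 2833933070) (nat_lit 76) (nat_lit 13283416914) (nat_lit 254) (nat_lit 5) (nat_lit 260) (nat_lit 5) (nat_lit 255) (nat_lit 5) (nat_lit 415) (nat_lit 369) (nat_lit 236)) (XT.nd (nat_lit 78) (nat_lit 304) (nat_lit 0) (XT.lf (nat_lit 0) (nat_lit 8715519088) (nat_lit 456) (nat_lit 10986090852) (nat_lit 76) (nat_lit 1101761992) (nat_lit 249) (nat_lit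 5) (nat_lit 255) (nat_lit 5) (nat_lit 250) (nat_lit 5) (nat_lit 416) (nat_lit 369) (nat_lit 235)) (XT.lf (nat_lit 0) (nat_lit 1681276856) (nat_lit 304) (nat_lit 11661191077) (nat_lit 380) (nat_lit 7827951600) (nat_lit 245) (nat_lit 5) (nat_lit 249) (nat_lit 5) (nat_lit 250) (nat_lit 5) (nat_lit 417) (nat_lit 369) (nat_lit 234)))) (XT.nd (nat_lit 78) (nat_lit 456) (nat_lit 0) (XT.lf (nat_lit 0) (nat_lit 14940279119) (nat_lit 304) (nat_lit 3269405200) (nat_lit 380) (nat_lit 3335750471) (nat_lit 245) (nat_lit 5) (nat_lit 249) (nat_lit 5) (nat_lit 250) (nat_lit 5) (nat_lit 418) (nat_lit 369) (nat_lit 233)) (XT.nd (nat_lit 78) (nat_lit 0) (nat_lit 0) (XT.lf (nat_lit 0) (nat_lit 1374207761) (nat_lit 456) (nat_lit 15210342194) (nat_lit 76) (nat_lit 5343532570) (nat_lit 239) (nat_lit 5) (nat_lit 245) (nat_lit 5) (nat_lit 240) (nat_lit 5) (nat_lit 419) (nat_lit 369) (nat_lit 232)) (XT.lf (nat_lit 0) (nat_lit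 6248959336) (nat_lit 456) (nat_lit 1824027902) (nat_lit 76) (nat_lit 14245515441) (nat_lit 239) (nat_lit 5) (nat_lit 245) (nat_lit 5) (nat_lit 240) (nat_lit 5) (nat_lit 420) (nat_lit 369) (nat_lit 231)))))) (XT.nd (nat_lit 468) (nat_lit 608) (nat_lit 0) (XT.nd (nat_lit 234) (nat_lit 684) (nat_lit 0) (XT.nd (nat_lit 78) (nat_lit 304) (nat_lit 0) (XT.lf (nat_lit 0) (nat_lit 11385986084) (nat_lit 380) (nat_lit 10536549601) (nat_lit 76) (nat_lit 794618774) (nat_lit 235) (nat_lit 5) (nat_lit 240) (nat_lit 5) (nat_lit 236) (nat_lit 5) (nat_lit 421) (nat_lit 369) (nat_lit 230)) (XT.nd (nat_lit 78) (nat_lit 0) (nat_lit 0) (XT.lf (nat_lit 0) (nat_lit 3490364771) (nat_lit 304) (nat_lit 13310015243) (nat_lit 380) (nat_lit 6323688087) (nat_lit 231) (nat_lit 5) (nat_lit 235) (nat_lit 5) (nat_lit 236) (nat_lit 5) (nat_lit 422) (nat_lit 369) (nat_lit 229)) (XT.lf (nat_lit 0) (nat_lit 18141018736) (nat_lit 304) (nat_lit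 4333889929) (nat_lit 380) (nat_lit 1065349399) (nat_lit 231) (nat_lit 5) (nat_lit 235) (nat_lit 5) (nat_lit 236) (nat_lit 5) (nat_lit 423) (nat_lit 369) (nat_lit 228)))) (XT.nd (nat_lit 78) (nat_lit 304) (nat_lit 0) (XT.lf (nat_lit 0) (nat_lit 4396064283) (nat_lit 380) (nat_lit 14622866011) (nat_lit 76) (nat_lit 4944842071) (nat_lit 226) (nat_lit 5) (nat_lit 231) (nat_lit 5) (nat_lit 227) (nat_lit 5) (nat_lit 424) (nat_lit 369) (nat_lit 227)) (XT.nd (nat_lit 78) (nat_lit 0) (nat_lit 0) (XT.lf (nat_lit 0) (nat_lit 172007238) (nat_lit 304) (nat_lit 9919084077) (nat_lit 380) (nat_lit 14305848837) (nat_lit 222) (nat_lit 5) (nat_lit 226) (nat_lit 5) (nat_lit 227) (nat_lit 5) (nat_lit 425) (nat_lit 369) (nat_lit 226)) (XT.lf (nat_lit 0) (nat_lit 15697677189) (nat_lit 304) (nat_lit 398635648) (nat_lit 380) (nat_lit 8742609826) (nat_lit 222) (nat_lit 5) (nat_lit 226) (nat_lit 5) (nat_lit 227) (nat_lit 5) (nat_lit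 426) (nat_lit 369) (nat_lit 225))))) (XT.nd (nat_lit 48672) (nat_lit 0) (nat_lit 13452) (XT.nd (nat_lit 78) (nat_lit 380) (nat_lit 0) (XT.lf (nat_lit 0) (nat_lit 6417112210) (nat_lit 228) (nat_lit 16008575771) (nat_lit 304) (nat_lit 2864156758) (nat_lit 219) (nat_lit 5) (nat_lit 222) (nat_lit 5) (nat_lit 223) (nat_lit 5) (nat_lit 427) (nat_lit 369) (nat_lit 224)) (XT.nd (nat_lit 78) (nat_lit 304) (nat_lit 0) (XT.lf (nat_lit 0) (nat_lit 3217477146) (nat_lit 304) (nat_lit 3170117744) (nat_lit 76) (nat_lit 19363106825) (nat_lit 218) (nat_lit 5) (nat_lit 222) (nat_lit 5) (nat_lit 219) (nat_lit 5) (nat_lit 428) (nat_lit 369) (nat_lit 223)) (XT.lf (nat_lit 0) (nat_lit 9578587005) (nat_lit 380) (nat_lit 13035402871) (nat_lit 76) (nat_lit 3605905974) (nat_lit 214) (nat_lit 5) (nat_lit 219) (nat_lit 5) (nat_lit 215) (nat_lit 5) (nat_lit 429) (nat_lit 369) (nat_lit 222)))) (XT.nd (nat_lit 78) (nat_lit 0) (nat_lit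 0) (XT.lf (nat_lit 0) (nat_lit 278944548) (nat_lit 0) (nat_lit 278944548) (nat_lit 1140) (nat_lit 4594495487) (nat_lit 391) (nat_lit 5) (nat_lit 391) (nat_lit 3) (nat_lit 406) (nat_lit 3) (nat_lit 370) (nat_lit 370) (nat_lit 280)) (XT.nd (nat_lit 78) (nat_lit 0) (nat_lit 0) (XT.lf (nat_lit 0) (nat_lit 1837315110) (nat_lit 1140) (nat_lit 4626863976) (nat_lit 1216) (nat_lit 3974017610) (nat_lit 391) (nat_lit 5) (nat_lit 406) (nat_lit 3) (nat_lit 407) (nat_lit 5) (nat_lit 371) (nat_lit 370) (nat_lit 279)) (XT.lf (nat_lit 76) (nat_lit 639816681) (nat_lit 0) (nat_lit 1926494469) (nat_lit 1216) (nat_lit 8009741513) (nat_lit 392) (nat_lit 5) (nat_lit 391) (nat_lit 5) (nat_lit 407) (nat_lit 5) (nat_lit 372) (nat_lit 370) (nat_lit 278))))))))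
noncomputable def xc100 : XT := (XT.nd (nat_lit 1794) (nat_lit 6536) (nat_lit 0) (XT.nd (nat_lit 858) (nat_lit 3724) (nat_lit 0) (XT.nd (nat_lit 390) (nat_lit 912) (nat_lit 0) (XT.nd (nat_lit 156) (nat_lit 0) (nat_lit 76) (XT.nd (nat_lit 78) (nat_lit 0) (nat_lit 0) (XT.lf (nat_lit 0) (nat_lit 3365641191) (nat_lit 1140) (nat_lit 4598798917) (nat_lit 1216) (nat_lit 2752150275) (nat_lit 392) (nat_lit 5) (nat_lit 407) (nat_lit 5) (nat_lit 408) (nat_lit 5) (nat_lit 373) (nat_lit 370) (nat_lit 277)) (XT.lf (nat_lit 76) (nat_lit 882709285) (nat_lit 0) (nat_lit 3309403467) (nat_lit 1216) (nat_lit 6669136634) (nat_lit 393) (nat_lit 5) (nat_lit 392) (nat_lit 5) (nat_lit 408) (nat_lit 5) (nat_lit 374) (nat_lit 370) (nat_lit 276))) (XT.nd (nat_lit 78) (nat_lit 0) (nat_lit 0) (XT.lf (nat_lit 0) (nat_lit 5080826077) (nat_lit 1140) (nat_lit 4415530489) (nat_lit 1216) (nat_lit 1512768167) (nat_lit 393) (nat_lit 5) (nat_lit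 408) (nat_lit 5) (nat_lit 409) (nat_lit 5) (nat_lit 375) (nat_lit 370) (nat_lit 275)) (XT.nd (nat_lit 78) (nat_lit 0) (nat_lit 76) (XT.lf (nat_lit 76) (nat_lit 1292383412) (nat_lit 0) (nat_lit 4725969571) (nat_lit 1216) (nat_lit 5142418790) (nat_lit 394) (nat_lit 5) (nat_lit 393) (nat_lit 5) (nat_lit 409) (nat_lit 5) (nat_lit 376) (nat_lit 370) (nat_lit 274)) (XT.lf (nat_lit 0) (nat_lit 7008413088) (nat_lit 1140) (nat_lit 4070877045) (nat_lit 1216) (nat_lit 236945871) (nat_lit 394) (nat_lit 5) (nat_lit 409) (nat_lit 5) (nat_lit 410) (nat_lit 5) (nat_lit 377) (nat_lit 370) (nat_lit 273))))) (XT.nd (nat_lit 234) (nat_lit 1064) (nat_lit 0) (XT.nd (nat_lit 78) (nat_lit 0) (nat_lit 0) (XT.lf (nat_lit 76) (nat_lit 1875757877) (nat_lit 0) (nat_lit 6195468059) (nat_lit 1216) (nat_lit 3403846696) (nat_lit 395) (nat_lit 5) (nat_lit 394) (nat_lit 5) (nat_lit 410) (nat_lit 5) (nat_lit 378) (nat_lit 370) (nat_lit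 272)) (XT.nd (nat_lit 78) (nat_lit 0) (nat_lit 76) (XT.lf (nat_lit 76) (nat_lit 8069771350) (nat_lit 0) (nat_lit 1115982967) (nat_lit 1216) (nat_lit 2452325108) (nat_lit 395) (nat_lit 5) (nat_lit 394) (nat_lit 5) (nat_lit 410) (nat_lit 5) (nat_lit 379) (nat_lit 370) (nat_lit 271)) (XT.lf (nat_lit 76) (nat_lit 2640865904) (nat_lit 0) (nat_lit 7737209197) (nat_lit 1216) (nat_lit 1426570625) (nat_lit 396) (nat_lit 5) (nat_lit 395) (nat_lit 5) (nat_lit 411) (nat_lit 5) (nat_lit 380) (nat_lit 370) (nat_lit 270)))) (XT.nd (nat_lit 78) (nat_lit 1140) (nat_lit 0) (XT.lf (nat_lit 76) (nat_lit 9083605821) (nat_lit 0) (nat_lit 2549399715) (nat_lit 1216) (nat_lit 342398279) (nat_lit 396) (nat_lit 5) (nat_lit 395) (nat_lit 5) (nat_lit 411) (nat_lit 5) (nat_lit 381) (nat_lit 370) (nat_lit 269)) (XT.nd (nat_lit 78) (nat_lit 0) (nat_lit 0) (XT.lf (nat_lit 0) (nat_lit 801542795) (nat_lit 1216) (nat_lit 8561011796) (nat_lit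 1292) (nat_lit 2787236176) (nat_lit 380) (nat_lit 5) (nat_lit 396) (nat_lit 5) (nat_lit 397) (nat_lit 5) (nat_lit 382) (nat_lit 370) (nat_lit 268)) (XT.lf (nat_lit 0) (nat_lit 2008394890) (nat_lit 1216) (nat_lit 2049440156) (nat_lit 1292) (nat_lit 8270408340) (nat_lit 380) (nat_lit 5) (nat_lit 396) (nat_lit 5) (nat_lit 397) (nat_lit 5) (nat_lit 383) (nat_lit 370) (nat_lit 267)))))) (XT.nd (nat_lit 468) (nat_lit 1824) (nat_lit 0) (XT.nd (nat_lit 234) (nat_lit 1976) (nat_lit 0) (XT.nd (nat_lit 78) (nat_lit 0) (nat_lit 0) (XT.lf (nat_lit 0) (nat_lit 3292279957) (nat_lit 1216) (nat_lit 7789969898) (nat_lit 1292) (nat_lit 1428574905) (nat_lit 381) (nat_lit 5) (nat_lit 397) (nat_lit 5) (nat_lit 398) (nat_lit 5) (nat_lit 384) (nat_lit 370) (nat_lit 266)) (XT.nd (nat_lit 78) (nat_lit 0) (nat_lit 0) (XT.lf (nat_lit 0) (nat_lit 4657504195) (nat_lit 1216) (nat_lit 1017416749) (nat_lit 1292) (nat_lit 7022677955)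 (nat_lit 381) (nat_lit 5) (nat_lit 397) (nat_lit 5) (nat_lit 398) (nat_lit 5) (nat_lit 385) (nat_lit 370) (nat_lit 265)) (XT.lf (nat_lit 76) (nat_lit 6061999795) (nat_lit 0) (nat_lit 42234494) (nat_lit 1292) (nat_lit 6784525499) (nat_lit 382) (nat_lit 5) (nat_lit 381) (nat_lit 5) (nat_lit 398) (nat_lit 5) (nat_lit 386) (nat_lit 370) (nat_lit 264)))) (XT.nd (nat_lit 78) (nat_lit 836) (nat_lit 0) (XT.lf (nat_lit 0) (nat_lit 223188344) (nat_lit 1216) (nat_lit 7421744567) (nat_lit 1292) (nat_lit 5439205593) (nat_lit 366) (nat_lit 5) (nat_lit 382) (nat_lit 5) (nat_lit 383) (nat_lit 5) (nat_lit 387) (nat_lit 370) (nat_lit 263)) (XT.nd (nat_lit 78) (nat_lit 836) (nat_lit 0) (XT.lf (nat_lit 0) (nat_lit 7609288136) (nat_lit 1216) (nat_lit 1674959217) (nat_lit 1292) (nat_lit 3999559382) (nat_lit 366) (nat_lit 5) (nat_lit 382) (nat_lit 5) (nat_lit 383) (nat_lit 5) (nat_lit 388) (nat_lit 370) (nat_lit 262)) (XT.lf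 (nat_lit 0) (nat_lit 1705036256) (nat_lit 836) (nat_lit 9308450270) (nat_lit 912) (nat_lit 2474756129) (nat_lit 355) (nat_lit 5) (nat_lit 366) (nat_lit 5) (nat_lit 367) (nat_lit 5) (nat_lit 389) (nat_lit 370) (nat_lit 261))))) (XT.nd (nat_lit 234) (nat_lit 1140) (nat_lit 0) (XT.nd (nat_lit 78) (nat_lit 684) (nat_lit 0) (XT.lf (nat_lit 0) (nat_lit 9390589603) (nat_lit 836) (nat_lit 3461629947) (nat_lit 912) (nat_lit 844863602) (nat_lit 355) (nat_lit 5) (nat_lit 366) (nat_lit 5) (nat_lit 367) (nat_lit 5) (nat_lit 390) (nat_lit 370) (nat_lit 260)) (XT.nd (nat_lit 78) (nat_lit 0) (nat_lit 0) (XT.lf (nat_lit 0) (nat_lit 859949554) (nat_lit 684) (nat_lit 10497531112) (nat_lit 76) (nat_lit 2553198809) (nat_lit 346) (nat_lit 5) (nat_lit 355) (nat_lit 5) (nat_lit 347) (nat_lit 5) (nat_lit 391) (nat_lit 370) (nat_lit 259)) (XT.lf (nat_lit 0) (nat_lit 2661654954) (nat_lit 684) (nat_lit 2734798722) (nat_lit 76)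 (nat_lit 8732097199) (nat_lit 346) (nat_lit 5) (nat_lit 355) (nat_lit 5) (nat_lit 347) (nat_lit 5) (nat_lit 392) (nat_lit 370) (nat_lit 258)))) (XT.nd (nat_lit 78) (nat_lit 532) (nat_lit 0) (XT.lf (nat_lit 0) (nat_lit 4561492678) (nat_lit 684) (nat_lit 9008870932) (nat_lit 76) (nat_lit 781272373) (nat_lit 338) (nat_lit 5) (nat_lit 347) (nat_lit 5) (nat_lit 339) (nat_lit 5) (nat_lit 393) (nat_lit 370) (nat_lit 257)) (XT.nd (nat_lit 78) (nat_lit 532) (nat_lit 0) (XT.lf (nat_lit 0) (nat_lit 6584934448) (nat_lit 684) (nat_lit 930445480) (nat_lit 76) (nat_lit 7064035448) (nat_lit 338) (nat_lit 5) (nat_lit 347) (nat_lit 5) (nat_lit 339) (nat_lit 5) (nat_lit 394) (nat_lit 370) (nat_lit 256)) (XT.lf (nat_lit 0) (nat_lit 7522687572) (nat_lit 532) (nat_lit 1204422194) (nat_lit 608) (nat_lit 6085177477) (nat_lit 331) (nat_lit 5) (nat_lit 338) (nat_lit 5) (nat_lit 339) (nat_lit 5) (nat_lit 395) (nat_lit 370) (nat_lit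 255))))))) (XT.nd (nat_lit 936) (nat_lit 2812) (nat_lit 0) (XT.nd (nat_lit 468) (nat_lit 1976) (nat_lit 0) (XT.nd (nat_lit 234) (nat_lit 532) (nat_lit 0) (XT.nd (nat_lit 78) (nat_lit 608) (nat_lit 0) (XT.lf (nat_lit 0) (nat_lit 1153416018) (nat_lit 608) (nat_lit 9837610791) (nat_lit 684) (nat_lit 4059394162) (nat_lit 323) (nat_lit 5) (nat_lit 331) (nat_lit 5) (nat_lit 332) (nat_lit 5) (nat_lit 396) (nat_lit 370) (nat_lit 254)) (XT.nd (nat_lit 78) (nat_lit 608) (nat_lit 0) (XT.lf (nat_lit 0) (nat_lit 9972418183) (nat_lit 608) (nat_lit 3422123131) (nat_lit 684) (nat_lit 1899006997) (nat_lit 323) (nat_lit 5) (nat_lit 331) (nat_lit 5) (nat_lit 332) (nat_lit 5) (nat_lit 397) (nat_lit 370) (nat_lit 253)) (XT.lf (nat_lit 0) (nat_lit 371600749) (nat_lit 608) (nat_lit 12010219880) (nat_lit 76) (nat_lit 3160501553) (nat_lit 315) (nat_lit 5) (nat_lit 323) (nat_lit 5) (nat_lit 316) (nat_lit 5) (nat_lit 398) (nat_lit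 370) (nat_lit 252)))) (XT.nd (nat_lit 78) (nat_lit 532) (nat_lit 0) (XT.lf (nat_lit 0) (nat_lit 2747080259) (nat_lit 608) (nat_lit 3104814082) (nat_lit 76) (nat_lit 9943853217) (nat_lit 315) (nat_lit 5) (nat_lit 323) (nat_lit 5) (nat_lit 316) (nat_lit 5) (nat_lit 399) (nat_lit 370) (nat_lit 251)) (XT.nd (nat_lit 78) (nat_lit 0) (nat_lit 0) (XT.lf (nat_lit 0) (nat_lit 5249306873) (nat_lit 608) (nat_lit 9890357609) (nat_lit 76) (nat_lit 915446730) (nat_lit 308) (nat_lit 5) (nat_lit 316) (nat_lit 5) (nat_lit 309) (nat_lit 5) (nat_lit 400) (nat_lit 370) (nat_lit 250)) (XT.lf (nat_lit 0) (nat_lit 7903586479) (nat_lit 608) (nat_lit 617968391) (nat_lit 76) (nat_lit 7798391321) (nat_lit 308) (nat_lit 5) (nat_lit 316) (nat_lit 5) (nat_lit 309) (nat_lit 5) (nat_lit 401) (nat_lit 370) (nat_lit 249))))) (XT.nd (nat_lit 234) (nat_lit 988) (nat_lit 0) (XT.nd (nat_lit 78) (nat_lit 532) (nat_lit 0) (XT.lf (nat_lit 0)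 (nat_lit 9096053157) (nat_lit 456) (nat_lit 1616629297) (nat_lit 532) (nat_lit 5877788124) (nat_lit 302) (nat_lit 5) (nat_lit 308) (nat_lit 5) (nat_lit 309) (nat_lit 5) (nat_lit 402) (nat_lit 370) (nat_lit 248)) (XT.nd (nat_lit 78) (nat_lit 0) (nat_lit 0) (XT.lf (nat_lit 0) (nat_lit 2221459669) (nat_lit 532) (nat_lit 11453029608) (nat_lit 608) (nat_lit 3192568282) (nat_lit 295) (nat_lit 5) (nat_lit 302) (nat_lit 5) (nat_lit 303) (nat_lit 5) (nat_lit 403) (nat_lit 370) (nat_lit 247)) (XT.lf (nat_lit 0) (nat_lit 12352014855) (nat_lit 532) (nat_lit 4452835226) (nat_lit 608) (nat_lit 344701076) (nat_lit 295) (nat_lit 5) (nat_lit 302) (nat_lit 5) (nat_lit 303) (nat_lit 5) (nat_lit 404) (nat_lit 370) (nat_lit 246)))) (XT.nd (nat_lit 78) (nat_lit 456) (nat_lit 0) (XT.lf (nat_lit 0) (nat_lit 2605767224) (nat_lit 532) (nat_lit 12053019622) (nat_lit 76) (nat_lit 2778955878) (nat_lit 288) (nat_lit 5) (nat_lit 295)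 (nat_lit 5) (nat_lit 289) (nat_lit 5) (nat_lit 405) (nat_lit 370) (nat_lit 245)) (XT.nd (nat_lit 78) (nat_lit 456) (nat_lit 0) (XT.lf (nat_lit 0) (nat_lit 5719418916) (nat_lit 532) (nat_lit 1824415618) (nat_lit 76) (nat_lit 10188195193) (nat_lit 288) (nat_lit 5) (nat_lit 295) (nat_lit 5) (nat_lit 289) (nat_lit 5) (nat_lit 406) (nat_lit 370) (nat_lit 244)) (XT.lf (nat_lit 0) (nat_lit 8870447674) (nat_lit 456) (nat_lit 130217784) (nat_lit 532) (nat_lit 9032254323) (nat_lit 282) (nat_lit 5) (nat_lit 288) (nat_lit 5) (nat_lit 289) (nat_lit 5) (nat_lit 407) (nat_lit 370) (nat_lit 243)))))) (XT.nd (nat_lit 468) (nat_lit 1140) (nat_lit 0) (XT.nd (nat_lit 234) (nat_lit 760) (nat_lit 0) (XT.nd (nat_lit 78) (nat_lit 532) (nat_lit 0) (XT.lf (nat_lit 0) (nat_lit 1524833903) (nat_lit 380) (nat_lit 10950012914) (nat_lit 456) (nat_lit 5865154797) (nat_lit 277) (nat_lit 5) (nat_lit 282) (nat_lit 5) (nat_lit 283) (nat_lit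 5) (nat_lit 408) (nat_lit 370) (nat_lit 242)) (XT.nd (nat_lit 78) (nat_lit 532) (nat_lit 0) (XT.lf (nat_lit 0) (nat_lit 12705541699) (nat_lit 380) (nat_lit 3430781526) (nat_lit 456) (nat_lit 2517480589) (nat_lit 277) (nat_lit 5) (nat_lit 282) (nat_lit 5) (nat_lit 283) (nat_lit 5) (nat_lit 409) (nat_lit 370) (nat_lit 241)) (XT.lf (nat_lit 0) (nat_lit 995176703) (nat_lit 532) (nat_lit 13691464403) (nat_lit 76) (nat_lit 4287629221) (nat_lit 270) (nat_lit 5) (nat_lit 277) (nat_lit 5) (nat_lit 271) (nat_lit 5) (nat_lit 410) (nat_lit 370) (nat_lit 240)))) (XT.nd (nat_lit 78) (nat_lit 760) (nat_lit 0) (XT.lf (nat_lit 0) (nat_lit 4646871031) (nat_lit 532) (nat_lit 2402979717) (nat_lit 76) (nat_lit 12251224637) (nat_lit 270) (nat_lit 5) (nat_lit 277) (nat_lit 5) (nat_lit 271) (nat_lit 5) (nat_lit 411) (nat_lit 370) (nat_lit 239)) (XT.nd (nat_lit 78) (nat_lit 380) (nat_lit 0) (XT.lf (nat_lit 0) (nat_lit 8497056066)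 (nat_lit 456) (nat_lit 10249794629) (nat_lit 76) (nat_lit 888165702) (nat_lit 265) (nat_lit 5) (nat_lit 271) (nat_lit 5) (nat_lit 266) (nat_lit 5) (nat_lit 412) (nat_lit 370) (nat_lit 238)) (XT.lf (nat_lit 0) (nat_lit 1544764375) (nat_lit 380) (nat_lit 11017202933) (nat_lit 456) (nat_lit 7414031711) (nat_lit 260) (nat_lit 5) (nat_lit 265) (nat_lit 5) (nat_lit 266) (nat_lit 5) (nat_lit 413) (nat_lit 370) (nat_lit 237))))) (XT.nd (nat_lit 234) (nat_lit 684) (nat_lit 0) (XT.nd (nat_lit 78) (nat_lit 456) (nat_lit 0) (XT.lf (nat_lit 0) (nat_lit 13889983316) (nat_lit 380) (nat_lit 2952572332) (nat_lit 456) (nat_lit 3481843580) (nat_lit 260) (nat_lit 5) (nat_lit 265) (nat_lit 5) (nat_lit 266) (nat_lit 5) (nat_lit 414) (nat_lit 370) (nat_lit 236)) (XT.nd (nat_lit 78) (nat_lit 0) (nat_lit 0) (XT.lf (nat_lit 0) (nat_lit 657577310) (nat_lit 456) (nat_lit 14712448521) (nat_lit 76) (nat_lit 5310051017) (nat_lit 254)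 (nat_lit 5) (nat_lit 260) (nat_lit 5) (nat_lit 255) (nat_lit 5) (nat_lit 415) (nat_lit 370) (nat_lit 235)) (XT.lf (nat_lit 0) (nat_lit 4936589059) (nat_lit 456) (nat_lit 2248404613) (nat_lit 76) (nat_lit 13857835219) (nat_lit 254) (nat_lit 5) (nat_lit 260) (nat_lit 5) (nat_lit 255) (nat_lit 5) (nat_lit 416) (nat_lit 370) (nat_lit 234)))) (XT.nd (nat_lit 78) (nat_lit 304) (nat_lit 0) (XT.lf (nat_lit 0) (nat_lit 9451443402) (nat_lit 456) (nat_lit 10639361937) (nat_lit 76) (nat_lit 1322433989) (nat_lit 249) (nat_lit 5) (nat_lit 255) (nat_lit 5) (nat_lit 250) (nat_lit 5) (nat_lit 417) (nat_lit 370) (nat_lit 233)) (XT.nd (nat_lit 78) (nat_lit 0) (nat_lit 0) (XT.lf (nat_lit 0) (nat_lit 2401396296) (nat_lit 304) (nat_lit 11808422614) (nat_lit 380) (nat_lit 7581700900) (nat_lit 245) (nat_lit 5) (nat_lit 249) (nat_lit 5) (nat_lit 250) (nat_lit 5) (nat_lit 418) (nat_lit 370) (nat_lit 232)) (XT.lf (nat_lit 0) (nat_lit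 16038663351) (nat_lit 304) (nat_lit 3170784254) (nat_lit 380) (nat_lit 2968746046) (nat_lit 245) (nat_lit 5) (nat_lit 249) (nat_lit 5) (nat_lit 250) (nat_lit 5) (nat_lit 419) (nat_lit 370) (nat_lit 231))))))))
noncomputable def xc101 : XT := (XT.nd (nat_lit 50310) (nat_lit 0) (nat_lit 5320) (XT.nd (nat_lit 49374) (nat_lit 0) (nat_lit 12236) (XT.nd (nat_lit 390) (nat_lit 988) (nat_lit 0) (XT.nd (nat_lit 156) (nat_lit 608) (nat_lit 0) (XT.nd (nat_lit 78) (nat_lit 0) (nat_lit 0) (XT.lf (nat_lit 0) (nat_lit 1868274282) (nat_lit 456) (nat_lit 15002239949) (nat_lit 76) (nat_lit 5701825561) (nat_lit 239) (nat_lit 5) (nat_lit 245) (nat_lit 5) (nat_lit 240) (nat_lit 5) (nat_lit 420) (nat_lit 370) (nat_lit 230)) (XT.lf (nat_lit 0) (nat_lit 6876078880) (nat_lit 456) (nat_lit 1233688050) (nat_lit 76) (nat_lit 14865101306) (nat_lit 239) (nat_lit 5) (nat_lit 245) (nat_lit 5) (nat_lit 240) (nat_lit 5) (nat_lit 421)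 (nat_lit 370) (nat_lit 229))) (XT.nd (nat_lit 78) (nat_lit 304) (nat_lit 0) (XT.lf (nat_lit 0) (nat_lit 12162528802) (nat_lit 380) (nat_lit 10202897770) (nat_lit 76) (nat_lit 1020193626) (nat_lit 235) (nat_lit 5) (nat_lit 240) (nat_lit 5) (nat_lit 236) (nat_lit 5) (nat_lit 422) (nat_lit 370) (nat_lit 228)) (XT.nd (nat_lit 78) (nat_lit 0) (nat_lit 0) (XT.lf (nat_lit 0) (nat_lit 4238453951) (nat_lit 304) (nat_lit 13494416315) (nat_lit 380) (nat_lit 6072065512) (nat_lit 231) (nat_lit 5) (nat_lit 235) (nat_lit 5) (nat_lit 236) (nat_lit 5) (nat_lit 423) (nat_lit 370) (nat_lit 227)) (XT.lf (nat_lit 0) (nat_lit 19309888363) (nat_lit 304) (nat_lit 4255266447) (nat_lit 380) (nat_lit 668831029) (nat_lit 231) (nat_lit 5) (nat_lit 235) (nat_lit 5) (nat_lit 236) (nat_lit 5) (nat_lit 424) (nat_lit 370) (nat_lit 226))))) (XT.nd (nat_lit 234) (nat_lit 304) (nat_lit 0) (XT.nd (nat_lit 78) (nat_lit 304) (nat_lit 0) (XT.lf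 (nat_lit 0) (nat_lit 4943899001) (nat_lit 380) (nat_lit 14424386863) (nat_lit 76) (nat_lit 5301921089) (nat_lit 226) (nat_lit 5) (nat_lit 231) (nat_lit 5) (nat_lit 227) (nat_lit 5) (nat_lit 425) (nat_lit 370) (nat_lit 225)) (XT.nd (nat_lit 78) (nat_lit 0) (nat_lit 0) (XT.lf (nat_lit 0) (nat_lit 808085867) (nat_lit 304) (nat_lit 9995640621) (nat_lit 380) (nat_lit 14312824796) (nat_lit 222) (nat_lit 5) (nat_lit 226) (nat_lit 5) (nat_lit 227) (nat_lit 5) (nat_lit 426) (nat_lit 370) (nat_lit 224)) (XT.lf (nat_lit 0) (nat_lit 16781149651) (nat_lit 304) (nat_lit 196016098) (nat_lit 380) (nat_lit 8594985688) (nat_lit 222) (nat_lit 5) (nat_lit 226) (nat_lit 5) (nat_lit 227) (nat_lit 5) (nat_lit 427) (nat_lit 370) (nat_lit 223)))) (XT.nd (nat_lit 78) (nat_lit 76) (nat_lit 0) (XT.lf (nat_lit 0) (nat_lit 7225941827) (nat_lit 228) (nat_lit 16266816142) (nat_lit 304) (nat_lit 2543953132) (nat_lit 219) (nat_lit 5)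 (nat_lit 222) (nat_lit 5) (nat_lit 223) (nat_lit 5) (nat_lit 428) (nat_lit 370) (nat_lit 222)) (XT.nd (nat_lit 48594) (nat_lit 0) (nat_lit 13148) (XT.lf (nat_lit 0) (nat_lit 3700606608) (nat_lit 304) (nat_lit 2659161784) (nat_lit 76) (nat_lit 20151856219) (nat_lit 218) (nat_lit 5) (nat_lit 222) (nat_lit 5) (nat_lit 219) (nat_lit 5) (nat_lit 429) (nat_lit 370) (nat_lit 221)) (XT.lf (nat_lit 0) (nat_lit 617032301) (nat_lit 0) (nat_lit 617032301) (nat_lit 1140) (nat_lit 4053108353) (nat_lit 391) (nat_lit 5) (nat_lit 391) (nat_lit 3) (nat_lit 406) (nat_lit 3) (nat_lit 371) (nat_lit 371) (nat_lit 278)))))) (XT.nd (nat_lit 468) (nat_lit 912) (nat_lit 0) (XT.nd (nat_lit 234) (nat_lit 0) (nat_lit 76) (XT.nd (nat_lit 78) (nat_lit 0) (nat_lit 0) (XT.lf (nat_lit 0) (nat_lit 3166744017) (nat_lit 1140) (nat_lit 4080869805) (nat_lit 1216) (nat_lit 3465499491) (nat_lit 391) (nat_lit 5) (nat_lit 406) (nat_lit 3) (nat_lit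 407) (nat_lit 5) (nat_lit 372) (nat_lit 371) (nat_lit 277)) (XT.nd (nat_lit 78) (nat_lit 0) (nat_lit 76) (XT.lf (nat_lit 76) (nat_lit 1337097545) (nat_lit 0) (nat_lit 2549914764) (nat_lit 1216) (nat_lit 6969010578) (nat_lit 392) (nat_lit 5) (nat_lit 391) (nat_lit 5) (nat_lit 407) (nat_lit 5) (nat_lit 373) (nat_lit 371) (nat_lit 276)) (XT.lf (nat_lit 0) (nat_lit 4668818862) (nat_lit 1140) (nat_lit 4036923218) (nat_lit 1216) (nat_lit 2296279762) (nat_lit 392) (nat_lit 5) (nat_lit 407) (nat_lit 5) (nat_lit 408) (nat_lit 5) (nat_lit 374) (nat_lit 371) (nat_lit 275)))) (XT.nd (nat_lit 78) (nat_lit 0) (nat_lit 76) (XT.lf (nat_lit 76) (nat_lit 1602169058) (nat_lit 0) (nat_lit 3889561066) (nat_lit 1216) (nat_lit 5660141125) (nat_lit 393) (nat_lit 5) (nat_lit 392) (nat_lit 5) (nat_lit 408) (nat_lit 5) (nat_lit 375) (nat_lit 371) (nat_lit 274)) (XT.nd (nat_lit 78) (nat_lit 0) (nat_lit 0) (XT.lf (nat_lit 0) (nat_lit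 6368427091) (nat_lit 1140) (nat_lit 3836523993) (nat_lit 1216) (nat_lit 1100392103) (nat_lit 393) (nat_lit 5) (nat_lit 408) (nat_lit 5) (nat_lit 409) (nat_lit 5) (nat_lit 376) (nat_lit 371) (nat_lit 273)) (XT.lf (nat_lit 76) (nat_lit 2035652105) (nat_lit 0) (nat_lit 5272136372) (nat_lit 1216) (nat_lit 4154539902) (nat_lit 394) (nat_lit 5) (nat_lit 393) (nat_lit 5) (nat_lit 409) (nat_lit 5) (nat_lit 377) (nat_lit 371) (nat_lit 272))))) (XT.nd (nat_lit 234) (nat_lit 1064) (nat_lit 0) (XT.nd (nat_lit 78) (nat_lit 0) (nat_lit 76) (XT.lf (nat_lit 76) (nat_lit 8149162052) (nat_lit 0) (nat_lit 143698025) (nat_lit 1216) (nat_lit 3330637169) (nat_lit 394) (nat_lit 5) (nat_lit 393) (nat_lit 5) (nat_lit 409) (nat_lit 5) (nat_lit 378) (nat_lit 371) (nat_lit 271)) (XT.nd (nat_lit 78) (nat_lit 0) (nat_lit 0) (XT.lf (nat_lit 76) (nat_lit 2645020780) (nat_lit 0) (nat_lit 6716761926) (nat_lit 1216) (nat_lit 2426089505)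 (nat_lit 395) (nat_lit 5) (nat_lit 394) (nat_lit 5) (nat_lit 410) (nat_lit 5) (nat_lit 379) (nat_lit 371) (nat_lit 270)) (XT.lf (nat_lit 76) (nat_lit 9004087953) (nat_lit 0) (nat_lit 1475122481) (nat_lit 1216) (nat_lit 1477474869) (nat_lit 395) (nat_lit 5) (nat_lit 394) (nat_lit 5) (nat_lit 410) (nat_lit 5) (nat_lit 380) (nat_lit 371) (nat_lit 269)))) (XT.nd (nat_lit 78) (nat_lit 1216) (nat_lit 0) (XT.lf (nat_lit 76) (nat_lit 3438865719) (nat_lit 0) (nat_lit 8242658059) (nat_lit 1216) (nat_lit 447498127) (nat_lit 396) (nat_lit 5) (nat_lit 395) (nat_lit 5) (nat_lit 411) (nat_lit 5) (nat_lit 381) (nat_lit 371) (nat_lit 268)) (XT.nd (nat_lit 78) (nat_lit 0) (nat_lit 76) (XT.lf (nat_lit 0) (nat_lit 626958493) (nat_lit 1216) (nat_lit 2257963604) (nat_lit 1292) (nat_lit 9420663129) (nat_lit 379) (nat_lit 5) (nat_lit 395) (nat_lit 5) (nat_lit 396) (nat_lit 5) (nat_lit 382) (nat_lit 371) (nat_lit 267)) (XT.lf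 (nat_lit 0) (nat_lit 1774512708) (nat_lit 1216) (nat_lit 8076820676) (nat_lit 1292) (nat_lit 2634483396) (nat_lit 380) (nat_lit 5) (nat_lit 396) (nat_lit 5) (nat_lit 397) (nat_lit 5) (nat_lit 383) (nat_lit 371) (nat_lit 266))))))) (XT.nd (nat_lit 936) (nat_lit 3800) (nat_lit 0) (XT.nd (nat_lit 468) (nat_lit 2128) (nat_lit 0) (XT.nd (nat_lit 234) (nat_lit 1064) (nat_lit 0) (XT.nd (nat_lit 78) (nat_lit 0) (nat_lit 76) (XT.lf (nat_lit 0) (nat_lit 2989931813) (nat_lit 1216) (nat_lit 1391485037) (nat_lit 1292) (nat_lit 8289035285) (nat_lit 380) (nat_lit 5) (nat_lit 396) (nat_lit 5) (nat_lit 397) (nat_lit 5) (nat_lit 384) (nat_lit 371) (nat_lit 265)) (XT.nd (nat_lit 78) (nat_lit 0) (nat_lit 0) (XT.lf (nat_lit 0) (nat_lit 4290531806) (nat_lit 1216) (nat_lit 7282429045) (nat_lit 1292) (nat_lit 1286204149) (nat_lit 381) (nat_lit 5) (nat_lit 397) (nat_lit 5) (nat_lit 398) (nat_lit 5) (nat_lit 385) (nat_lit 371)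 (nat_lit 264)) (XT.lf (nat_lit 0) (nat_lit 5670514224) (nat_lit 1216) (nat_lit 328288814) (nat_lit 1292) (nat_lit 7053525280) (nat_lit 381) (nat_lit 5) (nat_lit 397) (nat_lit 5) (nat_lit 398) (nat_lit 5) (nat_lit 386) (nat_lit 371) (nat_lit 263)))) (XT.nd (nat_lit 78) (nat_lit 1140) (nat_lit 0) (XT.lf (nat_lit 76) (nat_lit 6956454829) (nat_lit 0) (nat_lit 185605808) (nat_lit 1292) (nat_lit 6107720964) (nat_lit 382) (nat_lit 5) (nat_lit 381) (nat_lit 5) (nat_lit 398) (nat_lit 5) (nat_lit 387) (nat_lit 371) (nat_lit 262)) (XT.nd (nat_lit 78) (nat_lit 0) (nat_lit 0) (XT.lf (nat_lit 0) (nat_lit 962235007) (nat_lit 1216) (nat_lit 7747564655) (nat_lit 1292) (nat_lit 4741797434) (nat_lit 366) (nat_lit 5) (nat_lit 382) (nat_lit 5) (nat_lit 383) (nat_lit 5) (nat_lit 388) (nat_lit 371) (nat_lit 261)) (XT.lf (nat_lit 0) (nat_lit 8548587181) (nat_lit 1216) (nat_lit 1825370858) (nat_lit 1292) (nat_lit 3284027400)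 (nat_lit 366) (nat_lit 5) (nat_lit 382) (nat_lit 5) (nat_lit 383) (nat_lit 5) (nat_lit 389) (nat_lit 371) (nat_lit 260))))) (XT.nd (nat_lit 234) (nat_lit 608) (nat_lit 0) (XT.nd (nat_lit 78) (nat_lit 684) (nat_lit 0) (XT.lf (nat_lit 0) (nat_lit 2485287258) (nat_lit 836) (nat_lit 9652234204) (nat_lit 912) (nat_lit 1731559562) (nat_lit 355) (nat_lit 5) (nat_lit 366) (nat_lit 5) (nat_lit 367) (nat_lit 5) (nat_lit 390) (nat_lit 371) (nat_lit 259)) (XT.nd (nat_lit 78) (nat_lit 684) (nat_lit 0) (XT.lf (nat_lit 0) (nat_lit 10380171286) (nat_lit 836) (nat_lit 3628129744) (nat_lit 912) (nat_lit 76579169) (nat_lit 355) (nat_lit 5) (nat_lit 366) (nat_lit 5) (nat_lit 367) (nat_lit 5) (nat_lit 391) (nat_lit 371) (nat_lit 258)) (XT.lf (nat_lit 0) (nat_lit 1647669337) (nat_lit 684) (nat_lit 10072884007) (nat_lit 76) (nat_lit 2584588877) (nat_lit 346) (nat_lit 5) (nat_lit 355) (nat_lit 5) (nat_lit 347) (nat_lit 5) (nat_lit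 392) (nat_lit 371) (nat_lit 257)))) (XT.nd (nat_lit 78) (nat_lit 608) (nat_lit 0) (XT.lf (nat_lit 0) (nat_lit 3481234017) (nat_lit 684) (nat_lit 2098810607) (nat_lit 76) (nat_lit 8950170895) (nat_lit 346) (nat_lit 5) (nat_lit 355) (nat_lit 5) (nat_lit 347) (nat_lit 5) (nat_lit 393) (nat_lit 371) (nat_lit 256)) (XT.nd (nat_lit 78) (nat_lit 0) (nat_lit 0) (XT.lf (nat_lit 0) (nat_lit 5423221026) (nat_lit 684) (nat_lit 8546259137) (nat_lit 76) (nat_lit 790958393) (nat_lit 338) (nat_lit 5) (nat_lit 347) (nat_lit 5) (nat_lit 339) (nat_lit 5) (nat_lit 394) (nat_lit 371) (nat_lit 255)) (XT.lf (nat_lit 0) (nat_lit 7486252936) (nat_lit 684) (nat_lit 246826880) (nat_lit 76) (nat_lit 7262604908) (nat_lit 338) (nat_lit 5) (nat_lit 347) (nat_lit 5) (nat_lit 339) (nat_lit 5) (nat_lit 395) (nat_lit 371) (nat_lit 254)))))) (XT.nd (nat_lit 468) (nat_lit 1520) (nat_lit 0) (XT.nd (nat_lit 234) (nat_lit 1140) (nat_lit 0)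 (XT.nd (nat_lit 78) (nat_lit 608) (nat_lit 0) (XT.lf (nat_lit 0) (nat_lit 8452924360) (nat_lit 532) (nat_lit 1226043609) (nat_lit 608) (nat_lit 5556986544) (nat_lit 331) (nat_lit 5) (nat_lit 338) (nat_lit 5) (nat_lit 339) (nat_lit 5) (nat_lit 396) (nat_lit 371) (nat_lit 253)) (XT.nd (nat_lit 78) (nat_lit 0) (nat_lit 0) (XT.lf (nat_lit 0) (nat_lit 1906027515) (nat_lit 608) (nat_lit 10091713982) (nat_lit 684) (nat_lit 3483882586) (nat_lit 323) (nat_lit 5) (nat_lit 331) (nat_lit 5) (nat_lit 332) (nat_lit 5) (nat_lit 397) (nat_lit 371) (nat_lit 252)) (XT.lf (nat_lit 0) (nat_lit 10968686862) (nat_lit 608) (nat_lit 3484956600) (nat_lit 684) (nat_lit 1278993323) (nat_lit 323) (nat_lit 5) (nat_lit 331) (nat_lit 5) (nat_lit 332) (nat_lit 5) (nat_lit 398) (nat_lit 371) (nat_lit 251)))) (XT.nd (nat_lit 78) (nat_lit 532) (nat_lit 0) (XT.lf (nat_lit 0) (nat_lit 1034451231) (nat_lit 608) (nat_lit 11648148918) (nat_lit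 76) (nat_lit 3306440626) (nat_lit 315) (nat_lit 5) (nat_lit 323) (nat_lit 5) (nat_lit 316) (nat_lit 5) (nat_lit 399) (nat_lit 371) (nat_lit 250)) (XT.nd (nat_lit 78) (nat_lit 532) (nat_lit 0) (XT.lf (nat_lit 0) (nat_lit 3462213501) (nat_lit 608) (nat_lit 2496621069) (nat_lit 76) (nat_lit 10291803790) (nat_lit 315) (nat_lit 5) (nat_lit 323) (nat_lit 5) (nat_lit 316) (nat_lit 5) (nat_lit 400) (nat_lit 371) (nat_lit 249)) (XT.lf (nat_lit 0) (nat_lit 6028460209) (nat_lit 608) (nat_lit 9474684198) (nat_lit 76) (nat_lit 1014969918) (nat_lit 308) (nat_lit 5) (nat_lit 316) (nat_lit 5) (nat_lit 309) (nat_lit 5) (nat_lit 401) (nat_lit 371) (nat_lit 248))))) (XT.nd (nat_lit 234) (nat_lit 532) (nat_lit 0) (XT.nd (nat_lit 78) (nat_lit 532) (nat_lit 0) (XT.lf (nat_lit 0) (nat_lit 56224791) (nat_lit 456) (nat_lit 8688576865) (nat_lit 532) (nat_lit 8046619693) (nat_lit 302) (nat_lit 5) (nat_lit 308) (nat_lit 5) (nat_lit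 309) (nat_lit 5) (nat_lit 402) (nat_lit 371) (nat_lit 247)) (XT.nd (nat_lit 78) (nat_lit 532) (nat_lit 0) (XT.lf (nat_lit 0) (nat_lit 10053789103) (nat_lit 456) (nat_lit 1572844556) (nat_lit 532) (nat_lit 5443773916) (nat_lit 302) (nat_lit 5) (nat_lit 308) (nat_lit 5) (nat_lit 309) (nat_lit 5) (nat_lit 403) (nat_lit 371) (nat_lit 246)) (XT.lf (nat_lit 0) (nat_lit 2982967999) (nat_lit 532) (nat_lit 11684608058) (nat_lit 608) (nat_lit 2688007667) (nat_lit 295) (nat_lit 5) (nat_lit 302) (nat_lit 5) (nat_lit 303) (nat_lit 5) (nat_lit 404) (nat_lit 371) (nat_lit 245)))) (XT.nd (nat_lit 78) (nat_lit 456) (nat_lit 0) (XT.lf (nat_lit 0) (nat_lit 223364598) (nat_lit 608) (nat_lit 4252050199) (nat_lit 76) (nat_lit 13171580924) (nat_lit 294) (nat_lit 5) (nat_lit 302) (nat_lit 5) (nat_lit 295) (nat_lit 5) (nat_lit 405) (nat_lit 371) (nat_lit 244)) (XT.nd (nat_lit 78) (nat_lit 0) (nat_lit 0) (XT.lf (nat_lit 0) (nat_lit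 3246436816) (nat_lit 532) (nat_lit 11719628919) (nat_lit 76) (nat_lit 2977934373) (nat_lit 288) (nat_lit 5) (nat_lit 295) (nat_lit 5) (nat_lit 289) (nat_lit 5) (nat_lit 406) (nat_lit 371) (nat_lit 243)) (XT.lf (nat_lit 0) (nat_lit 6437114664) (nat_lit 532) (nat_lit 1204408968) (nat_lit 76) (nat_lit 10606083591) (nat_lit 288) (nat_lit 5) (nat_lit 295) (nat_lit 5) (nat_lit 289) (nat_lit 5) (nat_lit 407) (nat_lit 371) (nat_lit 242))))))))
noncomputable def xc102 : XT := (XT.nd (nat_lit 50466) (nat_lit 0) (nat_lit 8284) (XT.nd (nat_lit 858) (nat_lit 2052) (nat_lit 0) (XT.nd (nat_lit 390) (nat_lit 1596) (nat_lit 0) (XT.nd (nat_lit 156) (nat_lit 532) (nat_lit 0) (XT.nd (nat_lit 78) (nat_lit 380) (nat_lit 0) (XT.lf (nat_lit 0) (nat_lit 9804685133) (nat_lit 456) (nat_lit 2629677) (nat_lit 532) (nat_lit 8750493683) (nat_lit 282) (nat_lit 5) (nat_lit 288) (nat_lit 5) (nat_lit 289) (nat_lit 5) (nat_lit 408) (nat_lit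 371) (nat_lit 241)) (XT.lf (nat_lit 0) (nat_lit 2246842148) (nat_lit 380) (nat_lit 11130977326) (nat_lit 456) (nat_lit 5496520371) (nat_lit 277) (nat_lit 5) (nat_lit 282) (nat_lit 5) (nat_lit 283) (nat_lit 5) (nat_lit 409) (nat_lit 371) (nat_lit 240))) (XT.nd (nat_lit 78) (nat_lit 532) (nat_lit 0) (XT.lf (nat_lit 0) (nat_lit 13743274191) (nat_lit 380) (nat_lit 3390466161) (nat_lit 456) (nat_lit 2064277753) (nat_lit 277) (nat_lit 5) (nat_lit 282) (nat_lit 5) (nat_lit 283) (nat_lit 5) (nat_lit 410) (nat_lit 371) (nat_lit 239)) (XT.nd (nat_lit 78) (nat_lit 0) (nat_lit 0) (XT.lf (nat_lit 0) (nat_lit 1536138711) (nat_lit 532) (nat_lit 13428021549) (nat_lit 76) (nat_lit 4564004976) (nat_lit 270) (nat_lit 5) (nat_lit 277) (nat_lit 5) (nat_lit 271) (nat_lit 5) (nat_lit 411) (nat_lit 371) (nat_lit 238)) (XT.lf (nat_lit 0) (nat_lit 5282497265) (nat_lit 532) (nat_lit 1820518830) (nat_lit 76) (nat_lit 12762204947)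 (nat_lit 270) (nat_lit 5) (nat_lit 277) (nat_lit 5) (nat_lit 271) (nat_lit 5) (nat_lit 412) (nat_lit 371) (nat_lit 237))))) (XT.nd (nat_lit 234) (nat_lit 836) (nat_lit 0) (XT.nd (nat_lit 78) (nat_lit 380) (nat_lit 0) (XT.lf (nat_lit 0) (nat_lit 9241504414) (nat_lit 456) (nat_lit 9896054752) (nat_lit 76) (nat_lit 1071821622) (nat_lit 265) (nat_lit 5) (nat_lit 271) (nat_lit 5) (nat_lit 266) (nat_lit 5) (nat_lit 413) (nat_lit 371) (nat_lit 236)) (XT.nd (nat_lit 78) (nat_lit 0) (nat_lit 0) (XT.lf (nat_lit 0) (nat_lit 2245858339) (nat_lit 380) (nat_lit 11174540173) (nat_lit 456) (nat_lit 7140433312) (nat_lit 260) (nat_lit 5) (nat_lit 265) (nat_lit 5) (nat_lit 266) (nat_lit 5) (nat_lit 414) (nat_lit 371) (nat_lit 235)) (XT.lf (nat_lit 0) (nat_lit 14942363429) (nat_lit 380) (nat_lit 2873014698) (nat_lit 456) (nat_lit 3104726703) (nat_lit 260) (nat_lit 5) (nat_lit 265) (nat_lit 5) (nat_lit 266) (nat_lit 5) (nat_lit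 415) (nat_lit 371) (nat_lit 234)))) (XT.nd (nat_lit 78) (nat_lit 380) (nat_lit 0) (XT.lf (nat_lit 0) (nat_lit 1143541458) (nat_lit 456) (nat_lit 14502806007) (nat_lit 76) (nat_lit 5640144584) (nat_lit 254) (nat_lit 5) (nat_lit 260) (nat_lit 5) (nat_lit 255) (nat_lit 5) (nat_lit 416) (nat_lit 371) (nat_lit 233)) (XT.nd (nat_lit 78) (nat_lit 380) (nat_lit 0) (XT.lf (nat_lit 0) (nat_lit 5537343846) (nat_lit 456) (nat_lit 1683802412) (nat_lit 76) (nat_lit 14439387786) (nat_lit 254) (nat_lit 5) (nat_lit 260) (nat_lit 5) (nat_lit 255) (nat_lit 5) (nat_lit 417) (nat_lit 371) (nat_lit 232)) (XT.lf (nat_lit 0) (nat_lit 10182209572) (nat_lit 456) (nat_lit 10321054209) (nat_lit 76) (nat_lit 1538956039) (nat_lit 249) (nat_lit 5) (nat_lit 255) (nat_lit 5) (nat_lit 250) (nat_lit 5) (nat_lit 418) (nat_lit 371) (nat_lit 231)))))) (XT.nd (nat_lit 468) (nat_lit 684) (nat_lit 0) (XT.nd (nat_lit 234) (nat_lit 608) (nat_lit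 0) (XT.nd (nat_lit 78) (nat_lit 456) (nat_lit 0) (XT.lf (nat_lit 0) (nat_lit 3104676883) (nat_lit 304) (nat_lit 11971701407) (nat_lit 380) (nat_lit 7355679171) (nat_lit 245) (nat_lit 5) (nat_lit 249) (nat_lit 5) (nat_lit 250) (nat_lit 5) (nat_lit 419) (nat_lit 371) (nat_lit 230)) (XT.nd (nat_lit 78) (nat_lit 456) (nat_lit 0) (XT.lf (nat_lit 0) (nat_lit 17132676356) (nat_lit 304) (nat_lit 3080496242) (nat_lit 380) (nat_lit 2617543615) (nat_lit 245) (nat_lit 5) (nat_lit 249) (nat_lit 5) (nat_lit 250) (nat_lit 5) (nat_lit 420) (nat_lit 371) (nat_lit 229)) (XT.lf (nat_lit 0) (nat_lit 2351167913) (nat_lit 456) (nat_lit 14826034633) (nat_lit 76) (nat_lit 6059502078) (nat_lit 239) (nat_lit 5) (nat_lit 245) (nat_lit 5) (nat_lit 240) (nat_lit 5) (nat_lit 421) (nat_lit 371) (nat_lit 228)))) (XT.nd (nat_lit 78) (nat_lit 608) (nat_lit 0) (XT.lf (nat_lit 0) (nat_lit 7496774259) (nat_lit 456) (nat_lit 662667124) (nat_lit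 76) (nat_lit 15492240510) (nat_lit 239) (nat_lit 5) (nat_lit 245) (nat_lit 5) (nat_lit 240) (nat_lit 5) (nat_lit 422) (nat_lit 371) (nat_lit 227)) (XT.nd (nat_lit 78) (nat_lit 304) (nat_lit 0) (XT.lf (nat_lit 0) (nat_lit 12937399139) (nat_lit 380) (nat_lit 9896534596) (nat_lit 76) (nat_lit 1240955235) (nat_lit 235) (nat_lit 5) (nat_lit 240) (nat_lit 5) (nat_lit 236) (nat_lit 5) (nat_lit 423) (nat_lit 371) (nat_lit 226)) (XT.lf (nat_lit 0) (nat_lit 4972053264) (nat_lit 304) (nat_lit 13696685523) (nat_lit 380) (nat_lit 5838228592) (nat_lit 231) (nat_lit 5) (nat_lit 235) (nat_lit 5) (nat_lit 236) (nat_lit 5) (nat_lit 424) (nat_lit 371) (nat_lit 225))))) (XT.nd (nat_lit 234) (nat_lit 0) (nat_lit 0) (XT.nd (nat_lit 78) (nat_lit 684) (nat_lit 0) (XT.lf (nat_lit 0) (nat_lit 20477967242) (nat_lit 304) (nat_lit 4186261061) (nat_lit 380) (nat_lit 285013547) (nat_lit 231) (nat_lit 5) (nat_lit 235) (nat_lit 5) (nat_lit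 236) (nat_lit 5) (nat_lit 425) (nat_lit 371) (nat_lit 224)) (XT.nd (nat_lit 78) (nat_lit 304) (nat_lit 0) (XT.lf (nat_lit 0) (nat_lit 5484291368) (nat_lit 380) (nat_lit 14256529226) (nat_lit 76) (nat_lit 5657730306) (nat_lit 226) (nat_lit 5) (nat_lit 231) (nat_lit 5) (nat_lit 227) (nat_lit 5) (nat_lit 426) (nat_lit 371) (nat_lit 223)) (XT.lf (nat_lit 0) (nat_lit 1427029556) (nat_lit 304) (nat_lit 10087181083) (nat_lit 380) (nat_lit 14344246013) (nat_lit 222) (nat_lit 5) (nat_lit 226) (nat_lit 5) (nat_lit 227) (nat_lit 5) (nat_lit 427) (nat_lit 371) (nat_lit 222)))) (XT.nd (nat_lit 48750) (nat_lit 0) (nat_lit 12844) (XT.lf (nat_lit 0) (nat_lit 17861603017) (nat_lit 380) (nat_lit 8466102057) (nat_lit 76) (nat_lit 357238) (nat_lit 222) (nat_lit 5) (nat_lit 227) (nat_lit 5) (nat_lit 223) (nat_lit 5) (nat_lit 428) (nat_lit 371) (nat_lit 221)) (XT.nd (nat_lit 78) (nat_lit 0) (nat_lit 0) (XT.lf (nat_lit 0)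 (nat_lit 946335443) (nat_lit 0) (nat_lit 946335443) (nat_lit 1140) (nat_lit 3534469726) (nat_lit 391) (nat_lit 5) (nat_lit 391) (nat_lit 3) (nat_lit 406) (nat_lit 3) (nat_lit 372) (nat_lit 372) (nat_lit 276)) (XT.lf (nat_lit 0) (nat_lit 4462905216) (nat_lit 1140) (nat_lit 3557806135) (nat_lit 1216) (nat_lit 2977760595) (nat_lit 391) (nat_lit 5) (nat_lit 406) (nat_lit 3) (nat_lit 407) (nat_lit 5) (nat_lit 373) (nat_lit 372) (nat_lit 275))))))) (XT.nd (nat_lit 936) (nat_lit 3648) (nat_lit 0) (XT.nd (nat_lit 468) (nat_lit 912) (nat_lit 0) (XT.nd (nat_lit 234) (nat_lit 0) (nat_lit 152) (XT.nd (nat_lit 78) (nat_lit 0) (nat_lit 76) (XT.lf (nat_lit 76) (nat_lit 2016371904) (nat_lit 0) (nat_lit 3159568453) (nat_lit 1216) (nat_lit 5970593686) (nat_lit 392) (nat_lit 5) (nat_lit 391) (nat_lit 5) (nat_lit 407) (nat_lit 5) (nat_lit 374) (nat_lit 372) (nat_lit 274)) (XT.nd (nat_lit 78) (nat_lit 0) (nat_lit 0) (XT.lf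 (nat_lit 0) (nat_lit 5942080180) (nat_lit 1140) (nat_lit 3498364907) (nat_lit 1216) (nat_lit 1857641507) (nat_lit 392) (nat_lit 5) (nat_lit 407) (nat_lit 5) (nat_lit 408) (nat_lit 5) (nat_lit 375) (nat_lit 372) (nat_lit 273)) (XT.lf (nat_lit 76) (nat_lit 2303432822) (nat_lit 0) (nat_lit 4459519172) (nat_lit 1216) (nat_lit 4690281293) (nat_lit 393) (nat_lit 5) (nat_lit 392) (nat_lit 5) (nat_lit 408) (nat_lit 5) (nat_lit 376) (nat_lit 372) (nat_lit 272)))) (XT.nd (nat_lit 78) (nat_lit 0) (nat_lit 0) (XT.lf (nat_lit 0) (nat_lit 7629492376) (nat_lit 1140) (nat_lit 3280988730) (nat_lit 1216) (nat_lit 701922004) (nat_lit 393) (nat_lit 5) (nat_lit 408) (nat_lit 5) (nat_lit 409) (nat_lit 5) (nat_lit 377) (nat_lit 372) (nat_lit 271)) (XT.nd (nat_lit 78) (nat_lit 0) (nat_lit 0) (XT.lf (nat_lit 76) (nat_lit 2760777838) (nat_lit 0) (nat_lit 5811474668) (nat_lit 1216) (nat_lit 3202588813) (nat_lit 394) (nat_lit 5)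 (nat_lit 393) (nat_lit 5) (nat_lit 409) (nat_lit 5) (nat_lit 378) (nat_lit 372) (nat_lit 270)) (XT.lf (nat_lit 76) (nat_lit 9038351642) (nat_lit 0) (nat_lit 518081009) (nat_lit 1216) (nat_lit 2385325909) (nat_lit 394) (nat_lit 5) (nat_lit 393) (nat_lit 5) (nat_lit 409) (nat_lit 5) (nat_lit 379) (nat_lit 372) (nat_lit 269))))) (XT.nd (nat_lit 234) (nat_lit 0) (nat_lit 0) (XT.nd (nat_lit 78) (nat_lit 1140) (nat_lit 0) (XT.lf (nat_lit 76) (nat_lit 3396433018) (nat_lit 0) (nat_lit 7234439565) (nat_lit 1216) (nat_lit 1480988702) (nat_lit 395) (nat_lit 5) (nat_lit 394) (nat_lit 5) (nat_lit 410) (nat_lit 5) (nat_lit 380) (nat_lit 372) (nat_lit 268)) (XT.nd (nat_lit 78) (nat_lit 1140) (nat_lit 0) (XT.lf (nat_lit 76) (nat_lit 9926697596) (nat_lit 0) (nat_lit 1826341963) (nat_lit 1216) (nat_lit 533562719) (nat_lit 395) (nat_lit 5) (nat_lit 394) (nat_lit 5) (nat_lit 410) (nat_lit 5) (nat_lit 381) (nat_lit 372)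 (nat_lit 267)) (XT.lf (nat_lit 0) (nat_lit 492485620) (nat_lit 1216) (nat_lit 8250121219) (nat_lit 1292) (nat_lit 3722086211) (nat_lit 379) (nat_lit 5) (nat_lit 395) (nat_lit 5) (nat_lit 396) (nat_lit 5) (nat_lit 382) (nat_lit 372) (nat_lit 266)))) (XT.nd (nat_lit 78) (nat_lit 0) (nat_lit 76) (XT.lf (nat_lit 0) (nat_lit 1562674453) (nat_lit 1216) (nat_lit 1649674378) (nat_lit 1292) (nat_lit 9434896735) (nat_lit 379) (nat_lit 5) (nat_lit 395) (nat_lit 5) (nat_lit 396) (nat_lit 5) (nat_lit 383) (nat_lit 372) (nat_lit 265)) (XT.nd (nat_lit 78) (nat_lit 0) (nat_lit 0) (XT.lf (nat_lit 0) (nat_lit 2722199620) (nat_lit 1216) (nat_lit 7620641487) (nat_lit 1292) (nat_lit 2490716631) (nat_lit 380) (nat_lit 5) (nat_lit 396) (nat_lit 5) (nat_lit 397) (nat_lit 5) (nat_lit 384) (nat_lit 372) (nat_lit 264)) (XT.lf (nat_lit 0) (nat_lit 3948029312) (nat_lit 1216) (nat_lit 755089967) (nat_lit 1292) (nat_lit 8321394433)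 (nat_lit 380) (nat_lit 5) (nat_lit 396) (nat_lit 5) (nat_lit 397) (nat_lit 5) (nat_lit 385) (nat_lit 372) (nat_lit 263)))))) (XT.nd (nat_lit 468) (nat_lit 1824) (nat_lit 0) (XT.nd (nat_lit 234) (nat_lit 1976) (nat_lit 0) (XT.nd (nat_lit 78) (nat_lit 0) (nat_lit 0) (XT.lf (nat_lit 0) (nat_lit 5267097181) (nat_lit 1216) (nat_lit 6802212172) (nat_lit 1292) (nat_lit 1150195114) (nat_lit 381) (nat_lit 5) (nat_lit 397) (nat_lit 5) (nat_lit 398) (nat_lit 5) (nat_lit 386) (nat_lit 372) (nat_lit 262)) (XT.nd (nat_lit 78) (nat_lit 0) (nat_lit 0) (XT.lf (nat_lit 76) (nat_lit 346972766) (nat_lit 0) (nat_lit 6320146976) (nat_lit 1292) (nat_lit 6751983723) (nat_lit 382) (nat_lit 5) (nat_lit 381) (nat_lit 5) (nat_lit 398) (nat_lit 5) (nat_lit 387) (nat_lit 372) (nat_lit 261)) (XT.lf (nat_lit 76) (nat_lit 7836837644) (nat_lit 0) (nat_lit 325120895) (nat_lit 1292) (nat_lit 5461147428) (nat_lit 382) (nat_lit 5) (nat_lit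 381) (nat_lit 5) (nat_lit 398) (nat_lit 5) (nat_lit 388) (nat_lit 372) (nat_lit 260)))) (XT.nd (nat_lit 78) (nat_lit 836) (nat_lit 0) (XT.lf (nat_lit 0) (nat_lit 1681413126) (nat_lit 1216) (nat_lit 8077237094) (nat_lit 1292) (nat_lit 4072868090) (nat_lit 366) (nat_lit 5) (nat_lit 382) (nat_lit 5) (nat_lit 383) (nat_lit 5) (nat_lit 389) (nat_lit 372) (nat_lit 259)) (XT.nd (nat_lit 78) (nat_lit 836) (nat_lit 0) (XT.lf (nat_lit 0) (nat_lit 9475249718) (nat_lit 1216) (nat_lit 1974545091) (nat_lit 1292) (nat_lit 2594991653) (nat_lit 366) (nat_lit 5) (nat_lit 382) (nat_lit 5) (nat_lit 383) (nat_lit 5) (nat_lit 390) (nat_lit 372) (nat_lit 258)) (XT.lf (nat_lit 0) (nat_lit 3247092473) (nat_lit 836) (nat_lit 10002627345) (nat_lit 912) (nat_lit 1012991455) (nat_lit 355) (nat_lit 5) (nat_lit 366) (nat_lit 5) (nat_lit 367) (nat_lit 5) (nat_lit 391) (nat_lit 372) (nat_lit 257))))) (XT.nd (nat_lit 234) (nat_lit 1140)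 (nat_lit 0) (XT.nd (nat_lit 78) (nat_lit 608) (nat_lit 0) (XT.lf (nat_lit 0) (nat_lit 656137739) (nat_lit 912) (nat_lit 3133264672) (nat_lit 76) (nat_lit 10696042687) (nat_lit 354) (nat_lit 5) (nat_lit 366) (nat_lit 5) (nat_lit 355) (nat_lit 5) (nat_lit 392) (nat_lit 372) (nat_lit 256)) (XT.nd (nat_lit 78) (nat_lit 0) (nat_lit 0) (XT.lf (nat_lit 0) (nat_lit 2415283314) (nat_lit 684) (nat_lit 9677952006) (nat_lit 76) (nat_lit 2619515650) (nat_lit 346) (nat_lit 5) (nat_lit 355) (nat_lit 5) (nat_lit 347) (nat_lit 5) (nat_lit 393) (nat_lit 372) (nat_lit 255)) (XT.lf (nat_lit 0) (nat_lit 4282936957) (nat_lit 684) (nat_lit 1484960828) (nat_lit 76) (nat_lit 9177306223) (nat_lit 346) (nat_lit 5) (nat_lit 355) (nat_lit 5) (nat_lit 347) (nat_lit 5) (nat_lit 394) (nat_lit 372) (nat_lit 254)))) (XT.nd (nat_lit 78) (nat_lit 532) (nat_lit 0) (XT.lf (nat_lit 0) (nat_lit 6269189942) (nat_lit 684) (nat_lit 8111839178)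 (nat_lit 76) (nat_lit 801724423) (nat_lit 338) (nat_lit 5) (nat_lit 347) (nat_lit 5) (nat_lit 339) (nat_lit 5) (nat_lit 395) (nat_lit 372) (nat_lit 253)) (XT.nd (nat_lit 78) (nat_lit 0) (nat_lit 0) (XT.lf (nat_lit 0) (nat_lit 424743711) (nat_lit 532) (nat_lit 7953550859) (nat_lit 608) (nat_lit 7047237074) (nat_lit 331) (nat_lit 5) (nat_lit 338) (nat_lit 5) (nat_lit 339) (nat_lit 5) (nat_lit 396) (nat_lit 372) (nat_lit 252)) (XT.lf (nat_lit 0) (nat_lit 9370623845) (nat_lit 532) (nat_lit 1249146672) (nat_lit 608) (nat_lit 5053749625) (nat_lit 331) (nat_lit 5) (nat_lit 338) (nat_lit 5) (nat_lit 339) (nat_lit 5) (nat_lit 397) (nat_lit 372) (nat_lit 251))))))))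
noncomputable def xc103 : XT := (XT.nd (nat_lit 1872) (nat_lit 1748) (nat_lit 0) (XT.nd (nat_lit 936) (nat_lit 2812) (nat_lit 0) (XT.nd (nat_lit 468) (nat_lit 1520) (nat_lit 0) (XT.nd (nat_lit 234) (nat_lit 988) (nat_lit 0) (XT.nd (nat_lit 78) (nat_lit 608) (nat_lit 0) (XT.lf (nat_lit 0) (nat_lit 2640000703) (nat_lit 608) (nat_lit 10355795280) (nat_lit 684) (nat_lit 2931133156) (nat_lit 323) (nat_lit 5) (nat_lit 331) (nat_lit 5) (nat_lit 332) (nat_lit 5) (nat_lit 398) (nat_lit 372) (nat_lit 250)) (XT.nd (nat_lit 78) (nat_lit 608) (nat_lit 0) (XT.lf (nat_lit 0) (nat_lit 11954827431) (nat_lit 608) (nat_lit 3551961490) (nat_lit 684) (nat_lit 679240882) (nat_lit 323) (nat_lit 5) (nat_lit 331) (nat_lit 5) (nat_lit 332) (nat_lit 5) (nat_lit 399) (nat_lit 372) (nat_lit 249)) (XT.lf (nat_lit 0) (nat_lit 1679776839) (nat_lit 608) (nat_lit 11316683254) (nat_lit 76) (nat_lit 3453823143) (nat_lit 315) (nat_lit 5)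 (nat_lit 323) (nat_lit 5) (nat_lit 316) (nat_lit 5) (nat_lit 400) (nat_lit 372) (nat_lit 248)))) (XT.nd (nat_lit 78) (nat_lit 988) (nat_lit 0) (XT.lf (nat_lit 0) (nat_lit 4162479975) (nat_lit 608) (nat_lit 1910441903) (nat_lit 76) (nat_lit 10647343630) (nat_lit 315) (nat_lit 5) (nat_lit 323) (nat_lit 5) (nat_lit 316) (nat_lit 5) (nat_lit 401) (nat_lit 372) (nat_lit 247)) (XT.nd (nat_lit 78) (nat_lit 456) (nat_lit 0) (XT.lf (nat_lit 0) (nat_lit 6795301507) (nat_lit 608) (nat_lit 9087434348) (nat_lit 76) (nat_lit 1113342276) (nat_lit 308) (nat_lit 5) (nat_lit 316) (nat_lit 5) (nat_lit 309) (nat_lit 5) (nat_lit 402) (nat_lit 372) (nat_lit 246)) (XT.lf (nat_lit 0) (nat_lit 722818672) (nat_lit 456) (nat_lit 8859638422) (nat_lit 532) (nat_lit 7695447554) (nat_lit 302) (nat_lit 5) (nat_lit 308) (nat_lit 5) (nat_lit 309) (nat_lit 5) (nat_lit 403) (nat_lit 372) (nat_lit 245))))) (XT.nd (nat_lit 234) (nat_lit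 912) (nat_lit 0) (XT.nd (nat_lit 78) (nat_lit 608) (nat_lit 0) (XT.lf (nat_lit 0) (nat_lit 11000943686) (nat_lit 456) (nat_lit 1533043729) (nat_lit 532) (nat_lit 5031775745) (nat_lit 302) (nat_lit 5) (nat_lit 308) (nat_lit 5) (nat_lit 309) (nat_lit 5) (nat_lit 404) (nat_lit 372) (nat_lit 244)) (XT.nd (nat_lit 78) (nat_lit 76) (nat_lit 0) (XT.lf (nat_lit 0) (nat_lit 3727433511) (nat_lit 532) (nat_lit 11929563834) (nat_lit 608) (nat_lit 2202772071) (nat_lit 295) (nat_lit 5) (nat_lit 302) (nat_lit 5) (nat_lit 303) (nat_lit 5) (nat_lit 405) (nat_lit 372) (nat_lit 243)) (XT.lf (nat_lit 0) (nat_lit 768738886) (nat_lit 608) (nat_lit 3732991562) (nat_lit 76) (nat_lit 13658514945) (nat_lit 294) (nat_lit 5) (nat_lit 302) (nat_lit 5) (nat_lit 295) (nat_lit 5) (nat_lit 406) (nat_lit 372) (nat_lit 242)))) (XT.nd (nat_lit 78) (nat_lit 456) (nat_lit 0) (XT.lf (nat_lit 0) (nat_lit 3874036892) (nat_lit 532) (nat_lit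 11416131264) (nat_lit 76) (nat_lit 3176245746) (nat_lit 288) (nat_lit 5) (nat_lit 295) (nat_lit 5) (nat_lit 289) (nat_lit 5) (nat_lit 407) (nat_lit 372) (nat_lit 241)) (XT.nd (nat_lit 78) (nat_lit 456) (nat_lit 0) (XT.lf (nat_lit 0) (nat_lit 7144992153) (nat_lit 532) (nat_lit 604534905) (nat_lit 76) (nat_lit 11030065460) (nat_lit 288) (nat_lit 5) (nat_lit 295) (nat_lit 5) (nat_lit 289) (nat_lit 5) (nat_lit 408) (nat_lit 372) (nat_lit 240)) (XT.lf (nat_lit 0) (nat_lit 10608524332) (nat_lit 532) (nat_lit 8371936757) (nat_lit 76) (nat_lit 118871957) (nat_lit 282) (nat_lit 5) (nat_lit 289) (nat_lit 5) (nat_lit 283) (nat_lit 5) (nat_lit 409) (nat_lit 372) (nat_lit 239)))))) (XT.nd (nat_lit 468) (nat_lit 1140) (nat_lit 0) (XT.nd (nat_lit 234) (nat_lit 760) (nat_lit 0) (XT.nd (nat_lit 78) (nat_lit 532) (nat_lit 0) (XT.lf (nat_lit 0) (nat_lit 2951690364) (nat_lit 380) (nat_lit 11325839840) (nat_lit 456) (nat_lit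 5148088552) (nat_lit 277) (nat_lit 5) (nat_lit 282) (nat_lit 5) (nat_lit 283) (nat_lit 5) (nat_lit 410) (nat_lit 372) (nat_lit 238)) (XT.nd (nat_lit 78) (nat_lit 532) (nat_lit 0) (XT.lf (nat_lit 0) (nat_lit 14774449069) (nat_lit 380) (nat_lit 3357163829) (nat_lit 456) (nat_lit 1627829940) (nat_lit 277) (nat_lit 5) (nat_lit 282) (nat_lit 5) (nat_lit 283) (nat_lit 5) (nat_lit 411) (nat_lit 372) (nat_lit 237)) (XT.lf (nat_lit 0) (nat_lit 2063989964) (nat_lit 532) (nat_lit 13195376488) (nat_lit 76) (nat_lit 4840190728) (nat_lit 270) (nat_lit 5) (nat_lit 277) (nat_lit 5) (nat_lit 271) (nat_lit 5) (nat_lit 412) (nat_lit 372) (nat_lit 236)))) (XT.nd (nat_lit 78) (nat_lit 760) (nat_lit 0) (XT.lf (nat_lit 0) (nat_lit 5908707223) (nat_lit 532) (nat_lit 1258157981) (nat_lit 76) (nat_lit 13280280419) (nat_lit 270) (nat_lit 5) (nat_lit 277) (nat_lit 5) (nat_lit 271) (nat_lit 5) (nat_lit 413) (nat_lit 372) (nat_lit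 235)) (XT.nd (nat_lit 78) (nat_lit 380) (nat_lit 0) (XT.lf (nat_lit 0) (nat_lit 9980184806) (nat_lit 456) (nat_lit 9569660199) (nat_lit 76) (nat_lit 1251974150) (nat_lit 265) (nat_lit 5) (nat_lit 271) (nat_lit 5) (nat_lit 266) (nat_lit 5) (nat_lit 414) (nat_lit 372) (nat_lit 234)) (XT.lf (nat_lit 0) (nat_lit 2930399734) (nat_lit 380) (nat_lit 11346538705) (nat_lit 456) (nat_lit 6887100502) (nat_lit 260) (nat_lit 5) (nat_lit 265) (nat_lit 5) (nat_lit 266) (nat_lit 5) (nat_lit 415) (nat_lit 372) (nat_lit 233))))) (XT.nd (nat_lit 234) (nat_lit 684) (nat_lit 0) (XT.nd (nat_lit 78) (nat_lit 456) (nat_lit 0) (XT.lf (nat_lit 0) (nat_lit 15989824278) (nat_lit 380) (nat_lit 2800721961) (nat_lit 456) (nat_lit 2743940534) (nat_lit 260) (nat_lit 5) (nat_lit 265) (nat_lit 5) (nat_lit 266) (nat_lit 5) (nat_lit 416) (nat_lit 372) (nat_lit 232)) (XT.nd (nat_lit 78) (nat_lit 0) (nat_lit 0) (XT.lf (nat_lit 0) (nat_lit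 1617320629) (nat_lit 456) (nat_lit 14324245197) (nat_lit 76) (nat_lit 5970336796) (nat_lit 254) (nat_lit 5) (nat_lit 260) (nat_lit 5) (nat_lit 255) (nat_lit 5) (nat_lit 417) (nat_lit 372) (nat_lit 231)) (XT.lf (nat_lit 0) (nat_lit 6130136906) (nat_lit 456) (nat_lit 1138544650) (nat_lit 76) (nat_lit 15028868327) (nat_lit 254) (nat_lit 5) (nat_lit 260) (nat_lit 5) (nat_lit 255) (nat_lit 5) (nat_lit 418) (nat_lit 372) (nat_lit 230)))) (XT.nd (nat_lit 78) (nat_lit 304) (nat_lit 0) (XT.lf (nat_lit 0) (nat_lit 10909226306) (nat_lit 456) (nat_lit 10029791702) (nat_lit 76) (nat_lit 1751821894) (nat_lit 249) (nat_lit 5) (nat_lit 255) (nat_lit 5) (nat_lit 250) (nat_lit 5) (nat_lit 419) (nat_lit 372) (nat_lit 229)) (XT.nd (nat_lit 78) (nat_lit 0) (nat_lit 0) (XT.lf (nat_lit 0) (nat_lit 3792820203) (nat_lit 304) (nat_lit 12150841246) (nat_lit 380) (nat_lit 7148907980) (nat_lit 245) (nat_lit 5) (nat_lit 249) (nat_lit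 5) (nat_lit 250) (nat_lit 5) (nat_lit 420) (nat_lit 372) (nat_lit 228)) (XT.lf (nat_lit 0) (nat_lit 18224329476) (nat_lit 304) (nat_lit 2998142971) (nat_lit 380) (nat_lit 2281078112) (nat_lit 245) (nat_lit 5) (nat_lit 249) (nat_lit 5) (nat_lit 250) (nat_lit 5) (nat_lit 421) (nat_lit 372) (nat_lit 227))))))) (XT.nd (nat_lit 49686) (nat_lit 0) (nat_lit 11856) (XT.nd (nat_lit 468) (nat_lit 304) (nat_lit 0) (XT.nd (nat_lit 234) (nat_lit 684) (nat_lit 0) (XT.nd (nat_lit 78) (nat_lit 304) (nat_lit 0) (XT.lf (nat_lit 0) (nat_lit 2824045680) (nat_lit 456) (nat_lit 14680493762) (nat_lit 76) (nat_lit 6417196038) (nat_lit 239) (nat_lit 5) (nat_lit 245) (nat_lit 5) (nat_lit 240) (nat_lit 5) (nat_lit 422) (nat_lit 372) (nat_lit 226)) (XT.nd (nat_lit 78) (nat_lit 304) (nat_lit 0) (XT.lf (nat_lit 0) (nat_lit 8112301497) (nat_lit 456) (nat_lit 109419069) (nat_lit 76) (nat_lit 16127793064) (nat_lit 239) (nat_lit 5) (nat_lit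 245) (nat_lit 5) (nat_lit 240) (nat_lit 5) (nat_lit 423) (nat_lit 372) (nat_lit 225)) (XT.lf (nat_lit 0) (nat_lit 13711980225) (nat_lit 380) (nat_lit 9616137669) (nat_lit 76) (nat_lit 1457423972) (nat_lit 235) (nat_lit 5) (nat_lit 240) (nat_lit 5) (nat_lit 236) (nat_lit 5) (nat_lit 424) (nat_lit 372) (nat_lit 224)))) (XT.nd (nat_lit 78) (nat_lit 380) (nat_lit 0) (XT.lf (nat_lit 0) (nat_lit 5692848092) (nat_lit 304) (nat_lit 13916650769) (nat_lit 380) (nat_lit 5621256602) (nat_lit 231) (nat_lit 5) (nat_lit 235) (nat_lit 5) (nat_lit 236) (nat_lit 5) (nat_lit 425) (nat_lit 372) (nat_lit 223)) (XT.nd (nat_lit 78) (nat_lit 304) (nat_lit 0) (XT.lf (nat_lit 0) (nat_lit 85433658) (nat_lit 380) (nat_lit 4040178424) (nat_lit 76) (nat_lit 21560993607) (nat_lit 230) (nat_lit 5) (nat_lit 235) (nat_lit 5) (nat_lit 231) (nat_lit 5) (nat_lit 426) (nat_lit 372) (nat_lit 222)) (XT.lf (nat_lit 0) (nat_lit 6018388774) (nat_lit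 380) (nat_lit 14118112139) (nat_lit 76) (nat_lit 6012919453) (nat_lit 226) (nat_lit 5) (nat_lit 231) (nat_lit 5) (nat_lit 227) (nat_lit 5) (nat_lit 427) (nat_lit 372) (nat_lit 221))))) (XT.nd (nat_lit 48984) (nat_lit 0) (nat_lit 12844) (XT.nd (nat_lit 48828) (nat_lit 0) (nat_lit 12844) (XT.lf (nat_lit 0) (nat_lit 2030403279) (nat_lit 304) (nat_lit 10193426681) (nat_lit 380) (nat_lit 14399454601) (nat_lit 222) (nat_lit 5) (nat_lit 226) (nat_lit 5) (nat_lit 227) (nat_lit 5) (nat_lit 428) (nat_lit 372) (nat_lit 220)) (XT.nd (nat_lit 78) (nat_lit 0) (nat_lit 0) (XT.lf (nat_lit 0) (nat_lit 1267676938) (nat_lit 0) (nat_lit 1267676938) (nat_lit 1140) (nat_lit 3037023870) (nat_lit 391) (nat_lit 5) (nat_lit 391) (nat_lit 3) (nat_lit 406) (nat_lit 3) (nat_lit 373) (nat_lit 373) (nat_lit 274)) (XT.lf (nat_lit 0) (nat_lit 5728999818) (nat_lit 1140) (nat_lit 3056104309) (nat_lit 1216) (nat_lit 2509355756) (nat_lit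 391) (nat_lit 5) (nat_lit 406) (nat_lit 3) (nat_lit 407) (nat_lit 5) (nat_lit 374) (nat_lit 373) (nat_lit 273)))) (XT.nd (nat_lit 78) (nat_lit 0) (nat_lit 76) (XT.lf (nat_lit 76) (nat_lit 2679334013) (nat_lit 0) (nat_lit 3756906404) (nat_lit 1216) (nat_lit 5011538993) (nat_lit 392) (nat_lit 5) (nat_lit 391) (nat_lit 5) (nat_lit 407) (nat_lit 5) (nat_lit 375) (nat_lit 373) (nat_lit 272)) (XT.nd (nat_lit 78) (nat_lit 0) (nat_lit 0) (XT.lf (nat_lit 0) (nat_lit 7188489208) (nat_lit 1140) (nat_lit 2981517375) (nat_lit 1216) (nat_lit 1434978210) (nat_lit 392) (nat_lit 5) (nat_lit 407) (nat_lit 5) (nat_lit 408) (nat_lit 5) (nat_lit 376) (nat_lit 373) (nat_lit 271)) (XT.lf (nat_lit 76) (nat_lit 2988238223) (nat_lit 0) (nat_lit 5020556396) (nat_lit 1216) (nat_lit 3756747045) (nat_lit 393) (nat_lit 5) (nat_lit 392) (nat_lit 5) (nat_lit 408) (nat_lit 5) (nat_lit 377) (nat_lit 373) (nat_lit 270)))))) (XT.nd (nat_lit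 468) (nat_lit 0) (nat_lit 76) (XT.nd (nat_lit 234) (nat_lit 1140) (nat_lit 0) (XT.nd (nat_lit 78) (nat_lit 0) (nat_lit 0) (XT.lf (nat_lit 0) (nat_lit 8866966526) (nat_lit 1140) (nat_lit 2747284370) (nat_lit 1216) (nat_lit 316266625) (nat_lit 393) (nat_lit 5) (nat_lit 408) (nat_lit 5) (nat_lit 409) (nat_lit 5) (nat_lit 378) (nat_lit 373) (nat_lit 269)) (XT.nd (nat_lit 78) (nat_lit 0) (nat_lit 0) (XT.lf (nat_lit 76) (nat_lit 3469537802) (nat_lit 0) (nat_lit 6345112155) (nat_lit 1216) (nat_lit 2283879706) (nat_lit 394) (nat_lit 5) (nat_lit 393) (nat_lit 5) (nat_lit 409) (nat_lit 5) (nat_lit 379) (nat_lit 373) (nat_lit 268)) (XT.lf (nat_lit 76) (nat_lit 9917207656) (nat_lit 0) (nat_lit 882451833) (nat_lit 1216) (nat_lit 1471655811) (nat_lit 394) (nat_lit 5) (nat_lit 393) (nat_lit 5) (nat_lit 409) (nat_lit 5) (nat_lit 380) (nat_lit 373) (nat_lit 267)))) (XT.nd (nat_lit 78) (nat_lit 1216) (nat_lit 0) (XT.lf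 (nat_lit 76) (nat_lit 4131808537) (nat_lit 0) (nat_lit 7749497808) (nat_lit 1216) (nat_lit 565965552) (nat_lit 395) (nat_lit 5) (nat_lit 394) (nat_lit 5) (nat_lit 410) (nat_lit 5) (nat_lit 381) (nat_lit 373) (nat_lit 266)) (XT.nd (nat_lit 78) (nat_lit 0) (nat_lit 76) (XT.lf (nat_lit 0) (nat_lit 374484997) (nat_lit 1216) (nat_lit 1792210374) (nat_lit 1292) (nat_lit 10461263544) (nat_lit 378) (nat_lit 5) (nat_lit 394) (nat_lit 5) (nat_lit 395) (nat_lit 5) (nat_lit 382) (nat_lit 373) (nat_lit 265)) (XT.lf (nat_lit 0) (nat_lit 1397461359) (nat_lit 1216) (nat_lit 7841286861) (nat_lit 1292) (nat_lit 3573179586) (nat_lit 379) (nat_lit 5) (nat_lit 395) (nat_lit 5) (nat_lit 396) (nat_lit 5) (nat_lit 383) (nat_lit 373) (nat_lit 264))))) (XT.nd (nat_lit 234) (nat_lit 0) (nat_lit 152) (XT.nd (nat_lit 78) (nat_lit 0) (nat_lit 76) (XT.lf (nat_lit 0) (nat_lit 2473827668) (nat_lit 1216) (nat_lit 1061943255) (nat_lit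 1292) (nat_lit 9464963820) (nat_lit 379) (nat_lit 5) (nat_lit 395) (nat_lit 5) (nat_lit 396) (nat_lit 5) (nat_lit 384) (nat_lit 373) (nat_lit 263)) (XT.nd (nat_lit 78) (nat_lit 0) (nat_lit 0) (XT.lf (nat_lit 0) (nat_lit 3646971963) (nat_lit 1216) (nat_lit 7190872751) (nat_lit 1292) (nat_lit 2355426567) (nat_lit 380) (nat_lit 5) (nat_lit 396) (nat_lit 5) (nat_lit 397) (nat_lit 5) (nat_lit 385) (nat_lit 373) (nat_lit 262)) (XT.lf (nat_lit 0) (nat_lit 4885020050) (nat_lit 1216) (nat_lit 138531034) (nat_lit 1292) (nat_lit 8367141545) (nat_lit 380) (nat_lit 5) (nat_lit 396) (nat_lit 5) (nat_lit 397) (nat_lit 5) (nat_lit 386) (nat_lit 373) (nat_lit 261)))) (XT.nd (nat_lit 78) (nat_lit 0) (nat_lit 0) (XT.lf (nat_lit 0) (nat_lit 6224289492) (nat_lit 1216) (nat_lit 6347696442) (nat_lit 1292) (nat_lit 1020128285) (nat_lit 381) (nat_lit 5) (nat_lit 397) (nat_lit 5) (nat_lit 398) (nat_lit 5) (nat_lit 387) (nat_lit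 373) (nat_lit 260)) (XT.nd (nat_lit 78) (nat_lit 0) (nat_lit 0) (XT.lf (nat_lit 76) (nat_lit 1009507357) (nat_lit 0) (nat_lit 6639796932) (nat_lit 1292) (nat_lit 6148907152) (nat_lit 382) (nat_lit 5) (nat_lit 381) (nat_lit 5) (nat_lit 398) (nat_lit 5) (nat_lit 388) (nat_lit 373) (nat_lit 259)) (XT.lf (nat_lit 76) (nat_lit 8705074237) (nat_lit 0) (nat_lit 461132334) (nat_lit 1292) (nat_lit 4842810896) (nat_lit 382) (nat_lit 5) (nat_lit 381) (nat_lit 5) (nat_lit 398) (nat_lit 5) (nat_lit 389) (nat_lit 373) (nat_lit 258))))))))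
noncomputable def xc104 : XT := (XT.nd (nat_lit 1794) (nat_lit 3876) (nat_lit 0) (XT.nd (nat_lit 858) (nat_lit 3496) (nat_lit 0) (XT.nd (nat_lit 390) (nat_lit 1748) (nat_lit 0) (XT.nd (nat_lit 156) (nat_lit 1520) (nat_lit 0) (XT.nd (nat_lit 78) (nat_lit 0) (nat_lit 0) (XT.lf (nat_lit 0) (nat_lit 2382539910) (nat_lit 1216) (nat_lit 8411217418) (nat_lit 1292) (nat_lit 3430436105) (nat_lit 366) (nat_lit 5) (nat_lit 382) (nat_lit 5) (nat_lit 383) (nat_lit 5) (nat_lit 390) (nat_lit 373) (nat_lit 257)) (XT.lf (nat_lit 0) (nat_lit 10391239627) (nat_lit 1216) (nat_lit 2122774852) (nat_lit 1292) (nat_lit 1930493802) (nat_lit 366) (nat_lit 5) (nat_lit 382) (nat_lit 5) (nat_lit 383) (nat_lit 5) (nat_lit 391) (nat_lit 373) (nat_lit 256))) (XT.nd (nat_lit 78) (nat_lit 684) (nat_lit 0) (XT.lf (nat_lit 0) (nat_lit 3992301078) (nat_lit 836) (nat_lit 10360040612) (nat_lit 912) (nat_lit 317097013) (nat_lit 355) (nat_lit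 5) (nat_lit 366) (nat_lit 5) (nat_lit 367) (nat_lit 5) (nat_lit 392) (nat_lit 373) (nat_lit 255)) (XT.nd (nat_lit 78) (nat_lit 608) (nat_lit 0) (XT.lf (nat_lit 0) (nat_lit 1367192518) (nat_lit 912) (nat_lit 2584574990) (nat_lit 76) (nat_lit 10947499824) (nat_lit 354) (nat_lit 5) (nat_lit 366) (nat_lit 5) (nat_lit 355) (nat_lit 5) (nat_lit 393) (nat_lit 373) (nat_lit 254)) (XT.lf (nat_lit 0) (nat_lit 3164699016) (nat_lit 684) (nat_lit 9311189500) (nat_lit 76) (nat_lit 2657936266) (nat_lit 346) (nat_lit 5) (nat_lit 355) (nat_lit 5) (nat_lit 347) (nat_lit 5) (nat_lit 394) (nat_lit 373) (nat_lit 253))))) (XT.nd (nat_lit 234) (nat_lit 608) (nat_lit 0) (XT.nd (nat_lit 78) (nat_lit 1140) (nat_lit 0) (XT.lf (nat_lit 0) (nat_lit 5068665069) (nat_lit 684) (nat_lit 891547453) (nat_lit 76) (nat_lit 9413630406) (nat_lit 346) (nat_lit 5) (nat_lit 355) (nat_lit 5) (nat_lit 347) (nat_lit 5) (nat_lit 395) (nat_lit 373)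 (nat_lit 252)) (XT.nd (nat_lit 78) (nat_lit 532) (nat_lit 0) (XT.lf (nat_lit 0) (nat_lit 7101315301) (nat_lit 684) (nat_lit 7704041811) (nat_lit 76) (nat_lit 813557548) (nat_lit 338) (nat_lit 5) (nat_lit 347) (nat_lit 5) (nat_lit 339) (nat_lit 5) (nat_lit 396) (nat_lit 373) (nat_lit 251)) (XT.lf (nat_lit 0) (nat_lit 1082254716) (nat_lit 532) (nat_lit 8178877535) (nat_lit 608) (nat_lit 6608220677) (nat_lit 331) (nat_lit 5) (nat_lit 338) (nat_lit 5) (nat_lit 339) (nat_lit 5) (nat_lit 397) (nat_lit 373) (nat_lit 250)))) (XT.nd (nat_lit 78) (nat_lit 608) (nat_lit 0) (XT.lf (nat_lit 0) (nat_lit 10277731584) (nat_lit 532) (nat_lit 1273728014) (nat_lit 608) (nat_lit 4573873270) (nat_lit 331) (nat_lit 5) (nat_lit 338) (nat_lit 5) (nat_lit 339) (nat_lit 5) (nat_lit 398) (nat_lit 373) (nat_lit 249)) (XT.nd (nat_lit 78) (nat_lit 0) (nat_lit 0) (XT.lf (nat_lit 0) (nat_lit 3357142435) (nat_lit 608) (nat_lit 10630018840)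 (nat_lit 684) (nat_lit 2399530995) (nat_lit 323) (nat_lit 5) (nat_lit 331) (nat_lit 5) (nat_lit 332) (nat_lit 5) (nat_lit 399) (nat_lit 373) (nat_lit 248)) (XT.lf (nat_lit 0) (nat_lit 12932833139) (nat_lit 608) (nat_lit 3623131696) (nat_lit 684) (nat_lit 98126695) (nat_lit 323) (nat_lit 5) (nat_lit 331) (nat_lit 5) (nat_lit 332) (nat_lit 5) (nat_lit 400) (nat_lit 373) (nat_lit 247)))))) (XT.nd (nat_lit 468) (nat_lit 1368) (nat_lit 0) (XT.nd (nat_lit 234) (nat_lit 988) (nat_lit 0) (XT.nd (nat_lit 78) (nat_lit 532) (nat_lit 0) (XT.lf (nat_lit 0) (nat_lit 2309199338) (nat_lit 608) (nat_lit 11014360647) (nat_lit 76) (nat_lit 3602860872) (nat_lit 315) (nat_lit 5) (nat_lit 323) (nat_lit 5) (nat_lit 316) (nat_lit 5) (nat_lit 401) (nat_lit 373) (nat_lit 246)) (XT.nd (nat_lit 78) (nat_lit 532) (nat_lit 0) (XT.lf (nat_lit 0) (nat_lit 4849518640) (nat_lit 608) (nat_lit 1344625932) (nat_lit 76) (nat_lit 11010863973)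 (nat_lit 315) (nat_lit 5) (nat_lit 323) (nat_lit 5) (nat_lit 316) (nat_lit 5) (nat_lit 402) (nat_lit 373) (nat_lit 245)) (XT.lf (nat_lit 0) (nat_lit 7551509964) (nat_lit 608) (nat_lit 8727113297) (nat_lit 76) (nat_lit 1210766731) (nat_lit 308) (nat_lit 5) (nat_lit 316) (nat_lit 5) (nat_lit 309) (nat_lit 5) (nat_lit 403) (nat_lit 373) (nat_lit 244)))) (XT.nd (nat_lit 78) (nat_lit 532) (nat_lit 0) (XT.lf (nat_lit 0) (nat_lit 1371241979) (nat_lit 456) (nat_lit 9040974989) (nat_lit 532) (nat_lit 7367756234) (nat_lit 302) (nat_lit 5) (nat_lit 308) (nat_lit 5) (nat_lit 309) (nat_lit 5) (nat_lit 404) (nat_lit 373) (nat_lit 243)) (XT.nd (nat_lit 78) (nat_lit 532) (nat_lit 0) (XT.lf (nat_lit 0) (nat_lit 11939456217) (nat_lit 456) (nat_lit 1497042239) (nat_lit 532) (nat_lit 4640442856) (nat_lit 302) (nat_lit 5) (nat_lit 308) (nat_lit 5) (nat_lit 309) (nat_lit 5) (nat_lit 405) (nat_lit 373) (nat_lit 242)) (XT.lf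 (nat_lit 0) (nat_lit 4456634659) (nat_lit 532) (nat_lit 12187929148) (nat_lit 608) (nat_lit 1735462994) (nat_lit 295) (nat_lit 5) (nat_lit 302) (nat_lit 5) (nat_lit 303) (nat_lit 5) (nat_lit 406) (nat_lit 373) (nat_lit 241))))) (XT.nd (nat_lit 234) (nat_lit 836) (nat_lit 0) (XT.nd (nat_lit 78) (nat_lit 456) (nat_lit 0) (XT.lf (nat_lit 0) (nat_lit 1299552349) (nat_lit 608) (nat_lit 3235479807) (nat_lit 76) (nat_lit 14154788060) (nat_lit 294) (nat_lit 5) (nat_lit 302) (nat_lit 5) (nat_lit 295) (nat_lit 5) (nat_lit 407) (nat_lit 373) (nat_lit 240)) (XT.nd (nat_lit 78) (nat_lit 0) (nat_lit 0) (XT.lf (nat_lit 0) (nat_lit 4490028921) (nat_lit 532) (nat_lit 11141133326) (nat_lit 76) (nat_lit 3374250945) (nat_lit 288) (nat_lit 5) (nat_lit 295) (nat_lit 5) (nat_lit 289) (nat_lit 5) (nat_lit 408) (nat_lit 373) (nat_lit 239)) (XT.lf (nat_lit 0) (nat_lit 7844556405) (nat_lit 532) (nat_lit 23173985) (nat_lit 76)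 (nat_lit 11460693469) (nat_lit 288) (nat_lit 5) (nat_lit 295) (nat_lit 5) (nat_lit 289) (nat_lit 5) (nat_lit 409) (nat_lit 373) (nat_lit 238)))) (XT.nd (nat_lit 78) (nat_lit 380) (nat_lit 0) (XT.lf (nat_lit 0) (nat_lit 11404691376) (nat_lit 532) (nat_lit 8016294719) (nat_lit 76) (nat_lit 236989601) (nat_lit 282) (nat_lit 5) (nat_lit 289) (nat_lit 5) (nat_lit 283) (nat_lit 5) (nat_lit 410) (nat_lit 373) (nat_lit 237)) (XT.nd (nat_lit 78) (nat_lit 0) (nat_lit 0) (XT.lf (nat_lit 0) (nat_lit 3641092194) (nat_lit 380) (nat_lit 11534531232) (nat_lit 456) (nat_lit 4818670873) (nat_lit 277) (nat_lit 5) (nat_lit 282) (nat_lit 5) (nat_lit 283) (nat_lit 5) (nat_lit 411) (nat_lit 373) (nat_lit 236)) (XT.lf (nat_lit 0) (nat_lit 15801033142) (nat_lit 380) (nat_lit 3330612916) (nat_lit 456) (nat_lit 1206897522) (nat_lit 277) (nat_lit 5) (nat_lit 282) (nat_lit 5) (nat_lit 283) (nat_lit 5) (nat_lit 412) (nat_lit 373)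 (nat_lit 235))))))) (XT.nd (nat_lit 936) (nat_lit 684) (nat_lit 0) (XT.nd (nat_lit 468) (nat_lit 1444) (nat_lit 0) (XT.nd (nat_lit 234) (nat_lit 836) (nat_lit 0) (XT.nd (nat_lit 78) (nat_lit 380) (nat_lit 0) (XT.lf (nat_lit 0) (nat_lit 2580021352) (nat_lit 532) (nat_lit 12992231555) (nat_lit 76) (nat_lit 5116667638) (nat_lit 270) (nat_lit 5) (nat_lit 277) (nat_lit 5) (nat_lit 271) (nat_lit 5) (nat_lit 413) (nat_lit 373) (nat_lit 234)) (XT.nd (nat_lit 78) (nat_lit 380) (nat_lit 0) (XT.lf (nat_lit 0) (nat_lit 6526853575) (nat_lit 532) (nat_lit 714343276) (nat_lit 76) (nat_lit 13806136586) (nat_lit 270) (nat_lit 5) (nat_lit 277) (nat_lit 5) (nat_lit 271) (nat_lit 5) (nat_lit 414) (nat_lit 373) (nat_lit 233)) (XT.lf (nat_lit 0) (nat_lit 10714537337) (nat_lit 456) (nat_lit 9269252413) (nat_lit 76) (nat_lit 1429035569) (nat_lit 265) (nat_lit 5) (nat_lit 271) (nat_lit 5) (nat_lit 266) (nat_lit 5) (nat_lit 415)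 (nat_lit 373) (nat_lit 232)))) (XT.nd (nat_lit 78) (nat_lit 456) (nat_lit 0) (XT.lf (nat_lit 0) (nat_lit 3600049537) (nat_lit 380) (nat_lit 11533067702) (nat_lit 456) (nat_lit 6653006749) (nat_lit 260) (nat_lit 5) (nat_lit 265) (nat_lit 5) (nat_lit 266) (nat_lit 5) (nat_lit 416) (nat_lit 373) (nat_lit 231)) (XT.nd (nat_lit 78) (nat_lit 456) (nat_lit 0) (XT.lf (nat_lit 0) (nat_lit 17034312999) (nat_lit 380) (nat_lit 2735358024) (nat_lit 456) (nat_lit 2398388101) (nat_lit 260) (nat_lit 5) (nat_lit 265) (nat_lit 5) (nat_lit 266) (nat_lit 5) (nat_lit 417) (nat_lit 373) (nat_lit 230)) (XT.lf (nat_lit 0) (nat_lit 2080085632) (nat_lit 456) (nat_lit 14175553296) (nat_lit 76) (nat_lit 6301193412) (nat_lit 254) (nat_lit 5) (nat_lit 260) (nat_lit 5) (nat_lit 255) (nat_lit 5) (nat_lit 418) (nat_lit 373) (nat_lit 229))))) (XT.nd (nat_lit 234) (nat_lit 760) (nat_lit 0) (XT.nd (nat_lit 78) (nat_lit 684) (nat_lit 0)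 (XT.lf (nat_lit 0) (nat_lit 6716220997) (nat_lit 456) (nat_lit 611128896) (nat_lit 76) (nat_lit 15627061088) (nat_lit 254) (nat_lit 5) (nat_lit 260) (nat_lit 5) (nat_lit 255) (nat_lit 5) (nat_lit 419) (nat_lit 373) (nat_lit 228)) (XT.nd (nat_lit 78) (nat_lit 304) (nat_lit 0) (XT.lf (nat_lit 0) (nat_lit 11633854822) (nat_lit 456) (nat_lit 9764285102) (nat_lit 76) (nat_lit 1961504624) (nat_lit 249) (nat_lit 5) (nat_lit 255) (nat_lit 5) (nat_lit 250) (nat_lit 5) (nat_lit 420) (nat_lit 373) (nat_lit 227)) (XT.lf (nat_lit 0) (nat_lit 4467452216) (nat_lit 304) (nat_lit 12345688660) (nat_lit 380) (nat_lit 6960470549) (nat_lit 245) (nat_lit 5) (nat_lit 249) (nat_lit 5) (nat_lit 250) (nat_lit 5) (nat_lit 421) (nat_lit 373) (nat_lit 226)))) (XT.nd (nat_lit 78) (nat_lit 760) (nat_lit 0) (XT.lf (nat_lit 0) (nat_lit 19315571406) (nat_lit 304) (nat_lit 2923351509) (nat_lit 380) (nat_lit 1958340872) (nat_lit 245) (nat_lit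 5) (nat_lit 249) (nat_lit 5) (nat_lit 250) (nat_lit 5) (nat_lit 422) (nat_lit 373) (nat_lit 225)) (XT.nd (nat_lit 78) (nat_lit 304) (nat_lit 0) (XT.lf (nat_lit 0) (nat_lit 3288013662) (nat_lit 456) (nat_lit 14564473557) (nat_lit 76) (nat_lit 6775522927) (nat_lit 239) (nat_lit 5) (nat_lit 245) (nat_lit 5) (nat_lit 240) (nat_lit 5) (nat_lit 423) (nat_lit 373) (nat_lit 224)) (XT.lf (nat_lit 0) (nat_lit 436035146) (nat_lit 304) (nat_lit 8292027426) (nat_lit 380) (nat_lit 16340764706) (nat_lit 235) (nat_lit 5) (nat_lit 239) (nat_lit 5) (nat_lit 240) (nat_lit 5) (nat_lit 424) (nat_lit 373) (nat_lit 223)))))) (XT.nd (nat_lit 49296) (nat_lit 0) (nat_lit 12540) (XT.nd (nat_lit 234) (nat_lit 304) (nat_lit 0) (XT.nd (nat_lit 78) (nat_lit 380) (nat_lit 0) (XT.lf (nat_lit 0) (nat_lit 14487614411) (nat_lit 380) (nat_lit 9360467811) (nat_lit 76) (nat_lit 1670097657) (nat_lit 235) (nat_lit 5) (nat_lit 240) (nat_lit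 5) (nat_lit 236) (nat_lit 5) (nat_lit 425) (nat_lit 373) (nat_lit 222)) (XT.nd (nat_lit 78) (nat_lit 76) (nat_lit 0) (XT.lf (nat_lit 0) (nat_lit 6402452679) (nat_lit 304) (nat_lit 14154175440) (nat_lit 380) (nat_lit 5420284679) (nat_lit 231) (nat_lit 5) (nat_lit 235) (nat_lit 5) (nat_lit 236) (nat_lit 5) (nat_lit 426) (nat_lit 373) (nat_lit 221)) (XT.lf (nat_lit 0) (nat_lit 439838616) (nat_lit 380) (nat_lit 3631256049) (nat_lit 76) (nat_lit 22375553936) (nat_lit 230) (nat_lit 5) (nat_lit 235) (nat_lit 5) (nat_lit 231) (nat_lit 5) (nat_lit 427) (nat_lit 373) (nat_lit 220)))) (XT.nd (nat_lit 48906) (nat_lit 0) (nat_lit 12540) (XT.lf (nat_lit 0) (nat_lit 6547294349) (nat_lit 380) (nat_lit 14008039740) (nat_lit 76) (nat_lit 6368118271) (nat_lit 226) (nat_lit 5) (nat_lit 231) (nat_lit 5) (nat_lit 227) (nat_lit 5) (nat_lit 428) (nat_lit 373) (nat_lit 219)) (XT.nd (nat_lit 78) (nat_lit 0) (nat_lit 0) (XT.lf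 (nat_lit 0) (nat_lit 1581842067) (nat_lit 0) (nat_lit 1581842067) (nat_lit 1140) (nat_lit 2559296855) (nat_lit 391) (nat_lit 5) (nat_lit 391) (nat_lit 3) (nat_lit 406) (nat_lit 3) (nat_lit 374) (nat_lit 374) (nat_lit 272)) (XT.lf (nat_lit 0) (nat_lit 6968083918) (nat_lit 1140) (nat_lit 2574278143) (nat_lit 1216) (nat_lit 2058915194) (nat_lit 391) (nat_lit 5) (nat_lit 406) (nat_lit 3) (nat_lit 407) (nat_lit 5) (nat_lit 375) (nat_lit 374) (nat_lit 271))))) (XT.nd (nat_lit 234) (nat_lit 0) (nat_lit 76) (XT.nd (nat_lit 78) (nat_lit 0) (nat_lit 76) (XT.lf (nat_lit 76) (nat_lit 3327600688) (nat_lit 0) (nat_lit 4343316015) (nat_lit 1216) (nat_lit 4089048416) (nat_lit 392) (nat_lit 5) (nat_lit 391) (nat_lit 5) (nat_lit 407) (nat_lit 5) (nat_lit 376) (nat_lit 374) (nat_lit 270)) (XT.nd (nat_lit 78) (nat_lit 0) (nat_lit 0) (XT.lf (nat_lit 0) (nat_lit 8410974522) (nat_lit 1140) (nat_lit 2484858193) (nat_lit 1216)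 (nat_lit 1027096703) (nat_lit 392) (nat_lit 5) (nat_lit 407) (nat_lit 5) (nat_lit 408) (nat_lit 5) (nat_lit 377) (nat_lit 374) (nat_lit 269)) (XT.lf (nat_lit 76) (nat_lit 3658243948) (nat_lit 0) (nat_lit 5573898744) (nat_lit 1216) (nat_lit 2856872695) (nat_lit 393) (nat_lit 5) (nat_lit 392) (nat_lit 5) (nat_lit 408) (nat_lit 5) (nat_lit 378) (nat_lit 374) (nat_lit 268)))) (XT.nd (nat_lit 78) (nat_lit 0) (nat_lit 76) (XT.lf (nat_lit 76) (nat_lit 10025474560) (nat_lit 0) (nat_lit 58758003) (nat_lit 1216) (nat_lit 2175662773) (nat_lit 393) (nat_lit 5) (nat_lit 392) (nat_lit 5) (nat_lit 408) (nat_lit 5) (nat_lit 379) (nat_lit 374) (nat_lit 267)) (XT.nd (nat_lit 78) (nat_lit 0) (nat_lit 0) (XT.lf (nat_lit 76) (nat_lit 4163629242) (nat_lit 0) (nat_lit 6874133863) (nat_lit 1216) (nat_lit 1395862238) (nat_lit 394) (nat_lit 5) (nat_lit 393) (nat_lit 5) (nat_lit 409) (nat_lit 5) (nat_lit 380) (nat_lit 374) (nat_lit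 266)) (XT.lf (nat_lit 76) (nat_lit 10787544571) (nat_lit 0) (nat_lit 1237729606) (nat_lit 1216) (nat_lit 587131836) (nat_lit 394) (nat_lit 5) (nat_lit 393) (nat_lit 5) (nat_lit 409) (nat_lit 5) (nat_lit 381) (nat_lit 374) (nat_lit 265))))))))
noncomputable def xc105 : XT := (XT.nd (nat_lit 1794) (nat_lit 5928) (nat_lit 0) (XT.nd (nat_lit 858) (nat_lit 4408) (nat_lit 0) (XT.nd (nat_lit 390) (nat_lit 912) (nat_lit 0) (XT.nd (nat_lit 156) (nat_lit 0) (nat_lit 76) (XT.nd (nat_lit 78) (nat_lit 0) (nat_lit 0) (XT.lf (nat_lit 0) (nat_lit 315159484) (nat_lit 1216) (nat_lit 7944557963) (nat_lit 1292) (nat_lit 4534538856) (nat_lit 378) (nat_lit 5) (nat_lit 394) (nat_lit 5) (nat_lit 395) (nat_lit 5) (nat_lit 382) (nat_lit 374) (nat_lit 264)) (XT.lf (nat_lit 0) (nat_lit 1246621155) (nat_lit 1216) (nat_lit 1249116803) (nat_lit 1292) (nat_lit 10485232676) (nat_lit 378) (nat_lit 5) (nat_lit 394) (nat_lit 5) (nat_lit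 395) (nat_lit 5) (nat_lit 383) (nat_lit 374) (nat_lit 263))) (XT.nd (nat_lit 78) (nat_lit 0) (nat_lit 0) (XT.lf (nat_lit 0) (nat_lit 2278485182) (nat_lit 1216) (nat_lit 7457863958) (nat_lit 1292) (nat_lit 3434763501) (nat_lit 379) (nat_lit 5) (nat_lit 395) (nat_lit 5) (nat_lit 396) (nat_lit 5) (nat_lit 384) (nat_lit 374) (nat_lit 262)) (XT.nd (nat_lit 78) (nat_lit 0) (nat_lit 76) (XT.lf (nat_lit 0) (nat_lit 3362702675) (nat_lit 1216) (nat_lit 493159312) (nat_lit 1292) (nat_lit 9510454994) (nat_lit 379) (nat_lit 5) (nat_lit 395) (nat_lit 5) (nat_lit 396) (nat_lit 5) (nat_lit 385) (nat_lit 374) (nat_lit 261)) (XT.lf (nat_lit 0) (nat_lit 4551089722) (nat_lit 1216) (nat_lit 6786005115) (nat_lit 1292) (nat_lit 2228133324) (nat_lit 380) (nat_lit 5) (nat_lit 396) (nat_lit 5) (nat_lit 397) (nat_lit 5) (nat_lit 386) (nat_lit 374) (nat_lit 260))))) (XT.nd (nat_lit 234) (nat_lit 1064) (nat_lit 0) (XT.nd (nat_lit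 78) (nat_lit 0) (nat_lit 76) (XT.lf (nat_lit 76) (nat_lit 468982849) (nat_lit 0) (nat_lit 5338657700) (nat_lit 1292) (nat_lit 7961490762) (nat_lit 381) (nat_lit 5) (nat_lit 380) (nat_lit 5) (nat_lit 397) (nat_lit 5) (nat_lit 387) (nat_lit 374) (nat_lit 259)) (XT.nd (nat_lit 78) (nat_lit 0) (nat_lit 0) (XT.lf (nat_lit 0) (nat_lit 7164321406) (nat_lit 1216) (nat_lit 5917350547) (nat_lit 1292) (nat_lit 895606597) (nat_lit 381) (nat_lit 5) (nat_lit 397) (nat_lit 5) (nat_lit 398) (nat_lit 5) (nat_lit 388) (nat_lit 374) (nat_lit 258)) (XT.lf (nat_lit 76) (nat_lit 1654483319) (nat_lit 0) (nat_lit 6961571240) (nat_lit 1292) (nat_lit 5573985091) (nat_lit 382) (nat_lit 5) (nat_lit 381) (nat_lit 5) (nat_lit 398) (nat_lit 5) (nat_lit 389) (nat_lit 374) (nat_lit 257)))) (XT.nd (nat_lit 78) (nat_lit 1140) (nat_lit 0) (XT.lf (nat_lit 76) (nat_lit 9563013592) (nat_lit 0) (nat_lit 593976401) (nat_lit 1292) (nat_lit 4250824082)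 (nat_lit 382) (nat_lit 5) (nat_lit 381) (nat_lit 5) (nat_lit 398) (nat_lit 5) (nat_lit 390) (nat_lit 374) (nat_lit 256)) (XT.nd (nat_lit 78) (nat_lit 0) (nat_lit 0) (XT.lf (nat_lit 0) (nat_lit 3067348551) (nat_lit 1216) (nat_lit 8749955307) (nat_lit 1292) (nat_lit 2812623363) (nat_lit 366) (nat_lit 5) (nat_lit 382) (nat_lit 5) (nat_lit 383) (nat_lit 5) (nat_lit 391) (nat_lit 374) (nat_lit 255)) (XT.lf (nat_lit 0) (nat_lit 11298445208) (nat_lit 1216) (nat_lit 2270342920) (nat_lit 1292) (nat_lit 1288674805) (nat_lit 366) (nat_lit 5) (nat_lit 382) (nat_lit 5) (nat_lit 383) (nat_lit 5) (nat_lit 392) (nat_lit 374) (nat_lit 254)))))) (XT.nd (nat_lit 468) (nat_lit 1748) (nat_lit 0) (XT.nd (nat_lit 234) (nat_lit 1140) (nat_lit 0) (XT.nd (nat_lit 78) (nat_lit 608) (nat_lit 0) (XT.lf (nat_lit 0) (nat_lit 350997050) (nat_lit 912) (nat_lit 10370343614) (nat_lit 76) (nat_lit 4368138379) (nat_lit 354) (nat_lit 5)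 (nat_lit 366) (nat_lit 5) (nat_lit 355) (nat_lit 5) (nat_lit 393) (nat_lit 374) (nat_lit 253)) (XT.nd (nat_lit 78) (nat_lit 608) (nat_lit 0) (XT.lf (nat_lit 0) (nat_lit 2059891437) (nat_lit 912) (nat_lit 2056317516) (nat_lit 76) (nat_lit 11210485905) (nat_lit 354) (nat_lit 5) (nat_lit 366) (nat_lit 5) (nat_lit 355) (nat_lit 5) (nat_lit 394) (nat_lit 374) (nat_lit 252)) (XT.lf (nat_lit 0) (nat_lit 3897737077) (nat_lit 684) (nat_lit 8971144409) (nat_lit 76) (nat_lit 2699815128) (nat_lit 346) (nat_lit 5) (nat_lit 355) (nat_lit 5) (nat_lit 347) (nat_lit 5) (nat_lit 395) (nat_lit 374) (nat_lit 251)))) (XT.nd (nat_lit 78) (nat_lit 1140) (nat_lit 0) (XT.lf (nat_lit 0) (nat_lit 5840236759) (nat_lit 684) (nat_lit 316953316) (nat_lit 76) (nat_lit 9659282788) (nat_lit 346) (nat_lit 5) (nat_lit 355) (nat_lit 5) (nat_lit 347) (nat_lit 5) (nat_lit 396) (nat_lit 374) (nat_lit 250)) (XT.nd (nat_lit 78) (nat_lit 532)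 (nat_lit 0) (XT.lf (nat_lit 0) (nat_lit 7921433336) (nat_lit 684) (nat_lit 7321389343) (nat_lit 76) (nat_lit 826447064) (nat_lit 338) (nat_lit 5) (nat_lit 347) (nat_lit 5) (nat_lit 339) (nat_lit 5) (nat_lit 397) (nat_lit 374) (nat_lit 249)) (XT.lf (nat_lit 0) (nat_lit 1722478691) (nat_lit 532) (nat_lit 8411726329) (nat_lit 608) (nat_lit 6193371332) (nat_lit 331) (nat_lit 5) (nat_lit 338) (nat_lit 5) (nat_lit 339) (nat_lit 5) (nat_lit 398) (nat_lit 374) (nat_lit 248))))) (XT.nd (nat_lit 234) (nat_lit 1064) (nat_lit 0) (XT.nd (nat_lit 78) (nat_lit 684) (nat_lit 0) (XT.lf (nat_lit 0) (nat_lit 11176118224) (nat_lit 532) (nat_lit 1299786910) (nat_lit 608) (nat_lit 4115850667) (nat_lit 331) (nat_lit 5) (nat_lit 338) (nat_lit 5) (nat_lit 339) (nat_lit 5) (nat_lit 399) (nat_lit 374) (nat_lit 247)) (XT.nd (nat_lit 78) (nat_lit 76) (nat_lit 0) (XT.lf (nat_lit 0) (nat_lit 4059177956) (nat_lit 608) (nat_lit 10914561502)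 (nat_lit 684) (nat_lit 1887544680) (nat_lit 323) (nat_lit 5) (nat_lit 331) (nat_lit 5) (nat_lit 332) (nat_lit 5) (nat_lit 400) (nat_lit 374) (nat_lit 246)) (XT.lf (nat_lit 0) (nat_lit 456801600) (nat_lit 684) (nat_lit 3237054058) (nat_lit 76) (nat_lit 13443210768) (nat_lit 322) (nat_lit 5) (nat_lit 331) (nat_lit 5) (nat_lit 323) (nat_lit 5) (nat_lit 401) (nat_lit 374) (nat_lit 245)))) (XT.nd (nat_lit 78) (nat_lit 532) (nat_lit 0) (XT.lf (nat_lit 0) (nat_lit 2924265868) (nat_lit 608) (nat_lit 10739811634) (nat_lit 76) (nat_lit 3753762265) (nat_lit 315) (nat_lit 5) (nat_lit 323) (nat_lit 5) (nat_lit 316) (nat_lit 5) (nat_lit 402) (nat_lit 374) (nat_lit 244)) (XT.nd (nat_lit 78) (nat_lit 532) (nat_lit 0) (XT.lf (nat_lit 0) (nat_lit 5524897937) (nat_lit 608) (nat_lit 797605649) (nat_lit 76) (nat_lit 11382758404) (nat_lit 315) (nat_lit 5) (nat_lit 323) (nat_lit 5) (nat_lit 316) (nat_lit 5) (nat_lit 403) (nat_lit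 374) (nat_lit 243)) (XT.lf (nat_lit 0) (nat_lit 8298697559) (nat_lit 608) (nat_lit 8392316194) (nat_lit 76) (nat_lit 1307438669) (nat_lit 308) (nat_lit 5) (nat_lit 316) (nat_lit 5) (nat_lit 309) (nat_lit 5) (nat_lit 404) (nat_lit 374) (nat_lit 242))))))) (XT.nd (nat_lit 936) (nat_lit 2660) (nat_lit 0) (XT.nd (nat_lit 468) (nat_lit 1292) (nat_lit 0) (XT.nd (nat_lit 234) (nat_lit 988) (nat_lit 0) (XT.nd (nat_lit 78) (nat_lit 532) (nat_lit 0) (XT.lf (nat_lit 0) (nat_lit 2003140618) (nat_lit 456) (nat_lit 9232599577) (nat_lit 532) (nat_lit 7062297502) (nat_lit 302) (nat_lit 5) (nat_lit 308) (nat_lit 5) (nat_lit 309) (nat_lit 5) (nat_lit 405) (nat_lit 374) (nat_lit 241)) (XT.nd (nat_lit 78) (nat_lit 532) (nat_lit 0) (XT.lf (nat_lit 0) (nat_lit 12871194640) (nat_lit 456) (nat_lit 1464667427) (nat_lit 532) (nat_lit 4268499424) (nat_lit 302) (nat_lit 5) (nat_lit 308) (nat_lit 5) (nat_lit 309) (nat_lit 5) (nat_lit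 406) (nat_lit 374) (nat_lit 240)) (XT.lf (nat_lit 0) (nat_lit 5172271811) (nat_lit 532) (nat_lit 12459758369) (nat_lit 608) (nat_lit 1284753542) (nat_lit 295) (nat_lit 5) (nat_lit 302) (nat_lit 5) (nat_lit 303) (nat_lit 5) (nat_lit 407) (nat_lit 374) (nat_lit 239)))) (XT.nd (nat_lit 78) (nat_lit 912) (nat_lit 0) (XT.lf (nat_lit 0) (nat_lit 1817143214) (nat_lit 608) (nat_lit 2758030578) (nat_lit 76) (nat_lit 14660982901) (nat_lit 294) (nat_lit 5) (nat_lit 302) (nat_lit 5) (nat_lit 295) (nat_lit 5) (nat_lit 408) (nat_lit 374) (nat_lit 238)) (XT.nd (nat_lit 78) (nat_lit 456) (nat_lit 0) (XT.lf (nat_lit 0) (nat_lit 5095811815) (nat_lit 532) (nat_lit 10893331435) (nat_lit 76) (nat_lit 3572299877) (nat_lit 288) (nat_lit 5) (nat_lit 295) (nat_lit 5) (nat_lit 289) (nat_lit 5) (nat_lit 409) (nat_lit 374) (nat_lit 237)) (XT.lf (nat_lit 0) (nat_lit 551985407) (nat_lit 456) (nat_lit 7990574903) (nat_lit 532) (nat_lit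 11351836250) (nat_lit 282) (nat_lit 5) (nat_lit 288) (nat_lit 5) (nat_lit 289) (nat_lit 5) (nat_lit 410) (nat_lit 374) (nat_lit 236))))) (XT.nd (nat_lit 234) (nat_lit 912) (nat_lit 0) (XT.nd (nat_lit 78) (nat_lit 380) (nat_lit 0) (XT.lf (nat_lit 0) (nat_lit 12197309368) (nat_lit 532) (nat_lit 7684816232) (nat_lit 76) (nat_lit 352075051) (nat_lit 282) (nat_lit 5) (nat_lit 289) (nat_lit 5) (nat_lit 283) (nat_lit 5) (nat_lit 411) (nat_lit 374) (nat_lit 235)) (XT.nd (nat_lit 78) (nat_lit 0) (nat_lit 0) (XT.lf (nat_lit 0) (nat_lit 4316684766) (nat_lit 380) (nat_lit 11757008113) (nat_lit 456) (nat_lit 4507146226) (nat_lit 277) (nat_lit 5) (nat_lit 282) (nat_lit 5) (nat_lit 283) (nat_lit 5) (nat_lit 412) (nat_lit 374) (nat_lit 234)) (XT.lf (nat_lit 0) (nat_lit 16824928026) (nat_lit 380) (nat_lit 3310571055) (nat_lit 456) (nat_lit 800303698) (nat_lit 277) (nat_lit 5) (nat_lit 282) (nat_lit 5) (nat_lit 283) (nat_lit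 5) (nat_lit 413) (nat_lit 374) (nat_lit 233)))) (XT.nd (nat_lit 78) (nat_lit 380) (nat_lit 0) (XT.lf (nat_lit 0) (nat_lit 3085465813) (nat_lit 532) (nat_lit 12817377682) (nat_lit 76) (nat_lit 5393903352) (nat_lit 270) (nat_lit 5) (nat_lit 277) (nat_lit 5) (nat_lit 271) (nat_lit 5) (nat_lit 414) (nat_lit 374) (nat_lit 232)) (XT.nd (nat_lit 78) (nat_lit 380) (nat_lit 0) (XT.lf (nat_lit 0) (nat_lit 7138235707) (nat_lit 532) (nat_lit 187598021) (nat_lit 76) (nat_lit 14340452416) (nat_lit 270) (nat_lit 5) (nat_lit 277) (nat_lit 5) (nat_lit 271) (nat_lit 5) (nat_lit 415) (nat_lit 374) (nat_lit 231)) (XT.lf (nat_lit 0) (nat_lit 11445952708) (nat_lit 456) (nat_lit 8993557158) (nat_lit 76) (nat_lit 1603400835) (nat_lit 265) (nat_lit 5) (nat_lit 271) (nat_lit 5) (nat_lit 266) (nat_lit 5) (nat_lit 416) (nat_lit 374) (nat_lit 230)))))) (XT.nd (nat_lit 468) (nat_lit 1140) (nat_lit 0) (XT.nd (nat_lit 234) (nat_lit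 684) (nat_lit 0) (XT.nd (nat_lit 78) (nat_lit 456) (nat_lit 0) (XT.lf (nat_lit 0) (nat_lit 4256394705) (nat_lit 380) (nat_lit 11734025174) (nat_lit 456) (nat_lit 6437188555) (nat_lit 260) (nat_lit 5) (nat_lit 265) (nat_lit 5) (nat_lit 266) (nat_lit 5) (nat_lit 417) (nat_lit 374) (nat_lit 229)) (XT.nd (nat_lit 78) (nat_lit 456) (nat_lit 0) (XT.lf (nat_lit 0) (nat_lit 18077714895) (nat_lit 380) (nat_lit 2676608514) (nat_lit 456) (nat_lit 2067030622) (nat_lit 260) (nat_lit 5) (nat_lit 265) (nat_lit 5) (nat_lit 266) (nat_lit 5) (nat_lit 418) (nat_lit 374) (nat_lit 228)) (XT.lf (nat_lit 0) (nat_lit 2532954204) (nat_lit 456) (nat_lit 14055604270) (nat_lit 76) (nat_lit 6633264856) (nat_lit 254) (nat_lit 5) (nat_lit 260) (nat_lit 5) (nat_lit 255) (nat_lit 5) (nat_lit 419) (nat_lit 374) (nat_lit 227)))) (XT.nd (nat_lit 78) (nat_lit 684) (nat_lit 0) (XT.lf (nat_lit 0) (nat_lit 7296800834) (nat_lit 456) (nat_lit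 100127204) (nat_lit 76) (nat_lit 16234742475) (nat_lit 254) (nat_lit 5) (nat_lit 260) (nat_lit 5) (nat_lit 255) (nat_lit 5) (nat_lit 420) (nat_lit 374) (nat_lit 226)) (XT.nd (nat_lit 78) (nat_lit 304) (nat_lit 0) (XT.lf (nat_lit 0) (nat_lit 12357412578) (nat_lit 456) (nat_lit 9523327000) (nat_lit 76) (nat_lit 2168458043) (nat_lit 249) (nat_lit 5) (nat_lit 255) (nat_lit 5) (nat_lit 250) (nat_lit 5) (nat_lit 421) (nat_lit 374) (nat_lit 225)) (XT.lf (nat_lit 0) (nat_lit 5130128254) (nat_lit 304) (nat_lit 12556121698) (nat_lit 380) (nat_lit 6789508371) (nat_lit 245) (nat_lit 5) (nat_lit 249) (nat_lit 5) (nat_lit 250) (nat_lit 5) (nat_lit 422) (nat_lit 374) (nat_lit 224))))) (XT.nd (nat_lit 234) (nat_lit 380) (nat_lit 0) (XT.nd (nat_lit 78) (nat_lit 760) (nat_lit 0) (XT.lf (nat_lit 0) (nat_lit 20408293375) (nat_lit 304) (nat_lit 2855772809) (nat_lit 380) (nat_lit 1648376249) (nat_lit 245) (nat_lit 5) (nat_lit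 249) (nat_lit 5) (nat_lit 250) (nat_lit 5) (nat_lit 423) (nat_lit 374) (nat_lit 223)) (XT.nd (nat_lit 78) (nat_lit 304) (nat_lit 0) (XT.lf (nat_lit 0) (nat_lit 3744130377) (nat_lit 456) (nat_lit 14476914393) (nat_lit 76) (nat_lit 7135081392) (nat_lit 239) (nat_lit 5) (nat_lit 245) (nat_lit 5) (nat_lit 240) (nat_lit 5) (nat_lit 424) (nat_lit 374) (nat_lit 222)) (XT.lf (nat_lit 0) (nat_lit 968467480) (nat_lit 304) (nat_lit 8373493665) (nat_lit 380) (nat_lit 16468369251) (nat_lit 235) (nat_lit 5) (nat_lit 239) (nat_lit 5) (nat_lit 240) (nat_lit 5) (nat_lit 425) (nat_lit 374) (nat_lit 221)))) (XT.nd (nat_lit 78) (nat_lit 380) (nat_lit 0) (XT.lf (nat_lit 0) (nat_lit 15265606759) (nat_lit 380) (nat_lit 9128364523) (nat_lit 76) (nat_lit 1879453076) (nat_lit 235) (nat_lit 5) (nat_lit 240) (nat_lit 5) (nat_lit 236) (nat_lit 5) (nat_lit 426) (nat_lit 374) (nat_lit 220)) (XT.nd (nat_lit 78) (nat_lit 76) (nat_lit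 0) (XT.lf (nat_lit 0) (nat_lit 7102414981) (nat_lit 304) (nat_lit 14409157144) (nat_lit 380) (nat_lit 5234500702) (nat_lit 231) (nat_lit 5) (nat_lit 235) (nat_lit 5) (nat_lit 236) (nat_lit 5) (nat_lit 427) (nat_lit 374) (nat_lit 219)) (XT.lf (nat_lit 0) (nat_lit 784678555) (nat_lit 380) (nat_lit 3240497503) (nat_lit 76) (nat_lit 23204922657) (nat_lit 230) (nat_lit 5) (nat_lit 235) (nat_lit 5) (nat_lit 231) (nat_lit 5) (nat_lit 428) (nat_lit 374) (nat_lit 218))))))))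
noncomputable def xc106 : XT := (XT.nd (nat_lit 1794) (nat_lit 6764) (nat_lit 0) (XT.nd (nat_lit 858) (nat_lit 2964) (nat_lit 0) (XT.nd (nat_lit 390) (nat_lit 1064) (nat_lit 0) (XT.nd (nat_lit 156) (nat_lit 0) (nat_lit 0) (XT.nd (nat_lit 78) (nat_lit 0) (nat_lit 0) (XT.lf (nat_lit 0) (nat_lit 1889580881) (nat_lit 0) (nat_lit 1889580881) (nat_lit 1140) (nat_lit 2099891643) (nat_lit 391) (nat_lit 5) (nat_lit 391) (nat_lit 3) (nat_lit 406) (nat_lit 3) (nat_lit 375) (nat_lit 375) (nat_lit 270)) (XT.lf (nat_lit 0) (nat_lit 8183078086) (nat_lit 1140) (nat_lit 2110918973) (nat_lit 1216) (nat_lit 1625139965) (nat_lit 391) (nat_lit 5) (nat_lit 406) (nat_lit 3) (nat_lit 407) (nat_lit 5) (nat_lit 376) (nat_lit 375) (nat_lit 269))) (XT.nd (nat_lit 78) (nat_lit 0) (nat_lit 76) (XT.lf (nat_lit 76) (nat_lit 3962716346) (nat_lit 0) (nat_lit 4920125458) (nat_lit 1216) (nat_lit 3200468341) (nat_lit 392) (nat_lit 5) (nat_lit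 391) (nat_lit 5) (nat_lit 407) (nat_lit 5) (nat_lit 377) (nat_lit 375) (nat_lit 268)) (XT.nd (nat_lit 78) (nat_lit 0) (nat_lit 0) (XT.lf (nat_lit 0) (nat_lit 9612338197) (nat_lit 1140) (nat_lit 2006944044) (nat_lit 1216) (nat_lit 632864026) (nat_lit 392) (nat_lit 5) (nat_lit 407) (nat_lit 5) (nat_lit 408) (nat_lit 5) (nat_lit 378) (nat_lit 375) (nat_lit 267)) (XT.lf (nat_lit 76) (nat_lit 4315034888) (nat_lit 0) (nat_lit 6120723262) (nat_lit 1216) (nat_lit 1988128162) (nat_lit 393) (nat_lit 5) (nat_lit 392) (nat_lit 5) (nat_lit 408) (nat_lit 5) (nat_lit 379) (nat_lit 375) (nat_lit 266))))) (XT.nd (nat_lit 234) (nat_lit 0) (nat_lit 76) (XT.nd (nat_lit 78) (nat_lit 1140) (nat_lit 0) (XT.lf (nat_lit 76) (nat_lit 10857349109) (nat_lit 0) (nat_lit 429071768) (nat_lit 1216) (nat_lit 1314281479) (nat_lit 393) (nat_lit 5) (nat_lit 392) (nat_lit 5) (nat_lit 408) (nat_lit 5) (nat_lit 380) (nat_lit 375) (nat_lit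 265)) (XT.nd (nat_lit 78) (nat_lit 1216) (nat_lit 0) (XT.lf (nat_lit 76) (nat_lit 4844674707) (nat_lit 0) (nat_lit 7399585275) (nat_lit 1216) (nat_lit 536113203) (nat_lit 394) (nat_lit 5) (nat_lit 393) (nat_lit 5) (nat_lit 409) (nat_lit 5) (nat_lit 381) (nat_lit 375) (nat_lit 264)) (XT.lf (nat_lit 0) (nat_lit 265337456) (nat_lit 1216) (nat_lit 1316774160) (nat_lit 1292) (nat_lit 11383092499) (nat_lit 377) (nat_lit 5) (nat_lit 393) (nat_lit 5) (nat_lit 394) (nat_lit 5) (nat_lit 382) (nat_lit 375) (nat_lit 263)))) (XT.nd (nat_lit 78) (nat_lit 0) (nat_lit 0) (XT.lf (nat_lit 0) (nat_lit 1160441073) (nat_lit 1216) (nat_lit 7603419088) (nat_lit 1292) (nat_lit 4389149027) (nat_lit 378) (nat_lit 5) (nat_lit 394) (nat_lit 5) (nat_lit 395) (nat_lit 5) (nat_lit 383) (nat_lit 375) (nat_lit 262)) (XT.nd (nat_lit 78) (nat_lit 0) (nat_lit 76) (XT.lf (nat_lit 0) (nat_lit 2095502124) (nat_lit 1216) (nat_lit 723992624)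 (nat_lit 1292) (nat_lit 10526560536) (nat_lit 378) (nat_lit 5) (nat_lit 394) (nat_lit 5) (nat_lit 395) (nat_lit 5) (nat_lit 384) (nat_lit 375) (nat_lit 261)) (XT.lf (nat_lit 0) (nat_lit 3137771947) (nat_lit 1216) (nat_lit 7098452070) (nat_lit 1292) (nat_lit 3306294037) (nat_lit 379) (nat_lit 5) (nat_lit 395) (nat_lit 5) (nat_lit 396) (nat_lit 5) (nat_lit 385) (nat_lit 375) (nat_lit 260)))))) (XT.nd (nat_lit 468) (nat_lit 3116) (nat_lit 0) (XT.nd (nat_lit 234) (nat_lit 0) (nat_lit 152) (XT.nd (nat_lit 78) (nat_lit 0) (nat_lit 76) (XT.lf (nat_lit 76) (nat_lit 59367297) (nat_lit 0) (nat_lit 4172682482) (nat_lit 1292) (nat_lit 9512202730) (nat_lit 380) (nat_lit 5) (nat_lit 379) (nat_lit 5) (nat_lit 396) (nat_lit 5) (nat_lit 386) (nat_lit 375) (nat_lit 259)) (XT.nd (nat_lit 78) (nat_lit 0) (nat_lit 0) (XT.lf (nat_lit 0) (nat_lit 5436711489) (nat_lit 1216) (nat_lit 6404616075) (nat_lit 1292) (nat_lit 2108384770)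 (nat_lit 380) (nat_lit 5) (nat_lit 396) (nat_lit 5) (nat_lit 397) (nat_lit 5) (nat_lit 387) (nat_lit 375) (nat_lit 258)) (XT.lf (nat_lit 76) (nat_lit 1062286536) (nat_lit 0) (nat_lit 5652422130) (nat_lit 1292) (nat_lit 7445511417) (nat_lit 381) (nat_lit 5) (nat_lit 380) (nat_lit 5) (nat_lit 397) (nat_lit 5) (nat_lit 388) (nat_lit 375) (nat_lit 257)))) (XT.nd (nat_lit 78) (nat_lit 0) (nat_lit 0) (XT.lf (nat_lit 0) (nat_lit 8089311590) (nat_lit 1216) (nat_lit 5509729402) (nat_lit 1292) (nat_lit 776254098) (nat_lit 381) (nat_lit 5) (nat_lit 397) (nat_lit 5) (nat_lit 398) (nat_lit 5) (nat_lit 389) (nat_lit 375) (nat_lit 256)) (XT.nd (nat_lit 78) (nat_lit 0) (nat_lit 0) (XT.lf (nat_lit 76) (nat_lit 2283522797) (nat_lit 0) (nat_lit 7285962160) (nat_lit 1292) (nat_lit 5025407419) (nat_lit 382) (nat_lit 5) (nat_lit 381) (nat_lit 5) (nat_lit 398) (nat_lit 5) (nat_lit 390) (nat_lit 375) (nat_lit 255)) (XT.lf (nat_lit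 76) (nat_lit 10412433105) (nat_lit 0) (nat_lit 723974124) (nat_lit 1292) (nat_lit 3683400042) (nat_lit 382) (nat_lit 5) (nat_lit 381) (nat_lit 5) (nat_lit 398) (nat_lit 5) (nat_lit 391) (nat_lit 375) (nat_lit 254))))) (XT.nd (nat_lit 234) (nat_lit 1216) (nat_lit 0) (XT.nd (nat_lit 78) (nat_lit 912) (nat_lit 0) (XT.lf (nat_lit 0) (nat_lit 3737493660) (nat_lit 1216) (nat_lit 9093895542) (nat_lit 1292) (nat_lit 2217648849) (nat_lit 366) (nat_lit 5) (nat_lit 382) (nat_lit 5) (nat_lit 383) (nat_lit 5) (nat_lit 392) (nat_lit 375) (nat_lit 253)) (XT.nd (nat_lit 78) (nat_lit 912) (nat_lit 0) (XT.lf (nat_lit 0) (nat_lit 12198684634) (nat_lit 1216) (nat_lit 2417522698) (nat_lit 1292) (nat_lit 667768821) (nat_lit 366) (nat_lit 5) (nat_lit 382) (nat_lit 5) (nat_lit 383) (nat_lit 5) (nat_lit 393) (nat_lit 375) (nat_lit 252)) (XT.lf (nat_lit 0) (nat_lit 994229042) (nat_lit 912) (nat_lit 10093303705) (nat_lit 76) (nat_lit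 4435649604) (nat_lit 354) (nat_lit 5) (nat_lit 366) (nat_lit 5) (nat_lit 355) (nat_lit 5) (nat_lit 394) (nat_lit 375) (nat_lit 251)))) (XT.nd (nat_lit 78) (nat_lit 1216) (nat_lit 0) (XT.lf (nat_lit 0) (nat_lit 2735962045) (nat_lit 912) (nat_lit 1546987412) (nat_lit 76) (nat_lit 11485118030) (nat_lit 354) (nat_lit 5) (nat_lit 366) (nat_lit 5) (nat_lit 355) (nat_lit 5) (nat_lit 395) (nat_lit 375) (nat_lit 250)) (XT.nd (nat_lit 78) (nat_lit 608) (nat_lit 0) (XT.lf (nat_lit 0) (nat_lit 4616136897) (nat_lit 684) (nat_lit 8656452955) (nat_lit 76) (nat_lit 2745123630) (nat_lit 346) (nat_lit 5) (nat_lit 355) (nat_lit 5) (nat_lit 347) (nat_lit 5) (nat_lit 396) (nat_lit 375) (nat_lit 249)) (XT.lf (nat_lit 0) (nat_lit 245142855) (nat_lit 608) (nat_lit 6356606700) (nat_lit 684) (nat_lit 9671628323) (nat_lit 338) (nat_lit 5) (nat_lit 346) (nat_lit 5) (nat_lit 347) (nat_lit 5) (nat_lit 397) (nat_lit 375) (nat_lit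 248))))))) (XT.nd (nat_lit 936) (nat_lit 3420) (nat_lit 0) (XT.nd (nat_lit 468) (nat_lit 1596) (nat_lit 0) (XT.nd (nat_lit 234) (nat_lit 1216) (nat_lit 0) (XT.nd (nat_lit 78) (nat_lit 532) (nat_lit 0) (XT.lf (nat_lit 0) (nat_lit 8731306118) (nat_lit 684) (nat_lit 6962490423) (nat_lit 76) (nat_lit 840384401) (nat_lit 338) (nat_lit 5) (nat_lit 347) (nat_lit 5) (nat_lit 339) (nat_lit 5) (nat_lit 398) (nat_lit 375) (nat_lit 247)) (XT.nd (nat_lit 78) (nat_lit 0) (nat_lit 0) (XT.lf (nat_lit 0) (nat_lit 2347021685) (nat_lit 532) (nat_lit 8652279144) (nat_lit 608) (nat_lit 5801270724) (nat_lit 331) (nat_lit 5) (nat_lit 338) (nat_lit 5) (nat_lit 339) (nat_lit 5) (nat_lit 399) (nat_lit 375) (nat_lit 246)) (XT.lf (nat_lit 0) (nat_lit 12067584910) (nat_lit 532) (nat_lit 1327325202) (nat_lit 608) (nat_lit 3678256529) (nat_lit 331) (nat_lit 5) (nat_lit 338) (nat_lit 5) (nat_lit 339) (nat_lit 5) (nat_lit 400) (nat_lit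 375) (nat_lit 245)))) (XT.nd (nat_lit 78) (nat_lit 608) (nat_lit 0) (XT.lf (nat_lit 0) (nat_lit 4747756243) (nat_lit 608) (nat_lit 11209612729) (nat_lit 684) (nat_lit 1393721170) (nat_lit 323) (nat_lit 5) (nat_lit 331) (nat_lit 5) (nat_lit 332) (nat_lit 5) (nat_lit 401) (nat_lit 375) (nat_lit 244)) (XT.nd (nat_lit 78) (nat_lit 532) (nat_lit 0) (XT.lf (nat_lit 0) (nat_lit 994494571) (nat_lit 684) (nat_lit 2773443149) (nat_lit 76) (nat_lit 13867521032) (nat_lit 322) (nat_lit 5) (nat_lit 331) (nat_lit 5) (nat_lit 323) (nat_lit 5) (nat_lit 402) (nat_lit 375) (nat_lit 243)) (XT.lf (nat_lit 0) (nat_lit 3526453783) (nat_lit 608) (nat_lit 10491754467) (nat_lit 76) (nat_lit 3906732911) (nat_lit 315) (nat_lit 5) (nat_lit 323) (nat_lit 5) (nat_lit 316) (nat_lit 5) (nat_lit 403) (nat_lit 375) (nat_lit 242))))) (XT.nd (nat_lit 234) (nat_lit 608) (nat_lit 0) (XT.nd (nat_lit 78) (nat_lit 988) (nat_lit 0) (XT.lf (nat_lit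 0) (nat_lit 6190120544) (nat_lit 608) (nat_lit 267891571) (nat_lit 76) (nat_lit 11763423465) (nat_lit 315) (nat_lit 5) (nat_lit 323) (nat_lit 5) (nat_lit 316) (nat_lit 5) (nat_lit 404) (nat_lit 375) (nat_lit 241)) (XT.nd (nat_lit 78) (nat_lit 456) (nat_lit 0) (XT.lf (nat_lit 0) (nat_lit 9038413785) (nat_lit 608) (nat_lit 8081723062) (nat_lit 76) (nat_lit 1403546490) (nat_lit 308) (nat_lit 5) (nat_lit 316) (nat_lit 5) (nat_lit 309) (nat_lit 5) (nat_lit 405) (nat_lit 375) (nat_lit 240)) (XT.lf (nat_lit 0) (nat_lit 2620084095) (nat_lit 456) (nat_lit 9434542536) (nat_lit 532) (nat_lit 6777897770) (nat_lit 302) (nat_lit 5) (nat_lit 308) (nat_lit 5) (nat_lit 309) (nat_lit 5) (nat_lit 406) (nat_lit 375) (nat_lit 239)))) (XT.nd (nat_lit 78) (nat_lit 608) (nat_lit 0) (XT.lf (nat_lit 0) (nat_lit 13797960828) (nat_lit 456) (nat_lit 1435757908) (nat_lit 532) (nat_lit 3914740176) (nat_lit 302) (nat_lit 5) (nat_lit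 308) (nat_lit 5) (nat_lit 309) (nat_lit 5) (nat_lit 407) (nat_lit 375) (nat_lit 238)) (XT.nd (nat_lit 78) (nat_lit 76) (nat_lit 0) (XT.lf (nat_lit 0) (nat_lit 5875972450) (nat_lit 532) (nat_lit 12745127466) (nat_lit 608) (nat_lit 849384052) (nat_lit 295) (nat_lit 5) (nat_lit 302) (nat_lit 5) (nat_lit 303) (nat_lit 5) (nat_lit 408) (nat_lit 375) (nat_lit 237)) (XT.lf (nat_lit 0) (nat_lit 2322787960) (nat_lit 608) (nat_lit 2299237306) (nat_lit 76) (nat_lit 15177682214) (nat_lit 294) (nat_lit 5) (nat_lit 302) (nat_lit 5) (nat_lit 295) (nat_lit 5) (nat_lit 409) (nat_lit 375) (nat_lit 236)))))) (XT.nd (nat_lit 468) (nat_lit 1596) (nat_lit 0) (XT.nd (nat_lit 234) (nat_lit 912) (nat_lit 0) (XT.nd (nat_lit 78) (nat_lit 456) (nat_lit 0) (XT.lf (nat_lit 0) (nat_lit 5692726161) (nat_lit 532) (nat_lit 10671506729) (nat_lit 76) (nat_lit 3770732331) (nat_lit 288) (nat_lit 5) (nat_lit 295) (nat_lit 5) (nat_lit 289)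 (nat_lit 5) (nat_lit 410) (nat_lit 375) (nat_lit 235)) (XT.nd (nat_lit 78) (nat_lit 0) (nat_lit 0) (XT.lf (nat_lit 0) (nat_lit 1111790945) (nat_lit 456) (nat_lit 8123374974) (nat_lit 532) (nat_lit 11242972673) (nat_lit 282) (nat_lit 5) (nat_lit 288) (nat_lit 5) (nat_lit 289) (nat_lit 5) (nat_lit 411) (nat_lit 375) (nat_lit 234)) (XT.lf (nat_lit 0) (nat_lit 12987846662) (nat_lit 532) (nat_lit 7376226654) (nat_lit 76) (nat_lit 464414814) (nat_lit 282) (nat_lit 5) (nat_lit 289) (nat_lit 5) (nat_lit 283) (nat_lit 5) (nat_lit 412) (nat_lit 375) (nat_lit 233)))) (XT.nd (nat_lit 78) (nat_lit 532) (nat_lit 0) (XT.lf (nat_lit 0) (nat_lit 4980033746) (nat_lit 380) (nat_lit 11993252095) (nat_lit 456) (nat_lit 4212456972) (nat_lit 277) (nat_lit 5) (nat_lit 282) (nat_lit 5) (nat_lit 283) (nat_lit 5) (nat_lit 413) (nat_lit 375) (nat_lit 232)) (XT.nd (nat_lit 78) (nat_lit 532) (nat_lit 0) (XT.lf (nat_lit 0) (nat_lit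 17847975320) (nat_lit 380) (nat_lit 3296814146) (nat_lit 456) (nat_lit 406930633) (nat_lit 277) (nat_lit 5) (nat_lit 282) (nat_lit 5) (nat_lit 283) (nat_lit 5) (nat_lit 414) (nat_lit 375) (nat_lit 231)) (XT.lf (nat_lit 0) (nat_lit 3581502142) (nat_lit 532) (nat_lit 12669689738) (nat_lit 76) (nat_lit 5672353202) (nat_lit 270) (nat_lit 5) (nat_lit 277) (nat_lit 5) (nat_lit 271) (nat_lit 5) (nat_lit 415) (nat_lit 375) (nat_lit 230))))) (XT.nd (nat_lit 234) (nat_lit 836) (nat_lit 0) (XT.nd (nat_lit 78) (nat_lit 380) (nat_lit 0) (XT.lf (nat_lit 0) (nat_lit 329919999) (nat_lit 380) (nat_lit 7417354905) (nat_lit 456) (nat_lit 14557153062) (nat_lit 265) (nat_lit 5) (nat_lit 270) (nat_lit 5) (nat_lit 271) (nat_lit 5) (nat_lit 416) (nat_lit 375) (nat_lit 229)) (XT.nd (nat_lit 78) (nat_lit 380) (nat_lit 0) (XT.lf (nat_lit 0) (nat_lit 12175776054) (nat_lit 456) (nat_lit 8741379872) (nat_lit 76) (nat_lit 1775448753)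 (nat_lit 265) (nat_lit 5) (nat_lit 271) (nat_lit 5) (nat_lit 266) (nat_lit 5) (nat_lit 417) (nat_lit 375) (nat_lit 228)) (XT.lf (nat_lit 0) (nat_lit 4900953057) (nat_lit 380) (nat_lit 11949336948) (nat_lit 456) (nat_lit 6238741957) (nat_lit 260) (nat_lit 5) (nat_lit 265) (nat_lit 5) (nat_lit 266) (nat_lit 5) (nat_lit 418) (nat_lit 375) (nat_lit 227)))) (XT.nd (nat_lit 78) (nat_lit 836) (nat_lit 0) (XT.lf (nat_lit 0) (nat_lit 19121858489) (nat_lit 380) (nat_lit 2624179602) (nat_lit 456) (nat_lit 1748884011) (nat_lit 260) (nat_lit 5) (nat_lit 265) (nat_lit 5) (nat_lit 266) (nat_lit 5) (nat_lit 419) (nat_lit 375) (nat_lit 226)) (XT.nd (nat_lit 78) (nat_lit 380) (nat_lit 0) (XT.lf (nat_lit 0) (nat_lit 2976994488) (nat_lit 456) (nat_lit 13963354380) (nat_lit 76) (nat_lit 6967087612) (nat_lit 254) (nat_lit 5) (nat_lit 260) (nat_lit 5) (nat_lit 255) (nat_lit 5) (nat_lit 420) (nat_lit 375) (nat_lit 225)) (XT.lf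 (nat_lit 0) (nat_lit 403696076) (nat_lit 380) (nat_lit 7473221064) (nat_lit 456) (nat_lit 16452867121) (nat_lit 249) (nat_lit 5) (nat_lit 254) (nat_lit 5) (nat_lit 255) (nat_lit 5) (nat_lit 421) (nat_lit 375) (nat_lit 224))))))))
noncomputable def xc107 : XT := (XT.nd (nat_lit 50934) (nat_lit 0) (nat_lit 2280) (XT.nd (nat_lit 49998) (nat_lit 0) (nat_lit 9956) (XT.nd (nat_lit 49530) (nat_lit 0) (nat_lit 11856) (XT.nd (nat_lit 234) (nat_lit 760) (nat_lit 0) (XT.nd (nat_lit 78) (nat_lit 304) (nat_lit 0) (XT.lf (nat_lit 0) (nat_lit 13081176818) (nat_lit 456) (nat_lit 9305787434) (nat_lit 76) (nat_lit 2373118042) (nat_lit 249) (nat_lit 5) (nat_lit 255) (nat_lit 5) (nat_lit 250) (nat_lit 5) (nat_lit 422) (nat_lit 375) (nat_lit 223)) (XT.nd (nat_lit 78) (nat_lit 0) (nat_lit 0) (XT.lf (nat_lit 0) (nat_lit 5782337759) (nat_lit 304) (nat_lit 12782048800) (nat_lit 380) (nat_lit 6635218040) (nat_lit 245) (nat_lit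 5) (nat_lit 249) (nat_lit 5) (nat_lit 250) (nat_lit 5) (nat_lit 423) (nat_lit 375) (nat_lit 222)) (XT.lf (nat_lit 0) (nat_lit 21504334077) (nat_lit 304) (nat_lit 2795080413) (nat_lit 380) (nat_lit 1350278428) (nat_lit 245) (nat_lit 5) (nat_lit 249) (nat_lit 5) (nat_lit 250) (nat_lit 5) (nat_lit 424) (nat_lit 375) (nat_lit 221)))) (XT.nd (nat_lit 78) (nat_lit 304) (nat_lit 0) (XT.lf (nat_lit 0) (nat_lit 4193409991) (nat_lit 456) (nat_lit 14416836519) (nat_lit 76) (nat_lit 7496454767) (nat_lit 239) (nat_lit 5) (nat_lit 245) (nat_lit 5) (nat_lit 240) (nat_lit 5) (nat_lit 425) (nat_lit 375) (nat_lit 220)) (XT.nd (nat_lit 78) (nat_lit 0) (nat_lit 0) (XT.lf (nat_lit 0) (nat_lit 1487059896) (nat_lit 304) (nat_lit 8467007284) (nat_lit 380) (nat_lit 16620617711) (nat_lit 235) (nat_lit 5) (nat_lit 239) (nat_lit 5) (nat_lit 240) (nat_lit 5) (nat_lit 426) (nat_lit 375) (nat_lit 219)) (XT.lf (nat_lit 0) (nat_lit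 16047228385) (nat_lit 380) (nat_lit 8918741689) (nat_lit 76) (nat_lit 2085947413) (nat_lit 235) (nat_lit 5) (nat_lit 240) (nat_lit 5) (nat_lit 236) (nat_lit 5) (nat_lit 427) (nat_lit 375) (nat_lit 218))))) (XT.nd (nat_lit 234) (nat_lit 0) (nat_lit 76) (XT.nd (nat_lit 78) (nat_lit 0) (nat_lit 0) (XT.lf (nat_lit 0) (nat_lit 2191610519) (nat_lit 0) (nat_lit 2191610519) (nat_lit 1140) (nat_lit 1657483437) (nat_lit 391) (nat_lit 5) (nat_lit 391) (nat_lit 3) (nat_lit 406) (nat_lit 3) (nat_lit 376) (nat_lit 376) (nat_lit 268)) (XT.nd (nat_lit 78) (nat_lit 0) (nat_lit 0) (XT.lf (nat_lit 0) (nat_lit 9376776339) (nat_lit 1140) (nat_lit 1664690962) (nat_lit 1216) (nat_lit 1206797656) (nat_lit 391) (nat_lit 5) (nat_lit 406) (nat_lit 3) (nat_lit 407) (nat_lit 5) (nat_lit 377) (nat_lit 376) (nat_lit 267)) (XT.lf (nat_lit 76) (nat_lit 4586157773) (nat_lit 0) (nat_lit 5488607686) (nat_lit 1216) (nat_lit 2343280838)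 (nat_lit 392) (nat_lit 5) (nat_lit 391) (nat_lit 5) (nat_lit 407) (nat_lit 5) (nat_lit 378) (nat_lit 376) (nat_lit 266)))) (XT.nd (nat_lit 78) (nat_lit 0) (nat_lit 0) (XT.lf (nat_lit 0) (nat_lit 10795264324) (nat_lit 1140) (nat_lit 1546405928) (nat_lit 1216) (nat_lit 251203724) (nat_lit 392) (nat_lit 5) (nat_lit 407) (nat_lit 5) (nat_lit 408) (nat_lit 5) (nat_lit 379) (nat_lit 376) (nat_lit 265)) (XT.nd (nat_lit 78) (nat_lit 0) (nat_lit 0) (XT.lf (nat_lit 76) (nat_lit 4960127015) (nat_lit 0) (nat_lit 6662161490) (nat_lit 1216) (nat_lit 1148110669) (nat_lit 393) (nat_lit 5) (nat_lit 392) (nat_lit 5) (nat_lit 408) (nat_lit 5) (nat_lit 380) (nat_lit 376) (nat_lit 264)) (XT.lf (nat_lit 76) (nat_lit 11683691990) (nat_lit 0) (nat_lit 789338610) (nat_lit 1216) (nat_lit 480252313) (nat_lit 393) (nat_lit 5) (nat_lit 392) (nat_lit 5) (nat_lit 408) (nat_lit 5) (nat_lit 381) (nat_lit 376) (nat_lit 263)))))) (XT.nd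 (nat_lit 468) (nat_lit 836) (nat_lit 0) (XT.nd (nat_lit 234) (nat_lit 0) (nat_lit 76) (XT.nd (nat_lit 78) (nat_lit 0) (nat_lit 0) (XT.lf (nat_lit 0) (nat_lit 291862705) (nat_lit 1216) (nat_lit 7627665323) (nat_lit 1292) (nat_lit 5219417074) (nat_lit 377) (nat_lit 5) (nat_lit 393) (nat_lit 5) (nat_lit 394) (nat_lit 5) (nat_lit 382) (nat_lit 376) (nat_lit 262)) (XT.nd (nat_lit 78) (nat_lit 0) (nat_lit 76) (XT.lf (nat_lit 0) (nat_lit 1082311133) (nat_lit 1216) (nat_lit 831232669) (nat_lit 1292) (nat_lit 11416346029) (nat_lit 377) (nat_lit 5) (nat_lit 393) (nat_lit 5) (nat_lit 394) (nat_lit 5) (nat_lit 383) (nat_lit 376) (nat_lit 261)) (XT.lf (nat_lit 0) (nat_lit 1983101231) (nat_lit 1216) (nat_lit 7285310317) (nat_lit 1292) (nat_lit 4255552507) (nat_lit 378) (nat_lit 5) (nat_lit 394) (nat_lit 5) (nat_lit 395) (nat_lit 5) (nat_lit 384) (nat_lit 376) (nat_lit 260)))) (XT.nd (nat_lit 78) (nat_lit 0) (nat_lit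 76) (XT.lf (nat_lit 0) (nat_lit 2923267116) (nat_lit 1216) (nat_lit 215410128) (nat_lit 1292) (nat_lit 10584812701) (nat_lit 378) (nat_lit 5) (nat_lit 394) (nat_lit 5) (nat_lit 395) (nat_lit 5) (nat_lit 385) (nat_lit 376) (nat_lit 259)) (XT.nd (nat_lit 78) (nat_lit 0) (nat_lit 0) (XT.lf (nat_lit 0) (nat_lit 3977434571) (nat_lit 1216) (nat_lit 6761732894) (nat_lit 1292) (nat_lit 3187260246) (nat_lit 379) (nat_lit 5) (nat_lit 395) (nat_lit 5) (nat_lit 396) (nat_lit 5) (nat_lit 386) (nat_lit 376) (nat_lit 258)) (XT.lf (nat_lit 76) (nat_lit 605432106) (nat_lit 0) (nat_lit 4482626171) (nat_lit 1292) (nat_lit 9046650398) (nat_lit 380) (nat_lit 5) (nat_lit 379) (nat_lit 5) (nat_lit 396) (nat_lit 5) (nat_lit 387) (nat_lit 376) (nat_lit 257))))) (XT.nd (nat_lit 234) (nat_lit 1064) (nat_lit 0) (XT.nd (nat_lit 78) (nat_lit 0) (nat_lit 0) (XT.lf (nat_lit 0) (nat_lit 6305901131) (nat_lit 1216) (nat_lit 6045364988)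 (nat_lit 1292) (nat_lit 1995754935) (nat_lit 380) (nat_lit 5) (nat_lit 396) (nat_lit 5) (nat_lit 397) (nat_lit 5) (nat_lit 388) (nat_lit 376) (nat_lit 256)) (XT.nd (nat_lit 78) (nat_lit 0) (nat_lit 76) (XT.lf (nat_lit 76) (nat_lit 1640138921) (nat_lit 0) (nat_lit 5966781954) (nat_lit 1292) (nat_lit 6957382682) (nat_lit 381) (nat_lit 5) (nat_lit 380) (nat_lit 5) (nat_lit 397) (nat_lit 5) (nat_lit 389) (nat_lit 376) (nat_lit 255)) (XT.lf (nat_lit 0) (nat_lit 9001291100) (nat_lit 1216) (nat_lit 5123469148) (nat_lit 1292) (nat_lit 661714690) (nat_lit 381) (nat_lit 5) (nat_lit 397) (nat_lit 5) (nat_lit 398) (nat_lit 5) (nat_lit 390) (nat_lit 376) (nat_lit 254)))) (XT.nd (nat_lit 78) (nat_lit 1140) (nat_lit 0) (XT.lf (nat_lit 76) (nat_lit 2898173244) (nat_lit 0) (nat_lit 7613452123) (nat_lit 1292) (nat_lit 4501462105) (nat_lit 382) (nat_lit 5) (nat_lit 381) (nat_lit 5) (nat_lit 398) (nat_lit 5) (nat_lit 391)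 (nat_lit 376) (nat_lit 253)) (XT.nd (nat_lit 78) (nat_lit 1140) (nat_lit 0) (XT.lf (nat_lit 76) (nat_lit 11255043731) (nat_lit 0) (nat_lit 851432278) (nat_lit 1292) (nat_lit 3138846183) (nat_lit 382) (nat_lit 5) (nat_lit 381) (nat_lit 5) (nat_lit 398) (nat_lit 5) (nat_lit 392) (nat_lit 376) (nat_lit 252)) (XT.lf (nat_lit 0) (nat_lit 4394556403) (nat_lit 1216) (nat_lit 9443478904) (nat_lit 1292) (nat_lit 1643822753) (nat_lit 366) (nat_lit 5) (nat_lit 382) (nat_lit 5) (nat_lit 383) (nat_lit 5) (nat_lit 393) (nat_lit 376) (nat_lit 251))))))) (XT.nd (nat_lit 936) (nat_lit 3268) (nat_lit 0) (XT.nd (nat_lit 468) (nat_lit 2280) (nat_lit 0) (XT.nd (nat_lit 234) (nat_lit 1216) (nat_lit 0) (XT.nd (nat_lit 78) (nat_lit 912) (nat_lit 0) (XT.lf (nat_lit 0) (nat_lit 13093711127) (nat_lit 1216) (nat_lit 2564578957) (nat_lit 1292) (nat_lit 66097458) (nat_lit 366) (nat_lit 5) (nat_lit 382) (nat_lit 5) (nat_lit 383) (nat_lit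 5) (nat_lit 394) (nat_lit 376) (nat_lit 250)) (XT.nd (nat_lit 78) (nat_lit 0) (nat_lit 0) (XT.lf (nat_lit 0) (nat_lit 1620438306) (nat_lit 912) (nat_lit 9841714827) (nat_lit 76) (nat_lit 4508833217) (nat_lit 354) (nat_lit 5) (nat_lit 366) (nat_lit 5) (nat_lit 355) (nat_lit 5) (nat_lit 395) (nat_lit 376) (nat_lit 249)) (XT.lf (nat_lit 0) (nat_lit 3397052938) (nat_lit 912) (nat_lit 1055156269) (nat_lit 76) (nat_lit 11771529944) (nat_lit 354) (nat_lit 5) (nat_lit 366) (nat_lit 5) (nat_lit 355) (nat_lit 5) (nat_lit 396) (nat_lit 376) (nat_lit 248)))) (XT.nd (nat_lit 78) (nat_lit 608) (nat_lit 0) (XT.lf (nat_lit 0) (nat_lit 5321562004) (nat_lit 684) (nat_lit 8365834745) (nat_lit 76) (nat_lit 2793839906) (nat_lit 346) (nat_lit 5) (nat_lit 355) (nat_lit 5) (nat_lit 347) (nat_lit 5) (nat_lit 397) (nat_lit 376) (nat_lit 247)) (XT.nd (nat_lit 78) (nat_lit 0) (nat_lit 0) (XT.lf (nat_lit 0) (nat_lit 797413725) (nat_lit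 608) (nat_lit 6558054544) (nat_lit 684) (nat_lit 9389440959) (nat_lit 338) (nat_lit 5) (nat_lit 346) (nat_lit 5) (nat_lit 347) (nat_lit 5) (nat_lit 398) (nat_lit 376) (nat_lit 246)) (XT.lf (nat_lit 0) (nat_lit 9532626752) (nat_lit 684) (nat_lit 6626035133) (nat_lit 76) (nat_lit 855363041) (nat_lit 338) (nat_lit 5) (nat_lit 347) (nat_lit 5) (nat_lit 339) (nat_lit 5) (nat_lit 399) (nat_lit 376) (nat_lit 245))))) (XT.nd (nat_lit 234) (nat_lit 1140) (nat_lit 0) (XT.nd (nat_lit 78) (nat_lit 608) (nat_lit 0) (XT.lf (nat_lit 0) (nat_lit 2957415966) (nat_lit 532) (nat_lit 8900725853) (nat_lit 608) (nat_lit 5430581021) (nat_lit 331) (nat_lit 5) (nat_lit 338) (nat_lit 5) (nat_lit 339) (nat_lit 5) (nat_lit 400) (nat_lit 376) (nat_lit 244)) (XT.nd (nat_lit 78) (nat_lit 608) (nat_lit 0) (XT.lf (nat_lit 0) (nat_lit 12953868409) (nat_lit 532) (nat_lit 1356347225) (nat_lit 608) (nat_lit 3259742260) (nat_lit 331) (nat_lit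 5) (nat_lit 338) (nat_lit 5) (nat_lit 339) (nat_lit 5) (nat_lit 401) (nat_lit 376) (nat_lit 243)) (XT.lf (nat_lit 0) (nat_lit 5424455071) (nat_lit 608) (nat_lit 11515374560) (nat_lit 684) (nat_lit 916681029) (nat_lit 323) (nat_lit 5) (nat_lit 331) (nat_lit 5) (nat_lit 332) (nat_lit 5) (nat_lit 402) (nat_lit 376) (nat_lit 242)))) (XT.nd (nat_lit 78) (nat_lit 1064) (nat_lit 0) (XT.lf (nat_lit 0) (nat_lit 1518239224) (nat_lit 684) (nat_lit 2328111679) (nat_lit 76) (nat_lit 14303354318) (nat_lit 322) (nat_lit 5) (nat_lit 331) (nat_lit 5) (nat_lit 323) (nat_lit 5) (nat_lit 403) (nat_lit 376) (nat_lit 241)) (XT.nd (nat_lit 78) (nat_lit 532) (nat_lit 0) (XT.lf (nat_lit 0) (nat_lit 4117175230) (nat_lit 608) (nat_lit 10268990356) (nat_lit 76) (nat_lit 4061975976) (nat_lit 315) (nat_lit 5) (nat_lit 323) (nat_lit 5) (nat_lit 316) (nat_lit 5) (nat_lit 404) (nat_lit 376) (nat_lit 240)) (XT.lf (nat_lit 0) (nat_lit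 250827140) (nat_lit 532) (nat_lit 6598211845) (nat_lit 608) (nat_lit 11904843217) (nat_lit 308) (nat_lit 5) (nat_lit 315) (nat_lit 5) (nat_lit 316) (nat_lit 5) (nat_lit 405) (nat_lit 376) (nat_lit 239)))))) (XT.nd (nat_lit 468) (nat_lit 1748) (nat_lit 0) (XT.nd (nat_lit 234) (nat_lit 1064) (nat_lit 0) (XT.nd (nat_lit 78) (nat_lit 456) (nat_lit 0) (XT.lf (nat_lit 0) (nat_lit 9772150135) (nat_lit 608) (nat_lit 7794094050) (nat_lit 76) (nat_lit 1499272133) (nat_lit 308) (nat_lit 5) (nat_lit 316) (nat_lit 5) (nat_lit 309) (nat_lit 5) (nat_lit 406) (nat_lit 376) (nat_lit 238)) (XT.nd (nat_lit 78) (nat_lit 0) (nat_lit 0) (XT.lf (nat_lit 0) (nat_lit 3223570452) (nat_lit 456) (nat_lit 9646851101) (nat_lit 532) (nat_lit 6513453896) (nat_lit 302) (nat_lit 5) (nat_lit 308) (nat_lit 5) (nat_lit 309) (nat_lit 5) (nat_lit 407) (nat_lit 376) (nat_lit 237)) (XT.lf (nat_lit 0) (nat_lit 14721495608) (nat_lit 456) (nat_lit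 1410162964) (nat_lit 532) (nat_lit 3578026258) (nat_lit 302) (nat_lit 5) (nat_lit 308) (nat_lit 5) (nat_lit 309) (nat_lit 5) (nat_lit 408) (nat_lit 376) (nat_lit 236)))) (XT.nd (nat_lit 78) (nat_lit 532) (nat_lit 0) (XT.lf (nat_lit 0) (nat_lit 6569296099) (nat_lit 532) (nat_lit 13044133517) (nat_lit 608) (nat_lit 428157971) (nat_lit 295) (nat_lit 5) (nat_lit 302) (nat_lit 5) (nat_lit 303) (nat_lit 5) (nat_lit 409) (nat_lit 376) (nat_lit 235)) (XT.nd (nat_lit 78) (nat_lit 456) (nat_lit 0) (XT.lf (nat_lit 0) (nat_lit 2817705316) (nat_lit 608) (nat_lit 1857766512) (nat_lit 76) (nat_lit 15705469865) (nat_lit 294) (nat_lit 5) (nat_lit 302) (nat_lit 5) (nat_lit 295) (nat_lit 5) (nat_lit 410) (nat_lit 376) (nat_lit 234)) (XT.lf (nat_lit 0) (nat_lit 6282058225) (nat_lit 532) (nat_lit 10474520581) (nat_lit 76) (nat_lit 3969878864) (nat_lit 288) (nat_lit 5) (nat_lit 295) (nat_lit 5) (nat_lit 289) (nat_lit 5) (nat_lit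 411) (nat_lit 376) (nat_lit 233))))) (XT.nd (nat_lit 234) (nat_lit 912) (nat_lit 0) (XT.nd (nat_lit 78) (nat_lit 380) (nat_lit 0) (XT.lf (nat_lit 0) (nat_lit 1657206108) (nat_lit 456) (nat_lit 8266296530) (nat_lit 532) (nat_lit 11156641659) (nat_lit 282) (nat_lit 5) (nat_lit 288) (nat_lit 5) (nat_lit 289) (nat_lit 5) (nat_lit 412) (nat_lit 376) (nat_lit 232)) (XT.nd (nat_lit 78) (nat_lit 380) (nat_lit 0) (XT.lf (nat_lit 0) (nat_lit 13777725264) (nat_lit 532) (nat_lit 7089327889) (nat_lit 76) (nat_lit 574282325) (nat_lit 282) (nat_lit 5) (nat_lit 289) (nat_lit 5) (nat_lit 283) (nat_lit 5) (nat_lit 413) (nat_lit 376) (nat_lit 231)) (XT.lf (nat_lit 0) (nat_lit 5632638111) (nat_lit 380) (nat_lit 12243269037) (nat_lit 456) (nat_lit 3933605268) (nat_lit 277) (nat_lit 5) (nat_lit 282) (nat_lit 5) (nat_lit 283) (nat_lit 5) (nat_lit 414) (nat_lit 376) (nat_lit 230)))) (XT.nd (nat_lit 78) (nat_lit 912) (nat_lit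 0) (XT.lf (nat_lit 0) (nat_lit 18871961524) (nat_lit 380) (nat_lit 3289135444) (nat_lit 456) (nat_lit 25715820) (nat_lit 277) (nat_lit 5) (nat_lit 282) (nat_lit 5) (nat_lit 283) (nat_lit 5) (nat_lit 415) (nat_lit 376) (nat_lit 229)) (XT.nd (nat_lit 78) (nat_lit 380) (nat_lit 0) (XT.lf (nat_lit 0) (nat_lit 4069258596) (nat_lit 532) (nat_lit 12548122145) (nat_lit 76) (nat_lit 5952461351) (nat_lit 270) (nat_lit 5) (nat_lit 277) (nat_lit 5) (nat_lit 271) (nat_lit 5) (nat_lit 416) (nat_lit 376) (nat_lit 228)) (XT.lf (nat_lit 0) (nat_lit 836557666) (nat_lit 380) (nat_lit 7517144814) (nat_lit 456) (nat_lit 14608638045) (nat_lit 265) (nat_lit 5) (nat_lit 270) (nat_lit 5) (nat_lit 271) (nat_lit 5) (nat_lit 417) (nat_lit 376) (nat_lit 227))))))))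
noncomputable def xc108 : XT := (XT.nd (nat_lit 50934) (nat_lit 0) (nat_lit 3572) (XT.nd (nat_lit 49998) (nat_lit 0) (nat_lit 10716) (XT.nd (nat_lit 390) (nat_lit 1064) (nat_lit 0) (XT.nd (nat_lit 156) (nat_lit 836) (nat_lit 0) (XT.nd (nat_lit 78) (nat_lit 380) (nat_lit 0) (XT.lf (nat_lit 0) (nat_lit 12905310591) (nat_lit 456) (nat_lit 8511601284) (nat_lit 76) (nat_lit 1945543108) (nat_lit 265) (nat_lit 5) (nat_lit 271) (nat_lit 5) (nat_lit 266) (nat_lit 5) (nat_lit 418) (nat_lit 376) (nat_lit 226)) (XT.lf (nat_lit 0) (nat_lit 5535177908) (nat_lit 380) (nat_lit 12178955729) (nat_lit 456) (nat_lit 6056819236) (nat_lit 260) (nat_lit 5) (nat_lit 265) (nat_lit 5) (nat_lit 266) (nat_lit 5) (nat_lit 419) (nat_lit 376) (nat_lit 225))) (XT.nd (nat_lit 78) (nat_lit 836) (nat_lit 0) (XT.lf (nat_lit 0) (nat_lit 20168520320) (nat_lit 380) (nat_lit 2577796906) (nat_lit 456) (nat_lit 1443015600) (nat_lit 260) (nat_lit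 5) (nat_lit 265) (nat_lit 5) (nat_lit 266) (nat_lit 5) (nat_lit 420) (nat_lit 376) (nat_lit 224)) (XT.nd (nat_lit 78) (nat_lit 380) (nat_lit 0) (XT.lf (nat_lit 0) (nat_lit 3413228310) (nat_lit 456) (nat_lit 13897837990) (nat_lit 76) (nat_lit 7303185555) (nat_lit 254) (nat_lit 5) (nat_lit 260) (nat_lit 5) (nat_lit 255) (nat_lit 5) (nat_lit 421) (nat_lit 376) (nat_lit 223)) (XT.lf (nat_lit 0) (nat_lit 895474793) (nat_lit 380) (nat_lit 7559180126) (nat_lit 456) (nat_lit 16594779961) (nat_lit 249) (nat_lit 5) (nat_lit 254) (nat_lit 5) (nat_lit 255) (nat_lit 5) (nat_lit 422) (nat_lit 376) (nat_lit 222))))) (XT.nd (nat_lit 234) (nat_lit 760) (nat_lit 0) (XT.nd (nat_lit 78) (nat_lit 304) (nat_lit 0) (XT.lf (nat_lit 0) (nat_lit 13806387937) (nat_lit 456) (nat_lit 9110609679) (nat_lit 76) (nat_lit 2575903871) (nat_lit 249) (nat_lit 5) (nat_lit 255) (nat_lit 5) (nat_lit 250) (nat_lit 5) (nat_lit 423) (nat_lit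 376) (nat_lit 221)) (XT.nd (nat_lit 78) (nat_lit 0) (nat_lit 0) (XT.lf (nat_lit 0) (nat_lit 6425508766) (nat_lit 304) (nat_lit 13023407758) (nat_lit 380) (nat_lit 6496848263) (nat_lit 245) (nat_lit 5) (nat_lit 249) (nat_lit 5) (nat_lit 250) (nat_lit 5) (nat_lit 424) (nat_lit 376) (nat_lit 220)) (XT.lf (nat_lit 0) (nat_lit 22605484365) (nat_lit 304) (nat_lit 2740969227) (nat_lit 380) (nat_lit 1063188413) (nat_lit 245) (nat_lit 5) (nat_lit 249) (nat_lit 5) (nat_lit 250) (nat_lit 5) (nat_lit 425) (nat_lit 376) (nat_lit 219)))) (XT.nd (nat_lit 78) (nat_lit 304) (nat_lit 0) (XT.lf (nat_lit 0) (nat_lit 4636825357) (nat_lit 456) (nat_lit 14383336047) (nat_lit 76) (nat_lit 7860212518) (nat_lit 239) (nat_lit 5) (nat_lit 245) (nat_lit 5) (nat_lit 240) (nat_lit 5) (nat_lit 426) (nat_lit 376) (nat_lit 218)) (XT.nd (nat_lit 49218) (nat_lit 0) (nat_lit 11856) (XT.lf (nat_lit 0) (nat_lit 1993108577) (nat_lit 304) (nat_lit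 8572378432) (nat_lit 380) (nat_lit 16797054494) (nat_lit 235) (nat_lit 5) (nat_lit 239) (nat_lit 5) (nat_lit 240) (nat_lit 5) (nat_lit 427) (nat_lit 376) (nat_lit 217)) (XT.lf (nat_lit 0) (nat_lit 2488617400) (nat_lit 0) (nat_lit 2488617400) (nat_lit 1140) (nat_lit 1230815296) (nat_lit 391) (nat_lit 5) (nat_lit 391) (nat_lit 3) (nat_lit 406) (nat_lit 3) (nat_lit 377) (nat_lit 377) (nat_lit 266)))))) (XT.nd (nat_lit 468) (nat_lit 0) (nat_lit 76) (XT.nd (nat_lit 234) (nat_lit 1140) (nat_lit 0) (XT.nd (nat_lit 78) (nat_lit 0) (nat_lit 0) (XT.lf (nat_lit 0) (nat_lit 10551854641) (nat_lit 1140) (nat_lit 1234326685) (nat_lit 1216) (nat_lit 802718329) (nat_lit 391) (nat_lit 5) (nat_lit 406) (nat_lit 3) (nat_lit 407) (nat_lit 5) (nat_lit 378) (nat_lit 377) (nat_lit 265)) (XT.nd (nat_lit 78) (nat_lit 0) (nat_lit 0) (XT.lf (nat_lit 76) (nat_lit 5199338639) (nat_lit 0) (nat_lit 6049984235) (nat_lit 1216) (nat_lit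 1515095378) (nat_lit 392) (nat_lit 5) (nat_lit 391) (nat_lit 5) (nat_lit 407) (nat_lit 5) (nat_lit 379) (nat_lit 377) (nat_lit 264)) (XT.lf (nat_lit 76) (nat_lit 11842218673) (nat_lit 0) (nat_lit 121274149) (nat_lit 1216) (nat_lit 981836256) (nat_lit 392) (nat_lit 5) (nat_lit 391) (nat_lit 5) (nat_lit 407) (nat_lit 5) (nat_lit 380) (nat_lit 377) (nat_lit 263)))) (XT.nd (nat_lit 78) (nat_lit 1216) (nat_lit 0) (XT.lf (nat_lit 76) (nat_lit 5594971998) (nat_lit 0) (nat_lit 7199302731) (nat_lit 1216) (nat_lit 334536893) (nat_lit 393) (nat_lit 5) (nat_lit 392) (nat_lit 5) (nat_lit 408) (nat_lit 5) (nat_lit 381) (nat_lit 377) (nat_lit 262)) (XT.nd (nat_lit 78) (nat_lit 0) (nat_lit 76) (XT.lf (nat_lit 0) (nat_lit 322244390) (nat_lit 1216) (nat_lit 814973153) (nat_lit 1292) (nat_lit 12180588956) (nat_lit 376) (nat_lit 5) (nat_lit 392) (nat_lit 5) (nat_lit 393) (nat_lit 5) (nat_lit 382) (nat_lit 377) (nat_lit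 261)) (XT.lf (nat_lit 0) (nat_lit 1086068638) (nat_lit 1216) (nat_lit 7346743132) (nat_lit 1292) (nat_lit 5076738184) (nat_lit 377) (nat_lit 5) (nat_lit 393) (nat_lit 5) (nat_lit 394) (nat_lit 5) (nat_lit 383) (nat_lit 377) (nat_lit 260))))) (XT.nd (nat_lit 234) (nat_lit 0) (nat_lit 152) (XT.nd (nat_lit 78) (nat_lit 0) (nat_lit 76) (XT.lf (nat_lit 0) (nat_lit 1877353333) (nat_lit 1216) (nat_lit 361264648) (nat_lit 1292) (nat_lit 11468291359) (nat_lit 377) (nat_lit 5) (nat_lit 393) (nat_lit 5) (nat_lit 394) (nat_lit 5) (nat_lit 384) (nat_lit 377) (nat_lit 259)) (XT.nd (nat_lit 78) (nat_lit 0) (nat_lit 0) (XT.lf (nat_lit 0) (nat_lit 2785215558) (nat_lit 1216) (nat_lit 6989013049) (nat_lit 1292) (nat_lit 4133175732) (nat_lit 378) (nat_lit 5) (nat_lit 394) (nat_lit 5) (nat_lit 395) (nat_lit 5) (nat_lit 385) (nat_lit 377) (nat_lit 258)) (XT.lf (nat_lit 76) (nat_lit 283520835) (nat_lit 0) (nat_lit 3451161212)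 (nat_lit 1292) (nat_lit 10378801087) (nat_lit 379) (nat_lit 5) (nat_lit 378) (nat_lit 5) (nat_lit 395) (nat_lit 5) (nat_lit 386) (nat_lit 377) (nat_lit 257)))) (XT.nd (nat_lit 78) (nat_lit 0) (nat_lit 0) (XT.lf (nat_lit 0) (nat_lit 4799490633) (nat_lit 1216) (nat_lit 6446465607) (nat_lit 1292) (nat_lit 3077182312) (nat_lit 379) (nat_lit 5) (nat_lit 395) (nat_lit 5) (nat_lit 396) (nat_lit 5) (nat_lit 387) (nat_lit 377) (nat_lit 256)) (XT.nd (nat_lit 78) (nat_lit 0) (nat_lit 76) (XT.lf (nat_lit 76) (nat_lit 1136634742) (nat_lit 0) (nat_lit 4791262007) (nat_lit 1292) (nat_lit 8610237285) (nat_lit 380) (nat_lit 5) (nat_lit 379) (nat_lit 5) (nat_lit 396) (nat_lit 5) (nat_lit 388) (nat_lit 377) (nat_lit 255)) (XT.lf (nat_lit 0) (nat_lit 7160634107) (nat_lit 1216) (nat_lit 5706988385) (nat_lit 1292) (nat_lit 1889842516) (nat_lit 380) (nat_lit 5) (nat_lit 396) (nat_lit 5) (nat_lit 397) (nat_lit 5) (nat_lit 389)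 (nat_lit 377) (nat_lit 254))))))) (XT.nd (nat_lit 936) (nat_lit 3724) (nat_lit 0) (XT.nd (nat_lit 468) (nat_lit 2584) (nat_lit 0) (XT.nd (nat_lit 234) (nat_lit 1140) (nat_lit 0) (XT.nd (nat_lit 78) (nat_lit 0) (nat_lit 76) (XT.lf (nat_lit 76) (nat_lit 2203985175) (nat_lit 0) (nat_lit 6282261198) (nat_lit 1292) (nat_lit 6495452755) (nat_lit 381) (nat_lit 5) (nat_lit 380) (nat_lit 5) (nat_lit 397) (nat_lit 5) (nat_lit 390) (nat_lit 377) (nat_lit 253)) (XT.nd (nat_lit 78) (nat_lit 0) (nat_lit 0) (XT.lf (nat_lit 0) (nat_lit 9902209428) (nat_lit 1216) (nat_lit 4757282435) (nat_lit 1292) (nat_lit 551650936) (nat_lit 381) (nat_lit 5) (nat_lit 397) (nat_lit 5) (nat_lit 398) (nat_lit 5) (nat_lit 391) (nat_lit 377) (nat_lit 252)) (XT.lf (nat_lit 76) (nat_lit 3499912260) (nat_lit 0) (nat_lit 7944514842) (nat_lit 1292) (nat_lit 4000529405) (nat_lit 382) (nat_lit 5) (nat_lit 381) (nat_lit 5) (nat_lit 398) (nat_lit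 5) (nat_lit 392) (nat_lit 377) (nat_lit 251)))) (XT.nd (nat_lit 78) (nat_lit 1216) (nat_lit 0) (XT.lf (nat_lit 76) (nat_lit 12092494867) (nat_lit 0) (nat_lit 976644329) (nat_lit 1292) (nat_lit 2615558595) (nat_lit 382) (nat_lit 5) (nat_lit 381) (nat_lit 5) (nat_lit 398) (nat_lit 5) (nat_lit 393) (nat_lit 377) (nat_lit 250)) (XT.nd (nat_lit 78) (nat_lit 76) (nat_lit 0) (XT.lf (nat_lit 0) (nat_lit 5040049361) (nat_lit 1216) (nat_lit 9799143056) (nat_lit 1292) (nat_lit 1089540904) (nat_lit 366) (nat_lit 5) (nat_lit 382) (nat_lit 5) (nat_lit 383) (nat_lit 5) (nat_lit 394) (nat_lit 377) (nat_lit 249)) (XT.lf (nat_lit 0) (nat_lit 507828878) (nat_lit 1292) (nat_lit 2198811590) (nat_lit 76) (nat_lit 13472260911) (nat_lit 365) (nat_lit 5) (nat_lit 382) (nat_lit 5) (nat_lit 366) (nat_lit 5) (nat_lit 395) (nat_lit 377) (nat_lit 248))))) (XT.nd (nat_lit 234) (nat_lit 1140) (nat_lit 0) (XT.nd (nat_lit 78) (nat_lit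 608) (nat_lit 0) (XT.lf (nat_lit 0) (nat_lit 2231199059) (nat_lit 912) (nat_lit 9614402422) (nat_lit 76) (nat_lit 4587650032) (nat_lit 354) (nat_lit 5) (nat_lit 366) (nat_lit 5) (nat_lit 355) (nat_lit 5) (nat_lit 396) (nat_lit 377) (nat_lit 247)) (XT.nd (nat_lit 78) (nat_lit 608) (nat_lit 0) (XT.lf (nat_lit 0) (nat_lit 4044738899) (nat_lit 912) (nat_lit 579467413) (nat_lit 76) (nat_lit 12069871782) (nat_lit 354) (nat_lit 5) (nat_lit 366) (nat_lit 5) (nat_lit 355) (nat_lit 5) (nat_lit 397) (nat_lit 377) (nat_lit 246)) (XT.lf (nat_lit 0) (nat_lit 6015605132) (nat_lit 684) (nat_lit 8098088138) (nat_lit 76) (nat_lit 2845948597) (nat_lit 346) (nat_lit 5) (nat_lit 355) (nat_lit 5) (nat_lit 347) (nat_lit 5) (nat_lit 398) (nat_lit 377) (nat_lit 245)))) (XT.nd (nat_lit 78) (nat_lit 532) (nat_lit 0) (XT.lf (nat_lit 0) (nat_lit 1334972280) (nat_lit 608) (nat_lit 6764928749) (nat_lit 684) (nat_lit 9131642414) (nat_lit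 338) (nat_lit 5) (nat_lit 346) (nat_lit 5) (nat_lit 347) (nat_lit 5) (nat_lit 399) (nat_lit 377) (nat_lit 244)) (XT.nd (nat_lit 78) (nat_lit 532) (nat_lit 0) (XT.lf (nat_lit 0) (nat_lit 10327024305) (nat_lit 684) (nat_lit 6310790357) (nat_lit 76) (nat_lit 871378450) (nat_lit 338) (nat_lit 5) (nat_lit 347) (nat_lit 5) (nat_lit 339) (nat_lit 5) (nat_lit 400) (nat_lit 377) (nat_lit 243)) (XT.lf (nat_lit 0) (nat_lit 3555124807) (nat_lit 532) (nat_lit 9157264392) (nat_lit 608) (nat_lit 5080040234) (nat_lit 331) (nat_lit 5) (nat_lit 338) (nat_lit 5) (nat_lit 339) (nat_lit 5) (nat_lit 401) (nat_lit 377) (nat_lit 242)))))) (XT.nd (nat_lit 468) (nat_lit 1976) (nat_lit 0) (XT.nd (nat_lit 234) (nat_lit 1064) (nat_lit 0) (XT.nd (nat_lit 78) (nat_lit 684) (nat_lit 0) (XT.lf (nat_lit 0) (nat_lit 13836645977) (nat_lit 532) (nat_lit 1386859742) (nat_lit 608) (nat_lit 2859031403) (nat_lit 331) (nat_lit 5) (nat_lit 338)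 (nat_lit 5) (nat_lit 339) (nat_lit 5) (nat_lit 402) (nat_lit 377) (nat_lit 241)) (XT.nd (nat_lit 78) (nat_lit 76) (nat_lit 0) (XT.lf (nat_lit 0) (nat_lit 6090785801) (nat_lit 608) (nat_lit 11832061594) (nat_lit 684) (nat_lit 455113897) (nat_lit 323) (nat_lit 5) (nat_lit 331) (nat_lit 5) (nat_lit 332) (nat_lit 5) (nat_lit 403) (nat_lit 377) (nat_lit 240)) (XT.lf (nat_lit 0) (nat_lit 2029343772) (nat_lit 684) (nat_lit 1899760323) (nat_lit 76) (nat_lit 14751125561) (nat_lit 322) (nat_lit 5) (nat_lit 331) (nat_lit 5) (nat_lit 323) (nat_lit 5) (nat_lit 404) (nat_lit 377) (nat_lit 239)))) (XT.nd (nat_lit 78) (nat_lit 532) (nat_lit 0) (XT.lf (nat_lit 0) (nat_lit 4697781479) (nat_lit 608) (nat_lit 10070398981) (nat_lit 76) (nat_lit 4219692618) (nat_lit 315) (nat_lit 5) (nat_lit 323) (nat_lit 5) (nat_lit 316) (nat_lit 5) (nat_lit 405) (nat_lit 377) (nat_lit 238)) (XT.nd (nat_lit 78) (nat_lit 0) (nat_lit 0) (XT.lf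 (nat_lit 0) (nat_lit 760045774) (nat_lit 532) (nat_lit 6743064631) (nat_lit 608) (nat_lit 11799930255) (nat_lit 308) (nat_lit 5) (nat_lit 315) (nat_lit 5) (nat_lit 316) (nat_lit 5) (nat_lit 406) (nat_lit 377) (nat_lit 237)) (XT.lf (nat_lit 0) (nat_lit 10501344366) (nat_lit 608) (nat_lit 7528264969) (nat_lit 76) (nat_lit 1594791581) (nat_lit 308) (nat_lit 5) (nat_lit 316) (nat_lit 5) (nat_lit 309) (nat_lit 5) (nat_lit 407) (nat_lit 377) (nat_lit 236))))) (XT.nd (nat_lit 234) (nat_lit 988) (nat_lit 0) (XT.nd (nat_lit 78) (nat_lit 532) (nat_lit 0) (XT.lf (nat_lit 0) (nat_lit 3815030920) (nat_lit 456) (nat_lit 9869588983) (nat_lit 532) (nat_lit 6267929238) (nat_lit 302) (nat_lit 5) (nat_lit 308) (nat_lit 5) (nat_lit 309) (nat_lit 5) (nat_lit 408) (nat_lit 377) (nat_lit 235)) (XT.nd (nat_lit 78) (nat_lit 532) (nat_lit 0) (XT.lf (nat_lit 0) (nat_lit 15643483539) (nat_lit 456) (nat_lit 1387741978) (nat_lit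 532) (nat_lit 3257281343) (nat_lit 302) (nat_lit 5) (nat_lit 308) (nat_lit 5) (nat_lit 309) (nat_lit 5) (nat_lit 409) (nat_lit 377) (nat_lit 234)) (XT.lf (nat_lit 0) (nat_lit 7253738989) (nat_lit 532) (nat_lit 13356894251) (nat_lit 608) (nat_lit 19937952) (nat_lit 295) (nat_lit 5) (nat_lit 302) (nat_lit 5) (nat_lit 303) (nat_lit 5) (nat_lit 410) (nat_lit 377) (nat_lit 233)))) (XT.nd (nat_lit 78) (nat_lit 912) (nat_lit 0) (XT.lf (nat_lit 0) (nat_lit 3303060037) (nat_lit 608) (nat_lit 1432353394) (nat_lit 76) (nat_lit 16244931806) (nat_lit 294) (nat_lit 5) (nat_lit 302) (nat_lit 5) (nat_lit 295) (nat_lit 5) (nat_lit 411) (nat_lit 377) (nat_lit 232)) (XT.nd (nat_lit 78) (nat_lit 456) (nat_lit 0) (XT.lf (nat_lit 0) (nat_lit 6865043752) (nat_lit 532) (nat_lit 10301310303) (nat_lit 76) (nat_lit 4170061630) (nat_lit 288) (nat_lit 5) (nat_lit 295) (nat_lit 5) (nat_lit 289) (nat_lit 5) (nat_lit 412) (nat_lit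 377) (nat_lit 231)) (XT.lf (nat_lit 0) (nat_lit 2189589305) (nat_lit 456) (nat_lit 8419290900) (nat_lit 532) (nat_lit 11092038246) (nat_lit 282) (nat_lit 5) (nat_lit 288) (nat_lit 5) (nat_lit 289) (nat_lit 5) (nat_lit 413) (nat_lit 377) (nat_lit 230))))))))
noncomputable def xc109 : XT := (XT.nd (nat_lit 51012) (nat_lit 0) (nat_lit 4788) (XT.nd (nat_lit 858) (nat_lit 760) (nat_lit 0) (XT.nd (nat_lit 390) (nat_lit 1216) (nat_lit 0) (XT.nd (nat_lit 156) (nat_lit 912) (nat_lit 0) (XT.nd (nat_lit 78) (nat_lit 380) (nat_lit 0) (XT.lf (nat_lit 0) (nat_lit 14568324627) (nat_lit 532) (nat_lit 6822994092) (nat_lit 76) (nat_lit 681938795) (nat_lit 282) (nat_lit 5) (nat_lit 289) (nat_lit 5) (nat_lit 283) (nat_lit 5) (nat_lit 414) (nat_lit 377) (nat_lit 229)) (XT.lf (nat_lit 0) (nat_lit 6275934676) (nat_lit 380) (nat_lit 12507088344) (nat_lit 456) (nat_lit 3669649609) (nat_lit 277) (nat_lit 5) (nat_lit 282) (nat_lit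 5) (nat_lit 283) (nat_lit 5) (nat_lit 415) (nat_lit 377) (nat_lit 228))) (XT.nd (nat_lit 78) (nat_lit 836) (nat_lit 0) (XT.lf (nat_lit 0) (nat_lit 337631826) (nat_lit 456) (nat_lit 2946303441) (nat_lit 76) (nat_lit 19557581475) (nat_lit 276) (nat_lit 5) (nat_lit 282) (nat_lit 5) (nat_lit 277) (nat_lit 5) (nat_lit 416) (nat_lit 377) (nat_lit 227)) (XT.nd (nat_lit 78) (nat_lit 380) (nat_lit 0) (XT.lf (nat_lit 0) (nat_lit 4549816315) (nat_lit 532) (nat_lit 12451704761) (nat_lit 76) (nat_lit 6234661880) (nat_lit 270) (nat_lit 5) (nat_lit 277) (nat_lit 5) (nat_lit 271) (nat_lit 5) (nat_lit 417) (nat_lit 377) (nat_lit 226)) (XT.lf (nat_lit 0) (nat_lit 1329879550) (nat_lit 380) (nat_lit 7626973667) (nat_lit 456) (nat_lit 14683781333) (nat_lit 265) (nat_lit 5) (nat_lit 270) (nat_lit 5) (nat_lit 271) (nat_lit 5) (nat_lit 418) (nat_lit 377) (nat_lit 225))))) (XT.nd (nat_lit 234) (nat_lit 836) (nat_lit 0) (XT.nd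 (nat_lit 78) (nat_lit 380) (nat_lit 0) (XT.lf (nat_lit 0) (nat_lit 13635821077) (nat_lit 456) (nat_lit 8303173298) (nat_lit 76) (nat_lit 2114033723) (nat_lit 265) (nat_lit 5) (nat_lit 271) (nat_lit 5) (nat_lit 266) (nat_lit 5) (nat_lit 419) (nat_lit 377) (nat_lit 224)) (XT.nd (nat_lit 78) (nat_lit 0) (nat_lit 0) (XT.lf (nat_lit 0) (nat_lit 6160462446) (nat_lit 380) (nat_lit 12422860241) (nat_lit 456) (nat_lit 5890625821) (nat_lit 260) (nat_lit 5) (nat_lit 265) (nat_lit 5) (nat_lit 266) (nat_lit 5) (nat_lit 420) (nat_lit 377) (nat_lit 223)) (XT.lf (nat_lit 0) (nat_lit 21219429522) (nat_lit 380) (nat_lit 2537204444) (nat_lit 456) (nat_lit 1148541027) (nat_lit 260) (nat_lit 5) (nat_lit 265) (nat_lit 5) (nat_lit 266) (nat_lit 5) (nat_lit 421) (nat_lit 377) (nat_lit 222)))) (XT.nd (nat_lit 78) (nat_lit 380) (nat_lit 0) (XT.lf (nat_lit 0) (nat_lit 3842634290) (nat_lit 456) (nat_lit 13858163627) (nat_lit 76)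 (nat_lit 7642071220) (nat_lit 254) (nat_lit 5) (nat_lit 260) (nat_lit 5) (nat_lit 255) (nat_lit 5) (nat_lit 422) (nat_lit 377) (nat_lit 221)) (XT.nd (nat_lit 78) (nat_lit 0) (nat_lit 0) (XT.lf (nat_lit 0) (nat_lit 1374471976) (nat_lit 380) (nat_lit 7655653362) (nat_lit 456) (nat_lit 16761137665) (nat_lit 249) (nat_lit 5) (nat_lit 254) (nat_lit 5) (nat_lit 255) (nat_lit 5) (nat_lit 423) (nat_lit 377) (nat_lit 220)) (XT.lf (nat_lit 0) (nat_lit 14534252697) (nat_lit 456) (nat_lit 8936806302) (nat_lit 76) (nat_lit 2777219340) (nat_lit 249) (nat_lit 5) (nat_lit 255) (nat_lit 5) (nat_lit 250) (nat_lit 5) (nat_lit 424) (nat_lit 377) (nat_lit 219)))))) (XT.nd (nat_lit 49686) (nat_lit 0) (nat_lit 10412) (XT.nd (nat_lit 49452) (nat_lit 0) (nat_lit 11552) (XT.nd (nat_lit 78) (nat_lit 456) (nat_lit 0) (XT.lf (nat_lit 0) (nat_lit 7061012151) (nat_lit 304) (nat_lit 13280164750) (nat_lit 380) (nat_lit 6373697043) (nat_lit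 245) (nat_lit 5) (nat_lit 249) (nat_lit 5) (nat_lit 250) (nat_lit 5) (nat_lit 425) (nat_lit 377) (nat_lit 218)) (XT.nd (nat_lit 78) (nat_lit 456) (nat_lit 0) (XT.lf (nat_lit 0) (nat_lit 23713491733) (nat_lit 304) (nat_lit 2693154381) (nat_lit 380) (nat_lit 786291185) (nat_lit 245) (nat_lit 5) (nat_lit 249) (nat_lit 5) (nat_lit 250) (nat_lit 5) (nat_lit 426) (nat_lit 377) (nat_lit 217)) (XT.lf (nat_lit 0) (nat_lit 5075310895) (nat_lit 456) (nat_lit 14375581187) (nat_lit 76) (nat_lit 8226911634) (nat_lit 239) (nat_lit 5) (nat_lit 245) (nat_lit 5) (nat_lit 240) (nat_lit 5) (nat_lit 427) (nat_lit 377) (nat_lit 216)))) (XT.nd (nat_lit 78) (nat_lit 0) (nat_lit 0) (XT.lf (nat_lit 0) (nat_lit 2781259299) (nat_lit 0) (nat_lit 2781259299) (nat_lit 1140) (nat_lit 818693997) (nat_lit 391) (nat_lit 5) (nat_lit 391) (nat_lit 3) (nat_lit 406) (nat_lit 3) (nat_lit 378) (nat_lit 378) (nat_lit 264)) (XT.nd (nat_lit 78)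 (nat_lit 0) (nat_lit 0) (XT.lf (nat_lit 0) (nat_lit 11710878950) (nat_lit 1140) (nat_lit 818622953) (nat_lit 1216) (nat_lit 411790681) (nat_lit 391) (nat_lit 5) (nat_lit 406) (nat_lit 3) (nat_lit 407) (nat_lit 5) (nat_lit 379) (nat_lit 378) (nat_lit 263)) (XT.lf (nat_lit 76) (nat_lit 5803613767) (nat_lit 0) (nat_lit 6605428826) (nat_lit 1216) (nat_lit 713641005) (nat_lit 392) (nat_lit 5) (nat_lit 391) (nat_lit 5) (nat_lit 407) (nat_lit 5) (nat_lit 380) (nat_lit 378) (nat_lit 262))))) (XT.nd (nat_lit 234) (nat_lit 0) (nat_lit 76) (XT.nd (nat_lit 78) (nat_lit 1140) (nat_lit 0) (XT.lf (nat_lit 76) (nat_lit 12632723068) (nat_lit 0) (nat_lit 487965833) (nat_lit 1216) (nat_lit 189051311) (nat_lit 392) (nat_lit 5) (nat_lit 391) (nat_lit 5) (nat_lit 407) (nat_lit 5) (nat_lit 381) (nat_lit 378) (nat_lit 261)) (XT.nd (nat_lit 78) (nat_lit 0) (nat_lit 0) (XT.lf (nat_lit 0) (nat_lit 445890353) (nat_lit 1216) (nat_lit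 7282804193) (nat_lit 1292) (nat_lit 5770568608) (nat_lit 376) (nat_lit 5) (nat_lit 392) (nat_lit 5) (nat_lit 393) (nat_lit 5) (nat_lit 382) (nat_lit 378) (nat_lit 260)) (XT.lf (nat_lit 0) (nat_lit 1092823852) (nat_lit 1216) (nat_lit 379482179) (nat_lit 1292) (nat_lit 12222207300) (nat_lit 376) (nat_lit 5) (nat_lit 392) (nat_lit 5) (nat_lit 393) (nat_lit 5) (nat_lit 383) (nat_lit 378) (nat_lit 259)))) (XT.nd (nat_lit 78) (nat_lit 0) (nat_lit 0) (XT.lf (nat_lit 0) (nat_lit 1859012703) (nat_lit 1216) (nat_lit 7086655133) (nat_lit 1292) (nat_lit 4946957756) (nat_lit 377) (nat_lit 5) (nat_lit 393) (nat_lit 5) (nat_lit 394) (nat_lit 5) (nat_lit 384) (nat_lit 378) (nat_lit 258)) (XT.nd (nat_lit 78) (nat_lit 0) (nat_lit 76) (XT.lf (nat_lit 76) (nat_lit 96271443) (nat_lit 0) (nat_lit 2557125973) (nat_lit 1292) (nat_lit 11443127500) (nat_lit 378) (nat_lit 5) (nat_lit 377) (nat_lit 5) (nat_lit 394) (nat_lit 5)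 (nat_lit 385) (nat_lit 378) (nat_lit 257)) (XT.lf (nat_lit 0) (nat_lit 3568763814) (nat_lit 1216) (nat_lit 6713381737) (nat_lit 1292) (nat_lit 4021481164) (nat_lit 378) (nat_lit 5) (nat_lit 394) (nat_lit 5) (nat_lit 395) (nat_lit 5) (nat_lit 386) (nat_lit 378) (nat_lit 256))))))) (XT.nd (nat_lit 936) (nat_lit 3952) (nat_lit 0) (XT.nd (nat_lit 468) (nat_lit 1824) (nat_lit 0) (XT.nd (nat_lit 234) (nat_lit 0) (nat_lit 152) (XT.nd (nat_lit 78) (nat_lit 0) (nat_lit 76) (XT.lf (nat_lit 76) (nat_lit 772570304) (nat_lit 0) (nat_lit 3758375165) (nat_lit 1292) (nat_lit 9985415470) (nat_lit 379) (nat_lit 5) (nat_lit 378) (nat_lit 5) (nat_lit 395) (nat_lit 5) (nat_lit 387) (nat_lit 378) (nat_lit 255)) (XT.nd (nat_lit 78) (nat_lit 0) (nat_lit 0) (XT.lf (nat_lit 0) (nat_lit 5605868626) (nat_lit 1216) (nat_lit 6151482468) (nat_lit 1292) (nat_lit 2975609817) (nat_lit 379) (nat_lit 5) (nat_lit 395) (nat_lit 5) (nat_lit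 396) (nat_lit 5) (nat_lit 388) (nat_lit 378) (nat_lit 254)) (XT.lf (nat_lit 76) (nat_lit 1654322881) (nat_lit 0) (nat_lit 5099159591) (nat_lit 1292) (nat_lit 8201363118) (nat_lit 380) (nat_lit 5) (nat_lit 379) (nat_lit 5) (nat_lit 396) (nat_lit 5) (nat_lit 389) (nat_lit 378) (nat_lit 253)))) (XT.nd (nat_lit 78) (nat_lit 0) (nat_lit 0) (XT.lf (nat_lit 0) (nat_lit 8002803437) (nat_lit 1216) (nat_lit 5388295546) (nat_lit 1292) (nat_lit 1790269465) (nat_lit 380) (nat_lit 5) (nat_lit 396) (nat_lit 5) (nat_lit 397) (nat_lit 5) (nat_lit 390) (nat_lit 378) (nat_lit 252)) (XT.nd (nat_lit 78) (nat_lit 0) (nat_lit 76) (XT.lf (nat_lit 76) (nat_lit 2755204255) (nat_lit 0) (nat_lit 6599370551) (nat_lit 1292) (nat_lit 6058163064) (nat_lit 381) (nat_lit 5) (nat_lit 380) (nat_lit 5) (nat_lit 397) (nat_lit 5) (nat_lit 391) (nat_lit 378) (nat_lit 251)) (XT.lf (nat_lit 0) (nat_lit 10793940236) (nat_lit 1216) (nat_lit 4409953979)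 (nat_lit 1292) (nat_lit 445742932) (nat_lit 381) (nat_lit 5) (nat_lit 397) (nat_lit 5) (nat_lit 398) (nat_lit 5) (nat_lit 392) (nat_lit 378) (nat_lit 250))))) (XT.nd (nat_lit 234) (nat_lit 912) (nat_lit 0) (XT.nd (nat_lit 78) (nat_lit 1140) (nat_lit 0) (XT.lf (nat_lit 76) (nat_lit 4090152175) (nat_lit 0) (nat_lit 8279616387) (nat_lit 1292) (nat_lit 3521076381) (nat_lit 382) (nat_lit 5) (nat_lit 381) (nat_lit 5) (nat_lit 398) (nat_lit 5) (nat_lit 393) (nat_lit 378) (nat_lit 249)) (XT.nd (nat_lit 78) (nat_lit 1140) (nat_lit 0) (XT.lf (nat_lit 76) (nat_lit 12926378983) (nat_lit 0) (nat_lit 1099891328) (nat_lit 1292) (nat_lit 2112016705) (nat_lit 382) (nat_lit 5) (nat_lit 381) (nat_lit 5) (nat_lit 398) (nat_lit 5) (nat_lit 394) (nat_lit 378) (nat_lit 248)) (XT.lf (nat_lit 0) (nat_lit 5675421136) (nat_lit 1216) (nat_lit 10161323385) (nat_lit 1292) (nat_lit 553279509) (nat_lit 366) (nat_lit 5) (nat_lit 382)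 (nat_lit 5) (nat_lit 383) (nat_lit 5) (nat_lit 395) (nat_lit 378) (nat_lit 247)))) (XT.nd (nat_lit 78) (nat_lit 836) (nat_lit 0) (XT.lf (nat_lit 0) (nat_lit 1064661224) (nat_lit 1292) (nat_lit 1783928838) (nat_lit 76) (nat_lit 13799430433) (nat_lit 365) (nat_lit 5) (nat_lit 382) (nat_lit 5) (nat_lit 366) (nat_lit 5) (nat_lit 396) (nat_lit 378) (nat_lit 246)) (XT.nd (nat_lit 78) (nat_lit 0) (nat_lit 0) (XT.lf (nat_lit 0) (nat_lit 2828013063) (nat_lit 912) (nat_lit 9410267946) (nat_lit 76) (nat_lit 4672071708) (nat_lit 354) (nat_lit 5) (nat_lit 366) (nat_lit 5) (nat_lit 355) (nat_lit 5) (nat_lit 397) (nat_lit 378) (nat_lit 245)) (XT.lf (nat_lit 0) (nat_lit 4680525757) (nat_lit 912) (nat_lit 118631486) (nat_lit 76) (nat_lit 12380309853) (nat_lit 354) (nat_lit 5) (nat_lit 366) (nat_lit 5) (nat_lit 355) (nat_lit 5) (nat_lit 398) (nat_lit 378) (nat_lit 244)))))) (XT.nd (nat_lit 468) (nat_lit 1596) (nat_lit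 0) (XT.nd (nat_lit 234) (nat_lit 1140) (nat_lit 0) (XT.nd (nat_lit 78) (nat_lit 608) (nat_lit 0) (XT.lf (nat_lit 0) (nat_lit 6699793021) (nat_lit 684) (nat_lit 7852085878) (nat_lit 76) (nat_lit 2901440632) (nat_lit 346) (nat_lit 5) (nat_lit 355) (nat_lit 5) (nat_lit 347) (nat_lit 5) (nat_lit 399) (nat_lit 378) (nat_lit 243)) (XT.nd (nat_lit 78) (nat_lit 0) (nat_lit 0) (XT.lf (nat_lit 0) (nat_lit 1859172775) (nat_lit 608) (nat_lit 6977427530) (nat_lit 684) (nat_lit 8897078373) (nat_lit 338) (nat_lit 5) (nat_lit 346) (nat_lit 5) (nat_lit 347) (nat_lit 5) (nat_lit 400) (nat_lit 378) (nat_lit 242)) (XT.lf (nat_lit 0) (nat_lit 11116068467) (nat_lit 684) (nat_lit 6015595423) (nat_lit 76) (nat_lit 888428012) (nat_lit 338) (nat_lit 5) (nat_lit 347) (nat_lit 5) (nat_lit 339) (nat_lit 5) (nat_lit 401) (nat_lit 378) (nat_lit 241)))) (XT.nd (nat_lit 78) (nat_lit 608) (nat_lit 0) (XT.lf (nat_lit 0) (nat_lit 4141547012)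 (nat_lit 532) (nat_lit 9422100868) (nat_lit 608) (nat_lit 4748457824) (nat_lit 331) (nat_lit 5) (nat_lit 338) (nat_lit 5) (nat_lit 339) (nat_lit 5) (nat_lit 402) (nat_lit 378) (nat_lit 240)) (XT.nd (nat_lit 78) (nat_lit 608) (nat_lit 0) (XT.lf (nat_lit 0) (nat_lit 14717539979) (nat_lit 532) (nat_lit 1418871888) (nat_lit 608) (nat_lit 2474915339) (nat_lit 331) (nat_lit 5) (nat_lit 338) (nat_lit 5) (nat_lit 339) (nat_lit 5) (nat_lit 403) (nat_lit 378) (nat_lit 239)) (XT.lf (nat_lit 0) (nat_lit 6748197921) (nat_lit 608) (nat_lit 12159900997) (nat_lit 684) (nat_lit 7774231) (nat_lit 323) (nat_lit 5) (nat_lit 331) (nat_lit 5) (nat_lit 332) (nat_lit 5) (nat_lit 404) (nat_lit 378) (nat_lit 238))))) (XT.nd (nat_lit 234) (nat_lit 456) (nat_lit 0) (XT.nd (nat_lit 78) (nat_lit 1064) (nat_lit 0) (XT.lf (nat_lit 0) (nat_lit 2529056559) (nat_lit 684) (nat_lit 1487156840) (nat_lit 76) (nat_lit 15211258173) (nat_lit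 322) (nat_lit 5) (nat_lit 331) (nat_lit 5) (nat_lit 323) (nat_lit 5) (nat_lit 405) (nat_lit 378) (nat_lit 237)) (XT.nd (nat_lit 78) (nat_lit 532) (nat_lit 0) (XT.lf (nat_lit 0) (nat_lit 5269567023) (nat_lit 608) (nat_lit 9894934284) (nat_lit 76) (nat_lit 4380082401) (nat_lit 315) (nat_lit 5) (nat_lit 323) (nat_lit 5) (nat_lit 316) (nat_lit 5) (nat_lit 406) (nat_lit 378) (nat_lit 236)) (XT.lf (nat_lit 0) (nat_lit 1255741690) (nat_lit 532) (nat_lit 6895310789) (nat_lit 608) (nat_lit 11718393939) (nat_lit 308) (nat_lit 5) (nat_lit 315) (nat_lit 5) (nat_lit 316) (nat_lit 5) (nat_lit 407) (nat_lit 378) (nat_lit 235)))) (XT.nd (nat_lit 78) (nat_lit 456) (nat_lit 0) (XT.lf (nat_lit 0) (nat_lit 11227384533) (nat_lit 608) (nat_lit 7283143079) (nat_lit 76) (nat_lit 1690275337) (nat_lit 308) (nat_lit 5) (nat_lit 316) (nat_lit 5) (nat_lit 309) (nat_lit 5) (nat_lit 408) (nat_lit 378) (nat_lit 234)) (XT.nd (nat_lit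 78) (nat_lit 0) (nat_lit 0) (XT.lf (nat_lit 0) (nat_lit 4395834336) (nat_lit 456) (nat_lit 10102835998) (nat_lit 532) (nat_lit 6040349928) (nat_lit 302) (nat_lit 5) (nat_lit 308) (nat_lit 5) (nat_lit 309) (nat_lit 5) (nat_lit 409) (nat_lit 378) (nat_lit 233)) (XT.lf (nat_lit 0) (nat_lit 16565557451) (nat_lit 456) (nat_lit 1368363893) (nat_lit 532) (nat_lit 2951487950) (nat_lit 302) (nat_lit 5) (nat_lit 308) (nat_lit 5) (nat_lit 309) (nat_lit 5) (nat_lit 410) (nat_lit 378) (nat_lit 232))))))))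
noncomputable def xc110 : XT := (XT.nd (nat_lit 51090) (nat_lit 0) (nat_lit 4788) (XT.nd (nat_lit 858) (nat_lit 1140) (nat_lit 0) (XT.nd (nat_lit 390) (nat_lit 1672) (nat_lit 0) (XT.nd (nat_lit 156) (nat_lit 912) (nat_lit 0) (XT.nd (nat_lit 78) (nat_lit 0) (nat_lit 0) (XT.lf (nat_lit 0) (nat_lit 369013731) (nat_lit 608) (nat_lit 13310807615) (nat_lit 76) (nat_lit 7557998432) (nat_lit 294) (nat_lit 5) (nat_lit 302) (nat_lit 5) (nat_lit 295) (nat_lit 5) (nat_lit 411) (nat_lit 378) (nat_lit 231)) (XT.lf (nat_lit 0) (nat_lit 3779966488) (nat_lit 608) (nat_lit 1021797637) (nat_lit 76) (nat_lit 16796657030) (nat_lit 294) (nat_lit 5) (nat_lit 302) (nat_lit 5) (nat_lit 295) (nat_lit 5) (nat_lit 412) (nat_lit 378) (nat_lit 230))) (XT.nd (nat_lit 78) (nat_lit 456) (nat_lit 0) (XT.lf (nat_lit 0) (nat_lit 7442871567) (nat_lit 532) (nat_lit 10150885106) (nat_lit 76) (nat_lit 4371595189) (nat_lit 288) (nat_lit 5)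 (nat_lit 295) (nat_lit 5) (nat_lit 289) (nat_lit 5) (nat_lit 413) (nat_lit 378) (nat_lit 229)) (XT.nd (nat_lit 78) (nat_lit 0) (nat_lit 0) (XT.lf (nat_lit 0) (nat_lit 2710236937) (nat_lit 456) (nat_lit 8582328175) (nat_lit 532) (nat_lit 11048418338) (nat_lit 282) (nat_lit 5) (nat_lit 288) (nat_lit 5) (nat_lit 289) (nat_lit 5) (nat_lit 414) (nat_lit 378) (nat_lit 228)) (XT.lf (nat_lit 0) (nat_lit 15360985267) (nat_lit 532) (nat_lit 6576167623) (nat_lit 76) (nat_lit 787634022) (nat_lit 282) (nat_lit 5) (nat_lit 289) (nat_lit 5) (nat_lit 283) (nat_lit 5) (nat_lit 415) (nat_lit 378) (nat_lit 227))))) (XT.nd (nat_lit 234) (nat_lit 760) (nat_lit 0) (XT.nd (nat_lit 78) (nat_lit 532) (nat_lit 0) (XT.lf (nat_lit 0) (nat_lit 6911302378) (nat_lit 380) (nat_lit 12784762334) (nat_lit 456) (nat_lit 3419701566) (nat_lit 277) (nat_lit 5) (nat_lit 282) (nat_lit 5) (nat_lit 283) (nat_lit 5) (nat_lit 416) (nat_lit 378)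 (nat_lit 226)) (XT.nd (nat_lit 78) (nat_lit 456) (nat_lit 0) (XT.lf (nat_lit 0) (nat_lit 690490783) (nat_lit 456) (nat_lit 2593803913) (nat_lit 76) (nat_lit 20232185648) (nat_lit 276) (nat_lit 5) (nat_lit 282) (nat_lit 5) (nat_lit 277) (nat_lit 5) (nat_lit 417) (nat_lit 378) (nat_lit 225)) (XT.lf (nat_lit 0) (nat_lit 5024212549) (nat_lit 532) (nat_lit 12379539015) (nat_lit 76) (nat_lit 6519379828) (nat_lit 270) (nat_lit 5) (nat_lit 277) (nat_lit 5) (nat_lit 271) (nat_lit 5) (nat_lit 418) (nat_lit 378) (nat_lit 224)))) (XT.nd (nat_lit 78) (nat_lit 380) (nat_lit 0) (XT.lf (nat_lit 0) (nat_lit 1811123053) (nat_lit 380) (nat_lit 7746738206) (nat_lit 456) (nat_lit 14782023255) (nat_lit 265) (nat_lit 5) (nat_lit 270) (nat_lit 5) (nat_lit 271) (nat_lit 5) (nat_lit 419) (nat_lit 378) (nat_lit 223)) (XT.nd (nat_lit 78) (nat_lit 380) (nat_lit 0) (XT.lf (nat_lit 0) (nat_lit 14368537116) (nat_lit 456) (nat_lit 8115115113)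 (nat_lit 76) (nat_lit 2281257469) (nat_lit 265) (nat_lit 5) (nat_lit 271) (nat_lit 5) (nat_lit 266) (nat_lit 5) (nat_lit 420) (nat_lit 378) (nat_lit 222)) (XT.lf (nat_lit 0) (nat_lit 6778143885) (nat_lit 380) (nat_lit 12681054428) (nat_lit 456) (nat_lit 5739417372) (nat_lit 260) (nat_lit 5) (nat_lit 265) (nat_lit 5) (nat_lit 266) (nat_lit 5) (nat_lit 421) (nat_lit 378) (nat_lit 221)))))) (XT.nd (nat_lit 49764) (nat_lit 0) (nat_lit 9880) (XT.nd (nat_lit 234) (nat_lit 304) (nat_lit 0) (XT.nd (nat_lit 78) (nat_lit 836) (nat_lit 0) (XT.lf (nat_lit 0) (nat_lit 22276272181) (nat_lit 380) (nat_lit 2502163665) (nat_lit 456) (nat_lit 864621312) (nat_lit 260) (nat_lit 5) (nat_lit 265) (nat_lit 5) (nat_lit 266) (nat_lit 5) (nat_lit 422) (nat_lit 378) (nat_lit 220)) (XT.nd (nat_lit 78) (nat_lit 380) (nat_lit 0) (XT.lf (nat_lit 0) (nat_lit 4266150788) (nat_lit 456) (nat_lit 13843510286) (nat_lit 76) (nat_lit 7984247013)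 (nat_lit 254) (nat_lit 5) (nat_lit 260) (nat_lit 5) (nat_lit 255) (nat_lit 5) (nat_lit 423) (nat_lit 378) (nat_lit 219)) (XT.lf (nat_lit 0) (nat_lit 1841884794) (nat_lit 380) (nat_lit 7762500673) (nat_lit 456) (nat_lit 16951514736) (nat_lit 249) (nat_lit 5) (nat_lit 254) (nat_lit 5) (nat_lit 255) (nat_lit 5) (nat_lit 424) (nat_lit 378) (nat_lit 218)))) (XT.nd (nat_lit 78) (nat_lit 304) (nat_lit 0) (XT.lf (nat_lit 0) (nat_lit 15265947280) (nat_lit 456) (nat_lit 8783455436) (nat_lit 76) (nat_lit 2977453963) (nat_lit 249) (nat_lit 5) (nat_lit 255) (nat_lit 5) (nat_lit 250) (nat_lit 5) (nat_lit 425) (nat_lit 378) (nat_lit 217)) (XT.nd (nat_lit 78) (nat_lit 0) (nat_lit 0) (XT.lf (nat_lit 0) (nat_lit 7690165658) (nat_lit 304) (nat_lit 13552313456) (nat_lit 380) (nat_lit 6265109040) (nat_lit 245) (nat_lit 5) (nat_lit 249) (nat_lit 5) (nat_lit 250) (nat_lit 5) (nat_lit 426) (nat_lit 378) (nat_lit 216)) (XT.lf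 (nat_lit 0) (nat_lit 24830064585) (nat_lit 304) (nat_lit 2651370142) (nat_lit 380) (nat_lit 518813013) (nat_lit 245) (nat_lit 5) (nat_lit 249) (nat_lit 5) (nat_lit 250) (nat_lit 5) (nat_lit 427) (nat_lit 378) (nat_lit 215))))) (XT.nd (nat_lit 234) (nat_lit 0) (nat_lit 0) (XT.nd (nat_lit 78) (nat_lit 1216) (nat_lit 0) (XT.lf (nat_lit 0) (nat_lit 3070167318) (nat_lit 0) (nat_lit 3070167318) (nat_lit 1140) (nat_lit 419986123) (nat_lit 391) (nat_lit 5) (nat_lit 391) (nat_lit 3) (nat_lit 406) (nat_lit 3) (nat_lit 379) (nat_lit 379) (nat_lit 262)) (XT.nd (nat_lit 78) (nat_lit 1216) (nat_lit 0) (XT.lf (nat_lit 0) (nat_lit 12856312841) (nat_lit 1140) (nat_lit 416436865) (nat_lit 1216) (nat_lit 32958430) (nat_lit 391) (nat_lit 5) (nat_lit 406) (nat_lit 3) (nat_lit 407) (nat_lit 5) (nat_lit 380) (nat_lit 379) (nat_lit 261)) (XT.lf (nat_lit 0) (nat_lit 62006997) (nat_lit 1216) (nat_lit 7093437632) (nat_lit 1292)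 (nat_lit 6337650038) (nat_lit 375) (nat_lit 5) (nat_lit 391) (nat_lit 5) (nat_lit 392) (nat_lit 5) (nat_lit 381) (nat_lit 379) (nat_lit 260)))) (XT.nd (nat_lit 78) (nat_lit 0) (nat_lit 76) (XT.lf (nat_lit 0) (nat_lit 568993161) (nat_lit 1216) (nat_lit 270078638) (nat_lit 1292) (nat_lit 12847219285) (nat_lit 375) (nat_lit 5) (nat_lit 391) (nat_lit 5) (nat_lit 392) (nat_lit 5) (nat_lit 382) (nat_lit 379) (nat_lit 259)) (XT.nd (nat_lit 78) (nat_lit 0) (nat_lit 0) (XT.lf (nat_lit 0) (nat_lit 1198016704) (nat_lit 1216) (nat_lit 7054744466) (nat_lit 1292) (nat_lit 5629317389) (nat_lit 376) (nat_lit 5) (nat_lit 392) (nat_lit 5) (nat_lit 393) (nat_lit 5) (nat_lit 383) (nat_lit 379) (nat_lit 258)) (XT.lf (nat_lit 76) (nat_lit 43520314) (nat_lit 0) (nat_lit 1799739257) (nat_lit 1292) (nat_lit 12240559629) (nat_lit 377) (nat_lit 5) (nat_lit 376) (nat_lit 5) (nat_lit 393) (nat_lit 5) (nat_lit 384) (nat_lit 379)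 (nat_lit 257))))))) (XT.nd (nat_lit 936) (nat_lit 4408) (nat_lit 0) (XT.nd (nat_lit 468) (nat_lit 836) (nat_lit 0) (XT.nd (nat_lit 234) (nat_lit 0) (nat_lit 76) (XT.nd (nat_lit 78) (nat_lit 0) (nat_lit 0) (XT.lf (nat_lit 0) (nat_lit 2612645282) (nat_lit 1216) (nat_lit 6846346603) (nat_lit 1292) (nat_lit 4829476608) (nat_lit 377) (nat_lit 5) (nat_lit 393) (nat_lit 5) (nat_lit 394) (nat_lit 5) (nat_lit 385) (nat_lit 379) (nat_lit 256)) (XT.nd (nat_lit 78) (nat_lit 0) (nat_lit 76) (XT.lf (nat_lit 76) (nat_lit 547627495) (nat_lit 0) (nat_lit 2867218907) (nat_lit 1292) (nat_lit 11084118850) (nat_lit 378) (nat_lit 5) (nat_lit 377) (nat_lit 5) (nat_lit 394) (nat_lit 5) (nat_lit 386) (nat_lit 379) (nat_lit 255)) (XT.lf (nat_lit 0) (nat_lit 4335636126) (nat_lit 1216) (nat_lit 6457339788) (nat_lit 1292) (nat_lit 3919965321) (nat_lit 378) (nat_lit 5) (nat_lit 394) (nat_lit 5) (nat_lit 395) (nat_lit 5) (nat_lit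 387) (nat_lit 379) (nat_lit 254)))) (XT.nd (nat_lit 78) (nat_lit 0) (nat_lit 76) (XT.lf (nat_lit 76) (nat_lit 1248706075) (nat_lit 0) (nat_lit 4063113522) (nat_lit 1292) (nat_lit 9620683798) (nat_lit 379) (nat_lit 5) (nat_lit 378) (nat_lit 5) (nat_lit 395) (nat_lit 5) (nat_lit 388) (nat_lit 379) (nat_lit 253)) (XT.nd (nat_lit 78) (nat_lit 0) (nat_lit 0) (XT.lf (nat_lit 0) (nat_lit 6398413876) (nat_lit 1216) (nat_lit 5875684678) (nat_lit 1292) (nat_lit 2882120109) (nat_lit 379) (nat_lit 5) (nat_lit 395) (nat_lit 5) (nat_lit 396) (nat_lit 5) (nat_lit 389) (nat_lit 379) (nat_lit 252)) (XT.lf (nat_lit 76) (nat_lit 2159781672) (nat_lit 0) (nat_lit 5406870662) (nat_lit 1292) (nat_lit 7818521662) (nat_lit 380) (nat_lit 5) (nat_lit 379) (nat_lit 5) (nat_lit 396) (nat_lit 5) (nat_lit 390) (nat_lit 379) (nat_lit 251))))) (XT.nd (nat_lit 234) (nat_lit 1064) (nat_lit 0) (XT.nd (nat_lit 78) (nat_lit 0) (nat_lit 0)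 (XT.lf (nat_lit 0) (nat_lit 8834225374) (nat_lit 1216) (nat_lit 5088164329) (nat_lit 1292) (nat_lit 1696679664) (nat_lit 380) (nat_lit 5) (nat_lit 396) (nat_lit 5) (nat_lit 397) (nat_lit 5) (nat_lit 391) (nat_lit 379) (nat_lit 250)) (XT.nd (nat_lit 78) (nat_lit 0) (nat_lit 76) (XT.lf (nat_lit 76) (nat_lit 3295113210) (nat_lit 0) (nat_lit 6918608635) (nat_lit 1292) (nat_lit 5644042867) (nat_lit 381) (nat_lit 5) (nat_lit 380) (nat_lit 5) (nat_lit 397) (nat_lit 5) (nat_lit 392) (nat_lit 379) (nat_lit 249)) (XT.lf (nat_lit 0) (nat_lit 11678286791) (nat_lit 1216) (nat_lit 4080336367) (nat_lit 1292) (nat_lit 343687252) (nat_lit 381) (nat_lit 5) (nat_lit 397) (nat_lit 5) (nat_lit 398) (nat_lit 5) (nat_lit 393) (nat_lit 379) (nat_lit 248)))) (XT.nd (nat_lit 78) (nat_lit 1140) (nat_lit 0) (XT.lf (nat_lit 76) (nat_lit 4670244381) (nat_lit 0) (nat_lit 8619216208) (nat_lit 1292) (nat_lit 3061651733) (nat_lit 382)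 (nat_lit 5) (nat_lit 381) (nat_lit 5) (nat_lit 398) (nat_lit 5) (nat_lit 394) (nat_lit 379) (nat_lit 247)) (XT.nd (nat_lit 78) (nat_lit 1140) (nat_lit 0) (XT.lf (nat_lit 76) (nat_lit 13758236023) (nat_lit 0) (nat_lit 1221442757) (nat_lit 1292) (nat_lit 1626778236) (nat_lit 382) (nat_lit 5) (nat_lit 381) (nat_lit 5) (nat_lit 398) (nat_lit 5) (nat_lit 395) (nat_lit 379) (nat_lit 246)) (XT.lf (nat_lit 0) (nat_lit 6302060710) (nat_lit 1216) (nat_lit 10530453818) (nat_lit 1292) (nat_lit 33590193) (nat_lit 366) (nat_lit 5) (nat_lit 382) (nat_lit 5) (nat_lit 383) (nat_lit 5) (nat_lit 396) (nat_lit 379) (nat_lit 245)))))) (XT.nd (nat_lit 468) (nat_lit 2280) (nat_lit 0) (XT.nd (nat_lit 234) (nat_lit 608) (nat_lit 0) (XT.nd (nat_lit 78) (nat_lit 1444) (nat_lit 0) (XT.lf (nat_lit 0) (nat_lit 1607108630) (nat_lit 1292) (nat_lit 1384202195) (nat_lit 76) (nat_lit 14140835058) (nat_lit 365) (nat_lit 5) (nat_lit 382)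 (nat_lit 5) (nat_lit 366) (nat_lit 5) (nat_lit 397) (nat_lit 379) (nat_lit 244)) (XT.nd (nat_lit 78) (nat_lit 608) (nat_lit 0) (XT.lf (nat_lit 0) (nat_lit 3412314320) (nat_lit 912) (nat_lit 9228284772) (nat_lit 76) (nat_lit 4762080381) (nat_lit 354) (nat_lit 5) (nat_lit 366) (nat_lit 5) (nat_lit 355) (nat_lit 5) (nat_lit 398) (nat_lit 379) (nat_lit 243)) (XT.lf (nat_lit 0) (nat_lit 335117078) (nat_lit 608) (nat_lit 4973959263) (nat_lit 684) (nat_lit 12371130724) (nat_lit 346) (nat_lit 5) (nat_lit 354) (nat_lit 5) (nat_lit 355) (nat_lit 5) (nat_lit 399) (nat_lit 379) (nat_lit 242)))) (XT.nd (nat_lit 78) (nat_lit 608) (nat_lit 0) (XT.lf (nat_lit 0) (nat_lit 7375590974) (nat_lit 684) (nat_lit 7626770987) (nat_lit 76) (nat_lit 2960313031) (nat_lit 346) (nat_lit 5) (nat_lit 355) (nat_lit 5) (nat_lit 347) (nat_lit 5) (nat_lit 400) (nat_lit 379) (nat_lit 241)) (XT.nd (nat_lit 78) (nat_lit 0) (nat_lit 0) (XT.lf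 (nat_lit 0) (nat_lit 2371307019) (nat_lit 608) (nat_lit 7195753013) (nat_lit 684) (nat_lit 8684668156) (nat_lit 338) (nat_lit 5) (nat_lit 346) (nat_lit 5) (nat_lit 347) (nat_lit 5) (nat_lit 401) (nat_lit 379) (nat_lit 240)) (XT.lf (nat_lit 0) (nat_lit 11901273995) (nat_lit 684) (nat_lit 5739357993) (nat_lit 76) (nat_lit 906510966) (nat_lit 338) (nat_lit 5) (nat_lit 347) (nat_lit 5) (nat_lit 339) (nat_lit 5) (nat_lit 402) (nat_lit 379) (nat_lit 239))))) (XT.nd (nat_lit 234) (nat_lit 1064) (nat_lit 0) (XT.nd (nat_lit 78) (nat_lit 684) (nat_lit 0) (XT.lf (nat_lit 0) (nat_lit 4718021212) (nat_lit 532) (nat_lit 9695449674) (nat_lit 608) (nat_lit 4434710582) (nat_lit 331) (nat_lit 5) (nat_lit 338) (nat_lit 5) (nat_lit 339) (nat_lit 5) (nat_lit 403) (nat_lit 379) (nat_lit 238)) (XT.nd (nat_lit 78) (nat_lit 684) (nat_lit 0) (XT.lf (nat_lit 0) (nat_lit 15598122285) (nat_lit 532) (nat_lit 1452395113) (nat_lit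 608) (nat_lit 2106249229) (nat_lit 331) (nat_lit 5) (nat_lit 338) (nat_lit 5) (nat_lit 339) (nat_lit 5) (nat_lit 404) (nat_lit 379) (nat_lit 237)) (XT.lf (nat_lit 0) (nat_lit 418199741) (nat_lit 684) (nat_lit 12076709782) (nat_lit 76) (nat_lit 6975660601) (nat_lit 322) (nat_lit 5) (nat_lit 331) (nat_lit 5) (nat_lit 323) (nat_lit 5) (nat_lit 405) (nat_lit 379) (nat_lit 236)))) (XT.nd (nat_lit 78) (nat_lit 1064) (nat_lit 0) (XT.lf (nat_lit 0) (nat_lit 3018569950) (nat_lit 684) (nat_lit 1089132001) (nat_lit 76) (nat_lit 15684184517) (nat_lit 322) (nat_lit 5) (nat_lit 331) (nat_lit 5) (nat_lit 323) (nat_lit 5) (nat_lit 406) (nat_lit 379) (nat_lit 235)) (XT.nd (nat_lit 78) (nat_lit 532) (nat_lit 0) (XT.lf (nat_lit 0) (nat_lit 5833773461) (nat_lit 608) (nat_lit 9741620500) (nat_lit 76) (nat_lit 4543343676) (nat_lit 315) (nat_lit 5) (nat_lit 323) (nat_lit 5) (nat_lit 316) (nat_lit 5) (nat_lit 407) (nat_lit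 379) (nat_lit 234)) (XT.lf (nat_lit 0) (nat_lit 1739162402) (nat_lit 532) (nat_lit 7054997164) (nat_lit 608) (nat_lit 11659412980) (nat_lit 308) (nat_lit 5) (nat_lit 315) (nat_lit 5) (nat_lit 316) (nat_lit 5) (nat_lit 408) (nat_lit 379) (nat_lit 233))))))))
noncomputable def xc111 : XT := (XT.nd (nat_lit 51324) (nat_lit 0) (nat_lit 4484) (XT.nd (nat_lit 936) (nat_lit 1216) (nat_lit 0) (XT.nd (nat_lit 468) (nat_lit 1748) (nat_lit 0) (XT.nd (nat_lit 234) (nat_lit 1064) (nat_lit 0) (XT.nd (nat_lit 78) (nat_lit 456) (nat_lit 0) (XT.lf (nat_lit 0) (nat_lit 11951612834) (nat_lit 608) (nat_lit 7057703127) (nat_lit 76) (nat_lit 1785888873) (nat_lit 308) (nat_lit 5) (nat_lit 316) (nat_lit 5) (nat_lit 309) (nat_lit 5) (nat_lit 409) (nat_lit 379) (nat_lit 232)) (XT.nd (nat_lit 78) (nat_lit 0) (nat_lit 0) (XT.lf (nat_lit 0) (nat_lit 4967291313) (nat_lit 456) (nat_lit 10346687733) (nat_lit 532) (nat_lit 5829801364)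 (nat_lit 302) (nat_lit 5) (nat_lit 308) (nat_lit 5) (nat_lit 309) (nat_lit 5) (nat_lit 410) (nat_lit 379) (nat_lit 231)) (XT.lf (nat_lit 0) (nat_lit 17489302765) (nat_lit 456) (nat_lit 1351906708) (nat_lit 532) (nat_lit 2659683985) (nat_lit 302) (nat_lit 5) (nat_lit 308) (nat_lit 5) (nat_lit 309) (nat_lit 5) (nat_lit 411) (nat_lit 379) (nat_lit 230)))) (XT.nd (nat_lit 78) (nat_lit 456) (nat_lit 0) (XT.lf (nat_lit 0) (nat_lit 746894482) (nat_lit 608) (nat_lit 13269814990) (nat_lit 76) (nat_lit 7847240588) (nat_lit 294) (nat_lit 5) (nat_lit 302) (nat_lit 5) (nat_lit 295) (nat_lit 5) (nat_lit 412) (nat_lit 379) (nat_lit 229)) (XT.nd (nat_lit 78) (nat_lit 456) (nat_lit 0) (XT.lf (nat_lit 0) (nat_lit 4249492026) (nat_lit 608) (nat_lit 624959476) (nat_lit 76) (nat_lit 17361238492) (nat_lit 294) (nat_lit 5) (nat_lit 302) (nat_lit 5) (nat_lit 295) (nat_lit 5) (nat_lit 413) (nat_lit 379) (nat_lit 228)) (XT.lf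 (nat_lit 0) (nat_lit 8016686983) (nat_lit 532) (nat_lit 10022322295) (nat_lit 76) (nat_lit 4574787261) (nat_lit 288) (nat_lit 5) (nat_lit 295) (nat_lit 5) (nat_lit 289) (nat_lit 5) (nat_lit 414) (nat_lit 379) (nat_lit 227))))) (XT.nd (nat_lit 234) (nat_lit 912) (nat_lit 0) (XT.nd (nat_lit 78) (nat_lit 380) (nat_lit 0) (XT.lf (nat_lit 0) (nat_lit 3220387435) (nat_lit 456) (nat_lit 8755396614) (nat_lit 532) (nat_lit 11025095645) (nat_lit 282) (nat_lit 5) (nat_lit 288) (nat_lit 5) (nat_lit 289) (nat_lit 5) (nat_lit 415) (nat_lit 379) (nat_lit 226)) (XT.nd (nat_lit 78) (nat_lit 380) (nat_lit 0) (XT.lf (nat_lit 0) (nat_lit 16157012205) (nat_lit 532) (nat_lit 6347855242) (nat_lit 76) (nat_lit 891607151) (nat_lit 282) (nat_lit 5) (nat_lit 289) (nat_lit 5) (nat_lit 283) (nat_lit 5) (nat_lit 416) (nat_lit 379) (nat_lit 225)) (XT.lf (nat_lit 0) (nat_lit 7540066335) (nat_lit 380) (nat_lit 13076365662) (nat_lit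 456) (nat_lit 3182922708) (nat_lit 277) (nat_lit 5) (nat_lit 282) (nat_lit 5) (nat_lit 283) (nat_lit 5) (nat_lit 417) (nat_lit 379) (nat_lit 224)))) (XT.nd (nat_lit 78) (nat_lit 836) (nat_lit 0) (XT.lf (nat_lit 0) (nat_lit 1034261405) (nat_lit 456) (nat_lit 2256038210) (nat_lit 76) (nat_lit 20921983463) (nat_lit 276) (nat_lit 5) (nat_lit 282) (nat_lit 5) (nat_lit 277) (nat_lit 5) (nat_lit 418) (nat_lit 379) (nat_lit 223)) (XT.nd (nat_lit 78) (nat_lit 380) (nat_lit 0) (XT.lf (nat_lit 0) (nat_lit 5493443728) (nat_lit 532) (nat_lit 12330794270) (nat_lit 76) (nat_lit 6807032193) (nat_lit 270) (nat_lit 5) (nat_lit 277) (nat_lit 5) (nat_lit 271) (nat_lit 5) (nat_lit 419) (nat_lit 379) (nat_lit 222)) (XT.lf (nat_lit 0) (nat_lit 2281468730) (nat_lit 380) (nat_lit 7876355292) (nat_lit 456) (nat_lit 14902860219) (nat_lit 265) (nat_lit 5) (nat_lit 270) (nat_lit 5) (nat_lit 271) (nat_lit 5) (nat_lit 420) (nat_lit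 379) (nat_lit 221)))))) (XT.nd (nat_lit 49920) (nat_lit 0) (nat_lit 9500) (XT.nd (nat_lit 234) (nat_lit 836) (nat_lit 0) (XT.nd (nat_lit 78) (nat_lit 380) (nat_lit 0) (XT.lf (nat_lit 0) (nat_lit 15104656295) (nat_lit 456) (nat_lit 7946509576) (nat_lit 76) (nat_lit 2447539226) (nat_lit 265) (nat_lit 5) (nat_lit 271) (nat_lit 5) (nat_lit 266) (nat_lit 5) (nat_lit 421) (nat_lit 379) (nat_lit 220)) (XT.nd (nat_lit 78) (nat_lit 0) (nat_lit 0) (XT.lf (nat_lit 0) (nat_lit 7389507399) (nat_lit 380) (nat_lit 12953566729) (nat_lit 456) (nat_lit 5602497033) (nat_lit 260) (nat_lit 5) (nat_lit 265) (nat_lit 5) (nat_lit 266) (nat_lit 5) (nat_lit 422) (nat_lit 379) (nat_lit 219)) (XT.lf (nat_lit 0) (nat_lit 23340695489) (nat_lit 380) (nat_lit 2472452523) (nat_lit 456) (nat_lit 590460087) (nat_lit 260) (nat_lit 5) (nat_lit 265) (nat_lit 5) (nat_lit 266) (nat_lit 5) (nat_lit 423) (nat_lit 379) (nat_lit 218)))) (XT.nd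 (nat_lit 78) (nat_lit 380) (nat_lit 0) (XT.lf (nat_lit 0) (nat_lit 4684678689) (nat_lit 456) (nat_lit 13853123966) (nat_lit 76) (nat_lit 8330206373) (nat_lit 254) (nat_lit 5) (nat_lit 260) (nat_lit 5) (nat_lit 255) (nat_lit 5) (nat_lit 424) (nat_lit 379) (nat_lit 217)) (XT.nd (nat_lit 78) (nat_lit 0) (nat_lit 0) (XT.lf (nat_lit 0) (nat_lit 2298855598) (nat_lit 380) (nat_lit 7879603905) (nat_lit 456) (nat_lit 17165539432) (nat_lit 249) (nat_lit 5) (nat_lit 254) (nat_lit 5) (nat_lit 255) (nat_lit 5) (nat_lit 425) (nat_lit 379) (nat_lit 216)) (XT.lf (nat_lit 0) (nat_lit 16002620205) (nat_lit 456) (nat_lit 8649697288) (nat_lit 76) (nat_lit 3176984052) (nat_lit 249) (nat_lit 5) (nat_lit 255) (nat_lit 5) (nat_lit 250) (nat_lit 5) (nat_lit 426) (nat_lit 379) (nat_lit 215))))) (XT.nd (nat_lit 234) (nat_lit 0) (nat_lit 76) (XT.nd (nat_lit 78) (nat_lit 1292) (nat_lit 0) (XT.lf (nat_lit 0) (nat_lit 3355947745)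 (nat_lit 0) (nat_lit 3355947745) (nat_lit 1140) (nat_lit 33614368) (nat_lit 391) (nat_lit 5) (nat_lit 391) (nat_lit 3) (nat_lit 406) (nat_lit 3) (nat_lit 380) (nat_lit 380) (nat_lit 260)) (XT.nd (nat_lit 78) (nat_lit 0) (nat_lit 76) (XT.lf (nat_lit 0) (nat_lit 305403544) (nat_lit 1292) (nat_lit 32958430) (nat_lit 1292) (nat_lit 13343873441) (nat_lit 374) (nat_lit 3) (nat_lit 391) (nat_lit 3) (nat_lit 391) (nat_lit 5) (nat_lit 381) (nat_lit 380) (nat_lit 259)) (XT.lf (nat_lit 0) (nat_lit 801649991) (nat_lit 1216) (nat_lit 6893253164) (nat_lit 1292) (nat_lit 6180850869) (nat_lit 375) (nat_lit 5) (nat_lit 391) (nat_lit 5) (nat_lit 392) (nat_lit 5) (nat_lit 382) (nat_lit 380) (nat_lit 258)))) (XT.nd (nat_lit 78) (nat_lit 0) (nat_lit 76) (XT.lf (nat_lit 76) (nat_lit 125221354) (nat_lit 0) (nat_lit 1178339271) (nat_lit 1292) (nat_lit 12771794261) (nat_lit 376) (nat_lit 5) (nat_lit 375) (nat_lit 5) (nat_lit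 392) (nat_lit 5) (nat_lit 383) (nat_lit 380) (nat_lit 257)) (XT.nd (nat_lit 78) (nat_lit 0) (nat_lit 0) (XT.lf (nat_lit 0) (nat_lit 1930299594) (nat_lit 1216) (nat_lit 6845476391) (nat_lit 1292) (nat_lit 5501874660) (nat_lit 376) (nat_lit 5) (nat_lit 392) (nat_lit 5) (nat_lit 393) (nat_lit 5) (nat_lit 384) (nat_lit 380) (nat_lit 256)) (XT.lf (nat_lit 76) (nat_lit 461609760) (nat_lit 0) (nat_lit 2117014551) (nat_lit 1292) (nat_lit 11907307457) (nat_lit 377) (nat_lit 5) (nat_lit 376) (nat_lit 5) (nat_lit 393) (nat_lit 5) (nat_lit 385) (nat_lit 380) (nat_lit 255))))))) (XT.nd (nat_lit 936) (nat_lit 4332) (nat_lit 0) (XT.nd (nat_lit 468) (nat_lit 912) (nat_lit 0) (XT.nd (nat_lit 234) (nat_lit 0) (nat_lit 76) (XT.nd (nat_lit 78) (nat_lit 0) (nat_lit 0) (XT.lf (nat_lit 0) (nat_lit 3348826694) (nat_lit 1216) (nat_lit 6624827600) (nat_lit 1292) (nat_lit 4723734194) (nat_lit 377) (nat_lit 5) (nat_lit 393) (nat_lit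 5) (nat_lit 394) (nat_lit 5) (nat_lit 386) (nat_lit 380) (nat_lit 254)) (XT.nd (nat_lit 78) (nat_lit 0) (nat_lit 76) (XT.lf (nat_lit 76) (nat_lit 986780335) (nat_lit 0) (nat_lit 3173217711) (nat_lit 1292) (nat_lit 10754654977) (nat_lit 378) (nat_lit 5) (nat_lit 377) (nat_lit 5) (nat_lit 394) (nat_lit 5) (nat_lit 387) (nat_lit 380) (nat_lit 253)) (XT.lf (nat_lit 0) (nat_lit 5087638849) (nat_lit 1216) (nat_lit 6219875703) (nat_lit 1292) (nat_lit 3828156911) (nat_lit 378) (nat_lit 5) (nat_lit 394) (nat_lit 5) (nat_lit 395) (nat_lit 5) (nat_lit 388) (nat_lit 380) (nat_lit 252)))) (XT.nd (nat_lit 78) (nat_lit 0) (nat_lit 76) (XT.lf (nat_lit 76) (nat_lit 1713124239) (nat_lit 0) (nat_lit 4365973185) (nat_lit 1292) (nat_lit 9283143376) (nat_lit 379) (nat_lit 5) (nat_lit 378) (nat_lit 5) (nat_lit 395) (nat_lit 5) (nat_lit 389) (nat_lit 380) (nat_lit 251)) (XT.nd (nat_lit 78) (nat_lit 0) (nat_lit 0) (XT.lf (nat_lit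 0) (nat_lit 7178894137) (nat_lit 1216) (nat_lit 5618038483) (nat_lit 1292) (nat_lit 2796316767) (nat_lit 379) (nat_lit 5) (nat_lit 395) (nat_lit 5) (nat_lit 396) (nat_lit 5) (nat_lit 390) (nat_lit 380) (nat_lit 250)) (XT.lf (nat_lit 76) (nat_lit 2654237771) (nat_lit 0) (nat_lit 5714930570) (nat_lit 1292) (nat_lit 7460295382) (nat_lit 380) (nat_lit 5) (nat_lit 379) (nat_lit 5) (nat_lit 396) (nat_lit 5) (nat_lit 391) (nat_lit 380) (nat_lit 249))))) (XT.nd (nat_lit 234) (nat_lit 1140) (nat_lit 0) (XT.nd (nat_lit 78) (nat_lit 0) (nat_lit 0) (XT.lf (nat_lit 0) (nat_lit 9656644758) (nat_lit 1216) (nat_lit 4805537241) (nat_lit 1292) (nat_lit 1608737670) (nat_lit 380) (nat_lit 5) (nat_lit 396) (nat_lit 5) (nat_lit 397) (nat_lit 5) (nat_lit 392) (nat_lit 380) (nat_lit 248)) (XT.nd (nat_lit 78) (nat_lit 0) (nat_lit 76) (XT.lf (nat_lit 76) (nat_lit 3824971252) (nat_lit 0) (nat_lit 7240463216) (nat_lit 1292) (nat_lit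 5251704158) (nat_lit 381) (nat_lit 5) (nat_lit 380) (nat_lit 5) (nat_lit 397) (nat_lit 5) (nat_lit 393) (nat_lit 380) (nat_lit 247)) (XT.lf (nat_lit 0) (nat_lit 12556987124) (nat_lit 1216) (nat_lit 3767346109) (nat_lit 1292) (nat_lit 245195939) (nat_lit 381) (nat_lit 5) (nat_lit 397) (nat_lit 5) (nat_lit 398) (nat_lit 5) (nat_lit 394) (nat_lit 380) (nat_lit 246)))) (XT.nd (nat_lit 78) (nat_lit 1216) (nat_lit 0) (XT.lf (nat_lit 76) (nat_lit 5241483431) (nat_lit 0) (nat_lit 8963768121) (nat_lit 1292) (nat_lit 2620880926) (nat_lit 382) (nat_lit 5) (nat_lit 381) (nat_lit 5) (nat_lit 398) (nat_lit 5) (nat_lit 395) (nat_lit 380) (nat_lit 245)) (XT.nd (nat_lit 78) (nat_lit 1216) (nat_lit 0) (XT.lf (nat_lit 76) (nat_lit 14589557588) (nat_lit 0) (nat_lit 1341557328) (nat_lit 1292) (nat_lit 1158474438) (nat_lit 382) (nat_lit 5) (nat_lit 381) (nat_lit 5) (nat_lit 398) (nat_lit 5) (nat_lit 396) (nat_lit 380) (nat_lit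 244)) (XT.lf (nat_lit 0) (nat_lit 461715647) (nat_lit 1292) (nat_lit 10440589543) (nat_lit 76) (nat_lit 6454923497) (nat_lit 365) (nat_lit 5) (nat_lit 382) (nat_lit 5) (nat_lit 366) (nat_lit 5) (nat_lit 397) (nat_lit 380) (nat_lit 243)))))) (XT.nd (nat_lit 468) (nat_lit 2280) (nat_lit 0) (XT.nd (nat_lit 234) (nat_lit 608) (nat_lit 0) (XT.nd (nat_lit 78) (nat_lit 1444) (nat_lit 0) (XT.lf (nat_lit 0) (nat_lit 2136524236) (nat_lit 1292) (nat_lit 998501841) (nat_lit 76) (nat_lit 14496648113) (nat_lit 365) (nat_lit 5) (nat_lit 382) (nat_lit 5) (nat_lit 366) (nat_lit 5) (nat_lit 398) (nat_lit 380) (nat_lit 242)) (XT.nd (nat_lit 78) (nat_lit 608) (nat_lit 0) (XT.lf (nat_lit 0) (nat_lit 3985473518) (nat_lit 912) (nat_lit 9067494317) (nat_lit 76) (nat_lit 4857668329) (nat_lit 354) (nat_lit 5) (nat_lit 366) (nat_lit 5) (nat_lit 355) (nat_lit 5) (nat_lit 399) (nat_lit 380) (nat_lit 241)) (XT.lf (nat_lit 0) (nat_lit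 778519009) (nat_lit 608) (nat_lit 5151072677) (nat_lit 684) (nat_lit 12267184299) (nat_lit 346) (nat_lit 5) (nat_lit 354) (nat_lit 5) (nat_lit 355) (nat_lit 5) (nat_lit 400) (nat_lit 380) (nat_lit 240)))) (XT.nd (nat_lit 78) (nat_lit 608) (nat_lit 0) (XT.lf (nat_lit 0) (nat_lit 8044407164) (nat_lit 684) (nat_lit 7421152902) (nat_lit 76) (nat_lit 3022568722) (nat_lit 346) (nat_lit 5) (nat_lit 355) (nat_lit 5) (nat_lit 347) (nat_lit 5) (nat_lit 401) (nat_lit 380) (nat_lit 239)) (XT.nd (nat_lit 78) (nat_lit 0) (nat_lit 0) (XT.lf (nat_lit 0) (nat_lit 2872608413) (nat_lit 608) (nat_lit 7420111471) (nat_lit 684) (nat_lit 8493400708) (nat_lit 338) (nat_lit 5) (nat_lit 346) (nat_lit 5) (nat_lit 347) (nat_lit 5) (nat_lit 402) (nat_lit 380) (nat_lit 238)) (XT.lf (nat_lit 0) (nat_lit 12684104914) (nat_lit 684) (nat_lit 5481050193) (nat_lit 76) (nat_lit 925628356) (nat_lit 338) (nat_lit 5) (nat_lit 347) (nat_lit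 5) (nat_lit 339) (nat_lit 5) (nat_lit 403) (nat_lit 380) (nat_lit 237))))) (XT.nd (nat_lit 234) (nat_lit 1064) (nat_lit 0) (XT.nd (nat_lit 78) (nat_lit 684) (nat_lit 0) (XT.lf (nat_lit 0) (nat_lit 5285829913) (nat_lit 532) (nat_lit 9977533619) (nat_lit 608) (nat_lit 4137738725) (nat_lit 331) (nat_lit 5) (nat_lit 338) (nat_lit 5) (nat_lit 339) (nat_lit 5) (nat_lit 404) (nat_lit 380) (nat_lit 236)) (XT.nd (nat_lit 78) (nat_lit 684) (nat_lit 0) (XT.lf (nat_lit 0) (nat_lit 16479918443) (nat_lit 532) (nat_lit 1487443136) (nat_lit 608) (nat_lit 1751948187) (nat_lit 331) (nat_lit 5) (nat_lit 338) (nat_lit 5) (nat_lit 339) (nat_lit 5) (nat_lit 405) (nat_lit 380) (nat_lit 235)) (XT.lf (nat_lit 0) (nat_lit 832339611) (nat_lit 684) (nat_lit 12009263945) (nat_lit 76) (nat_lit 7201035855) (nat_lit 322) (nat_lit 5) (nat_lit 331) (nat_lit 5) (nat_lit 323) (nat_lit 5) (nat_lit 406) (nat_lit 380) (nat_lit 234)))) (XT.nd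 (nat_lit 78) (nat_lit 1064) (nat_lit 0) (XT.lf (nat_lit 0) (nat_lit 3499024018) (nat_lit 684) (nat_lit 704575737) (nat_lit 76) (nat_lit 16170346398) (nat_lit 322) (nat_lit 5) (nat_lit 331) (nat_lit 5) (nat_lit 323) (nat_lit 5) (nat_lit 407) (nat_lit 380) (nat_lit 233)) (XT.nd (nat_lit 78) (nat_lit 532) (nat_lit 0) (XT.lf (nat_lit 0) (nat_lit 6391593174) (nat_lit 608) (nat_lit 9609548432) (nat_lit 76) (nat_lit 4709673963) (nat_lit 315) (nat_lit 5) (nat_lit 323) (nat_lit 5) (nat_lit 316) (nat_lit 5) (nat_lit 408) (nat_lit 380) (nat_lit 232)) (XT.lf (nat_lit 0) (nat_lit 2211497950) (nat_lit 532) (nat_lit 7222182050) (nat_lit 608) (nat_lit 11622228852) (nat_lit 308) (nat_lit 5) (nat_lit 315) (nat_lit 5) (nat_lit 316) (nat_lit 5) (nat_lit 409) (nat_lit 380) (nat_lit 231))))))))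
noncomputable def xc112 : XT := (XT.nd (nat_lit 51324) (nat_lit 0) (nat_lit 4484) (XT.nd (nat_lit 858) (nat_lit 1596) (nat_lit 0) (XT.nd (nat_lit 390) (nat_lit 1824) (nat_lit 0) (XT.nd (nat_lit 156) (nat_lit 608) (nat_lit 0) (XT.nd (nat_lit 78) (nat_lit 456) (nat_lit 0) (XT.lf (nat_lit 0) (nat_lit 12675329250) (nat_lit 608) (nat_lit 6850983619) (nat_lit 76) (nat_lit 1881793069) (nat_lit 308) (nat_lit 5) (nat_lit 316) (nat_lit 5) (nat_lit 309) (nat_lit 5) (nat_lit 410) (nat_lit 380) (nat_lit 230)) (XT.lf (nat_lit 0) (nat_lit 5530658198) (nat_lit 456) (nat_lit 10601255257) (nat_lit 532) (nat_lit 5635424917) (nat_lit 302) (nat_lit 5) (nat_lit 308) (nat_lit 5) (nat_lit 309) (nat_lit 5) (nat_lit 411) (nat_lit 380) (nat_lit 229))) (XT.nd (nat_lit 78) (nat_lit 608) (nat_lit 0) (XT.lf (nat_lit 0) (nat_lit 18416261600) (nat_lit 456) (nat_lit 1338257009) (nat_lit 532) (nat_lit 2380959468) (nat_lit 302) (nat_lit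 5) (nat_lit 308) (nat_lit 5) (nat_lit 309) (nat_lit 5) (nat_lit 412) (nat_lit 380) (nat_lit 228)) (XT.nd (nat_lit 78) (nat_lit 0) (nat_lit 0) (XT.lf (nat_lit 0) (nat_lit 1115055242) (nat_lit 608) (nat_lit 13252868575) (nat_lit 76) (nat_lit 8141572127) (nat_lit 294) (nat_lit 5) (nat_lit 302) (nat_lit 5) (nat_lit 295) (nat_lit 5) (nat_lit 413) (nat_lit 380) (nat_lit 227)) (XT.lf (nat_lit 0) (nat_lit 4712660210) (nat_lit 608) (nat_lit 240755964) (nat_lit 76) (nat_lit 17939274016) (nat_lit 294) (nat_lit 5) (nat_lit 302) (nat_lit 5) (nat_lit 295) (nat_lit 5) (nat_lit 414) (nat_lit 380) (nat_lit 226))))) (XT.nd (nat_lit 234) (nat_lit 912) (nat_lit 0) (XT.nd (nat_lit 78) (nat_lit 456) (nat_lit 0) (XT.lf (nat_lit 0) (nat_lit 8587595048) (nat_lit 532) (nat_lit 9914763701) (nat_lit 76) (nat_lit 4779939463) (nat_lit 288) (nat_lit 5) (nat_lit 295) (nat_lit 5) (nat_lit 289) (nat_lit 5) (nat_lit 415) (nat_lit 380)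 (nat_lit 225)) (XT.nd (nat_lit 78) (nat_lit 0) (nat_lit 0) (XT.lf (nat_lit 0) (nat_lit 3721225083) (nat_lit 456) (nat_lit 8938502093) (nat_lit 532) (nat_lit 11021438821) (nat_lit 282) (nat_lit 5) (nat_lit 288) (nat_lit 5) (nat_lit 289) (nat_lit 5) (nat_lit 416) (nat_lit 380) (nat_lit 224)) (XT.lf (nat_lit 0) (nat_lit 16957678251) (nat_lit 532) (nat_lit 6137124523) (nat_lit 76) (nat_lit 994087392) (nat_lit 282) (nat_lit 5) (nat_lit 289) (nat_lit 5) (nat_lit 283) (nat_lit 5) (nat_lit 417) (nat_lit 380) (nat_lit 223)))) (XT.nd (nat_lit 78) (nat_lit 532) (nat_lit 0) (XT.lf (nat_lit 0) (nat_lit 8163501699) (nat_lit 380) (nat_lit 13381994796) (nat_lit 456) (nat_lit 2958521706) (nat_lit 277) (nat_lit 5) (nat_lit 282) (nat_lit 5) (nat_lit 283) (nat_lit 5) (nat_lit 418) (nat_lit 380) (nat_lit 222)) (XT.nd (nat_lit 78) (nat_lit 456) (nat_lit 0) (XT.lf (nat_lit 0) (nat_lit 1369800415) (nat_lit 456) (nat_lit 1931995518)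 (nat_lit 76) (nat_lit 21627720303) (nat_lit 276) (nat_lit 5) (nat_lit 282) (nat_lit 5) (nat_lit 277) (nat_lit 5) (nat_lit 419) (nat_lit 380) (nat_lit 221)) (XT.lf (nat_lit 0) (nat_lit 5958468364) (nat_lit 532) (nat_lit 12304704415) (nat_lit 76) (nat_lit 7098028878) (nat_lit 270) (nat_lit 5) (nat_lit 277) (nat_lit 5) (nat_lit 271) (nat_lit 5) (nat_lit 420) (nat_lit 380) (nat_lit 220)))))) (XT.nd (nat_lit 49998) (nat_lit 0) (nat_lit 9500) (XT.nd (nat_lit 234) (nat_lit 836) (nat_lit 0) (XT.nd (nat_lit 78) (nat_lit 380) (nat_lit 0) (XT.lf (nat_lit 0) (nat_lit 2742043988) (nat_lit 380) (nat_lit 8015761173) (nat_lit 456) (nat_lit 15045842215) (nat_lit 265) (nat_lit 5) (nat_lit 270) (nat_lit 5) (nat_lit 271) (nat_lit 5) (nat_lit 421) (nat_lit 380) (nat_lit 219)) (XT.nd (nat_lit 78) (nat_lit 380) (nat_lit 0) (XT.lf (nat_lit 0) (nat_lit 15845347182) (nat_lit 456) (nat_lit 7796499744) (nat_lit 76) (nat_lit 2613192788)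 (nat_lit 265) (nat_lit 5) (nat_lit 271) (nat_lit 5) (nat_lit 266) (nat_lit 5) (nat_lit 422) (nat_lit 380) (nat_lit 218)) (XT.lf (nat_lit 0) (nat_lit 7995789846) (nat_lit 380) (nat_lit 13240449409) (nat_lit 456) (nat_lit 5479212852) (nat_lit 260) (nat_lit 5) (nat_lit 265) (nat_lit 5) (nat_lit 266) (nat_lit 5) (nat_lit 423) (nat_lit 380) (nat_lit 217)))) (XT.nd (nat_lit 78) (nat_lit 836) (nat_lit 0) (XT.lf (nat_lit 0) (nat_lit 24414311718) (nat_lit 380) (nat_lit 2447864622) (nat_lit 456) (nat_lit 325300986) (nat_lit 260) (nat_lit 5) (nat_lit 265) (nat_lit 5) (nat_lit 266) (nat_lit 5) (nat_lit 424) (nat_lit 380) (nat_lit 216)) (XT.nd (nat_lit 78) (nat_lit 380) (nat_lit 0) (XT.lf (nat_lit 0) (nat_lit 5099084049) (nat_lit 456) (nat_lit 13886314415) (nat_lit 76) (nat_lit 8680434886) (nat_lit 254) (nat_lit 5) (nat_lit 260) (nat_lit 5) (nat_lit 255) (nat_lit 5) (nat_lit 425) (nat_lit 380) (nat_lit 215)) (XT.lf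 (nat_lit 0) (nat_lit 2746475484) (nat_lit 380) (nat_lit 8006866009) (nat_lit 456) (nat_lit 17402891564) (nat_lit 249) (nat_lit 5) (nat_lit 254) (nat_lit 5) (nat_lit 255) (nat_lit 5) (nat_lit 426) (nat_lit 380) (nat_lit 214))))) (XT.nd (nat_lit 234) (nat_lit 0) (nat_lit 76) (XT.nd (nat_lit 78) (nat_lit 0) (nat_lit 0) (XT.lf (nat_lit 0) (nat_lit 334783112) (nat_lit 1292) (nat_lit 3301020058) (nat_lit 1292) (nat_lit 3301020058) (nat_lit 374) (nat_lit 3) (nat_lit 391) (nat_lit 3) (nat_lit 391) (nat_lit 5) (nat_lit 381) (nat_lit 381) (nat_lit 258)) (XT.nd (nat_lit 78) (nat_lit 0) (nat_lit 76) (XT.lf (nat_lit 76) (nat_lit 341445952) (nat_lit 0) (nat_lit 692383043) (nat_lit 1292) (nat_lit 13037295582) (nat_lit 375) (nat_lit 5) (nat_lit 374) (nat_lit 3) (nat_lit 391) (nat_lit 5) (nat_lit 382) (nat_lit 381) (nat_lit 257)) (XT.lf (nat_lit 0) (nat_lit 1521130525) (nat_lit 1216) (nat_lit 6710770338) (nat_lit 1292)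 (nat_lit 6039262850) (nat_lit 375) (nat_lit 5) (nat_lit 391) (nat_lit 5) (nat_lit 392) (nat_lit 5) (nat_lit 383) (nat_lit 381) (nat_lit 256)))) (XT.nd (nat_lit 78) (nat_lit 0) (nat_lit 76) (XT.lf (nat_lit 76) (nat_lit 514441940) (nat_lit 0) (nat_lit 1507106580) (nat_lit 1292) (nat_lit 12455700580) (nat_lit 376) (nat_lit 5) (nat_lit 375) (nat_lit 5) (nat_lit 392) (nat_lit 5) (nat_lit 384) (nat_lit 381) (nat_lit 255)) (XT.nd (nat_lit 78) (nat_lit 0) (nat_lit 0) (XT.lf (nat_lit 0) (nat_lit 2644578069) (nat_lit 1216) (nat_lit 6654092253) (nat_lit 1292) (nat_lit 5387618757) (nat_lit 376) (nat_lit 5) (nat_lit 392) (nat_lit 5) (nat_lit 393) (nat_lit 5) (nat_lit 385) (nat_lit 381) (nat_lit 254)) (XT.lf (nat_lit 76) (nat_lit 868316792) (nat_lit 0) (nat_lit 2428694576) (nat_lit 1292) (nat_lit 11604267503) (nat_lit 377) (nat_lit 5) (nat_lit 376) (nat_lit 5) (nat_lit 393) (nat_lit 5) (nat_lit 386) (nat_lit 381)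 (nat_lit 253))))))) (XT.nd (nat_lit 936) (nat_lit 4332) (nat_lit 0) (XT.nd (nat_lit 468) (nat_lit 912) (nat_lit 0) (XT.nd (nat_lit 234) (nat_lit 0) (nat_lit 76) (XT.nd (nat_lit 78) (nat_lit 0) (nat_lit 0) (XT.lf (nat_lit 0) (nat_lit 4069333019) (nat_lit 1216) (nat_lit 6421169373) (nat_lit 1292) (nat_lit 4629206505) (nat_lit 377) (nat_lit 5) (nat_lit 393) (nat_lit 5) (nat_lit 394) (nat_lit 5) (nat_lit 387) (nat_lit 381) (nat_lit 252)) (XT.nd (nat_lit 78) (nat_lit 0) (nat_lit 76) (XT.lf (nat_lit 76) (nat_lit 1414841672) (nat_lit 0) (nat_lit 3475768598) (nat_lit 1292) (nat_lit 10453307974) (nat_lit 378) (nat_lit 5) (nat_lit 377) (nat_lit 5) (nat_lit 394) (nat_lit 5) (nat_lit 388) (nat_lit 381) (nat_lit 251)) (XT.lf (nat_lit 0) (nat_lit 5826500118) (nat_lit 1216) (nat_lit 6000039438) (nat_lit 1292) (nat_lit 3745615088) (nat_lit 378) (nat_lit 5) (nat_lit 394) (nat_lit 5) (nat_lit 395) (nat_lit 5) (nat_lit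 389) (nat_lit 381) (nat_lit 250)))) (XT.nd (nat_lit 78) (nat_lit 0) (nat_lit 76) (XT.lf (nat_lit 76) (nat_lit 2166965870) (nat_lit 0) (nat_lit 4667530434) (nat_lit 1292) (nat_lit 8971420941) (nat_lit 379) (nat_lit 5) (nat_lit 378) (nat_lit 5) (nat_lit 395) (nat_lit 5) (nat_lit 390) (nat_lit 381) (nat_lit 249)) (XT.nd (nat_lit 78) (nat_lit 0) (nat_lit 0) (XT.lf (nat_lit 0) (nat_lit 7949004900) (nat_lit 1216) (nat_lit 5377571499) (nat_lit 1292) (nat_lit 2717828152) (nat_lit 379) (nat_lit 5) (nat_lit 395) (nat_lit 5) (nat_lit 396) (nat_lit 5) (nat_lit 391) (nat_lit 381) (nat_lit 248)) (XT.lf (nat_lit 76) (nat_lit 3138863160) (nat_lit 0) (nat_lit 6023859671) (nat_lit 1292) (nat_lit 7125350420) (nat_lit 380) (nat_lit 5) (nat_lit 379) (nat_lit 5) (nat_lit 396) (nat_lit 5) (nat_lit 392) (nat_lit 381) (nat_lit 247))))) (XT.nd (nat_lit 234) (nat_lit 1140) (nat_lit 0) (XT.nd (nat_lit 78) (nat_lit 0) (nat_lit 0)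 (XT.lf (nat_lit 0) (nat_lit 10471740107) (nat_lit 1216) (nat_lit 4539417736) (nat_lit 1292) (nat_lit 1526127537) (nat_lit 380) (nat_lit 5) (nat_lit 396) (nat_lit 5) (nat_lit 397) (nat_lit 5) (nat_lit 393) (nat_lit 381) (nat_lit 246)) (XT.nd (nat_lit 78) (nat_lit 0) (nat_lit 76) (XT.lf (nat_lit 76) (nat_lit 4345983604) (nat_lit 0) (nat_lit 7565412357) (nat_lit 1292) (nat_lit 4879836868) (nat_lit 381) (nat_lit 5) (nat_lit 380) (nat_lit 5) (nat_lit 397) (nat_lit 5) (nat_lit 394) (nat_lit 381) (nat_lit 245)) (XT.lf (nat_lit 0) (nat_lit 13431718915) (nat_lit 1216) (nat_lit 3469959904) (nat_lit 1292) (nat_lit 149995562) (nat_lit 381) (nat_lit 5) (nat_lit 397) (nat_lit 5) (nat_lit 398) (nat_lit 5) (nat_lit 395) (nat_lit 381) (nat_lit 244)))) (XT.nd (nat_lit 78) (nat_lit 1216) (nat_lit 0) (XT.lf (nat_lit 76) (nat_lit 5805110928) (nat_lit 0) (nat_lit 9313721250) (nat_lit 1292) (nat_lit 2197461582) (nat_lit 382)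 (nat_lit 5) (nat_lit 381) (nat_lit 5) (nat_lit 398) (nat_lit 5) (nat_lit 396) (nat_lit 381) (nat_lit 243)) (XT.nd (nat_lit 78) (nat_lit 1216) (nat_lit 0) (XT.lf (nat_lit 76) (nat_lit 15421790912) (nat_lit 0) (nat_lit 1460483742) (nat_lit 1292) (nat_lit 705805592) (nat_lit 382) (nat_lit 5) (nat_lit 381) (nat_lit 5) (nat_lit 398) (nat_lit 5) (nat_lit 397) (nat_lit 381) (nat_lit 242)) (XT.lf (nat_lit 0) (nat_lit 942753860) (nat_lit 1292) (nat_lit 10339024298) (nat_lit 76) (nat_lit 6582151788) (nat_lit 365) (nat_lit 5) (nat_lit 382) (nat_lit 5) (nat_lit 366) (nat_lit 5) (nat_lit 398) (nat_lit 381) (nat_lit 241)))))) (XT.nd (nat_lit 468) (nat_lit 2280) (nat_lit 0) (XT.nd (nat_lit 234) (nat_lit 608) (nat_lit 0) (XT.nd (nat_lit 78) (nat_lit 1444) (nat_lit 0) (XT.lf (nat_lit 0) (nat_lit 2654199326) (nat_lit 1292) (nat_lit 625755020) (nat_lit 76) (nat_lit 14867062688) (nat_lit 365) (nat_lit 5) (nat_lit 382) (nat_lit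 5) (nat_lit 366) (nat_lit 5) (nat_lit 399) (nat_lit 381) (nat_lit 240)) (XT.nd (nat_lit 78) (nat_lit 608) (nat_lit 0) (XT.lf (nat_lit 0) (nat_lit 4548802233) (nat_lit 912) (nat_lit 8927002418) (nat_lit 76) (nat_lit 4958837663) (nat_lit 354) (nat_lit 5) (nat_lit 366) (nat_lit 5) (nat_lit 355) (nat_lit 5) (nat_lit 400) (nat_lit 381) (nat_lit 239)) (XT.lf (nat_lit 0) (nat_lit 1210347027) (nat_lit 608) (nat_lit 5331898227) (nat_lit 684) (nat_lit 12187391037) (nat_lit 346) (nat_lit 5) (nat_lit 354) (nat_lit 5) (nat_lit 355) (nat_lit 5) (nat_lit 401) (nat_lit 381) (nat_lit 238)))) (XT.nd (nat_lit 78) (nat_lit 608) (nat_lit 0) (XT.lf (nat_lit 0) (nat_lit 8707596728) (nat_lit 684) (nat_lit 7234303829) (nat_lit 76) (nat_lit 3088216375) (nat_lit 346) (nat_lit 5) (nat_lit 355) (nat_lit 5) (nat_lit 347) (nat_lit 5) (nat_lit 402) (nat_lit 381) (nat_lit 237)) (XT.nd (nat_lit 78) (nat_lit 0) (nat_lit 0) (XT.lf (nat_lit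 0) (nat_lit 3364255780) (nat_lit 608) (nat_lit 7650713559) (nat_lit 684) (nat_lit 8322330835) (nat_lit 338) (nat_lit 5) (nat_lit 346) (nat_lit 5) (nat_lit 347) (nat_lit 5) (nat_lit 403) (nat_lit 381) (nat_lit 236)) (XT.lf (nat_lit 0) (nat_lit 13465978517) (nat_lit 684) (nat_lit 5239704962) (nat_lit 76) (nat_lit 945782974) (nat_lit 338) (nat_lit 5) (nat_lit 347) (nat_lit 5) (nat_lit 339) (nat_lit 5) (nat_lit 404) (nat_lit 381) (nat_lit 235))))) (XT.nd (nat_lit 234) (nat_lit 1064) (nat_lit 0) (XT.nd (nat_lit 78) (nat_lit 684) (nat_lit 0) (XT.lf (nat_lit 0) (nat_lit 5846203344) (nat_lit 532) (nat_lit 10268584064) (nat_lit 608) (nat_lit 3856542228) (nat_lit 331) (nat_lit 5) (nat_lit 338) (nat_lit 5) (nat_lit 339) (nat_lit 5) (nat_lit 405) (nat_lit 381) (nat_lit 234)) (XT.nd (nat_lit 78) (nat_lit 684) (nat_lit 0) (XT.lf (nat_lit 0) (nat_lit 17364411660) (nat_lit 532) (nat_lit 1524031903) (nat_lit 608) (nat_lit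 1410983663) (nat_lit 331) (nat_lit 5) (nat_lit 338) (nat_lit 5) (nat_lit 339) (nat_lit 5) (nat_lit 406) (nat_lit 381) (nat_lit 233)) (XT.lf (nat_lit 0) (nat_lit 1235850546) (nat_lit 684) (nat_lit 11964463977) (nat_lit 76) (nat_lit 7432247848) (nat_lit 322) (nat_lit 5) (nat_lit 331) (nat_lit 5) (nat_lit 323) (nat_lit 5) (nat_lit 407) (nat_lit 381) (nat_lit 232)))) (XT.nd (nat_lit 78) (nat_lit 1064) (nat_lit 0) (XT.lf (nat_lit 0) (nat_lit 3971510026) (nat_lit 684) (nat_lit 332433507) (nat_lit 76) (nat_lit 16670195545) (nat_lit 322) (nat_lit 5) (nat_lit 331) (nat_lit 5) (nat_lit 323) (nat_lit 5) (nat_lit 408) (nat_lit 381) (nat_lit 231)) (XT.nd (nat_lit 78) (nat_lit 532) (nat_lit 0) (XT.lf (nat_lit 0) (nat_lit 6944172820) (nat_lit 608) (nat_lit 9497871946) (nat_lit 76) (nat_lit 4879270316) (nat_lit 315) (nat_lit 5) (nat_lit 323) (nat_lit 5) (nat_lit 316) (nat_lit 5) (nat_lit 409) (nat_lit 381) (nat_lit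 230)) (XT.lf (nat_lit 0) (nat_lit 2673884623) (nat_lit 532) (nat_lit 7396934957) (nat_lit 608) (nat_lit 11606142662) (nat_lit 308) (nat_lit 5) (nat_lit 315) (nat_lit 5) (nat_lit 316) (nat_lit 5) (nat_lit 410) (nat_lit 381) (nat_lit 229))))))))
noncomputable def xc113 : XT := (XT.nd (nat_lit 51402) (nat_lit 0) (nat_lit 4104) (XT.nd (nat_lit 858) (nat_lit 1216) (nat_lit 0) (XT.nd (nat_lit 390) (nat_lit 1368) (nat_lit 0) (XT.nd (nat_lit 156) (nat_lit 1064) (nat_lit 0) (XT.nd (nat_lit 78) (nat_lit 456) (nat_lit 0) (XT.lf (nat_lit 0) (nat_lit 13399795020) (nat_lit 608) (nat_lit 6662083301) (nat_lit 76) (nat_lit 1978144618) (nat_lit 308) (nat_lit 5) (nat_lit 316) (nat_lit 5) (nat_lit 309) (nat_lit 5) (nat_lit 411) (nat_lit 381) (nat_lit 228)) (XT.lf (nat_lit 0) (nat_lit 6087140811) (nat_lit 456) (nat_lit 10866664856) (nat_lit 532) (nat_lit 5456414813) (nat_lit 302) (nat_lit 5) (nat_lit 308) (nat_lit 5) (nat_lit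 309) (nat_lit 5) (nat_lit 412) (nat_lit 381) (nat_lit 227))) (XT.nd (nat_lit 78) (nat_lit 1064) (nat_lit 0) (XT.lf (nat_lit 0) (nat_lit 19347936698) (nat_lit 456) (nat_lit 1327309516) (nat_lit 532) (nat_lit 2114453444) (nat_lit 302) (nat_lit 5) (nat_lit 308) (nat_lit 5) (nat_lit 309) (nat_lit 5) (nat_lit 413) (nat_lit 381) (nat_lit 226)) (XT.nd (nat_lit 78) (nat_lit 456) (nat_lit 0) (XT.lf (nat_lit 0) (nat_lit 1474413135) (nat_lit 608) (nat_lit 13259238812) (nat_lit 76) (nat_lit 8441351689) (nat_lit 294) (nat_lit 5) (nat_lit 302) (nat_lit 5) (nat_lit 295) (nat_lit 5) (nat_lit 414) (nat_lit 381) (nat_lit 225)) (XT.lf (nat_lit 0) (nat_lit 134466466) (nat_lit 456) (nat_lit 5037279944) (nat_lit 532) (nat_lit 18398193294) (nat_lit 288) (nat_lit 5) (nat_lit 294) (nat_lit 5) (nat_lit 295) (nat_lit 5) (nat_lit 415) (nat_lit 381) (nat_lit 224))))) (XT.nd (nat_lit 234) (nat_lit 912) (nat_lit 0) (XT.nd (nat_lit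 78) (nat_lit 456) (nat_lit 0) (XT.lf (nat_lit 0) (nat_lit 9156663615) (nat_lit 532) (nat_lit 9827412321) (nat_lit 76) (nat_lit 4987348001) (nat_lit 288) (nat_lit 5) (nat_lit 295) (nat_lit 5) (nat_lit 289) (nat_lit 5) (nat_lit 416) (nat_lit 381) (nat_lit 223)) (XT.nd (nat_lit 78) (nat_lit 0) (nat_lit 0) (XT.lf (nat_lit 0) (nat_lit 4213883634) (nat_lit 456) (nat_lit 9131667600) (nat_lit 532) (nat_lit 11036868776) (nat_lit 282) (nat_lit 5) (nat_lit 288) (nat_lit 5) (nat_lit 289) (nat_lit 5) (nat_lit 417) (nat_lit 381) (nat_lit 222)) (XT.lf (nat_lit 0) (nat_lit 17764227130) (nat_lit 532) (nat_lit 5943100472) (nat_lit 76) (nat_lit 1095294713) (nat_lit 282) (nat_lit 5) (nat_lit 289) (nat_lit 5) (nat_lit 283) (nat_lit 5) (nat_lit 418) (nat_lit 381) (nat_lit 221)))) (XT.nd (nat_lit 78) (nat_lit 532) (nat_lit 0) (XT.lf (nat_lit 0) (nat_lit 8782837302) (nat_lit 380) (nat_lit 13701767547) (nat_lit 456) (nat_lit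 2745751593) (nat_lit 277) (nat_lit 5) (nat_lit 282) (nat_lit 5) (nat_lit 283) (nat_lit 5) (nat_lit 419) (nat_lit 381) (nat_lit 220)) (XT.nd (nat_lit 78) (nat_lit 456) (nat_lit 0) (XT.lf (nat_lit 0) (nat_lit 1697925408) (nat_lit 456) (nat_lit 1620718096) (nat_lit 76) (nat_lit 22350147289) (nat_lit 276) (nat_lit 5) (nat_lit 282) (nat_lit 5) (nat_lit 277) (nat_lit 5) (nat_lit 420) (nat_lit 381) (nat_lit 219)) (XT.lf (nat_lit 0) (nat_lit 6420209806) (nat_lit 532) (nat_lit 12300564670) (nat_lit 76) (nat_lit 7392773609) (nat_lit 270) (nat_lit 5) (nat_lit 277) (nat_lit 5) (nat_lit 271) (nat_lit 5) (nat_lit 421) (nat_lit 381) (nat_lit 218)))))) (XT.nd (nat_lit 50076) (nat_lit 0) (nat_lit 9120) (XT.nd (nat_lit 234) (nat_lit 456) (nat_lit 0) (XT.nd (nat_lit 78) (nat_lit 380) (nat_lit 0) (XT.lf (nat_lit 0) (nat_lit 3193926568) (nat_lit 380) (nat_lit 8164910813) (nat_lit 456) (nat_lit 15210570474) (nat_lit 265)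 (nat_lit 5) (nat_lit 270) (nat_lit 5) (nat_lit 271) (nat_lit 5) (nat_lit 422) (nat_lit 381) (nat_lit 217)) (XT.nd (nat_lit 78) (nat_lit 380) (nat_lit 0) (XT.lf (nat_lit 0) (nat_lit 16591752180) (nat_lit 456) (nat_lit 7664285660) (nat_lit 76) (nat_lit 2778521727) (nat_lit 265) (nat_lit 5) (nat_lit 271) (nat_lit 5) (nat_lit 266) (nat_lit 5) (nat_lit 423) (nat_lit 381) (nat_lit 216)) (XT.lf (nat_lit 0) (nat_lit 8598183313) (nat_lit 380) (nat_lit 13541777962) (nat_lit 456) (nat_lit 5368955350) (nat_lit 260) (nat_lit 5) (nat_lit 265) (nat_lit 5) (nat_lit 266) (nat_lit 5) (nat_lit 424) (nat_lit 381) (nat_lit 215)))) (XT.nd (nat_lit 78) (nat_lit 456) (nat_lit 0) (XT.lf (nat_lit 0) (nat_lit 25498702013) (nat_lit 380) (nat_lit 2428208396) (nat_lit 456) (nat_lit 68425173) (nat_lit 260) (nat_lit 5) (nat_lit 265) (nat_lit 5) (nat_lit 266) (nat_lit 5) (nat_lit 425) (nat_lit 381) (nat_lit 214)) (XT.nd (nat_lit 49686)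 (nat_lit 0) (nat_lit 9120) (XT.lf (nat_lit 0) (nat_lit 5510200598) (nat_lit 456) (nat_lit 13942452089) (nat_lit 76) (nat_lit 9035411342) (nat_lit 254) (nat_lit 5) (nat_lit 260) (nat_lit 5) (nat_lit 255) (nat_lit 5) (nat_lit 426) (nat_lit 381) (nat_lit 213)) (XT.lf (nat_lit 0) (nat_lit 692390274) (nat_lit 1292) (nat_lit 3221055371) (nat_lit 1292) (nat_lit 3221055371) (nat_lit 374) (nat_lit 3) (nat_lit 391) (nat_lit 3) (nat_lit 391) (nat_lit 5) (nat_lit 382) (nat_lit 382) (nat_lit 256))))) (XT.nd (nat_lit 234) (nat_lit 0) (nat_lit 152) (XT.nd (nat_lit 78) (nat_lit 0) (nat_lit 76) (XT.lf (nat_lit 76) (nat_lit 706170198) (nat_lit 0) (nat_lit 1036962065) (nat_lit 1292) (nat_lit 12729777400) (nat_lit 375) (nat_lit 5) (nat_lit 374) (nat_lit 3) (nat_lit 391) (nat_lit 5) (nat_lit 383) (nat_lit 382) (nat_lit 255)) (XT.nd (nat_lit 78) (nat_lit 0) (nat_lit 0) (XT.lf (nat_lit 0) (nat_lit 2222274889) (nat_lit 1216)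 (nat_lit 6545159317) (nat_lit 1292) (nat_lit 5912199105) (nat_lit 375) (nat_lit 5) (nat_lit 391) (nat_lit 5) (nat_lit 392) (nat_lit 5) (nat_lit 384) (nat_lit 382) (nat_lit 254)) (XT.lf (nat_lit 76) (nat_lit 893211936) (nat_lit 0) (nat_lit 1828893566) (nat_lit 1292) (nat_lit 12170263756) (nat_lit 376) (nat_lit 5) (nat_lit 375) (nat_lit 5) (nat_lit 392) (nat_lit 5) (nat_lit 385) (nat_lit 382) (nat_lit 253)))) (XT.nd (nat_lit 78) (nat_lit 0) (nat_lit 0) (XT.lf (nat_lit 0) (nat_lit 3342606605) (nat_lit 1216) (nat_lit 6479741574) (nat_lit 1292) (nat_lit 5285968838) (nat_lit 376) (nat_lit 5) (nat_lit 392) (nat_lit 5) (nat_lit 393) (nat_lit 5) (nat_lit 386) (nat_lit 382) (nat_lit 252)) (XT.nd (nat_lit 78) (nat_lit 0) (nat_lit 76) (XT.lf (nat_lit 76) (nat_lit 1264673337) (nat_lit 0) (nat_lit 2735479053) (nat_lit 1292) (nat_lit 11330037928) (nat_lit 377) (nat_lit 5) (nat_lit 376) (nat_lit 5) (nat_lit 393) (nat_lit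 5) (nat_lit 387) (nat_lit 382) (nat_lit 251)) (XT.lf (nat_lit 0) (nat_lit 4775861614) (nat_lit 1216) (nat_lit 6234500980) (nat_lit 1292) (nat_lit 4545404112) (nat_lit 377) (nat_lit 5) (nat_lit 393) (nat_lit 5) (nat_lit 394) (nat_lit 5) (nat_lit 388) (nat_lit 382) (nat_lit 250))))))) (XT.nd (nat_lit 936) (nat_lit 4332) (nat_lit 0) (XT.nd (nat_lit 468) (nat_lit 912) (nat_lit 0) (XT.nd (nat_lit 234) (nat_lit 0) (nat_lit 152) (XT.nd (nat_lit 78) (nat_lit 0) (nat_lit 76) (XT.lf (nat_lit 76) (nat_lit 1832871734) (nat_lit 0) (nat_lit 3775493024) (nat_lit 1292) (nat_lit 10178739947) (nat_lit 378) (nat_lit 5) (nat_lit 377) (nat_lit 5) (nat_lit 394) (nat_lit 5) (nat_lit 389) (nat_lit 382) (nat_lit 249)) (XT.nd (nat_lit 78) (nat_lit 0) (nat_lit 0) (XT.lf (nat_lit 0) (nat_lit 6553875104) (nat_lit 1216) (nat_lit 5796938974) (nat_lit 1292) (nat_lit 3671927805) (nat_lit 378) (nat_lit 5) (nat_lit 394) (nat_lit 5) (nat_lit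 395) (nat_lit 5) (nat_lit 390) (nat_lit 382) (nat_lit 248)) (XT.lf (nat_lit 76) (nat_lit 2611320594) (nat_lit 0) (nat_lit 4968342523) (nat_lit 1292) (nat_lit 8684227688) (nat_lit 379) (nat_lit 5) (nat_lit 378) (nat_lit 5) (nat_lit 395) (nat_lit 5) (nat_lit 391) (nat_lit 382) (nat_lit 247)))) (XT.nd (nat_lit 78) (nat_lit 0) (nat_lit 0) (XT.lf (nat_lit 0) (nat_lit 8710374414) (nat_lit 1216) (nat_lit 5153369245) (nat_lit 1292) (nat_lit 2646306047) (nat_lit 379) (nat_lit 5) (nat_lit 395) (nat_lit 5) (nat_lit 396) (nat_lit 5) (nat_lit 392) (nat_lit 382) (nat_lit 246)) (XT.nd (nat_lit 78) (nat_lit 0) (nat_lit 76) (XT.lf (nat_lit 76) (nat_lit 3614778754) (nat_lit 0) (nat_lit 6334164663) (nat_lit 1292) (nat_lit 6812431866) (nat_lit 380) (nat_lit 5) (nat_lit 379) (nat_lit 5) (nat_lit 396) (nat_lit 5) (nat_lit 393) (nat_lit 382) (nat_lit 245)) (XT.lf (nat_lit 0) (nat_lit 11281128436) (nat_lit 1216) (nat_lit 4288866718)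 (nat_lit 1292) (nat_lit 1448551704) (nat_lit 380) (nat_lit 5) (nat_lit 396) (nat_lit 5) (nat_lit 397) (nat_lit 5) (nat_lit 394) (nat_lit 382) (nat_lit 244))))) (XT.nd (nat_lit 234) (nat_lit 1140) (nat_lit 0) (XT.nd (nat_lit 78) (nat_lit 0) (nat_lit 76) (XT.lf (nat_lit 76) (nat_lit 4859305157) (nat_lit 0) (nat_lit 7893925529) (nat_lit 1292) (nat_lit 4527204343) (nat_lit 381) (nat_lit 5) (nat_lit 380) (nat_lit 5) (nat_lit 397) (nat_lit 5) (nat_lit 395) (nat_lit 382) (nat_lit 243)) (XT.nd (nat_lit 78) (nat_lit 0) (nat_lit 0) (XT.lf (nat_lit 0) (nat_lit 14304104150) (nat_lit 1216) (nat_lit 3187211130) (nat_lit 1292) (nat_lit 57826323) (nat_lit 381) (nat_lit 5) (nat_lit 397) (nat_lit 5) (nat_lit 398) (nat_lit 5) (nat_lit 396) (nat_lit 382) (nat_lit 242)) (XT.lf (nat_lit 76) (nat_lit 6362319204) (nat_lit 0) (nat_lit 9669520940) (nat_lit 1292) (nat_lit 1790159138) (nat_lit 382) (nat_lit 5) (nat_lit 381) (nat_lit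 5) (nat_lit 398) (nat_lit 5) (nat_lit 397) (nat_lit 382) (nat_lit 241)))) (XT.nd (nat_lit 78) (nat_lit 1216) (nat_lit 0) (XT.lf (nat_lit 76) (nat_lit 16256342647) (nat_lit 0) (nat_lit 1578461412) (nat_lit 1292) (nat_lit 267536759) (nat_lit 382) (nat_lit 5) (nat_lit 381) (nat_lit 5) (nat_lit 398) (nat_lit 5) (nat_lit 398) (nat_lit 382) (nat_lit 240)) (XT.nd (nat_lit 78) (nat_lit 0) (nat_lit 0) (XT.lf (nat_lit 0) (nat_lit 1411404790) (nat_lit 1292) (nat_lit 10258222332) (nat_lit 76) (nat_lit 6717009673) (nat_lit 365) (nat_lit 5) (nat_lit 382) (nat_lit 5) (nat_lit 366) (nat_lit 5) (nat_lit 399) (nat_lit 382) (nat_lit 239)) (XT.lf (nat_lit 0) (nat_lit 3161367358) (nat_lit 1292) (nat_lit 264942531) (nat_lit 76) (nat_lit 15252291395) (nat_lit 365) (nat_lit 5) (nat_lit 382) (nat_lit 5) (nat_lit 366) (nat_lit 5) (nat_lit 400) (nat_lit 382) (nat_lit 238)))))) (XT.nd (nat_lit 468) (nat_lit 1748) (nat_lit 0) (XT.nd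 (nat_lit 234) (nat_lit 1140) (nat_lit 0) (XT.nd (nat_lit 78) (nat_lit 608) (nat_lit 0) (XT.lf (nat_lit 0) (nat_lit 5103556912) (nat_lit 912) (nat_lit 8805975909) (nat_lit 76) (nat_lit 5065600044) (nat_lit 354) (nat_lit 5) (nat_lit 366) (nat_lit 5) (nat_lit 355) (nat_lit 5) (nat_lit 401) (nat_lit 382) (nat_lit 237)) (XT.nd (nat_lit 78) (nat_lit 0) (nat_lit 0) (XT.lf (nat_lit 0) (nat_lit 1631681896) (nat_lit 608) (nat_lit 5516639196) (nat_lit 684) (nat_lit 12130910033) (nat_lit 346) (nat_lit 5) (nat_lit 354) (nat_lit 5) (nat_lit 355) (nat_lit 5) (nat_lit 402) (nat_lit 382) (nat_lit 236)) (XT.lf (nat_lit 0) (nat_lit 9366465640) (nat_lit 684) (nat_lit 7065355321) (nat_lit 76) (nat_lit 3157270248) (nat_lit 346) (nat_lit 5) (nat_lit 355) (nat_lit 5) (nat_lit 347) (nat_lit 5) (nat_lit 403) (nat_lit 382) (nat_lit 235)))) (XT.nd (nat_lit 78) (nat_lit 532) (nat_lit 0) (XT.lf (nat_lit 0) (nat_lit 3847376982) (nat_lit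 608) (nat_lit 7887774549) (nat_lit 684) (nat_lit 8170575655) (nat_lit 338) (nat_lit 5) (nat_lit 346) (nat_lit 5) (nat_lit 347) (nat_lit 5) (nat_lit 404) (nat_lit 382) (nat_lit 234)) (XT.nd (nat_lit 78) (nat_lit 532) (nat_lit 0) (XT.lf (nat_lit 0) (nat_lit 14248269170) (nat_lit 684) (nat_lit 5014412619) (nat_lit 76) (nat_lit 966979318) (nat_lit 338) (nat_lit 5) (nat_lit 347) (nat_lit 5) (nat_lit 339) (nat_lit 5) (nat_lit 405) (nat_lit 382) (nat_lit 233)) (XT.lf (nat_lit 0) (nat_lit 6400323098) (nat_lit 532) (nat_lit 10568841074) (nat_lit 608) (nat_lit 3590177359) (nat_lit 331) (nat_lit 5) (nat_lit 338) (nat_lit 5) (nat_lit 339) (nat_lit 5) (nat_lit 406) (nat_lit 382) (nat_lit 232))))) (XT.nd (nat_lit 234) (nat_lit 532) (nat_lit 0) (XT.nd (nat_lit 78) (nat_lit 1216) (nat_lit 0) (XT.lf (nat_lit 0) (nat_lit 18253046587) (nat_lit 532) (nat_lit 1562179547) (nat_lit 608) (nat_lit 1082380031) (nat_lit 331) (nat_lit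 5) (nat_lit 338) (nat_lit 5) (nat_lit 339) (nat_lit 5) (nat_lit 407) (nat_lit 382) (nat_lit 231)) (XT.nd (nat_lit 78) (nat_lit 532) (nat_lit 0) (XT.lf (nat_lit 0) (nat_lit 1629737022) (nat_lit 684) (nat_lit 11941573137) (nat_lit 76) (nat_lit 7669524755) (nat_lit 322) (nat_lit 5) (nat_lit 331) (nat_lit 5) (nat_lit 323) (nat_lit 5) (nat_lit 408) (nat_lit 382) (nat_lit 230)) (XT.lf (nat_lit 0) (nat_lit 28860304) (nat_lit 532) (nat_lit 4408490852) (nat_lit 608) (nat_lit 17155611220) (nat_lit 315) (nat_lit 5) (nat_lit 322) (nat_lit 5) (nat_lit 323) (nat_lit 5) (nat_lit 409) (nat_lit 382) (nat_lit 229)))) (XT.nd (nat_lit 78) (nat_lit 532) (nat_lit 0) (XT.lf (nat_lit 0) (nat_lit 7492616631) (nat_lit 608) (nat_lit 9405804674) (nat_lit 76) (nat_lit 5052329671) (nat_lit 315) (nat_lit 5) (nat_lit 323) (nat_lit 5) (nat_lit 316) (nat_lit 5) (nat_lit 410) (nat_lit 382) (nat_lit 228)) (XT.nd (nat_lit 78) (nat_lit 0)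 (nat_lit 0) (XT.lf (nat_lit 0) (nat_lit 3127408480) (nat_lit 532) (nat_lit 7579336404) (nat_lit 608) (nat_lit 11610512204) (nat_lit 308) (nat_lit 5) (nat_lit 315) (nat_lit 5) (nat_lit 316) (nat_lit 5) (nat_lit 411) (nat_lit 382) (nat_lit 227)) (XT.lf (nat_lit 0) (nat_lit 14126235937) (nat_lit 608) (nat_lit 6490157860) (nat_lit 76) (nat_lit 2075096418) (nat_lit 308) (nat_lit 5) (nat_lit 316) (nat_lit 5) (nat_lit 309) (nat_lit 5) (nat_lit 412) (nat_lit 382) (nat_lit 226))))))))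
noncomputable def xc114 : XT := (XT.nd (nat_lit 51558) (nat_lit 0) (nat_lit 2584) (XT.nd (nat_lit 858) (nat_lit 380) (nat_lit 0) (XT.nd (nat_lit 390) (nat_lit 1748) (nat_lit 0) (XT.nd (nat_lit 156) (nat_lit 1064) (nat_lit 0) (XT.nd (nat_lit 78) (nat_lit 0) (nat_lit 0) (XT.lf (nat_lit 0) (nat_lit 6637897996) (nat_lit 456) (nat_lit 11143057808) (nat_lit 532) (nat_lit 5292015211) (nat_lit 302) (nat_lit 5) (nat_lit 308) (nat_lit 5) (nat_lit 309) (nat_lit 5) (nat_lit 413) (nat_lit 382) (nat_lit 225)) (XT.lf (nat_lit 0) (nat_lit 20285795149) (nat_lit 456) (nat_lit 1318966672) (nat_lit 532) (nat_lit 1859351081) (nat_lit 302) (nat_lit 5) (nat_lit 308) (nat_lit 5) (nat_lit 309) (nat_lit 5) (nat_lit 414) (nat_lit 382) (nat_lit 224))) (XT.nd (nat_lit 78) (nat_lit 456) (nat_lit 0) (XT.lf (nat_lit 0) (nat_lit 1825843414) (nat_lit 608) (nat_lit 13288257543) (nat_lit 76) (nat_lit 8746936851) (nat_lit 294) (nat_lit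 5) (nat_lit 302) (nat_lit 5) (nat_lit 295) (nat_lit 5) (nat_lit 415) (nat_lit 382) (nat_lit 223)) (XT.nd (nat_lit 78) (nat_lit 0) (nat_lit 0) (XT.lf (nat_lit 0) (nat_lit 503643614) (nat_lit 456) (nat_lit 5125015541) (nat_lit 532) (nat_lit 18639325929) (nat_lit 288) (nat_lit 5) (nat_lit 294) (nat_lit 5) (nat_lit 295) (nat_lit 5) (nat_lit 416) (nat_lit 382) (nat_lit 222)) (XT.lf (nat_lit 0) (nat_lit 9724926268) (nat_lit 532) (nat_lit 9759529166) (nat_lit 76) (nat_lit 5197304338) (nat_lit 288) (nat_lit 5) (nat_lit 295) (nat_lit 5) (nat_lit 289) (nat_lit 5) (nat_lit 417) (nat_lit 382) (nat_lit 221))))) (XT.nd (nat_lit 234) (nat_lit 912) (nat_lit 0) (XT.nd (nat_lit 78) (nat_lit 380) (nat_lit 0) (XT.lf (nat_lit 0) (nat_lit 4699449730) (nat_lit 456) (nat_lit 9334932779) (nat_lit 532) (nat_lit 11070856159) (nat_lit 282) (nat_lit 5) (nat_lit 288) (nat_lit 5) (nat_lit 289) (nat_lit 5) (nat_lit 418) (nat_lit 382)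 (nat_lit 220)) (XT.nd (nat_lit 78) (nat_lit 380) (nat_lit 0) (XT.lf (nat_lit 0) (nat_lit 18577876473) (nat_lit 532) (nat_lit 5764962357) (nat_lit 76) (nat_lit 1195440479) (nat_lit 282) (nat_lit 5) (nat_lit 289) (nat_lit 5) (nat_lit 283) (nat_lit 5) (nat_lit 419) (nat_lit 382) (nat_lit 219)) (XT.lf (nat_lit 0) (nat_lit 9399259128) (nat_lit 380) (nat_lit 14035822655) (nat_lit 456) (nat_lit 2543907189) (nat_lit 277) (nat_lit 5) (nat_lit 282) (nat_lit 5) (nat_lit 283) (nat_lit 5) (nat_lit 420) (nat_lit 382) (nat_lit 218)))) (XT.nd (nat_lit 78) (nat_lit 836) (nat_lit 0) (XT.lf (nat_lit 0) (nat_lit 2019417399) (nat_lit 456) (nat_lit 1321298081) (nat_lit 76) (nat_lit 23090022409) (nat_lit 276) (nat_lit 5) (nat_lit 282) (nat_lit 5) (nat_lit 277) (nat_lit 5) (nat_lit 421) (nat_lit 382) (nat_lit 217)) (XT.nd (nat_lit 78) (nat_lit 380) (nat_lit 0) (XT.lf (nat_lit 0) (nat_lit 6879558858) (nat_lit 532) (nat_lit 12317728582)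 (nat_lit 76) (nat_lit 7691664805) (nat_lit 270) (nat_lit 5) (nat_lit 277) (nat_lit 5) (nat_lit 271) (nat_lit 5) (nat_lit 422) (nat_lit 382) (nat_lit 216)) (XT.lf (nat_lit 0) (nat_lit 3638147854) (nat_lit 380) (nat_lit 8323777268) (nat_lit 456) (nat_lit 15396695291) (nat_lit 265) (nat_lit 5) (nat_lit 270) (nat_lit 5) (nat_lit 271) (nat_lit 5) (nat_lit 423) (nat_lit 382) (nat_lit 215)))))) (XT.nd (nat_lit 50232) (nat_lit 0) (nat_lit 8816) (XT.nd (nat_lit 49998) (nat_lit 0) (nat_lit 8664) (XT.nd (nat_lit 78) (nat_lit 380) (nat_lit 0) (XT.lf (nat_lit 0) (nat_lit 17344990261) (nat_lit 456) (nat_lit 7549121312) (nat_lit 76) (nat_lit 2943820216) (nat_lit 265) (nat_lit 5) (nat_lit 271) (nat_lit 5) (nat_lit 266) (nat_lit 5) (nat_lit 424) (nat_lit 382) (nat_lit 214)) (XT.nd (nat_lit 49842) (nat_lit 0) (nat_lit 8664) (XT.lf (nat_lit 0) (nat_lit 9197838466) (nat_lit 380) (nat_lit 13857650558) (nat_lit 456) (nat_lit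 5271155232) (nat_lit 260) (nat_lit 5) (nat_lit 265) (nat_lit 5) (nat_lit 266) (nat_lit 5) (nat_lit 425) (nat_lit 382) (nat_lit 213)) (XT.lf (nat_lit 0) (nat_lit 1040774075) (nat_lit 1292) (nat_lit 3148966804) (nat_lit 1292) (nat_lit 3148966804) (nat_lit 374) (nat_lit 3) (nat_lit 391) (nat_lit 3) (nat_lit 391) (nat_lit 5) (nat_lit 383) (nat_lit 383) (nat_lit 254)))) (XT.nd (nat_lit 78) (nat_lit 0) (nat_lit 76) (XT.lf (nat_lit 76) (nat_lit 1061487520) (nat_lit 0) (nat_lit 1373290580) (nat_lit 1292) (nat_lit 12453138297) (nat_lit 375) (nat_lit 5) (nat_lit 374) (nat_lit 3) (nat_lit 391) (nat_lit 5) (nat_lit 384) (nat_lit 383) (nat_lit 253)) (XT.nd (nat_lit 78) (nat_lit 0) (nat_lit 0) (XT.lf (nat_lit 0) (nat_lit 2906824602) (nat_lit 1216) (nat_lit 6395643485) (nat_lit 1292) (nat_lit 5799017779) (nat_lit 375) (nat_lit 5) (nat_lit 391) (nat_lit 5) (nat_lit 392) (nat_lit 5) (nat_lit 385) (nat_lit 383) (nat_lit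 252)) (XT.lf (nat_lit 76) (nat_lit 1262488017) (nat_lit 0) (nat_lit 2144457693) (nat_lit 1292) (nat_lit 11914099314) (nat_lit 376) (nat_lit 5) (nat_lit 375) (nat_lit 5) (nat_lit 392) (nat_lit 5) (nat_lit 386) (nat_lit 383) (nat_lit 251))))) (XT.nd (nat_lit 234) (nat_lit 0) (nat_lit 76) (XT.nd (nat_lit 78) (nat_lit 0) (nat_lit 0) (XT.lf (nat_lit 0) (nat_lit 4026060591) (nat_lit 1216) (nat_lit 6321627980) (nat_lit 1292) (nat_lit 5196382682) (nat_lit 376) (nat_lit 5) (nat_lit 392) (nat_lit 5) (nat_lit 393) (nat_lit 5) (nat_lit 387) (nat_lit 383) (nat_lit 250)) (XT.nd (nat_lit 78) (nat_lit 0) (nat_lit 76) (XT.lf (nat_lit 76) (nat_lit 1651663438) (nat_lit 0) (nat_lit 3038038889) (nat_lit 1292) (nat_lit 11083307338) (nat_lit 377) (nat_lit 5) (nat_lit 376) (nat_lit 5) (nat_lit 393) (nat_lit 5) (nat_lit 388) (nat_lit 383) (nat_lit 249)) (XT.lf (nat_lit 0) (nat_lit 5470036326) (nat_lit 1216) (nat_lit 6064006107)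 (nat_lit 1292) (nat_lit 4471870308) (nat_lit 377) (nat_lit 5) (nat_lit 393) (nat_lit 5) (nat_lit 394) (nat_lit 5) (nat_lit 389) (nat_lit 383) (nat_lit 248)))) (XT.nd (nat_lit 78) (nat_lit 0) (nat_lit 76) (XT.lf (nat_lit 76) (nat_lit 2241882594) (nat_lit 0) (nat_lit 4072989475) (nat_lit 1292) (nat_lit 9929698087) (nat_lit 378) (nat_lit 5) (nat_lit 377) (nat_lit 5) (nat_lit 394) (nat_lit 5) (nat_lit 390) (nat_lit 383) (nat_lit 247)) (XT.nd (nat_lit 78) (nat_lit 0) (nat_lit 0) (XT.lf (nat_lit 0) (nat_lit 7271350988) (nat_lit 1216) (nat_lit 5609737099) (nat_lit 1292) (nat_lit 3606710264) (nat_lit 378) (nat_lit 5) (nat_lit 394) (nat_lit 5) (nat_lit 395) (nat_lit 5) (nat_lit 391) (nat_lit 383) (nat_lit 246)) (XT.lf (nat_lit 76) (nat_lit 3047229962) (nat_lit 0) (nat_lit 5268949190) (nat_lit 1292) (nat_lit 8420354593) (nat_lit 379) (nat_lit 5) (nat_lit 378) (nat_lit 5) (nat_lit 395) (nat_lit 5) (nat_lit 392)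 (nat_lit 383) (nat_lit 245))))))) (XT.nd (nat_lit 936) (nat_lit 3952) (nat_lit 0) (XT.nd (nat_lit 468) (nat_lit 2508) (nat_lit 0) (XT.nd (nat_lit 234) (nat_lit 0) (nat_lit 76) (XT.nd (nat_lit 78) (nat_lit 0) (nat_lit 0) (XT.lf (nat_lit 0) (nat_lit 9464568451) (nat_lit 1216) (nat_lit 4944571888) (nat_lit 1292) (nat_lit 2581424374) (nat_lit 379) (nat_lit 5) (nat_lit 395) (nat_lit 5) (nat_lit 396) (nat_lit 5) (nat_lit 393) (nat_lit 383) (nat_lit 244)) (XT.nd (nat_lit 78) (nat_lit 0) (nat_lit 76) (XT.lf (nat_lit 76) (nat_lit 4083057821) (nat_lit 0) (nat_lit 6646339854) (nat_lit 1292) (nat_lit 6520359287) (nat_lit 380) (nat_lit 5) (nat_lit 379) (nat_lit 5) (nat_lit 396) (nat_lit 5) (nat_lit 394) (nat_lit 383) (nat_lit 243)) (XT.lf (nat_lit 0) (nat_lit 12086369835) (nat_lit 1216) (nat_lit 4052999257) (nat_lit 1292) (nat_lit 1375729944) (nat_lit 380) (nat_lit 5) (nat_lit 396) (nat_lit 5) (nat_lit 397) (nat_lit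 5) (nat_lit 395) (nat_lit 383) (nat_lit 242)))) (XT.nd (nat_lit 78) (nat_lit 0) (nat_lit 0) (XT.lf (nat_lit 76) (nat_lit 5366043916) (nat_lit 0) (nat_lit 8226464665) (nat_lit 1292) (nat_lit 4192639070) (nat_lit 381) (nat_lit 5) (nat_lit 380) (nat_lit 5) (nat_lit 397) (nat_lit 5) (nat_lit 396) (nat_lit 383) (nat_lit 241)) (XT.nd (nat_lit 78) (nat_lit 0) (nat_lit 76) (XT.lf (nat_lit 76) (nat_lit 15143836056) (nat_lit 0) (nat_lit 32186873) (nat_lit 1292) (nat_lit 2886309052) (nat_lit 381) (nat_lit 5) (nat_lit 380) (nat_lit 5) (nat_lit 397) (nat_lit 5) (nat_lit 397) (nat_lit 383) (nat_lit 240)) (XT.lf (nat_lit 76) (nat_lit 6914254807) (nat_lit 0) (nat_lit 10031609634) (nat_lit 1292) (nat_lit 1397802747) (nat_lit 382) (nat_lit 5) (nat_lit 381) (nat_lit 5) (nat_lit 398) (nat_lit 5) (nat_lit 398) (nat_lit 383) (nat_lit 239))))) (XT.nd (nat_lit 234) (nat_lit 608) (nat_lit 0) (XT.nd (nat_lit 78) (nat_lit 760)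 (nat_lit 0) (XT.lf (nat_lit 0) (nat_lit 154432716) (nat_lit 1292) (nat_lit 1539728959) (nat_lit 1368) (nat_lit 16938590283) (nat_lit 364) (nat_lit 5) (nat_lit 381) (nat_lit 5) (nat_lit 382) (nat_lit 5) (nat_lit 399) (nat_lit 383) (nat_lit 238)) (XT.nd (nat_lit 78) (nat_lit 836) (nat_lit 0) (XT.lf (nat_lit 0) (nat_lit 1868836304) (nat_lit 1292) (nat_lit 10197439739) (nat_lit 76) (nat_lit 6859507173) (nat_lit 365) (nat_lit 5) (nat_lit 382) (nat_lit 5) (nat_lit 366) (nat_lit 5) (nat_lit 400) (nat_lit 383) (nat_lit 237)) (XT.lf (nat_lit 0) (nat_lit 86594361) (nat_lit 836) (nat_lit 3573445805) (nat_lit 912) (nat_lit 15566804203) (nat_lit 354) (nat_lit 5) (nat_lit 365) (nat_lit 5) (nat_lit 366) (nat_lit 5) (nat_lit 401) (nat_lit 383) (nat_lit 236)))) (XT.nd (nat_lit 78) (nat_lit 608) (nat_lit 0) (XT.lf (nat_lit 0) (nat_lit 5650942638) (nat_lit 912) (nat_lit 8703639415) (nat_lit 76) (nat_lit 5177976426) (nat_lit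 354) (nat_lit 5) (nat_lit 366) (nat_lit 5) (nat_lit 355) (nat_lit 5) (nat_lit 402) (nat_lit 383) (nat_lit 235)) (XT.nd (nat_lit 78) (nat_lit 0) (nat_lit 0) (XT.lf (nat_lit 0) (nat_lit 2043554832) (nat_lit 608) (nat_lit 5705499690) (nat_lit 684) (nat_lit 12096965023) (nat_lit 346) (nat_lit 5) (nat_lit 354) (nat_lit 5) (nat_lit 355) (nat_lit 5) (nat_lit 403) (nat_lit 383) (nat_lit 234)) (XT.lf (nat_lit 0) (nat_lit 10022274400) (nat_lit 684) (nat_lit 6913495052) (nat_lit 76) (nat_lit 3229750050) (nat_lit 346) (nat_lit 5) (nat_lit 355) (nat_lit 5) (nat_lit 347) (nat_lit 5) (nat_lit 404) (nat_lit 383) (nat_lit 233)))))) (XT.nd (nat_lit 468) (nat_lit 1596) (nat_lit 0) (XT.nd (nat_lit 234) (nat_lit 1216) (nat_lit 0) (XT.nd (nat_lit 78) (nat_lit 532) (nat_lit 0) (XT.lf (nat_lit 0) (nat_lit 4323052348) (nat_lit 608) (nat_lit 8131514566) (nat_lit 684) (nat_lit 8037311263) (nat_lit 338) (nat_lit 5) (nat_lit 346)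 (nat_lit 5) (nat_lit 347) (nat_lit 5) (nat_lit 405) (nat_lit 383) (nat_lit 232)) (XT.nd (nat_lit 78) (nat_lit 532) (nat_lit 0) (XT.lf (nat_lit 0) (nat_lit 15032311927) (nat_lit 684) (nat_lit 4804317622) (nat_lit 76) (nat_lit 989223551) (nat_lit 338) (nat_lit 5) (nat_lit 347) (nat_lit 5) (nat_lit 339) (nat_lit 5) (nat_lit 406) (nat_lit 383) (nat_lit 231)) (XT.lf (nat_lit 0) (nat_lit 6949325584) (nat_lit 532) (nat_lit 10878553575) (nat_lit 608) (nat_lit 3337753416) (nat_lit 331) (nat_lit 5) (nat_lit 338) (nat_lit 5) (nat_lit 339) (nat_lit 5) (nat_lit 407) (nat_lit 383) (nat_lit 230)))) (XT.nd (nat_lit 78) (nat_lit 1216) (nat_lit 0) (XT.lf (nat_lit 0) (nat_lit 19147232929) (nat_lit 532) (nat_lit 1601906359) (nat_lit 608) (nat_lit 765211370) (nat_lit 331) (nat_lit 5) (nat_lit 338) (nat_lit 5) (nat_lit 339) (nat_lit 5) (nat_lit 408) (nat_lit 383) (nat_lit 229)) (XT.nd (nat_lit 78) (nat_lit 532) (nat_lit 0)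 (XT.lf (nat_lit 0) (nat_lit 2014957683) (nat_lit 684) (nat_lit 11939913875) (nat_lit 76) (nat_lit 7913098547) (nat_lit 322) (nat_lit 5) (nat_lit 331) (nat_lit 5) (nat_lit 323) (nat_lit 5) (nat_lit 409) (nat_lit 383) (nat_lit 228)) (XT.lf (nat_lit 0) (nat_lit 386104075) (nat_lit 532) (nat_lit 4514325913) (nat_lit 608) (nat_lit 17330422511) (nat_lit 315) (nat_lit 5) (nat_lit 322) (nat_lit 5) (nat_lit 323) (nat_lit 5) (nat_lit 410) (nat_lit 383) (nat_lit 227))))) (XT.nd (nat_lit 234) (nat_lit 1064) (nat_lit 0) (XT.nd (nat_lit 78) (nat_lit 532) (nat_lit 0) (XT.lf (nat_lit 0) (nat_lit 8037989555) (nat_lit 608) (nat_lit 9332616922) (nat_lit 76) (nat_lit 5229049195) (nat_lit 315) (nat_lit 5) (nat_lit 323) (nat_lit 5) (nat_lit 316) (nat_lit 5) (nat_lit 411) (nat_lit 383) (nat_lit 226)) (XT.nd (nat_lit 78) (nat_lit 0) (nat_lit 0) (XT.lf (nat_lit 0) (nat_lit 3573108686) (nat_lit 532) (nat_lit 7769477735) (nat_lit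 608) (nat_lit 11634749205) (nat_lit 308) (nat_lit 5) (nat_lit 315) (nat_lit 5) (nat_lit 316) (nat_lit 5) (nat_lit 412) (nat_lit 383) (nat_lit 225)) (XT.lf (nat_lit 0) (nat_lit 14855845493) (nat_lit 608) (nat_lit 6334416804) (nat_lit 76) (nat_lit 2172797951) (nat_lit 308) (nat_lit 5) (nat_lit 316) (nat_lit 5) (nat_lit 309) (nat_lit 5) (nat_lit 413) (nat_lit 383) (nat_lit 224)))) (XT.nd (nat_lit 78) (nat_lit 608) (nat_lit 0) (XT.lf (nat_lit 0) (nat_lit 7184044984) (nat_lit 456) (nat_lit 11430590193) (nat_lit 532) (nat_lit 5141517447) (nat_lit 302) (nat_lit 5) (nat_lit 308) (nat_lit 5) (nat_lit 309) (nat_lit 5) (nat_lit 414) (nat_lit 383) (nat_lit 223)) (XT.nd (nat_lit 78) (nat_lit 608) (nat_lit 0) (XT.lf (nat_lit 0) (nat_lit 21231271963) (nat_lit 456) (nat_lit 1313138245) (nat_lit 532) (nat_lit 1614880914) (nat_lit 302) (nat_lit 5) (nat_lit 308) (nat_lit 5) (nat_lit 309) (nat_lit 5) (nat_lit 415) (nat_lit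 383) (nat_lit 222)) (XT.lf (nat_lit 0) (nat_lit 2170182186) (nat_lit 608) (nat_lit 13339315080) (nat_lit 76) (nat_lit 9058684773) (nat_lit 294) (nat_lit 5) (nat_lit 302) (nat_lit 5) (nat_lit 295) (nat_lit 5) (nat_lit 416) (nat_lit 383) (nat_lit 221))))))))
noncomputable def xc115 : XT := (XT.nd (nat_lit 51714) (nat_lit 0) (nat_lit 912) (XT.nd (nat_lit 50778) (nat_lit 0) (nat_lit 8360) (XT.nd (nat_lit 468) (nat_lit 836) (nat_lit 0) (XT.nd (nat_lit 234) (nat_lit 456) (nat_lit 0) (XT.nd (nat_lit 78) (nat_lit 456) (nat_lit 0) (XT.lf (nat_lit 0) (nat_lit 862935365) (nat_lit 456) (nat_lit 5219021639) (nat_lit 532) (nat_lit 18905534491) (nat_lit 288) (nat_lit 5) (nat_lit 294) (nat_lit 5) (nat_lit 295) (nat_lit 5) (nat_lit 417) (nat_lit 383) (nat_lit 220)) (XT.nd (nat_lit 78) (nat_lit 456) (nat_lit 0) (XT.lf (nat_lit 0) (nat_lit 10293385099) (nat_lit 532) (nat_lit 9710430298) (nat_lit 76) (nat_lit 5410095838)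 (nat_lit 288) (nat_lit 5) (nat_lit 295) (nat_lit 5) (nat_lit 289) (nat_lit 5) (nat_lit 418) (nat_lit 383) (nat_lit 219)) (XT.lf (nat_lit 0) (nat_lit 5178966155) (nat_lit 456) (nat_lit 9548353513) (nat_lit 532) (nat_lit 11122918990) (nat_lit 282) (nat_lit 5) (nat_lit 288) (nat_lit 5) (nat_lit 289) (nat_lit 5) (nat_lit 419) (nat_lit 383) (nat_lit 218)))) (XT.nd (nat_lit 78) (nat_lit 456) (nat_lit 0) (XT.lf (nat_lit 0) (nat_lit 19399820674) (nat_lit 532) (nat_lit 5601940702) (nat_lit 76) (nat_lit 1294728074) (nat_lit 282) (nat_lit 5) (nat_lit 289) (nat_lit 5) (nat_lit 283) (nat_lit 5) (nat_lit 420) (nat_lit 383) (nat_lit 217)) (XT.nd (nat_lit 78) (nat_lit 76) (nat_lit 0) (XT.lf (nat_lit 0) (nat_lit 10013913599) (nat_lit 380) (nat_lit 14384319411) (nat_lit 456) (nat_lit 2352322669) (nat_lit 277) (nat_lit 5) (nat_lit 282) (nat_lit 5) (nat_lit 283) (nat_lit 5) (nat_lit 421) (nat_lit 383) (nat_lit 216)) (XT.lf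 (nat_lit 0) (nat_lit 2335023230) (nat_lit 456) (nat_lit 1032874476) (nat_lit 76) (nat_lit 23848111621) (nat_lit 276) (nat_lit 5) (nat_lit 282) (nat_lit 5) (nat_lit 277) (nat_lit 5) (nat_lit 422) (nat_lit 383) (nat_lit 215))))) (XT.nd (nat_lit 50076) (nat_lit 0) (nat_lit 8284) (XT.nd (nat_lit 78) (nat_lit 380) (nat_lit 0) (XT.lf (nat_lit 0) (nat_lit 7337376256) (nat_lit 532) (nat_lit 12355605214) (nat_lit 76) (nat_lit 7995096423) (nat_lit 270) (nat_lit 5) (nat_lit 277) (nat_lit 5) (nat_lit 271) (nat_lit 5) (nat_lit 423) (nat_lit 383) (nat_lit 214)) (XT.nd (nat_lit 78) (nat_lit 0) (nat_lit 0) (XT.lf (nat_lit 0) (nat_lit 4075695992) (nat_lit 380) (nat_lit 8492351110) (nat_lit 456) (nat_lit 15603913996) (nat_lit 265) (nat_lit 5) (nat_lit 270) (nat_lit 5) (nat_lit 271) (nat_lit 5) (nat_lit 424) (nat_lit 383) (nat_lit 213)) (XT.lf (nat_lit 0) (nat_lit 18106159570) (nat_lit 456) (nat_lit 7450311779) (nat_lit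 76) (nat_lit 3109373806) (nat_lit 265) (nat_lit 5) (nat_lit 271) (nat_lit 5) (nat_lit 266) (nat_lit 5) (nat_lit 425) (nat_lit 383) (nat_lit 212)))) (XT.nd (nat_lit 78) (nat_lit 0) (nat_lit 0) (XT.lf (nat_lit 0) (nat_lit 1380803116) (nat_lit 1292) (nat_lit 3084400812) (nat_lit 1292) (nat_lit 3084400812) (nat_lit 374) (nat_lit 3) (nat_lit 391) (nat_lit 3) (nat_lit 391) (nat_lit 5) (nat_lit 384) (nat_lit 384) (nat_lit 252)) (XT.nd (nat_lit 78) (nat_lit 0) (nat_lit 76) (XT.lf (nat_lit 76) (nat_lit 1408283805) (nat_lit 0) (nat_lit 1702188094) (nat_lit 1292) (nat_lit 12206002476) (nat_lit 375) (nat_lit 5) (nat_lit 374) (nat_lit 3) (nat_lit 391) (nat_lit 5) (nat_lit 385) (nat_lit 384) (nat_lit 251)) (XT.lf (nat_lit 0) (nat_lit 3576441883) (nat_lit 1216) (nat_lit 6261496567) (nat_lit 1292) (nat_lit 5699119617) (nat_lit 375) (nat_lit 5) (nat_lit 391) (nat_lit 5) (nat_lit 392) (nat_lit 5) (nat_lit 386) (nat_lit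 384) (nat_lit 250)))))) (XT.nd (nat_lit 468) (nat_lit 0) (nat_lit 228) (XT.nd (nat_lit 234) (nat_lit 0) (nat_lit 152) (XT.nd (nat_lit 78) (nat_lit 0) (nat_lit 76) (XT.lf (nat_lit 76) (nat_lit 1623182644) (nat_lit 0) (nat_lit 2454523652) (nat_lit 1292) (nat_lit 11685913513) (nat_lit 376) (nat_lit 5) (nat_lit 375) (nat_lit 5) (nat_lit 392) (nat_lit 5) (nat_lit 387) (nat_lit 384) (nat_lit 249)) (XT.nd (nat_lit 78) (nat_lit 0) (nat_lit 0) (XT.lf (nat_lit 0) (nat_lit 4696541521) (nat_lit 1216) (nat_lit 6179006255) (nat_lit 1292) (nat_lit 5118354641) (nat_lit 376) (nat_lit 5) (nat_lit 392) (nat_lit 5) (nat_lit 393) (nat_lit 5) (nat_lit 388) (nat_lit 384) (nat_lit 248)) (XT.lf (nat_lit 76) (nat_lit 2030226351) (nat_lit 0) (nat_lit 3337018179) (nat_lit 1292) (nat_lit 10862849892) (nat_lit 377) (nat_lit 5) (nat_lit 376) (nat_lit 5) (nat_lit 393) (nat_lit 5) (nat_lit 389) (nat_lit 384) (nat_lit 247)))) (XT.nd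 (nat_lit 78) (nat_lit 0) (nat_lit 0) (XT.lf (nat_lit 0) (nat_lit 6153412430) (nat_lit 1216) (nat_lit 5908920066) (nat_lit 1292) (nat_lit 4408179376) (nat_lit 377) (nat_lit 5) (nat_lit 393) (nat_lit 5) (nat_lit 394) (nat_lit 5) (nat_lit 390) (nat_lit 384) (nat_lit 246)) (XT.nd (nat_lit 78) (nat_lit 0) (nat_lit 76) (XT.lf (nat_lit 76) (nat_lit 2642841313) (nat_lit 0) (nat_lit 4368835168) (nat_lit 1292) (nat_lit 9705010032) (nat_lit 378) (nat_lit 5) (nat_lit 377) (nat_lit 5) (nat_lit 394) (nat_lit 5) (nat_lit 391) (nat_lit 384) (nat_lit 245)) (XT.lf (nat_lit 0) (nat_lit 7980451675) (nat_lit 1216) (nat_lit 5437648361) (nat_lit 1292) (nat_lit 3549603460) (nat_lit 378) (nat_lit 5) (nat_lit 394) (nat_lit 5) (nat_lit 395) (nat_lit 5) (nat_lit 392) (nat_lit 384) (nat_lit 244))))) (XT.nd (nat_lit 234) (nat_lit 0) (nat_lit 152) (XT.nd (nat_lit 78) (nat_lit 0) (nat_lit 76) (XT.lf (nat_lit 76) (nat_lit 3475690645)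 (nat_lit 0) (nat_lit 5569874100) (nat_lit 1292) (nat_lit 8178668006) (nat_lit 379) (nat_lit 5) (nat_lit 378) (nat_lit 5) (nat_lit 395) (nat_lit 5) (nat_lit 393) (nat_lit 384) (nat_lit 243)) (XT.nd (nat_lit 78) (nat_lit 0) (nat_lit 0) (XT.lf (nat_lit 0) (nat_lit 10213094820) (nat_lit 1216) (nat_lit 4750371167) (nat_lit 1292) (nat_lit 2522877988) (nat_lit 379) (nat_lit 5) (nat_lit 395) (nat_lit 5) (nat_lit 396) (nat_lit 5) (nat_lit 394) (nat_lit 384) (nat_lit 242)) (XT.lf (nat_lit 76) (nat_lit 4544729218) (nat_lit 0) (nat_lit 6960868377) (nat_lit 1292) (nat_lit 6248022536) (nat_lit 380) (nat_lit 5) (nat_lit 379) (nat_lit 5) (nat_lit 396) (nat_lit 5) (nat_lit 395) (nat_lit 384) (nat_lit 241)))) (XT.nd (nat_lit 78) (nat_lit 0) (nat_lit 0) (XT.lf (nat_lit 0) (nat_lit 12888971814) (nat_lit 1216) (nat_lit 3830981485) (nat_lit 1292) (nat_lit 1307398383) (nat_lit 380) (nat_lit 5) (nat_lit 396) (nat_lit 5) (nat_lit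 397) (nat_lit 5) (nat_lit 396) (nat_lit 384) (nat_lit 240)) (XT.nd (nat_lit 78) (nat_lit 0) (nat_lit 0) (XT.lf (nat_lit 76) (nat_lit 5867264281) (nat_lit 0) (nat_lit 8563485177) (nat_lit 1292) (nat_lit 3875038655) (nat_lit 381) (nat_lit 5) (nat_lit 380) (nat_lit 5) (nat_lit 397) (nat_lit 5) (nat_lit 397) (nat_lit 384) (nat_lit 239)) (XT.lf (nat_lit 76) (nat_lit 15928480309) (nat_lit 0) (nat_lit 120751092) (nat_lit 1292) (nat_lit 2542432705) (nat_lit 381) (nat_lit 5) (nat_lit 380) (nat_lit 5) (nat_lit 397) (nat_lit 5) (nat_lit 398) (nat_lit 384) (nat_lit 238))))))) (XT.nd (nat_lit 936) (nat_lit 3420) (nat_lit 0) (XT.nd (nat_lit 468) (nat_lit 1824) (nat_lit 0) (XT.nd (nat_lit 234) (nat_lit 1368) (nat_lit 0) (XT.nd (nat_lit 78) (nat_lit 1292) (nat_lit 0) (XT.lf (nat_lit 76) (nat_lit 7462021812) (nat_lit 0) (nat_lit 10400427718) (nat_lit 1292) (nat_lit 1019281399) (nat_lit 382) (nat_lit 5) (nat_lit 381)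 (nat_lit 5) (nat_lit 398) (nat_lit 5) (nat_lit 399) (nat_lit 384) (nat_lit 237)) (XT.nd (nat_lit 78) (nat_lit 0) (nat_lit 76) (XT.lf (nat_lit 0) (nat_lit 559309222) (nat_lit 1292) (nat_lit 1247528634) (nat_lit 1368) (nat_lit 17372889355) (nat_lit 364) (nat_lit 5) (nat_lit 381) (nat_lit 5) (nat_lit 382) (nat_lit 5) (nat_lit 400) (nat_lit 384) (nat_lit 236)) (XT.lf (nat_lit 0) (nat_lit 2316162937) (nat_lit 1292) (nat_lit 10155988756) (nat_lit 76) (nat_lit 7009667175) (nat_lit 365) (nat_lit 5) (nat_lit 382) (nat_lit 5) (nat_lit 366) (nat_lit 5) (nat_lit 401) (nat_lit 384) (nat_lit 235)))) (XT.nd (nat_lit 78) (nat_lit 608) (nat_lit 0) (XT.lf (nat_lit 0) (nat_lit 433160738) (nat_lit 836) (nat_lit 3719852645) (nat_lit 912) (nat_lit 15639141157) (nat_lit 354) (nat_lit 5) (nat_lit 365) (nat_lit 5) (nat_lit 366) (nat_lit 5) (nat_lit 402) (nat_lit 384) (nat_lit 234)) (XT.nd (nat_lit 78) (nat_lit 608) (nat_lit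 0) (XT.lf (nat_lit 0) (nat_lit 6192116708) (nat_lit 912) (nat_lit 8619272332) (nat_lit 76) (nat_lit 5295996821) (nat_lit 354) (nat_lit 5) (nat_lit 366) (nat_lit 5) (nat_lit 355) (nat_lit 5) (nat_lit 403) (nat_lit 384) (nat_lit 233)) (XT.lf (nat_lit 0) (nat_lit 2446950721) (nat_lit 608) (nat_lit 5898684963) (nat_lit 684) (nat_lit 12084841161) (nat_lit 346) (nat_lit 5) (nat_lit 354) (nat_lit 5) (nat_lit 355) (nat_lit 5) (nat_lit 404) (nat_lit 384) (nat_lit 232))))) (XT.nd (nat_lit 234) (nat_lit 1216) (nat_lit 0) (XT.nd (nat_lit 78) (nat_lit 608) (nat_lit 0) (XT.lf (nat_lit 0) (nat_lit 10676241520) (nat_lit 684) (nat_lit 6777963785) (nat_lit 76) (nat_lit 3305680816) (nat_lit 346) (nat_lit 5) (nat_lit 355) (nat_lit 5) (nat_lit 347) (nat_lit 5) (nat_lit 405) (nat_lit 384) (nat_lit 231)) (XT.nd (nat_lit 78) (nat_lit 0) (nat_lit 0) (XT.lf (nat_lit 0) (nat_lit 4792317918) (nat_lit 608) (nat_lit 8382158825) (nat_lit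 684) (nat_lit 7921769594) (nat_lit 338) (nat_lit 5) (nat_lit 346) (nat_lit 5) (nat_lit 347) (nat_lit 5) (nat_lit 406) (nat_lit 384) (nat_lit 230)) (XT.lf (nat_lit 0) (nat_lit 15819405973) (nat_lit 684) (nat_lit 4608615522) (nat_lit 76) (nat_lit 1012523457) (nat_lit 338) (nat_lit 5) (nat_lit 347) (nat_lit 5) (nat_lit 339) (nat_lit 5) (nat_lit 407) (nat_lit 384) (nat_lit 229)))) (XT.nd (nat_lit 78) (nat_lit 684) (nat_lit 0) (XT.lf (nat_lit 0) (nat_lit 7494305298) (nat_lit 532) (nat_lit 11197979528) (nat_lit 608) (nat_lit 3098429648) (nat_lit 331) (nat_lit 5) (nat_lit 338) (nat_lit 5) (nat_lit 339) (nat_lit 5) (nat_lit 408) (nat_lit 384) (nat_lit 228)) (XT.nd (nat_lit 78) (nat_lit 684) (nat_lit 0) (XT.lf (nat_lit 0) (nat_lit 20048348894) (nat_lit 532) (nat_lit 1643234760) (nat_lit 608) (nat_lit 458598419) (nat_lit 331) (nat_lit 5) (nat_lit 338) (nat_lit 5) (nat_lit 339) (nat_lit 5) (nat_lit 409) (nat_lit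 384) (nat_lit 227)) (XT.lf (nat_lit 0) (nat_lit 2392428330) (nat_lit 684) (nat_lit 11958864938) (nat_lit 76) (nat_lit 8163205283) (nat_lit 322) (nat_lit 5) (nat_lit 331) (nat_lit 5) (nat_lit 323) (nat_lit 5) (nat_lit 410) (nat_lit 384) (nat_lit 226)))))) (XT.nd (nat_lit 468) (nat_lit 1900) (nat_lit 0) (XT.nd (nat_lit 234) (nat_lit 456) (nat_lit 0) (XT.nd (nat_lit 78) (nat_lit 532) (nat_lit 0) (XT.lf (nat_lit 0) (nat_lit 733607606) (nat_lit 532) (nat_lit 4624852622) (nat_lit 608) (nat_lit 17529987326) (nat_lit 315) (nat_lit 5) (nat_lit 322) (nat_lit 5) (nat_lit 323) (nat_lit 5) (nat_lit 411) (nat_lit 384) (nat_lit 225)) (XT.nd (nat_lit 78) (nat_lit 532) (nat_lit 0) (XT.lf (nat_lit 0) (nat_lit 8581320236) (nat_lit 608) (nat_lit 9277632765) (nat_lit 76) (nat_lit 5409626612) (nat_lit 315) (nat_lit 5) (nat_lit 323) (nat_lit 5) (nat_lit 316) (nat_lit 5) (nat_lit 412) (nat_lit 384) (nat_lit 224)) (XT.lf (nat_lit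 0) (nat_lit 4011980664) (nat_lit 532) (nat_lit 7967460963) (nat_lit 608) (nat_lit 11678316739) (nat_lit 308) (nat_lit 5) (nat_lit 315) (nat_lit 5) (nat_lit 316) (nat_lit 5) (nat_lit 413) (nat_lit 384) (nat_lit 223)))) (XT.nd (nat_lit 78) (nat_lit 456) (nat_lit 0) (XT.lf (nat_lit 0) (nat_lit 15589787874) (nat_lit 608) (nat_lit 6194120539) (nat_lit 76) (nat_lit 2271395632) (nat_lit 308) (nat_lit 5) (nat_lit 316) (nat_lit 5) (nat_lit 309) (nat_lit 5) (nat_lit 414) (nat_lit 384) (nat_lit 222)) (XT.nd (nat_lit 78) (nat_lit 0) (nat_lit 0) (XT.lf (nat_lit 0) (nat_lit 7726656586) (nat_lit 456) (nat_lit 11729432728) (nat_lit 532) (nat_lit 5004257437) (nat_lit 302) (nat_lit 5) (nat_lit 308) (nat_lit 5) (nat_lit 309) (nat_lit 5) (nat_lit 415) (nat_lit 384) (nat_lit 221)) (XT.lf (nat_lit 0) (nat_lit 22185773473) (nat_lit 456) (nat_lit 1309740965) (nat_lit 532) (nat_lit 1380312260) (nat_lit 302) (nat_lit 5) (nat_lit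 308) (nat_lit 5) (nat_lit 309) (nat_lit 5) (nat_lit 416) (nat_lit 384) (nat_lit 220))))) (XT.nd (nat_lit 234) (nat_lit 836) (nat_lit 0) (XT.nd (nat_lit 78) (nat_lit 456) (nat_lit 0) (XT.lf (nat_lit 0) (nat_lit 2508228993) (nat_lit 608) (nat_lit 13411857441) (nat_lit 76) (nat_lit 9376952825) (nat_lit 294) (nat_lit 5) (nat_lit 302) (nat_lit 5) (nat_lit 295) (nat_lit 5) (nat_lit 417) (nat_lit 384) (nat_lit 219)) (XT.nd (nat_lit 78) (nat_lit 0) (nat_lit 0) (XT.lf (nat_lit 0) (nat_lit 1213248389) (nat_lit 456) (nat_lit 5319277490) (nat_lit 532) (nat_lit 19196547056) (nat_lit 288) (nat_lit 5) (nat_lit 294) (nat_lit 5) (nat_lit 295) (nat_lit 5) (nat_lit 418) (nat_lit 384) (nat_lit 218)) (XT.lf (nat_lit 0) (nat_lit 10863013348) (nat_lit 532) (nat_lit 9679484046) (nat_lit 76) (nat_lit 5626006377) (nat_lit 288) (nat_lit 5) (nat_lit 295) (nat_lit 5) (nat_lit 289) (nat_lit 5) (nat_lit 419) (nat_lit 384) (nat_lit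 217)))) (XT.nd (nat_lit 78) (nat_lit 380) (nat_lit 0) (XT.lf (nat_lit 0) (nat_lit 5653434896) (nat_lit 456) (nat_lit 9772001545) (nat_lit 532) (nat_lit 11192620460) (nat_lit 282) (nat_lit 5) (nat_lit 288) (nat_lit 5) (nat_lit 289) (nat_lit 5) (nat_lit 420) (nat_lit 384) (nat_lit 216)) (XT.nd (nat_lit 78) (nat_lit 380) (nat_lit 0) (XT.lf (nat_lit 0) (nat_lit 20231233626) (nat_lit 532) (nat_lit 5453314481) (nat_lit 76) (nat_lit 1393353478) (nat_lit 282) (nat_lit 5) (nat_lit 289) (nat_lit 5) (nat_lit 283) (nat_lit 5) (nat_lit 421) (nat_lit 384) (nat_lit 215)) (XT.lf (nat_lit 0) (nat_lit 10627910700) (nat_lit 380) (nat_lit 14747437340) (nat_lit 456) (nat_lit 2170369268) (nat_lit 277) (nat_lit 5) (nat_lit 282) (nat_lit 5) (nat_lit 283) (nat_lit 5) (nat_lit 422) (nat_lit 384) (nat_lit 214))))))))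
noncomputable def xc116 : XT := (XT.nd (nat_lit 51714) (nat_lit 0) (nat_lit 836) (XT.nd (nat_lit 50778) (nat_lit 0) (nat_lit 6764) (XT.nd (nat_lit 50310) (nat_lit 0) (nat_lit 8360) (XT.nd (nat_lit 156) (nat_lit 380) (nat_lit 0) (XT.nd (nat_lit 78) (nat_lit 456) (nat_lit 0) (XT.lf (nat_lit 0) (nat_lit 2645457855) (nat_lit 456) (nat_lit 754630295) (nat_lit 76) (nat_lit 24625189939) (nat_lit 276) (nat_lit 5) (nat_lit 282) (nat_lit 5) (nat_lit 277) (nat_lit 5) (nat_lit 423) (nat_lit 384) (nat_lit 213)) (XT.lf (nat_lit 0) (nat_lit 7794495028) (nat_lit 532) (nat_lit 12413656513) (nat_lit 76) (nat_lit 8303458764) (nat_lit 270) (nat_lit 5) (nat_lit 277) (nat_lit 5) (nat_lit 271) (nat_lit 5) (nat_lit 424) (nat_lit 384) (nat_lit 212))) (XT.nd (nat_lit 49998) (nat_lit 0) (nat_lit 8284) (XT.lf (nat_lit 0) (nat_lit 4507518859) (nat_lit 380) (nat_lit 8670639905) (nat_lit 456) (nat_lit 15831969060) (nat_lit 265) (nat_lit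 5) (nat_lit 270) (nat_lit 5) (nat_lit 271) (nat_lit 5) (nat_lit 425) (nat_lit 384) (nat_lit 211)) (XT.nd (nat_lit 78) (nat_lit 0) (nat_lit 0) (XT.lf (nat_lit 0) (nat_lit 1713306310) (nat_lit 1292) (nat_lit 3027027099) (nat_lit 1292) (nat_lit 3027027099) (nat_lit 374) (nat_lit 3) (nat_lit 391) (nat_lit 3) (nat_lit 391) (nat_lit 5) (nat_lit 385) (nat_lit 385) (nat_lit 250)) (XT.lf (nat_lit 76) (nat_lit 1747404465) (nat_lit 0) (nat_lit 2024437445) (nat_lit 1292) (nat_lit 11987085021) (nat_lit 375) (nat_lit 5) (nat_lit 374) (nat_lit 3) (nat_lit 391) (nat_lit 5) (nat_lit 386) (nat_lit 385) (nat_lit 249))))) (XT.nd (nat_lit 234) (nat_lit 0) (nat_lit 76) (XT.nd (nat_lit 78) (nat_lit 0) (nat_lit 0) (XT.lf (nat_lit 0) (nat_lit 4232714820) (nat_lit 1216) (nat_lit 6142039905) (nat_lit 1292) (nat_lit 5611945693) (nat_lit 375) (nat_lit 5) (nat_lit 391) (nat_lit 5) (nat_lit 392) (nat_lit 5) (nat_lit 387) (nat_lit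 385) (nat_lit 248)) (XT.nd (nat_lit 78) (nat_lit 0) (nat_lit 76) (XT.lf (nat_lit 76) (nat_lit 1976166921) (nat_lit 0) (nat_lit 2759785555) (nat_lit 1292) (nat_lit 11484498478) (nat_lit 376) (nat_lit 5) (nat_lit 375) (nat_lit 5) (nat_lit 392) (nat_lit 5) (nat_lit 388) (nat_lit 385) (nat_lit 247)) (XT.lf (nat_lit 0) (nat_lit 5355581901) (nat_lit 1216) (nat_lit 6051179569) (nat_lit 1292) (nat_lit 5051413696) (nat_lit 376) (nat_lit 5) (nat_lit 392) (nat_lit 5) (nat_lit 393) (nat_lit 5) (nat_lit 389) (nat_lit 385) (nat_lit 246)))) (XT.nd (nat_lit 78) (nat_lit 0) (nat_lit 76) (XT.lf (nat_lit 76) (nat_lit 2401259458) (nat_lit 0) (nat_lit 3633036090) (nat_lit 1292) (nat_lit 10667520697) (nat_lit 377) (nat_lit 5) (nat_lit 376) (nat_lit 5) (nat_lit 393) (nat_lit 5) (nat_lit 390) (nat_lit 385) (nat_lit 245)) (XT.nd (nat_lit 78) (nat_lit 0) (nat_lit 0) (XT.lf (nat_lit 0) (nat_lit 6827481308) (nat_lit 1216) (nat_lit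 5768526980) (nat_lit 1292) (nat_lit 4353934945) (nat_lit 377) (nat_lit 5) (nat_lit 393) (nat_lit 5) (nat_lit 394) (nat_lit 5) (nat_lit 391) (nat_lit 385) (nat_lit 244)) (XT.lf (nat_lit 76) (nat_lit 3036672920) (nat_lit 0) (nat_lit 4663587667) (nat_lit 1292) (nat_lit 9503579508) (nat_lit 378) (nat_lit 5) (nat_lit 377) (nat_lit 5) (nat_lit 394) (nat_lit 5) (nat_lit 392) (nat_lit 385) (nat_lit 243)))))) (XT.nd (nat_lit 468) (nat_lit 1824) (nat_lit 0) (XT.nd (nat_lit 234) (nat_lit 0) (nat_lit 76) (XT.nd (nat_lit 78) (nat_lit 0) (nat_lit 0) (XT.lf (nat_lit 0) (nat_lit 8682642262) (nat_lit 1216) (nat_lit 5279936214) (nat_lit 1292) (nat_lit 3500272815) (nat_lit 378) (nat_lit 5) (nat_lit 394) (nat_lit 5) (nat_lit 395) (nat_lit 5) (nat_lit 393) (nat_lit 385) (nat_lit 242)) (XT.nd (nat_lit 78) (nat_lit 0) (nat_lit 76) (XT.lf (nat_lit 76) (nat_lit 3897657456) (nat_lit 0) (nat_lit 5871626214) (nat_lit 1292) (nat_lit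 7958105505) (nat_lit 379) (nat_lit 5) (nat_lit 378) (nat_lit 5) (nat_lit 395) (nat_lit 5) (nat_lit 394) (nat_lit 385) (nat_lit 241)) (XT.lf (nat_lit 0) (nat_lit 10957407652) (nat_lit 1216) (nat_lit 4570007500) (nat_lit 1292) (nat_lit 2470381542) (nat_lit 379) (nat_lit 5) (nat_lit 395) (nat_lit 5) (nat_lit 396) (nat_lit 5) (nat_lit 395) (nat_lit 385) (nat_lit 240)))) (XT.nd (nat_lit 78) (nat_lit 0) (nat_lit 76) (XT.lf (nat_lit 76) (nat_lit 5000780457) (nat_lit 0) (nat_lit 7278223344) (nat_lit 1292) (nat_lit 5994377785) (nat_lit 380) (nat_lit 5) (nat_lit 379) (nat_lit 5) (nat_lit 396) (nat_lit 5) (nat_lit 396) (nat_lit 385) (nat_lit 239)) (XT.nd (nat_lit 78) (nat_lit 0) (nat_lit 0) (XT.lf (nat_lit 0) (nat_lit 13690393427) (nat_lit 1216) (nat_lit 3622027670) (nat_lit 1292) (nat_lit 1243308562) (nat_lit 380) (nat_lit 5) (nat_lit 396) (nat_lit 5) (nat_lit 397) (nat_lit 5) (nat_lit 397) (nat_lit 385) (nat_lit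 238)) (XT.lf (nat_lit 76) (nat_lit 6363990143) (nat_lit 0) (nat_lit 8905436929) (nat_lit 1292) (nat_lit 3573362029) (nat_lit 381) (nat_lit 5) (nat_lit 380) (nat_lit 5) (nat_lit 397) (nat_lit 5) (nat_lit 398) (nat_lit 385) (nat_lit 237))))) (XT.nd (nat_lit 234) (nat_lit 760) (nat_lit 0) (XT.nd (nat_lit 78) (nat_lit 1216) (nat_lit 0) (XT.lf (nat_lit 76) (nat_lit 16717701644) (nat_lit 0) (nat_lit 206943719) (nat_lit 1292) (nat_lit 2212950556) (nat_lit 381) (nat_lit 5) (nat_lit 380) (nat_lit 5) (nat_lit 397) (nat_lit 5) (nat_lit 399) (nat_lit 385) (nat_lit 236)) (XT.nd (nat_lit 78) (nat_lit 1292) (nat_lit 0) (XT.lf (nat_lit 76) (nat_lit 8006684954) (nat_lit 0) (nat_lit 10776414341) (nat_lit 1292) (nat_lit 653540273) (nat_lit 382) (nat_lit 5) (nat_lit 381) (nat_lit 5) (nat_lit 398) (nat_lit 5) (nat_lit 400) (nat_lit 385) (nat_lit 235)) (XT.lf (nat_lit 0) (nat_lit 953356407) (nat_lit 1292) (nat_lit 965987396)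 (nat_lit 1368) (nat_lit 17824457187) (nat_lit 364) (nat_lit 5) (nat_lit 381) (nat_lit 5) (nat_lit 382) (nat_lit 5) (nat_lit 401) (nat_lit 385) (nat_lit 234)))) (XT.nd (nat_lit 78) (nat_lit 836) (nat_lit 0) (XT.lf (nat_lit 0) (nat_lit 2754449355) (nat_lit 1292) (nat_lit 10133234942) (nat_lit 76) (nat_lit 7167525091) (nat_lit 365) (nat_lit 5) (nat_lit 382) (nat_lit 5) (nat_lit 366) (nat_lit 5) (nat_lit 402) (nat_lit 385) (nat_lit 233)) (XT.nd (nat_lit 78) (nat_lit 0) (nat_lit 0) (XT.lf (nat_lit 0) (nat_lit 770378905) (nat_lit 836) (nat_lit 3868401250) (nat_lit 912) (nat_lit 15736303730) (nat_lit 354) (nat_lit 5) (nat_lit 365) (nat_lit 5) (nat_lit 366) (nat_lit 5) (nat_lit 403) (nat_lit 385) (nat_lit 232)) (XT.lf (nat_lit 0) (nat_lit 6728192011) (nat_lit 912) (nat_lit 8552205986) (nat_lit 76) (nat_lit 5419700085) (nat_lit 354) (nat_lit 5) (nat_lit 366) (nat_lit 5) (nat_lit 355) (nat_lit 5) (nat_lit 404)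 (nat_lit 385) (nat_lit 231))))))) (XT.nd (nat_lit 936) (nat_lit 1976) (nat_lit 0) (XT.nd (nat_lit 468) (nat_lit 2204) (nat_lit 0) (XT.nd (nat_lit 234) (nat_lit 532) (nat_lit 0) (XT.nd (nat_lit 78) (nat_lit 608) (nat_lit 0) (XT.lf (nat_lit 0) (nat_lit 2842811164) (nat_lit 608) (nat_lit 6096401741) (nat_lit 684) (nat_lit 12093882001) (nat_lit 346) (nat_lit 5) (nat_lit 354) (nat_lit 5) (nat_lit 355) (nat_lit 5) (nat_lit 405) (nat_lit 385) (nat_lit 230)) (XT.nd (nat_lit 78) (nat_lit 608) (nat_lit 0) (XT.lf (nat_lit 0) (nat_lit 11329546852) (nat_lit 684) (nat_lit 6658052516) (nat_lit 76) (nat_lit 3385092794) (nat_lit 346) (nat_lit 5) (nat_lit 355) (nat_lit 5) (nat_lit 347) (nat_lit 5) (nat_lit 406) (nat_lit 385) (nat_lit 229)) (XT.lf (nat_lit 0) (nat_lit 5256168519) (nat_lit 608) (nat_lit 8639937872) (nat_lit 684) (nat_lit 7823235476) (nat_lit 338) (nat_lit 5) (nat_lit 346) (nat_lit 5) (nat_lit 347) (nat_lit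 5) (nat_lit 407) (nat_lit 385) (nat_lit 228)))) (XT.nd (nat_lit 78) (nat_lit 532) (nat_lit 0) (XT.lf (nat_lit 0) (nat_lit 16610817908) (nat_lit 684) (nat_lit 4426550085) (nat_lit 76) (nat_lit 1036888416) (nat_lit 338) (nat_lit 5) (nat_lit 347) (nat_lit 5) (nat_lit 339) (nat_lit 5) (nat_lit 408) (nat_lit 385) (nat_lit 227)) (XT.nd (nat_lit 78) (nat_lit 0) (nat_lit 0) (XT.lf (nat_lit 0) (nat_lit 8036317929) (nat_lit 532) (nat_lit 11527386108) (nat_lit 608) (nat_lit 2871412351) (nat_lit 331) (nat_lit 5) (nat_lit 338) (nat_lit 5) (nat_lit 339) (nat_lit 5) (nat_lit 409) (nat_lit 385) (nat_lit 226)) (XT.lf (nat_lit 0) (nat_lit 20957744480) (nat_lit 532) (nat_lit 1686189272) (nat_lit 608) (nat_lit 161705705) (nat_lit 331) (nat_lit 5) (nat_lit 338) (nat_lit 5) (nat_lit 339) (nat_lit 5) (nat_lit 410) (nat_lit 385) (nat_lit 225))))) (XT.nd (nat_lit 234) (nat_lit 988) (nat_lit 0) (XT.nd (nat_lit 78) (nat_lit 532)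 (nat_lit 0) (XT.lf (nat_lit 0) (nat_lit 2763024740) (nat_lit 684) (nat_lit 11997858662) (nat_lit 76) (nat_lit 8420085398) (nat_lit 322) (nat_lit 5) (nat_lit 331) (nat_lit 5) (nat_lit 323) (nat_lit 5) (nat_lit 411) (nat_lit 385) (nat_lit 224)) (XT.nd (nat_lit 78) (nat_lit 0) (nat_lit 0) (XT.lf (nat_lit 0) (nat_lit 1072253037) (nat_lit 532) (nat_lit 4740124670) (nat_lit 608) (nat_lit 17753928363) (nat_lit 315) (nat_lit 5) (nat_lit 322) (nat_lit 5) (nat_lit 323) (nat_lit 5) (nat_lit 412) (nat_lit 385) (nat_lit 223)) (XT.lf (nat_lit 0) (nat_lit 9123603838) (nat_lit 608) (nat_lit 9240227310) (nat_lit 76) (nat_lit 5594260534) (nat_lit 315) (nat_lit 5) (nat_lit 323) (nat_lit 5) (nat_lit 316) (nat_lit 5) (nat_lit 413) (nat_lit 385) (nat_lit 222)))) (XT.nd (nat_lit 78) (nat_lit 456) (nat_lit 0) (XT.lf (nat_lit 0) (nat_lit 4444979086) (nat_lit 532) (nat_lit 8173398634) (nat_lit 608) (nat_lit 11740726811) (nat_lit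 308) (nat_lit 5) (nat_lit 315) (nat_lit 5) (nat_lit 316) (nat_lit 5) (nat_lit 414) (nat_lit 385) (nat_lit 221)) (XT.nd (nat_lit 78) (nat_lit 456) (nat_lit 0) (XT.lf (nat_lit 0) (nat_lit 16329200820) (nat_lit 608) (nat_lit 6068577608) (nat_lit 76) (nat_lit 2371033159) (nat_lit 308) (nat_lit 5) (nat_lit 316) (nat_lit 5) (nat_lit 309) (nat_lit 5) (nat_lit 415) (nat_lit 385) (nat_lit 220)) (XT.lf (nat_lit 0) (nat_lit 8266770217) (nat_lit 456) (nat_lit 12039770633) (nat_lit 532) (nat_lit 4879613237) (nat_lit 302) (nat_lit 5) (nat_lit 308) (nat_lit 5) (nat_lit 309) (nat_lit 5) (nat_lit 416) (nat_lit 385) (nat_lit 219)))))) (XT.nd (nat_lit 468) (nat_lit 456) (nat_lit 0) (XT.nd (nat_lit 234) (nat_lit 456) (nat_lit 0) (XT.nd (nat_lit 78) (nat_lit 1064) (nat_lit 0) (XT.lf (nat_lit 0) (nat_lit 23150680594) (nat_lit 456) (nat_lit 1308698168) (nat_lit 532) (nat_lit 1154952770) (nat_lit 302) (nat_lit 5) (nat_lit 308)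 (nat_lit 5) (nat_lit 309) (nat_lit 5) (nat_lit 417) (nat_lit 385) (nat_lit 218)) (XT.nd (nat_lit 78) (nat_lit 456) (nat_lit 0) (XT.lf (nat_lit 0) (nat_lit 2840749255) (nat_lit 608) (nat_lit 13505383783) (nat_lit 76) (nat_lit 9702099198) (nat_lit 294) (nat_lit 5) (nat_lit 302) (nat_lit 5) (nat_lit 295) (nat_lit 5) (nat_lit 418) (nat_lit 385) (nat_lit 217)) (XT.lf (nat_lit 0) (nat_lit 1555447483) (nat_lit 456) (nat_lit 5425773717) (nat_lit 532) (nat_lit 19512142337) (nat_lit 288) (nat_lit 5) (nat_lit 294) (nat_lit 5) (nat_lit 295) (nat_lit 5) (nat_lit 419) (nat_lit 385) (nat_lit 216)))) (XT.nd (nat_lit 78) (nat_lit 456) (nat_lit 0) (XT.lf (nat_lit 0) (nat_lit 11434757925) (nat_lit 532) (nat_lit 9666108401) (nat_lit 76) (nat_lit 5845316932) (nat_lit 288) (nat_lit 5) (nat_lit 295) (nat_lit 5) (nat_lit 289) (nat_lit 5) (nat_lit 420) (nat_lit 385) (nat_lit 215)) (XT.nd (nat_lit 78) (nat_lit 0) (nat_lit 0)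 (XT.lf (nat_lit 0) (nat_lit 6123820069) (nat_lit 456) (nat_lit 10005964144) (nat_lit 532) (nat_lit 11279566856) (nat_lit 282) (nat_lit 5) (nat_lit 288) (nat_lit 5) (nat_lit 289) (nat_lit 5) (nat_lit 421) (nat_lit 385) (nat_lit 214)) (XT.lf (nat_lit 0) (nat_lit 21073271333) (nat_lit 532) (nat_lit 5318408455) (nat_lit 76) (nat_lit 1491505822) (nat_lit 282) (nat_lit 5) (nat_lit 289) (nat_lit 5) (nat_lit 283) (nat_lit 5) (nat_lit 422) (nat_lit 385) (nat_lit 213))))) (XT.nd (nat_lit 50310) (nat_lit 0) (nat_lit 7448) (XT.nd (nat_lit 78) (nat_lit 76) (nat_lit 0) (XT.lf (nat_lit 0) (nat_lit 11242326957) (nat_lit 380) (nat_lit 15125375915) (nat_lit 456) (nat_lit 1997453123) (nat_lit 277) (nat_lit 5) (nat_lit 282) (nat_lit 5) (nat_lit 283) (nat_lit 5) (nat_lit 423) (nat_lit 385) (nat_lit 212)) (XT.nd (nat_lit 50154) (nat_lit 0) (nat_lit 7448) (XT.lf (nat_lit 0) (nat_lit 2951406498) (nat_lit 456) (nat_lit 485789879)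 (nat_lit 76) (nat_lit 25422042508) (nat_lit 276) (nat_lit 5) (nat_lit 282) (nat_lit 5) (nat_lit 277) (nat_lit 5) (nat_lit 424) (nat_lit 385) (nat_lit 211)) (XT.lf (nat_lit 0) (nat_lit 2039075469) (nat_lit 1292) (nat_lit 2976537378) (nat_lit 1292) (nat_lit 2976537378) (nat_lit 374) (nat_lit 3) (nat_lit 391) (nat_lit 3) (nat_lit 391) (nat_lit 5) (nat_lit 386) (nat_lit 386) (nat_lit 248)))) (XT.nd (nat_lit 78) (nat_lit 0) (nat_lit 76) (XT.lf (nat_lit 76) (nat_lit 2079657069) (nat_lit 0) (nat_lit 2340787223) (nat_lit 1292) (nat_lit 11795187033) (nat_lit 375) (nat_lit 5) (nat_lit 374) (nat_lit 3) (nat_lit 391) (nat_lit 5) (nat_lit 387) (nat_lit 386) (nat_lit 247)) (XT.nd (nat_lit 78) (nat_lit 0) (nat_lit 0) (XT.lf (nat_lit 0) (nat_lit 4877162266) (nat_lit 1216) (nat_lit 6036639911) (nat_lit 1292) (nat_lit 5536975274) (nat_lit 375) (nat_lit 5) (nat_lit 391) (nat_lit 5) (nat_lit 392) (nat_lit 5) (nat_lit 388)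 (nat_lit 386) (nat_lit 246)) (XT.lf (nat_lit 76) (nat_lit 2322273305) (nat_lit 0) (nat_lit 3060909023) (nat_lit 1292) (nat_lit 11308727616) (nat_lit 376) (nat_lit 5) (nat_lit 375) (nat_lit 5) (nat_lit 392) (nat_lit 5) (nat_lit 389) (nat_lit 386) (nat_lit 245))))))))
noncomputable def xc117 : XT := (XT.nd (nat_lit 1794) (nat_lit 3420) (nat_lit 0) (XT.nd (nat_lit 858) (nat_lit 4104) (nat_lit 0) (XT.nd (nat_lit 390) (nat_lit 0) (nat_lit 152) (XT.nd (nat_lit 156) (nat_lit 0) (nat_lit 76) (XT.nd (nat_lit 78) (nat_lit 0) (nat_lit 0) (XT.lf (nat_lit 0) (nat_lit 6004649899) (nat_lit 1216) (nat_lit 5937496863) (nat_lit 1292) (nat_lit 4995121642) (nat_lit 376) (nat_lit 5) (nat_lit 392) (nat_lit 5) (nat_lit 393) (nat_lit 5) (nat_lit 390) (nat_lit 386) (nat_lit 244)) (XT.lf (nat_lit 76) (nat_lit 2765621039) (nat_lit 0) (nat_lit 3926688653) (nat_lit 1292) (nat_lit 10496251481) (nat_lit 377) (nat_lit 5) (nat_lit 376)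 (nat_lit 5) (nat_lit 393) (nat_lit 5) (nat_lit 391) (nat_lit 386) (nat_lit 243))) (XT.nd (nat_lit 78) (nat_lit 0) (nat_lit 0) (XT.lf (nat_lit 0) (nat_lit 7493674872) (nat_lit 1216) (nat_lit 5642157125) (nat_lit 1292) (nat_lit 4308768459) (nat_lit 377) (nat_lit 5) (nat_lit 393) (nat_lit 5) (nat_lit 394) (nat_lit 5) (nat_lit 392) (nat_lit 386) (nat_lit 242)) (XT.nd (nat_lit 78) (nat_lit 0) (nat_lit 76) (XT.lf (nat_lit 76) (nat_lit 3424263227) (nat_lit 0) (nat_lit 4957786412) (nat_lit 1292) (nat_lit 9324382222) (nat_lit 378) (nat_lit 5) (nat_lit 377) (nat_lit 5) (nat_lit 394) (nat_lit 5) (nat_lit 393) (nat_lit 386) (nat_lit 241)) (XT.lf (nat_lit 0) (nat_lit 9379333271) (nat_lit 1216) (nat_lit 5135910323) (nat_lit 1292) (nat_lit 3458406883) (nat_lit 378) (nat_lit 5) (nat_lit 394) (nat_lit 5) (nat_lit 395) (nat_lit 5) (nat_lit 394) (nat_lit 386) (nat_lit 240))))) (XT.nd (nat_lit 234) (nat_lit 0) (nat_lit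 152) (XT.nd (nat_lit 78) (nat_lit 0) (nat_lit 76) (XT.lf (nat_lit 76) (nat_lit 4314046216) (nat_lit 0) (nat_lit 6174701092) (nat_lit 1292) (nat_lit 7757671988) (nat_lit 379) (nat_lit 5) (nat_lit 378) (nat_lit 5) (nat_lit 395) (nat_lit 5) (nat_lit 395) (nat_lit 386) (nat_lit 239)) (XT.nd (nat_lit 78) (nat_lit 0) (nat_lit 0) (XT.lf (nat_lit 0) (nat_lit 11698911471) (nat_lit 1216) (nat_lit 4402767258) (nat_lit 1292) (nat_lit 2423668418) (nat_lit 379) (nat_lit 5) (nat_lit 395) (nat_lit 5) (nat_lit 396) (nat_lit 5) (nat_lit 396) (nat_lit 386) (nat_lit 238)) (XT.lf (nat_lit 76) (nat_lit 5452160608) (nat_lit 0) (nat_lit 7598868957) (nat_lit 1292) (nat_lit 5758443799) (nat_lit 380) (nat_lit 5) (nat_lit 379) (nat_lit 5) (nat_lit 396) (nat_lit 5) (nat_lit 397) (nat_lit 386) (nat_lit 237)))) (XT.nd (nat_lit 78) (nat_lit 0) (nat_lit 0) (XT.lf (nat_lit 0) (nat_lit 14492049201) (nat_lit 1216) (nat_lit 3425397464)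 (nat_lit 1292) (nat_lit 1183226564) (nat_lit 380) (nat_lit 5) (nat_lit 396) (nat_lit 5) (nat_lit 397) (nat_lit 5) (nat_lit 398) (nat_lit 386) (nat_lit 236)) (XT.nd (nat_lit 78) (nat_lit 0) (nat_lit 0) (XT.lf (nat_lit 76) (nat_lit 6857207833) (nat_lit 0) (nat_lit 9252765178) (nat_lit 1292) (nat_lit 3286625870) (nat_lit 381) (nat_lit 5) (nat_lit 380) (nat_lit 5) (nat_lit 397) (nat_lit 5) (nat_lit 399) (nat_lit 386) (nat_lit 235)) (XT.lf (nat_lit 76) (nat_lit 17512725884) (nat_lit 0) (nat_lit 290982264) (nat_lit 1292) (nat_lit 1896875946) (nat_lit 381) (nat_lit 5) (nat_lit 380) (nat_lit 5) (nat_lit 397) (nat_lit 5) (nat_lit 400) (nat_lit 386) (nat_lit 234)))))) (XT.nd (nat_lit 468) (nat_lit 1824) (nat_lit 0) (XT.nd (nat_lit 234) (nat_lit 1368) (nat_lit 0) (XT.nd (nat_lit 78) (nat_lit 1292) (nat_lit 0) (XT.lf (nat_lit 76) (nat_lit 8549272616) (nat_lit 0) (nat_lit 11160008206) (nat_lit 1292) (nat_lit 299577277)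 (nat_lit 382) (nat_lit 5) (nat_lit 381) (nat_lit 5) (nat_lit 398) (nat_lit 5) (nat_lit 401) (nat_lit 386) (nat_lit 233)) (XT.nd (nat_lit 78) (nat_lit 0) (nat_lit 76) (XT.lf (nat_lit 0) (nat_lit 1337568287) (nat_lit 1292) (nat_lit 694309936) (nat_lit 1368) (nat_lit 18293568461) (nat_lit 364) (nat_lit 5) (nat_lit 381) (nat_lit 5) (nat_lit 382) (nat_lit 5) (nat_lit 402) (nat_lit 386) (nat_lit 232)) (XT.lf (nat_lit 0) (nat_lit 3184713649) (nat_lit 1292) (nat_lit 10128594535) (nat_lit 76) (nat_lit 7333128561) (nat_lit 365) (nat_lit 5) (nat_lit 382) (nat_lit 5) (nat_lit 366) (nat_lit 5) (nat_lit 403) (nat_lit 386) (nat_lit 231)))) (XT.nd (nat_lit 78) (nat_lit 608) (nat_lit 0) (XT.lf (nat_lit 0) (nat_lit 1099101870) (nat_lit 836) (nat_lit 4019285059) (nat_lit 912) (nat_lit 15857736171) (nat_lit 354) (nat_lit 5) (nat_lit 365) (nat_lit 5) (nat_lit 366) (nat_lit 5) (nat_lit 404) (nat_lit 386) (nat_lit 230)) (XT.nd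 (nat_lit 78) (nat_lit 608) (nat_lit 0) (XT.lf (nat_lit 0) (nat_lit 7260240242) (nat_lit 912) (nat_lit 8501820978) (nat_lit 76) (nat_lit 5549133730) (nat_lit 354) (nat_lit 5) (nat_lit 366) (nat_lit 5) (nat_lit 355) (nat_lit 5) (nat_lit 405) (nat_lit 386) (nat_lit 229)) (XT.lf (nat_lit 0) (nat_lit 3232037362) (nat_lit 608) (nat_lit 6298858529) (nat_lit 684) (nat_lit 12123486664) (nat_lit 346) (nat_lit 5) (nat_lit 354) (nat_lit 5) (nat_lit 355) (nat_lit 5) (nat_lit 406) (nat_lit 386) (nat_lit 228))))) (XT.nd (nat_lit 234) (nat_lit 1216) (nat_lit 0) (XT.nd (nat_lit 78) (nat_lit 608) (nat_lit 0) (XT.lf (nat_lit 0) (nat_lit 11983334743) (nat_lit 684) (nat_lit 6553099792) (nat_lit 76) (nat_lit 3468021347) (nat_lit 346) (nat_lit 5) (nat_lit 355) (nat_lit 5) (nat_lit 347) (nat_lit 5) (nat_lit 407) (nat_lit 386) (nat_lit 227)) (XT.nd (nat_lit 78) (nat_lit 0) (nat_lit 0) (XT.lf (nat_lit 0) (nat_lit 5715560675)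 (nat_lit 608) (nat_lit 8905087825) (nat_lit 684) (nat_lit 7741043856) (nat_lit 338) (nat_lit 5) (nat_lit 346) (nat_lit 5) (nat_lit 347) (nat_lit 5) (nat_lit 408) (nat_lit 386) (nat_lit 226)) (XT.lf (nat_lit 0) (nat_lit 17407784877) (nat_lit 684) (nat_lit 4257410586) (nat_lit 76) (nat_lit 1062329364) (nat_lit 338) (nat_lit 5) (nat_lit 347) (nat_lit 5) (nat_lit 339) (nat_lit 5) (nat_lit 409) (nat_lit 386) (nat_lit 225)))) (XT.nd (nat_lit 78) (nat_lit 684) (nat_lit 0) (XT.lf (nat_lit 0) (nat_lit 8576383311) (nat_lit 532) (nat_lit 11867049895) (nat_lit 608) (nat_lit 2655952132) (nat_lit 331) (nat_lit 5) (nat_lit 338) (nat_lit 5) (nat_lit 339) (nat_lit 5) (nat_lit 410) (nat_lit 386) (nat_lit 224)) (XT.nd (nat_lit 78) (nat_lit 608) (nat_lit 0) (XT.lf (nat_lit 0) (nat_lit 123797360) (nat_lit 608) (nat_lit 1605749036) (nat_lit 76) (nat_lit 21751697153) (nat_lit 330) (nat_lit 5) (nat_lit 338) (nat_lit 5) (nat_lit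 331) (nat_lit 5) (nat_lit 411) (nat_lit 386) (nat_lit 223)) (XT.lf (nat_lit 0) (nat_lit 3127585349) (nat_lit 684) (nat_lit 12056378431) (nat_lit 76) (nat_lit 8683983989) (nat_lit 322) (nat_lit 5) (nat_lit 331) (nat_lit 5) (nat_lit 323) (nat_lit 5) (nat_lit 412) (nat_lit 386) (nat_lit 222))))))) (XT.nd (nat_lit 51090) (nat_lit 0) (nat_lit 7372) (XT.nd (nat_lit 468) (nat_lit 1900) (nat_lit 0) (XT.nd (nat_lit 234) (nat_lit 456) (nat_lit 0) (XT.nd (nat_lit 78) (nat_lit 532) (nat_lit 0) (XT.lf (nat_lit 0) (nat_lit 1402881560) (nat_lit 532) (nat_lit 4860202357) (nat_lit 608) (nat_lit 18001921289) (nat_lit 315) (nat_lit 5) (nat_lit 322) (nat_lit 5) (nat_lit 323) (nat_lit 5) (nat_lit 413) (nat_lit 386) (nat_lit 221)) (XT.nd (nat_lit 78) (nat_lit 532) (nat_lit 0) (XT.lf (nat_lit 0) (nat_lit 9665804737) (nat_lit 608) (nat_lit 9219824140) (nat_lit 76) (nat_lit 5783150771) (nat_lit 315) (nat_lit 5) (nat_lit 323)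 (nat_lit 5) (nat_lit 316) (nat_lit 5) (nat_lit 414) (nat_lit 386) (nat_lit 220)) (XT.lf (nat_lit 0) (nat_lit 4873020703) (nat_lit 532) (nat_lit 8387413717) (nat_lit 608) (nat_lit 11821538086) (nat_lit 308) (nat_lit 5) (nat_lit 315) (nat_lit 5) (nat_lit 316) (nat_lit 5) (nat_lit 415) (nat_lit 386) (nat_lit 219)))) (XT.nd (nat_lit 78) (nat_lit 456) (nat_lit 0) (XT.lf (nat_lit 0) (nat_lit 17075198355) (nat_lit 608) (nat_lit 5957142103) (nat_lit 76) (nat_lit 2471851831) (nat_lit 308) (nat_lit 5) (nat_lit 316) (nat_lit 5) (nat_lit 309) (nat_lit 5) (nat_lit 416) (nat_lit 386) (nat_lit 218)) (XT.nd (nat_lit 78) (nat_lit 0) (nat_lit 0) (XT.lf (nat_lit 0) (nat_lit 8805388776) (nat_lit 456) (nat_lit 12361803534) (nat_lit 532) (nat_lit 4767002743) (nat_lit 302) (nat_lit 5) (nat_lit 308) (nat_lit 5) (nat_lit 309) (nat_lit 5) (nat_lit 417) (nat_lit 386) (nat_lit 217)) (XT.lf (nat_lit 0) (nat_lit 24127351936) (nat_lit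 456) (nat_lit 1309939483) (nat_lit 532) (nat_lit 938146120) (nat_lit 302) (nat_lit 5) (nat_lit 308) (nat_lit 5) (nat_lit 309) (nat_lit 5) (nat_lit 418) (nat_lit 386) (nat_lit 216))))) (XT.nd (nat_lit 234) (nat_lit 836) (nat_lit 0) (XT.nd (nat_lit 78) (nat_lit 456) (nat_lit 0) (XT.lf (nat_lit 0) (nat_lit 3168476579) (nat_lit 608) (nat_lit 13619443984) (nat_lit 76) (nat_lit 10034483494) (nat_lit 294) (nat_lit 5) (nat_lit 302) (nat_lit 5) (nat_lit 295) (nat_lit 5) (nat_lit 419) (nat_lit 386) (nat_lit 215)) (XT.nd (nat_lit 78) (nat_lit 0) (nat_lit 0) (XT.lf (nat_lit 0) (nat_lit 1890358285) (nat_lit 456) (nat_lit 5538511960) (nat_lit 532) (nat_lit 19852147825) (nat_lit 288) (nat_lit 5) (nat_lit 294) (nat_lit 5) (nat_lit 295) (nat_lit 5) (nat_lit 420) (nat_lit 386) (nat_lit 214)) (XT.lf (nat_lit 0) (nat_lit 12009541805) (nat_lit 532) (nat_lit 9669768563) (nat_lit 76) (nat_lit 6068306155) (nat_lit 288) (nat_lit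 5) (nat_lit 295) (nat_lit 5) (nat_lit 289) (nat_lit 5) (nat_lit 421) (nat_lit 386) (nat_lit 213)))) (XT.nd (nat_lit 78) (nat_lit 380) (nat_lit 0) (XT.lf (nat_lit 0) (nat_lit 6591050672) (nat_lit 456) (nat_lit 10250343796) (nat_lit 532) (nat_lit 11383405631) (nat_lit 282) (nat_lit 5) (nat_lit 288) (nat_lit 5) (nat_lit 289) (nat_lit 5) (nat_lit 422) (nat_lit 386) (nat_lit 212)) (XT.nd (nat_lit 78) (nat_lit 380) (nat_lit 0) (XT.lf (nat_lit 0) (nat_lit 21927074430) (nat_lit 532) (nat_lit 5196590683) (nat_lit 76) (nat_lit 1589367917) (nat_lit 282) (nat_lit 5) (nat_lit 289) (nat_lit 5) (nat_lit 283) (nat_lit 5) (nat_lit 423) (nat_lit 386) (nat_lit 211)) (XT.lf (nat_lit 0) (nat_lit 11858208261) (nat_lit 380) (nat_lit 15518354325) (nat_lit 456) (nat_lit 1833013231) (nat_lit 277) (nat_lit 5) (nat_lit 282) (nat_lit 5) (nat_lit 283) (nat_lit 5) (nat_lit 424) (nat_lit 386) (nat_lit 210)))))) (XT.nd (nat_lit 468)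 (nat_lit 0) (nat_lit 228) (XT.nd (nat_lit 234) (nat_lit 0) (nat_lit 76) (XT.nd (nat_lit 78) (nat_lit 0) (nat_lit 0) (XT.lf (nat_lit 0) (nat_lit 2358867744) (nat_lit 1292) (nat_lit 2932644193) (nat_lit 1292) (nat_lit 2932644193) (nat_lit 374) (nat_lit 3) (nat_lit 391) (nat_lit 3) (nat_lit 391) (nat_lit 5) (nat_lit 387) (nat_lit 387) (nat_lit 246)) (XT.nd (nat_lit 78) (nat_lit 0) (nat_lit 76) (XT.lf (nat_lit 76) (nat_lit 2405813838) (nat_lit 0) (nat_lit 2651954052) (nat_lit 1292) (nat_lit 11629191067) (nat_lit 375) (nat_lit 5) (nat_lit 374) (nat_lit 3) (nat_lit 391) (nat_lit 5) (nat_lit 388) (nat_lit 387) (nat_lit 245)) (XT.lf (nat_lit 0) (nat_lit 5511238469) (nat_lit 1216) (nat_lit 5944705653) (nat_lit 1292) (nat_lit 5473723812) (nat_lit 375) (nat_lit 5) (nat_lit 391) (nat_lit 5) (nat_lit 392) (nat_lit 5) (nat_lit 389) (nat_lit 387) (nat_lit 244)))) (XT.nd (nat_lit 78) (nat_lit 0) (nat_lit 76) (XT.lf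 (nat_lit 76) (nat_lit 2662298160) (nat_lit 0) (nat_lit 3358533166) (nat_lit 1292) (nat_lit 11157551310) (nat_lit 376) (nat_lit 5) (nat_lit 375) (nat_lit 5) (nat_lit 392) (nat_lit 5) (nat_lit 390) (nat_lit 387) (nat_lit 243)) (XT.nd (nat_lit 78) (nat_lit 0) (nat_lit 0) (XT.lf (nat_lit 0) (nat_lit 6645153748) (nat_lit 1216) (nat_lit 5837350403) (nat_lit 1292) (nat_lit 4949071375) (nat_lit 376) (nat_lit 5) (nat_lit 392) (nat_lit 5) (nat_lit 393) (nat_lit 5) (nat_lit 391) (nat_lit 387) (nat_lit 242)) (XT.lf (nat_lit 76) (nat_lit 3124132886) (nat_lit 0) (nat_lit 4218550469) (nat_lit 1292) (nat_lit 10348046523) (nat_lit 377) (nat_lit 5) (nat_lit 376) (nat_lit 5) (nat_lit 393) (nat_lit 5) (nat_lit 392) (nat_lit 387) (nat_lit 241))))) (XT.nd (nat_lit 234) (nat_lit 0) (nat_lit 76) (XT.nd (nat_lit 78) (nat_lit 0) (nat_lit 0) (XT.lf (nat_lit 0) (nat_lit 8153369769) (nat_lit 1216) (nat_lit 5529184432) (nat_lit 1292)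 (nat_lit 4272337730) (nat_lit 377) (nat_lit 5) (nat_lit 393) (nat_lit 5) (nat_lit 394) (nat_lit 5) (nat_lit 393) (nat_lit 387) (nat_lit 240)) (XT.nd (nat_lit 78) (nat_lit 0) (nat_lit 76) (XT.lf (nat_lit 76) (nat_lit 3806461497) (nat_lit 0) (nat_lit 5251954177) (nat_lit 1292) (nat_lit 9166462006) (nat_lit 378) (nat_lit 5) (nat_lit 377) (nat_lit 5) (nat_lit 394) (nat_lit 5) (nat_lit 394) (nat_lit 387) (nat_lit 239)) (XT.lf (nat_lit 0) (nat_lit 10071884671) (nat_lit 1216) (nat_lit 5004924029) (nat_lit 1292) (nat_lit 3423716149) (nat_lit 378) (nat_lit 5) (nat_lit 394) (nat_lit 5) (nat_lit 395) (nat_lit 5) (nat_lit 395) (nat_lit 387) (nat_lit 238)))) (XT.nd (nat_lit 78) (nat_lit 0) (nat_lit 76) (XT.lf (nat_lit 76) (nat_lit 4725736465) (nat_lit 0) (nat_lit 6479582140) (nat_lit 1292) (nat_lit 7576436004) (nat_lit 379) (nat_lit 5) (nat_lit 378) (nat_lit 5) (nat_lit 395) (nat_lit 5) (nat_lit 396) (nat_lit 387)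 (nat_lit 237)) (XT.nd (nat_lit 78) (nat_lit 0) (nat_lit 0) (XT.lf (nat_lit 0) (nat_lit 12438965053) (nat_lit 1216) (nat_lit 4247980196) (nat_lit 1292) (nat_lit 2382489726) (nat_lit 379) (nat_lit 5) (nat_lit 395) (nat_lit 5) (nat_lit 396) (nat_lit 5) (nat_lit 397) (nat_lit 387) (nat_lit 236)) (XT.lf (nat_lit 76) (nat_lit 5899783055) (nat_lit 0) (nat_lit 7923261562) (nat_lit 1292) (nat_lit 5539298424) (nat_lit 380) (nat_lit 5) (nat_lit 379) (nat_lit 5) (nat_lit 396) (nat_lit 5) (nat_lit 398) (nat_lit 387) (nat_lit 235))))))))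
noncomputable def xc118 : XT := (XT.nd (nat_lit 1794) (nat_lit 456) (nat_lit 0) (XT.nd (nat_lit 858) (nat_lit 3800) (nat_lit 0) (XT.nd (nat_lit 390) (nat_lit 1976) (nat_lit 0) (XT.nd (nat_lit 156) (nat_lit 1216) (nat_lit 0) (XT.nd (nat_lit 78) (nat_lit 0) (nat_lit 0) (XT.lf (nat_lit 0) (nat_lit 15295312864) (nat_lit 1216) (nat_lit 3240393307) (nat_lit 1292) (nat_lit 1126932189) (nat_lit 380) (nat_lit 5) (nat_lit 396) (nat_lit 5) (nat_lit 397) (nat_lit 5) (nat_lit 399) (nat_lit 387) (nat_lit 234)) (XT.lf (nat_lit 76) (nat_lit 7347868913) (nat_lit 0) (nat_lit 9605911466) (nat_lit 1292) (nat_lit 3013901222) (nat_lit 381) (nat_lit 5) (nat_lit 380) (nat_lit 5) (nat_lit 397) (nat_lit 5) (nat_lit 400) (nat_lit 387) (nat_lit 233))) (XT.nd (nat_lit 78) (nat_lit 1216) (nat_lit 0) (XT.lf (nat_lit 76) (nat_lit 18314753141) (nat_lit 0) (nat_lit 373074192) (nat_lit 1292) (nat_lit 1593274046) (nat_lit 381) (nat_lit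 5) (nat_lit 380) (nat_lit 5) (nat_lit 397) (nat_lit 5) (nat_lit 401) (nat_lit 387) (nat_lit 232)) (XT.nd (nat_lit 78) (nat_lit 0) (nat_lit 0) (XT.lf (nat_lit 0) (nat_lit 42710190) (nat_lit 1292) (nat_lit 11508506857) (nat_lit 1368) (nat_lit 9047638171) (nat_lit 364) (nat_lit 5) (nat_lit 381) (nat_lit 5) (nat_lit 382) (nat_lit 5) (nat_lit 402) (nat_lit 387) (nat_lit 231)) (XT.lf (nat_lit 0) (nat_lit 1712892986) (nat_lit 1292) (nat_lit 431741099) (nat_lit 1368) (nat_lit 18780520070) (nat_lit 364) (nat_lit 5) (nat_lit 381) (nat_lit 5) (nat_lit 382) (nat_lit 5) (nat_lit 403) (nat_lit 387) (nat_lit 230))))) (XT.nd (nat_lit 234) (nat_lit 1216) (nat_lit 0) (XT.nd (nat_lit 78) (nat_lit 836) (nat_lit 0) (XT.lf (nat_lit 0) (nat_lit 3607930441) (nat_lit 1292) (nat_lit 10141531968) (nat_lit 76) (nat_lit 7506537177) (nat_lit 365) (nat_lit 5) (nat_lit 382) (nat_lit 5) (nat_lit 366) (nat_lit 5) (nat_lit 404) (nat_lit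 387) (nat_lit 229)) (XT.nd (nat_lit 78) (nat_lit 0) (nat_lit 0) (XT.lf (nat_lit 0) (nat_lit 1420143168) (nat_lit 836) (nat_lit 4172695897) (nat_lit 912) (nat_lit 16002940712) (nat_lit 354) (nat_lit 5) (nat_lit 365) (nat_lit 5) (nat_lit 366) (nat_lit 5) (nat_lit 405) (nat_lit 387) (nat_lit 228)) (XT.lf (nat_lit 0) (nat_lit 7789294948) (nat_lit 912) (nat_lit 8467544673) (nat_lit 76) (nat_lit 5684353753) (nat_lit 354) (nat_lit 5) (nat_lit 366) (nat_lit 5) (nat_lit 355) (nat_lit 5) (nat_lit 406) (nat_lit 387) (nat_lit 227)))) (XT.nd (nat_lit 78) (nat_lit 608) (nat_lit 0) (XT.lf (nat_lit 0) (nat_lit 3615492839) (nat_lit 608) (nat_lit 6506265925) (nat_lit 684) (nat_lit 12173107188) (nat_lit 346) (nat_lit 5) (nat_lit 354) (nat_lit 5) (nat_lit 355) (nat_lit 5) (nat_lit 407) (nat_lit 387) (nat_lit 226)) (XT.nd (nat_lit 78) (nat_lit 608) (nat_lit 0) (XT.lf (nat_lit 0) (nat_lit 12638717042) (nat_lit 684) (nat_lit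 6462489185) (nat_lit 76) (nat_lit 3554506864) (nat_lit 346) (nat_lit 5) (nat_lit 355) (nat_lit 5) (nat_lit 347) (nat_lit 5) (nat_lit 408) (nat_lit 387) (nat_lit 225)) (XT.lf (nat_lit 0) (nat_lit 6171415374) (nat_lit 608) (nat_lit 9177850618) (nat_lit 684) (nat_lit 7674577193) (nat_lit 338) (nat_lit 5) (nat_lit 346) (nat_lit 5) (nat_lit 347) (nat_lit 5) (nat_lit 409) (nat_lit 387) (nat_lit 224)))))) (XT.nd (nat_lit 468) (nat_lit 2052) (nat_lit 0) (XT.nd (nat_lit 234) (nat_lit 1140) (nat_lit 0) (XT.nd (nat_lit 78) (nat_lit 608) (nat_lit 0) (XT.lf (nat_lit 0) (nat_lit 18211517558) (nat_lit 684) (nat_lit 4100529265) (nat_lit 76) (nat_lit 1088858775) (nat_lit 338) (nat_lit 5) (nat_lit 347) (nat_lit 5) (nat_lit 339) (nat_lit 5) (nat_lit 410) (nat_lit 387) (nat_lit 223)) (XT.nd (nat_lit 78) (nat_lit 76) (nat_lit 0) (XT.lf (nat_lit 0) (nat_lit 9115488218) (nat_lit 532) (nat_lit 12217257078) (nat_lit 608) (nat_lit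 2451341330) (nat_lit 331) (nat_lit 5) (nat_lit 338) (nat_lit 5) (nat_lit 339) (nat_lit 5) (nat_lit 411) (nat_lit 387) (nat_lit 222)) (XT.lf (nat_lit 0) (nat_lit 398134443) (nat_lit 608) (nat_lit 1374930326) (nat_lit 76) (nat_lit 22404497392) (nat_lit 330) (nat_lit 5) (nat_lit 338) (nat_lit 5) (nat_lit 331) (nat_lit 5) (nat_lit 412) (nat_lit 387) (nat_lit 221)))) (XT.nd (nat_lit 78) (nat_lit 532) (nat_lit 0) (XT.lf (nat_lit 0) (nat_lit 3486913773) (nat_lit 684) (nat_lit 12133956304) (nat_lit 76) (nat_lit 8955151099) (nat_lit 322) (nat_lit 5) (nat_lit 331) (nat_lit 5) (nat_lit 323) (nat_lit 5) (nat_lit 413) (nat_lit 387) (nat_lit 220)) (XT.nd (nat_lit 78) (nat_lit 0) (nat_lit 0) (XT.lf (nat_lit 0) (nat_lit 1726296060) (nat_lit 532) (nat_lit 4985152500) (nat_lit 608) (nat_lit 18273692638) (nat_lit 315) (nat_lit 5) (nat_lit 322) (nat_lit 5) (nat_lit 323) (nat_lit 5) (nat_lit 414) (nat_lit 387) (nat_lit 219))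 (XT.lf (nat_lit 0) (nat_lit 10208859079) (nat_lit 608) (nat_lit 9215892905) (nat_lit 76) (nat_lit 5976498647) (nat_lit 315) (nat_lit 5) (nat_lit 323) (nat_lit 5) (nat_lit 316) (nat_lit 5) (nat_lit 415) (nat_lit 387) (nat_lit 218))))) (XT.nd (nat_lit 234) (nat_lit 1064) (nat_lit 0) (XT.nd (nat_lit 78) (nat_lit 456) (nat_lit 0) (XT.lf (nat_lit 0) (nat_lit 5296987028) (nat_lit 532) (nat_lit 8609639506) (nat_lit 608) (nat_lit 11920353774) (nat_lit 308) (nat_lit 5) (nat_lit 315) (nat_lit 5) (nat_lit 316) (nat_lit 5) (nat_lit 416) (nat_lit 387) (nat_lit 217)) (XT.nd (nat_lit 78) (nat_lit 456) (nat_lit 0) (XT.lf (nat_lit 0) (nat_lit 17828873393) (nat_lit 608) (nat_lit 5859211223) (nat_lit 76) (nat_lit 2573990870) (nat_lit 308) (nat_lit 5) (nat_lit 316) (nat_lit 5) (nat_lit 309) (nat_lit 5) (nat_lit 417) (nat_lit 387) (nat_lit 216)) (XT.lf (nat_lit 0) (nat_lit 9343483376) (nat_lit 456) (nat_lit 12695745378)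 (nat_lit 532) (nat_lit 4665881531) (nat_lit 302) (nat_lit 5) (nat_lit 308) (nat_lit 5) (nat_lit 309) (nat_lit 5) (nat_lit 418) (nat_lit 387) (nat_lit 215)))) (XT.nd (nat_lit 78) (nat_lit 1064) (nat_lit 0) (XT.lf (nat_lit 0) (nat_lit 25117126802) (nat_lit 456) (nat_lit 1313400520) (nat_lit 532) (nat_lit 729269829) (nat_lit 302) (nat_lit 5) (nat_lit 308) (nat_lit 5) (nat_lit 309) (nat_lit 5) (nat_lit 419) (nat_lit 387) (nat_lit 214)) (XT.nd (nat_lit 78) (nat_lit 456) (nat_lit 0) (XT.lf (nat_lit 0) (nat_lit 3492114953) (nat_lit 608) (nat_lit 13753636398) (nat_lit 76) (nat_lit 10374467305) (nat_lit 294) (nat_lit 5) (nat_lit 302) (nat_lit 5) (nat_lit 295) (nat_lit 5) (nat_lit 420) (nat_lit 387) (nat_lit 213)) (XT.lf (nat_lit 0) (nat_lit 2218769833) (nat_lit 456) (nat_lit 5657504562) (nat_lit 532) (nat_lit 20216438077) (nat_lit 288) (nat_lit 5) (nat_lit 294) (nat_lit 5) (nat_lit 295) (nat_lit 5) (nat_lit 421)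 (nat_lit 387) (nat_lit 212))))))) (XT.nd (nat_lit 51168) (nat_lit 0) (nat_lit 4864) (XT.nd (nat_lit 50700) (nat_lit 0) (nat_lit 7068) (XT.nd (nat_lit 50466) (nat_lit 0) (nat_lit 6992) (XT.nd (nat_lit 78) (nat_lit 456) (nat_lit 0) (XT.lf (nat_lit 0) (nat_lit 12588266311) (nat_lit 532) (nat_lit 9689974646) (nat_lit 76) (nat_lit 6295250913) (nat_lit 288) (nat_lit 5) (nat_lit 295) (nat_lit 5) (nat_lit 289) (nat_lit 5) (nat_lit 422) (nat_lit 387) (nat_lit 211)) (XT.nd (nat_lit 78) (nat_lit 0) (nat_lit 0) (XT.lf (nat_lit 0) (nat_lit 7056023215) (nat_lit 456) (nat_lit 10505257944) (nat_lit 532) (nat_lit 11503823597) (nat_lit 282) (nat_lit 5) (nat_lit 288) (nat_lit 5) (nat_lit 289) (nat_lit 5) (nat_lit 423) (nat_lit 387) (nat_lit 210)) (XT.lf (nat_lit 0) (nat_lit 22793770589) (nat_lit 532) (nat_lit 5087270169) (nat_lit 76) (nat_lit 1687116746) (nat_lit 282) (nat_lit 5) (nat_lit 289) (nat_lit 5) (nat_lit 283)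 (nat_lit 5) (nat_lit 424) (nat_lit 387) (nat_lit 209)))) (XT.nd (nat_lit 78) (nat_lit 0) (nat_lit 0) (XT.lf (nat_lit 0) (nat_lit 2673407941) (nat_lit 1292) (nat_lit 2895079825) (nat_lit 1292) (nat_lit 2895079825) (nat_lit 374) (nat_lit 3) (nat_lit 391) (nat_lit 3) (nat_lit 391) (nat_lit 5) (nat_lit 388) (nat_lit 388) (nat_lit 244)) (XT.nd (nat_lit 78) (nat_lit 0) (nat_lit 76) (XT.lf (nat_lit 76) (nat_lit 2726614001) (nat_lit 0) (nat_lit 2958624761) (nat_lit 1292) (nat_lit 11488056829) (nat_lit 375) (nat_lit 5) (nat_lit 374) (nat_lit 3) (nat_lit 391) (nat_lit 5) (nat_lit 389) (nat_lit 388) (nat_lit 243)) (XT.lf (nat_lit 0) (nat_lit 6136337463) (nat_lit 1216) (nat_lit 5865686606) (nat_lit 1292) (nat_lit 5421741048) (nat_lit 375) (nat_lit 5) (nat_lit 391) (nat_lit 5) (nat_lit 392) (nat_lit 5) (nat_lit 390) (nat_lit 388) (nat_lit 242))))) (XT.nd (nat_lit 234) (nat_lit 0) (nat_lit 152) (XT.nd (nat_lit 78)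 (nat_lit 0) (nat_lit 76) (XT.lf (nat_lit 76) (nat_lit 2997004183) (nat_lit 0) (nat_lit 3653272452) (nat_lit 1292) (nat_lit 11029992870) (nat_lit 376) (nat_lit 5) (nat_lit 375) (nat_lit 5) (nat_lit 392) (nat_lit 5) (nat_lit 391) (nat_lit 388) (nat_lit 241)) (XT.nd (nat_lit 78) (nat_lit 0) (nat_lit 0) (XT.lf (nat_lit 0) (nat_lit 7278445916) (nat_lit 1216) (nat_lit 5750173464) (nat_lit 1292) (nat_lit 4912885285) (nat_lit 376) (nat_lit 5) (nat_lit 392) (nat_lit 5) (nat_lit 393) (nat_lit 5) (nat_lit 392) (nat_lit 388) (nat_lit 240)) (XT.lf (nat_lit 76) (nat_lit 3477582780) (nat_lit 0) (nat_lit 4509176317) (nat_lit 1292) (nat_lit 10221978820) (nat_lit 377) (nat_lit 5) (nat_lit 376) (nat_lit 5) (nat_lit 393) (nat_lit 5) (nat_lit 393) (nat_lit 388) (nat_lit 239)))) (XT.nd (nat_lit 78) (nat_lit 0) (nat_lit 0) (XT.lf (nat_lit 0) (nat_lit 8807891354) (nat_lit 1216) (nat_lit 5429024140) (nat_lit 1292) (nat_lit 4244325581)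 (nat_lit 377) (nat_lit 5) (nat_lit 393) (nat_lit 5) (nat_lit 394) (nat_lit 5) (nat_lit 394) (nat_lit 388) (nat_lit 238)) (XT.nd (nat_lit 78) (nat_lit 0) (nat_lit 76) (XT.lf (nat_lit 76) (nat_lit 4184082972) (nat_lit 0) (nat_lit 5546598460) (nat_lit 1292) (nat_lit 9028927179) (nat_lit 378) (nat_lit 5) (nat_lit 377) (nat_lit 5) (nat_lit 394) (nat_lit 5) (nat_lit 395) (nat_lit 388) (nat_lit 237)) (XT.lf (nat_lit 0) (nat_lit 10761609694) (nat_lit 1216) (nat_lit 4886371963) (nat_lit 1292) (nat_lit 3395931884) (nat_lit 378) (nat_lit 5) (nat_lit 394) (nat_lit 5) (nat_lit 395) (nat_lit 5) (nat_lit 396) (nat_lit 388) (nat_lit 236)))))) (XT.nd (nat_lit 468) (nat_lit 2432) (nat_lit 0) (XT.nd (nat_lit 234) (nat_lit 0) (nat_lit 152) (XT.nd (nat_lit 78) (nat_lit 0) (nat_lit 76) (XT.lf (nat_lit 76) (nat_lit 5133574034) (nat_lit 0) (nat_lit 6786741792) (nat_lit 1292) (nat_lit 7413526290) (nat_lit 379) (nat_lit 5) (nat_lit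 378) (nat_lit 5) (nat_lit 395) (nat_lit 5) (nat_lit 397) (nat_lit 388) (nat_lit 235)) (XT.nd (nat_lit 78) (nat_lit 0) (nat_lit 0) (XT.lf (nat_lit 0) (nat_lit 13178885100) (nat_lit 1216) (nat_lit 4105017038) (nat_lit 1292) (nat_lit 2346613353) (nat_lit 379) (nat_lit 5) (nat_lit 395) (nat_lit 5) (nat_lit 396) (nat_lit 5) (nat_lit 398) (nat_lit 388) (nat_lit 234)) (XT.lf (nat_lit 76) (nat_lit 6344528104) (nat_lit 0) (nat_lit 8251850668) (nat_lit 1292) (nat_lit 5336075276) (nat_lit 380) (nat_lit 5) (nat_lit 379) (nat_lit 5) (nat_lit 396) (nat_lit 5) (nat_lit 399) (nat_lit 388) (nat_lit 233)))) (XT.nd (nat_lit 78) (nat_lit 0) (nat_lit 0) (XT.lf (nat_lit 0) (nat_lit 16101520905) (nat_lit 1216) (nat_lit 3066357975) (nat_lit 1292) (nat_lit 1074218171) (nat_lit 380) (nat_lit 5) (nat_lit 396) (nat_lit 5) (nat_lit 397) (nat_lit 5) (nat_lit 400) (nat_lit 388) (nat_lit 232)) (XT.nd (nat_lit 78) (nat_lit 0) (nat_lit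 0) (XT.lf (nat_lit 76) (nat_lit 7836892826) (nat_lit 0) (nat_lit 9965314499) (nat_lit 1292) (nat_lit 2754310319) (nat_lit 381) (nat_lit 5) (nat_lit 380) (nat_lit 5) (nat_lit 397) (nat_lit 5) (nat_lit 401) (nat_lit 388) (nat_lit 231)) (XT.lf (nat_lit 76) (nat_lit 19124960634) (nat_lit 0) (nat_lit 453417572) (nat_lit 1292) (nat_lit 1301258733) (nat_lit 381) (nat_lit 5) (nat_lit 380) (nat_lit 5) (nat_lit 397) (nat_lit 5) (nat_lit 402) (nat_lit 388) (nat_lit 230))))) (XT.nd (nat_lit 234) (nat_lit 1368) (nat_lit 0) (XT.nd (nat_lit 78) (nat_lit 0) (nat_lit 0) (XT.lf (nat_lit 0) (nat_lit 369426108) (nat_lit 1292) (nat_lit 11578618243) (nat_lit 1368) (nat_lit 9259013486) (nat_lit 364) (nat_lit 5) (nat_lit 381) (nat_lit 5) (nat_lit 382) (nat_lit 5) (nat_lit 403) (nat_lit 388) (nat_lit 229)) (XT.nd (nat_lit 78) (nat_lit 0) (nat_lit 76) (XT.lf (nat_lit 0) (nat_lit 2080235710) (nat_lit 1292) (nat_lit 177563409)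 (nat_lit 1368) (nat_lit 19285630983) (nat_lit 364) (nat_lit 5) (nat_lit 381) (nat_lit 5) (nat_lit 382) (nat_lit 5) (nat_lit 404) (nat_lit 388) (nat_lit 228)) (XT.lf (nat_lit 0) (nat_lit 4025033829) (nat_lit 1292) (nat_lit 10171557545) (nat_lit 76) (nat_lit 7687822235) (nat_lit 365) (nat_lit 5) (nat_lit 382) (nat_lit 5) (nat_lit 366) (nat_lit 5) (nat_lit 405) (nat_lit 388) (nat_lit 227)))) (XT.nd (nat_lit 78) (nat_lit 608) (nat_lit 0) (XT.lf (nat_lit 0) (nat_lit 1734279410) (nat_lit 836) (nat_lit 4328824351) (nat_lit 912) (nat_lit 16171475023) (nat_lit 354) (nat_lit 5) (nat_lit 365) (nat_lit 5) (nat_lit 366) (nat_lit 5) (nat_lit 406) (nat_lit 388) (nat_lit 226)) (XT.nd (nat_lit 78) (nat_lit 608) (nat_lit 0) (XT.lf (nat_lit 0) (nat_lit 8316354416) (nat_lit 912) (nat_lit 8448848859) (nat_lit 76) (nat_lit 5825424483) (nat_lit 354) (nat_lit 5) (nat_lit 366) (nat_lit 5) (nat_lit 355) (nat_lit 5) (nat_lit 407)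 (nat_lit 388) (nat_lit 225)) (XT.lf (nat_lit 0) (nat_lit 3994006032) (nat_lit 608) (nat_lit 6718836918) (nat_lit 684) (nat_lit 12242246038) (nat_lit 346) (nat_lit 5) (nat_lit 354) (nat_lit 5) (nat_lit 355) (nat_lit 5) (nat_lit 408) (nat_lit 388) (nat_lit 224))))))))
noncomputable def xc119 : XT := (XT.nd (nat_lit 52260) (nat_lit 0) (nat_lit 1064) (XT.nd (nat_lit 936) (nat_lit 1064) (nat_lit 0) (XT.nd (nat_lit 468) (nat_lit 1520) (nat_lit 0) (XT.nd (nat_lit 234) (nat_lit 1216) (nat_lit 0) (XT.nd (nat_lit 78) (nat_lit 608) (nat_lit 0) (XT.lf (nat_lit 0) (nat_lit 13296775958) (nat_lit 684) (nat_lit 6385646922) (nat_lit 76) (nat_lit 3644594682) (nat_lit 346) (nat_lit 5) (nat_lit 355) (nat_lit 5) (nat_lit 347) (nat_lit 5) (nat_lit 409) (nat_lit 388) (nat_lit 223)) (XT.nd (nat_lit 78) (nat_lit 0) (nat_lit 0) (XT.lf (nat_lit 0) (nat_lit 6624620687) (nat_lit 608) (nat_lit 9458474248) (nat_lit 684) (nat_lit 7623263017)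 (nat_lit 338) (nat_lit 5) (nat_lit 346) (nat_lit 5) (nat_lit 347) (nat_lit 5) (nat_lit 410) (nat_lit 388) (nat_lit 222)) (XT.lf (nat_lit 0) (nat_lit 19023203018) (nat_lit 684) (nat_lit 3955278917) (nat_lit 76) (nat_lit 1116490634) (nat_lit 338) (nat_lit 5) (nat_lit 347) (nat_lit 5) (nat_lit 339) (nat_lit 5) (nat_lit 411) (nat_lit 388) (nat_lit 221)))) (XT.nd (nat_lit 78) (nat_lit 684) (nat_lit 0) (XT.lf (nat_lit 0) (nat_lit 9654589029) (nat_lit 532) (nat_lit 12578303668) (nat_lit 608) (nat_lit 2256911576) (nat_lit 331) (nat_lit 5) (nat_lit 338) (nat_lit 5) (nat_lit 339) (nat_lit 5) (nat_lit 412) (nat_lit 388) (nat_lit 220)) (XT.nd (nat_lit 78) (nat_lit 608) (nat_lit 0) (XT.lf (nat_lit 0) (nat_lit 665166761) (nat_lit 608) (nat_lit 1153202289) (nat_lit 76) (nat_lit 23076867326) (nat_lit 330) (nat_lit 5) (nat_lit 338) (nat_lit 5) (nat_lit 331) (nat_lit 5) (nat_lit 413) (nat_lit 388) (nat_lit 219)) (XT.lf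 (nat_lit 0) (nat_lit 3841781214) (nat_lit 684) (nat_lit 12230170789) (nat_lit 76) (nat_lit 9233842007) (nat_lit 322) (nat_lit 5) (nat_lit 331) (nat_lit 5) (nat_lit 323) (nat_lit 5) (nat_lit 414) (nat_lit 388) (nat_lit 218))))) (XT.nd (nat_lit 234) (nat_lit 456) (nat_lit 0) (XT.nd (nat_lit 78) (nat_lit 532) (nat_lit 0) (XT.lf (nat_lit 0) (nat_lit 2043263614) (nat_lit 532) (nat_lit 5115048363) (nat_lit 608) (nat_lit 18569017858) (nat_lit 315) (nat_lit 5) (nat_lit 322) (nat_lit 5) (nat_lit 323) (nat_lit 5) (nat_lit 415) (nat_lit 388) (nat_lit 217)) (XT.nd (nat_lit 78) (nat_lit 532) (nat_lit 0) (XT.lf (nat_lit 0) (nat_lit 10753677213) (nat_lit 608) (nat_lit 9227947071) (nat_lit 76) (nat_lit 6174507296) (nat_lit 315) (nat_lit 5) (nat_lit 323) (nat_lit 5) (nat_lit 316) (nat_lit 5) (nat_lit 416) (nat_lit 388) (nat_lit 216)) (XT.lf (nat_lit 0) (nat_lit 5717726882) (nat_lit 532) (nat_lit 8840219556) (nat_lit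 608) (nat_lit 12036819648) (nat_lit 308) (nat_lit 5) (nat_lit 315) (nat_lit 5) (nat_lit 316) (nat_lit 5) (nat_lit 417) (nat_lit 388) (nat_lit 215)))) (XT.nd (nat_lit 78) (nat_lit 456) (nat_lit 0) (XT.lf (nat_lit 0) (nat_lit 18591300239) (nat_lit 608) (nat_lit 5774222978) (nat_lit 76) (nat_lit 2677587713) (nat_lit 308) (nat_lit 5) (nat_lit 316) (nat_lit 5) (nat_lit 309) (nat_lit 5) (nat_lit 418) (nat_lit 388) (nat_lit 214)) (XT.nd (nat_lit 78) (nat_lit 0) (nat_lit 0) (XT.lf (nat_lit 0) (nat_lit 9881995943) (nat_lit 456) (nat_lit 13041824392) (nat_lit 532) (nat_lit 4575740817) (nat_lit 302) (nat_lit 5) (nat_lit 308) (nat_lit 5) (nat_lit 309) (nat_lit 5) (nat_lit 419) (nat_lit 388) (nat_lit 213)) (XT.lf (nat_lit 0) (nat_lit 26121328048) (nat_lit 456) (nat_lit 1319022587) (nat_lit 532) (nat_lit 527733205) (nat_lit 302) (nat_lit 5) (nat_lit 308) (nat_lit 5) (nat_lit 309) (nat_lit 5) (nat_lit 420) (nat_lit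 388) (nat_lit 212)))))) (XT.nd (nat_lit 50856) (nat_lit 0) (nat_lit 6612) (XT.nd (nat_lit 50622) (nat_lit 0) (nat_lit 6536) (XT.nd (nat_lit 78) (nat_lit 456) (nat_lit 0) (XT.lf (nat_lit 0) (nat_lit 3812340817) (nat_lit 608) (nat_lit 13907605745) (nat_lit 76) (nat_lit 10722414782) (nat_lit 294) (nat_lit 5) (nat_lit 302) (nat_lit 5) (nat_lit 295) (nat_lit 5) (nat_lit 421) (nat_lit 388) (nat_lit 211)) (XT.nd (nat_lit 78) (nat_lit 0) (nat_lit 0) (XT.lf (nat_lit 0) (nat_lit 2541436989) (nat_lit 456) (nat_lit 5782774278) (nat_lit 532) (nat_lit 20604933120) (nat_lit 288) (nat_lit 5) (nat_lit 294) (nat_lit 5) (nat_lit 295) (nat_lit 5) (nat_lit 422) (nat_lit 388) (nat_lit 210)) (XT.lf (nat_lit 0) (nat_lit 13171813303) (nat_lit 532) (nat_lit 9726279529) (nat_lit 76) (nat_lit 6526426825) (nat_lit 288) (nat_lit 5) (nat_lit 295) (nat_lit 5) (nat_lit 289) (nat_lit 5) (nat_lit 423) (nat_lit 388) (nat_lit 209)))) (XT.nd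 (nat_lit 78) (nat_lit 0) (nat_lit 0) (XT.lf (nat_lit 0) (nat_lit 2983390710) (nat_lit 1292) (nat_lit 2863595246) (nat_lit 1292) (nat_lit 2863595246) (nat_lit 374) (nat_lit 3) (nat_lit 391) (nat_lit 3) (nat_lit 391) (nat_lit 5) (nat_lit 389) (nat_lit 389) (nat_lit 242)) (XT.nd (nat_lit 78) (nat_lit 0) (nat_lit 76) (XT.lf (nat_lit 76) (nat_lit 3042766035) (nat_lit 0) (nat_lit 3261458427) (nat_lit 1292) (nat_lit 11370817140) (nat_lit 375) (nat_lit 5) (nat_lit 374) (nat_lit 3) (nat_lit 391) (nat_lit 5) (nat_lit 390) (nat_lit 389) (nat_lit 241)) (XT.lf (nat_lit 0) (nat_lit 6753797216) (nat_lit 1216) (nat_lit 5799070516) (nat_lit 1292) (nat_lit 5380609250) (nat_lit 375) (nat_lit 5) (nat_lit 391) (nat_lit 5) (nat_lit 392) (nat_lit 5) (nat_lit 391) (nat_lit 389) (nat_lit 240))))) (XT.nd (nat_lit 234) (nat_lit 0) (nat_lit 152) (XT.nd (nat_lit 78) (nat_lit 0) (nat_lit 76) (XT.lf (nat_lit 76) (nat_lit 3327122695)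 (nat_lit 0) (nat_lit 3945718481) (nat_lit 1292) (nat_lit 10925144726) (nat_lit 376) (nat_lit 5) (nat_lit 375) (nat_lit 5) (nat_lit 392) (nat_lit 5) (nat_lit 392) (nat_lit 389) (nat_lit 239)) (XT.nd (nat_lit 78) (nat_lit 0) (nat_lit 0) (XT.lf (nat_lit 0) (nat_lit 7905827058) (nat_lit 1216) (nat_lit 5675438163) (nat_lit 1292) (nat_lit 4886213751) (nat_lit 376) (nat_lit 5) (nat_lit 392) (nat_lit 5) (nat_lit 393) (nat_lit 5) (nat_lit 393) (nat_lit 389) (nat_lit 238)) (XT.lf (nat_lit 76) (nat_lit 3826726841) (nat_lit 0) (nat_lit 4799102689) (nat_lit 1292) (nat_lit 10117186493) (nat_lit 377) (nat_lit 5) (nat_lit 376) (nat_lit 5) (nat_lit 393) (nat_lit 5) (nat_lit 394) (nat_lit 389) (nat_lit 237)))) (XT.nd (nat_lit 78) (nat_lit 0) (nat_lit 0) (XT.lf (nat_lit 0) (nat_lit 9458517473) (nat_lit 1216) (nat_lit 5341130584) (nat_lit 1292) (nat_lit 4224438568) (nat_lit 377) (nat_lit 5) (nat_lit 393) (nat_lit 5) (nat_lit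 394) (nat_lit 5) (nat_lit 395) (nat_lit 389) (nat_lit 236)) (XT.nd (nat_lit 78) (nat_lit 0) (nat_lit 76) (XT.lf (nat_lit 76) (nat_lit 4557911269) (nat_lit 0) (nat_lit 5842212793) (nat_lit 1292) (nat_lit 8910947143) (nat_lit 378) (nat_lit 5) (nat_lit 377) (nat_lit 5) (nat_lit 394) (nat_lit 5) (nat_lit 396) (nat_lit 389) (nat_lit 235)) (XT.lf (nat_lit 0) (nat_lit 11449778450) (nat_lit 1216) (nat_lit 4779687802) (nat_lit 1292) (nat_lit 3374805080) (nat_lit 378) (nat_lit 5) (nat_lit 394) (nat_lit 5) (nat_lit 395) (nat_lit 5) (nat_lit 397) (nat_lit 389) (nat_lit 234))))))) (XT.nd (nat_lit 936) (nat_lit 3344) (nat_lit 0) (XT.nd (nat_lit 468) (nat_lit 2432) (nat_lit 0) (XT.nd (nat_lit 234) (nat_lit 0) (nat_lit 152) (XT.nd (nat_lit 78) (nat_lit 0) (nat_lit 76) (XT.lf (nat_lit 76) (nat_lit 5538373484) (nat_lit 0) (nat_lit 7096642650) (nat_lit 1292) (nat_lit 7268128522) (nat_lit 379) (nat_lit 5) (nat_lit 378)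 (nat_lit 5) (nat_lit 395) (nat_lit 5) (nat_lit 398) (nat_lit 389) (nat_lit 233)) (XT.nd (nat_lit 78) (nat_lit 0) (nat_lit 0) (XT.lf (nat_lit 0) (nat_lit 13919949735) (nat_lit 1216) (nat_lit 3973287199) (nat_lit 1292) (nat_lit 2315823079) (nat_lit 379) (nat_lit 5) (nat_lit 395) (nat_lit 5) (nat_lit 396) (nat_lit 5) (nat_lit 399) (nat_lit 389) (nat_lit 232)) (XT.lf (nat_lit 76) (nat_lit 6787245471) (nat_lit 0) (nat_lit 8585079916) (nat_lit 1292) (nat_lit 5147960625) (nat_lit 380) (nat_lit 5) (nat_lit 379) (nat_lit 5) (nat_lit 396) (nat_lit 5) (nat_lit 400) (nat_lit 389) (nat_lit 231)))) (XT.nd (nat_lit 78) (nat_lit 0) (nat_lit 0) (XT.lf (nat_lit 0) (nat_lit 16911975953) (nat_lit 1216) (nat_lit 2902672278) (nat_lit 1292) (nat_lit 1024889449) (nat_lit 380) (nat_lit 5) (nat_lit 396) (nat_lit 5) (nat_lit 397) (nat_lit 5) (nat_lit 401) (nat_lit 389) (nat_lit 230)) (XT.nd (nat_lit 78) (nat_lit 0) (nat_lit 0)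 (XT.lf (nat_lit 76) (nat_lit 8325169415) (nat_lit 0) (nat_lit 10331410977) (nat_lit 1292) (nat_lit 2507023576) (nat_lit 381) (nat_lit 5) (nat_lit 380) (nat_lit 5) (nat_lit 397) (nat_lit 5) (nat_lit 402) (nat_lit 389) (nat_lit 229)) (XT.lf (nat_lit 76) (nat_lit 19944505379) (nat_lit 0) (nat_lit 532201694) (nat_lit 1292) (nat_lit 1019989648) (nat_lit 381) (nat_lit 5) (nat_lit 380) (nat_lit 5) (nat_lit 397) (nat_lit 5) (nat_lit 403) (nat_lit 389) (nat_lit 228))))) (XT.nd (nat_lit 234) (nat_lit 1368) (nat_lit 0) (XT.nd (nat_lit 78) (nat_lit 0) (nat_lit 0) (XT.lf (nat_lit 0) (nat_lit 687262225) (nat_lit 1292) (nat_lit 11666627351) (nat_lit 1368) (nat_lit 9480177396) (nat_lit 364) (nat_lit 5) (nat_lit 381) (nat_lit 5) (nat_lit 382) (nat_lit 5) (nat_lit 404) (nat_lit 389) (nat_lit 227)) (XT.nd (nat_lit 78) (nat_lit 0) (nat_lit 76) (XT.lf (nat_lit 76) (nat_lit 70276610) (nat_lit 0) (nat_lit 2370860484) (nat_lit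 1368) (nat_lit 19739641082) (nat_lit 365) (nat_lit 5) (nat_lit 364) (nat_lit 5) (nat_lit 382) (nat_lit 5) (nat_lit 405) (nat_lit 389) (nat_lit 226)) (XT.lf (nat_lit 0) (nat_lit 4436920177) (nat_lit 1292) (nat_lit 10218225262) (nat_lit 76) (nat_lit 7877066518) (nat_lit 365) (nat_lit 5) (nat_lit 382) (nat_lit 5) (nat_lit 366) (nat_lit 5) (nat_lit 406) (nat_lit 389) (nat_lit 225)))) (XT.nd (nat_lit 78) (nat_lit 608) (nat_lit 0) (XT.lf (nat_lit 0) (nat_lit 2042252694) (nat_lit 836) (nat_lit 4487860142) (nat_lit 912) (nat_lit 16362949833) (nat_lit 354) (nat_lit 5) (nat_lit 365) (nat_lit 5) (nat_lit 366) (nat_lit 5) (nat_lit 407) (nat_lit 389) (nat_lit 224)) (XT.nd (nat_lit 78) (nat_lit 608) (nat_lit 0) (XT.lf (nat_lit 0) (nat_lit 8842384419) (nat_lit 912) (nat_lit 8445247537) (nat_lit 76) (nat_lit 5972418452) (nat_lit 354) (nat_lit 5) (nat_lit 366) (nat_lit 5) (nat_lit 355) (nat_lit 5) (nat_lit 408) (nat_lit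 389) (nat_lit 223)) (XT.lf (nat_lit 0) (nat_lit 4368372738) (nat_lit 608) (nat_lit 6936787184) (nat_lit 684) (nat_lit 12330453785) (nat_lit 346) (nat_lit 5) (nat_lit 354) (nat_lit 5) (nat_lit 355) (nat_lit 5) (nat_lit 409) (nat_lit 389) (nat_lit 222)))))) (XT.nd (nat_lit 468) (nat_lit 1520) (nat_lit 0) (XT.nd (nat_lit 234) (nat_lit 1216) (nat_lit 0) (XT.nd (nat_lit 78) (nat_lit 608) (nat_lit 0) (XT.lf (nat_lit 0) (nat_lit 13958566789) (nat_lit 684) (nat_lit 6322039650) (nat_lit 76) (nat_lit 3738335022) (nat_lit 346) (nat_lit 5) (nat_lit 355) (nat_lit 5) (nat_lit 347) (nat_lit 5) (nat_lit 410) (nat_lit 389) (nat_lit 221)) (XT.nd (nat_lit 78) (nat_lit 0) (nat_lit 0) (XT.lf (nat_lit 0) (nat_lit 7076034254) (nat_lit 608) (nat_lit 9747213029) (nat_lit 684) (nat_lit 7586571623) (nat_lit 338) (nat_lit 5) (nat_lit 346) (nat_lit 5) (nat_lit 347) (nat_lit 5) (nat_lit 411) (nat_lit 389) (nat_lit 220)) (XT.lf (nat_lit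 0) (nat_lit 19844007444) (nat_lit 684) (nat_lit 3821070637) (nat_lit 76) (nat_lit 1145240415) (nat_lit 338) (nat_lit 5) (nat_lit 347) (nat_lit 5) (nat_lit 339) (nat_lit 5) (nat_lit 412) (nat_lit 389) (nat_lit 219)))) (XT.nd (nat_lit 78) (nat_lit 684) (nat_lit 0) (XT.lf (nat_lit 0) (nat_lit 10194614263) (nat_lit 532) (nat_lit 12950495720) (nat_lit 608) (nat_lit 2072031503) (nat_lit 331) (nat_lit 5) (nat_lit 338) (nat_lit 5) (nat_lit 339) (nat_lit 5) (nat_lit 413) (nat_lit 389) (nat_lit 218)) (XT.nd (nat_lit 78) (nat_lit 608) (nat_lit 0) (XT.lf (nat_lit 0) (nat_lit 925566939) (nat_lit 608) (nat_lit 939918307) (nat_lit 76) (nat_lit 23769394867) (nat_lit 330) (nat_lit 5) (nat_lit 338) (nat_lit 5) (nat_lit 331) (nat_lit 5) (nat_lit 414) (nat_lit 389) (nat_lit 217)) (XT.lf (nat_lit 0) (nat_lit 4192928729) (nat_lit 684) (nat_lit 12344644766) (nat_lit 76) (nat_lit 9520317513) (nat_lit 322) (nat_lit 5) (nat_lit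 331) (nat_lit 5) (nat_lit 323) (nat_lit 5) (nat_lit 415) (nat_lit 389) (nat_lit 216))))) (XT.nd (nat_lit 234) (nat_lit 456) (nat_lit 0) (XT.nd (nat_lit 78) (nat_lit 532) (nat_lit 0) (XT.lf (nat_lit 0) (nat_lit 2354517855) (nat_lit 532) (nat_lit 5249969593) (nat_lit 608) (nat_lit 18887719500) (nat_lit 315) (nat_lit 5) (nat_lit 322) (nat_lit 5) (nat_lit 323) (nat_lit 5) (nat_lit 416) (nat_lit 389) (nat_lit 215)) (XT.nd (nat_lit 78) (nat_lit 532) (nat_lit 0) (XT.lf (nat_lit 0) (nat_lit 11301146009) (nat_lit 608) (nat_lit 9255541803) (nat_lit 76) (nat_lit 6377381961) (nat_lit 315) (nat_lit 5) (nat_lit 323) (nat_lit 5) (nat_lit 316) (nat_lit 5) (nat_lit 417) (nat_lit 389) (nat_lit 214)) (XT.lf (nat_lit 0) (nat_lit 6136058804) (nat_lit 532) (nat_lit 9079307624) (nat_lit 608) (nat_lit 12170622192) (nat_lit 308) (nat_lit 5) (nat_lit 315) (nat_lit 5) (nat_lit 316) (nat_lit 5) (nat_lit 418) (nat_lit 389) (nat_lit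 213)))) (XT.nd (nat_lit 78) (nat_lit 456) (nat_lit 0) (XT.lf (nat_lit 0) (nat_lit 19363536979) (nat_lit 608) (nat_lit 5701654040) (nat_lit 76) (nat_lit 2782778307) (nat_lit 308) (nat_lit 5) (nat_lit 316) (nat_lit 5) (nat_lit 309) (nat_lit 5) (nat_lit 419) (nat_lit 389) (nat_lit 212)) (XT.nd (nat_lit 78) (nat_lit 0) (nat_lit 0) (XT.lf (nat_lit 0) (nat_lit 10421841687) (nat_lit 456) (nat_lit 13400283057) (nat_lit 532) (nat_lit 4496105548) (nat_lit 302) (nat_lit 5) (nat_lit 308) (nat_lit 5) (nat_lit 309) (nat_lit 5) (nat_lit 420) (nat_lit 389) (nat_lit 211)) (XT.lf (nat_lit 0) (nat_lit 27141264847) (nat_lit 456) (nat_lit 1326752424) (nat_lit 532) (nat_lit 332975402) (nat_lit 302) (nat_lit 5) (nat_lit 308) (nat_lit 5) (nat_lit 309) (nat_lit 5) (nat_lit 421) (nat_lit 389) (nat_lit 210))))))))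
noncomputable def xc120 : XT := (XT.nd (nat_lit 52260) (nat_lit 0) (nat_lit 1064) (XT.nd (nat_lit 51324) (nat_lit 0) (nat_lit 4408) (XT.nd (nat_lit 50856) (nat_lit 0) (nat_lit 6612) (XT.nd (nat_lit 50622) (nat_lit 0) (nat_lit 6536) (XT.nd (nat_lit 78) (nat_lit 456) (nat_lit 0) (XT.lf (nat_lit 0) (nat_lit 4129805033) (nat_lit 608) (nat_lit 14081041152) (nat_lit 76) (nat_lit 11078693180) (nat_lit 294) (nat_lit 5) (nat_lit 302) (nat_lit 5) (nat_lit 295) (nat_lit 5) (nat_lit 422) (nat_lit 389) (nat_lit 209)) (XT.lf (nat_lit 0) (nat_lit 2859082739) (nat_lit 456) (nat_lit 5914354008) (nat_lit 532) (nat_lit 21017596997) (nat_lit 288) (nat_lit 5) (nat_lit 294) (nat_lit 5) (nat_lit 295) (nat_lit 5) (nat_lit 423) (nat_lit 389) (nat_lit 208))) (XT.nd (nat_lit 78) (nat_lit 0) (nat_lit 0) (XT.lf (nat_lit 0) (nat_lit 3289482619) (nat_lit 1292) (nat_lit 2837959157) (nat_lit 1292) (nat_lit 2837959157) (nat_lit 374)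 (nat_lit 3) (nat_lit 391) (nat_lit 3) (nat_lit 391) (nat_lit 5) (nat_lit 390) (nat_lit 390) (nat_lit 240)) (XT.nd (nat_lit 78) (nat_lit 0) (nat_lit 76) (XT.lf (nat_lit 76) (nat_lit 3354949773) (nat_lit 0) (nat_lit 3561088328) (nat_lit 1292) (nat_lit 11276574143) (nat_lit 375) (nat_lit 5) (nat_lit 374) (nat_lit 3) (nat_lit 391) (nat_lit 5) (nat_lit 391) (nat_lit 390) (nat_lit 239)) (XT.lf (nat_lit 0) (nat_lit 7364903572) (nat_lit 1216) (nat_lit 5744381412) (nat_lit 1292) (nat_lit 5349941534) (nat_lit 375) (nat_lit 5) (nat_lit 391) (nat_lit 5) (nat_lit 392) (nat_lit 5) (nat_lit 392) (nat_lit 390) (nat_lit 238))))) (XT.nd (nat_lit 234) (nat_lit 0) (nat_lit 152) (XT.nd (nat_lit 78) (nat_lit 0) (nat_lit 76) (XT.lf (nat_lit 76) (nat_lit 3653355819) (nat_lit 0) (nat_lit 4236441676) (nat_lit 1292) (nat_lit 10842164852) (nat_lit 376) (nat_lit 5) (nat_lit 375) (nat_lit 5) (nat_lit 392) (nat_lit 5) (nat_lit 393)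 (nat_lit 390) (nat_lit 237)) (XT.nd (nat_lit 78) (nat_lit 0) (nat_lit 0) (XT.lf (nat_lit 0) (nat_lit 8528549767) (nat_lit 1216) (nat_lit 5612653420) (nat_lit 1292) (nat_lit 4868733718) (nat_lit 376) (nat_lit 5) (nat_lit 392) (nat_lit 5) (nat_lit 393) (nat_lit 5) (nat_lit 394) (nat_lit 390) (nat_lit 236)) (XT.lf (nat_lit 76) (nat_lit 4172291752) (nat_lit 0) (nat_lit 5088849248) (nat_lit 1292) (nat_lit 10032869408) (nat_lit 377) (nat_lit 5) (nat_lit 376) (nat_lit 5) (nat_lit 393) (nat_lit 5) (nat_lit 395) (nat_lit 390) (nat_lit 235)))) (XT.nd (nat_lit 78) (nat_lit 0) (nat_lit 0) (XT.lf (nat_lit 0) (nat_lit 10106482045) (nat_lit 1216) (nat_lit 5264995117) (nat_lit 1292) (nat_lit 4212405791) (nat_lit 377) (nat_lit 5) (nat_lit 393) (nat_lit 5) (nat_lit 394) (nat_lit 5) (nat_lit 396) (nat_lit 390) (nat_lit 234)) (XT.nd (nat_lit 78) (nat_lit 0) (nat_lit 76) (XT.lf (nat_lit 76) (nat_lit 4928700645) (nat_lit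 0) (nat_lit 6139278008) (nat_lit 1292) (nat_lit 8811749162) (nat_lit 378) (nat_lit 5) (nat_lit 377) (nat_lit 5) (nat_lit 394) (nat_lit 5) (nat_lit 397) (nat_lit 390) (nat_lit 233)) (XT.lf (nat_lit 0) (nat_lit 12137621380) (nat_lit 1216) (nat_lit 4684342156) (nat_lit 1292) (nat_lit 3360105450) (nat_lit 378) (nat_lit 5) (nat_lit 394) (nat_lit 5) (nat_lit 395) (nat_lit 5) (nat_lit 398) (nat_lit 390) (nat_lit 232)))))) (XT.nd (nat_lit 468) (nat_lit 2432) (nat_lit 0) (XT.nd (nat_lit 234) (nat_lit 0) (nat_lit 152) (XT.nd (nat_lit 78) (nat_lit 0) (nat_lit 76) (XT.lf (nat_lit 76) (nat_lit 5940920417) (nat_lit 0) (nat_lit 7409738558) (nat_lit 1292) (nat_lit 7139482249) (nat_lit 379) (nat_lit 5) (nat_lit 378) (nat_lit 5) (nat_lit 395) (nat_lit 5) (nat_lit 399) (nat_lit 390) (nat_lit 231)) (XT.nd (nat_lit 78) (nat_lit 0) (nat_lit 0) (XT.lf (nat_lit 0) (nat_lit 14663401826) (nat_lit 1216) (nat_lit 3852236640) (nat_lit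 1292) (nat_lit 2289917740) (nat_lit 379) (nat_lit 5) (nat_lit 395) (nat_lit 5) (nat_lit 396) (nat_lit 5) (nat_lit 400) (nat_lit 390) (nat_lit 230)) (XT.lf (nat_lit 76) (nat_lit 7228756626) (nat_lit 0) (nat_lit 8923388020) (nat_lit 1292) (nat_lit 4974190461) (nat_lit 380) (nat_lit 5) (nat_lit 379) (nat_lit 5) (nat_lit 396) (nat_lit 5) (nat_lit 401) (nat_lit 390) (nat_lit 229)))) (XT.nd (nat_lit 78) (nat_lit 0) (nat_lit 0) (XT.lf (nat_lit 0) (nat_lit 17727950013) (nat_lit 1216) (nat_lit 2748752884) (nat_lit 1292) (nat_lit 978762471) (nat_lit 380) (nat_lit 5) (nat_lit 396) (nat_lit 5) (nat_lit 397) (nat_lit 5) (nat_lit 402) (nat_lit 390) (nat_lit 228)) (XT.nd (nat_lit 78) (nat_lit 0) (nat_lit 0) (XT.lf (nat_lit 76) (nat_lit 8813561319) (nat_lit 0) (nat_lit 10704636408) (nat_lit 1292) (nat_lit 2271256761) (nat_lit 381) (nat_lit 5) (nat_lit 380) (nat_lit 5) (nat_lit 397) (nat_lit 5) (nat_lit 403) (nat_lit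 390) (nat_lit 227)) (XT.lf (nat_lit 76) (nat_lit 20774526776) (nat_lit 0) (nat_lit 609607650) (nat_lit 1292) (nat_lit 748669413) (nat_lit 381) (nat_lit 5) (nat_lit 380) (nat_lit 5) (nat_lit 397) (nat_lit 5) (nat_lit 404) (nat_lit 390) (nat_lit 226))))) (XT.nd (nat_lit 234) (nat_lit 1368) (nat_lit 0) (XT.nd (nat_lit 78) (nat_lit 0) (nat_lit 0) (XT.lf (nat_lit 0) (nat_lit 997024530) (nat_lit 1292) (nat_lit 11772164450) (nat_lit 1368) (nat_lit 9711225667) (nat_lit 364) (nat_lit 5) (nat_lit 381) (nat_lit 5) (nat_lit 382) (nat_lit 5) (nat_lit 405) (nat_lit 390) (nat_lit 225)) (XT.nd (nat_lit 78) (nat_lit 0) (nat_lit 76) (XT.lf (nat_lit 76) (nat_lit 314449945) (nat_lit 0) (nat_lit 2482970894) (nat_lit 1368) (nat_lit 20040289193) (nat_lit 365) (nat_lit 5) (nat_lit 364) (nat_lit 5) (nat_lit 382) (nat_lit 5) (nat_lit 406) (nat_lit 390) (nat_lit 224)) (XT.lf (nat_lit 0) (nat_lit 4844450757) (nat_lit 1292) (nat_lit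 10281130762) (nat_lit 76) (nat_lit 8074364108) (nat_lit 365) (nat_lit 5) (nat_lit 382) (nat_lit 5) (nat_lit 366) (nat_lit 5) (nat_lit 407) (nat_lit 390) (nat_lit 223)))) (XT.nd (nat_lit 78) (nat_lit 608) (nat_lit 0) (XT.lf (nat_lit 0) (nat_lit 2344772893) (nat_lit 836) (nat_lit 4649992469) (nat_lit 912) (nat_lit 16577026714) (nat_lit 354) (nat_lit 5) (nat_lit 365) (nat_lit 5) (nat_lit 366) (nat_lit 5) (nat_lit 408) (nat_lit 390) (nat_lit 222)) (XT.nd (nat_lit 78) (nat_lit 608) (nat_lit 0) (XT.lf (nat_lit 0) (nat_lit 9368320832) (nat_lit 912) (nat_lit 8456294861) (nat_lit 76) (nat_lit 6125416282) (nat_lit 354) (nat_lit 5) (nat_lit 366) (nat_lit 5) (nat_lit 355) (nat_lit 5) (nat_lit 409) (nat_lit 390) (nat_lit 221)) (XT.lf (nat_lit 0) (nat_lit 4739358433) (nat_lit 608) (nat_lit 7160335383) (nat_lit 684) (nat_lit 12437326930) (nat_lit 346) (nat_lit 5) (nat_lit 354) (nat_lit 5) (nat_lit 355) (nat_lit 5)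 (nat_lit 410) (nat_lit 390) (nat_lit 220))))))) (XT.nd (nat_lit 51558) (nat_lit 0) (nat_lit 5472) (XT.nd (nat_lit 468) (nat_lit 1520) (nat_lit 0) (XT.nd (nat_lit 234) (nat_lit 1216) (nat_lit 0) (XT.nd (nat_lit 78) (nat_lit 608) (nat_lit 0) (XT.lf (nat_lit 0) (nat_lit 14625120524) (nat_lit 684) (nat_lit 6271172346) (nat_lit 76) (nat_lit 3835782933) (nat_lit 346) (nat_lit 5) (nat_lit 355) (nat_lit 5) (nat_lit 347) (nat_lit 5) (nat_lit 411) (nat_lit 390) (nat_lit 219)) (XT.nd (nat_lit 78) (nat_lit 0) (nat_lit 0) (XT.lf (nat_lit 0) (nat_lit 7526485653) (nat_lit 608) (nat_lit 10044327839) (nat_lit 684) (nat_lit 7564013917) (nat_lit 338) (nat_lit 5) (nat_lit 346) (nat_lit 5) (nat_lit 347) (nat_lit 5) (nat_lit 412) (nat_lit 390) (nat_lit 218)) (XT.lf (nat_lit 0) (nat_lit 20675078760) (nat_lit 684) (nat_lit 3697351689) (nat_lit 76) (nat_lit 1175125068) (nat_lit 338) (nat_lit 5) (nat_lit 347) (nat_lit 5) (nat_lit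 339) (nat_lit 5) (nat_lit 413) (nat_lit 390) (nat_lit 217)))) (XT.nd (nat_lit 78) (nat_lit 684) (nat_lit 0) (XT.lf (nat_lit 0) (nat_lit 10736466982) (nat_lit 532) (nat_lit 13334149571) (nat_lit 608) (nat_lit 1896104580) (nat_lit 331) (nat_lit 5) (nat_lit 338) (nat_lit 5) (nat_lit 339) (nat_lit 5) (nat_lit 414) (nat_lit 390) (nat_lit 216)) (XT.nd (nat_lit 78) (nat_lit 608) (nat_lit 0) (XT.lf (nat_lit 0) (nat_lit 1179976584) (nat_lit 608) (nat_lit 734465134) (nat_lit 76) (nat_lit 24482685518) (nat_lit 330) (nat_lit 5) (nat_lit 338) (nat_lit 5) (nat_lit 331) (nat_lit 5) (nat_lit 415) (nat_lit 390) (nat_lit 215)) (XT.lf (nat_lit 0) (nat_lit 4541069384) (nat_lit 684) (nat_lit 12477043542) (nat_lit 76) (nat_lit 9814844228) (nat_lit 322) (nat_lit 5) (nat_lit 331) (nat_lit 5) (nat_lit 323) (nat_lit 5) (nat_lit 416) (nat_lit 390) (nat_lit 214))))) (XT.nd (nat_lit 234) (nat_lit 456) (nat_lit 0) (XT.nd (nat_lit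 78) (nat_lit 532) (nat_lit 0) (XT.lf (nat_lit 0) (nat_lit 2660761206) (nat_lit 532) (nat_lit 5390002169) (nat_lit 608) (nat_lit 19229665541) (nat_lit 315) (nat_lit 5) (nat_lit 322) (nat_lit 5) (nat_lit 323) (nat_lit 5) (nat_lit 417) (nat_lit 390) (nat_lit 213)) (XT.nd (nat_lit 78) (nat_lit 532) (nat_lit 0) (XT.lf (nat_lit 0) (nat_lit 11852131072) (nat_lit 608) (nat_lit 9298271983) (nat_lit 76) (nat_lit 6585330291) (nat_lit 315) (nat_lit 5) (nat_lit 323) (nat_lit 5) (nat_lit 316) (nat_lit 5) (nat_lit 418) (nat_lit 390) (nat_lit 212)) (XT.lf (nat_lit 0) (nat_lit 6552773347) (nat_lit 532) (nat_lit 9327067645) (nat_lit 608) (nat_lit 12321486880) (nat_lit 308) (nat_lit 5) (nat_lit 315) (nat_lit 5) (nat_lit 316) (nat_lit 5) (nat_lit 419) (nat_lit 390) (nat_lit 211)))) (XT.nd (nat_lit 78) (nat_lit 456) (nat_lit 0) (XT.lf (nat_lit 0) (nat_lit 20146627774) (nat_lit 608) (nat_lit 5641017709) (nat_lit 76) (nat_lit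 2889697384) (nat_lit 308) (nat_lit 5) (nat_lit 316) (nat_lit 5) (nat_lit 309) (nat_lit 5) (nat_lit 420) (nat_lit 390) (nat_lit 210)) (XT.nd (nat_lit 78) (nat_lit 0) (nat_lit 0) (XT.lf (nat_lit 0) (nat_lit 10963911460) (nat_lit 456) (nat_lit 13771378111) (nat_lit 532) (nat_lit 4426532598) (nat_lit 302) (nat_lit 5) (nat_lit 308) (nat_lit 5) (nat_lit 309) (nat_lit 5) (nat_lit 421) (nat_lit 390) (nat_lit 209)) (XT.lf (nat_lit 0) (nat_lit 28178235338) (nat_lit 456) (nat_lit 1336541950) (nat_lit 532) (nat_lit 144463580) (nat_lit 302) (nat_lit 5) (nat_lit 308) (nat_lit 5) (nat_lit 309) (nat_lit 5) (nat_lit 422) (nat_lit 390) (nat_lit 208)))))) (XT.nd (nat_lit 468) (nat_lit 0) (nat_lit 228) (XT.nd (nat_lit 234) (nat_lit 0) (nat_lit 76) (XT.nd (nat_lit 78) (nat_lit 0) (nat_lit 0) (XT.lf (nat_lit 0) (nat_lit 3592324122) (nat_lit 1292) (nat_lit 2817957064) (nat_lit 1292) (nat_lit 2817957064) (nat_lit 374) (nat_lit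 3) (nat_lit 391) (nat_lit 3) (nat_lit 391) (nat_lit 5) (nat_lit 391) (nat_lit 391) (nat_lit 238)) (XT.nd (nat_lit 78) (nat_lit 0) (nat_lit 76) (XT.lf (nat_lit 76) (nat_lit 3663818416) (nat_lit 0) (nat_lit 3858123775) (nat_lit 1292) (nat_lit 11204495731) (nat_lit 375) (nat_lit 5) (nat_lit 374) (nat_lit 3) (nat_lit 391) (nat_lit 5) (nat_lit 392) (nat_lit 391) (nat_lit 237)) (XT.lf (nat_lit 0) (nat_lit 7970893982) (nat_lit 1216) (nat_lit 5701177724) (nat_lit 1292) (nat_lit 5329380309) (nat_lit 375) (nat_lit 5) (nat_lit 391) (nat_lit 5) (nat_lit 392) (nat_lit 5) (nat_lit 393) (nat_lit 391) (nat_lit 236)))) (XT.nd (nat_lit 78) (nat_lit 0) (nat_lit 76) (XT.lf (nat_lit 76) (nat_lit 3976378534) (nat_lit 0) (nat_lit 4525992878) (nat_lit 1292) (nat_lit 10780273406) (nat_lit 376) (nat_lit 5) (nat_lit 375) (nat_lit 5) (nat_lit 392) (nat_lit 5) (nat_lit 394) (nat_lit 391) (nat_lit 235)) (XT.nd (nat_lit 78) (nat_lit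 0) (nat_lit 0) (XT.lf (nat_lit 0) (nat_lit 9147822131) (nat_lit 1216) (nat_lit 5561363036) (nat_lit 1292) (nat_lit 4860147369) (nat_lit 376) (nat_lit 5) (nat_lit 392) (nat_lit 5) (nat_lit 393) (nat_lit 5) (nat_lit 395) (nat_lit 391) (nat_lit 234)) (XT.lf (nat_lit 76) (nat_lit 4514976863) (nat_lit 0) (nat_lit 5378920209) (nat_lit 1292) (nat_lit 9968285992) (nat_lit 377) (nat_lit 5) (nat_lit 376) (nat_lit 5) (nat_lit 393) (nat_lit 5) (nat_lit 396) (nat_lit 391) (nat_lit 233))))) (XT.nd (nat_lit 234) (nat_lit 0) (nat_lit 76) (XT.nd (nat_lit 78) (nat_lit 0) (nat_lit 0) (XT.lf (nat_lit 0) (nat_lit 10752978465) (nat_lit 1216) (nat_lit 5200144155) (nat_lit 1292) (nat_lit 4207977763) (nat_lit 377) (nat_lit 5) (nat_lit 393) (nat_lit 5) (nat_lit 394) (nat_lit 5) (nat_lit 397) (nat_lit 391) (nat_lit 232)) (XT.nd (nat_lit 78) (nat_lit 0) (nat_lit 76) (XT.lf (nat_lit 76) (nat_lit 5297178157) (nat_lit 0) (nat_lit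 6438263428) (nat_lit 1292) (nat_lit 8730615357) (nat_lit 378) (nat_lit 5) (nat_lit 377) (nat_lit 5) (nat_lit 394) (nat_lit 5) (nat_lit 398) (nat_lit 391) (nat_lit 231)) (XT.lf (nat_lit 0) (nat_lit 12826332524) (nat_lit 1216) (nat_lit 4599840579) (nat_lit 1292) (nat_lit 3351620477) (nat_lit 378) (nat_lit 5) (nat_lit 394) (nat_lit 5) (nat_lit 395) (nat_lit 5) (nat_lit 399) (nat_lit 391) (nat_lit 230)))) (XT.nd (nat_lit 78) (nat_lit 0) (nat_lit 76) (XT.lf (nat_lit 76) (nat_lit 6341973676) (nat_lit 0) (nat_lit 7726475647) (nat_lit 1292) (nat_lit 7026878020) (nat_lit 379) (nat_lit 5) (nat_lit 378) (nat_lit 5) (nat_lit 395) (nat_lit 5) (nat_lit 400) (nat_lit 391) (nat_lit 229)) (XT.nd (nat_lit 78) (nat_lit 0) (nat_lit 0) (XT.lf (nat_lit 0) (nat_lit 15410452149) (nat_lit 1216) (nat_lit 3741345849) (nat_lit 1292) (nat_lit 2268710446) (nat_lit 379) (nat_lit 5) (nat_lit 395) (nat_lit 5) (nat_lit 396) (nat_lit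 5) (nat_lit 401) (nat_lit 391) (nat_lit 228)) (XT.lf (nat_lit 76) (nat_lit 7669857039) (nat_lit 0) (nat_lit 9267209659) (nat_lit 1292) (nat_lit 4814047731) (nat_lit 380) (nat_lit 5) (nat_lit 379) (nat_lit 5) (nat_lit 396) (nat_lit 5) (nat_lit 402) (nat_lit 391) (nat_lit 227))))))))
noncomputable def xc121 : XT := (XT.nd (nat_lit 52494) (nat_lit 0) (nat_lit 1520) (XT.nd (nat_lit 858) (nat_lit 2736) (nat_lit 0) (XT.nd (nat_lit 390) (nat_lit 1976) (nat_lit 0) (XT.nd (nat_lit 156) (nat_lit 1216) (nat_lit 0) (XT.nd (nat_lit 78) (nat_lit 0) (nat_lit 0) (XT.lf (nat_lit 0) (nat_lit 18550687543) (nat_lit 1216) (nat_lit 2604050269) (nat_lit 1292) (nat_lit 935664546) (nat_lit 380) (nat_lit 5) (nat_lit 396) (nat_lit 5) (nat_lit 397) (nat_lit 5) (nat_lit 403) (nat_lit 391) (nat_lit 226)) (XT.lf (nat_lit 76) (nat_lit 9302906251) (nat_lit 0) (nat_lit 11085425894) (nat_lit 1292) (nat_lit 2046268325) (nat_lit 381) (nat_lit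 5) (nat_lit 380) (nat_lit 5) (nat_lit 397) (nat_lit 5) (nat_lit 404) (nat_lit 391) (nat_lit 225))) (XT.nd (nat_lit 78) (nat_lit 1216) (nat_lit 0) (XT.lf (nat_lit 76) (nat_lit 21616149076) (nat_lit 0) (nat_lit 685808882) (nat_lit 1292) (nat_lit 486541010) (nat_lit 381) (nat_lit 5) (nat_lit 380) (nat_lit 5) (nat_lit 397) (nat_lit 5) (nat_lit 405) (nat_lit 391) (nat_lit 224)) (XT.nd (nat_lit 78) (nat_lit 0) (nat_lit 0) (XT.lf (nat_lit 0) (nat_lit 1299481630) (nat_lit 1292) (nat_lit 11894900766) (nat_lit 1368) (nat_lit 9952268300) (nat_lit 364) (nat_lit 5) (nat_lit 381) (nat_lit 5) (nat_lit 382) (nat_lit 5) (nat_lit 406) (nat_lit 391) (nat_lit 223)) (XT.lf (nat_lit 76) (nat_lit 552052957) (nat_lit 0) (nat_lit 2596091932) (nat_lit 1368) (nat_lit 20366692401) (nat_lit 365) (nat_lit 5) (nat_lit 364) (nat_lit 5) (nat_lit 382) (nat_lit 5) (nat_lit 407) (nat_lit 391) (nat_lit 222))))) (XT.nd (nat_lit 234) (nat_lit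 1216) (nat_lit 0) (XT.nd (nat_lit 78) (nat_lit 836) (nat_lit 0) (XT.lf (nat_lit 0) (nat_lit 5248454252) (nat_lit 1292) (nat_lit 10359909432) (nat_lit 76) (nat_lit 8279820212) (nat_lit 365) (nat_lit 5) (nat_lit 382) (nat_lit 5) (nat_lit 366) (nat_lit 5) (nat_lit 408) (nat_lit 391) (nat_lit 221)) (XT.nd (nat_lit 78) (nat_lit 0) (nat_lit 0) (XT.lf (nat_lit 0) (nat_lit 2642519810) (nat_lit 836) (nat_lit 4815410352) (nat_lit 912) (nat_lit 16813416020) (nat_lit 354) (nat_lit 5) (nat_lit 365) (nat_lit 5) (nat_lit 366) (nat_lit 5) (nat_lit 409) (nat_lit 391) (nat_lit 220)) (XT.lf (nat_lit 0) (nat_lit 9895072106) (nat_lit 912) (nat_lit 8481583196) (nat_lit 76) (nat_lit 6284506582) (nat_lit 354) (nat_lit 5) (nat_lit 366) (nat_lit 5) (nat_lit 355) (nat_lit 5) (nat_lit 410) (nat_lit 391) (nat_lit 219)))) (XT.nd (nat_lit 78) (nat_lit 608) (nat_lit 0) (XT.lf (nat_lit 0) (nat_lit 5107700477) (nat_lit 608) (nat_lit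 7389703445) (nat_lit 684) (nat_lit 12562505867) (nat_lit 346) (nat_lit 5) (nat_lit 354) (nat_lit 5) (nat_lit 355) (nat_lit 5) (nat_lit 411) (nat_lit 391) (nat_lit 218)) (XT.nd (nat_lit 78) (nat_lit 608) (nat_lit 0) (XT.lf (nat_lit 0) (nat_lit 15297446325) (nat_lit 684) (nat_lit 6232586342) (nat_lit 76) (nat_lit 3936998244) (nat_lit 346) (nat_lit 5) (nat_lit 355) (nat_lit 5) (nat_lit 347) (nat_lit 5) (nat_lit 412) (nat_lit 391) (nat_lit 217)) (XT.lf (nat_lit 0) (nat_lit 7976778641) (nat_lit 608) (nat_lit 10350086384) (nat_lit 684) (nat_lit 7555139393) (nat_lit 338) (nat_lit 5) (nat_lit 346) (nat_lit 5) (nat_lit 347) (nat_lit 5) (nat_lit 413) (nat_lit 391) (nat_lit 216)))))) (XT.nd (nat_lit 468) (nat_lit 988) (nat_lit 0) (XT.nd (nat_lit 234) (nat_lit 1140) (nat_lit 0) (XT.nd (nat_lit 78) (nat_lit 608) (nat_lit 0) (XT.lf (nat_lit 0) (nat_lit 21517549140) (nat_lit 684) (nat_lit 3583603499) (nat_lit 76) (nat_lit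 1206163004) (nat_lit 338) (nat_lit 5) (nat_lit 347) (nat_lit 5) (nat_lit 339) (nat_lit 5) (nat_lit 414) (nat_lit 391) (nat_lit 215)) (XT.nd (nat_lit 78) (nat_lit 76) (nat_lit 0) (XT.lf (nat_lit 0) (nat_lit 11281027098) (nat_lit 532) (nat_lit 13729592079) (nat_lit 608) (nat_lit 1728567066) (nat_lit 331) (nat_lit 5) (nat_lit 338) (nat_lit 5) (nat_lit 339) (nat_lit 5) (nat_lit 415) (nat_lit 391) (nat_lit 214)) (XT.lf (nat_lit 0) (nat_lit 1429008305) (nat_lit 608) (nat_lit 536260873) (nat_lit 76) (nat_lit 25217362903) (nat_lit 330) (nat_lit 5) (nat_lit 338) (nat_lit 5) (nat_lit 331) (nat_lit 5) (nat_lit 416) (nat_lit 391) (nat_lit 213)))) (XT.nd (nat_lit 78) (nat_lit 532) (nat_lit 0) (XT.lf (nat_lit 0) (nat_lit 4886890299) (nat_lit 684) (nat_lit 12627073044) (nat_lit 76) (nat_lit 10117694861) (nat_lit 322) (nat_lit 5) (nat_lit 331) (nat_lit 5) (nat_lit 323) (nat_lit 5) (nat_lit 417) (nat_lit 391) (nat_lit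 212)) (XT.nd (nat_lit 78) (nat_lit 0) (nat_lit 0) (XT.lf (nat_lit 0) (nat_lit 2962667006) (nat_lit 532) (nat_lit 5535238373) (nat_lit 608) (nat_lit 19594767833) (nat_lit 315) (nat_lit 5) (nat_lit 322) (nat_lit 5) (nat_lit 323) (nat_lit 5) (nat_lit 418) (nat_lit 391) (nat_lit 211)) (XT.lf (nat_lit 0) (nat_lit 12407478851) (nat_lit 608) (nat_lit 9355770360) (nat_lit 76) (nat_lit 6798562619) (nat_lit 315) (nat_lit 5) (nat_lit 323) (nat_lit 5) (nat_lit 316) (nat_lit 5) (nat_lit 419) (nat_lit 391) (nat_lit 210))))) (XT.nd (nat_lit 50934) (nat_lit 0) (nat_lit 5472) (XT.nd (nat_lit 78) (nat_lit 456) (nat_lit 0) (XT.lf (nat_lit 0) (nat_lit 6968635253) (nat_lit 532) (nat_lit 9583673709) (nat_lit 608) (nat_lit 12489176563) (nat_lit 308) (nat_lit 5) (nat_lit 315) (nat_lit 5) (nat_lit 316) (nat_lit 5) (nat_lit 420) (nat_lit 391) (nat_lit 209)) (XT.nd (nat_lit 78) (nat_lit 456) (nat_lit 0) (XT.lf (nat_lit 0) (nat_lit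 20941605064) (nat_lit 608) (nat_lit 5591862009) (nat_lit 76) (nat_lit 2998478726) (nat_lit 308) (nat_lit 5) (nat_lit 316) (nat_lit 5) (nat_lit 309) (nat_lit 5) (nat_lit 421) (nat_lit 391) (nat_lit 208)) (XT.lf (nat_lit 0) (nat_lit 11509073993) (nat_lit 456) (nat_lit 14155380574) (nat_lit 532) (nat_lit 4366609077) (nat_lit 302) (nat_lit 5) (nat_lit 308) (nat_lit 5) (nat_lit 309) (nat_lit 5) (nat_lit 422) (nat_lit 391) (nat_lit 207)))) (XT.nd (nat_lit 78) (nat_lit 0) (nat_lit 0) (XT.lf (nat_lit 0) (nat_lit 3892531422) (nat_lit 1292) (nat_lit 2803390424) (nat_lit 1292) (nat_lit 2803390424) (nat_lit 374) (nat_lit 3) (nat_lit 391) (nat_lit 3) (nat_lit 391) (nat_lit 5) (nat_lit 392) (nat_lit 392) (nat_lit 236)) (XT.nd (nat_lit 78) (nat_lit 0) (nat_lit 76) (XT.lf (nat_lit 76) (nat_lit 3970000430) (nat_lit 0) (nat_lit 4153151866) (nat_lit 1292) (nat_lit 11153812208) (nat_lit 375) (nat_lit 5) (nat_lit 374) (nat_lit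 3) (nat_lit 391) (nat_lit 5) (nat_lit 393) (nat_lit 392) (nat_lit 235)) (XT.lf (nat_lit 0) (nat_lit 8572961043) (nat_lit 1216) (nat_lit 5669050524) (nat_lit 1292) (nat_lit 5318595801) (nat_lit 375) (nat_lit 5) (nat_lit 391) (nat_lit 5) (nat_lit 392) (nat_lit 5) (nat_lit 394) (nat_lit 392) (nat_lit 234))))))) (XT.nd (nat_lit 936) (nat_lit 4028) (nat_lit 0) (XT.nd (nat_lit 468) (nat_lit 0) (nat_lit 228) (XT.nd (nat_lit 234) (nat_lit 0) (nat_lit 152) (XT.nd (nat_lit 78) (nat_lit 0) (nat_lit 76) (XT.lf (nat_lit 76) (nat_lit 4296840633) (nat_lit 0) (nat_lit 4814904864) (nat_lit 1292) (nat_lit 10738749577) (nat_lit 376) (nat_lit 5) (nat_lit 375) (nat_lit 5) (nat_lit 392) (nat_lit 5) (nat_lit 395) (nat_lit 392) (nat_lit 233)) (XT.nd (nat_lit 78) (nat_lit 0) (nat_lit 0) (XT.lf (nat_lit 0) (nat_lit 9764811108) (nat_lit 1216) (nat_lit 5521143897) (nat_lit 1292) (nat_lit 4860180877) (nat_lit 376) (nat_lit 5) (nat_lit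 392) (nat_lit 5) (nat_lit 393) (nat_lit 5) (nat_lit 396) (nat_lit 392) (nat_lit 232)) (XT.lf (nat_lit 76) (nat_lit 4855456199) (nat_lit 0) (nat_lit 5669805663) (nat_lit 1292) (nat_lit 9922750258) (nat_lit 377) (nat_lit 5) (nat_lit 376) (nat_lit 5) (nat_lit 393) (nat_lit 5) (nat_lit 397) (nat_lit 392) (nat_lit 231)))) (XT.nd (nat_lit 78) (nat_lit 0) (nat_lit 0) (XT.lf (nat_lit 0) (nat_lit 11399162841) (nat_lit 1216) (nat_lit 5146137343) (nat_lit 1292) (nat_lit 4210925360) (nat_lit 377) (nat_lit 5) (nat_lit 393) (nat_lit 5) (nat_lit 394) (nat_lit 5) (nat_lit 398) (nat_lit 392) (nat_lit 230)) (XT.nd (nat_lit 78) (nat_lit 0) (nat_lit 76) (XT.lf (nat_lit 76) (nat_lit 5664045706) (nat_lit 0) (nat_lit 6739628014) (nat_lit 1292) (nat_lit 8666879863) (nat_lit 378) (nat_lit 5) (nat_lit 377) (nat_lit 5) (nat_lit 394) (nat_lit 5) (nat_lit 399) (nat_lit 392) (nat_lit 229)) (XT.lf (nat_lit 0) (nat_lit 13517072638)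 (nat_lit 1216) (nat_lit 4525721704) (nat_lit 1292) (nat_lit 3349154542) (nat_lit 378) (nat_lit 5) (nat_lit 394) (nat_lit 5) (nat_lit 395) (nat_lit 5) (nat_lit 400) (nat_lit 392) (nat_lit 228))))) (XT.nd (nat_lit 234) (nat_lit 0) (nat_lit 152) (XT.nd (nat_lit 78) (nat_lit 0) (nat_lit 76) (XT.lf (nat_lit 76) (nat_lit 6742267430) (nat_lit 0) (nat_lit 8047293324) (nat_lit 1292) (nat_lit 6929654672) (nat_lit 379) (nat_lit 5) (nat_lit 378) (nat_lit 5) (nat_lit 395) (nat_lit 5) (nat_lit 401) (nat_lit 392) (nat_lit 227)) (XT.nd (nat_lit 78) (nat_lit 0) (nat_lit 0) (XT.lf (nat_lit 0) (nat_lit 16162282415) (nat_lit 1216) (nat_lit 3640127944) (nat_lit 1292) (nat_lit 2252027837) (nat_lit 379) (nat_lit 5) (nat_lit 395) (nat_lit 5) (nat_lit 396) (nat_lit 5) (nat_lit 402) (nat_lit 392) (nat_lit 226)) (XT.lf (nat_lit 76) (nat_lit 8111318303) (nat_lit 0) (nat_lit 9616976347) (nat_lit 1292) (nat_lit 4666859733) (nat_lit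 380) (nat_lit 5) (nat_lit 379) (nat_lit 5) (nat_lit 396) (nat_lit 5) (nat_lit 403) (nat_lit 392) (nat_lit 225)))) (XT.nd (nat_lit 78) (nat_lit 0) (nat_lit 0) (XT.lf (nat_lit 0) (nat_lit 19381408405) (nat_lit 1216) (nat_lit 2468046787) (nat_lit 1292) (nat_lit 895433230) (nat_lit 380) (nat_lit 5) (nat_lit 396) (nat_lit 5) (nat_lit 397) (nat_lit 5) (nat_lit 404) (nat_lit 392) (nat_lit 224)) (XT.nd (nat_lit 78) (nat_lit 0) (nat_lit 0) (XT.lf (nat_lit 76) (nat_lit 9794019164) (nat_lit 0) (nat_lit 11474214887) (nat_lit 1292) (nat_lit 1831356874) (nat_lit 381) (nat_lit 5) (nat_lit 380) (nat_lit 5) (nat_lit 397) (nat_lit 5) (nat_lit 405) (nat_lit 392) (nat_lit 223)) (XT.lf (nat_lit 76) (nat_lit 22470483767) (nat_lit 0) (nat_lit 760971709) (nat_lit 1292) (nat_lit 232885299) (nat_lit 381) (nat_lit 5) (nat_lit 380) (nat_lit 5) (nat_lit 397) (nat_lit 5) (nat_lit 406) (nat_lit 392) (nat_lit 222)))))) (XT.nd (nat_lit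 468) (nat_lit 1824) (nat_lit 0) (XT.nd (nat_lit 234) (nat_lit 1368) (nat_lit 0) (XT.nd (nat_lit 78) (nat_lit 0) (nat_lit 0) (XT.lf (nat_lit 0) (nat_lit 1595367167) (nat_lit 1292) (nat_lit 12034546716) (nat_lit 1368) (nat_lit 10203429301) (nat_lit 364) (nat_lit 5) (nat_lit 381) (nat_lit 5) (nat_lit 382) (nat_lit 5) (nat_lit 407) (nat_lit 392) (nat_lit 221)) (XT.nd (nat_lit 78) (nat_lit 0) (nat_lit 76) (XT.lf (nat_lit 76) (nat_lit 783686196) (nat_lit 0) (nat_lit 2710388972) (nat_lit 1368) (nat_lit 20718662663) (nat_lit 365) (nat_lit 5) (nat_lit 364) (nat_lit 5) (nat_lit 382) (nat_lit 5) (nat_lit 408) (nat_lit 392) (nat_lit 220)) (XT.lf (nat_lit 0) (nat_lit 5649729138) (nat_lit 1292) (nat_lit 10454234614) (nat_lit 76) (nat_lit 8493551024) (nat_lit 365) (nat_lit 5) (nat_lit 382) (nat_lit 5) (nat_lit 366) (nat_lit 5) (nat_lit 409) (nat_lit 392) (nat_lit 219)))) (XT.nd (nat_lit 78) (nat_lit 608) (nat_lit 0)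 (XT.lf (nat_lit 0) (nat_lit 2936145231) (nat_lit 836) (nat_lit 4984302966) (nat_lit 912) (nat_lit 17071874967) (nat_lit 354) (nat_lit 5) (nat_lit 365) (nat_lit 5) (nat_lit 366) (nat_lit 5) (nat_lit 410) (nat_lit 392) (nat_lit 218)) (XT.nd (nat_lit 78) (nat_lit 608) (nat_lit 0) (XT.lf (nat_lit 0) (nat_lit 10423521639) (nat_lit 912) (nat_lit 8520741304) (nat_lit 76) (nat_lit 6449785876) (nat_lit 354) (nat_lit 5) (nat_lit 366) (nat_lit 5) (nat_lit 355) (nat_lit 5) (nat_lit 411) (nat_lit 392) (nat_lit 217)) (XT.lf (nat_lit 0) (nat_lit 5474110198) (nat_lit 608) (nat_lit 7625116861) (nat_lit 684) (nat_lit 12705672993) (nat_lit 346) (nat_lit 5) (nat_lit 354) (nat_lit 5) (nat_lit 355) (nat_lit 5) (nat_lit 412) (nat_lit 392) (nat_lit 216))))) (XT.nd (nat_lit 234) (nat_lit 1216) (nat_lit 0) (XT.nd (nat_lit 78) (nat_lit 608) (nat_lit 0) (XT.lf (nat_lit 0) (nat_lit 15976533902) (nat_lit 684) (nat_lit 6205857481)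 (nat_lit 76) (nat_lit 4042045531) (nat_lit 346) (nat_lit 5) (nat_lit 355) (nat_lit 5) (nat_lit 347) (nat_lit 5) (nat_lit 413) (nat_lit 392) (nat_lit 215)) (XT.nd (nat_lit 78) (nat_lit 0) (nat_lit 0) (XT.lf (nat_lit 0) (nat_lit 8427693290) (nat_lit 608) (nat_lit 10664763460) (nat_lit 684) (nat_lit 7559534227) (nat_lit 338) (nat_lit 5) (nat_lit 346) (nat_lit 5) (nat_lit 347) (nat_lit 5) (nat_lit 414) (nat_lit 392) (nat_lit 214)) (XT.lf (nat_lit 0) (nat_lit 22372537407) (nat_lit 684) (nat_lit 3479339768) (nat_lit 76) (nat_lit 1238374083) (nat_lit 338) (nat_lit 5) (nat_lit 347) (nat_lit 5) (nat_lit 339) (nat_lit 5) (nat_lit 415) (nat_lit 392) (nat_lit 213)))) (XT.nd (nat_lit 78) (nat_lit 684) (nat_lit 0) (XT.lf (nat_lit 0) (nat_lit 11829153552) (nat_lit 532) (nat_lit 14137160887) (nat_lit 608) (nat_lit 1568886091) (nat_lit 331) (nat_lit 5) (nat_lit 338) (nat_lit 5) (nat_lit 339) (nat_lit 5) (nat_lit 416)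 (nat_lit 392) (nat_lit 212)) (XT.nd (nat_lit 78) (nat_lit 608) (nat_lit 0) (XT.lf (nat_lit 0) (nat_lit 1673247602) (nat_lit 608) (nat_lit 344753059) (nat_lit 76) (nat_lit 25974069311) (nat_lit 330) (nat_lit 5) (nat_lit 338) (nat_lit 5) (nat_lit 331) (nat_lit 5) (nat_lit 417) (nat_lit 392) (nat_lit 211)) (XT.lf (nat_lit 0) (nat_lit 5231054585) (nat_lit 684) (nat_lit 12794478124) (nat_lit 76) (nat_lit 10429148514) (nat_lit 322) (nat_lit 5) (nat_lit 331) (nat_lit 5) (nat_lit 323) (nat_lit 5) (nat_lit 418) (nat_lit 392) (nat_lit 210))))))))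
noncomputable def xc122 : XT := (XT.nd (nat_lit 52650) (nat_lit 0) (nat_lit 532) (XT.nd (nat_lit 51714) (nat_lit 0) (nat_lit 3496) (XT.nd (nat_lit 51246) (nat_lit 0) (nat_lit 5092) (XT.nd (nat_lit 156) (nat_lit 532) (nat_lit 0) (XT.nd (nat_lit 78) (nat_lit 0) (nat_lit 0) (XT.lf (nat_lit 0) (nat_lit 3260881509) (nat_lit 532) (nat_lit 5685776755) (nat_lit 608) (nat_lit 19982980672) (nat_lit 315) (nat_lit 5) (nat_lit 322) (nat_lit 5) (nat_lit 323) (nat_lit 5) (nat_lit 419) (nat_lit 392) (nat_lit 209)) (XT.lf (nat_lit 0) (nat_lit 12968018654) (nat_lit 608) (nat_lit 9427705812) (nat_lit 76) (nat_lit 7017292257) (nat_lit 315) (nat_lit 5) (nat_lit 323) (nat_lit 5) (nat_lit 316) (nat_lit 5) (nat_lit 420) (nat_lit 392) (nat_lit 208))) (XT.nd (nat_lit 50934) (nat_lit 0) (nat_lit 5016) (XT.lf (nat_lit 0) (nat_lit 7384385522) (nat_lit 532) (nat_lit 9849310073) (nat_lit 608) (nat_lit 12673489975) (nat_lit 308) (nat_lit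 5) (nat_lit 315) (nat_lit 5) (nat_lit 316) (nat_lit 5) (nat_lit 421) (nat_lit 392) (nat_lit 207)) (XT.nd (nat_lit 78) (nat_lit 0) (nat_lit 0) (XT.lf (nat_lit 0) (nat_lit 4190698238) (nat_lit 1292) (nat_lit 2794075837) (nat_lit 1292) (nat_lit 2794075837) (nat_lit 374) (nat_lit 3) (nat_lit 391) (nat_lit 3) (nat_lit 391) (nat_lit 5) (nat_lit 393) (nat_lit 393) (nat_lit 234)) (XT.lf (nat_lit 76) (nat_lit 4274101350) (nat_lit 0) (nat_lit 4446739144) (nat_lit 1292) (nat_lit 11123813137) (nat_lit 375) (nat_lit 5) (nat_lit 374) (nat_lit 3) (nat_lit 391) (nat_lit 5) (nat_lit 394) (nat_lit 393) (nat_lit 233))))) (XT.nd (nat_lit 234) (nat_lit 0) (nat_lit 76) (XT.nd (nat_lit 78) (nat_lit 0) (nat_lit 0) (XT.lf (nat_lit 0) (nat_lit 9172255861) (nat_lit 1216) (nat_lit 5647621868) (nat_lit 1292) (nat_lit 5317284680) (nat_lit 375) (nat_lit 5) (nat_lit 391) (nat_lit 5) (nat_lit 392) (nat_lit 5) (nat_lit 395) (nat_lit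 393) (nat_lit 232)) (XT.nd (nat_lit 78) (nat_lit 0) (nat_lit 76) (XT.lf (nat_lit 76) (nat_lit 4615368571) (nat_lit 0) (nat_lit 5103693796) (nat_lit 1292) (nat_lit 10716928624) (nat_lit 376) (nat_lit 5) (nat_lit 375) (nat_lit 5) (nat_lit 392) (nat_lit 5) (nat_lit 396) (nat_lit 393) (nat_lit 231)) (XT.lf (nat_lit 0) (nat_lit 10380645735) (nat_lit 1216) (nat_lit 5491604277) (nat_lit 1292) (nat_lit 4868583238) (nat_lit 376) (nat_lit 5) (nat_lit 392) (nat_lit 5) (nat_lit 393) (nat_lit 5) (nat_lit 397) (nat_lit 393) (nat_lit 230)))) (XT.nd (nat_lit 78) (nat_lit 0) (nat_lit 76) (XT.lf (nat_lit 76) (nat_lit 5194380352) (nat_lit 0) (nat_lit 5961982826) (nat_lit 1292) (nat_lit 9895629002) (nat_lit 377) (nat_lit 5) (nat_lit 376) (nat_lit 5) (nat_lit 393) (nat_lit 5) (nat_lit 398) (nat_lit 393) (nat_lit 229)) (XT.nd (nat_lit 78) (nat_lit 0) (nat_lit 0) (XT.lf (nat_lit 0) (nat_lit 12046157070) (nat_lit 1216) (nat_lit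 5102565824) (nat_lit 1292) (nat_lit 4221038835) (nat_lit 377) (nat_lit 5) (nat_lit 393) (nat_lit 5) (nat_lit 394) (nat_lit 5) (nat_lit 399) (nat_lit 393) (nat_lit 228)) (XT.lf (nat_lit 76) (nat_lit 6029981974) (nat_lit 0) (nat_lit 7043821458) (nat_lit 1292) (nat_lit 8619926174) (nat_lit 378) (nat_lit 5) (nat_lit 377) (nat_lit 5) (nat_lit 394) (nat_lit 5) (nat_lit 400) (nat_lit 393) (nat_lit 227)))))) (XT.nd (nat_lit 468) (nat_lit 1824) (nat_lit 0) (XT.nd (nat_lit 234) (nat_lit 0) (nat_lit 76) (XT.nd (nat_lit 78) (nat_lit 0) (nat_lit 0) (XT.lf (nat_lit 0) (nat_lit 14210972166) (nat_lit 1216) (nat_lit 4461555478) (nat_lit 1292) (nat_lit 3352528085) (nat_lit 378) (nat_lit 5) (nat_lit 394) (nat_lit 5) (nat_lit 395) (nat_lit 5) (nat_lit 401) (nat_lit 393) (nat_lit 226)) (XT.nd (nat_lit 78) (nat_lit 0) (nat_lit 76) (XT.lf (nat_lit 76) (nat_lit 7142513154) (nat_lit 0) (nat_lit 8372625223) (nat_lit 1292) (nat_lit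 6847196788) (nat_lit 379) (nat_lit 5) (nat_lit 378) (nat_lit 5) (nat_lit 395) (nat_lit 5) (nat_lit 402) (nat_lit 393) (nat_lit 225)) (XT.lf (nat_lit 0) (nat_lit 16920048146) (nat_lit 1216) (nat_lit 3548126880) (nat_lit 1292) (nat_lit 2239709398) (nat_lit 379) (nat_lit 5) (nat_lit 395) (nat_lit 5) (nat_lit 396) (nat_lit 5) (nat_lit 403) (nat_lit 393) (nat_lit 224)))) (XT.nd (nat_lit 78) (nat_lit 0) (nat_lit 76) (XT.lf (nat_lit 76) (nat_lit 8553890157) (nat_lit 0) (nat_lit 9973117270) (nat_lit 1292) (nat_lit 4531995669) (nat_lit 380) (nat_lit 5) (nat_lit 379) (nat_lit 5) (nat_lit 396) (nat_lit 5) (nat_lit 404) (nat_lit 393) (nat_lit 223)) (XT.nd (nat_lit 78) (nat_lit 0) (nat_lit 0) (XT.lf (nat_lit 0) (nat_lit 20221310677) (nat_lit 1216) (nat_lit 2340254851) (nat_lit 1292) (nat_lit 857915745) (nat_lit 380) (nat_lit 5) (nat_lit 396) (nat_lit 5) (nat_lit 397) (nat_lit 5) (nat_lit 405) (nat_lit 393) (nat_lit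 222)) (XT.lf (nat_lit 76) (nat_lit 10287694320) (nat_lit 0) (nat_lit 11871439935) (nat_lit 1292) (nat_lit 1625858802) (nat_lit 381) (nat_lit 5) (nat_lit 380) (nat_lit 5) (nat_lit 397) (nat_lit 5) (nat_lit 406) (nat_lit 393) (nat_lit 221))))) (XT.nd (nat_lit 234) (nat_lit 684) (nat_lit 0) (XT.nd (nat_lit 78) (nat_lit 0) (nat_lit 76) (XT.lf (nat_lit 0) (nat_lit 12728012) (nat_lit 1292) (nat_lit 822399273) (nat_lit 1368) (nat_lit 23325775314) (nat_lit 363) (nat_lit 5) (nat_lit 380) (nat_lit 5) (nat_lit 381) (nat_lit 5) (nat_lit 407) (nat_lit 393) (nat_lit 220)) (XT.nd (nat_lit 78) (nat_lit 0) (nat_lit 0) (XT.lf (nat_lit 0) (nat_lit 1885382097) (nat_lit 1292) (nat_lit 12190850275) (nat_lit 1368) (nat_lit 10464846491) (nat_lit 364) (nat_lit 5) (nat_lit 381) (nat_lit 5) (nat_lit 382) (nat_lit 5) (nat_lit 408) (nat_lit 393) (nat_lit 219)) (XT.lf (nat_lit 76) (nat_lit 1009922440) (nat_lit 0) (nat_lit 2826024595)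 (nat_lit 1368) (nat_lit 21096061443) (nat_lit 365) (nat_lit 5) (nat_lit 364) (nat_lit 5) (nat_lit 382) (nat_lit 5) (nat_lit 409) (nat_lit 393) (nat_lit 218)))) (XT.nd (nat_lit 78) (nat_lit 836) (nat_lit 0) (XT.lf (nat_lit 0) (nat_lit 6049045933) (nat_lit 1292) (nat_lit 10563815935) (nat_lit 76) (nat_lit 8715683604) (nat_lit 365) (nat_lit 5) (nat_lit 382) (nat_lit 5) (nat_lit 366) (nat_lit 5) (nat_lit 410) (nat_lit 393) (nat_lit 217)) (XT.nd (nat_lit 78) (nat_lit 0) (nat_lit 0) (XT.lf (nat_lit 0) (nat_lit 3226274857) (nat_lit 836) (nat_lit 5156859960) (nat_lit 912) (nat_lit 17352205848) (nat_lit 354) (nat_lit 5) (nat_lit 365) (nat_lit 5) (nat_lit 366) (nat_lit 5) (nat_lit 411) (nat_lit 393) (nat_lit 216)) (XT.lf (nat_lit 0) (nat_lit 10954530022) (nat_lit 912) (nat_lit 8573432648) (nat_lit 76) (nat_lit 6621358533) (nat_lit 354) (nat_lit 5) (nat_lit 366) (nat_lit 5) (nat_lit 355) (nat_lit 5) (nat_lit 412)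 (nat_lit 393) (nat_lit 215))))))) (XT.nd (nat_lit 51870) (nat_lit 0) (nat_lit 3648) (XT.nd (nat_lit 468) (nat_lit 1140) (nat_lit 0) (XT.nd (nat_lit 234) (nat_lit 608) (nat_lit 0) (XT.nd (nat_lit 78) (nat_lit 608) (nat_lit 0) (XT.lf (nat_lit 0) (nat_lit 5839274881) (nat_lit 608) (nat_lit 7866804962) (nat_lit 684) (nat_lit 12866550931) (nat_lit 346) (nat_lit 5) (nat_lit 354) (nat_lit 5) (nat_lit 355) (nat_lit 5) (nat_lit 413) (nat_lit 393) (nat_lit 214)) (XT.nd (nat_lit 78) (nat_lit 608) (nat_lit 0) (XT.lf (nat_lit 0) (nat_lit 16663355780) (nat_lit 684) (nat_lit 6190594379) (nat_lit 76) (nat_lit 4150994086) (nat_lit 346) (nat_lit 5) (nat_lit 355) (nat_lit 5) (nat_lit 347) (nat_lit 5) (nat_lit 414) (nat_lit 393) (nat_lit 213)) (XT.lf (nat_lit 0) (nat_lit 8879988025) (nat_lit 608) (nat_lit 10988641216) (nat_lit 684) (nat_lit 7576819501) (nat_lit 338) (nat_lit 5) (nat_lit 346) (nat_lit 5) (nat_lit 347) (nat_lit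 5) (nat_lit 415) (nat_lit 393) (nat_lit 212)))) (XT.nd (nat_lit 78) (nat_lit 608) (nat_lit 0) (XT.lf (nat_lit 0) (nat_lit 23241151358) (nat_lit 684) (nat_lit 3384104695) (nat_lit 76) (nat_lit 1271779608) (nat_lit 338) (nat_lit 5) (nat_lit 347) (nat_lit 5) (nat_lit 339) (nat_lit 5) (nat_lit 416) (nat_lit 393) (nat_lit 211)) (XT.nd (nat_lit 78) (nat_lit 76) (nat_lit 0) (XT.lf (nat_lit 0) (nat_lit 12381686413) (nat_lit 532) (nat_lit 14557204684) (nat_lit 608) (nat_lit 1416557832) (nat_lit 331) (nat_lit 5) (nat_lit 338) (nat_lit 5) (nat_lit 339) (nat_lit 5) (nat_lit 417) (nat_lit 393) (nat_lit 210)) (XT.lf (nat_lit 0) (nat_lit 1913254671) (nat_lit 608) (nat_lit 159416849) (nat_lit 76) (nat_lit 26753466262) (nat_lit 330) (nat_lit 5) (nat_lit 338) (nat_lit 5) (nat_lit 331) (nat_lit 5) (nat_lit 418) (nat_lit 393) (nat_lit 209))))) (XT.nd (nat_lit 51168) (nat_lit 0) (nat_lit 4484) (XT.nd (nat_lit 78) (nat_lit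 532) (nat_lit 0) (XT.lf (nat_lit 0) (nat_lit 5574203186) (nat_lit 684) (nat_lit 12979040989) (nat_lit 76) (nat_lit 10749490975) (nat_lit 322) (nat_lit 5) (nat_lit 331) (nat_lit 5) (nat_lit 323) (nat_lit 5) (nat_lit 419) (nat_lit 393) (nat_lit 208)) (XT.nd (nat_lit 78) (nat_lit 0) (nat_lit 0) (XT.lf (nat_lit 0) (nat_lit 3556025790) (nat_lit 532) (nat_lit 5841722130) (nat_lit 608) (nat_lit 20394299486) (nat_lit 315) (nat_lit 5) (nat_lit 322) (nat_lit 5) (nat_lit 323) (nat_lit 5) (nat_lit 420) (nat_lit 393) (nat_lit 207)) (XT.lf (nat_lit 0) (nat_lit 13534564574) (nat_lit 608) (nat_lit 9513781723) (nat_lit 76) (nat_lit 7241735767) (nat_lit 315) (nat_lit 5) (nat_lit 323) (nat_lit 5) (nat_lit 316) (nat_lit 5) (nat_lit 421) (nat_lit 393) (nat_lit 206)))) (XT.nd (nat_lit 78) (nat_lit 0) (nat_lit 0) (XT.lf (nat_lit 0) (nat_lit 4487397479) (nat_lit 1292) (nat_lit 2789844291) (nat_lit 1292) (nat_lit 2789844291)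 (nat_lit 374) (nat_lit 3) (nat_lit 391) (nat_lit 3) (nat_lit 391) (nat_lit 5) (nat_lit 394) (nat_lit 394) (nat_lit 232)) (XT.nd (nat_lit 78) (nat_lit 0) (nat_lit 76) (XT.lf (nat_lit 76) (nat_lit 4576705488) (nat_lit 0) (nat_lit 4739433166) (nat_lit 1292) (nat_lit 11113844398) (nat_lit 375) (nat_lit 5) (nat_lit 374) (nat_lit 3) (nat_lit 391) (nat_lit 5) (nat_lit 395) (nat_lit 394) (nat_lit 231)) (XT.lf (nat_lit 0) (nat_lit 9769891241) (nat_lit 1216) (nat_lit 5636543246) (nat_lit 1292) (nat_lit 5325168764) (nat_lit 375) (nat_lit 5) (nat_lit 391) (nat_lit 5) (nat_lit 392) (nat_lit 5) (nat_lit 396) (nat_lit 394) (nat_lit 230)))))) (XT.nd (nat_lit 468) (nat_lit 912) (nat_lit 0) (XT.nd (nat_lit 234) (nat_lit 0) (nat_lit 152) (XT.nd (nat_lit 78) (nat_lit 0) (nat_lit 76) (XT.lf (nat_lit 76) (nat_lit 4932567227) (nat_lit 0) (nat_lit 5392860587) (nat_lit 1292) (nat_lit 10714199100) (nat_lit 376) (nat_lit 5) (nat_lit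 375) (nat_lit 5) (nat_lit 392) (nat_lit 5) (nat_lit 397) (nat_lit 394) (nat_lit 229)) (XT.nd (nat_lit 78) (nat_lit 0) (nat_lit 0) (XT.lf (nat_lit 0) (nat_lit 10996420178) (nat_lit 1216) (nat_lit 5472382250) (nat_lit 1292) (nat_lit 4885125168) (nat_lit 376) (nat_lit 5) (nat_lit 392) (nat_lit 5) (nat_lit 393) (nat_lit 5) (nat_lit 398) (nat_lit 394) (nat_lit 228)) (XT.lf (nat_lit 76) (nat_lit 5532378289) (nat_lit 0) (nat_lit 6255917240) (nat_lit 1292) (nat_lit 9886339172) (nat_lit 377) (nat_lit 5) (nat_lit 376) (nat_lit 5) (nat_lit 393) (nat_lit 5) (nat_lit 399) (nat_lit 394) (nat_lit 227)))) (XT.nd (nat_lit 78) (nat_lit 0) (nat_lit 0) (XT.lf (nat_lit 0) (nat_lit 12695051767) (nat_lit 1216) (nat_lit 5069050624) (nat_lit 1292) (nat_lit 4238126890) (nat_lit 377) (nat_lit 5) (nat_lit 393) (nat_lit 5) (nat_lit 394) (nat_lit 5) (nat_lit 400) (nat_lit 394) (nat_lit 226)) (XT.nd (nat_lit 78) (nat_lit 0) (nat_lit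 76) (XT.lf (nat_lit 76) (nat_lit 6395644274) (nat_lit 0) (nat_lit 7351285223) (nat_lit 1292) (nat_lit 8589184638) (nat_lit 378) (nat_lit 5) (nat_lit 377) (nat_lit 5) (nat_lit 394) (nat_lit 5) (nat_lit 401) (nat_lit 394) (nat_lit 225)) (XT.lf (nat_lit 0) (nat_lit 14909134067) (nat_lit 1216) (nat_lit 4406941518) (nat_lit 1292) (nat_lit 3361576834) (nat_lit 378) (nat_lit 5) (nat_lit 394) (nat_lit 5) (nat_lit 395) (nat_lit 5) (nat_lit 402) (nat_lit 394) (nat_lit 224))))) (XT.nd (nat_lit 234) (nat_lit 1140) (nat_lit 0) (XT.nd (nat_lit 78) (nat_lit 0) (nat_lit 76) (XT.lf (nat_lit 76) (nat_lit 7543401519) (nat_lit 0) (nat_lit 8702900124) (nat_lit 1292) (nat_lit 6778932303) (nat_lit 379) (nat_lit 5) (nat_lit 378) (nat_lit 5) (nat_lit 395) (nat_lit 5) (nat_lit 403) (nat_lit 394) (nat_lit 223)) (XT.nd (nat_lit 78) (nat_lit 0) (nat_lit 0) (XT.lf (nat_lit 0) (nat_lit 17684881430) (nat_lit 1216) (nat_lit 3464915769)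 (nat_lit 1292) (nat_lit 2231606803) (nat_lit 379) (nat_lit 5) (nat_lit 395) (nat_lit 5) (nat_lit 396) (nat_lit 5) (nat_lit 404) (nat_lit 394) (nat_lit 222)) (XT.lf (nat_lit 76) (nat_lit 8998302418) (nat_lit 0) (nat_lit 10336060088) (nat_lit 1292) (nat_lit 4408864338) (nat_lit 380) (nat_lit 5) (nat_lit 379) (nat_lit 5) (nat_lit 396) (nat_lit 5) (nat_lit 405) (nat_lit 394) (nat_lit 221)))) (XT.nd (nat_lit 78) (nat_lit 1292) (nat_lit 0) (XT.lf (nat_lit 0) (nat_lit 21071573355) (nat_lit 1216) (nat_lit 2220215216) (nat_lit 1292) (nat_lit 822968439) (nat_lit 380) (nat_lit 5) (nat_lit 396) (nat_lit 5) (nat_lit 397) (nat_lit 5) (nat_lit 406) (nat_lit 394) (nat_lit 220)) (XT.nd (nat_lit 78) (nat_lit 1292) (nat_lit 0) (XT.lf (nat_lit 76) (nat_lit 10784707261) (nat_lit 0) (nat_lit 12277539399) (nat_lit 1292) (nat_lit 1429146039) (nat_lit 381) (nat_lit 5) (nat_lit 380) (nat_lit 5) (nat_lit 397) (nat_lit 5) (nat_lit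 407) (nat_lit 394) (nat_lit 219)) (XT.lf (nat_lit 0) (nat_lit 246797388) (nat_lit 1292) (nat_lit 659525158) (nat_lit 1368) (nat_lit 23972396505) (nat_lit 363) (nat_lit 5) (nat_lit 380) (nat_lit 5) (nat_lit 381) (nat_lit 5) (nat_lit 408) (nat_lit 394) (nat_lit 218))))))))
noncomputable def xc123 : XT := (XT.nd (nat_lit 52884) (nat_lit 0) (nat_lit 532) (XT.nd (nat_lit 936) (nat_lit 532) (nat_lit 0) (XT.nd (nat_lit 468) (nat_lit 1824) (nat_lit 0) (XT.nd (nat_lit 234) (nat_lit 1368) (nat_lit 0) (XT.nd (nat_lit 78) (nat_lit 0) (nat_lit 0) (XT.lf (nat_lit 0) (nat_lit 2170196849) (nat_lit 1292) (nat_lit 12363595444) (nat_lit 1368) (nat_lit 10736671337) (nat_lit 364) (nat_lit 5) (nat_lit 381) (nat_lit 5) (nat_lit 382) (nat_lit 5) (nat_lit 409) (nat_lit 394) (nat_lit 217)) (XT.nd (nat_lit 78) (nat_lit 0) (nat_lit 76) (XT.lf (nat_lit 76) (nat_lit 1231308489) (nat_lit 0) (nat_lit 2943158951) (nat_lit 1368) (nat_lit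 21498798033) (nat_lit 365) (nat_lit 5) (nat_lit 364) (nat_lit 5) (nat_lit 382) (nat_lit 5) (nat_lit 410) (nat_lit 394) (nat_lit 216)) (XT.lf (nat_lit 0) (nat_lit 6447149341) (nat_lit 1292) (nat_lit 10688397754) (nat_lit 76) (nat_lit 8946355780) (nat_lit 365) (nat_lit 5) (nat_lit 382) (nat_lit 5) (nat_lit 366) (nat_lit 5) (nat_lit 411) (nat_lit 394) (nat_lit 215)))) (XT.nd (nat_lit 78) (nat_lit 608) (nat_lit 0) (XT.lf (nat_lit 0) (nat_lit 3513510147) (nat_lit 836) (nat_lit 5333271767) (nat_lit 912) (nat_lit 17654254379) (nat_lit 354) (nat_lit 5) (nat_lit 365) (nat_lit 5) (nat_lit 366) (nat_lit 5) (nat_lit 412) (nat_lit 394) (nat_lit 214)) (XT.nd (nat_lit 78) (nat_lit 608) (nat_lit 0) (XT.lf (nat_lit 0) (nat_lit 11488937186) (nat_lit 912) (nat_lit 8639353795) (nat_lit 76) (nat_lit 6799336720) (nat_lit 354) (nat_lit 5) (nat_lit 366) (nat_lit 5) (nat_lit 355) (nat_lit 5) (nat_lit 413) (nat_lit 394) (nat_lit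 213)) (XT.lf (nat_lit 0) (nat_lit 6203859648) (nat_lit 608) (nat_lit 8115001208) (nat_lit 684) (nat_lit 13044900884) (nat_lit 346) (nat_lit 5) (nat_lit 354) (nat_lit 5) (nat_lit 355) (nat_lit 5) (nat_lit 414) (nat_lit 394) (nat_lit 212))))) (XT.nd (nat_lit 234) (nat_lit 1216) (nat_lit 0) (XT.nd (nat_lit 78) (nat_lit 608) (nat_lit 0) (XT.lf (nat_lit 0) (nat_lit 17358869482) (nat_lit 684) (nat_lit 6186436796) (nat_lit 76) (nat_lit 4263917904) (nat_lit 346) (nat_lit 5) (nat_lit 355) (nat_lit 5) (nat_lit 347) (nat_lit 5) (nat_lit 415) (nat_lit 394) (nat_lit 211)) (XT.nd (nat_lit 78) (nat_lit 0) (nat_lit 0) (XT.lf (nat_lit 0) (nat_lit 9334401556) (nat_lit 608) (nat_lit 11322009428) (nat_lit 684) (nat_lit 7606649535) (nat_lit 338) (nat_lit 5) (nat_lit 346) (nat_lit 5) (nat_lit 347) (nat_lit 5) (nat_lit 416) (nat_lit 394) (nat_lit 210)) (XT.lf (nat_lit 0) (nat_lit 24124489989) (nat_lit 684) (nat_lit 3297471303)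 (nat_lit 76) (nat_lit 1306402317) (nat_lit 338) (nat_lit 5) (nat_lit 347) (nat_lit 5) (nat_lit 339) (nat_lit 5) (nat_lit 417) (nat_lit 394) (nat_lit 209)))) (XT.nd (nat_lit 78) (nat_lit 684) (nat_lit 0) (XT.lf (nat_lit 0) (nat_lit 12939448867) (nat_lit 532) (nat_lit 14990083490) (nat_lit 608) (nat_lit 1271105805) (nat_lit 331) (nat_lit 5) (nat_lit 338) (nat_lit 5) (nat_lit 339) (nat_lit 5) (nat_lit 418) (nat_lit 394) (nat_lit 208)) (XT.nd (nat_lit 78) (nat_lit 0) (nat_lit 0) (XT.lf (nat_lit 0) (nat_lit 20649630) (nat_lit 608) (nat_lit 2129114969) (nat_lit 684) (nat_lit 27535783948) (nat_lit 322) (nat_lit 5) (nat_lit 330) (nat_lit 5) (nat_lit 331) (nat_lit 5) (nat_lit 419) (nat_lit 394) (nat_lit 207)) (XT.lf (nat_lit 0) (nat_lit 5916956630) (nat_lit 684) (nat_lit 13180579738) (nat_lit 76) (nat_lit 11079015016) (nat_lit 322) (nat_lit 5) (nat_lit 331) (nat_lit 5) (nat_lit 323) (nat_lit 5) (nat_lit 420)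 (nat_lit 394) (nat_lit 206)))))) (XT.nd (nat_lit 51480) (nat_lit 0) (nat_lit 4636) (XT.nd (nat_lit 51246) (nat_lit 0) (nat_lit 4560) (XT.nd (nat_lit 51090) (nat_lit 0) (nat_lit 4484) (XT.lf (nat_lit 0) (nat_lit 3848697550) (nat_lit 532) (nat_lit 6003185569) (nat_lit 608) (nat_lit 20828759628) (nat_lit 315) (nat_lit 5) (nat_lit 322) (nat_lit 5) (nat_lit 323) (nat_lit 5) (nat_lit 421) (nat_lit 394) (nat_lit 205)) (XT.nd (nat_lit 78) (nat_lit 0) (nat_lit 0) (XT.lf (nat_lit 0) (nat_lit 4783182844) (nat_lit 1292) (nat_lit 2790540448) (nat_lit 1292) (nat_lit 2790540448) (nat_lit 374) (nat_lit 3) (nat_lit 391) (nat_lit 3) (nat_lit 391) (nat_lit 5) (nat_lit 395) (nat_lit 395) (nat_lit 230)) (XT.lf (nat_lit 76) (nat_lit 4878377561) (nat_lit 0) (nat_lit 5031764006) (nat_lit 1292) (nat_lit 11123305413) (nat_lit 375) (nat_lit 5) (nat_lit 374) (nat_lit 3) (nat_lit 391) (nat_lit 5) (nat_lit 396) (nat_lit 395) (nat_lit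 229)))) (XT.nd (nat_lit 78) (nat_lit 0) (nat_lit 0) (XT.lf (nat_lit 0) (nat_lit 10366944717) (nat_lit 1216) (nat_lit 5635494121) (nat_lit 1292) (nat_lit 5341993808) (nat_lit 375) (nat_lit 5) (nat_lit 391) (nat_lit 5) (nat_lit 392) (nat_lit 5) (nat_lit 397) (nat_lit 395) (nat_lit 228)) (XT.nd (nat_lit 78) (nat_lit 0) (nat_lit 76) (XT.lf (nat_lit 76) (nat_lit 5249021573) (nat_lit 0) (nat_lit 5682892211) (nat_lit 1292) (nat_lit 10730000242) (nat_lit 376) (nat_lit 5) (nat_lit 375) (nat_lit 5) (nat_lit 392) (nat_lit 5) (nat_lit 398) (nat_lit 395) (nat_lit 227)) (XT.lf (nat_lit 0) (nat_lit 11613196627) (nat_lit 1216) (nat_lit 5463144202) (nat_lit 1292) (nat_lit 4909598079) (nat_lit 376) (nat_lit 5) (nat_lit 392) (nat_lit 5) (nat_lit 393) (nat_lit 5) (nat_lit 399) (nat_lit 395) (nat_lit 226))))) (XT.nd (nat_lit 234) (nat_lit 0) (nat_lit 152) (XT.nd (nat_lit 78) (nat_lit 0) (nat_lit 76) (XT.lf (nat_lit 76) (nat_lit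 5870059060) (nat_lit 0) (nat_lit 6552063915) (nat_lit 1292) (nat_lit 9894345410) (nat_lit 377) (nat_lit 5) (nat_lit 376) (nat_lit 5) (nat_lit 393) (nat_lit 5) (nat_lit 400) (nat_lit 395) (nat_lit 225)) (XT.nd (nat_lit 78) (nat_lit 0) (nat_lit 0) (XT.lf (nat_lit 0) (nat_lit 13346909057) (nat_lit 1216) (nat_lit 5045241122) (nat_lit 1292) (nat_lit 4262015810) (nat_lit 377) (nat_lit 5) (nat_lit 393) (nat_lit 5) (nat_lit 394) (nat_lit 5) (nat_lit 401) (nat_lit 395) (nat_lit 224)) (XT.lf (nat_lit 76) (nat_lit 6761670299) (nat_lit 0) (nat_lit 7662453549) (nat_lit 1292) (nat_lit 8574130118) (nat_lit 378) (nat_lit 5) (nat_lit 377) (nat_lit 5) (nat_lit 394) (nat_lit 5) (nat_lit 402) (nat_lit 395) (nat_lit 223)))) (XT.nd (nat_lit 78) (nat_lit 0) (nat_lit 0) (XT.lf (nat_lit 0) (nat_lit 15612636513) (nat_lit 1216) (nat_lit 4361507550) (nat_lit 1292) (nat_lit 3376151075) (nat_lit 378) (nat_lit 5) (nat_lit 394) (nat_lit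 5) (nat_lit 395) (nat_lit 5) (nat_lit 403) (nat_lit 395) (nat_lit 222)) (XT.nd (nat_lit 78) (nat_lit 0) (nat_lit 76) (XT.lf (nat_lit 76) (nat_lit 7945604188) (nat_lit 0) (nat_lit 9038542829) (nat_lit 1292) (nat_lit 6724330257) (nat_lit 379) (nat_lit 5) (nat_lit 378) (nat_lit 5) (nat_lit 395) (nat_lit 5) (nat_lit 404) (nat_lit 395) (nat_lit 221)) (XT.lf (nat_lit 0) (nat_lit 18457893553) (nat_lit 1216) (nat_lit 3390095293) (nat_lit 1292) (nat_lit 2227583307) (nat_lit 379) (nat_lit 5) (nat_lit 395) (nat_lit 5) (nat_lit 396) (nat_lit 5) (nat_lit 405) (nat_lit 395) (nat_lit 220))))))) (XT.nd (nat_lit 936) (nat_lit 1216) (nat_lit 0) (XT.nd (nat_lit 468) (nat_lit 1900) (nat_lit 0) (XT.nd (nat_lit 234) (nat_lit 1216) (nat_lit 0) (XT.nd (nat_lit 78) (nat_lit 0) (nat_lit 76) (XT.lf (nat_lit 76) (nat_lit 9445266813) (nat_lit 0) (nat_lit 10706231721) (nat_lit 1292) (nat_lit 4296911962) (nat_lit 380) (nat_lit 5)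 (nat_lit 379) (nat_lit 5) (nat_lit 396) (nat_lit 5) (nat_lit 406) (nat_lit 395) (nat_lit 219)) (XT.nd (nat_lit 78) (nat_lit 0) (nat_lit 0) (XT.lf (nat_lit 0) (nat_lit 21933358936) (nat_lit 1216) (nat_lit 2107495365) (nat_lit 1292) (nat_lit 790456269) (nat_lit 380) (nat_lit 5) (nat_lit 396) (nat_lit 5) (nat_lit 397) (nat_lit 5) (nat_lit 407) (nat_lit 395) (nat_lit 218)) (XT.lf (nat_lit 76) (nat_lit 11285816685) (nat_lit 0) (nat_lit 12692954152) (nat_lit 1292) (nat_lit 1240623939) (nat_lit 381) (nat_lit 5) (nat_lit 380) (nat_lit 5) (nat_lit 397) (nat_lit 5) (nat_lit 408) (nat_lit 395) (nat_lit 217)))) (XT.nd (nat_lit 78) (nat_lit 0) (nat_lit 76) (XT.lf (nat_lit 0) (nat_lit 474474225) (nat_lit 1292) (nat_lit 502530732) (nat_lit 1368) (nat_lit 24641467478) (nat_lit 363) (nat_lit 5) (nat_lit 380) (nat_lit 5) (nat_lit 381) (nat_lit 5) (nat_lit 409) (nat_lit 395) (nat_lit 216)) (XT.nd (nat_lit 78) (nat_lit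 0) (nat_lit 0) (XT.lf (nat_lit 0) (nat_lit 2450453371) (nat_lit 1292) (nat_lit 12552600828) (nat_lit 1368) (nat_lit 11019068821) (nat_lit 364) (nat_lit 5) (nat_lit 381) (nat_lit 5) (nat_lit 382) (nat_lit 5) (nat_lit 410) (nat_lit 395) (nat_lit 215)) (XT.lf (nat_lit 76) (nat_lit 1448366865) (nat_lit 0) (nat_lit 3061950107) (nat_lit 1368) (nat_lit 21926828000) (nat_lit 365) (nat_lit 5) (nat_lit 364) (nat_lit 5) (nat_lit 382) (nat_lit 5) (nat_lit 411) (nat_lit 395) (nat_lit 214))))) (XT.nd (nat_lit 234) (nat_lit 1216) (nat_lit 0) (XT.nd (nat_lit 78) (nat_lit 836) (nat_lit 0) (XT.lf (nat_lit 0) (nat_lit 6844760286) (nat_lit 1292) (nat_lit 10827757710) (nat_lit 76) (nat_lit 9185716071) (nat_lit 365) (nat_lit 5) (nat_lit 382) (nat_lit 5) (nat_lit 366) (nat_lit 5) (nat_lit 412) (nat_lit 395) (nat_lit 213)) (XT.nd (nat_lit 78) (nat_lit 0) (nat_lit 0) (XT.lf (nat_lit 0) (nat_lit 3798430056) (nat_lit 836) (nat_lit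 5513729915) (nat_lit 912) (nat_lit 17977908173) (nat_lit 354) (nat_lit 5) (nat_lit 365) (nat_lit 5) (nat_lit 366) (nat_lit 5) (nat_lit 413) (nat_lit 395) (nat_lit 212)) (XT.lf (nat_lit 0) (nat_lit 12027564452) (nat_lit 912) (nat_lit 8718232936) (nat_lit 76) (nat_lit 6983840369) (nat_lit 354) (nat_lit 5) (nat_lit 366) (nat_lit 5) (nat_lit 355) (nat_lit 5) (nat_lit 414) (nat_lit 395) (nat_lit 211)))) (XT.nd (nat_lit 78) (nat_lit 608) (nat_lit 0) (XT.lf (nat_lit 0) (nat_lit 6568509248) (nat_lit 608) (nat_lit 8369943465) (nat_lit 684) (nat_lit 13240521098) (nat_lit 346) (nat_lit 5) (nat_lit 354) (nat_lit 5) (nat_lit 355) (nat_lit 5) (nat_lit 415) (nat_lit 395) (nat_lit 210)) (XT.nd (nat_lit 78) (nat_lit 608) (nat_lit 0) (XT.lf (nat_lit 0) (nat_lit 18064019607) (nat_lit 684) (nat_lit 6193054111) (nat_lit 76) (nat_lit 4380895669) (nat_lit 346) (nat_lit 5) (nat_lit 355) (nat_lit 5) (nat_lit 347) (nat_lit 5)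 (nat_lit 416) (nat_lit 395) (nat_lit 209)) (XT.lf (nat_lit 0) (nat_lit 9791654727) (nat_lit 608) (nat_lit 11665165776) (nat_lit 684) (nat_lit 7648710316) (nat_lit 338) (nat_lit 5) (nat_lit 346) (nat_lit 5) (nat_lit 347) (nat_lit 5) (nat_lit 417) (nat_lit 395) (nat_lit 208)))))) (XT.nd (nat_lit 51636) (nat_lit 0) (nat_lit 4028) (XT.nd (nat_lit 51402) (nat_lit 0) (nat_lit 3952) (XT.nd (nat_lit 78) (nat_lit 1216) (nat_lit 0) (XT.lf (nat_lit 0) (nat_lit 25023645643) (nat_lit 684) (nat_lit 3219039863) (nat_lit 76) (nat_lit 1342266382) (nat_lit 338) (nat_lit 5) (nat_lit 347) (nat_lit 5) (nat_lit 339) (nat_lit 5) (nat_lit 418) (nat_lit 395) (nat_lit 207)) (XT.nd (nat_lit 78) (nat_lit 684) (nat_lit 0) (XT.lf (nat_lit 0) (nat_lit 13503249131) (nat_lit 532) (nat_lit 15436168938) (nat_lit 608) (nat_lit 1132079244) (nat_lit 331) (nat_lit 5) (nat_lit 338) (nat_lit 5) (nat_lit 339) (nat_lit 5) (nat_lit 419) (nat_lit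 395) (nat_lit 206)) (XT.lf (nat_lit 0) (nat_lit 198587317) (nat_lit 608) (nat_lit 2186018119) (nat_lit 684) (nat_lit 28186399131) (nat_lit 322) (nat_lit 5) (nat_lit 330) (nat_lit 5) (nat_lit 331) (nat_lit 5) (nat_lit 420) (nat_lit 395) (nat_lit 205)))) (XT.nd (nat_lit 78) (nat_lit 0) (nat_lit 0) (XT.lf (nat_lit 0) (nat_lit 5078590329) (nat_lit 1292) (nat_lit 2796021981) (nat_lit 1292) (nat_lit 2796021981) (nat_lit 374) (nat_lit 3) (nat_lit 391) (nat_lit 3) (nat_lit 391) (nat_lit 5) (nat_lit 396) (nat_lit 396) (nat_lit 228)) (XT.nd (nat_lit 78) (nat_lit 0) (nat_lit 76) (XT.lf (nat_lit 76) (nat_lit 5179664235) (nat_lit 0) (nat_lit 5324245670) (nat_lit 1292) (nat_lit 11151646562) (nat_lit 375) (nat_lit 5) (nat_lit 374) (nat_lit 3) (nat_lit 391) (nat_lit 5) (nat_lit 397) (nat_lit 396) (nat_lit 227)) (XT.lf (nat_lit 0) (nat_lit 10964461436) (nat_lit 1216) (nat_lit 5644180566) (nat_lit 1292) (nat_lit 5367528372)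 (nat_lit 375) (nat_lit 5) (nat_lit 391) (nat_lit 5) (nat_lit 392) (nat_lit 5) (nat_lit 398) (nat_lit 396) (nat_lit 226))))) (XT.nd (nat_lit 234) (nat_lit 0) (nat_lit 152) (XT.nd (nat_lit 78) (nat_lit 0) (nat_lit 76) (XT.lf (nat_lit 76) (nat_lit 5565298262) (nat_lit 0) (nat_lit 5974262951) (nat_lit 1292) (nat_lit 10763819534) (nat_lit 376) (nat_lit 5) (nat_lit 375) (nat_lit 5) (nat_lit 392) (nat_lit 5) (nat_lit 399) (nat_lit 396) (nat_lit 225)) (XT.nd (nat_lit 78) (nat_lit 0) (nat_lit 0) (XT.lf (nat_lit 0) (nat_lit 12232008064) (nat_lit 1216) (nat_lit 5463583428) (nat_lit 1292) (nat_lit 4941813117) (nat_lit 376) (nat_lit 5) (nat_lit 392) (nat_lit 5) (nat_lit 393) (nat_lit 5) (nat_lit 400) (nat_lit 396) (nat_lit 224)) (XT.lf (nat_lit 76) (nat_lit 6208013431) (nat_lit 0) (nat_lit 6850868417) (nat_lit 1292) (nat_lit 9919157733) (nat_lit 377) (nat_lit 5) (nat_lit 376) (nat_lit 5) (nat_lit 393) (nat_lit 5)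 (nat_lit 401) (nat_lit 396) (nat_lit 223)))) (XT.nd (nat_lit 78) (nat_lit 0) (nat_lit 0) (XT.lf (nat_lit 0) (nat_lit 14002765227) (nat_lit 1216) (nat_lit 5030813625) (nat_lit 1292) (nat_lit 4292548650) (nat_lit 377) (nat_lit 5) (nat_lit 393) (nat_lit 5) (nat_lit 394) (nat_lit 5) (nat_lit 402) (nat_lit 396) (nat_lit 222)) (XT.nd (nat_lit 78) (nat_lit 0) (nat_lit 76) (XT.lf (nat_lit 76) (nat_lit 7128679798) (nat_lit 0) (nat_lit 7977754404) (nat_lit 1292) (nat_lit 8574279782) (nat_lit 378) (nat_lit 5) (nat_lit 377) (nat_lit 5) (nat_lit 394) (nat_lit 5) (nat_lit 403) (nat_lit 396) (nat_lit 221)) (XT.lf (nat_lit 0) (nat_lit 16322535474) (nat_lit 1216) (nat_lit 4324907953) (nat_lit 1292) (nat_lit 3396114971) (nat_lit 378) (nat_lit 5) (nat_lit 394) (nat_lit 5) (nat_lit 395) (nat_lit 5) (nat_lit 404) (nat_lit 396) (nat_lit 220))))))))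
noncomputable def xc124 : XT := (XT.nd (nat_lit 53040) (nat_lit 0) (nat_lit 532) (XT.nd (nat_lit 858) (nat_lit 1748) (nat_lit 0) (XT.nd (nat_lit 390) (nat_lit 1824) (nat_lit 0) (XT.nd (nat_lit 156) (nat_lit 0) (nat_lit 76) (XT.nd (nat_lit 78) (nat_lit 0) (nat_lit 76) (XT.lf (nat_lit 76) (nat_lit 8349775522) (nat_lit 0) (nat_lit 9379975014) (nat_lit 1292) (nat_lit 6682898684) (nat_lit 379) (nat_lit 5) (nat_lit 378) (nat_lit 5) (nat_lit 395) (nat_lit 5) (nat_lit 405) (nat_lit 396) (nat_lit 219)) (XT.lf (nat_lit 0) (nat_lit 19240177517) (nat_lit 1216) (nat_lit 3323292214) (nat_lit 1292) (nat_lit 2227513171) (nat_lit 379) (nat_lit 5) (nat_lit 395) (nat_lit 5) (nat_lit 396) (nat_lit 5) (nat_lit 406) (nat_lit 396) (nat_lit 218))) (XT.nd (nat_lit 78) (nat_lit 0) (nat_lit 76) (XT.lf (nat_lit 76) (nat_lit 9895478736) (nat_lit 0) (nat_lit 11084059100) (nat_lit 1292) (nat_lit 4195620144) (nat_lit 380) (nat_lit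 5) (nat_lit 379) (nat_lit 5) (nat_lit 396) (nat_lit 5) (nat_lit 407) (nat_lit 396) (nat_lit 217)) (XT.nd (nat_lit 78) (nat_lit 0) (nat_lit 0) (XT.lf (nat_lit 0) (nat_lit 22807815902) (nat_lit 1216) (nat_lit 2001687981) (nat_lit 1292) (nat_lit 760252317) (nat_lit 380) (nat_lit 5) (nat_lit 396) (nat_lit 5) (nat_lit 397) (nat_lit 5) (nat_lit 408) (nat_lit 396) (nat_lit 216)) (XT.lf (nat_lit 76) (nat_lit 11791766252) (nat_lit 0) (nat_lit 13118128271) (nat_lit 1292) (nat_lit 1059729280) (nat_lit 381) (nat_lit 5) (nat_lit 380) (nat_lit 5) (nat_lit 397) (nat_lit 5) (nat_lit 409) (nat_lit 396) (nat_lit 215))))) (XT.nd (nat_lit 234) (nat_lit 684) (nat_lit 0) (XT.nd (nat_lit 78) (nat_lit 0) (nat_lit 76) (XT.lf (nat_lit 0) (nat_lit 696336800) (nat_lit 1292) (nat_lit 350974379) (nat_lit 1368) (nat_lit 25333486578) (nat_lit 363) (nat_lit 5) (nat_lit 380) (nat_lit 5) (nat_lit 381) (nat_lit 5) (nat_lit 410) (nat_lit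 396) (nat_lit 214)) (XT.nd (nat_lit 78) (nat_lit 0) (nat_lit 0) (XT.lf (nat_lit 0) (nat_lit 2726767064) (nat_lit 1292) (nat_lit 12757718321) (nat_lit 1368) (nat_lit 11312217324) (nat_lit 364) (nat_lit 5) (nat_lit 381) (nat_lit 5) (nat_lit 382) (nat_lit 5) (nat_lit 411) (nat_lit 396) (nat_lit 213)) (XT.lf (nat_lit 76) (nat_lit 1661597418) (nat_lit 0) (nat_lit 3182554381) (nat_lit 1368) (nat_lit 22380151763) (nat_lit 365) (nat_lit 5) (nat_lit 364) (nat_lit 5) (nat_lit 382) (nat_lit 5) (nat_lit 412) (nat_lit 396) (nat_lit 212)))) (XT.nd (nat_lit 78) (nat_lit 836) (nat_lit 0) (XT.lf (nat_lit 0) (nat_lit 7242577848) (nat_lit 1292) (nat_lit 10981705365) (nat_lit 76) (nat_lit 9433923634) (nat_lit 365) (nat_lit 5) (nat_lit 382) (nat_lit 5) (nat_lit 366) (nat_lit 5) (nat_lit 413) (nat_lit 396) (nat_lit 211)) (XT.nd (nat_lit 78) (nat_lit 0) (nat_lit 0) (XT.lf (nat_lit 0) (nat_lit 4081592690) (nat_lit 836) (nat_lit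 5698427320) (nat_lit 912) (nat_lit 18323095321) (nat_lit 354) (nat_lit 5) (nat_lit 365) (nat_lit 5) (nat_lit 366) (nat_lit 5) (nat_lit 414) (nat_lit 396) (nat_lit 210)) (XT.lf (nat_lit 0) (nat_lit 12571216488) (nat_lit 912) (nat_lit 8809828494) (nat_lit 76) (nat_lit 7174997155) (nat_lit 354) (nat_lit 5) (nat_lit 366) (nat_lit 5) (nat_lit 355) (nat_lit 5) (nat_lit 415) (nat_lit 396) (nat_lit 209)))))) (XT.nd (nat_lit 51714) (nat_lit 0) (nat_lit 3268) (XT.nd (nat_lit 234) (nat_lit 532) (nat_lit 0) (XT.nd (nat_lit 78) (nat_lit 608) (nat_lit 0) (XT.lf (nat_lit 0) (nat_lit 6933849766) (nat_lit 608) (nat_lit 8631874289) (nat_lit 684) (nat_lit 13453245438) (nat_lit 346) (nat_lit 5) (nat_lit 354) (nat_lit 5) (nat_lit 355) (nat_lit 5) (nat_lit 416) (nat_lit 396) (nat_lit 208)) (XT.nd (nat_lit 78) (nat_lit 608) (nat_lit 0) (XT.lf (nat_lit 0) (nat_lit 18779739837) (nat_lit 684) (nat_lit 6210143888) (nat_lit 76)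 (nat_lit 4502010754) (nat_lit 346) (nat_lit 5) (nat_lit 355) (nat_lit 5) (nat_lit 347) (nat_lit 5) (nat_lit 417) (nat_lit 396) (nat_lit 207)) (XT.lf (nat_lit 0) (nat_lit 10252452276) (nat_lit 608) (nat_lit 12018416126) (nat_lit 684) (nat_lit 7702718044) (nat_lit 338) (nat_lit 5) (nat_lit 346) (nat_lit 5) (nat_lit 347) (nat_lit 5) (nat_lit 418) (nat_lit 396) (nat_lit 206)))) (XT.nd (nat_lit 78) (nat_lit 532) (nat_lit 0) (XT.lf (nat_lit 0) (nat_lit 25939706086) (nat_lit 684) (nat_lit 3148436416) (nat_lit 76) (nat_lit 1379397410) (nat_lit 338) (nat_lit 5) (nat_lit 347) (nat_lit 5) (nat_lit 339) (nat_lit 5) (nat_lit 419) (nat_lit 396) (nat_lit 205)) (XT.nd (nat_lit 51324) (nat_lit 0) (nat_lit 3268) (XT.lf (nat_lit 0) (nat_lit 14073882281) (nat_lit 532) (nat_lit 15895844584) (nat_lit 608) (nat_lit 999051581) (nat_lit 331) (nat_lit 5) (nat_lit 338) (nat_lit 5) (nat_lit 339) (nat_lit 5) (nat_lit 420) (nat_lit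 396) (nat_lit 204)) (XT.lf (nat_lit 0) (nat_lit 5374139669) (nat_lit 1292) (nat_lit 2806158951) (nat_lit 1292) (nat_lit 2806158951) (nat_lit 374) (nat_lit 3) (nat_lit 391) (nat_lit 3) (nat_lit 391) (nat_lit 5) (nat_lit 397) (nat_lit 397) (nat_lit 226))))) (XT.nd (nat_lit 234) (nat_lit 0) (nat_lit 152) (XT.nd (nat_lit 78) (nat_lit 0) (nat_lit 76) (XT.lf (nat_lit 76) (nat_lit 5481095586) (nat_lit 0) (nat_lit 5617377455) (nat_lit 1292) (nat_lit 11198366745) (nat_lit 375) (nat_lit 5) (nat_lit 374) (nat_lit 3) (nat_lit 391) (nat_lit 5) (nat_lit 398) (nat_lit 397) (nat_lit 225)) (XT.nd (nat_lit 78) (nat_lit 0) (nat_lit 0) (XT.lf (nat_lit 0) (nat_lit 11563456905) (nat_lit 1216) (nat_lit 5662333979) (nat_lit 1292) (nat_lit 5401562753) (nat_lit 375) (nat_lit 5) (nat_lit 391) (nat_lit 5) (nat_lit 392) (nat_lit 5) (nat_lit 399) (nat_lit 397) (nat_lit 224)) (XT.lf (nat_lit 76) (nat_lit 5881947136) (nat_lit 0) (nat_lit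 6267435578) (nat_lit 1292) (nat_lit 10815190416) (nat_lit 376) (nat_lit 5) (nat_lit 375) (nat_lit 5) (nat_lit 392) (nat_lit 5) (nat_lit 400) (nat_lit 397) (nat_lit 223)))) (XT.nd (nat_lit 78) (nat_lit 0) (nat_lit 0) (XT.lf (nat_lit 0) (nat_lit 12853860886) (nat_lit 1216) (nat_lit 5473418823) (nat_lit 1292) (nat_lit 4981600262) (nat_lit 376) (nat_lit 5) (nat_lit 392) (nat_lit 5) (nat_lit 393) (nat_lit 5) (nat_lit 401) (nat_lit 397) (nat_lit 222)) (XT.nd (nat_lit 78) (nat_lit 0) (nat_lit 76) (XT.lf (nat_lit 76) (nat_lit 6546815431) (nat_lit 0) (nat_lit 7152767912) (nat_lit 1292) (nat_lit 9960329374) (nat_lit 377) (nat_lit 5) (nat_lit 376) (nat_lit 5) (nat_lit 393) (nat_lit 5) (nat_lit 402) (nat_lit 397) (nat_lit 221)) (XT.lf (nat_lit 0) (nat_lit 14663633270) (nat_lit 1216) (nat_lit 5025470024) (nat_lit 1292) (nat_lit 4329584479) (nat_lit 377) (nat_lit 5) (nat_lit 393) (nat_lit 5) (nat_lit 394) (nat_lit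 5) (nat_lit 403) (nat_lit 397) (nat_lit 220))))))) (XT.nd (nat_lit 936) (nat_lit 1216) (nat_lit 0) (XT.nd (nat_lit 468) (nat_lit 1748) (nat_lit 0) (XT.nd (nat_lit 234) (nat_lit 0) (nat_lit 152) (XT.nd (nat_lit 78) (nat_lit 0) (nat_lit 76) (XT.lf (nat_lit 76) (nat_lit 7497276162) (nat_lit 0) (nat_lit 8297610412) (nat_lit 1292) (nat_lit 8589191050) (nat_lit 378) (nat_lit 5) (nat_lit 377) (nat_lit 5) (nat_lit 394) (nat_lit 5) (nat_lit 404) (nat_lit 397) (nat_lit 219)) (XT.nd (nat_lit 78) (nat_lit 0) (nat_lit 0) (XT.lf (nat_lit 0) (nat_lit 17039867174) (nat_lit 1216) (nat_lit 4296822386) (nat_lit 1292) (nat_lit 3421345920) (nat_lit 378) (nat_lit 5) (nat_lit 394) (nat_lit 5) (nat_lit 395) (nat_lit 5) (nat_lit 405) (nat_lit 397) (nat_lit 218)) (XT.lf (nat_lit 76) (nat_lit 8756554213) (nat_lit 0) (nat_lit 9727616039) (nat_lit 1292) (nat_lit 6654182628) (nat_lit 379) (nat_lit 5) (nat_lit 378) (nat_lit 5) (nat_lit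 395) (nat_lit 5) (nat_lit 406) (nat_lit 397) (nat_lit 217)))) (XT.nd (nat_lit 78) (nat_lit 0) (nat_lit 0) (XT.lf (nat_lit 0) (nat_lit 20032810459) (nat_lit 1216) (nat_lit 3264157972) (nat_lit 1292) (nat_lit 2231281130) (nat_lit 379) (nat_lit 5) (nat_lit 395) (nat_lit 5) (nat_lit 396) (nat_lit 5) (nat_lit 407) (nat_lit 397) (nat_lit 216)) (XT.nd (nat_lit 78) (nat_lit 0) (nat_lit 76) (XT.lf (nat_lit 76) (nat_lit 10349618919) (nat_lit 0) (nat_lit 11469969908) (nat_lit 1292) (nat_lit 4104503946) (nat_lit 380) (nat_lit 5) (nat_lit 379) (nat_lit 5) (nat_lit 396) (nat_lit 5) (nat_lit 408) (nat_lit 397) (nat_lit 215)) (XT.lf (nat_lit 0) (nat_lit 23696081106) (nat_lit 1216) (nat_lit 1902409519) (nat_lit 1292) (nat_lit 732237340) (nat_lit 380) (nat_lit 5) (nat_lit 396) (nat_lit 5) (nat_lit 397) (nat_lit 5) (nat_lit 409) (nat_lit 397) (nat_lit 214))))) (XT.nd (nat_lit 234) (nat_lit 684) (nat_lit 0) (XT.nd (nat_lit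 78) (nat_lit 1292) (nat_lit 0) (XT.lf (nat_lit 76) (nat_lit 12303286291) (nat_lit 0) (nat_lit 13553509705) (nat_lit 1292) (nat_lit 885928382) (nat_lit 381) (nat_lit 5) (nat_lit 380) (nat_lit 5) (nat_lit 397) (nat_lit 5) (nat_lit 410) (nat_lit 397) (nat_lit 213)) (XT.nd (nat_lit 78) (nat_lit 0) (nat_lit 76) (XT.lf (nat_lit 0) (nat_lit 912936536) (nat_lit 1292) (nat_lit 204436710) (nat_lit 1368) (nat_lit 26048977155) (nat_lit 363) (nat_lit 5) (nat_lit 380) (nat_lit 5) (nat_lit 381) (nat_lit 5) (nat_lit 411) (nat_lit 397) (nat_lit 212)) (XT.lf (nat_lit 0) (nat_lit 2999728612) (nat_lit 1292) (nat_lit 12978831874) (nat_lit 1368) (nat_lit 11616308548) (nat_lit 364) (nat_lit 5) (nat_lit 381) (nat_lit 5) (nat_lit 382) (nat_lit 5) (nat_lit 412) (nat_lit 397) (nat_lit 211)))) (XT.nd (nat_lit 78) (nat_lit 760) (nat_lit 0) (XT.lf (nat_lit 76) (nat_lit 1871478846) (nat_lit 0) (nat_lit 3305126658) (nat_lit 1368) (nat_lit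 22858813289) (nat_lit 365) (nat_lit 5) (nat_lit 364) (nat_lit 5) (nat_lit 382) (nat_lit 5) (nat_lit 413) (nat_lit 397) (nat_lit 210)) (XT.nd (nat_lit 78) (nat_lit 836) (nat_lit 0) (XT.lf (nat_lit 0) (nat_lit 7641281098) (nat_lit 1292) (nat_lit 11150080952) (nat_lit 76) (nat_lit 9691148224) (nat_lit 365) (nat_lit 5) (nat_lit 382) (nat_lit 5) (nat_lit 366) (nat_lit 5) (nat_lit 414) (nat_lit 397) (nat_lit 209)) (XT.lf (nat_lit 0) (nat_lit 4363536872) (nat_lit 836) (nat_lit 5887558580) (nat_lit 912) (nat_lit 18689783094) (nat_lit 354) (nat_lit 5) (nat_lit 365) (nat_lit 5) (nat_lit 366) (nat_lit 5) (nat_lit 415) (nat_lit 397) (nat_lit 208)))))) (XT.nd (nat_lit 51870) (nat_lit 0) (nat_lit 2812) (XT.nd (nat_lit 234) (nat_lit 608) (nat_lit 0) (XT.nd (nat_lit 78) (nat_lit 608) (nat_lit 0) (XT.lf (nat_lit 0) (nat_lit 13120683176) (nat_lit 912) (nat_lit 8913927826) (nat_lit 76) (nat_lit 7372942494) (nat_lit 354)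 (nat_lit 5) (nat_lit 366) (nat_lit 5) (nat_lit 355) (nat_lit 5) (nat_lit 416) (nat_lit 397) (nat_lit 207)) (XT.nd (nat_lit 78) (nat_lit 0) (nat_lit 0) (XT.lf (nat_lit 0) (nat_lit 7300490238) (nat_lit 608) (nat_lit 8901041206) (nat_lit 684) (nat_lit 13682942063) (nat_lit 346) (nat_lit 5) (nat_lit 354) (nat_lit 5) (nat_lit 355) (nat_lit 5) (nat_lit 417) (nat_lit 397) (nat_lit 206)) (XT.lf (nat_lit 0) (nat_lit 19506954863) (nat_lit 684) (nat_lit 6237430535) (nat_lit 76) (nat_lit 4627351230) (nat_lit 346) (nat_lit 5) (nat_lit 355) (nat_lit 5) (nat_lit 347) (nat_lit 5) (nat_lit 418) (nat_lit 397) (nat_lit 205)))) (XT.nd (nat_lit 51480) (nat_lit 0) (nat_lit 2736) (XT.lf (nat_lit 0) (nat_lit 10717484517) (nat_lit 608) (nat_lit 12382074818) (nat_lit 684) (nat_lit 7768417757) (nat_lit 338) (nat_lit 5) (nat_lit 346) (nat_lit 5) (nat_lit 347) (nat_lit 5) (nat_lit 419) (nat_lit 397) (nat_lit 204)) (XT.nd (nat_lit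 78) (nat_lit 0) (nat_lit 0) (XT.lf (nat_lit 0) (nat_lit 5670335703) (nat_lit 1292) (nat_lit 2820833220) (nat_lit 1292) (nat_lit 2820833220) (nat_lit 374) (nat_lit 3) (nat_lit 391) (nat_lit 3) (nat_lit 391) (nat_lit 5) (nat_lit 398) (nat_lit 398) (nat_lit 224)) (XT.lf (nat_lit 76) (nat_lit 5783186502) (nat_lit 0) (nat_lit 5911645235) (nat_lit 1292) (nat_lit 11263011108) (nat_lit 375) (nat_lit 5) (nat_lit 374) (nat_lit 3) (nat_lit 391) (nat_lit 5) (nat_lit 399) (nat_lit 398) (nat_lit 223))))) (XT.nd (nat_lit 234) (nat_lit 0) (nat_lit 76) (XT.nd (nat_lit 78) (nat_lit 0) (nat_lit 0) (XT.lf (nat_lit 0) (nat_lit 12164919595) (nat_lit 1216) (nat_lit 5689709886) (nat_lit 1292) (nat_lit 5443907995) (nat_lit 375) (nat_lit 5) (nat_lit 391) (nat_lit 5) (nat_lit 392) (nat_lit 5) (nat_lit 400) (nat_lit 398) (nat_lit 222)) (XT.nd (nat_lit 78) (nat_lit 0) (nat_lit 76) (XT.lf (nat_lit 76) (nat_lit 6199502661) (nat_lit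 0) (nat_lit 6562862490) (nat_lit 1292) (nat_lit 10883690144) (nat_lit 376) (nat_lit 5) (nat_lit 375) (nat_lit 5) (nat_lit 392) (nat_lit 5) (nat_lit 401) (nat_lit 398) (nat_lit 221)) (XT.lf (nat_lit 0) (nat_lit 13479737416) (nat_lit 1216) (nat_lit 5492393648) (nat_lit 1292) (nat_lit 5028807484) (nat_lit 376) (nat_lit 5) (nat_lit 392) (nat_lit 5) (nat_lit 393) (nat_lit 5) (nat_lit 402) (nat_lit 398) (nat_lit 220)))) (XT.nd (nat_lit 78) (nat_lit 0) (nat_lit 76) (XT.lf (nat_lit 76) (nat_lit 6887023832) (nat_lit 0) (nat_lit 7458192162) (nat_lit 1292) (nat_lit 10017454751) (nat_lit 377) (nat_lit 5) (nat_lit 376) (nat_lit 5) (nat_lit 393) (nat_lit 5) (nat_lit 403) (nat_lit 398) (nat_lit 219)) (XT.nd (nat_lit 78) (nat_lit 0) (nat_lit 0) (XT.lf (nat_lit 0) (nat_lit 15330505306) (nat_lit 1216) (nat_lit 5028936539) (nat_lit 1292) (nat_lit 4372997671) (nat_lit 377) (nat_lit 5) (nat_lit 393) (nat_lit 5) (nat_lit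 394) (nat_lit 5) (nat_lit 404) (nat_lit 398) (nat_lit 218)) (XT.lf (nat_lit 76) (nat_lit 7868047939) (nat_lit 0) (nat_lit 8622439729) (nat_lit 1292) (nat_lit 8618459650) (nat_lit 378) (nat_lit 5) (nat_lit 377) (nat_lit 5) (nat_lit 394) (nat_lit 5) (nat_lit 405) (nat_lit 398) (nat_lit 217))))))))
noncomputable def xc125 : XT := (XT.nd (nat_lit 53274) (nat_lit 0) (nat_lit 608) (XT.nd (nat_lit 858) (nat_lit 608) (nat_lit 0) (XT.nd (nat_lit 390) (nat_lit 1824) (nat_lit 0) (XT.nd (nat_lit 156) (nat_lit 0) (nat_lit 76) (XT.nd (nat_lit 78) (nat_lit 0) (nat_lit 0) (XT.lf (nat_lit 0) (nat_lit 17765650461) (nat_lit 1216) (nat_lit 4276954500) (nat_lit 1292) (nat_lit 3451733965) (nat_lit 378) (nat_lit 5) (nat_lit 394) (nat_lit 5) (nat_lit 395) (nat_lit 5) (nat_lit 406) (nat_lit 398) (nat_lit 216)) (XT.lf (nat_lit 76) (nat_lit 9166564842) (nat_lit 0) (nat_lit 10081883747) (nat_lit 1292) (nat_lit 6637762281) (nat_lit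 379) (nat_lit 5) (nat_lit 378) (nat_lit 5) (nat_lit 395) (nat_lit 5) (nat_lit 407) (nat_lit 398) (nat_lit 215))) (XT.nd (nat_lit 78) (nat_lit 0) (nat_lit 0) (XT.lf (nat_lit 0) (nat_lit 20836855962) (nat_lit 1216) (nat_lit 3212367368) (nat_lit 1292) (nat_lit 2238781882) (nat_lit 379) (nat_lit 5) (nat_lit 395) (nat_lit 5) (nat_lit 396) (nat_lit 5) (nat_lit 408) (nat_lit 398) (nat_lit 214)) (XT.nd (nat_lit 78) (nat_lit 0) (nat_lit 76) (XT.lf (nat_lit 76) (nat_lit 10808355033) (nat_lit 0) (nat_lit 11864393291) (nat_lit 1292) (nat_lit 4023110077) (nat_lit 380) (nat_lit 5) (nat_lit 379) (nat_lit 5) (nat_lit 396) (nat_lit 5) (nat_lit 409) (nat_lit 398) (nat_lit 213)) (XT.lf (nat_lit 0) (nat_lit 24599282068) (nat_lit 1216) (nat_lit 1809298844) (nat_lit 1292) (nat_lit 706299336) (nat_lit 380) (nat_lit 5) (nat_lit 396) (nat_lit 5) (nat_lit 397) (nat_lit 5) (nat_lit 410) (nat_lit 398) (nat_lit 212))))) (XT.nd (nat_lit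 234) (nat_lit 684) (nat_lit 0) (XT.nd (nat_lit 78) (nat_lit 1292) (nat_lit 0) (XT.lf (nat_lit 76) (nat_lit 12821095458) (nat_lit 0) (nat_lit 13999550933) (nat_lit 1292) (nat_lit 718715323) (nat_lit 381) (nat_lit 5) (nat_lit 380) (nat_lit 5) (nat_lit 397) (nat_lit 5) (nat_lit 411) (nat_lit 398) (nat_lit 211)) (XT.nd (nat_lit 78) (nat_lit 0) (nat_lit 76) (XT.lf (nat_lit 0) (nat_lit 1124799731) (nat_lit 1292) (nat_lit 62519193) (nat_lit 1368) (nat_lit 26788487736) (nat_lit 363) (nat_lit 5) (nat_lit 380) (nat_lit 5) (nat_lit 381) (nat_lit 5) (nat_lit 412) (nat_lit 398) (nat_lit 210)) (XT.lf (nat_lit 0) (nat_lit 3269905725) (nat_lit 1292) (nat_lit 13215856368) (nat_lit 1368) (nat_lit 11931547455) (nat_lit 364) (nat_lit 5) (nat_lit 381) (nat_lit 5) (nat_lit 382) (nat_lit 5) (nat_lit 413) (nat_lit 398) (nat_lit 209)))) (XT.nd (nat_lit 78) (nat_lit 760) (nat_lit 0) (XT.lf (nat_lit 76) (nat_lit 2078470140) (nat_lit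 0) (nat_lit 3429820702) (nat_lit 1368) (nat_lit 23362898900) (nat_lit 365) (nat_lit 5) (nat_lit 364) (nat_lit 5) (nat_lit 382) (nat_lit 5) (nat_lit 414) (nat_lit 398) (nat_lit 208)) (XT.nd (nat_lit 78) (nat_lit 836) (nat_lit 0) (XT.lf (nat_lit 0) (nat_lit 8041530856) (nat_lit 1292) (nat_lit 11332754204) (nat_lit 76) (nat_lit 9957570183) (nat_lit 365) (nat_lit 5) (nat_lit 382) (nat_lit 5) (nat_lit 366) (nat_lit 5) (nat_lit 415) (nat_lit 398) (nat_lit 207)) (XT.lf (nat_lit 0) (nat_lit 4644783633) (nat_lit 836) (nat_lit 6081320260) (nat_lit 912) (nat_lit 19077976740) (nat_lit 354) (nat_lit 5) (nat_lit 365) (nat_lit 5) (nat_lit 366) (nat_lit 5) (nat_lit 416) (nat_lit 398) (nat_lit 206)))))) (XT.nd (nat_lit 51948) (nat_lit 0) (nat_lit 2204) (XT.nd (nat_lit 51714) (nat_lit 0) (nat_lit 2128) (XT.nd (nat_lit 78) (nat_lit 608) (nat_lit 0) (XT.lf (nat_lit 0) (nat_lit 13676741407) (nat_lit 912) (nat_lit 9030346016)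 (nat_lit 76) (nat_lit 7577819546) (nat_lit 354) (nat_lit 5) (nat_lit 366) (nat_lit 5) (nat_lit 355) (nat_lit 5) (nat_lit 417) (nat_lit 398) (nat_lit 205)) (XT.nd (nat_lit 78) (nat_lit 0) (nat_lit 0) (XT.lf (nat_lit 0) (nat_lit 7669024201) (nat_lit 608) (nat_lit 9177696996) (nat_lit 684) (nat_lit 13929512201) (nat_lit 346) (nat_lit 5) (nat_lit 354) (nat_lit 5) (nat_lit 355) (nat_lit 5) (nat_lit 418) (nat_lit 398) (nat_lit 204)) (XT.lf (nat_lit 0) (nat_lit 20246582240) (nat_lit 684) (nat_lit 6274664046) (nat_lit 76) (nat_lit 4757009879) (nat_lit 346) (nat_lit 5) (nat_lit 355) (nat_lit 5) (nat_lit 347) (nat_lit 5) (nat_lit 419) (nat_lit 398) (nat_lit 203)))) (XT.nd (nat_lit 78) (nat_lit 0) (nat_lit 0) (XT.lf (nat_lit 0) (nat_lit 5967669683) (nat_lit 1292) (nat_lit 2839937904) (nat_lit 1292) (nat_lit 2839937904) (nat_lit 374) (nat_lit 3) (nat_lit 391) (nat_lit 3) (nat_lit 391) (nat_lit 5) (nat_lit 399) (nat_lit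 399) (nat_lit 222)) (XT.nd (nat_lit 78) (nat_lit 0) (nat_lit 76) (XT.lf (nat_lit 76) (nat_lit 6086438011) (nat_lit 0) (nat_lit 6207522686) (nat_lit 1292) (nat_lit 11345168912) (nat_lit 375) (nat_lit 5) (nat_lit 374) (nat_lit 3) (nat_lit 391) (nat_lit 5) (nat_lit 400) (nat_lit 399) (nat_lit 221)) (XT.lf (nat_lit 0) (nat_lit 12769813439) (nat_lit 1216) (nat_lit 5726086815) (nat_lit 1292) (nat_lit 5494394958) (nat_lit 375) (nat_lit 5) (nat_lit 391) (nat_lit 5) (nat_lit 392) (nat_lit 5) (nat_lit 401) (nat_lit 399) (nat_lit 220))))) (XT.nd (nat_lit 234) (nat_lit 0) (nat_lit 152) (XT.nd (nat_lit 78) (nat_lit 0) (nat_lit 76) (XT.lf (nat_lit 76) (nat_lit 6518485301) (nat_lit 0) (nat_lit 6860986789) (nat_lit 1292) (nat_lit 10968937785) (nat_lit 376) (nat_lit 5) (nat_lit 375) (nat_lit 5) (nat_lit 392) (nat_lit 5) (nat_lit 402) (nat_lit 399) (nat_lit 219)) (XT.nd (nat_lit 78) (nat_lit 0) (nat_lit 0) (XT.lf (nat_lit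 0) (nat_lit 14110598294) (nat_lit 1216) (nat_lit 5520274385) (nat_lit 1292) (nat_lit 5083299963) (nat_lit 376) (nat_lit 5) (nat_lit 392) (nat_lit 5) (nat_lit 393) (nat_lit 5) (nat_lit 403) (nat_lit 399) (nat_lit 218)) (XT.lf (nat_lit 76) (nat_lit 7229183550) (nat_lit 0) (nat_lit 7767564481) (nat_lit 1292) (nat_lit 10090167568) (nat_lit 377) (nat_lit 5) (nat_lit 376) (nat_lit 5) (nat_lit 393) (nat_lit 5) (nat_lit 404) (nat_lit 399) (nat_lit 217)))) (XT.nd (nat_lit 78) (nat_lit 0) (nat_lit 0) (XT.lf (nat_lit 0) (nat_lit 16004354895) (nat_lit 1216) (nat_lit 5040962533) (nat_lit 1292) (nat_lit 4422677239) (nat_lit 377) (nat_lit 5) (nat_lit 393) (nat_lit 5) (nat_lit 394) (nat_lit 5) (nat_lit 405) (nat_lit 399) (nat_lit 216)) (XT.nd (nat_lit 78) (nat_lit 0) (nat_lit 76) (XT.lf (nat_lit 76) (nat_lit 8241570282) (nat_lit 0) (nat_lit 8952656898) (nat_lit 1292) (nat_lit 8661717812) (nat_lit 378) (nat_lit 5) (nat_lit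 377) (nat_lit 5) (nat_lit 394) (nat_lit 5) (nat_lit 406) (nat_lit 399) (nat_lit 215)) (XT.lf (nat_lit 0) (nat_lit 18500889059) (nat_lit 1216) (nat_lit 4265030732) (nat_lit 1292) (nat_lit 3487181231) (nat_lit 378) (nat_lit 5) (nat_lit 394) (nat_lit 5) (nat_lit 395) (nat_lit 5) (nat_lit 407) (nat_lit 399) (nat_lit 214))))))) (XT.nd (nat_lit 52572) (nat_lit 0) (nat_lit 1520) (XT.nd (nat_lit 468) (nat_lit 684) (nat_lit 0) (XT.nd (nat_lit 234) (nat_lit 1140) (nat_lit 0) (XT.nd (nat_lit 78) (nat_lit 0) (nat_lit 76) (XT.lf (nat_lit 76) (nat_lit 9580419363) (nat_lit 0) (nat_lit 10443195219) (nat_lit 1292) (nat_lit 6633251237) (nat_lit 379) (nat_lit 5) (nat_lit 378) (nat_lit 5) (nat_lit 395) (nat_lit 5) (nat_lit 408) (nat_lit 399) (nat_lit 213)) (XT.nd (nat_lit 78) (nat_lit 0) (nat_lit 0) (XT.lf (nat_lit 0) (nat_lit 21653366287) (nat_lit 1216) (nat_lit 3167617319) (nat_lit 1292) (nat_lit 2249919622) (nat_lit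 379) (nat_lit 5) (nat_lit 395) (nat_lit 5) (nat_lit 396) (nat_lit 5) (nat_lit 409) (nat_lit 399) (nat_lit 212)) (XT.lf (nat_lit 76) (nat_lit 11272343214) (nat_lit 0) (nat_lit 12267760556) (nat_lit 1292) (nat_lit 3951015193) (nat_lit 380) (nat_lit 5) (nat_lit 379) (nat_lit 5) (nat_lit 396) (nat_lit 5) (nat_lit 410) (nat_lit 399) (nat_lit 211)))) (XT.nd (nat_lit 78) (nat_lit 1292) (nat_lit 0) (XT.lf (nat_lit 0) (nat_lit 25518539188) (nat_lit 1216) (nat_lit 1722015966) (nat_lit 1292) (nat_lit 682333142) (nat_lit 380) (nat_lit 5) (nat_lit 396) (nat_lit 5) (nat_lit 397) (nat_lit 5) (nat_lit 411) (nat_lit 399) (nat_lit 210)) (XT.nd (nat_lit 78) (nat_lit 1292) (nat_lit 0) (XT.lf (nat_lit 76) (nat_lit 13345902304) (nat_lit 0) (nat_lit 14456709614) (nat_lit 1292) (nat_lit 557610263) (nat_lit 381) (nat_lit 5) (nat_lit 380) (nat_lit 5) (nat_lit 397) (nat_lit 5) (nat_lit 412) (nat_lit 399) (nat_lit 209)) (XT.lf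 (nat_lit 76) (nat_lit 76652911) (nat_lit 0) (nat_lit 1256513120) (nat_lit 1368) (nat_lit 27476676160) (nat_lit 364) (nat_lit 5) (nat_lit 363) (nat_lit 5) (nat_lit 381) (nat_lit 5) (nat_lit 413) (nat_lit 399) (nat_lit 208))))) (XT.nd (nat_lit 234) (nat_lit 760) (nat_lit 0) (XT.nd (nat_lit 78) (nat_lit 0) (nat_lit 0) (XT.lf (nat_lit 0) (nat_lit 3537844780) (nat_lit 1292) (nat_lit 13468736562) (nat_lit 1368) (nat_lit 12258152235) (nat_lit 364) (nat_lit 5) (nat_lit 381) (nat_lit 5) (nat_lit 382) (nat_lit 5) (nat_lit 414) (nat_lit 399) (nat_lit 207)) (XT.nd (nat_lit 78) (nat_lit 0) (nat_lit 76) (XT.lf (nat_lit 76) (nat_lit 2283011942) (nat_lit 0) (nat_lit 3556789454) (nat_lit 1368) (nat_lit 23892536184) (nat_lit 365) (nat_lit 5) (nat_lit 364) (nat_lit 5) (nat_lit 382) (nat_lit 5) (nat_lit 415) (nat_lit 399) (nat_lit 206)) (XT.lf (nat_lit 0) (nat_lit 8443971357) (nat_lit 1292) (nat_lit 11529623270) (nat_lit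 76) (nat_lit 10233380437) (nat_lit 365) (nat_lit 5) (nat_lit 382) (nat_lit 5) (nat_lit 366) (nat_lit 5) (nat_lit 416) (nat_lit 399) (nat_lit 205)))) (XT.nd (nat_lit 78) (nat_lit 0) (nat_lit 0) (XT.lf (nat_lit 0) (nat_lit 4925837629) (nat_lit 836) (nat_lit 6279911177) (nat_lit 912) (nat_lit 19487718393) (nat_lit 354) (nat_lit 5) (nat_lit 365) (nat_lit 5) (nat_lit 366) (nat_lit 5) (nat_lit 417) (nat_lit 399) (nat_lit 204)) (XT.nd (nat_lit 51714) (nat_lit 0) (nat_lit 1520) (XT.lf (nat_lit 0) (nat_lit 14240156794) (nat_lit 912) (nat_lit 9158924749) (nat_lit 76) (nat_lit 7789779240) (nat_lit 354) (nat_lit 5) (nat_lit 366) (nat_lit 5) (nat_lit 355) (nat_lit 5) (nat_lit 418) (nat_lit 399) (nat_lit 203)) (XT.lf (nat_lit 0) (nat_lit 6266620509) (nat_lit 1292) (nat_lit 2863376862) (nat_lit 1292) (nat_lit 2863376862) (nat_lit 374) (nat_lit 3) (nat_lit 391) (nat_lit 3) (nat_lit 391) (nat_lit 5) (nat_lit 400) (nat_lit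 400) (nat_lit 220)))))) (XT.nd (nat_lit 468) (nat_lit 0) (nat_lit 228) (XT.nd (nat_lit 234) (nat_lit 0) (nat_lit 152) (XT.nd (nat_lit 78) (nat_lit 0) (nat_lit 76) (XT.lf (nat_lit 76) (nat_lit 6391338545) (nat_lit 0) (nat_lit 6505472464) (nat_lit 1292) (nat_lit 11444471544) (nat_lit 375) (nat_lit 5) (nat_lit 374) (nat_lit 3) (nat_lit 391) (nat_lit 5) (nat_lit 401) (nat_lit 400) (nat_lit 219)) (XT.nd (nat_lit 78) (nat_lit 0) (nat_lit 0) (XT.lf (nat_lit 0) (nat_lit 13379080202) (nat_lit 1216) (nat_lit 5771265247) (nat_lit 1292) (nat_lit 5552873450) (nat_lit 375) (nat_lit 5) (nat_lit 391) (nat_lit 5) (nat_lit 392) (nat_lit 5) (nat_lit 402) (nat_lit 400) (nat_lit 218)) (XT.lf (nat_lit 76) (nat_lit 6839402816) (nat_lit 0) (nat_lit 7162243317) (nat_lit 1292) (nat_lit 11070592342) (nat_lit 376) (nat_lit 5) (nat_lit 375) (nat_lit 5) (nat_lit 392) (nat_lit 5) (nat_lit 403) (nat_lit 400) (nat_lit 217)))) (XT.nd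 (nat_lit 78) (nat_lit 0) (nat_lit 0) (XT.lf (nat_lit 0) (nat_lit 14747384766) (nat_lit 1216) (nat_lit 5556849651) (nat_lit 1292) (nat_lit 5144959349) (nat_lit 376) (nat_lit 5) (nat_lit 392) (nat_lit 5) (nat_lit 393) (nat_lit 5) (nat_lit 404) (nat_lit 400) (nat_lit 216)) (XT.nd (nat_lit 78) (nat_lit 0) (nat_lit 76) (XT.lf (nat_lit 76) (nat_lit 7573826993) (nat_lit 0) (nat_lit 8081302656) (nat_lit 1292) (nat_lit 10178139044) (nat_lit 377) (nat_lit 5) (nat_lit 376) (nat_lit 5) (nat_lit 393) (nat_lit 5) (nat_lit 405) (nat_lit 400) (nat_lit 215)) (XT.lf (nat_lit 0) (nat_lit 16686139262) (nat_lit 1216) (nat_lit 5061319412) (nat_lit 1292) (nat_lit 4478526223) (nat_lit 377) (nat_lit 5) (nat_lit 393) (nat_lit 5) (nat_lit 394) (nat_lit 5) (nat_lit 406) (nat_lit 400) (nat_lit 214))))) (XT.nd (nat_lit 234) (nat_lit 0) (nat_lit 152) (XT.nd (nat_lit 78) (nat_lit 0) (nat_lit 76) (XT.lf (nat_lit 76) (nat_lit 8618406329)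 (nat_lit 0) (nat_lit 9288673664) (nat_lit 1292) (nat_lit 8718632568) (nat_lit 378) (nat_lit 5) (nat_lit 377) (nat_lit 5) (nat_lit 394) (nat_lit 5) (nat_lit 407) (nat_lit 400) (nat_lit 213)) (XT.nd (nat_lit 78) (nat_lit 0) (nat_lit 0) (XT.lf (nat_lit 0) (nat_lit 19246573743) (nat_lit 1216) (nat_lit 4260799163) (nat_lit 1292) (nat_lit 3527601406) (nat_lit 378) (nat_lit 5) (nat_lit 394) (nat_lit 5) (nat_lit 395) (nat_lit 5) (nat_lit 408) (nat_lit 400) (nat_lit 212)) (XT.lf (nat_lit 76) (nat_lit 9998718528) (nat_lit 0) (nat_lit 10811967520) (nat_lit 1292) (nat_lit 6640294856) (nat_lit 379) (nat_lit 5) (nat_lit 378) (nat_lit 5) (nat_lit 395) (nat_lit 5) (nat_lit 409) (nat_lit 400) (nat_lit 211)))) (XT.nd (nat_lit 78) (nat_lit 0) (nat_lit 0) (XT.lf (nat_lit 0) (nat_lit 22483384513) (nat_lit 1216) (nat_lit 3129625695) (nat_lit 1292) (nat_lit 2264607600) (nat_lit 379) (nat_lit 5) (nat_lit 395) (nat_lit 5) (nat_lit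 396) (nat_lit 5) (nat_lit 410) (nat_lit 400) (nat_lit 210)) (XT.nd (nat_lit 78) (nat_lit 0) (nat_lit 76) (XT.lf (nat_lit 76) (nat_lit 11742229535) (nat_lit 0) (nat_lit 12680505850) (nat_lit 1292) (nat_lit 3887824293) (nat_lit 380) (nat_lit 5) (nat_lit 379) (nat_lit 5) (nat_lit 396) (nat_lit 5) (nat_lit 411) (nat_lit 400) (nat_lit 209)) (XT.lf (nat_lit 0) (nat_lit 26454967885) (nat_lit 1216) (nat_lit 1640240831) (nat_lit 1292) (nat_lit 660240054) (nat_lit 380) (nat_lit 5) (nat_lit 396) (nat_lit 5) (nat_lit 397) (nat_lit 5) (nat_lit 412) (nat_lit 400) (nat_lit 208))))))))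
noncomputable def xc126 : XT := (XT.nd (nat_lit 105456) (nat_lit 0) (nat_lit 0) (XT.nd (nat_lit 52650) (nat_lit 0) (nat_lit 0) (XT.nd (nat_lit 52182) (nat_lit 0) (nat_lit 836) (XT.nd (nat_lit 156) (nat_lit 0) (nat_lit 76) (XT.nd (nat_lit 78) (nat_lit 1292) (nat_lit 0) (XT.lf (nat_lit 76) (nat_lit 13878406795) (nat_lit 0) (nat_lit 14925449221) (nat_lit 1292) (nat_lit 402157857) (nat_lit 381) (nat_lit 5) (nat_lit 380) (nat_lit 5) (nat_lit 397) (nat_lit 5) (nat_lit 413) (nat_lit 400) (nat_lit 207)) (XT.lf (nat_lit 76) (nat_lit 213111480) (nat_lit 0) (nat_lit 1325242886) (nat_lit 1368) (nat_lit 28130827290) (nat_lit 364) (nat_lit 5) (nat_lit 363) (nat_lit 5) (nat_lit 381) (nat_lit 5) (nat_lit 414) (nat_lit 400) (nat_lit 206))) (XT.nd (nat_lit 78) (nat_lit 0) (nat_lit 0) (XT.lf (nat_lit 0) (nat_lit 3804072388) (nat_lit 1292) (nat_lit 13737446132) (nat_lit 1368) (nat_lit 12596354297) (nat_lit 364) (nat_lit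 5) (nat_lit 381) (nat_lit 5) (nat_lit 382) (nat_lit 5) (nat_lit 415) (nat_lit 400) (nat_lit 205)) (XT.nd (nat_lit 78) (nat_lit 0) (nat_lit 76) (XT.lf (nat_lit 76) (nat_lit 2485527842) (nat_lit 0) (nat_lit 3686185314) (nat_lit 1368) (nat_lit 24447893019) (nat_lit 365) (nat_lit 5) (nat_lit 364) (nat_lit 5) (nat_lit 382) (nat_lit 5) (nat_lit 416) (nat_lit 400) (nat_lit 204)) (XT.lf (nat_lit 0) (nat_lit 8849231845) (nat_lit 1292) (nat_lit 11740613711) (nat_lit 76) (nat_lit 10518780519) (nat_lit 365) (nat_lit 5) (nat_lit 382) (nat_lit 5) (nat_lit 366) (nat_lit 5) (nat_lit 417) (nat_lit 400) (nat_lit 203))))) (XT.nd (nat_lit 234) (nat_lit 0) (nat_lit 76) (XT.nd (nat_lit 78) (nat_lit 0) (nat_lit 0) (XT.lf (nat_lit 0) (nat_lit 6567655919) (nat_lit 1292) (nat_lit 2891064219) (nat_lit 1292) (nat_lit 2891064219) (nat_lit 374) (nat_lit 3) (nat_lit 391) (nat_lit 3) (nat_lit 391) (nat_lit 5) (nat_lit 401) (nat_lit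 401) (nat_lit 218)) (XT.nd (nat_lit 78) (nat_lit 0) (nat_lit 76) (XT.lf (nat_lit 76) (nat_lit 6698365150) (nat_lit 0) (nat_lit 6805947315) (nat_lit 1292) (nat_lit 11560590651) (nat_lit 375) (nat_lit 5) (nat_lit 374) (nat_lit 3) (nat_lit 391) (nat_lit 5) (nat_lit 402) (nat_lit 401) (nat_lit 217)) (XT.lf (nat_lit 0) (nat_lit 13993641749) (nat_lit 1216) (nat_lit 5825066628) (nat_lit 1292) (nat_lit 5619211414) (nat_lit 375) (nat_lit 5) (nat_lit 391) (nat_lit 5) (nat_lit 392) (nat_lit 5) (nat_lit 403) (nat_lit 401) (nat_lit 216)))) (XT.nd (nat_lit 78) (nat_lit 0) (nat_lit 76) (XT.lf (nat_lit 76) (nat_lit 7162751509) (nat_lit 0) (nat_lit 7467059646) (nat_lit 1292) (nat_lit 11188351004) (nat_lit 376) (nat_lit 5) (nat_lit 375) (nat_lit 5) (nat_lit 392) (nat_lit 5) (nat_lit 404) (nat_lit 401) (nat_lit 215)) (XT.nd (nat_lit 78) (nat_lit 0) (nat_lit 0) (XT.lf (nat_lit 0) (nat_lit 15391020865) (nat_lit 1216) (nat_lit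 5601929195) (nat_lit 1292) (nat_lit 5213683082) (nat_lit 376) (nat_lit 5) (nat_lit 392) (nat_lit 5) (nat_lit 393) (nat_lit 5) (nat_lit 405) (nat_lit 401) (nat_lit 214)) (XT.lf (nat_lit 76) (nat_lit 7921475337) (nat_lit 0) (nat_lit 8399819821) (nat_lit 1292) (nat_lit 10281076247) (nat_lit 377) (nat_lit 5) (nat_lit 376) (nat_lit 5) (nat_lit 393) (nat_lit 5) (nat_lit 406) (nat_lit 401) (nat_lit 213)))))) (XT.nd (nat_lit 468) (nat_lit 1064) (nat_lit 0) (XT.nd (nat_lit 234) (nat_lit 0) (nat_lit 76) (XT.nd (nat_lit 78) (nat_lit 0) (nat_lit 0) (XT.lf (nat_lit 0) (nat_lit 17376801410) (nat_lit 1216) (nat_lit 5089799585) (nat_lit 1292) (nat_lit 4540461109) (nat_lit 377) (nat_lit 5) (nat_lit 393) (nat_lit 5) (nat_lit 394) (nat_lit 5) (nat_lit 407) (nat_lit 401) (nat_lit 212)) (XT.nd (nat_lit 78) (nat_lit 0) (nat_lit 76) (XT.lf (nat_lit 76) (nat_lit 8999108523) (nat_lit 0) (nat_lit 9630899770) (nat_lit 1292) (nat_lit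 8788904168) (nat_lit 378) (nat_lit 5) (nat_lit 377) (nat_lit 5) (nat_lit 394) (nat_lit 5) (nat_lit 408) (nat_lit 401) (nat_lit 211)) (XT.lf (nat_lit 0) (nat_lit 20003684416) (nat_lit 1216) (nat_lit 4264028464) (nat_lit 1292) (nat_lit 3572919258) (nat_lit 378) (nat_lit 5) (nat_lit 394) (nat_lit 5) (nat_lit 395) (nat_lit 5) (nat_lit 409) (nat_lit 401) (nat_lit 210)))) (XT.nd (nat_lit 78) (nat_lit 0) (nat_lit 76) (XT.lf (nat_lit 76) (nat_lit 10422053241) (nat_lit 0) (nat_lit 11188618415) (nat_lit 1292) (nat_lit 6658568724) (nat_lit 379) (nat_lit 5) (nat_lit 378) (nat_lit 5) (nat_lit 395) (nat_lit 5) (nat_lit 410) (nat_lit 401) (nat_lit 209)) (XT.nd (nat_lit 78) (nat_lit 0) (nat_lit 0) (XT.lf (nat_lit 0) (nat_lit 23327946598) (nat_lit 1216) (nat_lit 3098130223) (nat_lit 1292) (nat_lit 2282767706) (nat_lit 379) (nat_lit 5) (nat_lit 395) (nat_lit 5) (nat_lit 396) (nat_lit 5) (nat_lit 411) (nat_lit 401) (nat_lit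 208)) (XT.lf (nat_lit 76) (nat_lit 12218651406) (nat_lit 0) (nat_lit 13103066823) (nat_lit 1292) (nat_lit 3833169215) (nat_lit 380) (nat_lit 5) (nat_lit 379) (nat_lit 5) (nat_lit 396) (nat_lit 5) (nat_lit 412) (nat_lit 401) (nat_lit 207))))) (XT.nd (nat_lit 234) (nat_lit 0) (nat_lit 76) (XT.nd (nat_lit 78) (nat_lit 1292) (nat_lit 0) (XT.lf (nat_lit 0) (nat_lit 27409680661) (nat_lit 1216) (nat_lit 1563672191) (nat_lit 1292) (nat_lit 639927468) (nat_lit 380) (nat_lit 5) (nat_lit 396) (nat_lit 5) (nat_lit 397) (nat_lit 5) (nat_lit 413) (nat_lit 401) (nat_lit 206)) (XT.nd (nat_lit 78) (nat_lit 1292) (nat_lit 0) (XT.lf (nat_lit 76) (nat_lit 14419301767) (nat_lit 0) (nat_lit 15406239674) (nat_lit 1292) (nat_lit 251925757) (nat_lit 381) (nat_lit 5) (nat_lit 380) (nat_lit 5) (nat_lit 397) (nat_lit 5) (nat_lit 414) (nat_lit 401) (nat_lit 205)) (XT.lf (nat_lit 76) (nat_lit 345962531) (nat_lit 0) (nat_lit 1394253045)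 (nat_lit 1368) (nat_lit 28814370212) (nat_lit 364) (nat_lit 5) (nat_lit 363) (nat_lit 5) (nat_lit 381) (nat_lit 5) (nat_lit 415) (nat_lit 401) (nat_lit 204)))) (XT.nd (nat_lit 78) (nat_lit 0) (nat_lit 0) (XT.lf (nat_lit 0) (nat_lit 4069096874) (nat_lit 1292) (nat_lit 14021986777) (nat_lit 1368) (nat_lit 12946398281) (nat_lit 364) (nat_lit 5) (nat_lit 381) (nat_lit 5) (nat_lit 382) (nat_lit 5) (nat_lit 416) (nat_lit 401) (nat_lit 203)) (XT.nd (nat_lit 51948) (nat_lit 0) (nat_lit 760) (XT.lf (nat_lit 76) (nat_lit 2686425605) (nat_lit 0) (nat_lit 3818160426) (nat_lit 1368) (nat_lit 25029176685) (nat_lit 365) (nat_lit 5) (nat_lit 364) (nat_lit 5) (nat_lit 382) (nat_lit 5) (nat_lit 417) (nat_lit 401) (nat_lit 202)) (XT.lf (nat_lit 0) (nat_lit 6871233617) (nat_lit 1292) (nat_lit 2922923915) (nat_lit 1292) (nat_lit 2922923915) (nat_lit 374) (nat_lit 3) (nat_lit 391) (nat_lit 3) (nat_lit 391) (nat_lit 5) (nat_lit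 402) (nat_lit 402) (nat_lit 216))))))) (XT.nd (nat_lit 936) (nat_lit 836) (nat_lit 0) (XT.nd (nat_lit 468) (nat_lit 0) (nat_lit 228) (XT.nd (nat_lit 234) (nat_lit 0) (nat_lit 152) (XT.nd (nat_lit 78) (nat_lit 0) (nat_lit 76) (XT.lf (nat_lit 76) (nat_lit 7007984639) (nat_lit 0) (nat_lit 7109391148) (nat_lit 1292) (nat_lit 11693236404) (nat_lit 375) (nat_lit 5) (nat_lit 374) (nat_lit 3) (nat_lit 391) (nat_lit 5) (nat_lit 403) (nat_lit 402) (nat_lit 215)) (XT.nd (nat_lit 78) (nat_lit 0) (nat_lit 0) (XT.lf (nat_lit 0) (nat_lit 14614402214) (nat_lit 1216) (nat_lit 5887332459) (nat_lit 1292) (nat_lit 5693294176) (nat_lit 375) (nat_lit 5) (nat_lit 391) (nat_lit 5) (nat_lit 392) (nat_lit 5) (nat_lit 404) (nat_lit 402) (nat_lit 214)) (XT.lf (nat_lit 76) (nat_lit 7489017417) (nat_lit 0) (nat_lit 7775857022) (nat_lit 1292) (nat_lit 11321947517) (nat_lit 376) (nat_lit 5) (nat_lit 375) (nat_lit 5) (nat_lit 392) (nat_lit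 5) (nat_lit 405) (nat_lit 402) (nat_lit 213)))) (XT.nd (nat_lit 78) (nat_lit 0) (nat_lit 0) (XT.lf (nat_lit 0) (nat_lit 16042415509) (nat_lit 1216) (nat_lit 5655342953) (nat_lit 1292) (nat_lit 5289383754) (nat_lit 376) (nat_lit 5) (nat_lit 392) (nat_lit 5) (nat_lit 393) (nat_lit 5) (nat_lit 406) (nat_lit 402) (nat_lit 212)) (XT.nd (nat_lit 78) (nat_lit 0) (nat_lit 76) (XT.lf (nat_lit 76) (nat_lit 8272639754) (nat_lit 0) (nat_lit 8723525307) (nat_lit 1292) (nat_lit 10398720555) (nat_lit 377) (nat_lit 5) (nat_lit 376) (nat_lit 5) (nat_lit 393) (nat_lit 5) (nat_lit 407) (nat_lit 402) (nat_lit 211)) (XT.lf (nat_lit 0) (nat_lit 18077272170) (nat_lit 1216) (nat_lit 5126215498) (nat_lit 1292) (nat_lit 4608411298) (nat_lit 377) (nat_lit 5) (nat_lit 393) (nat_lit 5) (nat_lit 394) (nat_lit 5) (nat_lit 408) (nat_lit 402) (nat_lit 210))))) (XT.nd (nat_lit 234) (nat_lit 0) (nat_lit 152) (XT.nd (nat_lit 78) (nat_lit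 0) (nat_lit 76) (XT.lf (nat_lit 76) (nat_lit 9384219872) (nat_lit 0) (nat_lit 9979743717) (nat_lit 1292) (nat_lit 8872264595) (nat_lit 378) (nat_lit 5) (nat_lit 377) (nat_lit 5) (nat_lit 394) (nat_lit 5) (nat_lit 409) (nat_lit 402) (nat_lit 209)) (XT.nd (nat_lit 78) (nat_lit 0) (nat_lit 0) (XT.lf (nat_lit 0) (nat_lit 20773192123) (nat_lit 1216) (nat_lit 4274506887) (nat_lit 1292) (nat_lit 3623070177) (nat_lit 378) (nat_lit 5) (nat_lit 394) (nat_lit 5) (nat_lit 395) (nat_lit 5) (nat_lit 410) (nat_lit 402) (nat_lit 208)) (XT.lf (nat_lit 76) (nat_lit 10851005873) (nat_lit 0) (nat_lit 11573567069) (nat_lit 1292) (nat_lit 6687777215) (nat_lit 379) (nat_lit 5) (nat_lit 378) (nat_lit 5) (nat_lit 395) (nat_lit 5) (nat_lit 411) (nat_lit 402) (nat_lit 207)))) (XT.nd (nat_lit 78) (nat_lit 0) (nat_lit 0) (XT.lf (nat_lit 0) (nat_lit 24188083374) (nat_lit 1216) (nat_lit 3072887455) (nat_lit 1292) (nat_lit 2304330082)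 (nat_lit 379) (nat_lit 5) (nat_lit 395) (nat_lit 5) (nat_lit 396) (nat_lit 5) (nat_lit 412) (nat_lit 402) (nat_lit 206)) (XT.nd (nat_lit 78) (nat_lit 0) (nat_lit 76) (XT.lf (nat_lit 76) (nat_lit 12702238930) (nat_lit 0) (nat_lit 13535885284) (nat_lit 1292) (nat_lit 3786707221) (nat_lit 380) (nat_lit 5) (nat_lit 379) (nat_lit 5) (nat_lit 396) (nat_lit 5) (nat_lit 413) (nat_lit 402) (nat_lit 205)) (XT.lf (nat_lit 0) (nat_lit 28383789103) (nat_lit 1216) (nat_lit 1492026542) (nat_lit 1292) (nat_lit 621308544) (nat_lit 380) (nat_lit 5) (nat_lit 396) (nat_lit 5) (nat_lit 397) (nat_lit 5) (nat_lit 414) (nat_lit 402) (nat_lit 204)))))) (XT.nd (nat_lit 52494) (nat_lit 0) (nat_lit 988) (XT.nd (nat_lit 52260) (nat_lit 0) (nat_lit 836) (XT.nd (nat_lit 78) (nat_lit 1292) (nat_lit 0) (XT.lf (nat_lit 76) (nat_lit 14969274323) (nat_lit 0) (nat_lit 15899557957) (nat_lit 1292) (nat_lit 106503195) (nat_lit 381) (nat_lit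 5) (nat_lit 380) (nat_lit 5) (nat_lit 397) (nat_lit 5) (nat_lit 415) (nat_lit 402) (nat_lit 203)) (XT.nd (nat_lit 52104) (nat_lit 0) (nat_lit 836) (XT.lf (nat_lit 76) (nat_lit 475539925) (nat_lit 0) (nat_lit 1463654274) (nat_lit 1368) (nat_lit 29527625998) (nat_lit 364) (nat_lit 5) (nat_lit 363) (nat_lit 5) (nat_lit 381) (nat_lit 5) (nat_lit 416) (nat_lit 402) (nat_lit 202)) (XT.lf (nat_lit 0) (nat_lit 7177802354) (nat_lit 1292) (nat_lit 2958889292) (nat_lit 1292) (nat_lit 2958889292) (nat_lit 374) (nat_lit 3) (nat_lit 391) (nat_lit 3) (nat_lit 391) (nat_lit 5) (nat_lit 403) (nat_lit 403) (nat_lit 214)))) (XT.nd (nat_lit 78) (nat_lit 0) (nat_lit 76) (XT.lf (nat_lit 76) (nat_lit 7320654695) (nat_lit 0) (nat_lit 7416240056) (nat_lit 1292) (nat_lit 11842155876) (nat_lit 375) (nat_lit 5) (nat_lit 374) (nat_lit 3) (nat_lit 391) (nat_lit 5) (nat_lit 404) (nat_lit 403) (nat_lit 213)) (XT.nd (nat_lit 78) (nat_lit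 0) (nat_lit 0) (XT.lf (nat_lit 0) (nat_lit 15242250070) (nat_lit 1216) (nat_lit 5957923431) (nat_lit 1292) (nat_lit 5775023739) (nat_lit 375) (nat_lit 5) (nat_lit 391) (nat_lit 5) (nat_lit 392) (nat_lit 5) (nat_lit 405) (nat_lit 403) (nat_lit 212)) (XT.lf (nat_lit 76) (nat_lit 7818677442) (nat_lit 0) (nat_lit 8089051279) (nat_lit 1292) (nat_lit 11471150652) (nat_lit 376) (nat_lit 5) (nat_lit 375) (nat_lit 5) (nat_lit 392) (nat_lit 5) (nat_lit 406) (nat_lit 403) (nat_lit 211))))) (XT.nd (nat_lit 234) (nat_lit 0) (nat_lit 76) (XT.nd (nat_lit 78) (nat_lit 0) (nat_lit 0) (XT.lf (nat_lit 0) (nat_lit 16702464501) (nat_lit 1216) (nat_lit 5716940164) (nat_lit 1292) (nat_lit 5371988521) (nat_lit 376) (nat_lit 5) (nat_lit 392) (nat_lit 5) (nat_lit 393) (nat_lit 5) (nat_lit 407) (nat_lit 403) (nat_lit 210)) (XT.nd (nat_lit 78) (nat_lit 0) (nat_lit 76) (XT.lf (nat_lit 76) (nat_lit 8627822581) (nat_lit 0) (nat_lit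 9052825460) (nat_lit 1292) (nat_lit 10530846203) (nat_lit 377) (nat_lit 5) (nat_lit 376) (nat_lit 5) (nat_lit 393) (nat_lit 5) (nat_lit 408) (nat_lit 403) (nat_lit 209)) (XT.lf (nat_lit 0) (nat_lit 18788472151) (nat_lit 1216) (nat_lit 5170398725) (nat_lit 1292) (nat_lit 4682318605) (nat_lit 377) (nat_lit 5) (nat_lit 393) (nat_lit 5) (nat_lit 394) (nat_lit 5) (nat_lit 409) (nat_lit 403) (nat_lit 208)))) (XT.nd (nat_lit 78) (nat_lit 0) (nat_lit 76) (XT.lf (nat_lit 76) (nat_lit 9774275164) (nat_lit 0) (nat_lit 10335613504) (nat_lit 1292) (nat_lit 8968476176) (nat_lit 378) (nat_lit 5) (nat_lit 377) (nat_lit 5) (nat_lit 394) (nat_lit 5) (nat_lit 410) (nat_lit 403) (nat_lit 207)) (XT.nd (nat_lit 78) (nat_lit 0) (nat_lit 0) (XT.lf (nat_lit 0) (nat_lit 21556060969) (nat_lit 1216) (nat_lit 4292041340) (nat_lit 1292) (nat_lit 3677999761) (nat_lit 378) (nat_lit 5) (nat_lit 394) (nat_lit 5) (nat_lit 395) (nat_lit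 5) (nat_lit 411) (nat_lit 403) (nat_lit 206)) (XT.lf (nat_lit 76) (nat_lit 11286151502) (nat_lit 0) (nat_lit 11967234730) (nat_lit 1292) (nat_lit 6727652147) (nat_lit 379) (nat_lit 5) (nat_lit 378) (nat_lit 5) (nat_lit 395) (nat_lit 5) (nat_lit 412) (nat_lit 403) (nat_lit 205))))))))
noncomputable def xc127 : XT := (XT.nd (nat_lit 106236) (nat_lit 0) (nat_lit 836) (XT.nd (nat_lit 53040) (nat_lit 0) (nat_lit 836) (XT.nd (nat_lit 52572) (nat_lit 0) (nat_lit 912) (XT.nd (nat_lit 234) (nat_lit 1216) (nat_lit 0) (XT.nd (nat_lit 78) (nat_lit 0) (nat_lit 0) (XT.lf (nat_lit 0) (nat_lit 25064822470) (nat_lit 1216) (nat_lit 3053671803) (nat_lit 1292) (nat_lit 2329232767) (nat_lit 379) (nat_lit 5) (nat_lit 395) (nat_lit 5) (nat_lit 396) (nat_lit 5) (nat_lit 413) (nat_lit 403) (nat_lit 204)) (XT.nd (nat_lit 78) (nat_lit 0) (nat_lit 76) (XT.lf (nat_lit 76) (nat_lit 13193616195) (nat_lit 0) (nat_lit 13979407837) (nat_lit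 1292) (nat_lit 3748119663) (nat_lit 380) (nat_lit 5) (nat_lit 379) (nat_lit 5) (nat_lit 396) (nat_lit 5) (nat_lit 414) (nat_lit 403) (nat_lit 203)) (XT.lf (nat_lit 0) (nat_lit 29378405823) (nat_lit 1216) (nat_lit 1425037111) (nat_lit 1292) (nat_lit 604301889) (nat_lit 380) (nat_lit 5) (nat_lit 396) (nat_lit 5) (nat_lit 397) (nat_lit 5) (nat_lit 415) (nat_lit 403) (nat_lit 202)))) (XT.nd (nat_lit 52182) (nat_lit 0) (nat_lit 836) (XT.lf (nat_lit 0) (nat_lit 33827119) (nat_lit 1292) (nat_lit 16371720030) (nat_lit 1368) (nat_lit 15494838482) (nat_lit 363) (nat_lit 5) (nat_lit 380) (nat_lit 5) (nat_lit 381) (nat_lit 5) (nat_lit 416) (nat_lit 403) (nat_lit 201)) (XT.nd (nat_lit 78) (nat_lit 0) (nat_lit 0) (XT.lf (nat_lit 0) (nat_lit 7487802960) (nat_lit 1292) (nat_lit 2998902705) (nat_lit 1292) (nat_lit 2998902705) (nat_lit 374) (nat_lit 3) (nat_lit 391) (nat_lit 3) (nat_lit 391) (nat_lit 5) (nat_lit 404)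 (nat_lit 404) (nat_lit 212)) (XT.lf (nat_lit 76) (nat_lit 7636824921) (nat_lit 0) (nat_lit 7726923291) (nat_lit 1292) (nat_lit 12007131534) (nat_lit 375) (nat_lit 5) (nat_lit 374) (nat_lit 3) (nat_lit 391) (nat_lit 5) (nat_lit 405) (nat_lit 404) (nat_lit 211))))) (XT.nd (nat_lit 234) (nat_lit 0) (nat_lit 76) (XT.nd (nat_lit 78) (nat_lit 0) (nat_lit 0) (XT.lf (nat_lit 0) (nat_lit 15878060122) (nat_lit 1216) (nat_lit 6036718630) (nat_lit 1292) (nat_lit 5864318129) (nat_lit 375) (nat_lit 5) (nat_lit 391) (nat_lit 5) (nat_lit 392) (nat_lit 5) (nat_lit 406) (nat_lit 404) (nat_lit 210)) (XT.nd (nat_lit 78) (nat_lit 0) (nat_lit 76) (XT.lf (nat_lit 76) (nat_lit 8152200440) (nat_lit 0) (nat_lit 8407053713) (nat_lit 1292) (nat_lit 11635762794) (nat_lit 376) (nat_lit 5) (nat_lit 375) (nat_lit 5) (nat_lit 392) (nat_lit 5) (nat_lit 407) (nat_lit 404) (nat_lit 209)) (XT.lf (nat_lit 0) (nat_lit 17372052460) (nat_lit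 1216) (nat_lit 5786588555) (nat_lit 1292) (nat_lit 5461438547) (nat_lit 376) (nat_lit 5) (nat_lit 392) (nat_lit 5) (nat_lit 393) (nat_lit 5) (nat_lit 408) (nat_lit 404) (nat_lit 208)))) (XT.nd (nat_lit 78) (nat_lit 0) (nat_lit 76) (XT.lf (nat_lit 76) (nat_lit 8987518447) (nat_lit 0) (nat_lit 9388124422) (nat_lit 1292) (nat_lit 10677258940) (nat_lit 377) (nat_lit 5) (nat_lit 376) (nat_lit 5) (nat_lit 393) (nat_lit 5) (nat_lit 409) (nat_lit 404) (nat_lit 207)) (XT.nd (nat_lit 78) (nat_lit 0) (nat_lit 0) (XT.lf (nat_lit 0) (nat_lit 19511313623) (nat_lit 1216) (nat_lit 5222199124) (nat_lit 1292) (nat_lit 4762136799) (nat_lit 377) (nat_lit 5) (nat_lit 393) (nat_lit 5) (nat_lit 394) (nat_lit 5) (nat_lit 410) (nat_lit 404) (nat_lit 206)) (XT.lf (nat_lit 76) (nat_lit 10169802124) (nat_lit 0) (nat_lit 10698917347) (nat_lit 1292) (nat_lit 9077330295) (nat_lit 378) (nat_lit 5) (nat_lit 377) (nat_lit 5) (nat_lit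 394) (nat_lit 5) (nat_lit 411) (nat_lit 404) (nat_lit 205)))))) (XT.nd (nat_lit 52728) (nat_lit 0) (nat_lit 76) (XT.nd (nat_lit 234) (nat_lit 304) (nat_lit 0) (XT.nd (nat_lit 78) (nat_lit 0) (nat_lit 0) (XT.lf (nat_lit 0) (nat_lit 22353249993) (nat_lit 1216) (nat_lit 4316456502) (nat_lit 1292) (nat_lit 3737663421) (nat_lit 378) (nat_lit 5) (nat_lit 394) (nat_lit 5) (nat_lit 395) (nat_lit 5) (nat_lit 412) (nat_lit 404) (nat_lit 204)) (XT.nd (nat_lit 78) (nat_lit 0) (nat_lit 76) (XT.lf (nat_lit 76) (nat_lit 11728059125) (nat_lit 0) (nat_lit 12370045389) (nat_lit 1292) (nat_lit 6777951516) (nat_lit 379) (nat_lit 5) (nat_lit 378) (nat_lit 5) (nat_lit 395) (nat_lit 5) (nat_lit 413) (nat_lit 404) (nat_lit 203)) (XT.lf (nat_lit 0) (nat_lit 25959190177) (nat_lit 1216) (nat_lit 3040274628) (nat_lit 1292) (nat_lit 2357421356) (nat_lit 379) (nat_lit 5) (nat_lit 395) (nat_lit 5) (nat_lit 396) (nat_lit 5) (nat_lit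 414) (nat_lit 404) (nat_lit 202)))) (XT.nd (nat_lit 52338) (nat_lit 380) (nat_lit 0) (XT.lf (nat_lit 76) (nat_lit 13693402527) (nat_lit 0) (nat_lit 14434086514) (nat_lit 1292) (nat_lit 3717110736) (nat_lit 380) (nat_lit 5) (nat_lit 379) (nat_lit 5) (nat_lit 396) (nat_lit 5) (nat_lit 415) (nat_lit 404) (nat_lit 201)) (XT.nd (nat_lit 78) (nat_lit 0) (nat_lit 0) (XT.lf (nat_lit 0) (nat_lit 7801669339) (nat_lit 1292) (nat_lit 3042915157) (nat_lit 1292) (nat_lit 3042915157) (nat_lit 374) (nat_lit 3) (nat_lit 391) (nat_lit 3) (nat_lit 391) (nat_lit 5) (nat_lit 405) (nat_lit 405) (nat_lit 210)) (XT.lf (nat_lit 76) (nat_lit 7956937856) (nat_lit 0) (nat_lit 8041864211) (nat_lit 1292) (nat_lit 12187979830) (nat_lit 375) (nat_lit 5) (nat_lit 374) (nat_lit 3) (nat_lit 391) (nat_lit 5) (nat_lit 406) (nat_lit 405) (nat_lit 209))))) (XT.nd (nat_lit 234) (nat_lit 0) (nat_lit 76) (XT.nd (nat_lit 78) (nat_lit 0) (nat_lit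 0) (XT.lf (nat_lit 0) (nat_lit 16522695402) (nat_lit 1216) (nat_lit 6123614794) (nat_lit 1292) (nat_lit 5961110787) (nat_lit 375) (nat_lit 5) (nat_lit 391) (nat_lit 5) (nat_lit 392) (nat_lit 5) (nat_lit 407) (nat_lit 405) (nat_lit 208)) (XT.nd (nat_lit 78) (nat_lit 0) (nat_lit 76) (XT.lf (nat_lit 76) (nat_lit 8490048266) (nat_lit 0) (nat_lit 8730271919) (nat_lit 1292) (nat_lit 11815618619) (nat_lit 376) (nat_lit 5) (nat_lit 375) (nat_lit 5) (nat_lit 392) (nat_lit 5) (nat_lit 408) (nat_lit 405) (nat_lit 207)) (XT.lf (nat_lit 0) (nat_lit 18052054662) (nat_lit 1216) (nat_lit 5864173567) (nat_lit 1292) (nat_lit 5557688500) (nat_lit 376) (nat_lit 5) (nat_lit 392) (nat_lit 5) (nat_lit 393) (nat_lit 5) (nat_lit 409) (nat_lit 405) (nat_lit 206)))) (XT.nd (nat_lit 78) (nat_lit 0) (nat_lit 76) (XT.lf (nat_lit 76) (nat_lit 9352215345) (nat_lit 0) (nat_lit 9729824898) (nat_lit 1292) (nat_lit 10837794779) (nat_lit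 377) (nat_lit 5) (nat_lit 376) (nat_lit 5) (nat_lit 393) (nat_lit 5) (nat_lit 410) (nat_lit 405) (nat_lit 205)) (XT.nd (nat_lit 78) (nat_lit 0) (nat_lit 0) (XT.lf (nat_lit 0) (nat_lit 20246702337) (nat_lit 1216) (nat_lit 5281484041) (nat_lit 1292) (nat_lit 4847831175) (nat_lit 377) (nat_lit 5) (nat_lit 393) (nat_lit 5) (nat_lit 394) (nat_lit 5) (nat_lit 411) (nat_lit 405) (nat_lit 204)) (XT.lf (nat_lit 76) (nat_lit 10571322528) (nat_lit 0) (nat_lit 11070064373) (nat_lit 1292) (nat_lit 9198646182) (nat_lit 378) (nat_lit 5) (nat_lit 377) (nat_lit 5) (nat_lit 394) (nat_lit 5) (nat_lit 412) (nat_lit 405) (nat_lit 203))))))) (XT.nd (nat_lit 105924) (nat_lit 0) (nat_lit 0) (XT.nd (nat_lit 52884) (nat_lit 0) (nat_lit 0) (XT.nd (nat_lit 52650) (nat_lit 0) (nat_lit 0) (XT.nd (nat_lit 78) (nat_lit 304) (nat_lit 0) (XT.lf (nat_lit 0) (nat_lit 23165714959) (nat_lit 1216) (nat_lit 4347594010) (nat_lit 1292) (nat_lit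 3802026021) (nat_lit 378) (nat_lit 5) (nat_lit 394) (nat_lit 5) (nat_lit 395) (nat_lit 5) (nat_lit 413) (nat_lit 405) (nat_lit 202)) (XT.nd (nat_lit 52494) (nat_lit 304) (nat_lit 0) (XT.lf (nat_lit 76) (nat_lit 12177292809) (nat_lit 0) (nat_lit 12782426435) (nat_lit 1292) (nat_lit 6838458319) (nat_lit 379) (nat_lit 5) (nat_lit 378) (nat_lit 5) (nat_lit 395) (nat_lit 5) (nat_lit 414) (nat_lit 405) (nat_lit 201)) (XT.lf (nat_lit 0) (nat_lit 8119829410) (nat_lit 1292) (nat_lit 3090885966) (nat_lit 1292) (nat_lit 3090885966) (nat_lit 374) (nat_lit 3) (nat_lit 391) (nat_lit 3) (nat_lit 391) (nat_lit 5) (nat_lit 406) (nat_lit 406) (nat_lit 208)))) (XT.nd (nat_lit 78) (nat_lit 0) (nat_lit 76) (XT.lf (nat_lit 76) (nat_lit 8281429936) (nat_lit 0) (nat_lit 8361481171) (nat_lit 1292) (nat_lit 12384549897) (nat_lit 375) (nat_lit 5) (nat_lit 374) (nat_lit 3) (nat_lit 391) (nat_lit 5) (nat_lit 407) (nat_lit 406) (nat_lit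 207)) (XT.nd (nat_lit 78) (nat_lit 0) (nat_lit 0) (XT.lf (nat_lit 0) (nat_lit 17177009006) (nat_lit 1216) (nat_lit 6218525618) (nat_lit 1292) (nat_lit 6065350006) (nat_lit 375) (nat_lit 5) (nat_lit 391) (nat_lit 5) (nat_lit 392) (nat_lit 5) (nat_lit 408) (nat_lit 406) (nat_lit 206)) (XT.lf (nat_lit 76) (nat_lit 8832676769) (nat_lit 0) (nat_lit 9059110601) (nat_lit 1292) (nat_lit 12010583870) (nat_lit 376) (nat_lit 5) (nat_lit 375) (nat_lit 5) (nat_lit 392) (nat_lit 5) (nat_lit 409) (nat_lit 406) (nat_lit 205))))) (XT.nd (nat_lit 234) (nat_lit 152) (nat_lit 0) (XT.nd (nat_lit 78) (nat_lit 0) (nat_lit 0) (XT.lf (nat_lit 0) (nat_lit 18743338829) (nat_lit 1216) (nat_lit 5949597649) (nat_lit 1292) (nat_lit 5660706078) (nat_lit 376) (nat_lit 5) (nat_lit 392) (nat_lit 5) (nat_lit 393) (nat_lit 5) (nat_lit 410) (nat_lit 406) (nat_lit 204)) (XT.nd (nat_lit 78) (nat_lit 0) (nat_lit 76) (XT.lf (nat_lit 76) (nat_lit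 9722395665) (nat_lit 0) (nat_lit 10078328885) (nat_lit 1292) (nat_lit 11012318829) (nat_lit 377) (nat_lit 5) (nat_lit 376) (nat_lit 5) (nat_lit 393) (nat_lit 5) (nat_lit 411) (nat_lit 406) (nat_lit 203)) (XT.lf (nat_lit 0) (nat_lit 20995539269) (nat_lit 1216) (nat_lit 5348137576) (nat_lit 1292) (nat_lit 4939378159) (nat_lit 377) (nat_lit 5) (nat_lit 393) (nat_lit 5) (nat_lit 394) (nat_lit 5) (nat_lit 412) (nat_lit 406) (nat_lit 202)))) (XT.nd (nat_lit 52650) (nat_lit 228) (nat_lit 0) (XT.lf (nat_lit 76) (nat_lit 10979353278) (nat_lit 0) (nat_lit 11449465301) (nat_lit 1292) (nat_lit 9332269794) (nat_lit 378) (nat_lit 5) (nat_lit 377) (nat_lit 5) (nat_lit 394) (nat_lit 5) (nat_lit 413) (nat_lit 406) (nat_lit 201)) (XT.nd (nat_lit 78) (nat_lit 0) (nat_lit 0) (XT.lf (nat_lit 0) (nat_lit 8442706026) (nat_lit 1292) (nat_lit 3142782452) (nat_lit 1292) (nat_lit 3142782452) (nat_lit 374) (nat_lit 3) (nat_lit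 391) (nat_lit 3) (nat_lit 391) (nat_lit 5) (nat_lit 407) (nat_lit 407) (nat_lit 206)) (XT.lf (nat_lit 76) (nat_lit 8610732430) (nat_lit 0) (nat_lit 8686188397) (nat_lit 1292) (nat_lit 12596722336) (nat_lit 375) (nat_lit 5) (nat_lit 374) (nat_lit 3) (nat_lit 391) (nat_lit 5) (nat_lit 408) (nat_lit 407) (nat_lit 205)))))) (XT.nd (nat_lit 53118) (nat_lit 0) (nat_lit 0) (XT.nd (nat_lit 234) (nat_lit 76) (nat_lit 0) (XT.nd (nat_lit 78) (nat_lit 0) (nat_lit 0) (XT.lf (nat_lit 0) (nat_lit 17841845851) (nat_lit 1216) (nat_lit 6321381114) (nat_lit 1292) (nat_lit 6176998408) (nat_lit 375) (nat_lit 5) (nat_lit 391) (nat_lit 5) (nat_lit 392) (nat_lit 5) (nat_lit 409) (nat_lit 407) (nat_lit 204)) (XT.nd (nat_lit 78) (nat_lit 0) (nat_lit 76) (XT.lf (nat_lit 76) (nat_lit 9180536754) (nat_lit 0) (nat_lit 9393972358) (nat_lit 1292) (nat_lit 12220554222) (nat_lit 376) (nat_lit 5) (nat_lit 375) (nat_lit 5) (nat_lit 392)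 (nat_lit 5) (nat_lit 410) (nat_lit 407) (nat_lit 203)) (XT.lf (nat_lit 0) (nat_lit 19446766836) (nat_lit 1216) (nat_lit 6042779587) (nat_lit 1292) (nat_lit 5770471574) (nat_lit 376) (nat_lit 5) (nat_lit 392) (nat_lit 5) (nat_lit 393) (nat_lit 5) (nat_lit 411) (nat_lit 407) (nat_lit 202)))) (XT.nd (nat_lit 78) (nat_lit 152) (nat_lit 0) (XT.lf (nat_lit 76) (nat_lit 10098537192) (nat_lit 0) (nat_lit 10434038389) (nat_lit 1292) (nat_lit 11200724220) (nat_lit 377) (nat_lit 5) (nat_lit 376) (nat_lit 5) (nat_lit 393) (nat_lit 5) (nat_lit 412) (nat_lit 407) (nat_lit 201)) (XT.nd (nat_lit 52728) (nat_lit 228) (nat_lit 0) (XT.lf (nat_lit 0) (nat_lit 21758722311) (nat_lit 1216) (nat_lit 5422059896) (nat_lit 1292) (nat_lit 5036764941) (nat_lit 377) (nat_lit 5) (nat_lit 393) (nat_lit 5) (nat_lit 394) (nat_lit 5) (nat_lit 413) (nat_lit 407) (nat_lit 200)) (XT.lf (nat_lit 0) (nat_lit 8770717844) (nat_lit 1292) (nat_lit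 3198579648) (nat_lit 1292) (nat_lit 3198579648) (nat_lit 374) (nat_lit 3) (nat_lit 391) (nat_lit 3) (nat_lit 391) (nat_lit 5) (nat_lit 408) (nat_lit 408) (nat_lit 204))))) (XT.nd (nat_lit 234) (nat_lit 0) (nat_lit 0) (XT.nd (nat_lit 78) (nat_lit 0) (nat_lit 76) (XT.lf (nat_lit 76) (nat_lit 8945272327) (nat_lit 0) (nat_lit 9016396812) (nat_lit 1292) (nat_lit 12824408098) (nat_lit 375) (nat_lit 5) (nat_lit 374) (nat_lit 3) (nat_lit 391) (nat_lit 5) (nat_lit 409) (nat_lit 408) (nat_lit 203)) (XT.nd (nat_lit 78) (nat_lit 0) (nat_lit 0) (XT.lf (nat_lit 0) (nat_lit 18518044363) (nat_lit 1216) (nat_lit 6432127012) (nat_lit 1292) (nat_lit 6296032465) (nat_lit 375) (nat_lit 5) (nat_lit 391) (nat_lit 5) (nat_lit 392) (nat_lit 5) (nat_lit 410) (nat_lit 408) (nat_lit 202)) (XT.lf (nat_lit 76) (nat_lit 9534074906) (nat_lit 0) (nat_lit 9735258433) (nat_lit 1292) (nat_lit 12445454226) (nat_lit 376) (nat_lit 5) (nat_lit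 375) (nat_lit 5) (nat_lit 392) (nat_lit 5) (nat_lit 411) (nat_lit 408) (nat_lit 201)))) (XT.nd (nat_lit 52962) (nat_lit 152) (nat_lit 0) (XT.lf (nat_lit 0) (nat_lit 20163196367) (nat_lit 1216) (nat_lit 6143653897) (nat_lit 1292) (nat_lit 5886977478) (nat_lit 376) (nat_lit 5) (nat_lit 392) (nat_lit 5) (nat_lit 393) (nat_lit 5) (nat_lit 412) (nat_lit 408) (nat_lit 200)) (XT.nd (nat_lit 78) (nat_lit 0) (nat_lit 76) (XT.lf (nat_lit 76) (nat_lit 9285473200) (nat_lit 0) (nat_lit 9352514849) (nat_lit 1292) (nat_lit 13067547440) (nat_lit 375) (nat_lit 5) (nat_lit 374) (nat_lit 3) (nat_lit 391) (nat_lit 5) (nat_lit 410) (nat_lit 409) (nat_lit 201)) (XT.lf (nat_lit 0) (nat_lit 19206438118) (nat_lit 1216) (nat_lit 6550724214) (nat_lit 1292) (nat_lit 6422442050) (nat_lit 375) (nat_lit 5) (nat_lit 391) (nat_lit 5) (nat_lit 392) (nat_lit 5) (nat_lit 411) (nat_lit 409) (nat_lit 200))))))))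
noncomputable def ec0 : XT := (XT.nd (nat_lit 211926) (nat_lit 0) (nat_lit 0) (XT.nd (nat_lit 158808) (nat_lit 0) (nat_lit 0) (XT.nd (nat_lit 105846) (nat_lit 0) (nat_lit 0) (XT.nd (nat_lit 52962) (nat_lit 0) (nat_lit 0) (XT.nd (nat_lit 52884) (nat_lit 0) (nat_lit 0) (XT.lf (nat_lit 1292) (nat_lit 675854698) (nat_lit 76) (nat_lit 589162626) (nat_lit 0) (nat_lit 589162626) (nat_lit 391) (nat_lit 1) (nat_lit 375) (nat_lit 1) (nat_lit 374) (nat_lit 0) (nat_lit 393) (nat_lit 314) (nat_lit 313)) (XT.lf (nat_lit 1292) (nat_lit 178128766) (nat_lit 0) (nat_lit 612845797) (nat_lit 1292) (nat_lit 178128766) (nat_lit 391) (nat_lit 1) (nat_lit 374) (nat_lit 0) (nat_lit 391) (nat_lit 0) (nat_lit 390) (nat_lit 315) (nat_lit 315))) (XT.nd (nat_lit 78) (nat_lit 0) (nat_lit 76) (XT.lf (nat_lit 1292) (nat_lit 696130339) (nat_lit 76) (nat_lit 606837505) (nat_lit 0) (nat_lit 606837505) (nat_lit 391) (nat_lit 1) (nat_lit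 375) (nat_lit 1) (nat_lit 374) (nat_lit 0) (nat_lit 391) (nat_lit 315) (nat_lit 314)) (XT.nd (nat_lit 78) (nat_lit 0) (nat_lit 0) (XT.lf (nat_lit 1292) (nat_lit 336665229) (nat_lit 0) (nat_lit 1208700055) (nat_lit 1216) (nat_lit 336665229) (nat_lit 392) (nat_lit 1) (nat_lit 375) (nat_lit 1) (nat_lit 391) (nat_lit 1) (nat_lit 392) (nat_lit 315) (nat_lit 313)) (XT.lf (nat_lit 1292) (nat_lit 639344653) (nat_lit 76) (nat_lit 607687427) (nat_lit 0) (nat_lit 607687427) (nat_lit 392) (nat_lit 1) (nat_lit 376) (nat_lit 1) (nat_lit 375) (nat_lit 1) (nat_lit 393) (nat_lit 315) (nat_lit 312))))) (XT.nd (nat_lit 234) (nat_lit 0) (nat_lit 76) (XT.nd (nat_lit 78) (nat_lit 0) (nat_lit 0) (XT.lf (nat_lit 1292) (nat_lit 183472629) (nat_lit 0) (nat_lit 631231171) (nat_lit 1292) (nat_lit 183472629) (nat_lit 391) (nat_lit 1) (nat_lit 374) (nat_lit 0) (nat_lit 391) (nat_lit 0) (nat_lit 388) (nat_lit 316) (nat_lit 316)) (XT.nd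 (nat_lit 78) (nat_lit 0) (nat_lit 76) (XT.lf (nat_lit 1292) (nat_lit 717014249) (nat_lit 76) (nat_lit 625042630) (nat_lit 0) (nat_lit 625042630) (nat_lit 391) (nat_lit 1) (nat_lit 375) (nat_lit 1) (nat_lit 374) (nat_lit 0) (nat_lit 389) (nat_lit 316) (nat_lit 315)) (XT.lf (nat_lit 1292) (nat_lit 346765186) (nat_lit 0) (nat_lit 1244961057) (nat_lit 1216) (nat_lit 346765186) (nat_lit 392) (nat_lit 1) (nat_lit 375) (nat_lit 1) (nat_lit 391) (nat_lit 1) (nat_lit 390) (nat_lit 316) (nat_lit 314)))) (XT.nd (nat_lit 78) (nat_lit 0) (nat_lit 76) (XT.lf (nat_lit 1292) (nat_lit 658524993) (nat_lit 76) (nat_lit 625918050) (nat_lit 0) (nat_lit 625918050) (nat_lit 392) (nat_lit 1) (nat_lit 376) (nat_lit 1) (nat_lit 375) (nat_lit 1) (nat_lit 391) (nat_lit 316) (nat_lit 313)) (XT.nd (nat_lit 78) (nat_lit 0) (nat_lit 0) (XT.lf (nat_lit 1292) (nat_lit 309009568) (nat_lit 0) (nat_lit 1264841047) (nat_lit 1216) (nat_lit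 309009568) (nat_lit 393) (nat_lit 1) (nat_lit 376) (nat_lit 1) (nat_lit 392) (nat_lit 1) (nat_lit 392) (nat_lit 316) (nat_lit 312)) (XT.lf (nat_lit 1292) (nat_lit 566292662) (nat_lit 76) (nat_lit 644753216) (nat_lit 0) (nat_lit 644753216) (nat_lit 393) (nat_lit 1) (nat_lit 377) (nat_lit 1) (nat_lit 376) (nat_lit 1) (nat_lit 393) (nat_lit 316) (nat_lit 311)))))) (XT.nd (nat_lit 390) (nat_lit 0) (nat_lit 0) (XT.nd (nat_lit 156) (nat_lit 0) (nat_lit 76) (XT.nd (nat_lit 78) (nat_lit 0) (nat_lit 0) (XT.lf (nat_lit 1292) (nat_lit 188976808) (nat_lit 0) (nat_lit 650168106) (nat_lit 1292) (nat_lit 188976808) (nat_lit 391) (nat_lit 1) (nat_lit 374) (nat_lit 0) (nat_lit 391) (nat_lit 0) (nat_lit 386) (nat_lit 317) (nat_lit 317)) (XT.lf (nat_lit 1292) (nat_lit 738524677) (nat_lit 76) (nat_lit 643793909) (nat_lit 0) (nat_lit 643793909) (nat_lit 391) (nat_lit 1) (nat_lit 375) (nat_lit 1) (nat_lit 374) (nat_lit 0)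 (nat_lit 387) (nat_lit 317) (nat_lit 316))) (XT.nd (nat_lit 78) (nat_lit 0) (nat_lit 0) (XT.lf (nat_lit 1292) (nat_lit 357168142) (nat_lit 0) (nat_lit 1282309888) (nat_lit 1216) (nat_lit 357168142) (nat_lit 392) (nat_lit 1) (nat_lit 375) (nat_lit 1) (nat_lit 391) (nat_lit 1) (nat_lit 388) (nat_lit 317) (nat_lit 315)) (XT.nd (nat_lit 78) (nat_lit 0) (nat_lit 76) (XT.lf (nat_lit 1292) (nat_lit 678280743) (nat_lit 76) (nat_lit 644695592) (nat_lit 0) (nat_lit 644695592) (nat_lit 392) (nat_lit 1) (nat_lit 376) (nat_lit 1) (nat_lit 375) (nat_lit 1) (nat_lit 389) (nat_lit 317) (nat_lit 314)) (XT.lf (nat_lit 1292) (nat_lit 318279856) (nat_lit 0) (nat_lit 1302786278) (nat_lit 1216) (nat_lit 318279856) (nat_lit 393) (nat_lit 1) (nat_lit 376) (nat_lit 1) (nat_lit 392) (nat_lit 1) (nat_lit 390) (nat_lit 317) (nat_lit 313))))) (XT.nd (nat_lit 234) (nat_lit 152) (nat_lit 0) (XT.nd (nat_lit 78) (nat_lit 0) (nat_lit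 76) (XT.lf (nat_lit 1292) (nat_lit 583281441) (nat_lit 76) (nat_lit 664095813) (nat_lit 0) (nat_lit 664095813) (nat_lit 393) (nat_lit 1) (nat_lit 377) (nat_lit 1) (nat_lit 376) (nat_lit 1) (nat_lit 391) (nat_lit 317) (nat_lit 312)) (XT.nd (nat_lit 78) (nat_lit 0) (nat_lit 0) (XT.lf (nat_lit 1292) (nat_lit 262889951) (nat_lit 0) (nat_lit 1358463871) (nat_lit 1216) (nat_lit 262889951) (nat_lit 394) (nat_lit 1) (nat_lit 377) (nat_lit 1) (nat_lit 393) (nat_lit 1) (nat_lit 392) (nat_lit 317) (nat_lit 311)) (XT.lf (nat_lit 1292) (nat_lit 456634891) (nat_lit 76) (nat_lit 700392381) (nat_lit 0) (nat_lit 700392381) (nat_lit 394) (nat_lit 1) (nat_lit 378) (nat_lit 1) (nat_lit 377) (nat_lit 1) (nat_lit 393) (nat_lit 317) (nat_lit 310)))) (XT.nd (nat_lit 52338) (nat_lit 304) (nat_lit 0) (XT.lf (nat_lit 1292) (nat_lit 192491337) (nat_lit 0) (nat_lit 1446262459) (nat_lit 1216) (nat_lit 192491337) (nat_lit 395) (nat_lit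 1) (nat_lit 378) (nat_lit 1) (nat_lit 394) (nat_lit 1) (nat_lit 394) (nat_lit 317) (nat_lit 309)) (XT.nd (nat_lit 78) (nat_lit 0) (nat_lit 0) (XT.lf (nat_lit 1292) (nat_lit 194646112) (nat_lit 0) (nat_lit 669673150) (nat_lit 1292) (nat_lit 194646112) (nat_lit 391) (nat_lit 1) (nat_lit 374) (nat_lit 0) (nat_lit 391) (nat_lit 0) (nat_lit 384) (nat_lit 318) (nat_lit 318)) (XT.lf (nat_lit 1292) (nat_lit 760680417) (nat_lit 76) (nat_lit 663107727) (nat_lit 0) (nat_lit 663107727) (nat_lit 391) (nat_lit 1) (nat_lit 375) (nat_lit 1) (nat_lit 374) (nat_lit 0) (nat_lit 385) (nat_lit 318) (nat_lit 317))))))) (XT.nd (nat_lit 52962) (nat_lit 0) (nat_lit 76) (XT.nd (nat_lit 390) (nat_lit 76) (nat_lit 0) (XT.nd (nat_lit 156) (nat_lit 0) (nat_lit 76) (XT.nd (nat_lit 78) (nat_lit 0) (nat_lit 0) (XT.lf (nat_lit 1292) (nat_lit 367883186) (nat_lit 0) (nat_lit 1320779185) (nat_lit 1216) (nat_lit 367883186) (nat_lit 392)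 (nat_lit 1) (nat_lit 375) (nat_lit 1) (nat_lit 391) (nat_lit 1) (nat_lit 386) (nat_lit 318) (nat_lit 316)) (XT.lf (nat_lit 1292) (nat_lit 698629165) (nat_lit 76) (nat_lit 664036460) (nat_lit 0) (nat_lit 664036460) (nat_lit 392) (nat_lit 1) (nat_lit 376) (nat_lit 1) (nat_lit 375) (nat_lit 1) (nat_lit 387) (nat_lit 318) (nat_lit 315))) (XT.nd (nat_lit 78) (nat_lit 0) (nat_lit 0) (XT.lf (nat_lit 1292) (nat_lit 327828251) (nat_lit 0) (nat_lit 1341869866) (nat_lit 1216) (nat_lit 327828251) (nat_lit 393) (nat_lit 1) (nat_lit 376) (nat_lit 1) (nat_lit 392) (nat_lit 1) (nat_lit 388) (nat_lit 318) (nat_lit 314)) (XT.nd (nat_lit 78) (nat_lit 0) (nat_lit 76) (XT.lf (nat_lit 1292) (nat_lit 600779885) (nat_lit 76) (nat_lit 684018687) (nat_lit 0) (nat_lit 684018687) (nat_lit 393) (nat_lit 1) (nat_lit 377) (nat_lit 1) (nat_lit 376) (nat_lit 1) (nat_lit 389) (nat_lit 318) (nat_lit 313)) (XT.lf (nat_lit 1292) (nat_lit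 270776649) (nat_lit 0) (nat_lit 1399217787) (nat_lit 1216) (nat_lit 270776649) (nat_lit 394) (nat_lit 1) (nat_lit 377) (nat_lit 1) (nat_lit 393) (nat_lit 1) (nat_lit 390) (nat_lit 318) (nat_lit 312))))) (XT.nd (nat_lit 234) (nat_lit 228) (nat_lit 0) (XT.nd (nat_lit 78) (nat_lit 0) (nat_lit 76) (XT.lf (nat_lit 1292) (nat_lit 470333938) (nat_lit 76) (nat_lit 721404152) (nat_lit 0) (nat_lit 721404152) (nat_lit 394) (nat_lit 1) (nat_lit 378) (nat_lit 1) (nat_lit 377) (nat_lit 1) (nat_lit 391) (nat_lit 318) (nat_lit 311)) (XT.nd (nat_lit 78) (nat_lit 0) (nat_lit 0) (XT.lf (nat_lit 1292) (nat_lit 198266078) (nat_lit 0) (nat_lit 1489650333) (nat_lit 1216) (nat_lit 198266078) (nat_lit 395) (nat_lit 1) (nat_lit 378) (nat_lit 1) (nat_lit 394) (nat_lit 1) (nat_lit 392) (nat_lit 318) (nat_lit 310)) (XT.lf (nat_lit 1292) (nat_lit 310275525) (nat_lit 76) (nat_lit 774653537) (nat_lit 0) (nat_lit 774653537) (nat_lit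 395) (nat_lit 1) (nat_lit 379) (nat_lit 1) (nat_lit 378) (nat_lit 1) (nat_lit 393) (nat_lit 318) (nat_lit 309)))) (XT.nd (nat_lit 52182) (nat_lit 380) (nat_lit 0) (XT.lf (nat_lit 1292) (nat_lit 111729594) (nat_lit 0) (nat_lit 1610208799) (nat_lit 1216) (nat_lit 111729594) (nat_lit 396) (nat_lit 1) (nat_lit 379) (nat_lit 1) (nat_lit 395) (nat_lit 1) (nat_lit 394) (nat_lit 318) (nat_lit 308)) (XT.nd (nat_lit 78) (nat_lit 0) (nat_lit 0) (XT.lf (nat_lit 1292) (nat_lit 200485495) (nat_lit 0) (nat_lit 689763344) (nat_lit 1292) (nat_lit 200485495) (nat_lit 391) (nat_lit 1) (nat_lit 374) (nat_lit 0) (nat_lit 391) (nat_lit 0) (nat_lit 382) (nat_lit 319) (nat_lit 319)) (XT.lf (nat_lit 1292) (nat_lit 783500830) (nat_lit 76) (nat_lit 683000958) (nat_lit 0) (nat_lit 683000958) (nat_lit 391) (nat_lit 1) (nat_lit 375) (nat_lit 1) (nat_lit 374) (nat_lit 0) (nat_lit 383) (nat_lit 319) (nat_lit 318)))))) (XT.nd (nat_lit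 390) (nat_lit 0) (nat_lit 152) (XT.nd (nat_lit 156) (nat_lit 0) (nat_lit 76) (XT.nd (nat_lit 78) (nat_lit 0) (nat_lit 0) (XT.lf (nat_lit 1292) (nat_lit 378919682) (nat_lit 0) (nat_lit 1360402560) (nat_lit 1216) (nat_lit 378919682) (nat_lit 392) (nat_lit 1) (nat_lit 375) (nat_lit 1) (nat_lit 391) (nat_lit 1) (nat_lit 384) (nat_lit 319) (nat_lit 317)) (XT.lf (nat_lit 1292) (nat_lit 719588040) (nat_lit 76) (nat_lit 683957553) (nat_lit 0) (nat_lit 683957553) (nat_lit 392) (nat_lit 1) (nat_lit 376) (nat_lit 1) (nat_lit 375) (nat_lit 1) (nat_lit 385) (nat_lit 319) (nat_lit 316))) (XT.nd (nat_lit 78) (nat_lit 0) (nat_lit 0) (XT.lf (nat_lit 1292) (nat_lit 337663099) (nat_lit 0) (nat_lit 1382125962) (nat_lit 1216) (nat_lit 337663099) (nat_lit 393) (nat_lit 1) (nat_lit 376) (nat_lit 1) (nat_lit 392) (nat_lit 1) (nat_lit 386) (nat_lit 319) (nat_lit 315)) (XT.nd (nat_lit 78) (nat_lit 0) (nat_lit 76) (XT.lf (nat_lit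 1292) (nat_lit 618803281) (nat_lit 76) (nat_lit 704539248) (nat_lit 0) (nat_lit 704539248) (nat_lit 393) (nat_lit 1) (nat_lit 377) (nat_lit 1) (nat_lit 376) (nat_lit 1) (nat_lit 387) (nat_lit 319) (nat_lit 314)) (XT.lf (nat_lit 1292) (nat_lit 278899949) (nat_lit 0) (nat_lit 1441194320) (nat_lit 1216) (nat_lit 278899949) (nat_lit 394) (nat_lit 1) (nat_lit 377) (nat_lit 1) (nat_lit 393) (nat_lit 1) (nat_lit 388) (nat_lit 319) (nat_lit 313))))) (XT.nd (nat_lit 234) (nat_lit 0) (nat_lit 152) (XT.nd (nat_lit 78) (nat_lit 0) (nat_lit 76) (XT.lf (nat_lit 1292) (nat_lit 484443956) (nat_lit 76) (nat_lit 743046277) (nat_lit 0) (nat_lit 743046277) (nat_lit 394) (nat_lit 1) (nat_lit 378) (nat_lit 1) (nat_lit 377) (nat_lit 1) (nat_lit 389) (nat_lit 319) (nat_lit 312)) (XT.nd (nat_lit 78) (nat_lit 0) (nat_lit 0) (XT.lf (nat_lit 1292) (nat_lit 204214060) (nat_lit 0) (nat_lit 1534339843) (nat_lit 1216) (nat_lit 204214060)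 (nat_lit 395) (nat_lit 1) (nat_lit 378) (nat_lit 1) (nat_lit 394) (nat_lit 1) (nat_lit 390) (nat_lit 319) (nat_lit 311)) (XT.lf (nat_lit 1292) (nat_lit 319583791) (nat_lit 76) (nat_lit 797893143) (nat_lit 0) (nat_lit 797893143) (nat_lit 395) (nat_lit 1) (nat_lit 379) (nat_lit 1) (nat_lit 378) (nat_lit 1) (nat_lit 391) (nat_lit 319) (nat_lit 310)))) (XT.nd (nat_lit 78) (nat_lit 0) (nat_lit 0) (XT.lf (nat_lit 1292) (nat_lit 115081482) (nat_lit 0) (nat_lit 1658515063) (nat_lit 1216) (nat_lit 115081482) (nat_lit 396) (nat_lit 1) (nat_lit 379) (nat_lit 1) (nat_lit 395) (nat_lit 1) (nat_lit 392) (nat_lit 319) (nat_lit 309)) (XT.nd (nat_lit 78) (nat_lit 0) (nat_lit 76) (XT.lf (nat_lit 1292) (nat_lit 127086675) (nat_lit 76) (nat_lit 867601574) (nat_lit 0) (nat_lit 867601574) (nat_lit 396) (nat_lit 1) (nat_lit 380) (nat_lit 1) (nat_lit 379) (nat_lit 1) (nat_lit 393) (nat_lit 319) (nat_lit 308)) (XT.lf (nat_lit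 1292) (nat_lit 12877162) (nat_lit 0) (nat_lit 1810879235) (nat_lit 1216) (nat_lit 12877162) (nat_lit 397) (nat_lit 1) (nat_lit 380) (nat_lit 1) (nat_lit 396) (nat_lit 1) (nat_lit 394) (nat_lit 319) (nat_lit 307))))))))
noncomputable def ec1 : XT := (XT.nd (nat_lit 53508) (nat_lit 0) (nat_lit 0) (XT.nd (nat_lit 858) (nat_lit 836) (nat_lit 0) (XT.nd (nat_lit 390) (nat_lit 0) (nat_lit 152) (XT.nd (nat_lit 156) (nat_lit 0) (nat_lit 76) (XT.nd (nat_lit 78) (nat_lit 0) (nat_lit 0) (XT.lf (nat_lit 1292) (nat_lit 206500060) (nat_lit 0) (nat_lit 710456244) (nat_lit 1292) (nat_lit 206500060) (nat_lit 391) (nat_lit 1) (nat_lit 374) (nat_lit 0) (nat_lit 391) (nat_lit 0) (nat_lit 380) (nat_lit 320) (nat_lit 320)) (XT.lf (nat_lit 1292) (nat_lit 807005855) (nat_lit 76) (nat_lit 703490987) (nat_lit 0) (nat_lit 703490987) (nat_lit 391) (nat_lit 1) (nat_lit 375) (nat_lit 1) (nat_lit 374) (nat_lit 0) (nat_lit 381) (nat_lit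 320) (nat_lit 319))) (XT.nd (nat_lit 78) (nat_lit 0) (nat_lit 0) (XT.lf (nat_lit 1292) (nat_lit 390287272) (nat_lit 0) (nat_lit 1401214637) (nat_lit 1216) (nat_lit 390287272) (nat_lit 392) (nat_lit 1) (nat_lit 375) (nat_lit 1) (nat_lit 391) (nat_lit 1) (nat_lit 382) (nat_lit 320) (nat_lit 318)) (XT.nd (nat_lit 78) (nat_lit 0) (nat_lit 76) (XT.lf (nat_lit 1292) (nat_lit 741175681) (nat_lit 76) (nat_lit 704476280) (nat_lit 0) (nat_lit 704476280) (nat_lit 392) (nat_lit 1) (nat_lit 376) (nat_lit 1) (nat_lit 375) (nat_lit 1) (nat_lit 383) (nat_lit 320) (nat_lit 317)) (XT.lf (nat_lit 1292) (nat_lit 347792992) (nat_lit 0) (nat_lit 1423589741) (nat_lit 1216) (nat_lit 347792992) (nat_lit 393) (nat_lit 1) (nat_lit 376) (nat_lit 1) (nat_lit 392) (nat_lit 1) (nat_lit 384) (nat_lit 320) (nat_lit 316))))) (XT.nd (nat_lit 234) (nat_lit 0) (nat_lit 152) (XT.nd (nat_lit 78) (nat_lit 0) (nat_lit 76) (XT.lf (nat_lit 1292)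 (nat_lit 637367380) (nat_lit 76) (nat_lit 725675425) (nat_lit 0) (nat_lit 725675425) (nat_lit 393) (nat_lit 1) (nat_lit 377) (nat_lit 1) (nat_lit 376) (nat_lit 1) (nat_lit 385) (nat_lit 320) (nat_lit 315)) (XT.nd (nat_lit 78) (nat_lit 0) (nat_lit 0) (XT.lf (nat_lit 1292) (nat_lit 287266947) (nat_lit 0) (nat_lit 1484430150) (nat_lit 1216) (nat_lit 287266947) (nat_lit 394) (nat_lit 1) (nat_lit 377) (nat_lit 1) (nat_lit 393) (nat_lit 1) (nat_lit 386) (nat_lit 320) (nat_lit 314)) (XT.lf (nat_lit 1292) (nat_lit 498977275) (nat_lit 76) (nat_lit 765337665) (nat_lit 0) (nat_lit 765337665) (nat_lit 394) (nat_lit 1) (nat_lit 378) (nat_lit 1) (nat_lit 377) (nat_lit 1) (nat_lit 387) (nat_lit 320) (nat_lit 313)))) (XT.nd (nat_lit 78) (nat_lit 0) (nat_lit 0) (XT.lf (nat_lit 1292) (nat_lit 210340482) (nat_lit 0) (nat_lit 1580370038) (nat_lit 1216) (nat_lit 210340482) (nat_lit 395) (nat_lit 1) (nat_lit 378) (nat_lit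 1) (nat_lit 394) (nat_lit 1) (nat_lit 388) (nat_lit 320) (nat_lit 312)) (XT.nd (nat_lit 78) (nat_lit 0) (nat_lit 76) (XT.lf (nat_lit 1292) (nat_lit 329171304) (nat_lit 76) (nat_lit 821829937) (nat_lit 0) (nat_lit 821829937) (nat_lit 395) (nat_lit 1) (nat_lit 379) (nat_lit 1) (nat_lit 378) (nat_lit 1) (nat_lit 389) (nat_lit 320) (nat_lit 311)) (XT.lf (nat_lit 1292) (nat_lit 118533926) (nat_lit 0) (nat_lit 1708270515) (nat_lit 1216) (nat_lit 118533926) (nat_lit 396) (nat_lit 1) (nat_lit 379) (nat_lit 1) (nat_lit 395) (nat_lit 1) (nat_lit 390) (nat_lit 320) (nat_lit 310)))))) (XT.nd (nat_lit 52182) (nat_lit 0) (nat_lit 836) (XT.nd (nat_lit 156) (nat_lit 1216) (nat_lit 0) (XT.nd (nat_lit 78) (nat_lit 0) (nat_lit 76) (XT.lf (nat_lit 1292) (nat_lit 130899276) (nat_lit 76) (nat_lit 893629621) (nat_lit 0) (nat_lit 893629621) (nat_lit 396) (nat_lit 1) (nat_lit 380) (nat_lit 1) (nat_lit 379) (nat_lit 1) (nat_lit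 391) (nat_lit 320) (nat_lit 309)) (XT.lf (nat_lit 1292) (nat_lit 13263477) (nat_lit 0) (nat_lit 1865205612) (nat_lit 1216) (nat_lit 13263477) (nat_lit 397) (nat_lit 1) (nat_lit 380) (nat_lit 1) (nat_lit 396) (nat_lit 1) (nat_lit 392) (nat_lit 320) (nat_lit 308))) (XT.nd (nat_lit 78) (nat_lit 0) (nat_lit 0) (XT.lf (nat_lit 1368) (nat_lit 887120838) (nat_lit 0) (nat_lit 91275169) (nat_lit 1292) (nat_lit 887120838) (nat_lit 381) (nat_lit 1) (nat_lit 363) (nat_lit 1) (nat_lit 380) (nat_lit 1) (nat_lit 393) (nat_lit 320) (nat_lit 307)) (XT.nd (nat_lit 51870) (nat_lit 0) (nat_lit 836) (XT.lf (nat_lit 1368) (nat_lit 1633761235) (nat_lit 76) (nat_lit 103131231) (nat_lit 0) (nat_lit 103131231) (nat_lit 381) (nat_lit 1) (nat_lit 364) (nat_lit 1) (nat_lit 363) (nat_lit 1) (nat_lit 394) (nat_lit 320) (nat_lit 306)) (XT.lf (nat_lit 1292) (nat_lit 212695062) (nat_lit 0) (nat_lit 731769932) (nat_lit 1292) (nat_lit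 212695062) (nat_lit 391) (nat_lit 1) (nat_lit 374) (nat_lit 0) (nat_lit 391) (nat_lit 0) (nat_lit 378) (nat_lit 321) (nat_lit 321))))) (XT.nd (nat_lit 234) (nat_lit 0) (nat_lit 152) (XT.nd (nat_lit 78) (nat_lit 0) (nat_lit 76) (XT.lf (nat_lit 1292) (nat_lit 831216030) (nat_lit 76) (nat_lit 724595717) (nat_lit 0) (nat_lit 724595717) (nat_lit 391) (nat_lit 1) (nat_lit 375) (nat_lit 1) (nat_lit 374) (nat_lit 0) (nat_lit 379) (nat_lit 321) (nat_lit 320)) (XT.nd (nat_lit 78) (nat_lit 0) (nat_lit 0) (XT.lf (nat_lit 1292) (nat_lit 401995890) (nat_lit 0) (nat_lit 1443251076) (nat_lit 1216) (nat_lit 401995890) (nat_lit 392) (nat_lit 1) (nat_lit 375) (nat_lit 1) (nat_lit 391) (nat_lit 1) (nat_lit 380) (nat_lit 321) (nat_lit 319)) (XT.lf (nat_lit 1292) (nat_lit 763410952) (nat_lit 76) (nat_lit 725610568) (nat_lit 0) (nat_lit 725610568) (nat_lit 392) (nat_lit 1) (nat_lit 376) (nat_lit 1) (nat_lit 375) (nat_lit 1)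 (nat_lit 381) (nat_lit 321) (nat_lit 318)))) (XT.nd (nat_lit 78) (nat_lit 0) (nat_lit 0) (XT.lf (nat_lit 1292) (nat_lit 358226781) (nat_lit 0) (nat_lit 1466297434) (nat_lit 1216) (nat_lit 358226781) (nat_lit 393) (nat_lit 1) (nat_lit 376) (nat_lit 1) (nat_lit 392) (nat_lit 1) (nat_lit 382) (nat_lit 321) (nat_lit 317)) (XT.nd (nat_lit 78) (nat_lit 0) (nat_lit 76) (XT.lf (nat_lit 1292) (nat_lit 656488401) (nat_lit 76) (nat_lit 747445688) (nat_lit 0) (nat_lit 747445688) (nat_lit 393) (nat_lit 1) (nat_lit 377) (nat_lit 1) (nat_lit 376) (nat_lit 1) (nat_lit 383) (nat_lit 321) (nat_lit 316)) (XT.lf (nat_lit 1292) (nat_lit 295884956) (nat_lit 0) (nat_lit 1528963055) (nat_lit 1216) (nat_lit 295884956) (nat_lit 394) (nat_lit 1) (nat_lit 377) (nat_lit 1) (nat_lit 393) (nat_lit 1) (nat_lit 384) (nat_lit 321) (nat_lit 315))))))) (XT.nd (nat_lit 52494) (nat_lit 0) (nat_lit 836) (XT.nd (nat_lit 390) (nat_lit 1064)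 (nat_lit 0) (XT.nd (nat_lit 156) (nat_lit 0) (nat_lit 76) (XT.nd (nat_lit 78) (nat_lit 0) (nat_lit 76) (XT.lf (nat_lit 1292) (nat_lit 513946593) (nat_lit 76) (nat_lit 788297795) (nat_lit 0) (nat_lit 788297795) (nat_lit 394) (nat_lit 1) (nat_lit 378) (nat_lit 1) (nat_lit 377) (nat_lit 1) (nat_lit 385) (nat_lit 321) (nat_lit 314)) (XT.lf (nat_lit 1292) (nat_lit 216650696) (nat_lit 0) (nat_lit 1627781140) (nat_lit 1216) (nat_lit 216650696) (nat_lit 395) (nat_lit 1) (nat_lit 378) (nat_lit 1) (nat_lit 394) (nat_lit 1) (nat_lit 386) (nat_lit 321) (nat_lit 313))) (XT.nd (nat_lit 78) (nat_lit 0) (nat_lit 76) (XT.lf (nat_lit 1292) (nat_lit 339046443) (nat_lit 76) (nat_lit 846484836) (nat_lit 0) (nat_lit 846484836) (nat_lit 395) (nat_lit 1) (nat_lit 379) (nat_lit 1) (nat_lit 378) (nat_lit 1) (nat_lit 387) (nat_lit 321) (nat_lit 312)) (XT.nd (nat_lit 78) (nat_lit 0) (nat_lit 0) (XT.lf (nat_lit 1292) (nat_lit 122089944)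 (nat_lit 0) (nat_lit 1759518630) (nat_lit 1216) (nat_lit 122089944) (nat_lit 396) (nat_lit 1) (nat_lit 379) (nat_lit 1) (nat_lit 395) (nat_lit 1) (nat_lit 388) (nat_lit 321) (nat_lit 311)) (XT.lf (nat_lit 1292) (nat_lit 134826254) (nat_lit 76) (nat_lit 920438510) (nat_lit 0) (nat_lit 920438510) (nat_lit 396) (nat_lit 1) (nat_lit 380) (nat_lit 1) (nat_lit 379) (nat_lit 1) (nat_lit 389) (nat_lit 321) (nat_lit 310))))) (XT.nd (nat_lit 234) (nat_lit 0) (nat_lit 76) (XT.nd (nat_lit 78) (nat_lit 1292) (nat_lit 0) (XT.lf (nat_lit 1292) (nat_lit 13661382) (nat_lit 0) (nat_lit 1921161780) (nat_lit 1216) (nat_lit 13661382) (nat_lit 397) (nat_lit 1) (nat_lit 380) (nat_lit 1) (nat_lit 396) (nat_lit 1) (nat_lit 390) (nat_lit 321) (nat_lit 309)) (XT.nd (nat_lit 78) (nat_lit 0) (nat_lit 0) (XT.lf (nat_lit 1368) (nat_lit 913734463) (nat_lit 0) (nat_lit 94013424) (nat_lit 1292) (nat_lit 913734463) (nat_lit 381) (nat_lit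 1) (nat_lit 363) (nat_lit 1) (nat_lit 380) (nat_lit 1) (nat_lit 391) (nat_lit 321) (nat_lit 308)) (XT.lf (nat_lit 1368) (nat_lit 1682774073) (nat_lit 76) (nat_lit 106225168) (nat_lit 0) (nat_lit 106225168) (nat_lit 381) (nat_lit 1) (nat_lit 364) (nat_lit 1) (nat_lit 363) (nat_lit 1) (nat_lit 392) (nat_lit 321) (nat_lit 307)))) (XT.nd (nat_lit 78) (nat_lit 0) (nat_lit 0) (XT.lf (nat_lit 1368) (nat_lit 762816251) (nat_lit 0) (nat_lit 343613482) (nat_lit 1292) (nat_lit 762816251) (nat_lit 382) (nat_lit 1) (nat_lit 364) (nat_lit 1) (nat_lit 381) (nat_lit 1) (nat_lit 393) (nat_lit 321) (nat_lit 306)) (XT.nd (nat_lit 51714) (nat_lit 0) (nat_lit 760) (XT.lf (nat_lit 1368) (nat_lit 1369699110) (nat_lit 76) (nat_lit 237113491) (nat_lit 0) (nat_lit 237113491) (nat_lit 382) (nat_lit 1) (nat_lit 365) (nat_lit 1) (nat_lit 364) (nat_lit 1) (nat_lit 394) (nat_lit 321) (nat_lit 305)) (XT.lf (nat_lit 1292) (nat_lit 219075914)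 (nat_lit 0) (nat_lit 753723030) (nat_lit 1292) (nat_lit 219075914) (nat_lit 391) (nat_lit 1) (nat_lit 374) (nat_lit 0) (nat_lit 391) (nat_lit 0) (nat_lit 376) (nat_lit 322) (nat_lit 322)))))) (XT.nd (nat_lit 390) (nat_lit 0) (nat_lit 228) (XT.nd (nat_lit 156) (nat_lit 0) (nat_lit 76) (XT.nd (nat_lit 78) (nat_lit 0) (nat_lit 76) (XT.lf (nat_lit 1292) (nat_lit 856152511) (nat_lit 76) (nat_lit 746333588) (nat_lit 0) (nat_lit 746333588) (nat_lit 391) (nat_lit 1) (nat_lit 375) (nat_lit 1) (nat_lit 374) (nat_lit 0) (nat_lit 377) (nat_lit 322) (nat_lit 321)) (XT.lf (nat_lit 1292) (nat_lit 414055767) (nat_lit 0) (nat_lit 1486548609) (nat_lit 1216) (nat_lit 414055767) (nat_lit 392) (nat_lit 1) (nat_lit 375) (nat_lit 1) (nat_lit 391) (nat_lit 1) (nat_lit 378) (nat_lit 322) (nat_lit 320))) (XT.nd (nat_lit 78) (nat_lit 0) (nat_lit 76) (XT.lf (nat_lit 1292) (nat_lit 786313280) (nat_lit 76) (nat_lit 747378885) (nat_lit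 0) (nat_lit 747378885) (nat_lit 392) (nat_lit 1) (nat_lit 376) (nat_lit 1) (nat_lit 375) (nat_lit 1) (nat_lit 379) (nat_lit 322) (nat_lit 319)) (XT.nd (nat_lit 78) (nat_lit 0) (nat_lit 0) (XT.lf (nat_lit 1292) (nat_lit 368973585) (nat_lit 0) (nat_lit 1510286357) (nat_lit 1216) (nat_lit 368973585) (nat_lit 393) (nat_lit 1) (nat_lit 376) (nat_lit 1) (nat_lit 392) (nat_lit 1) (nat_lit 380) (nat_lit 322) (nat_lit 318)) (XT.lf (nat_lit 1292) (nat_lit 676183053) (nat_lit 76) (nat_lit 769869059) (nat_lit 0) (nat_lit 769869059) (nat_lit 393) (nat_lit 1) (nat_lit 377) (nat_lit 1) (nat_lit 376) (nat_lit 1) (nat_lit 381) (nat_lit 322) (nat_lit 317))))) (XT.nd (nat_lit 234) (nat_lit 0) (nat_lit 76) (XT.nd (nat_lit 78) (nat_lit 0) (nat_lit 0) (XT.lf (nat_lit 1292) (nat_lit 304761504) (nat_lit 0) (nat_lit 1574831946) (nat_lit 1216) (nat_lit 304761504) (nat_lit 394) (nat_lit 1) (nat_lit 377) (nat_lit 1) (nat_lit 393)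 (nat_lit 1) (nat_lit 382) (nat_lit 322) (nat_lit 316)) (XT.nd (nat_lit 78) (nat_lit 0) (nat_lit 76) (XT.lf (nat_lit 1292) (nat_lit 529364991) (nat_lit 76) (nat_lit 811946729) (nat_lit 0) (nat_lit 811946729) (nat_lit 394) (nat_lit 1) (nat_lit 378) (nat_lit 1) (nat_lit 377) (nat_lit 1) (nat_lit 383) (nat_lit 322) (nat_lit 315)) (XT.lf (nat_lit 1292) (nat_lit 223150217) (nat_lit 0) (nat_lit 1676614574) (nat_lit 1216) (nat_lit 223150217) (nat_lit 395) (nat_lit 1) (nat_lit 378) (nat_lit 1) (nat_lit 394) (nat_lit 1) (nat_lit 384) (nat_lit 322) (nat_lit 314)))) (XT.nd (nat_lit 78) (nat_lit 0) (nat_lit 76) (XT.lf (nat_lit 1292) (nat_lit 349217837) (nat_lit 76) (nat_lit 871879381) (nat_lit 0) (nat_lit 871879381) (nat_lit 395) (nat_lit 1) (nat_lit 379) (nat_lit 1) (nat_lit 378) (nat_lit 1) (nat_lit 385) (nat_lit 322) (nat_lit 313)) (XT.nd (nat_lit 78) (nat_lit 0) (nat_lit 0) (XT.lf (nat_lit 1292) (nat_lit 125752642)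 (nat_lit 0) (nat_lit 1812304189) (nat_lit 1216) (nat_lit 125752642) (nat_lit 396) (nat_lit 1) (nat_lit 379) (nat_lit 1) (nat_lit 395) (nat_lit 1) (nat_lit 386) (nat_lit 322) (nat_lit 312)) (XT.lf (nat_lit 1292) (nat_lit 138871042) (nat_lit 76) (nat_lit 948051665) (nat_lit 0) (nat_lit 948051665) (nat_lit 396) (nat_lit 1) (nat_lit 380) (nat_lit 1) (nat_lit 379) (nat_lit 1) (nat_lit 387) (nat_lit 322) (nat_lit 311))))))))
noncomputable def ec2 : XT := (XT.nd (nat_lit 53274) (nat_lit 684) (nat_lit 0) (XT.nd (nat_lit 52416) (nat_lit 0) (nat_lit 0) (XT.nd (nat_lit 390) (nat_lit 0) (nat_lit 152) (XT.nd (nat_lit 156) (nat_lit 0) (nat_lit 0) (XT.nd (nat_lit 78) (nat_lit 1292) (nat_lit 0) (XT.lf (nat_lit 1292) (nat_lit 14071223) (nat_lit 0) (nat_lit 1978796634) (nat_lit 1216) (nat_lit 14071223) (nat_lit 397) (nat_lit 1) (nat_lit 380) (nat_lit 1) (nat_lit 396) (nat_lit 1) (nat_lit 388) (nat_lit 322) (nat_lit 310))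 (XT.lf (nat_lit 1368) (nat_lit 941146497) (nat_lit 0) (nat_lit 96833827) (nat_lit 1292) (nat_lit 941146497) (nat_lit 381) (nat_lit 1) (nat_lit 363) (nat_lit 1) (nat_lit 380) (nat_lit 1) (nat_lit 389) (nat_lit 322) (nat_lit 309))) (XT.nd (nat_lit 78) (nat_lit 0) (nat_lit 76) (XT.lf (nat_lit 1368) (nat_lit 1733257295) (nat_lit 76) (nat_lit 109411923) (nat_lit 0) (nat_lit 109411923) (nat_lit 381) (nat_lit 1) (nat_lit 364) (nat_lit 1) (nat_lit 363) (nat_lit 1) (nat_lit 390) (nat_lit 322) (nat_lit 308)) (XT.nd (nat_lit 78) (nat_lit 0) (nat_lit 0) (XT.lf (nat_lit 1368) (nat_lit 785700738) (nat_lit 0) (nat_lit 353921886) (nat_lit 1292) (nat_lit 785700738) (nat_lit 382) (nat_lit 1) (nat_lit 364) (nat_lit 1) (nat_lit 381) (nat_lit 1) (nat_lit 391) (nat_lit 322) (nat_lit 307)) (XT.lf (nat_lit 1368) (nat_lit 1410790083) (nat_lit 76) (nat_lit 244226896) (nat_lit 0) (nat_lit 244226896) (nat_lit 382) (nat_lit 1) (nat_lit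 365) (nat_lit 1) (nat_lit 364) (nat_lit 1) (nat_lit 392) (nat_lit 322) (nat_lit 306))))) (XT.nd (nat_lit 51792) (nat_lit 0) (nat_lit 760) (XT.nd (nat_lit 51636) (nat_lit 0) (nat_lit 684) (XT.lf (nat_lit 76) (nat_lit 620444236) (nat_lit 0) (nat_lit 632628671) (nat_lit 1292) (nat_lit 620444236) (nat_lit 366) (nat_lit 1) (nat_lit 365) (nat_lit 1) (nat_lit 382) (nat_lit 1) (nat_lit 393) (nat_lit 322) (nat_lit 305)) (XT.nd (nat_lit 78) (nat_lit 0) (nat_lit 0) (XT.lf (nat_lit 1292) (nat_lit 225648191) (nat_lit 0) (nat_lit 776334721) (nat_lit 1292) (nat_lit 225648191) (nat_lit 391) (nat_lit 1) (nat_lit 374) (nat_lit 0) (nat_lit 391) (nat_lit 0) (nat_lit 374) (nat_lit 323) (nat_lit 323)) (XT.lf (nat_lit 1292) (nat_lit 881837086) (nat_lit 76) (nat_lit 768723596) (nat_lit 0) (nat_lit 768723596) (nat_lit 391) (nat_lit 1) (nat_lit 375) (nat_lit 1) (nat_lit 374) (nat_lit 0) (nat_lit 375) (nat_lit 323) (nat_lit 322))))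 (XT.nd (nat_lit 78) (nat_lit 0) (nat_lit 0) (XT.lf (nat_lit 1292) (nat_lit 426477440) (nat_lit 0) (nat_lit 1531145067) (nat_lit 1216) (nat_lit 426477440) (nat_lit 392) (nat_lit 1) (nat_lit 375) (nat_lit 1) (nat_lit 391) (nat_lit 1) (nat_lit 376) (nat_lit 323) (nat_lit 321)) (XT.nd (nat_lit 78) (nat_lit 0) (nat_lit 76) (XT.lf (nat_lit 1292) (nat_lit 809902679) (nat_lit 76) (nat_lit 769800252) (nat_lit 0) (nat_lit 769800252) (nat_lit 392) (nat_lit 1) (nat_lit 376) (nat_lit 1) (nat_lit 375) (nat_lit 1) (nat_lit 377) (nat_lit 323) (nat_lit 320)) (XT.lf (nat_lit 1292) (nat_lit 380042793) (nat_lit 0) (nat_lit 1555594947) (nat_lit 1216) (nat_lit 380042793) (nat_lit 393) (nat_lit 1) (nat_lit 376) (nat_lit 1) (nat_lit 392) (nat_lit 1) (nat_lit 378) (nat_lit 323) (nat_lit 319)))))) (XT.nd (nat_lit 390) (nat_lit 988) (nat_lit 0) (XT.nd (nat_lit 156) (nat_lit 0) (nat_lit 76) (XT.nd (nat_lit 78) (nat_lit 0) (nat_lit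 76) (XT.lf (nat_lit 1292) (nat_lit 696468545) (nat_lit 76) (nat_lit 792965131) (nat_lit 0) (nat_lit 792965131) (nat_lit 393) (nat_lit 1) (nat_lit 377) (nat_lit 1) (nat_lit 376) (nat_lit 1) (nat_lit 379) (nat_lit 323) (nat_lit 318)) (XT.lf (nat_lit 1292) (nat_lit 313904349) (nat_lit 0) (nat_lit 1622076905) (nat_lit 1216) (nat_lit 313904349) (nat_lit 394) (nat_lit 1) (nat_lit 377) (nat_lit 1) (nat_lit 393) (nat_lit 1) (nat_lit 380) (nat_lit 323) (nat_lit 317))) (XT.nd (nat_lit 78) (nat_lit 0) (nat_lit 76) (XT.lf (nat_lit 1292) (nat_lit 545245941) (nat_lit 76) (nat_lit 836305131) (nat_lit 0) (nat_lit 836305131) (nat_lit 394) (nat_lit 1) (nat_lit 378) (nat_lit 1) (nat_lit 377) (nat_lit 1) (nat_lit 381) (nat_lit 323) (nat_lit 316)) (XT.nd (nat_lit 78) (nat_lit 0) (nat_lit 0) (XT.lf (nat_lit 1292) (nat_lit 229844724) (nat_lit 0) (nat_lit 1726913011) (nat_lit 1216) (nat_lit 229844724) (nat_lit 395) (nat_lit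 1) (nat_lit 378) (nat_lit 1) (nat_lit 394) (nat_lit 1) (nat_lit 382) (nat_lit 323) (nat_lit 315)) (XT.lf (nat_lit 1292) (nat_lit 359694372) (nat_lit 76) (nat_lit 898035762) (nat_lit 0) (nat_lit 898035762) (nat_lit 395) (nat_lit 1) (nat_lit 379) (nat_lit 1) (nat_lit 378) (nat_lit 1) (nat_lit 383) (nat_lit 323) (nat_lit 314))))) (XT.nd (nat_lit 234) (nat_lit 1216) (nat_lit 0) (XT.nd (nat_lit 78) (nat_lit 0) (nat_lit 0) (XT.lf (nat_lit 1292) (nat_lit 129525221) (nat_lit 0) (nat_lit 1866673315) (nat_lit 1216) (nat_lit 129525221) (nat_lit 396) (nat_lit 1) (nat_lit 379) (nat_lit 1) (nat_lit 395) (nat_lit 1) (nat_lit 384) (nat_lit 323) (nat_lit 313)) (XT.nd (nat_lit 78) (nat_lit 0) (nat_lit 76) (XT.lf (nat_lit 1292) (nat_lit 143037173) (nat_lit 76) (nat_lit 976493215) (nat_lit 0) (nat_lit 976493215) (nat_lit 396) (nat_lit 1) (nat_lit 380) (nat_lit 1) (nat_lit 379) (nat_lit 1) (nat_lit 385) (nat_lit 323) (nat_lit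 312)) (XT.lf (nat_lit 1292) (nat_lit 14493360) (nat_lit 0) (nat_lit 2038160533) (nat_lit 1216) (nat_lit 14493360) (nat_lit 397) (nat_lit 1) (nat_lit 380) (nat_lit 1) (nat_lit 396) (nat_lit 1) (nat_lit 386) (nat_lit 323) (nat_lit 311)))) (XT.nd (nat_lit 78) (nat_lit 0) (nat_lit 0) (XT.lf (nat_lit 1368) (nat_lit 969380892) (nat_lit 0) (nat_lit 99738842) (nat_lit 1292) (nat_lit 969380892) (nat_lit 381) (nat_lit 1) (nat_lit 363) (nat_lit 1) (nat_lit 380) (nat_lit 1) (nat_lit 387) (nat_lit 323) (nat_lit 310)) (XT.nd (nat_lit 78) (nat_lit 0) (nat_lit 76) (XT.lf (nat_lit 1368) (nat_lit 1785255014) (nat_lit 76) (nat_lit 112694280) (nat_lit 0) (nat_lit 112694280) (nat_lit 381) (nat_lit 1) (nat_lit 364) (nat_lit 1) (nat_lit 363) (nat_lit 1) (nat_lit 388) (nat_lit 323) (nat_lit 309)) (XT.lf (nat_lit 1368) (nat_lit 809271760) (nat_lit 0) (nat_lit 364539543) (nat_lit 1292) (nat_lit 809271760) (nat_lit 382) (nat_lit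 1) (nat_lit 364) (nat_lit 1) (nat_lit 381) (nat_lit 1) (nat_lit 389) (nat_lit 323) (nat_lit 308))))))) (XT.nd (nat_lit 52260) (nat_lit 0) (nat_lit 684) (XT.nd (nat_lit 51792) (nat_lit 0) (nat_lit 1520) (XT.nd (nat_lit 156) (nat_lit 760) (nat_lit 0) (XT.nd (nat_lit 78) (nat_lit 0) (nat_lit 76) (XT.lf (nat_lit 1368) (nat_lit 1453113786) (nat_lit 76) (nat_lit 251553703) (nat_lit 0) (nat_lit 251553703) (nat_lit 382) (nat_lit 1) (nat_lit 365) (nat_lit 1) (nat_lit 364) (nat_lit 1) (nat_lit 390) (nat_lit 323) (nat_lit 307)) (XT.lf (nat_lit 76) (nat_lit 639057563) (nat_lit 0) (nat_lit 651607531) (nat_lit 1292) (nat_lit 639057563) (nat_lit 366) (nat_lit 1) (nat_lit 365) (nat_lit 1) (nat_lit 382) (nat_lit 1) (nat_lit 391) (nat_lit 323) (nat_lit 306))) (XT.nd (nat_lit 78) (nat_lit 0) (nat_lit 0) (XT.lf (nat_lit 912) (nat_lit 1101825208) (nat_lit 0) (nat_lit 400992325) (nat_lit 836) (nat_lit 400992325) (nat_lit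 366) (nat_lit 1) (nat_lit 354) (nat_lit 1) (nat_lit 365) (nat_lit 1) (nat_lit 392) (nat_lit 323) (nat_lit 305)) (XT.nd (nat_lit 51480) (nat_lit 0) (nat_lit 1520) (XT.lf (nat_lit 76) (nat_lit 459880393) (nat_lit 0) (nat_lit 958573273) (nat_lit 912) (nat_lit 459880393) (nat_lit 355) (nat_lit 1) (nat_lit 354) (nat_lit 1) (nat_lit 366) (nat_lit 1) (nat_lit 393) (nat_lit 323) (nat_lit 304)) (XT.lf (nat_lit 1292) (nat_lit 232417637) (nat_lit 0) (nat_lit 799624762) (nat_lit 1292) (nat_lit 232417637) (nat_lit 391) (nat_lit 1) (nat_lit 374) (nat_lit 0) (nat_lit 391) (nat_lit 0) (nat_lit 372) (nat_lit 324) (nat_lit 324))))) (XT.nd (nat_lit 234) (nat_lit 0) (nat_lit 152) (XT.nd (nat_lit 78) (nat_lit 0) (nat_lit 76) (XT.lf (nat_lit 1292) (nat_lit 908292199) (nat_lit 76) (nat_lit 791785304) (nat_lit 0) (nat_lit 791785304) (nat_lit 391) (nat_lit 1) (nat_lit 375) (nat_lit 1) (nat_lit 374) (nat_lit 0) (nat_lit 373)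 (nat_lit 324) (nat_lit 323)) (XT.nd (nat_lit 78) (nat_lit 0) (nat_lit 0) (XT.lf (nat_lit 1292) (nat_lit 439271763) (nat_lit 0) (nat_lit 1577079419) (nat_lit 1216) (nat_lit 439271763) (nat_lit 392) (nat_lit 1) (nat_lit 375) (nat_lit 1) (nat_lit 391) (nat_lit 1) (nat_lit 374) (nat_lit 324) (nat_lit 322)) (XT.lf (nat_lit 1292) (nat_lit 834199759) (nat_lit 76) (nat_lit 792894260) (nat_lit 0) (nat_lit 792894260) (nat_lit 392) (nat_lit 1) (nat_lit 376) (nat_lit 1) (nat_lit 375) (nat_lit 1) (nat_lit 375) (nat_lit 324) (nat_lit 321)))) (XT.nd (nat_lit 78) (nat_lit 0) (nat_lit 0) (XT.lf (nat_lit 1292) (nat_lit 391444076) (nat_lit 0) (nat_lit 1602262796) (nat_lit 1216) (nat_lit 391444076) (nat_lit 393) (nat_lit 1) (nat_lit 376) (nat_lit 1) (nat_lit 392) (nat_lit 1) (nat_lit 376) (nat_lit 324) (nat_lit 320)) (XT.nd (nat_lit 78) (nat_lit 0) (nat_lit 76) (XT.lf (nat_lit 1292) (nat_lit 717362601) (nat_lit 76) (nat_lit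 816754084) (nat_lit 0) (nat_lit 816754084) (nat_lit 393) (nat_lit 1) (nat_lit 377) (nat_lit 1) (nat_lit 376) (nat_lit 1) (nat_lit 377) (nat_lit 324) (nat_lit 319)) (XT.lf (nat_lit 1292) (nat_lit 323321480) (nat_lit 0) (nat_lit 1670739212) (nat_lit 1216) (nat_lit 323321480) (nat_lit 394) (nat_lit 1) (nat_lit 377) (nat_lit 1) (nat_lit 393) (nat_lit 1) (nat_lit 378) (nat_lit 324) (nat_lit 318)))))) (XT.nd (nat_lit 390) (nat_lit 1064) (nat_lit 0) (XT.nd (nat_lit 156) (nat_lit 0) (nat_lit 76) (XT.nd (nat_lit 78) (nat_lit 0) (nat_lit 76) (XT.lf (nat_lit 1292) (nat_lit 561603319) (nat_lit 76) (nat_lit 861394285) (nat_lit 0) (nat_lit 861394285) (nat_lit 394) (nat_lit 1) (nat_lit 378) (nat_lit 1) (nat_lit 377) (nat_lit 1) (nat_lit 379) (nat_lit 324) (nat_lit 317)) (XT.lf (nat_lit 1292) (nat_lit 236740065) (nat_lit 0) (nat_lit 1778720401) (nat_lit 1216) (nat_lit 236740065) (nat_lit 395) (nat_lit 1) (nat_lit 378)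 (nat_lit 1) (nat_lit 394) (nat_lit 1) (nat_lit 380) (nat_lit 324) (nat_lit 316))) (XT.nd (nat_lit 78) (nat_lit 0) (nat_lit 76) (XT.lf (nat_lit 1292) (nat_lit 370485203) (nat_lit 76) (nat_lit 924976835) (nat_lit 0) (nat_lit 924976835) (nat_lit 395) (nat_lit 1) (nat_lit 379) (nat_lit 1) (nat_lit 378) (nat_lit 1) (nat_lit 381) (nat_lit 324) (nat_lit 315)) (XT.nd (nat_lit 78) (nat_lit 0) (nat_lit 0) (XT.lf (nat_lit 1292) (nat_lit 133410978) (nat_lit 0) (nat_lit 1922673514) (nat_lit 1216) (nat_lit 133410978) (nat_lit 396) (nat_lit 1) (nat_lit 379) (nat_lit 1) (nat_lit 395) (nat_lit 1) (nat_lit 382) (nat_lit 324) (nat_lit 314)) (XT.lf (nat_lit 1292) (nat_lit 147328288) (nat_lit 76) (nat_lit 1005788011) (nat_lit 0) (nat_lit 1005788011) (nat_lit 396) (nat_lit 1) (nat_lit 380) (nat_lit 1) (nat_lit 379) (nat_lit 1) (nat_lit 383) (nat_lit 324) (nat_lit 313))))) (XT.nd (nat_lit 234) (nat_lit 0) (nat_lit 76) (XT.nd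 (nat_lit 78) (nat_lit 1292) (nat_lit 0) (XT.lf (nat_lit 1292) (nat_lit 14928161) (nat_lit 0) (nat_lit 2099305349) (nat_lit 1216) (nat_lit 14928161) (nat_lit 397) (nat_lit 1) (nat_lit 380) (nat_lit 1) (nat_lit 396) (nat_lit 1) (nat_lit 384) (nat_lit 324) (nat_lit 312)) (XT.nd (nat_lit 78) (nat_lit 0) (nat_lit 0) (XT.lf (nat_lit 1368) (nat_lit 998462319) (nat_lit 0) (nat_lit 102731007) (nat_lit 1292) (nat_lit 998462319) (nat_lit 381) (nat_lit 1) (nat_lit 363) (nat_lit 1) (nat_lit 380) (nat_lit 1) (nat_lit 385) (nat_lit 324) (nat_lit 311)) (XT.lf (nat_lit 1368) (nat_lit 1838812664) (nat_lit 76) (nat_lit 116075109) (nat_lit 0) (nat_lit 116075109) (nat_lit 381) (nat_lit 1) (nat_lit 364) (nat_lit 1) (nat_lit 363) (nat_lit 1) (nat_lit 386) (nat_lit 324) (nat_lit 310)))) (XT.nd (nat_lit 78) (nat_lit 0) (nat_lit 0) (XT.lf (nat_lit 1368) (nat_lit 833549913) (nat_lit 0) (nat_lit 375475729) (nat_lit 1292) (nat_lit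 833549913) (nat_lit 382) (nat_lit 1) (nat_lit 364) (nat_lit 1) (nat_lit 381) (nat_lit 1) (nat_lit 387) (nat_lit 324) (nat_lit 309)) (XT.nd (nat_lit 78) (nat_lit 0) (nat_lit 76) (XT.lf (nat_lit 1368) (nat_lit 1496707200) (nat_lit 76) (nat_lit 259100314) (nat_lit 0) (nat_lit 259100314) (nat_lit 382) (nat_lit 1) (nat_lit 365) (nat_lit 1) (nat_lit 364) (nat_lit 1) (nat_lit 388) (nat_lit 324) (nat_lit 308)) (XT.lf (nat_lit 76) (nat_lit 658229290) (nat_lit 0) (nat_lit 671155757) (nat_lit 1292) (nat_lit 658229290) (nat_lit 366) (nat_lit 1) (nat_lit 365) (nat_lit 1) (nat_lit 382) (nat_lit 1) (nat_lit 389) (nat_lit 324) (nat_lit 307))))))))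
noncomputable def ec3 : XT := (XT.nd (nat_lit 52962) (nat_lit 608) (nat_lit 0) (XT.nd (nat_lit 52104) (nat_lit 0) (nat_lit 1292) (XT.nd (nat_lit 51636) (nat_lit 0) (nat_lit 2128) (XT.nd (nat_lit 156) (nat_lit 608) (nat_lit 0) (XT.nd (nat_lit 78) (nat_lit 0) (nat_lit 0) (XT.lf (nat_lit 912) (nat_lit 1134879964) (nat_lit 0) (nat_lit 413022095) (nat_lit 836) (nat_lit 413022095) (nat_lit 366) (nat_lit 1) (nat_lit 354) (nat_lit 1) (nat_lit 365) (nat_lit 1) (nat_lit 390) (nat_lit 324) (nat_lit 306)) (XT.lf (nat_lit 76) (nat_lit 473676805) (nat_lit 0) (nat_lit 987330471) (nat_lit 912) (nat_lit 473676805) (nat_lit 355) (nat_lit 1) (nat_lit 354) (nat_lit 1) (nat_lit 366) (nat_lit 1) (nat_lit 391) (nat_lit 324) (nat_lit 305))) (XT.nd (nat_lit 78) (nat_lit 0) (nat_lit 0) (XT.lf (nat_lit 684) (nat_lit 755609477) (nat_lit 0) (nat_lit 576658435) (nat_lit 608) (nat_lit 576658435) (nat_lit 355) (nat_lit 1) (nat_lit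 346) (nat_lit 1) (nat_lit 354) (nat_lit 1) (nat_lit 392) (nat_lit 324) (nat_lit 304)) (XT.nd (nat_lit 51324) (nat_lit 0) (nat_lit 2128) (XT.lf (nat_lit 76) (nat_lit 280984421) (nat_lit 0) (nat_lit 1321732095) (nat_lit 684) (nat_lit 280984421) (nat_lit 347) (nat_lit 1) (nat_lit 346) (nat_lit 1) (nat_lit 355) (nat_lit 1) (nat_lit 393) (nat_lit 324) (nat_lit 303)) (XT.lf (nat_lit 1292) (nat_lit 239390166) (nat_lit 0) (nat_lit 823613505) (nat_lit 1292) (nat_lit 239390166) (nat_lit 391) (nat_lit 1) (nat_lit 374) (nat_lit 0) (nat_lit 391) (nat_lit 0) (nat_lit 370) (nat_lit 325) (nat_lit 325))))) (XT.nd (nat_lit 234) (nat_lit 0) (nat_lit 152) (XT.nd (nat_lit 78) (nat_lit 0) (nat_lit 76) (XT.lf (nat_lit 1292) (nat_lit 935540965) (nat_lit 76) (nat_lit 815538863) (nat_lit 0) (nat_lit 815538863) (nat_lit 391) (nat_lit 1) (nat_lit 375) (nat_lit 1) (nat_lit 374) (nat_lit 0) (nat_lit 371) (nat_lit 325) (nat_lit 324))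 (XT.nd (nat_lit 78) (nat_lit 0) (nat_lit 0) (XT.lf (nat_lit 1292) (nat_lit 452449916) (nat_lit 0) (nat_lit 1624391802) (nat_lit 1216) (nat_lit 452449916) (nat_lit 392) (nat_lit 1) (nat_lit 375) (nat_lit 1) (nat_lit 391) (nat_lit 1) (nat_lit 372) (nat_lit 325) (nat_lit 323)) (XT.lf (nat_lit 1292) (nat_lit 859225752) (nat_lit 76) (nat_lit 816681087) (nat_lit 0) (nat_lit 816681087) (nat_lit 392) (nat_lit 1) (nat_lit 376) (nat_lit 1) (nat_lit 375) (nat_lit 1) (nat_lit 373) (nat_lit 325) (nat_lit 322)))) (XT.nd (nat_lit 78) (nat_lit 0) (nat_lit 0) (XT.lf (nat_lit 1292) (nat_lit 403187399) (nat_lit 0) (nat_lit 1650330680) (nat_lit 1216) (nat_lit 403187399) (nat_lit 393) (nat_lit 1) (nat_lit 376) (nat_lit 1) (nat_lit 392) (nat_lit 1) (nat_lit 374) (nat_lit 325) (nat_lit 321)) (XT.nd (nat_lit 78) (nat_lit 0) (nat_lit 76) (XT.lf (nat_lit 1292) (nat_lit 738883479) (nat_lit 76) (nat_lit 841256707) (nat_lit 0) (nat_lit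 841256707) (nat_lit 393) (nat_lit 1) (nat_lit 377) (nat_lit 1) (nat_lit 376) (nat_lit 1) (nat_lit 375) (nat_lit 325) (nat_lit 320)) (XT.lf (nat_lit 1292) (nat_lit 333021124) (nat_lit 0) (nat_lit 1720861388) (nat_lit 1216) (nat_lit 333021124) (nat_lit 394) (nat_lit 1) (nat_lit 377) (nat_lit 1) (nat_lit 393) (nat_lit 1) (nat_lit 376) (nat_lit 325) (nat_lit 319)))))) (XT.nd (nat_lit 390) (nat_lit 1064) (nat_lit 0) (XT.nd (nat_lit 156) (nat_lit 0) (nat_lit 76) (XT.nd (nat_lit 78) (nat_lit 0) (nat_lit 76) (XT.lf (nat_lit 1292) (nat_lit 578451419) (nat_lit 76) (nat_lit 887236113) (nat_lit 0) (nat_lit 887236113) (nat_lit 394) (nat_lit 1) (nat_lit 378) (nat_lit 1) (nat_lit 377) (nat_lit 1) (nat_lit 377) (nat_lit 325) (nat_lit 318)) (XT.lf (nat_lit 1292) (nat_lit 243842267) (nat_lit 0) (nat_lit 1832082013) (nat_lit 1216) (nat_lit 243842267) (nat_lit 395) (nat_lit 1) (nat_lit 378) (nat_lit 1) (nat_lit 394) (nat_lit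 1) (nat_lit 378) (nat_lit 325) (nat_lit 317))) (XT.nd (nat_lit 78) (nat_lit 0) (nat_lit 76) (XT.lf (nat_lit 1292) (nat_lit 381599759) (nat_lit 76) (nat_lit 952726140) (nat_lit 0) (nat_lit 952726140) (nat_lit 395) (nat_lit 1) (nat_lit 379) (nat_lit 1) (nat_lit 378) (nat_lit 1) (nat_lit 379) (nat_lit 325) (nat_lit 316)) (XT.nd (nat_lit 78) (nat_lit 0) (nat_lit 0) (XT.lf (nat_lit 1292) (nat_lit 137413308) (nat_lit 0) (nat_lit 1980353720) (nat_lit 1216) (nat_lit 137413308) (nat_lit 396) (nat_lit 1) (nat_lit 379) (nat_lit 1) (nat_lit 395) (nat_lit 1) (nat_lit 380) (nat_lit 325) (nat_lit 315)) (XT.lf (nat_lit 1292) (nat_lit 151748137) (nat_lit 76) (nat_lit 1035961652) (nat_lit 0) (nat_lit 1035961652) (nat_lit 396) (nat_lit 1) (nat_lit 380) (nat_lit 1) (nat_lit 379) (nat_lit 1) (nat_lit 381) (nat_lit 325) (nat_lit 314))))) (XT.nd (nat_lit 234) (nat_lit 0) (nat_lit 76) (XT.nd (nat_lit 78) (nat_lit 1292) (nat_lit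 0) (XT.lf (nat_lit 1292) (nat_lit 15376005) (nat_lit 0) (nat_lit 2162284509) (nat_lit 1216) (nat_lit 15376005) (nat_lit 397) (nat_lit 1) (nat_lit 380) (nat_lit 1) (nat_lit 396) (nat_lit 1) (nat_lit 382) (nat_lit 325) (nat_lit 313)) (XT.nd (nat_lit 78) (nat_lit 0) (nat_lit 0) (XT.lf (nat_lit 1368) (nat_lit 1028416189) (nat_lit 0) (nat_lit 105812937) (nat_lit 1292) (nat_lit 1028416189) (nat_lit 381) (nat_lit 1) (nat_lit 363) (nat_lit 1) (nat_lit 380) (nat_lit 1) (nat_lit 383) (nat_lit 325) (nat_lit 312)) (XT.lf (nat_lit 1368) (nat_lit 1893977044) (nat_lit 76) (nat_lit 119557362) (nat_lit 0) (nat_lit 119557362) (nat_lit 381) (nat_lit 1) (nat_lit 364) (nat_lit 1) (nat_lit 363) (nat_lit 1) (nat_lit 384) (nat_lit 325) (nat_lit 311)))) (XT.nd (nat_lit 78) (nat_lit 0) (nat_lit 0) (XT.lf (nat_lit 1368) (nat_lit 858556411) (nat_lit 0) (nat_lit 386740001) (nat_lit 1292) (nat_lit 858556411) (nat_lit 382) (nat_lit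 1) (nat_lit 364) (nat_lit 1) (nat_lit 381) (nat_lit 1) (nat_lit 385) (nat_lit 325) (nat_lit 310)) (XT.nd (nat_lit 78) (nat_lit 0) (nat_lit 76) (XT.lf (nat_lit 1368) (nat_lit 1541608416) (nat_lit 76) (nat_lit 266873323) (nat_lit 0) (nat_lit 266873323) (nat_lit 382) (nat_lit 1) (nat_lit 365) (nat_lit 1) (nat_lit 364) (nat_lit 1) (nat_lit 386) (nat_lit 325) (nat_lit 309)) (XT.lf (nat_lit 76) (nat_lit 677976169) (nat_lit 0) (nat_lit 691290430) (nat_lit 1292) (nat_lit 677976169) (nat_lit 366) (nat_lit 1) (nat_lit 365) (nat_lit 1) (nat_lit 382) (nat_lit 1) (nat_lit 387) (nat_lit 325) (nat_lit 308))))))) (XT.nd (nat_lit 51948) (nat_lit 0) (nat_lit 1900) (XT.nd (nat_lit 390) (nat_lit 0) (nat_lit 0) (XT.nd (nat_lit 156) (nat_lit 1216) (nat_lit 0) (XT.nd (nat_lit 78) (nat_lit 0) (nat_lit 0) (XT.lf (nat_lit 912) (nat_lit 1168926363) (nat_lit 0) (nat_lit 425412758) (nat_lit 836) (nat_lit 425412758) (nat_lit 366)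 (nat_lit 1) (nat_lit 354) (nat_lit 1) (nat_lit 365) (nat_lit 1) (nat_lit 388) (nat_lit 325) (nat_lit 307)) (XT.lf (nat_lit 76) (nat_lit 487887109) (nat_lit 0) (nat_lit 1016950386) (nat_lit 912) (nat_lit 487887109) (nat_lit 355) (nat_lit 1) (nat_lit 354) (nat_lit 1) (nat_lit 366) (nat_lit 1) (nat_lit 389) (nat_lit 325) (nat_lit 306))) (XT.nd (nat_lit 78) (nat_lit 608) (nat_lit 0) (XT.lf (nat_lit 684) (nat_lit 778277762) (nat_lit 0) (nat_lit 593958188) (nat_lit 608) (nat_lit 593958188) (nat_lit 355) (nat_lit 1) (nat_lit 346) (nat_lit 1) (nat_lit 354) (nat_lit 1) (nat_lit 390) (nat_lit 325) (nat_lit 305)) (XT.nd (nat_lit 78) (nat_lit 608) (nat_lit 0) (XT.lf (nat_lit 76) (nat_lit 289413954) (nat_lit 0) (nat_lit 1361384058) (nat_lit 684) (nat_lit 289413954) (nat_lit 347) (nat_lit 1) (nat_lit 346) (nat_lit 1) (nat_lit 355) (nat_lit 1) (nat_lit 391) (nat_lit 325) (nat_lit 304)) (XT.lf (nat_lit 684) (nat_lit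 371840372) (nat_lit 0) (nat_lit 771378720) (nat_lit 608) (nat_lit 771378720) (nat_lit 347) (nat_lit 1) (nat_lit 338) (nat_lit 1) (nat_lit 346) (nat_lit 1) (nat_lit 392) (nat_lit 325) (nat_lit 303))))) (XT.nd (nat_lit 51324) (nat_lit 0) (nat_lit 2812) (XT.nd (nat_lit 51168) (nat_lit 0) (nat_lit 2736) (XT.lf (nat_lit 76) (nat_lit 83600005) (nat_lit 0) (nat_lit 1722422460) (nat_lit 684) (nat_lit 83600005) (nat_lit 339) (nat_lit 1) (nat_lit 338) (nat_lit 1) (nat_lit 347) (nat_lit 1) (nat_lit 393) (nat_lit 325) (nat_lit 302)) (XT.nd (nat_lit 78) (nat_lit 0) (nat_lit 0) (XT.lf (nat_lit 1292) (nat_lit 246571871) (nat_lit 0) (nat_lit 848321910) (nat_lit 1292) (nat_lit 246571871) (nat_lit 391) (nat_lit 1) (nat_lit 374) (nat_lit 0) (nat_lit 391) (nat_lit 0) (nat_lit 368) (nat_lit 326) (nat_lit 326)) (XT.lf (nat_lit 1292) (nat_lit 963607194) (nat_lit 76) (nat_lit 840005029) (nat_lit 0) (nat_lit 840005029) (nat_lit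 391) (nat_lit 1) (nat_lit 375) (nat_lit 1) (nat_lit 374) (nat_lit 0) (nat_lit 369) (nat_lit 326) (nat_lit 325)))) (XT.nd (nat_lit 78) (nat_lit 0) (nat_lit 0) (XT.lf (nat_lit 1292) (nat_lit 466023414) (nat_lit 0) (nat_lit 1673123556) (nat_lit 1216) (nat_lit 466023414) (nat_lit 392) (nat_lit 1) (nat_lit 375) (nat_lit 1) (nat_lit 391) (nat_lit 1) (nat_lit 370) (nat_lit 326) (nat_lit 324)) (XT.nd (nat_lit 78) (nat_lit 0) (nat_lit 76) (XT.lf (nat_lit 1292) (nat_lit 885002524) (nat_lit 76) (nat_lit 841181520) (nat_lit 0) (nat_lit 841181520) (nat_lit 392) (nat_lit 1) (nat_lit 376) (nat_lit 1) (nat_lit 375) (nat_lit 1) (nat_lit 371) (nat_lit 326) (nat_lit 323)) (XT.lf (nat_lit 1292) (nat_lit 415283021) (nat_lit 0) (nat_lit 1699840600) (nat_lit 1216) (nat_lit 415283021) (nat_lit 393) (nat_lit 1) (nat_lit 376) (nat_lit 1) (nat_lit 392) (nat_lit 1) (nat_lit 372) (nat_lit 326) (nat_lit 322)))))) (XT.nd (nat_lit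 468) (nat_lit 988) (nat_lit 0) (XT.nd (nat_lit 234) (nat_lit 0) (nat_lit 152) (XT.nd (nat_lit 78) (nat_lit 0) (nat_lit 76) (XT.lf (nat_lit 1292) (nat_lit 761049984) (nat_lit 76) (nat_lit 866494408) (nat_lit 0) (nat_lit 866494408) (nat_lit 393) (nat_lit 1) (nat_lit 377) (nat_lit 1) (nat_lit 376) (nat_lit 1) (nat_lit 373) (nat_lit 326) (nat_lit 321)) (XT.nd (nat_lit 78) (nat_lit 0) (nat_lit 0) (XT.lf (nat_lit 1292) (nat_lit 343011758) (nat_lit 0) (nat_lit 1772487230) (nat_lit 1216) (nat_lit 343011758) (nat_lit 394) (nat_lit 1) (nat_lit 377) (nat_lit 1) (nat_lit 393) (nat_lit 1) (nat_lit 374) (nat_lit 326) (nat_lit 320)) (XT.lf (nat_lit 1292) (nat_lit 595804961) (nat_lit 76) (nat_lit 913853197) (nat_lit 0) (nat_lit 913853197) (nat_lit 394) (nat_lit 1) (nat_lit 378) (nat_lit 1) (nat_lit 377) (nat_lit 1) (nat_lit 375) (nat_lit 326) (nat_lit 319)))) (XT.nd (nat_lit 78) (nat_lit 0) (nat_lit 0) (XT.lf (nat_lit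 1292) (nat_lit 251157535) (nat_lit 0) (nat_lit 1887044474) (nat_lit 1216) (nat_lit 251157535) (nat_lit 395) (nat_lit 1) (nat_lit 378) (nat_lit 1) (nat_lit 394) (nat_lit 1) (nat_lit 376) (nat_lit 326) (nat_lit 318)) (XT.nd (nat_lit 78) (nat_lit 0) (nat_lit 76) (XT.lf (nat_lit 1292) (nat_lit 393047752) (nat_lit 76) (nat_lit 981307924) (nat_lit 0) (nat_lit 981307924) (nat_lit 395) (nat_lit 1) (nat_lit 379) (nat_lit 1) (nat_lit 378) (nat_lit 1) (nat_lit 377) (nat_lit 326) (nat_lit 317)) (XT.lf (nat_lit 1292) (nat_lit 141535707) (nat_lit 0) (nat_lit 2039764331) (nat_lit 1216) (nat_lit 141535707) (nat_lit 396) (nat_lit 1) (nat_lit 379) (nat_lit 1) (nat_lit 395) (nat_lit 1) (nat_lit 378) (nat_lit 326) (nat_lit 316))))) (XT.nd (nat_lit 234) (nat_lit 0) (nat_lit 0) (XT.nd (nat_lit 78) (nat_lit 1216) (nat_lit 0) (XT.lf (nat_lit 1292) (nat_lit 156300581) (nat_lit 76) (nat_lit 1067040501) (nat_lit 0) (nat_lit 1067040501)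 (nat_lit 396) (nat_lit 1) (nat_lit 380) (nat_lit 1) (nat_lit 379) (nat_lit 1) (nat_lit 379) (nat_lit 326) (nat_lit 315)) (XT.nd (nat_lit 78) (nat_lit 1292) (nat_lit 0) (XT.lf (nat_lit 1292) (nat_lit 15837286) (nat_lit 0) (nat_lit 2227153044) (nat_lit 1216) (nat_lit 15837286) (nat_lit 397) (nat_lit 1) (nat_lit 380) (nat_lit 1) (nat_lit 396) (nat_lit 1) (nat_lit 380) (nat_lit 326) (nat_lit 314)) (XT.lf (nat_lit 1368) (nat_lit 1059268674) (nat_lit 0) (nat_lit 108987325) (nat_lit 1292) (nat_lit 1059268674) (nat_lit 381) (nat_lit 1) (nat_lit 363) (nat_lit 1) (nat_lit 380) (nat_lit 1) (nat_lit 381) (nat_lit 326) (nat_lit 313)))) (XT.nd (nat_lit 78) (nat_lit 0) (nat_lit 76) (XT.lf (nat_lit 1368) (nat_lit 1950796355) (nat_lit 76) (nat_lit 123144083) (nat_lit 0) (nat_lit 123144083) (nat_lit 381) (nat_lit 1) (nat_lit 364) (nat_lit 1) (nat_lit 363) (nat_lit 1) (nat_lit 382) (nat_lit 326) (nat_lit 312)) (XT.nd (nat_lit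 78) (nat_lit 0) (nat_lit 0) (XT.lf (nat_lit 1368) (nat_lit 884313103) (nat_lit 0) (nat_lit 398342201) (nat_lit 1292) (nat_lit 884313103) (nat_lit 382) (nat_lit 1) (nat_lit 364) (nat_lit 1) (nat_lit 381) (nat_lit 1) (nat_lit 383) (nat_lit 326) (nat_lit 311)) (XT.lf (nat_lit 1368) (nat_lit 1587856668) (nat_lit 76) (nat_lit 274879523) (nat_lit 0) (nat_lit 274879523) (nat_lit 382) (nat_lit 1) (nat_lit 365) (nat_lit 1) (nat_lit 364) (nat_lit 1) (nat_lit 384) (nat_lit 326) (nat_lit 310))))))))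
noncomputable def ec4 : XT := (XT.nd (nat_lit 52650) (nat_lit 532) (nat_lit 0) (XT.nd (nat_lit 51792) (nat_lit 0) (nat_lit 4028) (XT.nd (nat_lit 390) (nat_lit 1824) (nat_lit 0) (XT.nd (nat_lit 156) (nat_lit 608) (nat_lit 0) (XT.nd (nat_lit 78) (nat_lit 836) (nat_lit 0) (XT.lf (nat_lit 76) (nat_lit 698315454) (nat_lit 0) (nat_lit 712029142) (nat_lit 1292) (nat_lit 698315454) (nat_lit 366) (nat_lit 1) (nat_lit 365) (nat_lit 1) (nat_lit 382) (nat_lit 1) (nat_lit 385) (nat_lit 326) (nat_lit 309)) (XT.lf (nat_lit 912) (nat_lit 1203994154) (nat_lit 0) (nat_lit 438175141) (nat_lit 836) (nat_lit 438175141) (nat_lit 366) (nat_lit 1) (nat_lit 354) (nat_lit 1) (nat_lit 365) (nat_lit 1) (nat_lit 386) (nat_lit 326) (nat_lit 308))) (XT.nd (nat_lit 78) (nat_lit 608) (nat_lit 0) (XT.lf (nat_lit 76) (nat_lit 502523722) (nat_lit 0) (nat_lit 1047458897) (nat_lit 912) (nat_lit 502523722) (nat_lit 355) (nat_lit 1) (nat_lit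 354) (nat_lit 1) (nat_lit 366) (nat_lit 1) (nat_lit 387) (nat_lit 326) (nat_lit 307)) (XT.nd (nat_lit 78) (nat_lit 0) (nat_lit 0) (XT.lf (nat_lit 684) (nat_lit 801626094) (nat_lit 0) (nat_lit 611776934) (nat_lit 608) (nat_lit 611776934) (nat_lit 355) (nat_lit 1) (nat_lit 346) (nat_lit 1) (nat_lit 354) (nat_lit 1) (nat_lit 388) (nat_lit 326) (nat_lit 306)) (XT.lf (nat_lit 76) (nat_lit 298096373) (nat_lit 0) (nat_lit 1402225580) (nat_lit 684) (nat_lit 298096373) (nat_lit 347) (nat_lit 1) (nat_lit 346) (nat_lit 1) (nat_lit 355) (nat_lit 1) (nat_lit 389) (nat_lit 326) (nat_lit 305))))) (XT.nd (nat_lit 234) (nat_lit 608) (nat_lit 0) (XT.nd (nat_lit 78) (nat_lit 608) (nat_lit 0) (XT.lf (nat_lit 684) (nat_lit 382995583) (nat_lit 0) (nat_lit 794520081) (nat_lit 608) (nat_lit 794520081) (nat_lit 347) (nat_lit 1) (nat_lit 338) (nat_lit 1) (nat_lit 346) (nat_lit 1) (nat_lit 390) (nat_lit 326) (nat_lit 304)) (XT.nd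 (nat_lit 78) (nat_lit 608) (nat_lit 0) (XT.lf (nat_lit 76) (nat_lit 86108006) (nat_lit 0) (nat_lit 1774095134) (nat_lit 684) (nat_lit 86108006) (nat_lit 339) (nat_lit 1) (nat_lit 338) (nat_lit 1) (nat_lit 347) (nat_lit 1) (nat_lit 391) (nat_lit 326) (nat_lit 303)) (XT.lf (nat_lit 76) (nat_lit 935984761) (nat_lit 0) (nat_lit 48845320) (nat_lit 608) (nat_lit 935984761) (nat_lit 331) (nat_lit 1) (nat_lit 330) (nat_lit 1) (nat_lit 338) (nat_lit 1) (nat_lit 392) (nat_lit 326) (nat_lit 302)))) (XT.nd (nat_lit 51012) (nat_lit 0) (nat_lit 3952) (XT.lf (nat_lit 684) (nat_lit 1633656596) (nat_lit 0) (nat_lit 131146843) (nat_lit 608) (nat_lit 131146843) (nat_lit 331) (nat_lit 1) (nat_lit 322) (nat_lit 1) (nat_lit 330) (nat_lit 1) (nat_lit 393) (nat_lit 326) (nat_lit 301)) (XT.nd (nat_lit 78) (nat_lit 0) (nat_lit 0) (XT.lf (nat_lit 1292) (nat_lit 253969027) (nat_lit 0) (nat_lit 873771568) (nat_lit 1292) (nat_lit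 253969027) (nat_lit 391) (nat_lit 1) (nat_lit 374) (nat_lit 0) (nat_lit 391) (nat_lit 0) (nat_lit 366) (nat_lit 327) (nat_lit 327)) (XT.lf (nat_lit 1292) (nat_lit 992515410) (nat_lit 76) (nat_lit 865205180) (nat_lit 0) (nat_lit 865205180) (nat_lit 391) (nat_lit 1) (nat_lit 375) (nat_lit 1) (nat_lit 374) (nat_lit 0) (nat_lit 367) (nat_lit 327) (nat_lit 326)))))) (XT.nd (nat_lit 390) (nat_lit 0) (nat_lit 152) (XT.nd (nat_lit 156) (nat_lit 0) (nat_lit 76) (XT.nd (nat_lit 78) (nat_lit 0) (nat_lit 0) (XT.lf (nat_lit 1292) (nat_lit 480004116) (nat_lit 0) (nat_lit 1723317262) (nat_lit 1216) (nat_lit 480004116) (nat_lit 392) (nat_lit 1) (nat_lit 375) (nat_lit 1) (nat_lit 391) (nat_lit 1) (nat_lit 368) (nat_lit 327) (nat_lit 325)) (XT.lf (nat_lit 1292) (nat_lit 911552600) (nat_lit 76) (nat_lit 866416966) (nat_lit 0) (nat_lit 866416966) (nat_lit 392) (nat_lit 1) (nat_lit 376) (nat_lit 1) (nat_lit 375) (nat_lit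 1) (nat_lit 369) (nat_lit 327) (nat_lit 324))) (XT.nd (nat_lit 78) (nat_lit 0) (nat_lit 0) (XT.lf (nat_lit 1292) (nat_lit 427741511) (nat_lit 0) (nat_lit 1750835818) (nat_lit 1216) (nat_lit 427741511) (nat_lit 393) (nat_lit 1) (nat_lit 376) (nat_lit 1) (nat_lit 392) (nat_lit 1) (nat_lit 370) (nat_lit 327) (nat_lit 323)) (XT.nd (nat_lit 78) (nat_lit 0) (nat_lit 76) (XT.lf (nat_lit 1292) (nat_lit 783881483) (nat_lit 76) (nat_lit 892489240) (nat_lit 0) (nat_lit 892489240) (nat_lit 393) (nat_lit 1) (nat_lit 377) (nat_lit 1) (nat_lit 376) (nat_lit 1) (nat_lit 371) (nat_lit 327) (nat_lit 322)) (XT.lf (nat_lit 1292) (nat_lit 353302111) (nat_lit 0) (nat_lit 1825661847) (nat_lit 1216) (nat_lit 353302111) (nat_lit 394) (nat_lit 1) (nat_lit 377) (nat_lit 1) (nat_lit 393) (nat_lit 1) (nat_lit 372) (nat_lit 327) (nat_lit 321))))) (XT.nd (nat_lit 234) (nat_lit 0) (nat_lit 152) (XT.nd (nat_lit 78) (nat_lit 0) (nat_lit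 76) (XT.lf (nat_lit 1292) (nat_lit 613679110) (nat_lit 76) (nat_lit 941268792) (nat_lit 0) (nat_lit 941268792) (nat_lit 394) (nat_lit 1) (nat_lit 378) (nat_lit 1) (nat_lit 377) (nat_lit 1) (nat_lit 373) (nat_lit 327) (nat_lit 320)) (XT.nd (nat_lit 78) (nat_lit 0) (nat_lit 0) (XT.lf (nat_lit 1292) (nat_lit 258692261) (nat_lit 0) (nat_lit 1943655808) (nat_lit 1216) (nat_lit 258692261) (nat_lit 395) (nat_lit 1) (nat_lit 378) (nat_lit 1) (nat_lit 394) (nat_lit 1) (nat_lit 374) (nat_lit 327) (nat_lit 319)) (XT.lf (nat_lit 1292) (nat_lit 404839185) (nat_lit 76) (nat_lit 1010747162) (nat_lit 0) (nat_lit 1010747162) (nat_lit 395) (nat_lit 1) (nat_lit 379) (nat_lit 1) (nat_lit 378) (nat_lit 1) (nat_lit 375) (nat_lit 327) (nat_lit 318)))) (XT.nd (nat_lit 78) (nat_lit 0) (nat_lit 0) (XT.lf (nat_lit 1292) (nat_lit 145781778) (nat_lit 0) (nat_lit 2100957261) (nat_lit 1216) (nat_lit 145781778) (nat_lit 396) (nat_lit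 1) (nat_lit 379) (nat_lit 1) (nat_lit 395) (nat_lit 1) (nat_lit 376) (nat_lit 327) (nat_lit 317)) (XT.nd (nat_lit 78) (nat_lit 0) (nat_lit 76) (XT.lf (nat_lit 1292) (nat_lit 160989598) (nat_lit 76) (nat_lit 1099051716) (nat_lit 0) (nat_lit 1099051716) (nat_lit 396) (nat_lit 1) (nat_lit 380) (nat_lit 1) (nat_lit 379) (nat_lit 1) (nat_lit 377) (nat_lit 327) (nat_lit 316)) (XT.lf (nat_lit 1292) (nat_lit 16312404) (nat_lit 0) (nat_lit 2293967636) (nat_lit 1216) (nat_lit 16312404) (nat_lit 397) (nat_lit 1) (nat_lit 380) (nat_lit 1) (nat_lit 396) (nat_lit 1) (nat_lit 378) (nat_lit 327) (nat_lit 315))))))) (XT.nd (nat_lit 858) (nat_lit 1748) (nat_lit 0) (XT.nd (nat_lit 390) (nat_lit 1900) (nat_lit 0) (XT.nd (nat_lit 156) (nat_lit 0) (nat_lit 76) (XT.nd (nat_lit 78) (nat_lit 0) (nat_lit 0) (XT.lf (nat_lit 1368) (nat_lit 1091046735) (nat_lit 0) (nat_lit 112256945) (nat_lit 1292) (nat_lit 1091046735) (nat_lit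 381) (nat_lit 1) (nat_lit 363) (nat_lit 1) (nat_lit 380) (nat_lit 1) (nat_lit 379) (nat_lit 327) (nat_lit 314)) (XT.lf (nat_lit 1368) (nat_lit 2009320246) (nat_lit 76) (nat_lit 126838405) (nat_lit 0) (nat_lit 126838405) (nat_lit 381) (nat_lit 1) (nat_lit 364) (nat_lit 1) (nat_lit 363) (nat_lit 1) (nat_lit 380) (nat_lit 327) (nat_lit 313))) (XT.nd (nat_lit 78) (nat_lit 0) (nat_lit 0) (XT.lf (nat_lit 1368) (nat_lit 910842496) (nat_lit 0) (nat_lit 410292467) (nat_lit 1292) (nat_lit 910842496) (nat_lit 382) (nat_lit 1) (nat_lit 364) (nat_lit 1) (nat_lit 381) (nat_lit 1) (nat_lit 381) (nat_lit 327) (nat_lit 312)) (XT.nd (nat_lit 78) (nat_lit 0) (nat_lit 76) (XT.lf (nat_lit 1368) (nat_lit 1635492368) (nat_lit 76) (nat_lit 283125909) (nat_lit 0) (nat_lit 283125909) (nat_lit 382) (nat_lit 1) (nat_lit 365) (nat_lit 1) (nat_lit 364) (nat_lit 1) (nat_lit 382) (nat_lit 327) (nat_lit 311)) (XT.lf (nat_lit 76) (nat_lit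 719264918) (nat_lit 0) (nat_lit 733390017) (nat_lit 1292) (nat_lit 719264918) (nat_lit 366) (nat_lit 1) (nat_lit 365) (nat_lit 1) (nat_lit 382) (nat_lit 1) (nat_lit 383) (nat_lit 327) (nat_lit 310))))) (XT.nd (nat_lit 234) (nat_lit 608) (nat_lit 0) (XT.nd (nat_lit 78) (nat_lit 608) (nat_lit 0) (XT.lf (nat_lit 912) (nat_lit 1240113979) (nat_lit 0) (nat_lit 451320395) (nat_lit 836) (nat_lit 451320395) (nat_lit 366) (nat_lit 1) (nat_lit 354) (nat_lit 1) (nat_lit 365) (nat_lit 1) (nat_lit 384) (nat_lit 327) (nat_lit 309)) (XT.nd (nat_lit 78) (nat_lit 608) (nat_lit 0) (XT.lf (nat_lit 76) (nat_lit 517599434) (nat_lit 0) (nat_lit 1078882664) (nat_lit 912) (nat_lit 517599434) (nat_lit 355) (nat_lit 1) (nat_lit 354) (nat_lit 1) (nat_lit 366) (nat_lit 1) (nat_lit 385) (nat_lit 327) (nat_lit 308)) (XT.lf (nat_lit 684) (nat_lit 825674877) (nat_lit 0) (nat_lit 630130242) (nat_lit 608) (nat_lit 630130242) (nat_lit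 355) (nat_lit 1) (nat_lit 346) (nat_lit 1) (nat_lit 354) (nat_lit 1) (nat_lit 386) (nat_lit 327) (nat_lit 307)))) (XT.nd (nat_lit 78) (nat_lit 608) (nat_lit 0) (XT.lf (nat_lit 76) (nat_lit 307039264) (nat_lit 0) (nat_lit 1444292347) (nat_lit 684) (nat_lit 307039264) (nat_lit 347) (nat_lit 1) (nat_lit 346) (nat_lit 1) (nat_lit 355) (nat_lit 1) (nat_lit 387) (nat_lit 327) (nat_lit 306)) (XT.nd (nat_lit 78) (nat_lit 0) (nat_lit 0) (XT.lf (nat_lit 684) (nat_lit 394485451) (nat_lit 0) (nat_lit 818355684) (nat_lit 608) (nat_lit 818355684) (nat_lit 347) (nat_lit 1) (nat_lit 338) (nat_lit 1) (nat_lit 346) (nat_lit 1) (nat_lit 388) (nat_lit 327) (nat_lit 305)) (XT.lf (nat_lit 76) (nat_lit 88691246) (nat_lit 0) (nat_lit 1827317988) (nat_lit 684) (nat_lit 88691246) (nat_lit 339) (nat_lit 1) (nat_lit 338) (nat_lit 1) (nat_lit 347) (nat_lit 1) (nat_lit 389) (nat_lit 327) (nat_lit 304)))))) (XT.nd (nat_lit 51168)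 (nat_lit 0) (nat_lit 4484) (XT.nd (nat_lit 156) (nat_lit 532) (nat_lit 0) (XT.nd (nat_lit 78) (nat_lit 608) (nat_lit 0) (XT.lf (nat_lit 76) (nat_lit 964064304) (nat_lit 0) (nat_lit 50310680) (nat_lit 608) (nat_lit 964064304) (nat_lit 331) (nat_lit 1) (nat_lit 330) (nat_lit 1) (nat_lit 338) (nat_lit 1) (nat_lit 390) (nat_lit 327) (nat_lit 303)) (XT.lf (nat_lit 684) (nat_lit 1682666294) (nat_lit 0) (nat_lit 135081248) (nat_lit 608) (nat_lit 135081248) (nat_lit 331) (nat_lit 1) (nat_lit 322) (nat_lit 1) (nat_lit 330) (nat_lit 1) (nat_lit 391) (nat_lit 327) (nat_lit 302))) (XT.nd (nat_lit 78) (nat_lit 532) (nat_lit 0) (XT.lf (nat_lit 76) (nat_lit 713846653) (nat_lit 0) (nat_lit 499785680) (nat_lit 684) (nat_lit 713846653) (nat_lit 323) (nat_lit 1) (nat_lit 322) (nat_lit 1) (nat_lit 331) (nat_lit 1) (nat_lit 392) (nat_lit 327) (nat_lit 301)) (XT.nd (nat_lit 50856) (nat_lit 0) (nat_lit 4484) (XT.lf (nat_lit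 608) (nat_lit 1175246856) (nat_lit 0) (nat_lit 363738977) (nat_lit 532) (nat_lit 363738977) (nat_lit 323) (nat_lit 1) (nat_lit 315) (nat_lit 1) (nat_lit 322) (nat_lit 1) (nat_lit 393) (nat_lit 327) (nat_lit 300)) (XT.lf (nat_lit 1292) (nat_lit 261588098) (nat_lit 0) (nat_lit 899984715) (nat_lit 1292) (nat_lit 261588098) (nat_lit 391) (nat_lit 1) (nat_lit 374) (nat_lit 0) (nat_lit 391) (nat_lit 0) (nat_lit 364) (nat_lit 328) (nat_lit 328))))) (XT.nd (nat_lit 234) (nat_lit 0) (nat_lit 152) (XT.nd (nat_lit 78) (nat_lit 0) (nat_lit 76) (XT.lf (nat_lit 1292) (nat_lit 1022290872) (nat_lit 76) (nat_lit 891161335) (nat_lit 0) (nat_lit 891161335) (nat_lit 391) (nat_lit 1) (nat_lit 375) (nat_lit 1) (nat_lit 374) (nat_lit 0) (nat_lit 365) (nat_lit 328) (nat_lit 327)) (XT.nd (nat_lit 78) (nat_lit 0) (nat_lit 0) (XT.lf (nat_lit 1292) (nat_lit 494404240) (nat_lit 0) (nat_lit 1775016780) (nat_lit 1216) (nat_lit 494404240)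 (nat_lit 392) (nat_lit 1) (nat_lit 375) (nat_lit 1) (nat_lit 391) (nat_lit 1) (nat_lit 366) (nat_lit 328) (nat_lit 326)) (XT.lf (nat_lit 1292) (nat_lit 938899178) (nat_lit 76) (nat_lit 892409475) (nat_lit 0) (nat_lit 892409475) (nat_lit 392) (nat_lit 1) (nat_lit 376) (nat_lit 1) (nat_lit 375) (nat_lit 1) (nat_lit 367) (nat_lit 328) (nat_lit 325)))) (XT.nd (nat_lit 78) (nat_lit 0) (nat_lit 0) (XT.lf (nat_lit 1292) (nat_lit 440573757) (nat_lit 0) (nat_lit 1803360893) (nat_lit 1216) (nat_lit 440573757) (nat_lit 393) (nat_lit 1) (nat_lit 376) (nat_lit 1) (nat_lit 392) (nat_lit 1) (nat_lit 368) (nat_lit 328) (nat_lit 324)) (XT.nd (nat_lit 78) (nat_lit 0) (nat_lit 76) (XT.lf (nat_lit 1292) (nat_lit 807397928) (nat_lit 76) (nat_lit 919263918) (nat_lit 0) (nat_lit 919263918) (nat_lit 393) (nat_lit 1) (nat_lit 377) (nat_lit 1) (nat_lit 376) (nat_lit 1) (nat_lit 369) (nat_lit 328) (nat_lit 323)) (XT.lf (nat_lit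 1292) (nat_lit 363901174) (nat_lit 0) (nat_lit 1880431702) (nat_lit 1216) (nat_lit 363901174) (nat_lit 394) (nat_lit 1) (nat_lit 377) (nat_lit 1) (nat_lit 393) (nat_lit 1) (nat_lit 370) (nat_lit 328) (nat_lit 322))))))))
noncomputable def ec5 : XT := (XT.nd (nat_lit 1716) (nat_lit 532) (nat_lit 0) (XT.nd (nat_lit 858) (nat_lit 3648) (nat_lit 0) (XT.nd (nat_lit 390) (nat_lit 1064) (nat_lit 0) (XT.nd (nat_lit 156) (nat_lit 0) (nat_lit 76) (XT.nd (nat_lit 78) (nat_lit 0) (nat_lit 76) (XT.lf (nat_lit 1292) (nat_lit 632089483) (nat_lit 76) (nat_lit 969506856) (nat_lit 0) (nat_lit 969506856) (nat_lit 394) (nat_lit 1) (nat_lit 378) (nat_lit 1) (nat_lit 377) (nat_lit 1) (nat_lit 371) (nat_lit 328) (nat_lit 321)) (XT.lf (nat_lit 1292) (nat_lit 266453029) (nat_lit 0) (nat_lit 2001965482) (nat_lit 1216) (nat_lit 266453029) (nat_lit 395) (nat_lit 1) (nat_lit 378) (nat_lit 1) (nat_lit 394) (nat_lit 1) (nat_lit 372)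 (nat_lit 328) (nat_lit 320))) (XT.nd (nat_lit 78) (nat_lit 0) (nat_lit 76) (XT.lf (nat_lit 1292) (nat_lit 416984360) (nat_lit 76) (nat_lit 1041069577) (nat_lit 0) (nat_lit 1041069577) (nat_lit 395) (nat_lit 1) (nat_lit 379) (nat_lit 1) (nat_lit 378) (nat_lit 1) (nat_lit 373) (nat_lit 328) (nat_lit 319)) (XT.nd (nat_lit 78) (nat_lit 0) (nat_lit 0) (XT.lf (nat_lit 1292) (nat_lit 150155231) (nat_lit 0) (nat_lit 2163985979) (nat_lit 1216) (nat_lit 150155231) (nat_lit 396) (nat_lit 1) (nat_lit 379) (nat_lit 1) (nat_lit 395) (nat_lit 1) (nat_lit 374) (nat_lit 328) (nat_lit 318)) (XT.lf (nat_lit 1292) (nat_lit 165819286) (nat_lit 76) (nat_lit 1132023268) (nat_lit 0) (nat_lit 1132023268) (nat_lit 396) (nat_lit 1) (nat_lit 380) (nat_lit 1) (nat_lit 379) (nat_lit 1) (nat_lit 375) (nat_lit 328) (nat_lit 317))))) (XT.nd (nat_lit 234) (nat_lit 0) (nat_lit 76) (XT.nd (nat_lit 78) (nat_lit 1292) (nat_lit 0) (XT.lf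 (nat_lit 1292) (nat_lit 16801776) (nat_lit 0) (nat_lit 2362786665) (nat_lit 1216) (nat_lit 16801776) (nat_lit 397) (nat_lit 1) (nat_lit 380) (nat_lit 1) (nat_lit 396) (nat_lit 1) (nat_lit 376) (nat_lit 328) (nat_lit 316)) (XT.nd (nat_lit 78) (nat_lit 0) (nat_lit 0) (XT.lf (nat_lit 1368) (nat_lit 1123778137) (nat_lit 0) (nat_lit 115624653) (nat_lit 1292) (nat_lit 1123778137) (nat_lit 381) (nat_lit 1) (nat_lit 363) (nat_lit 1) (nat_lit 380) (nat_lit 1) (nat_lit 377) (nat_lit 328) (nat_lit 315)) (XT.lf (nat_lit 1368) (nat_lit 2069599853) (nat_lit 76) (nat_lit 130643557) (nat_lit 0) (nat_lit 130643557) (nat_lit 381) (nat_lit 1) (nat_lit 364) (nat_lit 1) (nat_lit 363) (nat_lit 1) (nat_lit 378) (nat_lit 328) (nat_lit 314)))) (XT.nd (nat_lit 78) (nat_lit 0) (nat_lit 0) (XT.lf (nat_lit 1368) (nat_lit 938167771) (nat_lit 0) (nat_lit 422601241) (nat_lit 1292) (nat_lit 938167771) (nat_lit 382) (nat_lit 1) (nat_lit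 364) (nat_lit 1) (nat_lit 381) (nat_lit 1) (nat_lit 379) (nat_lit 328) (nat_lit 313)) (XT.nd (nat_lit 78) (nat_lit 0) (nat_lit 76) (XT.lf (nat_lit 1368) (nat_lit 1684557139) (nat_lit 76) (nat_lit 291619686) (nat_lit 0) (nat_lit 291619686) (nat_lit 382) (nat_lit 1) (nat_lit 365) (nat_lit 1) (nat_lit 364) (nat_lit 1) (nat_lit 380) (nat_lit 328) (nat_lit 312)) (XT.lf (nat_lit 76) (nat_lit 740842865) (nat_lit 0) (nat_lit 755391717) (nat_lit 1292) (nat_lit 740842865) (nat_lit 366) (nat_lit 1) (nat_lit 365) (nat_lit 1) (nat_lit 382) (nat_lit 1) (nat_lit 381) (nat_lit 328) (nat_lit 311)))))) (XT.nd (nat_lit 390) (nat_lit 1748) (nat_lit 0) (XT.nd (nat_lit 156) (nat_lit 1216) (nat_lit 0) (XT.nd (nat_lit 78) (nat_lit 0) (nat_lit 0) (XT.lf (nat_lit 912) (nat_lit 1277317398) (nat_lit 0) (nat_lit 464860007) (nat_lit 836) (nat_lit 464860007) (nat_lit 366) (nat_lit 1) (nat_lit 354) (nat_lit 1) (nat_lit 365) (nat_lit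 1) (nat_lit 382) (nat_lit 328) (nat_lit 310)) (XT.lf (nat_lit 76) (nat_lit 533127417) (nat_lit 0) (nat_lit 1111249144) (nat_lit 912) (nat_lit 533127417) (nat_lit 355) (nat_lit 1) (nat_lit 354) (nat_lit 1) (nat_lit 366) (nat_lit 1) (nat_lit 383) (nat_lit 328) (nat_lit 309))) (XT.nd (nat_lit 78) (nat_lit 608) (nat_lit 0) (XT.lf (nat_lit 684) (nat_lit 850445124) (nat_lit 0) (nat_lit 649034149) (nat_lit 608) (nat_lit 649034149) (nat_lit 355) (nat_lit 1) (nat_lit 346) (nat_lit 1) (nat_lit 354) (nat_lit 1) (nat_lit 384) (nat_lit 328) (nat_lit 308)) (XT.nd (nat_lit 78) (nat_lit 608) (nat_lit 0) (XT.lf (nat_lit 76) (nat_lit 316250442) (nat_lit 0) (nat_lit 1487621118) (nat_lit 684) (nat_lit 316250442) (nat_lit 347) (nat_lit 1) (nat_lit 346) (nat_lit 1) (nat_lit 355) (nat_lit 1) (nat_lit 385) (nat_lit 328) (nat_lit 307)) (XT.lf (nat_lit 684) (nat_lit 406320015) (nat_lit 0) (nat_lit 842906354) (nat_lit 608) (nat_lit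 842906354) (nat_lit 347) (nat_lit 1) (nat_lit 338) (nat_lit 1) (nat_lit 346) (nat_lit 1) (nat_lit 386) (nat_lit 328) (nat_lit 306))))) (XT.nd (nat_lit 234) (nat_lit 532) (nat_lit 0) (XT.nd (nat_lit 78) (nat_lit 1216) (nat_lit 0) (XT.lf (nat_lit 76) (nat_lit 91351983) (nat_lit 0) (nat_lit 1882137527) (nat_lit 684) (nat_lit 91351983) (nat_lit 339) (nat_lit 1) (nat_lit 338) (nat_lit 1) (nat_lit 347) (nat_lit 1) (nat_lit 387) (nat_lit 328) (nat_lit 305)) (XT.nd (nat_lit 78) (nat_lit 608) (nat_lit 0) (XT.lf (nat_lit 76) (nat_lit 992986233) (nat_lit 0) (nat_lit 51820000) (nat_lit 608) (nat_lit 992986233) (nat_lit 331) (nat_lit 1) (nat_lit 330) (nat_lit 1) (nat_lit 338) (nat_lit 1) (nat_lit 388) (nat_lit 328) (nat_lit 304)) (XT.lf (nat_lit 684) (nat_lit 1733146283) (nat_lit 0) (nat_lit 139133685) (nat_lit 608) (nat_lit 139133685) (nat_lit 331) (nat_lit 1) (nat_lit 322) (nat_lit 1) (nat_lit 330) (nat_lit 1)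 (nat_lit 389) (nat_lit 328) (nat_lit 303)))) (XT.nd (nat_lit 78) (nat_lit 532) (nat_lit 0) (XT.lf (nat_lit 76) (nat_lit 735262052) (nat_lit 0) (nat_lit 514779250) (nat_lit 684) (nat_lit 735262052) (nat_lit 323) (nat_lit 1) (nat_lit 322) (nat_lit 1) (nat_lit 331) (nat_lit 1) (nat_lit 390) (nat_lit 328) (nat_lit 302)) (XT.nd (nat_lit 78) (nat_lit 0) (nat_lit 0) (XT.lf (nat_lit 608) (nat_lit 1210504262) (nat_lit 0) (nat_lit 374651146) (nat_lit 532) (nat_lit 374651146) (nat_lit 323) (nat_lit 1) (nat_lit 315) (nat_lit 1) (nat_lit 322) (nat_lit 1) (nat_lit 391) (nat_lit 328) (nat_lit 301)) (XT.lf (nat_lit 76) (nat_lit 473036310) (nat_lit 0) (nat_lit 988630675) (nat_lit 608) (nat_lit 473036310) (nat_lit 316) (nat_lit 1) (nat_lit 315) (nat_lit 1) (nat_lit 323) (nat_lit 1) (nat_lit 392) (nat_lit 328) (nat_lit 300))))))) (XT.nd (nat_lit 51480) (nat_lit 0) (nat_lit 2888) (XT.nd (nat_lit 51012) (nat_lit 0) (nat_lit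 5168) (XT.nd (nat_lit 50778) (nat_lit 0) (nat_lit 5016) (XT.nd (nat_lit 50700) (nat_lit 0) (nat_lit 5016) (XT.lf (nat_lit 608) (nat_lit 679650415) (nat_lit 0) (nat_lit 615199240) (nat_lit 532) (nat_lit 615199240) (nat_lit 316) (nat_lit 1) (nat_lit 308) (nat_lit 1) (nat_lit 315) (nat_lit 1) (nat_lit 393) (nat_lit 328) (nat_lit 299)) (XT.lf (nat_lit 1292) (nat_lit 269435741) (nat_lit 0) (nat_lit 926984256) (nat_lit 1292) (nat_lit 269435741) (nat_lit 391) (nat_lit 1) (nat_lit 374) (nat_lit 0) (nat_lit 391) (nat_lit 0) (nat_lit 362) (nat_lit 329) (nat_lit 329))) (XT.nd (nat_lit 78) (nat_lit 0) (nat_lit 76) (XT.lf (nat_lit 1292) (nat_lit 1052959598) (nat_lit 76) (nat_lit 917896175) (nat_lit 0) (nat_lit 917896175) (nat_lit 391) (nat_lit 1) (nat_lit 375) (nat_lit 1) (nat_lit 374) (nat_lit 0) (nat_lit 363) (nat_lit 329) (nat_lit 328)) (XT.nd (nat_lit 78) (nat_lit 0) (nat_lit 0) (XT.lf (nat_lit 1292) (nat_lit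 509236367) (nat_lit 0) (nat_lit 1828267284) (nat_lit 1216) (nat_lit 509236367) (nat_lit 392) (nat_lit 1) (nat_lit 375) (nat_lit 1) (nat_lit 391) (nat_lit 1) (nat_lit 364) (nat_lit 329) (nat_lit 327)) (XT.lf (nat_lit 1292) (nat_lit 967066153) (nat_lit 76) (nat_lit 919181759) (nat_lit 0) (nat_lit 919181759) (nat_lit 392) (nat_lit 1) (nat_lit 376) (nat_lit 1) (nat_lit 375) (nat_lit 1) (nat_lit 365) (nat_lit 329) (nat_lit 326))))) (XT.nd (nat_lit 234) (nat_lit 0) (nat_lit 76) (XT.nd (nat_lit 78) (nat_lit 0) (nat_lit 0) (XT.lf (nat_lit 1292) (nat_lit 453790969) (nat_lit 0) (nat_lit 1857461719) (nat_lit 1216) (nat_lit 453790969) (nat_lit 393) (nat_lit 1) (nat_lit 376) (nat_lit 1) (nat_lit 392) (nat_lit 1) (nat_lit 366) (nat_lit 329) (nat_lit 325)) (XT.nd (nat_lit 78) (nat_lit 0) (nat_lit 76) (XT.lf (nat_lit 1292) (nat_lit 831619866) (nat_lit 76) (nat_lit 946841835) (nat_lit 0) (nat_lit 946841835) (nat_lit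 393) (nat_lit 1) (nat_lit 377) (nat_lit 1) (nat_lit 376) (nat_lit 1) (nat_lit 367) (nat_lit 329) (nat_lit 324)) (XT.lf (nat_lit 1292) (nat_lit 374818209) (nat_lit 0) (nat_lit 1936844653) (nat_lit 1216) (nat_lit 374818209) (nat_lit 394) (nat_lit 1) (nat_lit 377) (nat_lit 1) (nat_lit 393) (nat_lit 1) (nat_lit 368) (nat_lit 329) (nat_lit 323)))) (XT.nd (nat_lit 78) (nat_lit 0) (nat_lit 76) (XT.lf (nat_lit 1292) (nat_lit 651052168) (nat_lit 76) (nat_lit 998592062) (nat_lit 0) (nat_lit 998592062) (nat_lit 394) (nat_lit 1) (nat_lit 378) (nat_lit 1) (nat_lit 377) (nat_lit 1) (nat_lit 369) (nat_lit 329) (nat_lit 322)) (XT.nd (nat_lit 78) (nat_lit 0) (nat_lit 0) (XT.lf (nat_lit 1292) (nat_lit 274446620) (nat_lit 0) (nat_lit 2062024447) (nat_lit 1216) (nat_lit 274446620) (nat_lit 395) (nat_lit 1) (nat_lit 378) (nat_lit 1) (nat_lit 394) (nat_lit 1) (nat_lit 370) (nat_lit 329) (nat_lit 321)) (XT.lf (nat_lit 1292)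 (nat_lit 429493891) (nat_lit 76) (nat_lit 1072301664) (nat_lit 0) (nat_lit 1072301664) (nat_lit 395) (nat_lit 1) (nat_lit 379) (nat_lit 1) (nat_lit 378) (nat_lit 1) (nat_lit 371) (nat_lit 329) (nat_lit 320)))))) (XT.nd (nat_lit 468) (nat_lit 1292) (nat_lit 0) (XT.nd (nat_lit 234) (nat_lit 1216) (nat_lit 0) (XT.nd (nat_lit 78) (nat_lit 0) (nat_lit 0) (XT.lf (nat_lit 1292) (nat_lit 154659888) (nat_lit 0) (nat_lit 2228905559) (nat_lit 1216) (nat_lit 154659888) (nat_lit 396) (nat_lit 1) (nat_lit 379) (nat_lit 1) (nat_lit 395) (nat_lit 1) (nat_lit 372) (nat_lit 329) (nat_lit 319)) (XT.nd (nat_lit 78) (nat_lit 0) (nat_lit 76) (XT.lf (nat_lit 1292) (nat_lit 170793865) (nat_lit 76) (nat_lit 1165983966) (nat_lit 0) (nat_lit 1165983966) (nat_lit 396) (nat_lit 1) (nat_lit 380) (nat_lit 1) (nat_lit 379) (nat_lit 1) (nat_lit 373) (nat_lit 329) (nat_lit 318)) (XT.lf (nat_lit 1292) (nat_lit 17305830) (nat_lit 0) (nat_lit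 2433670265) (nat_lit 1216) (nat_lit 17305830) (nat_lit 397) (nat_lit 1) (nat_lit 380) (nat_lit 1) (nat_lit 396) (nat_lit 1) (nat_lit 374) (nat_lit 329) (nat_lit 317)))) (XT.nd (nat_lit 78) (nat_lit 0) (nat_lit 0) (XT.lf (nat_lit 1368) (nat_lit 1157491481) (nat_lit 0) (nat_lit 119093393) (nat_lit 1292) (nat_lit 1157491481) (nat_lit 381) (nat_lit 1) (nat_lit 363) (nat_lit 1) (nat_lit 380) (nat_lit 1) (nat_lit 375) (nat_lit 329) (nat_lit 316)) (XT.nd (nat_lit 78) (nat_lit 0) (nat_lit 76) (XT.lf (nat_lit 1368) (nat_lit 2131687849) (nat_lit 76) (nat_lit 134562864) (nat_lit 0) (nat_lit 134562864) (nat_lit 381) (nat_lit 1) (nat_lit 364) (nat_lit 1) (nat_lit 363) (nat_lit 1) (nat_lit 376) (nat_lit 329) (nat_lit 315)) (XT.lf (nat_lit 1368) (nat_lit 966312804) (nat_lit 0) (nat_lit 435279279) (nat_lit 1292) (nat_lit 966312804) (nat_lit 382) (nat_lit 1) (nat_lit 364) (nat_lit 1) (nat_lit 381) (nat_lit 1) (nat_lit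 377) (nat_lit 329) (nat_lit 314))))) (XT.nd (nat_lit 234) (nat_lit 608) (nat_lit 0) (XT.nd (nat_lit 78) (nat_lit 760) (nat_lit 0) (XT.lf (nat_lit 1368) (nat_lit 1735093853) (nat_lit 76) (nat_lit 300368277) (nat_lit 0) (nat_lit 300368277) (nat_lit 382) (nat_lit 1) (nat_lit 365) (nat_lit 1) (nat_lit 364) (nat_lit 1) (nat_lit 378) (nat_lit 329) (nat_lit 313)) (XT.nd (nat_lit 78) (nat_lit 836) (nat_lit 0) (XT.lf (nat_lit 76) (nat_lit 763068151) (nat_lit 0) (nat_lit 778053469) (nat_lit 1292) (nat_lit 763068151) (nat_lit 366) (nat_lit 1) (nat_lit 365) (nat_lit 1) (nat_lit 382) (nat_lit 1) (nat_lit 379) (nat_lit 329) (nat_lit 312)) (XT.lf (nat_lit 912) (nat_lit 1315636920) (nat_lit 0) (nat_lit 478805807) (nat_lit 836) (nat_lit 478805807) (nat_lit 366) (nat_lit 1) (nat_lit 354) (nat_lit 1) (nat_lit 365) (nat_lit 1) (nat_lit 380) (nat_lit 329) (nat_lit 311)))) (XT.nd (nat_lit 78) (nat_lit 608) (nat_lit 0) (XT.lf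 (nat_lit 76) (nat_lit 549121239) (nat_lit 0) (nat_lit 1144586618) (nat_lit 912) (nat_lit 549121239) (nat_lit 355) (nat_lit 1) (nat_lit 354) (nat_lit 1) (nat_lit 366) (nat_lit 1) (nat_lit 381) (nat_lit 329) (nat_lit 310)) (XT.nd (nat_lit 78) (nat_lit 0) (nat_lit 0) (XT.lf (nat_lit 684) (nat_lit 875958477) (nat_lit 0) (nat_lit 668505174) (nat_lit 608) (nat_lit 668505174) (nat_lit 355) (nat_lit 1) (nat_lit 346) (nat_lit 1) (nat_lit 354) (nat_lit 1) (nat_lit 382) (nat_lit 329) (nat_lit 309)) (XT.lf (nat_lit 76) (nat_lit 325737955) (nat_lit 0) (nat_lit 1532249751) (nat_lit 684) (nat_lit 325737955) (nat_lit 347) (nat_lit 1) (nat_lit 346) (nat_lit 1) (nat_lit 355) (nat_lit 1) (nat_lit 383) (nat_lit 329) (nat_lit 308))))))))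
noncomputable def ec6 : XT := (XT.nd (nat_lit 52182) (nat_lit 608) (nat_lit 0) (XT.nd (nat_lit 51324) (nat_lit 0) (nat_lit 5472) (XT.nd (nat_lit 390) (nat_lit 1520) (nat_lit 0) (XT.nd (nat_lit 156) (nat_lit 1216) (nat_lit 0) (XT.nd (nat_lit 78) (nat_lit 0) (nat_lit 0) (XT.lf (nat_lit 684) (nat_lit 418509615) (nat_lit 0) (nat_lit 868193545) (nat_lit 608) (nat_lit 868193545) (nat_lit 347) (nat_lit 1) (nat_lit 338) (nat_lit 1) (nat_lit 346) (nat_lit 1) (nat_lit 384) (nat_lit 329) (nat_lit 307)) (XT.lf (nat_lit 76) (nat_lit 94092543) (nat_lit 0) (nat_lit 1938601653) (nat_lit 684) (nat_lit 94092543) (nat_lit 339) (nat_lit 1) (nat_lit 338) (nat_lit 1) (nat_lit 347) (nat_lit 1) (nat_lit 385) (nat_lit 329) (nat_lit 306))) (XT.nd (nat_lit 78) (nat_lit 608) (nat_lit 0) (XT.lf (nat_lit 76) (nat_lit 1022775820) (nat_lit 0) (nat_lit 53374600) (nat_lit 608) (nat_lit 1022775820) (nat_lit 331) (nat_lit 1) (nat_lit 330)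 (nat_lit 1) (nat_lit 338) (nat_lit 1) (nat_lit 386) (nat_lit 329) (nat_lit 305)) (XT.nd (nat_lit 78) (nat_lit 0) (nat_lit 0) (XT.lf (nat_lit 684) (nat_lit 1785140672) (nat_lit 0) (nat_lit 143307696) (nat_lit 608) (nat_lit 143307696) (nat_lit 331) (nat_lit 1) (nat_lit 322) (nat_lit 1) (nat_lit 330) (nat_lit 1) (nat_lit 387) (nat_lit 329) (nat_lit 304)) (XT.lf (nat_lit 76) (nat_lit 757319914) (nat_lit 0) (nat_lit 530222628) (nat_lit 684) (nat_lit 757319914) (nat_lit 323) (nat_lit 1) (nat_lit 322) (nat_lit 1) (nat_lit 331) (nat_lit 1) (nat_lit 388) (nat_lit 329) (nat_lit 303))))) (XT.nd (nat_lit 234) (nat_lit 456) (nat_lit 0) (XT.nd (nat_lit 78) (nat_lit 532) (nat_lit 0) (XT.lf (nat_lit 608) (nat_lit 1246819390) (nat_lit 0) (nat_lit 385890681) (nat_lit 532) (nat_lit 385890681) (nat_lit 323) (nat_lit 1) (nat_lit 315) (nat_lit 1) (nat_lit 322) (nat_lit 1) (nat_lit 389) (nat_lit 329) (nat_lit 302)) (XT.nd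 (nat_lit 78) (nat_lit 532) (nat_lit 0) (XT.lf (nat_lit 76) (nat_lit 487227400) (nat_lit 0) (nat_lit 1018289595) (nat_lit 608) (nat_lit 487227400) (nat_lit 316) (nat_lit 1) (nat_lit 315) (nat_lit 1) (nat_lit 323) (nat_lit 1) (nat_lit 390) (nat_lit 329) (nat_lit 301)) (XT.lf (nat_lit 608) (nat_lit 700039928) (nat_lit 0) (nat_lit 633655217) (nat_lit 532) (nat_lit 633655217) (nat_lit 316) (nat_lit 1) (nat_lit 308) (nat_lit 1) (nat_lit 315) (nat_lit 1) (nat_lit 391) (nat_lit 329) (nat_lit 300)))) (XT.nd (nat_lit 78) (nat_lit 456) (nat_lit 0) (XT.lf (nat_lit 76) (nat_lit 213343316) (nat_lit 0) (nat_lit 1515807452) (nat_lit 608) (nat_lit 213343316) (nat_lit 309) (nat_lit 1) (nat_lit 308) (nat_lit 1) (nat_lit 316) (nat_lit 1) (nat_lit 392) (nat_lit 329) (nat_lit 299)) (XT.nd (nat_lit 50544) (nat_lit 0) (nat_lit 5472) (XT.lf (nat_lit 532) (nat_lit 146434228) (nat_lit 0) (nat_lit 885747355) (nat_lit 456) (nat_lit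 885747355) (nat_lit 309) (nat_lit 1) (nat_lit 302) (nat_lit 1) (nat_lit 308) (nat_lit 1) (nat_lit 393) (nat_lit 329) (nat_lit 298)) (XT.lf (nat_lit 1292) (nat_lit 277518813) (nat_lit 0) (nat_lit 954793784) (nat_lit 1292) (nat_lit 277518813) (nat_lit 391) (nat_lit 1) (nat_lit 374) (nat_lit 0) (nat_lit 391) (nat_lit 0) (nat_lit 360) (nat_lit 330) (nat_lit 330)))))) (XT.nd (nat_lit 390) (nat_lit 0) (nat_lit 228) (XT.nd (nat_lit 156) (nat_lit 0) (nat_lit 76) (XT.nd (nat_lit 78) (nat_lit 0) (nat_lit 76) (XT.lf (nat_lit 1292) (nat_lit 1084548386) (nat_lit 76) (nat_lit 945433061) (nat_lit 0) (nat_lit 945433061) (nat_lit 391) (nat_lit 1) (nat_lit 375) (nat_lit 1) (nat_lit 374) (nat_lit 0) (nat_lit 361) (nat_lit 330) (nat_lit 329)) (XT.lf (nat_lit 1292) (nat_lit 524513458) (nat_lit 0) (nat_lit 1883115302) (nat_lit 1216) (nat_lit 524513458) (nat_lit 392) (nat_lit 1) (nat_lit 375) (nat_lit 1) (nat_lit 391) (nat_lit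 1) (nat_lit 362) (nat_lit 330) (nat_lit 328))) (XT.nd (nat_lit 78) (nat_lit 0) (nat_lit 76) (XT.lf (nat_lit 1292) (nat_lit 996078138) (nat_lit 76) (nat_lit 946757212) (nat_lit 0) (nat_lit 946757212) (nat_lit 392) (nat_lit 1) (nat_lit 376) (nat_lit 1) (nat_lit 375) (nat_lit 1) (nat_lit 363) (nat_lit 330) (nat_lit 327)) (XT.nd (nat_lit 78) (nat_lit 0) (nat_lit 0) (XT.lf (nat_lit 1292) (nat_lit 467404698) (nat_lit 0) (nat_lit 1913185571) (nat_lit 1216) (nat_lit 467404698) (nat_lit 393) (nat_lit 1) (nat_lit 376) (nat_lit 1) (nat_lit 392) (nat_lit 1) (nat_lit 364) (nat_lit 330) (nat_lit 326)) (XT.lf (nat_lit 1292) (nat_lit 856568461) (nat_lit 76) (nat_lit 975247090) (nat_lit 0) (nat_lit 975247090) (nat_lit 393) (nat_lit 1) (nat_lit 377) (nat_lit 1) (nat_lit 376) (nat_lit 1) (nat_lit 365) (nat_lit 330) (nat_lit 325))))) (XT.nd (nat_lit 234) (nat_lit 0) (nat_lit 76) (XT.nd (nat_lit 78) (nat_lit 0) (nat_lit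 0) (XT.lf (nat_lit 1292) (nat_lit 386062756) (nat_lit 0) (nat_lit 1994949993) (nat_lit 1216) (nat_lit 386062756) (nat_lit 394) (nat_lit 1) (nat_lit 377) (nat_lit 1) (nat_lit 393) (nat_lit 1) (nat_lit 366) (nat_lit 330) (nat_lit 324)) (XT.nd (nat_lit 78) (nat_lit 0) (nat_lit 76) (XT.lf (nat_lit 1292) (nat_lit 670583733) (nat_lit 76) (nat_lit 1028549824) (nat_lit 0) (nat_lit 1028549824) (nat_lit 394) (nat_lit 1) (nat_lit 378) (nat_lit 1) (nat_lit 377) (nat_lit 1) (nat_lit 367) (nat_lit 330) (nat_lit 323)) (XT.lf (nat_lit 1292) (nat_lit 282680019) (nat_lit 0) (nat_lit 2123885180) (nat_lit 1216) (nat_lit 282680019) (nat_lit 395) (nat_lit 1) (nat_lit 378) (nat_lit 1) (nat_lit 394) (nat_lit 1) (nat_lit 368) (nat_lit 330) (nat_lit 322)))) (XT.nd (nat_lit 78) (nat_lit 0) (nat_lit 76) (XT.lf (nat_lit 1292) (nat_lit 442378708) (nat_lit 76) (nat_lit 1104470714) (nat_lit 0) (nat_lit 1104470714) (nat_lit 395) (nat_lit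 1) (nat_lit 379) (nat_lit 1) (nat_lit 378) (nat_lit 1) (nat_lit 369) (nat_lit 330) (nat_lit 321)) (XT.nd (nat_lit 78) (nat_lit 0) (nat_lit 0) (XT.lf (nat_lit 1292) (nat_lit 159299685) (nat_lit 0) (nat_lit 2295772725) (nat_lit 1216) (nat_lit 159299685) (nat_lit 396) (nat_lit 1) (nat_lit 379) (nat_lit 1) (nat_lit 395) (nat_lit 1) (nat_lit 370) (nat_lit 330) (nat_lit 320)) (XT.lf (nat_lit 1292) (nat_lit 175917681) (nat_lit 76) (nat_lit 1200963485) (nat_lit 0) (nat_lit 1200963485) (nat_lit 396) (nat_lit 1) (nat_lit 380) (nat_lit 1) (nat_lit 379) (nat_lit 1) (nat_lit 371) (nat_lit 330) (nat_lit 319))))))) (XT.nd (nat_lit 858) (nat_lit 3344) (nat_lit 0) (XT.nd (nat_lit 390) (nat_lit 1900) (nat_lit 0) (XT.nd (nat_lit 156) (nat_lit 0) (nat_lit 0) (XT.nd (nat_lit 78) (nat_lit 1292) (nat_lit 0) (XT.lf (nat_lit 1292) (nat_lit 17825004) (nat_lit 0) (nat_lit 2506680373) (nat_lit 1216) (nat_lit 17825004) (nat_lit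 397) (nat_lit 1) (nat_lit 380) (nat_lit 1) (nat_lit 396) (nat_lit 1) (nat_lit 372) (nat_lit 330) (nat_lit 318)) (XT.lf (nat_lit 1368) (nat_lit 1192216225) (nat_lit 0) (nat_lit 122666195) (nat_lit 1292) (nat_lit 1192216225) (nat_lit 381) (nat_lit 1) (nat_lit 363) (nat_lit 1) (nat_lit 380) (nat_lit 1) (nat_lit 373) (nat_lit 330) (nat_lit 317))) (XT.nd (nat_lit 78) (nat_lit 0) (nat_lit 76) (XT.lf (nat_lit 1368) (nat_lit 2195638484) (nat_lit 76) (nat_lit 138599750) (nat_lit 0) (nat_lit 138599750) (nat_lit 381) (nat_lit 1) (nat_lit 364) (nat_lit 1) (nat_lit 363) (nat_lit 1) (nat_lit 374) (nat_lit 330) (nat_lit 316)) (XT.nd (nat_lit 78) (nat_lit 0) (nat_lit 0) (XT.lf (nat_lit 1368) (nat_lit 995302188) (nat_lit 0) (nat_lit 448337657) (nat_lit 1292) (nat_lit 995302188) (nat_lit 382) (nat_lit 1) (nat_lit 364) (nat_lit 1) (nat_lit 381) (nat_lit 1) (nat_lit 375) (nat_lit 330) (nat_lit 315)) (XT.lf (nat_lit 1368)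 (nat_lit 1787146669) (nat_lit 76) (nat_lit 309379325) (nat_lit 0) (nat_lit 309379325) (nat_lit 382) (nat_lit 1) (nat_lit 365) (nat_lit 1) (nat_lit 364) (nat_lit 1) (nat_lit 376) (nat_lit 330) (nat_lit 314))))) (XT.nd (nat_lit 234) (nat_lit 1216) (nat_lit 0) (XT.nd (nat_lit 78) (nat_lit 836) (nat_lit 0) (XT.lf (nat_lit 76) (nat_lit 785960196) (nat_lit 0) (nat_lit 801395073) (nat_lit 1292) (nat_lit 785960196) (nat_lit 366) (nat_lit 1) (nat_lit 365) (nat_lit 1) (nat_lit 382) (nat_lit 1) (nat_lit 377) (nat_lit 330) (nat_lit 313)) (XT.nd (nat_lit 78) (nat_lit 0) (nat_lit 0) (XT.lf (nat_lit 912) (nat_lit 1355106028) (nat_lit 0) (nat_lit 493169981) (nat_lit 836) (nat_lit 493169981) (nat_lit 366) (nat_lit 1) (nat_lit 354) (nat_lit 1) (nat_lit 365) (nat_lit 1) (nat_lit 378) (nat_lit 330) (nat_lit 312)) (XT.lf (nat_lit 76) (nat_lit 565594876) (nat_lit 0) (nat_lit 1178924217) (nat_lit 912) (nat_lit 565594876) (nat_lit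 355) (nat_lit 1) (nat_lit 354) (nat_lit 1) (nat_lit 366) (nat_lit 1) (nat_lit 379) (nat_lit 330) (nat_lit 311)))) (XT.nd (nat_lit 78) (nat_lit 608) (nat_lit 0) (XT.lf (nat_lit 684) (nat_lit 902237232) (nat_lit 0) (nat_lit 688560329) (nat_lit 608) (nat_lit 688560329) (nat_lit 355) (nat_lit 1) (nat_lit 346) (nat_lit 1) (nat_lit 354) (nat_lit 1) (nat_lit 380) (nat_lit 330) (nat_lit 310)) (XT.nd (nat_lit 78) (nat_lit 608) (nat_lit 0) (XT.lf (nat_lit 76) (nat_lit 335510094) (nat_lit 0) (nat_lit 1578217244) (nat_lit 684) (nat_lit 335510094) (nat_lit 347) (nat_lit 1) (nat_lit 346) (nat_lit 1) (nat_lit 355) (nat_lit 1) (nat_lit 381) (nat_lit 330) (nat_lit 309)) (XT.lf (nat_lit 684) (nat_lit 431064903) (nat_lit 0) (nat_lit 894239351) (nat_lit 608) (nat_lit 894239351) (nat_lit 347) (nat_lit 1) (nat_lit 338) (nat_lit 1) (nat_lit 346) (nat_lit 1) (nat_lit 382) (nat_lit 330) (nat_lit 308)))))) (XT.nd (nat_lit 390)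 (nat_lit 1596) (nat_lit 0) (XT.nd (nat_lit 156) (nat_lit 1140) (nat_lit 0) (XT.nd (nat_lit 78) (nat_lit 608) (nat_lit 0) (XT.lf (nat_lit 76) (nat_lit 96915319) (nat_lit 0) (nat_lit 1996759703) (nat_lit 684) (nat_lit 96915319) (nat_lit 339) (nat_lit 1) (nat_lit 338) (nat_lit 1) (nat_lit 347) (nat_lit 1) (nat_lit 383) (nat_lit 330) (nat_lit 307)) (XT.lf (nat_lit 76) (nat_lit 1053459094) (nat_lit 0) (nat_lit 54975838) (nat_lit 608) (nat_lit 1053459094) (nat_lit 331) (nat_lit 1) (nat_lit 330) (nat_lit 1) (nat_lit 338) (nat_lit 1) (nat_lit 384) (nat_lit 330) (nat_lit 306))) (XT.nd (nat_lit 78) (nat_lit 532) (nat_lit 0) (XT.lf (nat_lit 684) (nat_lit 1838694892) (nat_lit 0) (nat_lit 147606927) (nat_lit 608) (nat_lit 147606927) (nat_lit 331) (nat_lit 1) (nat_lit 322) (nat_lit 1) (nat_lit 330) (nat_lit 1) (nat_lit 385) (nat_lit 330) (nat_lit 305)) (XT.nd (nat_lit 78) (nat_lit 532) (nat_lit 0) (XT.lf (nat_lit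 76) (nat_lit 780039511) (nat_lit 0) (nat_lit 546129306) (nat_lit 684) (nat_lit 780039511) (nat_lit 323) (nat_lit 1) (nat_lit 322) (nat_lit 1) (nat_lit 331) (nat_lit 1) (nat_lit 386) (nat_lit 330) (nat_lit 304)) (XT.lf (nat_lit 608) (nat_lit 1284223971) (nat_lit 0) (nat_lit 397467401) (nat_lit 532) (nat_lit 397467401) (nat_lit 323) (nat_lit 1) (nat_lit 315) (nat_lit 1) (nat_lit 322) (nat_lit 1) (nat_lit 387) (nat_lit 330) (nat_lit 303))))) (XT.nd (nat_lit 234) (nat_lit 1064) (nat_lit 0) (XT.nd (nat_lit 78) (nat_lit 532) (nat_lit 0) (XT.lf (nat_lit 76) (nat_lit 501844222) (nat_lit 0) (nat_lit 1048838283) (nat_lit 608) (nat_lit 501844222) (nat_lit 316) (nat_lit 1) (nat_lit 315) (nat_lit 1) (nat_lit 323) (nat_lit 1) (nat_lit 388) (nat_lit 330) (nat_lit 302)) (XT.nd (nat_lit 78) (nat_lit 0) (nat_lit 0) (XT.lf (nat_lit 608) (nat_lit 721041126) (nat_lit 0) (nat_lit 652664874) (nat_lit 532) (nat_lit 652664874)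 (nat_lit 316) (nat_lit 1) (nat_lit 308) (nat_lit 1) (nat_lit 315) (nat_lit 1) (nat_lit 389) (nat_lit 330) (nat_lit 301)) (XT.lf (nat_lit 76) (nat_lit 219743616) (nat_lit 0) (nat_lit 1561281676) (nat_lit 608) (nat_lit 219743616) (nat_lit 309) (nat_lit 1) (nat_lit 308) (nat_lit 1) (nat_lit 316) (nat_lit 1) (nat_lit 390) (nat_lit 330) (nat_lit 300)))) (XT.nd (nat_lit 78) (nat_lit 608) (nat_lit 0) (XT.lf (nat_lit 532) (nat_lit 150827255) (nat_lit 0) (nat_lit 912319775) (nat_lit 456) (nat_lit 912319775) (nat_lit 309) (nat_lit 1) (nat_lit 302) (nat_lit 1) (nat_lit 308) (nat_lit 1) (nat_lit 391) (nat_lit 330) (nat_lit 299)) (XT.nd (nat_lit 78) (nat_lit 0) (nat_lit 0) (XT.lf (nat_lit 608) (nat_lit 1821147300) (nat_lit 0) (nat_lit 64817487) (nat_lit 532) (nat_lit 64817487) (nat_lit 302) (nat_lit 1) (nat_lit 294) (nat_lit 1) (nat_lit 301) (nat_lit 1) (nat_lit 392) (nat_lit 330) (nat_lit 298)) (XT.lf (nat_lit 76)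 (nat_lit 754836188) (nat_lit 0) (nat_lit 416576923) (nat_lit 608) (nat_lit 754836188) (nat_lit 295) (nat_lit 1) (nat_lit 294) (nat_lit 1) (nat_lit 302) (nat_lit 1) (nat_lit 393) (nat_lit 330) (nat_lit 297))))))))
noncomputable def ec7 : XT := (XT.nd (nat_lit 1716) (nat_lit 4408) (nat_lit 0) (XT.nd (nat_lit 858) (nat_lit 2128) (nat_lit 0) (XT.nd (nat_lit 390) (nat_lit 0) (nat_lit 152) (XT.nd (nat_lit 156) (nat_lit 0) (nat_lit 76) (XT.nd (nat_lit 78) (nat_lit 0) (nat_lit 0) (XT.lf (nat_lit 1292) (nat_lit 285844378) (nat_lit 0) (nat_lit 983437597) (nat_lit 1292) (nat_lit 285844378) (nat_lit 391) (nat_lit 1) (nat_lit 374) (nat_lit 0) (nat_lit 391) (nat_lit 0) (nat_lit 358) (nat_lit 331) (nat_lit 331)) (XT.lf (nat_lit 1292) (nat_lit 1117084838) (nat_lit 76) (nat_lit 973796052) (nat_lit 0) (nat_lit 973796052) (nat_lit 391) (nat_lit 1) (nat_lit 375) (nat_lit 1) (nat_lit 374) (nat_lit 0) (nat_lit 359) (nat_lit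 331) (nat_lit 330))) (XT.nd (nat_lit 78) (nat_lit 0) (nat_lit 0) (XT.lf (nat_lit 1292) (nat_lit 540248862) (nat_lit 0) (nat_lit 1939608761) (nat_lit 1216) (nat_lit 540248862) (nat_lit 392) (nat_lit 1) (nat_lit 375) (nat_lit 1) (nat_lit 391) (nat_lit 1) (nat_lit 360) (nat_lit 331) (nat_lit 329)) (XT.nd (nat_lit 78) (nat_lit 0) (nat_lit 76) (XT.lf (nat_lit 1292) (nat_lit 1025960482) (nat_lit 76) (nat_lit 975159928) (nat_lit 0) (nat_lit 975159928) (nat_lit 392) (nat_lit 1) (nat_lit 376) (nat_lit 1) (nat_lit 375) (nat_lit 1) (nat_lit 361) (nat_lit 331) (nat_lit 328)) (XT.lf (nat_lit 1292) (nat_lit 481426839) (nat_lit 0) (nat_lit 1970581138) (nat_lit 1216) (nat_lit 481426839) (nat_lit 393) (nat_lit 1) (nat_lit 376) (nat_lit 1) (nat_lit 392) (nat_lit 1) (nat_lit 362) (nat_lit 331) (nat_lit 327))))) (XT.nd (nat_lit 234) (nat_lit 0) (nat_lit 152) (XT.nd (nat_lit 78) (nat_lit 0) (nat_lit 76) (XT.lf (nat_lit 1292)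 (nat_lit 882265515) (nat_lit 76) (nat_lit 1004504503) (nat_lit 0) (nat_lit 1004504503) (nat_lit 393) (nat_lit 1) (nat_lit 377) (nat_lit 1) (nat_lit 376) (nat_lit 1) (nat_lit 363) (nat_lit 331) (nat_lit 326)) (XT.nd (nat_lit 78) (nat_lit 0) (nat_lit 0) (XT.lf (nat_lit 1292) (nat_lit 397644638) (nat_lit 0) (nat_lit 2054798493) (nat_lit 1216) (nat_lit 397644638) (nat_lit 394) (nat_lit 1) (nat_lit 377) (nat_lit 1) (nat_lit 393) (nat_lit 1) (nat_lit 364) (nat_lit 331) (nat_lit 325)) (XT.lf (nat_lit 1292) (nat_lit 690701245) (nat_lit 76) (nat_lit 1059406319) (nat_lit 0) (nat_lit 1059406319) (nat_lit 394) (nat_lit 1) (nat_lit 378) (nat_lit 1) (nat_lit 377) (nat_lit 1) (nat_lit 365) (nat_lit 331) (nat_lit 324)))) (XT.nd (nat_lit 78) (nat_lit 0) (nat_lit 0) (XT.lf (nat_lit 1292) (nat_lit 291160419) (nat_lit 0) (nat_lit 2187601736) (nat_lit 1216) (nat_lit 291160419) (nat_lit 395) (nat_lit 1) (nat_lit 378) (nat_lit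 1) (nat_lit 394) (nat_lit 1) (nat_lit 366) (nat_lit 331) (nat_lit 323)) (XT.nd (nat_lit 78) (nat_lit 0) (nat_lit 76) (XT.lf (nat_lit 1292) (nat_lit 455650069) (nat_lit 76) (nat_lit 1137604836) (nat_lit 0) (nat_lit 1137604836) (nat_lit 395) (nat_lit 1) (nat_lit 379) (nat_lit 1) (nat_lit 378) (nat_lit 1) (nat_lit 367) (nat_lit 331) (nat_lit 322)) (XT.lf (nat_lit 1292) (nat_lit 164078676) (nat_lit 0) (nat_lit 2364645907) (nat_lit 1216) (nat_lit 164078676) (nat_lit 396) (nat_lit 1) (nat_lit 379) (nat_lit 1) (nat_lit 395) (nat_lit 1) (nat_lit 368) (nat_lit 331) (nat_lit 321)))))) (XT.nd (nat_lit 390) (nat_lit 1292) (nat_lit 0) (XT.nd (nat_lit 156) (nat_lit 1216) (nat_lit 0) (XT.nd (nat_lit 78) (nat_lit 0) (nat_lit 76) (XT.lf (nat_lit 1292) (nat_lit 181195211) (nat_lit 76) (nat_lit 1236992390) (nat_lit 0) (nat_lit 1236992390) (nat_lit 396) (nat_lit 1) (nat_lit 380) (nat_lit 1) (nat_lit 379) (nat_lit 1) (nat_lit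 369) (nat_lit 331) (nat_lit 320)) (XT.lf (nat_lit 1292) (nat_lit 18359755) (nat_lit 0) (nat_lit 2581880784) (nat_lit 1216) (nat_lit 18359755) (nat_lit 397) (nat_lit 1) (nat_lit 380) (nat_lit 1) (nat_lit 396) (nat_lit 1) (nat_lit 370) (nat_lit 331) (nat_lit 319))) (XT.nd (nat_lit 78) (nat_lit 0) (nat_lit 0) (XT.lf (nat_lit 1368) (nat_lit 1227982712) (nat_lit 0) (nat_lit 126346181) (nat_lit 1292) (nat_lit 1227982712) (nat_lit 381) (nat_lit 1) (nat_lit 363) (nat_lit 1) (nat_lit 380) (nat_lit 1) (nat_lit 371) (nat_lit 331) (nat_lit 318)) (XT.nd (nat_lit 78) (nat_lit 0) (nat_lit 76) (XT.lf (nat_lit 1368) (nat_lit 2261507639) (nat_lit 76) (nat_lit 142757743) (nat_lit 0) (nat_lit 142757743) (nat_lit 381) (nat_lit 1) (nat_lit 364) (nat_lit 1) (nat_lit 363) (nat_lit 1) (nat_lit 372) (nat_lit 331) (nat_lit 317)) (XT.lf (nat_lit 1368) (nat_lit 1025161254) (nat_lit 0) (nat_lit 461787787) (nat_lit 1292) (nat_lit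 1025161254) (nat_lit 382) (nat_lit 1) (nat_lit 364) (nat_lit 1) (nat_lit 381) (nat_lit 1) (nat_lit 373) (nat_lit 331) (nat_lit 316))))) (XT.nd (nat_lit 234) (nat_lit 608) (nat_lit 0) (XT.nd (nat_lit 78) (nat_lit 760) (nat_lit 0) (XT.lf (nat_lit 1368) (nat_lit 1840761069) (nat_lit 76) (nat_lit 318660705) (nat_lit 0) (nat_lit 318660705) (nat_lit 382) (nat_lit 1) (nat_lit 365) (nat_lit 1) (nat_lit 364) (nat_lit 1) (nat_lit 374) (nat_lit 331) (nat_lit 315)) (XT.nd (nat_lit 78) (nat_lit 836) (nat_lit 0) (XT.lf (nat_lit 76) (nat_lit 809539002) (nat_lit 0) (nat_lit 825436925) (nat_lit 1292) (nat_lit 809539002) (nat_lit 366) (nat_lit 1) (nat_lit 365) (nat_lit 1) (nat_lit 382) (nat_lit 1) (nat_lit 375) (nat_lit 331) (nat_lit 314)) (XT.lf (nat_lit 912) (nat_lit 1395759209) (nat_lit 0) (nat_lit 507965081) (nat_lit 836) (nat_lit 507965081) (nat_lit 366) (nat_lit 1) (nat_lit 354) (nat_lit 1) (nat_lit 365) (nat_lit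 1) (nat_lit 376) (nat_lit 331) (nat_lit 313)))) (XT.nd (nat_lit 78) (nat_lit 608) (nat_lit 0) (XT.lf (nat_lit 76) (nat_lit 582562723) (nat_lit 0) (nat_lit 1214291943) (nat_lit 912) (nat_lit 582562723) (nat_lit 355) (nat_lit 1) (nat_lit 354) (nat_lit 1) (nat_lit 366) (nat_lit 1) (nat_lit 377) (nat_lit 331) (nat_lit 312)) (XT.nd (nat_lit 78) (nat_lit 0) (nat_lit 0) (XT.lf (nat_lit 684) (nat_lit 929304349) (nat_lit 0) (nat_lit 709217139) (nat_lit 608) (nat_lit 709217139) (nat_lit 355) (nat_lit 1) (nat_lit 346) (nat_lit 1) (nat_lit 354) (nat_lit 1) (nat_lit 378) (nat_lit 331) (nat_lit 311)) (XT.lf (nat_lit 76) (nat_lit 345575397) (nat_lit 0) (nat_lit 1625563761) (nat_lit 684) (nat_lit 345575397) (nat_lit 347) (nat_lit 1) (nat_lit 346) (nat_lit 1) (nat_lit 355) (nat_lit 1) (nat_lit 379) (nat_lit 331) (nat_lit 310))))))) (XT.nd (nat_lit 858) (nat_lit 456) (nat_lit 0) (XT.nd (nat_lit 390) (nat_lit 2128) (nat_lit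 0) (XT.nd (nat_lit 156) (nat_lit 1216) (nat_lit 0) (XT.nd (nat_lit 78) (nat_lit 0) (nat_lit 0) (XT.lf (nat_lit 684) (nat_lit 443996851) (nat_lit 0) (nat_lit 921066532) (nat_lit 608) (nat_lit 921066532) (nat_lit 347) (nat_lit 1) (nat_lit 338) (nat_lit 1) (nat_lit 346) (nat_lit 1) (nat_lit 380) (nat_lit 331) (nat_lit 309)) (XT.lf (nat_lit 76) (nat_lit 99822778) (nat_lit 0) (nat_lit 2056662494) (nat_lit 684) (nat_lit 99822778) (nat_lit 339) (nat_lit 1) (nat_lit 338) (nat_lit 1) (nat_lit 347) (nat_lit 1) (nat_lit 381) (nat_lit 331) (nat_lit 308))) (XT.nd (nat_lit 78) (nat_lit 608) (nat_lit 0) (XT.lf (nat_lit 76) (nat_lit 1085062867) (nat_lit 0) (nat_lit 56625114) (nat_lit 608) (nat_lit 1085062867) (nat_lit 331) (nat_lit 1) (nat_lit 330) (nat_lit 1) (nat_lit 338) (nat_lit 1) (nat_lit 382) (nat_lit 331) (nat_lit 307)) (XT.nd (nat_lit 78) (nat_lit 0) (nat_lit 0) (XT.lf (nat_lit 684) (nat_lit 1893855738) (nat_lit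 0) (nat_lit 152035135) (nat_lit 608) (nat_lit 152035135) (nat_lit 331) (nat_lit 1) (nat_lit 322) (nat_lit 1) (nat_lit 330) (nat_lit 1) (nat_lit 383) (nat_lit 331) (nat_lit 306)) (XT.lf (nat_lit 76) (nat_lit 803440697) (nat_lit 0) (nat_lit 562513186) (nat_lit 684) (nat_lit 803440697) (nat_lit 323) (nat_lit 1) (nat_lit 322) (nat_lit 1) (nat_lit 331) (nat_lit 1) (nat_lit 384) (nat_lit 331) (nat_lit 305))))) (XT.nd (nat_lit 234) (nat_lit 1064) (nat_lit 0) (XT.nd (nat_lit 78) (nat_lit 532) (nat_lit 0) (XT.lf (nat_lit 608) (nat_lit 1322750691) (nat_lit 0) (nat_lit 409391423) (nat_lit 532) (nat_lit 409391423) (nat_lit 323) (nat_lit 1) (nat_lit 315) (nat_lit 1) (nat_lit 322) (nat_lit 1) (nat_lit 385) (nat_lit 331) (nat_lit 304)) (XT.nd (nat_lit 78) (nat_lit 532) (nat_lit 0) (XT.lf (nat_lit 76) (nat_lit 516899548) (nat_lit 0) (nat_lit 1080303432) (nat_lit 608) (nat_lit 516899548) (nat_lit 316) (nat_lit 1) (nat_lit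 315) (nat_lit 1) (nat_lit 323) (nat_lit 1) (nat_lit 386) (nat_lit 331) (nat_lit 303)) (XT.lf (nat_lit 608) (nat_lit 742672359) (nat_lit 0) (nat_lit 672244820) (nat_lit 532) (nat_lit 672244820) (nat_lit 316) (nat_lit 1) (nat_lit 308) (nat_lit 1) (nat_lit 315) (nat_lit 1) (nat_lit 387) (nat_lit 331) (nat_lit 302)))) (XT.nd (nat_lit 78) (nat_lit 1064) (nat_lit 0) (XT.lf (nat_lit 76) (nat_lit 226335924) (nat_lit 0) (nat_lit 1608120126) (nat_lit 608) (nat_lit 226335924) (nat_lit 309) (nat_lit 1) (nat_lit 308) (nat_lit 1) (nat_lit 316) (nat_lit 1) (nat_lit 388) (nat_lit 331) (nat_lit 301)) (XT.nd (nat_lit 78) (nat_lit 608) (nat_lit 0) (XT.lf (nat_lit 532) (nat_lit 155352073) (nat_lit 0) (nat_lit 939689368) (nat_lit 456) (nat_lit 939689368) (nat_lit 309) (nat_lit 1) (nat_lit 302) (nat_lit 1) (nat_lit 308) (nat_lit 1) (nat_lit 389) (nat_lit 331) (nat_lit 300)) (XT.lf (nat_lit 608) (nat_lit 1875781719) (nat_lit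 0) (nat_lit 66762011) (nat_lit 532) (nat_lit 66762011) (nat_lit 302) (nat_lit 1) (nat_lit 294) (nat_lit 1) (nat_lit 301) (nat_lit 1) (nat_lit 390) (nat_lit 331) (nat_lit 299)))))) (XT.nd (nat_lit 50622) (nat_lit 0) (nat_lit 6612) (XT.nd (nat_lit 50388) (nat_lit 0) (nat_lit 6536) (XT.nd (nat_lit 78) (nat_lit 456) (nat_lit 0) (XT.lf (nat_lit 76) (nat_lit 777481274) (nat_lit 0) (nat_lit 429074231) (nat_lit 608) (nat_lit 777481274) (nat_lit 295) (nat_lit 1) (nat_lit 294) (nat_lit 1) (nat_lit 302) (nat_lit 1) (nat_lit 391) (nat_lit 331) (nat_lit 298)) (XT.nd (nat_lit 78) (nat_lit 0) (nat_lit 0) (XT.lf (nat_lit 532) (nat_lit 1239281014) (nat_lit 0) (nat_lit 360050134) (nat_lit 456) (nat_lit 360050134) (nat_lit 295) (nat_lit 1) (nat_lit 288) (nat_lit 1) (nat_lit 294) (nat_lit 1) (nat_lit 392) (nat_lit 331) (nat_lit 297)) (XT.lf (nat_lit 76) (nat_lit 460261990) (nat_lit 0) (nat_lit 1014562546) (nat_lit 532)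 (nat_lit 460261990) (nat_lit 289) (nat_lit 1) (nat_lit 288) (nat_lit 1) (nat_lit 295) (nat_lit 1) (nat_lit 393) (nat_lit 331) (nat_lit 296)))) (XT.nd (nat_lit 78) (nat_lit 0) (nat_lit 0) (XT.lf (nat_lit 1292) (nat_lit 294419709) (nat_lit 0) (nat_lit 1012940725) (nat_lit 1292) (nat_lit 294419709) (nat_lit 391) (nat_lit 1) (nat_lit 374) (nat_lit 0) (nat_lit 391) (nat_lit 0) (nat_lit 356) (nat_lit 332) (nat_lit 332)) (XT.nd (nat_lit 78) (nat_lit 0) (nat_lit 76) (XT.lf (nat_lit 1292) (nat_lit 1150597383) (nat_lit 76) (nat_lit 1003009934) (nat_lit 0) (nat_lit 1003009934) (nat_lit 391) (nat_lit 1) (nat_lit 375) (nat_lit 1) (nat_lit 374) (nat_lit 0) (nat_lit 357) (nat_lit 332) (nat_lit 331)) (XT.lf (nat_lit 1292) (nat_lit 556456328) (nat_lit 0) (nat_lit 1997797024) (nat_lit 1216) (nat_lit 556456328) (nat_lit 392) (nat_lit 1) (nat_lit 375) (nat_lit 1) (nat_lit 391) (nat_lit 1) (nat_lit 358) (nat_lit 332) (nat_lit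 330))))) (XT.nd (nat_lit 234) (nat_lit 0) (nat_lit 152) (XT.nd (nat_lit 78) (nat_lit 0) (nat_lit 76) (XT.lf (nat_lit 1292) (nat_lit 1056739297) (nat_lit 76) (nat_lit 1004414726) (nat_lit 0) (nat_lit 1004414726) (nat_lit 392) (nat_lit 1) (nat_lit 376) (nat_lit 1) (nat_lit 375) (nat_lit 1) (nat_lit 359) (nat_lit 332) (nat_lit 329)) (XT.nd (nat_lit 78) (nat_lit 0) (nat_lit 0) (XT.lf (nat_lit 1292) (nat_lit 495869645) (nat_lit 0) (nat_lit 2029698572) (nat_lit 1216) (nat_lit 495869645) (nat_lit 393) (nat_lit 1) (nat_lit 376) (nat_lit 1) (nat_lit 392) (nat_lit 1) (nat_lit 360) (nat_lit 332) (nat_lit 328)) (XT.lf (nat_lit 1292) (nat_lit 908733481) (nat_lit 76) (nat_lit 1034639638) (nat_lit 0) (nat_lit 1034639638) (nat_lit 393) (nat_lit 1) (nat_lit 377) (nat_lit 1) (nat_lit 376) (nat_lit 1) (nat_lit 361) (nat_lit 332) (nat_lit 327)))) (XT.nd (nat_lit 78) (nat_lit 0) (nat_lit 0) (XT.lf (nat_lit 1292) (nat_lit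 409573978) (nat_lit 0) (nat_lit 2116442447) (nat_lit 1216) (nat_lit 409573978) (nat_lit 394) (nat_lit 1) (nat_lit 377) (nat_lit 1) (nat_lit 393) (nat_lit 1) (nat_lit 362) (nat_lit 332) (nat_lit 326)) (XT.nd (nat_lit 78) (nat_lit 0) (nat_lit 76) (XT.lf (nat_lit 1292) (nat_lit 711422282) (nat_lit 76) (nat_lit 1091188508) (nat_lit 0) (nat_lit 1091188508) (nat_lit 394) (nat_lit 1) (nat_lit 378) (nat_lit 1) (nat_lit 377) (nat_lit 1) (nat_lit 363) (nat_lit 332) (nat_lit 325)) (XT.lf (nat_lit 1292) (nat_lit 299895232) (nat_lit 0) (nat_lit 2253229788) (nat_lit 1216) (nat_lit 299895232) (nat_lit 395) (nat_lit 1) (nat_lit 378) (nat_lit 1) (nat_lit 394) (nat_lit 1) (nat_lit 364) (nat_lit 332) (nat_lit 324))))))))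
noncomputable def ec8 : XT := (XT.nd (nat_lit 1716) (nat_lit 1976) (nat_lit 0) (XT.nd (nat_lit 858) (nat_lit 3496) (nat_lit 0) (XT.nd (nat_lit 390) (nat_lit 684) (nat_lit 0) (XT.nd (nat_lit 156) (nat_lit 1140) (nat_lit 0) (XT.nd (nat_lit 78) (nat_lit 0) (nat_lit 76) (XT.lf (nat_lit 1292) (nat_lit 469319571) (nat_lit 76) (nat_lit 1171732981) (nat_lit 0) (nat_lit 1171732981) (nat_lit 395) (nat_lit 1) (nat_lit 379) (nat_lit 1) (nat_lit 378) (nat_lit 1) (nat_lit 365) (nat_lit 332) (nat_lit 323)) (XT.lf (nat_lit 1292) (nat_lit 169001036) (nat_lit 0) (nat_lit 2435585284) (nat_lit 1216) (nat_lit 169001036) (nat_lit 396) (nat_lit 1) (nat_lit 379) (nat_lit 1) (nat_lit 395) (nat_lit 1) (nat_lit 366) (nat_lit 332) (nat_lit 322))) (XT.nd (nat_lit 78) (nat_lit 1216) (nat_lit 0) (XT.lf (nat_lit 1292) (nat_lit 186631068) (nat_lit 76) (nat_lit 1274102161) (nat_lit 0) (nat_lit 1274102161) (nat_lit 396) (nat_lit 1) (nat_lit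 380) (nat_lit 1) (nat_lit 379) (nat_lit 1) (nat_lit 367) (nat_lit 332) (nat_lit 321)) (XT.nd (nat_lit 78) (nat_lit 1292) (nat_lit 0) (XT.lf (nat_lit 1292) (nat_lit 18910547) (nat_lit 0) (nat_lit 2659337208) (nat_lit 1216) (nat_lit 18910547) (nat_lit 397) (nat_lit 1) (nat_lit 380) (nat_lit 1) (nat_lit 396) (nat_lit 1) (nat_lit 368) (nat_lit 332) (nat_lit 320)) (XT.lf (nat_lit 1368) (nat_lit 1264822193) (nat_lit 0) (nat_lit 130136566) (nat_lit 1292) (nat_lit 1264822193) (nat_lit 381) (nat_lit 1) (nat_lit 363) (nat_lit 1) (nat_lit 380) (nat_lit 1) (nat_lit 369) (nat_lit 332) (nat_lit 319))))) (XT.nd (nat_lit 234) (nat_lit 684) (nat_lit 0) (XT.nd (nat_lit 78) (nat_lit 0) (nat_lit 76) (XT.lf (nat_lit 1368) (nat_lit 2329352868) (nat_lit 76) (nat_lit 147040475) (nat_lit 0) (nat_lit 147040475) (nat_lit 381) (nat_lit 1) (nat_lit 364) (nat_lit 1) (nat_lit 363) (nat_lit 1) (nat_lit 370) (nat_lit 332) (nat_lit 318))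 (XT.nd (nat_lit 78) (nat_lit 0) (nat_lit 0) (XT.lf (nat_lit 1368) (nat_lit 1055916091) (nat_lit 0) (nat_lit 475641420) (nat_lit 1292) (nat_lit 1055916091) (nat_lit 382) (nat_lit 1) (nat_lit 364) (nat_lit 1) (nat_lit 381) (nat_lit 1) (nat_lit 371) (nat_lit 332) (nat_lit 317)) (XT.lf (nat_lit 1368) (nat_lit 1895983901) (nat_lit 76) (nat_lit 328220526) (nat_lit 0) (nat_lit 328220526) (nat_lit 382) (nat_lit 1) (nat_lit 365) (nat_lit 1) (nat_lit 364) (nat_lit 1) (nat_lit 372) (nat_lit 332) (nat_lit 316)))) (XT.nd (nat_lit 78) (nat_lit 836) (nat_lit 0) (XT.lf (nat_lit 76) (nat_lit 833825172) (nat_lit 0) (nat_lit 850200033) (nat_lit 1292) (nat_lit 833825172) (nat_lit 366) (nat_lit 1) (nat_lit 365) (nat_lit 1) (nat_lit 382) (nat_lit 1) (nat_lit 373) (nat_lit 332) (nat_lit 315)) (XT.nd (nat_lit 78) (nat_lit 0) (nat_lit 0) (XT.lf (nat_lit 912) (nat_lit 1437631985) (nat_lit 0) (nat_lit 523204033) (nat_lit 836)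 (nat_lit 523204033) (nat_lit 366) (nat_lit 1) (nat_lit 354) (nat_lit 1) (nat_lit 365) (nat_lit 1) (nat_lit 374) (nat_lit 332) (nat_lit 314)) (XT.lf (nat_lit 76) (nat_lit 600039604) (nat_lit 0) (nat_lit 1250720702) (nat_lit 912) (nat_lit 600039604) (nat_lit 355) (nat_lit 1) (nat_lit 354) (nat_lit 1) (nat_lit 366) (nat_lit 1) (nat_lit 375) (nat_lit 332) (nat_lit 313)))))) (XT.nd (nat_lit 390) (nat_lit 1672) (nat_lit 0) (XT.nd (nat_lit 156) (nat_lit 1216) (nat_lit 0) (XT.nd (nat_lit 78) (nat_lit 0) (nat_lit 0) (XT.lf (nat_lit 684) (nat_lit 957183479) (nat_lit 0) (nat_lit 730493653) (nat_lit 608) (nat_lit 730493653) (nat_lit 355) (nat_lit 1) (nat_lit 346) (nat_lit 1) (nat_lit 354) (nat_lit 1) (nat_lit 376) (nat_lit 332) (nat_lit 312)) (XT.lf (nat_lit 76) (nat_lit 355942659) (nat_lit 0) (nat_lit 1674330674) (nat_lit 684) (nat_lit 355942659) (nat_lit 347) (nat_lit 1) (nat_lit 346) (nat_lit 1) (nat_lit 355)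 (nat_lit 1) (nat_lit 377) (nat_lit 332) (nat_lit 311))) (XT.nd (nat_lit 78) (nat_lit 608) (nat_lit 0) (XT.lf (nat_lit 684) (nat_lit 457316756) (nat_lit 0) (nat_lit 948698528) (nat_lit 608) (nat_lit 948698528) (nat_lit 347) (nat_lit 1) (nat_lit 338) (nat_lit 1) (nat_lit 346) (nat_lit 1) (nat_lit 378) (nat_lit 332) (nat_lit 310)) (XT.nd (nat_lit 78) (nat_lit 608) (nat_lit 0) (XT.lf (nat_lit 76) (nat_lit 102817462) (nat_lit 0) (nat_lit 2118362369) (nat_lit 684) (nat_lit 102817462) (nat_lit 339) (nat_lit 1) (nat_lit 338) (nat_lit 1) (nat_lit 347) (nat_lit 1) (nat_lit 379) (nat_lit 332) (nat_lit 309)) (XT.lf (nat_lit 76) (nat_lit 1117614753) (nat_lit 0) (nat_lit 58323867) (nat_lit 608) (nat_lit 1117614753) (nat_lit 331) (nat_lit 1) (nat_lit 330) (nat_lit 1) (nat_lit 338) (nat_lit 1) (nat_lit 380) (nat_lit 332) (nat_lit 308))))) (XT.nd (nat_lit 234) (nat_lit 532) (nat_lit 0) (XT.nd (nat_lit 78) (nat_lit 532)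 (nat_lit 0) (XT.lf (nat_lit 684) (nat_lit 1950671411) (nat_lit 0) (nat_lit 156596189) (nat_lit 608) (nat_lit 156596189) (nat_lit 331) (nat_lit 1) (nat_lit 322) (nat_lit 1) (nat_lit 330) (nat_lit 1) (nat_lit 381) (nat_lit 332) (nat_lit 307)) (XT.nd (nat_lit 78) (nat_lit 532) (nat_lit 0) (XT.lf (nat_lit 76) (nat_lit 827543918) (nat_lit 0) (nat_lit 579388581) (nat_lit 684) (nat_lit 827543918) (nat_lit 323) (nat_lit 1) (nat_lit 322) (nat_lit 1) (nat_lit 331) (nat_lit 1) (nat_lit 382) (nat_lit 332) (nat_lit 306)) (XT.lf (nat_lit 608) (nat_lit 1362433211) (nat_lit 0) (nat_lit 421673166) (nat_lit 532) (nat_lit 421673166) (nat_lit 323) (nat_lit 1) (nat_lit 315) (nat_lit 1) (nat_lit 322) (nat_lit 1) (nat_lit 383) (nat_lit 332) (nat_lit 305)))) (XT.nd (nat_lit 78) (nat_lit 532) (nat_lit 0) (XT.lf (nat_lit 76) (nat_lit 532406535) (nat_lit 0) (nat_lit 1112712534) (nat_lit 608) (nat_lit 532406535) (nat_lit 316) (nat_lit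 1) (nat_lit 315) (nat_lit 1) (nat_lit 323) (nat_lit 1) (nat_lit 384) (nat_lit 332) (nat_lit 304)) (XT.nd (nat_lit 78) (nat_lit 0) (nat_lit 0) (XT.lf (nat_lit 608) (nat_lit 764952530) (nat_lit 0) (nat_lit 692412165) (nat_lit 532) (nat_lit 692412165) (nat_lit 316) (nat_lit 1) (nat_lit 308) (nat_lit 1) (nat_lit 315) (nat_lit 1) (nat_lit 385) (nat_lit 332) (nat_lit 303)) (XT.lf (nat_lit 76) (nat_lit 233126002) (nat_lit 0) (nat_lit 1656363730) (nat_lit 608) (nat_lit 233126002) (nat_lit 309) (nat_lit 1) (nat_lit 308) (nat_lit 1) (nat_lit 316) (nat_lit 1) (nat_lit 386) (nat_lit 332) (nat_lit 302))))))) (XT.nd (nat_lit 50856) (nat_lit 0) (nat_lit 6156) (XT.nd (nat_lit 390) (nat_lit 456) (nat_lit 0) (XT.nd (nat_lit 156) (nat_lit 456) (nat_lit 0) (XT.nd (nat_lit 78) (nat_lit 608) (nat_lit 0) (XT.lf (nat_lit 532) (nat_lit 160012635) (nat_lit 0) (nat_lit 967880050) (nat_lit 456) (nat_lit 967880050) (nat_lit 309)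 (nat_lit 1) (nat_lit 302) (nat_lit 1) (nat_lit 308) (nat_lit 1) (nat_lit 387) (nat_lit 332) (nat_lit 301)) (XT.lf (nat_lit 608) (nat_lit 1932055170) (nat_lit 0) (nat_lit 68764872) (nat_lit 532) (nat_lit 68764872) (nat_lit 302) (nat_lit 1) (nat_lit 294) (nat_lit 1) (nat_lit 301) (nat_lit 1) (nat_lit 388) (nat_lit 332) (nat_lit 300))) (XT.nd (nat_lit 78) (nat_lit 456) (nat_lit 0) (XT.lf (nat_lit 76) (nat_lit 800805712) (nat_lit 0) (nat_lit 441946458) (nat_lit 608) (nat_lit 800805712) (nat_lit 295) (nat_lit 1) (nat_lit 294) (nat_lit 1) (nat_lit 302) (nat_lit 1) (nat_lit 389) (nat_lit 332) (nat_lit 299)) (XT.nd (nat_lit 78) (nat_lit 0) (nat_lit 0) (XT.lf (nat_lit 532) (nat_lit 1276459445) (nat_lit 0) (nat_lit 370851638) (nat_lit 456) (nat_lit 370851638) (nat_lit 295) (nat_lit 1) (nat_lit 288) (nat_lit 1) (nat_lit 294) (nat_lit 1) (nat_lit 390) (nat_lit 332) (nat_lit 298)) (XT.lf (nat_lit 76) (nat_lit 474069849)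 (nat_lit 0) (nat_lit 1044999423) (nat_lit 532) (nat_lit 474069849) (nat_lit 289) (nat_lit 1) (nat_lit 288) (nat_lit 1) (nat_lit 295) (nat_lit 1) (nat_lit 391) (nat_lit 332) (nat_lit 297))))) (XT.nd (nat_lit 50232) (nat_lit 0) (nat_lit 6992) (XT.nd (nat_lit 78) (nat_lit 0) (nat_lit 0) (XT.lf (nat_lit 532) (nat_lit 619137572) (nat_lit 0) (nat_lit 674704196) (nat_lit 456) (nat_lit 674704196) (nat_lit 289) (nat_lit 1) (nat_lit 282) (nat_lit 1) (nat_lit 288) (nat_lit 1) (nat_lit 392) (nat_lit 332) (nat_lit 296)) (XT.nd (nat_lit 50076) (nat_lit 0) (nat_lit 6992) (XT.lf (nat_lit 76) (nat_lit 146793978) (nat_lit 0) (nat_lit 1650902610) (nat_lit 532) (nat_lit 146793978) (nat_lit 283) (nat_lit 1) (nat_lit 282) (nat_lit 1) (nat_lit 289) (nat_lit 1) (nat_lit 393) (nat_lit 332) (nat_lit 295)) (XT.lf (nat_lit 1292) (nat_lit 303252300) (nat_lit 0) (nat_lit 1043328947) (nat_lit 1292) (nat_lit 303252300) (nat_lit 391)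 (nat_lit 1) (nat_lit 374) (nat_lit 0) (nat_lit 391) (nat_lit 0) (nat_lit 354) (nat_lit 333) (nat_lit 333)))) (XT.nd (nat_lit 78) (nat_lit 0) (nat_lit 76) (XT.lf (nat_lit 1292) (nat_lit 1185115305) (nat_lit 76) (nat_lit 1033100232) (nat_lit 0) (nat_lit 1033100232) (nat_lit 391) (nat_lit 1) (nat_lit 375) (nat_lit 1) (nat_lit 374) (nat_lit 0) (nat_lit 355) (nat_lit 333) (nat_lit 332)) (XT.nd (nat_lit 78) (nat_lit 0) (nat_lit 0) (XT.lf (nat_lit 1292) (nat_lit 573150018) (nat_lit 0) (nat_lit 2057730935) (nat_lit 1216) (nat_lit 573150018) (nat_lit 392) (nat_lit 1) (nat_lit 375) (nat_lit 1) (nat_lit 391) (nat_lit 1) (nat_lit 356) (nat_lit 333) (nat_lit 331)) (XT.lf (nat_lit 1292) (nat_lit 1088441476) (nat_lit 76) (nat_lit 1034547168) (nat_lit 0) (nat_lit 1034547168) (nat_lit 392) (nat_lit 1) (nat_lit 376) (nat_lit 1) (nat_lit 375) (nat_lit 1) (nat_lit 357) (nat_lit 333) (nat_lit 330)))))) (XT.nd (nat_lit 390)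 (nat_lit 988) (nat_lit 0) (XT.nd (nat_lit 156) (nat_lit 0) (nat_lit 76) (XT.nd (nat_lit 78) (nat_lit 0) (nat_lit 0) (XT.lf (nat_lit 1292) (nat_lit 510745734) (nat_lit 0) (nat_lit 2090589530) (nat_lit 1216) (nat_lit 510745734) (nat_lit 393) (nat_lit 1) (nat_lit 376) (nat_lit 1) (nat_lit 392) (nat_lit 1) (nat_lit 358) (nat_lit 333) (nat_lit 329)) (XT.lf (nat_lit 1292) (nat_lit 935995485) (nat_lit 76) (nat_lit 1065678827) (nat_lit 0) (nat_lit 1065678827) (nat_lit 393) (nat_lit 1) (nat_lit 377) (nat_lit 1) (nat_lit 376) (nat_lit 1) (nat_lit 359) (nat_lit 333) (nat_lit 328))) (XT.nd (nat_lit 78) (nat_lit 0) (nat_lit 0) (XT.lf (nat_lit 1292) (nat_lit 421861197) (nat_lit 0) (nat_lit 2179935721) (nat_lit 1216) (nat_lit 421861197) (nat_lit 394) (nat_lit 1) (nat_lit 377) (nat_lit 1) (nat_lit 393) (nat_lit 1) (nat_lit 360) (nat_lit 333) (nat_lit 327)) (XT.nd (nat_lit 78) (nat_lit 0) (nat_lit 76) (XT.lf (nat_lit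 1292) (nat_lit 732764951) (nat_lit 76) (nat_lit 1123924163) (nat_lit 0) (nat_lit 1123924163) (nat_lit 394) (nat_lit 1) (nat_lit 378) (nat_lit 1) (nat_lit 377) (nat_lit 1) (nat_lit 361) (nat_lit 333) (nat_lit 326)) (XT.lf (nat_lit 1292) (nat_lit 308892089) (nat_lit 0) (nat_lit 2320826681) (nat_lit 1216) (nat_lit 308892089) (nat_lit 395) (nat_lit 1) (nat_lit 378) (nat_lit 1) (nat_lit 394) (nat_lit 1) (nat_lit 362) (nat_lit 333) (nat_lit 325))))) (XT.nd (nat_lit 234) (nat_lit 1140) (nat_lit 0) (XT.nd (nat_lit 78) (nat_lit 0) (nat_lit 76) (XT.lf (nat_lit 1292) (nat_lit 483399158) (nat_lit 76) (nat_lit 1206884970) (nat_lit 0) (nat_lit 1206884970) (nat_lit 395) (nat_lit 1) (nat_lit 379) (nat_lit 1) (nat_lit 378) (nat_lit 1) (nat_lit 363) (nat_lit 333) (nat_lit 324)) (XT.nd (nat_lit 78) (nat_lit 0) (nat_lit 0) (XT.lf (nat_lit 1292) (nat_lit 174071067) (nat_lit 0) (nat_lit 2508652843) (nat_lit 1216) (nat_lit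 174071067) (nat_lit 396) (nat_lit 1) (nat_lit 379) (nat_lit 1) (nat_lit 395) (nat_lit 1) (nat_lit 364) (nat_lit 333) (nat_lit 323)) (XT.lf (nat_lit 1292) (nat_lit 192230000) (nat_lit 76) (nat_lit 1312325226) (nat_lit 0) (nat_lit 1312325226) (nat_lit 396) (nat_lit 1) (nat_lit 380) (nat_lit 1) (nat_lit 379) (nat_lit 1) (nat_lit 365) (nat_lit 333) (nat_lit 322)))) (XT.nd (nat_lit 78) (nat_lit 1292) (nat_lit 0) (XT.lf (nat_lit 1292) (nat_lit 19477864) (nat_lit 0) (nat_lit 2739117324) (nat_lit 1216) (nat_lit 19477864) (nat_lit 397) (nat_lit 1) (nat_lit 380) (nat_lit 1) (nat_lit 396) (nat_lit 1) (nat_lit 366) (nat_lit 333) (nat_lit 321)) (XT.nd (nat_lit 78) (nat_lit 0) (nat_lit 0) (XT.lf (nat_lit 1368) (nat_lit 1302766859) (nat_lit 0) (nat_lit 134040663) (nat_lit 1292) (nat_lit 1302766859) (nat_lit 381) (nat_lit 1) (nat_lit 363) (nat_lit 1) (nat_lit 380) (nat_lit 1) (nat_lit 367) (nat_lit 333) (nat_lit 320))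 (XT.lf (nat_lit 1368) (nat_lit 2399233454) (nat_lit 76) (nat_lit 151451689) (nat_lit 0) (nat_lit 151451689) (nat_lit 381) (nat_lit 1) (nat_lit 364) (nat_lit 1) (nat_lit 363) (nat_lit 1) (nat_lit 368) (nat_lit 333) (nat_lit 319))))))))
noncomputable def ec9 : XT := (XT.nd (nat_lit 1716) (nat_lit 456) (nat_lit 0) (XT.nd (nat_lit 858) (nat_lit 3040) (nat_lit 0) (XT.nd (nat_lit 390) (nat_lit 2432) (nat_lit 0) (XT.nd (nat_lit 156) (nat_lit 760) (nat_lit 0) (XT.nd (nat_lit 78) (nat_lit 0) (nat_lit 0) (XT.lf (nat_lit 1368) (nat_lit 1087593574) (nat_lit 0) (nat_lit 489910663) (nat_lit 1292) (nat_lit 1087593574) (nat_lit 382) (nat_lit 1) (nat_lit 364) (nat_lit 1) (nat_lit 381) (nat_lit 1) (nat_lit 369) (nat_lit 333) (nat_lit 318)) (XT.lf (nat_lit 1368) (nat_lit 1952863418) (nat_lit 76) (nat_lit 338067142) (nat_lit 0) (nat_lit 338067142) (nat_lit 382) (nat_lit 1) (nat_lit 365) (nat_lit 1) (nat_lit 364) (nat_lit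 1) (nat_lit 370) (nat_lit 333) (nat_lit 317))) (XT.nd (nat_lit 78) (nat_lit 836) (nat_lit 0) (XT.lf (nat_lit 76) (nat_lit 858839927) (nat_lit 0) (nat_lit 875706034) (nat_lit 1292) (nat_lit 858839927) (nat_lit 366) (nat_lit 1) (nat_lit 365) (nat_lit 1) (nat_lit 382) (nat_lit 1) (nat_lit 371) (nat_lit 333) (nat_lit 316)) (XT.nd (nat_lit 78) (nat_lit 0) (nat_lit 0) (XT.lf (nat_lit 912) (nat_lit 1480760945) (nat_lit 0) (nat_lit 538900154) (nat_lit 836) (nat_lit 538900154) (nat_lit 366) (nat_lit 1) (nat_lit 354) (nat_lit 1) (nat_lit 365) (nat_lit 1) (nat_lit 372) (nat_lit 333) (nat_lit 315)) (XT.lf (nat_lit 76) (nat_lit 618040793) (nat_lit 0) (nat_lit 1288242323) (nat_lit 912) (nat_lit 618040793) (nat_lit 355) (nat_lit 1) (nat_lit 354) (nat_lit 1) (nat_lit 366) (nat_lit 1) (nat_lit 373) (nat_lit 333) (nat_lit 314))))) (XT.nd (nat_lit 234) (nat_lit 1216) (nat_lit 0) (XT.nd (nat_lit 78) (nat_lit 608) (nat_lit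 0) (XT.lf (nat_lit 684) (nat_lit 985898984) (nat_lit 0) (nat_lit 752408462) (nat_lit 608) (nat_lit 752408462) (nat_lit 355) (nat_lit 1) (nat_lit 346) (nat_lit 1) (nat_lit 354) (nat_lit 1) (nat_lit 374) (nat_lit 333) (nat_lit 313)) (XT.nd (nat_lit 78) (nat_lit 608) (nat_lit 0) (XT.lf (nat_lit 76) (nat_lit 366620938) (nat_lit 0) (nat_lit 1724560594) (nat_lit 684) (nat_lit 366620938) (nat_lit 347) (nat_lit 1) (nat_lit 346) (nat_lit 1) (nat_lit 355) (nat_lit 1) (nat_lit 375) (nat_lit 333) (nat_lit 312)) (XT.lf (nat_lit 684) (nat_lit 471036259) (nat_lit 0) (nat_lit 977159484) (nat_lit 608) (nat_lit 977159484) (nat_lit 347) (nat_lit 1) (nat_lit 338) (nat_lit 1) (nat_lit 346) (nat_lit 1) (nat_lit 376) (nat_lit 333) (nat_lit 311)))) (XT.nd (nat_lit 78) (nat_lit 1216) (nat_lit 0) (XT.lf (nat_lit 76) (nat_lit 105901986) (nat_lit 0) (nat_lit 2181913240) (nat_lit 684) (nat_lit 105901986) (nat_lit 339) (nat_lit 1)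 (nat_lit 338) (nat_lit 1) (nat_lit 347) (nat_lit 1) (nat_lit 377) (nat_lit 333) (nat_lit 310)) (XT.nd (nat_lit 78) (nat_lit 608) (nat_lit 0) (XT.lf (nat_lit 76) (nat_lit 1151143196) (nat_lit 0) (nat_lit 60073583) (nat_lit 608) (nat_lit 1151143196) (nat_lit 331) (nat_lit 1) (nat_lit 330) (nat_lit 1) (nat_lit 338) (nat_lit 1) (nat_lit 378) (nat_lit 333) (nat_lit 309)) (XT.lf (nat_lit 684) (nat_lit 2009191553) (nat_lit 0) (nat_lit 161294074) (nat_lit 608) (nat_lit 161294074) (nat_lit 331) (nat_lit 1) (nat_lit 322) (nat_lit 1) (nat_lit 330) (nat_lit 1) (nat_lit 379) (nat_lit 333) (nat_lit 308)))))) (XT.nd (nat_lit 390) (nat_lit 1976) (nat_lit 0) (XT.nd (nat_lit 156) (nat_lit 532) (nat_lit 0) (XT.nd (nat_lit 78) (nat_lit 532) (nat_lit 0) (XT.lf (nat_lit 76) (nat_lit 852370235) (nat_lit 0) (nat_lit 596770239) (nat_lit 684) (nat_lit 852370235) (nat_lit 323) (nat_lit 1) (nat_lit 322) (nat_lit 1) (nat_lit 331)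 (nat_lit 1) (nat_lit 380) (nat_lit 333) (nat_lit 307)) (XT.lf (nat_lit 608) (nat_lit 1403306208) (nat_lit 0) (nat_lit 434323361) (nat_lit 532) (nat_lit 434323361) (nat_lit 323) (nat_lit 1) (nat_lit 315) (nat_lit 1) (nat_lit 322) (nat_lit 1) (nat_lit 381) (nat_lit 333) (nat_lit 306))) (XT.nd (nat_lit 78) (nat_lit 532) (nat_lit 0) (XT.lf (nat_lit 76) (nat_lit 548378731) (nat_lit 0) (nat_lit 1146093911) (nat_lit 608) (nat_lit 548378731) (nat_lit 316) (nat_lit 1) (nat_lit 315) (nat_lit 1) (nat_lit 323) (nat_lit 1) (nat_lit 382) (nat_lit 333) (nat_lit 305)) (XT.nd (nat_lit 78) (nat_lit 0) (nat_lit 0) (XT.lf (nat_lit 608) (nat_lit 787901106) (nat_lit 0) (nat_lit 713184529) (nat_lit 532) (nat_lit 713184529) (nat_lit 316) (nat_lit 1) (nat_lit 308) (nat_lit 1) (nat_lit 315) (nat_lit 1) (nat_lit 383) (nat_lit 333) (nat_lit 304)) (XT.lf (nat_lit 76) (nat_lit 240119782) (nat_lit 0) (nat_lit 1706054642) (nat_lit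 608) (nat_lit 240119782) (nat_lit 309) (nat_lit 1) (nat_lit 308) (nat_lit 1) (nat_lit 316) (nat_lit 1) (nat_lit 384) (nat_lit 333) (nat_lit 303))))) (XT.nd (nat_lit 234) (nat_lit 912) (nat_lit 0) (XT.nd (nat_lit 78) (nat_lit 608) (nat_lit 0) (XT.lf (nat_lit 532) (nat_lit 164813014) (nat_lit 0) (nat_lit 996916451) (nat_lit 456) (nat_lit 996916451) (nat_lit 309) (nat_lit 1) (nat_lit 302) (nat_lit 1) (nat_lit 308) (nat_lit 1) (nat_lit 385) (nat_lit 333) (nat_lit 302)) (XT.nd (nat_lit 78) (nat_lit 0) (nat_lit 0) (XT.lf (nat_lit 608) (nat_lit 1990016825) (nat_lit 0) (nat_lit 70827818) (nat_lit 532) (nat_lit 70827818) (nat_lit 302) (nat_lit 1) (nat_lit 294) (nat_lit 1) (nat_lit 301) (nat_lit 1) (nat_lit 386) (nat_lit 333) (nat_lit 301)) (XT.lf (nat_lit 76) (nat_lit 824829883) (nat_lit 0) (nat_lit 455204852) (nat_lit 608) (nat_lit 824829883) (nat_lit 295) (nat_lit 1) (nat_lit 294) (nat_lit 1) (nat_lit 302)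 (nat_lit 1) (nat_lit 387) (nat_lit 333) (nat_lit 300)))) (XT.nd (nat_lit 78) (nat_lit 456) (nat_lit 0) (XT.lf (nat_lit 532) (nat_lit 1314753228) (nat_lit 0) (nat_lit 381977187) (nat_lit 456) (nat_lit 381977187) (nat_lit 295) (nat_lit 1) (nat_lit 288) (nat_lit 1) (nat_lit 294) (nat_lit 1) (nat_lit 388) (nat_lit 333) (nat_lit 299)) (XT.nd (nat_lit 78) (nat_lit 456) (nat_lit 0) (XT.lf (nat_lit 76) (nat_lit 488291945) (nat_lit 0) (nat_lit 1076349405) (nat_lit 532) (nat_lit 488291945) (nat_lit 289) (nat_lit 1) (nat_lit 288) (nat_lit 1) (nat_lit 295) (nat_lit 1) (nat_lit 389) (nat_lit 333) (nat_lit 298)) (XT.lf (nat_lit 532) (nat_lit 637711699) (nat_lit 0) (nat_lit 694945322) (nat_lit 456) (nat_lit 694945322) (nat_lit 289) (nat_lit 1) (nat_lit 282) (nat_lit 1) (nat_lit 288) (nat_lit 1) (nat_lit 390) (nat_lit 333) (nat_lit 297))))))) (XT.nd (nat_lit 50778) (nat_lit 0) (nat_lit 5928) (XT.nd (nat_lit 50310) (nat_lit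 0) (nat_lit 7524) (XT.nd (nat_lit 50076) (nat_lit 0) (nat_lit 7448) (XT.nd (nat_lit 78) (nat_lit 456) (nat_lit 0) (XT.lf (nat_lit 76) (nat_lit 151197797) (nat_lit 0) (nat_lit 1700429688) (nat_lit 532) (nat_lit 151197797) (nat_lit 283) (nat_lit 1) (nat_lit 282) (nat_lit 1) (nat_lit 289) (nat_lit 1) (nat_lit 391) (nat_lit 333) (nat_lit 296)) (XT.lf (nat_lit 76) (nat_lit 969612534) (nat_lit 0) (nat_lit 39047772) (nat_lit 456) (nat_lit 969612534) (nat_lit 277) (nat_lit 1) (nat_lit 276) (nat_lit 1) (nat_lit 282) (nat_lit 1) (nat_lit 392) (nat_lit 333) (nat_lit 295))) (XT.nd (nat_lit 78) (nat_lit 0) (nat_lit 0) (XT.lf (nat_lit 1292) (nat_lit 312349869) (nat_lit 0) (nat_lit 1074628816) (nat_lit 1292) (nat_lit 312349869) (nat_lit 391) (nat_lit 1) (nat_lit 374) (nat_lit 0) (nat_lit 391) (nat_lit 0) (nat_lit 352) (nat_lit 334) (nat_lit 334)) (XT.nd (nat_lit 78) (nat_lit 0) (nat_lit 76) (XT.lf (nat_lit 1292) (nat_lit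 1220668764) (nat_lit 76) (nat_lit 1064093239) (nat_lit 0) (nat_lit 1064093239) (nat_lit 391) (nat_lit 1) (nat_lit 375) (nat_lit 1) (nat_lit 374) (nat_lit 0) (nat_lit 353) (nat_lit 334) (nat_lit 333)) (XT.lf (nat_lit 1292) (nat_lit 590344518) (nat_lit 0) (nat_lit 2119462863) (nat_lit 1216) (nat_lit 590344518) (nat_lit 392) (nat_lit 1) (nat_lit 375) (nat_lit 1) (nat_lit 391) (nat_lit 1) (nat_lit 354) (nat_lit 334) (nat_lit 332))))) (XT.nd (nat_lit 234) (nat_lit 0) (nat_lit 152) (XT.nd (nat_lit 78) (nat_lit 0) (nat_lit 76) (XT.lf (nat_lit 1292) (nat_lit 1121094720) (nat_lit 76) (nat_lit 1065583583) (nat_lit 0) (nat_lit 1065583583) (nat_lit 392) (nat_lit 1) (nat_lit 376) (nat_lit 1) (nat_lit 375) (nat_lit 1) (nat_lit 355) (nat_lit 334) (nat_lit 331)) (XT.nd (nat_lit 78) (nat_lit 0) (nat_lit 0) (XT.lf (nat_lit 1292) (nat_lit 526068106) (nat_lit 0) (nat_lit 2153307215) (nat_lit 1216) (nat_lit 526068106) (nat_lit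 393) (nat_lit 1) (nat_lit 376) (nat_lit 1) (nat_lit 392) (nat_lit 1) (nat_lit 356) (nat_lit 334) (nat_lit 330)) (XT.lf (nat_lit 1292) (nat_lit 964075350) (nat_lit 76) (nat_lit 1097649192) (nat_lit 0) (nat_lit 1097649192) (nat_lit 393) (nat_lit 1) (nat_lit 377) (nat_lit 1) (nat_lit 376) (nat_lit 1) (nat_lit 357) (nat_lit 334) (nat_lit 329)))) (XT.nd (nat_lit 78) (nat_lit 0) (nat_lit 0) (XT.lf (nat_lit 1292) (nat_lit 434517033) (nat_lit 0) (nat_lit 2245333792) (nat_lit 1216) (nat_lit 434517033) (nat_lit 394) (nat_lit 1) (nat_lit 377) (nat_lit 1) (nat_lit 393) (nat_lit 1) (nat_lit 358) (nat_lit 334) (nat_lit 328)) (XT.nd (nat_lit 78) (nat_lit 0) (nat_lit 76) (XT.lf (nat_lit 1292) (nat_lit 754747899) (nat_lit 76) (nat_lit 1157641888) (nat_lit 0) (nat_lit 1157641888) (nat_lit 394) (nat_lit 1) (nat_lit 378) (nat_lit 1) (nat_lit 377) (nat_lit 1) (nat_lit 359) (nat_lit 334) (nat_lit 327)) (XT.lf (nat_lit 1292)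 (nat_lit 318158852) (nat_lit 0) (nat_lit 2390451482) (nat_lit 1216) (nat_lit 318158852) (nat_lit 395) (nat_lit 1) (nat_lit 378) (nat_lit 1) (nat_lit 394) (nat_lit 1) (nat_lit 360) (nat_lit 334) (nat_lit 326)))))) (XT.nd (nat_lit 390) (nat_lit 684) (nat_lit 0) (XT.nd (nat_lit 156) (nat_lit 1140) (nat_lit 0) (XT.nd (nat_lit 78) (nat_lit 0) (nat_lit 76) (XT.lf (nat_lit 1292) (nat_lit 497901133) (nat_lit 76) (nat_lit 1243091519) (nat_lit 0) (nat_lit 1243091519) (nat_lit 395) (nat_lit 1) (nat_lit 379) (nat_lit 1) (nat_lit 378) (nat_lit 1) (nat_lit 361) (nat_lit 334) (nat_lit 325)) (XT.lf (nat_lit 1292) (nat_lit 179293199) (nat_lit 0) (nat_lit 2583912428) (nat_lit 1216) (nat_lit 179293199) (nat_lit 396) (nat_lit 1) (nat_lit 379) (nat_lit 1) (nat_lit 395) (nat_lit 1) (nat_lit 362) (nat_lit 334) (nat_lit 324))) (XT.nd (nat_lit 78) (nat_lit 1216) (nat_lit 0) (XT.lf (nat_lit 1292) (nat_lit 197996900) (nat_lit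 76) (nat_lit 1351694983) (nat_lit 0) (nat_lit 1351694983) (nat_lit 396) (nat_lit 1) (nat_lit 380) (nat_lit 1) (nat_lit 379) (nat_lit 1) (nat_lit 363) (nat_lit 334) (nat_lit 323)) (XT.nd (nat_lit 78) (nat_lit 1292) (nat_lit 0) (XT.lf (nat_lit 1292) (nat_lit 20062200) (nat_lit 0) (nat_lit 2821290844) (nat_lit 1216) (nat_lit 20062200) (nat_lit 397) (nat_lit 1) (nat_lit 380) (nat_lit 1) (nat_lit 396) (nat_lit 1) (nat_lit 364) (nat_lit 334) (nat_lit 322)) (XT.lf (nat_lit 1368) (nat_lit 1341849865) (nat_lit 0) (nat_lit 138061883) (nat_lit 1292) (nat_lit 1341849865) (nat_lit 381) (nat_lit 1) (nat_lit 363) (nat_lit 1) (nat_lit 380) (nat_lit 1) (nat_lit 365) (nat_lit 334) (nat_lit 321))))) (XT.nd (nat_lit 234) (nat_lit 684) (nat_lit 0) (XT.nd (nat_lit 78) (nat_lit 0) (nat_lit 76) (XT.lf (nat_lit 1368) (nat_lit 2471210458) (nat_lit 76) (nat_lit 155995240) (nat_lit 0) (nat_lit 155995240) (nat_lit 381) (nat_lit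 1) (nat_lit 364) (nat_lit 1) (nat_lit 363) (nat_lit 1) (nat_lit 366) (nat_lit 334) (nat_lit 320)) (XT.nd (nat_lit 78) (nat_lit 0) (nat_lit 0) (XT.lf (nat_lit 1368) (nat_lit 1120221381) (nat_lit 0) (nat_lit 504607983) (nat_lit 1292) (nat_lit 1120221381) (nat_lit 382) (nat_lit 1) (nat_lit 364) (nat_lit 1) (nat_lit 381) (nat_lit 1) (nat_lit 367) (nat_lit 334) (nat_lit 319)) (XT.lf (nat_lit 1368) (nat_lit 2011449321) (nat_lit 76) (nat_lit 348209156) (nat_lit 0) (nat_lit 348209156) (nat_lit 382) (nat_lit 1) (nat_lit 365) (nat_lit 1) (nat_lit 364) (nat_lit 1) (nat_lit 368) (nat_lit 334) (nat_lit 318)))) (XT.nd (nat_lit 78) (nat_lit 836) (nat_lit 0) (XT.lf (nat_lit 76) (nat_lit 884605125) (nat_lit 0) (nat_lit 901977215) (nat_lit 1292) (nat_lit 884605125) (nat_lit 366) (nat_lit 1) (nat_lit 365) (nat_lit 1) (nat_lit 382) (nat_lit 1) (nat_lit 369) (nat_lit 334) (nat_lit 317)) (XT.nd (nat_lit 78) (nat_lit 0) (nat_lit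 0) (XT.lf (nat_lit 912) (nat_lit 1525183773) (nat_lit 0) (nat_lit 555067159) (nat_lit 836) (nat_lit 555067159) (nat_lit 366) (nat_lit 1) (nat_lit 354) (nat_lit 1) (nat_lit 365) (nat_lit 1) (nat_lit 370) (nat_lit 334) (nat_lit 316)) (XT.lf (nat_lit 76) (nat_lit 636582016) (nat_lit 0) (nat_lit 1326889593) (nat_lit 912) (nat_lit 636582016) (nat_lit 355) (nat_lit 1) (nat_lit 354) (nat_lit 1) (nat_lit 366) (nat_lit 1) (nat_lit 371) (nat_lit 334) (nat_lit 315))))))))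
noncomputable def ec10 : XT := (XT.nd (nat_lit 51480) (nat_lit 0) (nat_lit 5168) (XT.nd (nat_lit 858) (nat_lit 2888) (nat_lit 0) (XT.nd (nat_lit 390) (nat_lit 1672) (nat_lit 0) (XT.nd (nat_lit 156) (nat_lit 1216) (nat_lit 0) (XT.nd (nat_lit 78) (nat_lit 0) (nat_lit 0) (XT.lf (nat_lit 684) (nat_lit 1015475953) (nat_lit 0) (nat_lit 774980716) (nat_lit 608) (nat_lit 774980716) (nat_lit 355) (nat_lit 1) (nat_lit 346) (nat_lit 1) (nat_lit 354) (nat_lit 1) (nat_lit 372) (nat_lit 334) (nat_lit 314)) (XT.lf (nat_lit 76) (nat_lit 377619566) (nat_lit 0) (nat_lit 1776297412) (nat_lit 684) (nat_lit 377619566) (nat_lit 347) (nat_lit 1) (nat_lit 346) (nat_lit 1) (nat_lit 355) (nat_lit 1) (nat_lit 373) (nat_lit 334) (nat_lit 313))) (XT.nd (nat_lit 78) (nat_lit 608) (nat_lit 0) (XT.lf (nat_lit 684) (nat_lit 485167347) (nat_lit 0) (nat_lit 1006474268) (nat_lit 608) (nat_lit 1006474268) (nat_lit 347) (nat_lit 1) (nat_lit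 338) (nat_lit 1) (nat_lit 346) (nat_lit 1) (nat_lit 374) (nat_lit 334) (nat_lit 312)) (XT.nd (nat_lit 78) (nat_lit 608) (nat_lit 0) (XT.lf (nat_lit 76) (nat_lit 109079045) (nat_lit 0) (nat_lit 2247370637) (nat_lit 684) (nat_lit 109079045) (nat_lit 339) (nat_lit 1) (nat_lit 338) (nat_lit 1) (nat_lit 347) (nat_lit 1) (nat_lit 375) (nat_lit 334) (nat_lit 311)) (XT.lf (nat_lit 76) (nat_lit 1185677492) (nat_lit 0) (nat_lit 61875791) (nat_lit 608) (nat_lit 1185677492) (nat_lit 331) (nat_lit 1) (nat_lit 330) (nat_lit 1) (nat_lit 338) (nat_lit 1) (nat_lit 376) (nat_lit 334) (nat_lit 310))))) (XT.nd (nat_lit 234) (nat_lit 532) (nat_lit 0) (XT.nd (nat_lit 78) (nat_lit 532) (nat_lit 0) (XT.lf (nat_lit 684) (nat_lit 2069467300) (nat_lit 0) (nat_lit 166132897) (nat_lit 608) (nat_lit 166132897) (nat_lit 331) (nat_lit 1) (nat_lit 322) (nat_lit 1) (nat_lit 330) (nat_lit 1) (nat_lit 377) (nat_lit 334) (nat_lit 309))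 (XT.nd (nat_lit 78) (nat_lit 532) (nat_lit 0) (XT.lf (nat_lit 76) (nat_lit 877941342) (nat_lit 0) (nat_lit 614673346) (nat_lit 684) (nat_lit 877941342) (nat_lit 323) (nat_lit 1) (nat_lit 322) (nat_lit 1) (nat_lit 331) (nat_lit 1) (nat_lit 378) (nat_lit 334) (nat_lit 308)) (XT.lf (nat_lit 608) (nat_lit 1445405394) (nat_lit 0) (nat_lit 447353062) (nat_lit 532) (nat_lit 447353062) (nat_lit 323) (nat_lit 1) (nat_lit 315) (nat_lit 1) (nat_lit 322) (nat_lit 1) (nat_lit 379) (nat_lit 334) (nat_lit 307)))) (XT.nd (nat_lit 78) (nat_lit 532) (nat_lit 0) (XT.lf (nat_lit 76) (nat_lit 564830093) (nat_lit 0) (nat_lit 1180476728) (nat_lit 608) (nat_lit 564830093) (nat_lit 316) (nat_lit 1) (nat_lit 315) (nat_lit 1) (nat_lit 323) (nat_lit 1) (nat_lit 380) (nat_lit 334) (nat_lit 306)) (XT.nd (nat_lit 78) (nat_lit 0) (nat_lit 0) (XT.lf (nat_lit 608) (nat_lit 811538139) (nat_lit 0) (nat_lit 734580065) (nat_lit 532) (nat_lit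 734580065) (nat_lit 316) (nat_lit 1) (nat_lit 308) (nat_lit 1) (nat_lit 315) (nat_lit 1) (nat_lit 381) (nat_lit 334) (nat_lit 305)) (XT.lf (nat_lit 76) (nat_lit 247323376) (nat_lit 0) (nat_lit 1757236281) (nat_lit 608) (nat_lit 247323376) (nat_lit 309) (nat_lit 1) (nat_lit 308) (nat_lit 1) (nat_lit 316) (nat_lit 1) (nat_lit 382) (nat_lit 334) (nat_lit 304)))))) (XT.nd (nat_lit 390) (nat_lit 1368) (nat_lit 0) (XT.nd (nat_lit 156) (nat_lit 456) (nat_lit 0) (XT.nd (nat_lit 78) (nat_lit 608) (nat_lit 0) (XT.lf (nat_lit 532) (nat_lit 169757404) (nat_lit 0) (nat_lit 1026823945) (nat_lit 456) (nat_lit 1026823945) (nat_lit 309) (nat_lit 1) (nat_lit 302) (nat_lit 1) (nat_lit 308) (nat_lit 1) (nat_lit 383) (nat_lit 334) (nat_lit 303)) (XT.lf (nat_lit 608) (nat_lit 2049717330) (nat_lit 0) (nat_lit 72952652) (nat_lit 532) (nat_lit 72952652) (nat_lit 302) (nat_lit 1) (nat_lit 294) (nat_lit 1) (nat_lit 301) (nat_lit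 1) (nat_lit 384) (nat_lit 334) (nat_lit 302))) (XT.nd (nat_lit 78) (nat_lit 456) (nat_lit 0) (XT.lf (nat_lit 76) (nat_lit 849574780) (nat_lit 0) (nat_lit 468860997) (nat_lit 608) (nat_lit 849574780) (nat_lit 295) (nat_lit 1) (nat_lit 294) (nat_lit 1) (nat_lit 302) (nat_lit 1) (nat_lit 385) (nat_lit 334) (nat_lit 301)) (XT.nd (nat_lit 78) (nat_lit 0) (nat_lit 0) (XT.lf (nat_lit 532) (nat_lit 1354195825) (nat_lit 0) (nat_lit 393436503) (nat_lit 456) (nat_lit 393436503) (nat_lit 295) (nat_lit 1) (nat_lit 288) (nat_lit 1) (nat_lit 294) (nat_lit 1) (nat_lit 386) (nat_lit 334) (nat_lit 300)) (XT.lf (nat_lit 76) (nat_lit 502940703) (nat_lit 0) (nat_lit 1108639887) (nat_lit 532) (nat_lit 502940703) (nat_lit 289) (nat_lit 1) (nat_lit 288) (nat_lit 1) (nat_lit 295) (nat_lit 1) (nat_lit 387) (nat_lit 334) (nat_lit 299))))) (XT.nd (nat_lit 234) (nat_lit 456) (nat_lit 0) (XT.nd (nat_lit 78) (nat_lit 456) (nat_lit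 0) (XT.lf (nat_lit 532) (nat_lit 656843050) (nat_lit 0) (nat_lit 715793681) (nat_lit 456) (nat_lit 715793681) (nat_lit 289) (nat_lit 1) (nat_lit 282) (nat_lit 1) (nat_lit 288) (nat_lit 1) (nat_lit 388) (nat_lit 334) (nat_lit 298)) (XT.nd (nat_lit 78) (nat_lit 456) (nat_lit 0) (XT.lf (nat_lit 76) (nat_lit 155733731) (nat_lit 0) (nat_lit 1751442579) (nat_lit 532) (nat_lit 155733731) (nat_lit 283) (nat_lit 1) (nat_lit 282) (nat_lit 1) (nat_lit 289) (nat_lit 1) (nat_lit 389) (nat_lit 334) (nat_lit 297)) (XT.lf (nat_lit 76) (nat_lit 998700910) (nat_lit 0) (nat_lit 40219205) (nat_lit 456) (nat_lit 998700910) (nat_lit 277) (nat_lit 1) (nat_lit 276) (nat_lit 1) (nat_lit 282) (nat_lit 1) (nat_lit 390) (nat_lit 334) (nat_lit 296)))) (XT.nd (nat_lit 78) (nat_lit 0) (nat_lit 0) (XT.lf (nat_lit 532) (nat_lit 1633801078) (nat_lit 0) (nat_lit 189540366) (nat_lit 456) (nat_lit 189540366) (nat_lit 277) (nat_lit 1) (nat_lit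 270) (nat_lit 1) (nat_lit 276) (nat_lit 1) (nat_lit 391) (nat_lit 334) (nat_lit 295)) (XT.nd (nat_lit 49842) (nat_lit 0) (nat_lit 7904) (XT.lf (nat_lit 76) (nat_lit 632307200) (nat_lit 0) (nat_lit 723777601) (nat_lit 532) (nat_lit 632307200) (nat_lit 271) (nat_lit 1) (nat_lit 270) (nat_lit 1) (nat_lit 277) (nat_lit 1) (nat_lit 392) (nat_lit 334) (nat_lit 294)) (XT.lf (nat_lit 1292) (nat_lit 321720365) (nat_lit 0) (nat_lit 1106867680) (nat_lit 1292) (nat_lit 321720365) (nat_lit 391) (nat_lit 1) (nat_lit 374) (nat_lit 0) (nat_lit 391) (nat_lit 0) (nat_lit 350) (nat_lit 335) (nat_lit 335))))))) (XT.nd (nat_lit 858) (nat_lit 2736) (nat_lit 0) (XT.nd (nat_lit 390) (nat_lit 0) (nat_lit 228) (XT.nd (nat_lit 156) (nat_lit 0) (nat_lit 76) (XT.nd (nat_lit 78) (nat_lit 0) (nat_lit 76) (XT.lf (nat_lit 1292) (nat_lit 1257288827) (nat_lit 76) (nat_lit 1096016036) (nat_lit 0) (nat_lit 1096016036) (nat_lit 391) (nat_lit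 1) (nat_lit 375) (nat_lit 1) (nat_lit 374) (nat_lit 0) (nat_lit 351) (nat_lit 335) (nat_lit 334)) (XT.lf (nat_lit 1292) (nat_lit 608054854) (nat_lit 0) (nat_lit 2183046749) (nat_lit 1216) (nat_lit 608054854) (nat_lit 392) (nat_lit 1) (nat_lit 375) (nat_lit 1) (nat_lit 391) (nat_lit 1) (nat_lit 352) (nat_lit 335) (nat_lit 333))) (XT.nd (nat_lit 78) (nat_lit 0) (nat_lit 76) (XT.lf (nat_lit 1292) (nat_lit 1154727562) (nat_lit 76) (nat_lit 1097551090) (nat_lit 0) (nat_lit 1097551090) (nat_lit 392) (nat_lit 1) (nat_lit 376) (nat_lit 1) (nat_lit 375) (nat_lit 1) (nat_lit 353) (nat_lit 335) (nat_lit 332)) (XT.nd (nat_lit 78) (nat_lit 0) (nat_lit 0) (XT.lf (nat_lit 1292) (nat_lit 541850149) (nat_lit 0) (nat_lit 2217906432) (nat_lit 1216) (nat_lit 541850149) (nat_lit 393) (nat_lit 1) (nat_lit 376) (nat_lit 1) (nat_lit 392) (nat_lit 1) (nat_lit 354) (nat_lit 335) (nat_lit 331)) (XT.lf (nat_lit 1292) (nat_lit 992997610)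 (nat_lit 76) (nat_lit 1130578668) (nat_lit 0) (nat_lit 1130578668) (nat_lit 393) (nat_lit 1) (nat_lit 377) (nat_lit 1) (nat_lit 376) (nat_lit 1) (nat_lit 355) (nat_lit 335) (nat_lit 330))))) (XT.nd (nat_lit 234) (nat_lit 0) (nat_lit 76) (XT.nd (nat_lit 78) (nat_lit 0) (nat_lit 0) (XT.lf (nat_lit 1292) (nat_lit 447552544) (nat_lit 0) (nat_lit 2312693806) (nat_lit 1216) (nat_lit 447552544) (nat_lit 394) (nat_lit 1) (nat_lit 377) (nat_lit 1) (nat_lit 393) (nat_lit 1) (nat_lit 356) (nat_lit 335) (nat_lit 329)) (XT.nd (nat_lit 78) (nat_lit 0) (nat_lit 76) (XT.lf (nat_lit 1292) (nat_lit 777390336) (nat_lit 76) (nat_lit 1192371145) (nat_lit 0) (nat_lit 1192371145) (nat_lit 394) (nat_lit 1) (nat_lit 378) (nat_lit 1) (nat_lit 377) (nat_lit 1) (nat_lit 357) (nat_lit 335) (nat_lit 328)) (XT.lf (nat_lit 1292) (nat_lit 327703617) (nat_lit 0) (nat_lit 2462165026) (nat_lit 1216) (nat_lit 327703617) (nat_lit 395) (nat_lit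 1) (nat_lit 378) (nat_lit 1) (nat_lit 394) (nat_lit 1) (nat_lit 358) (nat_lit 335) (nat_lit 327)))) (XT.nd (nat_lit 78) (nat_lit 0) (nat_lit 76) (XT.lf (nat_lit 1292) (nat_lit 512838167) (nat_lit 76) (nat_lit 1280384265) (nat_lit 0) (nat_lit 1280384265) (nat_lit 395) (nat_lit 1) (nat_lit 379) (nat_lit 1) (nat_lit 378) (nat_lit 1) (nat_lit 359) (nat_lit 335) (nat_lit 326)) (XT.nd (nat_lit 78) (nat_lit 0) (nat_lit 0) (XT.lf (nat_lit 1292) (nat_lit 184671995) (nat_lit 0) (nat_lit 2661429801) (nat_lit 1216) (nat_lit 184671995) (nat_lit 396) (nat_lit 1) (nat_lit 379) (nat_lit 1) (nat_lit 395) (nat_lit 1) (nat_lit 360) (nat_lit 335) (nat_lit 325)) (XT.lf (nat_lit 1292) (nat_lit 203936807) (nat_lit 76) (nat_lit 1392245832) (nat_lit 0) (nat_lit 1392245832) (nat_lit 396) (nat_lit 1) (nat_lit 380) (nat_lit 1) (nat_lit 379) (nat_lit 1) (nat_lit 361) (nat_lit 335) (nat_lit 324)))))) (XT.nd (nat_lit 390) (nat_lit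 1900) (nat_lit 0) (XT.nd (nat_lit 156) (nat_lit 0) (nat_lit 0) (XT.nd (nat_lit 78) (nat_lit 1292) (nat_lit 0) (XT.lf (nat_lit 1292) (nat_lit 20664066) (nat_lit 0) (nat_lit 2905929569) (nat_lit 1216) (nat_lit 20664066) (nat_lit 397) (nat_lit 1) (nat_lit 380) (nat_lit 1) (nat_lit 396) (nat_lit 1) (nat_lit 362) (nat_lit 335) (nat_lit 323)) (XT.lf (nat_lit 1368) (nat_lit 1382105361) (nat_lit 0) (nat_lit 142203740) (nat_lit 1292) (nat_lit 1382105361) (nat_lit 381) (nat_lit 1) (nat_lit 363) (nat_lit 1) (nat_lit 380) (nat_lit 1) (nat_lit 363) (nat_lit 335) (nat_lit 322))) (XT.nd (nat_lit 78) (nat_lit 0) (nat_lit 76) (XT.lf (nat_lit 1368) (nat_lit 2545346772) (nat_lit 76) (nat_lit 160675097) (nat_lit 0) (nat_lit 160675097) (nat_lit 381) (nat_lit 1) (nat_lit 364) (nat_lit 1) (nat_lit 363) (nat_lit 1) (nat_lit 364) (nat_lit 335) (nat_lit 321)) (XT.nd (nat_lit 78) (nat_lit 0) (nat_lit 0) (XT.lf (nat_lit 1368) (nat_lit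 1153828023) (nat_lit 0) (nat_lit 519746222) (nat_lit 1292) (nat_lit 1153828023) (nat_lit 382) (nat_lit 1) (nat_lit 364) (nat_lit 1) (nat_lit 381) (nat_lit 1) (nat_lit 365) (nat_lit 335) (nat_lit 320)) (XT.lf (nat_lit 1368) (nat_lit 2071792800) (nat_lit 76) (nat_lit 358655431) (nat_lit 0) (nat_lit 358655431) (nat_lit 382) (nat_lit 1) (nat_lit 365) (nat_lit 1) (nat_lit 364) (nat_lit 1) (nat_lit 366) (nat_lit 335) (nat_lit 319))))) (XT.nd (nat_lit 234) (nat_lit 1216) (nat_lit 0) (XT.nd (nat_lit 78) (nat_lit 836) (nat_lit 0) (XT.lf (nat_lit 76) (nat_lit 911143279) (nat_lit 0) (nat_lit 929036531) (nat_lit 1292) (nat_lit 911143279) (nat_lit 366) (nat_lit 1) (nat_lit 365) (nat_lit 1) (nat_lit 382) (nat_lit 1) (nat_lit 367) (nat_lit 335) (nat_lit 318)) (XT.nd (nat_lit 78) (nat_lit 0) (nat_lit 0) (XT.lf (nat_lit 912) (nat_lit 1570939286) (nat_lit 0) (nat_lit 571719174) (nat_lit 836) (nat_lit 571719174) (nat_lit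 366) (nat_lit 1) (nat_lit 354) (nat_lit 1) (nat_lit 365) (nat_lit 1) (nat_lit 368) (nat_lit 335) (nat_lit 317)) (XT.lf (nat_lit 76) (nat_lit 655679477) (nat_lit 0) (nat_lit 1366696280) (nat_lit 912) (nat_lit 655679477) (nat_lit 355) (nat_lit 1) (nat_lit 354) (nat_lit 1) (nat_lit 366) (nat_lit 1) (nat_lit 369) (nat_lit 335) (nat_lit 316)))) (XT.nd (nat_lit 78) (nat_lit 608) (nat_lit 0) (XT.lf (nat_lit 684) (nat_lit 1045940232) (nat_lit 0) (nat_lit 798230138) (nat_lit 608) (nat_lit 798230138) (nat_lit 355) (nat_lit 1) (nat_lit 346) (nat_lit 1) (nat_lit 354) (nat_lit 1) (nat_lit 370) (nat_lit 335) (nat_lit 315)) (XT.nd (nat_lit 78) (nat_lit 608) (nat_lit 0) (XT.lf (nat_lit 76) (nat_lit 388948154) (nat_lit 0) (nat_lit 1829586334) (nat_lit 684) (nat_lit 388948154) (nat_lit 347) (nat_lit 1) (nat_lit 346) (nat_lit 1) (nat_lit 355) (nat_lit 1) (nat_lit 371) (nat_lit 335) (nat_lit 314)) (XT.lf (nat_lit 684) (nat_lit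 499722367) (nat_lit 0) (nat_lit 1036668496) (nat_lit 608) (nat_lit 1036668496) (nat_lit 347) (nat_lit 1) (nat_lit 338) (nat_lit 1) (nat_lit 346) (nat_lit 1) (nat_lit 372) (nat_lit 335) (nat_lit 313))))))))
noncomputable def ec11 : XT := (XT.nd (nat_lit 51324) (nat_lit 0) (nat_lit 4940) (XT.nd (nat_lit 858) (nat_lit 2204) (nat_lit 0) (XT.nd (nat_lit 390) (nat_lit 1596) (nat_lit 0) (XT.nd (nat_lit 156) (nat_lit 1140) (nat_lit 0) (XT.nd (nat_lit 78) (nat_lit 608) (nat_lit 0) (XT.lf (nat_lit 76) (nat_lit 112351417) (nat_lit 0) (nat_lit 2314791756) (nat_lit 684) (nat_lit 112351417) (nat_lit 339) (nat_lit 1) (nat_lit 338) (nat_lit 1) (nat_lit 347) (nat_lit 1) (nat_lit 373) (nat_lit 335) (nat_lit 312)) (XT.lf (nat_lit 76) (nat_lit 1221247817) (nat_lit 0) (nat_lit 63732064) (nat_lit 608) (nat_lit 1221247817) (nat_lit 331) (nat_lit 1) (nat_lit 330) (nat_lit 1) (nat_lit 338) (nat_lit 1) (nat_lit 374) (nat_lit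 335) (nat_lit 311))) (XT.nd (nat_lit 78) (nat_lit 532) (nat_lit 0) (XT.lf (nat_lit 684) (nat_lit 2131551319) (nat_lit 0) (nat_lit 171116884) (nat_lit 608) (nat_lit 171116884) (nat_lit 331) (nat_lit 1) (nat_lit 322) (nat_lit 1) (nat_lit 330) (nat_lit 1) (nat_lit 375) (nat_lit 335) (nat_lit 310)) (XT.nd (nat_lit 78) (nat_lit 532) (nat_lit 0) (XT.lf (nat_lit 76) (nat_lit 904279583) (nat_lit 0) (nat_lit 633113546) (nat_lit 684) (nat_lit 904279583) (nat_lit 323) (nat_lit 1) (nat_lit 322) (nat_lit 1) (nat_lit 331) (nat_lit 1) (nat_lit 376) (nat_lit 335) (nat_lit 309)) (XT.lf (nat_lit 608) (nat_lit 1488767556) (nat_lit 0) (nat_lit 460773653) (nat_lit 532) (nat_lit 460773653) (nat_lit 323) (nat_lit 1) (nat_lit 315) (nat_lit 1) (nat_lit 322) (nat_lit 1) (nat_lit 377) (nat_lit 335) (nat_lit 308))))) (XT.nd (nat_lit 234) (nat_lit 1064) (nat_lit 0) (XT.nd (nat_lit 78) (nat_lit 532) (nat_lit 0) (XT.lf (nat_lit 76)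 (nat_lit 581774996) (nat_lit 0) (nat_lit 1215891030) (nat_lit 608) (nat_lit 581774996) (nat_lit 316) (nat_lit 1) (nat_lit 315) (nat_lit 1) (nat_lit 323) (nat_lit 1) (nat_lit 378) (nat_lit 335) (nat_lit 307)) (XT.nd (nat_lit 78) (nat_lit 0) (nat_lit 0) (XT.lf (nat_lit 608) (nat_lit 835884283) (nat_lit 0) (nat_lit 756617467) (nat_lit 532) (nat_lit 756617467) (nat_lit 316) (nat_lit 1) (nat_lit 308) (nat_lit 1) (nat_lit 315) (nat_lit 1) (nat_lit 379) (nat_lit 335) (nat_lit 306)) (XT.lf (nat_lit 76) (nat_lit 254743077) (nat_lit 0) (nat_lit 1809953370) (nat_lit 608) (nat_lit 254743077) (nat_lit 309) (nat_lit 1) (nat_lit 308) (nat_lit 1) (nat_lit 316) (nat_lit 1) (nat_lit 380) (nat_lit 335) (nat_lit 305)))) (XT.nd (nat_lit 78) (nat_lit 608) (nat_lit 0) (XT.lf (nat_lit 532) (nat_lit 174850127) (nat_lit 0) (nat_lit 1057628663) (nat_lit 456) (nat_lit 1057628663) (nat_lit 309) (nat_lit 1) (nat_lit 302) (nat_lit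 1) (nat_lit 308) (nat_lit 1) (nat_lit 381) (nat_lit 335) (nat_lit 304)) (XT.nd (nat_lit 78) (nat_lit 0) (nat_lit 0) (XT.lf (nat_lit 608) (nat_lit 2111208850) (nat_lit 0) (nat_lit 75141232) (nat_lit 532) (nat_lit 75141232) (nat_lit 302) (nat_lit 1) (nat_lit 294) (nat_lit 1) (nat_lit 301) (nat_lit 1) (nat_lit 382) (nat_lit 335) (nat_lit 303)) (XT.lf (nat_lit 76) (nat_lit 875062023) (nat_lit 0) (nat_lit 482926827) (nat_lit 608) (nat_lit 875062023) (nat_lit 295) (nat_lit 1) (nat_lit 294) (nat_lit 1) (nat_lit 302) (nat_lit 1) (nat_lit 383) (nat_lit 335) (nat_lit 302)))))) (XT.nd (nat_lit 390) (nat_lit 836) (nat_lit 0) (XT.nd (nat_lit 156) (nat_lit 912) (nat_lit 0) (XT.nd (nat_lit 78) (nat_lit 0) (nat_lit 0) (XT.lf (nat_lit 532) (nat_lit 1394821700) (nat_lit 0) (nat_lit 405239598) (nat_lit 456) (nat_lit 405239598) (nat_lit 295) (nat_lit 1) (nat_lit 288) (nat_lit 1) (nat_lit 294) (nat_lit 1) (nat_lit 384) (nat_lit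 335) (nat_lit 301)) (XT.lf (nat_lit 76) (nat_lit 518028924) (nat_lit 0) (nat_lit 1141899084) (nat_lit 532) (nat_lit 518028924) (nat_lit 289) (nat_lit 1) (nat_lit 288) (nat_lit 1) (nat_lit 295) (nat_lit 1) (nat_lit 385) (nat_lit 335) (nat_lit 300))) (XT.nd (nat_lit 78) (nat_lit 456) (nat_lit 0) (XT.lf (nat_lit 532) (nat_lit 676548342) (nat_lit 0) (nat_lit 737267492) (nat_lit 456) (nat_lit 737267492) (nat_lit 289) (nat_lit 1) (nat_lit 282) (nat_lit 1) (nat_lit 288) (nat_lit 1) (nat_lit 386) (nat_lit 335) (nat_lit 299)) (XT.nd (nat_lit 78) (nat_lit 456) (nat_lit 0) (XT.lf (nat_lit 76) (nat_lit 160405743) (nat_lit 0) (nat_lit 1803985856) (nat_lit 532) (nat_lit 160405743) (nat_lit 283) (nat_lit 1) (nat_lit 282) (nat_lit 1) (nat_lit 289) (nat_lit 1) (nat_lit 387) (nat_lit 335) (nat_lit 298)) (XT.lf (nat_lit 76) (nat_lit 1028661937) (nat_lit 0) (nat_lit 41425782) (nat_lit 456) (nat_lit 1028661937) (nat_lit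 277) (nat_lit 1) (nat_lit 276) (nat_lit 1) (nat_lit 282) (nat_lit 1) (nat_lit 388) (nat_lit 335) (nat_lit 297))))) (XT.nd (nat_lit 234) (nat_lit 0) (nat_lit 0) (XT.nd (nat_lit 78) (nat_lit 380) (nat_lit 0) (XT.lf (nat_lit 532) (nat_lit 1682815111) (nat_lit 0) (nat_lit 195226577) (nat_lit 456) (nat_lit 195226577) (nat_lit 277) (nat_lit 1) (nat_lit 270) (nat_lit 1) (nat_lit 276) (nat_lit 1) (nat_lit 389) (nat_lit 335) (nat_lit 296)) (XT.nd (nat_lit 78) (nat_lit 380) (nat_lit 0) (XT.lf (nat_lit 76) (nat_lit 651276416) (nat_lit 0) (nat_lit 745490929) (nat_lit 532) (nat_lit 651276416) (nat_lit 271) (nat_lit 1) (nat_lit 270) (nat_lit 1) (nat_lit 277) (nat_lit 1) (nat_lit 390) (nat_lit 335) (nat_lit 295)) (XT.lf (nat_lit 456) (nat_lit 926057420) (nat_lit 0) (nat_lit 548641828) (nat_lit 380) (nat_lit 548641828) (nat_lit 271) (nat_lit 1) (nat_lit 265) (nat_lit 1) (nat_lit 270) (nat_lit 1) (nat_lit 391) (nat_lit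 335) (nat_lit 294)))) (XT.nd (nat_lit 49686) (nat_lit 0) (nat_lit 8284) (XT.lf (nat_lit 76) (nat_lit 275679504) (nat_lit 0) (nat_lit 1447731824) (nat_lit 456) (nat_lit 275679504) (nat_lit 266) (nat_lit 1) (nat_lit 265) (nat_lit 1) (nat_lit 271) (nat_lit 1) (nat_lit 392) (nat_lit 335) (nat_lit 293)) (XT.nd (nat_lit 78) (nat_lit 0) (nat_lit 0) (XT.lf (nat_lit 1292) (nat_lit 331371976) (nat_lit 0) (nat_lit 1140073710) (nat_lit 1292) (nat_lit 331371976) (nat_lit 391) (nat_lit 1) (nat_lit 374) (nat_lit 0) (nat_lit 391) (nat_lit 0) (nat_lit 348) (nat_lit 336) (nat_lit 336)) (XT.lf (nat_lit 1292) (nat_lit 1295007491) (nat_lit 76) (nat_lit 1128896517) (nat_lit 0) (nat_lit 1128896517) (nat_lit 391) (nat_lit 1) (nat_lit 375) (nat_lit 1) (nat_lit 374) (nat_lit 0) (nat_lit 349) (nat_lit 336) (nat_lit 335))))))) (XT.nd (nat_lit 858) (nat_lit 3420) (nat_lit 0) (XT.nd (nat_lit 390) (nat_lit 0) (nat_lit 152) (XT.nd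 (nat_lit 156) (nat_lit 0) (nat_lit 76) (XT.nd (nat_lit 78) (nat_lit 0) (nat_lit 0) (XT.lf (nat_lit 1292) (nat_lit 626296499) (nat_lit 0) (nat_lit 2248538151) (nat_lit 1216) (nat_lit 626296499) (nat_lit 392) (nat_lit 1) (nat_lit 375) (nat_lit 1) (nat_lit 391) (nat_lit 1) (nat_lit 350) (nat_lit 336) (nat_lit 334)) (XT.lf (nat_lit 1292) (nat_lit 1189369388) (nat_lit 76) (nat_lit 1130477623) (nat_lit 0) (nat_lit 1130477623) (nat_lit 392) (nat_lit 1) (nat_lit 376) (nat_lit 1) (nat_lit 375) (nat_lit 1) (nat_lit 351) (nat_lit 336) (nat_lit 333))) (XT.nd (nat_lit 78) (nat_lit 0) (nat_lit 0) (XT.lf (nat_lit 1292) (nat_lit 558105654) (nat_lit 0) (nat_lit 2284443625) (nat_lit 1216) (nat_lit 558105654) (nat_lit 393) (nat_lit 1) (nat_lit 376) (nat_lit 1) (nat_lit 392) (nat_lit 1) (nat_lit 352) (nat_lit 336) (nat_lit 332)) (XT.nd (nat_lit 78) (nat_lit 0) (nat_lit 76) (XT.lf (nat_lit 1292) (nat_lit 1022787539) (nat_lit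 76) (nat_lit 1164496028) (nat_lit 0) (nat_lit 1164496028) (nat_lit 393) (nat_lit 1) (nat_lit 377) (nat_lit 1) (nat_lit 376) (nat_lit 1) (nat_lit 353) (nat_lit 336) (nat_lit 331)) (XT.lf (nat_lit 1292) (nat_lit 460979120) (nat_lit 0) (nat_lit 2382074620) (nat_lit 1216) (nat_lit 460979120) (nat_lit 394) (nat_lit 1) (nat_lit 377) (nat_lit 1) (nat_lit 393) (nat_lit 1) (nat_lit 354) (nat_lit 336) (nat_lit 330))))) (XT.nd (nat_lit 234) (nat_lit 0) (nat_lit 152) (XT.nd (nat_lit 78) (nat_lit 0) (nat_lit 76) (XT.lf (nat_lit 1292) (nat_lit 800712046) (nat_lit 76) (nat_lit 1228142279) (nat_lit 0) (nat_lit 1228142279) (nat_lit 394) (nat_lit 1) (nat_lit 378) (nat_lit 1) (nat_lit 377) (nat_lit 1) (nat_lit 355) (nat_lit 336) (nat_lit 329)) (XT.nd (nat_lit 78) (nat_lit 0) (nat_lit 0) (XT.lf (nat_lit 1292) (nat_lit 337534726) (nat_lit 0) (nat_lit 2536029977) (nat_lit 1216) (nat_lit 337534726) (nat_lit 395) (nat_lit 1)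 (nat_lit 378) (nat_lit 1) (nat_lit 394) (nat_lit 1) (nat_lit 356) (nat_lit 336) (nat_lit 328)) (XT.lf (nat_lit 1292) (nat_lit 528223312) (nat_lit 76) (nat_lit 1318795793) (nat_lit 0) (nat_lit 1318795793) (nat_lit 395) (nat_lit 1) (nat_lit 379) (nat_lit 1) (nat_lit 378) (nat_lit 1) (nat_lit 357) (nat_lit 336) (nat_lit 327)))) (XT.nd (nat_lit 78) (nat_lit 0) (nat_lit 0) (XT.lf (nat_lit 1292) (nat_lit 190212155) (nat_lit 0) (nat_lit 2741272695) (nat_lit 1216) (nat_lit 190212155) (nat_lit 396) (nat_lit 1) (nat_lit 379) (nat_lit 1) (nat_lit 395) (nat_lit 1) (nat_lit 358) (nat_lit 336) (nat_lit 326)) (XT.nd (nat_lit 78) (nat_lit 0) (nat_lit 76) (XT.lf (nat_lit 1292) (nat_lit 210054911) (nat_lit 76) (nat_lit 1434013207) (nat_lit 0) (nat_lit 1434013207) (nat_lit 396) (nat_lit 1) (nat_lit 380) (nat_lit 1) (nat_lit 379) (nat_lit 1) (nat_lit 359) (nat_lit 336) (nat_lit 325)) (XT.lf (nat_lit 1292) (nat_lit 21283988)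 (nat_lit 0) (nat_lit 2993107456) (nat_lit 1216) (nat_lit 21283988) (nat_lit 397) (nat_lit 1) (nat_lit 380) (nat_lit 1) (nat_lit 396) (nat_lit 1) (nat_lit 360) (nat_lit 336) (nat_lit 324)))))) (XT.nd (nat_lit 468) (nat_lit 1824) (nat_lit 0) (XT.nd (nat_lit 234) (nat_lit 684) (nat_lit 0) (XT.nd (nat_lit 78) (nat_lit 0) (nat_lit 0) (XT.lf (nat_lit 1368) (nat_lit 1423568522) (nat_lit 0) (nat_lit 146469852) (nat_lit 1292) (nat_lit 1423568522) (nat_lit 381) (nat_lit 1) (nat_lit 363) (nat_lit 1) (nat_lit 380) (nat_lit 1) (nat_lit 361) (nat_lit 336) (nat_lit 323)) (XT.nd (nat_lit 78) (nat_lit 0) (nat_lit 76) (XT.lf (nat_lit 1368) (nat_lit 2621707175) (nat_lit 76) (nat_lit 165495350) (nat_lit 0) (nat_lit 165495350) (nat_lit 381) (nat_lit 1) (nat_lit 364) (nat_lit 1) (nat_lit 363) (nat_lit 1) (nat_lit 362) (nat_lit 336) (nat_lit 322)) (XT.lf (nat_lit 1368) (nat_lit 1188442864) (nat_lit 0) (nat_lit 535338609) (nat_lit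 1292) (nat_lit 1188442864) (nat_lit 382) (nat_lit 1) (nat_lit 364) (nat_lit 1) (nat_lit 381) (nat_lit 1) (nat_lit 363) (nat_lit 336) (nat_lit 321)))) (XT.nd (nat_lit 78) (nat_lit 760) (nat_lit 0) (XT.lf (nat_lit 1368) (nat_lit 2133946584) (nat_lit 76) (nat_lit 369415094) (nat_lit 0) (nat_lit 369415094) (nat_lit 382) (nat_lit 1) (nat_lit 365) (nat_lit 1) (nat_lit 364) (nat_lit 1) (nat_lit 364) (nat_lit 336) (nat_lit 320)) (XT.nd (nat_lit 78) (nat_lit 836) (nat_lit 0) (XT.lf (nat_lit 76) (nat_lit 938477577) (nat_lit 0) (nat_lit 956907627) (nat_lit 1292) (nat_lit 938477577) (nat_lit 366) (nat_lit 1) (nat_lit 365) (nat_lit 1) (nat_lit 382) (nat_lit 1) (nat_lit 365) (nat_lit 336) (nat_lit 319)) (XT.lf (nat_lit 912) (nat_lit 1618067465) (nat_lit 0) (nat_lit 588870749) (nat_lit 836) (nat_lit 588870749) (nat_lit 366) (nat_lit 1) (nat_lit 354) (nat_lit 1) (nat_lit 365) (nat_lit 1) (nat_lit 366) (nat_lit 336)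 (nat_lit 318))))) (XT.nd (nat_lit 234) (nat_lit 1216) (nat_lit 0) (XT.nd (nat_lit 78) (nat_lit 608) (nat_lit 0) (XT.lf (nat_lit 76) (nat_lit 675349861) (nat_lit 0) (nat_lit 1407697169) (nat_lit 912) (nat_lit 675349861) (nat_lit 355) (nat_lit 1) (nat_lit 354) (nat_lit 1) (nat_lit 366) (nat_lit 1) (nat_lit 367) (nat_lit 336) (nat_lit 317)) (XT.nd (nat_lit 78) (nat_lit 0) (nat_lit 0) (XT.lf (nat_lit 684) (nat_lit 1077318439) (nat_lit 0) (nat_lit 822177042) (nat_lit 608) (nat_lit 822177042) (nat_lit 355) (nat_lit 1) (nat_lit 346) (nat_lit 1) (nat_lit 354) (nat_lit 1) (nat_lit 368) (nat_lit 336) (nat_lit 316)) (XT.lf (nat_lit 76) (nat_lit 400616598) (nat_lit 0) (nat_lit 1884473924) (nat_lit 684) (nat_lit 400616598) (nat_lit 347) (nat_lit 1) (nat_lit 346) (nat_lit 1) (nat_lit 355) (nat_lit 1) (nat_lit 369) (nat_lit 336) (nat_lit 315)))) (XT.nd (nat_lit 78) (nat_lit 608) (nat_lit 0) (XT.lf (nat_lit 684) (nat_lit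 514714038) (nat_lit 0) (nat_lit 1067768551) (nat_lit 608) (nat_lit 1067768551) (nat_lit 347) (nat_lit 1) (nat_lit 338) (nat_lit 1) (nat_lit 346) (nat_lit 1) (nat_lit 370) (nat_lit 336) (nat_lit 314)) (XT.nd (nat_lit 78) (nat_lit 608) (nat_lit 0) (XT.lf (nat_lit 76) (nat_lit 115721959) (nat_lit 0) (nat_lit 2384235509) (nat_lit 684) (nat_lit 115721959) (nat_lit 339) (nat_lit 1) (nat_lit 338) (nat_lit 1) (nat_lit 347) (nat_lit 1) (nat_lit 371) (nat_lit 336) (nat_lit 313)) (XT.lf (nat_lit 76) (nat_lit 1257885251) (nat_lit 0) (nat_lit 65644026) (nat_lit 608) (nat_lit 1257885251) (nat_lit 331) (nat_lit 1) (nat_lit 330) (nat_lit 1) (nat_lit 338) (nat_lit 1) (nat_lit 372) (nat_lit 336) (nat_lit 312))))))))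
noncomputable def ec12 : XT := (XT.nd (nat_lit 51168) (nat_lit 0) (nat_lit 6384) (XT.nd (nat_lit 858) (nat_lit 2584) (nat_lit 0) (XT.nd (nat_lit 390) (nat_lit 1520) (nat_lit 0) (XT.nd (nat_lit 156) (nat_lit 1064) (nat_lit 0) (XT.nd (nat_lit 78) (nat_lit 0) (nat_lit 0) (XT.lf (nat_lit 684) (nat_lit 2195497858) (nat_lit 0) (nat_lit 176250390) (nat_lit 608) (nat_lit 176250390) (nat_lit 331) (nat_lit 1) (nat_lit 322) (nat_lit 1) (nat_lit 330) (nat_lit 1) (nat_lit 373) (nat_lit 336) (nat_lit 311)) (XT.lf (nat_lit 76) (nat_lit 931407970) (nat_lit 0) (nat_lit 652106953) (nat_lit 684) (nat_lit 931407970) (nat_lit 323) (nat_lit 1) (nat_lit 322) (nat_lit 1) (nat_lit 331) (nat_lit 1) (nat_lit 374) (nat_lit 336) (nat_lit 310))) (XT.nd (nat_lit 78) (nat_lit 532) (nat_lit 0) (XT.lf (nat_lit 608) (nat_lit 1533430582) (nat_lit 0) (nat_lit 474596863) (nat_lit 532) (nat_lit 474596863) (nat_lit 323) (nat_lit 1) (nat_lit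 315) (nat_lit 1) (nat_lit 322) (nat_lit 1) (nat_lit 375) (nat_lit 336) (nat_lit 309)) (XT.nd (nat_lit 78) (nat_lit 532) (nat_lit 0) (XT.lf (nat_lit 76) (nat_lit 599228245) (nat_lit 0) (nat_lit 1252367761) (nat_lit 608) (nat_lit 599228245) (nat_lit 316) (nat_lit 1) (nat_lit 315) (nat_lit 1) (nat_lit 323) (nat_lit 1) (nat_lit 376) (nat_lit 336) (nat_lit 308)) (XT.lf (nat_lit 608) (nat_lit 860960812) (nat_lit 0) (nat_lit 779315991) (nat_lit 532) (nat_lit 779315991) (nat_lit 316) (nat_lit 1) (nat_lit 308) (nat_lit 1) (nat_lit 315) (nat_lit 1) (nat_lit 377) (nat_lit 336) (nat_lit 307))))) (XT.nd (nat_lit 234) (nat_lit 456) (nat_lit 0) (XT.nd (nat_lit 78) (nat_lit 1064) (nat_lit 0) (XT.lf (nat_lit 76) (nat_lit 262385369) (nat_lit 0) (nat_lit 1864251971) (nat_lit 608) (nat_lit 262385369) (nat_lit 309) (nat_lit 1) (nat_lit 308) (nat_lit 1) (nat_lit 316) (nat_lit 1) (nat_lit 378) (nat_lit 336) (nat_lit 306))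 (XT.nd (nat_lit 78) (nat_lit 608) (nat_lit 0) (XT.lf (nat_lit 532) (nat_lit 180095630) (nat_lit 0) (nat_lit 1089357523) (nat_lit 456) (nat_lit 1089357523) (nat_lit 309) (nat_lit 1) (nat_lit 302) (nat_lit 1) (nat_lit 308) (nat_lit 1) (nat_lit 379) (nat_lit 336) (nat_lit 305)) (XT.lf (nat_lit 608) (nat_lit 2174545115) (nat_lit 0) (nat_lit 77395469) (nat_lit 532) (nat_lit 77395469) (nat_lit 302) (nat_lit 1) (nat_lit 294) (nat_lit 1) (nat_lit 301) (nat_lit 1) (nat_lit 380) (nat_lit 336) (nat_lit 304)))) (XT.nd (nat_lit 78) (nat_lit 456) (nat_lit 0) (XT.lf (nat_lit 76) (nat_lit 901313884) (nat_lit 0) (nat_lit 497414632) (nat_lit 608) (nat_lit 901313884) (nat_lit 295) (nat_lit 1) (nat_lit 294) (nat_lit 1) (nat_lit 302) (nat_lit 1) (nat_lit 381) (nat_lit 336) (nat_lit 303)) (XT.nd (nat_lit 78) (nat_lit 0) (nat_lit 0) (XT.lf (nat_lit 532) (nat_lit 1436666351) (nat_lit 0) (nat_lit 417396786) (nat_lit 456) (nat_lit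 417396786) (nat_lit 295) (nat_lit 1) (nat_lit 288) (nat_lit 1) (nat_lit 294) (nat_lit 1) (nat_lit 382) (nat_lit 336) (nat_lit 302)) (XT.lf (nat_lit 76) (nat_lit 533569792) (nat_lit 0) (nat_lit 1176156057) (nat_lit 532) (nat_lit 533569792) (nat_lit 289) (nat_lit 1) (nat_lit 288) (nat_lit 1) (nat_lit 295) (nat_lit 1) (nat_lit 383) (nat_lit 336) (nat_lit 301)))))) (XT.nd (nat_lit 390) (nat_lit 1216) (nat_lit 0) (XT.nd (nat_lit 156) (nat_lit 912) (nat_lit 0) (XT.nd (nat_lit 78) (nat_lit 0) (nat_lit 0) (XT.lf (nat_lit 532) (nat_lit 696844792) (nat_lit 0) (nat_lit 759385517) (nat_lit 456) (nat_lit 759385517) (nat_lit 289) (nat_lit 1) (nat_lit 282) (nat_lit 1) (nat_lit 288) (nat_lit 1) (nat_lit 384) (nat_lit 336) (nat_lit 300)) (XT.lf (nat_lit 76) (nat_lit 165217915) (nat_lit 0) (nat_lit 1858105432) (nat_lit 532) (nat_lit 165217915) (nat_lit 283) (nat_lit 1) (nat_lit 282) (nat_lit 1) (nat_lit 289) (nat_lit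 1) (nat_lit 385) (nat_lit 336) (nat_lit 299))) (XT.nd (nat_lit 78) (nat_lit 456) (nat_lit 0) (XT.lf (nat_lit 76) (nat_lit 1059521796) (nat_lit 0) (nat_lit 42668555) (nat_lit 456) (nat_lit 1059521796) (nat_lit 277) (nat_lit 1) (nat_lit 276) (nat_lit 1) (nat_lit 282) (nat_lit 1) (nat_lit 386) (nat_lit 336) (nat_lit 298)) (XT.nd (nat_lit 78) (nat_lit 0) (nat_lit 0) (XT.lf (nat_lit 532) (nat_lit 1733299564) (nat_lit 0) (nat_lit 201083374) (nat_lit 456) (nat_lit 201083374) (nat_lit 277) (nat_lit 1) (nat_lit 270) (nat_lit 1) (nat_lit 276) (nat_lit 1) (nat_lit 387) (nat_lit 336) (nat_lit 297)) (XT.lf (nat_lit 76) (nat_lit 670814708) (nat_lit 0) (nat_lit 767855656) (nat_lit 532) (nat_lit 670814708) (nat_lit 271) (nat_lit 1) (nat_lit 270) (nat_lit 1) (nat_lit 277) (nat_lit 1) (nat_lit 388) (nat_lit 336) (nat_lit 296))))) (XT.nd (nat_lit 234) (nat_lit 456) (nat_lit 0) (XT.nd (nat_lit 78) (nat_lit 380) (nat_lit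 0) (XT.lf (nat_lit 456) (nat_lit 953839142) (nat_lit 0) (nat_lit 565101083) (nat_lit 380) (nat_lit 565101083) (nat_lit 271) (nat_lit 1) (nat_lit 265) (nat_lit 1) (nat_lit 270) (nat_lit 1) (nat_lit 389) (nat_lit 336) (nat_lit 295)) (XT.nd (nat_lit 78) (nat_lit 380) (nat_lit 0) (XT.lf (nat_lit 76) (nat_lit 283949889) (nat_lit 0) (nat_lit 1491163779) (nat_lit 456) (nat_lit 283949889) (nat_lit 266) (nat_lit 1) (nat_lit 265) (nat_lit 1) (nat_lit 271) (nat_lit 1) (nat_lit 390) (nat_lit 336) (nat_lit 294)) (XT.lf (nat_lit 456) (nat_lit 178582113) (nat_lit 0) (nat_lit 927902698) (nat_lit 380) (nat_lit 927902698) (nat_lit 266) (nat_lit 1) (nat_lit 260) (nat_lit 1) (nat_lit 265) (nat_lit 1) (nat_lit 391) (nat_lit 336) (nat_lit 293)))) (XT.nd (nat_lit 49530) (nat_lit 0) (nat_lit 9120) (XT.lf (nat_lit 456) (nat_lit 1811069932) (nat_lit 0) (nat_lit 99596070) (nat_lit 380) (nat_lit 99596070) (nat_lit 260) (nat_lit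 1) (nat_lit 254) (nat_lit 1) (nat_lit 259) (nat_lit 1) (nat_lit 392) (nat_lit 336) (nat_lit 292)) (XT.nd (nat_lit 78) (nat_lit 0) (nat_lit 0) (XT.lf (nat_lit 1292) (nat_lit 341313136) (nat_lit 0) (nat_lit 1174275922) (nat_lit 1292) (nat_lit 341313136) (nat_lit 391) (nat_lit 1) (nat_lit 374) (nat_lit 0) (nat_lit 391) (nat_lit 0) (nat_lit 346) (nat_lit 337) (nat_lit 337)) (XT.lf (nat_lit 1292) (nat_lit 1333857716) (nat_lit 76) (nat_lit 1162763413) (nat_lit 0) (nat_lit 1162763413) (nat_lit 391) (nat_lit 1) (nat_lit 375) (nat_lit 1) (nat_lit 374) (nat_lit 0) (nat_lit 347) (nat_lit 337) (nat_lit 336))))))) (XT.nd (nat_lit 858) (nat_lit 2812) (nat_lit 0) (XT.nd (nat_lit 390) (nat_lit 0) (nat_lit 152) (XT.nd (nat_lit 156) (nat_lit 0) (nat_lit 76) (XT.nd (nat_lit 78) (nat_lit 0) (nat_lit 0) (XT.lf (nat_lit 1292) (nat_lit 645085394) (nat_lit 0) (nat_lit 2315994296) (nat_lit 1216) (nat_lit 645085394) (nat_lit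 392) (nat_lit 1) (nat_lit 375) (nat_lit 1) (nat_lit 391) (nat_lit 1) (nat_lit 348) (nat_lit 337) (nat_lit 335)) (XT.lf (nat_lit 1292) (nat_lit 1225050470) (nat_lit 76) (nat_lit 1164391952) (nat_lit 0) (nat_lit 1164391952) (nat_lit 392) (nat_lit 1) (nat_lit 376) (nat_lit 1) (nat_lit 375) (nat_lit 1) (nat_lit 349) (nat_lit 337) (nat_lit 334))) (XT.nd (nat_lit 78) (nat_lit 0) (nat_lit 0) (XT.lf (nat_lit 1292) (nat_lit 574848823) (nat_lit 0) (nat_lit 2352976934) (nat_lit 1216) (nat_lit 574848823) (nat_lit 393) (nat_lit 1) (nat_lit 376) (nat_lit 1) (nat_lit 392) (nat_lit 1) (nat_lit 350) (nat_lit 337) (nat_lit 333)) (XT.nd (nat_lit 78) (nat_lit 0) (nat_lit 76) (XT.lf (nat_lit 1292) (nat_lit 1053471165) (nat_lit 76) (nat_lit 1199430909) (nat_lit 0) (nat_lit 1199430909) (nat_lit 393) (nat_lit 1) (nat_lit 377) (nat_lit 1) (nat_lit 376) (nat_lit 1) (nat_lit 351) (nat_lit 337) (nat_lit 332)) (XT.lf (nat_lit 1292)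 (nat_lit 474808494) (nat_lit 0) (nat_lit 2453536859) (nat_lit 1216) (nat_lit 474808494) (nat_lit 394) (nat_lit 1) (nat_lit 377) (nat_lit 1) (nat_lit 393) (nat_lit 1) (nat_lit 352) (nat_lit 337) (nat_lit 331))))) (XT.nd (nat_lit 234) (nat_lit 0) (nat_lit 152) (XT.nd (nat_lit 78) (nat_lit 0) (nat_lit 76) (XT.lf (nat_lit 1292) (nat_lit 824733408) (nat_lit 76) (nat_lit 1264986548) (nat_lit 0) (nat_lit 1264986548) (nat_lit 394) (nat_lit 1) (nat_lit 378) (nat_lit 1) (nat_lit 377) (nat_lit 1) (nat_lit 353) (nat_lit 337) (nat_lit 330)) (XT.nd (nat_lit 78) (nat_lit 0) (nat_lit 0) (XT.lf (nat_lit 1292) (nat_lit 347660768) (nat_lit 0) (nat_lit 2612110876) (nat_lit 1216) (nat_lit 347660768) (nat_lit 395) (nat_lit 1) (nat_lit 378) (nat_lit 1) (nat_lit 394) (nat_lit 1) (nat_lit 354) (nat_lit 337) (nat_lit 329)) (XT.lf (nat_lit 1292) (nat_lit 544070011) (nat_lit 76) (nat_lit 1358359666) (nat_lit 0) (nat_lit 1358359666)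 (nat_lit 395) (nat_lit 1) (nat_lit 379) (nat_lit 1) (nat_lit 378) (nat_lit 1) (nat_lit 355) (nat_lit 337) (nat_lit 328)))) (XT.nd (nat_lit 78) (nat_lit 0) (nat_lit 0) (XT.lf (nat_lit 1292) (nat_lit 195918519) (nat_lit 0) (nat_lit 2823510876) (nat_lit 1216) (nat_lit 195918519) (nat_lit 396) (nat_lit 1) (nat_lit 379) (nat_lit 1) (nat_lit 395) (nat_lit 1) (nat_lit 356) (nat_lit 337) (nat_lit 327)) (XT.nd (nat_lit 78) (nat_lit 0) (nat_lit 76) (XT.lf (nat_lit 1292) (nat_lit 216356558) (nat_lit 76) (nat_lit 1477033604) (nat_lit 0) (nat_lit 1477033604) (nat_lit 396) (nat_lit 1) (nat_lit 380) (nat_lit 1) (nat_lit 379) (nat_lit 1) (nat_lit 357) (nat_lit 337) (nat_lit 326)) (XT.lf (nat_lit 1292) (nat_lit 21922507) (nat_lit 0) (nat_lit 3082900680) (nat_lit 1216) (nat_lit 21922507) (nat_lit 397) (nat_lit 1) (nat_lit 380) (nat_lit 1) (nat_lit 396) (nat_lit 1) (nat_lit 358) (nat_lit 337) (nat_lit 325)))))) (XT.nd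 (nat_lit 390) (nat_lit 1900) (nat_lit 0) (XT.nd (nat_lit 156) (nat_lit 0) (nat_lit 76) (XT.nd (nat_lit 78) (nat_lit 0) (nat_lit 0) (XT.lf (nat_lit 1368) (nat_lit 1466275577) (nat_lit 0) (nat_lit 150863947) (nat_lit 1292) (nat_lit 1466275577) (nat_lit 381) (nat_lit 1) (nat_lit 363) (nat_lit 1) (nat_lit 380) (nat_lit 1) (nat_lit 359) (nat_lit 337) (nat_lit 324)) (XT.lf (nat_lit 1368) (nat_lit 2700358390) (nat_lit 76) (nat_lit 170460211) (nat_lit 0) (nat_lit 170460211) (nat_lit 381) (nat_lit 1) (nat_lit 364) (nat_lit 1) (nat_lit 363) (nat_lit 1) (nat_lit 360) (nat_lit 337) (nat_lit 323))) (XT.nd (nat_lit 78) (nat_lit 0) (nat_lit 0) (XT.lf (nat_lit 1368) (nat_lit 1224096149) (nat_lit 0) (nat_lit 551398767) (nat_lit 1292) (nat_lit 1224096149) (nat_lit 382) (nat_lit 1) (nat_lit 364) (nat_lit 1) (nat_lit 381) (nat_lit 1) (nat_lit 361) (nat_lit 337) (nat_lit 322)) (XT.nd (nat_lit 78) (nat_lit 0) (nat_lit 76)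 (XT.lf (nat_lit 1368) (nat_lit 2197964982) (nat_lit 76) (nat_lit 380497546) (nat_lit 0) (nat_lit 380497546) (nat_lit 382) (nat_lit 1) (nat_lit 365) (nat_lit 1) (nat_lit 364) (nat_lit 1) (nat_lit 362) (nat_lit 337) (nat_lit 321)) (XT.lf (nat_lit 76) (nat_lit 966631904) (nat_lit 0) (nat_lit 985614856) (nat_lit 1292) (nat_lit 966631904) (nat_lit 366) (nat_lit 1) (nat_lit 365) (nat_lit 1) (nat_lit 382) (nat_lit 1) (nat_lit 363) (nat_lit 337) (nat_lit 320))))) (XT.nd (nat_lit 234) (nat_lit 608) (nat_lit 0) (XT.nd (nat_lit 78) (nat_lit 608) (nat_lit 0) (XT.lf (nat_lit 912) (nat_lit 1666609489) (nat_lit 0) (nat_lit 606536871) (nat_lit 836) (nat_lit 606536871) (nat_lit 366) (nat_lit 1) (nat_lit 354) (nat_lit 1) (nat_lit 365) (nat_lit 1) (nat_lit 364) (nat_lit 337) (nat_lit 319)) (XT.nd (nat_lit 78) (nat_lit 608) (nat_lit 0) (XT.lf (nat_lit 76) (nat_lit 695610357) (nat_lit 0) (nat_lit 1449928084) (nat_lit 912)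 (nat_lit 695610357) (nat_lit 355) (nat_lit 1) (nat_lit 354) (nat_lit 1) (nat_lit 366) (nat_lit 1) (nat_lit 365) (nat_lit 337) (nat_lit 318)) (XT.lf (nat_lit 684) (nat_lit 1109637992) (nat_lit 0) (nat_lit 846842353) (nat_lit 608) (nat_lit 846842353) (nat_lit 355) (nat_lit 1) (nat_lit 346) (nat_lit 1) (nat_lit 354) (nat_lit 1) (nat_lit 366) (nat_lit 337) (nat_lit 317)))) (XT.nd (nat_lit 78) (nat_lit 608) (nat_lit 0) (XT.lf (nat_lit 76) (nat_lit 412635096) (nat_lit 0) (nat_lit 1941008142) (nat_lit 684) (nat_lit 412635096) (nat_lit 347) (nat_lit 1) (nat_lit 346) (nat_lit 1) (nat_lit 355) (nat_lit 1) (nat_lit 367) (nat_lit 337) (nat_lit 316)) (XT.nd (nat_lit 78) (nat_lit 0) (nat_lit 0) (XT.lf (nat_lit 684) (nat_lit 530155459) (nat_lit 0) (nat_lit 1099801608) (nat_lit 608) (nat_lit 1099801608) (nat_lit 347) (nat_lit 1) (nat_lit 338) (nat_lit 1) (nat_lit 346) (nat_lit 1) (nat_lit 368) (nat_lit 337) (nat_lit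 315)) (XT.lf (nat_lit 76) (nat_lit 119193618) (nat_lit 0) (nat_lit 2455762574) (nat_lit 684) (nat_lit 119193618) (nat_lit 339) (nat_lit 1) (nat_lit 338) (nat_lit 1) (nat_lit 347) (nat_lit 1) (nat_lit 369) (nat_lit 337) (nat_lit 314))))))))
noncomputable def ec13 : XT := (XT.nd (nat_lit 1716) (nat_lit 380) (nat_lit 0) (XT.nd (nat_lit 858) (nat_lit 2584) (nat_lit 0) (XT.nd (nat_lit 390) (nat_lit 2052) (nat_lit 0) (XT.nd (nat_lit 156) (nat_lit 532) (nat_lit 0) (XT.nd (nat_lit 78) (nat_lit 608) (nat_lit 0) (XT.lf (nat_lit 76) (nat_lit 1295621809) (nat_lit 0) (nat_lit 67613347) (nat_lit 608) (nat_lit 1295621809) (nat_lit 331) (nat_lit 1) (nat_lit 330) (nat_lit 1) (nat_lit 338) (nat_lit 1) (nat_lit 370) (nat_lit 337) (nat_lit 313)) (XT.lf (nat_lit 684) (nat_lit 2261362794) (nat_lit 0) (nat_lit 181537902) (nat_lit 608) (nat_lit 181537902) (nat_lit 331) (nat_lit 1) (nat_lit 322) (nat_lit 1) (nat_lit 330) (nat_lit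 1) (nat_lit 371) (nat_lit 337) (nat_lit 312))) (XT.nd (nat_lit 78) (nat_lit 532) (nat_lit 0) (XT.lf (nat_lit 76) (nat_lit 959350209) (nat_lit 0) (nat_lit 671670161) (nat_lit 684) (nat_lit 959350209) (nat_lit 323) (nat_lit 1) (nat_lit 322) (nat_lit 1) (nat_lit 331) (nat_lit 1) (nat_lit 372) (nat_lit 337) (nat_lit 311)) (XT.nd (nat_lit 78) (nat_lit 0) (nat_lit 0) (XT.lf (nat_lit 608) (nat_lit 1579433500) (nat_lit 0) (nat_lit 488834769) (nat_lit 532) (nat_lit 488834769) (nat_lit 323) (nat_lit 1) (nat_lit 315) (nat_lit 1) (nat_lit 322) (nat_lit 1) (nat_lit 373) (nat_lit 337) (nat_lit 310)) (XT.lf (nat_lit 76) (nat_lit 617205093) (nat_lit 0) (nat_lit 1289938793) (nat_lit 608) (nat_lit 617205093) (nat_lit 316) (nat_lit 1) (nat_lit 315) (nat_lit 1) (nat_lit 323) (nat_lit 1) (nat_lit 374) (nat_lit 337) (nat_lit 309))))) (XT.nd (nat_lit 234) (nat_lit 1064) (nat_lit 0) (XT.nd (nat_lit 78) (nat_lit 456) (nat_lit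 0) (XT.lf (nat_lit 608) (nat_lit 886789636) (nat_lit 0) (nat_lit 802695471) (nat_lit 532) (nat_lit 802695471) (nat_lit 316) (nat_lit 1) (nat_lit 308) (nat_lit 1) (nat_lit 315) (nat_lit 1) (nat_lit 375) (nat_lit 337) (nat_lit 308)) (XT.nd (nat_lit 78) (nat_lit 456) (nat_lit 0) (XT.lf (nat_lit 76) (nat_lit 270256930) (nat_lit 0) (nat_lit 1920179530) (nat_lit 608) (nat_lit 270256930) (nat_lit 309) (nat_lit 1) (nat_lit 308) (nat_lit 1) (nat_lit 316) (nat_lit 1) (nat_lit 376) (nat_lit 337) (nat_lit 307)) (XT.lf (nat_lit 532) (nat_lit 185498499) (nat_lit 0) (nat_lit 1122038249) (nat_lit 456) (nat_lit 1122038249) (nat_lit 309) (nat_lit 1) (nat_lit 302) (nat_lit 1) (nat_lit 308) (nat_lit 1) (nat_lit 377) (nat_lit 337) (nat_lit 306)))) (XT.nd (nat_lit 78) (nat_lit 456) (nat_lit 0) (XT.lf (nat_lit 608) (nat_lit 2239781469) (nat_lit 0) (nat_lit 79717333) (nat_lit 532) (nat_lit 79717333) (nat_lit 302) (nat_lit 1)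 (nat_lit 294) (nat_lit 1) (nat_lit 301) (nat_lit 1) (nat_lit 378) (nat_lit 337) (nat_lit 305)) (XT.nd (nat_lit 78) (nat_lit 456) (nat_lit 0) (XT.lf (nat_lit 76) (nat_lit 928353300) (nat_lit 0) (nat_lit 512337071) (nat_lit 608) (nat_lit 928353300) (nat_lit 295) (nat_lit 1) (nat_lit 294) (nat_lit 1) (nat_lit 302) (nat_lit 1) (nat_lit 379) (nat_lit 337) (nat_lit 304)) (XT.lf (nat_lit 532) (nat_lit 1479766341) (nat_lit 0) (nat_lit 429918689) (nat_lit 456) (nat_lit 429918689) (nat_lit 295) (nat_lit 1) (nat_lit 288) (nat_lit 1) (nat_lit 294) (nat_lit 1) (nat_lit 380) (nat_lit 337) (nat_lit 303)))))) (XT.nd (nat_lit 390) (nat_lit 1216) (nat_lit 0) (XT.nd (nat_lit 156) (nat_lit 912) (nat_lit 0) (XT.nd (nat_lit 78) (nat_lit 456) (nat_lit 0) (XT.lf (nat_lit 76) (nat_lit 549576886) (nat_lit 0) (nat_lit 1211440738) (nat_lit 532) (nat_lit 549576886) (nat_lit 289) (nat_lit 1) (nat_lit 288) (nat_lit 1) (nat_lit 295)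 (nat_lit 1) (nat_lit 381) (nat_lit 337) (nat_lit 302)) (XT.lf (nat_lit 532) (nat_lit 717750136) (nat_lit 0) (nat_lit 782167082) (nat_lit 456) (nat_lit 782167082) (nat_lit 289) (nat_lit 1) (nat_lit 282) (nat_lit 1) (nat_lit 288) (nat_lit 1) (nat_lit 382) (nat_lit 337) (nat_lit 301))) (XT.nd (nat_lit 78) (nat_lit 912) (nat_lit 0) (XT.lf (nat_lit 76) (nat_lit 170174453) (nat_lit 0) (nat_lit 1913848595) (nat_lit 532) (nat_lit 170174453) (nat_lit 283) (nat_lit 1) (nat_lit 282) (nat_lit 1) (nat_lit 289) (nat_lit 1) (nat_lit 383) (nat_lit 337) (nat_lit 300)) (XT.nd (nat_lit 78) (nat_lit 456) (nat_lit 0) (XT.lf (nat_lit 76) (nat_lit 1091307449) (nat_lit 0) (nat_lit 43948612) (nat_lit 456) (nat_lit 1091307449) (nat_lit 277) (nat_lit 1) (nat_lit 276) (nat_lit 1) (nat_lit 282) (nat_lit 1) (nat_lit 384) (nat_lit 337) (nat_lit 299)) (XT.lf (nat_lit 532) (nat_lit 1785298551) (nat_lit 0) (nat_lit 207115875) (nat_lit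 456) (nat_lit 207115875) (nat_lit 277) (nat_lit 1) (nat_lit 270) (nat_lit 1) (nat_lit 276) (nat_lit 1) (nat_lit 385) (nat_lit 337) (nat_lit 298))))) (XT.nd (nat_lit 234) (nat_lit 836) (nat_lit 0) (XT.nd (nat_lit 78) (nat_lit 380) (nat_lit 0) (XT.lf (nat_lit 76) (nat_lit 690939150) (nat_lit 0) (nat_lit 790891326) (nat_lit 532) (nat_lit 690939150) (nat_lit 271) (nat_lit 1) (nat_lit 270) (nat_lit 1) (nat_lit 277) (nat_lit 1) (nat_lit 386) (nat_lit 337) (nat_lit 297)) (XT.nd (nat_lit 78) (nat_lit 0) (nat_lit 0) (XT.lf (nat_lit 456) (nat_lit 982454317) (nat_lit 0) (nat_lit 582054115) (nat_lit 380) (nat_lit 582054115) (nat_lit 271) (nat_lit 1) (nat_lit 265) (nat_lit 1) (nat_lit 270) (nat_lit 1) (nat_lit 387) (nat_lit 337) (nat_lit 296)) (XT.lf (nat_lit 76) (nat_lit 292468385) (nat_lit 0) (nat_lit 1535898692) (nat_lit 456) (nat_lit 292468385) (nat_lit 266) (nat_lit 1) (nat_lit 265) (nat_lit 1) (nat_lit 271)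 (nat_lit 1) (nat_lit 388) (nat_lit 337) (nat_lit 295)))) (XT.nd (nat_lit 78) (nat_lit 456) (nat_lit 0) (XT.lf (nat_lit 456) (nat_lit 183939577) (nat_lit 0) (nat_lit 955739779) (nat_lit 380) (nat_lit 955739779) (nat_lit 266) (nat_lit 1) (nat_lit 260) (nat_lit 1) (nat_lit 265) (nat_lit 1) (nat_lit 389) (nat_lit 337) (nat_lit 294)) (XT.nd (nat_lit 78) (nat_lit 0) (nat_lit 0) (XT.lf (nat_lit 456) (nat_lit 1865402030) (nat_lit 0) (nat_lit 102583953) (nat_lit 380) (nat_lit 102583953) (nat_lit 260) (nat_lit 1) (nat_lit 254) (nat_lit 1) (nat_lit 259) (nat_lit 1) (nat_lit 390) (nat_lit 337) (nat_lit 293)) (XT.lf (nat_lit 76) (nat_lit 724233146) (nat_lit 0) (nat_lit 597388767) (nat_lit 456) (nat_lit 724233146) (nat_lit 255) (nat_lit 1) (nat_lit 254) (nat_lit 1) (nat_lit 260) (nat_lit 1) (nat_lit 391) (nat_lit 337) (nat_lit 292))))))) (XT.nd (nat_lit 50154) (nat_lit 0) (nat_lit 7372) (XT.nd (nat_lit 49686) (nat_lit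 0) (nat_lit 9652) (XT.nd (nat_lit 49452) (nat_lit 0) (nat_lit 9500) (XT.nd (nat_lit 49374) (nat_lit 0) (nat_lit 9500) (XT.lf (nat_lit 456) (nat_lit 1037817562) (nat_lit 0) (nat_lit 491935943) (nat_lit 380) (nat_lit 491935943) (nat_lit 255) (nat_lit 1) (nat_lit 249) (nat_lit 1) (nat_lit 254) (nat_lit 1) (nat_lit 392) (nat_lit 337) (nat_lit 291)) (XT.lf (nat_lit 1292) (nat_lit 351552530) (nat_lit 0) (nat_lit 1209504199) (nat_lit 1292) (nat_lit 351552530) (nat_lit 391) (nat_lit 1) (nat_lit 374) (nat_lit 0) (nat_lit 391) (nat_lit 0) (nat_lit 344) (nat_lit 338) (nat_lit 338))) (XT.nd (nat_lit 78) (nat_lit 0) (nat_lit 76) (XT.lf (nat_lit 1292) (nat_lit 1373873448) (nat_lit 76) (nat_lit 1197646315) (nat_lit 0) (nat_lit 1197646315) (nat_lit 391) (nat_lit 1) (nat_lit 375) (nat_lit 1) (nat_lit 374) (nat_lit 0) (nat_lit 345) (nat_lit 338) (nat_lit 337)) (XT.nd (nat_lit 78) (nat_lit 0) (nat_lit 0) (XT.lf (nat_lit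 1292) (nat_lit 664437956) (nat_lit 0) (nat_lit 2385474125) (nat_lit 1216) (nat_lit 664437956) (nat_lit 392) (nat_lit 1) (nat_lit 375) (nat_lit 1) (nat_lit 391) (nat_lit 1) (nat_lit 346) (nat_lit 338) (nat_lit 336)) (XT.lf (nat_lit 1292) (nat_lit 1261801984) (nat_lit 76) (nat_lit 1199323710) (nat_lit 0) (nat_lit 1199323710) (nat_lit 392) (nat_lit 1) (nat_lit 376) (nat_lit 1) (nat_lit 375) (nat_lit 1) (nat_lit 347) (nat_lit 338) (nat_lit 335))))) (XT.nd (nat_lit 234) (nat_lit 0) (nat_lit 76) (XT.nd (nat_lit 78) (nat_lit 0) (nat_lit 0) (XT.lf (nat_lit 1292) (nat_lit 592094288) (nat_lit 0) (nat_lit 2423566242) (nat_lit 1216) (nat_lit 592094288) (nat_lit 393) (nat_lit 1) (nat_lit 376) (nat_lit 1) (nat_lit 392) (nat_lit 1) (nat_lit 348) (nat_lit 338) (nat_lit 334)) (XT.nd (nat_lit 78) (nat_lit 0) (nat_lit 76) (XT.lf (nat_lit 1292) (nat_lit 1085075300) (nat_lit 76) (nat_lit 1235413836) (nat_lit 0) (nat_lit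 1235413836) (nat_lit 393) (nat_lit 1) (nat_lit 377) (nat_lit 1) (nat_lit 376) (nat_lit 1) (nat_lit 349) (nat_lit 338) (nat_lit 333)) (XT.lf (nat_lit 1292) (nat_lit 489052749) (nat_lit 0) (nat_lit 2527142965) (nat_lit 1216) (nat_lit 489052749) (nat_lit 394) (nat_lit 1) (nat_lit 377) (nat_lit 1) (nat_lit 393) (nat_lit 1) (nat_lit 350) (nat_lit 338) (nat_lit 332)))) (XT.nd (nat_lit 78) (nat_lit 0) (nat_lit 76) (XT.lf (nat_lit 1292) (nat_lit 849475410) (nat_lit 76) (nat_lit 1302936144) (nat_lit 0) (nat_lit 1302936144) (nat_lit 394) (nat_lit 1) (nat_lit 378) (nat_lit 1) (nat_lit 377) (nat_lit 1) (nat_lit 351) (nat_lit 338) (nat_lit 331)) (XT.nd (nat_lit 78) (nat_lit 0) (nat_lit 0) (XT.lf (nat_lit 1292) (nat_lit 358090591) (nat_lit 0) (nat_lit 2690474203) (nat_lit 1216) (nat_lit 358090591) (nat_lit 395) (nat_lit 1) (nat_lit 378) (nat_lit 1) (nat_lit 394) (nat_lit 1) (nat_lit 352) (nat_lit 338) (nat_lit 330))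 (XT.lf (nat_lit 1292) (nat_lit 560392112) (nat_lit 76) (nat_lit 1399110457) (nat_lit 0) (nat_lit 1399110457) (nat_lit 395) (nat_lit 1) (nat_lit 379) (nat_lit 1) (nat_lit 378) (nat_lit 1) (nat_lit 353) (nat_lit 338) (nat_lit 329)))))) (XT.nd (nat_lit 468) (nat_lit 1292) (nat_lit 0) (XT.nd (nat_lit 234) (nat_lit 1216) (nat_lit 0) (XT.nd (nat_lit 78) (nat_lit 0) (nat_lit 0) (XT.lf (nat_lit 1292) (nat_lit 201796075) (nat_lit 0) (nat_lit 2908216202) (nat_lit 1216) (nat_lit 201796075) (nat_lit 396) (nat_lit 1) (nat_lit 379) (nat_lit 1) (nat_lit 395) (nat_lit 1) (nat_lit 354) (nat_lit 338) (nat_lit 328)) (XT.nd (nat_lit 78) (nat_lit 0) (nat_lit 76) (XT.lf (nat_lit 1292) (nat_lit 222847255) (nat_lit 76) (nat_lit 1521344612) (nat_lit 0) (nat_lit 1521344612) (nat_lit 396) (nat_lit 1) (nat_lit 380) (nat_lit 1) (nat_lit 379) (nat_lit 1) (nat_lit 355) (nat_lit 338) (nat_lit 327)) (XT.lf (nat_lit 1292) (nat_lit 22580182)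 (nat_lit 0) (nat_lit 3175387700) (nat_lit 1216) (nat_lit 22580182) (nat_lit 397) (nat_lit 1) (nat_lit 380) (nat_lit 1) (nat_lit 396) (nat_lit 1) (nat_lit 356) (nat_lit 338) (nat_lit 326)))) (XT.nd (nat_lit 78) (nat_lit 0) (nat_lit 0) (XT.lf (nat_lit 1368) (nat_lit 1510263845) (nat_lit 0) (nat_lit 155389866) (nat_lit 1292) (nat_lit 1510263845) (nat_lit 381) (nat_lit 1) (nat_lit 363) (nat_lit 1) (nat_lit 380) (nat_lit 1) (nat_lit 357) (nat_lit 338) (nat_lit 325)) (XT.nd (nat_lit 78) (nat_lit 0) (nat_lit 76) (XT.lf (nat_lit 1368) (nat_lit 2781369142) (nat_lit 76) (nat_lit 175574017) (nat_lit 0) (nat_lit 175574017) (nat_lit 381) (nat_lit 1) (nat_lit 364) (nat_lit 1) (nat_lit 363) (nat_lit 1) (nat_lit 358) (nat_lit 338) (nat_lit 324)) (XT.lf (nat_lit 1368) (nat_lit 1260819034) (nat_lit 0) (nat_lit 567940730) (nat_lit 1292) (nat_lit 1260819034) (nat_lit 382) (nat_lit 1) (nat_lit 364) (nat_lit 1) (nat_lit 381)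 (nat_lit 1) (nat_lit 359) (nat_lit 338) (nat_lit 323))))) (XT.nd (nat_lit 234) (nat_lit 608) (nat_lit 0) (XT.nd (nat_lit 78) (nat_lit 760) (nat_lit 0) (XT.lf (nat_lit 1368) (nat_lit 2263903931) (nat_lit 76) (nat_lit 391912473) (nat_lit 0) (nat_lit 391912473) (nat_lit 382) (nat_lit 1) (nat_lit 365) (nat_lit 1) (nat_lit 364) (nat_lit 1) (nat_lit 360) (nat_lit 338) (nat_lit 322)) (XT.nd (nat_lit 78) (nat_lit 836) (nat_lit 0) (XT.lf (nat_lit 76) (nat_lit 995630862) (nat_lit 0) (nat_lit 1015183302) (nat_lit 1292) (nat_lit 995630862) (nat_lit 366) (nat_lit 1) (nat_lit 365) (nat_lit 1) (nat_lit 382) (nat_lit 1) (nat_lit 361) (nat_lit 338) (nat_lit 321)) (XT.lf (nat_lit 912) (nat_lit 1716607773) (nat_lit 0) (nat_lit 624732977) (nat_lit 836) (nat_lit 624732977) (nat_lit 366) (nat_lit 1) (nat_lit 354) (nat_lit 1) (nat_lit 365) (nat_lit 1) (nat_lit 362) (nat_lit 338) (nat_lit 320)))) (XT.nd (nat_lit 78) (nat_lit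 608) (nat_lit 0) (XT.lf (nat_lit 76) (nat_lit 716478668) (nat_lit 0) (nat_lit 1493425926) (nat_lit 912) (nat_lit 716478668) (nat_lit 355) (nat_lit 1) (nat_lit 354) (nat_lit 1) (nat_lit 366) (nat_lit 1) (nat_lit 363) (nat_lit 338) (nat_lit 319)) (XT.nd (nat_lit 78) (nat_lit 0) (nat_lit 0) (XT.lf (nat_lit 684) (nat_lit 1142927132) (nat_lit 0) (nat_lit 872247624) (nat_lit 608) (nat_lit 872247624) (nat_lit 355) (nat_lit 1) (nat_lit 346) (nat_lit 1) (nat_lit 354) (nat_lit 1) (nat_lit 364) (nat_lit 338) (nat_lit 318)) (XT.lf (nat_lit 76) (nat_lit 425014149) (nat_lit 0) (nat_lit 1999238386) (nat_lit 684) (nat_lit 425014149) (nat_lit 347) (nat_lit 1) (nat_lit 346) (nat_lit 1) (nat_lit 355) (nat_lit 1) (nat_lit 365) (nat_lit 338) (nat_lit 317))))))))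
noncomputable def ec14 : XT := (XT.nd (nat_lit 1716) (nat_lit 1140) (nat_lit 0) (XT.nd (nat_lit 858) (nat_lit 2584) (nat_lit 0) (XT.nd (nat_lit 390) (nat_lit 2128) (nat_lit 0) (XT.nd (nat_lit 156) (nat_lit 1216) (nat_lit 0) (XT.nd (nat_lit 78) (nat_lit 0) (nat_lit 0) (XT.lf (nat_lit 684) (nat_lit 546060123) (nat_lit 0) (nat_lit 1132795656) (nat_lit 608) (nat_lit 1132795656) (nat_lit 347) (nat_lit 1) (nat_lit 338) (nat_lit 1) (nat_lit 346) (nat_lit 1) (nat_lit 366) (nat_lit 338) (nat_lit 316)) (XT.lf (nat_lit 76) (nat_lit 122769427) (nat_lit 0) (nat_lit 2529435451) (nat_lit 684) (nat_lit 122769427) (nat_lit 339) (nat_lit 1) (nat_lit 338) (nat_lit 1) (nat_lit 347) (nat_lit 1) (nat_lit 367) (nat_lit 338) (nat_lit 315))) (XT.nd (nat_lit 78) (nat_lit 608) (nat_lit 0) (XT.lf (nat_lit 76) (nat_lit 1334490463) (nat_lit 0) (nat_lit 69641748) (nat_lit 608) (nat_lit 1334490463) (nat_lit 331) (nat_lit 1) (nat_lit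 330) (nat_lit 1) (nat_lit 338) (nat_lit 1) (nat_lit 368) (nat_lit 338) (nat_lit 314)) (XT.nd (nat_lit 78) (nat_lit 0) (nat_lit 0) (XT.lf (nat_lit 684) (nat_lit 2329203678) (nat_lit 0) (nat_lit 186984039) (nat_lit 608) (nat_lit 186984039) (nat_lit 331) (nat_lit 1) (nat_lit 322) (nat_lit 1) (nat_lit 330) (nat_lit 1) (nat_lit 369) (nat_lit 338) (nat_lit 313)) (XT.lf (nat_lit 76) (nat_lit 988130716) (nat_lit 0) (nat_lit 691820266) (nat_lit 684) (nat_lit 988130716) (nat_lit 323) (nat_lit 1) (nat_lit 322) (nat_lit 1) (nat_lit 331) (nat_lit 1) (nat_lit 370) (nat_lit 338) (nat_lit 312))))) (XT.nd (nat_lit 234) (nat_lit 1064) (nat_lit 0) (XT.nd (nat_lit 78) (nat_lit 532) (nat_lit 0) (XT.lf (nat_lit 608) (nat_lit 1626816505) (nat_lit 0) (nat_lit 503499812) (nat_lit 532) (nat_lit 503499812) (nat_lit 323) (nat_lit 1) (nat_lit 315) (nat_lit 1) (nat_lit 322) (nat_lit 1) (nat_lit 371) (nat_lit 338) (nat_lit 311)) (XT.nd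 (nat_lit 78) (nat_lit 532) (nat_lit 0) (XT.lf (nat_lit 76) (nat_lit 635721246) (nat_lit 0) (nat_lit 1328636957) (nat_lit 608) (nat_lit 635721246) (nat_lit 316) (nat_lit 1) (nat_lit 315) (nat_lit 1) (nat_lit 323) (nat_lit 1) (nat_lit 372) (nat_lit 338) (nat_lit 310)) (XT.lf (nat_lit 608) (nat_lit 913393325) (nat_lit 0) (nat_lit 826776335) (nat_lit 532) (nat_lit 826776335) (nat_lit 316) (nat_lit 1) (nat_lit 308) (nat_lit 1) (nat_lit 315) (nat_lit 1) (nat_lit 373) (nat_lit 338) (nat_lit 309)))) (XT.nd (nat_lit 78) (nat_lit 1064) (nat_lit 0) (XT.lf (nat_lit 76) (nat_lit 278364638) (nat_lit 0) (nat_lit 1977784916) (nat_lit 608) (nat_lit 278364638) (nat_lit 309) (nat_lit 1) (nat_lit 308) (nat_lit 1) (nat_lit 316) (nat_lit 1) (nat_lit 374) (nat_lit 338) (nat_lit 308)) (XT.nd (nat_lit 78) (nat_lit 608) (nat_lit 0) (XT.lf (nat_lit 532) (nat_lit 191063454) (nat_lit 0) (nat_lit 1155699396) (nat_lit 456) (nat_lit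 1155699396) (nat_lit 309) (nat_lit 1) (nat_lit 302) (nat_lit 1) (nat_lit 308) (nat_lit 1) (nat_lit 375) (nat_lit 338) (nat_lit 307)) (XT.lf (nat_lit 608) (nat_lit 2306974913) (nat_lit 0) (nat_lit 82108853) (nat_lit 532) (nat_lit 82108853) (nat_lit 302) (nat_lit 1) (nat_lit 294) (nat_lit 1) (nat_lit 301) (nat_lit 1) (nat_lit 376) (nat_lit 338) (nat_lit 306)))))) (XT.nd (nat_lit 390) (nat_lit 1672) (nat_lit 0) (XT.nd (nat_lit 156) (nat_lit 456) (nat_lit 0) (XT.nd (nat_lit 78) (nat_lit 456) (nat_lit 0) (XT.lf (nat_lit 76) (nat_lit 956203899) (nat_lit 0) (nat_lit 527707183) (nat_lit 608) (nat_lit 956203899) (nat_lit 295) (nat_lit 1) (nat_lit 294) (nat_lit 1) (nat_lit 302) (nat_lit 1) (nat_lit 377) (nat_lit 338) (nat_lit 305)) (XT.lf (nat_lit 532) (nat_lit 1524159331) (nat_lit 0) (nat_lit 442816250) (nat_lit 456) (nat_lit 442816250) (nat_lit 295) (nat_lit 1) (nat_lit 288) (nat_lit 1) (nat_lit 294) (nat_lit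 1) (nat_lit 378) (nat_lit 338) (nat_lit 304))) (XT.nd (nat_lit 78) (nat_lit 456) (nat_lit 0) (XT.lf (nat_lit 76) (nat_lit 566064192) (nat_lit 0) (nat_lit 1247783960) (nat_lit 532) (nat_lit 566064192) (nat_lit 289) (nat_lit 1) (nat_lit 288) (nat_lit 1) (nat_lit 295) (nat_lit 1) (nat_lit 379) (nat_lit 338) (nat_lit 303)) (XT.nd (nat_lit 78) (nat_lit 0) (nat_lit 0) (XT.lf (nat_lit 532) (nat_lit 739282640) (nat_lit 0) (nat_lit 805632095) (nat_lit 456) (nat_lit 805632095) (nat_lit 289) (nat_lit 1) (nat_lit 282) (nat_lit 1) (nat_lit 288) (nat_lit 1) (nat_lit 380) (nat_lit 338) (nat_lit 302)) (XT.lf (nat_lit 76) (nat_lit 175279686) (nat_lit 0) (nat_lit 1971264053) (nat_lit 532) (nat_lit 175279686) (nat_lit 283) (nat_lit 1) (nat_lit 282) (nat_lit 1) (nat_lit 289) (nat_lit 1) (nat_lit 381) (nat_lit 338) (nat_lit 301))))) (XT.nd (nat_lit 234) (nat_lit 760) (nat_lit 0) (XT.nd (nat_lit 78) (nat_lit 456) (nat_lit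 0) (XT.lf (nat_lit 76) (nat_lit 1124046673) (nat_lit 0) (nat_lit 45267070) (nat_lit 456) (nat_lit 1124046673) (nat_lit 277) (nat_lit 1) (nat_lit 276) (nat_lit 1) (nat_lit 282) (nat_lit 1) (nat_lit 382) (nat_lit 338) (nat_lit 300)) (XT.nd (nat_lit 78) (nat_lit 0) (nat_lit 0) (XT.lf (nat_lit 532) (nat_lit 1838857507) (nat_lit 0) (nat_lit 213329351) (nat_lit 456) (nat_lit 213329351) (nat_lit 277) (nat_lit 1) (nat_lit 270) (nat_lit 1) (nat_lit 276) (nat_lit 1) (nat_lit 383) (nat_lit 338) (nat_lit 299)) (XT.lf (nat_lit 76) (nat_lit 711667324) (nat_lit 0) (nat_lit 814618066) (nat_lit 532) (nat_lit 711667324) (nat_lit 271) (nat_lit 1) (nat_lit 270) (nat_lit 1) (nat_lit 277) (nat_lit 1) (nat_lit 384) (nat_lit 338) (nat_lit 298)))) (XT.nd (nat_lit 78) (nat_lit 380) (nat_lit 0) (XT.lf (nat_lit 456) (nat_lit 1011927946) (nat_lit 0) (nat_lit 599515739) (nat_lit 380) (nat_lit 599515739) (nat_lit 271) (nat_lit 1)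 (nat_lit 265) (nat_lit 1) (nat_lit 270) (nat_lit 1) (nat_lit 385) (nat_lit 338) (nat_lit 297)) (XT.nd (nat_lit 78) (nat_lit 380) (nat_lit 0) (XT.lf (nat_lit 76) (nat_lit 301242437) (nat_lit 0) (nat_lit 1581975653) (nat_lit 456) (nat_lit 301242437) (nat_lit 266) (nat_lit 1) (nat_lit 265) (nat_lit 1) (nat_lit 271) (nat_lit 1) (nat_lit 386) (nat_lit 338) (nat_lit 296)) (XT.lf (nat_lit 456) (nat_lit 189457764) (nat_lit 0) (nat_lit 984411972) (nat_lit 380) (nat_lit 984411972) (nat_lit 266) (nat_lit 1) (nat_lit 260) (nat_lit 1) (nat_lit 265) (nat_lit 1) (nat_lit 387) (nat_lit 338) (nat_lit 295))))))) (XT.nd (nat_lit 49998) (nat_lit 0) (nat_lit 8968) (XT.nd (nat_lit 49530) (nat_lit 0) (nat_lit 9804) (XT.nd (nat_lit 156) (nat_lit 684) (nat_lit 0) (XT.nd (nat_lit 78) (nat_lit 0) (nat_lit 0) (XT.lf (nat_lit 456) (nat_lit 1921364091) (nat_lit 0) (nat_lit 105661471) (nat_lit 380) (nat_lit 105661471) (nat_lit 260)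 (nat_lit 1) (nat_lit 254) (nat_lit 1) (nat_lit 259) (nat_lit 1) (nat_lit 388) (nat_lit 338) (nat_lit 294)) (XT.lf (nat_lit 76) (nat_lit 745960140) (nat_lit 0) (nat_lit 615310430) (nat_lit 456) (nat_lit 745960140) (nat_lit 255) (nat_lit 1) (nat_lit 254) (nat_lit 1) (nat_lit 260) (nat_lit 1) (nat_lit 389) (nat_lit 338) (nat_lit 293))) (XT.nd (nat_lit 78) (nat_lit 304) (nat_lit 0) (XT.lf (nat_lit 456) (nat_lit 1068952089) (nat_lit 0) (nat_lit 506694021) (nat_lit 380) (nat_lit 506694021) (nat_lit 255) (nat_lit 1) (nat_lit 249) (nat_lit 1) (nat_lit 254) (nat_lit 1) (nat_lit 390) (nat_lit 338) (nat_lit 292)) (XT.nd (nat_lit 78) (nat_lit 304) (nat_lit 0) (XT.lf (nat_lit 76) (nat_lit 323859837) (nat_lit 0) (nat_lit 1410146584) (nat_lit 456) (nat_lit 323859837) (nat_lit 250) (nat_lit 1) (nat_lit 249) (nat_lit 1) (nat_lit 255) (nat_lit 1) (nat_lit 391) (nat_lit 338) (nat_lit 291)) (XT.lf (nat_lit 380) (nat_lit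 224931198) (nat_lit 0) (nat_lit 904385674) (nat_lit 304) (nat_lit 904385674) (nat_lit 250) (nat_lit 1) (nat_lit 245) (nat_lit 1) (nat_lit 249) (nat_lit 1) (nat_lit 392) (nat_lit 338) (nat_lit 290))))) (XT.nd (nat_lit 234) (nat_lit 0) (nat_lit 76) (XT.nd (nat_lit 78) (nat_lit 0) (nat_lit 0) (XT.lf (nat_lit 1292) (nat_lit 362099106) (nat_lit 0) (nat_lit 1245789325) (nat_lit 1292) (nat_lit 362099106) (nat_lit 391) (nat_lit 1) (nat_lit 374) (nat_lit 0) (nat_lit 391) (nat_lit 0) (nat_lit 342) (nat_lit 339) (nat_lit 339)) (XT.nd (nat_lit 78) (nat_lit 0) (nat_lit 76) (XT.lf (nat_lit 1292) (nat_lit 1415089651) (nat_lit 76) (nat_lit 1233575705) (nat_lit 0) (nat_lit 1233575705) (nat_lit 391) (nat_lit 1) (nat_lit 375) (nat_lit 1) (nat_lit 374) (nat_lit 0) (nat_lit 343) (nat_lit 339) (nat_lit 338)) (XT.lf (nat_lit 1292) (nat_lit 684371095) (nat_lit 0) (nat_lit 2457038349) (nat_lit 1216) (nat_lit 684371095) (nat_lit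 392) (nat_lit 1) (nat_lit 375) (nat_lit 1) (nat_lit 391) (nat_lit 1) (nat_lit 344) (nat_lit 339) (nat_lit 337)))) (XT.nd (nat_lit 78) (nat_lit 0) (nat_lit 76) (XT.lf (nat_lit 1292) (nat_lit 1299656044) (nat_lit 76) (nat_lit 1235303422) (nat_lit 0) (nat_lit 1235303422) (nat_lit 392) (nat_lit 1) (nat_lit 376) (nat_lit 1) (nat_lit 375) (nat_lit 1) (nat_lit 345) (nat_lit 339) (nat_lit 336)) (XT.nd (nat_lit 78) (nat_lit 0) (nat_lit 0) (XT.lf (nat_lit 1292) (nat_lit 609857117) (nat_lit 0) (nat_lit 2496273229) (nat_lit 1216) (nat_lit 609857117) (nat_lit 393) (nat_lit 1) (nat_lit 376) (nat_lit 1) (nat_lit 392) (nat_lit 1) (nat_lit 346) (nat_lit 339) (nat_lit 335)) (XT.lf (nat_lit 1292) (nat_lit 1117627559) (nat_lit 76) (nat_lit 1272476251) (nat_lit 0) (nat_lit 1272476251) (nat_lit 393) (nat_lit 1) (nat_lit 377) (nat_lit 1) (nat_lit 376) (nat_lit 1) (nat_lit 347) (nat_lit 339) (nat_lit 334)))))) (XT.nd (nat_lit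 390) (nat_lit 1064) (nat_lit 0) (XT.nd (nat_lit 156) (nat_lit 0) (nat_lit 76) (XT.nd (nat_lit 78) (nat_lit 0) (nat_lit 0) (XT.lf (nat_lit 1292) (nat_lit 503724331) (nat_lit 0) (nat_lit 2602957254) (nat_lit 1216) (nat_lit 503724331) (nat_lit 394) (nat_lit 1) (nat_lit 377) (nat_lit 1) (nat_lit 393) (nat_lit 1) (nat_lit 348) (nat_lit 339) (nat_lit 333)) (XT.lf (nat_lit 1292) (nat_lit 874959672) (nat_lit 76) (nat_lit 1342024228) (nat_lit 0) (nat_lit 1342024228) (nat_lit 394) (nat_lit 1) (nat_lit 378) (nat_lit 1) (nat_lit 377) (nat_lit 1) (nat_lit 349) (nat_lit 339) (nat_lit 332))) (XT.nd (nat_lit 78) (nat_lit 0) (nat_lit 0) (XT.lf (nat_lit 1292) (nat_lit 368833308) (nat_lit 0) (nat_lit 2771188429) (nat_lit 1216) (nat_lit 368833308) (nat_lit 395) (nat_lit 1) (nat_lit 378) (nat_lit 1) (nat_lit 394) (nat_lit 1) (nat_lit 350) (nat_lit 339) (nat_lit 331)) (XT.nd (nat_lit 78) (nat_lit 0) (nat_lit 76) (XT.lf (nat_lit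 1292) (nat_lit 577203875) (nat_lit 76) (nat_lit 1441083770) (nat_lit 0) (nat_lit 1441083770) (nat_lit 395) (nat_lit 1) (nat_lit 379) (nat_lit 1) (nat_lit 378) (nat_lit 1) (nat_lit 351) (nat_lit 339) (nat_lit 330)) (XT.lf (nat_lit 1292) (nat_lit 207849957) (nat_lit 0) (nat_lit 2995462688) (nat_lit 1216) (nat_lit 207849957) (nat_lit 396) (nat_lit 1) (nat_lit 379) (nat_lit 1) (nat_lit 395) (nat_lit 1) (nat_lit 352) (nat_lit 339) (nat_lit 329))))) (XT.nd (nat_lit 234) (nat_lit 0) (nat_lit 0) (XT.nd (nat_lit 78) (nat_lit 1216) (nat_lit 0) (XT.lf (nat_lit 1292) (nat_lit 229532673) (nat_lit 76) (nat_lit 1566984950) (nat_lit 0) (nat_lit 1566984950) (nat_lit 396) (nat_lit 1) (nat_lit 380) (nat_lit 1) (nat_lit 379) (nat_lit 1) (nat_lit 353) (nat_lit 339) (nat_lit 328)) (XT.nd (nat_lit 78) (nat_lit 1292) (nat_lit 0) (XT.lf (nat_lit 1292) (nat_lit 23257588) (nat_lit 0) (nat_lit 3270649331) (nat_lit 1216) (nat_lit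 23257588) (nat_lit 397) (nat_lit 1) (nat_lit 380) (nat_lit 1) (nat_lit 396) (nat_lit 1) (nat_lit 354) (nat_lit 339) (nat_lit 327)) (XT.lf (nat_lit 1368) (nat_lit 1555571760) (nat_lit 0) (nat_lit 160051562) (nat_lit 1292) (nat_lit 1555571760) (nat_lit 381) (nat_lit 1) (nat_lit 363) (nat_lit 1) (nat_lit 380) (nat_lit 1) (nat_lit 355) (nat_lit 339) (nat_lit 326)))) (XT.nd (nat_lit 78) (nat_lit 0) (nat_lit 76) (XT.lf (nat_lit 1368) (nat_lit 2864810216) (nat_lit 76) (nat_lit 180841237) (nat_lit 0) (nat_lit 180841237) (nat_lit 381) (nat_lit 1) (nat_lit 364) (nat_lit 1) (nat_lit 363) (nat_lit 1) (nat_lit 356) (nat_lit 339) (nat_lit 325)) (XT.nd (nat_lit 78) (nat_lit 0) (nat_lit 0) (XT.lf (nat_lit 1368) (nat_lit 1298643605) (nat_lit 0) (nat_lit 584978952) (nat_lit 1292) (nat_lit 1298643605) (nat_lit 382) (nat_lit 1) (nat_lit 364) (nat_lit 1) (nat_lit 381) (nat_lit 1) (nat_lit 357) (nat_lit 339) (nat_lit 324))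 (XT.lf (nat_lit 1368) (nat_lit 2331821049) (nat_lit 76) (nat_lit 403669847) (nat_lit 0) (nat_lit 403669847) (nat_lit 382) (nat_lit 1) (nat_lit 365) (nat_lit 1) (nat_lit 364) (nat_lit 1) (nat_lit 358) (nat_lit 339) (nat_lit 323))))))))
noncomputable def ec15 : XT := (XT.nd (nat_lit 1716) (nat_lit 2812) (nat_lit 0) (XT.nd (nat_lit 858) (nat_lit 2964) (nat_lit 0) (XT.nd (nat_lit 390) (nat_lit 2356) (nat_lit 0) (XT.nd (nat_lit 156) (nat_lit 608) (nat_lit 0) (XT.nd (nat_lit 78) (nat_lit 836) (nat_lit 0) (XT.lf (nat_lit 76) (nat_lit 1025499787) (nat_lit 0) (nat_lit 1045638801) (nat_lit 1292) (nat_lit 1025499787) (nat_lit 366) (nat_lit 1) (nat_lit 365) (nat_lit 1) (nat_lit 382) (nat_lit 1) (nat_lit 359) (nat_lit 339) (nat_lit 322)) (XT.lf (nat_lit 912) (nat_lit 1768106007) (nat_lit 0) (nat_lit 643474967) (nat_lit 836) (nat_lit 643474967) (nat_lit 366) (nat_lit 1) (nat_lit 354) (nat_lit 1) (nat_lit 365) (nat_lit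 1) (nat_lit 360) (nat_lit 339) (nat_lit 321))) (XT.nd (nat_lit 78) (nat_lit 608) (nat_lit 0) (XT.lf (nat_lit 76) (nat_lit 737973028) (nat_lit 0) (nat_lit 1538228704) (nat_lit 912) (nat_lit 737973028) (nat_lit 355) (nat_lit 1) (nat_lit 354) (nat_lit 1) (nat_lit 366) (nat_lit 1) (nat_lit 361) (nat_lit 339) (nat_lit 320)) (XT.nd (nat_lit 78) (nat_lit 0) (nat_lit 0) (XT.lf (nat_lit 684) (nat_lit 1177214946) (nat_lit 0) (nat_lit 898415053) (nat_lit 608) (nat_lit 898415053) (nat_lit 355) (nat_lit 1) (nat_lit 346) (nat_lit 1) (nat_lit 354) (nat_lit 1) (nat_lit 362) (nat_lit 339) (nat_lit 319)) (XT.lf (nat_lit 76) (nat_lit 437764573) (nat_lit 0) (nat_lit 2059215538) (nat_lit 684) (nat_lit 437764573) (nat_lit 347) (nat_lit 1) (nat_lit 346) (nat_lit 1) (nat_lit 355) (nat_lit 1) (nat_lit 363) (nat_lit 339) (nat_lit 318))))) (XT.nd (nat_lit 234) (nat_lit 1140) (nat_lit 0) (XT.nd (nat_lit 78) (nat_lit 608) (nat_lit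 0) (XT.lf (nat_lit 684) (nat_lit 562441927) (nat_lit 0) (nat_lit 1166779526) (nat_lit 608) (nat_lit 1166779526) (nat_lit 347) (nat_lit 1) (nat_lit 338) (nat_lit 1) (nat_lit 346) (nat_lit 1) (nat_lit 364) (nat_lit 339) (nat_lit 317)) (XT.nd (nat_lit 78) (nat_lit 608) (nat_lit 0) (XT.lf (nat_lit 76) (nat_lit 126452509) (nat_lit 0) (nat_lit 2605318515) (nat_lit 684) (nat_lit 126452509) (nat_lit 339) (nat_lit 1) (nat_lit 338) (nat_lit 1) (nat_lit 347) (nat_lit 1) (nat_lit 365) (nat_lit 339) (nat_lit 316)) (XT.lf (nat_lit 76) (nat_lit 1374525177) (nat_lit 0) (nat_lit 71731000) (nat_lit 608) (nat_lit 1374525177) (nat_lit 331) (nat_lit 1) (nat_lit 330) (nat_lit 1) (nat_lit 338) (nat_lit 1) (nat_lit 366) (nat_lit 339) (nat_lit 315)))) (XT.nd (nat_lit 78) (nat_lit 532) (nat_lit 0) (XT.lf (nat_lit 684) (nat_lit 2399079788) (nat_lit 0) (nat_lit 192593560) (nat_lit 608) (nat_lit 192593560) (nat_lit 331) (nat_lit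 1) (nat_lit 322) (nat_lit 1) (nat_lit 330) (nat_lit 1) (nat_lit 367) (nat_lit 339) (nat_lit 314)) (XT.nd (nat_lit 78) (nat_lit 532) (nat_lit 0) (XT.lf (nat_lit 76) (nat_lit 1017774637) (nat_lit 0) (nat_lit 712574874) (nat_lit 684) (nat_lit 1017774637) (nat_lit 323) (nat_lit 1) (nat_lit 322) (nat_lit 1) (nat_lit 331) (nat_lit 1) (nat_lit 368) (nat_lit 339) (nat_lit 313)) (XT.lf (nat_lit 608) (nat_lit 1675621000) (nat_lit 0) (nat_lit 518604806) (nat_lit 532) (nat_lit 518604806) (nat_lit 323) (nat_lit 1) (nat_lit 315) (nat_lit 1) (nat_lit 322) (nat_lit 1) (nat_lit 369) (nat_lit 339) (nat_lit 312)))))) (XT.nd (nat_lit 390) (nat_lit 1368) (nat_lit 0) (XT.nd (nat_lit 156) (nat_lit 1064) (nat_lit 0) (XT.nd (nat_lit 78) (nat_lit 532) (nat_lit 0) (XT.lf (nat_lit 76) (nat_lit 654792883) (nat_lit 0) (nat_lit 1368496066) (nat_lit 608) (nat_lit 654792883) (nat_lit 316) (nat_lit 1) (nat_lit 315) (nat_lit 1) (nat_lit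 323) (nat_lit 1) (nat_lit 370) (nat_lit 339) (nat_lit 311)) (XT.lf (nat_lit 608) (nat_lit 940795125) (nat_lit 0) (nat_lit 851579625) (nat_lit 532) (nat_lit 851579625) (nat_lit 316) (nat_lit 1) (nat_lit 308) (nat_lit 1) (nat_lit 315) (nat_lit 1) (nat_lit 371) (nat_lit 339) (nat_lit 310))) (XT.nd (nat_lit 78) (nat_lit 1064) (nat_lit 0) (XT.lf (nat_lit 76) (nat_lit 286715578) (nat_lit 0) (nat_lit 2037118463) (nat_lit 608) (nat_lit 286715578) (nat_lit 309) (nat_lit 1) (nat_lit 308) (nat_lit 1) (nat_lit 316) (nat_lit 1) (nat_lit 372) (nat_lit 339) (nat_lit 309)) (XT.nd (nat_lit 78) (nat_lit 608) (nat_lit 0) (XT.lf (nat_lit 532) (nat_lit 196795358) (nat_lit 0) (nat_lit 1190370378) (nat_lit 456) (nat_lit 1190370378) (nat_lit 309) (nat_lit 1) (nat_lit 302) (nat_lit 1) (nat_lit 308) (nat_lit 1) (nat_lit 373) (nat_lit 339) (nat_lit 308)) (XT.lf (nat_lit 608) (nat_lit 2376184160) (nat_lit 0) (nat_lit 84572119)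 (nat_lit 532) (nat_lit 84572119) (nat_lit 302) (nat_lit 1) (nat_lit 294) (nat_lit 1) (nat_lit 301) (nat_lit 1) (nat_lit 374) (nat_lit 339) (nat_lit 307))))) (XT.nd (nat_lit 234) (nat_lit 912) (nat_lit 0) (XT.nd (nat_lit 78) (nat_lit 456) (nat_lit 0) (XT.lf (nat_lit 76) (nat_lit 984890016) (nat_lit 0) (nat_lit 543538399) (nat_lit 608) (nat_lit 984890016) (nat_lit 295) (nat_lit 1) (nat_lit 294) (nat_lit 1) (nat_lit 302) (nat_lit 1) (nat_lit 375) (nat_lit 339) (nat_lit 306)) (XT.nd (nat_lit 78) (nat_lit 0) (nat_lit 0) (XT.lf (nat_lit 532) (nat_lit 1569884111) (nat_lit 0) (nat_lit 456100738) (nat_lit 456) (nat_lit 456100738) (nat_lit 295) (nat_lit 1) (nat_lit 288) (nat_lit 1) (nat_lit 294) (nat_lit 1) (nat_lit 376) (nat_lit 339) (nat_lit 305)) (XT.lf (nat_lit 76) (nat_lit 583046118) (nat_lit 0) (nat_lit 1285217479) (nat_lit 532) (nat_lit 583046118) (nat_lit 289) (nat_lit 1) (nat_lit 288) (nat_lit 1) (nat_lit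 295) (nat_lit 1) (nat_lit 377) (nat_lit 339) (nat_lit 304)))) (XT.nd (nat_lit 78) (nat_lit 456) (nat_lit 0) (XT.lf (nat_lit 532) (nat_lit 761461119) (nat_lit 0) (nat_lit 829801057) (nat_lit 456) (nat_lit 829801057) (nat_lit 289) (nat_lit 1) (nat_lit 282) (nat_lit 1) (nat_lit 288) (nat_lit 1) (nat_lit 378) (nat_lit 339) (nat_lit 303)) (XT.nd (nat_lit 78) (nat_lit 456) (nat_lit 0) (XT.lf (nat_lit 76) (nat_lit 180538077) (nat_lit 0) (nat_lit 2030401974) (nat_lit 532) (nat_lit 180538077) (nat_lit 283) (nat_lit 1) (nat_lit 282) (nat_lit 1) (nat_lit 289) (nat_lit 1) (nat_lit 379) (nat_lit 339) (nat_lit 302)) (XT.lf (nat_lit 76) (nat_lit 1157768073) (nat_lit 0) (nat_lit 46625082) (nat_lit 456) (nat_lit 1157768073) (nat_lit 277) (nat_lit 1) (nat_lit 276) (nat_lit 1) (nat_lit 282) (nat_lit 1) (nat_lit 380) (nat_lit 339) (nat_lit 301))))))) (XT.nd (nat_lit 858) (nat_lit 0) (nat_lit 0) (XT.nd (nat_lit 390) (nat_lit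 1596) (nat_lit 0) (XT.nd (nat_lit 156) (nat_lit 760) (nat_lit 0) (XT.nd (nat_lit 78) (nat_lit 0) (nat_lit 0) (XT.lf (nat_lit 532) (nat_lit 1894023233) (nat_lit 0) (nat_lit 219729232) (nat_lit 456) (nat_lit 219729232) (nat_lit 277) (nat_lit 1) (nat_lit 270) (nat_lit 1) (nat_lit 276) (nat_lit 1) (nat_lit 381) (nat_lit 339) (nat_lit 300)) (XT.lf (nat_lit 76) (nat_lit 733017344) (nat_lit 0) (nat_lit 839056608) (nat_lit 532) (nat_lit 733017344) (nat_lit 271) (nat_lit 1) (nat_lit 270) (nat_lit 1) (nat_lit 277) (nat_lit 1) (nat_lit 382) (nat_lit 339) (nat_lit 299))) (XT.nd (nat_lit 78) (nat_lit 380) (nat_lit 0) (XT.lf (nat_lit 456) (nat_lit 1042285785) (nat_lit 0) (nat_lit 617501211) (nat_lit 380) (nat_lit 617501211) (nat_lit 271) (nat_lit 1) (nat_lit 265) (nat_lit 1) (nat_lit 270) (nat_lit 1) (nat_lit 383) (nat_lit 339) (nat_lit 298)) (XT.nd (nat_lit 78) (nat_lit 380) (nat_lit 0) (XT.lf (nat_lit 76) (nat_lit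 310279710) (nat_lit 0) (nat_lit 1629434923) (nat_lit 456) (nat_lit 310279710) (nat_lit 266) (nat_lit 1) (nat_lit 265) (nat_lit 1) (nat_lit 271) (nat_lit 1) (nat_lit 384) (nat_lit 339) (nat_lit 297)) (XT.lf (nat_lit 456) (nat_lit 195141497) (nat_lit 0) (nat_lit 1013944331) (nat_lit 380) (nat_lit 1013944331) (nat_lit 266) (nat_lit 1) (nat_lit 260) (nat_lit 1) (nat_lit 265) (nat_lit 1) (nat_lit 385) (nat_lit 339) (nat_lit 296))))) (XT.nd (nat_lit 234) (nat_lit 760) (nat_lit 0) (XT.nd (nat_lit 78) (nat_lit 380) (nat_lit 0) (XT.lf (nat_lit 456) (nat_lit 1979005013) (nat_lit 0) (nat_lit 108831315) (nat_lit 380) (nat_lit 108831315) (nat_lit 260) (nat_lit 1) (nat_lit 254) (nat_lit 1) (nat_lit 259) (nat_lit 1) (nat_lit 386) (nat_lit 339) (nat_lit 295)) (XT.nd (nat_lit 78) (nat_lit 380) (nat_lit 0) (XT.lf (nat_lit 76) (nat_lit 768338945) (nat_lit 0) (nat_lit 633769743) (nat_lit 456) (nat_lit 768338945) (nat_lit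 255) (nat_lit 1) (nat_lit 254) (nat_lit 1) (nat_lit 260) (nat_lit 1) (nat_lit 387) (nat_lit 339) (nat_lit 294)) (XT.lf (nat_lit 456) (nat_lit 1101020651) (nat_lit 0) (nat_lit 521894842) (nat_lit 380) (nat_lit 521894842) (nat_lit 255) (nat_lit 1) (nat_lit 249) (nat_lit 1) (nat_lit 254) (nat_lit 1) (nat_lit 388) (nat_lit 339) (nat_lit 293)))) (XT.nd (nat_lit 78) (nat_lit 760) (nat_lit 0) (XT.lf (nat_lit 76) (nat_lit 333575632) (nat_lit 0) (nat_lit 1452450982) (nat_lit 456) (nat_lit 333575632) (nat_lit 250) (nat_lit 1) (nat_lit 249) (nat_lit 1) (nat_lit 255) (nat_lit 1) (nat_lit 389) (nat_lit 339) (nat_lit 292)) (XT.nd (nat_lit 78) (nat_lit 456) (nat_lit 0) (XT.lf (nat_lit 380) (nat_lit 231679134) (nat_lit 0) (nat_lit 931517245) (nat_lit 304) (nat_lit 931517245) (nat_lit 250) (nat_lit 1) (nat_lit 245) (nat_lit 1) (nat_lit 249) (nat_lit 1) (nat_lit 390) (nat_lit 339) (nat_lit 291)) (XT.lf (nat_lit 456) (nat_lit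 1878863907) (nat_lit 0) (nat_lit 95753542) (nat_lit 380) (nat_lit 95753542) (nat_lit 245) (nat_lit 1) (nat_lit 239) (nat_lit 1) (nat_lit 244) (nat_lit 1) (nat_lit 391) (nat_lit 339) (nat_lit 290)))))) (XT.nd (nat_lit 49452) (nat_lit 0) (nat_lit 10412) (XT.nd (nat_lit 49218) (nat_lit 0) (nat_lit 10336) (XT.nd (nat_lit 49062) (nat_lit 0) (nat_lit 10260) (XT.lf (nat_lit 76) (nat_lit 715045808) (nat_lit 0) (nat_lit 616039062) (nat_lit 456) (nat_lit 715045808) (nat_lit 240) (nat_lit 1) (nat_lit 239) (nat_lit 1) (nat_lit 245) (nat_lit 1) (nat_lit 392) (nat_lit 339) (nat_lit 289)) (XT.nd (nat_lit 78) (nat_lit 0) (nat_lit 0) (XT.lf (nat_lit 1292) (nat_lit 372962079) (nat_lit 0) (nat_lit 1283163005) (nat_lit 1292) (nat_lit 372962079) (nat_lit 391) (nat_lit 1) (nat_lit 374) (nat_lit 0) (nat_lit 391) (nat_lit 0) (nat_lit 340) (nat_lit 340) (nat_lit 340)) (XT.lf (nat_lit 1292) (nat_lit 1457542341) (nat_lit 76) (nat_lit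 1270582976) (nat_lit 0) (nat_lit 1270582976) (nat_lit 391) (nat_lit 1) (nat_lit 375) (nat_lit 1) (nat_lit 374) (nat_lit 0) (nat_lit 341) (nat_lit 340) (nat_lit 339)))) (XT.nd (nat_lit 78) (nat_lit 0) (nat_lit 0) (XT.lf (nat_lit 1292) (nat_lit 704902228) (nat_lit 0) (nat_lit 2530749499) (nat_lit 1216) (nat_lit 704902228) (nat_lit 392) (nat_lit 1) (nat_lit 375) (nat_lit 1) (nat_lit 391) (nat_lit 1) (nat_lit 342) (nat_lit 340) (nat_lit 338)) (XT.nd (nat_lit 78) (nat_lit 0) (nat_lit 76) (XT.lf (nat_lit 1292) (nat_lit 1338645725) (nat_lit 76) (nat_lit 1272362524) (nat_lit 0) (nat_lit 1272362524) (nat_lit 392) (nat_lit 1) (nat_lit 376) (nat_lit 1) (nat_lit 375) (nat_lit 1) (nat_lit 343) (nat_lit 340) (nat_lit 337)) (XT.lf (nat_lit 1292) (nat_lit 628152830) (nat_lit 0) (nat_lit 2571161426) (nat_lit 1216) (nat_lit 628152830) (nat_lit 393) (nat_lit 1) (nat_lit 376) (nat_lit 1) (nat_lit 392) (nat_lit 1) (nat_lit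 344) (nat_lit 340) (nat_lit 336))))) (XT.nd (nat_lit 234) (nat_lit 0) (nat_lit 152) (XT.nd (nat_lit 78) (nat_lit 0) (nat_lit 76) (XT.lf (nat_lit 1292) (nat_lit 1151156386) (nat_lit 76) (nat_lit 1310650539) (nat_lit 0) (nat_lit 1310650539) (nat_lit 393) (nat_lit 1) (nat_lit 377) (nat_lit 1) (nat_lit 376) (nat_lit 1) (nat_lit 345) (nat_lit 340) (nat_lit 335)) (XT.nd (nat_lit 78) (nat_lit 0) (nat_lit 0) (XT.lf (nat_lit 1292) (nat_lit 518836061) (nat_lit 0) (nat_lit 2681045971) (nat_lit 1216) (nat_lit 518836061) (nat_lit 394) (nat_lit 1) (nat_lit 377) (nat_lit 1) (nat_lit 393) (nat_lit 1) (nat_lit 346) (nat_lit 340) (nat_lit 334)) (XT.lf (nat_lit 1292) (nat_lit 901208462) (nat_lit 76) (nat_lit 1382284955) (nat_lit 0) (nat_lit 1382284955) (nat_lit 394) (nat_lit 1) (nat_lit 378) (nat_lit 1) (nat_lit 377) (nat_lit 1) (nat_lit 347) (nat_lit 340) (nat_lit 333)))) (XT.nd (nat_lit 78) (nat_lit 0) (nat_lit 0) (XT.lf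 (nat_lit 1292) (nat_lit 379898308) (nat_lit 0) (nat_lit 2854324082) (nat_lit 1216) (nat_lit 379898308) (nat_lit 395) (nat_lit 1) (nat_lit 378) (nat_lit 1) (nat_lit 394) (nat_lit 1) (nat_lit 348) (nat_lit 340) (nat_lit 332)) (XT.nd (nat_lit 78) (nat_lit 0) (nat_lit 76) (XT.lf (nat_lit 1292) (nat_lit 594519991) (nat_lit 76) (nat_lit 1484316283) (nat_lit 0) (nat_lit 1484316283) (nat_lit 395) (nat_lit 1) (nat_lit 379) (nat_lit 1) (nat_lit 378) (nat_lit 1) (nat_lit 349) (nat_lit 340) (nat_lit 331)) (XT.lf (nat_lit 1292) (nat_lit 214085456) (nat_lit 0) (nat_lit 3085326569) (nat_lit 1216) (nat_lit 214085456) (nat_lit 396) (nat_lit 1) (nat_lit 379) (nat_lit 1) (nat_lit 395) (nat_lit 1) (nat_lit 350) (nat_lit 340) (nat_lit 330))))))))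
noncomputable def ec16 : XT := (XT.nd (nat_lit 1716) (nat_lit 4484) (nat_lit 0) (XT.nd (nat_lit 858) (nat_lit 3952) (nat_lit 0) (XT.nd (nat_lit 390) (nat_lit 1292) (nat_lit 0) (XT.nd (nat_lit 156) (nat_lit 1216) (nat_lit 0) (XT.nd (nat_lit 78) (nat_lit 0) (nat_lit 76) (XT.lf (nat_lit 1292) (nat_lit 236418653) (nat_lit 76) (nat_lit 1613994499) (nat_lit 0) (nat_lit 1613994499) (nat_lit 396) (nat_lit 1) (nat_lit 380) (nat_lit 1) (nat_lit 379) (nat_lit 1) (nat_lit 351) (nat_lit 340) (nat_lit 329)) (XT.lf (nat_lit 1292) (nat_lit 23955316) (nat_lit 0) (nat_lit 3368768811) (nat_lit 1216) (nat_lit 23955316) (nat_lit 397) (nat_lit 1) (nat_lit 380) (nat_lit 1) (nat_lit 396) (nat_lit 1) (nat_lit 352) (nat_lit 340) (nat_lit 328))) (XT.nd (nat_lit 78) (nat_lit 0) (nat_lit 0) (XT.lf (nat_lit 1368) (nat_lit 1602238913) (nat_lit 0) (nat_lit 164853109) (nat_lit 1292) (nat_lit 1602238913) (nat_lit 381) (nat_lit 1) (nat_lit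 363) (nat_lit 1) (nat_lit 380) (nat_lit 1) (nat_lit 353) (nat_lit 340) (nat_lit 327)) (XT.nd (nat_lit 78) (nat_lit 0) (nat_lit 76) (XT.lf (nat_lit 1368) (nat_lit 2950754523) (nat_lit 76) (nat_lit 186266475) (nat_lit 0) (nat_lit 186266475) (nat_lit 381) (nat_lit 1) (nat_lit 364) (nat_lit 1) (nat_lit 363) (nat_lit 1) (nat_lit 354) (nat_lit 340) (nat_lit 326)) (XT.lf (nat_lit 1368) (nat_lit 1337602913) (nat_lit 0) (nat_lit 602528321) (nat_lit 1292) (nat_lit 1337602913) (nat_lit 382) (nat_lit 1) (nat_lit 364) (nat_lit 1) (nat_lit 381) (nat_lit 1) (nat_lit 355) (nat_lit 340) (nat_lit 325))))) (XT.nd (nat_lit 234) (nat_lit 608) (nat_lit 0) (XT.nd (nat_lit 78) (nat_lit 760) (nat_lit 0) (XT.lf (nat_lit 1368) (nat_lit 2401775681) (nat_lit 76) (nat_lit 415779942) (nat_lit 0) (nat_lit 415779942) (nat_lit 382) (nat_lit 1) (nat_lit 365) (nat_lit 1) (nat_lit 364) (nat_lit 1) (nat_lit 356) (nat_lit 340) (nat_lit 324))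 (XT.nd (nat_lit 78) (nat_lit 836) (nat_lit 0) (XT.lf (nat_lit 76) (nat_lit 1056264781) (nat_lit 0) (nat_lit 1077007965) (nat_lit 1292) (nat_lit 1056264781) (nat_lit 366) (nat_lit 1) (nat_lit 365) (nat_lit 1) (nat_lit 382) (nat_lit 1) (nat_lit 357) (nat_lit 340) (nat_lit 323)) (XT.lf (nat_lit 912) (nat_lit 1821149187) (nat_lit 0) (nat_lit 662779216) (nat_lit 836) (nat_lit 662779216) (nat_lit 366) (nat_lit 1) (nat_lit 354) (nat_lit 1) (nat_lit 365) (nat_lit 1) (nat_lit 358) (nat_lit 340) (nat_lit 322)))) (XT.nd (nat_lit 78) (nat_lit 608) (nat_lit 0) (XT.lf (nat_lit 76) (nat_lit 760112219) (nat_lit 0) (nat_lit 1584375565) (nat_lit 912) (nat_lit 760112219) (nat_lit 355) (nat_lit 1) (nat_lit 354) (nat_lit 1) (nat_lit 366) (nat_lit 1) (nat_lit 359) (nat_lit 340) (nat_lit 321)) (XT.nd (nat_lit 78) (nat_lit 0) (nat_lit 0) (XT.lf (nat_lit 684) (nat_lit 1212531394) (nat_lit 0) (nat_lit 925367504) (nat_lit 608)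 (nat_lit 925367504) (nat_lit 355) (nat_lit 1) (nat_lit 346) (nat_lit 1) (nat_lit 354) (nat_lit 1) (nat_lit 360) (nat_lit 340) (nat_lit 320)) (XT.lf (nat_lit 76) (nat_lit 450897511) (nat_lit 0) (nat_lit 2120992004) (nat_lit 684) (nat_lit 450897511) (nat_lit 347) (nat_lit 1) (nat_lit 346) (nat_lit 1) (nat_lit 355) (nat_lit 1) (nat_lit 361) (nat_lit 340) (nat_lit 319)))))) (XT.nd (nat_lit 390) (nat_lit 2128) (nat_lit 0) (XT.nd (nat_lit 156) (nat_lit 1216) (nat_lit 0) (XT.nd (nat_lit 78) (nat_lit 0) (nat_lit 0) (XT.lf (nat_lit 684) (nat_lit 579315184) (nat_lit 0) (nat_lit 1201782912) (nat_lit 608) (nat_lit 1201782912) (nat_lit 347) (nat_lit 1) (nat_lit 338) (nat_lit 1) (nat_lit 346) (nat_lit 1) (nat_lit 362) (nat_lit 340) (nat_lit 318)) (XT.lf (nat_lit 76) (nat_lit 130246085) (nat_lit 0) (nat_lit 2683478070) (nat_lit 684) (nat_lit 130246085) (nat_lit 339) (nat_lit 1) (nat_lit 338) (nat_lit 1) (nat_lit 347)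 (nat_lit 1) (nat_lit 363) (nat_lit 340) (nat_lit 317))) (XT.nd (nat_lit 78) (nat_lit 608) (nat_lit 0) (XT.lf (nat_lit 76) (nat_lit 1415760932) (nat_lit 0) (nat_lit 73882930) (nat_lit 608) (nat_lit 1415760932) (nat_lit 331) (nat_lit 1) (nat_lit 330) (nat_lit 1) (nat_lit 338) (nat_lit 1) (nat_lit 364) (nat_lit 340) (nat_lit 316)) (XT.nd (nat_lit 78) (nat_lit 0) (nat_lit 0) (XT.lf (nat_lit 684) (nat_lit 2471052182) (nat_lit 0) (nat_lit 198371367) (nat_lit 608) (nat_lit 198371367) (nat_lit 331) (nat_lit 1) (nat_lit 322) (nat_lit 1) (nat_lit 330) (nat_lit 1) (nat_lit 365) (nat_lit 340) (nat_lit 315)) (XT.lf (nat_lit 76) (nat_lit 1048307876) (nat_lit 0) (nat_lit 733952120) (nat_lit 684) (nat_lit 1048307876) (nat_lit 323) (nat_lit 1) (nat_lit 322) (nat_lit 1) (nat_lit 331) (nat_lit 1) (nat_lit 366) (nat_lit 340) (nat_lit 314))))) (XT.nd (nat_lit 234) (nat_lit 1064) (nat_lit 0) (XT.nd (nat_lit 78) (nat_lit 532)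 (nat_lit 0) (XT.lf (nat_lit 608) (nat_lit 1725889630) (nat_lit 0) (nat_lit 534162951) (nat_lit 532) (nat_lit 534162951) (nat_lit 323) (nat_lit 1) (nat_lit 315) (nat_lit 1) (nat_lit 322) (nat_lit 1) (nat_lit 367) (nat_lit 340) (nat_lit 313)) (XT.nd (nat_lit 78) (nat_lit 532) (nat_lit 0) (XT.lf (nat_lit 76) (nat_lit 674436669) (nat_lit 0) (nat_lit 1409550948) (nat_lit 608) (nat_lit 674436669) (nat_lit 316) (nat_lit 1) (nat_lit 315) (nat_lit 1) (nat_lit 323) (nat_lit 1) (nat_lit 368) (nat_lit 340) (nat_lit 312)) (XT.lf (nat_lit 608) (nat_lit 969018979) (nat_lit 0) (nat_lit 877127014) (nat_lit 532) (nat_lit 877127014) (nat_lit 316) (nat_lit 1) (nat_lit 308) (nat_lit 1) (nat_lit 315) (nat_lit 1) (nat_lit 369) (nat_lit 340) (nat_lit 311)))) (XT.nd (nat_lit 78) (nat_lit 1064) (nat_lit 0) (XT.lf (nat_lit 76) (nat_lit 295317045) (nat_lit 0) (nat_lit 2098232017) (nat_lit 608) (nat_lit 295317045) (nat_lit 309)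 (nat_lit 1) (nat_lit 308) (nat_lit 1) (nat_lit 316) (nat_lit 1) (nat_lit 370) (nat_lit 340) (nat_lit 310)) (XT.nd (nat_lit 78) (nat_lit 608) (nat_lit 0) (XT.lf (nat_lit 532) (nat_lit 202699219) (nat_lit 0) (nat_lit 1226081489) (nat_lit 456) (nat_lit 1226081489) (nat_lit 309) (nat_lit 1) (nat_lit 302) (nat_lit 1) (nat_lit 308) (nat_lit 1) (nat_lit 371) (nat_lit 340) (nat_lit 309)) (XT.lf (nat_lit 608) (nat_lit 2447469685) (nat_lit 0) (nat_lit 87109282) (nat_lit 532) (nat_lit 87109282) (nat_lit 302) (nat_lit 1) (nat_lit 294) (nat_lit 1) (nat_lit 301) (nat_lit 1) (nat_lit 372) (nat_lit 340) (nat_lit 308))))))) (XT.nd (nat_lit 858) (nat_lit 1900) (nat_lit 0) (XT.nd (nat_lit 390) (nat_lit 1672) (nat_lit 0) (XT.nd (nat_lit 156) (nat_lit 456) (nat_lit 0) (XT.nd (nat_lit 78) (nat_lit 456) (nat_lit 0) (XT.lf (nat_lit 76) (nat_lit 1014436717) (nat_lit 0) (nat_lit 559844551) (nat_lit 608) (nat_lit 1014436717) (nat_lit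 295) (nat_lit 1) (nat_lit 294) (nat_lit 1) (nat_lit 302) (nat_lit 1) (nat_lit 373) (nat_lit 340) (nat_lit 307)) (XT.lf (nat_lit 532) (nat_lit 1616980635) (nat_lit 0) (nat_lit 469783760) (nat_lit 456) (nat_lit 469783760) (nat_lit 295) (nat_lit 1) (nat_lit 288) (nat_lit 1) (nat_lit 294) (nat_lit 1) (nat_lit 374) (nat_lit 340) (nat_lit 306))) (XT.nd (nat_lit 78) (nat_lit 456) (nat_lit 0) (XT.lf (nat_lit 76) (nat_lit 600537502) (nat_lit 0) (nat_lit 1323774004) (nat_lit 532) (nat_lit 600537502) (nat_lit 289) (nat_lit 1) (nat_lit 288) (nat_lit 1) (nat_lit 295) (nat_lit 1) (nat_lit 375) (nat_lit 340) (nat_lit 305)) (XT.nd (nat_lit 78) (nat_lit 0) (nat_lit 0) (XT.lf (nat_lit 532) (nat_lit 784304952) (nat_lit 0) (nat_lit 854695089) (nat_lit 456) (nat_lit 854695089) (nat_lit 289) (nat_lit 1) (nat_lit 282) (nat_lit 1) (nat_lit 288) (nat_lit 1) (nat_lit 376) (nat_lit 340) (nat_lit 304)) (XT.lf (nat_lit 76) (nat_lit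 185954219) (nat_lit 0) (nat_lit 2091314034) (nat_lit 532) (nat_lit 185954219) (nat_lit 283) (nat_lit 1) (nat_lit 282) (nat_lit 1) (nat_lit 289) (nat_lit 1) (nat_lit 377) (nat_lit 340) (nat_lit 303))))) (XT.nd (nat_lit 234) (nat_lit 760) (nat_lit 0) (XT.nd (nat_lit 78) (nat_lit 456) (nat_lit 0) (XT.lf (nat_lit 76) (nat_lit 1192501115) (nat_lit 0) (nat_lit 48023835) (nat_lit 456) (nat_lit 1192501115) (nat_lit 277) (nat_lit 1) (nat_lit 276) (nat_lit 1) (nat_lit 282) (nat_lit 1) (nat_lit 378) (nat_lit 340) (nat_lit 302)) (XT.nd (nat_lit 78) (nat_lit 0) (nat_lit 0) (XT.lf (nat_lit 532) (nat_lit 1950843930) (nat_lit 0) (nat_lit 226321109) (nat_lit 456) (nat_lit 226321109) (nat_lit 277) (nat_lit 1) (nat_lit 270) (nat_lit 1) (nat_lit 276) (nat_lit 1) (nat_lit 379) (nat_lit 340) (nat_lit 301)) (XT.lf (nat_lit 76) (nat_lit 755007864) (nat_lit 0) (nat_lit 864228306) (nat_lit 532) (nat_lit 755007864) (nat_lit 271)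 (nat_lit 1) (nat_lit 270) (nat_lit 1) (nat_lit 277) (nat_lit 1) (nat_lit 380) (nat_lit 340) (nat_lit 300)))) (XT.nd (nat_lit 78) (nat_lit 380) (nat_lit 0) (XT.lf (nat_lit 456) (nat_lit 1073554358) (nat_lit 0) (nat_lit 636026247) (nat_lit 380) (nat_lit 636026247) (nat_lit 271) (nat_lit 1) (nat_lit 265) (nat_lit 1) (nat_lit 270) (nat_lit 1) (nat_lit 381) (nat_lit 340) (nat_lit 299)) (XT.nd (nat_lit 78) (nat_lit 380) (nat_lit 0) (XT.lf (nat_lit 76) (nat_lit 319588101) (nat_lit 0) (nat_lit 1678317970) (nat_lit 456) (nat_lit 319588101) (nat_lit 266) (nat_lit 1) (nat_lit 265) (nat_lit 1) (nat_lit 271) (nat_lit 1) (nat_lit 382) (nat_lit 340) (nat_lit 298)) (XT.lf (nat_lit 456) (nat_lit 200995742) (nat_lit 0) (nat_lit 1044362661) (nat_lit 380) (nat_lit 1044362661) (nat_lit 266) (nat_lit 1) (nat_lit 260) (nat_lit 1) (nat_lit 265) (nat_lit 1) (nat_lit 383) (nat_lit 340) (nat_lit 297)))))) (XT.nd (nat_lit 390)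 (nat_lit 760) (nat_lit 0) (XT.nd (nat_lit 156) (nat_lit 684) (nat_lit 0) (XT.nd (nat_lit 78) (nat_lit 0) (nat_lit 0) (XT.lf (nat_lit 456) (nat_lit 2038375164) (nat_lit 0) (nat_lit 112096255) (nat_lit 380) (nat_lit 112096255) (nat_lit 260) (nat_lit 1) (nat_lit 254) (nat_lit 1) (nat_lit 259) (nat_lit 1) (nat_lit 384) (nat_lit 340) (nat_lit 296)) (XT.lf (nat_lit 76) (nat_lit 791389113) (nat_lit 0) (nat_lit 652782835) (nat_lit 456) (nat_lit 791389113) (nat_lit 255) (nat_lit 1) (nat_lit 254) (nat_lit 1) (nat_lit 260) (nat_lit 1) (nat_lit 385) (nat_lit 340) (nat_lit 295))) (XT.nd (nat_lit 78) (nat_lit 304) (nat_lit 0) (XT.lf (nat_lit 456) (nat_lit 1134051271) (nat_lit 0) (nat_lit 537551687) (nat_lit 380) (nat_lit 537551687) (nat_lit 255) (nat_lit 1) (nat_lit 249) (nat_lit 1) (nat_lit 254) (nat_lit 1) (nat_lit 386) (nat_lit 340) (nat_lit 294)) (XT.nd (nat_lit 78) (nat_lit 304) (nat_lit 0) (XT.lf (nat_lit 76)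 (nat_lit 343582901) (nat_lit 0) (nat_lit 1496024511) (nat_lit 456) (nat_lit 343582901) (nat_lit 250) (nat_lit 1) (nat_lit 249) (nat_lit 1) (nat_lit 255) (nat_lit 1) (nat_lit 387) (nat_lit 340) (nat_lit 293)) (XT.lf (nat_lit 380) (nat_lit 238629508) (nat_lit 0) (nat_lit 959462762) (nat_lit 304) (nat_lit 959462762) (nat_lit 250) (nat_lit 1) (nat_lit 245) (nat_lit 1) (nat_lit 249) (nat_lit 1) (nat_lit 388) (nat_lit 340) (nat_lit 292))))) (XT.nd (nat_lit 49140) (nat_lit 0) (nat_lit 10564) (XT.nd (nat_lit 78) (nat_lit 304) (nat_lit 0) (XT.lf (nat_lit 456) (nat_lit 1935229825) (nat_lit 0) (nat_lit 98626148) (nat_lit 380) (nat_lit 98626148) (nat_lit 245) (nat_lit 1) (nat_lit 239) (nat_lit 1) (nat_lit 244) (nat_lit 1) (nat_lit 389) (nat_lit 340) (nat_lit 291)) (XT.nd (nat_lit 78) (nat_lit 304) (nat_lit 0) (XT.lf (nat_lit 76) (nat_lit 736497182) (nat_lit 0) (nat_lit 634520234) (nat_lit 456) (nat_lit 736497182)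 (nat_lit 240) (nat_lit 1) (nat_lit 239) (nat_lit 1) (nat_lit 245) (nat_lit 1) (nat_lit 390) (nat_lit 340) (nat_lit 290)) (XT.lf (nat_lit 380) (nat_lit 1018001288) (nat_lit 0) (nat_lit 532545905) (nat_lit 304) (nat_lit 532545905) (nat_lit 240) (nat_lit 1) (nat_lit 235) (nat_lit 1) (nat_lit 239) (nat_lit 1) (nat_lit 391) (nat_lit 340) (nat_lit 289)))) (XT.nd (nat_lit 78) (nat_lit 0) (nat_lit 0) (XT.lf (nat_lit 1292) (nat_lit 384150941) (nat_lit 0) (nat_lit 1321657895) (nat_lit 1292) (nat_lit 384150941) (nat_lit 391) (nat_lit 1) (nat_lit 374) (nat_lit 0) (nat_lit 391) (nat_lit 0) (nat_lit 338) (nat_lit 341) (nat_lit 341)) (XT.nd (nat_lit 78) (nat_lit 0) (nat_lit 76) (XT.lf (nat_lit 1292) (nat_lit 1501268611) (nat_lit 76) (nat_lit 1308700465) (nat_lit 0) (nat_lit 1308700465) (nat_lit 391) (nat_lit 1) (nat_lit 375) (nat_lit 1) (nat_lit 374) (nat_lit 0) (nat_lit 339) (nat_lit 341) (nat_lit 340)) (XT.lf (nat_lit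 1292) (nat_lit 726049294) (nat_lit 0) (nat_lit 2606671984) (nat_lit 1216) (nat_lit 726049294) (nat_lit 392) (nat_lit 1) (nat_lit 375) (nat_lit 1) (nat_lit 391) (nat_lit 1) (nat_lit 340) (nat_lit 341) (nat_lit 339))))))))
noncomputable def ec17 : XT := (XT.nd (nat_lit 1716) (nat_lit 6156) (nat_lit 0) (XT.nd (nat_lit 858) (nat_lit 2508) (nat_lit 0) (XT.nd (nat_lit 390) (nat_lit 912) (nat_lit 0) (XT.nd (nat_lit 156) (nat_lit 0) (nat_lit 76) (XT.nd (nat_lit 78) (nat_lit 0) (nat_lit 76) (XT.lf (nat_lit 1292) (nat_lit 1378805097) (nat_lit 76) (nat_lit 1310533400) (nat_lit 0) (nat_lit 1310533400) (nat_lit 392) (nat_lit 1) (nat_lit 376) (nat_lit 1) (nat_lit 375) (nat_lit 1) (nat_lit 341) (nat_lit 341) (nat_lit 338)) (XT.lf (nat_lit 1292) (nat_lit 646997415) (nat_lit 0) (nat_lit 2648296269) (nat_lit 1216) (nat_lit 646997415) (nat_lit 393) (nat_lit 1) (nat_lit 376) (nat_lit 1) (nat_lit 392) (nat_lit 1) (nat_lit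 342) (nat_lit 341) (nat_lit 337))) (XT.nd (nat_lit 78) (nat_lit 0) (nat_lit 76) (XT.lf (nat_lit 1292) (nat_lit 1185691077) (nat_lit 76) (nat_lit 1349970055) (nat_lit 0) (nat_lit 1349970055) (nat_lit 393) (nat_lit 1) (nat_lit 377) (nat_lit 1) (nat_lit 376) (nat_lit 1) (nat_lit 343) (nat_lit 341) (nat_lit 336)) (XT.nd (nat_lit 78) (nat_lit 0) (nat_lit 0) (XT.lf (nat_lit 1292) (nat_lit 534401143) (nat_lit 0) (nat_lit 2761477351) (nat_lit 1216) (nat_lit 534401143) (nat_lit 394) (nat_lit 1) (nat_lit 377) (nat_lit 1) (nat_lit 393) (nat_lit 1) (nat_lit 344) (nat_lit 341) (nat_lit 335)) (XT.lf (nat_lit 1292) (nat_lit 928244716) (nat_lit 76) (nat_lit 1423753504) (nat_lit 0) (nat_lit 1423753504) (nat_lit 394) (nat_lit 1) (nat_lit 378) (nat_lit 1) (nat_lit 377) (nat_lit 1) (nat_lit 345) (nat_lit 341) (nat_lit 334))))) (XT.nd (nat_lit 234) (nat_lit 1140) (nat_lit 0) (XT.nd (nat_lit 78) (nat_lit 0) (nat_lit 0) (XT.lf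 (nat_lit 1292) (nat_lit 391295257) (nat_lit 0) (nat_lit 2939953804) (nat_lit 1216) (nat_lit 391295257) (nat_lit 395) (nat_lit 1) (nat_lit 378) (nat_lit 1) (nat_lit 394) (nat_lit 1) (nat_lit 346) (nat_lit 341) (nat_lit 333)) (XT.nd (nat_lit 78) (nat_lit 0) (nat_lit 76) (XT.lf (nat_lit 1292) (nat_lit 612355591) (nat_lit 76) (nat_lit 1528845772) (nat_lit 0) (nat_lit 1528845772) (nat_lit 395) (nat_lit 1) (nat_lit 379) (nat_lit 1) (nat_lit 378) (nat_lit 1) (nat_lit 347) (nat_lit 341) (nat_lit 332)) (XT.lf (nat_lit 1292) (nat_lit 220508020) (nat_lit 0) (nat_lit 3177886366) (nat_lit 1216) (nat_lit 220508020) (nat_lit 396) (nat_lit 1) (nat_lit 379) (nat_lit 1) (nat_lit 395) (nat_lit 1) (nat_lit 348) (nat_lit 341) (nat_lit 331)))) (XT.nd (nat_lit 78) (nat_lit 1216) (nat_lit 0) (XT.lf (nat_lit 1292) (nat_lit 243511212) (nat_lit 76) (nat_lit 1662414334) (nat_lit 0) (nat_lit 1662414334) (nat_lit 396) (nat_lit 1)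 (nat_lit 380) (nat_lit 1) (nat_lit 379) (nat_lit 1) (nat_lit 349) (nat_lit 341) (nat_lit 330)) (XT.nd (nat_lit 78) (nat_lit 1292) (nat_lit 0) (XT.lf (nat_lit 1292) (nat_lit 24673975) (nat_lit 0) (nat_lit 3469831875) (nat_lit 1216) (nat_lit 24673975) (nat_lit 397) (nat_lit 1) (nat_lit 380) (nat_lit 1) (nat_lit 396) (nat_lit 1) (nat_lit 350) (nat_lit 341) (nat_lit 329)) (XT.lf (nat_lit 1368) (nat_lit 1650306080) (nat_lit 0) (nat_lit 169798702) (nat_lit 1292) (nat_lit 1650306080) (nat_lit 381) (nat_lit 1) (nat_lit 363) (nat_lit 1) (nat_lit 380) (nat_lit 1) (nat_lit 351) (nat_lit 341) (nat_lit 328)))))) (XT.nd (nat_lit 390) (nat_lit 1824) (nat_lit 0) (XT.nd (nat_lit 156) (nat_lit 684) (nat_lit 0) (XT.nd (nat_lit 78) (nat_lit 0) (nat_lit 76) (XT.lf (nat_lit 1368) (nat_lit 3039277158) (nat_lit 76) (nat_lit 191854469) (nat_lit 0) (nat_lit 191854469) (nat_lit 381) (nat_lit 1) (nat_lit 364) (nat_lit 1) (nat_lit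 363) (nat_lit 1) (nat_lit 352) (nat_lit 341) (nat_lit 327)) (XT.lf (nat_lit 1368) (nat_lit 1377731001) (nat_lit 0) (nat_lit 620604170) (nat_lit 1292) (nat_lit 1377731001) (nat_lit 382) (nat_lit 1) (nat_lit 364) (nat_lit 1) (nat_lit 381) (nat_lit 1) (nat_lit 353) (nat_lit 341) (nat_lit 326))) (XT.nd (nat_lit 78) (nat_lit 760) (nat_lit 0) (XT.lf (nat_lit 1368) (nat_lit 2473828951) (nat_lit 76) (nat_lit 428253341) (nat_lit 0) (nat_lit 428253341) (nat_lit 382) (nat_lit 1) (nat_lit 365) (nat_lit 1) (nat_lit 364) (nat_lit 1) (nat_lit 354) (nat_lit 341) (nat_lit 325)) (XT.nd (nat_lit 78) (nat_lit 836) (nat_lit 0) (XT.lf (nat_lit 76) (nat_lit 1087952724) (nat_lit 0) (nat_lit 1109318204) (nat_lit 1292) (nat_lit 1087952724) (nat_lit 366) (nat_lit 1) (nat_lit 365) (nat_lit 1) (nat_lit 382) (nat_lit 1) (nat_lit 355) (nat_lit 341) (nat_lit 324)) (XT.lf (nat_lit 912) (nat_lit 1875783662) (nat_lit 0) (nat_lit 682662592)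 (nat_lit 836) (nat_lit 682662592) (nat_lit 366) (nat_lit 1) (nat_lit 354) (nat_lit 1) (nat_lit 365) (nat_lit 1) (nat_lit 356) (nat_lit 341) (nat_lit 323))))) (XT.nd (nat_lit 234) (nat_lit 1216) (nat_lit 0) (XT.nd (nat_lit 78) (nat_lit 608) (nat_lit 0) (XT.lf (nat_lit 76) (nat_lit 782915585) (nat_lit 0) (nat_lit 1631906832) (nat_lit 912) (nat_lit 782915585) (nat_lit 355) (nat_lit 1) (nat_lit 354) (nat_lit 1) (nat_lit 366) (nat_lit 1) (nat_lit 357) (nat_lit 341) (nat_lit 322)) (XT.nd (nat_lit 78) (nat_lit 0) (nat_lit 0) (XT.lf (nat_lit 684) (nat_lit 1248907336) (nat_lit 0) (nat_lit 953128529) (nat_lit 608) (nat_lit 953128529) (nat_lit 355) (nat_lit 1) (nat_lit 346) (nat_lit 1) (nat_lit 354) (nat_lit 1) (nat_lit 358) (nat_lit 341) (nat_lit 321)) (XT.lf (nat_lit 76) (nat_lit 464424436) (nat_lit 0) (nat_lit 2184621764) (nat_lit 684) (nat_lit 464424436) (nat_lit 347) (nat_lit 1) (nat_lit 346) (nat_lit 1) (nat_lit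 355) (nat_lit 1) (nat_lit 359) (nat_lit 341) (nat_lit 320)))) (XT.nd (nat_lit 78) (nat_lit 608) (nat_lit 0) (XT.lf (nat_lit 684) (nat_lit 596694640) (nat_lit 0) (nat_lit 1237836399) (nat_lit 608) (nat_lit 1237836399) (nat_lit 347) (nat_lit 1) (nat_lit 338) (nat_lit 1) (nat_lit 346) (nat_lit 1) (nat_lit 360) (nat_lit 341) (nat_lit 319)) (XT.nd (nat_lit 78) (nat_lit 608) (nat_lit 0) (XT.lf (nat_lit 76) (nat_lit 134153467) (nat_lit 0) (nat_lit 2763982412) (nat_lit 684) (nat_lit 134153467) (nat_lit 339) (nat_lit 1) (nat_lit 338) (nat_lit 1) (nat_lit 347) (nat_lit 1) (nat_lit 361) (nat_lit 341) (nat_lit 318)) (XT.lf (nat_lit 76) (nat_lit 1458233760) (nat_lit 0) (nat_lit 76099418) (nat_lit 608) (nat_lit 1458233760) (nat_lit 331) (nat_lit 1) (nat_lit 330) (nat_lit 1) (nat_lit 338) (nat_lit 1) (nat_lit 362) (nat_lit 341) (nat_lit 317))))))) (XT.nd (nat_lit 858) (nat_lit 2964) (nat_lit 0) (XT.nd (nat_lit 390)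 (nat_lit 1520) (nat_lit 0) (XT.nd (nat_lit 156) (nat_lit 1064) (nat_lit 0) (XT.nd (nat_lit 78) (nat_lit 0) (nat_lit 0) (XT.lf (nat_lit 684) (nat_lit 2545183747) (nat_lit 0) (nat_lit 204322508) (nat_lit 608) (nat_lit 204322508) (nat_lit 331) (nat_lit 1) (nat_lit 322) (nat_lit 1) (nat_lit 330) (nat_lit 1) (nat_lit 363) (nat_lit 341) (nat_lit 316)) (XT.lf (nat_lit 76) (nat_lit 1079757112) (nat_lit 0) (nat_lit 755970684) (nat_lit 684) (nat_lit 1079757112) (nat_lit 323) (nat_lit 1) (nat_lit 322) (nat_lit 1) (nat_lit 331) (nat_lit 1) (nat_lit 364) (nat_lit 341) (nat_lit 315))) (XT.nd (nat_lit 78) (nat_lit 532) (nat_lit 0) (XT.lf (nat_lit 608) (nat_lit 1777666319) (nat_lit 0) (nat_lit 550187839) (nat_lit 532) (nat_lit 550187839) (nat_lit 323) (nat_lit 1) (nat_lit 315) (nat_lit 1) (nat_lit 322) (nat_lit 1) (nat_lit 365) (nat_lit 341) (nat_lit 314)) (XT.nd (nat_lit 78) (nat_lit 532) (nat_lit 0) (XT.lf (nat_lit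 76) (nat_lit 694669770) (nat_lit 0) (nat_lit 1451837476) (nat_lit 608) (nat_lit 694669770) (nat_lit 316) (nat_lit 1) (nat_lit 315) (nat_lit 1) (nat_lit 323) (nat_lit 1) (nat_lit 366) (nat_lit 341) (nat_lit 313)) (XT.lf (nat_lit 608) (nat_lit 998089548) (nat_lit 0) (nat_lit 903440825) (nat_lit 532) (nat_lit 903440825) (nat_lit 316) (nat_lit 1) (nat_lit 308) (nat_lit 1) (nat_lit 315) (nat_lit 1) (nat_lit 367) (nat_lit 341) (nat_lit 312))))) (XT.nd (nat_lit 234) (nat_lit 456) (nat_lit 0) (XT.nd (nat_lit 78) (nat_lit 1064) (nat_lit 0) (XT.lf (nat_lit 76) (nat_lit 304176556) (nat_lit 0) (nat_lit 2161178978) (nat_lit 608) (nat_lit 304176556) (nat_lit 309) (nat_lit 1) (nat_lit 308) (nat_lit 1) (nat_lit 316) (nat_lit 1) (nat_lit 368) (nat_lit 341) (nat_lit 311)) (XT.nd (nat_lit 78) (nat_lit 608) (nat_lit 0) (XT.lf (nat_lit 532) (nat_lit 208780195) (nat_lit 0) (nat_lit 1262863934) (nat_lit 456) (nat_lit 1262863934)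 (nat_lit 309) (nat_lit 1) (nat_lit 302) (nat_lit 1) (nat_lit 308) (nat_lit 1) (nat_lit 369) (nat_lit 341) (nat_lit 310)) (XT.lf (nat_lit 608) (nat_lit 2520893776) (nat_lit 0) (nat_lit 89722561) (nat_lit 532) (nat_lit 89722561) (nat_lit 302) (nat_lit 1) (nat_lit 294) (nat_lit 1) (nat_lit 301) (nat_lit 1) (nat_lit 370) (nat_lit 341) (nat_lit 309)))) (XT.nd (nat_lit 78) (nat_lit 456) (nat_lit 0) (XT.lf (nat_lit 76) (nat_lit 1044869818) (nat_lit 0) (nat_lit 576639887) (nat_lit 608) (nat_lit 1044869818) (nat_lit 295) (nat_lit 1) (nat_lit 294) (nat_lit 1) (nat_lit 302) (nat_lit 1) (nat_lit 371) (nat_lit 341) (nat_lit 308)) (XT.nd (nat_lit 78) (nat_lit 0) (nat_lit 0) (XT.lf (nat_lit 532) (nat_lit 1665490054) (nat_lit 0) (nat_lit 483877272) (nat_lit 456) (nat_lit 483877272) (nat_lit 295) (nat_lit 1) (nat_lit 288) (nat_lit 1) (nat_lit 294) (nat_lit 1) (nat_lit 372) (nat_lit 341) (nat_lit 307)) (XT.lf (nat_lit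 76) (nat_lit 618553627) (nat_lit 0) (nat_lit 1363487224) (nat_lit 532) (nat_lit 618553627) (nat_lit 289) (nat_lit 1) (nat_lit 288) (nat_lit 1) (nat_lit 295) (nat_lit 1) (nat_lit 373) (nat_lit 341) (nat_lit 306)))))) (XT.nd (nat_lit 390) (nat_lit 1596) (nat_lit 0) (XT.nd (nat_lit 156) (nat_lit 912) (nat_lit 0) (XT.nd (nat_lit 78) (nat_lit 0) (nat_lit 0) (XT.lf (nat_lit 532) (nat_lit 807834101) (nat_lit 0) (nat_lit 880335942) (nat_lit 456) (nat_lit 880335942) (nat_lit 289) (nat_lit 1) (nat_lit 282) (nat_lit 1) (nat_lit 288) (nat_lit 1) (nat_lit 374) (nat_lit 341) (nat_lit 305)) (XT.lf (nat_lit 76) (nat_lit 191532846) (nat_lit 0) (nat_lit 2154053455) (nat_lit 532) (nat_lit 191532846) (nat_lit 283) (nat_lit 1) (nat_lit 282) (nat_lit 1) (nat_lit 289) (nat_lit 1) (nat_lit 375) (nat_lit 341) (nat_lit 304))) (XT.nd (nat_lit 78) (nat_lit 456) (nat_lit 0) (XT.lf (nat_lit 76) (nat_lit 1228276149) (nat_lit 0) (nat_lit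 49464550) (nat_lit 456) (nat_lit 1228276149) (nat_lit 277) (nat_lit 1) (nat_lit 276) (nat_lit 1) (nat_lit 282) (nat_lit 1) (nat_lit 376) (nat_lit 341) (nat_lit 303)) (XT.nd (nat_lit 78) (nat_lit 0) (nat_lit 0) (XT.lf (nat_lit 532) (nat_lit 2009369248) (nat_lit 0) (nat_lit 233110742) (nat_lit 456) (nat_lit 233110742) (nat_lit 277) (nat_lit 1) (nat_lit 270) (nat_lit 1) (nat_lit 276) (nat_lit 1) (nat_lit 377) (nat_lit 341) (nat_lit 302)) (XT.lf (nat_lit 76) (nat_lit 777658100) (nat_lit 0) (nat_lit 890155155) (nat_lit 532) (nat_lit 777658100) (nat_lit 271) (nat_lit 1) (nat_lit 270) (nat_lit 1) (nat_lit 277) (nat_lit 1) (nat_lit 378) (nat_lit 341) (nat_lit 301))))) (XT.nd (nat_lit 234) (nat_lit 836) (nat_lit 0) (XT.nd (nat_lit 78) (nat_lit 380) (nat_lit 0) (XT.lf (nat_lit 456) (nat_lit 1105760989) (nat_lit 0) (nat_lit 655107035) (nat_lit 380) (nat_lit 655107035) (nat_lit 271) (nat_lit 1) (nat_lit 265) (nat_lit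 1) (nat_lit 270) (nat_lit 1) (nat_lit 379) (nat_lit 341) (nat_lit 300)) (XT.nd (nat_lit 78) (nat_lit 380) (nat_lit 0) (XT.lf (nat_lit 76) (nat_lit 329175745) (nat_lit 0) (nat_lit 1728667509) (nat_lit 456) (nat_lit 329175745) (nat_lit 266) (nat_lit 1) (nat_lit 265) (nat_lit 1) (nat_lit 271) (nat_lit 1) (nat_lit 380) (nat_lit 341) (nat_lit 299)) (XT.lf (nat_lit 456) (nat_lit 207025614) (nat_lit 0) (nat_lit 1075693541) (nat_lit 380) (nat_lit 1075693541) (nat_lit 266) (nat_lit 1) (nat_lit 260) (nat_lit 1) (nat_lit 265) (nat_lit 1) (nat_lit 381) (nat_lit 341) (nat_lit 298)))) (XT.nd (nat_lit 78) (nat_lit 380) (nat_lit 0) (XT.lf (nat_lit 456) (nat_lit 2099526419) (nat_lit 0) (nat_lit 115459143) (nat_lit 380) (nat_lit 115459143) (nat_lit 260) (nat_lit 1) (nat_lit 254) (nat_lit 1) (nat_lit 259) (nat_lit 1) (nat_lit 382) (nat_lit 341) (nat_lit 297)) (XT.nd (nat_lit 78) (nat_lit 380) (nat_lit 0) (XT.lf (nat_lit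 76) (nat_lit 815130786) (nat_lit 0) (nat_lit 672366320) (nat_lit 456) (nat_lit 815130786) (nat_lit 255) (nat_lit 1) (nat_lit 254) (nat_lit 1) (nat_lit 260) (nat_lit 1) (nat_lit 383) (nat_lit 341) (nat_lit 296)) (XT.lf (nat_lit 456) (nat_lit 1168072809) (nat_lit 0) (nat_lit 553678238) (nat_lit 380) (nat_lit 553678238) (nat_lit 255) (nat_lit 1) (nat_lit 249) (nat_lit 1) (nat_lit 254) (nat_lit 1) (nat_lit 384) (nat_lit 341) (nat_lit 295))))))))
noncomputable def ec18 : XT := (XT.nd (nat_lit 50466) (nat_lit 0) (nat_lit 3876) (XT.nd (nat_lit 49608) (nat_lit 0) (nat_lit 10032) (XT.nd (nat_lit 390) (nat_lit 304) (nat_lit 0) (XT.nd (nat_lit 156) (nat_lit 760) (nat_lit 0) (XT.nd (nat_lit 78) (nat_lit 304) (nat_lit 0) (XT.lf (nat_lit 76) (nat_lit 353890388) (nat_lit 0) (nat_lit 1540905247) (nat_lit 456) (nat_lit 353890388) (nat_lit 250) (nat_lit 1) (nat_lit 249) (nat_lit 1) (nat_lit 255) (nat_lit 1) (nat_lit 385)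 (nat_lit 341) (nat_lit 294)) (XT.lf (nat_lit 380) (nat_lit 245788393) (nat_lit 0) (nat_lit 988246645) (nat_lit 304) (nat_lit 988246645) (nat_lit 250) (nat_lit 1) (nat_lit 245) (nat_lit 1) (nat_lit 249) (nat_lit 1) (nat_lit 386) (nat_lit 341) (nat_lit 293))) (XT.nd (nat_lit 78) (nat_lit 304) (nat_lit 0) (XT.lf (nat_lit 456) (nat_lit 1993286719) (nat_lit 0) (nat_lit 101584933) (nat_lit 380) (nat_lit 101584933) (nat_lit 245) (nat_lit 1) (nat_lit 239) (nat_lit 1) (nat_lit 244) (nat_lit 1) (nat_lit 387) (nat_lit 341) (nat_lit 292)) (XT.nd (nat_lit 78) (nat_lit 304) (nat_lit 0) (XT.lf (nat_lit 76) (nat_lit 758592098) (nat_lit 0) (nat_lit 653555841) (nat_lit 456) (nat_lit 758592098) (nat_lit 240) (nat_lit 1) (nat_lit 239) (nat_lit 1) (nat_lit 245) (nat_lit 1) (nat_lit 388) (nat_lit 341) (nat_lit 291)) (XT.lf (nat_lit 380) (nat_lit 1048541327) (nat_lit 0) (nat_lit 548522283) (nat_lit 304) (nat_lit 548522283)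 (nat_lit 240) (nat_lit 1) (nat_lit 235) (nat_lit 1) (nat_lit 239) (nat_lit 1) (nat_lit 389) (nat_lit 341) (nat_lit 290))))) (XT.nd (nat_lit 48984) (nat_lit 0) (nat_lit 10868) (XT.nd (nat_lit 78) (nat_lit 304) (nat_lit 0) (XT.lf (nat_lit 76) (nat_lit 291583326) (nat_lit 0) (nat_lit 1537695363) (nat_lit 380) (nat_lit 291583326) (nat_lit 236) (nat_lit 1) (nat_lit 235) (nat_lit 1) (nat_lit 240) (nat_lit 1) (nat_lit 390) (nat_lit 341) (nat_lit 289)) (XT.nd (nat_lit 48828) (nat_lit 0) (nat_lit 10868) (XT.lf (nat_lit 380) (nat_lit 116271135) (nat_lit 0) (nat_lit 990074013) (nat_lit 304) (nat_lit 990074013) (nat_lit 236) (nat_lit 1) (nat_lit 231) (nat_lit 1) (nat_lit 235) (nat_lit 1) (nat_lit 391) (nat_lit 341) (nat_lit 288)) (XT.lf (nat_lit 1292) (nat_lit 395675469) (nat_lit 0) (nat_lit 1361307632) (nat_lit 1292) (nat_lit 395675469) (nat_lit 391) (nat_lit 1) (nat_lit 374) (nat_lit 0) (nat_lit 391) (nat_lit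 0) (nat_lit 336) (nat_lit 342) (nat_lit 342)))) (XT.nd (nat_lit 78) (nat_lit 0) (nat_lit 76) (XT.lf (nat_lit 1292) (nat_lit 1546306669) (nat_lit 76) (nat_lit 1347961479) (nat_lit 0) (nat_lit 1347961479) (nat_lit 391) (nat_lit 1) (nat_lit 375) (nat_lit 1) (nat_lit 374) (nat_lit 0) (nat_lit 337) (nat_lit 342) (nat_lit 341)) (XT.nd (nat_lit 78) (nat_lit 0) (nat_lit 0) (XT.lf (nat_lit 1292) (nat_lit 747830773) (nat_lit 0) (nat_lit 2684872144) (nat_lit 1216) (nat_lit 747830773) (nat_lit 392) (nat_lit 1) (nat_lit 375) (nat_lit 1) (nat_lit 391) (nat_lit 1) (nat_lit 338) (nat_lit 342) (nat_lit 340)) (XT.lf (nat_lit 1292) (nat_lit 1420169250) (nat_lit 76) (nat_lit 1349849402) (nat_lit 0) (nat_lit 1349849402) (nat_lit 392) (nat_lit 1) (nat_lit 376) (nat_lit 1) (nat_lit 375) (nat_lit 1) (nat_lit 339) (nat_lit 342) (nat_lit 339)))))) (XT.nd (nat_lit 390) (nat_lit 988) (nat_lit 0) (XT.nd (nat_lit 156) (nat_lit 0)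 (nat_lit 76) (XT.nd (nat_lit 78) (nat_lit 0) (nat_lit 0) (XT.lf (nat_lit 1292) (nat_lit 666407337) (nat_lit 0) (nat_lit 2727745157) (nat_lit 1216) (nat_lit 666407337) (nat_lit 393) (nat_lit 1) (nat_lit 376) (nat_lit 1) (nat_lit 392) (nat_lit 1) (nat_lit 340) (nat_lit 342) (nat_lit 338)) (XT.lf (nat_lit 1292) (nat_lit 1221261809) (nat_lit 76) (nat_lit 1390469157) (nat_lit 0) (nat_lit 1390469157) (nat_lit 393) (nat_lit 1) (nat_lit 377) (nat_lit 1) (nat_lit 376) (nat_lit 1) (nat_lit 341) (nat_lit 342) (nat_lit 337))) (XT.nd (nat_lit 78) (nat_lit 0) (nat_lit 0) (XT.lf (nat_lit 1292) (nat_lit 550433177) (nat_lit 0) (nat_lit 2844321671) (nat_lit 1216) (nat_lit 550433177) (nat_lit 394) (nat_lit 1) (nat_lit 377) (nat_lit 1) (nat_lit 393) (nat_lit 1) (nat_lit 342) (nat_lit 342) (nat_lit 336)) (XT.nd (nat_lit 78) (nat_lit 0) (nat_lit 76) (XT.lf (nat_lit 1292) (nat_lit 956092058) (nat_lit 76) (nat_lit 1466466109)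 (nat_lit 0) (nat_lit 1466466109) (nat_lit 394) (nat_lit 1) (nat_lit 378) (nat_lit 1) (nat_lit 377) (nat_lit 1) (nat_lit 343) (nat_lit 342) (nat_lit 335)) (XT.lf (nat_lit 1292) (nat_lit 403034115) (nat_lit 0) (nat_lit 3028152418) (nat_lit 1216) (nat_lit 403034115) (nat_lit 395) (nat_lit 1) (nat_lit 378) (nat_lit 1) (nat_lit 394) (nat_lit 1) (nat_lit 344) (nat_lit 342) (nat_lit 334))))) (XT.nd (nat_lit 234) (nat_lit 1140) (nat_lit 0) (XT.nd (nat_lit 78) (nat_lit 0) (nat_lit 76) (XT.lf (nat_lit 1292) (nat_lit 630726259) (nat_lit 76) (nat_lit 1574711145) (nat_lit 0) (nat_lit 1574711145) (nat_lit 395) (nat_lit 1) (nat_lit 379) (nat_lit 1) (nat_lit 378) (nat_lit 1) (nat_lit 345) (nat_lit 342) (nat_lit 333)) (XT.nd (nat_lit 78) (nat_lit 0) (nat_lit 0) (XT.lf (nat_lit 1292) (nat_lit 227123260) (nat_lit 0) (nat_lit 3273222957) (nat_lit 1216) (nat_lit 227123260) (nat_lit 396) (nat_lit 1) (nat_lit 379) (nat_lit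 1) (nat_lit 395) (nat_lit 1) (nat_lit 346) (nat_lit 342) (nat_lit 332)) (XT.lf (nat_lit 1292) (nat_lit 250816549) (nat_lit 76) (nat_lit 1712286764) (nat_lit 0) (nat_lit 1712286764) (nat_lit 396) (nat_lit 1) (nat_lit 380) (nat_lit 1) (nat_lit 379) (nat_lit 1) (nat_lit 347) (nat_lit 342) (nat_lit 331)))) (XT.nd (nat_lit 78) (nat_lit 1292) (nat_lit 0) (XT.lf (nat_lit 1292) (nat_lit 25414194) (nat_lit 0) (nat_lit 3573926832) (nat_lit 1216) (nat_lit 25414194) (nat_lit 397) (nat_lit 1) (nat_lit 380) (nat_lit 1) (nat_lit 396) (nat_lit 1) (nat_lit 348) (nat_lit 342) (nat_lit 330)) (XT.nd (nat_lit 78) (nat_lit 0) (nat_lit 0) (XT.lf (nat_lit 1368) (nat_lit 1699815263) (nat_lit 0) (nat_lit 174892663) (nat_lit 1292) (nat_lit 1699815263) (nat_lit 381) (nat_lit 1) (nat_lit 363) (nat_lit 1) (nat_lit 380) (nat_lit 1) (nat_lit 349) (nat_lit 342) (nat_lit 329)) (XT.lf (nat_lit 1368) (nat_lit 3130455473) (nat_lit 76) (nat_lit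 197610103) (nat_lit 0) (nat_lit 197610103) (nat_lit 381) (nat_lit 1) (nat_lit 364) (nat_lit 1) (nat_lit 363) (nat_lit 1) (nat_lit 350) (nat_lit 342) (nat_lit 328))))))) (XT.nd (nat_lit 858) (nat_lit 3040) (nat_lit 0) (XT.nd (nat_lit 390) (nat_lit 2432) (nat_lit 0) (XT.nd (nat_lit 156) (nat_lit 760) (nat_lit 0) (XT.nd (nat_lit 78) (nat_lit 0) (nat_lit 0) (XT.lf (nat_lit 1368) (nat_lit 1419062931) (nat_lit 0) (nat_lit 639222296) (nat_lit 1292) (nat_lit 1419062931) (nat_lit 382) (nat_lit 1) (nat_lit 364) (nat_lit 1) (nat_lit 381) (nat_lit 1) (nat_lit 351) (nat_lit 342) (nat_lit 327)) (XT.lf (nat_lit 1368) (nat_lit 2548043820) (nat_lit 76) (nat_lit 441100941) (nat_lit 0) (nat_lit 441100941) (nat_lit 382) (nat_lit 1) (nat_lit 365) (nat_lit 1) (nat_lit 364) (nat_lit 1) (nat_lit 352) (nat_lit 342) (nat_lit 326))) (XT.nd (nat_lit 78) (nat_lit 836) (nat_lit 0) (XT.lf (nat_lit 76) (nat_lit 1120591306) (nat_lit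 0) (nat_lit 1142597750) (nat_lit 1292) (nat_lit 1120591306) (nat_lit 366) (nat_lit 1) (nat_lit 365) (nat_lit 1) (nat_lit 382) (nat_lit 1) (nat_lit 353) (nat_lit 342) (nat_lit 325)) (XT.nd (nat_lit 78) (nat_lit 0) (nat_lit 0) (XT.lf (nat_lit 912) (nat_lit 1932057172) (nat_lit 0) (nat_lit 703142470) (nat_lit 836) (nat_lit 703142470) (nat_lit 366) (nat_lit 1) (nat_lit 354) (nat_lit 1) (nat_lit 365) (nat_lit 1) (nat_lit 354) (nat_lit 342) (nat_lit 324)) (XT.lf (nat_lit 76) (nat_lit 806403053) (nat_lit 0) (nat_lit 1680864037) (nat_lit 912) (nat_lit 806403053) (nat_lit 355) (nat_lit 1) (nat_lit 354) (nat_lit 1) (nat_lit 366) (nat_lit 1) (nat_lit 355) (nat_lit 342) (nat_lit 323))))) (XT.nd (nat_lit 234) (nat_lit 1216) (nat_lit 0) (XT.nd (nat_lit 78) (nat_lit 608) (nat_lit 0) (XT.lf (nat_lit 684) (nat_lit 1286374556) (nat_lit 0) (nat_lit 981722385) (nat_lit 608) (nat_lit 981722385) (nat_lit 355) (nat_lit 1)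 (nat_lit 346) (nat_lit 1) (nat_lit 354) (nat_lit 1) (nat_lit 356) (nat_lit 342) (nat_lit 322)) (XT.nd (nat_lit 78) (nat_lit 608) (nat_lit 0) (XT.lf (nat_lit 76) (nat_lit 478357169) (nat_lit 0) (nat_lit 2250160417) (nat_lit 684) (nat_lit 478357169) (nat_lit 347) (nat_lit 1) (nat_lit 346) (nat_lit 1) (nat_lit 355) (nat_lit 1) (nat_lit 357) (nat_lit 342) (nat_lit 321)) (XT.lf (nat_lit 684) (nat_lit 614595479) (nat_lit 0) (nat_lit 1274971491) (nat_lit 608) (nat_lit 1274971491) (nat_lit 347) (nat_lit 1) (nat_lit 338) (nat_lit 1) (nat_lit 346) (nat_lit 1) (nat_lit 358) (nat_lit 342) (nat_lit 320)))) (XT.nd (nat_lit 78) (nat_lit 1216) (nat_lit 0) (XT.lf (nat_lit 76) (nat_lit 138178071) (nat_lit 0) (nat_lit 2846901885) (nat_lit 684) (nat_lit 138178071) (nat_lit 339) (nat_lit 1) (nat_lit 338) (nat_lit 1) (nat_lit 347) (nat_lit 1) (nat_lit 359) (nat_lit 342) (nat_lit 319)) (XT.nd (nat_lit 78) (nat_lit 608) (nat_lit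 0) (XT.lf (nat_lit 76) (nat_lit 1501980773) (nat_lit 0) (nat_lit 78382400) (nat_lit 608) (nat_lit 1501980773) (nat_lit 331) (nat_lit 1) (nat_lit 330) (nat_lit 1) (nat_lit 338) (nat_lit 1) (nat_lit 360) (nat_lit 342) (nat_lit 318)) (XT.lf (nat_lit 684) (nat_lit 2621539260) (nat_lit 0) (nat_lit 210452183) (nat_lit 608) (nat_lit 210452183) (nat_lit 331) (nat_lit 1) (nat_lit 322) (nat_lit 1) (nat_lit 330) (nat_lit 1) (nat_lit 361) (nat_lit 342) (nat_lit 317)))))) (XT.nd (nat_lit 390) (nat_lit 1976) (nat_lit 0) (XT.nd (nat_lit 156) (nat_lit 532) (nat_lit 0) (XT.nd (nat_lit 78) (nat_lit 532) (nat_lit 0) (XT.lf (nat_lit 76) (nat_lit 1112149826) (nat_lit 0) (nat_lit 778649804) (nat_lit 684) (nat_lit 1112149826) (nat_lit 323) (nat_lit 1) (nat_lit 322) (nat_lit 1) (nat_lit 331) (nat_lit 1) (nat_lit 362) (nat_lit 342) (nat_lit 316)) (XT.lf (nat_lit 608) (nat_lit 1830996309) (nat_lit 0) (nat_lit 566693474) (nat_lit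 532) (nat_lit 566693474) (nat_lit 323) (nat_lit 1) (nat_lit 315) (nat_lit 1) (nat_lit 322) (nat_lit 1) (nat_lit 363) (nat_lit 342) (nat_lit 315))) (XT.nd (nat_lit 78) (nat_lit 532) (nat_lit 0) (XT.lf (nat_lit 76) (nat_lit 715509863) (nat_lit 0) (nat_lit 1495392601) (nat_lit 608) (nat_lit 715509863) (nat_lit 316) (nat_lit 1) (nat_lit 315) (nat_lit 1) (nat_lit 323) (nat_lit 1) (nat_lit 364) (nat_lit 342) (nat_lit 314)) (XT.nd (nat_lit 78) (nat_lit 0) (nat_lit 0) (XT.lf (nat_lit 608) (nat_lit 1028032235) (nat_lit 0) (nat_lit 930544049) (nat_lit 532) (nat_lit 930544049) (nat_lit 316) (nat_lit 1) (nat_lit 308) (nat_lit 1) (nat_lit 315) (nat_lit 1) (nat_lit 365) (nat_lit 342) (nat_lit 313)) (XT.lf (nat_lit 76) (nat_lit 313301853) (nat_lit 0) (nat_lit 2226014347) (nat_lit 608) (nat_lit 313301853) (nat_lit 309) (nat_lit 1) (nat_lit 308) (nat_lit 1) (nat_lit 316) (nat_lit 1) (nat_lit 366) (nat_lit 342) (nat_lit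 312))))) (XT.nd (nat_lit 234) (nat_lit 912) (nat_lit 0) (XT.nd (nat_lit 78) (nat_lit 608) (nat_lit 0) (XT.lf (nat_lit 532) (nat_lit 215043601) (nat_lit 0) (nat_lit 1300749852) (nat_lit 456) (nat_lit 1300749852) (nat_lit 309) (nat_lit 1) (nat_lit 302) (nat_lit 1) (nat_lit 308) (nat_lit 1) (nat_lit 367) (nat_lit 342) (nat_lit 311)) (XT.nd (nat_lit 78) (nat_lit 0) (nat_lit 0) (XT.lf (nat_lit 608) (nat_lit 2596520589) (nat_lit 0) (nat_lit 92414237) (nat_lit 532) (nat_lit 92414237) (nat_lit 302) (nat_lit 1) (nat_lit 294) (nat_lit 1) (nat_lit 301) (nat_lit 1) (nat_lit 368) (nat_lit 342) (nat_lit 310)) (XT.lf (nat_lit 76) (nat_lit 1076215913) (nat_lit 0) (nat_lit 593939084) (nat_lit 608) (nat_lit 1076215913) (nat_lit 295) (nat_lit 1) (nat_lit 294) (nat_lit 1) (nat_lit 302) (nat_lit 1) (nat_lit 369) (nat_lit 342) (nat_lit 309)))) (XT.nd (nat_lit 78) (nat_lit 456) (nat_lit 0) (XT.lf (nat_lit 532) (nat_lit 1715454755)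 (nat_lit 0) (nat_lit 498393591) (nat_lit 456) (nat_lit 498393591) (nat_lit 295) (nat_lit 1) (nat_lit 288) (nat_lit 1) (nat_lit 294) (nat_lit 1) (nat_lit 370) (nat_lit 342) (nat_lit 308)) (XT.nd (nat_lit 78) (nat_lit 456) (nat_lit 0) (XT.lf (nat_lit 76) (nat_lit 637110235) (nat_lit 0) (nat_lit 1404391840) (nat_lit 532) (nat_lit 637110235) (nat_lit 289) (nat_lit 1) (nat_lit 288) (nat_lit 1) (nat_lit 295) (nat_lit 1) (nat_lit 371) (nat_lit 342) (nat_lit 307)) (XT.lf (nat_lit 532) (nat_lit 832069124) (nat_lit 0) (nat_lit 906746020) (nat_lit 456) (nat_lit 906746020) (nat_lit 289) (nat_lit 1) (nat_lit 282) (nat_lit 1) (nat_lit 288) (nat_lit 1) (nat_lit 372) (nat_lit 342) (nat_lit 306))))))))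
noncomputable def ec19 : XT := (XT.nd (nat_lit 50310) (nat_lit 0) (nat_lit 7296) (XT.nd (nat_lit 858) (nat_lit 1748) (nat_lit 0) (XT.nd (nat_lit 390) (nat_lit 1216) (nat_lit 0) (XT.nd (nat_lit 156) (nat_lit 836) (nat_lit 0) (XT.nd (nat_lit 78) (nat_lit 456) (nat_lit 0) (XT.lf (nat_lit 76) (nat_lit 197278831) (nat_lit 0) (nat_lit 2218675058) (nat_lit 532) (nat_lit 197278831) (nat_lit 283) (nat_lit 1) (nat_lit 282) (nat_lit 1) (nat_lit 289) (nat_lit 1) (nat_lit 373) (nat_lit 342) (nat_lit 305)) (XT.lf (nat_lit 76) (nat_lit 1265124433) (nat_lit 0) (nat_lit 50948486) (nat_lit 456) (nat_lit 1265124433) (nat_lit 277) (nat_lit 1) (nat_lit 276) (nat_lit 1) (nat_lit 282) (nat_lit 1) (nat_lit 374) (nat_lit 342) (nat_lit 304))) (XT.nd (nat_lit 78) (nat_lit 380) (nat_lit 0) (XT.lf (nat_lit 532) (nat_lit 2069650325) (nat_lit 0) (nat_lit 240104065) (nat_lit 456) (nat_lit 240104065) (nat_lit 277) (nat_lit 1) (nat_lit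 270) (nat_lit 1) (nat_lit 276) (nat_lit 1) (nat_lit 375) (nat_lit 342) (nat_lit 303)) (XT.nd (nat_lit 78) (nat_lit 380) (nat_lit 0) (XT.lf (nat_lit 76) (nat_lit 800987843) (nat_lit 0) (nat_lit 916859810) (nat_lit 532) (nat_lit 800987843) (nat_lit 271) (nat_lit 1) (nat_lit 270) (nat_lit 1) (nat_lit 277) (nat_lit 1) (nat_lit 376) (nat_lit 342) (nat_lit 302)) (XT.lf (nat_lit 456) (nat_lit 1138933819) (nat_lit 0) (nat_lit 674760246) (nat_lit 380) (nat_lit 674760246) (nat_lit 271) (nat_lit 1) (nat_lit 265) (nat_lit 1) (nat_lit 270) (nat_lit 1) (nat_lit 377) (nat_lit 342) (nat_lit 301))))) (XT.nd (nat_lit 234) (nat_lit 380) (nat_lit 0) (XT.nd (nat_lit 78) (nat_lit 836) (nat_lit 0) (XT.lf (nat_lit 76) (nat_lit 339051017) (nat_lit 0) (nat_lit 1780527535) (nat_lit 456) (nat_lit 339051017) (nat_lit 266) (nat_lit 1) (nat_lit 265) (nat_lit 1) (nat_lit 271) (nat_lit 1) (nat_lit 378) (nat_lit 342) (nat_lit 300)) (XT.nd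 (nat_lit 78) (nat_lit 456) (nat_lit 0) (XT.lf (nat_lit 456) (nat_lit 213236382) (nat_lit 0) (nat_lit 1107964347) (nat_lit 380) (nat_lit 1107964347) (nat_lit 266) (nat_lit 1) (nat_lit 260) (nat_lit 1) (nat_lit 265) (nat_lit 1) (nat_lit 379) (nat_lit 342) (nat_lit 299)) (XT.lf (nat_lit 456) (nat_lit 2162512211) (nat_lit 0) (nat_lit 118922917) (nat_lit 380) (nat_lit 118922917) (nat_lit 260) (nat_lit 1) (nat_lit 254) (nat_lit 1) (nat_lit 259) (nat_lit 1) (nat_lit 380) (nat_lit 342) (nat_lit 298)))) (XT.nd (nat_lit 78) (nat_lit 380) (nat_lit 0) (XT.lf (nat_lit 76) (nat_lit 839584710) (nat_lit 0) (nat_lit 692537310) (nat_lit 456) (nat_lit 839584710) (nat_lit 255) (nat_lit 1) (nat_lit 254) (nat_lit 1) (nat_lit 260) (nat_lit 1) (nat_lit 381) (nat_lit 342) (nat_lit 297)) (XT.nd (nat_lit 78) (nat_lit 0) (nat_lit 0) (XT.lf (nat_lit 456) (nat_lit 1203114993) (nat_lit 0) (nat_lit 570288585) (nat_lit 380) (nat_lit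 570288585) (nat_lit 255) (nat_lit 1) (nat_lit 249) (nat_lit 1) (nat_lit 254) (nat_lit 1) (nat_lit 382) (nat_lit 342) (nat_lit 296)) (XT.lf (nat_lit 76) (nat_lit 364507099) (nat_lit 0) (nat_lit 1587132404) (nat_lit 456) (nat_lit 364507099) (nat_lit 250) (nat_lit 1) (nat_lit 249) (nat_lit 1) (nat_lit 255) (nat_lit 1) (nat_lit 383) (nat_lit 342) (nat_lit 295)))))) (XT.nd (nat_lit 390) (nat_lit 684) (nat_lit 0) (XT.nd (nat_lit 156) (nat_lit 304) (nat_lit 0) (XT.nd (nat_lit 78) (nat_lit 456) (nat_lit 0) (XT.lf (nat_lit 380) (nat_lit 253162045) (nat_lit 0) (nat_lit 1017894044) (nat_lit 304) (nat_lit 1017894044) (nat_lit 250) (nat_lit 1) (nat_lit 245) (nat_lit 1) (nat_lit 249) (nat_lit 1) (nat_lit 384) (nat_lit 342) (nat_lit 294)) (XT.lf (nat_lit 456) (nat_lit 2053085321) (nat_lit 0) (nat_lit 104632481) (nat_lit 380) (nat_lit 104632481) (nat_lit 245) (nat_lit 1) (nat_lit 239) (nat_lit 1) (nat_lit 244) (nat_lit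 1) (nat_lit 385) (nat_lit 342) (nat_lit 293))) (XT.nd (nat_lit 78) (nat_lit 304) (nat_lit 0) (XT.lf (nat_lit 76) (nat_lit 781349861) (nat_lit 0) (nat_lit 673162517) (nat_lit 456) (nat_lit 781349861) (nat_lit 240) (nat_lit 1) (nat_lit 239) (nat_lit 1) (nat_lit 245) (nat_lit 1) (nat_lit 386) (nat_lit 342) (nat_lit 292)) (XT.nd (nat_lit 78) (nat_lit 0) (nat_lit 0) (XT.lf (nat_lit 380) (nat_lit 1079997567) (nat_lit 0) (nat_lit 564977951) (nat_lit 304) (nat_lit 564977951) (nat_lit 240) (nat_lit 1) (nat_lit 235) (nat_lit 1) (nat_lit 239) (nat_lit 1) (nat_lit 387) (nat_lit 342) (nat_lit 291)) (XT.lf (nat_lit 76) (nat_lit 300330826) (nat_lit 0) (nat_lit 1583826224) (nat_lit 380) (nat_lit 300330826) (nat_lit 236) (nat_lit 1) (nat_lit 235) (nat_lit 1) (nat_lit 240) (nat_lit 1) (nat_lit 388) (nat_lit 342) (nat_lit 290))))) (XT.nd (nat_lit 48828) (nat_lit 0) (nat_lit 11248) (XT.nd (nat_lit 78) (nat_lit 380) (nat_lit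 0) (XT.lf (nat_lit 380) (nat_lit 119759269) (nat_lit 0) (nat_lit 1019776233) (nat_lit 304) (nat_lit 1019776233) (nat_lit 236) (nat_lit 1) (nat_lit 231) (nat_lit 1) (nat_lit 235) (nat_lit 1) (nat_lit 389) (nat_lit 342) (nat_lit 289)) (XT.nd (nat_lit 78) (nat_lit 0) (nat_lit 0) (XT.lf (nat_lit 380) (nat_lit 1789725373) (nat_lit 0) (nat_lit 172453530) (nat_lit 304) (nat_lit 172453530) (nat_lit 231) (nat_lit 1) (nat_lit 226) (nat_lit 1) (nat_lit 230) (nat_lit 1) (nat_lit 390) (nat_lit 342) (nat_lit 288)) (XT.lf (nat_lit 76) (nat_lit 649573905) (nat_lit 0) (nat_lit 810974488) (nat_lit 380) (nat_lit 649573905) (nat_lit 227) (nat_lit 1) (nat_lit 226) (nat_lit 1) (nat_lit 231) (nat_lit 1) (nat_lit 391) (nat_lit 342) (nat_lit 287)))) (XT.nd (nat_lit 78) (nat_lit 0) (nat_lit 0) (XT.lf (nat_lit 1292) (nat_lit 407545733) (nat_lit 0) (nat_lit 1402146861) (nat_lit 1292) (nat_lit 407545733) (nat_lit 391) (nat_lit 1)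 (nat_lit 374) (nat_lit 0) (nat_lit 391) (nat_lit 0) (nat_lit 334) (nat_lit 343) (nat_lit 343)) (XT.nd (nat_lit 78) (nat_lit 0) (nat_lit 76) (XT.lf (nat_lit 1292) (nat_lit 1592695869) (nat_lit 76) (nat_lit 1388400323) (nat_lit 0) (nat_lit 1388400323) (nat_lit 391) (nat_lit 1) (nat_lit 375) (nat_lit 1) (nat_lit 374) (nat_lit 0) (nat_lit 335) (nat_lit 343) (nat_lit 342)) (XT.lf (nat_lit 1292) (nat_lit 770265697) (nat_lit 0) (nat_lit 2765418308) (nat_lit 1216) (nat_lit 770265697) (nat_lit 392) (nat_lit 1) (nat_lit 375) (nat_lit 1) (nat_lit 391) (nat_lit 1) (nat_lit 336) (nat_lit 343) (nat_lit 341))))))) (XT.nd (nat_lit 858) (nat_lit 3116) (nat_lit 0) (XT.nd (nat_lit 390) (nat_lit 912) (nat_lit 0) (XT.nd (nat_lit 156) (nat_lit 0) (nat_lit 76) (XT.nd (nat_lit 78) (nat_lit 0) (nat_lit 76) (XT.lf (nat_lit 1292) (nat_lit 1462774327) (nat_lit 76) (nat_lit 1390344884) (nat_lit 0) (nat_lit 1390344884) (nat_lit 392)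 (nat_lit 1) (nat_lit 376) (nat_lit 1) (nat_lit 375) (nat_lit 1) (nat_lit 337) (nat_lit 343) (nat_lit 340)) (XT.lf (nat_lit 1292) (nat_lit 686399558) (nat_lit 0) (nat_lit 2809577511) (nat_lit 1216) (nat_lit 686399558) (nat_lit 393) (nat_lit 1) (nat_lit 376) (nat_lit 1) (nat_lit 392) (nat_lit 1) (nat_lit 338) (nat_lit 343) (nat_lit 339))) (XT.nd (nat_lit 78) (nat_lit 0) (nat_lit 76) (XT.lf (nat_lit 1292) (nat_lit 1257899664) (nat_lit 76) (nat_lit 1432183231) (nat_lit 0) (nat_lit 1432183231) (nat_lit 393) (nat_lit 1) (nat_lit 377) (nat_lit 1) (nat_lit 376) (nat_lit 1) (nat_lit 339) (nat_lit 343) (nat_lit 338)) (XT.nd (nat_lit 78) (nat_lit 0) (nat_lit 0) (XT.lf (nat_lit 1292) (nat_lit 566946173) (nat_lit 0) (nat_lit 2929651321) (nat_lit 1216) (nat_lit 566946173) (nat_lit 394) (nat_lit 1) (nat_lit 377) (nat_lit 1) (nat_lit 393) (nat_lit 1) (nat_lit 340) (nat_lit 343) (nat_lit 337)) (XT.lf (nat_lit 1292) (nat_lit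 984774820) (nat_lit 76) (nat_lit 1510460092) (nat_lit 0) (nat_lit 1510460092) (nat_lit 394) (nat_lit 1) (nat_lit 378) (nat_lit 1) (nat_lit 377) (nat_lit 1) (nat_lit 341) (nat_lit 343) (nat_lit 336))))) (XT.nd (nat_lit 234) (nat_lit 1140) (nat_lit 0) (XT.nd (nat_lit 78) (nat_lit 0) (nat_lit 0) (XT.lf (nat_lit 1292) (nat_lit 415125138) (nat_lit 0) (nat_lit 3118996991) (nat_lit 1216) (nat_lit 415125138) (nat_lit 395) (nat_lit 1) (nat_lit 378) (nat_lit 1) (nat_lit 394) (nat_lit 1) (nat_lit 342) (nat_lit 343) (nat_lit 335)) (XT.nd (nat_lit 78) (nat_lit 0) (nat_lit 76) (XT.lf (nat_lit 1292) (nat_lit 649648047) (nat_lit 76) (nat_lit 1621952479) (nat_lit 0) (nat_lit 1621952479) (nat_lit 395) (nat_lit 1) (nat_lit 379) (nat_lit 1) (nat_lit 378) (nat_lit 1) (nat_lit 343) (nat_lit 343) (nat_lit 334)) (XT.lf (nat_lit 1292) (nat_lit 233936958) (nat_lit 0) (nat_lit 3371419646) (nat_lit 1216) (nat_lit 233936958) (nat_lit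 396) (nat_lit 1) (nat_lit 379) (nat_lit 1) (nat_lit 395) (nat_lit 1) (nat_lit 344) (nat_lit 343) (nat_lit 333)))) (XT.nd (nat_lit 78) (nat_lit 1216) (nat_lit 0) (XT.lf (nat_lit 1292) (nat_lit 258341045) (nat_lit 76) (nat_lit 1763655367) (nat_lit 0) (nat_lit 1763655367) (nat_lit 396) (nat_lit 1) (nat_lit 380) (nat_lit 1) (nat_lit 379) (nat_lit 1) (nat_lit 345) (nat_lit 343) (nat_lit 332)) (XT.nd (nat_lit 78) (nat_lit 1292) (nat_lit 0) (XT.lf (nat_lit 1292) (nat_lit 26176620) (nat_lit 0) (nat_lit 3681144637) (nat_lit 1216) (nat_lit 26176620) (nat_lit 397) (nat_lit 1) (nat_lit 380) (nat_lit 1) (nat_lit 396) (nat_lit 1) (nat_lit 346) (nat_lit 343) (nat_lit 331)) (XT.lf (nat_lit 1368) (nat_lit 1750809721) (nat_lit 0) (nat_lit 180139443) (nat_lit 1292) (nat_lit 1750809721) (nat_lit 381) (nat_lit 1) (nat_lit 363) (nat_lit 1) (nat_lit 380) (nat_lit 1) (nat_lit 347) (nat_lit 343) (nat_lit 330)))))) (XT.nd (nat_lit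 468) (nat_lit 2432) (nat_lit 0) (XT.nd (nat_lit 234) (nat_lit 684) (nat_lit 0) (XT.nd (nat_lit 78) (nat_lit 0) (nat_lit 76) (XT.lf (nat_lit 1368) (nat_lit 3224369137) (nat_lit 76) (nat_lit 203538406) (nat_lit 0) (nat_lit 203538406) (nat_lit 381) (nat_lit 1) (nat_lit 364) (nat_lit 1) (nat_lit 363) (nat_lit 1) (nat_lit 348) (nat_lit 343) (nat_lit 329)) (XT.nd (nat_lit 78) (nat_lit 0) (nat_lit 0) (XT.lf (nat_lit 1368) (nat_lit 1461634819) (nat_lit 0) (nat_lit 658398964) (nat_lit 1292) (nat_lit 1461634819) (nat_lit 382) (nat_lit 1) (nat_lit 364) (nat_lit 1) (nat_lit 381) (nat_lit 1) (nat_lit 349) (nat_lit 343) (nat_lit 328)) (XT.lf (nat_lit 1368) (nat_lit 2624485135) (nat_lit 76) (nat_lit 454333969) (nat_lit 0) (nat_lit 454333969) (nat_lit 382) (nat_lit 1) (nat_lit 365) (nat_lit 1) (nat_lit 364) (nat_lit 1) (nat_lit 350) (nat_lit 343) (nat_lit 327)))) (XT.nd (nat_lit 78) (nat_lit 836) (nat_lit 0) (XT.lf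 (nat_lit 76) (nat_lit 1154209045) (nat_lit 0) (nat_lit 1176875683) (nat_lit 1292) (nat_lit 1154209045) (nat_lit 366) (nat_lit 1) (nat_lit 365) (nat_lit 1) (nat_lit 382) (nat_lit 1) (nat_lit 351) (nat_lit 343) (nat_lit 326)) (XT.nd (nat_lit 78) (nat_lit 0) (nat_lit 0) (XT.lf (nat_lit 912) (nat_lit 1990018887) (nat_lit 0) (nat_lit 724236744) (nat_lit 836) (nat_lit 724236744) (nat_lit 366) (nat_lit 1) (nat_lit 354) (nat_lit 1) (nat_lit 365) (nat_lit 1) (nat_lit 352) (nat_lit 343) (nat_lit 325)) (XT.lf (nat_lit 76) (nat_lit 830595144) (nat_lit 0) (nat_lit 1731289958) (nat_lit 912) (nat_lit 830595144) (nat_lit 355) (nat_lit 1) (nat_lit 354) (nat_lit 1) (nat_lit 366) (nat_lit 1) (nat_lit 353) (nat_lit 343) (nat_lit 324))))) (XT.nd (nat_lit 234) (nat_lit 1216) (nat_lit 0) (XT.nd (nat_lit 78) (nat_lit 608) (nat_lit 0) (XT.lf (nat_lit 684) (nat_lit 1324965793) (nat_lit 0) (nat_lit 1011174057) (nat_lit 608) (nat_lit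 1011174057) (nat_lit 355) (nat_lit 1) (nat_lit 346) (nat_lit 1) (nat_lit 354) (nat_lit 1) (nat_lit 354) (nat_lit 343) (nat_lit 323)) (XT.nd (nat_lit 78) (nat_lit 608) (nat_lit 0) (XT.lf (nat_lit 76) (nat_lit 492707884) (nat_lit 0) (nat_lit 2317665230) (nat_lit 684) (nat_lit 492707884) (nat_lit 347) (nat_lit 1) (nat_lit 346) (nat_lit 1) (nat_lit 355) (nat_lit 1) (nat_lit 355) (nat_lit 343) (nat_lit 322)) (XT.lf (nat_lit 684) (nat_lit 633033344) (nat_lit 0) (nat_lit 1313220636) (nat_lit 608) (nat_lit 1313220636) (nat_lit 347) (nat_lit 1) (nat_lit 338) (nat_lit 1) (nat_lit 346) (nat_lit 1) (nat_lit 356) (nat_lit 343) (nat_lit 321)))) (XT.nd (nat_lit 78) (nat_lit 1216) (nat_lit 0) (XT.lf (nat_lit 76) (nat_lit 142323413) (nat_lit 0) (nat_lit 2932308941) (nat_lit 684) (nat_lit 142323413) (nat_lit 339) (nat_lit 1) (nat_lit 338) (nat_lit 1) (nat_lit 347) (nat_lit 1) (nat_lit 357) (nat_lit 343) (nat_lit 320))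 (XT.nd (nat_lit 78) (nat_lit 608) (nat_lit 0) (XT.lf (nat_lit 76) (nat_lit 1547040196) (nat_lit 0) (nat_lit 80733872) (nat_lit 608) (nat_lit 1547040196) (nat_lit 331) (nat_lit 1) (nat_lit 330) (nat_lit 1) (nat_lit 338) (nat_lit 1) (nat_lit 358) (nat_lit 343) (nat_lit 319)) (XT.lf (nat_lit 684) (nat_lit 2700185437) (nat_lit 0) (nat_lit 216765749) (nat_lit 608) (nat_lit 216765749) (nat_lit 331) (nat_lit 1) (nat_lit 322) (nat_lit 1) (nat_lit 330) (nat_lit 1) (nat_lit 359) (nat_lit 343) (nat_lit 318))))))))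
noncomputable def ec20 : XT := (XT.nd (nat_lit 1716) (nat_lit 2052) (nat_lit 0) (XT.nd (nat_lit 858) (nat_lit 2508) (nat_lit 0) (XT.nd (nat_lit 390) (nat_lit 1976) (nat_lit 0) (XT.nd (nat_lit 156) (nat_lit 532) (nat_lit 0) (XT.nd (nat_lit 78) (nat_lit 532) (nat_lit 0) (XT.lf (nat_lit 76) (nat_lit 1145514321) (nat_lit 0) (nat_lit 802009299) (nat_lit 684) (nat_lit 1145514321) (nat_lit 323) (nat_lit 1) (nat_lit 322) (nat_lit 1) (nat_lit 331) (nat_lit 1) (nat_lit 360) (nat_lit 343) (nat_lit 317)) (XT.lf (nat_lit 608) (nat_lit 1885926198) (nat_lit 0) (nat_lit 583694279) (nat_lit 532) (nat_lit 583694279) (nat_lit 323) (nat_lit 1) (nat_lit 315) (nat_lit 1) (nat_lit 322) (nat_lit 1) (nat_lit 361) (nat_lit 343) (nat_lit 316))) (XT.nd (nat_lit 78) (nat_lit 532) (nat_lit 0) (XT.lf (nat_lit 76) (nat_lit 736975159) (nat_lit 0) (nat_lit 1540254379) (nat_lit 608) (nat_lit 736975159) (nat_lit 316) (nat_lit 1) (nat_lit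 315) (nat_lit 1) (nat_lit 323) (nat_lit 1) (nat_lit 362) (nat_lit 343) (nat_lit 315)) (XT.nd (nat_lit 78) (nat_lit 0) (nat_lit 0) (XT.lf (nat_lit 608) (nat_lit 1058873202) (nat_lit 0) (nat_lit 958460371) (nat_lit 532) (nat_lit 958460371) (nat_lit 316) (nat_lit 1) (nat_lit 308) (nat_lit 1) (nat_lit 315) (nat_lit 1) (nat_lit 363) (nat_lit 343) (nat_lit 314)) (XT.lf (nat_lit 76) (nat_lit 322700909) (nat_lit 0) (nat_lit 2292794778) (nat_lit 608) (nat_lit 322700909) (nat_lit 309) (nat_lit 1) (nat_lit 308) (nat_lit 1) (nat_lit 316) (nat_lit 1) (nat_lit 364) (nat_lit 343) (nat_lit 313))))) (XT.nd (nat_lit 234) (nat_lit 912) (nat_lit 0) (XT.nd (nat_lit 78) (nat_lit 608) (nat_lit 0) (XT.lf (nat_lit 532) (nat_lit 221494909) (nat_lit 0) (nat_lit 1339772348) (nat_lit 456) (nat_lit 1339772348) (nat_lit 309) (nat_lit 1) (nat_lit 302) (nat_lit 1) (nat_lit 308) (nat_lit 1) (nat_lit 365) (nat_lit 343) (nat_lit 312))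 (XT.nd (nat_lit 78) (nat_lit 0) (nat_lit 0) (XT.lf (nat_lit 608) (nat_lit 2674416207) (nat_lit 0) (nat_lit 95186665) (nat_lit 532) (nat_lit 95186665) (nat_lit 302) (nat_lit 1) (nat_lit 294) (nat_lit 1) (nat_lit 301) (nat_lit 1) (nat_lit 366) (nat_lit 343) (nat_lit 311)) (XT.lf (nat_lit 76) (nat_lit 1108502390) (nat_lit 0) (nat_lit 611757256) (nat_lit 608) (nat_lit 1108502390) (nat_lit 295) (nat_lit 1) (nat_lit 294) (nat_lit 1) (nat_lit 302) (nat_lit 1) (nat_lit 367) (nat_lit 343) (nat_lit 310)))) (XT.nd (nat_lit 78) (nat_lit 456) (nat_lit 0) (XT.lf (nat_lit 532) (nat_lit 1766918398) (nat_lit 0) (nat_lit 513345398) (nat_lit 456) (nat_lit 513345398) (nat_lit 295) (nat_lit 1) (nat_lit 288) (nat_lit 1) (nat_lit 294) (nat_lit 1) (nat_lit 368) (nat_lit 343) (nat_lit 309)) (XT.nd (nat_lit 78) (nat_lit 456) (nat_lit 0) (XT.lf (nat_lit 76) (nat_lit 656223543) (nat_lit 0) (nat_lit 1446523596) (nat_lit 532) (nat_lit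 656223543) (nat_lit 289) (nat_lit 1) (nat_lit 288) (nat_lit 1) (nat_lit 295) (nat_lit 1) (nat_lit 369) (nat_lit 343) (nat_lit 308)) (XT.lf (nat_lit 532) (nat_lit 857031198) (nat_lit 0) (nat_lit 933948401) (nat_lit 456) (nat_lit 933948401) (nat_lit 289) (nat_lit 1) (nat_lit 282) (nat_lit 1) (nat_lit 288) (nat_lit 1) (nat_lit 370) (nat_lit 343) (nat_lit 307)))))) (XT.nd (nat_lit 390) (nat_lit 1216) (nat_lit 0) (XT.nd (nat_lit 156) (nat_lit 836) (nat_lit 0) (XT.nd (nat_lit 78) (nat_lit 456) (nat_lit 0) (XT.lf (nat_lit 76) (nat_lit 203197196) (nat_lit 0) (nat_lit 2285235310) (nat_lit 532) (nat_lit 203197196) (nat_lit 283) (nat_lit 1) (nat_lit 282) (nat_lit 1) (nat_lit 289) (nat_lit 1) (nat_lit 371) (nat_lit 343) (nat_lit 306)) (XT.lf (nat_lit 76) (nat_lit 1303078166) (nat_lit 0) (nat_lit 52476941) (nat_lit 456) (nat_lit 1303078166) (nat_lit 277) (nat_lit 1) (nat_lit 276) (nat_lit 1) (nat_lit 282) (nat_lit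 1) (nat_lit 372) (nat_lit 343) (nat_lit 305))) (XT.nd (nat_lit 78) (nat_lit 380) (nat_lit 0) (XT.lf (nat_lit 532) (nat_lit 2131739835) (nat_lit 0) (nat_lit 247307187) (nat_lit 456) (nat_lit 247307187) (nat_lit 277) (nat_lit 1) (nat_lit 270) (nat_lit 1) (nat_lit 276) (nat_lit 1) (nat_lit 373) (nat_lit 343) (nat_lit 304)) (XT.nd (nat_lit 78) (nat_lit 380) (nat_lit 0) (XT.lf (nat_lit 76) (nat_lit 825017479) (nat_lit 0) (nat_lit 944365604) (nat_lit 532) (nat_lit 825017479) (nat_lit 271) (nat_lit 1) (nat_lit 270) (nat_lit 1) (nat_lit 277) (nat_lit 1) (nat_lit 374) (nat_lit 343) (nat_lit 303)) (XT.lf (nat_lit 456) (nat_lit 1173101833) (nat_lit 0) (nat_lit 695003053) (nat_lit 380) (nat_lit 695003053) (nat_lit 271) (nat_lit 1) (nat_lit 265) (nat_lit 1) (nat_lit 270) (nat_lit 1) (nat_lit 375) (nat_lit 343) (nat_lit 302))))) (XT.nd (nat_lit 234) (nat_lit 380) (nat_lit 0) (XT.nd (nat_lit 78) (nat_lit 836) (nat_lit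 0) (XT.lf (nat_lit 76) (nat_lit 349222547) (nat_lit 0) (nat_lit 1833943361) (nat_lit 456) (nat_lit 349222547) (nat_lit 266) (nat_lit 1) (nat_lit 265) (nat_lit 1) (nat_lit 271) (nat_lit 1) (nat_lit 376) (nat_lit 343) (nat_lit 301)) (XT.nd (nat_lit 78) (nat_lit 456) (nat_lit 0) (XT.lf (nat_lit 456) (nat_lit 219633474) (nat_lit 0) (nat_lit 1141203278) (nat_lit 380) (nat_lit 1141203278) (nat_lit 266) (nat_lit 1) (nat_lit 260) (nat_lit 1) (nat_lit 265) (nat_lit 1) (nat_lit 377) (nat_lit 343) (nat_lit 300)) (XT.lf (nat_lit 456) (nat_lit 2227387578) (nat_lit 0) (nat_lit 122490604) (nat_lit 380) (nat_lit 122490604) (nat_lit 260) (nat_lit 1) (nat_lit 254) (nat_lit 1) (nat_lit 259) (nat_lit 1) (nat_lit 378) (nat_lit 343) (nat_lit 299)))) (XT.nd (nat_lit 78) (nat_lit 380) (nat_lit 0) (XT.lf (nat_lit 76) (nat_lit 864772251) (nat_lit 0) (nat_lit 713313429) (nat_lit 456) (nat_lit 864772251) (nat_lit 255) (nat_lit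 1) (nat_lit 254) (nat_lit 1) (nat_lit 260) (nat_lit 1) (nat_lit 379) (nat_lit 343) (nat_lit 298)) (XT.nd (nat_lit 78) (nat_lit 0) (nat_lit 0) (XT.lf (nat_lit 456) (nat_lit 1239208443) (nat_lit 0) (nat_lit 587397243) (nat_lit 380) (nat_lit 587397243) (nat_lit 255) (nat_lit 1) (nat_lit 249) (nat_lit 1) (nat_lit 254) (nat_lit 1) (nat_lit 380) (nat_lit 343) (nat_lit 297)) (XT.lf (nat_lit 76) (nat_lit 375442312) (nat_lit 0) (nat_lit 1634746376) (nat_lit 456) (nat_lit 375442312) (nat_lit 250) (nat_lit 1) (nat_lit 249) (nat_lit 1) (nat_lit 255) (nat_lit 1) (nat_lit 381) (nat_lit 343) (nat_lit 296))))))) (XT.nd (nat_lit 49296) (nat_lit 0) (nat_lit 11552) (XT.nd (nat_lit 390) (nat_lit 988) (nat_lit 0) (XT.nd (nat_lit 156) (nat_lit 304) (nat_lit 0) (XT.nd (nat_lit 78) (nat_lit 456) (nat_lit 0) (XT.lf (nat_lit 380) (nat_lit 260756906) (nat_lit 0) (nat_lit 1048430866) (nat_lit 304) (nat_lit 1048430866) (nat_lit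 250) (nat_lit 1) (nat_lit 245) (nat_lit 1) (nat_lit 249) (nat_lit 1) (nat_lit 382) (nat_lit 343) (nat_lit 295)) (XT.lf (nat_lit 456) (nat_lit 2114677881) (nat_lit 0) (nat_lit 107771455) (nat_lit 380) (nat_lit 107771455) (nat_lit 245) (nat_lit 1) (nat_lit 239) (nat_lit 1) (nat_lit 244) (nat_lit 1) (nat_lit 383) (nat_lit 343) (nat_lit 294))) (XT.nd (nat_lit 78) (nat_lit 304) (nat_lit 0) (XT.lf (nat_lit 76) (nat_lit 804790357) (nat_lit 0) (nat_lit 693357392) (nat_lit 456) (nat_lit 804790357) (nat_lit 240) (nat_lit 1) (nat_lit 239) (nat_lit 1) (nat_lit 245) (nat_lit 1) (nat_lit 384) (nat_lit 343) (nat_lit 293)) (XT.nd (nat_lit 78) (nat_lit 0) (nat_lit 0) (XT.lf (nat_lit 380) (nat_lit 1112397494) (nat_lit 0) (nat_lit 581927290) (nat_lit 304) (nat_lit 581927290) (nat_lit 240) (nat_lit 1) (nat_lit 235) (nat_lit 1) (nat_lit 239) (nat_lit 1) (nat_lit 385) (nat_lit 343) (nat_lit 292)) (XT.lf (nat_lit 76) (nat_lit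 309340750) (nat_lit 0) (nat_lit 1631341011) (nat_lit 380) (nat_lit 309340750) (nat_lit 236) (nat_lit 1) (nat_lit 235) (nat_lit 1) (nat_lit 240) (nat_lit 1) (nat_lit 386) (nat_lit 343) (nat_lit 291))))) (XT.nd (nat_lit 234) (nat_lit 304) (nat_lit 0) (XT.nd (nat_lit 78) (nat_lit 380) (nat_lit 0) (XT.lf (nat_lit 380) (nat_lit 123352047) (nat_lit 0) (nat_lit 1050369520) (nat_lit 304) (nat_lit 1050369520) (nat_lit 236) (nat_lit 1) (nat_lit 231) (nat_lit 1) (nat_lit 235) (nat_lit 1) (nat_lit 387) (nat_lit 343) (nat_lit 290)) (XT.nd (nat_lit 78) (nat_lit 0) (nat_lit 0) (XT.lf (nat_lit 380) (nat_lit 1843417134) (nat_lit 0) (nat_lit 177627136) (nat_lit 304) (nat_lit 177627136) (nat_lit 231) (nat_lit 1) (nat_lit 226) (nat_lit 1) (nat_lit 230) (nat_lit 1) (nat_lit 388) (nat_lit 343) (nat_lit 289)) (XT.lf (nat_lit 76) (nat_lit 669061122) (nat_lit 0) (nat_lit 835303722) (nat_lit 380) (nat_lit 669061122) (nat_lit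 227) (nat_lit 1) (nat_lit 226) (nat_lit 1) (nat_lit 231) (nat_lit 1) (nat_lit 389) (nat_lit 343) (nat_lit 288)))) (XT.nd (nat_lit 78) (nat_lit 0) (nat_lit 0) (XT.lf (nat_lit 380) (nat_lit 839355430) (nat_lit 0) (nat_lit 654660939) (nat_lit 304) (nat_lit 654660939) (nat_lit 227) (nat_lit 1) (nat_lit 222) (nat_lit 1) (nat_lit 226) (nat_lit 1) (nat_lit 390) (nat_lit 343) (nat_lit 287)) (XT.nd (nat_lit 48516) (nat_lit 0) (nat_lit 11552) (XT.lf (nat_lit 76) (nat_lit 173402677) (nat_lit 0) (nat_lit 1777602080) (nat_lit 380) (nat_lit 173402677) (nat_lit 223) (nat_lit 1) (nat_lit 222) (nat_lit 1) (nat_lit 227) (nat_lit 1) (nat_lit 391) (nat_lit 343) (nat_lit 286)) (XT.lf (nat_lit 1292) (nat_lit 419772105) (nat_lit 0) (nat_lit 1444211267) (nat_lit 1292) (nat_lit 419772105) (nat_lit 391) (nat_lit 1) (nat_lit 374) (nat_lit 0) (nat_lit 391) (nat_lit 0) (nat_lit 332) (nat_lit 344) (nat_lit 344)))))) (XT.nd (nat_lit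 390) (nat_lit 0) (nat_lit 228) (XT.nd (nat_lit 156) (nat_lit 0) (nat_lit 76) (XT.nd (nat_lit 78) (nat_lit 0) (nat_lit 76) (XT.lf (nat_lit 1292) (nat_lit 1640476745) (nat_lit 76) (nat_lit 1430052333) (nat_lit 0) (nat_lit 1430052333) (nat_lit 391) (nat_lit 1) (nat_lit 375) (nat_lit 1) (nat_lit 374) (nat_lit 0) (nat_lit 333) (nat_lit 344) (nat_lit 343)) (XT.lf (nat_lit 1292) (nat_lit 793373667) (nat_lit 0) (nat_lit 2848380857) (nat_lit 1216) (nat_lit 793373667) (nat_lit 392) (nat_lit 1) (nat_lit 375) (nat_lit 1) (nat_lit 391) (nat_lit 1) (nat_lit 334) (nat_lit 344) (nat_lit 342))) (XT.nd (nat_lit 78) (nat_lit 0) (nat_lit 76) (XT.lf (nat_lit 1292) (nat_lit 1506657557) (nat_lit 76) (nat_lit 1432055231) (nat_lit 0) (nat_lit 1432055231) (nat_lit 392) (nat_lit 1) (nat_lit 376) (nat_lit 1) (nat_lit 375) (nat_lit 1) (nat_lit 335) (nat_lit 344) (nat_lit 341)) (XT.nd (nat_lit 78) (nat_lit 0) (nat_lit 0) (XT.lf (nat_lit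 1292) (nat_lit 706991544) (nat_lit 0) (nat_lit 2893864837) (nat_lit 1216) (nat_lit 706991544) (nat_lit 393) (nat_lit 1) (nat_lit 376) (nat_lit 1) (nat_lit 392) (nat_lit 1) (nat_lit 336) (nat_lit 344) (nat_lit 340)) (XT.lf (nat_lit 1292) (nat_lit 1295636654) (nat_lit 76) (nat_lit 1475148728) (nat_lit 0) (nat_lit 1475148728) (nat_lit 393) (nat_lit 1) (nat_lit 377) (nat_lit 1) (nat_lit 376) (nat_lit 1) (nat_lit 337) (nat_lit 344) (nat_lit 339))))) (XT.nd (nat_lit 234) (nat_lit 0) (nat_lit 76) (XT.nd (nat_lit 78) (nat_lit 0) (nat_lit 0) (XT.lf (nat_lit 1292) (nat_lit 583954558) (nat_lit 0) (nat_lit 3017540861) (nat_lit 1216) (nat_lit 583954558) (nat_lit 394) (nat_lit 1) (nat_lit 377) (nat_lit 1) (nat_lit 393) (nat_lit 1) (nat_lit 338) (nat_lit 344) (nat_lit 338)) (XT.nd (nat_lit 78) (nat_lit 0) (nat_lit 76) (XT.lf (nat_lit 1292) (nat_lit 1014318064) (nat_lit 76) (nat_lit 1555773895) (nat_lit 0) (nat_lit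 1555773895) (nat_lit 394) (nat_lit 1) (nat_lit 378) (nat_lit 1) (nat_lit 377) (nat_lit 1) (nat_lit 339) (nat_lit 344) (nat_lit 337)) (XT.lf (nat_lit 1292) (nat_lit 427578892) (nat_lit 0) (nat_lit 3212566901) (nat_lit 1216) (nat_lit 427578892) (nat_lit 395) (nat_lit 1) (nat_lit 378) (nat_lit 1) (nat_lit 394) (nat_lit 1) (nat_lit 340) (nat_lit 344) (nat_lit 336)))) (XT.nd (nat_lit 78) (nat_lit 0) (nat_lit 76) (XT.lf (nat_lit 1292) (nat_lit 669137488) (nat_lit 76) (nat_lit 1670611054) (nat_lit 0) (nat_lit 1670611054) (nat_lit 395) (nat_lit 1) (nat_lit 379) (nat_lit 1) (nat_lit 378) (nat_lit 1) (nat_lit 341) (nat_lit 344) (nat_lit 335)) (XT.nd (nat_lit 78) (nat_lit 0) (nat_lit 0) (XT.lf (nat_lit 1292) (nat_lit 240955067) (nat_lit 0) (nat_lit 3472562235) (nat_lit 1216) (nat_lit 240955067) (nat_lit 396) (nat_lit 1) (nat_lit 379) (nat_lit 1) (nat_lit 395) (nat_lit 1) (nat_lit 342) (nat_lit 344) (nat_lit 334))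 (XT.lf (nat_lit 1292) (nat_lit 266091277) (nat_lit 76) (nat_lit 1816565028) (nat_lit 0) (nat_lit 1816565028) (nat_lit 396) (nat_lit 1) (nat_lit 380) (nat_lit 1) (nat_lit 379) (nat_lit 1) (nat_lit 343) (nat_lit 344) (nat_lit 333))))))))
noncomputable def ec21 : XT := (XT.nd (nat_lit 1716) (nat_lit 5472) (nat_lit 0) (XT.nd (nat_lit 858) (nat_lit 3344) (nat_lit 0) (XT.nd (nat_lit 390) (nat_lit 1900) (nat_lit 0) (XT.nd (nat_lit 156) (nat_lit 0) (nat_lit 0) (XT.nd (nat_lit 78) (nat_lit 1292) (nat_lit 0) (XT.lf (nat_lit 1292) (nat_lit 26961919) (nat_lit 0) (nat_lit 3791578976) (nat_lit 1216) (nat_lit 26961919) (nat_lit 397) (nat_lit 1) (nat_lit 380) (nat_lit 1) (nat_lit 396) (nat_lit 1) (nat_lit 344) (nat_lit 344) (nat_lit 332)) (XT.lf (nat_lit 1368) (nat_lit 1803334012) (nat_lit 0) (nat_lit 185543626) (nat_lit 1292) (nat_lit 1803334012) (nat_lit 381) (nat_lit 1) (nat_lit 363) (nat_lit 1) (nat_lit 380) (nat_lit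 1) (nat_lit 345) (nat_lit 344) (nat_lit 331))) (XT.nd (nat_lit 78) (nat_lit 0) (nat_lit 76) (XT.lf (nat_lit 1368) (nat_lit 3321100211) (nat_lit 76) (nat_lit 209644558) (nat_lit 0) (nat_lit 209644558) (nat_lit 381) (nat_lit 1) (nat_lit 364) (nat_lit 1) (nat_lit 363) (nat_lit 1) (nat_lit 346) (nat_lit 344) (nat_lit 330)) (XT.nd (nat_lit 78) (nat_lit 0) (nat_lit 0) (XT.lf (nat_lit 1368) (nat_lit 1505483863) (nat_lit 0) (nat_lit 678150933) (nat_lit 1292) (nat_lit 1505483863) (nat_lit 382) (nat_lit 1) (nat_lit 364) (nat_lit 1) (nat_lit 381) (nat_lit 1) (nat_lit 347) (nat_lit 344) (nat_lit 329)) (XT.lf (nat_lit 1368) (nat_lit 2703219689) (nat_lit 76) (nat_lit 467963988) (nat_lit 0) (nat_lit 467963988) (nat_lit 382) (nat_lit 1) (nat_lit 365) (nat_lit 1) (nat_lit 364) (nat_lit 1) (nat_lit 348) (nat_lit 344) (nat_lit 328))))) (XT.nd (nat_lit 234) (nat_lit 1216) (nat_lit 0) (XT.nd (nat_lit 78) (nat_lit 836) (nat_lit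 0) (XT.lf (nat_lit 76) (nat_lit 1188835317) (nat_lit 0) (nat_lit 1212181953) (nat_lit 1292) (nat_lit 1188835317) (nat_lit 366) (nat_lit 1) (nat_lit 365) (nat_lit 1) (nat_lit 382) (nat_lit 1) (nat_lit 349) (nat_lit 344) (nat_lit 327)) (XT.nd (nat_lit 78) (nat_lit 0) (nat_lit 0) (XT.lf (nat_lit 912) (nat_lit 2049719454) (nat_lit 0) (nat_lit 745963847) (nat_lit 836) (nat_lit 745963847) (nat_lit 366) (nat_lit 1) (nat_lit 354) (nat_lit 1) (nat_lit 365) (nat_lit 1) (nat_lit 350) (nat_lit 344) (nat_lit 326)) (XT.lf (nat_lit 76) (nat_lit 855512999) (nat_lit 0) (nat_lit 1783228657) (nat_lit 912) (nat_lit 855512999) (nat_lit 355) (nat_lit 1) (nat_lit 354) (nat_lit 1) (nat_lit 366) (nat_lit 1) (nat_lit 351) (nat_lit 344) (nat_lit 325)))) (XT.nd (nat_lit 78) (nat_lit 608) (nat_lit 0) (XT.lf (nat_lit 684) (nat_lit 1364714766) (nat_lit 0) (nat_lit 1041509279) (nat_lit 608) (nat_lit 1041509279) (nat_lit 355) (nat_lit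 1) (nat_lit 346) (nat_lit 1) (nat_lit 354) (nat_lit 1) (nat_lit 352) (nat_lit 344) (nat_lit 324)) (XT.nd (nat_lit 78) (nat_lit 608) (nat_lit 0) (XT.lf (nat_lit 76) (nat_lit 507489121) (nat_lit 0) (nat_lit 2387195187) (nat_lit 684) (nat_lit 507489121) (nat_lit 347) (nat_lit 1) (nat_lit 346) (nat_lit 1) (nat_lit 355) (nat_lit 1) (nat_lit 353) (nat_lit 344) (nat_lit 323)) (XT.lf (nat_lit 684) (nat_lit 652024344) (nat_lit 0) (nat_lit 1352617255) (nat_lit 608) (nat_lit 1352617255) (nat_lit 347) (nat_lit 1) (nat_lit 338) (nat_lit 1) (nat_lit 346) (nat_lit 1) (nat_lit 354) (nat_lit 344) (nat_lit 322)))))) (XT.nd (nat_lit 390) (nat_lit 1596) (nat_lit 0) (XT.nd (nat_lit 156) (nat_lit 1140) (nat_lit 0) (XT.nd (nat_lit 78) (nat_lit 608) (nat_lit 0) (XT.lf (nat_lit 76) (nat_lit 146593116) (nat_lit 0) (nat_lit 3020278210) (nat_lit 684) (nat_lit 146593116) (nat_lit 339) (nat_lit 1) (nat_lit 338) (nat_lit 1) (nat_lit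 347) (nat_lit 1) (nat_lit 355) (nat_lit 344) (nat_lit 321)) (XT.lf (nat_lit 76) (nat_lit 1593451402) (nat_lit 0) (nat_lit 83155889) (nat_lit 608) (nat_lit 1593451402) (nat_lit 331) (nat_lit 1) (nat_lit 330) (nat_lit 1) (nat_lit 338) (nat_lit 1) (nat_lit 356) (nat_lit 344) (nat_lit 320))) (XT.nd (nat_lit 78) (nat_lit 532) (nat_lit 0) (XT.lf (nat_lit 684) (nat_lit 2781191001) (nat_lit 0) (nat_lit 223268721) (nat_lit 608) (nat_lit 223268721) (nat_lit 331) (nat_lit 1) (nat_lit 322) (nat_lit 1) (nat_lit 330) (nat_lit 1) (nat_lit 357) (nat_lit 344) (nat_lit 319)) (XT.nd (nat_lit 78) (nat_lit 532) (nat_lit 0) (XT.lf (nat_lit 76) (nat_lit 1179879750) (nat_lit 0) (nat_lit 826069578) (nat_lit 684) (nat_lit 1179879750) (nat_lit 323) (nat_lit 1) (nat_lit 322) (nat_lit 1) (nat_lit 331) (nat_lit 1) (nat_lit 358) (nat_lit 344) (nat_lit 318)) (XT.lf (nat_lit 608) (nat_lit 1942503984) (nat_lit 0) (nat_lit 601205107)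 (nat_lit 532) (nat_lit 601205107) (nat_lit 323) (nat_lit 1) (nat_lit 315) (nat_lit 1) (nat_lit 322) (nat_lit 1) (nat_lit 359) (nat_lit 344) (nat_lit 317))))) (XT.nd (nat_lit 234) (nat_lit 1064) (nat_lit 0) (XT.nd (nat_lit 78) (nat_lit 532) (nat_lit 0) (XT.lf (nat_lit 76) (nat_lit 759084413) (nat_lit 0) (nat_lit 1586462010) (nat_lit 608) (nat_lit 759084413) (nat_lit 316) (nat_lit 1) (nat_lit 315) (nat_lit 1) (nat_lit 323) (nat_lit 1) (nat_lit 360) (nat_lit 344) (nat_lit 316)) (XT.nd (nat_lit 78) (nat_lit 0) (nat_lit 0) (XT.lf (nat_lit 608) (nat_lit 1090639398) (nat_lit 0) (nat_lit 987214182) (nat_lit 532) (nat_lit 987214182) (nat_lit 316) (nat_lit 1) (nat_lit 308) (nat_lit 1) (nat_lit 315) (nat_lit 1) (nat_lit 361) (nat_lit 344) (nat_lit 315)) (XT.lf (nat_lit 76) (nat_lit 332381936) (nat_lit 0) (nat_lit 2361578621) (nat_lit 608) (nat_lit 332381936) (nat_lit 309) (nat_lit 1) (nat_lit 308) (nat_lit 1) (nat_lit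 316) (nat_lit 1) (nat_lit 362) (nat_lit 344) (nat_lit 314)))) (XT.nd (nat_lit 78) (nat_lit 608) (nat_lit 0) (XT.lf (nat_lit 532) (nat_lit 228139757) (nat_lit 0) (nat_lit 1379965518) (nat_lit 456) (nat_lit 1379965518) (nat_lit 309) (nat_lit 1) (nat_lit 302) (nat_lit 1) (nat_lit 308) (nat_lit 1) (nat_lit 363) (nat_lit 344) (nat_lit 313)) (XT.nd (nat_lit 78) (nat_lit 0) (nat_lit 0) (XT.lf (nat_lit 608) (nat_lit 2754648693) (nat_lit 0) (nat_lit 98042264) (nat_lit 532) (nat_lit 98042264) (nat_lit 302) (nat_lit 1) (nat_lit 294) (nat_lit 1) (nat_lit 301) (nat_lit 1) (nat_lit 364) (nat_lit 344) (nat_lit 312)) (XT.lf (nat_lit 76) (nat_lit 1141757462) (nat_lit 0) (nat_lit 630109974) (nat_lit 608) (nat_lit 1141757462) (nat_lit 295) (nat_lit 1) (nat_lit 294) (nat_lit 1) (nat_lit 302) (nat_lit 1) (nat_lit 365) (nat_lit 344) (nat_lit 311))))))) (XT.nd (nat_lit 858) (nat_lit 2432) (nat_lit 0) (XT.nd (nat_lit 390) (nat_lit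 1672) (nat_lit 0) (XT.nd (nat_lit 156) (nat_lit 912) (nat_lit 0) (XT.nd (nat_lit 78) (nat_lit 0) (nat_lit 0) (XT.lf (nat_lit 532) (nat_lit 1819925950) (nat_lit 0) (nat_lit 528745760) (nat_lit 456) (nat_lit 528745760) (nat_lit 295) (nat_lit 1) (nat_lit 288) (nat_lit 1) (nat_lit 294) (nat_lit 1) (nat_lit 366) (nat_lit 344) (nat_lit 310)) (XT.lf (nat_lit 76) (nat_lit 675910249) (nat_lit 0) (nat_lit 1489919304) (nat_lit 532) (nat_lit 675910249) (nat_lit 289) (nat_lit 1) (nat_lit 288) (nat_lit 1) (nat_lit 295) (nat_lit 1) (nat_lit 367) (nat_lit 344) (nat_lit 309))) (XT.nd (nat_lit 78) (nat_lit 456) (nat_lit 0) (XT.lf (nat_lit 532) (nat_lit 882742134) (nat_lit 0) (nat_lit 961966853) (nat_lit 456) (nat_lit 961966853) (nat_lit 289) (nat_lit 1) (nat_lit 282) (nat_lit 1) (nat_lit 288) (nat_lit 1) (nat_lit 368) (nat_lit 344) (nat_lit 308)) (XT.nd (nat_lit 78) (nat_lit 456) (nat_lit 0) (XT.lf (nat_lit 76) (nat_lit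 209293112) (nat_lit 0) (nat_lit 2353792369) (nat_lit 532) (nat_lit 209293112) (nat_lit 283) (nat_lit 1) (nat_lit 282) (nat_lit 1) (nat_lit 289) (nat_lit 1) (nat_lit 369) (nat_lit 344) (nat_lit 307)) (XT.lf (nat_lit 76) (nat_lit 1342170511) (nat_lit 0) (nat_lit 54051249) (nat_lit 456) (nat_lit 1342170511) (nat_lit 277) (nat_lit 1) (nat_lit 276) (nat_lit 1) (nat_lit 282) (nat_lit 1) (nat_lit 370) (nat_lit 344) (nat_lit 306))))) (XT.nd (nat_lit 234) (nat_lit 836) (nat_lit 0) (XT.nd (nat_lit 78) (nat_lit 380) (nat_lit 0) (XT.lf (nat_lit 532) (nat_lit 2195692030) (nat_lit 0) (nat_lit 254726402) (nat_lit 456) (nat_lit 254726402) (nat_lit 277) (nat_lit 1) (nat_lit 270) (nat_lit 1) (nat_lit 276) (nat_lit 1) (nat_lit 371) (nat_lit 344) (nat_lit 305)) (XT.nd (nat_lit 78) (nat_lit 380) (nat_lit 0) (XT.lf (nat_lit 76) (nat_lit 849768003) (nat_lit 0) (nat_lit 972696573) (nat_lit 532) (nat_lit 849768003) (nat_lit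 271) (nat_lit 1) (nat_lit 270) (nat_lit 1) (nat_lit 277) (nat_lit 1) (nat_lit 372) (nat_lit 344) (nat_lit 304)) (XT.lf (nat_lit 456) (nat_lit 1208294888) (nat_lit 0) (nat_lit 715853145) (nat_lit 380) (nat_lit 715853145) (nat_lit 271) (nat_lit 1) (nat_lit 265) (nat_lit 1) (nat_lit 270) (nat_lit 1) (nat_lit 373) (nat_lit 344) (nat_lit 303)))) (XT.nd (nat_lit 78) (nat_lit 836) (nat_lit 0) (XT.lf (nat_lit 76) (nat_lit 359699224) (nat_lit 0) (nat_lit 1888961662) (nat_lit 456) (nat_lit 359699224) (nat_lit 266) (nat_lit 1) (nat_lit 265) (nat_lit 1) (nat_lit 271) (nat_lit 1) (nat_lit 374) (nat_lit 344) (nat_lit 302)) (XT.nd (nat_lit 78) (nat_lit 456) (nat_lit 0) (XT.lf (nat_lit 456) (nat_lit 226222478) (nat_lit 0) (nat_lit 1175439376) (nat_lit 380) (nat_lit 1175439376) (nat_lit 266) (nat_lit 1) (nat_lit 260) (nat_lit 1) (nat_lit 265) (nat_lit 1) (nat_lit 375) (nat_lit 344) (nat_lit 301)) (XT.lf (nat_lit 456)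 (nat_lit 2294209205) (nat_lit 0) (nat_lit 126165322) (nat_lit 380) (nat_lit 126165322) (nat_lit 260) (nat_lit 1) (nat_lit 254) (nat_lit 1) (nat_lit 259) (nat_lit 1) (nat_lit 376) (nat_lit 344) (nat_lit 300)))))) (XT.nd (nat_lit 468) (nat_lit 1292) (nat_lit 0) (XT.nd (nat_lit 234) (nat_lit 760) (nat_lit 0) (XT.nd (nat_lit 78) (nat_lit 380) (nat_lit 0) (XT.lf (nat_lit 76) (nat_lit 890715419) (nat_lit 0) (nat_lit 734712832) (nat_lit 456) (nat_lit 890715419) (nat_lit 255) (nat_lit 1) (nat_lit 254) (nat_lit 1) (nat_lit 260) (nat_lit 1) (nat_lit 377) (nat_lit 344) (nat_lit 299)) (XT.nd (nat_lit 78) (nat_lit 0) (nat_lit 0) (XT.lf (nat_lit 456) (nat_lit 1276384696) (nat_lit 0) (nat_lit 605019160) (nat_lit 380) (nat_lit 605019160) (nat_lit 255) (nat_lit 1) (nat_lit 249) (nat_lit 1) (nat_lit 254) (nat_lit 1) (nat_lit 378) (nat_lit 344) (nat_lit 298)) (XT.lf (nat_lit 76) (nat_lit 386705582) (nat_lit 0) (nat_lit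 1683788768) (nat_lit 456) (nat_lit 386705582) (nat_lit 250) (nat_lit 1) (nat_lit 249) (nat_lit 1) (nat_lit 255) (nat_lit 1) (nat_lit 379) (nat_lit 344) (nat_lit 297)))) (XT.nd (nat_lit 78) (nat_lit 456) (nat_lit 0) (XT.lf (nat_lit 380) (nat_lit 268579614) (nat_lit 0) (nat_lit 1079883792) (nat_lit 304) (nat_lit 1079883792) (nat_lit 250) (nat_lit 1) (nat_lit 245) (nat_lit 1) (nat_lit 249) (nat_lit 1) (nat_lit 380) (nat_lit 344) (nat_lit 296)) (XT.nd (nat_lit 78) (nat_lit 0) (nat_lit 0) (XT.lf (nat_lit 456) (nat_lit 2178118217) (nat_lit 0) (nat_lit 111004599) (nat_lit 380) (nat_lit 111004599) (nat_lit 245) (nat_lit 1) (nat_lit 239) (nat_lit 1) (nat_lit 244) (nat_lit 1) (nat_lit 381) (nat_lit 344) (nat_lit 295)) (XT.lf (nat_lit 76) (nat_lit 828934067) (nat_lit 0) (nat_lit 714158114) (nat_lit 456) (nat_lit 828934067) (nat_lit 240) (nat_lit 1) (nat_lit 239) (nat_lit 1) (nat_lit 245) (nat_lit 1) (nat_lit 382)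 (nat_lit 344) (nat_lit 294))))) (XT.nd (nat_lit 234) (nat_lit 684) (nat_lit 0) (XT.nd (nat_lit 78) (nat_lit 304) (nat_lit 0) (XT.lf (nat_lit 380) (nat_lit 1145769418) (nat_lit 0) (nat_lit 599385108) (nat_lit 304) (nat_lit 599385108) (nat_lit 240) (nat_lit 1) (nat_lit 235) (nat_lit 1) (nat_lit 239) (nat_lit 1) (nat_lit 383) (nat_lit 344) (nat_lit 293)) (XT.nd (nat_lit 78) (nat_lit 304) (nat_lit 0) (XT.lf (nat_lit 76) (nat_lit 318620973) (nat_lit 0) (nat_lit 1680281241) (nat_lit 380) (nat_lit 318620973) (nat_lit 236) (nat_lit 1) (nat_lit 235) (nat_lit 1) (nat_lit 240) (nat_lit 1) (nat_lit 384) (nat_lit 344) (nat_lit 292)) (XT.lf (nat_lit 380) (nat_lit 127052609) (nat_lit 0) (nat_lit 1081880606) (nat_lit 304) (nat_lit 1081880606) (nat_lit 236) (nat_lit 1) (nat_lit 231) (nat_lit 1) (nat_lit 235) (nat_lit 1) (nat_lit 385) (nat_lit 344) (nat_lit 291)))) (XT.nd (nat_lit 78) (nat_lit 304) (nat_lit 0) (XT.lf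 (nat_lit 380) (nat_lit 1898719648) (nat_lit 0) (nat_lit 182955950) (nat_lit 304) (nat_lit 182955950) (nat_lit 231) (nat_lit 1) (nat_lit 226) (nat_lit 1) (nat_lit 230) (nat_lit 1) (nat_lit 386) (nat_lit 344) (nat_lit 290)) (XT.nd (nat_lit 78) (nat_lit 304) (nat_lit 0) (XT.lf (nat_lit 76) (nat_lit 689132956) (nat_lit 0) (nat_lit 860362834) (nat_lit 380) (nat_lit 689132956) (nat_lit 227) (nat_lit 1) (nat_lit 226) (nat_lit 1) (nat_lit 231) (nat_lit 1) (nat_lit 387) (nat_lit 344) (nat_lit 289)) (XT.lf (nat_lit 380) (nat_lit 864536093) (nat_lit 0) (nat_lit 674300768) (nat_lit 304) (nat_lit 674300768) (nat_lit 227) (nat_lit 1) (nat_lit 222) (nat_lit 1) (nat_lit 226) (nat_lit 1) (nat_lit 388) (nat_lit 344) (nat_lit 288))))))))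
noncomputable def ec22 : XT := (XT.nd (nat_lit 49998) (nat_lit 0) (nat_lit 4256) (XT.nd (nat_lit 49140) (nat_lit 0) (nat_lit 10640) (XT.nd (nat_lit 48672) (nat_lit 0) (nat_lit 12236) (XT.nd (nat_lit 156) (nat_lit 304) (nat_lit 0) (XT.nd (nat_lit 78) (nat_lit 304) (nat_lit 0) (XT.lf (nat_lit 76) (nat_lit 178604757) (nat_lit 0) (nat_lit 1830930143) (nat_lit 380) (nat_lit 178604757) (nat_lit 223) (nat_lit 1) (nat_lit 222) (nat_lit 1) (nat_lit 227) (nat_lit 1) (nat_lit 389) (nat_lit 344) (nat_lit 287)) (XT.lf (nat_lit 76) (nat_lit 1006501577) (nat_lit 0) (nat_lit 150299598) (nat_lit 304) (nat_lit 1006501577) (nat_lit 219) (nat_lit 1) (nat_lit 218) (nat_lit 1) (nat_lit 222) (nat_lit 1) (nat_lit 390) (nat_lit 344) (nat_lit 286))) (XT.nd (nat_lit 48360) (nat_lit 0) (nat_lit 12160) (XT.lf (nat_lit 380) (nat_lit 1497887855) (nat_lit 0) (nat_lit 320528724) (nat_lit 304) (nat_lit 320528724) (nat_lit 219) (nat_lit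 1) (nat_lit 214) (nat_lit 1) (nat_lit 218) (nat_lit 1) (nat_lit 391) (nat_lit 344) (nat_lit 285)) (XT.nd (nat_lit 78) (nat_lit 0) (nat_lit 0) (XT.lf (nat_lit 1292) (nat_lit 432365269) (nat_lit 0) (nat_lit 1487537605) (nat_lit 1292) (nat_lit 432365269) (nat_lit 391) (nat_lit 1) (nat_lit 374) (nat_lit 0) (nat_lit 391) (nat_lit 0) (nat_lit 330) (nat_lit 345) (nat_lit 345)) (XT.lf (nat_lit 1292) (nat_lit 1689691048) (nat_lit 76) (nat_lit 1472953903) (nat_lit 0) (nat_lit 1472953903) (nat_lit 391) (nat_lit 1) (nat_lit 375) (nat_lit 1) (nat_lit 374) (nat_lit 0) (nat_lit 331) (nat_lit 345) (nat_lit 344))))) (XT.nd (nat_lit 234) (nat_lit 0) (nat_lit 76) (XT.nd (nat_lit 78) (nat_lit 0) (nat_lit 0) (XT.lf (nat_lit 1292) (nat_lit 817174877) (nat_lit 0) (nat_lit 2933832283) (nat_lit 1216) (nat_lit 817174877) (nat_lit 392) (nat_lit 1) (nat_lit 375) (nat_lit 1) (nat_lit 391) (nat_lit 1) (nat_lit 332) (nat_lit 345)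 (nat_lit 343)) (XT.nd (nat_lit 78) (nat_lit 0) (nat_lit 76) (XT.lf (nat_lit 1292) (nat_lit 1551857284) (nat_lit 76) (nat_lit 1475016888) (nat_lit 0) (nat_lit 1475016888) (nat_lit 392) (nat_lit 1) (nat_lit 376) (nat_lit 1) (nat_lit 375) (nat_lit 1) (nat_lit 333) (nat_lit 345) (nat_lit 342)) (XT.lf (nat_lit 1292) (nat_lit 728201291) (nat_lit 0) (nat_lit 2980680782) (nat_lit 1216) (nat_lit 728201291) (nat_lit 393) (nat_lit 1) (nat_lit 376) (nat_lit 1) (nat_lit 392) (nat_lit 1) (nat_lit 334) (nat_lit 345) (nat_lit 341)))) (XT.nd (nat_lit 78) (nat_lit 0) (nat_lit 76) (XT.lf (nat_lit 1292) (nat_lit 1334505753) (nat_lit 76) (nat_lit 1519403190) (nat_lit 0) (nat_lit 1519403190) (nat_lit 393) (nat_lit 1) (nat_lit 377) (nat_lit 1) (nat_lit 376) (nat_lit 1) (nat_lit 335) (nat_lit 345) (nat_lit 340)) (XT.nd (nat_lit 78) (nat_lit 0) (nat_lit 0) (XT.lf (nat_lit 1292) (nat_lit 601473195) (nat_lit 0) (nat_lit 3108067087)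 (nat_lit 1216) (nat_lit 601473195) (nat_lit 394) (nat_lit 1) (nat_lit 377) (nat_lit 1) (nat_lit 393) (nat_lit 1) (nat_lit 336) (nat_lit 345) (nat_lit 339)) (XT.lf (nat_lit 1292) (nat_lit 1044747606) (nat_lit 76) (nat_lit 1602447112) (nat_lit 0) (nat_lit 1602447112) (nat_lit 394) (nat_lit 1) (nat_lit 378) (nat_lit 1) (nat_lit 377) (nat_lit 1) (nat_lit 337) (nat_lit 345) (nat_lit 338)))))) (XT.nd (nat_lit 390) (nat_lit 1824) (nat_lit 0) (XT.nd (nat_lit 156) (nat_lit 0) (nat_lit 76) (XT.nd (nat_lit 78) (nat_lit 0) (nat_lit 0) (XT.lf (nat_lit 1292) (nat_lit 440406259) (nat_lit 0) (nat_lit 3308943908) (nat_lit 1216) (nat_lit 440406259) (nat_lit 395) (nat_lit 1) (nat_lit 378) (nat_lit 1) (nat_lit 394) (nat_lit 1) (nat_lit 338) (nat_lit 345) (nat_lit 337)) (XT.lf (nat_lit 1292) (nat_lit 689211613) (nat_lit 76) (nat_lit 1720729385) (nat_lit 0) (nat_lit 1720729385) (nat_lit 395) (nat_lit 1) (nat_lit 379) (nat_lit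 1) (nat_lit 378) (nat_lit 1) (nat_lit 339) (nat_lit 345) (nat_lit 336))) (XT.nd (nat_lit 78) (nat_lit 0) (nat_lit 0) (XT.lf (nat_lit 1292) (nat_lit 248183719) (nat_lit 0) (nat_lit 3576739102) (nat_lit 1216) (nat_lit 248183719) (nat_lit 396) (nat_lit 1) (nat_lit 379) (nat_lit 1) (nat_lit 395) (nat_lit 1) (nat_lit 340) (nat_lit 345) (nat_lit 335)) (XT.nd (nat_lit 78) (nat_lit 0) (nat_lit 76) (XT.lf (nat_lit 1292) (nat_lit 274074015) (nat_lit 76) (nat_lit 1871061978) (nat_lit 0) (nat_lit 1871061978) (nat_lit 396) (nat_lit 1) (nat_lit 380) (nat_lit 1) (nat_lit 379) (nat_lit 1) (nat_lit 341) (nat_lit 345) (nat_lit 334)) (XT.lf (nat_lit 1292) (nat_lit 27770776) (nat_lit 0) (nat_lit 3905326345) (nat_lit 1216) (nat_lit 27770776) (nat_lit 397) (nat_lit 1) (nat_lit 380) (nat_lit 1) (nat_lit 396) (nat_lit 1) (nat_lit 342) (nat_lit 345) (nat_lit 333))))) (XT.nd (nat_lit 234) (nat_lit 684) (nat_lit 0) (XT.nd (nat_lit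 78) (nat_lit 0) (nat_lit 0) (XT.lf (nat_lit 1368) (nat_lit 1857434033) (nat_lit 0) (nat_lit 191109935) (nat_lit 1292) (nat_lit 1857434033) (nat_lit 381) (nat_lit 1) (nat_lit 363) (nat_lit 1) (nat_lit 380) (nat_lit 1) (nat_lit 343) (nat_lit 345) (nat_lit 332)) (XT.nd (nat_lit 78) (nat_lit 0) (nat_lit 76) (XT.lf (nat_lit 1368) (nat_lit 3420733218) (nat_lit 76) (nat_lit 215933895) (nat_lit 0) (nat_lit 215933895) (nat_lit 381) (nat_lit 1) (nat_lit 364) (nat_lit 1) (nat_lit 363) (nat_lit 1) (nat_lit 344) (nat_lit 345) (nat_lit 331)) (XT.lf (nat_lit 1368) (nat_lit 1550648379) (nat_lit 0) (nat_lit 698495461) (nat_lit 1292) (nat_lit 1550648379) (nat_lit 382) (nat_lit 1) (nat_lit 364) (nat_lit 1) (nat_lit 381) (nat_lit 1) (nat_lit 345) (nat_lit 345) (nat_lit 330)))) (XT.nd (nat_lit 78) (nat_lit 760) (nat_lit 0) (XT.lf (nat_lit 1368) (nat_lit 2784316279) (nat_lit 76) (nat_lit 482002908) (nat_lit 0) (nat_lit 482002908)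 (nat_lit 382) (nat_lit 1) (nat_lit 365) (nat_lit 1) (nat_lit 364) (nat_lit 1) (nat_lit 346) (nat_lit 345) (nat_lit 329)) (XT.nd (nat_lit 78) (nat_lit 836) (nat_lit 0) (XT.lf (nat_lit 76) (nat_lit 1224500376) (nat_lit 0) (nat_lit 1248547412) (nat_lit 1292) (nat_lit 1224500376) (nat_lit 366) (nat_lit 1) (nat_lit 365) (nat_lit 1) (nat_lit 382) (nat_lit 1) (nat_lit 347) (nat_lit 345) (nat_lit 328)) (XT.lf (nat_lit 912) (nat_lit 2111211038) (nat_lit 0) (nat_lit 768342762) (nat_lit 836) (nat_lit 768342762) (nat_lit 366) (nat_lit 1) (nat_lit 354) (nat_lit 1) (nat_lit 365) (nat_lit 1) (nat_lit 348) (nat_lit 345) (nat_lit 327))))))) (XT.nd (nat_lit 858) (nat_lit 2888) (nat_lit 0) (XT.nd (nat_lit 390) (nat_lit 2280) (nat_lit 0) (XT.nd (nat_lit 156) (nat_lit 608) (nat_lit 0) (XT.nd (nat_lit 78) (nat_lit 608) (nat_lit 0) (XT.lf (nat_lit 76) (nat_lit 881178389) (nat_lit 0) (nat_lit 1836725517) (nat_lit 912) (nat_lit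 881178389) (nat_lit 355) (nat_lit 1) (nat_lit 354) (nat_lit 1) (nat_lit 366) (nat_lit 1) (nat_lit 349) (nat_lit 345) (nat_lit 326)) (XT.lf (nat_lit 684) (nat_lit 1405656209) (nat_lit 0) (nat_lit 1072754557) (nat_lit 608) (nat_lit 1072754557) (nat_lit 355) (nat_lit 1) (nat_lit 346) (nat_lit 1) (nat_lit 354) (nat_lit 1) (nat_lit 350) (nat_lit 345) (nat_lit 325))) (XT.nd (nat_lit 78) (nat_lit 608) (nat_lit 0) (XT.lf (nat_lit 76) (nat_lit 522713794) (nat_lit 0) (nat_lit 2458811042) (nat_lit 684) (nat_lit 522713794) (nat_lit 347) (nat_lit 1) (nat_lit 346) (nat_lit 1) (nat_lit 355) (nat_lit 1) (nat_lit 351) (nat_lit 345) (nat_lit 324)) (XT.nd (nat_lit 78) (nat_lit 0) (nat_lit 0) (XT.lf (nat_lit 684) (nat_lit 671585074) (nat_lit 0) (nat_lit 1393195773) (nat_lit 608) (nat_lit 1393195773) (nat_lit 347) (nat_lit 1) (nat_lit 338) (nat_lit 1) (nat_lit 346) (nat_lit 1) (nat_lit 352) (nat_lit 345) (nat_lit 323)) (XT.lf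 (nat_lit 76) (nat_lit 150990909) (nat_lit 0) (nat_lit 3110886556) (nat_lit 684) (nat_lit 150990909) (nat_lit 339) (nat_lit 1) (nat_lit 338) (nat_lit 1) (nat_lit 347) (nat_lit 1) (nat_lit 353) (nat_lit 345) (nat_lit 322))))) (XT.nd (nat_lit 234) (nat_lit 1064) (nat_lit 0) (XT.nd (nat_lit 78) (nat_lit 608) (nat_lit 0) (XT.lf (nat_lit 76) (nat_lit 1641254944) (nat_lit 0) (nat_lit 85650565) (nat_lit 608) (nat_lit 1641254944) (nat_lit 331) (nat_lit 1) (nat_lit 330) (nat_lit 1) (nat_lit 338) (nat_lit 1) (nat_lit 354) (nat_lit 345) (nat_lit 321)) (XT.nd (nat_lit 78) (nat_lit 0) (nat_lit 0) (XT.lf (nat_lit 684) (nat_lit 2864626731) (nat_lit 0) (nat_lit 229966783) (nat_lit 608) (nat_lit 229966783) (nat_lit 331) (nat_lit 1) (nat_lit 322) (nat_lit 1) (nat_lit 330) (nat_lit 1) (nat_lit 355) (nat_lit 345) (nat_lit 320)) (XT.lf (nat_lit 76) (nat_lit 1215276143) (nat_lit 0) (nat_lit 850851665) (nat_lit 684) (nat_lit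 1215276143) (nat_lit 323) (nat_lit 1) (nat_lit 322) (nat_lit 1) (nat_lit 331) (nat_lit 1) (nat_lit 356) (nat_lit 345) (nat_lit 319)))) (XT.nd (nat_lit 78) (nat_lit 532) (nat_lit 0) (XT.lf (nat_lit 608) (nat_lit 2000779103) (nat_lit 0) (nat_lit 619241260) (nat_lit 532) (nat_lit 619241260) (nat_lit 323) (nat_lit 1) (nat_lit 315) (nat_lit 1) (nat_lit 322) (nat_lit 1) (nat_lit 357) (nat_lit 345) (nat_lit 318)) (XT.nd (nat_lit 78) (nat_lit 532) (nat_lit 0) (XT.lf (nat_lit 76) (nat_lit 781856946) (nat_lit 0) (nat_lit 1634055871) (nat_lit 608) (nat_lit 781856946) (nat_lit 316) (nat_lit 1) (nat_lit 315) (nat_lit 1) (nat_lit 323) (nat_lit 1) (nat_lit 358) (nat_lit 345) (nat_lit 317)) (XT.lf (nat_lit 608) (nat_lit 1123358580) (nat_lit 0) (nat_lit 1016830607) (nat_lit 532) (nat_lit 1016830607) (nat_lit 316) (nat_lit 1) (nat_lit 308) (nat_lit 1) (nat_lit 315) (nat_lit 1) (nat_lit 359) (nat_lit 345) (nat_lit 316))))))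 (XT.nd (nat_lit 390) (nat_lit 1368) (nat_lit 0) (XT.nd (nat_lit 156) (nat_lit 1064) (nat_lit 0) (XT.nd (nat_lit 78) (nat_lit 456) (nat_lit 0) (XT.lf (nat_lit 76) (nat_lit 342353394) (nat_lit 0) (nat_lit 2432425980) (nat_lit 608) (nat_lit 342353394) (nat_lit 309) (nat_lit 1) (nat_lit 308) (nat_lit 1) (nat_lit 316) (nat_lit 1) (nat_lit 360) (nat_lit 345) (nat_lit 315)) (XT.lf (nat_lit 532) (nat_lit 234983949) (nat_lit 0) (nat_lit 1421364484) (nat_lit 456) (nat_lit 1421364484) (nat_lit 309) (nat_lit 1) (nat_lit 302) (nat_lit 1) (nat_lit 308) (nat_lit 1) (nat_lit 361) (nat_lit 345) (nat_lit 314))) (XT.nd (nat_lit 78) (nat_lit 456) (nat_lit 0) (XT.lf (nat_lit 608) (nat_lit 2837288154) (nat_lit 0) (nat_lit 100983532) (nat_lit 532) (nat_lit 100983532) (nat_lit 302) (nat_lit 1) (nat_lit 294) (nat_lit 1) (nat_lit 301) (nat_lit 1) (nat_lit 362) (nat_lit 345) (nat_lit 313)) (XT.nd (nat_lit 78) (nat_lit 456) (nat_lit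 0) (XT.lf (nat_lit 76) (nat_lit 1176010186) (nat_lit 0) (nat_lit 649013273) (nat_lit 608) (nat_lit 1176010186) (nat_lit 295) (nat_lit 1) (nat_lit 294) (nat_lit 1) (nat_lit 302) (nat_lit 1) (nat_lit 363) (nat_lit 345) (nat_lit 312)) (XT.lf (nat_lit 532) (nat_lit 1874523729) (nat_lit 0) (nat_lit 544608133) (nat_lit 456) (nat_lit 544608133) (nat_lit 295) (nat_lit 1) (nat_lit 288) (nat_lit 1) (nat_lit 294) (nat_lit 1) (nat_lit 364) (nat_lit 345) (nat_lit 311))))) (XT.nd (nat_lit 234) (nat_lit 912) (nat_lit 0) (XT.nd (nat_lit 78) (nat_lit 456) (nat_lit 0) (XT.lf (nat_lit 76) (nat_lit 696187556) (nat_lit 0) (nat_lit 1534616883) (nat_lit 532) (nat_lit 696187556) (nat_lit 289) (nat_lit 1) (nat_lit 288) (nat_lit 1) (nat_lit 295) (nat_lit 1) (nat_lit 365) (nat_lit 345) (nat_lit 310)) (XT.nd (nat_lit 78) (nat_lit 0) (nat_lit 0) (XT.lf (nat_lit 532) (nat_lit 909224398) (nat_lit 0) (nat_lit 990825858) (nat_lit 456)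 (nat_lit 990825858) (nat_lit 289) (nat_lit 1) (nat_lit 282) (nat_lit 1) (nat_lit 288) (nat_lit 1) (nat_lit 366) (nat_lit 345) (nat_lit 309)) (XT.lf (nat_lit 76) (nat_lit 215571906) (nat_lit 0) (nat_lit 2424406141) (nat_lit 532) (nat_lit 215571906) (nat_lit 283) (nat_lit 1) (nat_lit 282) (nat_lit 1) (nat_lit 289) (nat_lit 1) (nat_lit 367) (nat_lit 345) (nat_lit 308)))) (XT.nd (nat_lit 78) (nat_lit 456) (nat_lit 0) (XT.lf (nat_lit 76) (nat_lit 1382435627) (nat_lit 0) (nat_lit 55672786) (nat_lit 456) (nat_lit 1382435627) (nat_lit 277) (nat_lit 1) (nat_lit 276) (nat_lit 1) (nat_lit 282) (nat_lit 1) (nat_lit 368) (nat_lit 345) (nat_lit 307)) (XT.nd (nat_lit 78) (nat_lit 0) (nat_lit 0) (XT.lf (nat_lit 532) (nat_lit 2261562791) (nat_lit 0) (nat_lit 262368194) (nat_lit 456) (nat_lit 262368194) (nat_lit 277) (nat_lit 1) (nat_lit 270) (nat_lit 1) (nat_lit 276) (nat_lit 1) (nat_lit 369) (nat_lit 345) (nat_lit 306))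 (XT.lf (nat_lit 76) (nat_lit 875261043) (nat_lit 0) (nat_lit 1001877470) (nat_lit 532) (nat_lit 875261043) (nat_lit 271) (nat_lit 1) (nat_lit 270) (nat_lit 1) (nat_lit 277) (nat_lit 1) (nat_lit 370) (nat_lit 345) (nat_lit 305))))))))
noncomputable def ec23 : XT := (XT.nd (nat_lit 49842) (nat_lit 0) (nat_lit 9652) (XT.nd (nat_lit 858) (nat_lit 1824) (nat_lit 0) (XT.nd (nat_lit 390) (nat_lit 1444) (nat_lit 0) (XT.nd (nat_lit 156) (nat_lit 836) (nat_lit 0) (XT.nd (nat_lit 78) (nat_lit 0) (nat_lit 0) (XT.lf (nat_lit 456) (nat_lit 1244543735) (nat_lit 0) (nat_lit 737328739) (nat_lit 380) (nat_lit 737328739) (nat_lit 271) (nat_lit 1) (nat_lit 265) (nat_lit 1) (nat_lit 270) (nat_lit 1) (nat_lit 371) (nat_lit 345) (nat_lit 304)) (XT.lf (nat_lit 76) (nat_lit 370490201) (nat_lit 0) (nat_lit 1945630511) (nat_lit 456) (nat_lit 370490201) (nat_lit 266) (nat_lit 1) (nat_lit 265) (nat_lit 1) (nat_lit 271) (nat_lit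 1) (nat_lit 372) (nat_lit 345) (nat_lit 303))) (XT.nd (nat_lit 78) (nat_lit 456) (nat_lit 0) (XT.lf (nat_lit 456) (nat_lit 233009153) (nat_lit 0) (nat_lit 1210702557) (nat_lit 380) (nat_lit 1210702557) (nat_lit 266) (nat_lit 1) (nat_lit 260) (nat_lit 1) (nat_lit 265) (nat_lit 1) (nat_lit 373) (nat_lit 345) (nat_lit 302)) (XT.nd (nat_lit 78) (nat_lit 0) (nat_lit 0) (XT.lf (nat_lit 456) (nat_lit 2363035481) (nat_lit 0) (nat_lit 129950282) (nat_lit 380) (nat_lit 129950282) (nat_lit 260) (nat_lit 1) (nat_lit 254) (nat_lit 1) (nat_lit 259) (nat_lit 1) (nat_lit 374) (nat_lit 345) (nat_lit 301)) (XT.lf (nat_lit 76) (nat_lit 917436881) (nat_lit 0) (nat_lit 756754217) (nat_lit 456) (nat_lit 917436881) (nat_lit 255) (nat_lit 1) (nat_lit 254) (nat_lit 1) (nat_lit 260) (nat_lit 1) (nat_lit 375) (nat_lit 345) (nat_lit 300))))) (XT.nd (nat_lit 234) (nat_lit 760) (nat_lit 0) (XT.nd (nat_lit 78) (nat_lit 304) (nat_lit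 0) (XT.lf (nat_lit 456) (nat_lit 1314676237) (nat_lit 0) (nat_lit 623169735) (nat_lit 380) (nat_lit 623169735) (nat_lit 255) (nat_lit 1) (nat_lit 249) (nat_lit 1) (nat_lit 254) (nat_lit 1) (nat_lit 376) (nat_lit 345) (nat_lit 299)) (XT.nd (nat_lit 78) (nat_lit 304) (nat_lit 0) (XT.lf (nat_lit 76) (nat_lit 398306749) (nat_lit 0) (nat_lit 1734302431) (nat_lit 456) (nat_lit 398306749) (nat_lit 250) (nat_lit 1) (nat_lit 249) (nat_lit 1) (nat_lit 255) (nat_lit 1) (nat_lit 377) (nat_lit 345) (nat_lit 298)) (XT.lf (nat_lit 380) (nat_lit 276637002) (nat_lit 0) (nat_lit 1112280305) (nat_lit 304) (nat_lit 1112280305) (nat_lit 250) (nat_lit 1) (nat_lit 245) (nat_lit 1) (nat_lit 249) (nat_lit 1) (nat_lit 378) (nat_lit 345) (nat_lit 297)))) (XT.nd (nat_lit 78) (nat_lit 304) (nat_lit 0) (XT.lf (nat_lit 456) (nat_lit 2243461764) (nat_lit 0) (nat_lit 114334737) (nat_lit 380) (nat_lit 114334737) (nat_lit 245) (nat_lit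 1) (nat_lit 239) (nat_lit 1) (nat_lit 244) (nat_lit 1) (nat_lit 379) (nat_lit 345) (nat_lit 296)) (XT.nd (nat_lit 78) (nat_lit 304) (nat_lit 0) (XT.lf (nat_lit 76) (nat_lit 853802089) (nat_lit 0) (nat_lit 735582857) (nat_lit 456) (nat_lit 853802089) (nat_lit 240) (nat_lit 1) (nat_lit 239) (nat_lit 1) (nat_lit 245) (nat_lit 1) (nat_lit 380) (nat_lit 345) (nat_lit 295)) (XT.lf (nat_lit 380) (nat_lit 1180142501) (nat_lit 0) (nat_lit 617366662) (nat_lit 304) (nat_lit 617366662) (nat_lit 240) (nat_lit 1) (nat_lit 235) (nat_lit 1) (nat_lit 239) (nat_lit 1) (nat_lit 381) (nat_lit 345) (nat_lit 294)))))) (XT.nd (nat_lit 390) (nat_lit 836) (nat_lit 0) (XT.nd (nat_lit 156) (nat_lit 684) (nat_lit 0) (XT.nd (nat_lit 78) (nat_lit 304) (nat_lit 0) (XT.lf (nat_lit 76) (nat_lit 328179602) (nat_lit 0) (nat_lit 1730689678) (nat_lit 380) (nat_lit 328179602) (nat_lit 236) (nat_lit 1) (nat_lit 235) (nat_lit 1) (nat_lit 240)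 (nat_lit 1) (nat_lit 382) (nat_lit 345) (nat_lit 293)) (XT.lf (nat_lit 380) (nat_lit 130864187) (nat_lit 0) (nat_lit 1114337024) (nat_lit 304) (nat_lit 1114337024) (nat_lit 236) (nat_lit 1) (nat_lit 231) (nat_lit 1) (nat_lit 235) (nat_lit 1) (nat_lit 383) (nat_lit 345) (nat_lit 292))) (XT.nd (nat_lit 78) (nat_lit 304) (nat_lit 0) (XT.lf (nat_lit 380) (nat_lit 1955681237) (nat_lit 0) (nat_lit 188444629) (nat_lit 304) (nat_lit 188444629) (nat_lit 231) (nat_lit 1) (nat_lit 226) (nat_lit 1) (nat_lit 230) (nat_lit 1) (nat_lit 384) (nat_lit 345) (nat_lit 291)) (XT.nd (nat_lit 78) (nat_lit 304) (nat_lit 0) (XT.lf (nat_lit 76) (nat_lit 709806944) (nat_lit 0) (nat_lit 886173719) (nat_lit 380) (nat_lit 709806944) (nat_lit 227) (nat_lit 1) (nat_lit 226) (nat_lit 1) (nat_lit 231) (nat_lit 1) (nat_lit 385) (nat_lit 345) (nat_lit 290)) (XT.lf (nat_lit 380) (nat_lit 890472176) (nat_lit 0) (nat_lit 694529791) (nat_lit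 304) (nat_lit 694529791) (nat_lit 227) (nat_lit 1) (nat_lit 222) (nat_lit 1) (nat_lit 226) (nat_lit 1) (nat_lit 386) (nat_lit 345) (nat_lit 289))))) (XT.nd (nat_lit 234) (nat_lit 228) (nat_lit 0) (XT.nd (nat_lit 78) (nat_lit 608) (nat_lit 0) (XT.lf (nat_lit 76) (nat_lit 183962900) (nat_lit 0) (nat_lit 1885858047) (nat_lit 380) (nat_lit 183962900) (nat_lit 223) (nat_lit 1) (nat_lit 222) (nat_lit 1) (nat_lit 227) (nat_lit 1) (nat_lit 387) (nat_lit 345) (nat_lit 288)) (XT.nd (nat_lit 78) (nat_lit 304) (nat_lit 0) (XT.lf (nat_lit 76) (nat_lit 1036696625) (nat_lit 0) (nat_lit 154808586) (nat_lit 304) (nat_lit 1036696625) (nat_lit 219) (nat_lit 1) (nat_lit 218) (nat_lit 1) (nat_lit 222) (nat_lit 1) (nat_lit 388) (nat_lit 345) (nat_lit 287)) (XT.lf (nat_lit 380) (nat_lit 1542824491) (nat_lit 0) (nat_lit 330144586) (nat_lit 304) (nat_lit 330144586) (nat_lit 219) (nat_lit 1) (nat_lit 214) (nat_lit 1) (nat_lit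 218) (nat_lit 1) (nat_lit 389) (nat_lit 345) (nat_lit 286)))) (XT.nd (nat_lit 78) (nat_lit 228) (nat_lit 0) (XT.lf (nat_lit 76) (nat_lit 506216850) (nat_lit 0) (nat_lit 1165877595) (nat_lit 380) (nat_lit 506216850) (nat_lit 215) (nat_lit 1) (nat_lit 214) (nat_lit 1) (nat_lit 219) (nat_lit 1) (nat_lit 390) (nat_lit 345) (nat_lit 285)) (XT.nd (nat_lit 48204) (nat_lit 0) (nat_lit 12388) (XT.lf (nat_lit 304) (nat_lit 486061013) (nat_lit 0) (nat_lit 833918698) (nat_lit 228) (nat_lit 833918698) (nat_lit 215) (nat_lit 1) (nat_lit 211) (nat_lit 1) (nat_lit 214) (nat_lit 1) (nat_lit 391) (nat_lit 345) (nat_lit 284)) (XT.lf (nat_lit 1292) (nat_lit 445336227) (nat_lit 0) (nat_lit 1532163733) (nat_lit 1292) (nat_lit 445336227) (nat_lit 391) (nat_lit 1) (nat_lit 374) (nat_lit 0) (nat_lit 391) (nat_lit 0) (nat_lit 328) (nat_lit 346) (nat_lit 346))))))) (XT.nd (nat_lit 858) (nat_lit 2736) (nat_lit 0) (XT.nd (nat_lit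 390) (nat_lit 0) (nat_lit 228) (XT.nd (nat_lit 156) (nat_lit 0) (nat_lit 76) (XT.nd (nat_lit 78) (nat_lit 0) (nat_lit 76) (XT.lf (nat_lit 1292) (nat_lit 1740381779) (nat_lit 76) (nat_lit 1517142520) (nat_lit 0) (nat_lit 1517142520) (nat_lit 391) (nat_lit 1) (nat_lit 375) (nat_lit 1) (nat_lit 374) (nat_lit 0) (nat_lit 329) (nat_lit 346) (nat_lit 345)) (XT.lf (nat_lit 1292) (nat_lit 841690124) (nat_lit 0) (nat_lit 3021847251) (nat_lit 1216) (nat_lit 841690124) (nat_lit 392) (nat_lit 1) (nat_lit 375) (nat_lit 1) (nat_lit 391) (nat_lit 1) (nat_lit 330) (nat_lit 346) (nat_lit 344))) (XT.nd (nat_lit 78) (nat_lit 0) (nat_lit 76) (XT.lf (nat_lit 1292) (nat_lit 1598413002) (nat_lit 76) (nat_lit 1519267394) (nat_lit 0) (nat_lit 1519267394) (nat_lit 392) (nat_lit 1) (nat_lit 376) (nat_lit 1) (nat_lit 375) (nat_lit 1) (nat_lit 331) (nat_lit 346) (nat_lit 343)) (XT.nd (nat_lit 78) (nat_lit 0) (nat_lit 0) (XT.lf (nat_lit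 1292) (nat_lit 750047329) (nat_lit 0) (nat_lit 3070101205) (nat_lit 1216) (nat_lit 750047329) (nat_lit 393) (nat_lit 1) (nat_lit 376) (nat_lit 1) (nat_lit 392) (nat_lit 1) (nat_lit 332) (nat_lit 346) (nat_lit 342)) (XT.lf (nat_lit 1292) (nat_lit 1374540926) (nat_lit 76) (nat_lit 1564985286) (nat_lit 0) (nat_lit 1564985286) (nat_lit 393) (nat_lit 1) (nat_lit 377) (nat_lit 1) (nat_lit 376) (nat_lit 1) (nat_lit 333) (nat_lit 346) (nat_lit 341))))) (XT.nd (nat_lit 234) (nat_lit 0) (nat_lit 76) (XT.nd (nat_lit 78) (nat_lit 0) (nat_lit 0) (XT.lf (nat_lit 1292) (nat_lit 619517390) (nat_lit 0) (nat_lit 3201309099) (nat_lit 1216) (nat_lit 619517390) (nat_lit 394) (nat_lit 1) (nat_lit 377) (nat_lit 1) (nat_lit 393) (nat_lit 1) (nat_lit 334) (nat_lit 346) (nat_lit 340)) (XT.nd (nat_lit 78) (nat_lit 0) (nat_lit 76) (XT.lf (nat_lit 1292) (nat_lit 1076090034) (nat_lit 76) (nat_lit 1650520525) (nat_lit 0) (nat_lit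 1650520525) (nat_lit 394) (nat_lit 1) (nat_lit 378) (nat_lit 1) (nat_lit 377) (nat_lit 1) (nat_lit 335) (nat_lit 346) (nat_lit 339)) (XT.lf (nat_lit 1292) (nat_lit 453618447) (nat_lit 0) (nat_lit 3408212225) (nat_lit 1216) (nat_lit 453618447) (nat_lit 395) (nat_lit 1) (nat_lit 378) (nat_lit 1) (nat_lit 394) (nat_lit 1) (nat_lit 336) (nat_lit 346) (nat_lit 338)))) (XT.nd (nat_lit 78) (nat_lit 0) (nat_lit 76) (XT.lf (nat_lit 1292) (nat_lit 709887961) (nat_lit 76) (nat_lit 1772351267) (nat_lit 0) (nat_lit 1772351267) (nat_lit 395) (nat_lit 1) (nat_lit 379) (nat_lit 1) (nat_lit 378) (nat_lit 1) (nat_lit 337) (nat_lit 346) (nat_lit 337)) (XT.nd (nat_lit 78) (nat_lit 0) (nat_lit 0) (XT.lf (nat_lit 1292) (nat_lit 255629230) (nat_lit 0) (nat_lit 3684041275) (nat_lit 1216) (nat_lit 255629230) (nat_lit 396) (nat_lit 1) (nat_lit 379) (nat_lit 1) (nat_lit 395) (nat_lit 1) (nat_lit 338) (nat_lit 346) (nat_lit 336))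 (XT.lf (nat_lit 1292) (nat_lit 282296235) (nat_lit 76) (nat_lit 1927193838) (nat_lit 0) (nat_lit 1927193838) (nat_lit 396) (nat_lit 1) (nat_lit 380) (nat_lit 1) (nat_lit 379) (nat_lit 1) (nat_lit 339) (nat_lit 346) (nat_lit 335)))))) (XT.nd (nat_lit 468) (nat_lit 1900) (nat_lit 0) (XT.nd (nat_lit 234) (nat_lit 0) (nat_lit 76) (XT.nd (nat_lit 78) (nat_lit 1292) (nat_lit 0) (XT.lf (nat_lit 1292) (nat_lit 28603900) (nat_lit 0) (nat_lit 4022486135) (nat_lit 1216) (nat_lit 28603900) (nat_lit 397) (nat_lit 1) (nat_lit 380) (nat_lit 1) (nat_lit 396) (nat_lit 1) (nat_lit 340) (nat_lit 346) (nat_lit 334)) (XT.nd (nat_lit 78) (nat_lit 0) (nat_lit 0) (XT.lf (nat_lit 1368) (nat_lit 1913157054) (nat_lit 0) (nat_lit 196843233) (nat_lit 1292) (nat_lit 1913157054) (nat_lit 381) (nat_lit 1) (nat_lit 363) (nat_lit 1) (nat_lit 380) (nat_lit 1) (nat_lit 341) (nat_lit 346) (nat_lit 333)) (XT.lf (nat_lit 1368) (nat_lit 3523355214)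 (nat_lit 76) (nat_lit 222411912) (nat_lit 0) (nat_lit 222411912) (nat_lit 381) (nat_lit 1) (nat_lit 364) (nat_lit 1) (nat_lit 363) (nat_lit 1) (nat_lit 342) (nat_lit 346) (nat_lit 332)))) (XT.nd (nat_lit 78) (nat_lit 0) (nat_lit 0) (XT.lf (nat_lit 1368) (nat_lit 1597167830) (nat_lit 0) (nat_lit 719450325) (nat_lit 1292) (nat_lit 1597167830) (nat_lit 382) (nat_lit 1) (nat_lit 364) (nat_lit 1) (nat_lit 381) (nat_lit 1) (nat_lit 343) (nat_lit 346) (nat_lit 331)) (XT.nd (nat_lit 78) (nat_lit 0) (nat_lit 76) (XT.lf (nat_lit 1368) (nat_lit 2867845768) (nat_lit 76) (nat_lit 496462995) (nat_lit 0) (nat_lit 496462995) (nat_lit 382) (nat_lit 1) (nat_lit 365) (nat_lit 1) (nat_lit 364) (nat_lit 1) (nat_lit 344) (nat_lit 346) (nat_lit 330)) (XT.lf (nat_lit 76) (nat_lit 1261235388) (nat_lit 0) (nat_lit 1286003834) (nat_lit 1292) (nat_lit 1261235388) (nat_lit 366) (nat_lit 1) (nat_lit 365) (nat_lit 1) (nat_lit 382)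 (nat_lit 1) (nat_lit 345) (nat_lit 346) (nat_lit 329))))) (XT.nd (nat_lit 234) (nat_lit 608) (nat_lit 0) (XT.nd (nat_lit 78) (nat_lit 608) (nat_lit 0) (XT.lf (nat_lit 912) (nat_lit 2174547369) (nat_lit 0) (nat_lit 791393045) (nat_lit 836) (nat_lit 791393045) (nat_lit 366) (nat_lit 1) (nat_lit 354) (nat_lit 1) (nat_lit 365) (nat_lit 1) (nat_lit 346) (nat_lit 346) (nat_lit 328)) (XT.nd (nat_lit 78) (nat_lit 608) (nat_lit 0) (XT.lf (nat_lit 76) (nat_lit 907613741) (nat_lit 0) (nat_lit 1891827282) (nat_lit 912) (nat_lit 907613741) (nat_lit 355) (nat_lit 1) (nat_lit 354) (nat_lit 1) (nat_lit 366) (nat_lit 1) (nat_lit 347) (nat_lit 346) (nat_lit 327)) (XT.lf (nat_lit 684) (nat_lit 1447825896) (nat_lit 0) (nat_lit 1104937194) (nat_lit 608) (nat_lit 1104937194) (nat_lit 355) (nat_lit 1) (nat_lit 346) (nat_lit 1) (nat_lit 354) (nat_lit 1) (nat_lit 348) (nat_lit 346) (nat_lit 326)))) (XT.nd (nat_lit 78) (nat_lit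 608) (nat_lit 0) (XT.lf (nat_lit 76) (nat_lit 538395208) (nat_lit 0) (nat_lit 2532575373) (nat_lit 684) (nat_lit 538395208) (nat_lit 347) (nat_lit 1) (nat_lit 346) (nat_lit 1) (nat_lit 355) (nat_lit 1) (nat_lit 349) (nat_lit 346) (nat_lit 325)) (XT.nd (nat_lit 78) (nat_lit 0) (nat_lit 0) (XT.lf (nat_lit 684) (nat_lit 691732627) (nat_lit 0) (nat_lit 1434991646) (nat_lit 608) (nat_lit 1434991646) (nat_lit 347) (nat_lit 1) (nat_lit 338) (nat_lit 1) (nat_lit 346) (nat_lit 1) (nat_lit 350) (nat_lit 346) (nat_lit 324)) (XT.lf (nat_lit 76) (nat_lit 155520637) (nat_lit 0) (nat_lit 3204213153) (nat_lit 684) (nat_lit 155520637) (nat_lit 339) (nat_lit 1) (nat_lit 338) (nat_lit 1) (nat_lit 347) (nat_lit 1) (nat_lit 351) (nat_lit 346) (nat_lit 323))))))))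
noncomputable def ec24 : XT := (XT.nd (nat_lit 1716) (nat_lit 3648) (nat_lit 0) (XT.nd (nat_lit 858) (nat_lit 2584) (nat_lit 0) (XT.nd (nat_lit 390) (nat_lit 2052) (nat_lit 0) (XT.nd (nat_lit 156) (nat_lit 532) (nat_lit 0) (XT.nd (nat_lit 78) (nat_lit 608) (nat_lit 0) (XT.lf (nat_lit 76) (nat_lit 1690492592) (nat_lit 0) (nat_lit 88220082) (nat_lit 608) (nat_lit 1690492592) (nat_lit 331) (nat_lit 1) (nat_lit 330) (nat_lit 1) (nat_lit 338) (nat_lit 1) (nat_lit 352) (nat_lit 346) (nat_lit 322)) (XT.lf (nat_lit 684) (nat_lit 2950565533) (nat_lit 0) (nat_lit 236865786) (nat_lit 608) (nat_lit 236865786) (nat_lit 331) (nat_lit 1) (nat_lit 322) (nat_lit 1) (nat_lit 330) (nat_lit 1) (nat_lit 353) (nat_lit 346) (nat_lit 321))) (XT.nd (nat_lit 78) (nat_lit 532) (nat_lit 0) (XT.lf (nat_lit 76) (nat_lit 1251734427) (nat_lit 0) (nat_lit 876377215) (nat_lit 684) (nat_lit 1251734427) (nat_lit 323) (nat_lit 1) (nat_lit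 322) (nat_lit 1) (nat_lit 331) (nat_lit 1) (nat_lit 354) (nat_lit 346) (nat_lit 320)) (XT.nd (nat_lit 78) (nat_lit 0) (nat_lit 0) (XT.lf (nat_lit 608) (nat_lit 2060802476) (nat_lit 0) (nat_lit 637818498) (nat_lit 532) (nat_lit 637818498) (nat_lit 323) (nat_lit 1) (nat_lit 315) (nat_lit 1) (nat_lit 322) (nat_lit 1) (nat_lit 355) (nat_lit 346) (nat_lit 319)) (XT.lf (nat_lit 76) (nat_lit 805312654) (nat_lit 0) (nat_lit 1683077547) (nat_lit 608) (nat_lit 805312654) (nat_lit 316) (nat_lit 1) (nat_lit 315) (nat_lit 1) (nat_lit 323) (nat_lit 1) (nat_lit 356) (nat_lit 346) (nat_lit 318))))) (XT.nd (nat_lit 234) (nat_lit 1064) (nat_lit 0) (XT.nd (nat_lit 78) (nat_lit 456) (nat_lit 0) (XT.lf (nat_lit 608) (nat_lit 1157059337) (nat_lit 0) (nat_lit 1047335526) (nat_lit 532) (nat_lit 1047335526) (nat_lit 316) (nat_lit 1) (nat_lit 308) (nat_lit 1) (nat_lit 315) (nat_lit 1) (nat_lit 357) (nat_lit 346) (nat_lit 317))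 (XT.nd (nat_lit 78) (nat_lit 456) (nat_lit 0) (XT.lf (nat_lit 76) (nat_lit 352623996) (nat_lit 0) (nat_lit 2505398759) (nat_lit 608) (nat_lit 352623996) (nat_lit 309) (nat_lit 1) (nat_lit 308) (nat_lit 1) (nat_lit 316) (nat_lit 1) (nat_lit 358) (nat_lit 346) (nat_lit 316)) (XT.lf (nat_lit 532) (nat_lit 242033468) (nat_lit 0) (nat_lit 1464005418) (nat_lit 456) (nat_lit 1464005418) (nat_lit 309) (nat_lit 1) (nat_lit 302) (nat_lit 1) (nat_lit 308) (nat_lit 1) (nat_lit 359) (nat_lit 346) (nat_lit 315)))) (XT.nd (nat_lit 78) (nat_lit 456) (nat_lit 0) (XT.lf (nat_lit 608) (nat_lit 2922406799) (nat_lit 0) (nat_lit 104013038) (nat_lit 532) (nat_lit 104013038) (nat_lit 302) (nat_lit 1) (nat_lit 294) (nat_lit 1) (nat_lit 301) (nat_lit 1) (nat_lit 360) (nat_lit 346) (nat_lit 314)) (XT.nd (nat_lit 78) (nat_lit 456) (nat_lit 0) (XT.lf (nat_lit 76) (nat_lit 1211290491) (nat_lit 0) (nat_lit 668483672) (nat_lit 608)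 (nat_lit 1211290491) (nat_lit 295) (nat_lit 1) (nat_lit 294) (nat_lit 1) (nat_lit 302) (nat_lit 1) (nat_lit 361) (nat_lit 346) (nat_lit 313)) (XT.lf (nat_lit 532) (nat_lit 1930759440) (nat_lit 0) (nat_lit 560946377) (nat_lit 456) (nat_lit 560946377) (nat_lit 295) (nat_lit 1) (nat_lit 288) (nat_lit 1) (nat_lit 294) (nat_lit 1) (nat_lit 362) (nat_lit 346) (nat_lit 312)))))) (XT.nd (nat_lit 390) (nat_lit 1216) (nat_lit 0) (XT.nd (nat_lit 156) (nat_lit 912) (nat_lit 0) (XT.nd (nat_lit 78) (nat_lit 456) (nat_lit 0) (XT.lf (nat_lit 76) (nat_lit 717073183) (nat_lit 0) (nat_lit 1580655389) (nat_lit 532) (nat_lit 717073183) (nat_lit 289) (nat_lit 1) (nat_lit 288) (nat_lit 1) (nat_lit 295) (nat_lit 1) (nat_lit 363) (nat_lit 346) (nat_lit 311)) (XT.lf (nat_lit 532) (nat_lit 936501130) (nat_lit 0) (nat_lit 1020550634) (nat_lit 456) (nat_lit 1020550634) (nat_lit 289) (nat_lit 1) (nat_lit 282) (nat_lit 1) (nat_lit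 288) (nat_lit 1) (nat_lit 364) (nat_lit 346) (nat_lit 310))) (XT.nd (nat_lit 78) (nat_lit 912) (nat_lit 0) (XT.lf (nat_lit 76) (nat_lit 222039063) (nat_lit 0) (nat_lit 2497138325) (nat_lit 532) (nat_lit 222039063) (nat_lit 283) (nat_lit 1) (nat_lit 282) (nat_lit 1) (nat_lit 289) (nat_lit 1) (nat_lit 365) (nat_lit 346) (nat_lit 309)) (XT.nd (nat_lit 78) (nat_lit 456) (nat_lit 0) (XT.lf (nat_lit 76) (nat_lit 1423908696) (nat_lit 0) (nat_lit 57342970) (nat_lit 456) (nat_lit 1423908696) (nat_lit 277) (nat_lit 1) (nat_lit 276) (nat_lit 1) (nat_lit 282) (nat_lit 1) (nat_lit 366) (nat_lit 346) (nat_lit 308)) (XT.lf (nat_lit 532) (nat_lit 2329409674) (nat_lit 0) (nat_lit 270239240) (nat_lit 456) (nat_lit 270239240) (nat_lit 277) (nat_lit 1) (nat_lit 270) (nat_lit 1) (nat_lit 276) (nat_lit 1) (nat_lit 367) (nat_lit 346) (nat_lit 307))))) (XT.nd (nat_lit 234) (nat_lit 836) (nat_lit 0) (XT.nd (nat_lit 78) (nat_lit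 380) (nat_lit 0) (XT.lf (nat_lit 76) (nat_lit 901518874) (nat_lit 0) (nat_lit 1031933794) (nat_lit 532) (nat_lit 901518874) (nat_lit 271) (nat_lit 1) (nat_lit 270) (nat_lit 1) (nat_lit 277) (nat_lit 1) (nat_lit 368) (nat_lit 346) (nat_lit 306)) (XT.nd (nat_lit 78) (nat_lit 0) (nat_lit 0) (XT.lf (nat_lit 456) (nat_lit 1281880047) (nat_lit 0) (nat_lit 759448601) (nat_lit 380) (nat_lit 759448601) (nat_lit 271) (nat_lit 1) (nat_lit 265) (nat_lit 1) (nat_lit 270) (nat_lit 1) (nat_lit 369) (nat_lit 346) (nat_lit 305)) (XT.lf (nat_lit 76) (nat_lit 381604907) (nat_lit 0) (nat_lit 2003999427) (nat_lit 456) (nat_lit 381604907) (nat_lit 266) (nat_lit 1) (nat_lit 265) (nat_lit 1) (nat_lit 271) (nat_lit 1) (nat_lit 370) (nat_lit 346) (nat_lit 304)))) (XT.nd (nat_lit 78) (nat_lit 456) (nat_lit 0) (XT.lf (nat_lit 456) (nat_lit 239999427) (nat_lit 0) (nat_lit 1247023634) (nat_lit 380) (nat_lit 1247023634) (nat_lit 266)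 (nat_lit 1) (nat_lit 260) (nat_lit 1) (nat_lit 265) (nat_lit 1) (nat_lit 371) (nat_lit 346) (nat_lit 303)) (XT.nd (nat_lit 78) (nat_lit 0) (nat_lit 0) (XT.lf (nat_lit 456) (nat_lit 2433926546) (nat_lit 0) (nat_lit 133848791) (nat_lit 380) (nat_lit 133848791) (nat_lit 260) (nat_lit 1) (nat_lit 254) (nat_lit 1) (nat_lit 259) (nat_lit 1) (nat_lit 372) (nat_lit 346) (nat_lit 302)) (XT.lf (nat_lit 76) (nat_lit 944959988) (nat_lit 0) (nat_lit 779456843) (nat_lit 456) (nat_lit 944959988) (nat_lit 255) (nat_lit 1) (nat_lit 254) (nat_lit 1) (nat_lit 260) (nat_lit 1) (nat_lit 373) (nat_lit 346) (nat_lit 301))))))) (XT.nd (nat_lit 858) (nat_lit 1216) (nat_lit 0) (XT.nd (nat_lit 390) (nat_lit 1292) (nat_lit 0) (XT.nd (nat_lit 156) (nat_lit 760) (nat_lit 0) (XT.nd (nat_lit 78) (nat_lit 0) (nat_lit 0) (XT.lf (nat_lit 456) (nat_lit 1354116524) (nat_lit 0) (nat_lit 641864827) (nat_lit 380) (nat_lit 641864827) (nat_lit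 255) (nat_lit 1) (nat_lit 249) (nat_lit 1) (nat_lit 254) (nat_lit 1) (nat_lit 374) (nat_lit 346) (nat_lit 300)) (XT.lf (nat_lit 76) (nat_lit 410255952) (nat_lit 0) (nat_lit 1786331504) (nat_lit 456) (nat_lit 410255952) (nat_lit 250) (nat_lit 1) (nat_lit 249) (nat_lit 1) (nat_lit 255) (nat_lit 1) (nat_lit 375) (nat_lit 346) (nat_lit 299))) (XT.nd (nat_lit 78) (nat_lit 456) (nat_lit 0) (XT.lf (nat_lit 380) (nat_lit 284936112) (nat_lit 0) (nat_lit 1145648715) (nat_lit 304) (nat_lit 1145648715) (nat_lit 250) (nat_lit 1) (nat_lit 245) (nat_lit 1) (nat_lit 249) (nat_lit 1) (nat_lit 376) (nat_lit 346) (nat_lit 298)) (XT.nd (nat_lit 78) (nat_lit 0) (nat_lit 0) (XT.lf (nat_lit 456) (nat_lit 2310765617) (nat_lit 0) (nat_lit 117764779) (nat_lit 380) (nat_lit 117764779) (nat_lit 245) (nat_lit 1) (nat_lit 239) (nat_lit 1) (nat_lit 244) (nat_lit 1) (nat_lit 377) (nat_lit 346) (nat_lit 297)) (XT.lf (nat_lit 76) (nat_lit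 879416152) (nat_lit 0) (nat_lit 757650343) (nat_lit 456) (nat_lit 879416152) (nat_lit 240) (nat_lit 1) (nat_lit 239) (nat_lit 1) (nat_lit 245) (nat_lit 1) (nat_lit 378) (nat_lit 346) (nat_lit 296))))) (XT.nd (nat_lit 234) (nat_lit 684) (nat_lit 0) (XT.nd (nat_lit 78) (nat_lit 304) (nat_lit 0) (XT.lf (nat_lit 380) (nat_lit 1215546776) (nat_lit 0) (nat_lit 635887661) (nat_lit 304) (nat_lit 635887661) (nat_lit 240) (nat_lit 1) (nat_lit 235) (nat_lit 1) (nat_lit 239) (nat_lit 1) (nat_lit 379) (nat_lit 346) (nat_lit 295)) (XT.nd (nat_lit 78) (nat_lit 304) (nat_lit 0) (XT.lf (nat_lit 76) (nat_lit 338024990) (nat_lit 0) (nat_lit 1782610369) (nat_lit 380) (nat_lit 338024990) (nat_lit 236) (nat_lit 1) (nat_lit 235) (nat_lit 1) (nat_lit 240) (nat_lit 1) (nat_lit 380) (nat_lit 346) (nat_lit 294)) (XT.lf (nat_lit 380) (nat_lit 134790113) (nat_lit 0) (nat_lit 1147767134) (nat_lit 304) (nat_lit 1147767134) (nat_lit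 236) (nat_lit 1) (nat_lit 231) (nat_lit 1) (nat_lit 235) (nat_lit 1) (nat_lit 381) (nat_lit 346) (nat_lit 293)))) (XT.nd (nat_lit 78) (nat_lit 304) (nat_lit 0) (XT.lf (nat_lit 380) (nat_lit 2014351674) (nat_lit 0) (nat_lit 194097968) (nat_lit 304) (nat_lit 194097968) (nat_lit 231) (nat_lit 1) (nat_lit 226) (nat_lit 1) (nat_lit 230) (nat_lit 1) (nat_lit 382) (nat_lit 346) (nat_lit 292)) (XT.nd (nat_lit 78) (nat_lit 304) (nat_lit 0) (XT.lf (nat_lit 76) (nat_lit 731101153) (nat_lit 0) (nat_lit 912758931) (nat_lit 380) (nat_lit 731101153) (nat_lit 227) (nat_lit 1) (nat_lit 226) (nat_lit 1) (nat_lit 231) (nat_lit 1) (nat_lit 383) (nat_lit 346) (nat_lit 291)) (XT.lf (nat_lit 380) (nat_lit 917186341) (nat_lit 0) (nat_lit 715365684) (nat_lit 304) (nat_lit 715365684) (nat_lit 227) (nat_lit 1) (nat_lit 222) (nat_lit 1) (nat_lit 226) (nat_lit 1) (nat_lit 384) (nat_lit 346) (nat_lit 290)))))) (XT.nd (nat_lit 390)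 (nat_lit 380) (nat_lit 0) (XT.nd (nat_lit 156) (nat_lit 532) (nat_lit 0) (XT.nd (nat_lit 78) (nat_lit 304) (nat_lit 0) (XT.lf (nat_lit 76) (nat_lit 189481787) (nat_lit 0) (nat_lit 1942433788) (nat_lit 380) (nat_lit 189481787) (nat_lit 223) (nat_lit 1) (nat_lit 222) (nat_lit 1) (nat_lit 227) (nat_lit 1) (nat_lit 385) (nat_lit 346) (nat_lit 289)) (XT.lf (nat_lit 76) (nat_lit 1067797523) (nat_lit 0) (nat_lit 159452844) (nat_lit 304) (nat_lit 1067797523) (nat_lit 219) (nat_lit 1) (nat_lit 218) (nat_lit 1) (nat_lit 222) (nat_lit 1) (nat_lit 386) (nat_lit 346) (nat_lit 288))) (XT.nd (nat_lit 78) (nat_lit 228) (nat_lit 0) (XT.lf (nat_lit 380) (nat_lit 1589109225) (nat_lit 0) (nat_lit 340048923) (nat_lit 304) (nat_lit 340048923) (nat_lit 219) (nat_lit 1) (nat_lit 214) (nat_lit 1) (nat_lit 218) (nat_lit 1) (nat_lit 387) (nat_lit 346) (nat_lit 287)) (XT.nd (nat_lit 78) (nat_lit 228) (nat_lit 0) (XT.lf (nat_lit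 76) (nat_lit 521403355) (nat_lit 0) (nat_lit 1200853923) (nat_lit 380) (nat_lit 521403355) (nat_lit 215) (nat_lit 1) (nat_lit 214) (nat_lit 1) (nat_lit 219) (nat_lit 1) (nat_lit 388) (nat_lit 346) (nat_lit 286)) (XT.lf (nat_lit 304) (nat_lit 500642843) (nat_lit 0) (nat_lit 858936259) (nat_lit 228) (nat_lit 858936259) (nat_lit 215) (nat_lit 1) (nat_lit 211) (nat_lit 1) (nat_lit 214) (nat_lit 1) (nat_lit 389) (nat_lit 346) (nat_lit 285))))) (XT.nd (nat_lit 48282) (nat_lit 0) (nat_lit 12844) (XT.nd (nat_lit 48126) (nat_lit 0) (nat_lit 12768) (XT.lf (nat_lit 380) (nat_lit 2163554460) (nat_lit 0) (nat_lit 15192926) (nat_lit 304) (nat_lit 15192926) (nat_lit 211) (nat_lit 1) (nat_lit 206) (nat_lit 1) (nat_lit 210) (nat_lit 1) (nat_lit 390) (nat_lit 346) (nat_lit 284)) (XT.nd (nat_lit 78) (nat_lit 0) (nat_lit 0) (XT.lf (nat_lit 1292) (nat_lit 458696314) (nat_lit 0) (nat_lit 1578128645) (nat_lit 1292) (nat_lit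 458696314) (nat_lit 391) (nat_lit 1) (nat_lit 374) (nat_lit 0) (nat_lit 391) (nat_lit 0) (nat_lit 326) (nat_lit 347) (nat_lit 347)) (XT.lf (nat_lit 1292) (nat_lit 1792593233) (nat_lit 76) (nat_lit 1562656796) (nat_lit 0) (nat_lit 1562656796) (nat_lit 391) (nat_lit 1) (nat_lit 375) (nat_lit 1) (nat_lit 374) (nat_lit 0) (nat_lit 327) (nat_lit 347) (nat_lit 346)))) (XT.nd (nat_lit 78) (nat_lit 0) (nat_lit 0) (XT.lf (nat_lit 1292) (nat_lit 866940828) (nat_lit 0) (nat_lit 3112502669) (nat_lit 1216) (nat_lit 866940828) (nat_lit 392) (nat_lit 1) (nat_lit 375) (nat_lit 1) (nat_lit 391) (nat_lit 1) (nat_lit 328) (nat_lit 347) (nat_lit 345)) (XT.nd (nat_lit 78) (nat_lit 0) (nat_lit 76) (XT.lf (nat_lit 1292) (nat_lit 1646365392) (nat_lit 76) (nat_lit 1564845416) (nat_lit 0) (nat_lit 1564845416) (nat_lit 392) (nat_lit 1) (nat_lit 376) (nat_lit 1) (nat_lit 375) (nat_lit 1) (nat_lit 329) (nat_lit 347) (nat_lit 344))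 (XT.lf (nat_lit 1292) (nat_lit 772548749) (nat_lit 0) (nat_lit 3162204242) (nat_lit 1216) (nat_lit 772548749) (nat_lit 393) (nat_lit 1) (nat_lit 376) (nat_lit 1) (nat_lit 392) (nat_lit 1) (nat_lit 330) (nat_lit 347) (nat_lit 343))))))))
noncomputable def ec25 : XT := (XT.nd (nat_lit 1716) (nat_lit 6308) (nat_lit 0) (XT.nd (nat_lit 858) (nat_lit 3116) (nat_lit 0) (XT.nd (nat_lit 390) (nat_lit 988) (nat_lit 0) (XT.nd (nat_lit 156) (nat_lit 0) (nat_lit 76) (XT.nd (nat_lit 78) (nat_lit 0) (nat_lit 76) (XT.lf (nat_lit 1292) (nat_lit 1415777154) (nat_lit 76) (nat_lit 1611934844) (nat_lit 0) (nat_lit 1611934844) (nat_lit 393) (nat_lit 1) (nat_lit 377) (nat_lit 1) (nat_lit 376) (nat_lit 1) (nat_lit 331) (nat_lit 347) (nat_lit 342)) (XT.lf (nat_lit 1292) (nat_lit 638102912) (nat_lit 0) (nat_lit 3297348372) (nat_lit 1216) (nat_lit 638102912) (nat_lit 394) (nat_lit 1) (nat_lit 377) (nat_lit 1) (nat_lit 393) (nat_lit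 1) (nat_lit 332) (nat_lit 347) (nat_lit 341))) (XT.nd (nat_lit 78) (nat_lit 0) (nat_lit 76) (XT.lf (nat_lit 1292) (nat_lit 1108372735) (nat_lit 76) (nat_lit 1700036141) (nat_lit 0) (nat_lit 1700036141) (nat_lit 394) (nat_lit 1) (nat_lit 378) (nat_lit 1) (nat_lit 377) (nat_lit 1) (nat_lit 333) (nat_lit 347) (nat_lit 340)) (XT.nd (nat_lit 78) (nat_lit 0) (nat_lit 0) (XT.lf (nat_lit 1292) (nat_lit 467227000) (nat_lit 0) (nat_lit 3510458592) (nat_lit 1216) (nat_lit 467227000) (nat_lit 395) (nat_lit 1) (nat_lit 378) (nat_lit 1) (nat_lit 394) (nat_lit 1) (nat_lit 334) (nat_lit 347) (nat_lit 339)) (XT.lf (nat_lit 1292) (nat_lit 731184600) (nat_lit 76) (nat_lit 1825521805) (nat_lit 0) (nat_lit 1825521805) (nat_lit 395) (nat_lit 1) (nat_lit 379) (nat_lit 1) (nat_lit 378) (nat_lit 1) (nat_lit 335) (nat_lit 347) (nat_lit 338))))) (XT.nd (nat_lit 234) (nat_lit 1216) (nat_lit 0) (XT.nd (nat_lit 78) (nat_lit 0) (nat_lit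 0) (XT.lf (nat_lit 1292) (nat_lit 263298107) (nat_lit 0) (nat_lit 3794562514) (nat_lit 1216) (nat_lit 263298107) (nat_lit 396) (nat_lit 1) (nat_lit 379) (nat_lit 1) (nat_lit 395) (nat_lit 1) (nat_lit 336) (nat_lit 347) (nat_lit 337)) (XT.nd (nat_lit 78) (nat_lit 0) (nat_lit 76) (XT.lf (nat_lit 1292) (nat_lit 290765123) (nat_lit 76) (nat_lit 1985009653) (nat_lit 0) (nat_lit 1985009653) (nat_lit 396) (nat_lit 1) (nat_lit 380) (nat_lit 1) (nat_lit 379) (nat_lit 1) (nat_lit 337) (nat_lit 347) (nat_lit 336)) (XT.lf (nat_lit 1292) (nat_lit 29462017) (nat_lit 0) (nat_lit 4143160719) (nat_lit 1216) (nat_lit 29462017) (nat_lit 397) (nat_lit 1) (nat_lit 380) (nat_lit 1) (nat_lit 396) (nat_lit 1) (nat_lit 338) (nat_lit 347) (nat_lit 335)))) (XT.nd (nat_lit 78) (nat_lit 0) (nat_lit 0) (XT.lf (nat_lit 1368) (nat_lit 1970551765) (nat_lit 0) (nat_lit 202748530) (nat_lit 1292) (nat_lit 1970551765) (nat_lit 381) (nat_lit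 1) (nat_lit 363) (nat_lit 1) (nat_lit 380) (nat_lit 1) (nat_lit 339) (nat_lit 347) (nat_lit 334)) (XT.nd (nat_lit 78) (nat_lit 0) (nat_lit 76) (XT.lf (nat_lit 1368) (nat_lit 3629055871) (nat_lit 76) (nat_lit 229084269) (nat_lit 0) (nat_lit 229084269) (nat_lit 381) (nat_lit 1) (nat_lit 364) (nat_lit 1) (nat_lit 363) (nat_lit 1) (nat_lit 340) (nat_lit 347) (nat_lit 333)) (XT.lf (nat_lit 1368) (nat_lit 1645082865) (nat_lit 0) (nat_lit 741033835) (nat_lit 1292) (nat_lit 1645082865) (nat_lit 382) (nat_lit 1) (nat_lit 364) (nat_lit 1) (nat_lit 381) (nat_lit 1) (nat_lit 341) (nat_lit 347) (nat_lit 332)))))) (XT.nd (nat_lit 390) (nat_lit 1824) (nat_lit 0) (XT.nd (nat_lit 156) (nat_lit 1368) (nat_lit 0) (XT.nd (nat_lit 78) (nat_lit 0) (nat_lit 76) (XT.lf (nat_lit 1368) (nat_lit 2953881141) (nat_lit 76) (nat_lit 511356885) (nat_lit 0) (nat_lit 511356885) (nat_lit 382) (nat_lit 1) (nat_lit 365) (nat_lit 1) (nat_lit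 364) (nat_lit 1) (nat_lit 342) (nat_lit 347) (nat_lit 331)) (XT.lf (nat_lit 76) (nat_lit 1299072449) (nat_lit 0) (nat_lit 1324583949) (nat_lit 1292) (nat_lit 1299072449) (nat_lit 366) (nat_lit 1) (nat_lit 365) (nat_lit 1) (nat_lit 382) (nat_lit 1) (nat_lit 343) (nat_lit 347) (nat_lit 330))) (XT.nd (nat_lit 78) (nat_lit 608) (nat_lit 0) (XT.lf (nat_lit 912) (nat_lit 2239783790) (nat_lit 0) (nat_lit 815134836) (nat_lit 836) (nat_lit 815134836) (nat_lit 366) (nat_lit 1) (nat_lit 354) (nat_lit 1) (nat_lit 365) (nat_lit 1) (nat_lit 344) (nat_lit 347) (nat_lit 329)) (XT.nd (nat_lit 78) (nat_lit 608) (nat_lit 0) (XT.lf (nat_lit 76) (nat_lit 934842153) (nat_lit 0) (nat_lit 1948582101) (nat_lit 912) (nat_lit 934842153) (nat_lit 355) (nat_lit 1) (nat_lit 354) (nat_lit 1) (nat_lit 366) (nat_lit 1) (nat_lit 345) (nat_lit 347) (nat_lit 328)) (XT.lf (nat_lit 684) (nat_lit 1491260673) (nat_lit 0) (nat_lit 1138085309)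 (nat_lit 608) (nat_lit 1138085309) (nat_lit 355) (nat_lit 1) (nat_lit 346) (nat_lit 1) (nat_lit 354) (nat_lit 1) (nat_lit 346) (nat_lit 347) (nat_lit 327))))) (XT.nd (nat_lit 234) (nat_lit 1216) (nat_lit 0) (XT.nd (nat_lit 78) (nat_lit 608) (nat_lit 0) (XT.lf (nat_lit 76) (nat_lit 554547064) (nat_lit 0) (nat_lit 2608552635) (nat_lit 684) (nat_lit 554547064) (nat_lit 347) (nat_lit 1) (nat_lit 346) (nat_lit 1) (nat_lit 355) (nat_lit 1) (nat_lit 347) (nat_lit 347) (nat_lit 326)) (XT.nd (nat_lit 78) (nat_lit 0) (nat_lit 0) (XT.lf (nat_lit 684) (nat_lit 712484605) (nat_lit 0) (nat_lit 1478041395) (nat_lit 608) (nat_lit 1478041395) (nat_lit 347) (nat_lit 1) (nat_lit 338) (nat_lit 1) (nat_lit 346) (nat_lit 1) (nat_lit 348) (nat_lit 347) (nat_lit 325)) (XT.lf (nat_lit 76) (nat_lit 160186256) (nat_lit 0) (nat_lit 3300339547) (nat_lit 684) (nat_lit 160186256) (nat_lit 339) (nat_lit 1) (nat_lit 338) (nat_lit 1)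 (nat_lit 347) (nat_lit 1) (nat_lit 349) (nat_lit 347) (nat_lit 324)))) (XT.nd (nat_lit 78) (nat_lit 608) (nat_lit 0) (XT.lf (nat_lit 76) (nat_lit 1741207370) (nat_lit 0) (nat_lit 90866685) (nat_lit 608) (nat_lit 1741207370) (nat_lit 331) (nat_lit 1) (nat_lit 330) (nat_lit 1) (nat_lit 338) (nat_lit 1) (nat_lit 350) (nat_lit 347) (nat_lit 323)) (XT.nd (nat_lit 78) (nat_lit 0) (nat_lit 0) (XT.lf (nat_lit 684) (nat_lit 3039082499) (nat_lit 0) (nat_lit 243971760) (nat_lit 608) (nat_lit 243971760) (nat_lit 331) (nat_lit 1) (nat_lit 322) (nat_lit 1) (nat_lit 330) (nat_lit 1) (nat_lit 351) (nat_lit 347) (nat_lit 322)) (XT.lf (nat_lit 76) (nat_lit 1289286460) (nat_lit 0) (nat_lit 902668531) (nat_lit 684) (nat_lit 1289286460) (nat_lit 323) (nat_lit 1) (nat_lit 322) (nat_lit 1) (nat_lit 331) (nat_lit 1) (nat_lit 352) (nat_lit 347) (nat_lit 321))))))) (XT.nd (nat_lit 858) (nat_lit 3268) (nat_lit 0) (XT.nd (nat_lit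 390) (nat_lit 1520) (nat_lit 0) (XT.nd (nat_lit 156) (nat_lit 988) (nat_lit 0) (XT.nd (nat_lit 78) (nat_lit 0) (nat_lit 0) (XT.lf (nat_lit 608) (nat_lit 2122626551) (nat_lit 0) (nat_lit 656953053) (nat_lit 532) (nat_lit 656953053) (nat_lit 323) (nat_lit 1) (nat_lit 315) (nat_lit 1) (nat_lit 322) (nat_lit 1) (nat_lit 353) (nat_lit 347) (nat_lit 320)) (XT.lf (nat_lit 76) (nat_lit 829472034) (nat_lit 0) (nat_lit 1733569873) (nat_lit 608) (nat_lit 829472034) (nat_lit 316) (nat_lit 1) (nat_lit 315) (nat_lit 1) (nat_lit 323) (nat_lit 1) (nat_lit 354) (nat_lit 347) (nat_lit 319))) (XT.nd (nat_lit 78) (nat_lit 456) (nat_lit 0) (XT.lf (nat_lit 608) (nat_lit 1191771117) (nat_lit 0) (nat_lit 1078755591) (nat_lit 532) (nat_lit 1078755591) (nat_lit 316) (nat_lit 1) (nat_lit 308) (nat_lit 1) (nat_lit 315) (nat_lit 1) (nat_lit 355) (nat_lit 347) (nat_lit 318)) (XT.nd (nat_lit 78) (nat_lit 456) (nat_lit 0) (XT.lf (nat_lit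 76) (nat_lit 363202716) (nat_lit 0) (nat_lit 2580560722) (nat_lit 608) (nat_lit 363202716) (nat_lit 309) (nat_lit 1) (nat_lit 308) (nat_lit 1) (nat_lit 316) (nat_lit 1) (nat_lit 356) (nat_lit 347) (nat_lit 317)) (XT.lf (nat_lit 532) (nat_lit 249294472) (nat_lit 0) (nat_lit 1507925581) (nat_lit 456) (nat_lit 1507925581) (nat_lit 309) (nat_lit 1) (nat_lit 302) (nat_lit 1) (nat_lit 308) (nat_lit 1) (nat_lit 357) (nat_lit 347) (nat_lit 316))))) (XT.nd (nat_lit 234) (nat_lit 456) (nat_lit 0) (XT.nd (nat_lit 78) (nat_lit 456) (nat_lit 0) (XT.lf (nat_lit 608) (nat_lit 3010079002) (nat_lit 0) (nat_lit 107133430) (nat_lit 532) (nat_lit 107133430) (nat_lit 302) (nat_lit 1) (nat_lit 294) (nat_lit 1) (nat_lit 301) (nat_lit 1) (nat_lit 358) (nat_lit 347) (nat_lit 315)) (XT.nd (nat_lit 78) (nat_lit 456) (nat_lit 0) (XT.lf (nat_lit 76) (nat_lit 1247629206) (nat_lit 0) (nat_lit 688538182) (nat_lit 608) (nat_lit 1247629206)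 (nat_lit 295) (nat_lit 1) (nat_lit 294) (nat_lit 1) (nat_lit 302) (nat_lit 1) (nat_lit 359) (nat_lit 347) (nat_lit 314)) (XT.lf (nat_lit 532) (nat_lit 1988682224) (nat_lit 0) (nat_lit 577774769) (nat_lit 456) (nat_lit 577774769) (nat_lit 295) (nat_lit 1) (nat_lit 288) (nat_lit 1) (nat_lit 294) (nat_lit 1) (nat_lit 360) (nat_lit 347) (nat_lit 313)))) (XT.nd (nat_lit 78) (nat_lit 456) (nat_lit 0) (XT.lf (nat_lit 76) (nat_lit 738585379) (nat_lit 0) (nat_lit 1628075051) (nat_lit 532) (nat_lit 738585379) (nat_lit 289) (nat_lit 1) (nat_lit 288) (nat_lit 1) (nat_lit 295) (nat_lit 1) (nat_lit 361) (nat_lit 347) (nat_lit 312)) (XT.nd (nat_lit 78) (nat_lit 0) (nat_lit 0) (XT.lf (nat_lit 532) (nat_lit 964596164) (nat_lit 0) (nat_lit 1051167153) (nat_lit 456) (nat_lit 1051167153) (nat_lit 289) (nat_lit 1) (nat_lit 282) (nat_lit 1) (nat_lit 288) (nat_lit 1) (nat_lit 362) (nat_lit 347) (nat_lit 311)) (XT.lf (nat_lit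 76) (nat_lit 228700235) (nat_lit 0) (nat_lit 2572052475) (nat_lit 532) (nat_lit 228700235) (nat_lit 283) (nat_lit 1) (nat_lit 282) (nat_lit 1) (nat_lit 289) (nat_lit 1) (nat_lit 363) (nat_lit 347) (nat_lit 310)))))) (XT.nd (nat_lit 468) (nat_lit 1596) (nat_lit 0) (XT.nd (nat_lit 234) (nat_lit 760) (nat_lit 0) (XT.nd (nat_lit 78) (nat_lit 456) (nat_lit 0) (XT.lf (nat_lit 76) (nat_lit 1466625956) (nat_lit 0) (nat_lit 59063259) (nat_lit 456) (nat_lit 1466625956) (nat_lit 277) (nat_lit 1) (nat_lit 276) (nat_lit 1) (nat_lit 282) (nat_lit 1) (nat_lit 364) (nat_lit 347) (nat_lit 309)) (XT.nd (nat_lit 78) (nat_lit 0) (nat_lit 0) (XT.lf (nat_lit 532) (nat_lit 2399291965) (nat_lit 0) (nat_lit 278346417) (nat_lit 456) (nat_lit 278346417) (nat_lit 277) (nat_lit 1) (nat_lit 270) (nat_lit 1) (nat_lit 276) (nat_lit 1) (nat_lit 365) (nat_lit 347) (nat_lit 308)) (XT.lf (nat_lit 76) (nat_lit 928564441) (nat_lit 0) (nat_lit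 1062891808) (nat_lit 532) (nat_lit 928564441) (nat_lit 271) (nat_lit 1) (nat_lit 270) (nat_lit 1) (nat_lit 277) (nat_lit 1) (nat_lit 366) (nat_lit 347) (nat_lit 307)))) (XT.nd (nat_lit 78) (nat_lit 380) (nat_lit 0) (XT.lf (nat_lit 456) (nat_lit 1320336448) (nat_lit 0) (nat_lit 782232059) (nat_lit 380) (nat_lit 782232059) (nat_lit 271) (nat_lit 1) (nat_lit 265) (nat_lit 1) (nat_lit 270) (nat_lit 1) (nat_lit 367) (nat_lit 347) (nat_lit 306)) (XT.nd (nat_lit 78) (nat_lit 380) (nat_lit 0) (XT.lf (nat_lit 76) (nat_lit 393053054) (nat_lit 0) (nat_lit 2064119410) (nat_lit 456) (nat_lit 393053054) (nat_lit 266) (nat_lit 1) (nat_lit 265) (nat_lit 1) (nat_lit 271) (nat_lit 1) (nat_lit 368) (nat_lit 347) (nat_lit 305)) (XT.lf (nat_lit 456) (nat_lit 247199410) (nat_lit 0) (nat_lit 1284434343) (nat_lit 380) (nat_lit 1284434343) (nat_lit 266) (nat_lit 1) (nat_lit 260) (nat_lit 1) (nat_lit 265) (nat_lit 1) (nat_lit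 369) (nat_lit 347) (nat_lit 304))))) (XT.nd (nat_lit 234) (nat_lit 760) (nat_lit 0) (XT.nd (nat_lit 78) (nat_lit 380) (nat_lit 0) (XT.lf (nat_lit 456) (nat_lit 2506944342) (nat_lit 0) (nat_lit 137864254) (nat_lit 380) (nat_lit 137864254) (nat_lit 260) (nat_lit 1) (nat_lit 254) (nat_lit 1) (nat_lit 259) (nat_lit 1) (nat_lit 370) (nat_lit 347) (nat_lit 303)) (XT.nd (nat_lit 78) (nat_lit 380) (nat_lit 0) (XT.lf (nat_lit 76) (nat_lit 973308787) (nat_lit 0) (nat_lit 802840548) (nat_lit 456) (nat_lit 973308787) (nat_lit 255) (nat_lit 1) (nat_lit 254) (nat_lit 1) (nat_lit 260) (nat_lit 1) (nat_lit 371) (nat_lit 347) (nat_lit 302)) (XT.lf (nat_lit 456) (nat_lit 1394740020) (nat_lit 0) (nat_lit 661120772) (nat_lit 380) (nat_lit 661120772) (nat_lit 255) (nat_lit 1) (nat_lit 249) (nat_lit 1) (nat_lit 254) (nat_lit 1) (nat_lit 372) (nat_lit 347) (nat_lit 301)))) (XT.nd (nat_lit 78) (nat_lit 760) (nat_lit 0) (XT.lf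 (nat_lit 76) (nat_lit 422563630) (nat_lit 0) (nat_lit 1839921449) (nat_lit 456) (nat_lit 422563630) (nat_lit 250) (nat_lit 1) (nat_lit 249) (nat_lit 1) (nat_lit 255) (nat_lit 1) (nat_lit 373) (nat_lit 347) (nat_lit 300)) (XT.nd (nat_lit 78) (nat_lit 456) (nat_lit 0) (XT.lf (nat_lit 380) (nat_lit 293484195) (nat_lit 0) (nat_lit 1180018176) (nat_lit 304) (nat_lit 1180018176) (nat_lit 250) (nat_lit 1) (nat_lit 245) (nat_lit 1) (nat_lit 249) (nat_lit 1) (nat_lit 374) (nat_lit 347) (nat_lit 299)) (XT.lf (nat_lit 456) (nat_lit 2380088585) (nat_lit 0) (nat_lit 121297722) (nat_lit 380) (nat_lit 121297722) (nat_lit 245) (nat_lit 1) (nat_lit 239) (nat_lit 1) (nat_lit 244) (nat_lit 1) (nat_lit 375) (nat_lit 347) (nat_lit 298))))))))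
noncomputable def ec26 : XT := (XT.nd (nat_lit 49608) (nat_lit 0) (nat_lit 8512) (XT.nd (nat_lit 858) (nat_lit 836) (nat_lit 0) (XT.nd (nat_lit 390) (nat_lit 912) (nat_lit 0) (XT.nd (nat_lit 156) (nat_lit 684) (nat_lit 0) (XT.nd (nat_lit 78) (nat_lit 304) (nat_lit 0) (XT.lf (nat_lit 76) (nat_lit 905798637) (nat_lit 0) (nat_lit 780379853) (nat_lit 456) (nat_lit 905798637) (nat_lit 240) (nat_lit 1) (nat_lit 239) (nat_lit 1) (nat_lit 245) (nat_lit 1) (nat_lit 376) (nat_lit 347) (nat_lit 297)) (XT.lf (nat_lit 380) (nat_lit 1252013179) (nat_lit 0) (nat_lit 654964291) (nat_lit 304) (nat_lit 654964291) (nat_lit 240) (nat_lit 1) (nat_lit 235) (nat_lit 1) (nat_lit 239) (nat_lit 1) (nat_lit 377) (nat_lit 347) (nat_lit 296))) (XT.nd (nat_lit 78) (nat_lit 684) (nat_lit 0) (XT.lf (nat_lit 76) (nat_lit 348165740) (nat_lit 0) (nat_lit 1836088680) (nat_lit 380) (nat_lit 348165740) (nat_lit 236) (nat_lit 1) (nat_lit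 235) (nat_lit 1) (nat_lit 240) (nat_lit 1) (nat_lit 378) (nat_lit 347) (nat_lit 295)) (XT.nd (nat_lit 78) (nat_lit 380) (nat_lit 0) (XT.lf (nat_lit 380) (nat_lit 138833816) (nat_lit 0) (nat_lit 1182200148) (nat_lit 304) (nat_lit 1182200148) (nat_lit 236) (nat_lit 1) (nat_lit 231) (nat_lit 1) (nat_lit 235) (nat_lit 1) (nat_lit 379) (nat_lit 347) (nat_lit 294)) (XT.lf (nat_lit 380) (nat_lit 2074782225) (nat_lit 0) (nat_lit 199920907) (nat_lit 304) (nat_lit 199920907) (nat_lit 231) (nat_lit 1) (nat_lit 226) (nat_lit 1) (nat_lit 230) (nat_lit 1) (nat_lit 380) (nat_lit 347) (nat_lit 293))))) (XT.nd (nat_lit 234) (nat_lit 608) (nat_lit 0) (XT.nd (nat_lit 78) (nat_lit 304) (nat_lit 0) (XT.lf (nat_lit 76) (nat_lit 753034187) (nat_lit 0) (nat_lit 940141699) (nat_lit 380) (nat_lit 753034187) (nat_lit 227) (nat_lit 1) (nat_lit 226) (nat_lit 1) (nat_lit 231) (nat_lit 1) (nat_lit 381) (nat_lit 347) (nat_lit 292))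 (XT.nd (nat_lit 78) (nat_lit 0) (nat_lit 0) (XT.lf (nat_lit 380) (nat_lit 944701931) (nat_lit 0) (nat_lit 736826655) (nat_lit 304) (nat_lit 736826655) (nat_lit 227) (nat_lit 1) (nat_lit 222) (nat_lit 1) (nat_lit 226) (nat_lit 1) (nat_lit 382) (nat_lit 347) (nat_lit 291)) (XT.lf (nat_lit 76) (nat_lit 195166241) (nat_lit 0) (nat_lit 2000706802) (nat_lit 380) (nat_lit 195166241) (nat_lit 223) (nat_lit 1) (nat_lit 222) (nat_lit 1) (nat_lit 227) (nat_lit 1) (nat_lit 383) (nat_lit 347) (nat_lit 290)))) (XT.nd (nat_lit 78) (nat_lit 304) (nat_lit 0) (XT.lf (nat_lit 76) (nat_lit 1099831449) (nat_lit 0) (nat_lit 164236429) (nat_lit 304) (nat_lit 1099831449) (nat_lit 219) (nat_lit 1) (nat_lit 218) (nat_lit 1) (nat_lit 222) (nat_lit 1) (nat_lit 384) (nat_lit 347) (nat_lit 289)) (XT.nd (nat_lit 78) (nat_lit 0) (nat_lit 0) (XT.lf (nat_lit 380) (nat_lit 1636782502) (nat_lit 0) (nat_lit 350250391) (nat_lit 304) (nat_lit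 350250391) (nat_lit 219) (nat_lit 1) (nat_lit 214) (nat_lit 1) (nat_lit 218) (nat_lit 1) (nat_lit 385) (nat_lit 347) (nat_lit 288)) (XT.lf (nat_lit 76) (nat_lit 537045456) (nat_lit 0) (nat_lit 1236879540) (nat_lit 380) (nat_lit 537045456) (nat_lit 215) (nat_lit 1) (nat_lit 214) (nat_lit 1) (nat_lit 219) (nat_lit 1) (nat_lit 386) (nat_lit 347) (nat_lit 287)))))) (XT.nd (nat_lit 48282) (nat_lit 0) (nat_lit 12996) (XT.nd (nat_lit 156) (nat_lit 228) (nat_lit 0) (XT.nd (nat_lit 78) (nat_lit 380) (nat_lit 0) (XT.lf (nat_lit 304) (nat_lit 515662129) (nat_lit 0) (nat_lit 884704347) (nat_lit 228) (nat_lit 884704347) (nat_lit 215) (nat_lit 1) (nat_lit 211) (nat_lit 1) (nat_lit 214) (nat_lit 1) (nat_lit 387) (nat_lit 347) (nat_lit 286)) (XT.lf (nat_lit 380) (nat_lit 2228461094) (nat_lit 0) (nat_lit 15648714) (nat_lit 304) (nat_lit 15648714) (nat_lit 211) (nat_lit 1) (nat_lit 206) (nat_lit 1) (nat_lit 210) (nat_lit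 1) (nat_lit 388) (nat_lit 347) (nat_lit 285))) (XT.nd (nat_lit 78) (nat_lit 228) (nat_lit 0) (XT.lf (nat_lit 76) (nat_lit 830209174) (nat_lit 0) (nat_lit 573978112) (nat_lit 380) (nat_lit 830209174) (nat_lit 207) (nat_lit 1) (nat_lit 206) (nat_lit 1) (nat_lit 211) (nat_lit 1) (nat_lit 389) (nat_lit 347) (nat_lit 284)) (XT.nd (nat_lit 47970) (nat_lit 0) (nat_lit 12996) (XT.lf (nat_lit 304) (nat_lit 1103293299) (nat_lit 0) (nat_lit 553157949) (nat_lit 228) (nat_lit 553157949) (nat_lit 207) (nat_lit 1) (nat_lit 203) (nat_lit 1) (nat_lit 206) (nat_lit 1) (nat_lit 390) (nat_lit 347) (nat_lit 283)) (XT.lf (nat_lit 1292) (nat_lit 472457203) (nat_lit 0) (nat_lit 1625472505) (nat_lit 1292) (nat_lit 472457203) (nat_lit 391) (nat_lit 1) (nat_lit 374) (nat_lit 0) (nat_lit 391) (nat_lit 0) (nat_lit 324) (nat_lit 348) (nat_lit 348))))) (XT.nd (nat_lit 234) (nat_lit 0) (nat_lit 152) (XT.nd (nat_lit 78) (nat_lit 0)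 (nat_lit 76) (XT.lf (nat_lit 1292) (nat_lit 1846371030) (nat_lit 76) (nat_lit 1609536500) (nat_lit 0) (nat_lit 1609536500) (nat_lit 391) (nat_lit 1) (nat_lit 375) (nat_lit 1) (nat_lit 374) (nat_lit 0) (nat_lit 325) (nat_lit 348) (nat_lit 347)) (XT.nd (nat_lit 78) (nat_lit 0) (nat_lit 0) (XT.lf (nat_lit 1292) (nat_lit 892949052) (nat_lit 0) (nat_lit 3205877749) (nat_lit 1216) (nat_lit 892949052) (nat_lit 392) (nat_lit 1) (nat_lit 375) (nat_lit 1) (nat_lit 391) (nat_lit 1) (nat_lit 326) (nat_lit 348) (nat_lit 346)) (XT.lf (nat_lit 1292) (nat_lit 1695756354) (nat_lit 76) (nat_lit 1611790779) (nat_lit 0) (nat_lit 1611790779) (nat_lit 392) (nat_lit 1) (nat_lit 376) (nat_lit 1) (nat_lit 375) (nat_lit 1) (nat_lit 327) (nat_lit 348) (nat_lit 345)))) (XT.nd (nat_lit 78) (nat_lit 0) (nat_lit 0) (XT.lf (nat_lit 1292) (nat_lit 795725212) (nat_lit 0) (nat_lit 3257070369) (nat_lit 1216) (nat_lit 795725212) (nat_lit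 393) (nat_lit 1) (nat_lit 376) (nat_lit 1) (nat_lit 392) (nat_lit 1) (nat_lit 328) (nat_lit 348) (nat_lit 344)) (XT.nd (nat_lit 78) (nat_lit 0) (nat_lit 76) (XT.lf (nat_lit 1292) (nat_lit 1458250468) (nat_lit 76) (nat_lit 1660292890) (nat_lit 0) (nat_lit 1660292890) (nat_lit 393) (nat_lit 1) (nat_lit 377) (nat_lit 1) (nat_lit 376) (nat_lit 1) (nat_lit 329) (nat_lit 348) (nat_lit 343)) (XT.lf (nat_lit 1292) (nat_lit 657246000) (nat_lit 0) (nat_lit 3396268824) (nat_lit 1216) (nat_lit 657246000) (nat_lit 394) (nat_lit 1) (nat_lit 377) (nat_lit 1) (nat_lit 393) (nat_lit 1) (nat_lit 330) (nat_lit 348) (nat_lit 342))))))) (XT.nd (nat_lit 858) (nat_lit 3648) (nat_lit 0) (XT.nd (nat_lit 390) (nat_lit 1064) (nat_lit 0) (XT.nd (nat_lit 156) (nat_lit 0) (nat_lit 76) (XT.nd (nat_lit 78) (nat_lit 0) (nat_lit 76) (XT.lf (nat_lit 1292) (nat_lit 1141623917) (nat_lit 76) (nat_lit 1751037225) (nat_lit 0) (nat_lit 1751037225)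 (nat_lit 394) (nat_lit 1) (nat_lit 378) (nat_lit 1) (nat_lit 377) (nat_lit 1) (nat_lit 331) (nat_lit 348) (nat_lit 341)) (XT.lf (nat_lit 1292) (nat_lit 481243810) (nat_lit 0) (nat_lit 3615772349) (nat_lit 1216) (nat_lit 481243810) (nat_lit 395) (nat_lit 1) (nat_lit 378) (nat_lit 1) (nat_lit 394) (nat_lit 1) (nat_lit 332) (nat_lit 348) (nat_lit 340))) (XT.nd (nat_lit 78) (nat_lit 0) (nat_lit 76) (XT.lf (nat_lit 1292) (nat_lit 753120138) (nat_lit 76) (nat_lit 1880287459) (nat_lit 0) (nat_lit 1880287459) (nat_lit 395) (nat_lit 1) (nat_lit 379) (nat_lit 1) (nat_lit 378) (nat_lit 1) (nat_lit 333) (nat_lit 348) (nat_lit 339)) (XT.nd (nat_lit 78) (nat_lit 0) (nat_lit 0) (XT.lf (nat_lit 1292) (nat_lit 271197051) (nat_lit 0) (nat_lit 3908399389) (nat_lit 1216) (nat_lit 271197051) (nat_lit 396) (nat_lit 1) (nat_lit 379) (nat_lit 1) (nat_lit 395) (nat_lit 1) (nat_lit 334) (nat_lit 348) (nat_lit 338)) (XT.lf (nat_lit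 1292) (nat_lit 299488076) (nat_lit 76) (nat_lit 2044559943) (nat_lit 0) (nat_lit 2044559943) (nat_lit 396) (nat_lit 1) (nat_lit 380) (nat_lit 1) (nat_lit 379) (nat_lit 1) (nat_lit 335) (nat_lit 348) (nat_lit 337))))) (XT.nd (nat_lit 234) (nat_lit 0) (nat_lit 76) (XT.nd (nat_lit 78) (nat_lit 1292) (nat_lit 0) (XT.lf (nat_lit 1292) (nat_lit 30345877) (nat_lit 0) (nat_lit 4267455541) (nat_lit 1216) (nat_lit 30345877) (nat_lit 397) (nat_lit 1) (nat_lit 380) (nat_lit 1) (nat_lit 396) (nat_lit 1) (nat_lit 336) (nat_lit 348) (nat_lit 336)) (XT.nd (nat_lit 78) (nat_lit 0) (nat_lit 0) (XT.lf (nat_lit 1368) (nat_lit 2029668318) (nat_lit 0) (nat_lit 208830986) (nat_lit 1292) (nat_lit 2029668318) (nat_lit 381) (nat_lit 1) (nat_lit 363) (nat_lit 1) (nat_lit 380) (nat_lit 1) (nat_lit 337) (nat_lit 348) (nat_lit 335)) (XT.lf (nat_lit 1368) (nat_lit 3737927547) (nat_lit 76) (nat_lit 235956797) (nat_lit 0) (nat_lit 235956797)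 (nat_lit 381) (nat_lit 1) (nat_lit 364) (nat_lit 1) (nat_lit 363) (nat_lit 1) (nat_lit 338) (nat_lit 348) (nat_lit 334)))) (XT.nd (nat_lit 78) (nat_lit 0) (nat_lit 0) (XT.lf (nat_lit 1368) (nat_lit 1694435351) (nat_lit 0) (nat_lit 763264850) (nat_lit 1292) (nat_lit 1694435351) (nat_lit 382) (nat_lit 1) (nat_lit 364) (nat_lit 1) (nat_lit 381) (nat_lit 1) (nat_lit 339) (nat_lit 348) (nat_lit 333)) (XT.nd (nat_lit 78) (nat_lit 0) (nat_lit 76) (XT.lf (nat_lit 1368) (nat_lit 3042497575) (nat_lit 76) (nat_lit 526697592) (nat_lit 0) (nat_lit 526697592) (nat_lit 382) (nat_lit 1) (nat_lit 365) (nat_lit 1) (nat_lit 364) (nat_lit 1) (nat_lit 340) (nat_lit 348) (nat_lit 332)) (XT.lf (nat_lit 76) (nat_lit 1338044623) (nat_lit 0) (nat_lit 1364321468) (nat_lit 1292) (nat_lit 1338044623) (nat_lit 366) (nat_lit 1) (nat_lit 365) (nat_lit 1) (nat_lit 382) (nat_lit 1) (nat_lit 341) (nat_lit 348) (nat_lit 331)))))) (XT.nd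 (nat_lit 390) (nat_lit 1748) (nat_lit 0) (XT.nd (nat_lit 156) (nat_lit 1216) (nat_lit 0) (XT.nd (nat_lit 78) (nat_lit 0) (nat_lit 0) (XT.lf (nat_lit 912) (nat_lit 2306977304) (nat_lit 0) (nat_lit 839588881) (nat_lit 836) (nat_lit 839588881) (nat_lit 366) (nat_lit 1) (nat_lit 354) (nat_lit 1) (nat_lit 365) (nat_lit 1) (nat_lit 342) (nat_lit 348) (nat_lit 330)) (XT.lf (nat_lit 76) (nat_lit 962887417) (nat_lit 0) (nat_lit 2007039564) (nat_lit 912) (nat_lit 962887417) (nat_lit 355) (nat_lit 1) (nat_lit 354) (nat_lit 1) (nat_lit 366) (nat_lit 1) (nat_lit 343) (nat_lit 348) (nat_lit 329))) (XT.nd (nat_lit 78) (nat_lit 608) (nat_lit 0) (XT.lf (nat_lit 684) (nat_lit 1535998493) (nat_lit 0) (nat_lit 1172227869) (nat_lit 608) (nat_lit 1172227869) (nat_lit 355) (nat_lit 1) (nat_lit 346) (nat_lit 1) (nat_lit 354) (nat_lit 1) (nat_lit 344) (nat_lit 348) (nat_lit 328)) (XT.nd (nat_lit 78) (nat_lit 608) (nat_lit 0)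 (XT.lf (nat_lit 76) (nat_lit 571183476) (nat_lit 0) (nat_lit 2686809214) (nat_lit 684) (nat_lit 571183476) (nat_lit 347) (nat_lit 1) (nat_lit 346) (nat_lit 1) (nat_lit 355) (nat_lit 1) (nat_lit 345) (nat_lit 348) (nat_lit 327)) (XT.lf (nat_lit 684) (nat_lit 733859144) (nat_lit 0) (nat_lit 1522382637) (nat_lit 608) (nat_lit 1522382637) (nat_lit 347) (nat_lit 1) (nat_lit 338) (nat_lit 1) (nat_lit 346) (nat_lit 1) (nat_lit 346) (nat_lit 348) (nat_lit 326))))) (XT.nd (nat_lit 234) (nat_lit 532) (nat_lit 0) (XT.nd (nat_lit 78) (nat_lit 1216) (nat_lit 0) (XT.lf (nat_lit 76) (nat_lit 164991843) (nat_lit 0) (nat_lit 3399349734) (nat_lit 684) (nat_lit 164991843) (nat_lit 339) (nat_lit 1) (nat_lit 338) (nat_lit 1) (nat_lit 347) (nat_lit 1) (nat_lit 347) (nat_lit 348) (nat_lit 325)) (XT.nd (nat_lit 78) (nat_lit 608) (nat_lit 0) (XT.lf (nat_lit 76) (nat_lit 1793443591) (nat_lit 0) (nat_lit 93592685) (nat_lit 608)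 (nat_lit 1793443591) (nat_lit 331) (nat_lit 1) (nat_lit 330) (nat_lit 1) (nat_lit 338) (nat_lit 1) (nat_lit 348) (nat_lit 348) (nat_lit 324)) (XT.lf (nat_lit 684) (nat_lit 3130254974) (nat_lit 0) (nat_lit 251290913) (nat_lit 608) (nat_lit 251290913) (nat_lit 331) (nat_lit 1) (nat_lit 322) (nat_lit 1) (nat_lit 330) (nat_lit 1) (nat_lit 349) (nat_lit 348) (nat_lit 323)))) (XT.nd (nat_lit 78) (nat_lit 532) (nat_lit 0) (XT.lf (nat_lit 76) (nat_lit 1327965054) (nat_lit 0) (nat_lit 929748587) (nat_lit 684) (nat_lit 1327965054) (nat_lit 323) (nat_lit 1) (nat_lit 322) (nat_lit 1) (nat_lit 331) (nat_lit 1) (nat_lit 350) (nat_lit 348) (nat_lit 322)) (XT.nd (nat_lit 78) (nat_lit 0) (nat_lit 0) (XT.lf (nat_lit 608) (nat_lit 2186305347) (nat_lit 0) (nat_lit 676661645) (nat_lit 532) (nat_lit 676661645) (nat_lit 323) (nat_lit 1) (nat_lit 315) (nat_lit 1) (nat_lit 322) (nat_lit 1) (nat_lit 351) (nat_lit 348) (nat_lit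 321)) (XT.lf (nat_lit 76) (nat_lit 854356195) (nat_lit 0) (nat_lit 1785576969) (nat_lit 608) (nat_lit 854356195) (nat_lit 316) (nat_lit 1) (nat_lit 315) (nat_lit 1) (nat_lit 323) (nat_lit 1) (nat_lit 352) (nat_lit 348) (nat_lit 320))))))))
noncomputable def ec27 : XT := (XT.nd (nat_lit 1716) (nat_lit 3040) (nat_lit 0) (XT.nd (nat_lit 858) (nat_lit 2356) (nat_lit 0) (XT.nd (nat_lit 390) (nat_lit 1824) (nat_lit 0) (XT.nd (nat_lit 156) (nat_lit 1064) (nat_lit 0) (XT.nd (nat_lit 78) (nat_lit 0) (nat_lit 0) (XT.lf (nat_lit 608) (nat_lit 1227524251) (nat_lit 0) (nat_lit 1111118259) (nat_lit 532) (nat_lit 1111118259) (nat_lit 316) (nat_lit 1) (nat_lit 308) (nat_lit 1) (nat_lit 315) (nat_lit 1) (nat_lit 353) (nat_lit 348) (nat_lit 319)) (XT.lf (nat_lit 76) (nat_lit 374098797) (nat_lit 0) (nat_lit 2657977543) (nat_lit 608) (nat_lit 374098797) (nat_lit 309) (nat_lit 1) (nat_lit 308) (nat_lit 1) (nat_lit 316) (nat_lit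 1) (nat_lit 354) (nat_lit 348) (nat_lit 318))) (XT.nd (nat_lit 78) (nat_lit 608) (nat_lit 0) (XT.lf (nat_lit 532) (nat_lit 256773306) (nat_lit 0) (nat_lit 1553163348) (nat_lit 456) (nat_lit 1553163348) (nat_lit 309) (nat_lit 1) (nat_lit 302) (nat_lit 1) (nat_lit 308) (nat_lit 1) (nat_lit 355) (nat_lit 348) (nat_lit 317)) (XT.nd (nat_lit 78) (nat_lit 0) (nat_lit 0) (XT.lf (nat_lit 608) (nat_lit 3100381373) (nat_lit 0) (nat_lit 110347432) (nat_lit 532) (nat_lit 110347432) (nat_lit 302) (nat_lit 1) (nat_lit 294) (nat_lit 1) (nat_lit 301) (nat_lit 1) (nat_lit 356) (nat_lit 348) (nat_lit 316)) (XT.lf (nat_lit 76) (nat_lit 1285058082) (nat_lit 0) (nat_lit 709194327) (nat_lit 608) (nat_lit 1285058082) (nat_lit 295) (nat_lit 1) (nat_lit 294) (nat_lit 1) (nat_lit 302) (nat_lit 1) (nat_lit 357) (nat_lit 348) (nat_lit 315))))) (XT.nd (nat_lit 234) (nat_lit 912) (nat_lit 0) (XT.nd (nat_lit 78) (nat_lit 456) (nat_lit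 0) (XT.lf (nat_lit 532) (nat_lit 2048342690) (nat_lit 0) (nat_lit 595108012) (nat_lit 456) (nat_lit 595108012) (nat_lit 295) (nat_lit 1) (nat_lit 288) (nat_lit 1) (nat_lit 294) (nat_lit 1) (nat_lit 358) (nat_lit 348) (nat_lit 314)) (XT.nd (nat_lit 78) (nat_lit 456) (nat_lit 0) (XT.lf (nat_lit 76) (nat_lit 760742940) (nat_lit 0) (nat_lit 1676917302) (nat_lit 532) (nat_lit 760742940) (nat_lit 289) (nat_lit 1) (nat_lit 288) (nat_lit 1) (nat_lit 295) (nat_lit 1) (nat_lit 359) (nat_lit 348) (nat_lit 313)) (XT.lf (nat_lit 532) (nat_lit 993534049) (nat_lit 0) (nat_lit 1082702168) (nat_lit 456) (nat_lit 1082702168) (nat_lit 289) (nat_lit 1) (nat_lit 282) (nat_lit 1) (nat_lit 288) (nat_lit 1) (nat_lit 360) (nat_lit 348) (nat_lit 312)))) (XT.nd (nat_lit 78) (nat_lit 912) (nat_lit 0) (XT.lf (nat_lit 76) (nat_lit 235561242) (nat_lit 0) (nat_lit 2649214049) (nat_lit 532) (nat_lit 235561242) (nat_lit 283) (nat_lit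 1) (nat_lit 282) (nat_lit 1) (nat_lit 289) (nat_lit 1) (nat_lit 361) (nat_lit 348) (nat_lit 311)) (XT.nd (nat_lit 78) (nat_lit 456) (nat_lit 0) (XT.lf (nat_lit 76) (nat_lit 1510624735) (nat_lit 0) (nat_lit 60835157) (nat_lit 456) (nat_lit 1510624735) (nat_lit 277) (nat_lit 1) (nat_lit 276) (nat_lit 1) (nat_lit 282) (nat_lit 1) (nat_lit 362) (nat_lit 348) (nat_lit 310)) (XT.lf (nat_lit 532) (nat_lit 2471270724) (nat_lit 0) (nat_lit 286696810) (nat_lit 456) (nat_lit 286696810) (nat_lit 277) (nat_lit 1) (nat_lit 270) (nat_lit 1) (nat_lit 276) (nat_lit 1) (nat_lit 363) (nat_lit 348) (nat_lit 309)))))) (XT.nd (nat_lit 390) (nat_lit 1140) (nat_lit 0) (XT.nd (nat_lit 156) (nat_lit 836) (nat_lit 0) (XT.nd (nat_lit 78) (nat_lit 380) (nat_lit 0) (XT.lf (nat_lit 76) (nat_lit 956421374) (nat_lit 0) (nat_lit 1094778562) (nat_lit 532) (nat_lit 956421374) (nat_lit 271) (nat_lit 1) (nat_lit 270) (nat_lit 1) (nat_lit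 277) (nat_lit 1) (nat_lit 364) (nat_lit 348) (nat_lit 308)) (XT.lf (nat_lit 456) (nat_lit 1359946542) (nat_lit 0) (nat_lit 805699021) (nat_lit 380) (nat_lit 805699021) (nat_lit 271) (nat_lit 1) (nat_lit 265) (nat_lit 1) (nat_lit 270) (nat_lit 1) (nat_lit 365) (nat_lit 348) (nat_lit 307))) (XT.nd (nat_lit 78) (nat_lit 836) (nat_lit 0) (XT.lf (nat_lit 76) (nat_lit 404844645) (nat_lit 0) (nat_lit 2126042992) (nat_lit 456) (nat_lit 404844645) (nat_lit 266) (nat_lit 1) (nat_lit 265) (nat_lit 1) (nat_lit 271) (nat_lit 1) (nat_lit 366) (nat_lit 348) (nat_lit 306)) (XT.nd (nat_lit 78) (nat_lit 456) (nat_lit 0) (XT.lf (nat_lit 456) (nat_lit 254615392) (nat_lit 0) (nat_lit 1322967373) (nat_lit 380) (nat_lit 1322967373) (nat_lit 266) (nat_lit 1) (nat_lit 260) (nat_lit 1) (nat_lit 265) (nat_lit 1) (nat_lit 367) (nat_lit 348) (nat_lit 305)) (XT.lf (nat_lit 456) (nat_lit 2582152672) (nat_lit 0) (nat_lit 142000182)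 (nat_lit 380) (nat_lit 142000182) (nat_lit 260) (nat_lit 1) (nat_lit 254) (nat_lit 1) (nat_lit 259) (nat_lit 1) (nat_lit 368) (nat_lit 348) (nat_lit 304))))) (XT.nd (nat_lit 234) (nat_lit 760) (nat_lit 0) (XT.nd (nat_lit 78) (nat_lit 380) (nat_lit 0) (XT.lf (nat_lit 76) (nat_lit 1002508051) (nat_lit 0) (nat_lit 826925765) (nat_lit 456) (nat_lit 1002508051) (nat_lit 255) (nat_lit 1) (nat_lit 254) (nat_lit 1) (nat_lit 260) (nat_lit 1) (nat_lit 369) (nat_lit 348) (nat_lit 303)) (XT.nd (nat_lit 78) (nat_lit 0) (nat_lit 0) (XT.lf (nat_lit 456) (nat_lit 1436582221) (nat_lit 0) (nat_lit 680954395) (nat_lit 380) (nat_lit 680954395) (nat_lit 255) (nat_lit 1) (nat_lit 249) (nat_lit 1) (nat_lit 254) (nat_lit 1) (nat_lit 370) (nat_lit 348) (nat_lit 302)) (XT.lf (nat_lit 76) (nat_lit 435240539) (nat_lit 0) (nat_lit 1895119092) (nat_lit 456) (nat_lit 435240539) (nat_lit 250) (nat_lit 1) (nat_lit 249) (nat_lit 1) (nat_lit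 255) (nat_lit 1) (nat_lit 371) (nat_lit 348) (nat_lit 301)))) (XT.nd (nat_lit 78) (nat_lit 456) (nat_lit 0) (XT.lf (nat_lit 380) (nat_lit 302288721) (nat_lit 0) (nat_lit 1215418721) (nat_lit 304) (nat_lit 1215418721) (nat_lit 250) (nat_lit 1) (nat_lit 245) (nat_lit 1) (nat_lit 249) (nat_lit 1) (nat_lit 372) (nat_lit 348) (nat_lit 300)) (XT.nd (nat_lit 78) (nat_lit 0) (nat_lit 0) (XT.lf (nat_lit 456) (nat_lit 2451491243) (nat_lit 0) (nat_lit 124936654) (nat_lit 380) (nat_lit 124936654) (nat_lit 245) (nat_lit 1) (nat_lit 239) (nat_lit 1) (nat_lit 244) (nat_lit 1) (nat_lit 373) (nat_lit 348) (nat_lit 299)) (XT.lf (nat_lit 76) (nat_lit 932972596) (nat_lit 0) (nat_lit 803791249) (nat_lit 456) (nat_lit 932972596) (nat_lit 240) (nat_lit 1) (nat_lit 239) (nat_lit 1) (nat_lit 245) (nat_lit 1) (nat_lit 374) (nat_lit 348) (nat_lit 298))))))) (XT.nd (nat_lit 858) (nat_lit 912) (nat_lit 0) (XT.nd (nat_lit 390) (nat_lit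 1140) (nat_lit 0) (XT.nd (nat_lit 156) (nat_lit 684) (nat_lit 0) (XT.nd (nat_lit 78) (nat_lit 0) (nat_lit 0) (XT.lf (nat_lit 380) (nat_lit 1289573575) (nat_lit 0) (nat_lit 674613220) (nat_lit 304) (nat_lit 674613220) (nat_lit 240) (nat_lit 1) (nat_lit 235) (nat_lit 1) (nat_lit 239) (nat_lit 1) (nat_lit 375) (nat_lit 348) (nat_lit 297)) (XT.lf (nat_lit 76) (nat_lit 358610712) (nat_lit 0) (nat_lit 1891171340) (nat_lit 380) (nat_lit 358610712) (nat_lit 236) (nat_lit 1) (nat_lit 235) (nat_lit 1) (nat_lit 240) (nat_lit 1) (nat_lit 376) (nat_lit 348) (nat_lit 296))) (XT.nd (nat_lit 78) (nat_lit 380) (nat_lit 0) (XT.lf (nat_lit 380) (nat_lit 142998830) (nat_lit 0) (nat_lit 1217666153) (nat_lit 304) (nat_lit 1217666153) (nat_lit 236) (nat_lit 1) (nat_lit 231) (nat_lit 1) (nat_lit 235) (nat_lit 1) (nat_lit 377) (nat_lit 348) (nat_lit 295)) (XT.nd (nat_lit 78) (nat_lit 0) (nat_lit 0) (XT.lf (nat_lit 380) (nat_lit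 2137025691) (nat_lit 0) (nat_lit 205918534) (nat_lit 304) (nat_lit 205918534) (nat_lit 231) (nat_lit 1) (nat_lit 226) (nat_lit 1) (nat_lit 230) (nat_lit 1) (nat_lit 378) (nat_lit 348) (nat_lit 294)) (XT.lf (nat_lit 76) (nat_lit 775625213) (nat_lit 0) (nat_lit 968345950) (nat_lit 380) (nat_lit 775625213) (nat_lit 227) (nat_lit 1) (nat_lit 226) (nat_lit 1) (nat_lit 231) (nat_lit 1) (nat_lit 379) (nat_lit 348) (nat_lit 293))))) (XT.nd (nat_lit 234) (nat_lit 532) (nat_lit 0) (XT.nd (nat_lit 78) (nat_lit 304) (nat_lit 0) (XT.lf (nat_lit 380) (nat_lit 973042989) (nat_lit 0) (nat_lit 758931455) (nat_lit 304) (nat_lit 758931455) (nat_lit 227) (nat_lit 1) (nat_lit 222) (nat_lit 1) (nat_lit 226) (nat_lit 1) (nat_lit 380) (nat_lit 348) (nat_lit 292)) (XT.nd (nat_lit 78) (nat_lit 304) (nat_lit 0) (XT.lf (nat_lit 76) (nat_lit 201021228) (nat_lit 0) (nat_lit 2060728006) (nat_lit 380) (nat_lit 201021228) (nat_lit 223)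 (nat_lit 1) (nat_lit 222) (nat_lit 1) (nat_lit 227) (nat_lit 1) (nat_lit 381) (nat_lit 348) (nat_lit 291)) (XT.lf (nat_lit 76) (nat_lit 1132826393) (nat_lit 0) (nat_lit 169163522) (nat_lit 304) (nat_lit 1132826393) (nat_lit 219) (nat_lit 1) (nat_lit 218) (nat_lit 1) (nat_lit 222) (nat_lit 1) (nat_lit 382) (nat_lit 348) (nat_lit 290)))) (XT.nd (nat_lit 78) (nat_lit 228) (nat_lit 0) (XT.lf (nat_lit 380) (nat_lit 1685885977) (nat_lit 0) (nat_lit 360757903) (nat_lit 304) (nat_lit 360757903) (nat_lit 219) (nat_lit 1) (nat_lit 214) (nat_lit 1) (nat_lit 218) (nat_lit 1) (nat_lit 383) (nat_lit 348) (nat_lit 289)) (XT.nd (nat_lit 78) (nat_lit 228) (nat_lit 0) (XT.lf (nat_lit 76) (nat_lit 553156820) (nat_lit 0) (nat_lit 1273985927) (nat_lit 380) (nat_lit 553156820) (nat_lit 215) (nat_lit 1) (nat_lit 214) (nat_lit 1) (nat_lit 219) (nat_lit 1) (nat_lit 384) (nat_lit 348) (nat_lit 288)) (XT.lf (nat_lit 304) (nat_lit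 531131993) (nat_lit 0) (nat_lit 911245477) (nat_lit 228) (nat_lit 911245477) (nat_lit 215) (nat_lit 1) (nat_lit 211) (nat_lit 1) (nat_lit 214) (nat_lit 1) (nat_lit 385) (nat_lit 348) (nat_lit 287)))))) (XT.nd (nat_lit 48204) (nat_lit 0) (nat_lit 13300) (XT.nd (nat_lit 234) (nat_lit 304) (nat_lit 0) (XT.nd (nat_lit 78) (nat_lit 228) (nat_lit 0) (XT.lf (nat_lit 380) (nat_lit 2295314927) (nat_lit 0) (nat_lit 16118175) (nat_lit 304) (nat_lit 16118175) (nat_lit 211) (nat_lit 1) (nat_lit 206) (nat_lit 1) (nat_lit 210) (nat_lit 1) (nat_lit 386) (nat_lit 348) (nat_lit 286)) (XT.nd (nat_lit 78) (nat_lit 228) (nat_lit 0) (XT.lf (nat_lit 76) (nat_lit 855115449) (nat_lit 0) (nat_lit 591197455) (nat_lit 380) (nat_lit 855115449) (nat_lit 207) (nat_lit 1) (nat_lit 206) (nat_lit 1) (nat_lit 211) (nat_lit 1) (nat_lit 387) (nat_lit 348) (nat_lit 285)) (XT.lf (nat_lit 304) (nat_lit 1136392098) (nat_lit 0) (nat_lit 569752687)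 (nat_lit 228) (nat_lit 569752687) (nat_lit 207) (nat_lit 1) (nat_lit 203) (nat_lit 1) (nat_lit 206) (nat_lit 1) (nat_lit 388) (nat_lit 348) (nat_lit 284)))) (XT.nd (nat_lit 78) (nat_lit 304) (nat_lit 0) (XT.lf (nat_lit 76) (nat_lit 284007821) (nat_lit 0) (nat_lit 1682766857) (nat_lit 304) (nat_lit 284007821) (nat_lit 204) (nat_lit 1) (nat_lit 203) (nat_lit 1) (nat_lit 207) (nat_lit 1) (nat_lit 389) (nat_lit 348) (nat_lit 283)) (XT.nd (nat_lit 47814) (nat_lit 0) (nat_lit 13300) (XT.lf (nat_lit 76) (nat_lit 1112810242) (nat_lit 0) (nat_lit 297942) (nat_lit 304) (nat_lit 1112810242) (nat_lit 200) (nat_lit 1) (nat_lit 199) (nat_lit 1) (nat_lit 203) (nat_lit 1) (nat_lit 390) (nat_lit 348) (nat_lit 282)) (XT.lf (nat_lit 1292) (nat_lit 486630919) (nat_lit 0) (nat_lit 1674236680) (nat_lit 1292) (nat_lit 486630919) (nat_lit 391) (nat_lit 1) (nat_lit 374) (nat_lit 0) (nat_lit 391) (nat_lit 0) (nat_lit 322) (nat_lit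 349) (nat_lit 349))))) (XT.nd (nat_lit 234) (nat_lit 0) (nat_lit 152) (XT.nd (nat_lit 78) (nat_lit 0) (nat_lit 76) (XT.lf (nat_lit 1292) (nat_lit 1901762161) (nat_lit 76) (nat_lit 1657822595) (nat_lit 0) (nat_lit 1657822595) (nat_lit 391) (nat_lit 1) (nat_lit 375) (nat_lit 1) (nat_lit 374) (nat_lit 0) (nat_lit 323) (nat_lit 349) (nat_lit 348)) (XT.nd (nat_lit 78) (nat_lit 0) (nat_lit 0) (XT.lf (nat_lit 1292) (nat_lit 919737524) (nat_lit 0) (nat_lit 3302054081) (nat_lit 1216) (nat_lit 919737524) (nat_lit 392) (nat_lit 1) (nat_lit 375) (nat_lit 1) (nat_lit 391) (nat_lit 1) (nat_lit 324) (nat_lit 349) (nat_lit 347)) (XT.lf (nat_lit 1292) (nat_lit 1746629045) (nat_lit 76) (nat_lit 1660144502) (nat_lit 0) (nat_lit 1660144502) (nat_lit 392) (nat_lit 1) (nat_lit 376) (nat_lit 1) (nat_lit 375) (nat_lit 1) (nat_lit 325) (nat_lit 349) (nat_lit 346)))) (XT.nd (nat_lit 78) (nat_lit 0) (nat_lit 0) (XT.lf (nat_lit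 1292) (nat_lit 819596968) (nat_lit 0) (nat_lit 3354782480) (nat_lit 1216) (nat_lit 819596968) (nat_lit 393) (nat_lit 1) (nat_lit 376) (nat_lit 1) (nat_lit 392) (nat_lit 1) (nat_lit 326) (nat_lit 349) (nat_lit 345)) (XT.nd (nat_lit 78) (nat_lit 0) (nat_lit 76) (XT.lf (nat_lit 1292) (nat_lit 1501997982) (nat_lit 76) (nat_lit 1710101677) (nat_lit 0) (nat_lit 1710101677) (nat_lit 393) (nat_lit 1) (nat_lit 377) (nat_lit 1) (nat_lit 376) (nat_lit 1) (nat_lit 327) (nat_lit 349) (nat_lit 344)) (XT.lf (nat_lit 1292) (nat_lit 676963380) (nat_lit 0) (nat_lit 3498156888) (nat_lit 1216) (nat_lit 676963380) (nat_lit 394) (nat_lit 1) (nat_lit 377) (nat_lit 1) (nat_lit 393) (nat_lit 1) (nat_lit 328) (nat_lit 349) (nat_lit 343))))))))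
noncomputable def ec28 : XT := (XT.nd (nat_lit 1716) (nat_lit 5776) (nat_lit 0) (XT.nd (nat_lit 858) (nat_lit 3648) (nat_lit 0) (XT.nd (nat_lit 390) (nat_lit 1064) (nat_lit 0) (XT.nd (nat_lit 156) (nat_lit 0) (nat_lit 76) (XT.nd (nat_lit 78) (nat_lit 0) (nat_lit 76) (XT.lf (nat_lit 1292) (nat_lit 1175872635) (nat_lit 76) (nat_lit 1803568342) (nat_lit 0) (nat_lit 1803568342) (nat_lit 394) (nat_lit 1) (nat_lit 378) (nat_lit 1) (nat_lit 377) (nat_lit 1) (nat_lit 329) (nat_lit 349) (nat_lit 342)) (XT.lf (nat_lit 1292) (nat_lit 495681125) (nat_lit 0) (nat_lit 3724245520) (nat_lit 1216) (nat_lit 495681125) (nat_lit 395) (nat_lit 1) (nat_lit 378) (nat_lit 1) (nat_lit 394) (nat_lit 1) (nat_lit 330) (nat_lit 349) (nat_lit 341))) (XT.nd (nat_lit 78) (nat_lit 0) (nat_lit 76) (XT.lf (nat_lit 1292) (nat_lit 775713742) (nat_lit 76) (nat_lit 1936696083) (nat_lit 0) (nat_lit 1936696083) (nat_lit 395) (nat_lit 1) (nat_lit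 379) (nat_lit 1) (nat_lit 378) (nat_lit 1) (nat_lit 331) (nat_lit 349) (nat_lit 340)) (XT.nd (nat_lit 78) (nat_lit 0) (nat_lit 0) (XT.lf (nat_lit 1292) (nat_lit 279332962) (nat_lit 0) (nat_lit 4025651371) (nat_lit 1216) (nat_lit 279332962) (nat_lit 396) (nat_lit 1) (nat_lit 379) (nat_lit 1) (nat_lit 395) (nat_lit 1) (nat_lit 332) (nat_lit 349) (nat_lit 339)) (XT.lf (nat_lit 1292) (nat_lit 308472719) (nat_lit 76) (nat_lit 2105896741) (nat_lit 0) (nat_lit 2105896741) (nat_lit 396) (nat_lit 1) (nat_lit 380) (nat_lit 1) (nat_lit 379) (nat_lit 1) (nat_lit 333) (nat_lit 349) (nat_lit 338))))) (XT.nd (nat_lit 234) (nat_lit 0) (nat_lit 76) (XT.nd (nat_lit 78) (nat_lit 1292) (nat_lit 0) (XT.lf (nat_lit 1292) (nat_lit 31256254) (nat_lit 0) (nat_lit 4395479207) (nat_lit 1216) (nat_lit 31256254) (nat_lit 397) (nat_lit 1) (nat_lit 380) (nat_lit 1) (nat_lit 396) (nat_lit 1) (nat_lit 334) (nat_lit 349) (nat_lit 337))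 (XT.nd (nat_lit 78) (nat_lit 0) (nat_lit 0) (XT.lf (nat_lit 1368) (nat_lit 2090558368) (nat_lit 0) (nat_lit 215095916) (nat_lit 1292) (nat_lit 2090558368) (nat_lit 381) (nat_lit 1) (nat_lit 363) (nat_lit 1) (nat_lit 380) (nat_lit 1) (nat_lit 335) (nat_lit 349) (nat_lit 336)) (XT.lf (nat_lit 1368) (nat_lit 3850065373) (nat_lit 76) (nat_lit 243035501) (nat_lit 0) (nat_lit 243035501) (nat_lit 381) (nat_lit 1) (nat_lit 364) (nat_lit 1) (nat_lit 363) (nat_lit 1) (nat_lit 336) (nat_lit 349) (nat_lit 335)))) (XT.nd (nat_lit 78) (nat_lit 0) (nat_lit 0) (XT.lf (nat_lit 1368) (nat_lit 1745268412) (nat_lit 0) (nat_lit 786162796) (nat_lit 1292) (nat_lit 1745268412) (nat_lit 382) (nat_lit 1) (nat_lit 364) (nat_lit 1) (nat_lit 381) (nat_lit 1) (nat_lit 337) (nat_lit 349) (nat_lit 334)) (XT.nd (nat_lit 78) (nat_lit 0) (nat_lit 76) (XT.lf (nat_lit 1368) (nat_lit 3133772502) (nat_lit 76) (nat_lit 542498519) (nat_lit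 0) (nat_lit 542498519) (nat_lit 382) (nat_lit 1) (nat_lit 365) (nat_lit 1) (nat_lit 364) (nat_lit 1) (nat_lit 338) (nat_lit 349) (nat_lit 333)) (XT.lf (nat_lit 76) (nat_lit 1378185961) (nat_lit 0) (nat_lit 1405251112) (nat_lit 1292) (nat_lit 1378185961) (nat_lit 366) (nat_lit 1) (nat_lit 365) (nat_lit 1) (nat_lit 382) (nat_lit 1) (nat_lit 339) (nat_lit 349) (nat_lit 332)))))) (XT.nd (nat_lit 390) (nat_lit 1748) (nat_lit 0) (XT.nd (nat_lit 156) (nat_lit 1216) (nat_lit 0) (XT.nd (nat_lit 78) (nat_lit 0) (nat_lit 0) (XT.lf (nat_lit 912) (nat_lit 2376186623) (nat_lit 0) (nat_lit 864776548) (nat_lit 836) (nat_lit 864776548) (nat_lit 366) (nat_lit 1) (nat_lit 354) (nat_lit 1) (nat_lit 365) (nat_lit 1) (nat_lit 340) (nat_lit 349) (nat_lit 331)) (XT.lf (nat_lit 76) (nat_lit 991774040) (nat_lit 0) (nat_lit 2067250751) (nat_lit 912) (nat_lit 991774040) (nat_lit 355) (nat_lit 1) (nat_lit 354) (nat_lit 1) (nat_lit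 366) (nat_lit 1) (nat_lit 341) (nat_lit 349) (nat_lit 330))) (XT.nd (nat_lit 78) (nat_lit 608) (nat_lit 0) (XT.lf (nat_lit 684) (nat_lit 1582078447) (nat_lit 0) (nat_lit 1207394705) (nat_lit 608) (nat_lit 1207394705) (nat_lit 355) (nat_lit 1) (nat_lit 346) (nat_lit 1) (nat_lit 354) (nat_lit 1) (nat_lit 342) (nat_lit 349) (nat_lit 329)) (XT.nd (nat_lit 78) (nat_lit 608) (nat_lit 0) (XT.lf (nat_lit 76) (nat_lit 588318981) (nat_lit 0) (nat_lit 2767413490) (nat_lit 684) (nat_lit 588318981) (nat_lit 347) (nat_lit 1) (nat_lit 346) (nat_lit 1) (nat_lit 355) (nat_lit 1) (nat_lit 343) (nat_lit 349) (nat_lit 328)) (XT.lf (nat_lit 684) (nat_lit 755874918) (nat_lit 0) (nat_lit 1568054116) (nat_lit 608) (nat_lit 1568054116) (nat_lit 347) (nat_lit 1) (nat_lit 338) (nat_lit 1) (nat_lit 346) (nat_lit 1) (nat_lit 344) (nat_lit 349) (nat_lit 327))))) (XT.nd (nat_lit 234) (nat_lit 532) (nat_lit 0) (XT.nd (nat_lit 78) (nat_lit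 1216) (nat_lit 0) (XT.lf (nat_lit 76) (nat_lit 169941599) (nat_lit 0) (nat_lit 3501330226) (nat_lit 684) (nat_lit 169941599) (nat_lit 339) (nat_lit 1) (nat_lit 338) (nat_lit 1) (nat_lit 347) (nat_lit 1) (nat_lit 345) (nat_lit 349) (nat_lit 326)) (XT.nd (nat_lit 78) (nat_lit 608) (nat_lit 0) (XT.lf (nat_lit 76) (nat_lit 1847246899) (nat_lit 0) (nat_lit 96400466) (nat_lit 608) (nat_lit 1847246899) (nat_lit 331) (nat_lit 1) (nat_lit 330) (nat_lit 1) (nat_lit 338) (nat_lit 1) (nat_lit 346) (nat_lit 349) (nat_lit 325)) (XT.lf (nat_lit 684) (nat_lit 3224162623) (nat_lit 0) (nat_lit 258829640) (nat_lit 608) (nat_lit 258829640) (nat_lit 331) (nat_lit 1) (nat_lit 322) (nat_lit 1) (nat_lit 330) (nat_lit 1) (nat_lit 347) (nat_lit 349) (nat_lit 324)))) (XT.nd (nat_lit 78) (nat_lit 532) (nat_lit 0) (XT.lf (nat_lit 76) (nat_lit 1367804005) (nat_lit 0) (nat_lit 957641045) (nat_lit 684) (nat_lit 1367804005) (nat_lit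 323) (nat_lit 1) (nat_lit 322) (nat_lit 1) (nat_lit 331) (nat_lit 1) (nat_lit 348) (nat_lit 349) (nat_lit 323)) (XT.nd (nat_lit 78) (nat_lit 0) (nat_lit 0) (XT.lf (nat_lit 608) (nat_lit 2251894508) (nat_lit 0) (nat_lit 696961494) (nat_lit 532) (nat_lit 696961494) (nat_lit 323) (nat_lit 1) (nat_lit 315) (nat_lit 1) (nat_lit 322) (nat_lit 1) (nat_lit 349) (nat_lit 349) (nat_lit 322)) (XT.lf (nat_lit 76) (nat_lit 879986881) (nat_lit 0) (nat_lit 1839144278) (nat_lit 608) (nat_lit 879986881) (nat_lit 316) (nat_lit 1) (nat_lit 315) (nat_lit 1) (nat_lit 323) (nat_lit 1) (nat_lit 350) (nat_lit 349) (nat_lit 321))))))) (XT.nd (nat_lit 858) (nat_lit 2356) (nat_lit 0) (XT.nd (nat_lit 390) (nat_lit 1824) (nat_lit 0) (XT.nd (nat_lit 156) (nat_lit 1064) (nat_lit 0) (XT.nd (nat_lit 78) (nat_lit 0) (nat_lit 0) (XT.lf (nat_lit 608) (nat_lit 1264349979) (nat_lit 0) (nat_lit 1144451807) (nat_lit 532) (nat_lit 1144451807)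 (nat_lit 316) (nat_lit 1) (nat_lit 308) (nat_lit 1) (nat_lit 315) (nat_lit 1) (nat_lit 351) (nat_lit 349) (nat_lit 320)) (XT.lf (nat_lit 76) (nat_lit 385321761) (nat_lit 0) (nat_lit 2737716870) (nat_lit 608) (nat_lit 385321761) (nat_lit 309) (nat_lit 1) (nat_lit 308) (nat_lit 1) (nat_lit 316) (nat_lit 1) (nat_lit 352) (nat_lit 349) (nat_lit 319))) (XT.nd (nat_lit 78) (nat_lit 608) (nat_lit 0) (XT.lf (nat_lit 532) (nat_lit 264476505) (nat_lit 0) (nat_lit 1599758249) (nat_lit 456) (nat_lit 1599758249) (nat_lit 309) (nat_lit 1) (nat_lit 302) (nat_lit 1) (nat_lit 308) (nat_lit 1) (nat_lit 353) (nat_lit 349) (nat_lit 318)) (XT.nd (nat_lit 78) (nat_lit 0) (nat_lit 0) (XT.lf (nat_lit 608) (nat_lit 3193392814) (nat_lit 0) (nat_lit 113657855) (nat_lit 532) (nat_lit 113657855) (nat_lit 302) (nat_lit 1) (nat_lit 294) (nat_lit 1) (nat_lit 301) (nat_lit 1) (nat_lit 354) (nat_lit 349) (nat_lit 317)) (XT.lf (nat_lit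 76) (nat_lit 1323609825) (nat_lit 0) (nat_lit 730470157) (nat_lit 608) (nat_lit 1323609825) (nat_lit 295) (nat_lit 1) (nat_lit 294) (nat_lit 1) (nat_lit 302) (nat_lit 1) (nat_lit 355) (nat_lit 349) (nat_lit 316))))) (XT.nd (nat_lit 234) (nat_lit 912) (nat_lit 0) (XT.nd (nat_lit 78) (nat_lit 456) (nat_lit 0) (XT.lf (nat_lit 532) (nat_lit 2109792971) (nat_lit 0) (nat_lit 612961252) (nat_lit 456) (nat_lit 612961252) (nat_lit 295) (nat_lit 1) (nat_lit 288) (nat_lit 1) (nat_lit 294) (nat_lit 1) (nat_lit 356) (nat_lit 349) (nat_lit 315)) (XT.nd (nat_lit 78) (nat_lit 456) (nat_lit 0) (XT.lf (nat_lit 76) (nat_lit 783565228) (nat_lit 0) (nat_lit 1727224822) (nat_lit 532) (nat_lit 783565228) (nat_lit 289) (nat_lit 1) (nat_lit 288) (nat_lit 1) (nat_lit 295) (nat_lit 1) (nat_lit 357) (nat_lit 349) (nat_lit 314)) (XT.lf (nat_lit 532) (nat_lit 1023340070) (nat_lit 0) (nat_lit 1115183233) (nat_lit 456) (nat_lit 1115183233)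 (nat_lit 289) (nat_lit 1) (nat_lit 282) (nat_lit 1) (nat_lit 288) (nat_lit 1) (nat_lit 358) (nat_lit 349) (nat_lit 313)))) (XT.nd (nat_lit 78) (nat_lit 912) (nat_lit 0) (XT.lf (nat_lit 76) (nat_lit 242628079) (nat_lit 0) (nat_lit 2728690470) (nat_lit 532) (nat_lit 242628079) (nat_lit 283) (nat_lit 1) (nat_lit 282) (nat_lit 1) (nat_lit 289) (nat_lit 1) (nat_lit 359) (nat_lit 349) (nat_lit 312)) (XT.nd (nat_lit 78) (nat_lit 456) (nat_lit 0) (XT.lf (nat_lit 76) (nat_lit 1555943477) (nat_lit 0) (nat_lit 62660212) (nat_lit 456) (nat_lit 1555943477) (nat_lit 277) (nat_lit 1) (nat_lit 276) (nat_lit 1) (nat_lit 282) (nat_lit 1) (nat_lit 360) (nat_lit 349) (nat_lit 311)) (XT.lf (nat_lit 532) (nat_lit 2545408845) (nat_lit 0) (nat_lit 295297714) (nat_lit 456) (nat_lit 295297714) (nat_lit 277) (nat_lit 1) (nat_lit 270) (nat_lit 1) (nat_lit 276) (nat_lit 1) (nat_lit 361) (nat_lit 349) (nat_lit 310)))))) (XT.nd (nat_lit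 390) (nat_lit 1140) (nat_lit 0) (XT.nd (nat_lit 156) (nat_lit 836) (nat_lit 0) (XT.nd (nat_lit 78) (nat_lit 380) (nat_lit 0) (XT.lf (nat_lit 76) (nat_lit 985114015) (nat_lit 0) (nat_lit 1127621919) (nat_lit 532) (nat_lit 985114015) (nat_lit 271) (nat_lit 1) (nat_lit 270) (nat_lit 1) (nat_lit 277) (nat_lit 1) (nat_lit 362) (nat_lit 349) (nat_lit 309)) (XT.lf (nat_lit 456) (nat_lit 1400744938) (nat_lit 0) (nat_lit 829869992) (nat_lit 380) (nat_lit 829869992) (nat_lit 271) (nat_lit 1) (nat_lit 265) (nat_lit 1) (nat_lit 270) (nat_lit 1) (nat_lit 363) (nat_lit 349) (nat_lit 308))) (XT.nd (nat_lit 78) (nat_lit 836) (nat_lit 0) (XT.lf (nat_lit 76) (nat_lit 416989985) (nat_lit 0) (nat_lit 2189824282) (nat_lit 456) (nat_lit 416989985) (nat_lit 266) (nat_lit 1) (nat_lit 265) (nat_lit 1) (nat_lit 271) (nat_lit 1) (nat_lit 364) (nat_lit 349) (nat_lit 307)) (XT.nd (nat_lit 78) (nat_lit 456) (nat_lit 0) (XT.lf (nat_lit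 456) (nat_lit 262253854) (nat_lit 0) (nat_lit 1362656395) (nat_lit 380) (nat_lit 1362656395) (nat_lit 266) (nat_lit 1) (nat_lit 260) (nat_lit 1) (nat_lit 265) (nat_lit 1) (nat_lit 365) (nat_lit 349) (nat_lit 306)) (XT.lf (nat_lit 456) (nat_lit 2659617253) (nat_lit 0) (nat_lit 146260187) (nat_lit 380) (nat_lit 146260187) (nat_lit 260) (nat_lit 1) (nat_lit 254) (nat_lit 1) (nat_lit 259) (nat_lit 1) (nat_lit 366) (nat_lit 349) (nat_lit 305))))) (XT.nd (nat_lit 234) (nat_lit 760) (nat_lit 0) (XT.nd (nat_lit 78) (nat_lit 380) (nat_lit 0) (XT.lf (nat_lit 76) (nat_lit 1032583293) (nat_lit 0) (nat_lit 851733538) (nat_lit 456) (nat_lit 1032583293) (nat_lit 255) (nat_lit 1) (nat_lit 254) (nat_lit 1) (nat_lit 260) (nat_lit 1) (nat_lit 367) (nat_lit 349) (nat_lit 304)) (XT.nd (nat_lit 78) (nat_lit 0) (nat_lit 0) (XT.lf (nat_lit 456) (nat_lit 1479679687) (nat_lit 0) (nat_lit 701383027) (nat_lit 380) (nat_lit 701383027)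 (nat_lit 255) (nat_lit 1) (nat_lit 249) (nat_lit 1) (nat_lit 254) (nat_lit 1) (nat_lit 368) (nat_lit 349) (nat_lit 303)) (XT.lf (nat_lit 76) (nat_lit 448297756) (nat_lit 0) (nat_lit 1951972665) (nat_lit 456) (nat_lit 448297756) (nat_lit 250) (nat_lit 1) (nat_lit 249) (nat_lit 1) (nat_lit 255) (nat_lit 1) (nat_lit 369) (nat_lit 349) (nat_lit 302)))) (XT.nd (nat_lit 78) (nat_lit 456) (nat_lit 0) (XT.lf (nat_lit 380) (nat_lit 311357383) (nat_lit 0) (nat_lit 1251881283) (nat_lit 304) (nat_lit 1251881283) (nat_lit 250) (nat_lit 1) (nat_lit 245) (nat_lit 1) (nat_lit 249) (nat_lit 1) (nat_lit 370) (nat_lit 349) (nat_lit 301)) (XT.nd (nat_lit 78) (nat_lit 0) (nat_lit 0) (XT.lf (nat_lit 456) (nat_lit 2525035980) (nat_lit 0) (nat_lit 128684753) (nat_lit 380) (nat_lit 128684753) (nat_lit 245) (nat_lit 1) (nat_lit 239) (nat_lit 1) (nat_lit 244) (nat_lit 1) (nat_lit 371) (nat_lit 349) (nat_lit 300)) (XT.lf (nat_lit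 76) (nat_lit 960961774) (nat_lit 0) (nat_lit 827904986) (nat_lit 456) (nat_lit 960961774) (nat_lit 240) (nat_lit 1) (nat_lit 239) (nat_lit 1) (nat_lit 245) (nat_lit 1) (nat_lit 372) (nat_lit 349) (nat_lit 299))))))))
noncomputable def ec29 : XT := (XT.nd (nat_lit 49296) (nat_lit 0) (nat_lit 9576) (XT.nd (nat_lit 858) (nat_lit 1140) (nat_lit 0) (XT.nd (nat_lit 390) (nat_lit 1140) (nat_lit 0) (XT.nd (nat_lit 156) (nat_lit 684) (nat_lit 0) (XT.nd (nat_lit 78) (nat_lit 0) (nat_lit 0) (XT.lf (nat_lit 380) (nat_lit 1328260782) (nat_lit 0) (nat_lit 694851617) (nat_lit 304) (nat_lit 694851617) (nat_lit 240) (nat_lit 1) (nat_lit 235) (nat_lit 1) (nat_lit 239) (nat_lit 1) (nat_lit 373) (nat_lit 349) (nat_lit 298)) (XT.lf (nat_lit 76) (nat_lit 369369034) (nat_lit 0) (nat_lit 1947906480) (nat_lit 380) (nat_lit 369369034) (nat_lit 236) (nat_lit 1) (nat_lit 235) (nat_lit 1) (nat_lit 240) (nat_lit 1) (nat_lit 374)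 (nat_lit 349) (nat_lit 297))) (XT.nd (nat_lit 78) (nat_lit 380) (nat_lit 0) (XT.lf (nat_lit 380) (nat_lit 147288795) (nat_lit 0) (nat_lit 1254196138) (nat_lit 304) (nat_lit 1254196138) (nat_lit 236) (nat_lit 1) (nat_lit 231) (nat_lit 1) (nat_lit 235) (nat_lit 1) (nat_lit 375) (nat_lit 349) (nat_lit 296)) (XT.nd (nat_lit 78) (nat_lit 0) (nat_lit 0) (XT.lf (nat_lit 380) (nat_lit 2201136462) (nat_lit 0) (nat_lit 212096090) (nat_lit 304) (nat_lit 212096090) (nat_lit 231) (nat_lit 1) (nat_lit 226) (nat_lit 1) (nat_lit 230) (nat_lit 1) (nat_lit 376) (nat_lit 349) (nat_lit 295)) (XT.lf (nat_lit 76) (nat_lit 798893969) (nat_lit 0) (nat_lit 997396328) (nat_lit 380) (nat_lit 798893969) (nat_lit 227) (nat_lit 1) (nat_lit 226) (nat_lit 1) (nat_lit 231) (nat_lit 1) (nat_lit 377) (nat_lit 349) (nat_lit 294))))) (XT.nd (nat_lit 234) (nat_lit 532) (nat_lit 0) (XT.nd (nat_lit 78) (nat_lit 304) (nat_lit 0) (XT.lf (nat_lit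 380) (nat_lit 1002234279) (nat_lit 0) (nat_lit 781699398) (nat_lit 304) (nat_lit 781699398) (nat_lit 227) (nat_lit 1) (nat_lit 222) (nat_lit 1) (nat_lit 226) (nat_lit 1) (nat_lit 378) (nat_lit 349) (nat_lit 293)) (XT.nd (nat_lit 78) (nat_lit 304) (nat_lit 0) (XT.lf (nat_lit 76) (nat_lit 207051865) (nat_lit 0) (nat_lit 2122549846) (nat_lit 380) (nat_lit 207051865) (nat_lit 223) (nat_lit 1) (nat_lit 222) (nat_lit 1) (nat_lit 227) (nat_lit 1) (nat_lit 379) (nat_lit 349) (nat_lit 292)) (XT.lf (nat_lit 76) (nat_lit 1166811184) (nat_lit 0) (nat_lit 174238427) (nat_lit 304) (nat_lit 1166811184) (nat_lit 219) (nat_lit 1) (nat_lit 218) (nat_lit 1) (nat_lit 222) (nat_lit 1) (nat_lit 380) (nat_lit 349) (nat_lit 291)))) (XT.nd (nat_lit 78) (nat_lit 228) (nat_lit 0) (XT.lf (nat_lit 380) (nat_lit 1736462556) (nat_lit 0) (nat_lit 371580640) (nat_lit 304) (nat_lit 371580640) (nat_lit 219) (nat_lit 1) (nat_lit 214) (nat_lit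 1) (nat_lit 218) (nat_lit 1) (nat_lit 381) (nat_lit 349) (nat_lit 290)) (XT.nd (nat_lit 78) (nat_lit 228) (nat_lit 0) (XT.lf (nat_lit 76) (nat_lit 569751524) (nat_lit 0) (nat_lit 1312205504) (nat_lit 380) (nat_lit 569751524) (nat_lit 215) (nat_lit 1) (nat_lit 214) (nat_lit 1) (nat_lit 219) (nat_lit 1) (nat_lit 382) (nat_lit 349) (nat_lit 289)) (XT.lf (nat_lit 304) (nat_lit 547065952) (nat_lit 0) (nat_lit 938582841) (nat_lit 228) (nat_lit 938582841) (nat_lit 215) (nat_lit 1) (nat_lit 211) (nat_lit 1) (nat_lit 214) (nat_lit 1) (nat_lit 383) (nat_lit 349) (nat_lit 288)))))) (XT.nd (nat_lit 390) (nat_lit 228) (nat_lit 0) (XT.nd (nat_lit 156) (nat_lit 532) (nat_lit 0) (XT.nd (nat_lit 78) (nat_lit 0) (nat_lit 0) (XT.lf (nat_lit 380) (nat_lit 2364174375) (nat_lit 0) (nat_lit 16601721) (nat_lit 304) (nat_lit 16601721) (nat_lit 211) (nat_lit 1) (nat_lit 206) (nat_lit 1) (nat_lit 210) (nat_lit 1) (nat_lit 384)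 (nat_lit 349) (nat_lit 287)) (XT.lf (nat_lit 76) (nat_lit 880768912) (nat_lit 0) (nat_lit 608933379) (nat_lit 380) (nat_lit 880768912) (nat_lit 207) (nat_lit 1) (nat_lit 206) (nat_lit 1) (nat_lit 211) (nat_lit 1) (nat_lit 385) (nat_lit 349) (nat_lit 286))) (XT.nd (nat_lit 78) (nat_lit 304) (nat_lit 0) (XT.lf (nat_lit 304) (nat_lit 1170483861) (nat_lit 0) (nat_lit 586845268) (nat_lit 228) (nat_lit 586845268) (nat_lit 207) (nat_lit 1) (nat_lit 203) (nat_lit 1) (nat_lit 206) (nat_lit 1) (nat_lit 386) (nat_lit 349) (nat_lit 285)) (XT.nd (nat_lit 78) (nat_lit 304) (nat_lit 0) (XT.lf (nat_lit 76) (nat_lit 292528056) (nat_lit 0) (nat_lit 1733249863) (nat_lit 304) (nat_lit 292528056) (nat_lit 204) (nat_lit 1) (nat_lit 203) (nat_lit 1) (nat_lit 207) (nat_lit 1) (nat_lit 387) (nat_lit 349) (nat_lit 284)) (XT.lf (nat_lit 76) (nat_lit 1146194550) (nat_lit 0) (nat_lit 306880) (nat_lit 304) (nat_lit 1146194550) (nat_lit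 200) (nat_lit 1) (nat_lit 199) (nat_lit 1) (nat_lit 203) (nat_lit 1) (nat_lit 388) (nat_lit 349) (nat_lit 283))))) (XT.nd (nat_lit 47814) (nat_lit 0) (nat_lit 13528) (XT.nd (nat_lit 78) (nat_lit 0) (nat_lit 0) (XT.lf (nat_lit 304) (nat_lit 1704447953) (nat_lit 0) (nat_lit 281527303) (nat_lit 228) (nat_lit 281527303) (nat_lit 200) (nat_lit 1) (nat_lit 196) (nat_lit 1) (nat_lit 199) (nat_lit 1) (nat_lit 389) (nat_lit 349) (nat_lit 282)) (XT.nd (nat_lit 47658) (nat_lit 0) (nat_lit 13528) (XT.lf (nat_lit 76) (nat_lit 558377791) (nat_lit 0) (nat_lit 1125795818) (nat_lit 304) (nat_lit 558377791) (nat_lit 197) (nat_lit 1) (nat_lit 196) (nat_lit 1) (nat_lit 200) (nat_lit 1) (nat_lit 390) (nat_lit 349) (nat_lit 281)) (XT.lf (nat_lit 1292) (nat_lit 501229847) (nat_lit 0) (nat_lit 1724463780) (nat_lit 1292) (nat_lit 501229847) (nat_lit 391) (nat_lit 1) (nat_lit 374) (nat_lit 0) (nat_lit 391) (nat_lit 0) (nat_lit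 320) (nat_lit 350) (nat_lit 350)))) (XT.nd (nat_lit 78) (nat_lit 0) (nat_lit 76) (XT.lf (nat_lit 1292) (nat_lit 1958815025) (nat_lit 76) (nat_lit 1707557273) (nat_lit 0) (nat_lit 1707557273) (nat_lit 391) (nat_lit 1) (nat_lit 375) (nat_lit 1) (nat_lit 374) (nat_lit 0) (nat_lit 321) (nat_lit 350) (nat_lit 349)) (XT.nd (nat_lit 78) (nat_lit 0) (nat_lit 0) (XT.lf (nat_lit 1292) (nat_lit 947329650) (nat_lit 0) (nat_lit 3401115704) (nat_lit 1216) (nat_lit 947329650) (nat_lit 392) (nat_lit 1) (nat_lit 375) (nat_lit 1) (nat_lit 391) (nat_lit 1) (nat_lit 322) (nat_lit 350) (nat_lit 348)) (XT.lf (nat_lit 1292) (nat_lit 1799027916) (nat_lit 76) (nat_lit 1709948837) (nat_lit 0) (nat_lit 1709948837) (nat_lit 392) (nat_lit 1) (nat_lit 376) (nat_lit 1) (nat_lit 375) (nat_lit 1) (nat_lit 323) (nat_lit 350) (nat_lit 347))))))) (XT.nd (nat_lit 858) (nat_lit 3116) (nat_lit 0) (XT.nd (nat_lit 390) (nat_lit 988) (nat_lit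 0) (XT.nd (nat_lit 156) (nat_lit 0) (nat_lit 76) (XT.nd (nat_lit 78) (nat_lit 0) (nat_lit 0) (XT.lf (nat_lit 1292) (nat_lit 844184877) (nat_lit 0) (nat_lit 3455425954) (nat_lit 1216) (nat_lit 844184877) (nat_lit 393) (nat_lit 1) (nat_lit 376) (nat_lit 1) (nat_lit 392) (nat_lit 1) (nat_lit 324) (nat_lit 350) (nat_lit 346)) (XT.lf (nat_lit 1292) (nat_lit 1547057922) (nat_lit 76) (nat_lit 1761404727) (nat_lit 0) (nat_lit 1761404727) (nat_lit 393) (nat_lit 1) (nat_lit 377) (nat_lit 1) (nat_lit 376) (nat_lit 1) (nat_lit 325) (nat_lit 350) (nat_lit 345))) (XT.nd (nat_lit 78) (nat_lit 0) (nat_lit 0) (XT.lf (nat_lit 1292) (nat_lit 697272281) (nat_lit 0) (nat_lit 3603101595) (nat_lit 1216) (nat_lit 697272281) (nat_lit 394) (nat_lit 1) (nat_lit 377) (nat_lit 1) (nat_lit 393) (nat_lit 1) (nat_lit 326) (nat_lit 350) (nat_lit 344)) (XT.nd (nat_lit 78) (nat_lit 0) (nat_lit 76) (XT.lf (nat_lit 1292) (nat_lit 1211148814)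 (nat_lit 76) (nat_lit 1857675393) (nat_lit 0) (nat_lit 1857675393) (nat_lit 394) (nat_lit 1) (nat_lit 378) (nat_lit 1) (nat_lit 377) (nat_lit 1) (nat_lit 327) (nat_lit 350) (nat_lit 343)) (XT.lf (nat_lit 1292) (nat_lit 510551558) (nat_lit 0) (nat_lit 3835972886) (nat_lit 1216) (nat_lit 510551558) (nat_lit 395) (nat_lit 1) (nat_lit 378) (nat_lit 1) (nat_lit 394) (nat_lit 1) (nat_lit 328) (nat_lit 350) (nat_lit 342))))) (XT.nd (nat_lit 234) (nat_lit 1140) (nat_lit 0) (XT.nd (nat_lit 78) (nat_lit 0) (nat_lit 76) (XT.lf (nat_lit 1292) (nat_lit 798985154) (nat_lit 76) (nat_lit 1994796965) (nat_lit 0) (nat_lit 1994796965) (nat_lit 395) (nat_lit 1) (nat_lit 379) (nat_lit 1) (nat_lit 378) (nat_lit 1) (nat_lit 329) (nat_lit 350) (nat_lit 341)) (XT.nd (nat_lit 78) (nat_lit 0) (nat_lit 0) (XT.lf (nat_lit 1292) (nat_lit 287712951) (nat_lit 0) (nat_lit 4146420912) (nat_lit 1216) (nat_lit 287712951) (nat_lit 396)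 (nat_lit 1) (nat_lit 379) (nat_lit 1) (nat_lit 395) (nat_lit 1) (nat_lit 330) (nat_lit 350) (nat_lit 340)) (XT.lf (nat_lit 1292) (nat_lit 317726900) (nat_lit 76) (nat_lit 2169073643) (nat_lit 0) (nat_lit 2169073643) (nat_lit 396) (nat_lit 1) (nat_lit 380) (nat_lit 1) (nat_lit 379) (nat_lit 1) (nat_lit 331) (nat_lit 350) (nat_lit 339)))) (XT.nd (nat_lit 78) (nat_lit 1292) (nat_lit 0) (XT.lf (nat_lit 1292) (nat_lit 32193941) (nat_lit 0) (nat_lit 4527343584) (nat_lit 1216) (nat_lit 32193941) (nat_lit 397) (nat_lit 1) (nat_lit 380) (nat_lit 1) (nat_lit 396) (nat_lit 1) (nat_lit 332) (nat_lit 350) (nat_lit 338)) (XT.nd (nat_lit 78) (nat_lit 0) (nat_lit 0) (XT.lf (nat_lit 1368) (nat_lit 2153275119) (nat_lit 0) (nat_lit 221548793) (nat_lit 1292) (nat_lit 2153275119) (nat_lit 381) (nat_lit 1) (nat_lit 363) (nat_lit 1) (nat_lit 380) (nat_lit 1) (nat_lit 333) (nat_lit 350) (nat_lit 337)) (XT.lf (nat_lit 1368)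 (nat_lit 3965567335) (nat_lit 76) (nat_lit 250326566) (nat_lit 0) (nat_lit 250326566) (nat_lit 381) (nat_lit 1) (nat_lit 364) (nat_lit 1) (nat_lit 363) (nat_lit 1) (nat_lit 334) (nat_lit 350) (nat_lit 336)))))) (XT.nd (nat_lit 468) (nat_lit 1824) (nat_lit 0) (XT.nd (nat_lit 234) (nat_lit 1368) (nat_lit 0) (XT.nd (nat_lit 78) (nat_lit 0) (nat_lit 0) (XT.lf (nat_lit 1368) (nat_lit 1797626464) (nat_lit 0) (nat_lit 809747680) (nat_lit 1292) (nat_lit 1797626464) (nat_lit 382) (nat_lit 1) (nat_lit 364) (nat_lit 1) (nat_lit 381) (nat_lit 1) (nat_lit 335) (nat_lit 350) (nat_lit 335)) (XT.nd (nat_lit 78) (nat_lit 0) (nat_lit 76) (XT.lf (nat_lit 1368) (nat_lit 3227785677) (nat_lit 76) (nat_lit 558773475) (nat_lit 0) (nat_lit 558773475) (nat_lit 382) (nat_lit 1) (nat_lit 365) (nat_lit 1) (nat_lit 364) (nat_lit 1) (nat_lit 336) (nat_lit 350) (nat_lit 334)) (XT.lf (nat_lit 76) (nat_lit 1419531540) (nat_lit 0) (nat_lit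 1447408645) (nat_lit 1292) (nat_lit 1419531540) (nat_lit 366) (nat_lit 1) (nat_lit 365) (nat_lit 1) (nat_lit 382) (nat_lit 1) (nat_lit 337) (nat_lit 350) (nat_lit 333)))) (XT.nd (nat_lit 78) (nat_lit 608) (nat_lit 0) (XT.lf (nat_lit 912) (nat_lit 2447472221) (nat_lit 0) (nat_lit 890719844) (nat_lit 836) (nat_lit 890719844) (nat_lit 366) (nat_lit 1) (nat_lit 354) (nat_lit 1) (nat_lit 365) (nat_lit 1) (nat_lit 338) (nat_lit 350) (nat_lit 332)) (XT.nd (nat_lit 78) (nat_lit 608) (nat_lit 0) (XT.lf (nat_lit 76) (nat_lit 1021527261) (nat_lit 0) (nat_lit 2129268273) (nat_lit 912) (nat_lit 1021527261) (nat_lit 355) (nat_lit 1) (nat_lit 354) (nat_lit 1) (nat_lit 366) (nat_lit 1) (nat_lit 339) (nat_lit 350) (nat_lit 331)) (XT.lf (nat_lit 684) (nat_lit 1629540801) (nat_lit 0) (nat_lit 1243616546) (nat_lit 608) (nat_lit 1243616546) (nat_lit 355) (nat_lit 1) (nat_lit 346) (nat_lit 1) (nat_lit 354) (nat_lit 1) (nat_lit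 340) (nat_lit 350) (nat_lit 330))))) (XT.nd (nat_lit 234) (nat_lit 1216) (nat_lit 0) (XT.nd (nat_lit 78) (nat_lit 608) (nat_lit 0) (XT.lf (nat_lit 76) (nat_lit 605968550) (nat_lit 0) (nat_lit 2850435895) (nat_lit 684) (nat_lit 605968550) (nat_lit 347) (nat_lit 1) (nat_lit 346) (nat_lit 1) (nat_lit 355) (nat_lit 1) (nat_lit 341) (nat_lit 350) (nat_lit 329)) (XT.nd (nat_lit 78) (nat_lit 0) (nat_lit 0) (XT.lf (nat_lit 684) (nat_lit 778551165) (nat_lit 0) (nat_lit 1615095740) (nat_lit 608) (nat_lit 1615095740) (nat_lit 347) (nat_lit 1) (nat_lit 338) (nat_lit 1) (nat_lit 346) (nat_lit 1) (nat_lit 342) (nat_lit 350) (nat_lit 328)) (XT.lf (nat_lit 76) (nat_lit 175039847) (nat_lit 0) (nat_lit 3606370132) (nat_lit 684) (nat_lit 175039847) (nat_lit 339) (nat_lit 1) (nat_lit 338) (nat_lit 1) (nat_lit 347) (nat_lit 1) (nat_lit 343) (nat_lit 350) (nat_lit 327)))) (XT.nd (nat_lit 78) (nat_lit 608) (nat_lit 0) (XT.lf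 (nat_lit 76) (nat_lit 1902664306) (nat_lit 0) (nat_lit 99292480) (nat_lit 608) (nat_lit 1902664306) (nat_lit 331) (nat_lit 1) (nat_lit 330) (nat_lit 1) (nat_lit 338) (nat_lit 1) (nat_lit 344) (nat_lit 350) (nat_lit 326)) (XT.nd (nat_lit 78) (nat_lit 0) (nat_lit 0) (XT.lf (nat_lit 684) (nat_lit 3320887501) (nat_lit 0) (nat_lit 266594529) (nat_lit 608) (nat_lit 266594529) (nat_lit 331) (nat_lit 1) (nat_lit 322) (nat_lit 1) (nat_lit 330) (nat_lit 1) (nat_lit 345) (nat_lit 350) (nat_lit 325)) (XT.lf (nat_lit 76) (nat_lit 1408838125) (nat_lit 0) (nat_lit 986370276) (nat_lit 684) (nat_lit 1408838125) (nat_lit 323) (nat_lit 1) (nat_lit 322) (nat_lit 1) (nat_lit 331) (nat_lit 1) (nat_lit 346) (nat_lit 350) (nat_lit 324))))))))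
noncomputable def ec30 : XT := (XT.nd (nat_lit 1716) (nat_lit 3952) (nat_lit 0) (XT.nd (nat_lit 858) (nat_lit 2812) (nat_lit 0) (XT.nd (nat_lit 390) (nat_lit 1520) (nat_lit 0) (XT.nd (nat_lit 156) (nat_lit 988) (nat_lit 0) (XT.nd (nat_lit 78) (nat_lit 0) (nat_lit 0) (XT.lf (nat_lit 608) (nat_lit 2319451343) (nat_lit 0) (nat_lit 717870339) (nat_lit 532) (nat_lit 717870339) (nat_lit 323) (nat_lit 1) (nat_lit 315) (nat_lit 1) (nat_lit 322) (nat_lit 1) (nat_lit 347) (nat_lit 350) (nat_lit 323)) (XT.lf (nat_lit 76) (nat_lit 906386487) (nat_lit 0) (nat_lit 1894318607) (nat_lit 608) (nat_lit 906386487) (nat_lit 316) (nat_lit 1) (nat_lit 315) (nat_lit 1) (nat_lit 323) (nat_lit 1) (nat_lit 348) (nat_lit 350) (nat_lit 322))) (XT.nd (nat_lit 78) (nat_lit 456) (nat_lit 0) (XT.lf (nat_lit 608) (nat_lit 1302280478) (nat_lit 0) (nat_lit 1178785361) (nat_lit 532) (nat_lit 1178785361) (nat_lit 316) (nat_lit 1) (nat_lit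 308) (nat_lit 1) (nat_lit 315) (nat_lit 1) (nat_lit 349) (nat_lit 350) (nat_lit 321)) (XT.nd (nat_lit 78) (nat_lit 456) (nat_lit 0) (XT.lf (nat_lit 76) (nat_lit 396881414) (nat_lit 0) (nat_lit 2819848376) (nat_lit 608) (nat_lit 396881414) (nat_lit 309) (nat_lit 1) (nat_lit 308) (nat_lit 1) (nat_lit 316) (nat_lit 1) (nat_lit 350) (nat_lit 350) (nat_lit 320)) (XT.lf (nat_lit 532) (nat_lit 272410800) (nat_lit 0) (nat_lit 1647750996) (nat_lit 456) (nat_lit 1647750996) (nat_lit 309) (nat_lit 1) (nat_lit 302) (nat_lit 1) (nat_lit 308) (nat_lit 1) (nat_lit 351) (nat_lit 350) (nat_lit 319))))) (XT.nd (nat_lit 234) (nat_lit 456) (nat_lit 0) (XT.nd (nat_lit 78) (nat_lit 456) (nat_lit 0) (XT.lf (nat_lit 608) (nat_lit 3289194598) (nat_lit 0) (nat_lit 117067591) (nat_lit 532) (nat_lit 117067591) (nat_lit 302) (nat_lit 1) (nat_lit 294) (nat_lit 1) (nat_lit 301) (nat_lit 1) (nat_lit 352) (nat_lit 350) (nat_lit 318))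 (XT.nd (nat_lit 78) (nat_lit 456) (nat_lit 0) (XT.lf (nat_lit 76) (nat_lit 1363318120) (nat_lit 0) (nat_lit 752384262) (nat_lit 608) (nat_lit 1363318120) (nat_lit 295) (nat_lit 1) (nat_lit 294) (nat_lit 1) (nat_lit 302) (nat_lit 1) (nat_lit 353) (nat_lit 350) (nat_lit 317)) (XT.lf (nat_lit 532) (nat_lit 2173086760) (nat_lit 0) (nat_lit 631350090) (nat_lit 456) (nat_lit 631350090) (nat_lit 295) (nat_lit 1) (nat_lit 288) (nat_lit 1) (nat_lit 294) (nat_lit 1) (nat_lit 354) (nat_lit 350) (nat_lit 316)))) (XT.nd (nat_lit 78) (nat_lit 456) (nat_lit 0) (XT.lf (nat_lit 76) (nat_lit 807072185) (nat_lit 0) (nat_lit 1779041566) (nat_lit 532) (nat_lit 807072185) (nat_lit 289) (nat_lit 1) (nat_lit 288) (nat_lit 1) (nat_lit 295) (nat_lit 1) (nat_lit 355) (nat_lit 350) (nat_lit 315)) (XT.nd (nat_lit 78) (nat_lit 0) (nat_lit 0) (XT.lf (nat_lit 532) (nat_lit 1054040272) (nat_lit 0) (nat_lit 1148638730) (nat_lit 456)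 (nat_lit 1148638730) (nat_lit 289) (nat_lit 1) (nat_lit 282) (nat_lit 1) (nat_lit 288) (nat_lit 1) (nat_lit 356) (nat_lit 350) (nat_lit 314)) (XT.lf (nat_lit 76) (nat_lit 249906921) (nat_lit 0) (nat_lit 2810551184) (nat_lit 532) (nat_lit 249906921) (nat_lit 283) (nat_lit 1) (nat_lit 282) (nat_lit 1) (nat_lit 289) (nat_lit 1) (nat_lit 357) (nat_lit 350) (nat_lit 313)))))) (XT.nd (nat_lit 390) (nat_lit 1520) (nat_lit 0) (XT.nd (nat_lit 156) (nat_lit 380) (nat_lit 0) (XT.nd (nat_lit 78) (nat_lit 456) (nat_lit 0) (XT.lf (nat_lit 76) (nat_lit 1602621782) (nat_lit 0) (nat_lit 64540018) (nat_lit 456) (nat_lit 1602621782) (nat_lit 277) (nat_lit 1) (nat_lit 276) (nat_lit 1) (nat_lit 282) (nat_lit 1) (nat_lit 358) (nat_lit 350) (nat_lit 312)) (XT.lf (nat_lit 532) (nat_lit 2621771111) (nat_lit 0) (nat_lit 304156646) (nat_lit 456) (nat_lit 304156646) (nat_lit 277) (nat_lit 1) (nat_lit 270) (nat_lit 1) (nat_lit 276)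 (nat_lit 1) (nat_lit 359) (nat_lit 350) (nat_lit 311))) (XT.nd (nat_lit 78) (nat_lit 380) (nat_lit 0) (XT.lf (nat_lit 76) (nat_lit 1014667435) (nat_lit 0) (nat_lit 1161450576) (nat_lit 532) (nat_lit 1014667435) (nat_lit 271) (nat_lit 1) (nat_lit 270) (nat_lit 1) (nat_lit 277) (nat_lit 1) (nat_lit 360) (nat_lit 350) (nat_lit 310)) (XT.nd (nat_lit 78) (nat_lit 0) (nat_lit 0) (XT.lf (nat_lit 456) (nat_lit 1442767286) (nat_lit 0) (nat_lit 854766091) (nat_lit 380) (nat_lit 854766091) (nat_lit 271) (nat_lit 1) (nat_lit 265) (nat_lit 1) (nat_lit 270) (nat_lit 1) (nat_lit 361) (nat_lit 350) (nat_lit 309)) (XT.lf (nat_lit 76) (nat_lit 429499684) (nat_lit 0) (nat_lit 2255519010) (nat_lit 456) (nat_lit 429499684) (nat_lit 266) (nat_lit 1) (nat_lit 265) (nat_lit 1) (nat_lit 271) (nat_lit 1) (nat_lit 362) (nat_lit 350) (nat_lit 308))))) (XT.nd (nat_lit 234) (nat_lit 684) (nat_lit 0) (XT.nd (nat_lit 78) (nat_lit 456)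 (nat_lit 0) (XT.lf (nat_lit 456) (nat_lit 270121470) (nat_lit 0) (nat_lit 1403536086) (nat_lit 380) (nat_lit 1403536086) (nat_lit 266) (nat_lit 1) (nat_lit 260) (nat_lit 1) (nat_lit 265) (nat_lit 1) (nat_lit 363) (nat_lit 350) (nat_lit 307)) (XT.nd (nat_lit 78) (nat_lit 0) (nat_lit 0) (XT.lf (nat_lit 456) (nat_lit 2739405770) (nat_lit 0) (nat_lit 150647993) (nat_lit 380) (nat_lit 150647993) (nat_lit 260) (nat_lit 1) (nat_lit 254) (nat_lit 1) (nat_lit 259) (nat_lit 1) (nat_lit 364) (nat_lit 350) (nat_lit 306)) (XT.lf (nat_lit 76) (nat_lit 1063560791) (nat_lit 0) (nat_lit 877285544) (nat_lit 456) (nat_lit 1063560791) (nat_lit 255) (nat_lit 1) (nat_lit 254) (nat_lit 1) (nat_lit 260) (nat_lit 1) (nat_lit 365) (nat_lit 350) (nat_lit 305)))) (XT.nd (nat_lit 78) (nat_lit 304) (nat_lit 0) (XT.lf (nat_lit 456) (nat_lit 1524070078) (nat_lit 0) (nat_lit 722424517) (nat_lit 380) (nat_lit 722424517) (nat_lit 255)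 (nat_lit 1) (nat_lit 249) (nat_lit 1) (nat_lit 254) (nat_lit 1) (nat_lit 366) (nat_lit 350) (nat_lit 304)) (XT.nd (nat_lit 78) (nat_lit 304) (nat_lit 0) (XT.lf (nat_lit 76) (nat_lit 461746688) (nat_lit 0) (nat_lit 2010531845) (nat_lit 456) (nat_lit 461746688) (nat_lit 250) (nat_lit 1) (nat_lit 249) (nat_lit 1) (nat_lit 255) (nat_lit 1) (nat_lit 367) (nat_lit 350) (nat_lit 303)) (XT.lf (nat_lit 380) (nat_lit 320698104) (nat_lit 0) (nat_lit 1289437721) (nat_lit 304) (nat_lit 1289437721) (nat_lit 250) (nat_lit 1) (nat_lit 245) (nat_lit 1) (nat_lit 249) (nat_lit 1) (nat_lit 368) (nat_lit 350) (nat_lit 302))))))) (XT.nd (nat_lit 858) (nat_lit 1596) (nat_lit 0) (XT.nd (nat_lit 390) (nat_lit 1292) (nat_lit 0) (XT.nd (nat_lit 156) (nat_lit 608) (nat_lit 0) (XT.nd (nat_lit 78) (nat_lit 0) (nat_lit 0) (XT.lf (nat_lit 456) (nat_lit 2600787059) (nat_lit 0) (nat_lit 132545296) (nat_lit 380) (nat_lit 132545296) (nat_lit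 245) (nat_lit 1) (nat_lit 239) (nat_lit 1) (nat_lit 244) (nat_lit 1) (nat_lit 369) (nat_lit 350) (nat_lit 301)) (XT.lf (nat_lit 76) (nat_lit 989790627) (nat_lit 0) (nat_lit 852742136) (nat_lit 456) (nat_lit 989790627) (nat_lit 240) (nat_lit 1) (nat_lit 239) (nat_lit 1) (nat_lit 245) (nat_lit 1) (nat_lit 370) (nat_lit 350) (nat_lit 300))) (XT.nd (nat_lit 78) (nat_lit 304) (nat_lit 0) (XT.lf (nat_lit 380) (nat_lit 1368108605) (nat_lit 0) (nat_lit 715697165) (nat_lit 304) (nat_lit 715697165) (nat_lit 240) (nat_lit 1) (nat_lit 235) (nat_lit 1) (nat_lit 239) (nat_lit 1) (nat_lit 371) (nat_lit 350) (nat_lit 299)) (XT.nd (nat_lit 78) (nat_lit 304) (nat_lit 0) (XT.lf (nat_lit 76) (nat_lit 380450105) (nat_lit 0) (nat_lit 2006343675) (nat_lit 380) (nat_lit 380450105) (nat_lit 236) (nat_lit 1) (nat_lit 235) (nat_lit 1) (nat_lit 240) (nat_lit 1) (nat_lit 372) (nat_lit 350) (nat_lit 298)) (XT.lf (nat_lit 380) (nat_lit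 151707459) (nat_lit 0) (nat_lit 1291822022) (nat_lit 304) (nat_lit 1291822022) (nat_lit 236) (nat_lit 1) (nat_lit 231) (nat_lit 1) (nat_lit 235) (nat_lit 1) (nat_lit 373) (nat_lit 350) (nat_lit 297))))) (XT.nd (nat_lit 234) (nat_lit 608) (nat_lit 0) (XT.nd (nat_lit 78) (nat_lit 304) (nat_lit 0) (XT.lf (nat_lit 380) (nat_lit 2267170556) (nat_lit 0) (nat_lit 218458973) (nat_lit 304) (nat_lit 218458973) (nat_lit 231) (nat_lit 1) (nat_lit 226) (nat_lit 1) (nat_lit 230) (nat_lit 1) (nat_lit 374) (nat_lit 350) (nat_lit 296)) (XT.nd (nat_lit 78) (nat_lit 304) (nat_lit 0) (XT.lf (nat_lit 76) (nat_lit 822860788) (nat_lit 0) (nat_lit 1027318218) (nat_lit 380) (nat_lit 822860788) (nat_lit 227) (nat_lit 1) (nat_lit 226) (nat_lit 1) (nat_lit 231) (nat_lit 1) (nat_lit 375) (nat_lit 350) (nat_lit 295)) (XT.lf (nat_lit 380) (nat_lit 1032301307) (nat_lit 0) (nat_lit 805150380) (nat_lit 304) (nat_lit 805150380) (nat_lit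 227) (nat_lit 1) (nat_lit 222) (nat_lit 1) (nat_lit 226) (nat_lit 1) (nat_lit 376) (nat_lit 350) (nat_lit 294)))) (XT.nd (nat_lit 78) (nat_lit 608) (nat_lit 0) (XT.lf (nat_lit 76) (nat_lit 213263421) (nat_lit 0) (nat_lit 2186226342) (nat_lit 380) (nat_lit 213263421) (nat_lit 223) (nat_lit 1) (nat_lit 222) (nat_lit 1) (nat_lit 227) (nat_lit 1) (nat_lit 377) (nat_lit 350) (nat_lit 293)) (XT.nd (nat_lit 78) (nat_lit 304) (nat_lit 0) (XT.lf (nat_lit 76) (nat_lit 1201815520) (nat_lit 0) (nat_lit 179465580) (nat_lit 304) (nat_lit 1201815520) (nat_lit 219) (nat_lit 1) (nat_lit 218) (nat_lit 1) (nat_lit 222) (nat_lit 1) (nat_lit 378) (nat_lit 350) (nat_lit 292)) (XT.lf (nat_lit 380) (nat_lit 1788556433) (nat_lit 0) (nat_lit 382728059) (nat_lit 304) (nat_lit 382728059) (nat_lit 219) (nat_lit 1) (nat_lit 214) (nat_lit 1) (nat_lit 218) (nat_lit 1) (nat_lit 379) (nat_lit 350) (nat_lit 291)))))) (XT.nd (nat_lit 390)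 (nat_lit 760) (nat_lit 0) (XT.nd (nat_lit 156) (nat_lit 608) (nat_lit 0) (XT.nd (nat_lit 78) (nat_lit 228) (nat_lit 0) (XT.lf (nat_lit 76) (nat_lit 586844070) (nat_lit 0) (nat_lit 1351571669) (nat_lit 380) (nat_lit 586844070) (nat_lit 215) (nat_lit 1) (nat_lit 214) (nat_lit 1) (nat_lit 219) (nat_lit 1) (nat_lit 380) (nat_lit 350) (nat_lit 290)) (XT.lf (nat_lit 304) (nat_lit 563477931) (nat_lit 0) (nat_lit 966740327) (nat_lit 228) (nat_lit 966740327) (nat_lit 215) (nat_lit 1) (nat_lit 211) (nat_lit 1) (nat_lit 214) (nat_lit 1) (nat_lit 381) (nat_lit 350) (nat_lit 289))) (XT.nd (nat_lit 78) (nat_lit 228) (nat_lit 0) (XT.lf (nat_lit 380) (nat_lit 2435099606) (nat_lit 0) (nat_lit 17099772) (nat_lit 304) (nat_lit 17099772) (nat_lit 211) (nat_lit 1) (nat_lit 206) (nat_lit 1) (nat_lit 210) (nat_lit 1) (nat_lit 382) (nat_lit 350) (nat_lit 288)) (XT.nd (nat_lit 78) (nat_lit 228) (nat_lit 0) (XT.lf (nat_lit 76)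 (nat_lit 907191980) (nat_lit 0) (nat_lit 627201380) (nat_lit 380) (nat_lit 907191980) (nat_lit 207) (nat_lit 1) (nat_lit 206) (nat_lit 1) (nat_lit 211) (nat_lit 1) (nat_lit 383) (nat_lit 350) (nat_lit 287)) (XT.lf (nat_lit 304) (nat_lit 1205598377) (nat_lit 0) (nat_lit 604450626) (nat_lit 228) (nat_lit 604450626) (nat_lit 207) (nat_lit 1) (nat_lit 203) (nat_lit 1) (nat_lit 206) (nat_lit 1) (nat_lit 384) (nat_lit 350) (nat_lit 286))))) (XT.nd (nat_lit 234) (nat_lit 228) (nat_lit 0) (XT.nd (nat_lit 78) (nat_lit 532) (nat_lit 0) (XT.lf (nat_lit 76) (nat_lit 301303898) (nat_lit 0) (nat_lit 1785247359) (nat_lit 304) (nat_lit 301303898) (nat_lit 204) (nat_lit 1) (nat_lit 203) (nat_lit 1) (nat_lit 207) (nat_lit 1) (nat_lit 385) (nat_lit 350) (nat_lit 285)) (XT.nd (nat_lit 78) (nat_lit 228) (nat_lit 0) (XT.lf (nat_lit 76) (nat_lit 1180580386) (nat_lit 0) (nat_lit 316087) (nat_lit 304) (nat_lit 1180580386) (nat_lit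 200) (nat_lit 1) (nat_lit 199) (nat_lit 1) (nat_lit 203) (nat_lit 1) (nat_lit 386) (nat_lit 350) (nat_lit 284)) (XT.lf (nat_lit 304) (nat_lit 1755581391) (nat_lit 0) (nat_lit 289973122) (nat_lit 228) (nat_lit 289973122) (nat_lit 200) (nat_lit 1) (nat_lit 196) (nat_lit 1) (nat_lit 199) (nat_lit 1) (nat_lit 387) (nat_lit 350) (nat_lit 283)))) (XT.nd (nat_lit 78) (nat_lit 228) (nat_lit 0) (XT.lf (nat_lit 76) (nat_lit 575129125) (nat_lit 0) (nat_lit 1159569693) (nat_lit 304) (nat_lit 575129125) (nat_lit 197) (nat_lit 1) (nat_lit 196) (nat_lit 1) (nat_lit 200) (nat_lit 1) (nat_lit 388) (nat_lit 350) (nat_lit 282)) (XT.nd (nat_lit 47580) (nat_lit 0) (nat_lit 13756) (XT.lf (nat_lit 304) (nat_lit 551197550) (nat_lit 0) (nat_lit 866674059) (nat_lit 228) (nat_lit 866674059) (nat_lit 197) (nat_lit 1) (nat_lit 193) (nat_lit 1) (nat_lit 196) (nat_lit 1) (nat_lit 389) (nat_lit 350) (nat_lit 281)) (XT.lf (nat_lit 1292)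 (nat_lit 516266742) (nat_lit 0) (nat_lit 1776197694) (nat_lit 1292) (nat_lit 516266742) (nat_lit 391) (nat_lit 1) (nat_lit 374) (nat_lit 0) (nat_lit 391) (nat_lit 0) (nat_lit 318) (nat_lit 351) (nat_lit 351))))))))
noncomputable def ec31 : XT := (XT.nd (nat_lit 1716) (nat_lit 6384) (nat_lit 0) (XT.nd (nat_lit 858) (nat_lit 2736) (nat_lit 0) (XT.nd (nat_lit 390) (nat_lit 0) (nat_lit 228) (XT.nd (nat_lit 156) (nat_lit 0) (nat_lit 76) (XT.nd (nat_lit 78) (nat_lit 0) (nat_lit 76) (XT.lf (nat_lit 1292) (nat_lit 2017579476) (nat_lit 76) (nat_lit 1758783991) (nat_lit 0) (nat_lit 1758783991) (nat_lit 391) (nat_lit 1) (nat_lit 375) (nat_lit 1) (nat_lit 374) (nat_lit 0) (nat_lit 319) (nat_lit 351) (nat_lit 350)) (XT.lf (nat_lit 1292) (nat_lit 975749539) (nat_lit 0) (nat_lit 3503149175) (nat_lit 1216) (nat_lit 975749539) (nat_lit 392) (nat_lit 1) (nat_lit 375) (nat_lit 1) (nat_lit 391) (nat_lit 1) (nat_lit 320)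 (nat_lit 351) (nat_lit 349))) (XT.nd (nat_lit 78) (nat_lit 0) (nat_lit 76) (XT.lf (nat_lit 1292) (nat_lit 1852998754) (nat_lit 76) (nat_lit 1761247302) (nat_lit 0) (nat_lit 1761247302) (nat_lit 392) (nat_lit 1) (nat_lit 376) (nat_lit 1) (nat_lit 375) (nat_lit 1) (nat_lit 321) (nat_lit 351) (nat_lit 348)) (XT.nd (nat_lit 78) (nat_lit 0) (nat_lit 0) (XT.lf (nat_lit 1292) (nat_lit 869510424) (nat_lit 0) (nat_lit 3559088733) (nat_lit 1216) (nat_lit 869510424) (nat_lit 393) (nat_lit 1) (nat_lit 376) (nat_lit 1) (nat_lit 392) (nat_lit 1) (nat_lit 322) (nat_lit 351) (nat_lit 347)) (XT.lf (nat_lit 1292) (nat_lit 1593469660) (nat_lit 76) (nat_lit 1814246869) (nat_lit 0) (nat_lit 1814246869) (nat_lit 393) (nat_lit 1) (nat_lit 377) (nat_lit 1) (nat_lit 376) (nat_lit 1) (nat_lit 323) (nat_lit 351) (nat_lit 346))))) (XT.nd (nat_lit 234) (nat_lit 0) (nat_lit 76) (XT.nd (nat_lit 78) (nat_lit 0) (nat_lit 0) (XT.lf (nat_lit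 1292) (nat_lit 718190449) (nat_lit 0) (nat_lit 3711194643) (nat_lit 1216) (nat_lit 718190449) (nat_lit 394) (nat_lit 1) (nat_lit 377) (nat_lit 1) (nat_lit 393) (nat_lit 1) (nat_lit 324) (nat_lit 351) (nat_lit 345)) (XT.nd (nat_lit 78) (nat_lit 0) (nat_lit 76) (XT.lf (nat_lit 1292) (nat_lit 1247483278) (nat_lit 76) (nat_lit 1913405654) (nat_lit 0) (nat_lit 1913405654) (nat_lit 394) (nat_lit 1) (nat_lit 378) (nat_lit 1) (nat_lit 377) (nat_lit 1) (nat_lit 325) (nat_lit 351) (nat_lit 344)) (XT.lf (nat_lit 1292) (nat_lit 525868105) (nat_lit 0) (nat_lit 3951052072) (nat_lit 1216) (nat_lit 525868105) (nat_lit 395) (nat_lit 1) (nat_lit 378) (nat_lit 1) (nat_lit 394) (nat_lit 1) (nat_lit 326) (nat_lit 351) (nat_lit 343)))) (XT.nd (nat_lit 78) (nat_lit 0) (nat_lit 76) (XT.lf (nat_lit 1292) (nat_lit 822954709) (nat_lit 76) (nat_lit 2054640874) (nat_lit 0) (nat_lit 2054640874) (nat_lit 395) (nat_lit 1) (nat_lit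 379) (nat_lit 1) (nat_lit 378) (nat_lit 1) (nat_lit 327) (nat_lit 351) (nat_lit 342)) (XT.nd (nat_lit 78) (nat_lit 0) (nat_lit 0) (XT.lf (nat_lit 1292) (nat_lit 296344340) (nat_lit 0) (nat_lit 4270813539) (nat_lit 1216) (nat_lit 296344340) (nat_lit 396) (nat_lit 1) (nat_lit 379) (nat_lit 1) (nat_lit 395) (nat_lit 1) (nat_lit 328) (nat_lit 351) (nat_lit 341)) (XT.lf (nat_lit 1292) (nat_lit 327258707) (nat_lit 76) (nat_lit 2234145852) (nat_lit 0) (nat_lit 2234145852) (nat_lit 396) (nat_lit 1) (nat_lit 380) (nat_lit 1) (nat_lit 379) (nat_lit 1) (nat_lit 329) (nat_lit 351) (nat_lit 340)))))) (XT.nd (nat_lit 390) (nat_lit 1900) (nat_lit 0) (XT.nd (nat_lit 156) (nat_lit 0) (nat_lit 0) (XT.nd (nat_lit 78) (nat_lit 1292) (nat_lit 0) (XT.lf (nat_lit 1292) (nat_lit 33159759) (nat_lit 0) (nat_lit 4663163891) (nat_lit 1216) (nat_lit 33159759) (nat_lit 397) (nat_lit 1) (nat_lit 380) (nat_lit 1) (nat_lit 396) (nat_lit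 1) (nat_lit 330) (nat_lit 351) (nat_lit 339)) (XT.lf (nat_lit 1368) (nat_lit 2217873372) (nat_lit 0) (nat_lit 228195257) (nat_lit 1292) (nat_lit 2217873372) (nat_lit 381) (nat_lit 1) (nat_lit 363) (nat_lit 1) (nat_lit 380) (nat_lit 1) (nat_lit 331) (nat_lit 351) (nat_lit 338))) (XT.nd (nat_lit 78) (nat_lit 0) (nat_lit 76) (XT.lf (nat_lit 1368) (nat_lit 4084534355) (nat_lit 76) (nat_lit 257836363) (nat_lit 0) (nat_lit 257836363) (nat_lit 381) (nat_lit 1) (nat_lit 364) (nat_lit 1) (nat_lit 363) (nat_lit 1) (nat_lit 332) (nat_lit 351) (nat_lit 337)) (XT.nd (nat_lit 78) (nat_lit 0) (nat_lit 0) (XT.lf (nat_lit 1368) (nat_lit 1851555258) (nat_lit 0) (nat_lit 834040110) (nat_lit 1292) (nat_lit 1851555258) (nat_lit 382) (nat_lit 1) (nat_lit 364) (nat_lit 1) (nat_lit 381) (nat_lit 1) (nat_lit 333) (nat_lit 351) (nat_lit 336)) (XT.lf (nat_lit 1368) (nat_lit 3324619248) (nat_lit 76) (nat_lit 575536679) (nat_lit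 0) (nat_lit 575536679) (nat_lit 382) (nat_lit 1) (nat_lit 365) (nat_lit 1) (nat_lit 364) (nat_lit 1) (nat_lit 334) (nat_lit 351) (nat_lit 335))))) (XT.nd (nat_lit 234) (nat_lit 1216) (nat_lit 0) (XT.nd (nat_lit 78) (nat_lit 836) (nat_lit 0) (XT.lf (nat_lit 76) (nat_lit 1462117487) (nat_lit 0) (nat_lit 1490830904) (nat_lit 1292) (nat_lit 1462117487) (nat_lit 366) (nat_lit 1) (nat_lit 365) (nat_lit 1) (nat_lit 382) (nat_lit 1) (nat_lit 335) (nat_lit 351) (nat_lit 334)) (XT.nd (nat_lit 78) (nat_lit 0) (nat_lit 0) (XT.lf (nat_lit 912) (nat_lit 2520896388) (nat_lit 0) (nat_lit 917441440) (nat_lit 836) (nat_lit 917441440) (nat_lit 366) (nat_lit 1) (nat_lit 354) (nat_lit 1) (nat_lit 365) (nat_lit 1) (nat_lit 336) (nat_lit 351) (nat_lit 333)) (XT.lf (nat_lit 76) (nat_lit 1052173079) (nat_lit 0) (nat_lit 2193146322) (nat_lit 912) (nat_lit 1052173079) (nat_lit 355) (nat_lit 1) (nat_lit 354) (nat_lit 1) (nat_lit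 366) (nat_lit 1) (nat_lit 337) (nat_lit 351) (nat_lit 332)))) (XT.nd (nat_lit 78) (nat_lit 608) (nat_lit 0) (XT.lf (nat_lit 684) (nat_lit 1678427025) (nat_lit 0) (nat_lit 1280925042) (nat_lit 608) (nat_lit 1280925042) (nat_lit 355) (nat_lit 1) (nat_lit 346) (nat_lit 1) (nat_lit 354) (nat_lit 1) (nat_lit 338) (nat_lit 351) (nat_lit 331)) (XT.nd (nat_lit 78) (nat_lit 608) (nat_lit 0) (XT.lf (nat_lit 76) (nat_lit 624147607) (nat_lit 0) (nat_lit 2935948972) (nat_lit 684) (nat_lit 624147607) (nat_lit 347) (nat_lit 1) (nat_lit 346) (nat_lit 1) (nat_lit 355) (nat_lit 1) (nat_lit 339) (nat_lit 351) (nat_lit 330)) (XT.lf (nat_lit 684) (nat_lit 801907700) (nat_lit 0) (nat_lit 1663548612) (nat_lit 608) (nat_lit 1663548612) (nat_lit 347) (nat_lit 1) (nat_lit 338) (nat_lit 1) (nat_lit 346) (nat_lit 1) (nat_lit 340) (nat_lit 351) (nat_lit 329))))))) (XT.nd (nat_lit 858) (nat_lit 3040) (nat_lit 0) (XT.nd (nat_lit 390)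 (nat_lit 1596) (nat_lit 0) (XT.nd (nat_lit 156) (nat_lit 1140) (nat_lit 0) (XT.nd (nat_lit 78) (nat_lit 608) (nat_lit 0) (XT.lf (nat_lit 76) (nat_lit 180291042) (nat_lit 0) (nat_lit 3714561236) (nat_lit 684) (nat_lit 180291042) (nat_lit 339) (nat_lit 1) (nat_lit 338) (nat_lit 1) (nat_lit 347) (nat_lit 1) (nat_lit 341) (nat_lit 351) (nat_lit 328)) (XT.lf (nat_lit 76) (nat_lit 1959744235) (nat_lit 0) (nat_lit 102271254) (nat_lit 608) (nat_lit 1959744235) (nat_lit 331) (nat_lit 1) (nat_lit 330) (nat_lit 1) (nat_lit 338) (nat_lit 1) (nat_lit 342) (nat_lit 351) (nat_lit 327))) (XT.nd (nat_lit 78) (nat_lit 532) (nat_lit 0) (XT.lf (nat_lit 684) (nat_lit 3420514127) (nat_lit 0) (nat_lit 274592365) (nat_lit 608) (nat_lit 274592365) (nat_lit 331) (nat_lit 1) (nat_lit 322) (nat_lit 1) (nat_lit 330) (nat_lit 1) (nat_lit 343) (nat_lit 351) (nat_lit 326)) (XT.nd (nat_lit 78) (nat_lit 532) (nat_lit 0) (XT.lf (nat_lit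 76) (nat_lit 1451103269) (nat_lit 0) (nat_lit 1015961385) (nat_lit 684) (nat_lit 1451103269) (nat_lit 323) (nat_lit 1) (nat_lit 322) (nat_lit 1) (nat_lit 331) (nat_lit 1) (nat_lit 344) (nat_lit 351) (nat_lit 325)) (XT.lf (nat_lit 608) (nat_lit 2389034883) (nat_lit 0) (nat_lit 739406449) (nat_lit 532) (nat_lit 739406449) (nat_lit 323) (nat_lit 1) (nat_lit 315) (nat_lit 1) (nat_lit 322) (nat_lit 1) (nat_lit 345) (nat_lit 351) (nat_lit 324))))) (XT.nd (nat_lit 234) (nat_lit 1064) (nat_lit 0) (XT.nd (nat_lit 78) (nat_lit 532) (nat_lit 0) (XT.lf (nat_lit 76) (nat_lit 933578082) (nat_lit 0) (nat_lit 1951148165) (nat_lit 608) (nat_lit 933578082) (nat_lit 316) (nat_lit 1) (nat_lit 315) (nat_lit 1) (nat_lit 323) (nat_lit 1) (nat_lit 346) (nat_lit 351) (nat_lit 323)) (XT.nd (nat_lit 78) (nat_lit 0) (nat_lit 0) (XT.lf (nat_lit 608) (nat_lit 1341348892) (nat_lit 0) (nat_lit 1214148922) (nat_lit 532) (nat_lit 1214148922)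 (nat_lit 316) (nat_lit 1) (nat_lit 308) (nat_lit 1) (nat_lit 315) (nat_lit 1) (nat_lit 347) (nat_lit 351) (nat_lit 322)) (XT.lf (nat_lit 76) (nat_lit 408787856) (nat_lit 0) (nat_lit 2904443827) (nat_lit 608) (nat_lit 408787856) (nat_lit 309) (nat_lit 1) (nat_lit 308) (nat_lit 1) (nat_lit 316) (nat_lit 1) (nat_lit 348) (nat_lit 351) (nat_lit 321)))) (XT.nd (nat_lit 78) (nat_lit 608) (nat_lit 0) (XT.lf (nat_lit 532) (nat_lit 280583124) (nat_lit 0) (nat_lit 1697183526) (nat_lit 456) (nat_lit 1697183526) (nat_lit 309) (nat_lit 1) (nat_lit 302) (nat_lit 1) (nat_lit 308) (nat_lit 1) (nat_lit 349) (nat_lit 351) (nat_lit 320)) (XT.nd (nat_lit 78) (nat_lit 0) (nat_lit 0) (XT.lf (nat_lit 608) (nat_lit 3387870436) (nat_lit 0) (nat_lit 120579619) (nat_lit 532) (nat_lit 120579619) (nat_lit 302) (nat_lit 1) (nat_lit 294) (nat_lit 1) (nat_lit 301) (nat_lit 1) (nat_lit 350) (nat_lit 351) (nat_lit 319)) (XT.lf (nat_lit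 76) (nat_lit 1404217663) (nat_lit 0) (nat_lit 774955790) (nat_lit 608) (nat_lit 1404217663) (nat_lit 295) (nat_lit 1) (nat_lit 294) (nat_lit 1) (nat_lit 302) (nat_lit 1) (nat_lit 351) (nat_lit 351) (nat_lit 318)))))) (XT.nd (nat_lit 468) (nat_lit 1216) (nat_lit 0) (XT.nd (nat_lit 234) (nat_lit 912) (nat_lit 0) (XT.nd (nat_lit 78) (nat_lit 456) (nat_lit 0) (XT.lf (nat_lit 532) (nat_lit 2238279363) (nat_lit 0) (nat_lit 650290592) (nat_lit 456) (nat_lit 650290592) (nat_lit 295) (nat_lit 1) (nat_lit 288) (nat_lit 1) (nat_lit 294) (nat_lit 1) (nat_lit 352) (nat_lit 351) (nat_lit 317)) (XT.nd (nat_lit 78) (nat_lit 456) (nat_lit 0) (XT.lf (nat_lit 76) (nat_lit 831284351) (nat_lit 0) (nat_lit 1832412813) (nat_lit 532) (nat_lit 831284351) (nat_lit 289) (nat_lit 1) (nat_lit 288) (nat_lit 1) (nat_lit 295) (nat_lit 1) (nat_lit 353) (nat_lit 351) (nat_lit 316)) (XT.lf (nat_lit 532) (nat_lit 1085661480) (nat_lit 0)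 (nat_lit 1183097892) (nat_lit 456) (nat_lit 1183097892) (nat_lit 289) (nat_lit 1) (nat_lit 282) (nat_lit 1) (nat_lit 288) (nat_lit 1) (nat_lit 354) (nat_lit 351) (nat_lit 315)))) (XT.nd (nat_lit 78) (nat_lit 912) (nat_lit 0) (XT.lf (nat_lit 76) (nat_lit 257404129) (nat_lit 0) (nat_lit 2894867720) (nat_lit 532) (nat_lit 257404129) (nat_lit 283) (nat_lit 1) (nat_lit 282) (nat_lit 1) (nat_lit 289) (nat_lit 1) (nat_lit 355) (nat_lit 351) (nat_lit 314)) (XT.nd (nat_lit 78) (nat_lit 456) (nat_lit 0) (XT.lf (nat_lit 76) (nat_lit 1650700435) (nat_lit 0) (nat_lit 66476219) (nat_lit 456) (nat_lit 1650700435) (nat_lit 277) (nat_lit 1) (nat_lit 276) (nat_lit 1) (nat_lit 282) (nat_lit 1) (nat_lit 356) (nat_lit 351) (nat_lit 313)) (XT.lf (nat_lit 532) (nat_lit 2700424244) (nat_lit 0) (nat_lit 313281345) (nat_lit 456) (nat_lit 313281345) (nat_lit 277) (nat_lit 1) (nat_lit 270) (nat_lit 1) (nat_lit 276) (nat_lit 1)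 (nat_lit 357) (nat_lit 351) (nat_lit 312))))) (XT.nd (nat_lit 234) (nat_lit 836) (nat_lit 0) (XT.nd (nat_lit 78) (nat_lit 380) (nat_lit 0) (XT.lf (nat_lit 76) (nat_lit 1045107459) (nat_lit 0) (nat_lit 1196294094) (nat_lit 532) (nat_lit 1045107459) (nat_lit 271) (nat_lit 1) (nat_lit 270) (nat_lit 1) (nat_lit 277) (nat_lit 1) (nat_lit 358) (nat_lit 351) (nat_lit 311)) (XT.nd (nat_lit 78) (nat_lit 0) (nat_lit 0) (XT.lf (nat_lit 456) (nat_lit 1486050305) (nat_lit 0) (nat_lit 880409074) (nat_lit 380) (nat_lit 880409074) (nat_lit 271) (nat_lit 1) (nat_lit 265) (nat_lit 1) (nat_lit 270) (nat_lit 1) (nat_lit 359) (nat_lit 351) (nat_lit 310)) (XT.lf (nat_lit 76) (nat_lit 442384675) (nat_lit 0) (nat_lit 2323184580) (nat_lit 456) (nat_lit 442384675) (nat_lit 266) (nat_lit 1) (nat_lit 265) (nat_lit 1) (nat_lit 271) (nat_lit 1) (nat_lit 360) (nat_lit 351) (nat_lit 309)))) (XT.nd (nat_lit 78) (nat_lit 456) (nat_lit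 0) (XT.lf (nat_lit 456) (nat_lit 278225114) (nat_lit 0) (nat_lit 1445642169) (nat_lit 380) (nat_lit 1445642169) (nat_lit 266) (nat_lit 1) (nat_lit 260) (nat_lit 1) (nat_lit 265) (nat_lit 1) (nat_lit 361) (nat_lit 351) (nat_lit 308)) (XT.nd (nat_lit 78) (nat_lit 0) (nat_lit 0) (XT.lf (nat_lit 456) (nat_lit 2821587943) (nat_lit 0) (nat_lit 155167433) (nat_lit 380) (nat_lit 155167433) (nat_lit 260) (nat_lit 1) (nat_lit 254) (nat_lit 1) (nat_lit 259) (nat_lit 1) (nat_lit 362) (nat_lit 351) (nat_lit 307)) (XT.lf (nat_lit 76) (nat_lit 1095467615) (nat_lit 0) (nat_lit 903604110) (nat_lit 456) (nat_lit 1095467615) (nat_lit 255) (nat_lit 1) (nat_lit 254) (nat_lit 1) (nat_lit 260) (nat_lit 1) (nat_lit 363) (nat_lit 351) (nat_lit 306))))))))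
noncomputable def ec32 : XT := (XT.nd (nat_lit 1716) (nat_lit 532) (nat_lit 0) (XT.nd (nat_lit 858) (nat_lit 1976) (nat_lit 0) (XT.nd (nat_lit 390) (nat_lit 1292) (nat_lit 0) (XT.nd (nat_lit 156) (nat_lit 760) (nat_lit 0) (XT.nd (nat_lit 78) (nat_lit 0) (nat_lit 0) (XT.lf (nat_lit 456) (nat_lit 1569792180) (nat_lit 0) (nat_lit 744097253) (nat_lit 380) (nat_lit 744097253) (nat_lit 255) (nat_lit 1) (nat_lit 249) (nat_lit 1) (nat_lit 254) (nat_lit 1) (nat_lit 364) (nat_lit 351) (nat_lit 305)) (XT.lf (nat_lit 76) (nat_lit 475599089) (nat_lit 0) (nat_lit 2070847800) (nat_lit 456) (nat_lit 475599089) (nat_lit 250) (nat_lit 1) (nat_lit 249) (nat_lit 1) (nat_lit 255) (nat_lit 1) (nat_lit 365) (nat_lit 351) (nat_lit 304))) (XT.nd (nat_lit 78) (nat_lit 456) (nat_lit 0) (XT.lf (nat_lit 380) (nat_lit 330319048) (nat_lit 0) (nat_lit 1328120853) (nat_lit 304) (nat_lit 1328120853) (nat_lit 250) (nat_lit 1) (nat_lit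 245) (nat_lit 1) (nat_lit 249) (nat_lit 1) (nat_lit 366) (nat_lit 351) (nat_lit 303)) (XT.nd (nat_lit 78) (nat_lit 0) (nat_lit 0) (XT.lf (nat_lit 456) (nat_lit 2678810671) (nat_lit 0) (nat_lit 136521655) (nat_lit 380) (nat_lit 136521655) (nat_lit 245) (nat_lit 1) (nat_lit 239) (nat_lit 1) (nat_lit 244) (nat_lit 1) (nat_lit 367) (nat_lit 351) (nat_lit 302)) (XT.lf (nat_lit 76) (nat_lit 1019484346) (nat_lit 0) (nat_lit 878324400) (nat_lit 456) (nat_lit 1019484346) (nat_lit 240) (nat_lit 1) (nat_lit 239) (nat_lit 1) (nat_lit 245) (nat_lit 1) (nat_lit 368) (nat_lit 351) (nat_lit 301))))) (XT.nd (nat_lit 234) (nat_lit 684) (nat_lit 0) (XT.nd (nat_lit 78) (nat_lit 304) (nat_lit 0) (XT.lf (nat_lit 380) (nat_lit 1409151864) (nat_lit 0) (nat_lit 737168080) (nat_lit 304) (nat_lit 737168080) (nat_lit 240) (nat_lit 1) (nat_lit 235) (nat_lit 1) (nat_lit 239) (nat_lit 1) (nat_lit 369) (nat_lit 351) (nat_lit 300))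 (XT.nd (nat_lit 78) (nat_lit 304) (nat_lit 0) (XT.lf (nat_lit 76) (nat_lit 391863608) (nat_lit 0) (nat_lit 2066533985) (nat_lit 380) (nat_lit 391863608) (nat_lit 236) (nat_lit 1) (nat_lit 235) (nat_lit 1) (nat_lit 240) (nat_lit 1) (nat_lit 370) (nat_lit 351) (nat_lit 299)) (XT.lf (nat_lit 380) (nat_lit 156258683) (nat_lit 0) (nat_lit 1330576682) (nat_lit 304) (nat_lit 1330576682) (nat_lit 236) (nat_lit 1) (nat_lit 231) (nat_lit 1) (nat_lit 235) (nat_lit 1) (nat_lit 371) (nat_lit 351) (nat_lit 298)))) (XT.nd (nat_lit 78) (nat_lit 304) (nat_lit 0) (XT.lf (nat_lit 380) (nat_lit 2335185673) (nat_lit 0) (nat_lit 225012742) (nat_lit 304) (nat_lit 225012742) (nat_lit 231) (nat_lit 1) (nat_lit 226) (nat_lit 1) (nat_lit 230) (nat_lit 1) (nat_lit 372) (nat_lit 351) (nat_lit 297)) (XT.nd (nat_lit 78) (nat_lit 304) (nat_lit 0) (XT.lf (nat_lit 76) (nat_lit 847546612) (nat_lit 0) (nat_lit 1058137764) (nat_lit 380)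 (nat_lit 847546612) (nat_lit 227) (nat_lit 1) (nat_lit 226) (nat_lit 1) (nat_lit 231) (nat_lit 1) (nat_lit 373) (nat_lit 351) (nat_lit 296)) (XT.lf (nat_lit 380) (nat_lit 1063270347) (nat_lit 0) (nat_lit 829304892) (nat_lit 304) (nat_lit 829304892) (nat_lit 227) (nat_lit 1) (nat_lit 222) (nat_lit 1) (nat_lit 226) (nat_lit 1) (nat_lit 374) (nat_lit 351) (nat_lit 295)))))) (XT.nd (nat_lit 390) (nat_lit 1140) (nat_lit 0) (XT.nd (nat_lit 156) (nat_lit 532) (nat_lit 0) (XT.nd (nat_lit 78) (nat_lit 304) (nat_lit 0) (XT.lf (nat_lit 76) (nat_lit 219661323) (nat_lit 0) (nat_lit 2251813132) (nat_lit 380) (nat_lit 219661323) (nat_lit 223) (nat_lit 1) (nat_lit 222) (nat_lit 1) (nat_lit 227) (nat_lit 1) (nat_lit 375) (nat_lit 351) (nat_lit 294)) (XT.lf (nat_lit 76) (nat_lit 1237869986) (nat_lit 0) (nat_lit 184849548) (nat_lit 304) (nat_lit 1237869986) (nat_lit 219) (nat_lit 1) (nat_lit 218) (nat_lit 1) (nat_lit 222)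 (nat_lit 1) (nat_lit 376) (nat_lit 351) (nat_lit 293))) (XT.nd (nat_lit 78) (nat_lit 228) (nat_lit 0) (XT.lf (nat_lit 380) (nat_lit 1842213126) (nat_lit 0) (nat_lit 394209901) (nat_lit 304) (nat_lit 394209901) (nat_lit 219) (nat_lit 1) (nat_lit 214) (nat_lit 1) (nat_lit 218) (nat_lit 1) (nat_lit 377) (nat_lit 351) (nat_lit 292)) (XT.nd (nat_lit 78) (nat_lit 228) (nat_lit 0) (XT.lf (nat_lit 76) (nat_lit 604449392) (nat_lit 0) (nat_lit 1392118820) (nat_lit 380) (nat_lit 604449392) (nat_lit 215) (nat_lit 1) (nat_lit 214) (nat_lit 1) (nat_lit 219) (nat_lit 1) (nat_lit 378) (nat_lit 351) (nat_lit 291)) (XT.lf (nat_lit 304) (nat_lit 580382269) (nat_lit 0) (nat_lit 995742536) (nat_lit 228) (nat_lit 995742536) (nat_lit 215) (nat_lit 1) (nat_lit 211) (nat_lit 1) (nat_lit 214) (nat_lit 1) (nat_lit 379) (nat_lit 351) (nat_lit 290))))) (XT.nd (nat_lit 234) (nat_lit 532) (nat_lit 0) (XT.nd (nat_lit 78) (nat_lit 228)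 (nat_lit 0) (XT.lf (nat_lit 380) (nat_lit 2508152594) (nat_lit 0) (nat_lit 17612765) (nat_lit 304) (nat_lit 17612765) (nat_lit 211) (nat_lit 1) (nat_lit 206) (nat_lit 1) (nat_lit 210) (nat_lit 1) (nat_lit 380) (nat_lit 351) (nat_lit 289)) (XT.nd (nat_lit 78) (nat_lit 228) (nat_lit 0) (XT.lf (nat_lit 76) (nat_lit 934407739) (nat_lit 0) (nat_lit 646017421) (nat_lit 380) (nat_lit 934407739) (nat_lit 207) (nat_lit 1) (nat_lit 206) (nat_lit 1) (nat_lit 211) (nat_lit 1) (nat_lit 381) (nat_lit 351) (nat_lit 288)) (XT.lf (nat_lit 304) (nat_lit 1241766328) (nat_lit 0) (nat_lit 622584145) (nat_lit 228) (nat_lit 622584145) (nat_lit 207) (nat_lit 1) (nat_lit 203) (nat_lit 1) (nat_lit 206) (nat_lit 1) (nat_lit 382) (nat_lit 351) (nat_lit 287)))) (XT.nd (nat_lit 78) (nat_lit 532) (nat_lit 0) (XT.lf (nat_lit 76) (nat_lit 310343015) (nat_lit 0) (nat_lit 1838804779) (nat_lit 304) (nat_lit 310343015) (nat_lit 204) (nat_lit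 1) (nat_lit 203) (nat_lit 1) (nat_lit 207) (nat_lit 1) (nat_lit 383) (nat_lit 351) (nat_lit 286)) (XT.nd (nat_lit 78) (nat_lit 228) (nat_lit 0) (XT.lf (nat_lit 76) (nat_lit 1215997798) (nat_lit 0) (nat_lit 325569) (nat_lit 304) (nat_lit 1215997798) (nat_lit 200) (nat_lit 1) (nat_lit 199) (nat_lit 1) (nat_lit 203) (nat_lit 1) (nat_lit 384) (nat_lit 351) (nat_lit 285)) (XT.lf (nat_lit 304) (nat_lit 1808248833) (nat_lit 0) (nat_lit 298672316) (nat_lit 228) (nat_lit 298672316) (nat_lit 200) (nat_lit 1) (nat_lit 196) (nat_lit 1) (nat_lit 199) (nat_lit 1) (nat_lit 385) (nat_lit 351) (nat_lit 284))))))) (XT.nd (nat_lit 48204) (nat_lit 0) (nat_lit 13224) (XT.nd (nat_lit 47736) (nat_lit 0) (nat_lit 14060) (XT.nd (nat_lit 156) (nat_lit 304) (nat_lit 0) (XT.nd (nat_lit 78) (nat_lit 228) (nat_lit 0) (XT.lf (nat_lit 76) (nat_lit 592382999) (nat_lit 0) (nat_lit 1194356784) (nat_lit 304) (nat_lit 592382999) (nat_lit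 197) (nat_lit 1) (nat_lit 196) (nat_lit 1) (nat_lit 200) (nat_lit 1) (nat_lit 386) (nat_lit 351) (nat_lit 283)) (XT.lf (nat_lit 304) (nat_lit 567733476) (nat_lit 0) (nat_lit 892674281) (nat_lit 228) (nat_lit 892674281) (nat_lit 197) (nat_lit 1) (nat_lit 193) (nat_lit 1) (nat_lit 196) (nat_lit 1) (nat_lit 387) (nat_lit 351) (nat_lit 282))) (XT.nd (nat_lit 78) (nat_lit 0) (nat_lit 0) (XT.lf (nat_lit 304) (nat_lit 2291028516) (nat_lit 0) (nat_lit 18293054) (nat_lit 228) (nat_lit 18293054) (nat_lit 193) (nat_lit 1) (nat_lit 189) (nat_lit 1) (nat_lit 192) (nat_lit 1) (nat_lit 388) (nat_lit 351) (nat_lit 281)) (XT.nd (nat_lit 47424) (nat_lit 0) (nat_lit 14060) (XT.lf (nat_lit 76) (nat_lit 833749136) (nat_lit 0) (nat_lit 634571070) (nat_lit 304) (nat_lit 833749136) (nat_lit 190) (nat_lit 1) (nat_lit 189) (nat_lit 1) (nat_lit 193) (nat_lit 1) (nat_lit 389) (nat_lit 351) (nat_lit 280)) (XT.lf (nat_lit 1292) (nat_lit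 531754744) (nat_lit 0) (nat_lit 1829483625) (nat_lit 1292) (nat_lit 531754744) (nat_lit 391) (nat_lit 1) (nat_lit 374) (nat_lit 0) (nat_lit 391) (nat_lit 0) (nat_lit 316) (nat_lit 352) (nat_lit 352))))) (XT.nd (nat_lit 234) (nat_lit 0) (nat_lit 152) (XT.nd (nat_lit 78) (nat_lit 0) (nat_lit 76) (XT.lf (nat_lit 1292) (nat_lit 2078106860) (nat_lit 76) (nat_lit 1811547511) (nat_lit 0) (nat_lit 1811547511) (nat_lit 391) (nat_lit 1) (nat_lit 375) (nat_lit 1) (nat_lit 374) (nat_lit 0) (nat_lit 317) (nat_lit 352) (nat_lit 351)) (XT.nd (nat_lit 78) (nat_lit 0) (nat_lit 0) (XT.lf (nat_lit 1292) (nat_lit 1005022025) (nat_lit 0) (nat_lit 3608243650) (nat_lit 1216) (nat_lit 1005022025) (nat_lit 392) (nat_lit 1) (nat_lit 375) (nat_lit 1) (nat_lit 391) (nat_lit 1) (nat_lit 318) (nat_lit 352) (nat_lit 350)) (XT.lf (nat_lit 1292) (nat_lit 1908588716) (nat_lit 76) (nat_lit 1814084721) (nat_lit 0) (nat_lit 1814084721)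 (nat_lit 392) (nat_lit 1) (nat_lit 376) (nat_lit 1) (nat_lit 375) (nat_lit 1) (nat_lit 319) (nat_lit 352) (nat_lit 349)))) (XT.nd (nat_lit 78) (nat_lit 0) (nat_lit 0) (XT.lf (nat_lit 1292) (nat_lit 895595736) (nat_lit 0) (nat_lit 3665861395) (nat_lit 1216) (nat_lit 895595736) (nat_lit 393) (nat_lit 1) (nat_lit 376) (nat_lit 1) (nat_lit 392) (nat_lit 1) (nat_lit 320) (nat_lit 352) (nat_lit 348)) (XT.nd (nat_lit 78) (nat_lit 0) (nat_lit 76) (XT.lf (nat_lit 1292) (nat_lit 1641273749) (nat_lit 76) (nat_lit 1868674275) (nat_lit 0) (nat_lit 1868674275) (nat_lit 393) (nat_lit 1) (nat_lit 377) (nat_lit 1) (nat_lit 376) (nat_lit 1) (nat_lit 321) (nat_lit 352) (nat_lit 347)) (XT.lf (nat_lit 1292) (nat_lit 739736163) (nat_lit 0) (nat_lit 3822530482) (nat_lit 1216) (nat_lit 739736163) (nat_lit 394) (nat_lit 1) (nat_lit 377) (nat_lit 1) (nat_lit 393) (nat_lit 1) (nat_lit 322) (nat_lit 352) (nat_lit 346)))))) (XT.nd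 (nat_lit 390) (nat_lit 1064) (nat_lit 0) (XT.nd (nat_lit 156) (nat_lit 0) (nat_lit 76) (XT.nd (nat_lit 78) (nat_lit 0) (nat_lit 76) (XT.lf (nat_lit 1292) (nat_lit 1284907777) (nat_lit 76) (nat_lit 1970807824) (nat_lit 0) (nat_lit 1970807824) (nat_lit 394) (nat_lit 1) (nat_lit 378) (nat_lit 1) (nat_lit 377) (nat_lit 1) (nat_lit 323) (nat_lit 352) (nat_lit 345)) (XT.lf (nat_lit 1292) (nat_lit 541644148) (nat_lit 0) (nat_lit 4069583634) (nat_lit 1216) (nat_lit 541644148) (nat_lit 395) (nat_lit 1) (nat_lit 378) (nat_lit 1) (nat_lit 394) (nat_lit 1) (nat_lit 324) (nat_lit 352) (nat_lit 344))) (XT.nd (nat_lit 78) (nat_lit 0) (nat_lit 76) (XT.lf (nat_lit 1292) (nat_lit 847643350) (nat_lit 76) (nat_lit 2116280101) (nat_lit 0) (nat_lit 2116280101) (nat_lit 395) (nat_lit 1) (nat_lit 379) (nat_lit 1) (nat_lit 378) (nat_lit 1) (nat_lit 325) (nat_lit 352) (nat_lit 343)) (XT.nd (nat_lit 78) (nat_lit 0) (nat_lit 0)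 (XT.lf (nat_lit 1292) (nat_lit 305234670) (nat_lit 0) (nat_lit 4398937946) (nat_lit 1216) (nat_lit 305234670) (nat_lit 396) (nat_lit 1) (nat_lit 379) (nat_lit 1) (nat_lit 395) (nat_lit 1) (nat_lit 326) (nat_lit 352) (nat_lit 342)) (XT.lf (nat_lit 1292) (nat_lit 337076468) (nat_lit 76) (nat_lit 2301170228) (nat_lit 0) (nat_lit 2301170228) (nat_lit 396) (nat_lit 1) (nat_lit 380) (nat_lit 1) (nat_lit 379) (nat_lit 1) (nat_lit 327) (nat_lit 352) (nat_lit 341))))) (XT.nd (nat_lit 234) (nat_lit 0) (nat_lit 76) (XT.nd (nat_lit 78) (nat_lit 1292) (nat_lit 0) (XT.lf (nat_lit 1292) (nat_lit 34154552) (nat_lit 0) (nat_lit 4803058808) (nat_lit 1216) (nat_lit 34154552) (nat_lit 397) (nat_lit 1) (nat_lit 380) (nat_lit 1) (nat_lit 396) (nat_lit 1) (nat_lit 328) (nat_lit 352) (nat_lit 340)) (XT.nd (nat_lit 78) (nat_lit 0) (nat_lit 0) (XT.lf (nat_lit 1368) (nat_lit 2284409573) (nat_lit 0) (nat_lit 235041115) (nat_lit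 1292) (nat_lit 2284409573) (nat_lit 381) (nat_lit 1) (nat_lit 363) (nat_lit 1) (nat_lit 380) (nat_lit 1) (nat_lit 329) (nat_lit 352) (nat_lit 339)) (XT.lf (nat_lit 1368) (nat_lit 4207070385) (nat_lit 76) (nat_lit 265571454) (nat_lit 0) (nat_lit 265571454) (nat_lit 381) (nat_lit 1) (nat_lit 364) (nat_lit 1) (nat_lit 363) (nat_lit 1) (nat_lit 330) (nat_lit 352) (nat_lit 338)))) (XT.nd (nat_lit 78) (nat_lit 0) (nat_lit 0) (XT.lf (nat_lit 1368) (nat_lit 1907101916) (nat_lit 0) (nat_lit 859061313) (nat_lit 1292) (nat_lit 1907101916) (nat_lit 382) (nat_lit 1) (nat_lit 364) (nat_lit 1) (nat_lit 381) (nat_lit 1) (nat_lit 331) (nat_lit 352) (nat_lit 337)) (XT.nd (nat_lit 78) (nat_lit 0) (nat_lit 76) (XT.lf (nat_lit 1368) (nat_lit 3424357825) (nat_lit 76) (nat_lit 592802780) (nat_lit 0) (nat_lit 592802780) (nat_lit 382) (nat_lit 1) (nat_lit 365) (nat_lit 1) (nat_lit 364) (nat_lit 1) (nat_lit 332) (nat_lit 352)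 (nat_lit 336)) (XT.lf (nat_lit 76) (nat_lit 1505981011) (nat_lit 0) (nat_lit 1535555832) (nat_lit 1292) (nat_lit 1505981011) (nat_lit 366) (nat_lit 1) (nat_lit 365) (nat_lit 1) (nat_lit 382) (nat_lit 1) (nat_lit 333) (nat_lit 352) (nat_lit 335))))))))
noncomputable def ec33 : XT := (XT.nd (nat_lit 1716) (nat_lit 4484) (nat_lit 0) (XT.nd (nat_lit 858) (nat_lit 3420) (nat_lit 0) (XT.nd (nat_lit 390) (nat_lit 1748) (nat_lit 0) (XT.nd (nat_lit 156) (nat_lit 1216) (nat_lit 0) (XT.nd (nat_lit 78) (nat_lit 0) (nat_lit 0) (XT.lf (nat_lit 912) (nat_lit 2596523280) (nat_lit 0) (nat_lit 944964683) (nat_lit 836) (nat_lit 944964683) (nat_lit 366) (nat_lit 1) (nat_lit 354) (nat_lit 1) (nat_lit 365) (nat_lit 1) (nat_lit 334) (nat_lit 352) (nat_lit 334)) (XT.lf (nat_lit 76) (nat_lit 1083738271) (nat_lit 0) (nat_lit 2258940711) (nat_lit 912) (nat_lit 1083738271) (nat_lit 355) (nat_lit 1) (nat_lit 354) (nat_lit 1) (nat_lit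 366) (nat_lit 1) (nat_lit 335) (nat_lit 352) (nat_lit 333))) (XT.nd (nat_lit 78) (nat_lit 608) (nat_lit 0) (XT.lf (nat_lit 684) (nat_lit 1728779836) (nat_lit 0) (nat_lit 1319352794) (nat_lit 608) (nat_lit 1319352794) (nat_lit 355) (nat_lit 1) (nat_lit 346) (nat_lit 1) (nat_lit 354) (nat_lit 1) (nat_lit 336) (nat_lit 352) (nat_lit 332)) (XT.nd (nat_lit 78) (nat_lit 608) (nat_lit 0) (XT.lf (nat_lit 76) (nat_lit 642872035) (nat_lit 0) (nat_lit 3024027441) (nat_lit 684) (nat_lit 642872035) (nat_lit 347) (nat_lit 1) (nat_lit 346) (nat_lit 1) (nat_lit 355) (nat_lit 1) (nat_lit 337) (nat_lit 352) (nat_lit 331)) (XT.lf (nat_lit 684) (nat_lit 825964931) (nat_lit 0) (nat_lit 1713455070) (nat_lit 608) (nat_lit 1713455070) (nat_lit 347) (nat_lit 1) (nat_lit 338) (nat_lit 1) (nat_lit 346) (nat_lit 1) (nat_lit 338) (nat_lit 352) (nat_lit 330))))) (XT.nd (nat_lit 234) (nat_lit 532) (nat_lit 0) (XT.nd (nat_lit 78) (nat_lit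 1216) (nat_lit 0) (XT.lf (nat_lit 76) (nat_lit 185699773) (nat_lit 0) (nat_lit 3825998073) (nat_lit 684) (nat_lit 185699773) (nat_lit 339) (nat_lit 1) (nat_lit 338) (nat_lit 1) (nat_lit 347) (nat_lit 1) (nat_lit 339) (nat_lit 352) (nat_lit 329)) (XT.nd (nat_lit 78) (nat_lit 608) (nat_lit 0) (XT.lf (nat_lit 76) (nat_lit 2018536562) (nat_lit 0) (nat_lit 105339392) (nat_lit 608) (nat_lit 2018536562) (nat_lit 331) (nat_lit 1) (nat_lit 330) (nat_lit 1) (nat_lit 338) (nat_lit 1) (nat_lit 340) (nat_lit 352) (nat_lit 328)) (XT.lf (nat_lit 684) (nat_lit 3523129550) (nat_lit 0) (nat_lit 282830136) (nat_lit 608) (nat_lit 282830136) (nat_lit 331) (nat_lit 1) (nat_lit 322) (nat_lit 1) (nat_lit 330) (nat_lit 1) (nat_lit 341) (nat_lit 352) (nat_lit 327)))) (XT.nd (nat_lit 78) (nat_lit 532) (nat_lit 0) (XT.lf (nat_lit 76) (nat_lit 1494636367) (nat_lit 0) (nat_lit 1046440226) (nat_lit 684) (nat_lit 1494636367) (nat_lit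 323) (nat_lit 1) (nat_lit 322) (nat_lit 1) (nat_lit 331) (nat_lit 1) (nat_lit 342) (nat_lit 352) (nat_lit 326)) (XT.nd (nat_lit 78) (nat_lit 0) (nat_lit 0) (XT.lf (nat_lit 608) (nat_lit 2460705930) (nat_lit 0) (nat_lit 761588642) (nat_lit 532) (nat_lit 761588642) (nat_lit 323) (nat_lit 1) (nat_lit 315) (nat_lit 1) (nat_lit 322) (nat_lit 1) (nat_lit 343) (nat_lit 352) (nat_lit 325)) (XT.lf (nat_lit 76) (nat_lit 961585424) (nat_lit 0) (nat_lit 2009682610) (nat_lit 608) (nat_lit 961585424) (nat_lit 316) (nat_lit 1) (nat_lit 315) (nat_lit 1) (nat_lit 323) (nat_lit 1) (nat_lit 344) (nat_lit 352) (nat_lit 324)))))) (XT.nd (nat_lit 390) (nat_lit 1824) (nat_lit 0) (XT.nd (nat_lit 156) (nat_lit 1064) (nat_lit 0) (XT.nd (nat_lit 78) (nat_lit 0) (nat_lit 0) (XT.lf (nat_lit 608) (nat_lit 1381589359) (nat_lit 0) (nat_lit 1250573390) (nat_lit 532) (nat_lit 1250573390) (nat_lit 316) (nat_lit 1) (nat_lit 308) (nat_lit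 1) (nat_lit 315) (nat_lit 1) (nat_lit 345) (nat_lit 352) (nat_lit 323)) (XT.lf (nat_lit 76) (nat_lit 421051492) (nat_lit 0) (nat_lit 2991577142) (nat_lit 608) (nat_lit 421051492) (nat_lit 309) (nat_lit 1) (nat_lit 308) (nat_lit 1) (nat_lit 316) (nat_lit 1) (nat_lit 346) (nat_lit 352) (nat_lit 322))) (XT.nd (nat_lit 78) (nat_lit 608) (nat_lit 0) (XT.lf (nat_lit 532) (nat_lit 289000618) (nat_lit 0) (nat_lit 1748099032) (nat_lit 456) (nat_lit 1748099032) (nat_lit 309) (nat_lit 1) (nat_lit 302) (nat_lit 1) (nat_lit 308) (nat_lit 1) (nat_lit 347) (nat_lit 352) (nat_lit 321)) (XT.nd (nat_lit 78) (nat_lit 0) (nat_lit 0) (XT.lf (nat_lit 608) (nat_lit 3489506549) (nat_lit 0) (nat_lit 124197007) (nat_lit 532) (nat_lit 124197007) (nat_lit 302) (nat_lit 1) (nat_lit 294) (nat_lit 1) (nat_lit 301) (nat_lit 1) (nat_lit 348) (nat_lit 352) (nat_lit 320)) (XT.lf (nat_lit 76) (nat_lit 1446344193) (nat_lit 0) (nat_lit 798204463)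 (nat_lit 608) (nat_lit 1446344193) (nat_lit 295) (nat_lit 1) (nat_lit 294) (nat_lit 1) (nat_lit 302) (nat_lit 1) (nat_lit 349) (nat_lit 352) (nat_lit 319))))) (XT.nd (nat_lit 234) (nat_lit 912) (nat_lit 0) (XT.nd (nat_lit 78) (nat_lit 456) (nat_lit 0) (XT.lf (nat_lit 532) (nat_lit 2305427744) (nat_lit 0) (nat_lit 669799310) (nat_lit 456) (nat_lit 669799310) (nat_lit 295) (nat_lit 1) (nat_lit 288) (nat_lit 1) (nat_lit 294) (nat_lit 1) (nat_lit 350) (nat_lit 352) (nat_lit 318)) (XT.nd (nat_lit 78) (nat_lit 456) (nat_lit 0) (XT.lf (nat_lit 76) (nat_lit 856222881) (nat_lit 0) (nat_lit 1887385198) (nat_lit 532) (nat_lit 856222881) (nat_lit 289) (nat_lit 1) (nat_lit 288) (nat_lit 1) (nat_lit 295) (nat_lit 1) (nat_lit 351) (nat_lit 352) (nat_lit 317)) (XT.lf (nat_lit 532) (nat_lit 1118231325) (nat_lit 0) (nat_lit 1218590828) (nat_lit 456) (nat_lit 1218590828) (nat_lit 289) (nat_lit 1) (nat_lit 282) (nat_lit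 1) (nat_lit 288) (nat_lit 1) (nat_lit 352) (nat_lit 352) (nat_lit 316)))) (XT.nd (nat_lit 78) (nat_lit 912) (nat_lit 0) (XT.lf (nat_lit 76) (nat_lit 265126253) (nat_lit 0) (nat_lit 2981713752) (nat_lit 532) (nat_lit 265126253) (nat_lit 283) (nat_lit 1) (nat_lit 282) (nat_lit 1) (nat_lit 289) (nat_lit 1) (nat_lit 353) (nat_lit 352) (nat_lit 315)) (XT.nd (nat_lit 78) (nat_lit 456) (nat_lit 0) (XT.lf (nat_lit 76) (nat_lit 1700221448) (nat_lit 0) (nat_lit 68470505) (nat_lit 456) (nat_lit 1700221448) (nat_lit 277) (nat_lit 1) (nat_lit 276) (nat_lit 1) (nat_lit 282) (nat_lit 1) (nat_lit 354) (nat_lit 352) (nat_lit 314)) (XT.lf (nat_lit 532) (nat_lit 2781436971) (nat_lit 0) (nat_lit 322679785) (nat_lit 456) (nat_lit 322679785) (nat_lit 277) (nat_lit 1) (nat_lit 270) (nat_lit 1) (nat_lit 276) (nat_lit 1) (nat_lit 355) (nat_lit 352) (nat_lit 313))))))) (XT.nd (nat_lit 858) (nat_lit 2128) (nat_lit 0) (XT.nd (nat_lit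 390) (nat_lit 1140) (nat_lit 0) (XT.nd (nat_lit 156) (nat_lit 836) (nat_lit 0) (XT.nd (nat_lit 78) (nat_lit 380) (nat_lit 0) (XT.lf (nat_lit 76) (nat_lit 1076460682) (nat_lit 0) (nat_lit 1232182917) (nat_lit 532) (nat_lit 1076460682) (nat_lit 271) (nat_lit 1) (nat_lit 270) (nat_lit 1) (nat_lit 277) (nat_lit 1) (nat_lit 356) (nat_lit 352) (nat_lit 312)) (XT.lf (nat_lit 456) (nat_lit 1530631814) (nat_lit 0) (nat_lit 906821346) (nat_lit 380) (nat_lit 906821346) (nat_lit 271) (nat_lit 1) (nat_lit 265) (nat_lit 1) (nat_lit 270) (nat_lit 1) (nat_lit 357) (nat_lit 352) (nat_lit 311))) (XT.nd (nat_lit 78) (nat_lit 836) (nat_lit 0) (XT.lf (nat_lit 76) (nat_lit 455656215) (nat_lit 0) (nat_lit 2392880118) (nat_lit 456) (nat_lit 455656215) (nat_lit 266) (nat_lit 1) (nat_lit 265) (nat_lit 1) (nat_lit 271) (nat_lit 1) (nat_lit 358) (nat_lit 352) (nat_lit 310)) (XT.nd (nat_lit 78) (nat_lit 456) (nat_lit 0) (XT.lf (nat_lit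 456) (nat_lit 286571867) (nat_lit 0) (nat_lit 1489011434) (nat_lit 380) (nat_lit 1489011434) (nat_lit 266) (nat_lit 1) (nat_lit 260) (nat_lit 1) (nat_lit 265) (nat_lit 1) (nat_lit 359) (nat_lit 352) (nat_lit 309)) (XT.lf (nat_lit 456) (nat_lit 2906235582) (nat_lit 0) (nat_lit 159822456) (nat_lit 380) (nat_lit 159822456) (nat_lit 260) (nat_lit 1) (nat_lit 254) (nat_lit 1) (nat_lit 259) (nat_lit 1) (nat_lit 360) (nat_lit 352) (nat_lit 308))))) (XT.nd (nat_lit 234) (nat_lit 760) (nat_lit 0) (XT.nd (nat_lit 78) (nat_lit 380) (nat_lit 0) (XT.lf (nat_lit 76) (nat_lit 1128331644) (nat_lit 0) (nat_lit 930712234) (nat_lit 456) (nat_lit 1128331644) (nat_lit 255) (nat_lit 1) (nat_lit 254) (nat_lit 1) (nat_lit 260) (nat_lit 1) (nat_lit 361) (nat_lit 352) (nat_lit 307)) (XT.nd (nat_lit 78) (nat_lit 0) (nat_lit 0) (XT.lf (nat_lit 456) (nat_lit 1616885946) (nat_lit 0) (nat_lit 766420171) (nat_lit 380) (nat_lit 766420171)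 (nat_lit 255) (nat_lit 1) (nat_lit 249) (nat_lit 1) (nat_lit 254) (nat_lit 1) (nat_lit 362) (nat_lit 352) (nat_lit 306)) (XT.lf (nat_lit 76) (nat_lit 489867062) (nat_lit 0) (nat_lit 2132973234) (nat_lit 456) (nat_lit 489867062) (nat_lit 250) (nat_lit 1) (nat_lit 249) (nat_lit 1) (nat_lit 255) (nat_lit 1) (nat_lit 363) (nat_lit 352) (nat_lit 305)))) (XT.nd (nat_lit 78) (nat_lit 456) (nat_lit 0) (XT.lf (nat_lit 380) (nat_lit 340228619) (nat_lit 0) (nat_lit 1367964479) (nat_lit 304) (nat_lit 1367964479) (nat_lit 250) (nat_lit 1) (nat_lit 245) (nat_lit 1) (nat_lit 249) (nat_lit 1) (nat_lit 364) (nat_lit 352) (nat_lit 304)) (XT.nd (nat_lit 78) (nat_lit 0) (nat_lit 0) (XT.lf (nat_lit 456) (nat_lit 2759174991) (nat_lit 0) (nat_lit 140617305) (nat_lit 380) (nat_lit 140617305) (nat_lit 245) (nat_lit 1) (nat_lit 239) (nat_lit 1) (nat_lit 244) (nat_lit 1) (nat_lit 365) (nat_lit 352) (nat_lit 303)) (XT.lf (nat_lit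 76) (nat_lit 1050068876) (nat_lit 0) (nat_lit 904674132) (nat_lit 456) (nat_lit 1050068876) (nat_lit 240) (nat_lit 1) (nat_lit 239) (nat_lit 1) (nat_lit 245) (nat_lit 1) (nat_lit 366) (nat_lit 352) (nat_lit 302)))))) (XT.nd (nat_lit 390) (nat_lit 1140) (nat_lit 0) (XT.nd (nat_lit 156) (nat_lit 684) (nat_lit 0) (XT.nd (nat_lit 78) (nat_lit 0) (nat_lit 0) (XT.lf (nat_lit 380) (nat_lit 1451426419) (nat_lit 0) (nat_lit 759283122) (nat_lit 304) (nat_lit 759283122) (nat_lit 240) (nat_lit 1) (nat_lit 235) (nat_lit 1) (nat_lit 239) (nat_lit 1) (nat_lit 367) (nat_lit 352) (nat_lit 301)) (XT.lf (nat_lit 76) (nat_lit 403619516) (nat_lit 0) (nat_lit 2128530005) (nat_lit 380) (nat_lit 403619516) (nat_lit 236) (nat_lit 1) (nat_lit 235) (nat_lit 1) (nat_lit 240) (nat_lit 1) (nat_lit 368) (nat_lit 352) (nat_lit 300))) (XT.nd (nat_lit 78) (nat_lit 380) (nat_lit 0) (XT.lf (nat_lit 380) (nat_lit 160946444) (nat_lit 0)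 (nat_lit 1370493983) (nat_lit 304) (nat_lit 1370493983) (nat_lit 236) (nat_lit 1) (nat_lit 231) (nat_lit 1) (nat_lit 235) (nat_lit 1) (nat_lit 369) (nat_lit 352) (nat_lit 299)) (XT.nd (nat_lit 78) (nat_lit 0) (nat_lit 0) (XT.lf (nat_lit 380) (nat_lit 2405241243) (nat_lit 0) (nat_lit 231763124) (nat_lit 304) (nat_lit 231763124) (nat_lit 231) (nat_lit 1) (nat_lit 226) (nat_lit 1) (nat_lit 230) (nat_lit 1) (nat_lit 370) (nat_lit 352) (nat_lit 298)) (XT.lf (nat_lit 76) (nat_lit 872973011) (nat_lit 0) (nat_lit 1089881897) (nat_lit 380) (nat_lit 872973011) (nat_lit 227) (nat_lit 1) (nat_lit 226) (nat_lit 1) (nat_lit 231) (nat_lit 1) (nat_lit 371) (nat_lit 352) (nat_lit 297))))) (XT.nd (nat_lit 234) (nat_lit 532) (nat_lit 0) (XT.nd (nat_lit 78) (nat_lit 304) (nat_lit 0) (XT.lf (nat_lit 380) (nat_lit 1095168457) (nat_lit 0) (nat_lit 854184038) (nat_lit 304) (nat_lit 854184038) (nat_lit 227) (nat_lit 1) (nat_lit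 222) (nat_lit 1) (nat_lit 226) (nat_lit 1) (nat_lit 372) (nat_lit 352) (nat_lit 296)) (XT.nd (nat_lit 78) (nat_lit 304) (nat_lit 0) (XT.lf (nat_lit 76) (nat_lit 226251163) (nat_lit 0) (nat_lit 2319367526) (nat_lit 380) (nat_lit 226251163) (nat_lit 223) (nat_lit 1) (nat_lit 222) (nat_lit 1) (nat_lit 227) (nat_lit 1) (nat_lit 373) (nat_lit 352) (nat_lit 295)) (XT.lf (nat_lit 76) (nat_lit 1275006085) (nat_lit 0) (nat_lit 190395034) (nat_lit 304) (nat_lit 1275006085) (nat_lit 219) (nat_lit 1) (nat_lit 218) (nat_lit 1) (nat_lit 222) (nat_lit 1) (nat_lit 374) (nat_lit 352) (nat_lit 294)))) (XT.nd (nat_lit 78) (nat_lit 228) (nat_lit 0) (XT.lf (nat_lit 380) (nat_lit 1897479520) (nat_lit 0) (nat_lit 406036198) (nat_lit 304) (nat_lit 406036198) (nat_lit 219) (nat_lit 1) (nat_lit 214) (nat_lit 1) (nat_lit 218) (nat_lit 1) (nat_lit 375) (nat_lit 352) (nat_lit 293)) (XT.nd (nat_lit 78) (nat_lit 228) (nat_lit 0) (XT.lf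 (nat_lit 76) (nat_lit 622582874) (nat_lit 0) (nat_lit 1433882384) (nat_lit 380) (nat_lit 622582874) (nat_lit 215) (nat_lit 1) (nat_lit 214) (nat_lit 1) (nat_lit 219) (nat_lit 1) (nat_lit 376) (nat_lit 352) (nat_lit 292)) (XT.lf (nat_lit 304) (nat_lit 597793737) (nat_lit 0) (nat_lit 1025614813) (nat_lit 228) (nat_lit 1025614813) (nat_lit 215) (nat_lit 1) (nat_lit 211) (nat_lit 1) (nat_lit 214) (nat_lit 1) (nat_lit 377) (nat_lit 352) (nat_lit 291))))))))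
noncomputable def ec34 : XT := (XT.nd (nat_lit 48906) (nat_lit 0) (nat_lit 8816) (XT.nd (nat_lit 858) (nat_lit 0) (nat_lit 0) (XT.nd (nat_lit 390) (nat_lit 988) (nat_lit 0) (XT.nd (nat_lit 156) (nat_lit 532) (nat_lit 0) (XT.nd (nat_lit 78) (nat_lit 0) (nat_lit 0) (XT.lf (nat_lit 380) (nat_lit 2583397172) (nat_lit 0) (nat_lit 18141148) (nat_lit 304) (nat_lit 18141148) (nat_lit 211) (nat_lit 1) (nat_lit 206) (nat_lit 1) (nat_lit 210) (nat_lit 1) (nat_lit 378) (nat_lit 352) (nat_lit 290)) (XT.lf (nat_lit 76) (nat_lit 962439971) (nat_lit 0) (nat_lit 665397944) (nat_lit 380) (nat_lit 962439971) (nat_lit 207) (nat_lit 1) (nat_lit 206) (nat_lit 1) (nat_lit 211) (nat_lit 1) (nat_lit 379) (nat_lit 352) (nat_lit 289))) (XT.nd (nat_lit 78) (nat_lit 304) (nat_lit 0) (XT.lf (nat_lit 304) (nat_lit 1279019318) (nat_lit 0) (nat_lit 641261669) (nat_lit 228) (nat_lit 641261669) (nat_lit 207) (nat_lit 1) (nat_lit 203)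 (nat_lit 1) (nat_lit 206) (nat_lit 1) (nat_lit 380) (nat_lit 352) (nat_lit 288)) (XT.nd (nat_lit 78) (nat_lit 304) (nat_lit 0) (XT.lf (nat_lit 76) (nat_lit 319653305) (nat_lit 0) (nat_lit 1893968923) (nat_lit 304) (nat_lit 319653305) (nat_lit 204) (nat_lit 1) (nat_lit 203) (nat_lit 1) (nat_lit 207) (nat_lit 1) (nat_lit 381) (nat_lit 352) (nat_lit 287)) (XT.lf (nat_lit 76) (nat_lit 1252477732) (nat_lit 0) (nat_lit 335336) (nat_lit 304) (nat_lit 1252477732) (nat_lit 200) (nat_lit 1) (nat_lit 199) (nat_lit 1) (nat_lit 203) (nat_lit 1) (nat_lit 382) (nat_lit 352) (nat_lit 286))))) (XT.nd (nat_lit 234) (nat_lit 532) (nat_lit 0) (XT.nd (nat_lit 78) (nat_lit 228) (nat_lit 0) (XT.lf (nat_lit 304) (nat_lit 1862496298) (nat_lit 0) (nat_lit 307632485) (nat_lit 228) (nat_lit 307632485) (nat_lit 200) (nat_lit 1) (nat_lit 196) (nat_lit 1) (nat_lit 199) (nat_lit 1) (nat_lit 383) (nat_lit 352) (nat_lit 285)) (XT.nd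 (nat_lit 78) (nat_lit 228) (nat_lit 0) (XT.lf (nat_lit 76) (nat_lit 610154489) (nat_lit 0) (nat_lit 1230187487) (nat_lit 304) (nat_lit 610154489) (nat_lit 197) (nat_lit 1) (nat_lit 196) (nat_lit 1) (nat_lit 200) (nat_lit 1) (nat_lit 384) (nat_lit 352) (nat_lit 284)) (XT.lf (nat_lit 304) (nat_lit 584765480) (nat_lit 0) (nat_lit 919454509) (nat_lit 228) (nat_lit 919454509) (nat_lit 197) (nat_lit 1) (nat_lit 193) (nat_lit 1) (nat_lit 196) (nat_lit 1) (nat_lit 385) (nat_lit 352) (nat_lit 283)))) (XT.nd (nat_lit 78) (nat_lit 228) (nat_lit 0) (XT.lf (nat_lit 304) (nat_lit 2359759371) (nat_lit 0) (nat_lit 18841845) (nat_lit 228) (nat_lit 18841845) (nat_lit 193) (nat_lit 1) (nat_lit 189) (nat_lit 1) (nat_lit 192) (nat_lit 1) (nat_lit 386) (nat_lit 352) (nat_lit 282)) (XT.nd (nat_lit 78) (nat_lit 228) (nat_lit 0) (XT.lf (nat_lit 76) (nat_lit 858761610) (nat_lit 0) (nat_lit 653608202) (nat_lit 304) (nat_lit 858761610)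 (nat_lit 190) (nat_lit 1) (nat_lit 189) (nat_lit 1) (nat_lit 193) (nat_lit 1) (nat_lit 387) (nat_lit 352) (nat_lit 281)) (XT.lf (nat_lit 304) (nat_lit 1087585053) (nat_lit 0) (nat_lit 628907224) (nat_lit 228) (nat_lit 628907224) (nat_lit 190) (nat_lit 1) (nat_lit 186) (nat_lit 1) (nat_lit 189) (nat_lit 1) (nat_lit 388) (nat_lit 352) (nat_lit 280)))))) (XT.nd (nat_lit 47580) (nat_lit 0) (nat_lit 14440) (XT.nd (nat_lit 47346) (nat_lit 0) (nat_lit 14288) (XT.nd (nat_lit 47268) (nat_lit 0) (nat_lit 14288) (XT.lf (nat_lit 76) (nat_lit 232613215) (nat_lit 0) (nat_lit 1854876989) (nat_lit 304) (nat_lit 232613215) (nat_lit 187) (nat_lit 1) (nat_lit 186) (nat_lit 1) (nat_lit 190) (nat_lit 1) (nat_lit 389) (nat_lit 352) (nat_lit 279)) (XT.lf (nat_lit 1292) (nat_lit 547707387) (nat_lit 0) (nat_lit 1884368133) (nat_lit 1292) (nat_lit 547707387) (nat_lit 391) (nat_lit 1) (nat_lit 374) (nat_lit 0) (nat_lit 391) (nat_lit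 0) (nat_lit 314) (nat_lit 353) (nat_lit 353))) (XT.nd (nat_lit 78) (nat_lit 0) (nat_lit 76) (XT.lf (nat_lit 1292) (nat_lit 2140450066) (nat_lit 76) (nat_lit 1865893936) (nat_lit 0) (nat_lit 1865893936) (nat_lit 391) (nat_lit 1) (nat_lit 375) (nat_lit 1) (nat_lit 374) (nat_lit 0) (nat_lit 315) (nat_lit 353) (nat_lit 352)) (XT.nd (nat_lit 78) (nat_lit 0) (nat_lit 0) (XT.lf (nat_lit 1292) (nat_lit 1035172686) (nat_lit 0) (nat_lit 3716490960) (nat_lit 1216) (nat_lit 1035172686) (nat_lit 392) (nat_lit 1) (nat_lit 375) (nat_lit 1) (nat_lit 391) (nat_lit 1) (nat_lit 316) (nat_lit 353) (nat_lit 351)) (XT.lf (nat_lit 1292) (nat_lit 1965846378) (nat_lit 76) (nat_lit 1868507263) (nat_lit 0) (nat_lit 1868507263) (nat_lit 392) (nat_lit 1) (nat_lit 376) (nat_lit 1) (nat_lit 375) (nat_lit 1) (nat_lit 317) (nat_lit 353) (nat_lit 350))))) (XT.nd (nat_lit 234) (nat_lit 0) (nat_lit 76) (XT.nd (nat_lit 78) (nat_lit 0) (nat_lit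 0) (XT.lf (nat_lit 1292) (nat_lit 922463608) (nat_lit 0) (nat_lit 3775837237) (nat_lit 1216) (nat_lit 922463608) (nat_lit 393) (nat_lit 1) (nat_lit 376) (nat_lit 1) (nat_lit 392) (nat_lit 1) (nat_lit 318) (nat_lit 353) (nat_lit 349)) (XT.nd (nat_lit 78) (nat_lit 0) (nat_lit 76) (XT.lf (nat_lit 1292) (nat_lit 1690511962) (nat_lit 76) (nat_lit 1924734503) (nat_lit 0) (nat_lit 1924734503) (nat_lit 393) (nat_lit 1) (nat_lit 377) (nat_lit 1) (nat_lit 376) (nat_lit 1) (nat_lit 319) (nat_lit 353) (nat_lit 348)) (XT.lf (nat_lit 1292) (nat_lit 761928248) (nat_lit 0) (nat_lit 3937206397) (nat_lit 1216) (nat_lit 761928248) (nat_lit 394) (nat_lit 1) (nat_lit 377) (nat_lit 1) (nat_lit 393) (nat_lit 1) (nat_lit 320) (nat_lit 353) (nat_lit 347)))) (XT.nd (nat_lit 78) (nat_lit 0) (nat_lit 76) (XT.lf (nat_lit 1292) (nat_lit 1323455010) (nat_lit 76) (nat_lit 2029932059) (nat_lit 0) (nat_lit 2029932059) (nat_lit 394) (nat_lit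 1) (nat_lit 378) (nat_lit 1) (nat_lit 377) (nat_lit 1) (nat_lit 321) (nat_lit 353) (nat_lit 346)) (XT.nd (nat_lit 78) (nat_lit 0) (nat_lit 0) (XT.lf (nat_lit 1292) (nat_lit 557893473) (nat_lit 0) (nat_lit 4191671143) (nat_lit 1216) (nat_lit 557893473) (nat_lit 395) (nat_lit 1) (nat_lit 378) (nat_lit 1) (nat_lit 394) (nat_lit 1) (nat_lit 322) (nat_lit 353) (nat_lit 345)) (XT.lf (nat_lit 1292) (nat_lit 873072651) (nat_lit 76) (nat_lit 2179768504) (nat_lit 0) (nat_lit 2179768504) (nat_lit 395) (nat_lit 1) (nat_lit 379) (nat_lit 1) (nat_lit 378) (nat_lit 1) (nat_lit 323) (nat_lit 353) (nat_lit 344))))))) (XT.nd (nat_lit 858) (nat_lit 3344) (nat_lit 0) (XT.nd (nat_lit 390) (nat_lit 1292) (nat_lit 0) (XT.nd (nat_lit 156) (nat_lit 1216) (nat_lit 0) (XT.nd (nat_lit 78) (nat_lit 0) (nat_lit 0) (XT.lf (nat_lit 1292) (nat_lit 314391710) (nat_lit 0) (nat_lit 4530906084) (nat_lit 1216) (nat_lit 314391710) (nat_lit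 396) (nat_lit 1) (nat_lit 379) (nat_lit 1) (nat_lit 395) (nat_lit 1) (nat_lit 324) (nat_lit 353) (nat_lit 343)) (XT.lf (nat_lit 1292) (nat_lit 347188762) (nat_lit 76) (nat_lit 2370205335) (nat_lit 0) (nat_lit 2370205335) (nat_lit 396) (nat_lit 1) (nat_lit 380) (nat_lit 1) (nat_lit 379) (nat_lit 1) (nat_lit 325) (nat_lit 353) (nat_lit 342))) (XT.nd (nat_lit 78) (nat_lit 1292) (nat_lit 0) (XT.lf (nat_lit 1292) (nat_lit 35179189) (nat_lit 0) (nat_lit 4947150572) (nat_lit 1216) (nat_lit 35179189) (nat_lit 397) (nat_lit 1) (nat_lit 380) (nat_lit 1) (nat_lit 396) (nat_lit 1) (nat_lit 326) (nat_lit 353) (nat_lit 341)) (XT.nd (nat_lit 78) (nat_lit 0) (nat_lit 0) (XT.lf (nat_lit 1368) (nat_lit 2352941861) (nat_lit 0) (nat_lit 242092348) (nat_lit 1292) (nat_lit 2352941861) (nat_lit 381) (nat_lit 1) (nat_lit 363) (nat_lit 1) (nat_lit 380) (nat_lit 1) (nat_lit 327) (nat_lit 353) (nat_lit 340)) (XT.lf (nat_lit 1368)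 (nat_lit 4333282497) (nat_lit 76) (nat_lit 273538598) (nat_lit 0) (nat_lit 273538598) (nat_lit 381) (nat_lit 1) (nat_lit 364) (nat_lit 1) (nat_lit 363) (nat_lit 1) (nat_lit 328) (nat_lit 353) (nat_lit 339))))) (XT.nd (nat_lit 234) (nat_lit 1368) (nat_lit 0) (XT.nd (nat_lit 78) (nat_lit 0) (nat_lit 0) (XT.lf (nat_lit 1368) (nat_lit 1964314973) (nat_lit 0) (nat_lit 884833153) (nat_lit 1292) (nat_lit 1964314973) (nat_lit 382) (nat_lit 1) (nat_lit 364) (nat_lit 1) (nat_lit 381) (nat_lit 1) (nat_lit 329) (nat_lit 353) (nat_lit 338)) (XT.nd (nat_lit 78) (nat_lit 0) (nat_lit 76) (XT.lf (nat_lit 1368) (nat_lit 3527088560) (nat_lit 76) (nat_lit 610586863) (nat_lit 0) (nat_lit 610586863) (nat_lit 382) (nat_lit 1) (nat_lit 365) (nat_lit 1) (nat_lit 364) (nat_lit 1) (nat_lit 330) (nat_lit 353) (nat_lit 337)) (XT.lf (nat_lit 76) (nat_lit 1551160441) (nat_lit 0) (nat_lit 1581622506) (nat_lit 1292) (nat_lit 1551160441)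 (nat_lit 366) (nat_lit 1) (nat_lit 365) (nat_lit 1) (nat_lit 382) (nat_lit 1) (nat_lit 331) (nat_lit 353) (nat_lit 336)))) (XT.nd (nat_lit 78) (nat_lit 608) (nat_lit 0) (XT.lf (nat_lit 912) (nat_lit 2674418978) (nat_lit 0) (nat_lit 973313623) (nat_lit 836) (nat_lit 973313623) (nat_lit 366) (nat_lit 1) (nat_lit 354) (nat_lit 1) (nat_lit 365) (nat_lit 1) (nat_lit 332) (nat_lit 353) (nat_lit 335)) (XT.nd (nat_lit 78) (nat_lit 608) (nat_lit 0) (XT.lf (nat_lit 76) (nat_lit 1116250419) (nat_lit 0) (nat_lit 2326708933) (nat_lit 912) (nat_lit 1116250419) (nat_lit 355) (nat_lit 1) (nat_lit 354) (nat_lit 1) (nat_lit 366) (nat_lit 1) (nat_lit 333) (nat_lit 353) (nat_lit 334)) (XT.lf (nat_lit 684) (nat_lit 1780643231) (nat_lit 0) (nat_lit 1358933378) (nat_lit 608) (nat_lit 1358933378) (nat_lit 355) (nat_lit 1) (nat_lit 346) (nat_lit 1) (nat_lit 354) (nat_lit 1) (nat_lit 334) (nat_lit 353) (nat_lit 333)))))) (XT.nd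 (nat_lit 390) (nat_lit 1520) (nat_lit 0) (XT.nd (nat_lit 156) (nat_lit 1216) (nat_lit 0) (XT.nd (nat_lit 78) (nat_lit 608) (nat_lit 0) (XT.lf (nat_lit 76) (nat_lit 662158196) (nat_lit 0) (nat_lit 3114748264) (nat_lit 684) (nat_lit 662158196) (nat_lit 347) (nat_lit 1) (nat_lit 346) (nat_lit 1) (nat_lit 355) (nat_lit 1) (nat_lit 335) (nat_lit 353) (nat_lit 332)) (XT.lf (nat_lit 684) (nat_lit 850743879) (nat_lit 0) (nat_lit 1764858722) (nat_lit 608) (nat_lit 1764858722) (nat_lit 347) (nat_lit 1) (nat_lit 338) (nat_lit 1) (nat_lit 346) (nat_lit 1) (nat_lit 336) (nat_lit 353) (nat_lit 331))) (XT.nd (nat_lit 78) (nat_lit 1216) (nat_lit 0) (XT.lf (nat_lit 76) (nat_lit 191270767) (nat_lit 0) (nat_lit 3940778016) (nat_lit 684) (nat_lit 191270767) (nat_lit 339) (nat_lit 1) (nat_lit 338) (nat_lit 1) (nat_lit 347) (nat_lit 1) (nat_lit 337) (nat_lit 353) (nat_lit 330)) (XT.nd (nat_lit 78) (nat_lit 608) (nat_lit 0)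 (XT.lf (nat_lit 76) (nat_lit 2079092659) (nat_lit 0) (nat_lit 108499574) (nat_lit 608) (nat_lit 2079092659) (nat_lit 331) (nat_lit 1) (nat_lit 330) (nat_lit 1) (nat_lit 338) (nat_lit 1) (nat_lit 338) (nat_lit 353) (nat_lit 329)) (XT.lf (nat_lit 684) (nat_lit 3628823437) (nat_lit 0) (nat_lit 291315040) (nat_lit 608) (nat_lit 291315040) (nat_lit 331) (nat_lit 1) (nat_lit 322) (nat_lit 1) (nat_lit 330) (nat_lit 1) (nat_lit 339) (nat_lit 353) (nat_lit 328))))) (XT.nd (nat_lit 234) (nat_lit 988) (nat_lit 0) (XT.nd (nat_lit 78) (nat_lit 532) (nat_lit 0) (XT.lf (nat_lit 76) (nat_lit 1539475458) (nat_lit 0) (nat_lit 1077833433) (nat_lit 684) (nat_lit 1539475458) (nat_lit 323) (nat_lit 1) (nat_lit 322) (nat_lit 1) (nat_lit 331) (nat_lit 1) (nat_lit 340) (nat_lit 353) (nat_lit 327)) (XT.nd (nat_lit 78) (nat_lit 0) (nat_lit 0) (XT.lf (nat_lit 608) (nat_lit 2534527108) (nat_lit 0) (nat_lit 784436302) (nat_lit 532)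 (nat_lit 784436302) (nat_lit 323) (nat_lit 1) (nat_lit 315) (nat_lit 1) (nat_lit 322) (nat_lit 1) (nat_lit 341) (nat_lit 353) (nat_lit 326)) (XT.lf (nat_lit 76) (nat_lit 990432987) (nat_lit 0) (nat_lit 2069973088) (nat_lit 608) (nat_lit 990432987) (nat_lit 316) (nat_lit 1) (nat_lit 315) (nat_lit 1) (nat_lit 323) (nat_lit 1) (nat_lit 342) (nat_lit 353) (nat_lit 325)))) (XT.nd (nat_lit 78) (nat_lit 456) (nat_lit 0) (XT.lf (nat_lit 608) (nat_lit 1423037040) (nat_lit 0) (nat_lit 1288090591) (nat_lit 532) (nat_lit 1288090591) (nat_lit 316) (nat_lit 1) (nat_lit 308) (nat_lit 1) (nat_lit 315) (nat_lit 1) (nat_lit 343) (nat_lit 353) (nat_lit 324)) (XT.nd (nat_lit 78) (nat_lit 456) (nat_lit 0) (XT.lf (nat_lit 76) (nat_lit 433683037) (nat_lit 0) (nat_lit 3081324456) (nat_lit 608) (nat_lit 433683037) (nat_lit 309) (nat_lit 1) (nat_lit 308) (nat_lit 1) (nat_lit 316) (nat_lit 1) (nat_lit 344) (nat_lit 353) (nat_lit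 323)) (XT.lf (nat_lit 532) (nat_lit 297670637) (nat_lit 0) (nat_lit 1800542003) (nat_lit 456) (nat_lit 1800542003) (nat_lit 309) (nat_lit 1) (nat_lit 302) (nat_lit 1) (nat_lit 308) (nat_lit 1) (nat_lit 345) (nat_lit 353) (nat_lit 322))))))))
noncomputable def ec35 : XT := (XT.nd (nat_lit 1716) (nat_lit 3876) (nat_lit 0) (XT.nd (nat_lit 858) (nat_lit 2584) (nat_lit 0) (XT.nd (nat_lit 390) (nat_lit 1292) (nat_lit 0) (XT.nd (nat_lit 156) (nat_lit 912) (nat_lit 0) (XT.nd (nat_lit 78) (nat_lit 0) (nat_lit 0) (XT.lf (nat_lit 608) (nat_lit 3594191746) (nat_lit 0) (nat_lit 127922918) (nat_lit 532) (nat_lit 127922918) (nat_lit 302) (nat_lit 1) (nat_lit 294) (nat_lit 1) (nat_lit 301) (nat_lit 1) (nat_lit 346) (nat_lit 353) (nat_lit 321)) (XT.lf (nat_lit 76) (nat_lit 1489734519) (nat_lit 0) (nat_lit 822150597) (nat_lit 608) (nat_lit 1489734519) (nat_lit 295) (nat_lit 1) (nat_lit 294) (nat_lit 1) (nat_lit 302) (nat_lit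 1) (nat_lit 347) (nat_lit 353) (nat_lit 320))) (XT.nd (nat_lit 78) (nat_lit 456) (nat_lit 0) (XT.lf (nat_lit 532) (nat_lit 2374590576) (nat_lit 0) (nat_lit 689893289) (nat_lit 456) (nat_lit 689893289) (nat_lit 295) (nat_lit 1) (nat_lit 288) (nat_lit 1) (nat_lit 294) (nat_lit 1) (nat_lit 348) (nat_lit 353) (nat_lit 319)) (XT.nd (nat_lit 78) (nat_lit 456) (nat_lit 0) (XT.lf (nat_lit 76) (nat_lit 881909568) (nat_lit 0) (nat_lit 1944006754) (nat_lit 532) (nat_lit 881909568) (nat_lit 289) (nat_lit 1) (nat_lit 288) (nat_lit 1) (nat_lit 295) (nat_lit 1) (nat_lit 349) (nat_lit 353) (nat_lit 318)) (XT.lf (nat_lit 532) (nat_lit 1151778264) (nat_lit 0) (nat_lit 1255148553) (nat_lit 456) (nat_lit 1255148553) (nat_lit 289) (nat_lit 1) (nat_lit 282) (nat_lit 1) (nat_lit 288) (nat_lit 1) (nat_lit 350) (nat_lit 353) (nat_lit 317))))) (XT.nd (nat_lit 234) (nat_lit 380) (nat_lit 0) (XT.nd (nat_lit 78) (nat_lit 912) (nat_lit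 0) (XT.lf (nat_lit 76) (nat_lit 273080040) (nat_lit 0) (nat_lit 3071165164) (nat_lit 532) (nat_lit 273080040) (nat_lit 283) (nat_lit 1) (nat_lit 282) (nat_lit 1) (nat_lit 289) (nat_lit 1) (nat_lit 351) (nat_lit 353) (nat_lit 316)) (XT.nd (nat_lit 78) (nat_lit 456) (nat_lit 0) (XT.lf (nat_lit 76) (nat_lit 1751228092) (nat_lit 0) (nat_lit 70524620) (nat_lit 456) (nat_lit 1751228092) (nat_lit 277) (nat_lit 1) (nat_lit 276) (nat_lit 1) (nat_lit 282) (nat_lit 1) (nat_lit 352) (nat_lit 353) (nat_lit 315)) (XT.lf (nat_lit 532) (nat_lit 2864880081) (nat_lit 0) (nat_lit 332360179) (nat_lit 456) (nat_lit 332360179) (nat_lit 277) (nat_lit 1) (nat_lit 270) (nat_lit 1) (nat_lit 276) (nat_lit 1) (nat_lit 353) (nat_lit 353) (nat_lit 314)))) (XT.nd (nat_lit 78) (nat_lit 380) (nat_lit 0) (XT.lf (nat_lit 76) (nat_lit 1108754503) (nat_lit 0) (nat_lit 1269148404) (nat_lit 532) (nat_lit 1108754503) (nat_lit 271) (nat_lit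 1) (nat_lit 270) (nat_lit 1) (nat_lit 277) (nat_lit 1) (nat_lit 354) (nat_lit 353) (nat_lit 313)) (XT.nd (nat_lit 78) (nat_lit 0) (nat_lit 0) (XT.lf (nat_lit 456) (nat_lit 1576550768) (nat_lit 0) (nat_lit 934025987) (nat_lit 380) (nat_lit 934025987) (nat_lit 271) (nat_lit 1) (nat_lit 265) (nat_lit 1) (nat_lit 270) (nat_lit 1) (nat_lit 355) (nat_lit 353) (nat_lit 312)) (XT.lf (nat_lit 76) (nat_lit 469325902) (nat_lit 0) (nat_lit 2464666521) (nat_lit 456) (nat_lit 469325902) (nat_lit 266) (nat_lit 1) (nat_lit 265) (nat_lit 1) (nat_lit 271) (nat_lit 1) (nat_lit 356) (nat_lit 353) (nat_lit 311)))))) (XT.nd (nat_lit 390) (nat_lit 1368) (nat_lit 0) (XT.nd (nat_lit 156) (nat_lit 380) (nat_lit 0) (XT.nd (nat_lit 78) (nat_lit 456) (nat_lit 0) (XT.lf (nat_lit 456) (nat_lit 295169023) (nat_lit 0) (nat_lit 1533681777) (nat_lit 380) (nat_lit 1533681777) (nat_lit 266) (nat_lit 1) (nat_lit 260) (nat_lit 1) (nat_lit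 265) (nat_lit 1) (nat_lit 357) (nat_lit 353) (nat_lit 310)) (XT.lf (nat_lit 456) (nat_lit 2993422649) (nat_lit 0) (nat_lit 164617130) (nat_lit 380) (nat_lit 164617130) (nat_lit 260) (nat_lit 1) (nat_lit 254) (nat_lit 1) (nat_lit 259) (nat_lit 1) (nat_lit 358) (nat_lit 353) (nat_lit 309))) (XT.nd (nat_lit 78) (nat_lit 380) (nat_lit 0) (XT.lf (nat_lit 76) (nat_lit 1162181593) (nat_lit 0) (nat_lit 958633601) (nat_lit 456) (nat_lit 1162181593) (nat_lit 255) (nat_lit 1) (nat_lit 254) (nat_lit 1) (nat_lit 260) (nat_lit 1) (nat_lit 359) (nat_lit 353) (nat_lit 308)) (XT.nd (nat_lit 78) (nat_lit 0) (nat_lit 0) (XT.lf (nat_lit 456) (nat_lit 1665392524) (nat_lit 0) (nat_lit 789412776) (nat_lit 380) (nat_lit 789412776) (nat_lit 255) (nat_lit 1) (nat_lit 249) (nat_lit 1) (nat_lit 254) (nat_lit 1) (nat_lit 360) (nat_lit 353) (nat_lit 307)) (XT.lf (nat_lit 76) (nat_lit 504563073) (nat_lit 0) (nat_lit 2196962431) (nat_lit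 456) (nat_lit 504563073) (nat_lit 250) (nat_lit 1) (nat_lit 249) (nat_lit 1) (nat_lit 255) (nat_lit 1) (nat_lit 361) (nat_lit 353) (nat_lit 306))))) (XT.nd (nat_lit 234) (nat_lit 608) (nat_lit 0) (XT.nd (nat_lit 78) (nat_lit 456) (nat_lit 0) (XT.lf (nat_lit 380) (nat_lit 350435478) (nat_lit 0) (nat_lit 1409003413) (nat_lit 304) (nat_lit 1409003413) (nat_lit 250) (nat_lit 1) (nat_lit 245) (nat_lit 1) (nat_lit 249) (nat_lit 1) (nat_lit 362) (nat_lit 353) (nat_lit 305)) (XT.nd (nat_lit 78) (nat_lit 0) (nat_lit 0) (XT.lf (nat_lit 456) (nat_lit 2841950241) (nat_lit 0) (nat_lit 144835824) (nat_lit 380) (nat_lit 144835824) (nat_lit 245) (nat_lit 1) (nat_lit 239) (nat_lit 1) (nat_lit 244) (nat_lit 1) (nat_lit 363) (nat_lit 353) (nat_lit 304)) (XT.lf (nat_lit 76) (nat_lit 1081570942) (nat_lit 0) (nat_lit 931814356) (nat_lit 456) (nat_lit 1081570942) (nat_lit 240) (nat_lit 1) (nat_lit 239) (nat_lit 1) (nat_lit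 245) (nat_lit 1) (nat_lit 364) (nat_lit 353) (nat_lit 303)))) (XT.nd (nat_lit 78) (nat_lit 304) (nat_lit 0) (XT.lf (nat_lit 380) (nat_lit 1494969212) (nat_lit 0) (nat_lit 782061616) (nat_lit 304) (nat_lit 782061616) (nat_lit 240) (nat_lit 1) (nat_lit 235) (nat_lit 1) (nat_lit 239) (nat_lit 1) (nat_lit 365) (nat_lit 353) (nat_lit 302)) (XT.nd (nat_lit 78) (nat_lit 304) (nat_lit 0) (XT.lf (nat_lit 76) (nat_lit 415728101) (nat_lit 0) (nat_lit 2192385905) (nat_lit 380) (nat_lit 415728101) (nat_lit 236) (nat_lit 1) (nat_lit 235) (nat_lit 1) (nat_lit 240) (nat_lit 1) (nat_lit 366) (nat_lit 353) (nat_lit 301)) (XT.lf (nat_lit 380) (nat_lit 165774837) (nat_lit 0) (nat_lit 1411608802) (nat_lit 304) (nat_lit 1411608802) (nat_lit 236) (nat_lit 1) (nat_lit 231) (nat_lit 1) (nat_lit 235) (nat_lit 1) (nat_lit 367) (nat_lit 353) (nat_lit 300))))))) (XT.nd (nat_lit 858) (nat_lit 1748) (nat_lit 0) (XT.nd (nat_lit 390)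 (nat_lit 1140) (nat_lit 0) (XT.nd (nat_lit 156) (nat_lit 608) (nat_lit 0) (XT.nd (nat_lit 78) (nat_lit 0) (nat_lit 0) (XT.lf (nat_lit 380) (nat_lit 2477398480) (nat_lit 0) (nat_lit 238716018) (nat_lit 304) (nat_lit 238716018) (nat_lit 231) (nat_lit 1) (nat_lit 226) (nat_lit 1) (nat_lit 230) (nat_lit 1) (nat_lit 368) (nat_lit 353) (nat_lit 299)) (XT.lf (nat_lit 76) (nat_lit 899162201) (nat_lit 0) (nat_lit 1122578354) (nat_lit 380) (nat_lit 899162201) (nat_lit 227) (nat_lit 1) (nat_lit 226) (nat_lit 1) (nat_lit 231) (nat_lit 1) (nat_lit 369) (nat_lit 353) (nat_lit 298))) (XT.nd (nat_lit 78) (nat_lit 304) (nat_lit 0) (XT.lf (nat_lit 380) (nat_lit 1128023511) (nat_lit 0) (nat_lit 879809560) (nat_lit 304) (nat_lit 879809560) (nat_lit 227) (nat_lit 1) (nat_lit 222) (nat_lit 1) (nat_lit 226) (nat_lit 1) (nat_lit 370) (nat_lit 353) (nat_lit 297)) (XT.nd (nat_lit 78) (nat_lit 304) (nat_lit 0) (XT.lf (nat_lit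 76) (nat_lit 233038698) (nat_lit 0) (nat_lit 2388948552) (nat_lit 380) (nat_lit 233038698) (nat_lit 223) (nat_lit 1) (nat_lit 222) (nat_lit 1) (nat_lit 227) (nat_lit 1) (nat_lit 371) (nat_lit 353) (nat_lit 296)) (XT.lf (nat_lit 76) (nat_lit 1313256268) (nat_lit 0) (nat_lit 196106885) (nat_lit 304) (nat_lit 1313256268) (nat_lit 219) (nat_lit 1) (nat_lit 218) (nat_lit 1) (nat_lit 222) (nat_lit 1) (nat_lit 372) (nat_lit 353) (nat_lit 295))))) (XT.nd (nat_lit 234) (nat_lit 608) (nat_lit 0) (XT.nd (nat_lit 78) (nat_lit 228) (nat_lit 0) (XT.lf (nat_lit 380) (nat_lit 1954403906) (nat_lit 0) (nat_lit 418217284) (nat_lit 304) (nat_lit 418217284) (nat_lit 219) (nat_lit 1) (nat_lit 214) (nat_lit 1) (nat_lit 218) (nat_lit 1) (nat_lit 373) (nat_lit 353) (nat_lit 294)) (XT.nd (nat_lit 78) (nat_lit 228) (nat_lit 0) (XT.lf (nat_lit 76) (nat_lit 641260360) (nat_lit 0) (nat_lit 1476898856) (nat_lit 380) (nat_lit 641260360)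 (nat_lit 215) (nat_lit 1) (nat_lit 214) (nat_lit 1) (nat_lit 219) (nat_lit 1) (nat_lit 374) (nat_lit 353) (nat_lit 293)) (XT.lf (nat_lit 304) (nat_lit 615727549) (nat_lit 0) (nat_lit 1056383257) (nat_lit 228) (nat_lit 1056383257) (nat_lit 215) (nat_lit 1) (nat_lit 211) (nat_lit 1) (nat_lit 214) (nat_lit 1) (nat_lit 375) (nat_lit 353) (nat_lit 292)))) (XT.nd (nat_lit 78) (nat_lit 228) (nat_lit 0) (XT.lf (nat_lit 380) (nat_lit 2660899087) (nat_lit 0) (nat_lit 18685383) (nat_lit 304) (nat_lit 18685383) (nat_lit 211) (nat_lit 1) (nat_lit 206) (nat_lit 1) (nat_lit 210) (nat_lit 1) (nat_lit 376) (nat_lit 353) (nat_lit 291)) (XT.nd (nat_lit 78) (nat_lit 228) (nat_lit 0) (XT.lf (nat_lit 76) (nat_lit 991313170) (nat_lit 0) (nat_lit 685359882) (nat_lit 380) (nat_lit 991313170) (nat_lit 207) (nat_lit 1) (nat_lit 206) (nat_lit 1) (nat_lit 211) (nat_lit 1) (nat_lit 377) (nat_lit 353) (nat_lit 290)) (XT.lf (nat_lit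 304) (nat_lit 1317389898) (nat_lit 0) (nat_lit 660499519) (nat_lit 228) (nat_lit 660499519) (nat_lit 207) (nat_lit 1) (nat_lit 203) (nat_lit 1) (nat_lit 206) (nat_lit 1) (nat_lit 378) (nat_lit 353) (nat_lit 289)))))) (XT.nd (nat_lit 468) (nat_lit 684) (nat_lit 0) (XT.nd (nat_lit 234) (nat_lit 532) (nat_lit 0) (XT.nd (nat_lit 78) (nat_lit 532) (nat_lit 0) (XT.lf (nat_lit 76) (nat_lit 329242904) (nat_lit 0) (nat_lit 1950787990) (nat_lit 304) (nat_lit 329242904) (nat_lit 204) (nat_lit 1) (nat_lit 203) (nat_lit 1) (nat_lit 207) (nat_lit 1) (nat_lit 379) (nat_lit 353) (nat_lit 288)) (XT.nd (nat_lit 78) (nat_lit 228) (nat_lit 0) (XT.lf (nat_lit 76) (nat_lit 1290052064) (nat_lit 0) (nat_lit 345396) (nat_lit 304) (nat_lit 1290052064) (nat_lit 200) (nat_lit 1) (nat_lit 199) (nat_lit 1) (nat_lit 203) (nat_lit 1) (nat_lit 380) (nat_lit 353) (nat_lit 287)) (XT.lf (nat_lit 304) (nat_lit 1918371187) (nat_lit 0) (nat_lit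 316861460) (nat_lit 228) (nat_lit 316861460) (nat_lit 200) (nat_lit 1) (nat_lit 196) (nat_lit 1) (nat_lit 199) (nat_lit 1) (nat_lit 381) (nat_lit 353) (nat_lit 286)))) (XT.nd (nat_lit 78) (nat_lit 532) (nat_lit 0) (XT.lf (nat_lit 76) (nat_lit 628459123) (nat_lit 0) (nat_lit 1267093112) (nat_lit 304) (nat_lit 628459123) (nat_lit 197) (nat_lit 1) (nat_lit 196) (nat_lit 1) (nat_lit 200) (nat_lit 1) (nat_lit 382) (nat_lit 353) (nat_lit 285)) (XT.nd (nat_lit 78) (nat_lit 304) (nat_lit 0) (XT.lf (nat_lit 304) (nat_lit 602308445) (nat_lit 0) (nat_lit 947038145) (nat_lit 228) (nat_lit 947038145) (nat_lit 197) (nat_lit 1) (nat_lit 193) (nat_lit 1) (nat_lit 196) (nat_lit 1) (nat_lit 383) (nat_lit 353) (nat_lit 284)) (XT.lf (nat_lit 304) (nat_lit 2430552153) (nat_lit 0) (nat_lit 19407101) (nat_lit 228) (nat_lit 19407101) (nat_lit 193) (nat_lit 1) (nat_lit 189) (nat_lit 1) (nat_lit 192) (nat_lit 1) (nat_lit 384)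 (nat_lit 353) (nat_lit 283))))) (XT.nd (nat_lit 234) (nat_lit 456) (nat_lit 0) (XT.nd (nat_lit 78) (nat_lit 228) (nat_lit 0) (XT.lf (nat_lit 76) (nat_lit 884524458) (nat_lit 0) (nat_lit 673216448) (nat_lit 304) (nat_lit 884524458) (nat_lit 190) (nat_lit 1) (nat_lit 189) (nat_lit 1) (nat_lit 193) (nat_lit 1) (nat_lit 385) (nat_lit 353) (nat_lit 282)) (XT.nd (nat_lit 78) (nat_lit 0) (nat_lit 0) (XT.lf (nat_lit 304) (nat_lit 1120212605) (nat_lit 0) (nat_lit 647774441) (nat_lit 228) (nat_lit 647774441) (nat_lit 190) (nat_lit 1) (nat_lit 186) (nat_lit 1) (nat_lit 189) (nat_lit 1) (nat_lit 386) (nat_lit 353) (nat_lit 281)) (XT.lf (nat_lit 76) (nat_lit 239591612) (nat_lit 0) (nat_lit 1910523299) (nat_lit 304) (nat_lit 239591612) (nat_lit 187) (nat_lit 1) (nat_lit 186) (nat_lit 1) (nat_lit 190) (nat_lit 1) (nat_lit 387) (nat_lit 353) (nat_lit 280)))) (XT.nd (nat_lit 78) (nat_lit 228) (nat_lit 0) (XT.lf (nat_lit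 76) (nat_lit 1102535775) (nat_lit 0) (nat_lit 158746648) (nat_lit 228) (nat_lit 1102535775) (nat_lit 184) (nat_lit 1) (nat_lit 183) (nat_lit 1) (nat_lit 186) (nat_lit 1) (nat_lit 388) (nat_lit 353) (nat_lit 279)) (XT.nd (nat_lit 47112) (nat_lit 0) (nat_lit 14744) (XT.lf (nat_lit 304) (nat_lit 1563322888) (nat_lit 0) (nat_lit 387523003) (nat_lit 228) (nat_lit 387523003) (nat_lit 184) (nat_lit 1) (nat_lit 180) (nat_lit 1) (nat_lit 183) (nat_lit 1) (nat_lit 389) (nat_lit 353) (nat_lit 278)) (XT.lf (nat_lit 1292) (nat_lit 564138608) (nat_lit 0) (nat_lit 1940899177) (nat_lit 1292) (nat_lit 564138608) (nat_lit 391) (nat_lit 1) (nat_lit 374) (nat_lit 0) (nat_lit 391) (nat_lit 0) (nat_lit 312) (nat_lit 354) (nat_lit 354))))))))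
noncomputable def ec36 : XT := (XT.nd (nat_lit 1716) (nat_lit 6384) (nat_lit 0) (XT.nd (nat_lit 858) (nat_lit 2736) (nat_lit 0) (XT.nd (nat_lit 390) (nat_lit 0) (nat_lit 228) (XT.nd (nat_lit 156) (nat_lit 0) (nat_lit 76) (XT.nd (nat_lit 78) (nat_lit 0) (nat_lit 76) (XT.lf (nat_lit 1292) (nat_lit 2204663568) (nat_lit 76) (nat_lit 1921870754) (nat_lit 0) (nat_lit 1921870754) (nat_lit 391) (nat_lit 1) (nat_lit 375) (nat_lit 1) (nat_lit 374) (nat_lit 0) (nat_lit 313) (nat_lit 354) (nat_lit 353)) (XT.lf (nat_lit 1292) (nat_lit 1066227867) (nat_lit 0) (nat_lit 3827985689) (nat_lit 1216) (nat_lit 1066227867) (nat_lit 392) (nat_lit 1) (nat_lit 375) (nat_lit 1) (nat_lit 391) (nat_lit 1) (nat_lit 314) (nat_lit 354) (nat_lit 352))) (XT.nd (nat_lit 78) (nat_lit 0) (nat_lit 76) (XT.lf (nat_lit 1292) (nat_lit 2024821769) (nat_lit 76) (nat_lit 1924562481) (nat_lit 0) (nat_lit 1924562481) (nat_lit 392) (nat_lit 1) (nat_lit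 376) (nat_lit 1) (nat_lit 375) (nat_lit 1) (nat_lit 315) (nat_lit 354) (nat_lit 351)) (XT.nd (nat_lit 78) (nat_lit 0) (nat_lit 0) (XT.lf (nat_lit 1292) (nat_lit 950137517) (nat_lit 0) (nat_lit 3889112354) (nat_lit 1216) (nat_lit 950137517) (nat_lit 393) (nat_lit 1) (nat_lit 376) (nat_lit 1) (nat_lit 392) (nat_lit 1) (nat_lit 316) (nat_lit 354) (nat_lit 350)) (XT.lf (nat_lit 1292) (nat_lit 1741227321) (nat_lit 76) (nat_lit 1982476538) (nat_lit 0) (nat_lit 1982476538) (nat_lit 393) (nat_lit 1) (nat_lit 377) (nat_lit 1) (nat_lit 376) (nat_lit 1) (nat_lit 317) (nat_lit 354) (nat_lit 349))))) (XT.nd (nat_lit 234) (nat_lit 0) (nat_lit 76) (XT.nd (nat_lit 78) (nat_lit 0) (nat_lit 0) (XT.lf (nat_lit 1292) (nat_lit 784786095) (nat_lit 0) (nat_lit 4055322589) (nat_lit 1216) (nat_lit 784786095) (nat_lit 394) (nat_lit 1) (nat_lit 377) (nat_lit 1) (nat_lit 393) (nat_lit 1) (nat_lit 318) (nat_lit 354) (nat_lit 348))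 (XT.nd (nat_lit 78) (nat_lit 0) (nat_lit 76) (XT.lf (nat_lit 1292) (nat_lit 1363158660) (nat_lit 76) (nat_lit 2090830020) (nat_lit 0) (nat_lit 2090830020) (nat_lit 394) (nat_lit 1) (nat_lit 378) (nat_lit 1) (nat_lit 377) (nat_lit 1) (nat_lit 319) (nat_lit 354) (nat_lit 347)) (XT.lf (nat_lit 1292) (nat_lit 574630277) (nat_lit 0) (nat_lit 4317421278) (nat_lit 1216) (nat_lit 574630277) (nat_lit 395) (nat_lit 1) (nat_lit 378) (nat_lit 1) (nat_lit 394) (nat_lit 1) (nat_lit 320) (nat_lit 354) (nat_lit 346)))) (XT.nd (nat_lit 78) (nat_lit 0) (nat_lit 76) (XT.lf (nat_lit 1292) (nat_lit 899264830) (nat_lit 76) (nat_lit 2245161559) (nat_lit 0) (nat_lit 2245161559) (nat_lit 395) (nat_lit 1) (nat_lit 379) (nat_lit 1) (nat_lit 378) (nat_lit 1) (nat_lit 321) (nat_lit 354) (nat_lit 345)) (XT.nd (nat_lit 78) (nat_lit 0) (nat_lit 0) (XT.lf (nat_lit 1292) (nat_lit 323823461) (nat_lit 0) (nat_lit 4666833267) (nat_lit 1216)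 (nat_lit 323823461) (nat_lit 396) (nat_lit 1) (nat_lit 379) (nat_lit 1) (nat_lit 395) (nat_lit 1) (nat_lit 322) (nat_lit 354) (nat_lit 344)) (XT.lf (nat_lit 1292) (nat_lit 357604425) (nat_lit 76) (nat_lit 2441311495) (nat_lit 0) (nat_lit 2441311495) (nat_lit 396) (nat_lit 1) (nat_lit 380) (nat_lit 1) (nat_lit 379) (nat_lit 1) (nat_lit 323) (nat_lit 354) (nat_lit 343)))))) (XT.nd (nat_lit 390) (nat_lit 1900) (nat_lit 0) (XT.nd (nat_lit 156) (nat_lit 0) (nat_lit 0) (XT.nd (nat_lit 78) (nat_lit 1292) (nat_lit 0) (XT.lf (nat_lit 1292) (nat_lit 36234564) (nat_lit 0) (nat_lit 5095565089) (nat_lit 1216) (nat_lit 36234564) (nat_lit 397) (nat_lit 1) (nat_lit 380) (nat_lit 1) (nat_lit 396) (nat_lit 1) (nat_lit 324) (nat_lit 354) (nat_lit 342)) (XT.lf (nat_lit 1368) (nat_lit 2423530117) (nat_lit 0) (nat_lit 249355119) (nat_lit 1292) (nat_lit 2423530117) (nat_lit 381) (nat_lit 1) (nat_lit 363) (nat_lit 1) (nat_lit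 380) (nat_lit 1) (nat_lit 325) (nat_lit 354) (nat_lit 341))) (XT.nd (nat_lit 78) (nat_lit 0) (nat_lit 76) (XT.lf (nat_lit 1368) (nat_lit 4463280972) (nat_lit 76) (nat_lit 281744756) (nat_lit 0) (nat_lit 281744756) (nat_lit 381) (nat_lit 1) (nat_lit 364) (nat_lit 1) (nat_lit 363) (nat_lit 1) (nat_lit 326) (nat_lit 354) (nat_lit 340)) (XT.nd (nat_lit 78) (nat_lit 0) (nat_lit 0) (XT.lf (nat_lit 1368) (nat_lit 2023244423) (nat_lit 0) (nat_lit 911378147) (nat_lit 1292) (nat_lit 2023244423) (nat_lit 382) (nat_lit 1) (nat_lit 364) (nat_lit 1) (nat_lit 381) (nat_lit 1) (nat_lit 327) (nat_lit 354) (nat_lit 339)) (XT.lf (nat_lit 1368) (nat_lit 3632901217) (nat_lit 76) (nat_lit 628904469) (nat_lit 0) (nat_lit 628904469) (nat_lit 382) (nat_lit 1) (nat_lit 365) (nat_lit 1) (nat_lit 364) (nat_lit 1) (nat_lit 328) (nat_lit 354) (nat_lit 338))))) (XT.nd (nat_lit 234) (nat_lit 1216) (nat_lit 0) (XT.nd (nat_lit 78) (nat_lit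 836) (nat_lit 0) (XT.lf (nat_lit 76) (nat_lit 1597695255) (nat_lit 0) (nat_lit 1629071182) (nat_lit 1292) (nat_lit 1597695255) (nat_lit 366) (nat_lit 1) (nat_lit 365) (nat_lit 1) (nat_lit 382) (nat_lit 1) (nat_lit 329) (nat_lit 354) (nat_lit 337)) (XT.nd (nat_lit 78) (nat_lit 0) (nat_lit 0) (XT.lf (nat_lit 912) (nat_lit 2754651548) (nat_lit 0) (nat_lit 1002513032) (nat_lit 836) (nat_lit 1002513032) (nat_lit 366) (nat_lit 1) (nat_lit 354) (nat_lit 1) (nat_lit 365) (nat_lit 1) (nat_lit 330) (nat_lit 354) (nat_lit 336)) (XT.lf (nat_lit 76) (nat_lit 1149737932) (nat_lit 0) (nat_lit 2396510201) (nat_lit 912) (nat_lit 1149737932) (nat_lit 355) (nat_lit 1) (nat_lit 354) (nat_lit 1) (nat_lit 366) (nat_lit 1) (nat_lit 331) (nat_lit 354) (nat_lit 335)))) (XT.nd (nat_lit 78) (nat_lit 608) (nat_lit 0) (XT.lf (nat_lit 684) (nat_lit 1834062528) (nat_lit 0) (nat_lit 1399701379) (nat_lit 608) (nat_lit 1399701379) (nat_lit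 355) (nat_lit 1) (nat_lit 346) (nat_lit 1) (nat_lit 354) (nat_lit 1) (nat_lit 332) (nat_lit 354) (nat_lit 334)) (XT.nd (nat_lit 78) (nat_lit 608) (nat_lit 0) (XT.lf (nat_lit 76) (nat_lit 682022942) (nat_lit 0) (nat_lit 3208190712) (nat_lit 684) (nat_lit 682022942) (nat_lit 347) (nat_lit 1) (nat_lit 346) (nat_lit 1) (nat_lit 355) (nat_lit 1) (nat_lit 333) (nat_lit 354) (nat_lit 333)) (XT.lf (nat_lit 684) (nat_lit 876266196) (nat_lit 0) (nat_lit 1817804484) (nat_lit 608) (nat_lit 1817804484) (nat_lit 347) (nat_lit 1) (nat_lit 338) (nat_lit 1) (nat_lit 346) (nat_lit 1) (nat_lit 334) (nat_lit 354) (nat_lit 332))))))) (XT.nd (nat_lit 858) (nat_lit 3040) (nat_lit 0) (XT.nd (nat_lit 390) (nat_lit 1596) (nat_lit 0) (XT.nd (nat_lit 156) (nat_lit 1140) (nat_lit 0) (XT.nd (nat_lit 78) (nat_lit 608) (nat_lit 0) (XT.lf (nat_lit 76) (nat_lit 197008890) (nat_lit 0) (nat_lit 4059001356) (nat_lit 684) (nat_lit 197008890)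 (nat_lit 339) (nat_lit 1) (nat_lit 338) (nat_lit 1) (nat_lit 347) (nat_lit 1) (nat_lit 335) (nat_lit 354) (nat_lit 331)) (XT.lf (nat_lit 76) (nat_lit 2141465439) (nat_lit 0) (nat_lit 111754561) (nat_lit 608) (nat_lit 2141465439) (nat_lit 331) (nat_lit 1) (nat_lit 330) (nat_lit 1) (nat_lit 338) (nat_lit 1) (nat_lit 336) (nat_lit 354) (nat_lit 330))) (XT.nd (nat_lit 78) (nat_lit 532) (nat_lit 0) (XT.lf (nat_lit 684) (nat_lit 3737688140) (nat_lit 0) (nat_lit 300054492) (nat_lit 608) (nat_lit 300054492) (nat_lit 331) (nat_lit 1) (nat_lit 322) (nat_lit 1) (nat_lit 330) (nat_lit 1) (nat_lit 337) (nat_lit 354) (nat_lit 329)) (XT.nd (nat_lit 78) (nat_lit 532) (nat_lit 0) (XT.lf (nat_lit 76) (nat_lit 1585659722) (nat_lit 0) (nat_lit 1110168436) (nat_lit 684) (nat_lit 1585659722) (nat_lit 323) (nat_lit 1) (nat_lit 322) (nat_lit 1) (nat_lit 331) (nat_lit 1) (nat_lit 338) (nat_lit 354) (nat_lit 328)) (XT.lf (nat_lit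 608) (nat_lit 2610562921) (nat_lit 0) (nat_lit 807969391) (nat_lit 532) (nat_lit 807969391) (nat_lit 323) (nat_lit 1) (nat_lit 315) (nat_lit 1) (nat_lit 322) (nat_lit 1) (nat_lit 339) (nat_lit 354) (nat_lit 327))))) (XT.nd (nat_lit 234) (nat_lit 1064) (nat_lit 0) (XT.nd (nat_lit 78) (nat_lit 532) (nat_lit 0) (XT.lf (nat_lit 76) (nat_lit 1020145977) (nat_lit 0) (nat_lit 2132072281) (nat_lit 608) (nat_lit 1020145977) (nat_lit 316) (nat_lit 1) (nat_lit 315) (nat_lit 1) (nat_lit 323) (nat_lit 1) (nat_lit 340) (nat_lit 354) (nat_lit 326)) (XT.nd (nat_lit 78) (nat_lit 0) (nat_lit 0) (XT.lf (nat_lit 608) (nat_lit 1465728151) (nat_lit 0) (nat_lit 1326733309) (nat_lit 532) (nat_lit 1326733309) (nat_lit 316) (nat_lit 1) (nat_lit 308) (nat_lit 1) (nat_lit 315) (nat_lit 1) (nat_lit 341) (nat_lit 354) (nat_lit 325)) (XT.lf (nat_lit 76) (nat_lit 446693528) (nat_lit 0) (nat_lit 3173764190) (nat_lit 608) (nat_lit 446693528)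 (nat_lit 309) (nat_lit 1) (nat_lit 308) (nat_lit 1) (nat_lit 316) (nat_lit 1) (nat_lit 342) (nat_lit 354) (nat_lit 324)))) (XT.nd (nat_lit 78) (nat_lit 608) (nat_lit 0) (XT.lf (nat_lit 532) (nat_lit 306600756) (nat_lit 0) (nat_lit 1854558263) (nat_lit 456) (nat_lit 1854558263) (nat_lit 309) (nat_lit 1) (nat_lit 302) (nat_lit 1) (nat_lit 308) (nat_lit 1) (nat_lit 343) (nat_lit 354) (nat_lit 323)) (XT.nd (nat_lit 78) (nat_lit 0) (nat_lit 0) (XT.lf (nat_lit 608) (nat_lit 3702017498) (nat_lit 0) (nat_lit 131760605) (nat_lit 532) (nat_lit 131760605) (nat_lit 302) (nat_lit 1) (nat_lit 294) (nat_lit 1) (nat_lit 301) (nat_lit 1) (nat_lit 344) (nat_lit 354) (nat_lit 322)) (XT.lf (nat_lit 76) (nat_lit 1534426555) (nat_lit 0) (nat_lit 846815115) (nat_lit 608) (nat_lit 1534426555) (nat_lit 295) (nat_lit 1) (nat_lit 294) (nat_lit 1) (nat_lit 302) (nat_lit 1) (nat_lit 345) (nat_lit 354) (nat_lit 321)))))) (XT.nd (nat_lit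 390) (nat_lit 1672) (nat_lit 0) (XT.nd (nat_lit 156) (nat_lit 912) (nat_lit 0) (XT.nd (nat_lit 78) (nat_lit 0) (nat_lit 0) (XT.lf (nat_lit 532) (nat_lit 2445828294) (nat_lit 0) (nat_lit 710590088) (nat_lit 456) (nat_lit 710590088) (nat_lit 295) (nat_lit 1) (nat_lit 288) (nat_lit 1) (nat_lit 294) (nat_lit 1) (nat_lit 346) (nat_lit 354) (nat_lit 320)) (XT.lf (nat_lit 76) (nat_lit 908366855) (nat_lit 0) (nat_lit 2002326956) (nat_lit 532) (nat_lit 908366855) (nat_lit 289) (nat_lit 1) (nat_lit 288) (nat_lit 1) (nat_lit 295) (nat_lit 1) (nat_lit 347) (nat_lit 354) (nat_lit 319))) (XT.nd (nat_lit 78) (nat_lit 456) (nat_lit 0) (XT.lf (nat_lit 532) (nat_lit 1186331612) (nat_lit 0) (nat_lit 1292803010) (nat_lit 456) (nat_lit 1292803010) (nat_lit 289) (nat_lit 1) (nat_lit 282) (nat_lit 1) (nat_lit 288) (nat_lit 1) (nat_lit 348) (nat_lit 354) (nat_lit 318)) (XT.nd (nat_lit 78) (nat_lit 456) (nat_lit 0) (XT.lf (nat_lit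 76) (nat_lit 281272442) (nat_lit 0) (nat_lit 3163300119) (nat_lit 532) (nat_lit 281272442) (nat_lit 283) (nat_lit 1) (nat_lit 282) (nat_lit 1) (nat_lit 289) (nat_lit 1) (nat_lit 349) (nat_lit 354) (nat_lit 317)) (XT.lf (nat_lit 76) (nat_lit 1803764934) (nat_lit 0) (nat_lit 72640359) (nat_lit 456) (nat_lit 1803764934) (nat_lit 277) (nat_lit 1) (nat_lit 276) (nat_lit 1) (nat_lit 282) (nat_lit 1) (nat_lit 350) (nat_lit 354) (nat_lit 316))))) (XT.nd (nat_lit 234) (nat_lit 836) (nat_lit 0) (XT.nd (nat_lit 78) (nat_lit 380) (nat_lit 0) (XT.lf (nat_lit 532) (nat_lit 2950826483) (nat_lit 0) (nat_lit 342330984) (nat_lit 456) (nat_lit 342330984) (nat_lit 277) (nat_lit 1) (nat_lit 270) (nat_lit 1) (nat_lit 276) (nat_lit 1) (nat_lit 351) (nat_lit 354) (nat_lit 315)) (XT.nd (nat_lit 78) (nat_lit 380) (nat_lit 0) (XT.lf (nat_lit 76) (nat_lit 1142017138) (nat_lit 0) (nat_lit 1307222856) (nat_lit 532) (nat_lit 1142017138)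 (nat_lit 271) (nat_lit 1) (nat_lit 270) (nat_lit 1) (nat_lit 277) (nat_lit 1) (nat_lit 352) (nat_lit 354) (nat_lit 314)) (XT.lf (nat_lit 456) (nat_lit 1623847292) (nat_lit 0) (nat_lit 962046766) (nat_lit 380) (nat_lit 962046766) (nat_lit 271) (nat_lit 1) (nat_lit 265) (nat_lit 1) (nat_lit 270) (nat_lit 1) (nat_lit 353) (nat_lit 354) (nat_lit 313)))) (XT.nd (nat_lit 78) (nat_lit 836) (nat_lit 0) (XT.lf (nat_lit 76) (nat_lit 483405679) (nat_lit 0) (nat_lit 2538606517) (nat_lit 456) (nat_lit 483405679) (nat_lit 266) (nat_lit 1) (nat_lit 265) (nat_lit 1) (nat_lit 271) (nat_lit 1) (nat_lit 354) (nat_lit 354) (nat_lit 312)) (XT.nd (nat_lit 78) (nat_lit 456) (nat_lit 0) (XT.lf (nat_lit 456) (nat_lit 304024094) (nat_lit 0) (nat_lit 1579692231) (nat_lit 380) (nat_lit 1579692231) (nat_lit 266) (nat_lit 1) (nat_lit 260) (nat_lit 1) (nat_lit 265) (nat_lit 1) (nat_lit 355) (nat_lit 354) (nat_lit 311)) (XT.lf (nat_lit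 456) (nat_lit 3083225329) (nat_lit 0) (nat_lit 169555644) (nat_lit 380) (nat_lit 169555644) (nat_lit 260) (nat_lit 1) (nat_lit 254) (nat_lit 1) (nat_lit 259) (nat_lit 1) (nat_lit 356) (nat_lit 354) (nat_lit 310))))))))
noncomputable def ec37 : XT := (XT.nd (nat_lit 1716) (nat_lit 1444) (nat_lit 0) (XT.nd (nat_lit 858) (nat_lit 2052) (nat_lit 0) (XT.nd (nat_lit 390) (nat_lit 988) (nat_lit 0) (XT.nd (nat_lit 156) (nat_lit 760) (nat_lit 0) (XT.nd (nat_lit 78) (nat_lit 380) (nat_lit 0) (XT.lf (nat_lit 76) (nat_lit 1197047041) (nat_lit 0) (nat_lit 987392609) (nat_lit 456) (nat_lit 1197047041) (nat_lit 255) (nat_lit 1) (nat_lit 254) (nat_lit 1) (nat_lit 260) (nat_lit 1) (nat_lit 357) (nat_lit 354) (nat_lit 309)) (XT.lf (nat_lit 456) (nat_lit 1715354300) (nat_lit 0) (nat_lit 813095159) (nat_lit 380) (nat_lit 813095159) (nat_lit 255) (nat_lit 1) (nat_lit 249) (nat_lit 1) (nat_lit 254) (nat_lit 1) (nat_lit 358)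 (nat_lit 354) (nat_lit 308))) (XT.nd (nat_lit 78) (nat_lit 760) (nat_lit 0) (XT.lf (nat_lit 76) (nat_lit 519699966) (nat_lit 0) (nat_lit 2262871304) (nat_lit 456) (nat_lit 519699966) (nat_lit 250) (nat_lit 1) (nat_lit 249) (nat_lit 1) (nat_lit 255) (nat_lit 1) (nat_lit 359) (nat_lit 354) (nat_lit 307)) (XT.nd (nat_lit 78) (nat_lit 456) (nat_lit 0) (XT.lf (nat_lit 380) (nat_lit 360948542) (nat_lit 0) (nat_lit 1451273515) (nat_lit 304) (nat_lit 1451273515) (nat_lit 250) (nat_lit 1) (nat_lit 245) (nat_lit 1) (nat_lit 249) (nat_lit 1) (nat_lit 360) (nat_lit 354) (nat_lit 306)) (XT.lf (nat_lit 456) (nat_lit 2927208748) (nat_lit 0) (nat_lit 149180898) (nat_lit 380) (nat_lit 149180898) (nat_lit 245) (nat_lit 1) (nat_lit 239) (nat_lit 1) (nat_lit 244) (nat_lit 1) (nat_lit 361) (nat_lit 354) (nat_lit 305))))) (XT.nd (nat_lit 234) (nat_lit 684) (nat_lit 0) (XT.nd (nat_lit 78) (nat_lit 304) (nat_lit 0) (XT.lf (nat_lit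 76) (nat_lit 1114018071) (nat_lit 0) (nat_lit 959768787) (nat_lit 456) (nat_lit 1114018071) (nat_lit 240) (nat_lit 1) (nat_lit 239) (nat_lit 1) (nat_lit 245) (nat_lit 1) (nat_lit 362) (nat_lit 354) (nat_lit 304)) (XT.nd (nat_lit 78) (nat_lit 0) (nat_lit 0) (XT.lf (nat_lit 380) (nat_lit 1539818288) (nat_lit 0) (nat_lit 805523465) (nat_lit 304) (nat_lit 805523465) (nat_lit 240) (nat_lit 1) (nat_lit 235) (nat_lit 1) (nat_lit 239) (nat_lit 1) (nat_lit 363) (nat_lit 354) (nat_lit 303)) (XT.lf (nat_lit 76) (nat_lit 428199945) (nat_lit 0) (nat_lit 2258157482) (nat_lit 380) (nat_lit 428199945) (nat_lit 236) (nat_lit 1) (nat_lit 235) (nat_lit 1) (nat_lit 240) (nat_lit 1) (nat_lit 364) (nat_lit 354) (nat_lit 302)))) (XT.nd (nat_lit 78) (nat_lit 380) (nat_lit 0) (XT.lf (nat_lit 380) (nat_lit 170748082) (nat_lit 0) (nat_lit 1453957066) (nat_lit 304) (nat_lit 1453957066) (nat_lit 236) (nat_lit 1) (nat_lit 231) (nat_lit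 1) (nat_lit 235) (nat_lit 1) (nat_lit 365) (nat_lit 354) (nat_lit 301)) (XT.nd (nat_lit 78) (nat_lit 0) (nat_lit 0) (XT.lf (nat_lit 380) (nat_lit 2551720435) (nat_lit 0) (nat_lit 245877498) (nat_lit 304) (nat_lit 245877498) (nat_lit 231) (nat_lit 1) (nat_lit 226) (nat_lit 1) (nat_lit 230) (nat_lit 1) (nat_lit 366) (nat_lit 354) (nat_lit 300)) (XT.lf (nat_lit 76) (nat_lit 926137067) (nat_lit 0) (nat_lit 1156255705) (nat_lit 380) (nat_lit 926137067) (nat_lit 227) (nat_lit 1) (nat_lit 226) (nat_lit 1) (nat_lit 231) (nat_lit 1) (nat_lit 367) (nat_lit 354) (nat_lit 299)))))) (XT.nd (nat_lit 390) (nat_lit 1140) (nat_lit 0) (XT.nd (nat_lit 156) (nat_lit 608) (nat_lit 0) (XT.nd (nat_lit 78) (nat_lit 0) (nat_lit 0) (XT.lf (nat_lit 380) (nat_lit 1161864216) (nat_lit 0) (nat_lit 906203846) (nat_lit 304) (nat_lit 906203846) (nat_lit 227) (nat_lit 1) (nat_lit 222) (nat_lit 1) (nat_lit 226) (nat_lit 1) (nat_lit 368)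 (nat_lit 354) (nat_lit 298)) (XT.lf (nat_lit 76) (nat_lit 240029859) (nat_lit 0) (nat_lit 2460617008) (nat_lit 380) (nat_lit 240029859) (nat_lit 223) (nat_lit 1) (nat_lit 222) (nat_lit 1) (nat_lit 227) (nat_lit 1) (nat_lit 369) (nat_lit 354) (nat_lit 297))) (XT.nd (nat_lit 78) (nat_lit 304) (nat_lit 0) (XT.lf (nat_lit 76) (nat_lit 1352653956) (nat_lit 0) (nat_lit 201990092) (nat_lit 304) (nat_lit 1352653956) (nat_lit 219) (nat_lit 1) (nat_lit 218) (nat_lit 1) (nat_lit 222) (nat_lit 1) (nat_lit 370) (nat_lit 354) (nat_lit 296)) (XT.nd (nat_lit 78) (nat_lit 0) (nat_lit 0) (XT.lf (nat_lit 380) (nat_lit 2013036023) (nat_lit 0) (nat_lit 430763802) (nat_lit 304) (nat_lit 430763802) (nat_lit 219) (nat_lit 1) (nat_lit 214) (nat_lit 1) (nat_lit 218) (nat_lit 1) (nat_lit 371) (nat_lit 354) (nat_lit 295)) (XT.lf (nat_lit 76) (nat_lit 660498171) (nat_lit 0) (nat_lit 1521205821) (nat_lit 380) (nat_lit 660498171)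 (nat_lit 215) (nat_lit 1) (nat_lit 214) (nat_lit 1) (nat_lit 219) (nat_lit 1) (nat_lit 372) (nat_lit 354) (nat_lit 294))))) (XT.nd (nat_lit 234) (nat_lit 532) (nat_lit 0) (XT.nd (nat_lit 78) (nat_lit 380) (nat_lit 0) (XT.lf (nat_lit 304) (nat_lit 634199376) (nat_lit 0) (nat_lit 1088074755) (nat_lit 228) (nat_lit 1088074755) (nat_lit 215) (nat_lit 1) (nat_lit 211) (nat_lit 1) (nat_lit 214) (nat_lit 1) (nat_lit 373) (nat_lit 354) (nat_lit 293)) (XT.nd (nat_lit 78) (nat_lit 0) (nat_lit 0) (XT.lf (nat_lit 380) (nat_lit 2740726060) (nat_lit 0) (nat_lit 19245944) (nat_lit 304) (nat_lit 19245944) (nat_lit 211) (nat_lit 1) (nat_lit 206) (nat_lit 1) (nat_lit 210) (nat_lit 1) (nat_lit 374) (nat_lit 354) (nat_lit 292)) (XT.lf (nat_lit 76) (nat_lit 1021052566) (nat_lit 0) (nat_lit 705920679) (nat_lit 380) (nat_lit 1021052566) (nat_lit 207) (nat_lit 1) (nat_lit 206) (nat_lit 1) (nat_lit 211) (nat_lit 1) (nat_lit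 375) (nat_lit 354) (nat_lit 291)))) (XT.nd (nat_lit 78) (nat_lit 304) (nat_lit 0) (XT.lf (nat_lit 304) (nat_lit 1356911595) (nat_lit 0) (nat_lit 680314505) (nat_lit 228) (nat_lit 680314505) (nat_lit 207) (nat_lit 1) (nat_lit 203) (nat_lit 1) (nat_lit 206) (nat_lit 1) (nat_lit 376) (nat_lit 354) (nat_lit 290)) (XT.nd (nat_lit 78) (nat_lit 304) (nat_lit 0) (XT.lf (nat_lit 76) (nat_lit 339120191) (nat_lit 0) (nat_lit 2009311630) (nat_lit 304) (nat_lit 339120191) (nat_lit 204) (nat_lit 1) (nat_lit 203) (nat_lit 1) (nat_lit 207) (nat_lit 1) (nat_lit 377) (nat_lit 354) (nat_lit 289)) (XT.lf (nat_lit 76) (nat_lit 1328753626) (nat_lit 0) (nat_lit 355758) (nat_lit 304) (nat_lit 1328753626) (nat_lit 200) (nat_lit 1) (nat_lit 199) (nat_lit 1) (nat_lit 203) (nat_lit 1) (nat_lit 378) (nat_lit 354) (nat_lit 288))))))) (XT.nd (nat_lit 47814) (nat_lit 0) (nat_lit 14744) (XT.nd (nat_lit 390) (nat_lit 684) (nat_lit 0)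 (XT.nd (nat_lit 156) (nat_lit 532) (nat_lit 0) (XT.nd (nat_lit 78) (nat_lit 0) (nat_lit 0) (XT.lf (nat_lit 304) (nat_lit 1975922323) (nat_lit 0) (nat_lit 326367303) (nat_lit 228) (nat_lit 326367303) (nat_lit 200) (nat_lit 1) (nat_lit 196) (nat_lit 1) (nat_lit 199) (nat_lit 1) (nat_lit 379) (nat_lit 354) (nat_lit 287)) (XT.lf (nat_lit 76) (nat_lit 647312897) (nat_lit 0) (nat_lit 1305105905) (nat_lit 304) (nat_lit 647312897) (nat_lit 197) (nat_lit 1) (nat_lit 196) (nat_lit 1) (nat_lit 200) (nat_lit 1) (nat_lit 380) (nat_lit 354) (nat_lit 286))) (XT.nd (nat_lit 78) (nat_lit 304) (nat_lit 0) (XT.lf (nat_lit 304) (nat_lit 620377698) (nat_lit 0) (nat_lit 975449289) (nat_lit 228) (nat_lit 975449289) (nat_lit 197) (nat_lit 1) (nat_lit 193) (nat_lit 1) (nat_lit 196) (nat_lit 1) (nat_lit 381) (nat_lit 354) (nat_lit 285)) (XT.nd (nat_lit 78) (nat_lit 0) (nat_lit 0) (XT.lf (nat_lit 304) (nat_lit 2503468717) (nat_lit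 0) (nat_lit 19989314) (nat_lit 228) (nat_lit 19989314) (nat_lit 193) (nat_lit 1) (nat_lit 189) (nat_lit 1) (nat_lit 192) (nat_lit 1) (nat_lit 382) (nat_lit 354) (nat_lit 284)) (XT.lf (nat_lit 76) (nat_lit 911060192) (nat_lit 0) (nat_lit 693412942) (nat_lit 304) (nat_lit 911060192) (nat_lit 190) (nat_lit 1) (nat_lit 189) (nat_lit 1) (nat_lit 193) (nat_lit 1) (nat_lit 383) (nat_lit 354) (nat_lit 283))))) (XT.nd (nat_lit 234) (nat_lit 228) (nat_lit 0) (XT.nd (nat_lit 78) (nat_lit 228) (nat_lit 0) (XT.lf (nat_lit 304) (nat_lit 1153818983) (nat_lit 0) (nat_lit 667207674) (nat_lit 228) (nat_lit 667207674) (nat_lit 190) (nat_lit 1) (nat_lit 186) (nat_lit 1) (nat_lit 189) (nat_lit 1) (nat_lit 384) (nat_lit 354) (nat_lit 282)) (XT.nd (nat_lit 78) (nat_lit 228) (nat_lit 0) (XT.lf (nat_lit 76) (nat_lit 246779360) (nat_lit 0) (nat_lit 1967838998) (nat_lit 304) (nat_lit 246779360) (nat_lit 187) (nat_lit 1) (nat_lit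 186) (nat_lit 1) (nat_lit 190) (nat_lit 1) (nat_lit 385) (nat_lit 354) (nat_lit 281)) (XT.lf (nat_lit 76) (nat_lit 1135611848) (nat_lit 0) (nat_lit 163509048) (nat_lit 228) (nat_lit 1135611848) (nat_lit 184) (nat_lit 1) (nat_lit 183) (nat_lit 1) (nat_lit 186) (nat_lit 1) (nat_lit 386) (nat_lit 354) (nat_lit 280)))) (XT.nd (nat_lit 78) (nat_lit 0) (nat_lit 0) (XT.lf (nat_lit 304) (nat_lit 1610222575) (nat_lit 0) (nat_lit 399148693) (nat_lit 228) (nat_lit 399148693) (nat_lit 184) (nat_lit 1) (nat_lit 180) (nat_lit 1) (nat_lit 183) (nat_lit 1) (nat_lit 387) (nat_lit 354) (nat_lit 279)) (XT.nd (nat_lit 47034) (nat_lit 0) (nat_lit 14744) (XT.lf (nat_lit 76) (nat_lit 476265558) (nat_lit 0) (nat_lit 1430075188) (nat_lit 304) (nat_lit 476265558) (nat_lit 181) (nat_lit 1) (nat_lit 180) (nat_lit 1) (nat_lit 184) (nat_lit 1) (nat_lit 388) (nat_lit 354) (nat_lit 278)) (XT.lf (nat_lit 1292) (nat_lit 581062767) (nat_lit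 0) (nat_lit 1999126153) (nat_lit 1292) (nat_lit 581062767) (nat_lit 391) (nat_lit 1) (nat_lit 374) (nat_lit 0) (nat_lit 391) (nat_lit 0) (nat_lit 310) (nat_lit 355) (nat_lit 355)))))) (XT.nd (nat_lit 468) (nat_lit 0) (nat_lit 228) (XT.nd (nat_lit 234) (nat_lit 0) (nat_lit 152) (XT.nd (nat_lit 78) (nat_lit 0) (nat_lit 76) (XT.lf (nat_lit 1292) (nat_lit 2270803475) (nat_lit 76) (nat_lit 1979526877) (nat_lit 0) (nat_lit 1979526877) (nat_lit 391) (nat_lit 1) (nat_lit 375) (nat_lit 1) (nat_lit 374) (nat_lit 0) (nat_lit 311) (nat_lit 355) (nat_lit 354)) (XT.nd (nat_lit 78) (nat_lit 0) (nat_lit 0) (XT.lf (nat_lit 1292) (nat_lit 1098214703) (nat_lit 0) (nat_lit 3942825259) (nat_lit 1216) (nat_lit 1098214703) (nat_lit 392) (nat_lit 1) (nat_lit 375) (nat_lit 1) (nat_lit 391) (nat_lit 1) (nat_lit 312) (nat_lit 355) (nat_lit 353)) (XT.lf (nat_lit 1292) (nat_lit 2085566422) (nat_lit 76) (nat_lit 1982299355) (nat_lit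 0) (nat_lit 1982299355) (nat_lit 392) (nat_lit 1) (nat_lit 376) (nat_lit 1) (nat_lit 375) (nat_lit 1) (nat_lit 313) (nat_lit 355) (nat_lit 352)))) (XT.nd (nat_lit 78) (nat_lit 0) (nat_lit 0) (XT.lf (nat_lit 1292) (nat_lit 978641642) (nat_lit 0) (nat_lit 4005785725) (nat_lit 1216) (nat_lit 978641642) (nat_lit 393) (nat_lit 1) (nat_lit 376) (nat_lit 1) (nat_lit 392) (nat_lit 1) (nat_lit 314) (nat_lit 355) (nat_lit 351)) (XT.nd (nat_lit 78) (nat_lit 0) (nat_lit 76) (XT.lf (nat_lit 1292) (nat_lit 1793464140) (nat_lit 76) (nat_lit 2041950834) (nat_lit 0) (nat_lit 2041950834) (nat_lit 393) (nat_lit 1) (nat_lit 377) (nat_lit 1) (nat_lit 376) (nat_lit 1) (nat_lit 315) (nat_lit 355) (nat_lit 350)) (XT.lf (nat_lit 1292) (nat_lit 808329678) (nat_lit 0) (nat_lit 4176982266) (nat_lit 1216) (nat_lit 808329678) (nat_lit 394) (nat_lit 1) (nat_lit 377) (nat_lit 1) (nat_lit 393) (nat_lit 1) (nat_lit 316) (nat_lit 355)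 (nat_lit 349))))) (XT.nd (nat_lit 234) (nat_lit 0) (nat_lit 152) (XT.nd (nat_lit 78) (nat_lit 0) (nat_lit 76) (XT.lf (nat_lit 1292) (nat_lit 1404053420) (nat_lit 76) (nat_lit 2153554921) (nat_lit 0) (nat_lit 2153554921) (nat_lit 394) (nat_lit 1) (nat_lit 378) (nat_lit 1) (nat_lit 377) (nat_lit 1) (nat_lit 317) (nat_lit 355) (nat_lit 348)) (XT.nd (nat_lit 78) (nat_lit 0) (nat_lit 0) (XT.lf (nat_lit 1292) (nat_lit 591869185) (nat_lit 0) (nat_lit 4446943916) (nat_lit 1216) (nat_lit 591869185) (nat_lit 395) (nat_lit 1) (nat_lit 378) (nat_lit 1) (nat_lit 394) (nat_lit 1) (nat_lit 318) (nat_lit 355) (nat_lit 347)) (XT.lf (nat_lit 1292) (nat_lit 926242775) (nat_lit 76) (nat_lit 2312516406) (nat_lit 0) (nat_lit 2312516406) (nat_lit 395) (nat_lit 1) (nat_lit 379) (nat_lit 1) (nat_lit 378) (nat_lit 1) (nat_lit 319) (nat_lit 355) (nat_lit 346)))) (XT.nd (nat_lit 78) (nat_lit 0) (nat_lit 0) (XT.lf (nat_lit 1292)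 (nat_lit 333538165) (nat_lit 0) (nat_lit 4806838265) (nat_lit 1216) (nat_lit 333538165) (nat_lit 396) (nat_lit 1) (nat_lit 379) (nat_lit 1) (nat_lit 395) (nat_lit 1) (nat_lit 320) (nat_lit 355) (nat_lit 345)) (XT.nd (nat_lit 78) (nat_lit 0) (nat_lit 76) (XT.lf (nat_lit 1292) (nat_lit 368332558) (nat_lit 76) (nat_lit 2514550840) (nat_lit 0) (nat_lit 2514550840) (nat_lit 396) (nat_lit 1) (nat_lit 380) (nat_lit 1) (nat_lit 379) (nat_lit 1) (nat_lit 321) (nat_lit 355) (nat_lit 344)) (XT.lf (nat_lit 1292) (nat_lit 37321601) (nat_lit 0) (nat_lit 5248432042) (nat_lit 1216) (nat_lit 37321601) (nat_lit 397) (nat_lit 1) (nat_lit 380) (nat_lit 1) (nat_lit 396) (nat_lit 1) (nat_lit 322) (nat_lit 355) (nat_lit 343))))))))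
noncomputable def ec38 : XT := (XT.nd (nat_lit 1716) (nat_lit 5016) (nat_lit 0) (XT.nd (nat_lit 858) (nat_lit 3800) (nat_lit 0) (XT.nd (nat_lit 390) (nat_lit 1900) (nat_lit 0) (XT.nd (nat_lit 156) (nat_lit 0) (nat_lit 76) (XT.nd (nat_lit 78) (nat_lit 0) (nat_lit 0) (XT.lf (nat_lit 1368) (nat_lit 2496236020) (nat_lit 0) (nat_lit 256835772) (nat_lit 1292) (nat_lit 2496236020) (nat_lit 381) (nat_lit 1) (nat_lit 363) (nat_lit 1) (nat_lit 380) (nat_lit 1) (nat_lit 323) (nat_lit 355) (nat_lit 342)) (XT.lf (nat_lit 1368) (nat_lit 4597179401) (nat_lit 76) (nat_lit 290197098) (nat_lit 0) (nat_lit 290197098) (nat_lit 381) (nat_lit 1) (nat_lit 364) (nat_lit 1) (nat_lit 363) (nat_lit 1) (nat_lit 324) (nat_lit 355) (nat_lit 341))) (XT.nd (nat_lit 78) (nat_lit 0) (nat_lit 0) (XT.lf (nat_lit 1368) (nat_lit 2083941755) (nat_lit 0) (nat_lit 938719492) (nat_lit 1292) (nat_lit 2083941755) (nat_lit 382) (nat_lit 1) (nat_lit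 364) (nat_lit 1) (nat_lit 381) (nat_lit 1) (nat_lit 325) (nat_lit 355) (nat_lit 340)) (XT.nd (nat_lit 78) (nat_lit 0) (nat_lit 76) (XT.lf (nat_lit 1368) (nat_lit 3741888253) (nat_lit 76) (nat_lit 647771603) (nat_lit 0) (nat_lit 647771603) (nat_lit 382) (nat_lit 1) (nat_lit 365) (nat_lit 1) (nat_lit 364) (nat_lit 1) (nat_lit 326) (nat_lit 355) (nat_lit 339)) (XT.lf (nat_lit 76) (nat_lit 1645626112) (nat_lit 0) (nat_lit 1677943317) (nat_lit 1292) (nat_lit 1645626112) (nat_lit 366) (nat_lit 1) (nat_lit 365) (nat_lit 1) (nat_lit 382) (nat_lit 1) (nat_lit 327) (nat_lit 355) (nat_lit 338))))) (XT.nd (nat_lit 234) (nat_lit 608) (nat_lit 0) (XT.nd (nat_lit 78) (nat_lit 608) (nat_lit 0) (XT.lf (nat_lit 912) (nat_lit 2837291094) (nat_lit 0) (nat_lit 1032588423) (nat_lit 836) (nat_lit 1032588423) (nat_lit 366) (nat_lit 1) (nat_lit 354) (nat_lit 1) (nat_lit 365) (nat_lit 1) (nat_lit 328) (nat_lit 355) (nat_lit 337))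 (XT.nd (nat_lit 78) (nat_lit 608) (nat_lit 0) (XT.lf (nat_lit 76) (nat_lit 1184230070) (nat_lit 0) (nat_lit 2468405507) (nat_lit 912) (nat_lit 1184230070) (nat_lit 355) (nat_lit 1) (nat_lit 354) (nat_lit 1) (nat_lit 366) (nat_lit 1) (nat_lit 329) (nat_lit 355) (nat_lit 336)) (XT.lf (nat_lit 684) (nat_lit 1889084404) (nat_lit 0) (nat_lit 1441692420) (nat_lit 608) (nat_lit 1441692420) (nat_lit 355) (nat_lit 1) (nat_lit 346) (nat_lit 1) (nat_lit 354) (nat_lit 1) (nat_lit 330) (nat_lit 355) (nat_lit 335)))) (XT.nd (nat_lit 78) (nat_lit 608) (nat_lit 0) (XT.lf (nat_lit 76) (nat_lit 702483630) (nat_lit 0) (nat_lit 3304436434) (nat_lit 684) (nat_lit 702483630) (nat_lit 347) (nat_lit 1) (nat_lit 346) (nat_lit 1) (nat_lit 355) (nat_lit 1) (nat_lit 331) (nat_lit 355) (nat_lit 334)) (XT.nd (nat_lit 78) (nat_lit 0) (nat_lit 0) (XT.lf (nat_lit 684) (nat_lit 902554182) (nat_lit 0) (nat_lit 1872338619) (nat_lit 608)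 (nat_lit 1872338619) (nat_lit 347) (nat_lit 1) (nat_lit 338) (nat_lit 1) (nat_lit 346) (nat_lit 1) (nat_lit 332) (nat_lit 355) (nat_lit 333)) (XT.lf (nat_lit 76) (nat_lit 202919156) (nat_lit 0) (nat_lit 4180771397) (nat_lit 684) (nat_lit 202919156) (nat_lit 339) (nat_lit 1) (nat_lit 338) (nat_lit 1) (nat_lit 347) (nat_lit 1) (nat_lit 333) (nat_lit 355) (nat_lit 332)))))) (XT.nd (nat_lit 390) (nat_lit 2052) (nat_lit 0) (XT.nd (nat_lit 156) (nat_lit 532) (nat_lit 0) (XT.nd (nat_lit 78) (nat_lit 608) (nat_lit 0) (XT.lf (nat_lit 76) (nat_lit 2205709402) (nat_lit 0) (nat_lit 115107198) (nat_lit 608) (nat_lit 2205709402) (nat_lit 331) (nat_lit 1) (nat_lit 330) (nat_lit 1) (nat_lit 338) (nat_lit 1) (nat_lit 334) (nat_lit 355) (nat_lit 331)) (XT.lf (nat_lit 684) (nat_lit 3849818784) (nat_lit 0) (nat_lit 309056126) (nat_lit 608) (nat_lit 309056126) (nat_lit 331) (nat_lit 1) (nat_lit 322) (nat_lit 1) (nat_lit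 330) (nat_lit 1) (nat_lit 335) (nat_lit 355) (nat_lit 330))) (XT.nd (nat_lit 78) (nat_lit 532) (nat_lit 0) (XT.lf (nat_lit 76) (nat_lit 1633229514) (nat_lit 0) (nat_lit 1143473489) (nat_lit 684) (nat_lit 1633229514) (nat_lit 323) (nat_lit 1) (nat_lit 322) (nat_lit 1) (nat_lit 331) (nat_lit 1) (nat_lit 336) (nat_lit 355) (nat_lit 329)) (XT.nd (nat_lit 78) (nat_lit 0) (nat_lit 0) (XT.lf (nat_lit 608) (nat_lit 2688879809) (nat_lit 0) (nat_lit 832208473) (nat_lit 532) (nat_lit 832208473) (nat_lit 323) (nat_lit 1) (nat_lit 315) (nat_lit 1) (nat_lit 322) (nat_lit 1) (nat_lit 337) (nat_lit 355) (nat_lit 328)) (XT.lf (nat_lit 76) (nat_lit 1050750356) (nat_lit 0) (nat_lit 2196034449) (nat_lit 608) (nat_lit 1050750356) (nat_lit 316) (nat_lit 1) (nat_lit 315) (nat_lit 1) (nat_lit 323) (nat_lit 1) (nat_lit 338) (nat_lit 355) (nat_lit 327))))) (XT.nd (nat_lit 234) (nat_lit 1064) (nat_lit 0) (XT.nd (nat_lit 78) (nat_lit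 456) (nat_lit 0) (XT.lf (nat_lit 608) (nat_lit 1509699996) (nat_lit 0) (nat_lit 1366535309) (nat_lit 532) (nat_lit 1366535309) (nat_lit 316) (nat_lit 1) (nat_lit 308) (nat_lit 1) (nat_lit 315) (nat_lit 1) (nat_lit 339) (nat_lit 355) (nat_lit 326)) (XT.nd (nat_lit 78) (nat_lit 456) (nat_lit 0) (XT.lf (nat_lit 76) (nat_lit 460094334) (nat_lit 0) (nat_lit 3268977116) (nat_lit 608) (nat_lit 460094334) (nat_lit 309) (nat_lit 1) (nat_lit 308) (nat_lit 1) (nat_lit 316) (nat_lit 1) (nat_lit 340) (nat_lit 355) (nat_lit 325)) (XT.lf (nat_lit 532) (nat_lit 315798778) (nat_lit 0) (nat_lit 1910195011) (nat_lit 456) (nat_lit 1910195011) (nat_lit 309) (nat_lit 1) (nat_lit 302) (nat_lit 1) (nat_lit 308) (nat_lit 1) (nat_lit 341) (nat_lit 355) (nat_lit 324)))) (XT.nd (nat_lit 78) (nat_lit 456) (nat_lit 0) (XT.lf (nat_lit 608) (nat_lit 3813078023) (nat_lit 0) (nat_lit 135713423) (nat_lit 532) (nat_lit 135713423) (nat_lit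 302) (nat_lit 1) (nat_lit 294) (nat_lit 1) (nat_lit 301) (nat_lit 1) (nat_lit 342) (nat_lit 355) (nat_lit 323)) (XT.nd (nat_lit 78) (nat_lit 456) (nat_lit 0) (XT.lf (nat_lit 76) (nat_lit 1580459351) (nat_lit 0) (nat_lit 872219569) (nat_lit 608) (nat_lit 1580459351) (nat_lit 295) (nat_lit 1) (nat_lit 294) (nat_lit 1) (nat_lit 302) (nat_lit 1) (nat_lit 343) (nat_lit 355) (nat_lit 322)) (XT.lf (nat_lit 532) (nat_lit 2519203142) (nat_lit 0) (nat_lit 731907791) (nat_lit 456) (nat_lit 731907791) (nat_lit 295) (nat_lit 1) (nat_lit 288) (nat_lit 1) (nat_lit 294) (nat_lit 1) (nat_lit 344) (nat_lit 355) (nat_lit 321))))))) (XT.nd (nat_lit 858) (nat_lit 2432) (nat_lit 0) (XT.nd (nat_lit 390) (nat_lit 1216) (nat_lit 0) (XT.nd (nat_lit 156) (nat_lit 912) (nat_lit 0) (XT.nd (nat_lit 78) (nat_lit 456) (nat_lit 0) (XT.lf (nat_lit 76) (nat_lit 935617860) (nat_lit 0) (nat_lit 2062396765) (nat_lit 532) (nat_lit 935617860)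 (nat_lit 289) (nat_lit 1) (nat_lit 288) (nat_lit 1) (nat_lit 295) (nat_lit 1) (nat_lit 345) (nat_lit 355) (nat_lit 320)) (XT.lf (nat_lit 532) (nat_lit 1221921561) (nat_lit 0) (nat_lit 1331587100) (nat_lit 456) (nat_lit 1331587100) (nat_lit 289) (nat_lit 1) (nat_lit 282) (nat_lit 1) (nat_lit 288) (nat_lit 1) (nat_lit 346) (nat_lit 355) (nat_lit 319))) (XT.nd (nat_lit 78) (nat_lit 912) (nat_lit 0) (XT.lf (nat_lit 76) (nat_lit 289710615) (nat_lit 0) (nat_lit 3258199123) (nat_lit 532) (nat_lit 289710615) (nat_lit 283) (nat_lit 1) (nat_lit 282) (nat_lit 1) (nat_lit 289) (nat_lit 1) (nat_lit 347) (nat_lit 355) (nat_lit 318)) (XT.nd (nat_lit 78) (nat_lit 456) (nat_lit 0) (XT.lf (nat_lit 76) (nat_lit 1857877882) (nat_lit 0) (nat_lit 74819570) (nat_lit 456) (nat_lit 1857877882) (nat_lit 277) (nat_lit 1) (nat_lit 276) (nat_lit 1) (nat_lit 282) (nat_lit 1) (nat_lit 348) (nat_lit 355) (nat_lit 317)) (XT.lf (nat_lit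 532) (nat_lit 3039351278) (nat_lit 0) (nat_lit 352600914) (nat_lit 456) (nat_lit 352600914) (nat_lit 277) (nat_lit 1) (nat_lit 270) (nat_lit 1) (nat_lit 276) (nat_lit 1) (nat_lit 349) (nat_lit 355) (nat_lit 316))))) (XT.nd (nat_lit 234) (nat_lit 836) (nat_lit 0) (XT.nd (nat_lit 78) (nat_lit 380) (nat_lit 0) (XT.lf (nat_lit 76) (nat_lit 1176277652) (nat_lit 0) (nat_lit 1346439542) (nat_lit 532) (nat_lit 1176277652) (nat_lit 271) (nat_lit 1) (nat_lit 270) (nat_lit 1) (nat_lit 277) (nat_lit 1) (nat_lit 350) (nat_lit 355) (nat_lit 315)) (XT.nd (nat_lit 78) (nat_lit 0) (nat_lit 0) (XT.lf (nat_lit 456) (nat_lit 1672562710) (nat_lit 0) (nat_lit 990908169) (nat_lit 380) (nat_lit 990908169) (nat_lit 271) (nat_lit 1) (nat_lit 265) (nat_lit 1) (nat_lit 270) (nat_lit 1) (nat_lit 351) (nat_lit 355) (nat_lit 314)) (XT.lf (nat_lit 76) (nat_lit 497907849) (nat_lit 0) (nat_lit 2614764713) (nat_lit 456) (nat_lit 497907849)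 (nat_lit 266) (nat_lit 1) (nat_lit 265) (nat_lit 1) (nat_lit 271) (nat_lit 1) (nat_lit 352) (nat_lit 355) (nat_lit 313)))) (XT.nd (nat_lit 78) (nat_lit 456) (nat_lit 0) (XT.lf (nat_lit 456) (nat_lit 313144817) (nat_lit 0) (nat_lit 1627082997) (nat_lit 380) (nat_lit 1627082997) (nat_lit 266) (nat_lit 1) (nat_lit 260) (nat_lit 1) (nat_lit 265) (nat_lit 1) (nat_lit 353) (nat_lit 355) (nat_lit 312)) (XT.nd (nat_lit 78) (nat_lit 0) (nat_lit 0) (XT.lf (nat_lit 456) (nat_lit 3175722088) (nat_lit 0) (nat_lit 174642313) (nat_lit 380) (nat_lit 174642313) (nat_lit 260) (nat_lit 1) (nat_lit 254) (nat_lit 1) (nat_lit 259) (nat_lit 1) (nat_lit 354) (nat_lit 355) (nat_lit 311)) (XT.lf (nat_lit 76) (nat_lit 1232958452) (nat_lit 0) (nat_lit 1017014387) (nat_lit 456) (nat_lit 1232958452) (nat_lit 255) (nat_lit 1) (nat_lit 254) (nat_lit 1) (nat_lit 260) (nat_lit 1) (nat_lit 355) (nat_lit 355) (nat_lit 310)))))) (XT.nd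 (nat_lit 390) (nat_lit 1292) (nat_lit 0) (XT.nd (nat_lit 156) (nat_lit 760) (nat_lit 0) (XT.nd (nat_lit 78) (nat_lit 0) (nat_lit 0) (XT.lf (nat_lit 456) (nat_lit 1766814929) (nat_lit 0) (nat_lit 837488014) (nat_lit 380) (nat_lit 837488014) (nat_lit 255) (nat_lit 1) (nat_lit 249) (nat_lit 1) (nat_lit 254) (nat_lit 1) (nat_lit 356) (nat_lit 355) (nat_lit 309)) (XT.lf (nat_lit 76) (nat_lit 535290965) (nat_lit 0) (nat_lit 2330757444) (nat_lit 456) (nat_lit 535290965) (nat_lit 250) (nat_lit 1) (nat_lit 249) (nat_lit 1) (nat_lit 255) (nat_lit 1) (nat_lit 357) (nat_lit 355) (nat_lit 308))) (XT.nd (nat_lit 78) (nat_lit 456) (nat_lit 0) (XT.lf (nat_lit 380) (nat_lit 371776998) (nat_lit 0) (nat_lit 1494811721) (nat_lit 304) (nat_lit 1494811721) (nat_lit 250) (nat_lit 1) (nat_lit 245) (nat_lit 1) (nat_lit 249) (nat_lit 1) (nat_lit 358) (nat_lit 355) (nat_lit 307)) (XT.nd (nat_lit 78) (nat_lit 0) (nat_lit 0) (XT.lf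 (nat_lit 456) (nat_lit 3015025011) (nat_lit 0) (nat_lit 153656325) (nat_lit 380) (nat_lit 153656325) (nat_lit 245) (nat_lit 1) (nat_lit 239) (nat_lit 1) (nat_lit 244) (nat_lit 1) (nat_lit 359) (nat_lit 355) (nat_lit 306)) (XT.lf (nat_lit 76) (nat_lit 1147438613) (nat_lit 0) (nat_lit 988561850) (nat_lit 456) (nat_lit 1147438613) (nat_lit 240) (nat_lit 1) (nat_lit 239) (nat_lit 1) (nat_lit 245) (nat_lit 1) (nat_lit 360) (nat_lit 355) (nat_lit 305))))) (XT.nd (nat_lit 234) (nat_lit 684) (nat_lit 0) (XT.nd (nat_lit 78) (nat_lit 304) (nat_lit 0) (XT.lf (nat_lit 380) (nat_lit 1586012837) (nat_lit 0) (nat_lit 829689169) (nat_lit 304) (nat_lit 829689169) (nat_lit 240) (nat_lit 1) (nat_lit 235) (nat_lit 1) (nat_lit 239) (nat_lit 1) (nat_lit 361) (nat_lit 355) (nat_lit 304)) (XT.nd (nat_lit 78) (nat_lit 304) (nat_lit 0) (XT.lf (nat_lit 76) (nat_lit 441045943) (nat_lit 0) (nat_lit 2325902206) (nat_lit 380) (nat_lit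 441045943) (nat_lit 236) (nat_lit 1) (nat_lit 235) (nat_lit 1) (nat_lit 240) (nat_lit 1) (nat_lit 362) (nat_lit 355) (nat_lit 303)) (XT.lf (nat_lit 380) (nat_lit 175870524) (nat_lit 0) (nat_lit 1497575778) (nat_lit 304) (nat_lit 1497575778) (nat_lit 236) (nat_lit 1) (nat_lit 231) (nat_lit 1) (nat_lit 235) (nat_lit 1) (nat_lit 363) (nat_lit 355) (nat_lit 302)))) (XT.nd (nat_lit 78) (nat_lit 304) (nat_lit 0) (XT.lf (nat_lit 380) (nat_lit 2628272048) (nat_lit 0) (nat_lit 253253823) (nat_lit 304) (nat_lit 253253823) (nat_lit 231) (nat_lit 1) (nat_lit 226) (nat_lit 1) (nat_lit 230) (nat_lit 1) (nat_lit 364) (nat_lit 355) (nat_lit 301)) (XT.nd (nat_lit 78) (nat_lit 304) (nat_lit 0) (XT.lf (nat_lit 76) (nat_lit 953921179) (nat_lit 0) (nat_lit 1190943376) (nat_lit 380) (nat_lit 953921179) (nat_lit 227) (nat_lit 1) (nat_lit 226) (nat_lit 1) (nat_lit 231) (nat_lit 1) (nat_lit 365) (nat_lit 355) (nat_lit 300))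 (XT.lf (nat_lit 380) (nat_lit 1196720143) (nat_lit 0) (nat_lit 933389962) (nat_lit 304) (nat_lit 933389962) (nat_lit 227) (nat_lit 1) (nat_lit 222) (nat_lit 1) (nat_lit 226) (nat_lit 1) (nat_lit 366) (nat_lit 355) (nat_lit 299))))))))
noncomputable def ec39 : XT := (XT.nd (nat_lit 48516) (nat_lit 0) (nat_lit 12464) (XT.nd (nat_lit 858) (nat_lit 1672) (nat_lit 0) (XT.nd (nat_lit 390) (nat_lit 1140) (nat_lit 0) (XT.nd (nat_lit 156) (nat_lit 532) (nat_lit 0) (XT.nd (nat_lit 78) (nat_lit 304) (nat_lit 0) (XT.lf (nat_lit 76) (nat_lit 247230755) (nat_lit 0) (nat_lit 2534435518) (nat_lit 380) (nat_lit 247230755) (nat_lit 223) (nat_lit 1) (nat_lit 222) (nat_lit 1) (nat_lit 227) (nat_lit 1) (nat_lit 367) (nat_lit 355) (nat_lit 298)) (XT.lf (nat_lit 76) (nat_lit 1393233574) (nat_lit 0) (nat_lit 208049795) (nat_lit 304) (nat_lit 1393233574) (nat_lit 219) (nat_lit 1) (nat_lit 218) (nat_lit 1) (nat_lit 222) (nat_lit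 1) (nat_lit 368) (nat_lit 355) (nat_lit 297))) (XT.nd (nat_lit 78) (nat_lit 228) (nat_lit 0) (XT.lf (nat_lit 380) (nat_lit 2073427103) (nat_lit 0) (nat_lit 443686716) (nat_lit 304) (nat_lit 443686716) (nat_lit 219) (nat_lit 1) (nat_lit 214) (nat_lit 1) (nat_lit 218) (nat_lit 1) (nat_lit 369) (nat_lit 355) (nat_lit 296)) (XT.nd (nat_lit 78) (nat_lit 228) (nat_lit 0) (XT.lf (nat_lit 76) (nat_lit 680313116) (nat_lit 0) (nat_lit 1566841996) (nat_lit 380) (nat_lit 680313116) (nat_lit 215) (nat_lit 1) (nat_lit 214) (nat_lit 1) (nat_lit 219) (nat_lit 1) (nat_lit 370) (nat_lit 355) (nat_lit 295)) (XT.lf (nat_lit 304) (nat_lit 653225357) (nat_lit 0) (nat_lit 1120716997) (nat_lit 228) (nat_lit 1120716997) (nat_lit 215) (nat_lit 1) (nat_lit 211) (nat_lit 1) (nat_lit 214) (nat_lit 1) (nat_lit 371) (nat_lit 355) (nat_lit 294))))) (XT.nd (nat_lit 234) (nat_lit 532) (nat_lit 0) (XT.nd (nat_lit 78) (nat_lit 228) (nat_lit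 0) (XT.lf (nat_lit 380) (nat_lit 2822947842) (nat_lit 0) (nat_lit 19823323) (nat_lit 304) (nat_lit 19823323) (nat_lit 211) (nat_lit 1) (nat_lit 206) (nat_lit 1) (nat_lit 210) (nat_lit 1) (nat_lit 372) (nat_lit 355) (nat_lit 293)) (XT.nd (nat_lit 78) (nat_lit 228) (nat_lit 0) (XT.lf (nat_lit 76) (nat_lit 1051684143) (nat_lit 0) (nat_lit 727098299) (nat_lit 380) (nat_lit 1051684143) (nat_lit 207) (nat_lit 1) (nat_lit 206) (nat_lit 1) (nat_lit 211) (nat_lit 1) (nat_lit 373) (nat_lit 355) (nat_lit 292)) (XT.lf (nat_lit 304) (nat_lit 1397618943) (nat_lit 0) (nat_lit 700723940) (nat_lit 228) (nat_lit 700723940) (nat_lit 207) (nat_lit 1) (nat_lit 203) (nat_lit 1) (nat_lit 206) (nat_lit 1) (nat_lit 374) (nat_lit 355) (nat_lit 291)))) (XT.nd (nat_lit 78) (nat_lit 532) (nat_lit 0) (XT.lf (nat_lit 76) (nat_lit 349293797) (nat_lit 0) (nat_lit 2069590979) (nat_lit 304) (nat_lit 349293797) (nat_lit 204) (nat_lit 1)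 (nat_lit 203) (nat_lit 1) (nat_lit 207) (nat_lit 1) (nat_lit 375) (nat_lit 355) (nat_lit 290)) (XT.nd (nat_lit 78) (nat_lit 228) (nat_lit 0) (XT.lf (nat_lit 76) (nat_lit 1368616235) (nat_lit 0) (nat_lit 366431) (nat_lit 304) (nat_lit 1368616235) (nat_lit 200) (nat_lit 1) (nat_lit 199) (nat_lit 1) (nat_lit 203) (nat_lit 1) (nat_lit 376) (nat_lit 355) (nat_lit 289)) (XT.lf (nat_lit 304) (nat_lit 2035199992) (nat_lit 0) (nat_lit 336158323) (nat_lit 228) (nat_lit 336158323) (nat_lit 200) (nat_lit 1) (nat_lit 196) (nat_lit 1) (nat_lit 199) (nat_lit 1) (nat_lit 377) (nat_lit 355) (nat_lit 288)))))) (XT.nd (nat_lit 390) (nat_lit 912) (nat_lit 0) (XT.nd (nat_lit 156) (nat_lit 532) (nat_lit 0) (XT.nd (nat_lit 78) (nat_lit 228) (nat_lit 0) (XT.lf (nat_lit 76) (nat_lit 666732284) (nat_lit 0) (nat_lit 1344259082) (nat_lit 304) (nat_lit 666732284) (nat_lit 197) (nat_lit 1) (nat_lit 196) (nat_lit 1) (nat_lit 200)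 (nat_lit 1) (nat_lit 378) (nat_lit 355) (nat_lit 287)) (XT.lf (nat_lit 304) (nat_lit 638989029) (nat_lit 0) (nat_lit 1004712768) (nat_lit 228) (nat_lit 1004712768) (nat_lit 197) (nat_lit 1) (nat_lit 193) (nat_lit 1) (nat_lit 196) (nat_lit 1) (nat_lit 379) (nat_lit 355) (nat_lit 286))) (XT.nd (nat_lit 78) (nat_lit 228) (nat_lit 0) (XT.lf (nat_lit 304) (nat_lit 2578572779) (nat_lit 0) (nat_lit 20588993) (nat_lit 228) (nat_lit 20588993) (nat_lit 193) (nat_lit 1) (nat_lit 189) (nat_lit 1) (nat_lit 192) (nat_lit 1) (nat_lit 380) (nat_lit 355) (nat_lit 285)) (XT.nd (nat_lit 78) (nat_lit 228) (nat_lit 0) (XT.lf (nat_lit 76) (nat_lit 938391998) (nat_lit 0) (nat_lit 714215330) (nat_lit 304) (nat_lit 938391998) (nat_lit 190) (nat_lit 1) (nat_lit 189) (nat_lit 1) (nat_lit 193) (nat_lit 1) (nat_lit 381) (nat_lit 355) (nat_lit 284)) (XT.lf (nat_lit 304) (nat_lit 1188433553) (nat_lit 0) (nat_lit 687223905) (nat_lit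 228) (nat_lit 687223905) (nat_lit 190) (nat_lit 1) (nat_lit 186) (nat_lit 1) (nat_lit 189) (nat_lit 1) (nat_lit 382) (nat_lit 355) (nat_lit 283))))) (XT.nd (nat_lit 234) (nat_lit 456) (nat_lit 0) (XT.nd (nat_lit 78) (nat_lit 456) (nat_lit 0) (XT.lf (nat_lit 76) (nat_lit 254182741) (nat_lit 0) (nat_lit 2026874168) (nat_lit 304) (nat_lit 254182741) (nat_lit 187) (nat_lit 1) (nat_lit 186) (nat_lit 1) (nat_lit 190) (nat_lit 1) (nat_lit 383) (nat_lit 355) (nat_lit 282)) (XT.nd (nat_lit 78) (nat_lit 228) (nat_lit 0) (XT.lf (nat_lit 76) (nat_lit 1169680203) (nat_lit 0) (nat_lit 168414319) (nat_lit 228) (nat_lit 1169680203) (nat_lit 184) (nat_lit 1) (nat_lit 183) (nat_lit 1) (nat_lit 186) (nat_lit 1) (nat_lit 384) (nat_lit 355) (nat_lit 281)) (XT.lf (nat_lit 304) (nat_lit 1658529252) (nat_lit 0) (nat_lit 411123154) (nat_lit 228) (nat_lit 411123154) (nat_lit 184) (nat_lit 1) (nat_lit 180) (nat_lit 1) (nat_lit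 183) (nat_lit 1) (nat_lit 385) (nat_lit 355) (nat_lit 280)))) (XT.nd (nat_lit 78) (nat_lit 456) (nat_lit 0) (XT.lf (nat_lit 76) (nat_lit 490553525) (nat_lit 0) (nat_lit 1472977444) (nat_lit 304) (nat_lit 490553525) (nat_lit 181) (nat_lit 1) (nat_lit 180) (nat_lit 1) (nat_lit 184) (nat_lit 1) (nat_lit 386) (nat_lit 355) (nat_lit 279)) (XT.nd (nat_lit 78) (nat_lit 304) (nat_lit 0) (XT.lf (nat_lit 228) (nat_lit 308974635) (nat_lit 0) (nat_lit 1059387795) (nat_lit 152) (nat_lit 1059387795) (nat_lit 181) (nat_lit 1) (nat_lit 178) (nat_lit 1) (nat_lit 180) (nat_lit 1) (nat_lit 387) (nat_lit 355) (nat_lit 278)) (XT.lf (nat_lit 304) (nat_lit 2058651112) (nat_lit 0) (nat_lit 171620913) (nat_lit 228) (nat_lit 171620913) (nat_lit 178) (nat_lit 1) (nat_lit 174) (nat_lit 1) (nat_lit 177) (nat_lit 1) (nat_lit 388) (nat_lit 355) (nat_lit 277))))))) (XT.nd (nat_lit 858) (nat_lit 2736) (nat_lit 0) (XT.nd (nat_lit 390)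 (nat_lit 0) (nat_lit 152) (XT.nd (nat_lit 156) (nat_lit 0) (nat_lit 76) (XT.nd (nat_lit 78) (nat_lit 0) (nat_lit 0) (XT.lf (nat_lit 1292) (nat_lit 598494650) (nat_lit 0) (nat_lit 2059099937) (nat_lit 1292) (nat_lit 598494650) (nat_lit 391) (nat_lit 1) (nat_lit 374) (nat_lit 0) (nat_lit 391) (nat_lit 0) (nat_lit 308) (nat_lit 356) (nat_lit 356)) (XT.lf (nat_lit 1292) (nat_lit 2338927580) (nat_lit 76) (nat_lit 2038912683) (nat_lit 0) (nat_lit 2038912683) (nat_lit 391) (nat_lit 1) (nat_lit 375) (nat_lit 1) (nat_lit 374) (nat_lit 0) (nat_lit 309) (nat_lit 356) (nat_lit 355))) (XT.nd (nat_lit 78) (nat_lit 0) (nat_lit 0) (XT.lf (nat_lit 1292) (nat_lit 1131161144) (nat_lit 0) (nat_lit 4061110017) (nat_lit 1216) (nat_lit 1131161144) (nat_lit 392) (nat_lit 1) (nat_lit 375) (nat_lit 1) (nat_lit 391) (nat_lit 1) (nat_lit 310) (nat_lit 356) (nat_lit 354)) (XT.nd (nat_lit 78) (nat_lit 0) (nat_lit 76) (XT.lf (nat_lit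 1292) (nat_lit 2148133415) (nat_lit 76) (nat_lit 2041768336) (nat_lit 0) (nat_lit 2041768336) (nat_lit 392) (nat_lit 1) (nat_lit 376) (nat_lit 1) (nat_lit 375) (nat_lit 1) (nat_lit 311) (nat_lit 356) (nat_lit 353)) (XT.lf (nat_lit 1292) (nat_lit 1008000891) (nat_lit 0) (nat_lit 4125959296) (nat_lit 1216) (nat_lit 1008000891) (nat_lit 393) (nat_lit 1) (nat_lit 376) (nat_lit 1) (nat_lit 392) (nat_lit 1) (nat_lit 312) (nat_lit 356) (nat_lit 352))))) (XT.nd (nat_lit 234) (nat_lit 0) (nat_lit 152) (XT.nd (nat_lit 78) (nat_lit 0) (nat_lit 76) (XT.lf (nat_lit 1292) (nat_lit 1847268065) (nat_lit 76) (nat_lit 2103209359) (nat_lit 0) (nat_lit 2103209359) (nat_lit 393) (nat_lit 1) (nat_lit 377) (nat_lit 1) (nat_lit 376) (nat_lit 1) (nat_lit 313) (nat_lit 356) (nat_lit 351)) (XT.nd (nat_lit 78) (nat_lit 0) (nat_lit 0) (XT.lf (nat_lit 1292) (nat_lit 832579568) (nat_lit 0) (nat_lit 4302291734) (nat_lit 1216) (nat_lit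 832579568) (nat_lit 394) (nat_lit 1) (nat_lit 377) (nat_lit 1) (nat_lit 393) (nat_lit 1) (nat_lit 314) (nat_lit 356) (nat_lit 350)) (XT.lf (nat_lit 1292) (nat_lit 1446175023) (nat_lit 76) (nat_lit 2218161569) (nat_lit 0) (nat_lit 2218161569) (nat_lit 394) (nat_lit 1) (nat_lit 378) (nat_lit 1) (nat_lit 377) (nat_lit 1) (nat_lit 315) (nat_lit 356) (nat_lit 349)))) (XT.nd (nat_lit 78) (nat_lit 0) (nat_lit 0) (XT.lf (nat_lit 1292) (nat_lit 609625261) (nat_lit 0) (nat_lit 4580352233) (nat_lit 1216) (nat_lit 609625261) (nat_lit 395) (nat_lit 1) (nat_lit 378) (nat_lit 1) (nat_lit 394) (nat_lit 1) (nat_lit 316) (nat_lit 356) (nat_lit 348)) (XT.nd (nat_lit 78) (nat_lit 0) (nat_lit 76) (XT.lf (nat_lit 1292) (nat_lit 954030058) (nat_lit 76) (nat_lit 2381891898) (nat_lit 0) (nat_lit 2381891898) (nat_lit 395) (nat_lit 1) (nat_lit 379) (nat_lit 1) (nat_lit 378) (nat_lit 1) (nat_lit 317) (nat_lit 356) (nat_lit 347))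 (XT.lf (nat_lit 1292) (nat_lit 343544310) (nat_lit 0) (nat_lit 4951043412) (nat_lit 1216) (nat_lit 343544310) (nat_lit 396) (nat_lit 1) (nat_lit 379) (nat_lit 1) (nat_lit 395) (nat_lit 1) (nat_lit 318) (nat_lit 356) (nat_lit 346)))))) (XT.nd (nat_lit 468) (nat_lit 1900) (nat_lit 0) (XT.nd (nat_lit 234) (nat_lit 0) (nat_lit 0) (XT.nd (nat_lit 78) (nat_lit 1216) (nat_lit 0) (XT.lf (nat_lit 1292) (nat_lit 379382535) (nat_lit 76) (nat_lit 2589987365) (nat_lit 0) (nat_lit 2589987365) (nat_lit 396) (nat_lit 1) (nat_lit 380) (nat_lit 1) (nat_lit 379) (nat_lit 1) (nat_lit 319) (nat_lit 356) (nat_lit 345)) (XT.nd (nat_lit 78) (nat_lit 1292) (nat_lit 0) (XT.lf (nat_lit 1292) (nat_lit 38441249) (nat_lit 0) (nat_lit 5405885003) (nat_lit 1216) (nat_lit 38441249) (nat_lit 397) (nat_lit 1) (nat_lit 380) (nat_lit 1) (nat_lit 396) (nat_lit 1) (nat_lit 320) (nat_lit 356) (nat_lit 344)) (XT.lf (nat_lit 1368) (nat_lit 2571123101)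 (nat_lit 0) (nat_lit 264540845) (nat_lit 1292) (nat_lit 2571123101) (nat_lit 381) (nat_lit 1) (nat_lit 363) (nat_lit 1) (nat_lit 380) (nat_lit 1) (nat_lit 321) (nat_lit 356) (nat_lit 343)))) (XT.nd (nat_lit 78) (nat_lit 0) (nat_lit 76) (XT.lf (nat_lit 1368) (nat_lit 4735094783) (nat_lit 76) (nat_lit 298903011) (nat_lit 0) (nat_lit 298903011) (nat_lit 381) (nat_lit 1) (nat_lit 364) (nat_lit 1) (nat_lit 363) (nat_lit 1) (nat_lit 322) (nat_lit 356) (nat_lit 342)) (XT.nd (nat_lit 78) (nat_lit 0) (nat_lit 0) (XT.lf (nat_lit 1368) (nat_lit 2146460008) (nat_lit 0) (nat_lit 966881077) (nat_lit 1292) (nat_lit 2146460008) (nat_lit 382) (nat_lit 1) (nat_lit 364) (nat_lit 1) (nat_lit 381) (nat_lit 1) (nat_lit 323) (nat_lit 356) (nat_lit 341)) (XT.lf (nat_lit 1368) (nat_lit 3854144901) (nat_lit 76) (nat_lit 667204751) (nat_lit 0) (nat_lit 667204751) (nat_lit 382) (nat_lit 1) (nat_lit 365) (nat_lit 1) (nat_lit 364)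 (nat_lit 1) (nat_lit 324) (nat_lit 356) (nat_lit 340))))) (XT.nd (nat_lit 234) (nat_lit 1216) (nat_lit 0) (XT.nd (nat_lit 78) (nat_lit 836) (nat_lit 0) (XT.lf (nat_lit 76) (nat_lit 1694994896) (nat_lit 0) (nat_lit 1728281617) (nat_lit 1292) (nat_lit 1694994896) (nat_lit 366) (nat_lit 1) (nat_lit 365) (nat_lit 1) (nat_lit 382) (nat_lit 1) (nat_lit 325) (nat_lit 356) (nat_lit 339)) (XT.nd (nat_lit 78) (nat_lit 0) (nat_lit 0) (XT.lf (nat_lit 912) (nat_lit 2922409827) (nat_lit 0) (nat_lit 1063566076) (nat_lit 836) (nat_lit 1063566076) (nat_lit 366) (nat_lit 1) (nat_lit 354) (nat_lit 1) (nat_lit 365) (nat_lit 1) (nat_lit 326) (nat_lit 356) (nat_lit 338)) (XT.lf (nat_lit 76) (nat_lit 1219756972) (nat_lit 0) (nat_lit 2542457672) (nat_lit 912) (nat_lit 1219756972) (nat_lit 355) (nat_lit 1) (nat_lit 354) (nat_lit 1) (nat_lit 366) (nat_lit 1) (nat_lit 327) (nat_lit 356) (nat_lit 337)))) (XT.nd (nat_lit 78) (nat_lit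 608) (nat_lit 0) (XT.lf (nat_lit 684) (nat_lit 1945756936) (nat_lit 0) (nat_lit 1484943193) (nat_lit 608) (nat_lit 1484943193) (nat_lit 355) (nat_lit 1) (nat_lit 346) (nat_lit 1) (nat_lit 354) (nat_lit 1) (nat_lit 328) (nat_lit 356) (nat_lit 336)) (XT.nd (nat_lit 78) (nat_lit 608) (nat_lit 0) (XT.lf (nat_lit 76) (nat_lit 723558139) (nat_lit 0) (nat_lit 3403569527) (nat_lit 684) (nat_lit 723558139) (nat_lit 347) (nat_lit 1) (nat_lit 346) (nat_lit 1) (nat_lit 355) (nat_lit 1) (nat_lit 329) (nat_lit 356) (nat_lit 335)) (XT.lf (nat_lit 684) (nat_lit 929630807) (nat_lit 0) (nat_lit 1928508777) (nat_lit 608) (nat_lit 1928508777) (nat_lit 347) (nat_lit 1) (nat_lit 338) (nat_lit 1) (nat_lit 346) (nat_lit 1) (nat_lit 330) (nat_lit 356) (nat_lit 334))))))))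
noncomputable def ec40 : XT := (XT.nd (nat_lit 1716) (nat_lit 4180) (nat_lit 0) (XT.nd (nat_lit 858) (nat_lit 3040) (nat_lit 0) (XT.nd (nat_lit 390) (nat_lit 1596) (nat_lit 0) (XT.nd (nat_lit 156) (nat_lit 1140) (nat_lit 0) (XT.nd (nat_lit 78) (nat_lit 608) (nat_lit 0) (XT.lf (nat_lit 76) (nat_lit 209006731) (nat_lit 0) (nat_lit 4306194539) (nat_lit 684) (nat_lit 209006731) (nat_lit 339) (nat_lit 1) (nat_lit 338) (nat_lit 1) (nat_lit 347) (nat_lit 1) (nat_lit 331) (nat_lit 356) (nat_lit 333)) (XT.lf (nat_lit 76) (nat_lit 2271880684) (nat_lit 0) (nat_lit 118560414) (nat_lit 608) (nat_lit 2271880684) (nat_lit 331) (nat_lit 1) (nat_lit 330) (nat_lit 1) (nat_lit 338) (nat_lit 1) (nat_lit 332) (nat_lit 356) (nat_lit 332))) (XT.nd (nat_lit 78) (nat_lit 532) (nat_lit 0) (XT.lf (nat_lit 684) (nat_lit 3965313348) (nat_lit 0) (nat_lit 318327810) (nat_lit 608) (nat_lit 318327810) (nat_lit 331) (nat_lit 1) (nat_lit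 322) (nat_lit 1) (nat_lit 330) (nat_lit 1) (nat_lit 333) (nat_lit 356) (nat_lit 331)) (XT.nd (nat_lit 78) (nat_lit 532) (nat_lit 0) (XT.lf (nat_lit 76) (nat_lit 1682226399) (nat_lit 0) (nat_lit 1177777694) (nat_lit 684) (nat_lit 1682226399) (nat_lit 323) (nat_lit 1) (nat_lit 322) (nat_lit 1) (nat_lit 331) (nat_lit 1) (nat_lit 334) (nat_lit 356) (nat_lit 330)) (XT.lf (nat_lit 608) (nat_lit 2769546203) (nat_lit 0) (nat_lit 857174727) (nat_lit 532) (nat_lit 857174727) (nat_lit 323) (nat_lit 1) (nat_lit 315) (nat_lit 1) (nat_lit 322) (nat_lit 1) (nat_lit 335) (nat_lit 356) (nat_lit 329))))) (XT.nd (nat_lit 234) (nat_lit 1064) (nat_lit 0) (XT.nd (nat_lit 78) (nat_lit 532) (nat_lit 0) (XT.lf (nat_lit 76) (nat_lit 1082272867) (nat_lit 0) (nat_lit 2261915483) (nat_lit 608) (nat_lit 1082272867) (nat_lit 316) (nat_lit 1) (nat_lit 315) (nat_lit 1) (nat_lit 323) (nat_lit 1) (nat_lit 336) (nat_lit 356) (nat_lit 328))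 (XT.nd (nat_lit 78) (nat_lit 0) (nat_lit 0) (XT.lf (nat_lit 608) (nat_lit 1554990995) (nat_lit 0) (nat_lit 1407531368) (nat_lit 532) (nat_lit 1407531368) (nat_lit 316) (nat_lit 1) (nat_lit 308) (nat_lit 1) (nat_lit 315) (nat_lit 1) (nat_lit 337) (nat_lit 356) (nat_lit 327)) (XT.lf (nat_lit 76) (nat_lit 473897164) (nat_lit 0) (nat_lit 3367046429) (nat_lit 608) (nat_lit 473897164) (nat_lit 309) (nat_lit 1) (nat_lit 308) (nat_lit 1) (nat_lit 316) (nat_lit 1) (nat_lit 338) (nat_lit 356) (nat_lit 326)))) (XT.nd (nat_lit 78) (nat_lit 608) (nat_lit 0) (XT.lf (nat_lit 532) (nat_lit 325272742) (nat_lit 0) (nat_lit 1967500861) (nat_lit 456) (nat_lit 1967500861) (nat_lit 309) (nat_lit 1) (nat_lit 302) (nat_lit 1) (nat_lit 308) (nat_lit 1) (nat_lit 339) (nat_lit 356) (nat_lit 325)) (XT.nd (nat_lit 78) (nat_lit 0) (nat_lit 0) (XT.lf (nat_lit 608) (nat_lit 3927470364) (nat_lit 0) (nat_lit 139784826) (nat_lit 532)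 (nat_lit 139784826) (nat_lit 302) (nat_lit 1) (nat_lit 294) (nat_lit 1) (nat_lit 301) (nat_lit 1) (nat_lit 340) (nat_lit 356) (nat_lit 324)) (XT.lf (nat_lit 76) (nat_lit 1627873132) (nat_lit 0) (nat_lit 898386156) (nat_lit 608) (nat_lit 1627873132) (nat_lit 295) (nat_lit 1) (nat_lit 294) (nat_lit 1) (nat_lit 302) (nat_lit 1) (nat_lit 341) (nat_lit 356) (nat_lit 323)))))) (XT.nd (nat_lit 390) (nat_lit 1672) (nat_lit 0) (XT.nd (nat_lit 156) (nat_lit 912) (nat_lit 0) (XT.nd (nat_lit 78) (nat_lit 0) (nat_lit 0) (XT.lf (nat_lit 532) (nat_lit 2594779237) (nat_lit 0) (nat_lit 753865024) (nat_lit 456) (nat_lit 753865024) (nat_lit 295) (nat_lit 1) (nat_lit 288) (nat_lit 1) (nat_lit 294) (nat_lit 1) (nat_lit 342) (nat_lit 356) (nat_lit 322)) (XT.lf (nat_lit 76) (nat_lit 963686396) (nat_lit 0) (nat_lit 2124268668) (nat_lit 532) (nat_lit 963686396) (nat_lit 289) (nat_lit 1) (nat_lit 288) (nat_lit 1) (nat_lit 295)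 (nat_lit 1) (nat_lit 343) (nat_lit 356) (nat_lit 321))) (XT.nd (nat_lit 78) (nat_lit 456) (nat_lit 0) (XT.lf (nat_lit 532) (nat_lit 1258579208) (nat_lit 0) (nat_lit 1371534713) (nat_lit 456) (nat_lit 1371534713) (nat_lit 289) (nat_lit 1) (nat_lit 282) (nat_lit 1) (nat_lit 288) (nat_lit 1) (nat_lit 344) (nat_lit 356) (nat_lit 320)) (XT.nd (nat_lit 78) (nat_lit 456) (nat_lit 0) (XT.lf (nat_lit 76) (nat_lit 298401933) (nat_lit 0) (nat_lit 3355945096) (nat_lit 532) (nat_lit 298401933) (nat_lit 283) (nat_lit 1) (nat_lit 282) (nat_lit 1) (nat_lit 289) (nat_lit 1) (nat_lit 345) (nat_lit 356) (nat_lit 319)) (XT.lf (nat_lit 76) (nat_lit 1913614219) (nat_lit 0) (nat_lit 77064157) (nat_lit 456) (nat_lit 1913614219) (nat_lit 277) (nat_lit 1) (nat_lit 276) (nat_lit 1) (nat_lit 282) (nat_lit 1) (nat_lit 346) (nat_lit 356) (nat_lit 318))))) (XT.nd (nat_lit 234) (nat_lit 836) (nat_lit 0) (XT.nd (nat_lit 78) (nat_lit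 380) (nat_lit 0) (XT.lf (nat_lit 532) (nat_lit 3130531816) (nat_lit 0) (nat_lit 363178941) (nat_lit 456) (nat_lit 363178941) (nat_lit 277) (nat_lit 1) (nat_lit 270) (nat_lit 1) (nat_lit 276) (nat_lit 1) (nat_lit 347) (nat_lit 356) (nat_lit 317)) (XT.nd (nat_lit 78) (nat_lit 380) (nat_lit 0) (XT.lf (nat_lit 76) (nat_lit 1211565982) (nat_lit 0) (nat_lit 1386832728) (nat_lit 532) (nat_lit 1211565982) (nat_lit 271) (nat_lit 1) (nat_lit 270) (nat_lit 1) (nat_lit 277) (nat_lit 1) (nat_lit 348) (nat_lit 356) (nat_lit 316)) (XT.lf (nat_lit 456) (nat_lit 1722739592) (nat_lit 0) (nat_lit 1020635415) (nat_lit 380) (nat_lit 1020635415) (nat_lit 271) (nat_lit 1) (nat_lit 265) (nat_lit 1) (nat_lit 270) (nat_lit 1) (nat_lit 349) (nat_lit 356) (nat_lit 315)))) (XT.nd (nat_lit 78) (nat_lit 836) (nat_lit 0) (XT.lf (nat_lit 76) (nat_lit 512845085) (nat_lit 0) (nat_lit 2693207654) (nat_lit 456) (nat_lit 512845085) (nat_lit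 266) (nat_lit 1) (nat_lit 265) (nat_lit 1) (nat_lit 271) (nat_lit 1) (nat_lit 350) (nat_lit 356) (nat_lit 314)) (XT.nd (nat_lit 78) (nat_lit 456) (nat_lit 0) (XT.lf (nat_lit 456) (nat_lit 322539161) (nat_lit 0) (nat_lit 1675895487) (nat_lit 380) (nat_lit 1675895487) (nat_lit 266) (nat_lit 1) (nat_lit 260) (nat_lit 1) (nat_lit 265) (nat_lit 1) (nat_lit 351) (nat_lit 356) (nat_lit 313)) (XT.lf (nat_lit 456) (nat_lit 3270993751) (nat_lit 0) (nat_lit 179881582) (nat_lit 380) (nat_lit 179881582) (nat_lit 260) (nat_lit 1) (nat_lit 254) (nat_lit 1) (nat_lit 259) (nat_lit 1) (nat_lit 352) (nat_lit 356) (nat_lit 312))))))) (XT.nd (nat_lit 858) (nat_lit 2052) (nat_lit 0) (XT.nd (nat_lit 390) (nat_lit 988) (nat_lit 0) (XT.nd (nat_lit 156) (nat_lit 760) (nat_lit 0) (XT.nd (nat_lit 78) (nat_lit 380) (nat_lit 0) (XT.lf (nat_lit 76) (nat_lit 1269947206) (nat_lit 0) (nat_lit 1047524819) (nat_lit 456) (nat_lit 1269947206)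 (nat_lit 255) (nat_lit 1) (nat_lit 254) (nat_lit 1) (nat_lit 260) (nat_lit 1) (nat_lit 353) (nat_lit 356) (nat_lit 311)) (XT.lf (nat_lit 456) (nat_lit 1819819377) (nat_lit 0) (nat_lit 862612654) (nat_lit 380) (nat_lit 862612654) (nat_lit 255) (nat_lit 1) (nat_lit 249) (nat_lit 1) (nat_lit 254) (nat_lit 1) (nat_lit 354) (nat_lit 356) (nat_lit 310))) (XT.nd (nat_lit 78) (nat_lit 760) (nat_lit 0) (XT.lf (nat_lit 76) (nat_lit 551349694) (nat_lit 0) (nat_lit 2400680167) (nat_lit 456) (nat_lit 551349694) (nat_lit 250) (nat_lit 1) (nat_lit 249) (nat_lit 1) (nat_lit 255) (nat_lit 1) (nat_lit 355) (nat_lit 356) (nat_lit 309)) (XT.nd (nat_lit 78) (nat_lit 456) (nat_lit 0) (XT.lf (nat_lit 380) (nat_lit 382930308) (nat_lit 0) (nat_lit 1539656073) (nat_lit 304) (nat_lit 1539656073) (nat_lit 250) (nat_lit 1) (nat_lit 245) (nat_lit 1) (nat_lit 249) (nat_lit 1) (nat_lit 356) (nat_lit 356) (nat_lit 308)) (XT.lf (nat_lit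 456) (nat_lit 3105475761) (nat_lit 0) (nat_lit 158266015) (nat_lit 380) (nat_lit 158266015) (nat_lit 245) (nat_lit 1) (nat_lit 239) (nat_lit 1) (nat_lit 244) (nat_lit 1) (nat_lit 357) (nat_lit 356) (nat_lit 307))))) (XT.nd (nat_lit 234) (nat_lit 684) (nat_lit 0) (XT.nd (nat_lit 78) (nat_lit 304) (nat_lit 0) (XT.lf (nat_lit 76) (nat_lit 1181861771) (nat_lit 0) (nat_lit 1018218706) (nat_lit 456) (nat_lit 1181861771) (nat_lit 240) (nat_lit 1) (nat_lit 239) (nat_lit 1) (nat_lit 245) (nat_lit 1) (nat_lit 358) (nat_lit 356) (nat_lit 306)) (XT.nd (nat_lit 78) (nat_lit 0) (nat_lit 0) (XT.lf (nat_lit 380) (nat_lit 1633593222) (nat_lit 0) (nat_lit 854579844) (nat_lit 304) (nat_lit 854579844) (nat_lit 240) (nat_lit 1) (nat_lit 235) (nat_lit 1) (nat_lit 239) (nat_lit 1) (nat_lit 359) (nat_lit 356) (nat_lit 305)) (XT.lf (nat_lit 76) (nat_lit 454277321) (nat_lit 0) (nat_lit 2395679273) (nat_lit 380) (nat_lit 454277321)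 (nat_lit 236) (nat_lit 1) (nat_lit 235) (nat_lit 1) (nat_lit 240) (nat_lit 1) (nat_lit 360) (nat_lit 356) (nat_lit 304)))) (XT.nd (nat_lit 78) (nat_lit 380) (nat_lit 0) (XT.lf (nat_lit 380) (nat_lit 181146640) (nat_lit 0) (nat_lit 1542503052) (nat_lit 304) (nat_lit 1542503052) (nat_lit 236) (nat_lit 1) (nat_lit 231) (nat_lit 1) (nat_lit 235) (nat_lit 1) (nat_lit 361) (nat_lit 356) (nat_lit 303)) (XT.nd (nat_lit 78) (nat_lit 0) (nat_lit 0) (XT.lf (nat_lit 380) (nat_lit 2707120209) (nat_lit 0) (nat_lit 260851438) (nat_lit 304) (nat_lit 260851438) (nat_lit 231) (nat_lit 1) (nat_lit 226) (nat_lit 1) (nat_lit 230) (nat_lit 1) (nat_lit 362) (nat_lit 356) (nat_lit 302)) (XT.lf (nat_lit 76) (nat_lit 982538814) (nat_lit 0) (nat_lit 1226671677) (nat_lit 380) (nat_lit 982538814) (nat_lit 227) (nat_lit 1) (nat_lit 226) (nat_lit 1) (nat_lit 231) (nat_lit 1) (nat_lit 363) (nat_lit 356) (nat_lit 301)))))) (XT.nd (nat_lit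 390) (nat_lit 1140) (nat_lit 0) (XT.nd (nat_lit 156) (nat_lit 608) (nat_lit 0) (XT.nd (nat_lit 78) (nat_lit 0) (nat_lit 0) (XT.lf (nat_lit 380) (nat_lit 1232621747) (nat_lit 0) (nat_lit 961391661) (nat_lit 304) (nat_lit 961391661) (nat_lit 227) (nat_lit 1) (nat_lit 222) (nat_lit 1) (nat_lit 226) (nat_lit 1) (nat_lit 364) (nat_lit 356) (nat_lit 300)) (XT.lf (nat_lit 76) (nat_lit 254647677) (nat_lit 0) (nat_lit 2610468584) (nat_lit 380) (nat_lit 254647677) (nat_lit 223) (nat_lit 1) (nat_lit 222) (nat_lit 1) (nat_lit 227) (nat_lit 1) (nat_lit 365) (nat_lit 356) (nat_lit 299))) (XT.nd (nat_lit 78) (nat_lit 304) (nat_lit 0) (XT.lf (nat_lit 76) (nat_lit 1435030582) (nat_lit 0) (nat_lit 214291288) (nat_lit 304) (nat_lit 1435030582) (nat_lit 219) (nat_lit 1) (nat_lit 218) (nat_lit 1) (nat_lit 222) (nat_lit 1) (nat_lit 366) (nat_lit 356) (nat_lit 298)) (XT.nd (nat_lit 78) (nat_lit 0) (nat_lit 0) (XT.lf (nat_lit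 380) (nat_lit 2135629917) (nat_lit 0) (nat_lit 456997318) (nat_lit 304) (nat_lit 456997318) (nat_lit 219) (nat_lit 1) (nat_lit 214) (nat_lit 1) (nat_lit 218) (nat_lit 1) (nat_lit 367) (nat_lit 356) (nat_lit 297)) (XT.lf (nat_lit 76) (nat_lit 700722510) (nat_lit 0) (nat_lit 1613847256) (nat_lit 380) (nat_lit 700722510) (nat_lit 215) (nat_lit 1) (nat_lit 214) (nat_lit 1) (nat_lit 219) (nat_lit 1) (nat_lit 368) (nat_lit 356) (nat_lit 296))))) (XT.nd (nat_lit 234) (nat_lit 532) (nat_lit 0) (XT.nd (nat_lit 78) (nat_lit 380) (nat_lit 0) (XT.lf (nat_lit 304) (nat_lit 672822118) (nat_lit 0) (nat_lit 1154338507) (nat_lit 228) (nat_lit 1154338507) (nat_lit 215) (nat_lit 1) (nat_lit 211) (nat_lit 1) (nat_lit 214) (nat_lit 1) (nat_lit 369) (nat_lit 356) (nat_lit 295)) (XT.nd (nat_lit 78) (nat_lit 0) (nat_lit 0) (XT.lf (nat_lit 380) (nat_lit 2907636277) (nat_lit 0) (nat_lit 20418022) (nat_lit 304) (nat_lit 20418022)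 (nat_lit 211) (nat_lit 1) (nat_lit 206) (nat_lit 1) (nat_lit 210) (nat_lit 1) (nat_lit 370) (nat_lit 356) (nat_lit 294)) (XT.lf (nat_lit 76) (nat_lit 1083234667) (nat_lit 0) (nat_lit 748911248) (nat_lit 380) (nat_lit 1083234667) (nat_lit 207) (nat_lit 1) (nat_lit 206) (nat_lit 1) (nat_lit 211) (nat_lit 1) (nat_lit 371) (nat_lit 356) (nat_lit 293)))) (XT.nd (nat_lit 78) (nat_lit 304) (nat_lit 0) (XT.lf (nat_lit 304) (nat_lit 1439547511) (nat_lit 0) (nat_lit 721745658) (nat_lit 228) (nat_lit 721745658) (nat_lit 207) (nat_lit 1) (nat_lit 203) (nat_lit 1) (nat_lit 206) (nat_lit 1) (nat_lit 372) (nat_lit 356) (nat_lit 292)) (XT.nd (nat_lit 78) (nat_lit 304) (nat_lit 0) (XT.lf (nat_lit 76) (nat_lit 359772611) (nat_lit 0) (nat_lit 2131678708) (nat_lit 304) (nat_lit 359772611) (nat_lit 204) (nat_lit 1) (nat_lit 203) (nat_lit 1) (nat_lit 207) (nat_lit 1) (nat_lit 373) (nat_lit 356) (nat_lit 291)) (XT.lf (nat_lit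 76) (nat_lit 1409674722) (nat_lit 0) (nat_lit 377424) (nat_lit 304) (nat_lit 1409674722) (nat_lit 200) (nat_lit 1) (nat_lit 199) (nat_lit 1) (nat_lit 203) (nat_lit 1) (nat_lit 374) (nat_lit 356) (nat_lit 290))))))))
noncomputable def ec41 : XT := (XT.nd (nat_lit 48360) (nat_lit 0) (nat_lit 10336) (XT.nd (nat_lit 858) (nat_lit 456) (nat_lit 0) (XT.nd (nat_lit 390) (nat_lit 836) (nat_lit 0) (XT.nd (nat_lit 156) (nat_lit 532) (nat_lit 0) (XT.nd (nat_lit 78) (nat_lit 0) (nat_lit 0) (XT.lf (nat_lit 304) (nat_lit 2096255992) (nat_lit 0) (nat_lit 346243072) (nat_lit 228) (nat_lit 346243072) (nat_lit 200) (nat_lit 1) (nat_lit 196) (nat_lit 1) (nat_lit 199) (nat_lit 1) (nat_lit 375) (nat_lit 356) (nat_lit 289)) (XT.lf (nat_lit 76) (nat_lit 686734252) (nat_lit 0) (nat_lit 1384586855) (nat_lit 304) (nat_lit 686734252) (nat_lit 197) (nat_lit 1) (nat_lit 196) (nat_lit 1) (nat_lit 200) (nat_lit 1) (nat_lit 376) (nat_lit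 356) (nat_lit 288))) (XT.nd (nat_lit 78) (nat_lit 304) (nat_lit 0) (XT.lf (nat_lit 304) (nat_lit 658158700) (nat_lit 0) (nat_lit 1034854151) (nat_lit 228) (nat_lit 1034854151) (nat_lit 197) (nat_lit 1) (nat_lit 193) (nat_lit 1) (nat_lit 196) (nat_lit 1) (nat_lit 377) (nat_lit 356) (nat_lit 287)) (XT.nd (nat_lit 78) (nat_lit 0) (nat_lit 0) (XT.lf (nat_lit 304) (nat_lit 2655929962) (nat_lit 0) (nat_lit 21206663) (nat_lit 228) (nat_lit 21206663) (nat_lit 193) (nat_lit 1) (nat_lit 189) (nat_lit 1) (nat_lit 192) (nat_lit 1) (nat_lit 378) (nat_lit 356) (nat_lit 286)) (XT.lf (nat_lit 76) (nat_lit 966543758) (nat_lit 0) (nat_lit 735641790) (nat_lit 304) (nat_lit 966543758) (nat_lit 190) (nat_lit 1) (nat_lit 189) (nat_lit 1) (nat_lit 193) (nat_lit 1) (nat_lit 379) (nat_lit 356) (nat_lit 285))))) (XT.nd (nat_lit 234) (nat_lit 380) (nat_lit 0) (XT.nd (nat_lit 78) (nat_lit 228) (nat_lit 0) (XT.lf (nat_lit 304) (nat_lit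 1224086559) (nat_lit 0) (nat_lit 707840622) (nat_lit 228) (nat_lit 707840622) (nat_lit 190) (nat_lit 1) (nat_lit 186) (nat_lit 1) (nat_lit 189) (nat_lit 1) (nat_lit 380) (nat_lit 356) (nat_lit 284)) (XT.nd (nat_lit 78) (nat_lit 228) (nat_lit 0) (XT.lf (nat_lit 76) (nat_lit 261808223) (nat_lit 0) (nat_lit 2087680393) (nat_lit 304) (nat_lit 261808223) (nat_lit 187) (nat_lit 1) (nat_lit 186) (nat_lit 1) (nat_lit 190) (nat_lit 1) (nat_lit 381) (nat_lit 356) (nat_lit 283)) (XT.lf (nat_lit 76) (nat_lit 1204770609) (nat_lit 0) (nat_lit 173466749) (nat_lit 228) (nat_lit 1204770609) (nat_lit 184) (nat_lit 1) (nat_lit 183) (nat_lit 1) (nat_lit 186) (nat_lit 1) (nat_lit 382) (nat_lit 356) (nat_lit 282)))) (XT.nd (nat_lit 78) (nat_lit 152) (nat_lit 0) (XT.lf (nat_lit 304) (nat_lit 1708285130) (nat_lit 0) (nat_lit 423456848) (nat_lit 228) (nat_lit 423456848) (nat_lit 184) (nat_lit 1) (nat_lit 180) (nat_lit 1) (nat_lit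 183) (nat_lit 1) (nat_lit 383) (nat_lit 356) (nat_lit 281)) (XT.nd (nat_lit 78) (nat_lit 152) (nat_lit 0) (XT.lf (nat_lit 76) (nat_lit 505270130) (nat_lit 0) (nat_lit 1517166767) (nat_lit 304) (nat_lit 505270130) (nat_lit 181) (nat_lit 1) (nat_lit 180) (nat_lit 1) (nat_lit 184) (nat_lit 1) (nat_lit 384) (nat_lit 356) (nat_lit 280)) (XT.lf (nat_lit 228) (nat_lit 318243875) (nat_lit 0) (nat_lit 1091169429) (nat_lit 152) (nat_lit 1091169429) (nat_lit 181) (nat_lit 1) (nat_lit 178) (nat_lit 1) (nat_lit 180) (nat_lit 1) (nat_lit 385) (nat_lit 356) (nat_lit 279)))))) (XT.nd (nat_lit 47034) (nat_lit 0) (nat_lit 15428) (XT.nd (nat_lit 156) (nat_lit 152) (nat_lit 0) (XT.nd (nat_lit 78) (nat_lit 0) (nat_lit 0) (XT.lf (nat_lit 304) (nat_lit 2120410646) (nat_lit 0) (nat_lit 176769540) (nat_lit 228) (nat_lit 176769540) (nat_lit 178) (nat_lit 1) (nat_lit 174) (nat_lit 1) (nat_lit 177) (nat_lit 1) (nat_lit 386) (nat_lit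 356) (nat_lit 278)) (XT.lf (nat_lit 76) (nat_lit 713641418) (nat_lit 0) (nat_lit 1020109020) (nat_lit 304) (nat_lit 713641418) (nat_lit 175) (nat_lit 1) (nat_lit 174) (nat_lit 1) (nat_lit 178) (nat_lit 1) (nat_lit 387) (nat_lit 356) (nat_lit 277))) (XT.nd (nat_lit 46722) (nat_lit 0) (nat_lit 15352) (XT.lf (nat_lit 228) (nat_lit 744342147) (nat_lit 0) (nat_lit 838487038) (nat_lit 152) (nat_lit 838487038) (nat_lit 175) (nat_lit 1) (nat_lit 172) (nat_lit 1) (nat_lit 174) (nat_lit 1) (nat_lit 388) (nat_lit 356) (nat_lit 276)) (XT.nd (nat_lit 78) (nat_lit 0) (nat_lit 0) (XT.lf (nat_lit 1292) (nat_lit 616449489) (nat_lit 0) (nat_lit 2120872935) (nat_lit 1292) (nat_lit 616449489) (nat_lit 391) (nat_lit 1) (nat_lit 374) (nat_lit 0) (nat_lit 391) (nat_lit 0) (nat_lit 306) (nat_lit 357) (nat_lit 357)) (XT.lf (nat_lit 1292) (nat_lit 2409095407) (nat_lit 76) (nat_lit 2100080063) (nat_lit 0) (nat_lit 2100080063)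 (nat_lit 391) (nat_lit 1) (nat_lit 375) (nat_lit 1) (nat_lit 374) (nat_lit 0) (nat_lit 307) (nat_lit 357) (nat_lit 356))))) (XT.nd (nat_lit 234) (nat_lit 0) (nat_lit 76) (XT.nd (nat_lit 78) (nat_lit 0) (nat_lit 0) (XT.lf (nat_lit 1292) (nat_lit 1165095978) (nat_lit 0) (nat_lit 4182943318) (nat_lit 1216) (nat_lit 1165095978) (nat_lit 392) (nat_lit 1) (nat_lit 375) (nat_lit 1) (nat_lit 391) (nat_lit 1) (nat_lit 308) (nat_lit 357) (nat_lit 355)) (XT.nd (nat_lit 78) (nat_lit 0) (nat_lit 76) (XT.lf (nat_lit 1292) (nat_lit 2212577417) (nat_lit 76) (nat_lit 2103021386) (nat_lit 0) (nat_lit 2103021386) (nat_lit 392) (nat_lit 1) (nat_lit 376) (nat_lit 1) (nat_lit 375) (nat_lit 1) (nat_lit 309) (nat_lit 357) (nat_lit 354)) (XT.lf (nat_lit 1292) (nat_lit 1038240918) (nat_lit 0) (nat_lit 4249738075) (nat_lit 1216) (nat_lit 1038240918) (nat_lit 393) (nat_lit 1) (nat_lit 376) (nat_lit 1) (nat_lit 392) (nat_lit 1)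 (nat_lit 310) (nat_lit 357) (nat_lit 353)))) (XT.nd (nat_lit 78) (nat_lit 0) (nat_lit 76) (XT.lf (nat_lit 1292) (nat_lit 1902686107) (nat_lit 76) (nat_lit 2166305640) (nat_lit 0) (nat_lit 2166305640) (nat_lit 393) (nat_lit 1) (nat_lit 377) (nat_lit 1) (nat_lit 376) (nat_lit 1) (nat_lit 311) (nat_lit 357) (nat_lit 352)) (XT.nd (nat_lit 78) (nat_lit 0) (nat_lit 0) (XT.lf (nat_lit 1292) (nat_lit 857556956) (nat_lit 0) (nat_lit 4431360486) (nat_lit 1216) (nat_lit 857556956) (nat_lit 394) (nat_lit 1) (nat_lit 377) (nat_lit 1) (nat_lit 393) (nat_lit 1) (nat_lit 312) (nat_lit 357) (nat_lit 351)) (XT.lf (nat_lit 1292) (nat_lit 1489560274) (nat_lit 76) (nat_lit 2284706416) (nat_lit 0) (nat_lit 2284706416) (nat_lit 394) (nat_lit 1) (nat_lit 378) (nat_lit 1) (nat_lit 377) (nat_lit 1) (nat_lit 313) (nat_lit 357) (nat_lit 350))))))) (XT.nd (nat_lit 858) (nat_lit 3496) (nat_lit 0) (XT.nd (nat_lit 390) (nat_lit 1824)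 (nat_lit 0) (XT.nd (nat_lit 156) (nat_lit 0) (nat_lit 76) (XT.nd (nat_lit 78) (nat_lit 0) (nat_lit 0) (XT.lf (nat_lit 1292) (nat_lit 627914019) (nat_lit 0) (nat_lit 4717762801) (nat_lit 1216) (nat_lit 627914019) (nat_lit 395) (nat_lit 1) (nat_lit 378) (nat_lit 1) (nat_lit 394) (nat_lit 1) (nat_lit 314) (nat_lit 357) (nat_lit 349)) (XT.lf (nat_lit 1292) (nat_lit 982650960) (nat_lit 76) (nat_lit 2453348655) (nat_lit 0) (nat_lit 2453348655) (nat_lit 395) (nat_lit 1) (nat_lit 379) (nat_lit 1) (nat_lit 378) (nat_lit 1) (nat_lit 315) (nat_lit 357) (nat_lit 348))) (XT.nd (nat_lit 78) (nat_lit 0) (nat_lit 0) (XT.lf (nat_lit 1292) (nat_lit 353850639) (nat_lit 0) (nat_lit 5099574715) (nat_lit 1216) (nat_lit 353850639) (nat_lit 396) (nat_lit 1) (nat_lit 379) (nat_lit 1) (nat_lit 395) (nat_lit 1) (nat_lit 316) (nat_lit 357) (nat_lit 347)) (XT.nd (nat_lit 78) (nat_lit 0) (nat_lit 76) (XT.lf (nat_lit 1292) (nat_lit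 390764011) (nat_lit 76) (nat_lit 2667686986) (nat_lit 0) (nat_lit 2667686986) (nat_lit 396) (nat_lit 1) (nat_lit 380) (nat_lit 1) (nat_lit 379) (nat_lit 1) (nat_lit 317) (nat_lit 357) (nat_lit 346)) (XT.lf (nat_lit 1292) (nat_lit 39594487) (nat_lit 0) (nat_lit 5568061553) (nat_lit 1216) (nat_lit 39594487) (nat_lit 397) (nat_lit 1) (nat_lit 380) (nat_lit 1) (nat_lit 396) (nat_lit 1) (nat_lit 318) (nat_lit 357) (nat_lit 345))))) (XT.nd (nat_lit 234) (nat_lit 684) (nat_lit 0) (XT.nd (nat_lit 78) (nat_lit 0) (nat_lit 0) (XT.lf (nat_lit 1368) (nat_lit 2648256794) (nat_lit 0) (nat_lit 272477071) (nat_lit 1292) (nat_lit 2648256794) (nat_lit 381) (nat_lit 1) (nat_lit 363) (nat_lit 1) (nat_lit 380) (nat_lit 1) (nat_lit 319) (nat_lit 357) (nat_lit 344)) (XT.nd (nat_lit 78) (nat_lit 0) (nat_lit 76) (XT.lf (nat_lit 1368) (nat_lit 4877147626) (nat_lit 76) (nat_lit 307870102) (nat_lit 0) (nat_lit 307870102) (nat_lit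 381) (nat_lit 1) (nat_lit 364) (nat_lit 1) (nat_lit 363) (nat_lit 1) (nat_lit 320) (nat_lit 357) (nat_lit 343)) (XT.lf (nat_lit 1368) (nat_lit 2210853808) (nat_lit 0) (nat_lit 995887509) (nat_lit 1292) (nat_lit 2210853808) (nat_lit 382) (nat_lit 1) (nat_lit 364) (nat_lit 1) (nat_lit 381) (nat_lit 1) (nat_lit 321) (nat_lit 357) (nat_lit 342)))) (XT.nd (nat_lit 78) (nat_lit 760) (nat_lit 0) (XT.lf (nat_lit 1368) (nat_lit 3969769248) (nat_lit 76) (nat_lit 687220894) (nat_lit 0) (nat_lit 687220894) (nat_lit 382) (nat_lit 1) (nat_lit 365) (nat_lit 1) (nat_lit 364) (nat_lit 1) (nat_lit 322) (nat_lit 357) (nat_lit 341)) (XT.nd (nat_lit 78) (nat_lit 836) (nat_lit 0) (XT.lf (nat_lit 76) (nat_lit 1745844743) (nat_lit 0) (nat_lit 1780130065) (nat_lit 1292) (nat_lit 1745844743) (nat_lit 366) (nat_lit 1) (nat_lit 365) (nat_lit 1) (nat_lit 382) (nat_lit 1) (nat_lit 323) (nat_lit 357) (nat_lit 340)) (XT.lf (nat_lit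 912) (nat_lit 3010082122) (nat_lit 0) (nat_lit 1095473058) (nat_lit 836) (nat_lit 1095473058) (nat_lit 366) (nat_lit 1) (nat_lit 354) (nat_lit 1) (nat_lit 365) (nat_lit 1) (nat_lit 324) (nat_lit 357) (nat_lit 339)))))) (XT.nd (nat_lit 468) (nat_lit 1672) (nat_lit 0) (XT.nd (nat_lit 234) (nat_lit 1216) (nat_lit 0) (XT.nd (nat_lit 78) (nat_lit 608) (nat_lit 0) (XT.lf (nat_lit 76) (nat_lit 1256349681) (nat_lit 0) (nat_lit 2618731402) (nat_lit 912) (nat_lit 1256349681) (nat_lit 355) (nat_lit 1) (nat_lit 354) (nat_lit 1) (nat_lit 366) (nat_lit 1) (nat_lit 325) (nat_lit 357) (nat_lit 338)) (XT.nd (nat_lit 78) (nat_lit 0) (nat_lit 0) (XT.lf (nat_lit 684) (nat_lit 2004129644) (nat_lit 0) (nat_lit 1529491489) (nat_lit 608) (nat_lit 1529491489) (nat_lit 355) (nat_lit 1) (nat_lit 346) (nat_lit 1) (nat_lit 354) (nat_lit 1) (nat_lit 326) (nat_lit 357) (nat_lit 337)) (XT.lf (nat_lit 76) (nat_lit 745264883) (nat_lit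 0) (nat_lit 3505676612) (nat_lit 684) (nat_lit 745264883) (nat_lit 347) (nat_lit 1) (nat_lit 346) (nat_lit 1) (nat_lit 355) (nat_lit 1) (nat_lit 327) (nat_lit 357) (nat_lit 336)))) (XT.nd (nat_lit 78) (nat_lit 608) (nat_lit 0) (XT.lf (nat_lit 684) (nat_lit 957519731) (nat_lit 0) (nat_lit 1986364040) (nat_lit 608) (nat_lit 1986364040) (nat_lit 347) (nat_lit 1) (nat_lit 338) (nat_lit 1) (nat_lit 346) (nat_lit 1) (nat_lit 328) (nat_lit 357) (nat_lit 335)) (XT.nd (nat_lit 78) (nat_lit 608) (nat_lit 0) (XT.lf (nat_lit 76) (nat_lit 215276933) (nat_lit 0) (nat_lit 4435380375) (nat_lit 684) (nat_lit 215276933) (nat_lit 339) (nat_lit 1) (nat_lit 338) (nat_lit 1) (nat_lit 347) (nat_lit 1) (nat_lit 329) (nat_lit 357) (nat_lit 334)) (XT.lf (nat_lit 76) (nat_lit 2340037105) (nat_lit 0) (nat_lit 122117226) (nat_lit 608) (nat_lit 2340037105) (nat_lit 331) (nat_lit 1) (nat_lit 330) (nat_lit 1) (nat_lit 338) (nat_lit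 1) (nat_lit 330) (nat_lit 357) (nat_lit 333))))) (XT.nd (nat_lit 234) (nat_lit 532) (nat_lit 0) (XT.nd (nat_lit 78) (nat_lit 532) (nat_lit 0) (XT.lf (nat_lit 684) (nat_lit 4084272748) (nat_lit 0) (nat_lit 327877644) (nat_lit 608) (nat_lit 327877644) (nat_lit 331) (nat_lit 1) (nat_lit 322) (nat_lit 1) (nat_lit 330) (nat_lit 1) (nat_lit 331) (nat_lit 357) (nat_lit 332)) (XT.nd (nat_lit 78) (nat_lit 532) (nat_lit 0) (XT.lf (nat_lit 76) (nat_lit 1732693191) (nat_lit 0) (nat_lit 1213111024) (nat_lit 684) (nat_lit 1732693191) (nat_lit 323) (nat_lit 1) (nat_lit 322) (nat_lit 1) (nat_lit 331) (nat_lit 1) (nat_lit 332) (nat_lit 357) (nat_lit 331)) (XT.lf (nat_lit 608) (nat_lit 2852632589) (nat_lit 0) (nat_lit 882889969) (nat_lit 532) (nat_lit 882889969) (nat_lit 323) (nat_lit 1) (nat_lit 315) (nat_lit 1) (nat_lit 322) (nat_lit 1) (nat_lit 333) (nat_lit 357) (nat_lit 330)))) (XT.nd (nat_lit 78) (nat_lit 532) (nat_lit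 0) (XT.lf (nat_lit 76) (nat_lit 1114741053) (nat_lit 0) (nat_lit 2329772947) (nat_lit 608) (nat_lit 1114741053) (nat_lit 316) (nat_lit 1) (nat_lit 315) (nat_lit 1) (nat_lit 323) (nat_lit 1) (nat_lit 334) (nat_lit 357) (nat_lit 329)) (XT.nd (nat_lit 78) (nat_lit 0) (nat_lit 0) (XT.lf (nat_lit 608) (nat_lit 1601640725) (nat_lit 0) (nat_lit 1449757309) (nat_lit 532) (nat_lit 1449757309) (nat_lit 316) (nat_lit 1) (nat_lit 308) (nat_lit 1) (nat_lit 315) (nat_lit 1) (nat_lit 335) (nat_lit 357) (nat_lit 328)) (XT.lf (nat_lit 76) (nat_lit 488114079) (nat_lit 0) (nat_lit 3468057822) (nat_lit 608) (nat_lit 488114079) (nat_lit 309) (nat_lit 1) (nat_lit 308) (nat_lit 1) (nat_lit 316) (nat_lit 1) (nat_lit 336) (nat_lit 357) (nat_lit 327))))))))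
noncomputable def ec42 : XT := (XT.nd (nat_lit 1716) (nat_lit 3952) (nat_lit 0) (XT.nd (nat_lit 858) (nat_lit 2280) (nat_lit 0) (XT.nd (nat_lit 390) (nat_lit 1748) (nat_lit 0) (XT.nd (nat_lit 156) (nat_lit 456) (nat_lit 0) (XT.nd (nat_lit 78) (nat_lit 608) (nat_lit 0) (XT.lf (nat_lit 532) (nat_lit 335030924) (nat_lit 0) (nat_lit 2026525887) (nat_lit 456) (nat_lit 2026525887) (nat_lit 309) (nat_lit 1) (nat_lit 302) (nat_lit 1) (nat_lit 308) (nat_lit 1) (nat_lit 337) (nat_lit 357) (nat_lit 326)) (XT.lf (nat_lit 608) (nat_lit 4045294475) (nat_lit 0) (nat_lit 143978371) (nat_lit 532) (nat_lit 143978371) (nat_lit 302) (nat_lit 1) (nat_lit 294) (nat_lit 1) (nat_lit 301) (nat_lit 1) (nat_lit 338) (nat_lit 357) (nat_lit 325))) (XT.nd (nat_lit 78) (nat_lit 456) (nat_lit 0) (XT.lf (nat_lit 76) (nat_lit 1676709326) (nat_lit 0) (nat_lit 925337740) (nat_lit 608) (nat_lit 1676709326) (nat_lit 295) (nat_lit 1) (nat_lit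 294) (nat_lit 1) (nat_lit 302) (nat_lit 1) (nat_lit 339) (nat_lit 357) (nat_lit 324)) (XT.nd (nat_lit 78) (nat_lit 0) (nat_lit 0) (XT.lf (nat_lit 532) (nat_lit 2672622614) (nat_lit 0) (nat_lit 776480975) (nat_lit 456) (nat_lit 776480975) (nat_lit 295) (nat_lit 1) (nat_lit 288) (nat_lit 1) (nat_lit 294) (nat_lit 1) (nat_lit 340) (nat_lit 357) (nat_lit 323)) (XT.lf (nat_lit 76) (nat_lit 992596988) (nat_lit 0) (nat_lit 2187996728) (nat_lit 532) (nat_lit 992596988) (nat_lit 289) (nat_lit 1) (nat_lit 288) (nat_lit 1) (nat_lit 295) (nat_lit 1) (nat_lit 341) (nat_lit 357) (nat_lit 322))))) (XT.nd (nat_lit 234) (nat_lit 836) (nat_lit 0) (XT.nd (nat_lit 78) (nat_lit 456) (nat_lit 0) (XT.lf (nat_lit 532) (nat_lit 1296336584) (nat_lit 0) (nat_lit 1412680755) (nat_lit 456) (nat_lit 1412680755) (nat_lit 289) (nat_lit 1) (nat_lit 282) (nat_lit 1) (nat_lit 288) (nat_lit 1) (nat_lit 342) (nat_lit 357) (nat_lit 321))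 (XT.nd (nat_lit 78) (nat_lit 456) (nat_lit 0) (XT.lf (nat_lit 76) (nat_lit 307353991) (nat_lit 0) (nat_lit 3456623449) (nat_lit 532) (nat_lit 307353991) (nat_lit 283) (nat_lit 1) (nat_lit 282) (nat_lit 1) (nat_lit 289) (nat_lit 1) (nat_lit 343) (nat_lit 357) (nat_lit 320)) (XT.lf (nat_lit 76) (nat_lit 1971022645) (nat_lit 0) (nat_lit 79376082) (nat_lit 456) (nat_lit 1971022645) (nat_lit 277) (nat_lit 1) (nat_lit 276) (nat_lit 1) (nat_lit 282) (nat_lit 1) (nat_lit 344) (nat_lit 357) (nat_lit 319)))) (XT.nd (nat_lit 78) (nat_lit 380) (nat_lit 0) (XT.lf (nat_lit 532) (nat_lit 3224447770) (nat_lit 0) (nat_lit 374074309) (nat_lit 456) (nat_lit 374074309) (nat_lit 277) (nat_lit 1) (nat_lit 270) (nat_lit 1) (nat_lit 276) (nat_lit 1) (nat_lit 345) (nat_lit 357) (nat_lit 318)) (XT.nd (nat_lit 78) (nat_lit 380) (nat_lit 0) (XT.lf (nat_lit 76) (nat_lit 1247912961) (nat_lit 0) (nat_lit 1428437710) (nat_lit 532)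 (nat_lit 1247912961) (nat_lit 271) (nat_lit 1) (nat_lit 270) (nat_lit 1) (nat_lit 277) (nat_lit 1) (nat_lit 346) (nat_lit 357) (nat_lit 317)) (XT.lf (nat_lit 456) (nat_lit 1774421779) (nat_lit 0) (nat_lit 1051254477) (nat_lit 380) (nat_lit 1051254477) (nat_lit 271) (nat_lit 1) (nat_lit 265) (nat_lit 1) (nat_lit 270) (nat_lit 1) (nat_lit 347) (nat_lit 357) (nat_lit 316)))))) (XT.nd (nat_lit 390) (nat_lit 1064) (nat_lit 0) (XT.nd (nat_lit 156) (nat_lit 836) (nat_lit 0) (XT.nd (nat_lit 78) (nat_lit 380) (nat_lit 0) (XT.lf (nat_lit 76) (nat_lit 528230437) (nat_lit 0) (nat_lit 2774003884) (nat_lit 456) (nat_lit 528230437) (nat_lit 266) (nat_lit 1) (nat_lit 265) (nat_lit 1) (nat_lit 271) (nat_lit 1) (nat_lit 348) (nat_lit 357) (nat_lit 315)) (XT.lf (nat_lit 456) (nat_lit 332215336) (nat_lit 0) (nat_lit 1726172352) (nat_lit 380) (nat_lit 1726172352) (nat_lit 266) (nat_lit 1) (nat_lit 260) (nat_lit 1) (nat_lit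 265) (nat_lit 1) (nat_lit 349) (nat_lit 357) (nat_lit 314))) (XT.nd (nat_lit 78) (nat_lit 380) (nat_lit 0) (XT.lf (nat_lit 456) (nat_lit 3369123564) (nat_lit 0) (nat_lit 185278030) (nat_lit 380) (nat_lit 185278030) (nat_lit 260) (nat_lit 1) (nat_lit 254) (nat_lit 1) (nat_lit 259) (nat_lit 1) (nat_lit 350) (nat_lit 357) (nat_lit 313)) (XT.nd (nat_lit 78) (nat_lit 380) (nat_lit 0) (XT.lf (nat_lit 76) (nat_lit 1308045622) (nat_lit 0) (nat_lit 1078950563) (nat_lit 456) (nat_lit 1308045622) (nat_lit 255) (nat_lit 1) (nat_lit 254) (nat_lit 1) (nat_lit 260) (nat_lit 1) (nat_lit 351) (nat_lit 357) (nat_lit 312)) (XT.lf (nat_lit 456) (nat_lit 1874413958) (nat_lit 0) (nat_lit 888491034) (nat_lit 380) (nat_lit 888491034) (nat_lit 255) (nat_lit 1) (nat_lit 249) (nat_lit 1) (nat_lit 254) (nat_lit 1) (nat_lit 352) (nat_lit 357) (nat_lit 311))))) (XT.nd (nat_lit 234) (nat_lit 304) (nat_lit 0) (XT.nd (nat_lit 78) (nat_lit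 760) (nat_lit 0) (XT.lf (nat_lit 76) (nat_lit 567890184) (nat_lit 0) (nat_lit 2472700572) (nat_lit 456) (nat_lit 567890184) (nat_lit 250) (nat_lit 1) (nat_lit 249) (nat_lit 1) (nat_lit 255) (nat_lit 1) (nat_lit 353) (nat_lit 357) (nat_lit 310)) (XT.nd (nat_lit 78) (nat_lit 456) (nat_lit 0) (XT.lf (nat_lit 380) (nat_lit 394418217) (nat_lit 0) (nat_lit 1585845755) (nat_lit 304) (nat_lit 1585845755) (nat_lit 250) (nat_lit 1) (nat_lit 245) (nat_lit 1) (nat_lit 249) (nat_lit 1) (nat_lit 354) (nat_lit 357) (nat_lit 309)) (XT.lf (nat_lit 456) (nat_lit 3198640034) (nat_lit 0) (nat_lit 163013996) (nat_lit 380) (nat_lit 163013996) (nat_lit 245) (nat_lit 1) (nat_lit 239) (nat_lit 1) (nat_lit 244) (nat_lit 1) (nat_lit 355) (nat_lit 357) (nat_lit 308)))) (XT.nd (nat_lit 78) (nat_lit 304) (nat_lit 0) (XT.lf (nat_lit 76) (nat_lit 1217317624) (nat_lit 0) (nat_lit 1048765267) (nat_lit 456) (nat_lit 1217317624) (nat_lit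 240) (nat_lit 1) (nat_lit 239) (nat_lit 1) (nat_lit 245) (nat_lit 1) (nat_lit 356) (nat_lit 357) (nat_lit 307)) (XT.nd (nat_lit 78) (nat_lit 0) (nat_lit 0) (XT.lf (nat_lit 380) (nat_lit 1682601019) (nat_lit 0) (nat_lit 880217239) (nat_lit 304) (nat_lit 880217239) (nat_lit 240) (nat_lit 1) (nat_lit 235) (nat_lit 1) (nat_lit 239) (nat_lit 1) (nat_lit 357) (nat_lit 357) (nat_lit 306)) (XT.lf (nat_lit 76) (nat_lit 467905641) (nat_lit 0) (nat_lit 2467549651) (nat_lit 380) (nat_lit 467905641) (nat_lit 236) (nat_lit 1) (nat_lit 235) (nat_lit 1) (nat_lit 240) (nat_lit 1) (nat_lit 358) (nat_lit 357) (nat_lit 305))))))) (XT.nd (nat_lit 858) (nat_lit 1748) (nat_lit 0) (XT.nd (nat_lit 390) (nat_lit 1216) (nat_lit 0) (XT.nd (nat_lit 156) (nat_lit 304) (nat_lit 0) (XT.nd (nat_lit 78) (nat_lit 380) (nat_lit 0) (XT.lf (nat_lit 380) (nat_lit 186581039) (nat_lit 0) (nat_lit 1588778143) (nat_lit 304) (nat_lit 1588778143)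 (nat_lit 236) (nat_lit 1) (nat_lit 231) (nat_lit 1) (nat_lit 235) (nat_lit 1) (nat_lit 359) (nat_lit 357) (nat_lit 304)) (XT.lf (nat_lit 380) (nat_lit 2788333815) (nat_lit 0) (nat_lit 268676981) (nat_lit 304) (nat_lit 268676981) (nat_lit 231) (nat_lit 1) (nat_lit 226) (nat_lit 1) (nat_lit 230) (nat_lit 1) (nat_lit 360) (nat_lit 357) (nat_lit 303))) (XT.nd (nat_lit 78) (nat_lit 304) (nat_lit 0) (XT.lf (nat_lit 76) (nat_lit 1012014979) (nat_lit 0) (nat_lit 1263471828) (nat_lit 380) (nat_lit 1012014979) (nat_lit 227) (nat_lit 1) (nat_lit 226) (nat_lit 1) (nat_lit 231) (nat_lit 1) (nat_lit 361) (nat_lit 357) (nat_lit 302)) (XT.nd (nat_lit 78) (nat_lit 0) (nat_lit 0) (XT.lf (nat_lit 380) (nat_lit 1269600399) (nat_lit 0) (nat_lit 990233410) (nat_lit 304) (nat_lit 990233410) (nat_lit 227) (nat_lit 1) (nat_lit 222) (nat_lit 1) (nat_lit 226) (nat_lit 1) (nat_lit 362) (nat_lit 357) (nat_lit 301)) (XT.lf (nat_lit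 76) (nat_lit 262287108) (nat_lit 0) (nat_lit 2688782642) (nat_lit 380) (nat_lit 262287108) (nat_lit 223) (nat_lit 1) (nat_lit 222) (nat_lit 1) (nat_lit 227) (nat_lit 1) (nat_lit 363) (nat_lit 357) (nat_lit 300))))) (XT.nd (nat_lit 234) (nat_lit 608) (nat_lit 0) (XT.nd (nat_lit 78) (nat_lit 304) (nat_lit 0) (XT.lf (nat_lit 76) (nat_lit 1478081499) (nat_lit 0) (nat_lit 220720027) (nat_lit 304) (nat_lit 1478081499) (nat_lit 219) (nat_lit 1) (nat_lit 218) (nat_lit 1) (nat_lit 222) (nat_lit 1) (nat_lit 364) (nat_lit 357) (nat_lit 299)) (XT.nd (nat_lit 78) (nat_lit 0) (nat_lit 0) (XT.lf (nat_lit 380) (nat_lit 2199698814) (nat_lit 0) (nat_lit 470707237) (nat_lit 304) (nat_lit 470707237) (nat_lit 219) (nat_lit 1) (nat_lit 214) (nat_lit 1) (nat_lit 218) (nat_lit 1) (nat_lit 365) (nat_lit 357) (nat_lit 298)) (XT.lf (nat_lit 76) (nat_lit 721744185) (nat_lit 0) (nat_lit 1662262674) (nat_lit 380) (nat_lit 721744185)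 (nat_lit 215) (nat_lit 1) (nat_lit 214) (nat_lit 1) (nat_lit 219) (nat_lit 1) (nat_lit 366) (nat_lit 357) (nat_lit 297)))) (XT.nd (nat_lit 78) (nat_lit 380) (nat_lit 0) (XT.lf (nat_lit 304) (nat_lit 693006781) (nat_lit 0) (nat_lit 1188968662) (nat_lit 228) (nat_lit 1188968662) (nat_lit 215) (nat_lit 1) (nat_lit 211) (nat_lit 1) (nat_lit 214) (nat_lit 1) (nat_lit 367) (nat_lit 357) (nat_lit 296)) (XT.nd (nat_lit 78) (nat_lit 0) (nat_lit 0) (XT.lf (nat_lit 380) (nat_lit 2994865365) (nat_lit 0) (nat_lit 21030563) (nat_lit 304) (nat_lit 21030563) (nat_lit 211) (nat_lit 1) (nat_lit 206) (nat_lit 1) (nat_lit 210) (nat_lit 1) (nat_lit 368) (nat_lit 357) (nat_lit 295)) (XT.lf (nat_lit 76) (nat_lit 1115731707) (nat_lit 0) (nat_lit 771378586) (nat_lit 380) (nat_lit 1115731707) (nat_lit 207) (nat_lit 1) (nat_lit 206) (nat_lit 1) (nat_lit 211) (nat_lit 1) (nat_lit 369) (nat_lit 357) (nat_lit 294)))))) (XT.nd (nat_lit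 390) (nat_lit 988) (nat_lit 0) (XT.nd (nat_lit 156) (nat_lit 532) (nat_lit 0) (XT.nd (nat_lit 78) (nat_lit 0) (nat_lit 0) (XT.lf (nat_lit 304) (nat_lit 1482733936) (nat_lit 0) (nat_lit 743398028) (nat_lit 228) (nat_lit 743398028) (nat_lit 207) (nat_lit 1) (nat_lit 203) (nat_lit 1) (nat_lit 206) (nat_lit 1) (nat_lit 370) (nat_lit 357) (nat_lit 293)) (XT.lf (nat_lit 76) (nat_lit 370565789) (nat_lit 0) (nat_lit 2195629070) (nat_lit 304) (nat_lit 370565789) (nat_lit 204) (nat_lit 1) (nat_lit 203) (nat_lit 1) (nat_lit 207) (nat_lit 1) (nat_lit 371) (nat_lit 357) (nat_lit 292))) (XT.nd (nat_lit 78) (nat_lit 228) (nat_lit 0) (XT.lf (nat_lit 76) (nat_lit 1451964963) (nat_lit 0) (nat_lit 388747) (nat_lit 304) (nat_lit 1451964963) (nat_lit 200) (nat_lit 1) (nat_lit 199) (nat_lit 1) (nat_lit 203) (nat_lit 1) (nat_lit 372) (nat_lit 357) (nat_lit 291)) (XT.nd (nat_lit 78) (nat_lit 0) (nat_lit 0) (XT.lf (nat_lit 304)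 (nat_lit 2159143672) (nat_lit 0) (nat_lit 356630364) (nat_lit 228) (nat_lit 356630364) (nat_lit 200) (nat_lit 1) (nat_lit 196) (nat_lit 1) (nat_lit 199) (nat_lit 1) (nat_lit 373) (nat_lit 357) (nat_lit 290)) (XT.lf (nat_lit 76) (nat_lit 707336280) (nat_lit 0) (nat_lit 1426124460) (nat_lit 304) (nat_lit 707336280) (nat_lit 197) (nat_lit 1) (nat_lit 196) (nat_lit 1) (nat_lit 200) (nat_lit 1) (nat_lit 374) (nat_lit 357) (nat_lit 289))))) (XT.nd (nat_lit 234) (nat_lit 456) (nat_lit 0) (XT.nd (nat_lit 78) (nat_lit 304) (nat_lit 0) (XT.lf (nat_lit 304) (nat_lit 677903461) (nat_lit 0) (nat_lit 1065899775) (nat_lit 228) (nat_lit 1065899775) (nat_lit 197) (nat_lit 1) (nat_lit 193) (nat_lit 1) (nat_lit 196) (nat_lit 1) (nat_lit 375) (nat_lit 357) (nat_lit 288)) (XT.nd (nat_lit 78) (nat_lit 0) (nat_lit 0) (XT.lf (nat_lit 304) (nat_lit 2735607861) (nat_lit 0) (nat_lit 21842863) (nat_lit 228) (nat_lit 21842863) (nat_lit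 193) (nat_lit 1) (nat_lit 189) (nat_lit 1) (nat_lit 192) (nat_lit 1) (nat_lit 376) (nat_lit 357) (nat_lit 287)) (XT.lf (nat_lit 76) (nat_lit 995540071) (nat_lit 0) (nat_lit 757711044) (nat_lit 304) (nat_lit 995540071) (nat_lit 190) (nat_lit 1) (nat_lit 189) (nat_lit 1) (nat_lit 193) (nat_lit 1) (nat_lit 377) (nat_lit 357) (nat_lit 286)))) (XT.nd (nat_lit 78) (nat_lit 228) (nat_lit 0) (XT.lf (nat_lit 304) (nat_lit 1260809156) (nat_lit 0) (nat_lit 729075841) (nat_lit 228) (nat_lit 729075841) (nat_lit 190) (nat_lit 1) (nat_lit 186) (nat_lit 1) (nat_lit 189) (nat_lit 1) (nat_lit 378) (nat_lit 357) (nat_lit 285)) (XT.nd (nat_lit 78) (nat_lit 228) (nat_lit 0) (XT.lf (nat_lit 76) (nat_lit 269662470) (nat_lit 0) (nat_lit 2150310805) (nat_lit 304) (nat_lit 269662470) (nat_lit 187) (nat_lit 1) (nat_lit 186) (nat_lit 1) (nat_lit 190) (nat_lit 1) (nat_lit 379) (nat_lit 357) (nat_lit 284)) (XT.lf (nat_lit 76) (nat_lit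 1240913728) (nat_lit 0) (nat_lit 178670751) (nat_lit 228) (nat_lit 1240913728) (nat_lit 184) (nat_lit 1) (nat_lit 183) (nat_lit 1) (nat_lit 186) (nat_lit 1) (nat_lit 380) (nat_lit 357) (nat_lit 283))))))))
noncomputable def ec43 : XT := (XT.nd (nat_lit 48282) (nat_lit 0) (nat_lit 8360) (XT.nd (nat_lit 47424) (nat_lit 0) (nat_lit 14516) (XT.nd (nat_lit 390) (nat_lit 152) (nat_lit 0) (XT.nd (nat_lit 156) (nat_lit 456) (nat_lit 0) (XT.nd (nat_lit 78) (nat_lit 0) (nat_lit 0) (XT.lf (nat_lit 304) (nat_lit 1759533684) (nat_lit 0) (nat_lit 436160554) (nat_lit 228) (nat_lit 436160554) (nat_lit 184) (nat_lit 1) (nat_lit 180) (nat_lit 1) (nat_lit 183) (nat_lit 1) (nat_lit 381) (nat_lit 357) (nat_lit 282)) (XT.lf (nat_lit 76) (nat_lit 520428234) (nat_lit 0) (nat_lit 1562681770) (nat_lit 304) (nat_lit 520428234) (nat_lit 181) (nat_lit 1) (nat_lit 180) (nat_lit 1) (nat_lit 184) (nat_lit 1) (nat_lit 382) (nat_lit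 357) (nat_lit 281))) (XT.nd (nat_lit 78) (nat_lit 304) (nat_lit 0) (XT.lf (nat_lit 228) (nat_lit 327791191) (nat_lit 0) (nat_lit 1123904512) (nat_lit 152) (nat_lit 1123904512) (nat_lit 181) (nat_lit 1) (nat_lit 178) (nat_lit 1) (nat_lit 180) (nat_lit 1) (nat_lit 383) (nat_lit 357) (nat_lit 280)) (XT.nd (nat_lit 78) (nat_lit 0) (nat_lit 0) (XT.lf (nat_lit 304) (nat_lit 2184022965) (nat_lit 0) (nat_lit 182072627) (nat_lit 228) (nat_lit 182072627) (nat_lit 178) (nat_lit 1) (nat_lit 174) (nat_lit 1) (nat_lit 177) (nat_lit 1) (nat_lit 384) (nat_lit 357) (nat_lit 279)) (XT.lf (nat_lit 76) (nat_lit 735050661) (nat_lit 0) (nat_lit 1050712291) (nat_lit 304) (nat_lit 735050661) (nat_lit 175) (nat_lit 1) (nat_lit 174) (nat_lit 1) (nat_lit 178) (nat_lit 1) (nat_lit 385) (nat_lit 357) (nat_lit 278))))) (XT.nd (nat_lit 46800) (nat_lit 0) (nat_lit 15352) (XT.nd (nat_lit 78) (nat_lit 0) (nat_lit 0) (XT.lf (nat_lit 228)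 (nat_lit 766672412) (nat_lit 0) (nat_lit 863641649) (nat_lit 152) (nat_lit 863641649) (nat_lit 175) (nat_lit 1) (nat_lit 172) (nat_lit 1) (nat_lit 174) (nat_lit 1) (nat_lit 386) (nat_lit 357) (nat_lit 277)) (XT.nd (nat_lit 46644) (nat_lit 0) (nat_lit 15352) (XT.lf (nat_lit 76) (nat_lit 38070453) (nat_lit 0) (nat_lit 2391518079) (nat_lit 228) (nat_lit 38070453) (nat_lit 173) (nat_lit 1) (nat_lit 172) (nat_lit 1) (nat_lit 175) (nat_lit 1) (nat_lit 387) (nat_lit 357) (nat_lit 276)) (XT.lf (nat_lit 1292) (nat_lit 634942974) (nat_lit 0) (nat_lit 2184499123) (nat_lit 1292) (nat_lit 634942974) (nat_lit 391) (nat_lit 1) (nat_lit 374) (nat_lit 0) (nat_lit 391) (nat_lit 0) (nat_lit 304) (nat_lit 358) (nat_lit 358)))) (XT.nd (nat_lit 78) (nat_lit 0) (nat_lit 76) (XT.lf (nat_lit 1292) (nat_lit 2481368269) (nat_lit 76) (nat_lit 2163082465) (nat_lit 0) (nat_lit 2163082465) (nat_lit 391) (nat_lit 1) (nat_lit 375) (nat_lit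 1) (nat_lit 374) (nat_lit 0) (nat_lit 305) (nat_lit 358) (nat_lit 357)) (XT.nd (nat_lit 78) (nat_lit 0) (nat_lit 0) (XT.lf (nat_lit 1292) (nat_lit 1200048858) (nat_lit 0) (nat_lit 4308431617) (nat_lit 1216) (nat_lit 1200048858) (nat_lit 392) (nat_lit 1) (nat_lit 375) (nat_lit 1) (nat_lit 391) (nat_lit 1) (nat_lit 306) (nat_lit 358) (nat_lit 356)) (XT.lf (nat_lit 1292) (nat_lit 2278954740) (nat_lit 76) (nat_lit 2166112028) (nat_lit 0) (nat_lit 2166112028) (nat_lit 392) (nat_lit 1) (nat_lit 376) (nat_lit 1) (nat_lit 375) (nat_lit 1) (nat_lit 307) (nat_lit 358) (nat_lit 355)))))) (XT.nd (nat_lit 390) (nat_lit 988) (nat_lit 0) (XT.nd (nat_lit 156) (nat_lit 0) (nat_lit 76) (XT.nd (nat_lit 78) (nat_lit 0) (nat_lit 0) (XT.lf (nat_lit 1292) (nat_lit 1069388146) (nat_lit 0) (nat_lit 4377230218) (nat_lit 1216) (nat_lit 1069388146) (nat_lit 393) (nat_lit 1) (nat_lit 376) (nat_lit 1) (nat_lit 392) (nat_lit 1) (nat_lit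 308) (nat_lit 358) (nat_lit 354)) (XT.lf (nat_lit 1292) (nat_lit 1959766690) (nat_lit 76) (nat_lit 2231294809) (nat_lit 0) (nat_lit 2231294809) (nat_lit 393) (nat_lit 1) (nat_lit 377) (nat_lit 1) (nat_lit 376) (nat_lit 1) (nat_lit 309) (nat_lit 358) (nat_lit 353))) (XT.nd (nat_lit 78) (nat_lit 0) (nat_lit 0) (XT.lf (nat_lit 1292) (nat_lit 883283664) (nat_lit 0) (nat_lit 4564301301) (nat_lit 1216) (nat_lit 883283664) (nat_lit 394) (nat_lit 1) (nat_lit 377) (nat_lit 1) (nat_lit 393) (nat_lit 1) (nat_lit 310) (nat_lit 358) (nat_lit 352)) (XT.nd (nat_lit 78) (nat_lit 0) (nat_lit 76) (XT.lf (nat_lit 1292) (nat_lit 1534247082) (nat_lit 76) (nat_lit 2353247608) (nat_lit 0) (nat_lit 2353247608) (nat_lit 394) (nat_lit 1) (nat_lit 378) (nat_lit 1) (nat_lit 377) (nat_lit 1) (nat_lit 311) (nat_lit 358) (nat_lit 351)) (XT.lf (nat_lit 1292) (nat_lit 646751439) (nat_lit 0) (nat_lit 4859295685) (nat_lit 1216) (nat_lit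 646751439) (nat_lit 395) (nat_lit 1) (nat_lit 378) (nat_lit 1) (nat_lit 394) (nat_lit 1) (nat_lit 312) (nat_lit 358) (nat_lit 350))))) (XT.nd (nat_lit 234) (nat_lit 1140) (nat_lit 0) (XT.nd (nat_lit 78) (nat_lit 0) (nat_lit 76) (XT.lf (nat_lit 1292) (nat_lit 1012130489) (nat_lit 76) (nat_lit 2526949114) (nat_lit 0) (nat_lit 2526949114) (nat_lit 395) (nat_lit 1) (nat_lit 379) (nat_lit 1) (nat_lit 378) (nat_lit 1) (nat_lit 313) (nat_lit 358) (nat_lit 349)) (XT.nd (nat_lit 78) (nat_lit 0) (nat_lit 0) (XT.lf (nat_lit 1292) (nat_lit 364466159) (nat_lit 0) (nat_lit 5252561956) (nat_lit 1216) (nat_lit 364466159) (nat_lit 396) (nat_lit 1) (nat_lit 379) (nat_lit 1) (nat_lit 395) (nat_lit 1) (nat_lit 314) (nat_lit 358) (nat_lit 348)) (XT.lf (nat_lit 1292) (nat_lit 402486931) (nat_lit 76) (nat_lit 2747717596) (nat_lit 0) (nat_lit 2747717596) (nat_lit 396) (nat_lit 1) (nat_lit 380) (nat_lit 1) (nat_lit 379) (nat_lit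 1) (nat_lit 315) (nat_lit 358) (nat_lit 347)))) (XT.nd (nat_lit 78) (nat_lit 1292) (nat_lit 0) (XT.lf (nat_lit 1292) (nat_lit 40782322) (nat_lit 0) (nat_lit 5735103400) (nat_lit 1216) (nat_lit 40782322) (nat_lit 397) (nat_lit 1) (nat_lit 380) (nat_lit 1) (nat_lit 396) (nat_lit 1) (nat_lit 316) (nat_lit 358) (nat_lit 346)) (XT.nd (nat_lit 78) (nat_lit 0) (nat_lit 0) (XT.lf (nat_lit 1368) (nat_lit 2727704498) (nat_lit 0) (nat_lit 280651383) (nat_lit 1292) (nat_lit 2727704498) (nat_lit 381) (nat_lit 1) (nat_lit 363) (nat_lit 1) (nat_lit 380) (nat_lit 1) (nat_lit 317) (nat_lit 358) (nat_lit 345)) (XT.lf (nat_lit 1368) (nat_lit 5023462055) (nat_lit 76) (nat_lit 317106205) (nat_lit 0) (nat_lit 317106205) (nat_lit 381) (nat_lit 1) (nat_lit 364) (nat_lit 1) (nat_lit 363) (nat_lit 1) (nat_lit 318) (nat_lit 358) (nat_lit 344))))))) (XT.nd (nat_lit 858) (nat_lit 3040) (nat_lit 0) (XT.nd (nat_lit 390) (nat_lit 2432)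 (nat_lit 0) (XT.nd (nat_lit 156) (nat_lit 760) (nat_lit 0) (XT.nd (nat_lit 78) (nat_lit 0) (nat_lit 0) (XT.lf (nat_lit 1368) (nat_lit 2277179423) (nat_lit 0) (nat_lit 1025764134) (nat_lit 1292) (nat_lit 2277179423) (nat_lit 382) (nat_lit 1) (nat_lit 364) (nat_lit 1) (nat_lit 381) (nat_lit 1) (nat_lit 319) (nat_lit 358) (nat_lit 343)) (XT.lf (nat_lit 1368) (nat_lit 4088862325) (nat_lit 76) (nat_lit 707837521) (nat_lit 0) (nat_lit 707837521) (nat_lit 382) (nat_lit 1) (nat_lit 365) (nat_lit 1) (nat_lit 364) (nat_lit 1) (nat_lit 320) (nat_lit 358) (nat_lit 342))) (XT.nd (nat_lit 78) (nat_lit 836) (nat_lit 0) (XT.lf (nat_lit 76) (nat_lit 1798220085) (nat_lit 0) (nat_lit 1833533967) (nat_lit 1292) (nat_lit 1798220085) (nat_lit 366) (nat_lit 1) (nat_lit 365) (nat_lit 1) (nat_lit 382) (nat_lit 1) (nat_lit 321) (nat_lit 358) (nat_lit 341)) (XT.nd (nat_lit 78) (nat_lit 0) (nat_lit 0) (XT.lf (nat_lit 912) (nat_lit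 3100384585) (nat_lit 0) (nat_lit 1128337250) (nat_lit 836) (nat_lit 1128337250) (nat_lit 366) (nat_lit 1) (nat_lit 354) (nat_lit 1) (nat_lit 365) (nat_lit 1) (nat_lit 322) (nat_lit 358) (nat_lit 340)) (XT.lf (nat_lit 76) (nat_lit 1294040172) (nat_lit 0) (nat_lit 2697293344) (nat_lit 912) (nat_lit 1294040172) (nat_lit 355) (nat_lit 1) (nat_lit 354) (nat_lit 1) (nat_lit 366) (nat_lit 1) (nat_lit 323) (nat_lit 358) (nat_lit 339))))) (XT.nd (nat_lit 234) (nat_lit 1216) (nat_lit 0) (XT.nd (nat_lit 78) (nat_lit 608) (nat_lit 0) (XT.lf (nat_lit 684) (nat_lit 2064253533) (nat_lit 0) (nat_lit 1575376233) (nat_lit 608) (nat_lit 1575376233) (nat_lit 355) (nat_lit 1) (nat_lit 346) (nat_lit 1) (nat_lit 354) (nat_lit 1) (nat_lit 324) (nat_lit 358) (nat_lit 338)) (XT.nd (nat_lit 78) (nat_lit 608) (nat_lit 0) (XT.lf (nat_lit 76) (nat_lit 767622830) (nat_lit 0) (nat_lit 3610846911) (nat_lit 684) (nat_lit 767622830) (nat_lit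 347) (nat_lit 1) (nat_lit 346) (nat_lit 1) (nat_lit 355) (nat_lit 1) (nat_lit 325) (nat_lit 358) (nat_lit 337)) (XT.lf (nat_lit 684) (nat_lit 986245323) (nat_lit 0) (nat_lit 2045954962) (nat_lit 608) (nat_lit 2045954962) (nat_lit 347) (nat_lit 1) (nat_lit 338) (nat_lit 1) (nat_lit 346) (nat_lit 1) (nat_lit 326) (nat_lit 358) (nat_lit 336)))) (XT.nd (nat_lit 78) (nat_lit 1216) (nat_lit 0) (XT.lf (nat_lit 76) (nat_lit 221735241) (nat_lit 0) (nat_lit 4568441786) (nat_lit 684) (nat_lit 221735241) (nat_lit 339) (nat_lit 1) (nat_lit 338) (nat_lit 1) (nat_lit 347) (nat_lit 1) (nat_lit 327) (nat_lit 358) (nat_lit 335)) (XT.nd (nat_lit 78) (nat_lit 608) (nat_lit 0) (XT.lf (nat_lit 76) (nat_lit 2410238218) (nat_lit 0) (nat_lit 125780743) (nat_lit 608) (nat_lit 2410238218) (nat_lit 331) (nat_lit 1) (nat_lit 330) (nat_lit 1) (nat_lit 338) (nat_lit 1) (nat_lit 328) (nat_lit 358) (nat_lit 334)) (XT.lf (nat_lit 684)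 (nat_lit 4206800931) (nat_lit 0) (nat_lit 337713974) (nat_lit 608) (nat_lit 337713974) (nat_lit 331) (nat_lit 1) (nat_lit 322) (nat_lit 1) (nat_lit 330) (nat_lit 1) (nat_lit 329) (nat_lit 358) (nat_lit 333)))))) (XT.nd (nat_lit 468) (nat_lit 1520) (nat_lit 0) (XT.nd (nat_lit 234) (nat_lit 988) (nat_lit 0) (XT.nd (nat_lit 78) (nat_lit 532) (nat_lit 0) (XT.lf (nat_lit 76) (nat_lit 1784673987) (nat_lit 0) (nat_lit 1249504355) (nat_lit 684) (nat_lit 1784673987) (nat_lit 323) (nat_lit 1) (nat_lit 322) (nat_lit 1) (nat_lit 331) (nat_lit 1) (nat_lit 330) (nat_lit 358) (nat_lit 332)) (XT.nd (nat_lit 78) (nat_lit 0) (nat_lit 0) (XT.lf (nat_lit 608) (nat_lit 2938211567) (nat_lit 0) (nat_lit 909376668) (nat_lit 532) (nat_lit 909376668) (nat_lit 323) (nat_lit 1) (nat_lit 315) (nat_lit 1) (nat_lit 322) (nat_lit 1) (nat_lit 331) (nat_lit 358) (nat_lit 331)) (XT.lf (nat_lit 76) (nat_lit 1148183284) (nat_lit 0) (nat_lit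 2399666136) (nat_lit 608) (nat_lit 1148183284) (nat_lit 316) (nat_lit 1) (nat_lit 315) (nat_lit 1) (nat_lit 323) (nat_lit 1) (nat_lit 332) (nat_lit 358) (nat_lit 330)))) (XT.nd (nat_lit 78) (nat_lit 456) (nat_lit 0) (XT.lf (nat_lit 608) (nat_lit 1649689947) (nat_lit 0) (nat_lit 1493250028) (nat_lit 532) (nat_lit 1493250028) (nat_lit 316) (nat_lit 1) (nat_lit 308) (nat_lit 1) (nat_lit 315) (nat_lit 1) (nat_lit 333) (nat_lit 358) (nat_lit 329)) (XT.nd (nat_lit 78) (nat_lit 456) (nat_lit 0) (XT.lf (nat_lit 76) (nat_lit 502757501) (nat_lit 0) (nat_lit 3572099557) (nat_lit 608) (nat_lit 502757501) (nat_lit 309) (nat_lit 1) (nat_lit 308) (nat_lit 1) (nat_lit 316) (nat_lit 1) (nat_lit 334) (nat_lit 358) (nat_lit 328)) (XT.lf (nat_lit 532) (nat_lit 345081852) (nat_lit 0) (nat_lit 2087321663) (nat_lit 456) (nat_lit 2087321663) (nat_lit 309) (nat_lit 1) (nat_lit 302) (nat_lit 1) (nat_lit 308) (nat_lit 1) (nat_lit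 335) (nat_lit 358) (nat_lit 327))))) (XT.nd (nat_lit 234) (nat_lit 456) (nat_lit 0) (XT.nd (nat_lit 78) (nat_lit 456) (nat_lit 0) (XT.lf (nat_lit 608) (nat_lit 4166653309) (nat_lit 0) (nat_lit 148297722) (nat_lit 532) (nat_lit 148297722) (nat_lit 302) (nat_lit 1) (nat_lit 294) (nat_lit 1) (nat_lit 301) (nat_lit 1) (nat_lit 336) (nat_lit 358) (nat_lit 326)) (XT.nd (nat_lit 78) (nat_lit 456) (nat_lit 0) (XT.lf (nat_lit 76) (nat_lit 1727010606) (nat_lit 0) (nat_lit 953097873) (nat_lit 608) (nat_lit 1727010606) (nat_lit 295) (nat_lit 1) (nat_lit 294) (nat_lit 1) (nat_lit 302) (nat_lit 1) (nat_lit 337) (nat_lit 358) (nat_lit 325)) (XT.lf (nat_lit 532) (nat_lit 2752801292) (nat_lit 0) (nat_lit 799775404) (nat_lit 456) (nat_lit 799775404) (nat_lit 295) (nat_lit 1) (nat_lit 288) (nat_lit 1) (nat_lit 294) (nat_lit 1) (nat_lit 338) (nat_lit 358) (nat_lit 324)))) (XT.nd (nat_lit 78) (nat_lit 456) (nat_lit 0) (XT.lf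 (nat_lit 76) (nat_lit 1022374898) (nat_lit 0) (nat_lit 2253636630) (nat_lit 532) (nat_lit 1022374898) (nat_lit 289) (nat_lit 1) (nat_lit 288) (nat_lit 1) (nat_lit 295) (nat_lit 1) (nat_lit 339) (nat_lit 358) (nat_lit 323)) (XT.nd (nat_lit 78) (nat_lit 0) (nat_lit 0) (XT.lf (nat_lit 532) (nat_lit 1335226681) (nat_lit 0) (nat_lit 1455061177) (nat_lit 456) (nat_lit 1455061177) (nat_lit 289) (nat_lit 1) (nat_lit 282) (nat_lit 1) (nat_lit 288) (nat_lit 1) (nat_lit 340) (nat_lit 358) (nat_lit 322)) (XT.lf (nat_lit 76) (nat_lit 316574611) (nat_lit 0) (nat_lit 3560322153) (nat_lit 532) (nat_lit 316574611) (nat_lit 283) (nat_lit 1) (nat_lit 282) (nat_lit 1) (nat_lit 289) (nat_lit 1) (nat_lit 341) (nat_lit 358) (nat_lit 321))))))))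
noncomputable def ec44 : XT := (XT.nd (nat_lit 1716) (nat_lit 3192) (nat_lit 0) (XT.nd (nat_lit 858) (nat_lit 2356) (nat_lit 0) (XT.nd (nat_lit 390) (nat_lit 1520) (nat_lit 0) (XT.nd (nat_lit 156) (nat_lit 380) (nat_lit 0) (XT.nd (nat_lit 78) (nat_lit 456) (nat_lit 0) (XT.lf (nat_lit 76) (nat_lit 2030153325) (nat_lit 0) (nat_lit 81757364) (nat_lit 456) (nat_lit 2030153325) (nat_lit 277) (nat_lit 1) (nat_lit 276) (nat_lit 1) (nat_lit 282) (nat_lit 1) (nat_lit 342) (nat_lit 358) (nat_lit 320)) (XT.lf (nat_lit 532) (nat_lit 3321181204) (nat_lit 0) (nat_lit 385296539) (nat_lit 456) (nat_lit 385296539) (nat_lit 277) (nat_lit 1) (nat_lit 270) (nat_lit 1) (nat_lit 276) (nat_lit 1) (nat_lit 343) (nat_lit 358) (nat_lit 319))) (XT.nd (nat_lit 78) (nat_lit 380) (nat_lit 0) (XT.lf (nat_lit 76) (nat_lit 1285350350) (nat_lit 0) (nat_lit 1471290841) (nat_lit 532) (nat_lit 1285350350) (nat_lit 271) (nat_lit 1) (nat_lit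 270) (nat_lit 1) (nat_lit 277) (nat_lit 1) (nat_lit 344) (nat_lit 358) (nat_lit 318)) (XT.nd (nat_lit 78) (nat_lit 0) (nat_lit 0) (XT.lf (nat_lit 456) (nat_lit 1827654433) (nat_lit 0) (nat_lit 1082792111) (nat_lit 380) (nat_lit 1082792111) (nat_lit 271) (nat_lit 1) (nat_lit 265) (nat_lit 1) (nat_lit 270) (nat_lit 1) (nat_lit 345) (nat_lit 358) (nat_lit 317)) (XT.lf (nat_lit 76) (nat_lit 544077350) (nat_lit 0) (nat_lit 2857224000) (nat_lit 456) (nat_lit 544077350) (nat_lit 266) (nat_lit 1) (nat_lit 265) (nat_lit 1) (nat_lit 271) (nat_lit 1) (nat_lit 346) (nat_lit 358) (nat_lit 316))))) (XT.nd (nat_lit 234) (nat_lit 684) (nat_lit 0) (XT.nd (nat_lit 78) (nat_lit 456) (nat_lit 0) (XT.lf (nat_lit 456) (nat_lit 342181796) (nat_lit 0) (nat_lit 1777957523) (nat_lit 380) (nat_lit 1777957523) (nat_lit 266) (nat_lit 1) (nat_lit 260) (nat_lit 1) (nat_lit 265) (nat_lit 1) (nat_lit 347) (nat_lit 358) (nat_lit 315))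 (XT.nd (nat_lit 78) (nat_lit 0) (nat_lit 0) (XT.lf (nat_lit 456) (nat_lit 3470197271) (nat_lit 0) (nat_lit 190836371) (nat_lit 380) (nat_lit 190836371) (nat_lit 260) (nat_lit 1) (nat_lit 254) (nat_lit 1) (nat_lit 259) (nat_lit 1) (nat_lit 348) (nat_lit 358) (nat_lit 314)) (XT.lf (nat_lit 76) (nat_lit 1347286991) (nat_lit 0) (nat_lit 1111319080) (nat_lit 456) (nat_lit 1347286991) (nat_lit 255) (nat_lit 1) (nat_lit 254) (nat_lit 1) (nat_lit 260) (nat_lit 1) (nat_lit 349) (nat_lit 358) (nat_lit 313)))) (XT.nd (nat_lit 78) (nat_lit 304) (nat_lit 0) (XT.lf (nat_lit 456) (nat_lit 1930646377) (nat_lit 0) (nat_lit 915145765) (nat_lit 380) (nat_lit 915145765) (nat_lit 255) (nat_lit 1) (nat_lit 249) (nat_lit 1) (nat_lit 254) (nat_lit 1) (nat_lit 350) (nat_lit 358) (nat_lit 312)) (XT.nd (nat_lit 78) (nat_lit 304) (nat_lit 0) (XT.lf (nat_lit 76) (nat_lit 584926890) (nat_lit 0) (nat_lit 2546881589) (nat_lit 456)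 (nat_lit 584926890) (nat_lit 250) (nat_lit 1) (nat_lit 249) (nat_lit 1) (nat_lit 255) (nat_lit 1) (nat_lit 351) (nat_lit 358) (nat_lit 311)) (XT.lf (nat_lit 380) (nat_lit 406250764) (nat_lit 0) (nat_lit 1633421127) (nat_lit 304) (nat_lit 1633421127) (nat_lit 250) (nat_lit 1) (nat_lit 245) (nat_lit 1) (nat_lit 249) (nat_lit 1) (nat_lit 352) (nat_lit 358) (nat_lit 310)))))) (XT.nd (nat_lit 390) (nat_lit 1292) (nat_lit 0) (XT.nd (nat_lit 156) (nat_lit 608) (nat_lit 0) (XT.nd (nat_lit 78) (nat_lit 0) (nat_lit 0) (XT.lf (nat_lit 456) (nat_lit 3294599235) (nat_lit 0) (nat_lit 167904416) (nat_lit 380) (nat_lit 167904416) (nat_lit 245) (nat_lit 1) (nat_lit 239) (nat_lit 1) (nat_lit 244) (nat_lit 1) (nat_lit 353) (nat_lit 358) (nat_lit 309)) (XT.lf (nat_lit 76) (nat_lit 1253837153) (nat_lit 0) (nat_lit 1080228225) (nat_lit 456) (nat_lit 1253837153) (nat_lit 240) (nat_lit 1) (nat_lit 239) (nat_lit 1) (nat_lit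 245) (nat_lit 1) (nat_lit 354) (nat_lit 358) (nat_lit 308))) (XT.nd (nat_lit 78) (nat_lit 304) (nat_lit 0) (XT.lf (nat_lit 380) (nat_lit 1733079050) (nat_lit 0) (nat_lit 906623756) (nat_lit 304) (nat_lit 906623756) (nat_lit 240) (nat_lit 1) (nat_lit 235) (nat_lit 1) (nat_lit 239) (nat_lit 1) (nat_lit 355) (nat_lit 358) (nat_lit 307)) (XT.nd (nat_lit 78) (nat_lit 304) (nat_lit 0) (XT.lf (nat_lit 76) (nat_lit 481942810) (nat_lit 0) (nat_lit 2541576140) (nat_lit 380) (nat_lit 481942810) (nat_lit 236) (nat_lit 1) (nat_lit 235) (nat_lit 1) (nat_lit 240) (nat_lit 1) (nat_lit 356) (nat_lit 358) (nat_lit 306)) (XT.lf (nat_lit 380) (nat_lit 192178471) (nat_lit 0) (nat_lit 1636441488) (nat_lit 304) (nat_lit 1636441488) (nat_lit 236) (nat_lit 1) (nat_lit 231) (nat_lit 1) (nat_lit 235) (nat_lit 1) (nat_lit 357) (nat_lit 358) (nat_lit 305))))) (XT.nd (nat_lit 234) (nat_lit 608) (nat_lit 0) (XT.nd (nat_lit 78) (nat_lit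 304) (nat_lit 0) (XT.lf (nat_lit 380) (nat_lit 2871983830) (nat_lit 0) (nat_lit 276737291) (nat_lit 304) (nat_lit 276737291) (nat_lit 231) (nat_lit 1) (nat_lit 226) (nat_lit 1) (nat_lit 230) (nat_lit 1) (nat_lit 358) (nat_lit 358) (nat_lit 304)) (XT.nd (nat_lit 78) (nat_lit 304) (nat_lit 0) (XT.lf (nat_lit 76) (nat_lit 1042375428) (nat_lit 0) (nat_lit 1301375983) (nat_lit 380) (nat_lit 1042375428) (nat_lit 227) (nat_lit 1) (nat_lit 226) (nat_lit 1) (nat_lit 231) (nat_lit 1) (nat_lit 359) (nat_lit 358) (nat_lit 303)) (XT.lf (nat_lit 380) (nat_lit 1307688411) (nat_lit 0) (nat_lit 1019940413) (nat_lit 304) (nat_lit 1019940413) (nat_lit 227) (nat_lit 1) (nat_lit 222) (nat_lit 1) (nat_lit 226) (nat_lit 1) (nat_lit 360) (nat_lit 358) (nat_lit 302)))) (XT.nd (nat_lit 78) (nat_lit 608) (nat_lit 0) (XT.lf (nat_lit 76) (nat_lit 270155721) (nat_lit 0) (nat_lit 2769446121) (nat_lit 380) (nat_lit 270155721) (nat_lit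 223) (nat_lit 1) (nat_lit 222) (nat_lit 1) (nat_lit 227) (nat_lit 1) (nat_lit 361) (nat_lit 358) (nat_lit 301)) (XT.nd (nat_lit 78) (nat_lit 304) (nat_lit 0) (XT.lf (nat_lit 76) (nat_lit 1522423944) (nat_lit 0) (nat_lit 227341628) (nat_lit 304) (nat_lit 1522423944) (nat_lit 219) (nat_lit 1) (nat_lit 218) (nat_lit 1) (nat_lit 222) (nat_lit 1) (nat_lit 362) (nat_lit 358) (nat_lit 300)) (XT.lf (nat_lit 380) (nat_lit 2265689779) (nat_lit 0) (nat_lit 484828455) (nat_lit 304) (nat_lit 484828455) (nat_lit 219) (nat_lit 1) (nat_lit 214) (nat_lit 1) (nat_lit 218) (nat_lit 1) (nat_lit 363) (nat_lit 358) (nat_lit 299))))))) (XT.nd (nat_lit 858) (nat_lit 1292) (nat_lit 0) (XT.nd (nat_lit 390) (nat_lit 1064) (nat_lit 0) (XT.nd (nat_lit 156) (nat_lit 608) (nat_lit 0) (XT.nd (nat_lit 78) (nat_lit 228) (nat_lit 0) (XT.lf (nat_lit 76) (nat_lit 743396511) (nat_lit 0) (nat_lit 1712130554) (nat_lit 380) (nat_lit 743396511)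 (nat_lit 215) (nat_lit 1) (nat_lit 214) (nat_lit 1) (nat_lit 219) (nat_lit 1) (nat_lit 364) (nat_lit 358) (nat_lit 298)) (XT.lf (nat_lit 304) (nat_lit 713796985) (nat_lit 0) (nat_lit 1224637722) (nat_lit 228) (nat_lit 1224637722) (nat_lit 215) (nat_lit 1) (nat_lit 211) (nat_lit 1) (nat_lit 214) (nat_lit 1) (nat_lit 365) (nat_lit 358) (nat_lit 297))) (XT.nd (nat_lit 78) (nat_lit 228) (nat_lit 0) (XT.lf (nat_lit 380) (nat_lit 3084711326) (nat_lit 0) (nat_lit 21661480) (nat_lit 304) (nat_lit 21661480) (nat_lit 211) (nat_lit 1) (nat_lit 206) (nat_lit 1) (nat_lit 210) (nat_lit 1) (nat_lit 366) (nat_lit 358) (nat_lit 296)) (XT.nd (nat_lit 78) (nat_lit 228) (nat_lit 0) (XT.lf (nat_lit 76) (nat_lit 1149203658) (nat_lit 0) (nat_lit 794519943) (nat_lit 380) (nat_lit 1149203658) (nat_lit 207) (nat_lit 1) (nat_lit 206) (nat_lit 1) (nat_lit 211) (nat_lit 1) (nat_lit 367) (nat_lit 358) (nat_lit 295)) (XT.lf (nat_lit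 304) (nat_lit 1527215954) (nat_lit 0) (nat_lit 765699969) (nat_lit 228) (nat_lit 765699969) (nat_lit 207) (nat_lit 1) (nat_lit 203) (nat_lit 1) (nat_lit 206) (nat_lit 1) (nat_lit 368) (nat_lit 358) (nat_lit 294))))) (XT.nd (nat_lit 234) (nat_lit 532) (nat_lit 0) (XT.nd (nat_lit 78) (nat_lit 532) (nat_lit 0) (XT.lf (nat_lit 76) (nat_lit 381682763) (nat_lit 0) (nat_lit 2261497942) (nat_lit 304) (nat_lit 381682763) (nat_lit 204) (nat_lit 1) (nat_lit 203) (nat_lit 1) (nat_lit 207) (nat_lit 1) (nat_lit 369) (nat_lit 358) (nat_lit 293)) (XT.nd (nat_lit 78) (nat_lit 228) (nat_lit 0) (XT.lf (nat_lit 76) (nat_lit 1495523912) (nat_lit 0) (nat_lit 400409) (nat_lit 304) (nat_lit 1495523912) (nat_lit 200) (nat_lit 1) (nat_lit 199) (nat_lit 1) (nat_lit 203) (nat_lit 1) (nat_lit 370) (nat_lit 358) (nat_lit 292)) (XT.lf (nat_lit 304) (nat_lit 2223917982) (nat_lit 0) (nat_lit 367329275) (nat_lit 228) (nat_lit 367329275)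 (nat_lit 200) (nat_lit 1) (nat_lit 196) (nat_lit 1) (nat_lit 199) (nat_lit 1) (nat_lit 371) (nat_lit 358) (nat_lit 291)))) (XT.nd (nat_lit 78) (nat_lit 532) (nat_lit 0) (XT.lf (nat_lit 76) (nat_lit 728556368) (nat_lit 0) (nat_lit 1468908194) (nat_lit 304) (nat_lit 728556368) (nat_lit 197) (nat_lit 1) (nat_lit 196) (nat_lit 1) (nat_lit 200) (nat_lit 1) (nat_lit 372) (nat_lit 358) (nat_lit 290)) (XT.nd (nat_lit 78) (nat_lit 304) (nat_lit 0) (XT.lf (nat_lit 304) (nat_lit 698240565) (nat_lit 0) (nat_lit 1097876769) (nat_lit 228) (nat_lit 1097876769) (nat_lit 197) (nat_lit 1) (nat_lit 193) (nat_lit 1) (nat_lit 196) (nat_lit 1) (nat_lit 373) (nat_lit 358) (nat_lit 289)) (XT.lf (nat_lit 304) (nat_lit 2817676097) (nat_lit 0) (nat_lit 22498149) (nat_lit 228) (nat_lit 22498149) (nat_lit 193) (nat_lit 1) (nat_lit 189) (nat_lit 1) (nat_lit 192) (nat_lit 1) (nat_lit 374) (nat_lit 358) (nat_lit 288)))))) (XT.nd (nat_lit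 390) (nat_lit 608) (nat_lit 0) (XT.nd (nat_lit 156) (nat_lit 456) (nat_lit 0) (XT.nd (nat_lit 78) (nat_lit 228) (nat_lit 0) (XT.lf (nat_lit 76) (nat_lit 1025406273) (nat_lit 0) (nat_lit 780442375) (nat_lit 304) (nat_lit 1025406273) (nat_lit 190) (nat_lit 1) (nat_lit 189) (nat_lit 1) (nat_lit 193) (nat_lit 1) (nat_lit 375) (nat_lit 358) (nat_lit 287)) (XT.lf (nat_lit 304) (nat_lit 1298633431) (nat_lit 0) (nat_lit 750948116) (nat_lit 228) (nat_lit 750948116) (nat_lit 190) (nat_lit 1) (nat_lit 186) (nat_lit 1) (nat_lit 189) (nat_lit 1) (nat_lit 376) (nat_lit 358) (nat_lit 286))) (XT.nd (nat_lit 78) (nat_lit 456) (nat_lit 0) (XT.lf (nat_lit 76) (nat_lit 277752344) (nat_lit 0) (nat_lit 2214820129) (nat_lit 304) (nat_lit 277752344) (nat_lit 187) (nat_lit 1) (nat_lit 186) (nat_lit 1) (nat_lit 190) (nat_lit 1) (nat_lit 377) (nat_lit 358) (nat_lit 285)) (XT.nd (nat_lit 78) (nat_lit 228) (nat_lit 0) (XT.lf (nat_lit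 76) (nat_lit 1278141139) (nat_lit 0) (nat_lit 184030874) (nat_lit 228) (nat_lit 1278141139) (nat_lit 184) (nat_lit 1) (nat_lit 183) (nat_lit 1) (nat_lit 186) (nat_lit 1) (nat_lit 378) (nat_lit 358) (nat_lit 284)) (XT.lf (nat_lit 304) (nat_lit 1812319694) (nat_lit 0) (nat_lit 449245370) (nat_lit 228) (nat_lit 449245370) (nat_lit 184) (nat_lit 1) (nat_lit 180) (nat_lit 1) (nat_lit 183) (nat_lit 1) (nat_lit 379) (nat_lit 358) (nat_lit 283))))) (XT.nd (nat_lit 234) (nat_lit 152) (nat_lit 0) (XT.nd (nat_lit 78) (nat_lit 456) (nat_lit 0) (XT.lf (nat_lit 76) (nat_lit 536041081) (nat_lit 0) (nat_lit 1609562223) (nat_lit 304) (nat_lit 536041081) (nat_lit 181) (nat_lit 1) (nat_lit 180) (nat_lit 1) (nat_lit 184) (nat_lit 1) (nat_lit 380) (nat_lit 358) (nat_lit 282)) (XT.nd (nat_lit 78) (nat_lit 304) (nat_lit 0) (XT.lf (nat_lit 228) (nat_lit 337624927) (nat_lit 0) (nat_lit 1157621647) (nat_lit 152) (nat_lit 1157621647)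 (nat_lit 181) (nat_lit 1) (nat_lit 178) (nat_lit 1) (nat_lit 180) (nat_lit 1) (nat_lit 381) (nat_lit 358) (nat_lit 281)) (XT.lf (nat_lit 304) (nat_lit 2249543654) (nat_lit 0) (nat_lit 187534805) (nat_lit 228) (nat_lit 187534805) (nat_lit 178) (nat_lit 1) (nat_lit 174) (nat_lit 1) (nat_lit 177) (nat_lit 1) (nat_lit 382) (nat_lit 358) (nat_lit 280)))) (XT.nd (nat_lit 78) (nat_lit 152) (nat_lit 0) (XT.lf (nat_lit 76) (nat_lit 757102180) (nat_lit 0) (nat_lit 1082233660) (nat_lit 304) (nat_lit 757102180) (nat_lit 175) (nat_lit 1) (nat_lit 174) (nat_lit 1) (nat_lit 178) (nat_lit 1) (nat_lit 383) (nat_lit 358) (nat_lit 279)) (XT.nd (nat_lit 78) (nat_lit 0) (nat_lit 0) (XT.lf (nat_lit 228) (nat_lit 789672584) (nat_lit 0) (nat_lit 889550899) (nat_lit 152) (nat_lit 889550899) (nat_lit 175) (nat_lit 1) (nat_lit 172) (nat_lit 1) (nat_lit 174) (nat_lit 1) (nat_lit 384) (nat_lit 358) (nat_lit 278)) (XT.lf (nat_lit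 76) (nat_lit 39212567) (nat_lit 0) (nat_lit 2463263622) (nat_lit 228) (nat_lit 39212567) (nat_lit 173) (nat_lit 1) (nat_lit 172) (nat_lit 1) (nat_lit 175) (nat_lit 1) (nat_lit 385) (nat_lit 358) (nat_lit 277))))))))
noncomputable def ec45 : XT := (XT.nd (nat_lit 47892) (nat_lit 0) (nat_lit 8208) (XT.nd (nat_lit 47034) (nat_lit 0) (nat_lit 15276) (XT.nd (nat_lit 46566) (nat_lit 0) (nat_lit 16112) (XT.nd (nat_lit 156) (nat_lit 380) (nat_lit 0) (XT.nd (nat_lit 78) (nat_lit 152) (nat_lit 0) (XT.lf (nat_lit 76) (nat_lit 945332396) (nat_lit 0) (nat_lit 623840367) (nat_lit 228) (nat_lit 945332396) (nat_lit 170) (nat_lit 1) (nat_lit 169) (nat_lit 1) (nat_lit 172) (nat_lit 1) (nat_lit 386) (nat_lit 358) (nat_lit 276)) (XT.lf (nat_lit 228) (nat_lit 1177048047) (nat_lit 0) (nat_lit 655421499) (nat_lit 152) (nat_lit 655421499) (nat_lit 170) (nat_lit 1) (nat_lit 167) (nat_lit 1) (nat_lit 169) (nat_lit 1) (nat_lit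 387) (nat_lit 358) (nat_lit 275))) (XT.nd (nat_lit 78) (nat_lit 380) (nat_lit 0) (XT.lf (nat_lit 76) (nat_lit 236281157) (nat_lit 0) (nat_lit 1989150351) (nat_lit 228) (nat_lit 236281157) (nat_lit 168) (nat_lit 1) (nat_lit 167) (nat_lit 1) (nat_lit 170) (nat_lit 1) (nat_lit 388) (nat_lit 358) (nat_lit 274)) (XT.nd (nat_lit 78) (nat_lit 152) (nat_lit 0) (XT.lf (nat_lit 76) (nat_lit 1104631042) (nat_lit 0) (nat_lit 226400085) (nat_lit 228) (nat_lit 1104631042) (nat_lit 165) (nat_lit 1) (nat_lit 164) (nat_lit 1) (nat_lit 167) (nat_lit 1) (nat_lit 389) (nat_lit 358) (nat_lit 273)) (XT.lf (nat_lit 228) (nat_lit 1507378531) (nat_lit 0) (nat_lit 451330646) (nat_lit 152) (nat_lit 451330646) (nat_lit 165) (nat_lit 1) (nat_lit 162) (nat_lit 1) (nat_lit 164) (nat_lit 1) (nat_lit 390) (nat_lit 358) (nat_lit 272))))) (XT.nd (nat_lit 234) (nat_lit 0) (nat_lit 76) (XT.nd (nat_lit 78) (nat_lit 0) (nat_lit 0) (XT.lf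 (nat_lit 1292) (nat_lit 653991263) (nat_lit 0) (nat_lit 2250034097) (nat_lit 1292) (nat_lit 653991263) (nat_lit 391) (nat_lit 1) (nat_lit 374) (nat_lit 0) (nat_lit 391) (nat_lit 0) (nat_lit 302) (nat_lit 359) (nat_lit 359)) (XT.nd (nat_lit 78) (nat_lit 0) (nat_lit 76) (XT.lf (nat_lit 1292) (nat_lit 2555809317) (nat_lit 76) (nat_lit 2227974939) (nat_lit 0) (nat_lit 2227974939) (nat_lit 391) (nat_lit 1) (nat_lit 375) (nat_lit 1) (nat_lit 374) (nat_lit 0) (nat_lit 303) (nat_lit 359) (nat_lit 358)) (XT.lf (nat_lit 1292) (nat_lit 1236050323) (nat_lit 0) (nat_lit 4437684566) (nat_lit 1216) (nat_lit 1236050323) (nat_lit 392) (nat_lit 1) (nat_lit 375) (nat_lit 1) (nat_lit 391) (nat_lit 1) (nat_lit 304) (nat_lit 359) (nat_lit 357)))) (XT.nd (nat_lit 78) (nat_lit 0) (nat_lit 76) (XT.lf (nat_lit 1292) (nat_lit 2347323382) (nat_lit 76) (nat_lit 2231095388) (nat_lit 0) (nat_lit 2231095388) (nat_lit 392) (nat_lit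 1) (nat_lit 376) (nat_lit 1) (nat_lit 375) (nat_lit 1) (nat_lit 305) (nat_lit 359) (nat_lit 356)) (XT.nd (nat_lit 78) (nat_lit 0) (nat_lit 0) (XT.lf (nat_lit 1292) (nat_lit 1101469790) (nat_lit 0) (nat_lit 4508547124) (nat_lit 1216) (nat_lit 1101469790) (nat_lit 393) (nat_lit 1) (nat_lit 376) (nat_lit 1) (nat_lit 392) (nat_lit 1) (nat_lit 306) (nat_lit 359) (nat_lit 355)) (XT.lf (nat_lit 1292) (nat_lit 2018559691) (nat_lit 76) (nat_lit 2298233654) (nat_lit 0) (nat_lit 2298233654) (nat_lit 393) (nat_lit 1) (nat_lit 377) (nat_lit 1) (nat_lit 376) (nat_lit 1) (nat_lit 307) (nat_lit 359) (nat_lit 354)))))) (XT.nd (nat_lit 390) (nat_lit 1064) (nat_lit 0) (XT.nd (nat_lit 156) (nat_lit 0) (nat_lit 76) (XT.nd (nat_lit 78) (nat_lit 0) (nat_lit 0) (XT.lf (nat_lit 1292) (nat_lit 909782174) (nat_lit 0) (nat_lit 4701230340) (nat_lit 1216) (nat_lit 909782174) (nat_lit 394) (nat_lit 1) (nat_lit 377) (nat_lit 1) (nat_lit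 393) (nat_lit 1) (nat_lit 308) (nat_lit 359) (nat_lit 353)) (XT.lf (nat_lit 1292) (nat_lit 1580274494) (nat_lit 76) (nat_lit 2423845037) (nat_lit 0) (nat_lit 2423845037) (nat_lit 394) (nat_lit 1) (nat_lit 378) (nat_lit 1) (nat_lit 377) (nat_lit 1) (nat_lit 309) (nat_lit 359) (nat_lit 352))) (XT.nd (nat_lit 78) (nat_lit 0) (nat_lit 0) (XT.lf (nat_lit 1292) (nat_lit 666153982) (nat_lit 0) (nat_lit 5005074555) (nat_lit 1216) (nat_lit 666153982) (nat_lit 395) (nat_lit 1) (nat_lit 378) (nat_lit 1) (nat_lit 394) (nat_lit 1) (nat_lit 310) (nat_lit 359) (nat_lit 351)) (XT.nd (nat_lit 78) (nat_lit 0) (nat_lit 76) (XT.lf (nat_lit 1292) (nat_lit 1042494404) (nat_lit 76) (nat_lit 2602757588) (nat_lit 0) (nat_lit 2602757588) (nat_lit 395) (nat_lit 1) (nat_lit 379) (nat_lit 1) (nat_lit 378) (nat_lit 1) (nat_lit 311) (nat_lit 359) (nat_lit 350)) (XT.lf (nat_lit 1292) (nat_lit 375400143) (nat_lit 0) (nat_lit 5410138815)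 (nat_lit 1216) (nat_lit 375400143) (nat_lit 396) (nat_lit 1) (nat_lit 379) (nat_lit 1) (nat_lit 395) (nat_lit 1) (nat_lit 312) (nat_lit 359) (nat_lit 349))))) (XT.nd (nat_lit 234) (nat_lit 0) (nat_lit 0) (XT.nd (nat_lit 78) (nat_lit 1216) (nat_lit 0) (XT.lf (nat_lit 1292) (nat_lit 414561539) (nat_lit 76) (nat_lit 2830149123) (nat_lit 0) (nat_lit 2830149123) (nat_lit 396) (nat_lit 1) (nat_lit 380) (nat_lit 1) (nat_lit 379) (nat_lit 1) (nat_lit 313) (nat_lit 359) (nat_lit 348)) (XT.nd (nat_lit 78) (nat_lit 1292) (nat_lit 0) (XT.lf (nat_lit 1292) (nat_lit 42005791) (nat_lit 0) (nat_lit 5907156502) (nat_lit 1216) (nat_lit 42005791) (nat_lit 397) (nat_lit 1) (nat_lit 380) (nat_lit 1) (nat_lit 396) (nat_lit 1) (nat_lit 314) (nat_lit 359) (nat_lit 347)) (XT.lf (nat_lit 1368) (nat_lit 2809535632) (nat_lit 0) (nat_lit 289070924) (nat_lit 1292) (nat_lit 2809535632) (nat_lit 381) (nat_lit 1) (nat_lit 363) (nat_lit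 1) (nat_lit 380) (nat_lit 1) (nat_lit 315) (nat_lit 359) (nat_lit 346)))) (XT.nd (nat_lit 78) (nat_lit 0) (nat_lit 76) (XT.lf (nat_lit 1368) (nat_lit 5174165917) (nat_lit 76) (nat_lit 326619391) (nat_lit 0) (nat_lit 326619391) (nat_lit 381) (nat_lit 1) (nat_lit 364) (nat_lit 1) (nat_lit 363) (nat_lit 1) (nat_lit 316) (nat_lit 359) (nat_lit 345)) (XT.nd (nat_lit 78) (nat_lit 0) (nat_lit 0) (XT.lf (nat_lit 1368) (nat_lit 2345494805) (nat_lit 0) (nat_lit 1056537058) (nat_lit 1292) (nat_lit 2345494805) (nat_lit 382) (nat_lit 1) (nat_lit 364) (nat_lit 1) (nat_lit 381) (nat_lit 1) (nat_lit 317) (nat_lit 359) (nat_lit 344)) (XT.lf (nat_lit 1368) (nat_lit 4211528195) (nat_lit 76) (nat_lit 729072646) (nat_lit 0) (nat_lit 729072646) (nat_lit 382) (nat_lit 1) (nat_lit 365) (nat_lit 1) (nat_lit 364) (nat_lit 1) (nat_lit 318) (nat_lit 359) (nat_lit 343))))))) (XT.nd (nat_lit 858) (nat_lit 3420) (nat_lit 0) (XT.nd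 (nat_lit 390) (nat_lit 2356) (nat_lit 0) (XT.nd (nat_lit 156) (nat_lit 608) (nat_lit 0) (XT.nd (nat_lit 78) (nat_lit 836) (nat_lit 0) (XT.lf (nat_lit 76) (nat_lit 1852166688) (nat_lit 0) (nat_lit 1888539986) (nat_lit 1292) (nat_lit 1852166688) (nat_lit 366) (nat_lit 1) (nat_lit 365) (nat_lit 1) (nat_lit 382) (nat_lit 1) (nat_lit 319) (nat_lit 359) (nat_lit 342)) (XT.lf (nat_lit 912) (nat_lit 3193396123) (nat_lit 0) (nat_lit 1162187367) (nat_lit 836) (nat_lit 1162187367) (nat_lit 366) (nat_lit 1) (nat_lit 354) (nat_lit 1) (nat_lit 365) (nat_lit 1) (nat_lit 320) (nat_lit 359) (nat_lit 341))) (XT.nd (nat_lit 78) (nat_lit 608) (nat_lit 0) (XT.lf (nat_lit 76) (nat_lit 1332861377) (nat_lit 0) (nat_lit 2778212144) (nat_lit 912) (nat_lit 1332861377) (nat_lit 355) (nat_lit 1) (nat_lit 354) (nat_lit 1) (nat_lit 366) (nat_lit 1) (nat_lit 321) (nat_lit 359) (nat_lit 340)) (XT.nd (nat_lit 78) (nat_lit 0) (nat_lit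 0) (XT.lf (nat_lit 684) (nat_lit 2126181139) (nat_lit 0) (nat_lit 1622637520) (nat_lit 608) (nat_lit 1622637520) (nat_lit 355) (nat_lit 1) (nat_lit 346) (nat_lit 1) (nat_lit 354) (nat_lit 1) (nat_lit 322) (nat_lit 359) (nat_lit 339)) (XT.lf (nat_lit 76) (nat_lit 790651515) (nat_lit 0) (nat_lit 3719172318) (nat_lit 684) (nat_lit 790651515) (nat_lit 347) (nat_lit 1) (nat_lit 346) (nat_lit 1) (nat_lit 355) (nat_lit 1) (nat_lit 323) (nat_lit 359) (nat_lit 338))))) (XT.nd (nat_lit 234) (nat_lit 1140) (nat_lit 0) (XT.nd (nat_lit 78) (nat_lit 608) (nat_lit 0) (XT.lf (nat_lit 684) (nat_lit 1015832683) (nat_lit 0) (nat_lit 2107333611) (nat_lit 608) (nat_lit 2107333611) (nat_lit 347) (nat_lit 1) (nat_lit 338) (nat_lit 1) (nat_lit 346) (nat_lit 1) (nat_lit 324) (nat_lit 359) (nat_lit 337)) (XT.nd (nat_lit 78) (nat_lit 608) (nat_lit 0) (XT.lf (nat_lit 76) (nat_lit 228387298) (nat_lit 0) (nat_lit 4705495040) (nat_lit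 684) (nat_lit 228387298) (nat_lit 339) (nat_lit 1) (nat_lit 338) (nat_lit 1) (nat_lit 347) (nat_lit 1) (nat_lit 325) (nat_lit 359) (nat_lit 336)) (XT.lf (nat_lit 76) (nat_lit 2482545364) (nat_lit 0) (nat_lit 129554165) (nat_lit 608) (nat_lit 2482545364) (nat_lit 331) (nat_lit 1) (nat_lit 330) (nat_lit 1) (nat_lit 338) (nat_lit 1) (nat_lit 326) (nat_lit 359) (nat_lit 335)))) (XT.nd (nat_lit 78) (nat_lit 532) (nat_lit 0) (XT.lf (nat_lit 684) (nat_lit 4333004959) (nat_lit 0) (nat_lit 347845393) (nat_lit 608) (nat_lit 347845393) (nat_lit 331) (nat_lit 1) (nat_lit 322) (nat_lit 1) (nat_lit 330) (nat_lit 1) (nat_lit 327) (nat_lit 359) (nat_lit 334)) (XT.nd (nat_lit 78) (nat_lit 532) (nat_lit 0) (XT.lf (nat_lit 76) (nat_lit 1838214207) (nat_lit 0) (nat_lit 1286989486) (nat_lit 684) (nat_lit 1838214207) (nat_lit 323) (nat_lit 1) (nat_lit 322) (nat_lit 1) (nat_lit 331) (nat_lit 1) (nat_lit 328) (nat_lit 359)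 (nat_lit 333)) (XT.lf (nat_lit 608) (nat_lit 3026357914) (nat_lit 0) (nat_lit 936657968) (nat_lit 532) (nat_lit 936657968) (nat_lit 323) (nat_lit 1) (nat_lit 315) (nat_lit 1) (nat_lit 322) (nat_lit 1) (nat_lit 329) (nat_lit 359) (nat_lit 332)))))) (XT.nd (nat_lit 468) (nat_lit 1824) (nat_lit 0) (XT.nd (nat_lit 234) (nat_lit 1064) (nat_lit 0) (XT.nd (nat_lit 78) (nat_lit 532) (nat_lit 0) (XT.lf (nat_lit 76) (nat_lit 1182628783) (nat_lit 0) (nat_lit 2471656120) (nat_lit 608) (nat_lit 1182628783) (nat_lit 316) (nat_lit 1) (nat_lit 315) (nat_lit 1) (nat_lit 323) (nat_lit 1) (nat_lit 330) (nat_lit 359) (nat_lit 331)) (XT.nd (nat_lit 78) (nat_lit 0) (nat_lit 0) (XT.lf (nat_lit 608) (nat_lit 1699180646) (nat_lit 0) (nat_lit 1538047529) (nat_lit 532) (nat_lit 1538047529) (nat_lit 316) (nat_lit 1) (nat_lit 308) (nat_lit 1) (nat_lit 315) (nat_lit 1) (nat_lit 331) (nat_lit 359) (nat_lit 330)) (XT.lf (nat_lit 76)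 (nat_lit 517840226) (nat_lit 0) (nat_lit 3679262543) (nat_lit 608) (nat_lit 517840226) (nat_lit 309) (nat_lit 1) (nat_lit 308) (nat_lit 1) (nat_lit 316) (nat_lit 1) (nat_lit 332) (nat_lit 359) (nat_lit 329)))) (XT.nd (nat_lit 78) (nat_lit 608) (nat_lit 0) (XT.lf (nat_lit 532) (nat_lit 355434307) (nat_lit 0) (nat_lit 2149941313) (nat_lit 456) (nat_lit 2149941313) (nat_lit 309) (nat_lit 1) (nat_lit 302) (nat_lit 1) (nat_lit 308) (nat_lit 1) (nat_lit 333) (nat_lit 359) (nat_lit 328)) (XT.nd (nat_lit 78) (nat_lit 0) (nat_lit 0) (XT.lf (nat_lit 608) (nat_lit 4291652908) (nat_lit 0) (nat_lit 152746654) (nat_lit 532) (nat_lit 152746654) (nat_lit 302) (nat_lit 1) (nat_lit 294) (nat_lit 1) (nat_lit 301) (nat_lit 1) (nat_lit 334) (nat_lit 359) (nat_lit 327)) (XT.lf (nat_lit 76) (nat_lit 1778820924) (nat_lit 0) (nat_lit 981690809) (nat_lit 608) (nat_lit 1778820924) (nat_lit 295) (nat_lit 1) (nat_lit 294) (nat_lit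 1) (nat_lit 302) (nat_lit 1) (nat_lit 335) (nat_lit 359) (nat_lit 326))))) (XT.nd (nat_lit 234) (nat_lit 912) (nat_lit 0) (XT.nd (nat_lit 78) (nat_lit 456) (nat_lit 0) (XT.lf (nat_lit 532) (nat_lit 2835385331) (nat_lit 0) (nat_lit 823768667) (nat_lit 456) (nat_lit 823768667) (nat_lit 295) (nat_lit 1) (nat_lit 288) (nat_lit 1) (nat_lit 294) (nat_lit 1) (nat_lit 336) (nat_lit 359) (nat_lit 325)) (XT.nd (nat_lit 78) (nat_lit 456) (nat_lit 0) (XT.lf (nat_lit 76) (nat_lit 1053046145) (nat_lit 0) (nat_lit 2321245729) (nat_lit 532) (nat_lit 1053046145) (nat_lit 289) (nat_lit 1) (nat_lit 288) (nat_lit 1) (nat_lit 295) (nat_lit 1) (nat_lit 337) (nat_lit 359) (nat_lit 324)) (XT.lf (nat_lit 532) (nat_lit 1375283482) (nat_lit 0) (nat_lit 1498713013) (nat_lit 456) (nat_lit 1498713013) (nat_lit 289) (nat_lit 1) (nat_lit 282) (nat_lit 1) (nat_lit 288) (nat_lit 1) (nat_lit 338) (nat_lit 359) (nat_lit 323)))) (XT.nd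 (nat_lit 78) (nat_lit 912) (nat_lit 0) (XT.lf (nat_lit 76) (nat_lit 326071849) (nat_lit 0) (nat_lit 3667131817) (nat_lit 532) (nat_lit 326071849) (nat_lit 283) (nat_lit 1) (nat_lit 282) (nat_lit 1) (nat_lit 289) (nat_lit 1) (nat_lit 339) (nat_lit 359) (nat_lit 322)) (XT.nd (nat_lit 78) (nat_lit 456) (nat_lit 0) (XT.lf (nat_lit 76) (nat_lit 2091057925) (nat_lit 0) (nat_lit 84210085) (nat_lit 456) (nat_lit 2091057925) (nat_lit 277) (nat_lit 1) (nat_lit 276) (nat_lit 1) (nat_lit 282) (nat_lit 1) (nat_lit 340) (nat_lit 359) (nat_lit 321)) (XT.lf (nat_lit 532) (nat_lit 3420816640) (nat_lit 0) (nat_lit 396855435) (nat_lit 456) (nat_lit 396855435) (nat_lit 277) (nat_lit 1) (nat_lit 270) (nat_lit 1) (nat_lit 276) (nat_lit 1) (nat_lit 341) (nat_lit 359) (nat_lit 320))))))))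
noncomputable def ec46 : XT := (XT.nd (nat_lit 1716) (nat_lit 3344) (nat_lit 0) (XT.nd (nat_lit 858) (nat_lit 2128) (nat_lit 0) (XT.nd (nat_lit 390) (nat_lit 1140) (nat_lit 0) (XT.nd (nat_lit 156) (nat_lit 836) (nat_lit 0) (XT.nd (nat_lit 78) (nat_lit 380) (nat_lit 0) (XT.lf (nat_lit 76) (nat_lit 1323910860) (nat_lit 0) (nat_lit 1515429567) (nat_lit 532) (nat_lit 1323910860) (nat_lit 271) (nat_lit 1) (nat_lit 270) (nat_lit 1) (nat_lit 277) (nat_lit 1) (nat_lit 342) (nat_lit 359) (nat_lit 319)) (XT.lf (nat_lit 456) (nat_lit 1882484066) (nat_lit 0) (nat_lit 1115275875) (nat_lit 380) (nat_lit 1115275875) (nat_lit 271) (nat_lit 1) (nat_lit 265) (nat_lit 1) (nat_lit 270) (nat_lit 1) (nat_lit 343) (nat_lit 359) (nat_lit 318))) (XT.nd (nat_lit 78) (nat_lit 836) (nat_lit 0) (XT.lf (nat_lit 76) (nat_lit 560399671) (nat_lit 0) (nat_lit 2942940720) (nat_lit 456) (nat_lit 560399671) (nat_lit 266) (nat_lit 1) (nat_lit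 265) (nat_lit 1) (nat_lit 271) (nat_lit 1) (nat_lit 344) (nat_lit 359) (nat_lit 317)) (XT.nd (nat_lit 78) (nat_lit 456) (nat_lit 0) (XT.lf (nat_lit 456) (nat_lit 352447250) (nat_lit 0) (nat_lit 1831296248) (nat_lit 380) (nat_lit 1831296248) (nat_lit 266) (nat_lit 1) (nat_lit 260) (nat_lit 1) (nat_lit 265) (nat_lit 1) (nat_lit 345) (nat_lit 359) (nat_lit 316)) (XT.lf (nat_lit 456) (nat_lit 3574303189) (nat_lit 0) (nat_lit 196561462) (nat_lit 380) (nat_lit 196561462) (nat_lit 260) (nat_lit 1) (nat_lit 254) (nat_lit 1) (nat_lit 259) (nat_lit 1) (nat_lit 346) (nat_lit 359) (nat_lit 315))))) (XT.nd (nat_lit 234) (nat_lit 760) (nat_lit 0) (XT.nd (nat_lit 78) (nat_lit 380) (nat_lit 0) (XT.lf (nat_lit 76) (nat_lit 1387705600) (nat_lit 0) (nat_lit 1144658653) (nat_lit 456) (nat_lit 1387705600) (nat_lit 255) (nat_lit 1) (nat_lit 254) (nat_lit 1) (nat_lit 260) (nat_lit 1) (nat_lit 347) (nat_lit 359) (nat_lit 314))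 (XT.nd (nat_lit 78) (nat_lit 0) (nat_lit 0) (XT.lf (nat_lit 456) (nat_lit 1988565768) (nat_lit 0) (nat_lit 942600138) (nat_lit 380) (nat_lit 942600138) (nat_lit 255) (nat_lit 1) (nat_lit 249) (nat_lit 1) (nat_lit 254) (nat_lit 1) (nat_lit 348) (nat_lit 359) (nat_lit 313)) (XT.lf (nat_lit 76) (nat_lit 602474697) (nat_lit 0) (nat_lit 2623288037) (nat_lit 456) (nat_lit 602474697) (nat_lit 250) (nat_lit 1) (nat_lit 249) (nat_lit 1) (nat_lit 255) (nat_lit 1) (nat_lit 349) (nat_lit 359) (nat_lit 312)))) (XT.nd (nat_lit 78) (nat_lit 456) (nat_lit 0) (XT.lf (nat_lit 380) (nat_lit 418438287) (nat_lit 0) (nat_lit 1682423761) (nat_lit 304) (nat_lit 1682423761) (nat_lit 250) (nat_lit 1) (nat_lit 245) (nat_lit 1) (nat_lit 249) (nat_lit 1) (nat_lit 350) (nat_lit 359) (nat_lit 311)) (XT.nd (nat_lit 78) (nat_lit 0) (nat_lit 0) (XT.lf (nat_lit 456) (nat_lit 3393437212) (nat_lit 0) (nat_lit 172941548) (nat_lit 380) (nat_lit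 172941548) (nat_lit 245) (nat_lit 1) (nat_lit 239) (nat_lit 1) (nat_lit 244) (nat_lit 1) (nat_lit 351) (nat_lit 359) (nat_lit 310)) (XT.lf (nat_lit 76) (nat_lit 1291452268) (nat_lit 0) (nat_lit 1112635072) (nat_lit 456) (nat_lit 1291452268) (nat_lit 240) (nat_lit 1) (nat_lit 239) (nat_lit 1) (nat_lit 245) (nat_lit 1) (nat_lit 352) (nat_lit 359) (nat_lit 309)))))) (XT.nd (nat_lit 390) (nat_lit 1140) (nat_lit 0) (XT.nd (nat_lit 156) (nat_lit 684) (nat_lit 0) (XT.nd (nat_lit 78) (nat_lit 0) (nat_lit 0) (XT.lf (nat_lit 380) (nat_lit 1785071421) (nat_lit 0) (nat_lit 933822469) (nat_lit 304) (nat_lit 933822469) (nat_lit 240) (nat_lit 1) (nat_lit 235) (nat_lit 1) (nat_lit 239) (nat_lit 1) (nat_lit 353) (nat_lit 359) (nat_lit 308)) (XT.lf (nat_lit 76) (nat_lit 496401094) (nat_lit 0) (nat_lit 2617823425) (nat_lit 380) (nat_lit 496401094) (nat_lit 236) (nat_lit 1) (nat_lit 235) (nat_lit 1) (nat_lit 240) (nat_lit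 1) (nat_lit 354) (nat_lit 359) (nat_lit 307))) (XT.nd (nat_lit 78) (nat_lit 380) (nat_lit 0) (XT.lf (nat_lit 380) (nat_lit 197943825) (nat_lit 0) (nat_lit 1685534732) (nat_lit 304) (nat_lit 1685534732) (nat_lit 236) (nat_lit 1) (nat_lit 231) (nat_lit 1) (nat_lit 235) (nat_lit 1) (nat_lit 355) (nat_lit 359) (nat_lit 306)) (XT.nd (nat_lit 78) (nat_lit 0) (nat_lit 0) (XT.lf (nat_lit 380) (nat_lit 2958143345) (nat_lit 0) (nat_lit 285039409) (nat_lit 304) (nat_lit 285039409) (nat_lit 231) (nat_lit 1) (nat_lit 226) (nat_lit 1) (nat_lit 230) (nat_lit 1) (nat_lit 356) (nat_lit 359) (nat_lit 305)) (XT.lf (nat_lit 76) (nat_lit 1073646691) (nat_lit 0) (nat_lit 1340417262) (nat_lit 380) (nat_lit 1073646691) (nat_lit 227) (nat_lit 1) (nat_lit 226) (nat_lit 1) (nat_lit 231) (nat_lit 1) (nat_lit 357) (nat_lit 359) (nat_lit 304))))) (XT.nd (nat_lit 234) (nat_lit 532) (nat_lit 0) (XT.nd (nat_lit 78) (nat_lit 304) (nat_lit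 0) (XT.lf (nat_lit 380) (nat_lit 1346919064) (nat_lit 0) (nat_lit 1050538625) (nat_lit 304) (nat_lit 1050538625) (nat_lit 227) (nat_lit 1) (nat_lit 222) (nat_lit 1) (nat_lit 226) (nat_lit 1) (nat_lit 358) (nat_lit 359) (nat_lit 303)) (XT.nd (nat_lit 78) (nat_lit 304) (nat_lit 0) (XT.lf (nat_lit 76) (nat_lit 278260393) (nat_lit 0) (nat_lit 2852529504) (nat_lit 380) (nat_lit 278260393) (nat_lit 223) (nat_lit 1) (nat_lit 222) (nat_lit 1) (nat_lit 227) (nat_lit 1) (nat_lit 359) (nat_lit 359) (nat_lit 302)) (XT.lf (nat_lit 76) (nat_lit 1568096663) (nat_lit 0) (nat_lit 234161877) (nat_lit 304) (nat_lit 1568096663) (nat_lit 219) (nat_lit 1) (nat_lit 218) (nat_lit 1) (nat_lit 222) (nat_lit 1) (nat_lit 360) (nat_lit 359) (nat_lit 301)))) (XT.nd (nat_lit 78) (nat_lit 228) (nat_lit 0) (XT.lf (nat_lit 380) (nat_lit 2333660472) (nat_lit 0) (nat_lit 499373308) (nat_lit 304) (nat_lit 499373308) (nat_lit 219) (nat_lit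 1) (nat_lit 214) (nat_lit 1) (nat_lit 218) (nat_lit 1) (nat_lit 361) (nat_lit 359) (nat_lit 300)) (XT.nd (nat_lit 78) (nat_lit 228) (nat_lit 0) (XT.lf (nat_lit 76) (nat_lit 765698406) (nat_lit 0) (nat_lit 1763494471) (nat_lit 380) (nat_lit 765698406) (nat_lit 215) (nat_lit 1) (nat_lit 214) (nat_lit 1) (nat_lit 219) (nat_lit 1) (nat_lit 362) (nat_lit 359) (nat_lit 299)) (XT.lf (nat_lit 304) (nat_lit 735210894) (nat_lit 0) (nat_lit 1261376854) (nat_lit 228) (nat_lit 1261376854) (nat_lit 215) (nat_lit 1) (nat_lit 211) (nat_lit 1) (nat_lit 214) (nat_lit 1) (nat_lit 363) (nat_lit 359) (nat_lit 298))))))) (XT.nd (nat_lit 858) (nat_lit 1444) (nat_lit 0) (XT.nd (nat_lit 390) (nat_lit 988) (nat_lit 0) (XT.nd (nat_lit 156) (nat_lit 532) (nat_lit 0) (XT.nd (nat_lit 78) (nat_lit 0) (nat_lit 0) (XT.lf (nat_lit 380) (nat_lit 3177252666) (nat_lit 0) (nat_lit 22311324) (nat_lit 304) (nat_lit 22311324) (nat_lit 211)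 (nat_lit 1) (nat_lit 206) (nat_lit 1) (nat_lit 210) (nat_lit 1) (nat_lit 364) (nat_lit 359) (nat_lit 297)) (XT.lf (nat_lit 76) (nat_lit 1183679768) (nat_lit 0) (nat_lit 818355542) (nat_lit 380) (nat_lit 1183679768) (nat_lit 207) (nat_lit 1) (nat_lit 206) (nat_lit 1) (nat_lit 211) (nat_lit 1) (nat_lit 365) (nat_lit 359) (nat_lit 296))) (XT.nd (nat_lit 78) (nat_lit 304) (nat_lit 0) (XT.lf (nat_lit 304) (nat_lit 1573032433) (nat_lit 0) (nat_lit 788670968) (nat_lit 228) (nat_lit 788670968) (nat_lit 207) (nat_lit 1) (nat_lit 203) (nat_lit 1) (nat_lit 206) (nat_lit 1) (nat_lit 366) (nat_lit 359) (nat_lit 295)) (XT.nd (nat_lit 78) (nat_lit 304) (nat_lit 0) (XT.lf (nat_lit 76) (nat_lit 393133246) (nat_lit 0) (nat_lit 2329342880) (nat_lit 304) (nat_lit 393133246) (nat_lit 204) (nat_lit 1) (nat_lit 203) (nat_lit 1) (nat_lit 207) (nat_lit 1) (nat_lit 367) (nat_lit 359) (nat_lit 294)) (XT.lf (nat_lit 76) (nat_lit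 1540389630) (nat_lit 0) (nat_lit 412421) (nat_lit 304) (nat_lit 1540389630) (nat_lit 200) (nat_lit 1) (nat_lit 199) (nat_lit 1) (nat_lit 203) (nat_lit 1) (nat_lit 368) (nat_lit 359) (nat_lit 293))))) (XT.nd (nat_lit 234) (nat_lit 532) (nat_lit 0) (XT.nd (nat_lit 78) (nat_lit 228) (nat_lit 0) (XT.lf (nat_lit 304) (nat_lit 2290635522) (nat_lit 0) (nat_lit 378349154) (nat_lit 228) (nat_lit 378349154) (nat_lit 200) (nat_lit 1) (nat_lit 196) (nat_lit 1) (nat_lit 199) (nat_lit 1) (nat_lit 369) (nat_lit 359) (nat_lit 292)) (XT.nd (nat_lit 78) (nat_lit 228) (nat_lit 0) (XT.lf (nat_lit 76) (nat_lit 750413059) (nat_lit 0) (nat_lit 1512975440) (nat_lit 304) (nat_lit 750413059) (nat_lit 197) (nat_lit 1) (nat_lit 196) (nat_lit 1) (nat_lit 200) (nat_lit 1) (nat_lit 370) (nat_lit 359) (nat_lit 291)) (XT.lf (nat_lit 304) (nat_lit 719187782) (nat_lit 0) (nat_lit 1130813072) (nat_lit 228) (nat_lit 1130813072) (nat_lit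 197) (nat_lit 1) (nat_lit 193) (nat_lit 1) (nat_lit 196) (nat_lit 1) (nat_lit 371) (nat_lit 359) (nat_lit 290)))) (XT.nd (nat_lit 78) (nat_lit 228) (nat_lit 0) (XT.lf (nat_lit 304) (nat_lit 2902206380) (nat_lit 0) (nat_lit 23173093) (nat_lit 228) (nat_lit 23173093) (nat_lit 193) (nat_lit 1) (nat_lit 189) (nat_lit 1) (nat_lit 192) (nat_lit 1) (nat_lit 372) (nat_lit 359) (nat_lit 289)) (XT.nd (nat_lit 78) (nat_lit 228) (nat_lit 0) (XT.lf (nat_lit 76) (nat_lit 1056168461) (nat_lit 0) (nat_lit 803855646) (nat_lit 304) (nat_lit 1056168461) (nat_lit 190) (nat_lit 1) (nat_lit 189) (nat_lit 1) (nat_lit 193) (nat_lit 1) (nat_lit 373) (nat_lit 359) (nat_lit 288)) (XT.lf (nat_lit 304) (nat_lit 1337592434) (nat_lit 0) (nat_lit 773476559) (nat_lit 228) (nat_lit 773476559) (nat_lit 190) (nat_lit 1) (nat_lit 186) (nat_lit 1) (nat_lit 189) (nat_lit 1) (nat_lit 374) (nat_lit 359) (nat_lit 287)))))) (XT.nd (nat_lit 390)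 (nat_lit 836) (nat_lit 0) (XT.nd (nat_lit 156) (nat_lit 380) (nat_lit 0) (XT.nd (nat_lit 78) (nat_lit 228) (nat_lit 0) (XT.lf (nat_lit 76) (nat_lit 286084914) (nat_lit 0) (nat_lit 2281264733) (nat_lit 304) (nat_lit 286084914) (nat_lit 187) (nat_lit 1) (nat_lit 186) (nat_lit 1) (nat_lit 190) (nat_lit 1) (nat_lit 375) (nat_lit 359) (nat_lit 286)) (XT.lf (nat_lit 76) (nat_lit 1316485374) (nat_lit 0) (nat_lit 189551800) (nat_lit 228) (nat_lit 1316485374) (nat_lit 184) (nat_lit 1) (nat_lit 183) (nat_lit 1) (nat_lit 186) (nat_lit 1) (nat_lit 376) (nat_lit 359) (nat_lit 285))) (XT.nd (nat_lit 78) (nat_lit 152) (nat_lit 0) (XT.lf (nat_lit 304) (nat_lit 1866689285) (nat_lit 0) (nat_lit 462722732) (nat_lit 228) (nat_lit 462722732) (nat_lit 184) (nat_lit 1) (nat_lit 180) (nat_lit 1) (nat_lit 183) (nat_lit 1) (nat_lit 377) (nat_lit 359) (nat_lit 284)) (XT.nd (nat_lit 78) (nat_lit 152) (nat_lit 0) (XT.lf (nat_lit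 76) (nat_lit 552122314) (nat_lit 0) (nat_lit 1657849090) (nat_lit 304) (nat_lit 552122314) (nat_lit 181) (nat_lit 1) (nat_lit 180) (nat_lit 1) (nat_lit 184) (nat_lit 1) (nat_lit 378) (nat_lit 359) (nat_lit 283)) (XT.lf (nat_lit 228) (nat_lit 347753674) (nat_lit 0) (nat_lit 1192350297) (nat_lit 152) (nat_lit 1192350297) (nat_lit 181) (nat_lit 1) (nat_lit 178) (nat_lit 1) (nat_lit 180) (nat_lit 1) (nat_lit 379) (nat_lit 359) (nat_lit 282))))) (XT.nd (nat_lit 234) (nat_lit 380) (nat_lit 0) (XT.nd (nat_lit 78) (nat_lit 152) (nat_lit 0) (XT.lf (nat_lit 304) (nat_lit 2317029964) (nat_lit 0) (nat_lit 193160850) (nat_lit 228) (nat_lit 193160850) (nat_lit 178) (nat_lit 1) (nat_lit 174) (nat_lit 1) (nat_lit 177) (nat_lit 1) (nat_lit 380) (nat_lit 359) (nat_lit 281)) (XT.nd (nat_lit 78) (nat_lit 152) (nat_lit 0) (XT.lf (nat_lit 76) (nat_lit 779815246) (nat_lit 0) (nat_lit 1114700669) (nat_lit 304) (nat_lit 779815246)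 (nat_lit 175) (nat_lit 1) (nat_lit 174) (nat_lit 1) (nat_lit 178) (nat_lit 1) (nat_lit 381) (nat_lit 359) (nat_lit 280)) (XT.lf (nat_lit 228) (nat_lit 813362762) (nat_lit 0) (nat_lit 916237426) (nat_lit 152) (nat_lit 916237426) (nat_lit 175) (nat_lit 1) (nat_lit 172) (nat_lit 1) (nat_lit 174) (nat_lit 1) (nat_lit 382) (nat_lit 359) (nat_lit 279)))) (XT.nd (nat_lit 78) (nat_lit 380) (nat_lit 0) (XT.lf (nat_lit 76) (nat_lit 40388944) (nat_lit 0) (nat_lit 2537161530) (nat_lit 228) (nat_lit 40388944) (nat_lit 173) (nat_lit 1) (nat_lit 172) (nat_lit 1) (nat_lit 175) (nat_lit 1) (nat_lit 383) (nat_lit 359) (nat_lit 278)) (XT.nd (nat_lit 78) (nat_lit 152) (nat_lit 0) (XT.lf (nat_lit 76) (nat_lit 973692368) (nat_lit 0) (nat_lit 642555579) (nat_lit 228) (nat_lit 973692368) (nat_lit 170) (nat_lit 1) (nat_lit 169) (nat_lit 1) (nat_lit 172) (nat_lit 1) (nat_lit 384) (nat_lit 359) (nat_lit 277)) (XT.lf (nat_lit 228)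 (nat_lit 1212359489) (nat_lit 0) (nat_lit 675084144) (nat_lit 152) (nat_lit 675084144) (nat_lit 170) (nat_lit 1) (nat_lit 167) (nat_lit 1) (nat_lit 169) (nat_lit 1) (nat_lit 385) (nat_lit 359) (nat_lit 276))))))))
noncomputable def ec47 : XT := (XT.nd (nat_lit 47814) (nat_lit 0) (nat_lit 8208) (XT.nd (nat_lit 46956) (nat_lit 0) (nat_lit 15276) (XT.nd (nat_lit 46488) (nat_lit 0) (nat_lit 16112) (XT.nd (nat_lit 156) (nat_lit 152) (nat_lit 0) (XT.nd (nat_lit 78) (nat_lit 228) (nat_lit 0) (XT.lf (nat_lit 76) (nat_lit 243369591) (nat_lit 0) (nat_lit 2048824861) (nat_lit 228) (nat_lit 243369591) (nat_lit 168) (nat_lit 1) (nat_lit 167) (nat_lit 1) (nat_lit 170) (nat_lit 1) (nat_lit 386) (nat_lit 359) (nat_lit 275)) (XT.lf (nat_lit 76) (nat_lit 1137769973) (nat_lit 0) (nat_lit 233192087) (nat_lit 228) (nat_lit 1137769973) (nat_lit 165) (nat_lit 1) (nat_lit 164) (nat_lit 1) (nat_lit 167) (nat_lit 1) (nat_lit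 387) (nat_lit 359) (nat_lit 274))) (XT.nd (nat_lit 78) (nat_lit 0) (nat_lit 0) (XT.lf (nat_lit 228) (nat_lit 1552599887) (nat_lit 0) (nat_lit 464870566) (nat_lit 152) (nat_lit 464870566) (nat_lit 165) (nat_lit 1) (nat_lit 162) (nat_lit 1) (nat_lit 164) (nat_lit 1) (nat_lit 388) (nat_lit 359) (nat_lit 273)) (XT.nd (nat_lit 46176) (nat_lit 0) (nat_lit 16112) (XT.lf (nat_lit 76) (nat_lit 417672029) (nat_lit 0) (nat_lit 1620926880) (nat_lit 228) (nat_lit 417672029) (nat_lit 163) (nat_lit 1) (nat_lit 162) (nat_lit 1) (nat_lit 165) (nat_lit 1) (nat_lit 389) (nat_lit 359) (nat_lit 272)) (XT.lf (nat_lit 1292) (nat_lit 673611001) (nat_lit 0) (nat_lit 2317535120) (nat_lit 1292) (nat_lit 673611001) (nat_lit 391) (nat_lit 1) (nat_lit 374) (nat_lit 0) (nat_lit 391) (nat_lit 0) (nat_lit 300) (nat_lit 360) (nat_lit 360))))) (XT.nd (nat_lit 234) (nat_lit 0) (nat_lit 152) (XT.nd (nat_lit 78) (nat_lit 0) (nat_lit 76)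 (XT.lf (nat_lit 1292) (nat_lit 2632483597) (nat_lit 76) (nat_lit 2294814188) (nat_lit 0) (nat_lit 2294814188) (nat_lit 391) (nat_lit 1) (nat_lit 375) (nat_lit 1) (nat_lit 374) (nat_lit 0) (nat_lit 301) (nat_lit 360) (nat_lit 359)) (XT.nd (nat_lit 78) (nat_lit 0) (nat_lit 0) (XT.lf (nat_lit 1292) (nat_lit 1273131833) (nat_lit 0) (nat_lit 4570815103) (nat_lit 1216) (nat_lit 1273131833) (nat_lit 392) (nat_lit 1) (nat_lit 375) (nat_lit 1) (nat_lit 391) (nat_lit 1) (nat_lit 302) (nat_lit 360) (nat_lit 358)) (XT.lf (nat_lit 1292) (nat_lit 2417743084) (nat_lit 76) (nat_lit 2298028250) (nat_lit 0) (nat_lit 2298028250) (nat_lit 392) (nat_lit 1) (nat_lit 376) (nat_lit 1) (nat_lit 375) (nat_lit 1) (nat_lit 303) (nat_lit 360) (nat_lit 357)))) (XT.nd (nat_lit 78) (nat_lit 0) (nat_lit 0) (XT.lf (nat_lit 1292) (nat_lit 1134513884) (nat_lit 0) (nat_lit 4643803538) (nat_lit 1216) (nat_lit 1134513884) (nat_lit 393) (nat_lit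 1) (nat_lit 376) (nat_lit 1) (nat_lit 392) (nat_lit 1) (nat_lit 304) (nat_lit 360) (nat_lit 356)) (XT.nd (nat_lit 78) (nat_lit 0) (nat_lit 76) (XT.lf (nat_lit 1292) (nat_lit 2079116481) (nat_lit 76) (nat_lit 2367180663) (nat_lit 0) (nat_lit 2367180663) (nat_lit 393) (nat_lit 1) (nat_lit 377) (nat_lit 1) (nat_lit 376) (nat_lit 1) (nat_lit 305) (nat_lit 360) (nat_lit 355)) (XT.lf (nat_lit 1292) (nat_lit 937075639) (nat_lit 0) (nat_lit 4842267250) (nat_lit 1216) (nat_lit 937075639) (nat_lit 394) (nat_lit 1) (nat_lit 377) (nat_lit 1) (nat_lit 393) (nat_lit 1) (nat_lit 306) (nat_lit 360) (nat_lit 354)))))) (XT.nd (nat_lit 390) (nat_lit 1064) (nat_lit 0) (XT.nd (nat_lit 156) (nat_lit 0) (nat_lit 76) (XT.nd (nat_lit 78) (nat_lit 0) (nat_lit 76) (XT.lf (nat_lit 1292) (nat_lit 1627682729) (nat_lit 76) (nat_lit 2496560388) (nat_lit 0) (nat_lit 2496560388) (nat_lit 394) (nat_lit 1) (nat_lit 378) (nat_lit 1) (nat_lit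 377) (nat_lit 1) (nat_lit 307) (nat_lit 360) (nat_lit 353)) (XT.lf (nat_lit 1292) (nat_lit 686138602) (nat_lit 0) (nat_lit 5155226792) (nat_lit 1216) (nat_lit 686138602) (nat_lit 395) (nat_lit 1) (nat_lit 378) (nat_lit 1) (nat_lit 394) (nat_lit 1) (nat_lit 308) (nat_lit 360) (nat_lit 352))) (XT.nd (nat_lit 78) (nat_lit 0) (nat_lit 76) (XT.lf (nat_lit 1292) (nat_lit 1073769236) (nat_lit 76) (nat_lit 2680840316) (nat_lit 0) (nat_lit 2680840316) (nat_lit 395) (nat_lit 1) (nat_lit 379) (nat_lit 1) (nat_lit 378) (nat_lit 1) (nat_lit 309) (nat_lit 360) (nat_lit 351)) (XT.nd (nat_lit 78) (nat_lit 0) (nat_lit 0) (XT.lf (nat_lit 1292) (nat_lit 386662148) (nat_lit 0) (nat_lit 5572442980) (nat_lit 1216) (nat_lit 386662148) (nat_lit 396) (nat_lit 1) (nat_lit 379) (nat_lit 1) (nat_lit 395) (nat_lit 1) (nat_lit 310) (nat_lit 360) (nat_lit 350)) (XT.lf (nat_lit 1292) (nat_lit 426998385) (nat_lit 76) (nat_lit 2915053597)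 (nat_lit 0) (nat_lit 2915053597) (nat_lit 396) (nat_lit 1) (nat_lit 380) (nat_lit 1) (nat_lit 379) (nat_lit 1) (nat_lit 311) (nat_lit 360) (nat_lit 349))))) (XT.nd (nat_lit 234) (nat_lit 0) (nat_lit 76) (XT.nd (nat_lit 78) (nat_lit 1292) (nat_lit 0) (XT.lf (nat_lit 1292) (nat_lit 43265965) (nat_lit 0) (nat_lit 6084371197) (nat_lit 1216) (nat_lit 43265965) (nat_lit 397) (nat_lit 1) (nat_lit 380) (nat_lit 1) (nat_lit 396) (nat_lit 1) (nat_lit 312) (nat_lit 360) (nat_lit 348)) (XT.nd (nat_lit 78) (nat_lit 0) (nat_lit 0) (XT.lf (nat_lit 1368) (nat_lit 2893821701) (nat_lit 0) (nat_lit 297743052) (nat_lit 1292) (nat_lit 2893821701) (nat_lit 381) (nat_lit 1) (nat_lit 363) (nat_lit 1) (nat_lit 380) (nat_lit 1) (nat_lit 313) (nat_lit 360) (nat_lit 347)) (XT.lf (nat_lit 1368) (nat_lit 5329390894) (nat_lit 76) (nat_lit 336417973) (nat_lit 0) (nat_lit 336417973) (nat_lit 381) (nat_lit 1) (nat_lit 364) (nat_lit 1)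 (nat_lit 363) (nat_lit 1) (nat_lit 314) (nat_lit 360) (nat_lit 346)))) (XT.nd (nat_lit 78) (nat_lit 0) (nat_lit 0) (XT.lf (nat_lit 1368) (nat_lit 2415859649) (nat_lit 0) (nat_lit 1088233170) (nat_lit 1292) (nat_lit 2415859649) (nat_lit 382) (nat_lit 1) (nat_lit 364) (nat_lit 1) (nat_lit 381) (nat_lit 1) (nat_lit 315) (nat_lit 360) (nat_lit 345)) (XT.nd (nat_lit 78) (nat_lit 0) (nat_lit 76) (XT.lf (nat_lit 1368) (nat_lit 4337874041) (nat_lit 76) (nat_lit 750944826) (nat_lit 0) (nat_lit 750944826) (nat_lit 382) (nat_lit 1) (nat_lit 365) (nat_lit 1) (nat_lit 364) (nat_lit 1) (nat_lit 316) (nat_lit 360) (nat_lit 344)) (XT.lf (nat_lit 76) (nat_lit 1907731688) (nat_lit 0) (nat_lit 1945196186) (nat_lit 1292) (nat_lit 1907731688) (nat_lit 366) (nat_lit 1) (nat_lit 365) (nat_lit 1) (nat_lit 382) (nat_lit 1) (nat_lit 317) (nat_lit 360) (nat_lit 343))))))) (XT.nd (nat_lit 858) (nat_lit 3420) (nat_lit 0) (XT.nd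 (nat_lit 390) (nat_lit 1748) (nat_lit 0) (XT.nd (nat_lit 156) (nat_lit 1216) (nat_lit 0) (XT.nd (nat_lit 78) (nat_lit 0) (nat_lit 0) (XT.lf (nat_lit 912) (nat_lit 3289198007) (nat_lit 0) (nat_lit 1197052988) (nat_lit 836) (nat_lit 1197052988) (nat_lit 366) (nat_lit 1) (nat_lit 354) (nat_lit 1) (nat_lit 365) (nat_lit 1) (nat_lit 318) (nat_lit 360) (nat_lit 342)) (XT.lf (nat_lit 76) (nat_lit 1372847218) (nat_lit 0) (nat_lit 2861558509) (nat_lit 912) (nat_lit 1372847218) (nat_lit 355) (nat_lit 1) (nat_lit 354) (nat_lit 1) (nat_lit 366) (nat_lit 1) (nat_lit 319) (nat_lit 360) (nat_lit 341))) (XT.nd (nat_lit 78) (nat_lit 608) (nat_lit 0) (XT.lf (nat_lit 684) (nat_lit 2189966573) (nat_lit 0) (nat_lit 1671316646) (nat_lit 608) (nat_lit 1671316646) (nat_lit 355) (nat_lit 1) (nat_lit 346) (nat_lit 1) (nat_lit 354) (nat_lit 1) (nat_lit 320) (nat_lit 360) (nat_lit 340)) (XT.nd (nat_lit 78) (nat_lit 608) (nat_lit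 0) (XT.lf (nat_lit 76) (nat_lit 814371060) (nat_lit 0) (nat_lit 3830747488) (nat_lit 684) (nat_lit 814371060) (nat_lit 347) (nat_lit 1) (nat_lit 346) (nat_lit 1) (nat_lit 355) (nat_lit 1) (nat_lit 321) (nat_lit 360) (nat_lit 339)) (XT.lf (nat_lit 684) (nat_lit 1046307664) (nat_lit 0) (nat_lit 2170553619) (nat_lit 608) (nat_lit 2170553619) (nat_lit 347) (nat_lit 1) (nat_lit 338) (nat_lit 1) (nat_lit 346) (nat_lit 1) (nat_lit 322) (nat_lit 360) (nat_lit 338))))) (XT.nd (nat_lit 234) (nat_lit 532) (nat_lit 0) (XT.nd (nat_lit 78) (nat_lit 1216) (nat_lit 0) (XT.lf (nat_lit 76) (nat_lit 235238917) (nat_lit 0) (nat_lit 4846659891) (nat_lit 684) (nat_lit 235238917) (nat_lit 339) (nat_lit 1) (nat_lit 338) (nat_lit 1) (nat_lit 347) (nat_lit 1) (nat_lit 323) (nat_lit 360) (nat_lit 337)) (XT.nd (nat_lit 78) (nat_lit 608) (nat_lit 0) (XT.lf (nat_lit 76) (nat_lit 2557021725) (nat_lit 0) (nat_lit 133440790) (nat_lit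 608) (nat_lit 2557021725) (nat_lit 331) (nat_lit 1) (nat_lit 330) (nat_lit 1) (nat_lit 338) (nat_lit 1) (nat_lit 324) (nat_lit 360) (nat_lit 336)) (XT.lf (nat_lit 684) (nat_lit 4462995107) (nat_lit 0) (nat_lit 358280755) (nat_lit 608) (nat_lit 358280755) (nat_lit 331) (nat_lit 1) (nat_lit 322) (nat_lit 1) (nat_lit 330) (nat_lit 1) (nat_lit 325) (nat_lit 360) (nat_lit 335)))) (XT.nd (nat_lit 78) (nat_lit 532) (nat_lit 0) (XT.lf (nat_lit 76) (nat_lit 1893360633) (nat_lit 0) (nat_lit 1325599170) (nat_lit 684) (nat_lit 1893360633) (nat_lit 323) (nat_lit 1) (nat_lit 322) (nat_lit 1) (nat_lit 331) (nat_lit 1) (nat_lit 326) (nat_lit 360) (nat_lit 334)) (XT.nd (nat_lit 78) (nat_lit 0) (nat_lit 0) (XT.lf (nat_lit 608) (nat_lit 3117148651) (nat_lit 0) (nat_lit 964757707) (nat_lit 532) (nat_lit 964757707) (nat_lit 323) (nat_lit 1) (nat_lit 315) (nat_lit 1) (nat_lit 322) (nat_lit 1) (nat_lit 327) (nat_lit 360) (nat_lit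 333)) (XT.lf (nat_lit 76) (nat_lit 1218107646) (nat_lit 0) (nat_lit 2545805803) (nat_lit 608) (nat_lit 1218107646) (nat_lit 316) (nat_lit 1) (nat_lit 315) (nat_lit 1) (nat_lit 323) (nat_lit 1) (nat_lit 328) (nat_lit 360) (nat_lit 332)))))) (XT.nd (nat_lit 468) (nat_lit 1368) (nat_lit 0) (XT.nd (nat_lit 234) (nat_lit 1064) (nat_lit 0) (XT.nd (nat_lit 78) (nat_lit 456) (nat_lit 0) (XT.lf (nat_lit 608) (nat_lit 1750156065) (nat_lit 0) (nat_lit 1584188955) (nat_lit 532) (nat_lit 1584188955) (nat_lit 316) (nat_lit 1) (nat_lit 308) (nat_lit 1) (nat_lit 315) (nat_lit 1) (nat_lit 329) (nat_lit 360) (nat_lit 331)) (XT.nd (nat_lit 78) (nat_lit 456) (nat_lit 0) (XT.lf (nat_lit 76) (nat_lit 533375433) (nat_lit 0) (nat_lit 3789640420) (nat_lit 608) (nat_lit 533375433) (nat_lit 309) (nat_lit 1) (nat_lit 308) (nat_lit 1) (nat_lit 316) (nat_lit 1) (nat_lit 330) (nat_lit 360) (nat_lit 330)) (XT.lf (nat_lit 532) (nat_lit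 366097337) (nat_lit 0) (nat_lit 2214439553) (nat_lit 456) (nat_lit 2214439553) (nat_lit 309) (nat_lit 1) (nat_lit 302) (nat_lit 1) (nat_lit 308) (nat_lit 1) (nat_lit 331) (nat_lit 360) (nat_lit 329)))) (XT.nd (nat_lit 78) (nat_lit 456) (nat_lit 0) (XT.lf (nat_lit 608) (nat_lit 4420402496) (nat_lit 0) (nat_lit 157329053) (nat_lit 532) (nat_lit 157329053) (nat_lit 302) (nat_lit 1) (nat_lit 294) (nat_lit 1) (nat_lit 301) (nat_lit 1) (nat_lit 332) (nat_lit 360) (nat_lit 328)) (XT.nd (nat_lit 78) (nat_lit 456) (nat_lit 0) (XT.lf (nat_lit 76) (nat_lit 1832185552) (nat_lit 0) (nat_lit 1011141533) (nat_lit 608) (nat_lit 1832185552) (nat_lit 295) (nat_lit 1) (nat_lit 294) (nat_lit 1) (nat_lit 302) (nat_lit 1) (nat_lit 333) (nat_lit 360) (nat_lit 327)) (XT.lf (nat_lit 532) (nat_lit 2920446891) (nat_lit 0) (nat_lit 848481727) (nat_lit 456) (nat_lit 848481727) (nat_lit 295) (nat_lit 1) (nat_lit 288) (nat_lit 1)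 (nat_lit 294) (nat_lit 1) (nat_lit 334) (nat_lit 360) (nat_lit 326))))) (XT.nd (nat_lit 234) (nat_lit 912) (nat_lit 0) (XT.nd (nat_lit 78) (nat_lit 456) (nat_lit 0) (XT.lf (nat_lit 76) (nat_lit 1084637529) (nat_lit 0) (nat_lit 2390883101) (nat_lit 532) (nat_lit 1084637529) (nat_lit 289) (nat_lit 1) (nat_lit 288) (nat_lit 1) (nat_lit 295) (nat_lit 1) (nat_lit 335) (nat_lit 360) (nat_lit 325)) (XT.nd (nat_lit 78) (nat_lit 0) (nat_lit 0) (XT.lf (nat_lit 532) (nat_lit 1416541986) (nat_lit 0) (nat_lit 1543674403) (nat_lit 456) (nat_lit 1543674403) (nat_lit 289) (nat_lit 1) (nat_lit 282) (nat_lit 1) (nat_lit 288) (nat_lit 1) (nat_lit 336) (nat_lit 360) (nat_lit 324)) (XT.lf (nat_lit 76) (nat_lit 335854005) (nat_lit 0) (nat_lit 3777145772) (nat_lit 532) (nat_lit 335854005) (nat_lit 283) (nat_lit 1) (nat_lit 282) (nat_lit 1) (nat_lit 289) (nat_lit 1) (nat_lit 337) (nat_lit 360) (nat_lit 323)))) (XT.nd (nat_lit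 78) (nat_lit 456) (nat_lit 0) (XT.lf (nat_lit 76) (nat_lit 2153789662) (nat_lit 0) (nat_lit 86736388) (nat_lit 456) (nat_lit 2153789662) (nat_lit 277) (nat_lit 1) (nat_lit 276) (nat_lit 1) (nat_lit 282) (nat_lit 1) (nat_lit 338) (nat_lit 360) (nat_lit 322)) (XT.nd (nat_lit 78) (nat_lit 0) (nat_lit 0) (XT.lf (nat_lit 532) (nat_lit 3523441139) (nat_lit 0) (nat_lit 408761098) (nat_lit 456) (nat_lit 408761098) (nat_lit 277) (nat_lit 1) (nat_lit 270) (nat_lit 1) (nat_lit 276) (nat_lit 1) (nat_lit 339) (nat_lit 360) (nat_lit 321)) (XT.lf (nat_lit 76) (nat_lit 1363628186) (nat_lit 0) (nat_lit 1560892454) (nat_lit 532) (nat_lit 1363628186) (nat_lit 271) (nat_lit 1) (nat_lit 270) (nat_lit 1) (nat_lit 277) (nat_lit 1) (nat_lit 340) (nat_lit 360) (nat_lit 320))))))))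
noncomputable def ec48 : XT := (XT.nd (nat_lit 1716) (nat_lit 2964) (nat_lit 0) (XT.nd (nat_lit 858) (nat_lit 2204) (nat_lit 0) (XT.nd (nat_lit 390) (nat_lit 1444) (nat_lit 0) (XT.nd (nat_lit 156) (nat_lit 836) (nat_lit 0) (XT.nd (nat_lit 78) (nat_lit 0) (nat_lit 0) (XT.lf (nat_lit 456) (nat_lit 1938958588) (nat_lit 0) (nat_lit 1148734151) (nat_lit 380) (nat_lit 1148734151) (nat_lit 271) (nat_lit 1) (nat_lit 265) (nat_lit 1) (nat_lit 270) (nat_lit 1) (nat_lit 341) (nat_lit 360) (nat_lit 319)) (XT.lf (nat_lit 76) (nat_lit 577211661) (nat_lit 0) (nat_lit 3031228942) (nat_lit 456) (nat_lit 577211661) (nat_lit 266) (nat_lit 1) (nat_lit 265) (nat_lit 1) (nat_lit 271) (nat_lit 1) (nat_lit 342) (nat_lit 360) (nat_lit 318))) (XT.nd (nat_lit 78) (nat_lit 456) (nat_lit 0) (XT.lf (nat_lit 456) (nat_lit 363020668) (nat_lit 0) (nat_lit 1886235136) (nat_lit 380) (nat_lit 1886235136) (nat_lit 266) (nat_lit 1) (nat_lit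 260) (nat_lit 1) (nat_lit 265) (nat_lit 1) (nat_lit 343) (nat_lit 360) (nat_lit 317)) (XT.nd (nat_lit 78) (nat_lit 0) (nat_lit 0) (XT.lf (nat_lit 456) (nat_lit 3681532284) (nat_lit 0) (nat_lit 202458306) (nat_lit 380) (nat_lit 202458306) (nat_lit 260) (nat_lit 1) (nat_lit 254) (nat_lit 1) (nat_lit 259) (nat_lit 1) (nat_lit 344) (nat_lit 360) (nat_lit 316)) (XT.lf (nat_lit 76) (nat_lit 1429336768) (nat_lit 0) (nat_lit 1178998412) (nat_lit 456) (nat_lit 1429336768) (nat_lit 255) (nat_lit 1) (nat_lit 254) (nat_lit 1) (nat_lit 260) (nat_lit 1) (nat_lit 345) (nat_lit 360) (nat_lit 315))))) (XT.nd (nat_lit 234) (nat_lit 760) (nat_lit 0) (XT.nd (nat_lit 78) (nat_lit 304) (nat_lit 0) (XT.lf (nat_lit 456) (nat_lit 2048222741) (nat_lit 0) (nat_lit 970878142) (nat_lit 380) (nat_lit 970878142) (nat_lit 255) (nat_lit 1) (nat_lit 249) (nat_lit 1) (nat_lit 254) (nat_lit 1) (nat_lit 346) (nat_lit 360) (nat_lit 314))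 (XT.nd (nat_lit 78) (nat_lit 304) (nat_lit 0) (XT.lf (nat_lit 76) (nat_lit 620548938) (nat_lit 0) (nat_lit 2701986678) (nat_lit 456) (nat_lit 620548938) (nat_lit 250) (nat_lit 1) (nat_lit 249) (nat_lit 1) (nat_lit 255) (nat_lit 1) (nat_lit 347) (nat_lit 360) (nat_lit 313)) (XT.lf (nat_lit 380) (nat_lit 430991436) (nat_lit 0) (nat_lit 1732896474) (nat_lit 304) (nat_lit 1732896474) (nat_lit 250) (nat_lit 1) (nat_lit 245) (nat_lit 1) (nat_lit 249) (nat_lit 1) (nat_lit 348) (nat_lit 360) (nat_lit 312)))) (XT.nd (nat_lit 78) (nat_lit 304) (nat_lit 0) (XT.lf (nat_lit 456) (nat_lit 3495240328) (nat_lit 0) (nat_lit 178129795) (nat_lit 380) (nat_lit 178129795) (nat_lit 245) (nat_lit 1) (nat_lit 239) (nat_lit 1) (nat_lit 244) (nat_lit 1) (nat_lit 349) (nat_lit 360) (nat_lit 311)) (XT.nd (nat_lit 78) (nat_lit 304) (nat_lit 0) (XT.lf (nat_lit 76) (nat_lit 1330195836) (nat_lit 0) (nat_lit 1146014124) (nat_lit 456)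 (nat_lit 1330195836) (nat_lit 240) (nat_lit 1) (nat_lit 239) (nat_lit 1) (nat_lit 245) (nat_lit 1) (nat_lit 350) (nat_lit 360) (nat_lit 310)) (XT.lf (nat_lit 380) (nat_lit 1838623564) (nat_lit 0) (nat_lit 961837143) (nat_lit 304) (nat_lit 961837143) (nat_lit 240) (nat_lit 1) (nat_lit 235) (nat_lit 1) (nat_lit 239) (nat_lit 1) (nat_lit 351) (nat_lit 360) (nat_lit 309)))))) (XT.nd (nat_lit 390) (nat_lit 1216) (nat_lit 0) (XT.nd (nat_lit 156) (nat_lit 684) (nat_lit 0) (XT.nd (nat_lit 78) (nat_lit 304) (nat_lit 0) (XT.lf (nat_lit 76) (nat_lit 511293127) (nat_lit 0) (nat_lit 2696358127) (nat_lit 380) (nat_lit 511293127) (nat_lit 236) (nat_lit 1) (nat_lit 235) (nat_lit 1) (nat_lit 240) (nat_lit 1) (nat_lit 352) (nat_lit 360) (nat_lit 308)) (XT.lf (nat_lit 380) (nat_lit 203882140) (nat_lit 0) (nat_lit 1736100774) (nat_lit 304) (nat_lit 1736100774) (nat_lit 236) (nat_lit 1) (nat_lit 231) (nat_lit 1) (nat_lit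 235) (nat_lit 1) (nat_lit 353) (nat_lit 360) (nat_lit 307))) (XT.nd (nat_lit 78) (nat_lit 304) (nat_lit 0) (XT.lf (nat_lit 380) (nat_lit 3046887645) (nat_lit 0) (nat_lit 293590592) (nat_lit 304) (nat_lit 293590592) (nat_lit 231) (nat_lit 1) (nat_lit 226) (nat_lit 1) (nat_lit 230) (nat_lit 1) (nat_lit 354) (nat_lit 360) (nat_lit 306)) (XT.nd (nat_lit 78) (nat_lit 304) (nat_lit 0) (XT.lf (nat_lit 76) (nat_lit 1105856092) (nat_lit 0) (nat_lit 1380629780) (nat_lit 380) (nat_lit 1105856092) (nat_lit 227) (nat_lit 1) (nat_lit 226) (nat_lit 1) (nat_lit 231) (nat_lit 1) (nat_lit 355) (nat_lit 360) (nat_lit 305)) (XT.lf (nat_lit 380) (nat_lit 1387326636) (nat_lit 0) (nat_lit 1082054784) (nat_lit 304) (nat_lit 1082054784) (nat_lit 227) (nat_lit 1) (nat_lit 222) (nat_lit 1) (nat_lit 226) (nat_lit 1) (nat_lit 356) (nat_lit 360) (nat_lit 304))))) (XT.nd (nat_lit 234) (nat_lit 608) (nat_lit 0) (XT.nd (nat_lit 78)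 (nat_lit 608) (nat_lit 0) (XT.lf (nat_lit 76) (nat_lit 286608205) (nat_lit 0) (nat_lit 2938105390) (nat_lit 380) (nat_lit 286608205) (nat_lit 223) (nat_lit 1) (nat_lit 222) (nat_lit 1) (nat_lit 227) (nat_lit 1) (nat_lit 357) (nat_lit 360) (nat_lit 303)) (XT.nd (nat_lit 78) (nat_lit 304) (nat_lit 0) (XT.lf (nat_lit 76) (nat_lit 1615139562) (nat_lit 0) (nat_lit 241186733) (nat_lit 304) (nat_lit 1615139562) (nat_lit 219) (nat_lit 1) (nat_lit 218) (nat_lit 1) (nat_lit 222) (nat_lit 1) (nat_lit 358) (nat_lit 360) (nat_lit 302)) (XT.lf (nat_lit 380) (nat_lit 2403670286) (nat_lit 0) (nat_lit 514354507) (nat_lit 304) (nat_lit 514354507) (nat_lit 219) (nat_lit 1) (nat_lit 214) (nat_lit 1) (nat_lit 218) (nat_lit 1) (nat_lit 359) (nat_lit 360) (nat_lit 301)))) (XT.nd (nat_lit 78) (nat_lit 608) (nat_lit 0) (XT.lf (nat_lit 76) (nat_lit 788669358) (nat_lit 0) (nat_lit 1816399305) (nat_lit 380) (nat_lit 788669358)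 (nat_lit 215) (nat_lit 1) (nat_lit 214) (nat_lit 1) (nat_lit 219) (nat_lit 1) (nat_lit 360) (nat_lit 360) (nat_lit 300)) (XT.nd (nat_lit 78) (nat_lit 380) (nat_lit 0) (XT.lf (nat_lit 304) (nat_lit 757267221) (nat_lit 0) (nat_lit 1299218160) (nat_lit 228) (nat_lit 1299218160) (nat_lit 215) (nat_lit 1) (nat_lit 211) (nat_lit 1) (nat_lit 214) (nat_lit 1) (nat_lit 361) (nat_lit 360) (nat_lit 299)) (XT.lf (nat_lit 380) (nat_lit 3272570246) (nat_lit 0) (nat_lit 22980664) (nat_lit 304) (nat_lit 22980664) (nat_lit 211) (nat_lit 1) (nat_lit 206) (nat_lit 1) (nat_lit 210) (nat_lit 1) (nat_lit 362) (nat_lit 360) (nat_lit 298))))))) (XT.nd (nat_lit 858) (nat_lit 1444) (nat_lit 0) (XT.nd (nat_lit 390) (nat_lit 760) (nat_lit 0) (XT.nd (nat_lit 156) (nat_lit 532) (nat_lit 0) (XT.nd (nat_lit 78) (nat_lit 228) (nat_lit 0) (XT.lf (nat_lit 76) (nat_lit 1219190161) (nat_lit 0) (nat_lit 842906208) (nat_lit 380) (nat_lit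 1219190161) (nat_lit 207) (nat_lit 1) (nat_lit 206) (nat_lit 1) (nat_lit 211) (nat_lit 1) (nat_lit 363) (nat_lit 360) (nat_lit 297)) (XT.lf (nat_lit 304) (nat_lit 1620223406) (nat_lit 0) (nat_lit 812331097) (nat_lit 228) (nat_lit 812331097) (nat_lit 207) (nat_lit 1) (nat_lit 203) (nat_lit 1) (nat_lit 206) (nat_lit 1) (nat_lit 364) (nat_lit 360) (nat_lit 296))) (XT.nd (nat_lit 78) (nat_lit 532) (nat_lit 0) (XT.lf (nat_lit 76) (nat_lit 404927243) (nat_lit 0) (nat_lit 2399223166) (nat_lit 304) (nat_lit 404927243) (nat_lit 204) (nat_lit 1) (nat_lit 203) (nat_lit 1) (nat_lit 207) (nat_lit 1) (nat_lit 365) (nat_lit 360) (nat_lit 295)) (XT.nd (nat_lit 78) (nat_lit 228) (nat_lit 0) (XT.lf (nat_lit 76) (nat_lit 1586601318) (nat_lit 0) (nat_lit 424794) (nat_lit 304) (nat_lit 1586601318) (nat_lit 200) (nat_lit 1) (nat_lit 199) (nat_lit 1) (nat_lit 203) (nat_lit 1) (nat_lit 366) (nat_lit 360) (nat_lit 294)) (XT.lf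 (nat_lit 304) (nat_lit 2359354587) (nat_lit 0) (nat_lit 389699628) (nat_lit 228) (nat_lit 389699628) (nat_lit 200) (nat_lit 1) (nat_lit 196) (nat_lit 1) (nat_lit 199) (nat_lit 1) (nat_lit 367) (nat_lit 360) (nat_lit 293))))) (XT.nd (nat_lit 234) (nat_lit 228) (nat_lit 0) (XT.nd (nat_lit 78) (nat_lit 532) (nat_lit 0) (XT.lf (nat_lit 76) (nat_lit 772925451) (nat_lit 0) (nat_lit 1558364703) (nat_lit 304) (nat_lit 772925451) (nat_lit 197) (nat_lit 1) (nat_lit 196) (nat_lit 1) (nat_lit 200) (nat_lit 1) (nat_lit 368) (nat_lit 360) (nat_lit 292)) (XT.nd (nat_lit 78) (nat_lit 304) (nat_lit 0) (XT.lf (nat_lit 304) (nat_lit 740763415) (nat_lit 0) (nat_lit 1164737464) (nat_lit 228) (nat_lit 1164737464) (nat_lit 197) (nat_lit 1) (nat_lit 193) (nat_lit 1) (nat_lit 196) (nat_lit 1) (nat_lit 369) (nat_lit 360) (nat_lit 291)) (XT.lf (nat_lit 304) (nat_lit 2989272571) (nat_lit 0) (nat_lit 23868286) (nat_lit 228) (nat_lit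 23868286) (nat_lit 193) (nat_lit 1) (nat_lit 189) (nat_lit 1) (nat_lit 192) (nat_lit 1) (nat_lit 370) (nat_lit 360) (nat_lit 290)))) (XT.nd (nat_lit 78) (nat_lit 228) (nat_lit 0) (XT.lf (nat_lit 76) (nat_lit 1087853515) (nat_lit 0) (nat_lit 827971316) (nat_lit 304) (nat_lit 1087853515) (nat_lit 190) (nat_lit 1) (nat_lit 189) (nat_lit 1) (nat_lit 193) (nat_lit 1) (nat_lit 371) (nat_lit 360) (nat_lit 289)) (XT.nd (nat_lit 78) (nat_lit 0) (nat_lit 0) (XT.lf (nat_lit 304) (nat_lit 1377720207) (nat_lit 0) (nat_lit 796680856) (nat_lit 228) (nat_lit 796680856) (nat_lit 190) (nat_lit 1) (nat_lit 186) (nat_lit 1) (nat_lit 189) (nat_lit 1) (nat_lit 372) (nat_lit 360) (nat_lit 288)) (XT.lf (nat_lit 76) (nat_lit 294667462) (nat_lit 0) (nat_lit 2349702675) (nat_lit 304) (nat_lit 294667462) (nat_lit 187) (nat_lit 1) (nat_lit 186) (nat_lit 1) (nat_lit 190) (nat_lit 1) (nat_lit 373) (nat_lit 360) (nat_lit 287))))))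 (XT.nd (nat_lit 390) (nat_lit 532) (nat_lit 0) (XT.nd (nat_lit 156) (nat_lit 456) (nat_lit 0) (XT.nd (nat_lit 78) (nat_lit 228) (nat_lit 0) (XT.lf (nat_lit 76) (nat_lit 1355979935) (nat_lit 0) (nat_lit 195238354) (nat_lit 228) (nat_lit 1355979935) (nat_lit 184) (nat_lit 1) (nat_lit 183) (nat_lit 1) (nat_lit 186) (nat_lit 1) (nat_lit 374) (nat_lit 360) (nat_lit 286)) (XT.lf (nat_lit 304) (nat_lit 1922689964) (nat_lit 0) (nat_lit 476604413) (nat_lit 228) (nat_lit 476604413) (nat_lit 184) (nat_lit 1) (nat_lit 180) (nat_lit 1) (nat_lit 183) (nat_lit 1) (nat_lit 375) (nat_lit 360) (nat_lit 285))) (XT.nd (nat_lit 78) (nat_lit 456) (nat_lit 0) (XT.lf (nat_lit 76) (nat_lit 568685983) (nat_lit 0) (nat_lit 1707584563) (nat_lit 304) (nat_lit 568685983) (nat_lit 181) (nat_lit 1) (nat_lit 180) (nat_lit 1) (nat_lit 184) (nat_lit 1) (nat_lit 376) (nat_lit 360) (nat_lit 284)) (XT.nd (nat_lit 78) (nat_lit 304) (nat_lit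 0) (XT.lf (nat_lit 228) (nat_lit 358186285) (nat_lit 0) (nat_lit 1228120806) (nat_lit 152) (nat_lit 1228120806) (nat_lit 181) (nat_lit 1) (nat_lit 178) (nat_lit 1) (nat_lit 180) (nat_lit 1) (nat_lit 377) (nat_lit 360) (nat_lit 283)) (XT.lf (nat_lit 304) (nat_lit 2386540862) (nat_lit 0) (nat_lit 198955675) (nat_lit 228) (nat_lit 198955675) (nat_lit 178) (nat_lit 1) (nat_lit 174) (nat_lit 1) (nat_lit 177) (nat_lit 1) (nat_lit 378) (nat_lit 360) (nat_lit 282))))) (XT.nd (nat_lit 234) (nat_lit 380) (nat_lit 0) (XT.nd (nat_lit 78) (nat_lit 152) (nat_lit 0) (XT.lf (nat_lit 76) (nat_lit 803209703) (nat_lit 0) (nat_lit 1148141690) (nat_lit 304) (nat_lit 803209703) (nat_lit 175) (nat_lit 1) (nat_lit 174) (nat_lit 1) (nat_lit 178) (nat_lit 1) (nat_lit 379) (nat_lit 360) (nat_lit 281)) (XT.nd (nat_lit 78) (nat_lit 0) (nat_lit 0) (XT.lf (nat_lit 228) (nat_lit 837763644) (nat_lit 0) (nat_lit 943724548) (nat_lit 152)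 (nat_lit 943724548) (nat_lit 175) (nat_lit 1) (nat_lit 172) (nat_lit 1) (nat_lit 174) (nat_lit 1) (nat_lit 380) (nat_lit 360) (nat_lit 280)) (XT.lf (nat_lit 76) (nat_lit 41600612) (nat_lit 0) (nat_lit 2613276376) (nat_lit 228) (nat_lit 41600612) (nat_lit 173) (nat_lit 1) (nat_lit 172) (nat_lit 1) (nat_lit 175) (nat_lit 1) (nat_lit 381) (nat_lit 360) (nat_lit 279)))) (XT.nd (nat_lit 78) (nat_lit 152) (nat_lit 0) (XT.lf (nat_lit 76) (nat_lit 1002903139) (nat_lit 0) (nat_lit 661832246) (nat_lit 228) (nat_lit 1002903139) (nat_lit 170) (nat_lit 1) (nat_lit 169) (nat_lit 1) (nat_lit 172) (nat_lit 1) (nat_lit 382) (nat_lit 360) (nat_lit 278)) (XT.nd (nat_lit 78) (nat_lit 0) (nat_lit 0) (XT.lf (nat_lit 228) (nat_lit 1248730273) (nat_lit 0) (nat_lit 695336668) (nat_lit 152) (nat_lit 695336668) (nat_lit 170) (nat_lit 1) (nat_lit 167) (nat_lit 1) (nat_lit 169) (nat_lit 1) (nat_lit 383) (nat_lit 360) (nat_lit 277))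 (XT.lf (nat_lit 76) (nat_lit 250670679) (nat_lit 0) (nat_lit 2110289607) (nat_lit 228) (nat_lit 250670679) (nat_lit 168) (nat_lit 1) (nat_lit 167) (nat_lit 1) (nat_lit 170) (nat_lit 1) (nat_lit 384) (nat_lit 360) (nat_lit 276))))))))
noncomputable def ec49 : XT := (XT.nd (nat_lit 47658) (nat_lit 0) (nat_lit 9044) (XT.nd (nat_lit 46800) (nat_lit 0) (nat_lit 15656) (XT.nd (nat_lit 46332) (nat_lit 0) (nat_lit 16492) (XT.nd (nat_lit 156) (nat_lit 380) (nat_lit 0) (XT.nd (nat_lit 78) (nat_lit 152) (nat_lit 0) (XT.lf (nat_lit 76) (nat_lit 1171903072) (nat_lit 0) (nat_lit 240187850) (nat_lit 228) (nat_lit 1171903072) (nat_lit 165) (nat_lit 1) (nat_lit 164) (nat_lit 1) (nat_lit 167) (nat_lit 1) (nat_lit 385) (nat_lit 360) (nat_lit 275)) (XT.lf (nat_lit 228) (nat_lit 1599177884) (nat_lit 0) (nat_lit 478816682) (nat_lit 152) (nat_lit 478816682) (nat_lit 165) (nat_lit 1) (nat_lit 162) (nat_lit 1) (nat_lit 164)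 (nat_lit 1) (nat_lit 386) (nat_lit 360) (nat_lit 274))) (XT.nd (nat_lit 78) (nat_lit 380) (nat_lit 0) (XT.lf (nat_lit 76) (nat_lit 430202190) (nat_lit 0) (nat_lit 1669554686) (nat_lit 228) (nat_lit 430202190) (nat_lit 163) (nat_lit 1) (nat_lit 162) (nat_lit 1) (nat_lit 165) (nat_lit 1) (nat_lit 387) (nat_lit 360) (nat_lit 273)) (XT.nd (nat_lit 78) (nat_lit 228) (nat_lit 0) (XT.lf (nat_lit 228) (nat_lit 126780369) (nat_lit 0) (nat_lit 1188315937) (nat_lit 152) (nat_lit 1188315937) (nat_lit 163) (nat_lit 1) (nat_lit 160) (nat_lit 1) (nat_lit 162) (nat_lit 1) (nat_lit 388) (nat_lit 360) (nat_lit 272)) (XT.lf (nat_lit 228) (nat_lit 1896283021) (nat_lit 0) (nat_lit 290489468) (nat_lit 152) (nat_lit 290489468) (nat_lit 160) (nat_lit 1) (nat_lit 157) (nat_lit 1) (nat_lit 159) (nat_lit 1) (nat_lit 389) (nat_lit 360) (nat_lit 271))))) (XT.nd (nat_lit 234) (nat_lit 0) (nat_lit 76) (XT.nd (nat_lit 78) (nat_lit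 0) (nat_lit 0) (XT.lf (nat_lit 1292) (nat_lit 693819331) (nat_lit 0) (nat_lit 2387061174) (nat_lit 1292) (nat_lit 693819331) (nat_lit 391) (nat_lit 1) (nat_lit 374) (nat_lit 0) (nat_lit 391) (nat_lit 0) (nat_lit 298) (nat_lit 361) (nat_lit 361)) (XT.nd (nat_lit 78) (nat_lit 0) (nat_lit 76) (XT.lf (nat_lit 1292) (nat_lit 2711458105) (nat_lit 76) (nat_lit 2363658613) (nat_lit 0) (nat_lit 2363658613) (nat_lit 391) (nat_lit 1) (nat_lit 375) (nat_lit 1) (nat_lit 374) (nat_lit 0) (nat_lit 299) (nat_lit 361) (nat_lit 360)) (XT.lf (nat_lit 1292) (nat_lit 1311325788) (nat_lit 0) (nat_lit 4707939556) (nat_lit 1216) (nat_lit 1311325788) (nat_lit 392) (nat_lit 1) (nat_lit 375) (nat_lit 1) (nat_lit 391) (nat_lit 1) (nat_lit 300) (nat_lit 361) (nat_lit 359)))) (XT.nd (nat_lit 78) (nat_lit 0) (nat_lit 76) (XT.lf (nat_lit 1292) (nat_lit 2490275376) (nat_lit 76) (nat_lit 2366969098) (nat_lit 0) (nat_lit 2366969098) (nat_lit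 392) (nat_lit 1) (nat_lit 376) (nat_lit 1) (nat_lit 375) (nat_lit 1) (nat_lit 301) (nat_lit 361) (nat_lit 358)) (XT.nd (nat_lit 78) (nat_lit 0) (nat_lit 0) (XT.lf (nat_lit 1292) (nat_lit 1168549300) (nat_lit 0) (nat_lit 4783117644) (nat_lit 1216) (nat_lit 1168549300) (nat_lit 393) (nat_lit 1) (nat_lit 376) (nat_lit 1) (nat_lit 392) (nat_lit 1) (nat_lit 302) (nat_lit 361) (nat_lit 357)) (XT.lf (nat_lit 1292) (nat_lit 2141489976) (nat_lit 76) (nat_lit 2438196083) (nat_lit 0) (nat_lit 2438196083) (nat_lit 393) (nat_lit 1) (nat_lit 377) (nat_lit 1) (nat_lit 376) (nat_lit 1) (nat_lit 303) (nat_lit 361) (nat_lit 356)))))) (XT.nd (nat_lit 390) (nat_lit 1064) (nat_lit 0) (XT.nd (nat_lit 156) (nat_lit 0) (nat_lit 76) (XT.nd (nat_lit 78) (nat_lit 0) (nat_lit 0) (XT.lf (nat_lit 1292) (nat_lit 965187909) (nat_lit 0) (nat_lit 4987535268) (nat_lit 1216) (nat_lit 965187909) (nat_lit 394) (nat_lit 1) (nat_lit 377) (nat_lit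 1) (nat_lit 393) (nat_lit 1) (nat_lit 304) (nat_lit 361) (nat_lit 355)) (XT.lf (nat_lit 1292) (nat_lit 1676513211) (nat_lit 76) (nat_lit 2571457199) (nat_lit 0) (nat_lit 2571457199) (nat_lit 394) (nat_lit 1) (nat_lit 378) (nat_lit 1) (nat_lit 377) (nat_lit 1) (nat_lit 305) (nat_lit 361) (nat_lit 354))) (XT.nd (nat_lit 78) (nat_lit 0) (nat_lit 0) (XT.lf (nat_lit 1292) (nat_lit 706722760) (nat_lit 0) (nat_lit 5309883596) (nat_lit 1216) (nat_lit 706722760) (nat_lit 395) (nat_lit 1) (nat_lit 378) (nat_lit 1) (nat_lit 394) (nat_lit 1) (nat_lit 306) (nat_lit 361) (nat_lit 353)) (XT.nd (nat_lit 78) (nat_lit 0) (nat_lit 76) (XT.lf (nat_lit 1292) (nat_lit 1105982313) (nat_lit 76) (nat_lit 2761265525) (nat_lit 0) (nat_lit 2761265525) (nat_lit 395) (nat_lit 1) (nat_lit 379) (nat_lit 1) (nat_lit 378) (nat_lit 1) (nat_lit 307) (nat_lit 361) (nat_lit 352)) (XT.lf (nat_lit 1292) (nat_lit 398262012) (nat_lit 0) (nat_lit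 5739616269) (nat_lit 1216) (nat_lit 398262012) (nat_lit 396) (nat_lit 1) (nat_lit 379) (nat_lit 1) (nat_lit 395) (nat_lit 1) (nat_lit 308) (nat_lit 361) (nat_lit 351))))) (XT.nd (nat_lit 234) (nat_lit 0) (nat_lit 0) (XT.nd (nat_lit 78) (nat_lit 1216) (nat_lit 0) (XT.lf (nat_lit 1292) (nat_lit 439808337) (nat_lit 76) (nat_lit 3002505205) (nat_lit 0) (nat_lit 3002505205) (nat_lit 396) (nat_lit 1) (nat_lit 380) (nat_lit 1) (nat_lit 379) (nat_lit 1) (nat_lit 309) (nat_lit 361) (nat_lit 350)) (XT.nd (nat_lit 78) (nat_lit 1292) (nat_lit 0) (XT.lf (nat_lit 1292) (nat_lit 44563944) (nat_lit 0) (nat_lit 6266902333) (nat_lit 1216) (nat_lit 44563944) (nat_lit 397) (nat_lit 1) (nat_lit 380) (nat_lit 1) (nat_lit 396) (nat_lit 1) (nat_lit 310) (nat_lit 361) (nat_lit 349)) (XT.lf (nat_lit 1368) (nat_lit 2980636353) (nat_lit 0) (nat_lit 306675344) (nat_lit 1292) (nat_lit 2980636353) (nat_lit 381) (nat_lit 1) (nat_lit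 363) (nat_lit 1) (nat_lit 380) (nat_lit 1) (nat_lit 311) (nat_lit 361) (nat_lit 348)))) (XT.nd (nat_lit 78) (nat_lit 0) (nat_lit 76) (XT.lf (nat_lit 1368) (nat_lit 5489272621) (nat_lit 76) (nat_lit 346510512) (nat_lit 0) (nat_lit 346510512) (nat_lit 381) (nat_lit 1) (nat_lit 364) (nat_lit 1) (nat_lit 363) (nat_lit 1) (nat_lit 312) (nat_lit 361) (nat_lit 347)) (XT.nd (nat_lit 78) (nat_lit 0) (nat_lit 0) (XT.lf (nat_lit 1368) (nat_lit 2488335439) (nat_lit 0) (nat_lit 1120880165) (nat_lit 1292) (nat_lit 2488335439) (nat_lit 382) (nat_lit 1) (nat_lit 364) (nat_lit 1) (nat_lit 381) (nat_lit 1) (nat_lit 313) (nat_lit 361) (nat_lit 346)) (XT.lf (nat_lit 1368) (nat_lit 4468010262) (nat_lit 76) (nat_lit 773473170) (nat_lit 0) (nat_lit 773473170) (nat_lit 382) (nat_lit 1) (nat_lit 365) (nat_lit 1) (nat_lit 364) (nat_lit 1) (nat_lit 314) (nat_lit 361) (nat_lit 345))))))) (XT.nd (nat_lit 858) (nat_lit 2964) (nat_lit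 0) (XT.nd (nat_lit 390) (nat_lit 2356) (nat_lit 0) (XT.nd (nat_lit 156) (nat_lit 608) (nat_lit 0) (XT.nd (nat_lit 78) (nat_lit 836) (nat_lit 0) (XT.lf (nat_lit 76) (nat_lit 1964963639) (nat_lit 0) (nat_lit 2003552071) (nat_lit 1292) (nat_lit 1964963639) (nat_lit 366) (nat_lit 1) (nat_lit 365) (nat_lit 1) (nat_lit 382) (nat_lit 1) (nat_lit 315) (nat_lit 361) (nat_lit 344)) (XT.lf (nat_lit 912) (nat_lit 3387873947) (nat_lit 0) (nat_lit 1232964578) (nat_lit 836) (nat_lit 1232964578) (nat_lit 366) (nat_lit 1) (nat_lit 354) (nat_lit 1) (nat_lit 365) (nat_lit 1) (nat_lit 316) (nat_lit 361) (nat_lit 343))) (XT.nd (nat_lit 78) (nat_lit 608) (nat_lit 0) (XT.lf (nat_lit 76) (nat_lit 1414032635) (nat_lit 0) (nat_lit 2947405264) (nat_lit 912) (nat_lit 1414032635) (nat_lit 355) (nat_lit 1) (nat_lit 354) (nat_lit 1) (nat_lit 366) (nat_lit 1) (nat_lit 317) (nat_lit 361) (nat_lit 342)) (XT.nd (nat_lit 78) (nat_lit 0)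 (nat_lit 0) (XT.lf (nat_lit 684) (nat_lit 2255665571) (nat_lit 0) (nat_lit 1721456145) (nat_lit 608) (nat_lit 1721456145) (nat_lit 355) (nat_lit 1) (nat_lit 346) (nat_lit 1) (nat_lit 354) (nat_lit 1) (nat_lit 318) (nat_lit 361) (nat_lit 341)) (XT.lf (nat_lit 76) (nat_lit 838802192) (nat_lit 0) (nat_lit 3945669912) (nat_lit 684) (nat_lit 838802192) (nat_lit 347) (nat_lit 1) (nat_lit 346) (nat_lit 1) (nat_lit 355) (nat_lit 1) (nat_lit 319) (nat_lit 361) (nat_lit 340))))) (XT.nd (nat_lit 234) (nat_lit 1140) (nat_lit 0) (XT.nd (nat_lit 78) (nat_lit 608) (nat_lit 0) (XT.lf (nat_lit 684) (nat_lit 1077696893) (nat_lit 0) (nat_lit 2235670227) (nat_lit 608) (nat_lit 2235670227) (nat_lit 347) (nat_lit 1) (nat_lit 338) (nat_lit 1) (nat_lit 346) (nat_lit 1) (nat_lit 320) (nat_lit 361) (nat_lit 339)) (XT.nd (nat_lit 78) (nat_lit 608) (nat_lit 0) (XT.lf (nat_lit 76) (nat_lit 242296085) (nat_lit 0) (nat_lit 4992059688)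 (nat_lit 684) (nat_lit 242296085) (nat_lit 339) (nat_lit 1) (nat_lit 338) (nat_lit 1) (nat_lit 347) (nat_lit 1) (nat_lit 321) (nat_lit 361) (nat_lit 338)) (XT.lf (nat_lit 76) (nat_lit 2633732377) (nat_lit 0) (nat_lit 137444014) (nat_lit 608) (nat_lit 2633732377) (nat_lit 331) (nat_lit 1) (nat_lit 330) (nat_lit 1) (nat_lit 338) (nat_lit 1) (nat_lit 322) (nat_lit 361) (nat_lit 337)))) (XT.nd (nat_lit 78) (nat_lit 532) (nat_lit 0) (XT.lf (nat_lit 684) (nat_lit 4596884961) (nat_lit 0) (nat_lit 369029177) (nat_lit 608) (nat_lit 369029177) (nat_lit 331) (nat_lit 1) (nat_lit 322) (nat_lit 1) (nat_lit 330) (nat_lit 1) (nat_lit 323) (nat_lit 361) (nat_lit 336)) (XT.nd (nat_lit 78) (nat_lit 532) (nat_lit 0) (XT.lf (nat_lit 76) (nat_lit 1950161452) (nat_lit 0) (nat_lit 1365367146) (nat_lit 684) (nat_lit 1950161452) (nat_lit 323) (nat_lit 1) (nat_lit 322) (nat_lit 1) (nat_lit 331) (nat_lit 1) (nat_lit 324) (nat_lit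 361) (nat_lit 335)) (XT.lf (nat_lit 608) (nat_lit 3210663111) (nat_lit 0) (nat_lit 993700438) (nat_lit 532) (nat_lit 993700438) (nat_lit 323) (nat_lit 1) (nat_lit 315) (nat_lit 1) (nat_lit 322) (nat_lit 1) (nat_lit 325) (nat_lit 361) (nat_lit 334)))))) (XT.nd (nat_lit 390) (nat_lit 1368) (nat_lit 0) (XT.nd (nat_lit 156) (nat_lit 1064) (nat_lit 0) (XT.nd (nat_lit 78) (nat_lit 532) (nat_lit 0) (XT.lf (nat_lit 76) (nat_lit 1254650876) (nat_lit 0) (nat_lit 2622179978) (nat_lit 608) (nat_lit 1254650876) (nat_lit 316) (nat_lit 1) (nat_lit 315) (nat_lit 1) (nat_lit 323) (nat_lit 1) (nat_lit 326) (nat_lit 361) (nat_lit 333)) (XT.lf (nat_lit 608) (nat_lit 1802660747) (nat_lit 0) (nat_lit 1631714624) (nat_lit 532) (nat_lit 1631714624) (nat_lit 316) (nat_lit 1) (nat_lit 308) (nat_lit 1) (nat_lit 315) (nat_lit 1) (nat_lit 327) (nat_lit 361) (nat_lit 332))) (XT.nd (nat_lit 78) (nat_lit 1064) (nat_lit 0) (XT.lf (nat_lit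 76) (nat_lit 549376696) (nat_lit 0) (nat_lit 3903329632) (nat_lit 608) (nat_lit 549376696) (nat_lit 309) (nat_lit 1) (nat_lit 308) (nat_lit 1) (nat_lit 316) (nat_lit 1) (nat_lit 328) (nat_lit 361) (nat_lit 331)) (XT.nd (nat_lit 78) (nat_lit 608) (nat_lit 0) (XT.lf (nat_lit 532) (nat_lit 377080257) (nat_lit 0) (nat_lit 2280872739) (nat_lit 456) (nat_lit 2280872739) (nat_lit 309) (nat_lit 1) (nat_lit 302) (nat_lit 1) (nat_lit 308) (nat_lit 1) (nat_lit 329) (nat_lit 361) (nat_lit 330)) (XT.lf (nat_lit 608) (nat_lit 4553014570) (nat_lit 0) (nat_lit 162048925) (nat_lit 532) (nat_lit 162048925) (nat_lit 302) (nat_lit 1) (nat_lit 294) (nat_lit 1) (nat_lit 301) (nat_lit 1) (nat_lit 330) (nat_lit 361) (nat_lit 329))))) (XT.nd (nat_lit 234) (nat_lit 912) (nat_lit 0) (XT.nd (nat_lit 78) (nat_lit 456) (nat_lit 0) (XT.lf (nat_lit 76) (nat_lit 1887151118) (nat_lit 0) (nat_lit 1041475779) (nat_lit 608) (nat_lit 1887151118)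 (nat_lit 295) (nat_lit 1) (nat_lit 294) (nat_lit 1) (nat_lit 302) (nat_lit 1) (nat_lit 331) (nat_lit 361) (nat_lit 328)) (XT.nd (nat_lit 78) (nat_lit 0) (nat_lit 0) (XT.lf (nat_lit 532) (nat_lit 3008060298) (nat_lit 0) (nat_lit 873936178) (nat_lit 456) (nat_lit 873936178) (nat_lit 295) (nat_lit 1) (nat_lit 288) (nat_lit 1) (nat_lit 294) (nat_lit 1) (nat_lit 332) (nat_lit 361) (nat_lit 327)) (XT.lf (nat_lit 76) (nat_lit 1117176655) (nat_lit 0) (nat_lit 2462609594) (nat_lit 532) (nat_lit 1117176655) (nat_lit 289) (nat_lit 1) (nat_lit 288) (nat_lit 1) (nat_lit 295) (nat_lit 1) (nat_lit 333) (nat_lit 361) (nat_lit 326)))) (XT.nd (nat_lit 78) (nat_lit 456) (nat_lit 0) (XT.lf (nat_lit 532) (nat_lit 1459038246) (nat_lit 0) (nat_lit 1589984635) (nat_lit 456) (nat_lit 1589984635) (nat_lit 289) (nat_lit 1) (nat_lit 282) (nat_lit 1) (nat_lit 288) (nat_lit 1) (nat_lit 334) (nat_lit 361) (nat_lit 325)) (XT.nd (nat_lit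 78) (nat_lit 456) (nat_lit 0) (XT.lf (nat_lit 76) (nat_lit 345929625) (nat_lit 0) (nat_lit 3890460145) (nat_lit 532) (nat_lit 345929625) (nat_lit 283) (nat_lit 1) (nat_lit 282) (nat_lit 1) (nat_lit 289) (nat_lit 1) (nat_lit 335) (nat_lit 361) (nat_lit 324)) (XT.lf (nat_lit 76) (nat_lit 2218403352) (nat_lit 0) (nat_lit 89338479) (nat_lit 456) (nat_lit 2218403352) (nat_lit 277) (nat_lit 1) (nat_lit 276) (nat_lit 1) (nat_lit 282) (nat_lit 1) (nat_lit 336) (nat_lit 361) (nat_lit 323))))))))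
noncomputable def ec50 : XT := (XT.nd (nat_lit 1716) (nat_lit 3420) (nat_lit 0) (XT.nd (nat_lit 858) (nat_lit 1900) (nat_lit 0) (XT.nd (nat_lit 390) (nat_lit 1596) (nat_lit 0) (XT.nd (nat_lit 156) (nat_lit 760) (nat_lit 0) (XT.nd (nat_lit 78) (nat_lit 0) (nat_lit 0) (XT.lf (nat_lit 532) (nat_lit 3629144373) (nat_lit 0) (nat_lit 421023931) (nat_lit 456) (nat_lit 421023931) (nat_lit 277) (nat_lit 1) (nat_lit 270) (nat_lit 1) (nat_lit 276) (nat_lit 1) (nat_lit 337) (nat_lit 361) (nat_lit 322)) (XT.lf (nat_lit 76) (nat_lit 1404537032) (nat_lit 0) (nat_lit 1607719227) (nat_lit 532) (nat_lit 1404537032) (nat_lit 271) (nat_lit 1) (nat_lit 270) (nat_lit 1) (nat_lit 277) (nat_lit 1) (nat_lit 338) (nat_lit 361) (nat_lit 321))) (XT.nd (nat_lit 78) (nat_lit 380) (nat_lit 0) (XT.lf (nat_lit 456) (nat_lit 1997127345) (nat_lit 0) (nat_lit 1183196175) (nat_lit 380) (nat_lit 1183196175) (nat_lit 271) (nat_lit 1) (nat_lit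 265) (nat_lit 1) (nat_lit 270) (nat_lit 1) (nat_lit 339) (nat_lit 361) (nat_lit 320)) (XT.nd (nat_lit 78) (nat_lit 380) (nat_lit 0) (XT.lf (nat_lit 76) (nat_lit 594528011) (nat_lit 0) (nat_lit 3122165810) (nat_lit 456) (nat_lit 594528011) (nat_lit 266) (nat_lit 1) (nat_lit 265) (nat_lit 1) (nat_lit 271) (nat_lit 1) (nat_lit 340) (nat_lit 361) (nat_lit 319)) (XT.lf (nat_lit 456) (nat_lit 373911288) (nat_lit 0) (nat_lit 1942822190) (nat_lit 380) (nat_lit 1942822190) (nat_lit 266) (nat_lit 1) (nat_lit 260) (nat_lit 1) (nat_lit 265) (nat_lit 1) (nat_lit 341) (nat_lit 361) (nat_lit 318))))) (XT.nd (nat_lit 234) (nat_lit 760) (nat_lit 0) (XT.nd (nat_lit 78) (nat_lit 380) (nat_lit 0) (XT.lf (nat_lit 456) (nat_lit 3791978253) (nat_lit 0) (nat_lit 208532055) (nat_lit 380) (nat_lit 208532055) (nat_lit 260) (nat_lit 1) (nat_lit 254) (nat_lit 1) (nat_lit 259) (nat_lit 1) (nat_lit 342) (nat_lit 361) (nat_lit 317))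 (XT.nd (nat_lit 78) (nat_lit 380) (nat_lit 0) (XT.lf (nat_lit 76) (nat_lit 1472216871) (nat_lit 0) (nat_lit 1214368365) (nat_lit 456) (nat_lit 1472216871) (nat_lit 255) (nat_lit 1) (nat_lit 254) (nat_lit 1) (nat_lit 260) (nat_lit 1) (nat_lit 343) (nat_lit 361) (nat_lit 316)) (XT.lf (nat_lit 456) (nat_lit 2109669424) (nat_lit 0) (nat_lit 1000004486) (nat_lit 380) (nat_lit 1000004486) (nat_lit 255) (nat_lit 1) (nat_lit 249) (nat_lit 1) (nat_lit 254) (nat_lit 1) (nat_lit 344) (nat_lit 361) (nat_lit 315)))) (XT.nd (nat_lit 78) (nat_lit 760) (nat_lit 0) (XT.lf (nat_lit 76) (nat_lit 639165406) (nat_lit 0) (nat_lit 2783046278) (nat_lit 456) (nat_lit 639165406) (nat_lit 250) (nat_lit 1) (nat_lit 249) (nat_lit 1) (nat_lit 255) (nat_lit 1) (nat_lit 345) (nat_lit 361) (nat_lit 314)) (XT.nd (nat_lit 78) (nat_lit 456) (nat_lit 0) (XT.lf (nat_lit 380) (nat_lit 443921179) (nat_lit 0) (nat_lit 1784883368) (nat_lit 304)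 (nat_lit 1784883368) (nat_lit 250) (nat_lit 1) (nat_lit 245) (nat_lit 1) (nat_lit 249) (nat_lit 1) (nat_lit 346) (nat_lit 361) (nat_lit 313)) (XT.lf (nat_lit 456) (nat_lit 3600097538) (nat_lit 0) (nat_lit 183473688) (nat_lit 380) (nat_lit 183473688) (nat_lit 245) (nat_lit 1) (nat_lit 239) (nat_lit 1) (nat_lit 244) (nat_lit 1) (nat_lit 347) (nat_lit 361) (nat_lit 312)))))) (XT.nd (nat_lit 390) (nat_lit 912) (nat_lit 0) (XT.nd (nat_lit 156) (nat_lit 684) (nat_lit 0) (XT.nd (nat_lit 78) (nat_lit 304) (nat_lit 0) (XT.lf (nat_lit 76) (nat_lit 1370101711) (nat_lit 0) (nat_lit 1180394548) (nat_lit 456) (nat_lit 1370101711) (nat_lit 240) (nat_lit 1) (nat_lit 239) (nat_lit 1) (nat_lit 245) (nat_lit 1) (nat_lit 348) (nat_lit 361) (nat_lit 311)) (XT.lf (nat_lit 380) (nat_lit 1893782271) (nat_lit 0) (nat_lit 990692257) (nat_lit 304) (nat_lit 990692257) (nat_lit 240) (nat_lit 1) (nat_lit 235) (nat_lit 1) (nat_lit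 239) (nat_lit 1) (nat_lit 349) (nat_lit 361) (nat_lit 310))) (XT.nd (nat_lit 78) (nat_lit 684) (nat_lit 0) (XT.lf (nat_lit 76) (nat_lit 526631921) (nat_lit 0) (nat_lit 2777248871) (nat_lit 380) (nat_lit 526631921) (nat_lit 236) (nat_lit 1) (nat_lit 235) (nat_lit 1) (nat_lit 240) (nat_lit 1) (nat_lit 350) (nat_lit 361) (nat_lit 309)) (XT.nd (nat_lit 78) (nat_lit 380) (nat_lit 0) (XT.lf (nat_lit 380) (nat_lit 209998604) (nat_lit 0) (nat_lit 1788183798) (nat_lit 304) (nat_lit 1788183798) (nat_lit 236) (nat_lit 1) (nat_lit 231) (nat_lit 1) (nat_lit 235) (nat_lit 1) (nat_lit 351) (nat_lit 361) (nat_lit 308)) (XT.lf (nat_lit 380) (nat_lit 3138294274) (nat_lit 0) (nat_lit 302398309) (nat_lit 304) (nat_lit 302398309) (nat_lit 231) (nat_lit 1) (nat_lit 226) (nat_lit 1) (nat_lit 230) (nat_lit 1) (nat_lit 352) (nat_lit 361) (nat_lit 307))))) (XT.nd (nat_lit 234) (nat_lit 608) (nat_lit 0) (XT.nd (nat_lit 78) (nat_lit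 304) (nat_lit 0) (XT.lf (nat_lit 76) (nat_lit 1139031774) (nat_lit 0) (nat_lit 1422048673) (nat_lit 380) (nat_lit 1139031774) (nat_lit 227) (nat_lit 1) (nat_lit 226) (nat_lit 1) (nat_lit 231) (nat_lit 1) (nat_lit 353) (nat_lit 361) (nat_lit 306)) (XT.nd (nat_lit 78) (nat_lit 0) (nat_lit 0) (XT.lf (nat_lit 380) (nat_lit 1428946435) (nat_lit 0) (nat_lit 1114516428) (nat_lit 304) (nat_lit 1114516428) (nat_lit 227) (nat_lit 1) (nat_lit 222) (nat_lit 1) (nat_lit 226) (nat_lit 1) (nat_lit 354) (nat_lit 361) (nat_lit 305)) (XT.lf (nat_lit 76) (nat_lit 295206451) (nat_lit 0) (nat_lit 3026248551) (nat_lit 380) (nat_lit 295206451) (nat_lit 223) (nat_lit 1) (nat_lit 222) (nat_lit 1) (nat_lit 227) (nat_lit 1) (nat_lit 355) (nat_lit 361) (nat_lit 304)))) (XT.nd (nat_lit 78) (nat_lit 304) (nat_lit 0) (XT.lf (nat_lit 76) (nat_lit 1663593749) (nat_lit 0) (nat_lit 248422335) (nat_lit 304) (nat_lit 1663593749) (nat_lit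 219) (nat_lit 1) (nat_lit 218) (nat_lit 1) (nat_lit 222) (nat_lit 1) (nat_lit 356) (nat_lit 361) (nat_lit 303)) (XT.nd (nat_lit 78) (nat_lit 0) (nat_lit 0) (XT.lf (nat_lit 380) (nat_lit 2475780395) (nat_lit 0) (nat_lit 529785143) (nat_lit 304) (nat_lit 529785143) (nat_lit 219) (nat_lit 1) (nat_lit 214) (nat_lit 1) (nat_lit 218) (nat_lit 1) (nat_lit 357) (nat_lit 361) (nat_lit 302)) (XT.lf (nat_lit 76) (nat_lit 812329439) (nat_lit 0) (nat_lit 1870891284) (nat_lit 380) (nat_lit 812329439) (nat_lit 215) (nat_lit 1) (nat_lit 214) (nat_lit 1) (nat_lit 219) (nat_lit 1) (nat_lit 358) (nat_lit 361) (nat_lit 301))))))) (XT.nd (nat_lit 858) (nat_lit 1520) (nat_lit 0) (XT.nd (nat_lit 390) (nat_lit 1064) (nat_lit 0) (XT.nd (nat_lit 156) (nat_lit 228) (nat_lit 0) (XT.nd (nat_lit 78) (nat_lit 380) (nat_lit 0) (XT.lf (nat_lit 304) (nat_lit 779985238) (nat_lit 0) (nat_lit 1338194704) (nat_lit 228) (nat_lit 1338194704)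 (nat_lit 215) (nat_lit 1) (nat_lit 211) (nat_lit 1) (nat_lit 214) (nat_lit 1) (nat_lit 359) (nat_lit 361) (nat_lit 300)) (XT.lf (nat_lit 380) (nat_lit 3370747353) (nat_lit 0) (nat_lit 23670084) (nat_lit 304) (nat_lit 23670084) (nat_lit 211) (nat_lit 1) (nat_lit 206) (nat_lit 1) (nat_lit 210) (nat_lit 1) (nat_lit 360) (nat_lit 361) (nat_lit 299))) (XT.nd (nat_lit 78) (nat_lit 228) (nat_lit 0) (XT.lf (nat_lit 76) (nat_lit 1255765866) (nat_lit 0) (nat_lit 868193394) (nat_lit 380) (nat_lit 1255765866) (nat_lit 207) (nat_lit 1) (nat_lit 206) (nat_lit 1) (nat_lit 211) (nat_lit 1) (nat_lit 361) (nat_lit 361) (nat_lit 298)) (XT.nd (nat_lit 78) (nat_lit 0) (nat_lit 0) (XT.lf (nat_lit 304) (nat_lit 1668830108) (nat_lit 0) (nat_lit 836701030) (nat_lit 228) (nat_lit 836701030) (nat_lit 207) (nat_lit 1) (nat_lit 203) (nat_lit 1) (nat_lit 206) (nat_lit 1) (nat_lit 362) (nat_lit 361) (nat_lit 297)) (XT.lf (nat_lit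 76) (nat_lit 417075061) (nat_lit 0) (nat_lit 2471199861) (nat_lit 304) (nat_lit 417075061) (nat_lit 204) (nat_lit 1) (nat_lit 203) (nat_lit 1) (nat_lit 207) (nat_lit 1) (nat_lit 363) (nat_lit 361) (nat_lit 296))))) (XT.nd (nat_lit 234) (nat_lit 532) (nat_lit 0) (XT.nd (nat_lit 78) (nat_lit 228) (nat_lit 0) (XT.lf (nat_lit 76) (nat_lit 1634199358) (nat_lit 0) (nat_lit 437538) (nat_lit 304) (nat_lit 1634199358) (nat_lit 200) (nat_lit 1) (nat_lit 199) (nat_lit 1) (nat_lit 203) (nat_lit 1) (nat_lit 364) (nat_lit 361) (nat_lit 295)) (XT.nd (nat_lit 78) (nat_lit 0) (nat_lit 0) (XT.lf (nat_lit 304) (nat_lit 2430135225) (nat_lit 0) (nat_lit 401390617) (nat_lit 228) (nat_lit 401390617) (nat_lit 200) (nat_lit 1) (nat_lit 196) (nat_lit 1) (nat_lit 199) (nat_lit 1) (nat_lit 365) (nat_lit 361) (nat_lit 294)) (XT.lf (nat_lit 76) (nat_lit 796113215) (nat_lit 0) (nat_lit 1605115644) (nat_lit 304) (nat_lit 796113215)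 (nat_lit 197) (nat_lit 1) (nat_lit 196) (nat_lit 1) (nat_lit 200) (nat_lit 1) (nat_lit 366) (nat_lit 361) (nat_lit 293)))) (XT.nd (nat_lit 78) (nat_lit 304) (nat_lit 0) (XT.lf (nat_lit 304) (nat_lit 762986318) (nat_lit 0) (nat_lit 1199679588) (nat_lit 228) (nat_lit 1199679588) (nat_lit 197) (nat_lit 1) (nat_lit 193) (nat_lit 1) (nat_lit 196) (nat_lit 1) (nat_lit 367) (nat_lit 361) (nat_lit 292)) (XT.nd (nat_lit 78) (nat_lit 0) (nat_lit 0) (XT.lf (nat_lit 304) (nat_lit 3078950748) (nat_lit 0) (nat_lit 24584335) (nat_lit 228) (nat_lit 24584335) (nat_lit 193) (nat_lit 1) (nat_lit 189) (nat_lit 1) (nat_lit 192) (nat_lit 1) (nat_lit 368) (nat_lit 361) (nat_lit 291)) (XT.lf (nat_lit 76) (nat_lit 1120489120) (nat_lit 0) (nat_lit 852810455) (nat_lit 304) (nat_lit 1120489120) (nat_lit 190) (nat_lit 1) (nat_lit 189) (nat_lit 1) (nat_lit 193) (nat_lit 1) (nat_lit 369) (nat_lit 361) (nat_lit 290)))))) (XT.nd (nat_lit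 390) (nat_lit 836) (nat_lit 0) (XT.nd (nat_lit 156) (nat_lit 456) (nat_lit 0) (XT.nd (nat_lit 78) (nat_lit 0) (nat_lit 0) (XT.lf (nat_lit 304) (nat_lit 1419051813) (nat_lit 0) (nat_lit 820581282) (nat_lit 228) (nat_lit 820581282) (nat_lit 190) (nat_lit 1) (nat_lit 186) (nat_lit 1) (nat_lit 189) (nat_lit 1) (nat_lit 370) (nat_lit 361) (nat_lit 289)) (XT.lf (nat_lit 76) (nat_lit 303507486) (nat_lit 0) (nat_lit 2420193755) (nat_lit 304) (nat_lit 303507486) (nat_lit 187) (nat_lit 1) (nat_lit 186) (nat_lit 1) (nat_lit 190) (nat_lit 1) (nat_lit 371) (nat_lit 361) (nat_lit 288))) (XT.nd (nat_lit 78) (nat_lit 228) (nat_lit 0) (XT.lf (nat_lit 76) (nat_lit 1396659333) (nat_lit 0) (nat_lit 201095505) (nat_lit 228) (nat_lit 1396659333) (nat_lit 184) (nat_lit 1) (nat_lit 183) (nat_lit 1) (nat_lit 186) (nat_lit 1) (nat_lit 372) (nat_lit 361) (nat_lit 287)) (XT.nd (nat_lit 78) (nat_lit 0) (nat_lit 0) (XT.lf (nat_lit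 304) (nat_lit 1980370663) (nat_lit 0) (nat_lit 490902546) (nat_lit 228) (nat_lit 490902546) (nat_lit 184) (nat_lit 1) (nat_lit 180) (nat_lit 1) (nat_lit 183) (nat_lit 1) (nat_lit 373) (nat_lit 361) (nat_lit 286)) (XT.lf (nat_lit 76) (nat_lit 585746563) (nat_lit 0) (nat_lit 1758812100) (nat_lit 304) (nat_lit 585746563) (nat_lit 181) (nat_lit 1) (nat_lit 180) (nat_lit 1) (nat_lit 184) (nat_lit 1) (nat_lit 374) (nat_lit 361) (nat_lit 285))))) (XT.nd (nat_lit 234) (nat_lit 380) (nat_lit 0) (XT.nd (nat_lit 78) (nat_lit 304) (nat_lit 0) (XT.lf (nat_lit 228) (nat_lit 368931873) (nat_lit 0) (nat_lit 1264964430) (nat_lit 152) (nat_lit 1264964430) (nat_lit 181) (nat_lit 1) (nat_lit 178) (nat_lit 1) (nat_lit 180) (nat_lit 1) (nat_lit 375) (nat_lit 361) (nat_lit 284)) (XT.nd (nat_lit 78) (nat_lit 0) (nat_lit 0) (XT.lf (nat_lit 304) (nat_lit 2458137088) (nat_lit 0) (nat_lit 204924345) (nat_lit 228) (nat_lit 204924345)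 (nat_lit 178) (nat_lit 1) (nat_lit 174) (nat_lit 1) (nat_lit 177) (nat_lit 1) (nat_lit 376) (nat_lit 361) (nat_lit 283)) (XT.lf (nat_lit 76) (nat_lit 827305994) (nat_lit 0) (nat_lit 1182585940) (nat_lit 304) (nat_lit 827305994) (nat_lit 175) (nat_lit 1) (nat_lit 174) (nat_lit 1) (nat_lit 178) (nat_lit 1) (nat_lit 377) (nat_lit 361) (nat_lit 282)))) (XT.nd (nat_lit 78) (nat_lit 228) (nat_lit 0) (XT.lf (nat_lit 228) (nat_lit 862896554) (nat_lit 0) (nat_lit 972036285) (nat_lit 152) (nat_lit 972036285) (nat_lit 175) (nat_lit 1) (nat_lit 172) (nat_lit 1) (nat_lit 174) (nat_lit 1) (nat_lit 378) (nat_lit 361) (nat_lit 281)) (XT.nd (nat_lit 78) (nat_lit 228) (nat_lit 0) (XT.lf (nat_lit 76) (nat_lit 42848630) (nat_lit 0) (nat_lit 2691674668) (nat_lit 228) (nat_lit 42848630) (nat_lit 173) (nat_lit 1) (nat_lit 172) (nat_lit 1) (nat_lit 175) (nat_lit 1) (nat_lit 379) (nat_lit 361) (nat_lit 280)) (XT.lf (nat_lit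 76) (nat_lit 1032990233) (nat_lit 0) (nat_lit 681687213) (nat_lit 228) (nat_lit 1032990233) (nat_lit 170) (nat_lit 1) (nat_lit 169) (nat_lit 1) (nat_lit 172) (nat_lit 1) (nat_lit 380) (nat_lit 361) (nat_lit 279))))))))
noncomputable def ec51 : XT := (XT.nd (nat_lit 47502) (nat_lit 0) (nat_lit 10108) (XT.nd (nat_lit 46644) (nat_lit 0) (nat_lit 16720) (XT.nd (nat_lit 390) (nat_lit 532) (nat_lit 0) (XT.nd (nat_lit 156) (nat_lit 380) (nat_lit 0) (XT.nd (nat_lit 78) (nat_lit 0) (nat_lit 0) (XT.lf (nat_lit 228) (nat_lit 1286192181) (nat_lit 0) (nat_lit 716196769) (nat_lit 152) (nat_lit 716196769) (nat_lit 170) (nat_lit 1) (nat_lit 167) (nat_lit 1) (nat_lit 169) (nat_lit 1) (nat_lit 381) (nat_lit 361) (nat_lit 278)) (XT.lf (nat_lit 76) (nat_lit 258190800) (nat_lit 0) (nat_lit 2173598295) (nat_lit 228) (nat_lit 258190800) (nat_lit 168) (nat_lit 1) (nat_lit 167) (nat_lit 1) (nat_lit 170) (nat_lit 1) (nat_lit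 382) (nat_lit 361) (nat_lit 277))) (XT.nd (nat_lit 78) (nat_lit 152) (nat_lit 0) (XT.lf (nat_lit 76) (nat_lit 1207060164) (nat_lit 0) (nat_lit 247393485) (nat_lit 228) (nat_lit 1207060164) (nat_lit 165) (nat_lit 1) (nat_lit 164) (nat_lit 1) (nat_lit 167) (nat_lit 1) (nat_lit 383) (nat_lit 361) (nat_lit 276)) (XT.nd (nat_lit 78) (nat_lit 0) (nat_lit 0) (XT.lf (nat_lit 228) (nat_lit 1647153220) (nat_lit 0) (nat_lit 493181183) (nat_lit 152) (nat_lit 493181183) (nat_lit 165) (nat_lit 1) (nat_lit 162) (nat_lit 1) (nat_lit 164) (nat_lit 1) (nat_lit 384) (nat_lit 361) (nat_lit 275)) (XT.lf (nat_lit 76) (nat_lit 443108256) (nat_lit 0) (nat_lit 1719641327) (nat_lit 228) (nat_lit 443108256) (nat_lit 163) (nat_lit 1) (nat_lit 162) (nat_lit 1) (nat_lit 165) (nat_lit 1) (nat_lit 385) (nat_lit 361) (nat_lit 274))))) (XT.nd (nat_lit 234) (nat_lit 152) (nat_lit 0) (XT.nd (nat_lit 78) (nat_lit 228) (nat_lit 0) (XT.lf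 (nat_lit 228) (nat_lit 130583780) (nat_lit 0) (nat_lit 1223965415) (nat_lit 152) (nat_lit 1223965415) (nat_lit 163) (nat_lit 1) (nat_lit 160) (nat_lit 1) (nat_lit 162) (nat_lit 1) (nat_lit 386) (nat_lit 361) (nat_lit 273)) (XT.nd (nat_lit 78) (nat_lit 0) (nat_lit 0) (XT.lf (nat_lit 228) (nat_lit 1953171512) (nat_lit 0) (nat_lit 299204152) (nat_lit 152) (nat_lit 299204152) (nat_lit 160) (nat_lit 1) (nat_lit 157) (nat_lit 1) (nat_lit 159) (nat_lit 1) (nat_lit 387) (nat_lit 361) (nat_lit 272)) (XT.lf (nat_lit 76) (nat_lit 601180484) (nat_lit 0) (nat_lit 1322468749) (nat_lit 228) (nat_lit 601180484) (nat_lit 158) (nat_lit 1) (nat_lit 157) (nat_lit 1) (nat_lit 160) (nat_lit 1) (nat_lit 388) (nat_lit 361) (nat_lit 271)))) (XT.nd (nat_lit 45864) (nat_lit 0) (nat_lit 16644) (XT.lf (nat_lit 228) (nat_lit 460453315) (nat_lit 0) (nat_lit 1019013900) (nat_lit 152) (nat_lit 1019013900) (nat_lit 158) (nat_lit 1) (nat_lit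 155) (nat_lit 1) (nat_lit 157) (nat_lit 1) (nat_lit 389) (nat_lit 361) (nat_lit 270)) (XT.nd (nat_lit 78) (nat_lit 0) (nat_lit 0) (XT.lf (nat_lit 1292) (nat_lit 714633911) (nat_lit 0) (nat_lit 2458673009) (nat_lit 1292) (nat_lit 714633911) (nat_lit 391) (nat_lit 1) (nat_lit 374) (nat_lit 0) (nat_lit 391) (nat_lit 0) (nat_lit 296) (nat_lit 362) (nat_lit 362)) (XT.lf (nat_lit 1292) (nat_lit 2792801848) (nat_lit 76) (nat_lit 2434568372) (nat_lit 0) (nat_lit 2434568372) (nat_lit 391) (nat_lit 1) (nat_lit 375) (nat_lit 1) (nat_lit 374) (nat_lit 0) (nat_lit 297) (nat_lit 362) (nat_lit 361)))))) (XT.nd (nat_lit 390) (nat_lit 0) (nat_lit 152) (XT.nd (nat_lit 156) (nat_lit 0) (nat_lit 76) (XT.nd (nat_lit 78) (nat_lit 0) (nat_lit 0) (XT.lf (nat_lit 1292) (nat_lit 1350665562) (nat_lit 0) (nat_lit 4849177742) (nat_lit 1216) (nat_lit 1350665562) (nat_lit 392) (nat_lit 1) (nat_lit 375) (nat_lit 1) (nat_lit 391) (nat_lit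 1) (nat_lit 298) (nat_lit 362) (nat_lit 360)) (XT.lf (nat_lit 1292) (nat_lit 2564983637) (nat_lit 76) (nat_lit 2437978171) (nat_lit 0) (nat_lit 2437978171) (nat_lit 392) (nat_lit 1) (nat_lit 376) (nat_lit 1) (nat_lit 375) (nat_lit 1) (nat_lit 299) (nat_lit 362) (nat_lit 359))) (XT.nd (nat_lit 78) (nat_lit 0) (nat_lit 0) (XT.lf (nat_lit 1292) (nat_lit 1203605779) (nat_lit 0) (nat_lit 4926611173) (nat_lit 1216) (nat_lit 1203605779) (nat_lit 393) (nat_lit 1) (nat_lit 376) (nat_lit 1) (nat_lit 392) (nat_lit 1) (nat_lit 300) (nat_lit 362) (nat_lit 358)) (XT.nd (nat_lit 78) (nat_lit 0) (nat_lit 76) (XT.lf (nat_lit 1292) (nat_lit 2205734675) (nat_lit 76) (nat_lit 2511341966) (nat_lit 0) (nat_lit 2511341966) (nat_lit 393) (nat_lit 1) (nat_lit 377) (nat_lit 1) (nat_lit 376) (nat_lit 1) (nat_lit 301) (nat_lit 362) (nat_lit 357)) (XT.lf (nat_lit 1292) (nat_lit 994143546) (nat_lit 0) (nat_lit 5137161326) (nat_lit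 1216) (nat_lit 994143546) (nat_lit 394) (nat_lit 1) (nat_lit 377) (nat_lit 1) (nat_lit 393) (nat_lit 1) (nat_lit 302) (nat_lit 362) (nat_lit 356))))) (XT.nd (nat_lit 234) (nat_lit 0) (nat_lit 152) (XT.nd (nat_lit 78) (nat_lit 0) (nat_lit 76) (XT.lf (nat_lit 1292) (nat_lit 1726808607) (nat_lit 76) (nat_lit 2648600915) (nat_lit 0) (nat_lit 2648600915) (nat_lit 394) (nat_lit 1) (nat_lit 378) (nat_lit 1) (nat_lit 377) (nat_lit 1) (nat_lit 303) (nat_lit 362) (nat_lit 355)) (XT.nd (nat_lit 78) (nat_lit 0) (nat_lit 0) (XT.lf (nat_lit 1292) (nat_lit 727924443) (nat_lit 0) (nat_lit 5469180103) (nat_lit 1216) (nat_lit 727924443) (nat_lit 395) (nat_lit 1) (nat_lit 378) (nat_lit 1) (nat_lit 394) (nat_lit 1) (nat_lit 304) (nat_lit 362) (nat_lit 354)) (XT.lf (nat_lit 1292) (nat_lit 1139161782) (nat_lit 76) (nat_lit 2844103491) (nat_lit 0) (nat_lit 2844103491) (nat_lit 395) (nat_lit 1) (nat_lit 379) (nat_lit 1) (nat_lit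 378) (nat_lit 1) (nat_lit 305) (nat_lit 362) (nat_lit 353)))) (XT.nd (nat_lit 78) (nat_lit 0) (nat_lit 0) (XT.lf (nat_lit 1292) (nat_lit 410209872) (nat_lit 0) (nat_lit 5911804757) (nat_lit 1216) (nat_lit 410209872) (nat_lit 396) (nat_lit 1) (nat_lit 379) (nat_lit 1) (nat_lit 395) (nat_lit 1) (nat_lit 306) (nat_lit 362) (nat_lit 352)) (XT.nd (nat_lit 78) (nat_lit 0) (nat_lit 76) (XT.lf (nat_lit 1292) (nat_lit 453002587) (nat_lit 76) (nat_lit 3092580361) (nat_lit 0) (nat_lit 3092580361) (nat_lit 396) (nat_lit 1) (nat_lit 380) (nat_lit 1) (nat_lit 379) (nat_lit 1) (nat_lit 307) (nat_lit 362) (nat_lit 351)) (XT.lf (nat_lit 1292) (nat_lit 45900862) (nat_lit 0) (nat_lit 6454909403) (nat_lit 1216) (nat_lit 45900862) (nat_lit 397) (nat_lit 1) (nat_lit 380) (nat_lit 1) (nat_lit 396) (nat_lit 1) (nat_lit 308) (nat_lit 362) (nat_lit 350))))))) (XT.nd (nat_lit 858) (nat_lit 3800) (nat_lit 0) (XT.nd (nat_lit 390)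 (nat_lit 1900) (nat_lit 0) (XT.nd (nat_lit 156) (nat_lit 0) (nat_lit 76) (XT.nd (nat_lit 78) (nat_lit 0) (nat_lit 0) (XT.lf (nat_lit 1368) (nat_lit 3070055443) (nat_lit 0) (nat_lit 315875604) (nat_lit 1292) (nat_lit 3070055443) (nat_lit 381) (nat_lit 1) (nat_lit 363) (nat_lit 1) (nat_lit 380) (nat_lit 1) (nat_lit 309) (nat_lit 362) (nat_lit 349)) (XT.lf (nat_lit 1368) (nat_lit 5653950800) (nat_lit 76) (nat_lit 356905827) (nat_lit 0) (nat_lit 356905827) (nat_lit 381) (nat_lit 1) (nat_lit 364) (nat_lit 1) (nat_lit 363) (nat_lit 1) (nat_lit 310) (nat_lit 362) (nat_lit 348))) (XT.nd (nat_lit 78) (nat_lit 0) (nat_lit 0) (XT.lf (nat_lit 1368) (nat_lit 2562985502) (nat_lit 0) (nat_lit 1154506570) (nat_lit 1292) (nat_lit 2562985502) (nat_lit 382) (nat_lit 1) (nat_lit 364) (nat_lit 1) (nat_lit 381) (nat_lit 1) (nat_lit 311) (nat_lit 362) (nat_lit 347)) (XT.nd (nat_lit 78) (nat_lit 0) (nat_lit 76) (XT.lf (nat_lit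 1368) (nat_lit 4602050570) (nat_lit 76) (nat_lit 796677366) (nat_lit 0) (nat_lit 796677366) (nat_lit 382) (nat_lit 1) (nat_lit 365) (nat_lit 1) (nat_lit 364) (nat_lit 1) (nat_lit 312) (nat_lit 362) (nat_lit 346)) (XT.lf (nat_lit 76) (nat_lit 2023912548) (nat_lit 0) (nat_lit 2063658634) (nat_lit 1292) (nat_lit 2023912548) (nat_lit 366) (nat_lit 1) (nat_lit 365) (nat_lit 1) (nat_lit 382) (nat_lit 1) (nat_lit 313) (nat_lit 362) (nat_lit 345))))) (XT.nd (nat_lit 234) (nat_lit 608) (nat_lit 0) (XT.nd (nat_lit 78) (nat_lit 608) (nat_lit 0) (XT.lf (nat_lit 912) (nat_lit 3489510165) (nat_lit 0) (nat_lit 1269953515) (nat_lit 836) (nat_lit 1269953515) (nat_lit 366) (nat_lit 1) (nat_lit 354) (nat_lit 1) (nat_lit 365) (nat_lit 1) (nat_lit 314) (nat_lit 362) (nat_lit 344)) (XT.nd (nat_lit 78) (nat_lit 608) (nat_lit 0) (XT.lf (nat_lit 76) (nat_lit 1456453614) (nat_lit 0) (nat_lit 3035827422) (nat_lit 912) (nat_lit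 1456453614) (nat_lit 355) (nat_lit 1) (nat_lit 354) (nat_lit 1) (nat_lit 366) (nat_lit 1) (nat_lit 315) (nat_lit 362) (nat_lit 343)) (XT.lf (nat_lit 684) (nat_lit 2323335538) (nat_lit 0) (nat_lit 1773099830) (nat_lit 608) (nat_lit 1773099830) (nat_lit 355) (nat_lit 1) (nat_lit 346) (nat_lit 1) (nat_lit 354) (nat_lit 1) (nat_lit 316) (nat_lit 362) (nat_lit 342)))) (XT.nd (nat_lit 78) (nat_lit 608) (nat_lit 0) (XT.lf (nat_lit 76) (nat_lit 863966258) (nat_lit 0) (nat_lit 4064040010) (nat_lit 684) (nat_lit 863966258) (nat_lit 347) (nat_lit 1) (nat_lit 346) (nat_lit 1) (nat_lit 355) (nat_lit 1) (nat_lit 317) (nat_lit 362) (nat_lit 341)) (XT.nd (nat_lit 78) (nat_lit 0) (nat_lit 0) (XT.lf (nat_lit 684) (nat_lit 1110027800) (nat_lit 0) (nat_lit 2302740334) (nat_lit 608) (nat_lit 2302740334) (nat_lit 347) (nat_lit 1) (nat_lit 338) (nat_lit 1) (nat_lit 346) (nat_lit 1) (nat_lit 318) (nat_lit 362) (nat_lit 340))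 (XT.lf (nat_lit 76) (nat_lit 249564967) (nat_lit 0) (nat_lit 5141821478) (nat_lit 684) (nat_lit 249564967) (nat_lit 339) (nat_lit 1) (nat_lit 338) (nat_lit 1) (nat_lit 347) (nat_lit 1) (nat_lit 319) (nat_lit 362) (nat_lit 339)))))) (XT.nd (nat_lit 468) (nat_lit 1520) (nat_lit 0) (XT.nd (nat_lit 234) (nat_lit 1064) (nat_lit 0) (XT.nd (nat_lit 78) (nat_lit 608) (nat_lit 0) (XT.lf (nat_lit 76) (nat_lit 2712744348) (nat_lit 0) (nat_lit 141567334) (nat_lit 608) (nat_lit 2712744348) (nat_lit 331) (nat_lit 1) (nat_lit 330) (nat_lit 1) (nat_lit 338) (nat_lit 1) (nat_lit 320) (nat_lit 362) (nat_lit 338)) (XT.nd (nat_lit 78) (nat_lit 0) (nat_lit 0) (XT.lf (nat_lit 684) (nat_lit 4734791509) (nat_lit 0) (nat_lit 380100053) (nat_lit 608) (nat_lit 380100053) (nat_lit 331) (nat_lit 1) (nat_lit 322) (nat_lit 1) (nat_lit 330) (nat_lit 1) (nat_lit 321) (nat_lit 362) (nat_lit 337)) (XT.lf (nat_lit 76) (nat_lit 2008666295)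 (nat_lit 0) (nat_lit 1406328160) (nat_lit 684) (nat_lit 2008666295) (nat_lit 323) (nat_lit 1) (nat_lit 322) (nat_lit 1) (nat_lit 331) (nat_lit 1) (nat_lit 322) (nat_lit 362) (nat_lit 336)))) (XT.nd (nat_lit 78) (nat_lit 532) (nat_lit 0) (XT.lf (nat_lit 608) (nat_lit 3306983004) (nat_lit 0) (nat_lit 1023511451) (nat_lit 532) (nat_lit 1023511451) (nat_lit 323) (nat_lit 1) (nat_lit 315) (nat_lit 1) (nat_lit 322) (nat_lit 1) (nat_lit 323) (nat_lit 362) (nat_lit 335)) (XT.nd (nat_lit 78) (nat_lit 532) (nat_lit 0) (XT.lf (nat_lit 76) (nat_lit 1292290402) (nat_lit 0) (nat_lit 2700845377) (nat_lit 608) (nat_lit 1292290402) (nat_lit 316) (nat_lit 1) (nat_lit 315) (nat_lit 1) (nat_lit 323) (nat_lit 1) (nat_lit 324) (nat_lit 362) (nat_lit 334)) (XT.lf (nat_lit 608) (nat_lit 1856740569) (nat_lit 0) (nat_lit 1680666062) (nat_lit 532) (nat_lit 1680666062) (nat_lit 316) (nat_lit 1) (nat_lit 308) (nat_lit 1) (nat_lit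 315) (nat_lit 1) (nat_lit 325) (nat_lit 362) (nat_lit 333))))) (XT.nd (nat_lit 234) (nat_lit 456) (nat_lit 0) (XT.nd (nat_lit 78) (nat_lit 1064) (nat_lit 0) (XT.lf (nat_lit 76) (nat_lit 565857997) (nat_lit 0) (nat_lit 4020429521) (nat_lit 608) (nat_lit 565857997) (nat_lit 309) (nat_lit 1) (nat_lit 308) (nat_lit 1) (nat_lit 316) (nat_lit 1) (nat_lit 326) (nat_lit 362) (nat_lit 332)) (XT.nd (nat_lit 78) (nat_lit 608) (nat_lit 0) (XT.lf (nat_lit 532) (nat_lit 388392664) (nat_lit 0) (nat_lit 2349298922) (nat_lit 456) (nat_lit 2349298922) (nat_lit 309) (nat_lit 1) (nat_lit 302) (nat_lit 1) (nat_lit 308) (nat_lit 1) (nat_lit 327) (nat_lit 362) (nat_lit 331)) (XT.lf (nat_lit 608) (nat_lit 4689605008) (nat_lit 0) (nat_lit 166910393) (nat_lit 532) (nat_lit 166910393) (nat_lit 302) (nat_lit 1) (nat_lit 294) (nat_lit 1) (nat_lit 301) (nat_lit 1) (nat_lit 328) (nat_lit 362) (nat_lit 330)))) (XT.nd (nat_lit 78) (nat_lit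 456) (nat_lit 0) (XT.lf (nat_lit 76) (nat_lit 1943765652) (nat_lit 0) (nat_lit 1072720053) (nat_lit 608) (nat_lit 1943765652) (nat_lit 295) (nat_lit 1) (nat_lit 294) (nat_lit 1) (nat_lit 302) (nat_lit 1) (nat_lit 329) (nat_lit 362) (nat_lit 329)) (XT.nd (nat_lit 78) (nat_lit 0) (nat_lit 0) (XT.lf (nat_lit 532) (nat_lit 3098302107) (nat_lit 0) (nat_lit 900154264) (nat_lit 456) (nat_lit 900154264) (nat_lit 295) (nat_lit 1) (nat_lit 288) (nat_lit 1) (nat_lit 294) (nat_lit 1) (nat_lit 330) (nat_lit 362) (nat_lit 328)) (XT.lf (nat_lit 76) (nat_lit 1150691954) (nat_lit 0) (nat_lit 2536487881) (nat_lit 532) (nat_lit 1150691954) (nat_lit 289) (nat_lit 1) (nat_lit 288) (nat_lit 1) (nat_lit 295) (nat_lit 1) (nat_lit 331) (nat_lit 362) (nat_lit 327))))))))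
noncomputable def ec52 : XT := (XT.nd (nat_lit 1716) (nat_lit 3648) (nat_lit 0) (XT.nd (nat_lit 858) (nat_lit 2052) (nat_lit 0) (XT.nd (nat_lit 390) (nat_lit 1596) (nat_lit 0) (XT.nd (nat_lit 156) (nat_lit 912) (nat_lit 0) (XT.nd (nat_lit 78) (nat_lit 0) (nat_lit 0) (XT.lf (nat_lit 532) (nat_lit 1502809393) (nat_lit 0) (nat_lit 1637684174) (nat_lit 456) (nat_lit 1637684174) (nat_lit 289) (nat_lit 1) (nat_lit 282) (nat_lit 1) (nat_lit 288) (nat_lit 1) (nat_lit 332) (nat_lit 362) (nat_lit 326)) (XT.lf (nat_lit 76) (nat_lit 356307514) (nat_lit 0) (nat_lit 4007173949) (nat_lit 532) (nat_lit 356307514) (nat_lit 283) (nat_lit 1) (nat_lit 282) (nat_lit 1) (nat_lit 289) (nat_lit 1) (nat_lit 333) (nat_lit 362) (nat_lit 325))) (XT.nd (nat_lit 78) (nat_lit 456) (nat_lit 0) (XT.lf (nat_lit 76) (nat_lit 2284955453) (nat_lit 0) (nat_lit 92018634) (nat_lit 456) (nat_lit 2284955453) (nat_lit 277) (nat_lit 1) (nat_lit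 276) (nat_lit 1) (nat_lit 282) (nat_lit 1) (nat_lit 334) (nat_lit 362) (nat_lit 324)) (XT.nd (nat_lit 78) (nat_lit 0) (nat_lit 0) (XT.lf (nat_lit 532) (nat_lit 3738018704) (nat_lit 0) (nat_lit 433654649) (nat_lit 456) (nat_lit 433654649) (nat_lit 277) (nat_lit 1) (nat_lit 270) (nat_lit 1) (nat_lit 276) (nat_lit 1) (nat_lit 335) (nat_lit 362) (nat_lit 323)) (XT.lf (nat_lit 76) (nat_lit 1446673143) (nat_lit 0) (nat_lit 1655950804) (nat_lit 532) (nat_lit 1446673143) (nat_lit 271) (nat_lit 1) (nat_lit 270) (nat_lit 1) (nat_lit 277) (nat_lit 1) (nat_lit 336) (nat_lit 362) (nat_lit 322))))) (XT.nd (nat_lit 234) (nat_lit 836) (nat_lit 0) (XT.nd (nat_lit 78) (nat_lit 380) (nat_lit 0) (XT.lf (nat_lit 456) (nat_lit 2057041166) (nat_lit 0) (nat_lit 1218692061) (nat_lit 380) (nat_lit 1218692061) (nat_lit 271) (nat_lit 1) (nat_lit 265) (nat_lit 1) (nat_lit 270) (nat_lit 1) (nat_lit 337) (nat_lit 362) (nat_lit 321))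 (XT.nd (nat_lit 78) (nat_lit 380) (nat_lit 0) (XT.lf (nat_lit 76) (nat_lit 612363851) (nat_lit 0) (nat_lit 3215830784) (nat_lit 456) (nat_lit 612363851) (nat_lit 266) (nat_lit 1) (nat_lit 265) (nat_lit 1) (nat_lit 271) (nat_lit 1) (nat_lit 338) (nat_lit 362) (nat_lit 320)) (XT.lf (nat_lit 456) (nat_lit 385128626) (nat_lit 0) (nat_lit 2001106856) (nat_lit 380) (nat_lit 2001106856) (nat_lit 266) (nat_lit 1) (nat_lit 260) (nat_lit 1) (nat_lit 265) (nat_lit 1) (nat_lit 339) (nat_lit 362) (nat_lit 319)))) (XT.nd (nat_lit 78) (nat_lit 380) (nat_lit 0) (XT.lf (nat_lit 456) (nat_lit 3905737601) (nat_lit 0) (nat_lit 214788016) (nat_lit 380) (nat_lit 214788016) (nat_lit 260) (nat_lit 1) (nat_lit 254) (nat_lit 1) (nat_lit 259) (nat_lit 1) (nat_lit 340) (nat_lit 362) (nat_lit 318)) (XT.nd (nat_lit 78) (nat_lit 380) (nat_lit 0) (XT.lf (nat_lit 76) (nat_lit 1516383377) (nat_lit 0) (nat_lit 1250799416) (nat_lit 456)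 (nat_lit 1516383377) (nat_lit 255) (nat_lit 1) (nat_lit 254) (nat_lit 1) (nat_lit 260) (nat_lit 1) (nat_lit 341) (nat_lit 362) (nat_lit 317)) (XT.lf (nat_lit 456) (nat_lit 2172959506) (nat_lit 0) (nat_lit 1030004621) (nat_lit 380) (nat_lit 1030004621) (nat_lit 255) (nat_lit 1) (nat_lit 249) (nat_lit 1) (nat_lit 254) (nat_lit 1) (nat_lit 342) (nat_lit 362) (nat_lit 316)))))) (XT.nd (nat_lit 390) (nat_lit 988) (nat_lit 0) (XT.nd (nat_lit 156) (nat_lit 760) (nat_lit 0) (XT.nd (nat_lit 78) (nat_lit 304) (nat_lit 0) (XT.lf (nat_lit 76) (nat_lit 658340368) (nat_lit 0) (nat_lit 2866537667) (nat_lit 456) (nat_lit 658340368) (nat_lit 250) (nat_lit 1) (nat_lit 249) (nat_lit 1) (nat_lit 255) (nat_lit 1) (nat_lit 343) (nat_lit 362) (nat_lit 315)) (XT.lf (nat_lit 380) (nat_lit 457238814) (nat_lit 0) (nat_lit 1838429869) (nat_lit 304) (nat_lit 1838429869) (nat_lit 250) (nat_lit 1) (nat_lit 245) (nat_lit 1) (nat_lit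 249) (nat_lit 1) (nat_lit 344) (nat_lit 362) (nat_lit 314))) (XT.nd (nat_lit 78) (nat_lit 304) (nat_lit 0) (XT.lf (nat_lit 456) (nat_lit 3708100464) (nat_lit 0) (nat_lit 188977899) (nat_lit 380) (nat_lit 188977899) (nat_lit 245) (nat_lit 1) (nat_lit 239) (nat_lit 1) (nat_lit 244) (nat_lit 1) (nat_lit 345) (nat_lit 362) (nat_lit 313)) (XT.nd (nat_lit 78) (nat_lit 304) (nat_lit 0) (XT.lf (nat_lit 76) (nat_lit 1411204762) (nat_lit 0) (nat_lit 1215806384) (nat_lit 456) (nat_lit 1411204762) (nat_lit 240) (nat_lit 1) (nat_lit 239) (nat_lit 1) (nat_lit 245) (nat_lit 1) (nat_lit 346) (nat_lit 362) (nat_lit 312)) (XT.lf (nat_lit 380) (nat_lit 1950595739) (nat_lit 0) (nat_lit 1020413025) (nat_lit 304) (nat_lit 1020413025) (nat_lit 240) (nat_lit 1) (nat_lit 235) (nat_lit 1) (nat_lit 239) (nat_lit 1) (nat_lit 347) (nat_lit 362) (nat_lit 311))))) (XT.nd (nat_lit 234) (nat_lit 304) (nat_lit 0) (XT.nd (nat_lit 78)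 (nat_lit 684) (nat_lit 0) (XT.lf (nat_lit 76) (nat_lit 542430879) (nat_lit 0) (nat_lit 2860566337) (nat_lit 380) (nat_lit 542430879) (nat_lit 236) (nat_lit 1) (nat_lit 235) (nat_lit 1) (nat_lit 240) (nat_lit 1) (nat_lit 348) (nat_lit 362) (nat_lit 310)) (XT.nd (nat_lit 78) (nat_lit 380) (nat_lit 0) (XT.lf (nat_lit 380) (nat_lit 216298562) (nat_lit 0) (nat_lit 1841829312) (nat_lit 304) (nat_lit 1841829312) (nat_lit 236) (nat_lit 1) (nat_lit 231) (nat_lit 1) (nat_lit 235) (nat_lit 1) (nat_lit 349) (nat_lit 362) (nat_lit 309)) (XT.lf (nat_lit 380) (nat_lit 3232443103) (nat_lit 0) (nat_lit 311470259) (nat_lit 304) (nat_lit 311470259) (nat_lit 231) (nat_lit 1) (nat_lit 226) (nat_lit 1) (nat_lit 230) (nat_lit 1) (nat_lit 350) (nat_lit 362) (nat_lit 308)))) (XT.nd (nat_lit 78) (nat_lit 304) (nat_lit 0) (XT.lf (nat_lit 76) (nat_lit 1173202728) (nat_lit 0) (nat_lit 1464710134) (nat_lit 380) (nat_lit 1173202728)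 (nat_lit 227) (nat_lit 1) (nat_lit 226) (nat_lit 1) (nat_lit 231) (nat_lit 1) (nat_lit 351) (nat_lit 362) (nat_lit 307)) (XT.nd (nat_lit 78) (nat_lit 0) (nat_lit 0) (XT.lf (nat_lit 380) (nat_lit 1471814828) (nat_lit 0) (nat_lit 1147951920) (nat_lit 304) (nat_lit 1147951920) (nat_lit 227) (nat_lit 1) (nat_lit 222) (nat_lit 1) (nat_lit 226) (nat_lit 1) (nat_lit 352) (nat_lit 362) (nat_lit 306)) (XT.lf (nat_lit 76) (nat_lit 304062644) (nat_lit 0) (nat_lit 3117036008) (nat_lit 380) (nat_lit 304062644) (nat_lit 223) (nat_lit 1) (nat_lit 222) (nat_lit 1) (nat_lit 227) (nat_lit 1) (nat_lit 353) (nat_lit 362) (nat_lit 305))))))) (XT.nd (nat_lit 858) (nat_lit 1672) (nat_lit 0) (XT.nd (nat_lit 390) (nat_lit 760) (nat_lit 0) (XT.nd (nat_lit 156) (nat_lit 608) (nat_lit 0) (XT.nd (nat_lit 78) (nat_lit 304) (nat_lit 0) (XT.lf (nat_lit 76) (nat_lit 1713501562) (nat_lit 0) (nat_lit 255875005) (nat_lit 304) (nat_lit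 1713501562) (nat_lit 219) (nat_lit 1) (nat_lit 218) (nat_lit 1) (nat_lit 222) (nat_lit 1) (nat_lit 354) (nat_lit 362) (nat_lit 304)) (XT.lf (nat_lit 380) (nat_lit 2550053807) (nat_lit 0) (nat_lit 545678697) (nat_lit 304) (nat_lit 545678697) (nat_lit 219) (nat_lit 1) (nat_lit 214) (nat_lit 1) (nat_lit 218) (nat_lit 1) (nat_lit 355) (nat_lit 362) (nat_lit 303))) (XT.nd (nat_lit 78) (nat_lit 608) (nat_lit 0) (XT.lf (nat_lit 76) (nat_lit 836699322) (nat_lit 0) (nat_lit 1927018022) (nat_lit 380) (nat_lit 836699322) (nat_lit 215) (nat_lit 1) (nat_lit 214) (nat_lit 1) (nat_lit 219) (nat_lit 1) (nat_lit 356) (nat_lit 362) (nat_lit 302)) (XT.nd (nat_lit 78) (nat_lit 380) (nat_lit 0) (XT.lf (nat_lit 304) (nat_lit 803384795) (nat_lit 0) (nat_lit 1378340546) (nat_lit 228) (nat_lit 1378340546) (nat_lit 215) (nat_lit 1) (nat_lit 211) (nat_lit 1) (nat_lit 214) (nat_lit 1) (nat_lit 357) (nat_lit 362) (nat_lit 301))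 (XT.lf (nat_lit 380) (nat_lit 3471869774) (nat_lit 0) (nat_lit 24380187) (nat_lit 304) (nat_lit 24380187) (nat_lit 211) (nat_lit 1) (nat_lit 206) (nat_lit 1) (nat_lit 210) (nat_lit 1) (nat_lit 358) (nat_lit 362) (nat_lit 300))))) (XT.nd (nat_lit 234) (nat_lit 532) (nat_lit 0) (XT.nd (nat_lit 78) (nat_lit 228) (nat_lit 0) (XT.lf (nat_lit 76) (nat_lit 1293438842) (nat_lit 0) (nat_lit 894239196) (nat_lit 380) (nat_lit 1293438842) (nat_lit 207) (nat_lit 1) (nat_lit 206) (nat_lit 1) (nat_lit 211) (nat_lit 1) (nat_lit 359) (nat_lit 362) (nat_lit 299)) (XT.nd (nat_lit 78) (nat_lit 0) (nat_lit 0) (XT.lf (nat_lit 304) (nat_lit 1718895012) (nat_lit 0) (nat_lit 861802061) (nat_lit 228) (nat_lit 861802061) (nat_lit 207) (nat_lit 1) (nat_lit 203) (nat_lit 1) (nat_lit 206) (nat_lit 1) (nat_lit 360) (nat_lit 362) (nat_lit 298)) (XT.lf (nat_lit 76) (nat_lit 429587313) (nat_lit 0) (nat_lit 2545335857) (nat_lit 304) (nat_lit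 429587313) (nat_lit 204) (nat_lit 1) (nat_lit 203) (nat_lit 1) (nat_lit 207) (nat_lit 1) (nat_lit 361) (nat_lit 362) (nat_lit 297)))) (XT.nd (nat_lit 78) (nat_lit 228) (nat_lit 0) (XT.lf (nat_lit 76) (nat_lit 1683225339) (nat_lit 0) (nat_lit 450664) (nat_lit 304) (nat_lit 1683225339) (nat_lit 200) (nat_lit 1) (nat_lit 199) (nat_lit 1) (nat_lit 203) (nat_lit 1) (nat_lit 362) (nat_lit 362) (nat_lit 296)) (XT.nd (nat_lit 78) (nat_lit 0) (nat_lit 0) (XT.lf (nat_lit 304) (nat_lit 2503039282) (nat_lit 0) (nat_lit 413432336) (nat_lit 228) (nat_lit 413432336) (nat_lit 200) (nat_lit 1) (nat_lit 196) (nat_lit 1) (nat_lit 199) (nat_lit 1) (nat_lit 363) (nat_lit 362) (nat_lit 295)) (XT.lf (nat_lit 76) (nat_lit 819996611) (nat_lit 0) (nat_lit 1653269114) (nat_lit 304) (nat_lit 819996611) (nat_lit 197) (nat_lit 1) (nat_lit 196) (nat_lit 1) (nat_lit 200) (nat_lit 1) (nat_lit 364) (nat_lit 362) (nat_lit 294)))))) (XT.nd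 (nat_lit 390) (nat_lit 912) (nat_lit 0) (XT.nd (nat_lit 156) (nat_lit 228) (nat_lit 0) (XT.nd (nat_lit 78) (nat_lit 304) (nat_lit 0) (XT.lf (nat_lit 304) (nat_lit 785875907) (nat_lit 0) (nat_lit 1235669975) (nat_lit 228) (nat_lit 1235669975) (nat_lit 197) (nat_lit 1) (nat_lit 193) (nat_lit 1) (nat_lit 196) (nat_lit 1) (nat_lit 365) (nat_lit 362) (nat_lit 293)) (XT.lf (nat_lit 304) (nat_lit 3171319271) (nat_lit 0) (nat_lit 25321865) (nat_lit 228) (nat_lit 25321865) (nat_lit 193) (nat_lit 1) (nat_lit 189) (nat_lit 1) (nat_lit 192) (nat_lit 1) (nat_lit 366) (nat_lit 362) (nat_lit 292))) (XT.nd (nat_lit 78) (nat_lit 228) (nat_lit 0) (XT.lf (nat_lit 76) (nat_lit 1154103794) (nat_lit 0) (nat_lit 878394769) (nat_lit 304) (nat_lit 1154103794) (nat_lit 190) (nat_lit 1) (nat_lit 189) (nat_lit 1) (nat_lit 193) (nat_lit 1) (nat_lit 367) (nat_lit 362) (nat_lit 291)) (XT.nd (nat_lit 78) (nat_lit 0) (nat_lit 0) (XT.lf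 (nat_lit 304) (nat_lit 1461623367) (nat_lit 0) (nat_lit 845198720) (nat_lit 228) (nat_lit 845198720) (nat_lit 190) (nat_lit 1) (nat_lit 186) (nat_lit 1) (nat_lit 189) (nat_lit 1) (nat_lit 368) (nat_lit 362) (nat_lit 290)) (XT.lf (nat_lit 76) (nat_lit 312612710) (nat_lit 0) (nat_lit 2492799568) (nat_lit 304) (nat_lit 312612710) (nat_lit 187) (nat_lit 1) (nat_lit 186) (nat_lit 1) (nat_lit 190) (nat_lit 1) (nat_lit 369) (nat_lit 362) (nat_lit 289))))) (XT.nd (nat_lit 234) (nat_lit 456) (nat_lit 0) (XT.nd (nat_lit 78) (nat_lit 228) (nat_lit 0) (XT.lf (nat_lit 76) (nat_lit 1438559113) (nat_lit 0) (nat_lit 207128370) (nat_lit 228) (nat_lit 1438559113) (nat_lit 184) (nat_lit 1) (nat_lit 183) (nat_lit 1) (nat_lit 186) (nat_lit 1) (nat_lit 370) (nat_lit 362) (nat_lit 288)) (XT.nd (nat_lit 78) (nat_lit 0) (nat_lit 0) (XT.lf (nat_lit 304) (nat_lit 2039781783) (nat_lit 0) (nat_lit 505629622) (nat_lit 228) (nat_lit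 505629622) (nat_lit 184) (nat_lit 1) (nat_lit 180) (nat_lit 1) (nat_lit 183) (nat_lit 1) (nat_lit 371) (nat_lit 362) (nat_lit 287)) (XT.lf (nat_lit 76) (nat_lit 603318960) (nat_lit 0) (nat_lit 1811576463) (nat_lit 304) (nat_lit 603318960) (nat_lit 181) (nat_lit 1) (nat_lit 180) (nat_lit 1) (nat_lit 184) (nat_lit 1) (nat_lit 372) (nat_lit 362) (nat_lit 286)))) (XT.nd (nat_lit 78) (nat_lit 304) (nat_lit 0) (XT.lf (nat_lit 228) (nat_lit 379999829) (nat_lit 0) (nat_lit 1302913363) (nat_lit 152) (nat_lit 1302913363) (nat_lit 181) (nat_lit 1) (nat_lit 178) (nat_lit 1) (nat_lit 180) (nat_lit 1) (nat_lit 373) (nat_lit 362) (nat_lit 285)) (XT.nd (nat_lit 78) (nat_lit 0) (nat_lit 0) (XT.lf (nat_lit 304) (nat_lit 2531881201) (nat_lit 0) (nat_lit 211072076) (nat_lit 228) (nat_lit 211072076) (nat_lit 178) (nat_lit 1) (nat_lit 174) (nat_lit 1) (nat_lit 177) (nat_lit 1) (nat_lit 374) (nat_lit 362) (nat_lit 284)) (XT.lf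 (nat_lit 76) (nat_lit 852125174) (nat_lit 0) (nat_lit 1218063519) (nat_lit 304) (nat_lit 852125174) (nat_lit 175) (nat_lit 1) (nat_lit 174) (nat_lit 1) (nat_lit 178) (nat_lit 1) (nat_lit 375) (nat_lit 362) (nat_lit 283))))))))
noncomputable def ec53 : XT := (XT.nd (nat_lit 47424) (nat_lit 0) (nat_lit 11400) (XT.nd (nat_lit 858) (nat_lit 380) (nat_lit 0) (XT.nd (nat_lit 390) (nat_lit 760) (nat_lit 0) (XT.nd (nat_lit 156) (nat_lit 380) (nat_lit 0) (XT.nd (nat_lit 78) (nat_lit 0) (nat_lit 0) (XT.lf (nat_lit 228) (nat_lit 888783450) (nat_lit 0) (nat_lit 1001197373) (nat_lit 152) (nat_lit 1001197373) (nat_lit 175) (nat_lit 1) (nat_lit 172) (nat_lit 1) (nat_lit 174) (nat_lit 1) (nat_lit 376) (nat_lit 362) (nat_lit 282)) (XT.lf (nat_lit 76) (nat_lit 44134089) (nat_lit 0) (nat_lit 2772424908) (nat_lit 228) (nat_lit 44134089) (nat_lit 173) (nat_lit 1) (nat_lit 172) (nat_lit 1) (nat_lit 175) (nat_lit 1) (nat_lit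 377) (nat_lit 362) (nat_lit 281))) (XT.nd (nat_lit 78) (nat_lit 152) (nat_lit 0) (XT.lf (nat_lit 76) (nat_lit 1063979940) (nat_lit 0) (nat_lit 702137830) (nat_lit 228) (nat_lit 1063979940) (nat_lit 170) (nat_lit 1) (nat_lit 169) (nat_lit 1) (nat_lit 172) (nat_lit 1) (nat_lit 378) (nat_lit 362) (nat_lit 280)) (XT.nd (nat_lit 78) (nat_lit 0) (nat_lit 0) (XT.lf (nat_lit 228) (nat_lit 1324777947) (nat_lit 0) (nat_lit 737682672) (nat_lit 152) (nat_lit 737682672) (nat_lit 170) (nat_lit 1) (nat_lit 167) (nat_lit 1) (nat_lit 169) (nat_lit 1) (nat_lit 379) (nat_lit 362) (nat_lit 279)) (XT.lf (nat_lit 76) (nat_lit 265936524) (nat_lit 0) (nat_lit 2238806244) (nat_lit 228) (nat_lit 265936524) (nat_lit 168) (nat_lit 1) (nat_lit 167) (nat_lit 1) (nat_lit 170) (nat_lit 1) (nat_lit 380) (nat_lit 362) (nat_lit 278))))) (XT.nd (nat_lit 234) (nat_lit 380) (nat_lit 0) (XT.nd (nat_lit 78) (nat_lit 152) (nat_lit 0) (XT.lf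 (nat_lit 76) (nat_lit 1243271969) (nat_lit 0) (nat_lit 254815290) (nat_lit 228) (nat_lit 1243271969) (nat_lit 165) (nat_lit 1) (nat_lit 164) (nat_lit 1) (nat_lit 167) (nat_lit 1) (nat_lit 381) (nat_lit 362) (nat_lit 277)) (XT.nd (nat_lit 78) (nat_lit 0) (nat_lit 0) (XT.lf (nat_lit 228) (nat_lit 1696567817) (nat_lit 0) (nat_lit 507976618) (nat_lit 152) (nat_lit 507976618) (nat_lit 165) (nat_lit 1) (nat_lit 162) (nat_lit 1) (nat_lit 164) (nat_lit 1) (nat_lit 382) (nat_lit 362) (nat_lit 276)) (XT.lf (nat_lit 76) (nat_lit 456401503) (nat_lit 0) (nat_lit 1771230566) (nat_lit 228) (nat_lit 456401503) (nat_lit 163) (nat_lit 1) (nat_lit 162) (nat_lit 1) (nat_lit 165) (nat_lit 1) (nat_lit 383) (nat_lit 362) (nat_lit 275)))) (XT.nd (nat_lit 78) (nat_lit 228) (nat_lit 0) (XT.lf (nat_lit 228) (nat_lit 134501294) (nat_lit 0) (nat_lit 1260684377) (nat_lit 152) (nat_lit 1260684377) (nat_lit 163) (nat_lit 1) (nat_lit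 160) (nat_lit 1) (nat_lit 162) (nat_lit 1) (nat_lit 384) (nat_lit 362) (nat_lit 274)) (XT.nd (nat_lit 78) (nat_lit 0) (nat_lit 0) (XT.lf (nat_lit 228) (nat_lit 2011766657) (nat_lit 0) (nat_lit 308180277) (nat_lit 152) (nat_lit 308180277) (nat_lit 160) (nat_lit 1) (nat_lit 157) (nat_lit 1) (nat_lit 159) (nat_lit 1) (nat_lit 385) (nat_lit 362) (nat_lit 273)) (XT.lf (nat_lit 76) (nat_lit 619215899) (nat_lit 0) (nat_lit 1362142811) (nat_lit 228) (nat_lit 619215899) (nat_lit 158) (nat_lit 1) (nat_lit 157) (nat_lit 1) (nat_lit 160) (nat_lit 1) (nat_lit 386) (nat_lit 362) (nat_lit 272)))))) (XT.nd (nat_lit 46098) (nat_lit 0) (nat_lit 16948) (XT.nd (nat_lit 45864) (nat_lit 0) (nat_lit 16872) (XT.nd (nat_lit 78) (nat_lit 228) (nat_lit 0) (XT.lf (nat_lit 228) (nat_lit 474266914) (nat_lit 0) (nat_lit 1049584317) (nat_lit 152) (nat_lit 1049584317) (nat_lit 158) (nat_lit 1) (nat_lit 155) (nat_lit 1) (nat_lit 157)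 (nat_lit 1) (nat_lit 387) (nat_lit 362) (nat_lit 271)) (XT.lf (nat_lit 228) (nat_lit 2277125828) (nat_lit 0) (nat_lit 134833243) (nat_lit 152) (nat_lit 134833243) (nat_lit 155) (nat_lit 1) (nat_lit 152) (nat_lit 1) (nat_lit 154) (nat_lit 1) (nat_lit 388) (nat_lit 362) (nat_lit 270))) (XT.nd (nat_lit 78) (nat_lit 0) (nat_lit 0) (XT.lf (nat_lit 1292) (nat_lit 736072928) (nat_lit 0) (nat_lit 2532433199) (nat_lit 1292) (nat_lit 736072928) (nat_lit 391) (nat_lit 1) (nat_lit 374) (nat_lit 0) (nat_lit 391) (nat_lit 0) (nat_lit 294) (nat_lit 363) (nat_lit 363)) (XT.nd (nat_lit 78) (nat_lit 0) (nat_lit 76) (XT.lf (nat_lit 1292) (nat_lit 2876585903) (nat_lit 76) (nat_lit 2507605423) (nat_lit 0) (nat_lit 2507605423) (nat_lit 391) (nat_lit 1) (nat_lit 375) (nat_lit 1) (nat_lit 374) (nat_lit 0) (nat_lit 295) (nat_lit 363) (nat_lit 362)) (XT.lf (nat_lit 1292) (nat_lit 1391185529) (nat_lit 0) (nat_lit 4994653075) (nat_lit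 1216) (nat_lit 1391185529) (nat_lit 392) (nat_lit 1) (nat_lit 375) (nat_lit 1) (nat_lit 391) (nat_lit 1) (nat_lit 296) (nat_lit 363) (nat_lit 361))))) (XT.nd (nat_lit 234) (nat_lit 0) (nat_lit 152) (XT.nd (nat_lit 78) (nat_lit 0) (nat_lit 76) (XT.lf (nat_lit 1292) (nat_lit 2641933147) (nat_lit 76) (nat_lit 2511117516) (nat_lit 0) (nat_lit 2511117516) (nat_lit 392) (nat_lit 1) (nat_lit 376) (nat_lit 1) (nat_lit 375) (nat_lit 1) (nat_lit 297) (nat_lit 363) (nat_lit 360)) (XT.nd (nat_lit 78) (nat_lit 0) (nat_lit 0) (XT.lf (nat_lit 1292) (nat_lit 1239713953) (nat_lit 0) (nat_lit 5074409509) (nat_lit 1216) (nat_lit 1239713953) (nat_lit 393) (nat_lit 1) (nat_lit 376) (nat_lit 1) (nat_lit 392) (nat_lit 1) (nat_lit 298) (nat_lit 363) (nat_lit 359)) (XT.lf (nat_lit 1292) (nat_lit 2271906715) (nat_lit 76) (nat_lit 2586682225) (nat_lit 0) (nat_lit 2586682225) (nat_lit 393) (nat_lit 1) (nat_lit 377) (nat_lit 1)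 (nat_lit 376) (nat_lit 1) (nat_lit 299) (nat_lit 363) (nat_lit 358)))) (XT.nd (nat_lit 78) (nat_lit 0) (nat_lit 0) (XT.lf (nat_lit 1292) (nat_lit 1023967852) (nat_lit 0) (nat_lit 5291276166) (nat_lit 1216) (nat_lit 1023967852) (nat_lit 394) (nat_lit 1) (nat_lit 377) (nat_lit 1) (nat_lit 393) (nat_lit 1) (nat_lit 300) (nat_lit 363) (nat_lit 357)) (XT.nd (nat_lit 78) (nat_lit 0) (nat_lit 76) (XT.lf (nat_lit 1292) (nat_lit 1778612866) (nat_lit 76) (nat_lit 2728058943) (nat_lit 0) (nat_lit 2728058943) (nat_lit 394) (nat_lit 1) (nat_lit 378) (nat_lit 1) (nat_lit 377) (nat_lit 1) (nat_lit 301) (nat_lit 363) (nat_lit 356)) (XT.lf (nat_lit 1292) (nat_lit 749762176) (nat_lit 0) (nat_lit 5633255507) (nat_lit 1216) (nat_lit 749762176) (nat_lit 395) (nat_lit 1) (nat_lit 378) (nat_lit 1) (nat_lit 394) (nat_lit 1) (nat_lit 302) (nat_lit 363) (nat_lit 355))))))) (XT.nd (nat_lit 858) (nat_lit 3952) (nat_lit 0) (XT.nd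 (nat_lit 390) (nat_lit 684) (nat_lit 0) (XT.nd (nat_lit 156) (nat_lit 1140) (nat_lit 0) (XT.nd (nat_lit 78) (nat_lit 0) (nat_lit 76) (XT.lf (nat_lit 1292) (nat_lit 1173336636) (nat_lit 76) (nat_lit 2929426596) (nat_lit 0) (nat_lit 2929426596) (nat_lit 395) (nat_lit 1) (nat_lit 379) (nat_lit 1) (nat_lit 378) (nat_lit 1) (nat_lit 303) (nat_lit 363) (nat_lit 354)) (XT.lf (nat_lit 1292) (nat_lit 422516169) (nat_lit 0) (nat_lit 6089158900) (nat_lit 1216) (nat_lit 422516169) (nat_lit 396) (nat_lit 1) (nat_lit 379) (nat_lit 1) (nat_lit 395) (nat_lit 1) (nat_lit 304) (nat_lit 363) (nat_lit 353))) (XT.nd (nat_lit 78) (nat_lit 1216) (nat_lit 0) (XT.lf (nat_lit 1292) (nat_lit 466592665) (nat_lit 76) (nat_lit 3185357772) (nat_lit 0) (nat_lit 3185357772) (nat_lit 396) (nat_lit 1) (nat_lit 380) (nat_lit 1) (nat_lit 379) (nat_lit 1) (nat_lit 305) (nat_lit 363) (nat_lit 352)) (XT.nd (nat_lit 78) (nat_lit 1292) (nat_lit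 0) (XT.lf (nat_lit 1292) (nat_lit 47277888) (nat_lit 0) (nat_lit 6648556685) (nat_lit 1216) (nat_lit 47277888) (nat_lit 397) (nat_lit 1) (nat_lit 380) (nat_lit 1) (nat_lit 396) (nat_lit 1) (nat_lit 306) (nat_lit 363) (nat_lit 351)) (XT.lf (nat_lit 1368) (nat_lit 3162157106) (nat_lit 0) (nat_lit 325351872) (nat_lit 1292) (nat_lit 3162157106) (nat_lit 381) (nat_lit 1) (nat_lit 363) (nat_lit 1) (nat_lit 380) (nat_lit 1) (nat_lit 307) (nat_lit 363) (nat_lit 350))))) (XT.nd (nat_lit 234) (nat_lit 684) (nat_lit 0) (XT.nd (nat_lit 78) (nat_lit 0) (nat_lit 76) (XT.lf (nat_lit 1368) (nat_lit 5823569324) (nat_lit 76) (nat_lit 367613002) (nat_lit 0) (nat_lit 367613002) (nat_lit 381) (nat_lit 1) (nat_lit 364) (nat_lit 1) (nat_lit 363) (nat_lit 1) (nat_lit 308) (nat_lit 363) (nat_lit 349)) (XT.nd (nat_lit 78) (nat_lit 0) (nat_lit 0) (XT.lf (nat_lit 1368) (nat_lit 2639875067) (nat_lit 0) (nat_lit 1189141767) (nat_lit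 1292) (nat_lit 2639875067) (nat_lit 382) (nat_lit 1) (nat_lit 364) (nat_lit 1) (nat_lit 381) (nat_lit 1) (nat_lit 309) (nat_lit 363) (nat_lit 348)) (XT.lf (nat_lit 1368) (nat_lit 4740112087) (nat_lit 76) (nat_lit 820577687) (nat_lit 0) (nat_lit 820577687) (nat_lit 382) (nat_lit 1) (nat_lit 365) (nat_lit 1) (nat_lit 364) (nat_lit 1) (nat_lit 310) (nat_lit 363) (nat_lit 347)))) (XT.nd (nat_lit 78) (nat_lit 836) (nat_lit 0) (XT.lf (nat_lit 76) (nat_lit 2084629924) (nat_lit 0) (nat_lit 2125568393) (nat_lit 1292) (nat_lit 2084629924) (nat_lit 366) (nat_lit 1) (nat_lit 365) (nat_lit 1) (nat_lit 382) (nat_lit 1) (nat_lit 311) (nat_lit 363) (nat_lit 346)) (XT.nd (nat_lit 78) (nat_lit 0) (nat_lit 0) (XT.lf (nat_lit 912) (nat_lit 3594195470) (nat_lit 0) (nat_lit 1308052121) (nat_lit 836) (nat_lit 1308052121) (nat_lit 366) (nat_lit 1) (nat_lit 354) (nat_lit 1) (nat_lit 365) (nat_lit 1) (nat_lit 312) (nat_lit 363)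 (nat_lit 345)) (XT.lf (nat_lit 76) (nat_lit 1500147222) (nat_lit 0) (nat_lit 3126902245) (nat_lit 912) (nat_lit 1500147222) (nat_lit 355) (nat_lit 1) (nat_lit 354) (nat_lit 1) (nat_lit 366) (nat_lit 1) (nat_lit 313) (nat_lit 363) (nat_lit 344)))))) (XT.nd (nat_lit 468) (nat_lit 1520) (nat_lit 0) (XT.nd (nat_lit 234) (nat_lit 1216) (nat_lit 0) (XT.nd (nat_lit 78) (nat_lit 608) (nat_lit 0) (XT.lf (nat_lit 684) (nat_lit 2393035604) (nat_lit 0) (nat_lit 1826292825) (nat_lit 608) (nat_lit 1826292825) (nat_lit 355) (nat_lit 1) (nat_lit 346) (nat_lit 1) (nat_lit 354) (nat_lit 1) (nat_lit 314) (nat_lit 363) (nat_lit 343)) (XT.nd (nat_lit 78) (nat_lit 608) (nat_lit 0) (XT.lf (nat_lit 76) (nat_lit 889885245) (nat_lit 0) (nat_lit 4185961210) (nat_lit 684) (nat_lit 889885245) (nat_lit 347) (nat_lit 1) (nat_lit 346) (nat_lit 1) (nat_lit 355) (nat_lit 1) (nat_lit 315) (nat_lit 363) (nat_lit 342)) (XT.lf (nat_lit 684)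 (nat_lit 1143328634) (nat_lit 0) (nat_lit 2371822544) (nat_lit 608) (nat_lit 2371822544) (nat_lit 347) (nat_lit 1) (nat_lit 338) (nat_lit 1) (nat_lit 346) (nat_lit 1) (nat_lit 316) (nat_lit 363) (nat_lit 341)))) (XT.nd (nat_lit 78) (nat_lit 1216) (nat_lit 0) (XT.lf (nat_lit 76) (nat_lit 257051916) (nat_lit 0) (nat_lit 5296076123) (nat_lit 684) (nat_lit 257051916) (nat_lit 339) (nat_lit 1) (nat_lit 338) (nat_lit 1) (nat_lit 347) (nat_lit 1) (nat_lit 317) (nat_lit 363) (nat_lit 340)) (XT.nd (nat_lit 78) (nat_lit 608) (nat_lit 0) (XT.lf (nat_lit 76) (nat_lit 2794126679) (nat_lit 0) (nat_lit 145814355) (nat_lit 608) (nat_lit 2794126679) (nat_lit 331) (nat_lit 1) (nat_lit 330) (nat_lit 1) (nat_lit 338) (nat_lit 1) (nat_lit 318) (nat_lit 363) (nat_lit 339)) (XT.lf (nat_lit 684) (nat_lit 4876835255) (nat_lit 0) (nat_lit 391503054) (nat_lit 608) (nat_lit 391503054) (nat_lit 331) (nat_lit 1) (nat_lit 322) (nat_lit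 1) (nat_lit 330) (nat_lit 1) (nat_lit 319) (nat_lit 363) (nat_lit 338))))) (XT.nd (nat_lit 234) (nat_lit 988) (nat_lit 0) (XT.nd (nat_lit 78) (nat_lit 532) (nat_lit 0) (XT.lf (nat_lit 76) (nat_lit 2068926284) (nat_lit 0) (nat_lit 1448518005) (nat_lit 684) (nat_lit 2068926284) (nat_lit 323) (nat_lit 1) (nat_lit 322) (nat_lit 1) (nat_lit 331) (nat_lit 1) (nat_lit 320) (nat_lit 363) (nat_lit 337)) (XT.nd (nat_lit 78) (nat_lit 0) (nat_lit 0) (XT.lf (nat_lit 608) (nat_lit 3406192494) (nat_lit 0) (nat_lit 1054216795) (nat_lit 532) (nat_lit 1054216795) (nat_lit 323) (nat_lit 1) (nat_lit 315) (nat_lit 1) (nat_lit 322) (nat_lit 1) (nat_lit 321) (nat_lit 363) (nat_lit 336)) (XT.lf (nat_lit 76) (nat_lit 1331059114) (nat_lit 0) (nat_lit 2781870738) (nat_lit 608) (nat_lit 1331059114) (nat_lit 316) (nat_lit 1) (nat_lit 315) (nat_lit 1) (nat_lit 323) (nat_lit 1) (nat_lit 322) (nat_lit 363) (nat_lit 335)))) (XT.nd (nat_lit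 78) (nat_lit 456) (nat_lit 0) (XT.lf (nat_lit 608) (nat_lit 1912442786) (nat_lit 0) (nat_lit 1731086044) (nat_lit 532) (nat_lit 1731086044) (nat_lit 316) (nat_lit 1) (nat_lit 308) (nat_lit 1) (nat_lit 315) (nat_lit 1) (nat_lit 323) (nat_lit 363) (nat_lit 334)) (XT.nd (nat_lit 78) (nat_lit 456) (nat_lit 0) (XT.lf (nat_lit 76) (nat_lit 582833737) (nat_lit 0) (nat_lit 4141042407) (nat_lit 608) (nat_lit 582833737) (nat_lit 309) (nat_lit 1) (nat_lit 308) (nat_lit 1) (nat_lit 316) (nat_lit 1) (nat_lit 324) (nat_lit 363) (nat_lit 333)) (XT.lf (nat_lit 532) (nat_lit 400044444) (nat_lit 0) (nat_lit 2419777889) (nat_lit 456) (nat_lit 2419777889) (nat_lit 309) (nat_lit 1) (nat_lit 302) (nat_lit 1) (nat_lit 308) (nat_lit 1) (nat_lit 325) (nat_lit 363) (nat_lit 332))))))))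
noncomputable def ec54 : XT := (XT.nd (nat_lit 1716) (nat_lit 3876) (nat_lit 0) (XT.nd (nat_lit 858) (nat_lit 2584) (nat_lit 0) (XT.nd (nat_lit 390) (nat_lit 1292) (nat_lit 0) (XT.nd (nat_lit 156) (nat_lit 912) (nat_lit 0) (XT.nd (nat_lit 78) (nat_lit 0) (nat_lit 0) (XT.lf (nat_lit 608) (nat_lit 4830293158) (nat_lit 0) (nat_lit 171917705) (nat_lit 532) (nat_lit 171917705) (nat_lit 302) (nat_lit 1) (nat_lit 294) (nat_lit 1) (nat_lit 301) (nat_lit 1) (nat_lit 326) (nat_lit 363) (nat_lit 331)) (XT.lf (nat_lit 76) (nat_lit 2002078621) (nat_lit 0) (nat_lit 1104901654) (nat_lit 608) (nat_lit 2002078621) (nat_lit 295) (nat_lit 1) (nat_lit 294) (nat_lit 1) (nat_lit 302) (nat_lit 1) (nat_lit 327) (nat_lit 363) (nat_lit 330))) (XT.nd (nat_lit 78) (nat_lit 456) (nat_lit 0) (XT.lf (nat_lit 532) (nat_lit 3191251170) (nat_lit 0) (nat_lit 927158892) (nat_lit 456) (nat_lit 927158892) (nat_lit 295) (nat_lit 1) (nat_lit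 288) (nat_lit 1) (nat_lit 294) (nat_lit 1) (nat_lit 328) (nat_lit 363) (nat_lit 329)) (XT.nd (nat_lit 78) (nat_lit 456) (nat_lit 0) (XT.lf (nat_lit 76) (nat_lit 1185212713) (nat_lit 0) (nat_lit 2612582518) (nat_lit 532) (nat_lit 1185212713) (nat_lit 289) (nat_lit 1) (nat_lit 288) (nat_lit 1) (nat_lit 295) (nat_lit 1) (nat_lit 329) (nat_lit 363) (nat_lit 328)) (XT.lf (nat_lit 532) (nat_lit 1547893675) (nat_lit 0) (nat_lit 1686814699) (nat_lit 456) (nat_lit 1686814699) (nat_lit 289) (nat_lit 1) (nat_lit 282) (nat_lit 1) (nat_lit 288) (nat_lit 1) (nat_lit 330) (nat_lit 363) (nat_lit 327))))) (XT.nd (nat_lit 234) (nat_lit 380) (nat_lit 0) (XT.nd (nat_lit 78) (nat_lit 912) (nat_lit 0) (XT.lf (nat_lit 76) (nat_lit 366996739) (nat_lit 0) (nat_lit 4127389168) (nat_lit 532) (nat_lit 366996739) (nat_lit 283) (nat_lit 1) (nat_lit 282) (nat_lit 1) (nat_lit 289) (nat_lit 1) (nat_lit 331) (nat_lit 363) (nat_lit 326))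 (XT.nd (nat_lit 78) (nat_lit 456) (nat_lit 0) (XT.lf (nat_lit 76) (nat_lit 2353504116) (nat_lit 0) (nat_lit 94779193) (nat_lit 456) (nat_lit 2353504116) (nat_lit 277) (nat_lit 1) (nat_lit 276) (nat_lit 1) (nat_lit 282) (nat_lit 1) (nat_lit 332) (nat_lit 363) (nat_lit 325)) (XT.lf (nat_lit 532) (nat_lit 3850159265) (nat_lit 0) (nat_lit 446664288) (nat_lit 456) (nat_lit 446664288) (nat_lit 277) (nat_lit 1) (nat_lit 270) (nat_lit 1) (nat_lit 276) (nat_lit 1) (nat_lit 333) (nat_lit 363) (nat_lit 324)))) (XT.nd (nat_lit 78) (nat_lit 380) (nat_lit 0) (XT.lf (nat_lit 76) (nat_lit 1490073337) (nat_lit 0) (nat_lit 1705629328) (nat_lit 532) (nat_lit 1490073337) (nat_lit 271) (nat_lit 1) (nat_lit 270) (nat_lit 1) (nat_lit 277) (nat_lit 1) (nat_lit 334) (nat_lit 363) (nat_lit 323)) (XT.nd (nat_lit 78) (nat_lit 0) (nat_lit 0) (XT.lf (nat_lit 456) (nat_lit 2118752401) (nat_lit 0) (nat_lit 1255252823) (nat_lit 380)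 (nat_lit 1255252823) (nat_lit 271) (nat_lit 1) (nat_lit 265) (nat_lit 1) (nat_lit 270) (nat_lit 1) (nat_lit 335) (nat_lit 363) (nat_lit 322)) (XT.lf (nat_lit 76) (nat_lit 630734767) (nat_lit 0) (nat_lit 3312305708) (nat_lit 456) (nat_lit 630734767) (nat_lit 266) (nat_lit 1) (nat_lit 265) (nat_lit 1) (nat_lit 271) (nat_lit 1) (nat_lit 336) (nat_lit 363) (nat_lit 321)))))) (XT.nd (nat_lit 390) (nat_lit 1368) (nat_lit 0) (XT.nd (nat_lit 156) (nat_lit 380) (nat_lit 0) (XT.nd (nat_lit 78) (nat_lit 456) (nat_lit 0) (XT.lf (nat_lit 456) (nat_lit 396682485) (nat_lit 0) (nat_lit 2061140061) (nat_lit 380) (nat_lit 2061140061) (nat_lit 266) (nat_lit 1) (nat_lit 260) (nat_lit 1) (nat_lit 265) (nat_lit 1) (nat_lit 337) (nat_lit 363) (nat_lit 320)) (XT.lf (nat_lit 456) (nat_lit 4022909729) (nat_lit 0) (nat_lit 221231657) (nat_lit 380) (nat_lit 221231657) (nat_lit 260) (nat_lit 1) (nat_lit 254) (nat_lit 1) (nat_lit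 259) (nat_lit 1) (nat_lit 338) (nat_lit 363) (nat_lit 319))) (XT.nd (nat_lit 78) (nat_lit 380) (nat_lit 0) (XT.lf (nat_lit 76) (nat_lit 1561874879) (nat_lit 0) (nat_lit 1288323398) (nat_lit 456) (nat_lit 1561874879) (nat_lit 255) (nat_lit 1) (nat_lit 254) (nat_lit 1) (nat_lit 260) (nat_lit 1) (nat_lit 339) (nat_lit 363) (nat_lit 318)) (XT.nd (nat_lit 78) (nat_lit 0) (nat_lit 0) (XT.lf (nat_lit 456) (nat_lit 2238148292) (nat_lit 0) (nat_lit 1060904759) (nat_lit 380) (nat_lit 1060904759) (nat_lit 255) (nat_lit 1) (nat_lit 249) (nat_lit 1) (nat_lit 254) (nat_lit 1) (nat_lit 340) (nat_lit 363) (nat_lit 317)) (XT.lf (nat_lit 76) (nat_lit 678090579) (nat_lit 0) (nat_lit 2952533797) (nat_lit 456) (nat_lit 678090579) (nat_lit 250) (nat_lit 1) (nat_lit 249) (nat_lit 1) (nat_lit 255) (nat_lit 1) (nat_lit 341) (nat_lit 363) (nat_lit 316))))) (XT.nd (nat_lit 234) (nat_lit 608) (nat_lit 0) (XT.nd (nat_lit 78) (nat_lit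 456) (nat_lit 0) (XT.lf (nat_lit 380) (nat_lit 470955978) (nat_lit 0) (nat_lit 1893582766) (nat_lit 304) (nat_lit 1893582766) (nat_lit 250) (nat_lit 1) (nat_lit 245) (nat_lit 1) (nat_lit 249) (nat_lit 1) (nat_lit 342) (nat_lit 363) (nat_lit 315)) (XT.nd (nat_lit 78) (nat_lit 0) (nat_lit 0) (XT.lf (nat_lit 456) (nat_lit 3819343478) (nat_lit 0) (nat_lit 194647236) (nat_lit 380) (nat_lit 194647236) (nat_lit 245) (nat_lit 1) (nat_lit 239) (nat_lit 1) (nat_lit 244) (nat_lit 1) (nat_lit 343) (nat_lit 363) (nat_lit 314)) (XT.lf (nat_lit 76) (nat_lit 1453540905) (nat_lit 0) (nat_lit 1252280576) (nat_lit 456) (nat_lit 1453540905) (nat_lit 240) (nat_lit 1) (nat_lit 239) (nat_lit 1) (nat_lit 245) (nat_lit 1) (nat_lit 344) (nat_lit 363) (nat_lit 313)))) (XT.nd (nat_lit 78) (nat_lit 304) (nat_lit 0) (XT.lf (nat_lit 380) (nat_lit 2009113611) (nat_lit 0) (nat_lit 1051025416) (nat_lit 304) (nat_lit 1051025416) (nat_lit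 240) (nat_lit 1) (nat_lit 235) (nat_lit 1) (nat_lit 239) (nat_lit 1) (nat_lit 345) (nat_lit 363) (nat_lit 312)) (XT.nd (nat_lit 78) (nat_lit 304) (nat_lit 0) (XT.lf (nat_lit 76) (nat_lit 558703805) (nat_lit 0) (nat_lit 2946383327) (nat_lit 380) (nat_lit 558703805) (nat_lit 236) (nat_lit 1) (nat_lit 235) (nat_lit 1) (nat_lit 240) (nat_lit 1) (nat_lit 346) (nat_lit 363) (nat_lit 311)) (XT.lf (nat_lit 380) (nat_lit 222787519) (nat_lit 0) (nat_lit 1897084191) (nat_lit 304) (nat_lit 1897084191) (nat_lit 236) (nat_lit 1) (nat_lit 231) (nat_lit 1) (nat_lit 235) (nat_lit 1) (nat_lit 347) (nat_lit 363) (nat_lit 310))))))) (XT.nd (nat_lit 858) (nat_lit 1748) (nat_lit 0) (XT.nd (nat_lit 390) (nat_lit 1140) (nat_lit 0) (XT.nd (nat_lit 156) (nat_lit 608) (nat_lit 0) (XT.nd (nat_lit 78) (nat_lit 0) (nat_lit 0) (XT.lf (nat_lit 380) (nat_lit 3329416396) (nat_lit 0) (nat_lit 320814367) (nat_lit 304) (nat_lit 320814367)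 (nat_lit 231) (nat_lit 1) (nat_lit 226) (nat_lit 1) (nat_lit 230) (nat_lit 1) (nat_lit 348) (nat_lit 363) (nat_lit 309)) (XT.lf (nat_lit 76) (nat_lit 1208398810) (nat_lit 0) (nat_lit 1508651438) (nat_lit 380) (nat_lit 1208398810) (nat_lit 227) (nat_lit 1) (nat_lit 226) (nat_lit 1) (nat_lit 231) (nat_lit 1) (nat_lit 349) (nat_lit 363) (nat_lit 308))) (XT.nd (nat_lit 78) (nat_lit 304) (nat_lit 0) (XT.lf (nat_lit 380) (nat_lit 1515969273) (nat_lit 0) (nat_lit 1182390478) (nat_lit 304) (nat_lit 1182390478) (nat_lit 227) (nat_lit 1) (nat_lit 222) (nat_lit 1) (nat_lit 226) (nat_lit 1) (nat_lit 350) (nat_lit 363) (nat_lit 307)) (XT.nd (nat_lit 78) (nat_lit 304) (nat_lit 0) (XT.lf (nat_lit 76) (nat_lit 313184524) (nat_lit 0) (nat_lit 3210547088) (nat_lit 380) (nat_lit 313184524) (nat_lit 223) (nat_lit 1) (nat_lit 222) (nat_lit 1) (nat_lit 227) (nat_lit 1) (nat_lit 351) (nat_lit 363) (nat_lit 306)) (XT.lf (nat_lit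 76) (nat_lit 1764906609) (nat_lit 0) (nat_lit 263551255) (nat_lit 304) (nat_lit 1764906609) (nat_lit 219) (nat_lit 1) (nat_lit 218) (nat_lit 1) (nat_lit 222) (nat_lit 1) (nat_lit 352) (nat_lit 363) (nat_lit 305))))) (XT.nd (nat_lit 234) (nat_lit 608) (nat_lit 0) (XT.nd (nat_lit 78) (nat_lit 228) (nat_lit 0) (XT.lf (nat_lit 380) (nat_lit 2626555421) (nat_lit 0) (nat_lit 562049058) (nat_lit 304) (nat_lit 562049058) (nat_lit 219) (nat_lit 1) (nat_lit 214) (nat_lit 1) (nat_lit 218) (nat_lit 1) (nat_lit 353) (nat_lit 363) (nat_lit 304)) (XT.nd (nat_lit 78) (nat_lit 228) (nat_lit 0) (XT.lf (nat_lit 76) (nat_lit 861800302) (nat_lit 0) (nat_lit 1984828563) (nat_lit 380) (nat_lit 861800302) (nat_lit 215) (nat_lit 1) (nat_lit 214) (nat_lit 1) (nat_lit 219) (nat_lit 1) (nat_lit 354) (nat_lit 363) (nat_lit 303)) (XT.lf (nat_lit 304) (nat_lit 827486339) (nat_lit 0) (nat_lit 1419690762) (nat_lit 228) (nat_lit 1419690762)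 (nat_lit 215) (nat_lit 1) (nat_lit 211) (nat_lit 1) (nat_lit 214) (nat_lit 1) (nat_lit 355) (nat_lit 363) (nat_lit 302)))) (XT.nd (nat_lit 78) (nat_lit 228) (nat_lit 0) (XT.lf (nat_lit 380) (nat_lit 3576025867) (nat_lit 0) (nat_lit 25111592) (nat_lit 304) (nat_lit 25111592) (nat_lit 211) (nat_lit 1) (nat_lit 206) (nat_lit 1) (nat_lit 210) (nat_lit 1) (nat_lit 356) (nat_lit 363) (nat_lit 301)) (XT.nd (nat_lit 78) (nat_lit 228) (nat_lit 0) (XT.lf (nat_lit 76) (nat_lit 1332242007) (nat_lit 0) (nat_lit 921066372) (nat_lit 380) (nat_lit 1332242007) (nat_lit 207) (nat_lit 1) (nat_lit 206) (nat_lit 1) (nat_lit 211) (nat_lit 1) (nat_lit 357) (nat_lit 363) (nat_lit 300)) (XT.lf (nat_lit 304) (nat_lit 1770461862) (nat_lit 0) (nat_lit 887656122) (nat_lit 228) (nat_lit 887656122) (nat_lit 207) (nat_lit 1) (nat_lit 203) (nat_lit 1) (nat_lit 206) (nat_lit 1) (nat_lit 358) (nat_lit 363) (nat_lit 299)))))) (XT.nd (nat_lit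 390) (nat_lit 988) (nat_lit 0) (XT.nd (nat_lit 156) (nat_lit 456) (nat_lit 0) (XT.nd (nat_lit 78) (nat_lit 304) (nat_lit 0) (XT.lf (nat_lit 76) (nat_lit 442474932) (nat_lit 0) (nat_lit 2621695933) (nat_lit 304) (nat_lit 442474932) (nat_lit 204) (nat_lit 1) (nat_lit 203) (nat_lit 1) (nat_lit 207) (nat_lit 1) (nat_lit 359) (nat_lit 363) (nat_lit 298)) (XT.lf (nat_lit 76) (nat_lit 1733722099) (nat_lit 0) (nat_lit 464184) (nat_lit 304) (nat_lit 1733722099) (nat_lit 200) (nat_lit 1) (nat_lit 199) (nat_lit 1) (nat_lit 203) (nat_lit 1) (nat_lit 360) (nat_lit 363) (nat_lit 297))) (XT.nd (nat_lit 78) (nat_lit 228) (nat_lit 0) (XT.lf (nat_lit 304) (nat_lit 2578130460) (nat_lit 0) (nat_lit 425835306) (nat_lit 228) (nat_lit 425835306) (nat_lit 200) (nat_lit 1) (nat_lit 196) (nat_lit 1) (nat_lit 199) (nat_lit 1) (nat_lit 361) (nat_lit 363) (nat_lit 296)) (XT.nd (nat_lit 78) (nat_lit 228) (nat_lit 0) (XT.lf (nat_lit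 76) (nat_lit 844596510) (nat_lit 0) (nat_lit 1702867187) (nat_lit 304) (nat_lit 844596510) (nat_lit 197) (nat_lit 1) (nat_lit 196) (nat_lit 1) (nat_lit 200) (nat_lit 1) (nat_lit 362) (nat_lit 363) (nat_lit 295)) (XT.lf (nat_lit 304) (nat_lit 809452185) (nat_lit 0) (nat_lit 1272740075) (nat_lit 228) (nat_lit 1272740075) (nat_lit 197) (nat_lit 1) (nat_lit 193) (nat_lit 1) (nat_lit 196) (nat_lit 1) (nat_lit 363) (nat_lit 363) (nat_lit 294))))) (XT.nd (nat_lit 234) (nat_lit 456) (nat_lit 0) (XT.nd (nat_lit 78) (nat_lit 228) (nat_lit 0) (XT.lf (nat_lit 304) (nat_lit 3266458849) (nat_lit 0) (nat_lit 26081521) (nat_lit 228) (nat_lit 26081521) (nat_lit 193) (nat_lit 1) (nat_lit 189) (nat_lit 1) (nat_lit 192) (nat_lit 1) (nat_lit 364) (nat_lit 363) (nat_lit 293)) (XT.nd (nat_lit 78) (nat_lit 228) (nat_lit 0) (XT.lf (nat_lit 76) (nat_lit 1188726908) (nat_lit 0) (nat_lit 904746612) (nat_lit 304) (nat_lit 1188726908)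 (nat_lit 190) (nat_lit 1) (nat_lit 189) (nat_lit 1) (nat_lit 193) (nat_lit 1) (nat_lit 365) (nat_lit 363) (nat_lit 292)) (XT.lf (nat_lit 304) (nat_lit 1505472068) (nat_lit 0) (nat_lit 870554682) (nat_lit 228) (nat_lit 870554682) (nat_lit 190) (nat_lit 1) (nat_lit 186) (nat_lit 1) (nat_lit 189) (nat_lit 1) (nat_lit 366) (nat_lit 363) (nat_lit 291)))) (XT.nd (nat_lit 78) (nat_lit 456) (nat_lit 0) (XT.lf (nat_lit 76) (nat_lit 321991092) (nat_lit 0) (nat_lit 2567583555) (nat_lit 304) (nat_lit 321991092) (nat_lit 187) (nat_lit 1) (nat_lit 186) (nat_lit 1) (nat_lit 190) (nat_lit 1) (nat_lit 367) (nat_lit 363) (nat_lit 290)) (XT.nd (nat_lit 78) (nat_lit 228) (nat_lit 0) (XT.lf (nat_lit 76) (nat_lit 1481715886) (nat_lit 0) (nat_lit 213342221) (nat_lit 228) (nat_lit 1481715886) (nat_lit 184) (nat_lit 1) (nat_lit 183) (nat_lit 1) (nat_lit 186) (nat_lit 1) (nat_lit 368) (nat_lit 363) (nat_lit 289)) (XT.lf (nat_lit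 304) (nat_lit 2100975236) (nat_lit 0) (nat_lit 520798511) (nat_lit 228) (nat_lit 520798511) (nat_lit 184) (nat_lit 1) (nat_lit 180) (nat_lit 1) (nat_lit 183) (nat_lit 1) (nat_lit 369) (nat_lit 363) (nat_lit 288))))))))
noncomputable def ec55 : XT := (XT.nd (nat_lit 47268) (nat_lit 0) (nat_lit 13072) (XT.nd (nat_lit 858) (nat_lit 912) (nat_lit 0) (XT.nd (nat_lit 390) (nat_lit 760) (nat_lit 0) (XT.nd (nat_lit 156) (nat_lit 456) (nat_lit 0) (XT.nd (nat_lit 78) (nat_lit 152) (nat_lit 0) (XT.lf (nat_lit 76) (nat_lit 621418528) (nat_lit 0) (nat_lit 1865923757) (nat_lit 304) (nat_lit 621418528) (nat_lit 181) (nat_lit 1) (nat_lit 180) (nat_lit 1) (nat_lit 184) (nat_lit 1) (nat_lit 370) (nat_lit 363) (nat_lit 287)) (XT.lf (nat_lit 228) (nat_lit 391399824) (nat_lit 0) (nat_lit 1342000764) (nat_lit 152) (nat_lit 1342000764) (nat_lit 181) (nat_lit 1) (nat_lit 178) (nat_lit 1) (nat_lit 180) (nat_lit 1) (nat_lit 371)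 (nat_lit 363) (nat_lit 286))) (XT.nd (nat_lit 78) (nat_lit 152) (nat_lit 0) (XT.lf (nat_lit 304) (nat_lit 2607837637) (nat_lit 0) (nat_lit 217404238) (nat_lit 228) (nat_lit 217404238) (nat_lit 178) (nat_lit 1) (nat_lit 174) (nat_lit 1) (nat_lit 177) (nat_lit 1) (nat_lit 372) (nat_lit 363) (nat_lit 285)) (XT.nd (nat_lit 78) (nat_lit 152) (nat_lit 0) (XT.lf (nat_lit 76) (nat_lit 877688929) (nat_lit 0) (nat_lit 1254605424) (nat_lit 304) (nat_lit 877688929) (nat_lit 175) (nat_lit 1) (nat_lit 174) (nat_lit 1) (nat_lit 178) (nat_lit 1) (nat_lit 373) (nat_lit 363) (nat_lit 284)) (XT.lf (nat_lit 228) (nat_lit 915446954) (nat_lit 0) (nat_lit 1031233295) (nat_lit 152) (nat_lit 1031233295) (nat_lit 175) (nat_lit 1) (nat_lit 172) (nat_lit 1) (nat_lit 174) (nat_lit 1) (nat_lit 374) (nat_lit 363) (nat_lit 283))))) (XT.nd (nat_lit 234) (nat_lit 380) (nat_lit 0) (XT.nd (nat_lit 78) (nat_lit 380) (nat_lit 0) (XT.lf (nat_lit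 76) (nat_lit 45458112) (nat_lit 0) (nat_lit 2855597655) (nat_lit 228) (nat_lit 45458112) (nat_lit 173) (nat_lit 1) (nat_lit 172) (nat_lit 1) (nat_lit 175) (nat_lit 1) (nat_lit 375) (nat_lit 363) (nat_lit 282)) (XT.nd (nat_lit 78) (nat_lit 152) (nat_lit 0) (XT.lf (nat_lit 76) (nat_lit 1095899339) (nat_lit 0) (nat_lit 723201965) (nat_lit 228) (nat_lit 1095899339) (nat_lit 170) (nat_lit 1) (nat_lit 169) (nat_lit 1) (nat_lit 172) (nat_lit 1) (nat_lit 376) (nat_lit 363) (nat_lit 281)) (XT.lf (nat_lit 228) (nat_lit 1364521285) (nat_lit 0) (nat_lit 759813152) (nat_lit 152) (nat_lit 759813152) (nat_lit 170) (nat_lit 1) (nat_lit 167) (nat_lit 1) (nat_lit 169) (nat_lit 1) (nat_lit 377) (nat_lit 363) (nat_lit 280)))) (XT.nd (nat_lit 78) (nat_lit 380) (nat_lit 0) (XT.lf (nat_lit 76) (nat_lit 273914619) (nat_lit 0) (nat_lit 2305970431) (nat_lit 228) (nat_lit 273914619) (nat_lit 168) (nat_lit 1) (nat_lit 167) (nat_lit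 1) (nat_lit 170) (nat_lit 1) (nat_lit 378) (nat_lit 363) (nat_lit 279)) (XT.nd (nat_lit 78) (nat_lit 152) (nat_lit 0) (XT.lf (nat_lit 76) (nat_lit 1280570128) (nat_lit 0) (nat_lit 262459749) (nat_lit 228) (nat_lit 1280570128) (nat_lit 165) (nat_lit 1) (nat_lit 164) (nat_lit 1) (nat_lit 167) (nat_lit 1) (nat_lit 379) (nat_lit 363) (nat_lit 278)) (XT.lf (nat_lit 228) (nat_lit 1747464852) (nat_lit 0) (nat_lit 523215917) (nat_lit 152) (nat_lit 523215917) (nat_lit 165) (nat_lit 1) (nat_lit 162) (nat_lit 1) (nat_lit 164) (nat_lit 1) (nat_lit 380) (nat_lit 363) (nat_lit 277)))))) (XT.nd (nat_lit 390) (nat_lit 380) (nat_lit 0) (XT.nd (nat_lit 156) (nat_lit 380) (nat_lit 0) (XT.nd (nat_lit 78) (nat_lit 152) (nat_lit 0) (XT.lf (nat_lit 76) (nat_lit 470093549) (nat_lit 0) (nat_lit 1824367483) (nat_lit 228) (nat_lit 470093549) (nat_lit 163) (nat_lit 1) (nat_lit 162) (nat_lit 1) (nat_lit 165) (nat_lit 1) (nat_lit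 381) (nat_lit 363) (nat_lit 276)) (XT.lf (nat_lit 228) (nat_lit 138536332) (nat_lit 0) (nat_lit 1298504909) (nat_lit 152) (nat_lit 1298504909) (nat_lit 163) (nat_lit 1) (nat_lit 160) (nat_lit 1) (nat_lit 162) (nat_lit 1) (nat_lit 382) (nat_lit 363) (nat_lit 275))) (XT.nd (nat_lit 78) (nat_lit 152) (nat_lit 0) (XT.lf (nat_lit 228) (nat_lit 2072119657) (nat_lit 0) (nat_lit 317425685) (nat_lit 152) (nat_lit 317425685) (nat_lit 160) (nat_lit 1) (nat_lit 157) (nat_lit 1) (nat_lit 159) (nat_lit 1) (nat_lit 383) (nat_lit 363) (nat_lit 274)) (XT.nd (nat_lit 78) (nat_lit 152) (nat_lit 0) (XT.lf (nat_lit 76) (nat_lit 637792376) (nat_lit 0) (nat_lit 1403007095) (nat_lit 228) (nat_lit 637792376) (nat_lit 158) (nat_lit 1) (nat_lit 157) (nat_lit 1) (nat_lit 160) (nat_lit 1) (nat_lit 384) (nat_lit 363) (nat_lit 273)) (XT.lf (nat_lit 228) (nat_lit 488494922) (nat_lit 0) (nat_lit 1081071847) (nat_lit 152) (nat_lit 1081071847)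 (nat_lit 158) (nat_lit 1) (nat_lit 155) (nat_lit 1) (nat_lit 157) (nat_lit 1) (nat_lit 385) (nat_lit 363) (nat_lit 272))))) (XT.nd (nat_lit 45786) (nat_lit 0) (nat_lit 17024) (XT.nd (nat_lit 78) (nat_lit 152) (nat_lit 0) (XT.lf (nat_lit 228) (nat_lit 2345439603) (nat_lit 0) (nat_lit 138878240) (nat_lit 152) (nat_lit 138878240) (nat_lit 155) (nat_lit 1) (nat_lit 152) (nat_lit 1) (nat_lit 154) (nat_lit 1) (nat_lit 386) (nat_lit 363) (nat_lit 271)) (XT.nd (nat_lit 78) (nat_lit 152) (nat_lit 0) (XT.lf (nat_lit 76) (nat_lit 780379340) (nat_lit 0) (nat_lit 1034981026) (nat_lit 228) (nat_lit 780379340) (nat_lit 153) (nat_lit 1) (nat_lit 152) (nat_lit 1) (nat_lit 155) (nat_lit 1) (nat_lit 387) (nat_lit 363) (nat_lit 270)) (XT.lf (nat_lit 228) (nat_lit 788785668) (nat_lit 0) (nat_lit 890000910) (nat_lit 152) (nat_lit 890000910) (nat_lit 153) (nat_lit 1) (nat_lit 150) (nat_lit 1) (nat_lit 152) (nat_lit 1) (nat_lit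 388) (nat_lit 363) (nat_lit 269)))) (XT.nd (nat_lit 78) (nat_lit 0) (nat_lit 0) (XT.lf (nat_lit 1292) (nat_lit 758155116) (nat_lit 0) (nat_lit 2608406195) (nat_lit 1292) (nat_lit 758155116) (nat_lit 391) (nat_lit 1) (nat_lit 374) (nat_lit 0) (nat_lit 391) (nat_lit 0) (nat_lit 292) (nat_lit 364) (nat_lit 364)) (XT.nd (nat_lit 78) (nat_lit 0) (nat_lit 76) (XT.lf (nat_lit 1292) (nat_lit 2962883481) (nat_lit 76) (nat_lit 2582833585) (nat_lit 0) (nat_lit 2582833585) (nat_lit 391) (nat_lit 1) (nat_lit 375) (nat_lit 1) (nat_lit 374) (nat_lit 0) (nat_lit 293) (nat_lit 364) (nat_lit 363)) (XT.lf (nat_lit 1292) (nat_lit 1432921094) (nat_lit 0) (nat_lit 5144492667) (nat_lit 1216) (nat_lit 1432921094) (nat_lit 392) (nat_lit 1) (nat_lit 375) (nat_lit 1) (nat_lit 391) (nat_lit 1) (nat_lit 294) (nat_lit 364) (nat_lit 362))))))) (XT.nd (nat_lit 858) (nat_lit 3116) (nat_lit 0) (XT.nd (nat_lit 390) (nat_lit 912) (nat_lit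 0) (XT.nd (nat_lit 156) (nat_lit 0) (nat_lit 76) (XT.nd (nat_lit 78) (nat_lit 0) (nat_lit 76) (XT.lf (nat_lit 1292) (nat_lit 2721191141) (nat_lit 76) (nat_lit 2586451041) (nat_lit 0) (nat_lit 2586451041) (nat_lit 392) (nat_lit 1) (nat_lit 376) (nat_lit 1) (nat_lit 375) (nat_lit 1) (nat_lit 295) (nat_lit 364) (nat_lit 361)) (XT.lf (nat_lit 1292) (nat_lit 1276905371) (nat_lit 0) (nat_lit 5226641794) (nat_lit 1216) (nat_lit 1276905371) (nat_lit 393) (nat_lit 1) (nat_lit 376) (nat_lit 1) (nat_lit 392) (nat_lit 1) (nat_lit 296) (nat_lit 364) (nat_lit 360))) (XT.nd (nat_lit 78) (nat_lit 0) (nat_lit 76) (XT.lf (nat_lit 1292) (nat_lit 2340063917) (nat_lit 76) (nat_lit 2664282691) (nat_lit 0) (nat_lit 2664282691) (nat_lit 393) (nat_lit 1) (nat_lit 377) (nat_lit 1) (nat_lit 376) (nat_lit 1) (nat_lit 297) (nat_lit 364) (nat_lit 359)) (XT.nd (nat_lit 78) (nat_lit 0) (nat_lit 0) (XT.lf (nat_lit 1292) (nat_lit 1054686888)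 (nat_lit 0) (nat_lit 5450014451) (nat_lit 1216) (nat_lit 1054686888) (nat_lit 394) (nat_lit 1) (nat_lit 377) (nat_lit 1) (nat_lit 393) (nat_lit 1) (nat_lit 298) (nat_lit 364) (nat_lit 358)) (XT.lf (nat_lit 1292) (nat_lit 1831971252) (nat_lit 76) (nat_lit 2809900711) (nat_lit 0) (nat_lit 2809900711) (nat_lit 394) (nat_lit 1) (nat_lit 378) (nat_lit 1) (nat_lit 377) (nat_lit 1) (nat_lit 299) (nat_lit 364) (nat_lit 357))))) (XT.nd (nat_lit 234) (nat_lit 1140) (nat_lit 0) (XT.nd (nat_lit 78) (nat_lit 0) (nat_lit 0) (XT.lf (nat_lit 1292) (nat_lit 772255041) (nat_lit 0) (nat_lit 5802253172) (nat_lit 1216) (nat_lit 772255041) (nat_lit 395) (nat_lit 1) (nat_lit 378) (nat_lit 1) (nat_lit 394) (nat_lit 1) (nat_lit 300) (nat_lit 364) (nat_lit 356)) (XT.nd (nat_lit 78) (nat_lit 0) (nat_lit 76) (XT.lf (nat_lit 1292) (nat_lit 1208536735) (nat_lit 76) (nat_lit 3017309393) (nat_lit 0) (nat_lit 3017309393) (nat_lit 395)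 (nat_lit 1) (nat_lit 379) (nat_lit 1) (nat_lit 378) (nat_lit 1) (nat_lit 301) (nat_lit 364) (nat_lit 355)) (XT.lf (nat_lit 1292) (nat_lit 435191654) (nat_lit 0) (nat_lit 6271833667) (nat_lit 1216) (nat_lit 435191654) (nat_lit 396) (nat_lit 1) (nat_lit 379) (nat_lit 1) (nat_lit 395) (nat_lit 1) (nat_lit 302) (nat_lit 364) (nat_lit 354)))) (XT.nd (nat_lit 78) (nat_lit 1216) (nat_lit 0) (XT.lf (nat_lit 1292) (nat_lit 480590445) (nat_lit 76) (nat_lit 3280918505) (nat_lit 0) (nat_lit 3280918505) (nat_lit 396) (nat_lit 1) (nat_lit 380) (nat_lit 1) (nat_lit 379) (nat_lit 1) (nat_lit 303) (nat_lit 364) (nat_lit 353)) (XT.nd (nat_lit 78) (nat_lit 1292) (nat_lit 0) (XT.lf (nat_lit 1292) (nat_lit 48696225) (nat_lit 0) (nat_lit 6848013386) (nat_lit 1216) (nat_lit 48696225) (nat_lit 397) (nat_lit 1) (nat_lit 380) (nat_lit 1) (nat_lit 396) (nat_lit 1) (nat_lit 304) (nat_lit 364) (nat_lit 352)) (XT.lf (nat_lit 1368)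 (nat_lit 3257021820) (nat_lit 0) (nat_lit 335112428) (nat_lit 1292) (nat_lit 3257021820) (nat_lit 381) (nat_lit 1) (nat_lit 363) (nat_lit 1) (nat_lit 380) (nat_lit 1) (nat_lit 305) (nat_lit 364) (nat_lit 351)))))) (XT.nd (nat_lit 468) (nat_lit 2432) (nat_lit 0) (XT.nd (nat_lit 234) (nat_lit 684) (nat_lit 0) (XT.nd (nat_lit 78) (nat_lit 0) (nat_lit 76) (XT.lf (nat_lit 1368) (nat_lit 5998276404) (nat_lit 76) (nat_lit 378641392) (nat_lit 0) (nat_lit 378641392) (nat_lit 381) (nat_lit 1) (nat_lit 364) (nat_lit 1) (nat_lit 363) (nat_lit 1) (nat_lit 306) (nat_lit 364) (nat_lit 350)) (XT.nd (nat_lit 78) (nat_lit 0) (nat_lit 0) (XT.lf (nat_lit 1368) (nat_lit 2719071319) (nat_lit 0) (nat_lit 1224816020) (nat_lit 1292) (nat_lit 2719071319) (nat_lit 382) (nat_lit 1) (nat_lit 364) (nat_lit 1) (nat_lit 381) (nat_lit 1) (nat_lit 307) (nat_lit 364) (nat_lit 349)) (XT.lf (nat_lit 1368) (nat_lit 4882315450) (nat_lit 76)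 (nat_lit 845195017) (nat_lit 0) (nat_lit 845195017) (nat_lit 382) (nat_lit 1) (nat_lit 365) (nat_lit 1) (nat_lit 364) (nat_lit 1) (nat_lit 308) (nat_lit 364) (nat_lit 348)))) (XT.nd (nat_lit 78) (nat_lit 836) (nat_lit 0) (XT.lf (nat_lit 76) (nat_lit 2147168822) (nat_lit 0) (nat_lit 2189335444) (nat_lit 1292) (nat_lit 2147168822) (nat_lit 366) (nat_lit 1) (nat_lit 365) (nat_lit 1) (nat_lit 382) (nat_lit 1) (nat_lit 309) (nat_lit 364) (nat_lit 347)) (XT.nd (nat_lit 78) (nat_lit 0) (nat_lit 0) (XT.lf (nat_lit 912) (nat_lit 3702021334) (nat_lit 0) (nat_lit 1347293684) (nat_lit 836) (nat_lit 1347293684) (nat_lit 366) (nat_lit 1) (nat_lit 354) (nat_lit 1) (nat_lit 365) (nat_lit 1) (nat_lit 310) (nat_lit 364) (nat_lit 346)) (XT.lf (nat_lit 76) (nat_lit 1545151639) (nat_lit 0) (nat_lit 3220709312) (nat_lit 912) (nat_lit 1545151639) (nat_lit 355) (nat_lit 1) (nat_lit 354) (nat_lit 1) (nat_lit 366) (nat_lit 1)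 (nat_lit 311) (nat_lit 364) (nat_lit 345))))) (XT.nd (nat_lit 234) (nat_lit 1216) (nat_lit 0) (XT.nd (nat_lit 78) (nat_lit 608) (nat_lit 0) (XT.lf (nat_lit 684) (nat_lit 2464826672) (nat_lit 0) (nat_lit 1881081609) (nat_lit 608) (nat_lit 1881081609) (nat_lit 355) (nat_lit 1) (nat_lit 346) (nat_lit 1) (nat_lit 354) (nat_lit 1) (nat_lit 312) (nat_lit 364) (nat_lit 344)) (XT.nd (nat_lit 78) (nat_lit 608) (nat_lit 0) (XT.lf (nat_lit 76) (nat_lit 916581803) (nat_lit 0) (nat_lit 4311540046) (nat_lit 684) (nat_lit 916581803) (nat_lit 347) (nat_lit 1) (nat_lit 346) (nat_lit 1) (nat_lit 355) (nat_lit 1) (nat_lit 313) (nat_lit 364) (nat_lit 343)) (XT.lf (nat_lit 684) (nat_lit 1177628493) (nat_lit 0) (nat_lit 2442977221) (nat_lit 608) (nat_lit 2442977221) (nat_lit 347) (nat_lit 1) (nat_lit 338) (nat_lit 1) (nat_lit 346) (nat_lit 1) (nat_lit 314) (nat_lit 364) (nat_lit 342)))) (XT.nd (nat_lit 78) (nat_lit 1216)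 (nat_lit 0) (XT.lf (nat_lit 76) (nat_lit 264763474) (nat_lit 0) (nat_lit 5454958406) (nat_lit 684) (nat_lit 264763474) (nat_lit 339) (nat_lit 1) (nat_lit 338) (nat_lit 1) (nat_lit 347) (nat_lit 1) (nat_lit 315) (nat_lit 364) (nat_lit 341)) (XT.nd (nat_lit 78) (nat_lit 608) (nat_lit 0) (XT.lf (nat_lit 76) (nat_lit 2877950479) (nat_lit 0) (nat_lit 150188785) (nat_lit 608) (nat_lit 2877950479) (nat_lit 331) (nat_lit 1) (nat_lit 330) (nat_lit 1) (nat_lit 338) (nat_lit 1) (nat_lit 316) (nat_lit 364) (nat_lit 340)) (XT.lf (nat_lit 684) (nat_lit 5023140312) (nat_lit 0) (nat_lit 403248146) (nat_lit 608) (nat_lit 403248146) (nat_lit 331) (nat_lit 1) (nat_lit 322) (nat_lit 1) (nat_lit 330) (nat_lit 1) (nat_lit 317) (nat_lit 364) (nat_lit 339))))))))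
noncomputable def ec56 : XT := (XT.nd (nat_lit 1716) (nat_lit 4256) (nat_lit 0) (XT.nd (nat_lit 858) (nat_lit 2508) (nat_lit 0) (XT.nd (nat_lit 390) (nat_lit 1976) (nat_lit 0) (XT.nd (nat_lit 156) (nat_lit 532) (nat_lit 0) (XT.nd (nat_lit 78) (nat_lit 532) (nat_lit 0) (XT.lf (nat_lit 76) (nat_lit 2130994073) (nat_lit 0) (nat_lit 1491973545) (nat_lit 684) (nat_lit 2130994073) (nat_lit 323) (nat_lit 1) (nat_lit 322) (nat_lit 1) (nat_lit 331) (nat_lit 1) (nat_lit 318) (nat_lit 364) (nat_lit 338)) (XT.lf (nat_lit 608) (nat_lit 3508378269) (nat_lit 0) (nat_lit 1085843298) (nat_lit 532) (nat_lit 1085843298) (nat_lit 323) (nat_lit 1) (nat_lit 315) (nat_lit 1) (nat_lit 322) (nat_lit 1) (nat_lit 319) (nat_lit 364) (nat_lit 337))) (XT.nd (nat_lit 78) (nat_lit 532) (nat_lit 0) (XT.lf (nat_lit 76) (nat_lit 1370990887) (nat_lit 0) (nat_lit 2865326860) (nat_lit 608) (nat_lit 1370990887) (nat_lit 316) (nat_lit 1) (nat_lit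 315) (nat_lit 1) (nat_lit 323) (nat_lit 1) (nat_lit 320) (nat_lit 364) (nat_lit 336)) (XT.nd (nat_lit 78) (nat_lit 0) (nat_lit 0) (XT.lf (nat_lit 608) (nat_lit 1969816070) (nat_lit 0) (nat_lit 1783018626) (nat_lit 532) (nat_lit 1783018626) (nat_lit 316) (nat_lit 1) (nat_lit 308) (nat_lit 1) (nat_lit 315) (nat_lit 1) (nat_lit 321) (nat_lit 364) (nat_lit 335)) (XT.lf (nat_lit 76) (nat_lit 600318749) (nat_lit 0) (nat_lit 4265273679) (nat_lit 608) (nat_lit 600318749) (nat_lit 309) (nat_lit 1) (nat_lit 308) (nat_lit 1) (nat_lit 316) (nat_lit 1) (nat_lit 322) (nat_lit 364) (nat_lit 334))))) (XT.nd (nat_lit 234) (nat_lit 912) (nat_lit 0) (XT.nd (nat_lit 78) (nat_lit 608) (nat_lit 0) (XT.lf (nat_lit 532) (nat_lit 412045778) (nat_lit 0) (nat_lit 2492371226) (nat_lit 456) (nat_lit 2492371226) (nat_lit 309) (nat_lit 1) (nat_lit 302) (nat_lit 1) (nat_lit 308) (nat_lit 1) (nat_lit 323) (nat_lit 364) (nat_lit 333))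 (XT.nd (nat_lit 78) (nat_lit 0) (nat_lit 0) (XT.lf (nat_lit 608) (nat_lit 4975201953) (nat_lit 0) (nat_lit 177075236) (nat_lit 532) (nat_lit 177075236) (nat_lit 302) (nat_lit 1) (nat_lit 294) (nat_lit 1) (nat_lit 301) (nat_lit 1) (nat_lit 324) (nat_lit 364) (nat_lit 332)) (XT.lf (nat_lit 76) (nat_lit 2062140980) (nat_lit 0) (nat_lit 1138048704) (nat_lit 608) (nat_lit 2062140980) (nat_lit 295) (nat_lit 1) (nat_lit 294) (nat_lit 1) (nat_lit 302) (nat_lit 1) (nat_lit 325) (nat_lit 364) (nat_lit 331)))) (XT.nd (nat_lit 78) (nat_lit 456) (nat_lit 0) (XT.lf (nat_lit 532) (nat_lit 3286988705) (nat_lit 0) (nat_lit 954973658) (nat_lit 456) (nat_lit 954973658) (nat_lit 295) (nat_lit 1) (nat_lit 288) (nat_lit 1) (nat_lit 294) (nat_lit 1) (nat_lit 326) (nat_lit 364) (nat_lit 330)) (XT.nd (nat_lit 78) (nat_lit 456) (nat_lit 0) (XT.lf (nat_lit 76) (nat_lit 1220769094) (nat_lit 0) (nat_lit 2690959993) (nat_lit 532)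 (nat_lit 1220769094) (nat_lit 289) (nat_lit 1) (nat_lit 288) (nat_lit 1) (nat_lit 295) (nat_lit 1) (nat_lit 327) (nat_lit 364) (nat_lit 329)) (XT.lf (nat_lit 532) (nat_lit 1594330485) (nat_lit 0) (nat_lit 1737419140) (nat_lit 456) (nat_lit 1737419140) (nat_lit 289) (nat_lit 1) (nat_lit 282) (nat_lit 1) (nat_lit 288) (nat_lit 1) (nat_lit 328) (nat_lit 364) (nat_lit 328)))))) (XT.nd (nat_lit 390) (nat_lit 1216) (nat_lit 0) (XT.nd (nat_lit 156) (nat_lit 836) (nat_lit 0) (XT.nd (nat_lit 78) (nat_lit 456) (nat_lit 0) (XT.lf (nat_lit 76) (nat_lit 378006642) (nat_lit 0) (nat_lit 4251210843) (nat_lit 532) (nat_lit 378006642) (nat_lit 283) (nat_lit 1) (nat_lit 282) (nat_lit 1) (nat_lit 289) (nat_lit 1) (nat_lit 329) (nat_lit 364) (nat_lit 327)) (XT.lf (nat_lit 76) (nat_lit 2424109240) (nat_lit 0) (nat_lit 97622568) (nat_lit 456) (nat_lit 2424109240) (nat_lit 277) (nat_lit 1) (nat_lit 276) (nat_lit 1) (nat_lit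 282) (nat_lit 1) (nat_lit 330) (nat_lit 364) (nat_lit 326))) (XT.nd (nat_lit 78) (nat_lit 380) (nat_lit 0) (XT.lf (nat_lit 532) (nat_lit 3965664043) (nat_lit 0) (nat_lit 460064217) (nat_lit 456) (nat_lit 460064217) (nat_lit 277) (nat_lit 1) (nat_lit 270) (nat_lit 1) (nat_lit 276) (nat_lit 1) (nat_lit 331) (nat_lit 364) (nat_lit 325)) (XT.nd (nat_lit 78) (nat_lit 380) (nat_lit 0) (XT.lf (nat_lit 76) (nat_lit 1534775537) (nat_lit 0) (nat_lit 1756798208) (nat_lit 532) (nat_lit 1534775537) (nat_lit 271) (nat_lit 1) (nat_lit 270) (nat_lit 1) (nat_lit 277) (nat_lit 1) (nat_lit 332) (nat_lit 364) (nat_lit 324)) (XT.lf (nat_lit 456) (nat_lit 2182314973) (nat_lit 0) (nat_lit 1292910407) (nat_lit 380) (nat_lit 1292910407) (nat_lit 271) (nat_lit 1) (nat_lit 265) (nat_lit 1) (nat_lit 270) (nat_lit 1) (nat_lit 333) (nat_lit 364) (nat_lit 323))))) (XT.nd (nat_lit 234) (nat_lit 380) (nat_lit 0) (XT.nd (nat_lit 78)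 (nat_lit 836) (nat_lit 0) (XT.lf (nat_lit 76) (nat_lit 649656810) (nat_lit 0) (nat_lit 3411674879) (nat_lit 456) (nat_lit 649656810) (nat_lit 266) (nat_lit 1) (nat_lit 265) (nat_lit 1) (nat_lit 271) (nat_lit 1) (nat_lit 334) (nat_lit 364) (nat_lit 322)) (XT.nd (nat_lit 78) (nat_lit 456) (nat_lit 0) (XT.lf (nat_lit 456) (nat_lit 408582960) (nat_lit 0) (nat_lit 2122974263) (nat_lit 380) (nat_lit 2122974263) (nat_lit 266) (nat_lit 1) (nat_lit 260) (nat_lit 1) (nat_lit 265) (nat_lit 1) (nat_lit 335) (nat_lit 364) (nat_lit 321)) (XT.lf (nat_lit 456) (nat_lit 4143597020) (nat_lit 0) (nat_lit 227868607) (nat_lit 380) (nat_lit 227868607) (nat_lit 260) (nat_lit 1) (nat_lit 254) (nat_lit 1) (nat_lit 259) (nat_lit 1) (nat_lit 336) (nat_lit 364) (nat_lit 320)))) (XT.nd (nat_lit 78) (nat_lit 380) (nat_lit 0) (XT.lf (nat_lit 76) (nat_lit 1608731125) (nat_lit 0) (nat_lit 1326973100) (nat_lit 456) (nat_lit 1608731125)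 (nat_lit 255) (nat_lit 1) (nat_lit 254) (nat_lit 1) (nat_lit 260) (nat_lit 1) (nat_lit 337) (nat_lit 364) (nat_lit 319)) (XT.nd (nat_lit 78) (nat_lit 0) (nat_lit 0) (XT.lf (nat_lit 456) (nat_lit 2305292740) (nat_lit 0) (nat_lit 1092731902) (nat_lit 380) (nat_lit 1092731902) (nat_lit 255) (nat_lit 1) (nat_lit 249) (nat_lit 1) (nat_lit 254) (nat_lit 1) (nat_lit 338) (nat_lit 364) (nat_lit 318)) (XT.lf (nat_lit 76) (nat_lit 698433296) (nat_lit 0) (nat_lit 3041109811) (nat_lit 456) (nat_lit 698433296) (nat_lit 250) (nat_lit 1) (nat_lit 249) (nat_lit 1) (nat_lit 255) (nat_lit 1) (nat_lit 339) (nat_lit 364) (nat_lit 317))))))) (XT.nd (nat_lit 858) (nat_lit 1900) (nat_lit 0) (XT.nd (nat_lit 390) (nat_lit 1292) (nat_lit 0) (XT.nd (nat_lit 156) (nat_lit 304) (nat_lit 0) (XT.nd (nat_lit 78) (nat_lit 456) (nat_lit 0) (XT.lf (nat_lit 380) (nat_lit 485084658) (nat_lit 0) (nat_lit 1950390248) (nat_lit 304) (nat_lit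 1950390248) (nat_lit 250) (nat_lit 1) (nat_lit 245) (nat_lit 1) (nat_lit 249) (nat_lit 1) (nat_lit 340) (nat_lit 364) (nat_lit 316)) (XT.lf (nat_lit 456) (nat_lit 3933923783) (nat_lit 0) (nat_lit 200486653) (nat_lit 380) (nat_lit 200486653) (nat_lit 245) (nat_lit 1) (nat_lit 239) (nat_lit 1) (nat_lit 244) (nat_lit 1) (nat_lit 341) (nat_lit 364) (nat_lit 315))) (XT.nd (nat_lit 78) (nat_lit 304) (nat_lit 0) (XT.lf (nat_lit 76) (nat_lit 1497147132) (nat_lit 0) (nat_lit 1289848993) (nat_lit 456) (nat_lit 1497147132) (nat_lit 240) (nat_lit 1) (nat_lit 239) (nat_lit 1) (nat_lit 245) (nat_lit 1) (nat_lit 342) (nat_lit 364) (nat_lit 314)) (XT.nd (nat_lit 78) (nat_lit 0) (nat_lit 0) (XT.lf (nat_lit 380) (nat_lit 2069387019) (nat_lit 0) (nat_lit 1082556178) (nat_lit 304) (nat_lit 1082556178) (nat_lit 240) (nat_lit 1) (nat_lit 235) (nat_lit 1) (nat_lit 239) (nat_lit 1) (nat_lit 343) (nat_lit 364) (nat_lit 313))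 (XT.lf (nat_lit 76) (nat_lit 575464919) (nat_lit 0) (nat_lit 3034774827) (nat_lit 380) (nat_lit 575464919) (nat_lit 236) (nat_lit 1) (nat_lit 235) (nat_lit 1) (nat_lit 240) (nat_lit 1) (nat_lit 344) (nat_lit 364) (nat_lit 312))))) (XT.nd (nat_lit 234) (nat_lit 608) (nat_lit 0) (XT.nd (nat_lit 78) (nat_lit 380) (nat_lit 0) (XT.lf (nat_lit 380) (nat_lit 229471144) (nat_lit 0) (nat_lit 1953996717) (nat_lit 304) (nat_lit 1953996717) (nat_lit 236) (nat_lit 1) (nat_lit 231) (nat_lit 1) (nat_lit 235) (nat_lit 1) (nat_lit 345) (nat_lit 364) (nat_lit 311)) (XT.nd (nat_lit 78) (nat_lit 0) (nat_lit 0) (XT.lf (nat_lit 380) (nat_lit 3429298888) (nat_lit 0) (nat_lit 330438798) (nat_lit 304) (nat_lit 330438798) (nat_lit 231) (nat_lit 1) (nat_lit 226) (nat_lit 1) (nat_lit 230) (nat_lit 1) (nat_lit 346) (nat_lit 364) (nat_lit 310)) (XT.lf (nat_lit 76) (nat_lit 1244650774) (nat_lit 0) (nat_lit 1553910981) (nat_lit 380)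 (nat_lit 1244650774) (nat_lit 227) (nat_lit 1) (nat_lit 226) (nat_lit 1) (nat_lit 231) (nat_lit 1) (nat_lit 347) (nat_lit 364) (nat_lit 309)))) (XT.nd (nat_lit 78) (nat_lit 304) (nat_lit 0) (XT.lf (nat_lit 380) (nat_lit 1561448351) (nat_lit 0) (nat_lit 1217862192) (nat_lit 304) (nat_lit 1217862192) (nat_lit 227) (nat_lit 1) (nat_lit 222) (nat_lit 1) (nat_lit 226) (nat_lit 1) (nat_lit 348) (nat_lit 364) (nat_lit 308)) (XT.nd (nat_lit 78) (nat_lit 304) (nat_lit 0) (XT.lf (nat_lit 76) (nat_lit 322580059) (nat_lit 0) (nat_lit 3306863501) (nat_lit 380) (nat_lit 322580059) (nat_lit 223) (nat_lit 1) (nat_lit 222) (nat_lit 1) (nat_lit 227) (nat_lit 1) (nat_lit 349) (nat_lit 364) (nat_lit 307)) (XT.lf (nat_lit 76) (nat_lit 1817853807) (nat_lit 0) (nat_lit 271457793) (nat_lit 304) (nat_lit 1817853807) (nat_lit 219) (nat_lit 1) (nat_lit 218) (nat_lit 1) (nat_lit 222) (nat_lit 1) (nat_lit 350) (nat_lit 364) (nat_lit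 306)))))) (XT.nd (nat_lit 390) (nat_lit 988) (nat_lit 0) (XT.nd (nat_lit 156) (nat_lit 608) (nat_lit 0) (XT.nd (nat_lit 78) (nat_lit 0) (nat_lit 0) (XT.lf (nat_lit 380) (nat_lit 2705352083) (nat_lit 0) (nat_lit 578910530) (nat_lit 304) (nat_lit 578910530) (nat_lit 219) (nat_lit 1) (nat_lit 214) (nat_lit 1) (nat_lit 218) (nat_lit 1) (nat_lit 351) (nat_lit 364) (nat_lit 305)) (XT.lf (nat_lit 76) (nat_lit 887654311) (nat_lit 0) (nat_lit 2044373420) (nat_lit 380) (nat_lit 887654311) (nat_lit 215) (nat_lit 1) (nat_lit 214) (nat_lit 1) (nat_lit 219) (nat_lit 1) (nat_lit 352) (nat_lit 364) (nat_lit 304))) (XT.nd (nat_lit 78) (nat_lit 380) (nat_lit 0) (XT.lf (nat_lit 304) (nat_lit 852310929) (nat_lit 0) (nat_lit 1462281485) (nat_lit 228) (nat_lit 1462281485) (nat_lit 215) (nat_lit 1) (nat_lit 211) (nat_lit 1) (nat_lit 214) (nat_lit 1) (nat_lit 353) (nat_lit 364) (nat_lit 303)) (XT.nd (nat_lit 78) (nat_lit 0)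 (nat_lit 0) (XT.lf (nat_lit 380) (nat_lit 3683306643) (nat_lit 0) (nat_lit 25864940) (nat_lit 304) (nat_lit 25864940) (nat_lit 211) (nat_lit 1) (nat_lit 206) (nat_lit 1) (nat_lit 210) (nat_lit 1) (nat_lit 354) (nat_lit 364) (nat_lit 302)) (XT.lf (nat_lit 76) (nat_lit 1372209267) (nat_lit 0) (nat_lit 948698363) (nat_lit 380) (nat_lit 1372209267) (nat_lit 207) (nat_lit 1) (nat_lit 206) (nat_lit 1) (nat_lit 211) (nat_lit 1) (nat_lit 355) (nat_lit 364) (nat_lit 301))))) (XT.nd (nat_lit 234) (nat_lit 456) (nat_lit 0) (XT.nd (nat_lit 78) (nat_lit 304) (nat_lit 0) (XT.lf (nat_lit 304) (nat_lit 1823575718) (nat_lit 0) (nat_lit 914285806) (nat_lit 228) (nat_lit 914285806) (nat_lit 207) (nat_lit 1) (nat_lit 203) (nat_lit 1) (nat_lit 206) (nat_lit 1) (nat_lit 356) (nat_lit 364) (nat_lit 300)) (XT.nd (nat_lit 78) (nat_lit 304) (nat_lit 0) (XT.lf (nat_lit 76) (nat_lit 455749180) (nat_lit 0) (nat_lit 2700346811) (nat_lit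 304) (nat_lit 455749180) (nat_lit 204) (nat_lit 1) (nat_lit 203) (nat_lit 1) (nat_lit 207) (nat_lit 1) (nat_lit 357) (nat_lit 364) (nat_lit 299)) (XT.lf (nat_lit 76) (nat_lit 1785733762) (nat_lit 0) (nat_lit 478109) (nat_lit 304) (nat_lit 1785733762) (nat_lit 200) (nat_lit 1) (nat_lit 199) (nat_lit 1) (nat_lit 203) (nat_lit 1) (nat_lit 358) (nat_lit 364) (nat_lit 298)))) (XT.nd (nat_lit 78) (nat_lit 228) (nat_lit 0) (XT.lf (nat_lit 304) (nat_lit 2655474374) (nat_lit 0) (nat_lit 438610365) (nat_lit 228) (nat_lit 438610365) (nat_lit 200) (nat_lit 1) (nat_lit 196) (nat_lit 1) (nat_lit 199) (nat_lit 1) (nat_lit 359) (nat_lit 364) (nat_lit 297)) (XT.nd (nat_lit 78) (nat_lit 228) (nat_lit 0) (XT.lf (nat_lit 76) (nat_lit 869934405) (nat_lit 0) (nat_lit 1753953203) (nat_lit 304) (nat_lit 869934405) (nat_lit 197) (nat_lit 1) (nat_lit 196) (nat_lit 1) (nat_lit 200) (nat_lit 1) (nat_lit 360) (nat_lit 364) (nat_lit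 296)) (XT.lf (nat_lit 304) (nat_lit 833735750) (nat_lit 0) (nat_lit 1310922277) (nat_lit 228) (nat_lit 1310922277) (nat_lit 197) (nat_lit 1) (nat_lit 193) (nat_lit 1) (nat_lit 196) (nat_lit 1) (nat_lit 361) (nat_lit 364) (nat_lit 295))))))))
noncomputable def ec57 : XT := (XT.nd (nat_lit 1716) (nat_lit 532) (nat_lit 0) (XT.nd (nat_lit 858) (nat_lit 1292) (nat_lit 0) (XT.nd (nat_lit 390) (nat_lit 836) (nat_lit 0) (XT.nd (nat_lit 156) (nat_lit 456) (nat_lit 0) (XT.nd (nat_lit 78) (nat_lit 0) (nat_lit 0) (XT.lf (nat_lit 304) (nat_lit 3364452614) (nat_lit 0) (nat_lit 26863966) (nat_lit 228) (nat_lit 26863966) (nat_lit 193) (nat_lit 1) (nat_lit 189) (nat_lit 1) (nat_lit 192) (nat_lit 1) (nat_lit 362) (nat_lit 364) (nat_lit 294)) (XT.lf (nat_lit 76) (nat_lit 1224388715) (nat_lit 0) (nat_lit 931889010) (nat_lit 304) (nat_lit 1224388715) (nat_lit 190) (nat_lit 1) (nat_lit 189) (nat_lit 1) (nat_lit 193) (nat_lit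 1) (nat_lit 363) (nat_lit 364) (nat_lit 293))) (XT.nd (nat_lit 78) (nat_lit 228) (nat_lit 0) (XT.lf (nat_lit 304) (nat_lit 1550636230) (nat_lit 0) (nat_lit 896671322) (nat_lit 228) (nat_lit 896671322) (nat_lit 190) (nat_lit 1) (nat_lit 186) (nat_lit 1) (nat_lit 189) (nat_lit 1) (nat_lit 364) (nat_lit 364) (nat_lit 292)) (XT.nd (nat_lit 78) (nat_lit 228) (nat_lit 0) (XT.lf (nat_lit 76) (nat_lit 331650824) (nat_lit 0) (nat_lit 2644611061) (nat_lit 304) (nat_lit 331650824) (nat_lit 187) (nat_lit 1) (nat_lit 186) (nat_lit 1) (nat_lit 190) (nat_lit 1) (nat_lit 365) (nat_lit 364) (nat_lit 291)) (XT.lf (nat_lit 76) (nat_lit 1526167363) (nat_lit 0) (nat_lit 219742488) (nat_lit 228) (nat_lit 1526167363) (nat_lit 184) (nat_lit 1) (nat_lit 183) (nat_lit 1) (nat_lit 186) (nat_lit 1) (nat_lit 366) (nat_lit 364) (nat_lit 290))))) (XT.nd (nat_lit 234) (nat_lit 456) (nat_lit 0) (XT.nd (nat_lit 78) (nat_lit 152) (nat_lit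 0) (XT.lf (nat_lit 304) (nat_lit 2164004493) (nat_lit 0) (nat_lit 536422466) (nat_lit 228) (nat_lit 536422466) (nat_lit 184) (nat_lit 1) (nat_lit 180) (nat_lit 1) (nat_lit 183) (nat_lit 1) (nat_lit 367) (nat_lit 364) (nat_lit 289)) (XT.nd (nat_lit 78) (nat_lit 152) (nat_lit 0) (XT.lf (nat_lit 76) (nat_lit 640061084) (nat_lit 0) (nat_lit 1921901469) (nat_lit 304) (nat_lit 640061084) (nat_lit 181) (nat_lit 1) (nat_lit 180) (nat_lit 1) (nat_lit 184) (nat_lit 1) (nat_lit 368) (nat_lit 364) (nat_lit 288)) (XT.lf (nat_lit 228) (nat_lit 403141819) (nat_lit 0) (nat_lit 1382260787) (nat_lit 152) (nat_lit 1382260787) (nat_lit 181) (nat_lit 1) (nat_lit 178) (nat_lit 1) (nat_lit 180) (nat_lit 1) (nat_lit 369) (nat_lit 364) (nat_lit 287)))) (XT.nd (nat_lit 78) (nat_lit 152) (nat_lit 0) (XT.lf (nat_lit 304) (nat_lit 2686072766) (nat_lit 0) (nat_lit 223926365) (nat_lit 228) (nat_lit 223926365) (nat_lit 178) (nat_lit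 1) (nat_lit 174) (nat_lit 1) (nat_lit 177) (nat_lit 1) (nat_lit 370) (nat_lit 364) (nat_lit 286)) (XT.nd (nat_lit 78) (nat_lit 152) (nat_lit 0) (XT.lf (nat_lit 76) (nat_lit 904019597) (nat_lit 0) (nat_lit 1292243587) (nat_lit 304) (nat_lit 904019597) (nat_lit 175) (nat_lit 1) (nat_lit 174) (nat_lit 1) (nat_lit 178) (nat_lit 1) (nat_lit 371) (nat_lit 364) (nat_lit 285)) (XT.lf (nat_lit 228) (nat_lit 942910363) (nat_lit 0) (nat_lit 1062170294) (nat_lit 152) (nat_lit 1062170294) (nat_lit 175) (nat_lit 1) (nat_lit 172) (nat_lit 1) (nat_lit 174) (nat_lit 1) (nat_lit 372) (nat_lit 364) (nat_lit 284)))))) (XT.nd (nat_lit 390) (nat_lit 684) (nat_lit 0) (XT.nd (nat_lit 156) (nat_lit 380) (nat_lit 0) (XT.nd (nat_lit 78) (nat_lit 228) (nat_lit 0) (XT.lf (nat_lit 76) (nat_lit 46821855) (nat_lit 0) (nat_lit 2941265585) (nat_lit 228) (nat_lit 46821855) (nat_lit 173) (nat_lit 1) (nat_lit 172) (nat_lit 1) (nat_lit 175)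 (nat_lit 1) (nat_lit 373) (nat_lit 364) (nat_lit 283)) (XT.lf (nat_lit 76) (nat_lit 1128776319) (nat_lit 0) (nat_lit 744898024) (nat_lit 228) (nat_lit 1128776319) (nat_lit 170) (nat_lit 1) (nat_lit 169) (nat_lit 1) (nat_lit 172) (nat_lit 1) (nat_lit 374) (nat_lit 364) (nat_lit 282))) (XT.nd (nat_lit 78) (nat_lit 228) (nat_lit 0) (XT.lf (nat_lit 228) (nat_lit 1405456924) (nat_lit 0) (nat_lit 782607546) (nat_lit 152) (nat_lit 782607546) (nat_lit 170) (nat_lit 1) (nat_lit 167) (nat_lit 1) (nat_lit 169) (nat_lit 1) (nat_lit 375) (nat_lit 364) (nat_lit 281)) (XT.nd (nat_lit 78) (nat_lit 228) (nat_lit 0) (XT.lf (nat_lit 76) (nat_lit 282132058) (nat_lit 0) (nat_lit 2375149544) (nat_lit 228) (nat_lit 282132058) (nat_lit 168) (nat_lit 1) (nat_lit 167) (nat_lit 1) (nat_lit 170) (nat_lit 1) (nat_lit 376) (nat_lit 364) (nat_lit 280)) (XT.lf (nat_lit 76) (nat_lit 1318987232) (nat_lit 0) (nat_lit 270333541) (nat_lit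 228) (nat_lit 1318987232) (nat_lit 165) (nat_lit 1) (nat_lit 164) (nat_lit 1) (nat_lit 167) (nat_lit 1) (nat_lit 377) (nat_lit 364) (nat_lit 279))))) (XT.nd (nat_lit 234) (nat_lit 380) (nat_lit 0) (XT.nd (nat_lit 78) (nat_lit 152) (nat_lit 0) (XT.lf (nat_lit 228) (nat_lit 1799888797) (nat_lit 0) (nat_lit 538912395) (nat_lit 152) (nat_lit 538912395) (nat_lit 165) (nat_lit 1) (nat_lit 162) (nat_lit 1) (nat_lit 164) (nat_lit 1) (nat_lit 378) (nat_lit 364) (nat_lit 278)) (XT.nd (nat_lit 78) (nat_lit 152) (nat_lit 0) (XT.lf (nat_lit 76) (nat_lit 484196355) (nat_lit 0) (nat_lit 1879098508) (nat_lit 228) (nat_lit 484196355) (nat_lit 163) (nat_lit 1) (nat_lit 162) (nat_lit 1) (nat_lit 165) (nat_lit 1) (nat_lit 379) (nat_lit 364) (nat_lit 277)) (XT.lf (nat_lit 228) (nat_lit 142692422) (nat_lit 0) (nat_lit 1337460056) (nat_lit 152) (nat_lit 1337460056) (nat_lit 163) (nat_lit 1) (nat_lit 160) (nat_lit 1) (nat_lit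 162) (nat_lit 1) (nat_lit 380) (nat_lit 364) (nat_lit 276)))) (XT.nd (nat_lit 78) (nat_lit 152) (nat_lit 0) (XT.lf (nat_lit 228) (nat_lit 2134283247) (nat_lit 0) (nat_lit 326948455) (nat_lit 152) (nat_lit 326948455) (nat_lit 160) (nat_lit 1) (nat_lit 157) (nat_lit 1) (nat_lit 159) (nat_lit 1) (nat_lit 381) (nat_lit 364) (nat_lit 275)) (XT.nd (nat_lit 78) (nat_lit 152) (nat_lit 0) (XT.lf (nat_lit 76) (nat_lit 656926147) (nat_lit 0) (nat_lit 1445097308) (nat_lit 228) (nat_lit 656926147) (nat_lit 158) (nat_lit 1) (nat_lit 157) (nat_lit 1) (nat_lit 160) (nat_lit 1) (nat_lit 382) (nat_lit 364) (nat_lit 274)) (XT.lf (nat_lit 228) (nat_lit 503149769) (nat_lit 0) (nat_lit 1113504002) (nat_lit 152) (nat_lit 1113504002) (nat_lit 158) (nat_lit 1) (nat_lit 155) (nat_lit 1) (nat_lit 157) (nat_lit 1) (nat_lit 383) (nat_lit 364) (nat_lit 273))))))) (XT.nd (nat_lit 46254) (nat_lit 0) (nat_lit 16340) (XT.nd (nat_lit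 45786) (nat_lit 0) (nat_lit 17176) (XT.nd (nat_lit 156) (nat_lit 304) (nat_lit 0) (XT.nd (nat_lit 78) (nat_lit 0) (nat_lit 0) (XT.lf (nat_lit 228) (nat_lit 2415802791) (nat_lit 0) (nat_lit 143044587) (nat_lit 152) (nat_lit 143044587) (nat_lit 155) (nat_lit 1) (nat_lit 152) (nat_lit 1) (nat_lit 154) (nat_lit 1) (nat_lit 384) (nat_lit 364) (nat_lit 272)) (XT.lf (nat_lit 76) (nat_lit 803790720) (nat_lit 0) (nat_lit 1066030457) (nat_lit 228) (nat_lit 803790720) (nat_lit 153) (nat_lit 1) (nat_lit 152) (nat_lit 1) (nat_lit 155) (nat_lit 1) (nat_lit 385) (nat_lit 364) (nat_lit 271))) (XT.nd (nat_lit 78) (nat_lit 152) (nat_lit 0) (XT.lf (nat_lit 228) (nat_lit 812449238) (nat_lit 0) (nat_lit 916700938) (nat_lit 152) (nat_lit 916700938) (nat_lit 153) (nat_lit 1) (nat_lit 150) (nat_lit 1) (nat_lit 152) (nat_lit 1) (nat_lit 386) (nat_lit 364) (nat_lit 270)) (XT.nd (nat_lit 78) (nat_lit 152) (nat_lit 0) (XT.lf (nat_lit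 76) (nat_lit 16216087) (nat_lit 0) (nat_lit 2586232430) (nat_lit 228) (nat_lit 16216087) (nat_lit 151) (nat_lit 1) (nat_lit 150) (nat_lit 1) (nat_lit 153) (nat_lit 1) (nat_lit 387) (nat_lit 364) (nat_lit 269)) (XT.lf (nat_lit 76) (nat_lit 927866718) (nat_lit 0) (nat_lit 735581648) (nat_lit 152) (nat_lit 927866718) (nat_lit 149) (nat_lit 1) (nat_lit 148) (nat_lit 1) (nat_lit 150) (nat_lit 1) (nat_lit 388) (nat_lit 364) (nat_lit 268))))) (XT.nd (nat_lit 234) (nat_lit 0) (nat_lit 76) (XT.nd (nat_lit 78) (nat_lit 0) (nat_lit 0) (XT.lf (nat_lit 1292) (nat_lit 780899770) (nat_lit 0) (nat_lit 2686658381) (nat_lit 1292) (nat_lit 780899770) (nat_lit 391) (nat_lit 1) (nat_lit 374) (nat_lit 0) (nat_lit 391) (nat_lit 0) (nat_lit 290) (nat_lit 365) (nat_lit 365)) (XT.nd (nat_lit 78) (nat_lit 0) (nat_lit 76) (XT.lf (nat_lit 1292) (nat_lit 3051769985) (nat_lit 76) (nat_lit 2660318593) (nat_lit 0) (nat_lit 2660318593)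 (nat_lit 391) (nat_lit 1) (nat_lit 375) (nat_lit 1) (nat_lit 374) (nat_lit 0) (nat_lit 291) (nat_lit 365) (nat_lit 364)) (XT.lf (nat_lit 1292) (nat_lit 1475908727) (nat_lit 0) (nat_lit 5298827447) (nat_lit 1216) (nat_lit 1475908727) (nat_lit 392) (nat_lit 1) (nat_lit 375) (nat_lit 1) (nat_lit 391) (nat_lit 1) (nat_lit 292) (nat_lit 365) (nat_lit 363)))) (XT.nd (nat_lit 78) (nat_lit 0) (nat_lit 76) (XT.lf (nat_lit 1292) (nat_lit 2802826875) (nat_lit 76) (nat_lit 2664044572) (nat_lit 0) (nat_lit 2664044572) (nat_lit 392) (nat_lit 1) (nat_lit 376) (nat_lit 1) (nat_lit 375) (nat_lit 1) (nat_lit 293) (nat_lit 365) (nat_lit 362)) (XT.nd (nat_lit 78) (nat_lit 0) (nat_lit 0) (XT.lf (nat_lit 1292) (nat_lit 1315212533) (nat_lit 0) (nat_lit 5383441048) (nat_lit 1216) (nat_lit 1315212533) (nat_lit 393) (nat_lit 1) (nat_lit 376) (nat_lit 1) (nat_lit 392) (nat_lit 1) (nat_lit 294) (nat_lit 365) (nat_lit 361)) (XT.lf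 (nat_lit 1292) (nat_lit 2410265834) (nat_lit 76) (nat_lit 2744211172) (nat_lit 0) (nat_lit 2744211172) (nat_lit 393) (nat_lit 1) (nat_lit 377) (nat_lit 1) (nat_lit 376) (nat_lit 1) (nat_lit 295) (nat_lit 365) (nat_lit 360)))))) (XT.nd (nat_lit 468) (nat_lit 1064) (nat_lit 0) (XT.nd (nat_lit 234) (nat_lit 0) (nat_lit 76) (XT.nd (nat_lit 78) (nat_lit 0) (nat_lit 0) (XT.lf (nat_lit 1292) (nat_lit 1086327494) (nat_lit 0) (nat_lit 5613514884) (nat_lit 1216) (nat_lit 1086327494) (nat_lit 394) (nat_lit 1) (nat_lit 377) (nat_lit 1) (nat_lit 393) (nat_lit 1) (nat_lit 296) (nat_lit 365) (nat_lit 359)) (XT.nd (nat_lit 78) (nat_lit 0) (nat_lit 76) (XT.lf (nat_lit 1292) (nat_lit 1886930389) (nat_lit 76) (nat_lit 2894197732) (nat_lit 0) (nat_lit 2894197732) (nat_lit 394) (nat_lit 1) (nat_lit 378) (nat_lit 1) (nat_lit 377) (nat_lit 1) (nat_lit 297) (nat_lit 365) (nat_lit 358)) (XT.lf (nat_lit 1292) (nat_lit 795422693)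 (nat_lit 0) (nat_lit 5976320767) (nat_lit 1216) (nat_lit 795422693) (nat_lit 395) (nat_lit 1) (nat_lit 378) (nat_lit 1) (nat_lit 394) (nat_lit 1) (nat_lit 298) (nat_lit 365) (nat_lit 357)))) (XT.nd (nat_lit 78) (nat_lit 0) (nat_lit 76) (XT.lf (nat_lit 1292) (nat_lit 1244792837) (nat_lit 76) (nat_lit 3107828675) (nat_lit 0) (nat_lit 3107828675) (nat_lit 395) (nat_lit 1) (nat_lit 379) (nat_lit 1) (nat_lit 378) (nat_lit 1) (nat_lit 299) (nat_lit 365) (nat_lit 356)) (XT.nd (nat_lit 78) (nat_lit 0) (nat_lit 0) (XT.lf (nat_lit 1292) (nat_lit 448247403) (nat_lit 0) (nat_lit 6459988677) (nat_lit 1216) (nat_lit 448247403) (nat_lit 396) (nat_lit 1) (nat_lit 379) (nat_lit 1) (nat_lit 395) (nat_lit 1) (nat_lit 300) (nat_lit 365) (nat_lit 355)) (XT.lf (nat_lit 1292) (nat_lit 495008158) (nat_lit 76) (nat_lit 3379346061) (nat_lit 0) (nat_lit 3379346061) (nat_lit 396) (nat_lit 1) (nat_lit 380) (nat_lit 1) (nat_lit 379)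 (nat_lit 1) (nat_lit 301) (nat_lit 365) (nat_lit 354))))) (XT.nd (nat_lit 234) (nat_lit 0) (nat_lit 76) (XT.nd (nat_lit 78) (nat_lit 1292) (nat_lit 0) (XT.lf (nat_lit 1292) (nat_lit 50157112) (nat_lit 0) (nat_lit 7053453787) (nat_lit 1216) (nat_lit 50157112) (nat_lit 397) (nat_lit 1) (nat_lit 380) (nat_lit 1) (nat_lit 396) (nat_lit 1) (nat_lit 302) (nat_lit 365) (nat_lit 353)) (XT.nd (nat_lit 78) (nat_lit 0) (nat_lit 0) (XT.lf (nat_lit 1368) (nat_lit 3354732474) (nat_lit 0) (nat_lit 345165801) (nat_lit 1292) (nat_lit 3354732474) (nat_lit 381) (nat_lit 1) (nat_lit 363) (nat_lit 1) (nat_lit 380) (nat_lit 1) (nat_lit 303) (nat_lit 365) (nat_lit 352)) (XT.lf (nat_lit 1368) (nat_lit 6178224696) (nat_lit 76) (nat_lit 390000634) (nat_lit 0) (nat_lit 390000634) (nat_lit 381) (nat_lit 1) (nat_lit 364) (nat_lit 1) (nat_lit 363) (nat_lit 1) (nat_lit 304) (nat_lit 365) (nat_lit 351)))) (XT.nd (nat_lit 78) (nat_lit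 0) (nat_lit 0) (XT.lf (nat_lit 1368) (nat_lit 2800643459) (nat_lit 0) (nat_lit 1261560501) (nat_lit 1292) (nat_lit 2800643459) (nat_lit 382) (nat_lit 1) (nat_lit 364) (nat_lit 1) (nat_lit 381) (nat_lit 1) (nat_lit 305) (nat_lit 365) (nat_lit 350)) (XT.nd (nat_lit 78) (nat_lit 0) (nat_lit 76) (XT.lf (nat_lit 1368) (nat_lit 5028784913) (nat_lit 76) (nat_lit 870550868) (nat_lit 0) (nat_lit 870550868) (nat_lit 382) (nat_lit 1) (nat_lit 365) (nat_lit 1) (nat_lit 364) (nat_lit 1) (nat_lit 306) (nat_lit 365) (nat_lit 349)) (XT.lf (nat_lit 76) (nat_lit 2211583887) (nat_lit 0) (nat_lit 2255015508) (nat_lit 1292) (nat_lit 2211583887) (nat_lit 366) (nat_lit 1) (nat_lit 365) (nat_lit 1) (nat_lit 382) (nat_lit 1) (nat_lit 307) (nat_lit 365) (nat_lit 348))))))))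
noncomputable def ec58 : XT := (XT.nd (nat_lit 1716) (nat_lit 4484) (nat_lit 0) (XT.nd (nat_lit 858) (nat_lit 3420) (nat_lit 0) (XT.nd (nat_lit 390) (nat_lit 1748) (nat_lit 0) (XT.nd (nat_lit 156) (nat_lit 1216) (nat_lit 0) (XT.nd (nat_lit 78) (nat_lit 0) (nat_lit 0) (XT.lf (nat_lit 912) (nat_lit 3813081974) (nat_lit 0) (nat_lit 1387712495) (nat_lit 836) (nat_lit 1387712495) (nat_lit 366) (nat_lit 1) (nat_lit 354) (nat_lit 1) (nat_lit 365) (nat_lit 1) (nat_lit 308) (nat_lit 365) (nat_lit 347)) (XT.lf (nat_lit 76) (nat_lit 1591506188) (nat_lit 0) (nat_lit 3317330591) (nat_lit 912) (nat_lit 1591506188) (nat_lit 355) (nat_lit 1) (nat_lit 354) (nat_lit 1) (nat_lit 366) (nat_lit 1) (nat_lit 309) (nat_lit 365) (nat_lit 346))) (XT.nd (nat_lit 78) (nat_lit 608) (nat_lit 0) (XT.lf (nat_lit 684) (nat_lit 2538771472) (nat_lit 0) (nat_lit 1937514058) (nat_lit 608) (nat_lit 1937514058) (nat_lit 355) (nat_lit 1) (nat_lit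 346) (nat_lit 1) (nat_lit 354) (nat_lit 1) (nat_lit 310) (nat_lit 365) (nat_lit 345)) (XT.nd (nat_lit 78) (nat_lit 608) (nat_lit 0) (XT.lf (nat_lit 76) (nat_lit 944079257) (nat_lit 0) (nat_lit 4440886248) (nat_lit 684) (nat_lit 944079257) (nat_lit 347) (nat_lit 1) (nat_lit 346) (nat_lit 1) (nat_lit 355) (nat_lit 1) (nat_lit 311) (nat_lit 365) (nat_lit 344)) (XT.lf (nat_lit 684) (nat_lit 1212957348) (nat_lit 0) (nat_lit 2516266537) (nat_lit 608) (nat_lit 2516266537) (nat_lit 347) (nat_lit 1) (nat_lit 338) (nat_lit 1) (nat_lit 346) (nat_lit 1) (nat_lit 312) (nat_lit 365) (nat_lit 343))))) (XT.nd (nat_lit 234) (nat_lit 532) (nat_lit 0) (XT.nd (nat_lit 78) (nat_lit 1216) (nat_lit 0) (XT.lf (nat_lit 76) (nat_lit 272706378) (nat_lit 0) (nat_lit 5618607159) (nat_lit 684) (nat_lit 272706378) (nat_lit 339) (nat_lit 1) (nat_lit 338) (nat_lit 1) (nat_lit 347) (nat_lit 1) (nat_lit 313) (nat_lit 365) (nat_lit 342))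 (XT.nd (nat_lit 78) (nat_lit 608) (nat_lit 0) (XT.lf (nat_lit 76) (nat_lit 2964288994) (nat_lit 0) (nat_lit 154694449) (nat_lit 608) (nat_lit 2964288994) (nat_lit 331) (nat_lit 1) (nat_lit 330) (nat_lit 1) (nat_lit 338) (nat_lit 1) (nat_lit 314) (nat_lit 365) (nat_lit 341)) (XT.lf (nat_lit 684) (nat_lit 5173834522) (nat_lit 0) (nat_lit 415345590) (nat_lit 608) (nat_lit 415345590) (nat_lit 331) (nat_lit 1) (nat_lit 322) (nat_lit 1) (nat_lit 330) (nat_lit 1) (nat_lit 315) (nat_lit 365) (nat_lit 340)))) (XT.nd (nat_lit 78) (nat_lit 532) (nat_lit 0) (XT.lf (nat_lit 76) (nat_lit 2194923895) (nat_lit 0) (nat_lit 1536732751) (nat_lit 684) (nat_lit 2194923895) (nat_lit 323) (nat_lit 1) (nat_lit 322) (nat_lit 1) (nat_lit 331) (nat_lit 1) (nat_lit 316) (nat_lit 365) (nat_lit 339)) (XT.nd (nat_lit 78) (nat_lit 0) (nat_lit 0) (XT.lf (nat_lit 608) (nat_lit 3613629617) (nat_lit 0) (nat_lit 1118418597) (nat_lit 532)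 (nat_lit 1118418597) (nat_lit 323) (nat_lit 1) (nat_lit 315) (nat_lit 1) (nat_lit 322) (nat_lit 1) (nat_lit 317) (nat_lit 365) (nat_lit 338)) (XT.lf (nat_lit 76) (nat_lit 1412120614) (nat_lit 0) (nat_lit 2951286666) (nat_lit 608) (nat_lit 1412120614) (nat_lit 316) (nat_lit 1) (nat_lit 315) (nat_lit 1) (nat_lit 323) (nat_lit 1) (nat_lit 318) (nat_lit 365) (nat_lit 337)))))) (XT.nd (nat_lit 390) (nat_lit 1824) (nat_lit 0) (XT.nd (nat_lit 156) (nat_lit 1064) (nat_lit 0) (XT.nd (nat_lit 78) (nat_lit 0) (nat_lit 0) (XT.lf (nat_lit 608) (nat_lit 2028910552) (nat_lit 0) (nat_lit 1836509184) (nat_lit 532) (nat_lit 1836509184) (nat_lit 316) (nat_lit 1) (nat_lit 308) (nat_lit 1) (nat_lit 315) (nat_lit 1) (nat_lit 319) (nat_lit 365) (nat_lit 336)) (XT.lf (nat_lit 76) (nat_lit 618328311) (nat_lit 0) (nat_lit 4393231890) (nat_lit 608) (nat_lit 618328311) (nat_lit 309) (nat_lit 1) (nat_lit 308) (nat_lit 1) (nat_lit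 316) (nat_lit 1) (nat_lit 320) (nat_lit 365) (nat_lit 335))) (XT.nd (nat_lit 78) (nat_lit 608) (nat_lit 0) (XT.lf (nat_lit 532) (nat_lit 424407151) (nat_lit 0) (nat_lit 2567142363) (nat_lit 456) (nat_lit 2567142363) (nat_lit 309) (nat_lit 1) (nat_lit 302) (nat_lit 1) (nat_lit 308) (nat_lit 1) (nat_lit 321) (nat_lit 365) (nat_lit 334)) (XT.nd (nat_lit 78) (nat_lit 0) (nat_lit 0) (XT.lf (nat_lit 608) (nat_lit 5124458011) (nat_lit 0) (nat_lit 182387493) (nat_lit 532) (nat_lit 182387493) (nat_lit 302) (nat_lit 1) (nat_lit 294) (nat_lit 1) (nat_lit 301) (nat_lit 1) (nat_lit 322) (nat_lit 365) (nat_lit 333)) (XT.lf (nat_lit 76) (nat_lit 2124005209) (nat_lit 0) (nat_lit 1172190165) (nat_lit 608) (nat_lit 2124005209) (nat_lit 295) (nat_lit 1) (nat_lit 294) (nat_lit 1) (nat_lit 302) (nat_lit 1) (nat_lit 323) (nat_lit 365) (nat_lit 332))))) (XT.nd (nat_lit 234) (nat_lit 912) (nat_lit 0) (XT.nd (nat_lit 78) (nat_lit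 456) (nat_lit 0) (XT.lf (nat_lit 532) (nat_lit 3385598366) (nat_lit 0) (nat_lit 983622868) (nat_lit 456) (nat_lit 983622868) (nat_lit 295) (nat_lit 1) (nat_lit 288) (nat_lit 1) (nat_lit 294) (nat_lit 1) (nat_lit 324) (nat_lit 365) (nat_lit 331)) (XT.nd (nat_lit 78) (nat_lit 456) (nat_lit 0) (XT.lf (nat_lit 76) (nat_lit 1257392167) (nat_lit 0) (nat_lit 2771688793) (nat_lit 532) (nat_lit 1257392167) (nat_lit 289) (nat_lit 1) (nat_lit 288) (nat_lit 1) (nat_lit 295) (nat_lit 1) (nat_lit 325) (nat_lit 365) (nat_lit 330)) (XT.lf (nat_lit 532) (nat_lit 1642160400) (nat_lit 0) (nat_lit 1789541715) (nat_lit 456) (nat_lit 1789541715) (nat_lit 289) (nat_lit 1) (nat_lit 282) (nat_lit 1) (nat_lit 288) (nat_lit 1) (nat_lit 326) (nat_lit 365) (nat_lit 329)))) (XT.nd (nat_lit 78) (nat_lit 912) (nat_lit 0) (XT.lf (nat_lit 76) (nat_lit 389346841) (nat_lit 0) (nat_lit 4378747168) (nat_lit 532) (nat_lit 389346841) (nat_lit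 283) (nat_lit 1) (nat_lit 282) (nat_lit 1) (nat_lit 289) (nat_lit 1) (nat_lit 327) (nat_lit 365) (nat_lit 328)) (XT.nd (nat_lit 78) (nat_lit 456) (nat_lit 0) (XT.lf (nat_lit 76) (nat_lit 2496832517) (nat_lit 0) (nat_lit 100551246) (nat_lit 456) (nat_lit 2496832517) (nat_lit 277) (nat_lit 1) (nat_lit 276) (nat_lit 1) (nat_lit 282) (nat_lit 1) (nat_lit 328) (nat_lit 365) (nat_lit 327)) (XT.lf (nat_lit 532) (nat_lit 4084633965) (nat_lit 0) (nat_lit 473866144) (nat_lit 456) (nat_lit 473866144) (nat_lit 277) (nat_lit 1) (nat_lit 270) (nat_lit 1) (nat_lit 276) (nat_lit 1) (nat_lit 329) (nat_lit 365) (nat_lit 326))))))) (XT.nd (nat_lit 858) (nat_lit 2128) (nat_lit 0) (XT.nd (nat_lit 390) (nat_lit 1140) (nat_lit 0) (XT.nd (nat_lit 156) (nat_lit 836) (nat_lit 0) (XT.nd (nat_lit 78) (nat_lit 380) (nat_lit 0) (XT.lf (nat_lit 76) (nat_lit 1580818803) (nat_lit 0) (nat_lit 1809502154) (nat_lit 532) (nat_lit 1580818803)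 (nat_lit 271) (nat_lit 1) (nat_lit 270) (nat_lit 1) (nat_lit 277) (nat_lit 1) (nat_lit 330) (nat_lit 365) (nat_lit 325)) (XT.lf (nat_lit 456) (nat_lit 2247784422) (nat_lit 0) (nat_lit 1331697720) (nat_lit 380) (nat_lit 1331697720) (nat_lit 271) (nat_lit 1) (nat_lit 265) (nat_lit 1) (nat_lit 270) (nat_lit 1) (nat_lit 331) (nat_lit 365) (nat_lit 324))) (XT.nd (nat_lit 78) (nat_lit 836) (nat_lit 0) (XT.lf (nat_lit 76) (nat_lit 669146514) (nat_lit 0) (nat_lit 3514025126) (nat_lit 456) (nat_lit 669146514) (nat_lit 266) (nat_lit 1) (nat_lit 265) (nat_lit 1) (nat_lit 271) (nat_lit 1) (nat_lit 332) (nat_lit 365) (nat_lit 323)) (XT.nd (nat_lit 78) (nat_lit 456) (nat_lit 0) (XT.lf (nat_lit 456) (nat_lit 420840449) (nat_lit 0) (nat_lit 2186663491) (nat_lit 380) (nat_lit 2186663491) (nat_lit 266) (nat_lit 1) (nat_lit 260) (nat_lit 1) (nat_lit 265) (nat_lit 1) (nat_lit 333) (nat_lit 365) (nat_lit 322)) (XT.lf (nat_lit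 456) (nat_lit 4267904931) (nat_lit 0) (nat_lit 234704665) (nat_lit 380) (nat_lit 234704665) (nat_lit 260) (nat_lit 1) (nat_lit 254) (nat_lit 1) (nat_lit 259) (nat_lit 1) (nat_lit 334) (nat_lit 365) (nat_lit 321))))) (XT.nd (nat_lit 234) (nat_lit 760) (nat_lit 0) (XT.nd (nat_lit 78) (nat_lit 380) (nat_lit 0) (XT.lf (nat_lit 76) (nat_lit 1656993059) (nat_lit 0) (nat_lit 1366782293) (nat_lit 456) (nat_lit 1656993059) (nat_lit 255) (nat_lit 1) (nat_lit 254) (nat_lit 1) (nat_lit 260) (nat_lit 1) (nat_lit 335) (nat_lit 365) (nat_lit 320)) (XT.nd (nat_lit 78) (nat_lit 0) (nat_lit 0) (XT.lf (nat_lit 456) (nat_lit 2374451523) (nat_lit 0) (nat_lit 1125513859) (nat_lit 380) (nat_lit 1125513859) (nat_lit 255) (nat_lit 1) (nat_lit 249) (nat_lit 1) (nat_lit 254) (nat_lit 1) (nat_lit 336) (nat_lit 365) (nat_lit 319)) (XT.lf (nat_lit 76) (nat_lit 719386295) (nat_lit 0) (nat_lit 3132343105) (nat_lit 456) (nat_lit 719386295)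 (nat_lit 250) (nat_lit 1) (nat_lit 249) (nat_lit 1) (nat_lit 255) (nat_lit 1) (nat_lit 337) (nat_lit 365) (nat_lit 318)))) (XT.nd (nat_lit 78) (nat_lit 456) (nat_lit 0) (XT.lf (nat_lit 380) (nat_lit 499637198) (nat_lit 0) (nat_lit 2008901956) (nat_lit 304) (nat_lit 2008901956) (nat_lit 250) (nat_lit 1) (nat_lit 245) (nat_lit 1) (nat_lit 249) (nat_lit 1) (nat_lit 338) (nat_lit 365) (nat_lit 317)) (XT.nd (nat_lit 78) (nat_lit 0) (nat_lit 0) (XT.lf (nat_lit 456) (nat_lit 4051941496) (nat_lit 0) (nat_lit 206501253) (nat_lit 380) (nat_lit 206501253) (nat_lit 245) (nat_lit 1) (nat_lit 239) (nat_lit 1) (nat_lit 244) (nat_lit 1) (nat_lit 339) (nat_lit 365) (nat_lit 316)) (XT.lf (nat_lit 76) (nat_lit 1542061546) (nat_lit 0) (nat_lit 1328544463) (nat_lit 456) (nat_lit 1542061546) (nat_lit 240) (nat_lit 1) (nat_lit 239) (nat_lit 1) (nat_lit 245) (nat_lit 1) (nat_lit 340) (nat_lit 365) (nat_lit 315)))))) (XT.nd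 (nat_lit 390) (nat_lit 1140) (nat_lit 0) (XT.nd (nat_lit 156) (nat_lit 684) (nat_lit 0) (XT.nd (nat_lit 78) (nat_lit 0) (nat_lit 0) (XT.lf (nat_lit 380) (nat_lit 2131468630) (nat_lit 0) (nat_lit 1115032864) (nat_lit 304) (nat_lit 1115032864) (nat_lit 240) (nat_lit 1) (nat_lit 235) (nat_lit 1) (nat_lit 239) (nat_lit 1) (nat_lit 341) (nat_lit 365) (nat_lit 314)) (XT.lf (nat_lit 76) (nat_lit 592728867) (nat_lit 0) (nat_lit 3125818072) (nat_lit 380) (nat_lit 592728867) (nat_lit 236) (nat_lit 1) (nat_lit 235) (nat_lit 1) (nat_lit 240) (nat_lit 1) (nat_lit 342) (nat_lit 365) (nat_lit 313))) (XT.nd (nat_lit 78) (nat_lit 380) (nat_lit 0) (XT.lf (nat_lit 380) (nat_lit 236355279) (nat_lit 0) (nat_lit 2012616618) (nat_lit 304) (nat_lit 2012616618) (nat_lit 236) (nat_lit 1) (nat_lit 231) (nat_lit 1) (nat_lit 235) (nat_lit 1) (nat_lit 343) (nat_lit 365) (nat_lit 312)) (XT.nd (nat_lit 78) (nat_lit 0) (nat_lit 0) (XT.lf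 (nat_lit 380) (nat_lit 3532177854) (nat_lit 0) (nat_lit 340351962) (nat_lit 304) (nat_lit 340351962) (nat_lit 231) (nat_lit 1) (nat_lit 226) (nat_lit 1) (nat_lit 230) (nat_lit 1) (nat_lit 344) (nat_lit 365) (nat_lit 311)) (XT.lf (nat_lit 76) (nat_lit 1281990297) (nat_lit 0) (nat_lit 1600528310) (nat_lit 380) (nat_lit 1281990297) (nat_lit 227) (nat_lit 1) (nat_lit 226) (nat_lit 1) (nat_lit 231) (nat_lit 1) (nat_lit 345) (nat_lit 365) (nat_lit 310))))) (XT.nd (nat_lit 234) (nat_lit 532) (nat_lit 0) (XT.nd (nat_lit 78) (nat_lit 304) (nat_lit 0) (XT.lf (nat_lit 380) (nat_lit 1608291801) (nat_lit 0) (nat_lit 1254398058) (nat_lit 304) (nat_lit 1254398058) (nat_lit 227) (nat_lit 1) (nat_lit 222) (nat_lit 1) (nat_lit 226) (nat_lit 1) (nat_lit 346) (nat_lit 365) (nat_lit 309)) (XT.nd (nat_lit 78) (nat_lit 304) (nat_lit 0) (XT.lf (nat_lit 76) (nat_lit 332257461) (nat_lit 0) (nat_lit 3406069406) (nat_lit 380) (nat_lit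 332257461) (nat_lit 223) (nat_lit 1) (nat_lit 222) (nat_lit 1) (nat_lit 227) (nat_lit 1) (nat_lit 347) (nat_lit 365) (nat_lit 308)) (XT.lf (nat_lit 76) (nat_lit 1872389421) (nat_lit 0) (nat_lit 279601527) (nat_lit 304) (nat_lit 1872389421) (nat_lit 219) (nat_lit 1) (nat_lit 218) (nat_lit 1) (nat_lit 222) (nat_lit 1) (nat_lit 348) (nat_lit 365) (nat_lit 307)))) (XT.nd (nat_lit 78) (nat_lit 228) (nat_lit 0) (XT.lf (nat_lit 380) (nat_lit 2786512646) (nat_lit 0) (nat_lit 596277846) (nat_lit 304) (nat_lit 596277846) (nat_lit 219) (nat_lit 1) (nat_lit 214) (nat_lit 1) (nat_lit 218) (nat_lit 1) (nat_lit 349) (nat_lit 365) (nat_lit 306)) (XT.nd (nat_lit 78) (nat_lit 228) (nat_lit 0) (XT.lf (nat_lit 76) (nat_lit 914283940) (nat_lit 0) (nat_lit 2105704623) (nat_lit 380) (nat_lit 914283940) (nat_lit 215) (nat_lit 1) (nat_lit 214) (nat_lit 1) (nat_lit 219) (nat_lit 1) (nat_lit 350) (nat_lit 365) (nat_lit 305)) (XT.lf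 (nat_lit 304) (nat_lit 877880257) (nat_lit 0) (nat_lit 1506149929) (nat_lit 228) (nat_lit 1506149929) (nat_lit 215) (nat_lit 1) (nat_lit 211) (nat_lit 1) (nat_lit 214) (nat_lit 1) (nat_lit 351) (nat_lit 365) (nat_lit 304))))))))
noncomputable def ec59 : XT := (XT.nd (nat_lit 1716) (nat_lit 1596) (nat_lit 0) (XT.nd (nat_lit 858) (nat_lit 1444) (nat_lit 0) (XT.nd (nat_lit 390) (nat_lit 988) (nat_lit 0) (XT.nd (nat_lit 156) (nat_lit 532) (nat_lit 0) (XT.nd (nat_lit 78) (nat_lit 0) (nat_lit 0) (XT.lf (nat_lit 380) (nat_lit 3793805843) (nat_lit 0) (nat_lit 26640888) (nat_lit 304) (nat_lit 26640888) (nat_lit 211) (nat_lit 1) (nat_lit 206) (nat_lit 1) (nat_lit 210) (nat_lit 1) (nat_lit 352) (nat_lit 365) (nat_lit 303)) (XT.lf (nat_lit 76) (nat_lit 1413375545) (nat_lit 0) (nat_lit 977159314) (nat_lit 380) (nat_lit 1413375545) (nat_lit 207) (nat_lit 1) (nat_lit 206) (nat_lit 1) (nat_lit 211) (nat_lit 1) (nat_lit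 353) (nat_lit 365) (nat_lit 302))) (XT.nd (nat_lit 78) (nat_lit 304) (nat_lit 0) (XT.lf (nat_lit 304) (nat_lit 1878282989) (nat_lit 0) (nat_lit 941714380) (nat_lit 228) (nat_lit 941714380) (nat_lit 207) (nat_lit 1) (nat_lit 203) (nat_lit 1) (nat_lit 206) (nat_lit 1) (nat_lit 354) (nat_lit 365) (nat_lit 301)) (XT.nd (nat_lit 78) (nat_lit 304) (nat_lit 0) (XT.lf (nat_lit 76) (nat_lit 469421655) (nat_lit 0) (nat_lit 2781357215) (nat_lit 304) (nat_lit 469421655) (nat_lit 204) (nat_lit 1) (nat_lit 203) (nat_lit 1) (nat_lit 207) (nat_lit 1) (nat_lit 355) (nat_lit 365) (nat_lit 300)) (XT.lf (nat_lit 76) (nat_lit 1839305775) (nat_lit 0) (nat_lit 492453) (nat_lit 304) (nat_lit 1839305775) (nat_lit 200) (nat_lit 1) (nat_lit 199) (nat_lit 1) (nat_lit 203) (nat_lit 1) (nat_lit 356) (nat_lit 365) (nat_lit 299))))) (XT.nd (nat_lit 234) (nat_lit 532) (nat_lit 0) (XT.nd (nat_lit 78) (nat_lit 228) (nat_lit 0) (XT.lf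 (nat_lit 304) (nat_lit 2735138605) (nat_lit 0) (nat_lit 451768676) (nat_lit 228) (nat_lit 451768676) (nat_lit 200) (nat_lit 1) (nat_lit 196) (nat_lit 1) (nat_lit 199) (nat_lit 1) (nat_lit 357) (nat_lit 365) (nat_lit 298)) (XT.nd (nat_lit 78) (nat_lit 228) (nat_lit 0) (XT.lf (nat_lit 76) (nat_lit 896032437) (nat_lit 0) (nat_lit 1806571799) (nat_lit 304) (nat_lit 896032437) (nat_lit 197) (nat_lit 1) (nat_lit 196) (nat_lit 1) (nat_lit 200) (nat_lit 1) (nat_lit 358) (nat_lit 365) (nat_lit 297)) (XT.lf (nat_lit 304) (nat_lit 858747823) (nat_lit 0) (nat_lit 1350249945) (nat_lit 228) (nat_lit 1350249945) (nat_lit 197) (nat_lit 1) (nat_lit 193) (nat_lit 1) (nat_lit 196) (nat_lit 1) (nat_lit 359) (nat_lit 365) (nat_lit 296)))) (XT.nd (nat_lit 78) (nat_lit 228) (nat_lit 0) (XT.lf (nat_lit 304) (nat_lit 3465386193) (nat_lit 0) (nat_lit 27669886) (nat_lit 228) (nat_lit 27669886) (nat_lit 193) (nat_lit 1) (nat_lit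 189) (nat_lit 1) (nat_lit 192) (nat_lit 1) (nat_lit 360) (nat_lit 365) (nat_lit 295)) (XT.nd (nat_lit 78) (nat_lit 228) (nat_lit 0) (XT.lf (nat_lit 76) (nat_lit 1261120376) (nat_lit 0) (nat_lit 959845681) (nat_lit 304) (nat_lit 1261120376) (nat_lit 190) (nat_lit 1) (nat_lit 189) (nat_lit 1) (nat_lit 193) (nat_lit 1) (nat_lit 361) (nat_lit 365) (nat_lit 294)) (XT.lf (nat_lit 304) (nat_lit 1597155317) (nat_lit 0) (nat_lit 923571462) (nat_lit 228) (nat_lit 923571462) (nat_lit 190) (nat_lit 1) (nat_lit 186) (nat_lit 1) (nat_lit 189) (nat_lit 1) (nat_lit 362) (nat_lit 365) (nat_lit 293)))))) (XT.nd (nat_lit 390) (nat_lit 836) (nat_lit 0) (XT.nd (nat_lit 156) (nat_lit 380) (nat_lit 0) (XT.nd (nat_lit 78) (nat_lit 228) (nat_lit 0) (XT.lf (nat_lit 76) (nat_lit 341600349) (nat_lit 0) (nat_lit 2723949393) (nat_lit 304) (nat_lit 341600349) (nat_lit 187) (nat_lit 1) (nat_lit 186) (nat_lit 1) (nat_lit 190) (nat_lit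 1) (nat_lit 363) (nat_lit 365) (nat_lit 292)) (XT.lf (nat_lit 76) (nat_lit 1571952384) (nat_lit 0) (nat_lit 226334762) (nat_lit 228) (nat_lit 1571952384) (nat_lit 184) (nat_lit 1) (nat_lit 183) (nat_lit 1) (nat_lit 186) (nat_lit 1) (nat_lit 364) (nat_lit 365) (nat_lit 291))) (XT.nd (nat_lit 78) (nat_lit 152) (nat_lit 0) (XT.lf (nat_lit 304) (nat_lit 2228924628) (nat_lit 0) (nat_lit 552515140) (nat_lit 228) (nat_lit 552515140) (nat_lit 184) (nat_lit 1) (nat_lit 180) (nat_lit 1) (nat_lit 183) (nat_lit 1) (nat_lit 365) (nat_lit 365) (nat_lit 290)) (XT.nd (nat_lit 78) (nat_lit 152) (nat_lit 0) (XT.lf (nat_lit 76) (nat_lit 659262917) (nat_lit 0) (nat_lit 1979558513) (nat_lit 304) (nat_lit 659262917) (nat_lit 181) (nat_lit 1) (nat_lit 180) (nat_lit 1) (nat_lit 184) (nat_lit 1) (nat_lit 366) (nat_lit 365) (nat_lit 289)) (XT.lf (nat_lit 228) (nat_lit 415236074) (nat_lit 0) (nat_lit 1423728610) (nat_lit 152)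 (nat_lit 1423728610) (nat_lit 181) (nat_lit 1) (nat_lit 178) (nat_lit 1) (nat_lit 180) (nat_lit 1) (nat_lit 367) (nat_lit 365) (nat_lit 288))))) (XT.nd (nat_lit 234) (nat_lit 380) (nat_lit 0) (XT.nd (nat_lit 78) (nat_lit 152) (nat_lit 0) (XT.lf (nat_lit 304) (nat_lit 2766654949) (nat_lit 0) (nat_lit 230644156) (nat_lit 228) (nat_lit 230644156) (nat_lit 178) (nat_lit 1) (nat_lit 174) (nat_lit 1) (nat_lit 177) (nat_lit 1) (nat_lit 368) (nat_lit 365) (nat_lit 287)) (XT.nd (nat_lit 78) (nat_lit 152) (nat_lit 0) (XT.lf (nat_lit 76) (nat_lit 931140185) (nat_lit 0) (nat_lit 1331010894) (nat_lit 304) (nat_lit 931140185) (nat_lit 175) (nat_lit 1) (nat_lit 174) (nat_lit 1) (nat_lit 178) (nat_lit 1) (nat_lit 369) (nat_lit 365) (nat_lit 286)) (XT.lf (nat_lit 228) (nat_lit 971197673) (nat_lit 0) (nat_lit 1094035402) (nat_lit 152) (nat_lit 1094035402) (nat_lit 175) (nat_lit 1) (nat_lit 172) (nat_lit 1) (nat_lit 174)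 (nat_lit 1) (nat_lit 370) (nat_lit 365) (nat_lit 285)))) (XT.nd (nat_lit 78) (nat_lit 380) (nat_lit 0) (XT.lf (nat_lit 76) (nat_lit 48226511) (nat_lit 0) (nat_lit 3029503552) (nat_lit 228) (nat_lit 48226511) (nat_lit 173) (nat_lit 1) (nat_lit 172) (nat_lit 1) (nat_lit 175) (nat_lit 1) (nat_lit 371) (nat_lit 365) (nat_lit 284)) (XT.nd (nat_lit 78) (nat_lit 152) (nat_lit 0) (XT.lf (nat_lit 76) (nat_lit 1162639608) (nat_lit 0) (nat_lit 767244964) (nat_lit 228) (nat_lit 1162639608) (nat_lit 170) (nat_lit 1) (nat_lit 169) (nat_lit 1) (nat_lit 172) (nat_lit 1) (nat_lit 372) (nat_lit 365) (nat_lit 283)) (XT.lf (nat_lit 228) (nat_lit 1447620632) (nat_lit 0) (nat_lit 806085773) (nat_lit 152) (nat_lit 806085773) (nat_lit 170) (nat_lit 1) (nat_lit 167) (nat_lit 1) (nat_lit 169) (nat_lit 1) (nat_lit 373) (nat_lit 365) (nat_lit 282))))))) (XT.nd (nat_lit 858) (nat_lit 304) (nat_lit 0) (XT.nd (nat_lit 390) (nat_lit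 760) (nat_lit 0) (XT.nd (nat_lit 156) (nat_lit 304) (nat_lit 0) (XT.nd (nat_lit 78) (nat_lit 228) (nat_lit 0) (XT.lf (nat_lit 76) (nat_lit 290596020) (nat_lit 0) (nat_lit 2446404031) (nat_lit 228) (nat_lit 290596020) (nat_lit 168) (nat_lit 1) (nat_lit 167) (nat_lit 1) (nat_lit 170) (nat_lit 1) (nat_lit 374) (nat_lit 365) (nat_lit 281)) (XT.lf (nat_lit 76) (nat_lit 1358556849) (nat_lit 0) (nat_lit 278443547) (nat_lit 228) (nat_lit 1358556849) (nat_lit 165) (nat_lit 1) (nat_lit 164) (nat_lit 1) (nat_lit 167) (nat_lit 1) (nat_lit 375) (nat_lit 365) (nat_lit 280))) (XT.nd (nat_lit 78) (nat_lit 152) (nat_lit 0) (XT.lf (nat_lit 228) (nat_lit 1853885461) (nat_lit 0) (nat_lit 555079766) (nat_lit 152) (nat_lit 555079766) (nat_lit 165) (nat_lit 1) (nat_lit 162) (nat_lit 1) (nat_lit 164) (nat_lit 1) (nat_lit 376) (nat_lit 365) (nat_lit 279)) (XT.nd (nat_lit 78) (nat_lit 152) (nat_lit 0) (XT.lf (nat_lit 76) (nat_lit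 498722246) (nat_lit 0) (nat_lit 1935471463) (nat_lit 228) (nat_lit 498722246) (nat_lit 163) (nat_lit 1) (nat_lit 162) (nat_lit 1) (nat_lit 165) (nat_lit 1) (nat_lit 377) (nat_lit 365) (nat_lit 278)) (XT.lf (nat_lit 228) (nat_lit 146973195) (nat_lit 0) (nat_lit 1377583858) (nat_lit 152) (nat_lit 1377583858) (nat_lit 163) (nat_lit 1) (nat_lit 160) (nat_lit 1) (nat_lit 162) (nat_lit 1) (nat_lit 378) (nat_lit 365) (nat_lit 277))))) (XT.nd (nat_lit 234) (nat_lit 380) (nat_lit 0) (XT.nd (nat_lit 78) (nat_lit 152) (nat_lit 0) (XT.lf (nat_lit 228) (nat_lit 2198311744) (nat_lit 0) (nat_lit 336756909) (nat_lit 152) (nat_lit 336756909) (nat_lit 160) (nat_lit 1) (nat_lit 157) (nat_lit 1) (nat_lit 159) (nat_lit 1) (nat_lit 379) (nat_lit 365) (nat_lit 276)) (XT.nd (nat_lit 78) (nat_lit 152) (nat_lit 0) (XT.lf (nat_lit 76) (nat_lit 676633932) (nat_lit 0) (nat_lit 1488450228) (nat_lit 228) (nat_lit 676633932) (nat_lit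 158) (nat_lit 1) (nat_lit 157) (nat_lit 1) (nat_lit 160) (nat_lit 1) (nat_lit 380) (nat_lit 365) (nat_lit 275)) (XT.lf (nat_lit 228) (nat_lit 518244262) (nat_lit 0) (nat_lit 1146909122) (nat_lit 152) (nat_lit 1146909122) (nat_lit 158) (nat_lit 1) (nat_lit 155) (nat_lit 1) (nat_lit 157) (nat_lit 1) (nat_lit 381) (nat_lit 365) (nat_lit 274)))) (XT.nd (nat_lit 78) (nat_lit 152) (nat_lit 0) (XT.lf (nat_lit 228) (nat_lit 2488276875) (nat_lit 0) (nat_lit 147335925) (nat_lit 152) (nat_lit 147335925) (nat_lit 155) (nat_lit 1) (nat_lit 152) (nat_lit 1) (nat_lit 154) (nat_lit 1) (nat_lit 382) (nat_lit 365) (nat_lit 273)) (XT.nd (nat_lit 78) (nat_lit 152) (nat_lit 0) (XT.lf (nat_lit 76) (nat_lit 827904441) (nat_lit 0) (nat_lit 1098011371) (nat_lit 228) (nat_lit 827904441) (nat_lit 153) (nat_lit 1) (nat_lit 152) (nat_lit 1) (nat_lit 155) (nat_lit 1) (nat_lit 383) (nat_lit 365) (nat_lit 272)) (XT.lf (nat_lit 228)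 (nat_lit 836822715) (nat_lit 0) (nat_lit 944201966) (nat_lit 152) (nat_lit 944201966) (nat_lit 153) (nat_lit 1) (nat_lit 150) (nat_lit 1) (nat_lit 152) (nat_lit 1) (nat_lit 384) (nat_lit 365) (nat_lit 271)))))) (XT.nd (nat_lit 45786) (nat_lit 0) (nat_lit 17404) (XT.nd (nat_lit 45552) (nat_lit 0) (nat_lit 17328) (XT.nd (nat_lit 78) (nat_lit 304) (nat_lit 0) (XT.lf (nat_lit 76) (nat_lit 16702569) (nat_lit 0) (nat_lit 2663819403) (nat_lit 228) (nat_lit 16702569) (nat_lit 151) (nat_lit 1) (nat_lit 150) (nat_lit 1) (nat_lit 153) (nat_lit 1) (nat_lit 385) (nat_lit 365) (nat_lit 270)) (XT.nd (nat_lit 78) (nat_lit 152) (nat_lit 0) (XT.lf (nat_lit 76) (nat_lit 955702720) (nat_lit 0) (nat_lit 757649097) (nat_lit 152) (nat_lit 955702720) (nat_lit 149) (nat_lit 1) (nat_lit 148) (nat_lit 1) (nat_lit 150) (nat_lit 1) (nat_lit 386) (nat_lit 365) (nat_lit 269)) (XT.lf (nat_lit 228) (nat_lit 1108913328) (nat_lit 0) (nat_lit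 766278271) (nat_lit 152) (nat_lit 766278271) (nat_lit 149) (nat_lit 1) (nat_lit 146) (nat_lit 1) (nat_lit 148) (nat_lit 1) (nat_lit 387) (nat_lit 365) (nat_lit 268)))) (XT.nd (nat_lit 78) (nat_lit 0) (nat_lit 0) (XT.lf (nat_lit 1292) (nat_lit 804326763) (nat_lit 0) (nat_lit 2767258133) (nat_lit 1292) (nat_lit 804326763) (nat_lit 391) (nat_lit 1) (nat_lit 374) (nat_lit 0) (nat_lit 391) (nat_lit 0) (nat_lit 288) (nat_lit 366) (nat_lit 366)) (XT.nd (nat_lit 78) (nat_lit 0) (nat_lit 76) (XT.lf (nat_lit 1292) (nat_lit 3143323085) (nat_lit 76) (nat_lit 2740128151) (nat_lit 0) (nat_lit 2740128151) (nat_lit 391) (nat_lit 1) (nat_lit 375) (nat_lit 1) (nat_lit 374) (nat_lit 0) (nat_lit 289) (nat_lit 366) (nat_lit 365)) (XT.lf (nat_lit 1292) (nat_lit 1520185989) (nat_lit 0) (nat_lit 5457792270) (nat_lit 1216) (nat_lit 1520185989) (nat_lit 392) (nat_lit 1) (nat_lit 375) (nat_lit 1) (nat_lit 391) (nat_lit 1) (nat_lit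 290) (nat_lit 366) (nat_lit 364))))) (XT.nd (nat_lit 234) (nat_lit 0) (nat_lit 152) (XT.nd (nat_lit 78) (nat_lit 0) (nat_lit 76) (XT.lf (nat_lit 1292) (nat_lit 2886911682) (nat_lit 76) (nat_lit 2743965910) (nat_lit 0) (nat_lit 2743965910) (nat_lit 392) (nat_lit 1) (nat_lit 376) (nat_lit 1) (nat_lit 375) (nat_lit 1) (nat_lit 291) (nat_lit 366) (nat_lit 363)) (XT.nd (nat_lit 78) (nat_lit 0) (nat_lit 0) (XT.lf (nat_lit 1292) (nat_lit 1354668909) (nat_lit 0) (nat_lit 5544944279) (nat_lit 1216) (nat_lit 1354668909) (nat_lit 393) (nat_lit 1) (nat_lit 376) (nat_lit 1) (nat_lit 392) (nat_lit 1) (nat_lit 292) (nat_lit 366) (nat_lit 362)) (XT.lf (nat_lit 1292) (nat_lit 2482573809) (nat_lit 76) (nat_lit 2826537507) (nat_lit 0) (nat_lit 2826537507) (nat_lit 393) (nat_lit 1) (nat_lit 377) (nat_lit 1) (nat_lit 376) (nat_lit 1) (nat_lit 293) (nat_lit 366) (nat_lit 361)))) (XT.nd (nat_lit 78) (nat_lit 0) (nat_lit 0)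 (XT.lf (nat_lit 1292) (nat_lit 1118917319) (nat_lit 0) (nat_lit 5781920331) (nat_lit 1216) (nat_lit 1118917319) (nat_lit 394) (nat_lit 1) (nat_lit 377) (nat_lit 1) (nat_lit 393) (nat_lit 1) (nat_lit 294) (nat_lit 366) (nat_lit 360)) (XT.nd (nat_lit 78) (nat_lit 0) (nat_lit 76) (XT.lf (nat_lit 1292) (nat_lit 1943538301) (nat_lit 76) (nat_lit 2981023664) (nat_lit 0) (nat_lit 2981023664) (nat_lit 394) (nat_lit 1) (nat_lit 378) (nat_lit 1) (nat_lit 377) (nat_lit 1) (nat_lit 295) (nat_lit 366) (nat_lit 359)) (XT.lf (nat_lit 1292) (nat_lit 819285373) (nat_lit 0) (nat_lit 6155610390) (nat_lit 1216) (nat_lit 819285373) (nat_lit 395) (nat_lit 1) (nat_lit 378) (nat_lit 1) (nat_lit 394) (nat_lit 1) (nat_lit 296) (nat_lit 366) (nat_lit 358))))))))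
noncomputable def ec60 : XT := (XT.nd (nat_lit 1716) (nat_lit 5548) (nat_lit 0) (XT.nd (nat_lit 858) (nat_lit 3496) (nat_lit 0) (XT.nd (nat_lit 390) (nat_lit 684) (nat_lit 0) (XT.nd (nat_lit 156) (nat_lit 1140) (nat_lit 0) (XT.nd (nat_lit 78) (nat_lit 0) (nat_lit 76) (XT.lf (nat_lit 1292) (nat_lit 1282136622) (nat_lit 76) (nat_lit 3201063535) (nat_lit 0) (nat_lit 3201063535) (nat_lit 395) (nat_lit 1) (nat_lit 379) (nat_lit 1) (nat_lit 378) (nat_lit 1) (nat_lit 297) (nat_lit 366) (nat_lit 357)) (XT.lf (nat_lit 1292) (nat_lit 461694825) (nat_lit 0) (nat_lit 6653788337) (nat_lit 1216) (nat_lit 461694825) (nat_lit 396) (nat_lit 1) (nat_lit 379) (nat_lit 1) (nat_lit 395) (nat_lit 1) (nat_lit 298) (nat_lit 366) (nat_lit 356))) (XT.nd (nat_lit 78) (nat_lit 1216) (nat_lit 0) (XT.lf (nat_lit 1292) (nat_lit 509858403) (nat_lit 76) (nat_lit 3480726442) (nat_lit 0) (nat_lit 3480726442) (nat_lit 396) (nat_lit 1)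 (nat_lit 380) (nat_lit 1) (nat_lit 379) (nat_lit 1) (nat_lit 299) (nat_lit 366) (nat_lit 355)) (XT.nd (nat_lit 78) (nat_lit 1292) (nat_lit 0) (XT.lf (nat_lit 1292) (nat_lit 51661825) (nat_lit 0) (nat_lit 7265057401) (nat_lit 1216) (nat_lit 51661825) (nat_lit 397) (nat_lit 1) (nat_lit 380) (nat_lit 1) (nat_lit 396) (nat_lit 1) (nat_lit 300) (nat_lit 366) (nat_lit 354)) (XT.lf (nat_lit 1368) (nat_lit 3455374448) (nat_lit 0) (nat_lit 355520775) (nat_lit 1292) (nat_lit 3455374448) (nat_lit 381) (nat_lit 1) (nat_lit 363) (nat_lit 1) (nat_lit 380) (nat_lit 1) (nat_lit 301) (nat_lit 366) (nat_lit 353))))) (XT.nd (nat_lit 234) (nat_lit 684) (nat_lit 0) (XT.nd (nat_lit 78) (nat_lit 0) (nat_lit 76) (XT.lf (nat_lit 1368) (nat_lit 6363571437) (nat_lit 76) (nat_lit 401700653) (nat_lit 0) (nat_lit 401700653) (nat_lit 381) (nat_lit 1) (nat_lit 364) (nat_lit 1) (nat_lit 363) (nat_lit 1) (nat_lit 302) (nat_lit 366) (nat_lit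 352)) (XT.nd (nat_lit 78) (nat_lit 0) (nat_lit 0) (XT.lf (nat_lit 1368) (nat_lit 2884662763) (nat_lit 0) (nat_lit 1299407316) (nat_lit 1292) (nat_lit 2884662763) (nat_lit 382) (nat_lit 1) (nat_lit 364) (nat_lit 1) (nat_lit 381) (nat_lit 1) (nat_lit 303) (nat_lit 366) (nat_lit 351)) (XT.lf (nat_lit 1368) (nat_lit 5179648461) (nat_lit 76) (nat_lit 896667394) (nat_lit 0) (nat_lit 896667394) (nat_lit 382) (nat_lit 1) (nat_lit 365) (nat_lit 1) (nat_lit 364) (nat_lit 1) (nat_lit 304) (nat_lit 366) (nat_lit 350)))) (XT.nd (nat_lit 78) (nat_lit 836) (nat_lit 0) (XT.lf (nat_lit 76) (nat_lit 2277931404) (nat_lit 0) (nat_lit 2322665973) (nat_lit 1292) (nat_lit 2277931404) (nat_lit 366) (nat_lit 1) (nat_lit 365) (nat_lit 1) (nat_lit 382) (nat_lit 1) (nat_lit 305) (nat_lit 366) (nat_lit 349)) (XT.nd (nat_lit 78) (nat_lit 0) (nat_lit 0) (XT.lf (nat_lit 912) (nat_lit 3927474434) (nat_lit 0) (nat_lit 1429343870) (nat_lit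 836) (nat_lit 1429343870) (nat_lit 366) (nat_lit 1) (nat_lit 354) (nat_lit 1) (nat_lit 365) (nat_lit 1) (nat_lit 306) (nat_lit 366) (nat_lit 348)) (XT.lf (nat_lit 76) (nat_lit 1639251374) (nat_lit 0) (nat_lit 3416850509) (nat_lit 912) (nat_lit 1639251374) (nat_lit 355) (nat_lit 1) (nat_lit 354) (nat_lit 1) (nat_lit 366) (nat_lit 1) (nat_lit 307) (nat_lit 366) (nat_lit 347)))))) (XT.nd (nat_lit 390) (nat_lit 1672) (nat_lit 0) (XT.nd (nat_lit 156) (nat_lit 1216) (nat_lit 0) (XT.nd (nat_lit 78) (nat_lit 0) (nat_lit 0) (XT.lf (nat_lit 684) (nat_lit 2614934616) (nat_lit 0) (nat_lit 1995639479) (nat_lit 608) (nat_lit 1995639479) (nat_lit 355) (nat_lit 1) (nat_lit 346) (nat_lit 1) (nat_lit 354) (nat_lit 1) (nat_lit 308) (nat_lit 366) (nat_lit 346)) (XT.lf (nat_lit 76) (nat_lit 972401635) (nat_lit 0) (nat_lit 4574112835) (nat_lit 684) (nat_lit 972401635) (nat_lit 347) (nat_lit 1) (nat_lit 346) (nat_lit 1) (nat_lit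 355) (nat_lit 1) (nat_lit 309) (nat_lit 366) (nat_lit 345))) (XT.nd (nat_lit 78) (nat_lit 608) (nat_lit 0) (XT.lf (nat_lit 684) (nat_lit 1249346069) (nat_lit 0) (nat_lit 2591754533) (nat_lit 608) (nat_lit 2591754533) (nat_lit 347) (nat_lit 1) (nat_lit 338) (nat_lit 1) (nat_lit 346) (nat_lit 1) (nat_lit 310) (nat_lit 366) (nat_lit 344)) (XT.nd (nat_lit 78) (nat_lit 608) (nat_lit 0) (XT.lf (nat_lit 76) (nat_lit 280887569) (nat_lit 0) (nat_lit 5787165373) (nat_lit 684) (nat_lit 280887569) (nat_lit 339) (nat_lit 1) (nat_lit 338) (nat_lit 1) (nat_lit 347) (nat_lit 1) (nat_lit 311) (nat_lit 366) (nat_lit 343)) (XT.lf (nat_lit 76) (nat_lit 3053217664) (nat_lit 0) (nat_lit 159335282) (nat_lit 608) (nat_lit 3053217664) (nat_lit 331) (nat_lit 1) (nat_lit 330) (nat_lit 1) (nat_lit 338) (nat_lit 1) (nat_lit 312) (nat_lit 366) (nat_lit 342))))) (XT.nd (nat_lit 234) (nat_lit 532) (nat_lit 0) (XT.nd (nat_lit 78) (nat_lit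 532) (nat_lit 0) (XT.lf (nat_lit 684) (nat_lit 5329049557) (nat_lit 0) (nat_lit 427805958) (nat_lit 608) (nat_lit 427805958) (nat_lit 331) (nat_lit 1) (nat_lit 322) (nat_lit 1) (nat_lit 330) (nat_lit 1) (nat_lit 313) (nat_lit 366) (nat_lit 341)) (XT.nd (nat_lit 78) (nat_lit 532) (nat_lit 0) (XT.lf (nat_lit 76) (nat_lit 2260771612) (nat_lit 0) (nat_lit 1582834734) (nat_lit 684) (nat_lit 2260771612) (nat_lit 323) (nat_lit 1) (nat_lit 322) (nat_lit 1) (nat_lit 331) (nat_lit 1) (nat_lit 314) (nat_lit 366) (nat_lit 340)) (XT.lf (nat_lit 608) (nat_lit 3722038506) (nat_lit 0) (nat_lit 1151971155) (nat_lit 532) (nat_lit 1151971155) (nat_lit 323) (nat_lit 1) (nat_lit 315) (nat_lit 1) (nat_lit 322) (nat_lit 1) (nat_lit 315) (nat_lit 366) (nat_lit 339)))) (XT.nd (nat_lit 78) (nat_lit 532) (nat_lit 0) (XT.lf (nat_lit 76) (nat_lit 1454484233) (nat_lit 0) (nat_lit 3039825266) (nat_lit 608) (nat_lit 1454484233) (nat_lit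 316) (nat_lit 1) (nat_lit 315) (nat_lit 1) (nat_lit 323) (nat_lit 1) (nat_lit 316) (nat_lit 366) (nat_lit 338)) (XT.nd (nat_lit 78) (nat_lit 0) (nat_lit 0) (XT.lf (nat_lit 608) (nat_lit 2089777869) (nat_lit 0) (nat_lit 1891604460) (nat_lit 532) (nat_lit 1891604460) (nat_lit 316) (nat_lit 1) (nat_lit 308) (nat_lit 1) (nat_lit 315) (nat_lit 1) (nat_lit 317) (nat_lit 366) (nat_lit 337)) (XT.lf (nat_lit 76) (nat_lit 636878161) (nat_lit 0) (nat_lit 4525028846) (nat_lit 608) (nat_lit 636878161) (nat_lit 309) (nat_lit 1) (nat_lit 308) (nat_lit 1) (nat_lit 316) (nat_lit 1) (nat_lit 318) (nat_lit 366) (nat_lit 336))))))) (XT.nd (nat_lit 858) (nat_lit 2280) (nat_lit 0) (XT.nd (nat_lit 390) (nat_lit 1748) (nat_lit 0) (XT.nd (nat_lit 156) (nat_lit 456) (nat_lit 0) (XT.nd (nat_lit 78) (nat_lit 608) (nat_lit 0) (XT.lf (nat_lit 532) (nat_lit 437139366) (nat_lit 0) (nat_lit 2644156634) (nat_lit 456) (nat_lit 2644156634)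 (nat_lit 309) (nat_lit 1) (nat_lit 302) (nat_lit 1) (nat_lit 308) (nat_lit 1) (nat_lit 319) (nat_lit 366) (nat_lit 335)) (XT.lf (nat_lit 608) (nat_lit 5278191751) (nat_lit 0) (nat_lit 187859118) (nat_lit 532) (nat_lit 187859118) (nat_lit 302) (nat_lit 1) (nat_lit 294) (nat_lit 1) (nat_lit 301) (nat_lit 1) (nat_lit 320) (nat_lit 366) (nat_lit 334))) (XT.nd (nat_lit 78) (nat_lit 456) (nat_lit 0) (XT.lf (nat_lit 76) (nat_lit 2187725366) (nat_lit 0) (nat_lit 1207355870) (nat_lit 608) (nat_lit 2187725366) (nat_lit 295) (nat_lit 1) (nat_lit 294) (nat_lit 1) (nat_lit 302) (nat_lit 1) (nat_lit 321) (nat_lit 366) (nat_lit 333)) (XT.nd (nat_lit 78) (nat_lit 0) (nat_lit 0) (XT.lf (nat_lit 532) (nat_lit 3487166317) (nat_lit 0) (nat_lit 1013131554) (nat_lit 456) (nat_lit 1013131554) (nat_lit 295) (nat_lit 1) (nat_lit 288) (nat_lit 1) (nat_lit 294) (nat_lit 1) (nat_lit 322) (nat_lit 366) (nat_lit 332)) (XT.lf (nat_lit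 76) (nat_lit 1295113932) (nat_lit 0) (nat_lit 2854839457) (nat_lit 532) (nat_lit 1295113932) (nat_lit 289) (nat_lit 1) (nat_lit 288) (nat_lit 1) (nat_lit 295) (nat_lit 1) (nat_lit 323) (nat_lit 366) (nat_lit 331))))) (XT.nd (nat_lit 234) (nat_lit 836) (nat_lit 0) (XT.nd (nat_lit 78) (nat_lit 456) (nat_lit 0) (XT.lf (nat_lit 532) (nat_lit 1691425212) (nat_lit 0) (nat_lit 1843227966) (nat_lit 456) (nat_lit 1843227966) (nat_lit 289) (nat_lit 1) (nat_lit 282) (nat_lit 1) (nat_lit 288) (nat_lit 1) (nat_lit 324) (nat_lit 366) (nat_lit 330)) (XT.nd (nat_lit 78) (nat_lit 456) (nat_lit 0) (XT.lf (nat_lit 76) (nat_lit 401027246) (nat_lit 0) (nat_lit 4510109583) (nat_lit 532) (nat_lit 401027246) (nat_lit 283) (nat_lit 1) (nat_lit 282) (nat_lit 1) (nat_lit 289) (nat_lit 1) (nat_lit 325) (nat_lit 366) (nat_lit 329)) (XT.lf (nat_lit 76) (nat_lit 2571737493) (nat_lit 0) (nat_lit 103567783) (nat_lit 456) (nat_lit 2571737493)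 (nat_lit 277) (nat_lit 1) (nat_lit 276) (nat_lit 1) (nat_lit 282) (nat_lit 1) (nat_lit 326) (nat_lit 366) (nat_lit 328)))) (XT.nd (nat_lit 78) (nat_lit 380) (nat_lit 0) (XT.lf (nat_lit 532) (nat_lit 4207172984) (nat_lit 0) (nat_lit 488082128) (nat_lit 456) (nat_lit 488082128) (nat_lit 277) (nat_lit 1) (nat_lit 270) (nat_lit 1) (nat_lit 276) (nat_lit 1) (nat_lit 327) (nat_lit 366) (nat_lit 327)) (XT.nd (nat_lit 78) (nat_lit 380) (nat_lit 0) (XT.lf (nat_lit 76) (nat_lit 1628243368) (nat_lit 0) (nat_lit 1863787219) (nat_lit 532) (nat_lit 1628243368) (nat_lit 271) (nat_lit 1) (nat_lit 270) (nat_lit 1) (nat_lit 277) (nat_lit 1) (nat_lit 328) (nat_lit 366) (nat_lit 326)) (XT.lf (nat_lit 456) (nat_lit 2315217955) (nat_lit 0) (nat_lit 1371648651) (nat_lit 380) (nat_lit 1371648651) (nat_lit 271) (nat_lit 1) (nat_lit 265) (nat_lit 1) (nat_lit 270) (nat_lit 1) (nat_lit 329) (nat_lit 366) (nat_lit 325)))))) (XT.nd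 (nat_lit 390) (nat_lit 1064) (nat_lit 0) (XT.nd (nat_lit 156) (nat_lit 836) (nat_lit 0) (XT.nd (nat_lit 78) (nat_lit 380) (nat_lit 0) (XT.lf (nat_lit 76) (nat_lit 689220909) (nat_lit 0) (nat_lit 3619445879) (nat_lit 456) (nat_lit 689220909) (nat_lit 266) (nat_lit 1) (nat_lit 265) (nat_lit 1) (nat_lit 271) (nat_lit 1) (nat_lit 330) (nat_lit 366) (nat_lit 324)) (XT.lf (nat_lit 456) (nat_lit 433465662) (nat_lit 0) (nat_lit 2252263396) (nat_lit 380) (nat_lit 2252263396) (nat_lit 266) (nat_lit 1) (nat_lit 260) (nat_lit 1) (nat_lit 265) (nat_lit 1) (nat_lit 331) (nat_lit 366) (nat_lit 323))) (XT.nd (nat_lit 78) (nat_lit 380) (nat_lit 0) (XT.lf (nat_lit 456) (nat_lit 4395942079) (nat_lit 0) (nat_lit 241745805) (nat_lit 380) (nat_lit 241745805) (nat_lit 260) (nat_lit 1) (nat_lit 254) (nat_lit 1) (nat_lit 259) (nat_lit 1) (nat_lit 332) (nat_lit 366) (nat_lit 322)) (XT.nd (nat_lit 78) (nat_lit 380) (nat_lit 0)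 (XT.lf (nat_lit 76) (nat_lit 1706702851) (nat_lit 0) (nat_lit 1407785762) (nat_lit 456) (nat_lit 1706702851) (nat_lit 255) (nat_lit 1) (nat_lit 254) (nat_lit 1) (nat_lit 260) (nat_lit 1) (nat_lit 333) (nat_lit 366) (nat_lit 321)) (XT.lf (nat_lit 456) (nat_lit 2445685068) (nat_lit 0) (nat_lit 1159279275) (nat_lit 380) (nat_lit 1159279275) (nat_lit 255) (nat_lit 1) (nat_lit 249) (nat_lit 1) (nat_lit 254) (nat_lit 1) (nat_lit 334) (nat_lit 366) (nat_lit 320))))) (XT.nd (nat_lit 234) (nat_lit 304) (nat_lit 0) (XT.nd (nat_lit 78) (nat_lit 760) (nat_lit 0) (XT.lf (nat_lit 76) (nat_lit 740967884) (nat_lit 0) (nat_lit 3226313398) (nat_lit 456) (nat_lit 740967884) (nat_lit 250) (nat_lit 1) (nat_lit 249) (nat_lit 1) (nat_lit 255) (nat_lit 1) (nat_lit 335) (nat_lit 366) (nat_lit 319)) (XT.nd (nat_lit 78) (nat_lit 456) (nat_lit 0) (XT.lf (nat_lit 380) (nat_lit 514626314) (nat_lit 0) (nat_lit 2069169015) (nat_lit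 304) (nat_lit 2069169015) (nat_lit 250) (nat_lit 1) (nat_lit 245) (nat_lit 1) (nat_lit 249) (nat_lit 1) (nat_lit 336) (nat_lit 366) (nat_lit 318)) (XT.lf (nat_lit 456) (nat_lit 4173499741) (nat_lit 0) (nat_lit 212696290) (nat_lit 380) (nat_lit 212696290) (nat_lit 245) (nat_lit 1) (nat_lit 239) (nat_lit 1) (nat_lit 244) (nat_lit 1) (nat_lit 337) (nat_lit 366) (nat_lit 317)))) (XT.nd (nat_lit 78) (nat_lit 304) (nat_lit 0) (XT.lf (nat_lit 76) (nat_lit 1588323393) (nat_lit 0) (nat_lit 1368400797) (nat_lit 456) (nat_lit 1588323393) (nat_lit 240) (nat_lit 1) (nat_lit 239) (nat_lit 1) (nat_lit 245) (nat_lit 1) (nat_lit 338) (nat_lit 366) (nat_lit 316)) (XT.nd (nat_lit 78) (nat_lit 0) (nat_lit 0) (XT.lf (nat_lit 380) (nat_lit 2195412689) (nat_lit 0) (nat_lit 1148483850) (nat_lit 304) (nat_lit 1148483850) (nat_lit 240) (nat_lit 1) (nat_lit 235) (nat_lit 1) (nat_lit 239) (nat_lit 1) (nat_lit 339) (nat_lit 366)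 (nat_lit 315)) (XT.lf (nat_lit 76) (nat_lit 610510733) (nat_lit 0) (nat_lit 3219592614) (nat_lit 380) (nat_lit 610510733) (nat_lit 236) (nat_lit 1) (nat_lit 235) (nat_lit 1) (nat_lit 240) (nat_lit 1) (nat_lit 340) (nat_lit 366) (nat_lit 314))))))))
noncomputable def ec61 : XT := (XT.nd (nat_lit 1716) (nat_lit 2812) (nat_lit 0) (XT.nd (nat_lit 858) (nat_lit 1748) (nat_lit 0) (XT.nd (nat_lit 390) (nat_lit 1216) (nat_lit 0) (XT.nd (nat_lit 156) (nat_lit 304) (nat_lit 0) (XT.nd (nat_lit 78) (nat_lit 380) (nat_lit 0) (XT.lf (nat_lit 380) (nat_lit 243445937) (nat_lit 0) (nat_lit 2072995117) (nat_lit 304) (nat_lit 2072995117) (nat_lit 236) (nat_lit 1) (nat_lit 231) (nat_lit 1) (nat_lit 235) (nat_lit 1) (nat_lit 341) (nat_lit 366) (nat_lit 313)) (XT.lf (nat_lit 380) (nat_lit 3638143190) (nat_lit 0) (nat_lit 350562520) (nat_lit 304) (nat_lit 350562520) (nat_lit 231) (nat_lit 1) (nat_lit 226) (nat_lit 1) (nat_lit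 230) (nat_lit 1) (nat_lit 342) (nat_lit 366) (nat_lit 312))) (XT.nd (nat_lit 78) (nat_lit 304) (nat_lit 0) (XT.lf (nat_lit 76) (nat_lit 1320450006) (nat_lit 0) (nat_lit 1648544160) (nat_lit 380) (nat_lit 1320450006) (nat_lit 227) (nat_lit 1) (nat_lit 226) (nat_lit 1) (nat_lit 231) (nat_lit 1) (nat_lit 343) (nat_lit 366) (nat_lit 311)) (XT.nd (nat_lit 78) (nat_lit 0) (nat_lit 0) (XT.lf (nat_lit 380) (nat_lit 1656540555) (nat_lit 0) (nat_lit 1292030000) (nat_lit 304) (nat_lit 1292030000) (nat_lit 227) (nat_lit 1) (nat_lit 222) (nat_lit 1) (nat_lit 226) (nat_lit 1) (nat_lit 344) (nat_lit 366) (nat_lit 310)) (XT.lf (nat_lit 76) (nat_lit 342225185) (nat_lit 0) (nat_lit 3508251488) (nat_lit 380) (nat_lit 342225185) (nat_lit 223) (nat_lit 1) (nat_lit 222) (nat_lit 1) (nat_lit 227) (nat_lit 1) (nat_lit 345) (nat_lit 366) (nat_lit 309))))) (XT.nd (nat_lit 234) (nat_lit 608) (nat_lit 0) (XT.nd (nat_lit 78) (nat_lit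 304) (nat_lit 0) (XT.lf (nat_lit 76) (nat_lit 1928561104) (nat_lit 0) (nat_lit 287989573) (nat_lit 304) (nat_lit 1928561104) (nat_lit 219) (nat_lit 1) (nat_lit 218) (nat_lit 1) (nat_lit 222) (nat_lit 1) (nat_lit 346) (nat_lit 366) (nat_lit 308)) (XT.nd (nat_lit 78) (nat_lit 0) (nat_lit 0) (XT.lf (nat_lit 380) (nat_lit 2870108025) (nat_lit 0) (nat_lit 614166181) (nat_lit 304) (nat_lit 614166181) (nat_lit 219) (nat_lit 1) (nat_lit 214) (nat_lit 1) (nat_lit 218) (nat_lit 1) (nat_lit 347) (nat_lit 366) (nat_lit 307)) (XT.lf (nat_lit 76) (nat_lit 941712458) (nat_lit 0) (nat_lit 2168875761) (nat_lit 380) (nat_lit 941712458) (nat_lit 215) (nat_lit 1) (nat_lit 214) (nat_lit 1) (nat_lit 219) (nat_lit 1) (nat_lit 348) (nat_lit 366) (nat_lit 306)))) (XT.nd (nat_lit 78) (nat_lit 380) (nat_lit 0) (XT.lf (nat_lit 304) (nat_lit 904216664) (nat_lit 0) (nat_lit 1551334427) (nat_lit 228) (nat_lit 1551334427) (nat_lit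 215) (nat_lit 1) (nat_lit 211) (nat_lit 1) (nat_lit 214) (nat_lit 1) (nat_lit 349) (nat_lit 366) (nat_lit 305)) (XT.nd (nat_lit 78) (nat_lit 0) (nat_lit 0) (XT.lf (nat_lit 380) (nat_lit 3907620018) (nat_lit 0) (nat_lit 27440115) (nat_lit 304) (nat_lit 27440115) (nat_lit 211) (nat_lit 1) (nat_lit 206) (nat_lit 1) (nat_lit 210) (nat_lit 1) (nat_lit 350) (nat_lit 366) (nat_lit 304)) (XT.lf (nat_lit 76) (nat_lit 1455776812) (nat_lit 0) (nat_lit 1006474094) (nat_lit 380) (nat_lit 1455776812) (nat_lit 207) (nat_lit 1) (nat_lit 206) (nat_lit 1) (nat_lit 211) (nat_lit 1) (nat_lit 351) (nat_lit 366) (nat_lit 303)))))) (XT.nd (nat_lit 390) (nat_lit 988) (nat_lit 0) (XT.nd (nat_lit 156) (nat_lit 532) (nat_lit 0) (XT.nd (nat_lit 78) (nat_lit 0) (nat_lit 0) (XT.lf (nat_lit 304) (nat_lit 1934631479) (nat_lit 0) (nat_lit 969965812) (nat_lit 228) (nat_lit 969965812) (nat_lit 207) (nat_lit 1) (nat_lit 203) (nat_lit 1)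 (nat_lit 206) (nat_lit 1) (nat_lit 352) (nat_lit 366) (nat_lit 302)) (XT.lf (nat_lit 76) (nat_lit 483504305) (nat_lit 0) (nat_lit 2864797932) (nat_lit 304) (nat_lit 483504305) (nat_lit 204) (nat_lit 1) (nat_lit 203) (nat_lit 1) (nat_lit 207) (nat_lit 1) (nat_lit 353) (nat_lit 366) (nat_lit 301))) (XT.nd (nat_lit 78) (nat_lit 228) (nat_lit 0) (XT.lf (nat_lit 76) (nat_lit 1894484948) (nat_lit 0) (nat_lit 507226) (nat_lit 304) (nat_lit 1894484948) (nat_lit 200) (nat_lit 1) (nat_lit 199) (nat_lit 1) (nat_lit 203) (nat_lit 1) (nat_lit 354) (nat_lit 366) (nat_lit 300)) (XT.nd (nat_lit 78) (nat_lit 0) (nat_lit 0) (XT.lf (nat_lit 304) (nat_lit 2817192763) (nat_lit 0) (nat_lit 465321736) (nat_lit 228) (nat_lit 465321736) (nat_lit 200) (nat_lit 1) (nat_lit 196) (nat_lit 1) (nat_lit 199) (nat_lit 1) (nat_lit 355) (nat_lit 366) (nat_lit 299)) (XT.lf (nat_lit 76) (nat_lit 922913410) (nat_lit 0) (nat_lit 1860768953)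 (nat_lit 304) (nat_lit 922913410) (nat_lit 197) (nat_lit 1) (nat_lit 196) (nat_lit 1) (nat_lit 200) (nat_lit 1) (nat_lit 356) (nat_lit 366) (nat_lit 298))))) (XT.nd (nat_lit 234) (nat_lit 456) (nat_lit 0) (XT.nd (nat_lit 78) (nat_lit 304) (nat_lit 0) (XT.lf (nat_lit 304) (nat_lit 884510257) (nat_lit 0) (nat_lit 1390757444) (nat_lit 228) (nat_lit 1390757444) (nat_lit 197) (nat_lit 1) (nat_lit 193) (nat_lit 1) (nat_lit 196) (nat_lit 1) (nat_lit 357) (nat_lit 366) (nat_lit 297)) (XT.nd (nat_lit 78) (nat_lit 0) (nat_lit 0) (XT.lf (nat_lit 304) (nat_lit 3569347779) (nat_lit 0) (nat_lit 28499982) (nat_lit 228) (nat_lit 28499982) (nat_lit 193) (nat_lit 1) (nat_lit 189) (nat_lit 1) (nat_lit 192) (nat_lit 1) (nat_lit 358) (nat_lit 366) (nat_lit 296)) (XT.lf (nat_lit 76) (nat_lit 1298953988) (nat_lit 0) (nat_lit 988641051) (nat_lit 304) (nat_lit 1298953988) (nat_lit 190) (nat_lit 1) (nat_lit 189) (nat_lit 1) (nat_lit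 193) (nat_lit 1) (nat_lit 359) (nat_lit 366) (nat_lit 295)))) (XT.nd (nat_lit 78) (nat_lit 228) (nat_lit 0) (XT.lf (nat_lit 304) (nat_lit 1645069977) (nat_lit 0) (nat_lit 951278606) (nat_lit 228) (nat_lit 951278606) (nat_lit 190) (nat_lit 1) (nat_lit 186) (nat_lit 1) (nat_lit 189) (nat_lit 1) (nat_lit 360) (nat_lit 366) (nat_lit 294)) (XT.nd (nat_lit 78) (nat_lit 228) (nat_lit 0) (XT.lf (nat_lit 76) (nat_lit 351848360) (nat_lit 0) (nat_lit 2805667875) (nat_lit 304) (nat_lit 351848360) (nat_lit 187) (nat_lit 1) (nat_lit 186) (nat_lit 1) (nat_lit 190) (nat_lit 1) (nat_lit 361) (nat_lit 366) (nat_lit 293)) (XT.lf (nat_lit 76) (nat_lit 1619110955) (nat_lit 0) (nat_lit 233124805) (nat_lit 228) (nat_lit 1619110955) (nat_lit 184) (nat_lit 1) (nat_lit 183) (nat_lit 1) (nat_lit 186) (nat_lit 1) (nat_lit 362) (nat_lit 366) (nat_lit 292))))))) (XT.nd (nat_lit 858) (nat_lit 1368) (nat_lit 0) (XT.nd (nat_lit 390)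 (nat_lit 760) (nat_lit 0) (XT.nd (nat_lit 156) (nat_lit 456) (nat_lit 0) (XT.nd (nat_lit 78) (nat_lit 0) (nat_lit 0) (XT.lf (nat_lit 304) (nat_lit 2295792367) (nat_lit 0) (nat_lit 569090595) (nat_lit 228) (nat_lit 569090595) (nat_lit 184) (nat_lit 1) (nat_lit 180) (nat_lit 1) (nat_lit 183) (nat_lit 1) (nat_lit 363) (nat_lit 366) (nat_lit 291)) (XT.lf (nat_lit 76) (nat_lit 679040804) (nat_lit 0) (nat_lit 2038945269) (nat_lit 304) (nat_lit 679040804) (nat_lit 181) (nat_lit 1) (nat_lit 180) (nat_lit 1) (nat_lit 184) (nat_lit 1) (nat_lit 364) (nat_lit 366) (nat_lit 290))) (XT.nd (nat_lit 78) (nat_lit 304) (nat_lit 0) (XT.lf (nat_lit 228) (nat_lit 427693156) (nat_lit 0) (nat_lit 1466440469) (nat_lit 152) (nat_lit 1466440469) (nat_lit 181) (nat_lit 1) (nat_lit 178) (nat_lit 1) (nat_lit 180) (nat_lit 1) (nat_lit 365) (nat_lit 366) (nat_lit 289)) (XT.nd (nat_lit 78) (nat_lit 0) (nat_lit 0) (XT.lf (nat_lit 304)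 (nat_lit 2849654598) (nat_lit 0) (nat_lit 237563481) (nat_lit 228) (nat_lit 237563481) (nat_lit 178) (nat_lit 1) (nat_lit 174) (nat_lit 1) (nat_lit 177) (nat_lit 1) (nat_lit 366) (nat_lit 366) (nat_lit 288)) (XT.lf (nat_lit 76) (nat_lit 959074391) (nat_lit 0) (nat_lit 1370941221) (nat_lit 304) (nat_lit 959074391) (nat_lit 175) (nat_lit 1) (nat_lit 174) (nat_lit 1) (nat_lit 178) (nat_lit 1) (nat_lit 367) (nat_lit 366) (nat_lit 287))))) (XT.nd (nat_lit 234) (nat_lit 380) (nat_lit 0) (XT.nd (nat_lit 78) (nat_lit 228) (nat_lit 0) (XT.lf (nat_lit 228) (nat_lit 1000333604) (nat_lit 0) (nat_lit 1126856464) (nat_lit 152) (nat_lit 1126856464) (nat_lit 175) (nat_lit 1) (nat_lit 172) (nat_lit 1) (nat_lit 174) (nat_lit 1) (nat_lit 368) (nat_lit 366) (nat_lit 286)) (XT.nd (nat_lit 78) (nat_lit 228) (nat_lit 0) (XT.lf (nat_lit 76) (nat_lit 49673306) (nat_lit 0) (nat_lit 3120388659) (nat_lit 228) (nat_lit 49673306)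 (nat_lit 173) (nat_lit 1) (nat_lit 172) (nat_lit 1) (nat_lit 175) (nat_lit 1) (nat_lit 369) (nat_lit 366) (nat_lit 285)) (XT.lf (nat_lit 76) (nat_lit 1197518797) (nat_lit 0) (nat_lit 790262313) (nat_lit 228) (nat_lit 1197518797) (nat_lit 170) (nat_lit 1) (nat_lit 169) (nat_lit 1) (nat_lit 172) (nat_lit 1) (nat_lit 370) (nat_lit 366) (nat_lit 284)))) (XT.nd (nat_lit 78) (nat_lit 228) (nat_lit 0) (XT.lf (nat_lit 228) (nat_lit 1491049251) (nat_lit 0) (nat_lit 830268346) (nat_lit 152) (nat_lit 830268346) (nat_lit 170) (nat_lit 1) (nat_lit 167) (nat_lit 1) (nat_lit 169) (nat_lit 1) (nat_lit 371) (nat_lit 366) (nat_lit 283)) (XT.nd (nat_lit 78) (nat_lit 228) (nat_lit 0) (XT.lf (nat_lit 76) (nat_lit 299313900) (nat_lit 0) (nat_lit 2519796152) (nat_lit 228) (nat_lit 299313900) (nat_lit 168) (nat_lit 1) (nat_lit 167) (nat_lit 1) (nat_lit 170) (nat_lit 1) (nat_lit 372) (nat_lit 366) (nat_lit 282)) (XT.lf (nat_lit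 76) (nat_lit 1399313555) (nat_lit 0) (nat_lit 286796854) (nat_lit 228) (nat_lit 1399313555) (nat_lit 165) (nat_lit 1) (nat_lit 164) (nat_lit 1) (nat_lit 167) (nat_lit 1) (nat_lit 373) (nat_lit 366) (nat_lit 281)))))) (XT.nd (nat_lit 468) (nat_lit 684) (nat_lit 0) (XT.nd (nat_lit 234) (nat_lit 380) (nat_lit 0) (XT.nd (nat_lit 78) (nat_lit 152) (nat_lit 0) (XT.lf (nat_lit 228) (nat_lit 1909502025) (nat_lit 0) (nat_lit 571732159) (nat_lit 152) (nat_lit 571732159) (nat_lit 165) (nat_lit 1) (nat_lit 162) (nat_lit 1) (nat_lit 164) (nat_lit 1) (nat_lit 374) (nat_lit 366) (nat_lit 280)) (XT.nd (nat_lit 78) (nat_lit 152) (nat_lit 0) (XT.lf (nat_lit 76) (nat_lit 513683913) (nat_lit 0) (nat_lit 1993535607) (nat_lit 228) (nat_lit 513683913) (nat_lit 163) (nat_lit 1) (nat_lit 162) (nat_lit 1) (nat_lit 165) (nat_lit 1) (nat_lit 375) (nat_lit 366) (nat_lit 279)) (XT.lf (nat_lit 228) (nat_lit 151382391) (nat_lit 0)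 (nat_lit 1418911373) (nat_lit 152) (nat_lit 1418911373) (nat_lit 163) (nat_lit 1) (nat_lit 160) (nat_lit 1) (nat_lit 162) (nat_lit 1) (nat_lit 376) (nat_lit 366) (nat_lit 278)))) (XT.nd (nat_lit 78) (nat_lit 152) (nat_lit 0) (XT.lf (nat_lit 228) (nat_lit 2264261097) (nat_lit 0) (nat_lit 346859616) (nat_lit 152) (nat_lit 346859616) (nat_lit 160) (nat_lit 1) (nat_lit 157) (nat_lit 1) (nat_lit 159) (nat_lit 1) (nat_lit 377) (nat_lit 366) (nat_lit 277)) (XT.nd (nat_lit 78) (nat_lit 152) (nat_lit 0) (XT.lf (nat_lit 76) (nat_lit 696932950) (nat_lit 0) (nat_lit 1533103734) (nat_lit 228) (nat_lit 696932950) (nat_lit 158) (nat_lit 1) (nat_lit 157) (nat_lit 1) (nat_lit 160) (nat_lit 1) (nat_lit 378) (nat_lit 366) (nat_lit 276)) (XT.lf (nat_lit 228) (nat_lit 533791590) (nat_lit 0) (nat_lit 1181316396) (nat_lit 152) (nat_lit 1181316396) (nat_lit 158) (nat_lit 1) (nat_lit 155) (nat_lit 1) (nat_lit 157) (nat_lit 1)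 (nat_lit 379) (nat_lit 366) (nat_lit 275))))) (XT.nd (nat_lit 234) (nat_lit 304) (nat_lit 0) (XT.nd (nat_lit 78) (nat_lit 152) (nat_lit 0) (XT.lf (nat_lit 228) (nat_lit 2562925181) (nat_lit 0) (nat_lit 151756003) (nat_lit 152) (nat_lit 151756003) (nat_lit 155) (nat_lit 1) (nat_lit 152) (nat_lit 1) (nat_lit 154) (nat_lit 1) (nat_lit 380) (nat_lit 366) (nat_lit 274)) (XT.nd (nat_lit 78) (nat_lit 152) (nat_lit 0) (XT.lf (nat_lit 76) (nat_lit 852741575) (nat_lit 0) (nat_lit 1130951712) (nat_lit 228) (nat_lit 852741575) (nat_lit 153) (nat_lit 1) (nat_lit 152) (nat_lit 1) (nat_lit 155) (nat_lit 1) (nat_lit 381) (nat_lit 366) (nat_lit 273)) (XT.lf (nat_lit 228) (nat_lit 861927397) (nat_lit 0) (nat_lit 972528025) (nat_lit 152) (nat_lit 972528025) (nat_lit 153) (nat_lit 1) (nat_lit 150) (nat_lit 1) (nat_lit 152) (nat_lit 1) (nat_lit 382) (nat_lit 366) (nat_lit 272)))) (XT.nd (nat_lit 78) (nat_lit 304) (nat_lit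 0) (XT.lf (nat_lit 76) (nat_lit 17203647) (nat_lit 0) (nat_lit 2743733985) (nat_lit 228) (nat_lit 17203647) (nat_lit 151) (nat_lit 1) (nat_lit 150) (nat_lit 1) (nat_lit 153) (nat_lit 1) (nat_lit 383) (nat_lit 366) (nat_lit 271)) (XT.nd (nat_lit 78) (nat_lit 152) (nat_lit 0) (XT.lf (nat_lit 76) (nat_lit 984373801) (nat_lit 0) (nat_lit 780378570) (nat_lit 152) (nat_lit 984373801) (nat_lit 149) (nat_lit 1) (nat_lit 148) (nat_lit 1) (nat_lit 150) (nat_lit 1) (nat_lit 384) (nat_lit 366) (nat_lit 270)) (XT.lf (nat_lit 228) (nat_lit 1142180728) (nat_lit 0) (nat_lit 789266619) (nat_lit 152) (nat_lit 789266619) (nat_lit 149) (nat_lit 1) (nat_lit 146) (nat_lit 1) (nat_lit 148) (nat_lit 1) (nat_lit 385) (nat_lit 366) (nat_lit 269))))))))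
noncomputable def ec62 : XT := (XT.nd (nat_lit 46878) (nat_lit 0) (nat_lit 9196) (XT.nd (nat_lit 46020) (nat_lit 0) (nat_lit 15960) (XT.nd (nat_lit 45552) (nat_lit 0) (nat_lit 17556) (XT.nd (nat_lit 45318) (nat_lit 0) (nat_lit 17480) (XT.nd (nat_lit 78) (nat_lit 152) (nat_lit 0) (XT.lf (nat_lit 76) (nat_lit 164189948) (nat_lit 0) (nat_lit 2364420024) (nat_lit 228) (nat_lit 164189948) (nat_lit 147) (nat_lit 1) (nat_lit 146) (nat_lit 1) (nat_lit 149) (nat_lit 1) (nat_lit 386) (nat_lit 366) (nat_lit 268)) (XT.lf (nat_lit 76) (nat_lit 1094723720) (nat_lit 0) (nat_lit 475436468) (nat_lit 152) (nat_lit 1094723720) (nat_lit 145) (nat_lit 1) (nat_lit 144) (nat_lit 1) (nat_lit 146) (nat_lit 1) (nat_lit 387) (nat_lit 366) (nat_lit 267))) (XT.nd (nat_lit 78) (nat_lit 0) (nat_lit 0) (XT.lf (nat_lit 1292) (nat_lit 828456566) (nat_lit 0) (nat_lit 2850275877) (nat_lit 1292) (nat_lit 828456566) (nat_lit 391) (nat_lit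 1) (nat_lit 374) (nat_lit 0) (nat_lit 391) (nat_lit 0) (nat_lit 286) (nat_lit 367) (nat_lit 367)) (XT.nd (nat_lit 78) (nat_lit 0) (nat_lit 76) (XT.lf (nat_lit 1292) (nat_lit 3237622777) (nat_lit 76) (nat_lit 2822331995) (nat_lit 0) (nat_lit 2822331995) (nat_lit 391) (nat_lit 1) (nat_lit 375) (nat_lit 1) (nat_lit 374) (nat_lit 0) (nat_lit 287) (nat_lit 367) (nat_lit 366)) (XT.lf (nat_lit 1292) (nat_lit 1565791569) (nat_lit 0) (nat_lit 5621526039) (nat_lit 1216) (nat_lit 1565791569) (nat_lit 392) (nat_lit 1) (nat_lit 375) (nat_lit 1) (nat_lit 391) (nat_lit 1) (nat_lit 288) (nat_lit 367) (nat_lit 365))))) (XT.nd (nat_lit 234) (nat_lit 0) (nat_lit 152) (XT.nd (nat_lit 78) (nat_lit 0) (nat_lit 76) (XT.lf (nat_lit 1292) (nat_lit 2973519032) (nat_lit 76) (nat_lit 2826284887) (nat_lit 0) (nat_lit 2826284887) (nat_lit 392) (nat_lit 1) (nat_lit 376) (nat_lit 1) (nat_lit 375) (nat_lit 1) (nat_lit 289) (nat_lit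 367) (nat_lit 364)) (XT.nd (nat_lit 78) (nat_lit 0) (nat_lit 0) (XT.lf (nat_lit 1292) (nat_lit 1395308976) (nat_lit 0) (nat_lit 5711292607) (nat_lit 1216) (nat_lit 1395308976) (nat_lit 393) (nat_lit 1) (nat_lit 376) (nat_lit 1) (nat_lit 392) (nat_lit 1) (nat_lit 290) (nat_lit 367) (nat_lit 363)) (XT.lf (nat_lit 1292) (nat_lit 2557051024) (nat_lit 76) (nat_lit 2911333633) (nat_lit 0) (nat_lit 2911333633) (nat_lit 393) (nat_lit 1) (nat_lit 377) (nat_lit 1) (nat_lit 376) (nat_lit 1) (nat_lit 291) (nat_lit 367) (nat_lit 362)))) (XT.nd (nat_lit 78) (nat_lit 0) (nat_lit 0) (XT.lf (nat_lit 1292) (nat_lit 1152484839) (nat_lit 0) (nat_lit 5955377941) (nat_lit 1216) (nat_lit 1152484839) (nat_lit 394) (nat_lit 1) (nat_lit 377) (nat_lit 1) (nat_lit 393) (nat_lit 1) (nat_lit 292) (nat_lit 367) (nat_lit 361)) (XT.nd (nat_lit 78) (nat_lit 0) (nat_lit 76) (XT.lf (nat_lit 1292) (nat_lit 2001844450) (nat_lit 76) (nat_lit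 3070454374) (nat_lit 0) (nat_lit 3070454374) (nat_lit 394) (nat_lit 1) (nat_lit 378) (nat_lit 1) (nat_lit 377) (nat_lit 1) (nat_lit 293) (nat_lit 367) (nat_lit 360)) (XT.lf (nat_lit 1292) (nat_lit 843863935) (nat_lit 0) (nat_lit 6340278702) (nat_lit 1216) (nat_lit 843863935) (nat_lit 395) (nat_lit 1) (nat_lit 378) (nat_lit 1) (nat_lit 394) (nat_lit 1) (nat_lit 294) (nat_lit 367) (nat_lit 359)))))) (XT.nd (nat_lit 390) (nat_lit 684) (nat_lit 0) (XT.nd (nat_lit 156) (nat_lit 1140) (nat_lit 0) (XT.nd (nat_lit 78) (nat_lit 0) (nat_lit 76) (XT.lf (nat_lit 1292) (nat_lit 1320600721) (nat_lit 76) (nat_lit 3297095442) (nat_lit 0) (nat_lit 3297095442) (nat_lit 395) (nat_lit 1) (nat_lit 379) (nat_lit 1) (nat_lit 378) (nat_lit 1) (nat_lit 295) (nat_lit 367) (nat_lit 358)) (XT.lf (nat_lit 1292) (nat_lit 475545670) (nat_lit 0) (nat_lit 6853401987) (nat_lit 1216) (nat_lit 475545670) (nat_lit 396) (nat_lit 1) (nat_lit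 379) (nat_lit 1) (nat_lit 395) (nat_lit 1) (nat_lit 296) (nat_lit 367) (nat_lit 357))) (XT.nd (nat_lit 78) (nat_lit 1216) (nat_lit 0) (XT.lf (nat_lit 1292) (nat_lit 525154155) (nat_lit 76) (nat_lit 3585148236) (nat_lit 0) (nat_lit 3585148236) (nat_lit 396) (nat_lit 1) (nat_lit 380) (nat_lit 1) (nat_lit 379) (nat_lit 1) (nat_lit 297) (nat_lit 367) (nat_lit 356)) (XT.nd (nat_lit 78) (nat_lit 1292) (nat_lit 0) (XT.lf (nat_lit 1292) (nat_lit 53211680) (nat_lit 0) (nat_lit 7483009123) (nat_lit 1216) (nat_lit 53211680) (nat_lit 397) (nat_lit 1) (nat_lit 380) (nat_lit 1) (nat_lit 396) (nat_lit 1) (nat_lit 298) (nat_lit 367) (nat_lit 355)) (XT.lf (nat_lit 1368) (nat_lit 3559035682) (nat_lit 0) (nat_lit 366186398) (nat_lit 1292) (nat_lit 3559035682) (nat_lit 381) (nat_lit 1) (nat_lit 363) (nat_lit 1) (nat_lit 380) (nat_lit 1) (nat_lit 299) (nat_lit 367) (nat_lit 354))))) (XT.nd (nat_lit 234) (nat_lit 684) (nat_lit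 0) (XT.nd (nat_lit 78) (nat_lit 0) (nat_lit 76) (XT.lf (nat_lit 1368) (nat_lit 6554478580) (nat_lit 76) (nat_lit 413751673) (nat_lit 0) (nat_lit 413751673) (nat_lit 381) (nat_lit 1) (nat_lit 364) (nat_lit 1) (nat_lit 363) (nat_lit 1) (nat_lit 300) (nat_lit 367) (nat_lit 353)) (XT.nd (nat_lit 78) (nat_lit 0) (nat_lit 0) (XT.lf (nat_lit 1368) (nat_lit 2971202645) (nat_lit 0) (nat_lit 1338389535) (nat_lit 1292) (nat_lit 2971202645) (nat_lit 382) (nat_lit 1) (nat_lit 364) (nat_lit 1) (nat_lit 381) (nat_lit 1) (nat_lit 301) (nat_lit 367) (nat_lit 352)) (XT.lf (nat_lit 1368) (nat_lit 5335037914) (nat_lit 76) (nat_lit 923567416) (nat_lit 0) (nat_lit 923567416) (nat_lit 382) (nat_lit 1) (nat_lit 365) (nat_lit 1) (nat_lit 364) (nat_lit 1) (nat_lit 302) (nat_lit 367) (nat_lit 351)))) (XT.nd (nat_lit 78) (nat_lit 836) (nat_lit 0) (XT.lf (nat_lit 76) (nat_lit 2346269346) (nat_lit 0) (nat_lit 2392345952) (nat_lit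 1292) (nat_lit 2346269346) (nat_lit 366) (nat_lit 1) (nat_lit 365) (nat_lit 1) (nat_lit 382) (nat_lit 1) (nat_lit 303) (nat_lit 367) (nat_lit 350)) (XT.nd (nat_lit 78) (nat_lit 0) (nat_lit 0) (XT.lf (nat_lit 912) (nat_lit 4045298667) (nat_lit 0) (nat_lit 1472224186) (nat_lit 836) (nat_lit 1472224186) (nat_lit 366) (nat_lit 1) (nat_lit 354) (nat_lit 1) (nat_lit 365) (nat_lit 1) (nat_lit 304) (nat_lit 367) (nat_lit 349)) (XT.lf (nat_lit 76) (nat_lit 1688428915) (nat_lit 0) (nat_lit 3519356024) (nat_lit 912) (nat_lit 1688428915) (nat_lit 355) (nat_lit 1) (nat_lit 354) (nat_lit 1) (nat_lit 366) (nat_lit 1) (nat_lit 305) (nat_lit 367) (nat_lit 348))))))) (XT.nd (nat_lit 858) (nat_lit 3268) (nat_lit 0) (XT.nd (nat_lit 390) (nat_lit 1672) (nat_lit 0) (XT.nd (nat_lit 156) (nat_lit 1216) (nat_lit 0) (XT.nd (nat_lit 78) (nat_lit 0) (nat_lit 0) (XT.lf (nat_lit 684) (nat_lit 2693382655) (nat_lit 0) (nat_lit 2055508664)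 (nat_lit 608) (nat_lit 2055508664) (nat_lit 355) (nat_lit 1) (nat_lit 346) (nat_lit 1) (nat_lit 354) (nat_lit 1) (nat_lit 306) (nat_lit 367) (nat_lit 347)) (XT.lf (nat_lit 76) (nat_lit 1001573684) (nat_lit 0) (nat_lit 4711336220) (nat_lit 684) (nat_lit 1001573684) (nat_lit 347) (nat_lit 1) (nat_lit 346) (nat_lit 1) (nat_lit 355) (nat_lit 1) (nat_lit 307) (nat_lit 367) (nat_lit 346))) (XT.nd (nat_lit 78) (nat_lit 608) (nat_lit 0) (XT.lf (nat_lit 684) (nat_lit 1286826451) (nat_lit 0) (nat_lit 2669507169) (nat_lit 608) (nat_lit 2669507169) (nat_lit 347) (nat_lit 1) (nat_lit 338) (nat_lit 1) (nat_lit 346) (nat_lit 1) (nat_lit 308) (nat_lit 367) (nat_lit 345)) (XT.nd (nat_lit 78) (nat_lit 608) (nat_lit 0) (XT.lf (nat_lit 76) (nat_lit 289314196) (nat_lit 0) (nat_lit 5960780335) (nat_lit 684) (nat_lit 289314196) (nat_lit 339) (nat_lit 1) (nat_lit 338) (nat_lit 1) (nat_lit 347) (nat_lit 1) (nat_lit 309) (nat_lit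 367) (nat_lit 344)) (XT.lf (nat_lit 76) (nat_lit 3144814193) (nat_lit 0) (nat_lit 164115341) (nat_lit 608) (nat_lit 3144814193) (nat_lit 331) (nat_lit 1) (nat_lit 330) (nat_lit 1) (nat_lit 338) (nat_lit 1) (nat_lit 310) (nat_lit 367) (nat_lit 343))))) (XT.nd (nat_lit 234) (nat_lit 532) (nat_lit 0) (XT.nd (nat_lit 78) (nat_lit 532) (nat_lit 0) (XT.lf (nat_lit 684) (nat_lit 5488921044) (nat_lit 0) (nat_lit 440640137) (nat_lit 608) (nat_lit 440640137) (nat_lit 331) (nat_lit 1) (nat_lit 322) (nat_lit 1) (nat_lit 330) (nat_lit 1) (nat_lit 311) (nat_lit 367) (nat_lit 342)) (XT.nd (nat_lit 78) (nat_lit 532) (nat_lit 0) (XT.lf (nat_lit 76) (nat_lit 2328594760) (nat_lit 0) (nat_lit 1630319776) (nat_lit 684) (nat_lit 2328594760) (nat_lit 323) (nat_lit 1) (nat_lit 322) (nat_lit 1) (nat_lit 331) (nat_lit 1) (nat_lit 312) (nat_lit 367) (nat_lit 341)) (XT.lf (nat_lit 608) (nat_lit 3833699661) (nat_lit 0) (nat_lit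 1186530290) (nat_lit 532) (nat_lit 1186530290) (nat_lit 323) (nat_lit 1) (nat_lit 315) (nat_lit 1) (nat_lit 322) (nat_lit 1) (nat_lit 313) (nat_lit 367) (nat_lit 340)))) (XT.nd (nat_lit 78) (nat_lit 532) (nat_lit 0) (XT.lf (nat_lit 76) (nat_lit 1498118760) (nat_lit 0) (nat_lit 3131020024) (nat_lit 608) (nat_lit 1498118760) (nat_lit 316) (nat_lit 1) (nat_lit 315) (nat_lit 1) (nat_lit 323) (nat_lit 1) (nat_lit 314) (nat_lit 367) (nat_lit 339)) (XT.nd (nat_lit 78) (nat_lit 0) (nat_lit 0) (XT.lf (nat_lit 608) (nat_lit 2152471205) (nat_lit 0) (nat_lit 1948352594) (nat_lit 532) (nat_lit 1948352594) (nat_lit 316) (nat_lit 1) (nat_lit 308) (nat_lit 1) (nat_lit 315) (nat_lit 1) (nat_lit 315) (nat_lit 367) (nat_lit 338)) (XT.lf (nat_lit 76) (nat_lit 655984506) (nat_lit 0) (nat_lit 4660779712) (nat_lit 608) (nat_lit 655984506) (nat_lit 309) (nat_lit 1) (nat_lit 308) (nat_lit 1) (nat_lit 316) (nat_lit 1) (nat_lit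 316) (nat_lit 367) (nat_lit 337)))))) (XT.nd (nat_lit 390) (nat_lit 1748) (nat_lit 0) (XT.nd (nat_lit 156) (nat_lit 456) (nat_lit 0) (XT.nd (nat_lit 78) (nat_lit 608) (nat_lit 0) (XT.lf (nat_lit 532) (nat_lit 450253547) (nat_lit 0) (nat_lit 2723481333) (nat_lit 456) (nat_lit 2723481333) (nat_lit 309) (nat_lit 1) (nat_lit 302) (nat_lit 1) (nat_lit 308) (nat_lit 1) (nat_lit 317) (nat_lit 367) (nat_lit 336)) (XT.lf (nat_lit 608) (nat_lit 5436537504) (nat_lit 0) (nat_lit 193494891) (nat_lit 532) (nat_lit 193494891) (nat_lit 302) (nat_lit 1) (nat_lit 294) (nat_lit 1) (nat_lit 301) (nat_lit 1) (nat_lit 318) (nat_lit 367) (nat_lit 335))) (XT.nd (nat_lit 78) (nat_lit 456) (nat_lit 0) (XT.lf (nat_lit 76) (nat_lit 2253357127) (nat_lit 0) (nat_lit 1243576546) (nat_lit 608) (nat_lit 2253357127) (nat_lit 295) (nat_lit 1) (nat_lit 294) (nat_lit 1) (nat_lit 302) (nat_lit 1) (nat_lit 319) (nat_lit 367) (nat_lit 334))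 (XT.nd (nat_lit 78) (nat_lit 0) (nat_lit 0) (XT.lf (nat_lit 532) (nat_lit 3591781307) (nat_lit 0) (nat_lit 1043525501) (nat_lit 456) (nat_lit 1043525501) (nat_lit 295) (nat_lit 1) (nat_lit 288) (nat_lit 1) (nat_lit 294) (nat_lit 1) (nat_lit 320) (nat_lit 367) (nat_lit 333)) (XT.lf (nat_lit 76) (nat_lit 1333967350) (nat_lit 0) (nat_lit 2940484641) (nat_lit 532) (nat_lit 1333967350) (nat_lit 289) (nat_lit 1) (nat_lit 288) (nat_lit 1) (nat_lit 295) (nat_lit 1) (nat_lit 321) (nat_lit 367) (nat_lit 332))))) (XT.nd (nat_lit 234) (nat_lit 836) (nat_lit 0) (XT.nd (nat_lit 78) (nat_lit 456) (nat_lit 0) (XT.lf (nat_lit 532) (nat_lit 1742167968) (nat_lit 0) (nat_lit 1898524805) (nat_lit 456) (nat_lit 1898524805) (nat_lit 289) (nat_lit 1) (nat_lit 282) (nat_lit 1) (nat_lit 288) (nat_lit 1) (nat_lit 322) (nat_lit 367) (nat_lit 331)) (XT.nd (nat_lit 78) (nat_lit 456) (nat_lit 0) (XT.lf (nat_lit 76) (nat_lit 413058063)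 (nat_lit 0) (nat_lit 4645412871) (nat_lit 532) (nat_lit 413058063) (nat_lit 283) (nat_lit 1) (nat_lit 282) (nat_lit 1) (nat_lit 289) (nat_lit 1) (nat_lit 323) (nat_lit 367) (nat_lit 330)) (XT.lf (nat_lit 76) (nat_lit 2648889617) (nat_lit 0) (nat_lit 106674816) (nat_lit 456) (nat_lit 2648889617) (nat_lit 277) (nat_lit 1) (nat_lit 276) (nat_lit 1) (nat_lit 282) (nat_lit 1) (nat_lit 324) (nat_lit 367) (nat_lit 329)))) (XT.nd (nat_lit 78) (nat_lit 380) (nat_lit 0) (XT.lf (nat_lit 532) (nat_lit 4333388173) (nat_lit 0) (nat_lit 502724592) (nat_lit 456) (nat_lit 502724592) (nat_lit 277) (nat_lit 1) (nat_lit 270) (nat_lit 1) (nat_lit 276) (nat_lit 1) (nat_lit 325) (nat_lit 367) (nat_lit 328)) (XT.nd (nat_lit 78) (nat_lit 380) (nat_lit 0) (XT.lf (nat_lit 76) (nat_lit 1677090669) (nat_lit 0) (nat_lit 1919700836) (nat_lit 532) (nat_lit 1677090669) (nat_lit 271) (nat_lit 1) (nat_lit 270) (nat_lit 1) (nat_lit 277)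 (nat_lit 1) (nat_lit 326) (nat_lit 367) (nat_lit 327)) (XT.lf (nat_lit 456) (nat_lit 2384674493) (nat_lit 0) (nat_lit 1412798111) (nat_lit 380) (nat_lit 1412798111) (nat_lit 271) (nat_lit 1) (nat_lit 265) (nat_lit 1) (nat_lit 270) (nat_lit 1) (nat_lit 327) (nat_lit 367) (nat_lit 326))))))))
noncomputable def ec63 : XT := (XT.nd (nat_lit 1716) (nat_lit 3344) (nat_lit 0) (XT.nd (nat_lit 858) (nat_lit 2204) (nat_lit 0) (XT.nd (nat_lit 390) (nat_lit 1064) (nat_lit 0) (XT.nd (nat_lit 156) (nat_lit 836) (nat_lit 0) (XT.nd (nat_lit 78) (nat_lit 380) (nat_lit 0) (XT.lf (nat_lit 76) (nat_lit 709897537) (nat_lit 0) (nat_lit 3728029256) (nat_lit 456) (nat_lit 709897537) (nat_lit 266) (nat_lit 1) (nat_lit 265) (nat_lit 1) (nat_lit 271) (nat_lit 1) (nat_lit 328) (nat_lit 367) (nat_lit 325)) (XT.lf (nat_lit 456) (nat_lit 446469632) (nat_lit 0) (nat_lit 2319831298) (nat_lit 380) (nat_lit 2319831298) (nat_lit 266) (nat_lit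 1) (nat_lit 260) (nat_lit 1) (nat_lit 265) (nat_lit 1) (nat_lit 329) (nat_lit 367) (nat_lit 324))) (XT.nd (nat_lit 78) (nat_lit 380) (nat_lit 0) (XT.lf (nat_lit 456) (nat_lit 4527820341) (nat_lit 0) (nat_lit 248998179) (nat_lit 380) (nat_lit 248998179) (nat_lit 260) (nat_lit 1) (nat_lit 254) (nat_lit 1) (nat_lit 259) (nat_lit 1) (nat_lit 330) (nat_lit 367) (nat_lit 323)) (XT.nd (nat_lit 78) (nat_lit 380) (nat_lit 0) (XT.lf (nat_lit 76) (nat_lit 1757903936) (nat_lit 0) (nat_lit 1450019335) (nat_lit 456) (nat_lit 1757903936) (nat_lit 255) (nat_lit 1) (nat_lit 254) (nat_lit 1) (nat_lit 260) (nat_lit 1) (nat_lit 331) (nat_lit 367) (nat_lit 322)) (XT.lf (nat_lit 456) (nat_lit 2519055620) (nat_lit 0) (nat_lit 1194057653) (nat_lit 380) (nat_lit 1194057653) (nat_lit 255) (nat_lit 1) (nat_lit 249) (nat_lit 1) (nat_lit 254) (nat_lit 1) (nat_lit 332) (nat_lit 367) (nat_lit 321))))) (XT.nd (nat_lit 234) (nat_lit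 304) (nat_lit 0) (XT.nd (nat_lit 78) (nat_lit 760) (nat_lit 0) (XT.lf (nat_lit 76) (nat_lit 763196921) (nat_lit 0) (nat_lit 3323102800) (nat_lit 456) (nat_lit 763196921) (nat_lit 250) (nat_lit 1) (nat_lit 249) (nat_lit 1) (nat_lit 255) (nat_lit 1) (nat_lit 333) (nat_lit 367) (nat_lit 320)) (XT.nd (nat_lit 78) (nat_lit 456) (nat_lit 0) (XT.lf (nat_lit 380) (nat_lit 530065103) (nat_lit 0) (nat_lit 2131244085) (nat_lit 304) (nat_lit 2131244085) (nat_lit 250) (nat_lit 1) (nat_lit 245) (nat_lit 1) (nat_lit 249) (nat_lit 1) (nat_lit 334) (nat_lit 367) (nat_lit 319)) (XT.lf (nat_lit 456) (nat_lit 4298704733) (nat_lit 0) (nat_lit 219077179) (nat_lit 380) (nat_lit 219077179) (nat_lit 245) (nat_lit 1) (nat_lit 239) (nat_lit 1) (nat_lit 244) (nat_lit 1) (nat_lit 335) (nat_lit 367) (nat_lit 318)))) (XT.nd (nat_lit 78) (nat_lit 304) (nat_lit 0) (XT.lf (nat_lit 76) (nat_lit 1635973095) (nat_lit 0) (nat_lit 1409452821)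 (nat_lit 456) (nat_lit 1635973095) (nat_lit 240) (nat_lit 1) (nat_lit 239) (nat_lit 1) (nat_lit 245) (nat_lit 1) (nat_lit 336) (nat_lit 367) (nat_lit 317)) (XT.nd (nat_lit 78) (nat_lit 0) (nat_lit 0) (XT.lf (nat_lit 380) (nat_lit 2261275069) (nat_lit 0) (nat_lit 1182938365) (nat_lit 304) (nat_lit 1182938365) (nat_lit 240) (nat_lit 1) (nat_lit 235) (nat_lit 1) (nat_lit 239) (nat_lit 1) (nat_lit 337) (nat_lit 367) (nat_lit 316)) (XT.lf (nat_lit 76) (nat_lit 628826055) (nat_lit 0) (nat_lit 3316180393) (nat_lit 380) (nat_lit 628826055) (nat_lit 236) (nat_lit 1) (nat_lit 235) (nat_lit 1) (nat_lit 240) (nat_lit 1) (nat_lit 338) (nat_lit 367) (nat_lit 315)))))) (XT.nd (nat_lit 390) (nat_lit 1216) (nat_lit 0) (XT.nd (nat_lit 156) (nat_lit 304) (nat_lit 0) (XT.nd (nat_lit 78) (nat_lit 380) (nat_lit 0) (XT.lf (nat_lit 380) (nat_lit 250749315) (nat_lit 0) (nat_lit 2135184970) (nat_lit 304) (nat_lit 2135184970)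 (nat_lit 236) (nat_lit 1) (nat_lit 231) (nat_lit 1) (nat_lit 235) (nat_lit 1) (nat_lit 339) (nat_lit 367) (nat_lit 314)) (XT.lf (nat_lit 380) (nat_lit 3747287486) (nat_lit 0) (nat_lit 361079396) (nat_lit 304) (nat_lit 361079396) (nat_lit 231) (nat_lit 1) (nat_lit 226) (nat_lit 1) (nat_lit 230) (nat_lit 1) (nat_lit 340) (nat_lit 367) (nat_lit 313))) (XT.nd (nat_lit 78) (nat_lit 304) (nat_lit 0) (XT.lf (nat_lit 76) (nat_lit 1360063506) (nat_lit 0) (nat_lit 1698000484) (nat_lit 380) (nat_lit 1360063506) (nat_lit 227) (nat_lit 1) (nat_lit 226) (nat_lit 1) (nat_lit 231) (nat_lit 1) (nat_lit 341) (nat_lit 367) (nat_lit 312)) (XT.nd (nat_lit 78) (nat_lit 0) (nat_lit 0) (XT.lf (nat_lit 380) (nat_lit 1706236772) (nat_lit 0) (nat_lit 1330790900) (nat_lit 304) (nat_lit 1330790900) (nat_lit 227) (nat_lit 1) (nat_lit 222) (nat_lit 1) (nat_lit 226) (nat_lit 1) (nat_lit 342) (nat_lit 367) (nat_lit 311)) (XT.lf (nat_lit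 76) (nat_lit 352491940) (nat_lit 0) (nat_lit 3613499033) (nat_lit 380) (nat_lit 352491940) (nat_lit 223) (nat_lit 1) (nat_lit 222) (nat_lit 1) (nat_lit 227) (nat_lit 1) (nat_lit 343) (nat_lit 367) (nat_lit 310))))) (XT.nd (nat_lit 234) (nat_lit 608) (nat_lit 0) (XT.nd (nat_lit 78) (nat_lit 304) (nat_lit 0) (XT.lf (nat_lit 76) (nat_lit 1986417937) (nat_lit 0) (nat_lit 296629260) (nat_lit 304) (nat_lit 1986417937) (nat_lit 219) (nat_lit 1) (nat_lit 218) (nat_lit 1) (nat_lit 222) (nat_lit 1) (nat_lit 344) (nat_lit 367) (nat_lit 309)) (XT.nd (nat_lit 78) (nat_lit 0) (nat_lit 0) (XT.lf (nat_lit 380) (nat_lit 2956211266) (nat_lit 0) (nat_lit 632591166) (nat_lit 304) (nat_lit 632591166) (nat_lit 219) (nat_lit 1) (nat_lit 214) (nat_lit 1) (nat_lit 218) (nat_lit 1) (nat_lit 345) (nat_lit 367) (nat_lit 308)) (XT.lf (nat_lit 76) (nat_lit 969963832) (nat_lit 0) (nat_lit 2233942034) (nat_lit 380) (nat_lit 969963832)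 (nat_lit 215) (nat_lit 1) (nat_lit 214) (nat_lit 1) (nat_lit 219) (nat_lit 1) (nat_lit 346) (nat_lit 367) (nat_lit 307)))) (XT.nd (nat_lit 78) (nat_lit 380) (nat_lit 0) (XT.lf (nat_lit 304) (nat_lit 931343164) (nat_lit 0) (nat_lit 1597874460) (nat_lit 228) (nat_lit 1597874460) (nat_lit 215) (nat_lit 1) (nat_lit 211) (nat_lit 1) (nat_lit 214) (nat_lit 1) (nat_lit 347) (nat_lit 367) (nat_lit 306)) (XT.nd (nat_lit 78) (nat_lit 0) (nat_lit 0) (XT.lf (nat_lit 380) (nat_lit 4024848618) (nat_lit 0) (nat_lit 28263318) (nat_lit 304) (nat_lit 28263318) (nat_lit 211) (nat_lit 1) (nat_lit 206) (nat_lit 1) (nat_lit 210) (nat_lit 1) (nat_lit 348) (nat_lit 367) (nat_lit 305)) (XT.lf (nat_lit 76) (nat_lit 1499450116) (nat_lit 0) (nat_lit 1036668316) (nat_lit 380) (nat_lit 1499450116) (nat_lit 207) (nat_lit 1) (nat_lit 206) (nat_lit 1) (nat_lit 211) (nat_lit 1) (nat_lit 349) (nat_lit 367) (nat_lit 304))))))) (XT.nd (nat_lit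 858) (nat_lit 1596) (nat_lit 0) (XT.nd (nat_lit 390) (nat_lit 988) (nat_lit 0) (XT.nd (nat_lit 156) (nat_lit 532) (nat_lit 0) (XT.nd (nat_lit 78) (nat_lit 0) (nat_lit 0) (XT.lf (nat_lit 304) (nat_lit 1992670423) (nat_lit 0) (nat_lit 999064786) (nat_lit 228) (nat_lit 999064786) (nat_lit 207) (nat_lit 1) (nat_lit 203) (nat_lit 1) (nat_lit 206) (nat_lit 1) (nat_lit 350) (nat_lit 367) (nat_lit 303)) (XT.lf (nat_lit 76) (nat_lit 498009434) (nat_lit 0) (nat_lit 2950741870) (nat_lit 304) (nat_lit 498009434) (nat_lit 204) (nat_lit 1) (nat_lit 203) (nat_lit 1) (nat_lit 207) (nat_lit 1) (nat_lit 351) (nat_lit 367) (nat_lit 302))) (XT.nd (nat_lit 78) (nat_lit 228) (nat_lit 0) (XT.lf (nat_lit 76) (nat_lit 1951319497) (nat_lit 0) (nat_lit 522443) (nat_lit 304) (nat_lit 1951319497) (nat_lit 200) (nat_lit 1) (nat_lit 199) (nat_lit 1) (nat_lit 203) (nat_lit 1) (nat_lit 352) (nat_lit 367) (nat_lit 301)) (XT.nd (nat_lit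 78) (nat_lit 0) (nat_lit 0) (XT.lf (nat_lit 304) (nat_lit 2901708546) (nat_lit 0) (nat_lit 479281388) (nat_lit 228) (nat_lit 479281388) (nat_lit 200) (nat_lit 1) (nat_lit 196) (nat_lit 1) (nat_lit 199) (nat_lit 1) (nat_lit 353) (nat_lit 367) (nat_lit 300)) (XT.lf (nat_lit 76) (nat_lit 950600813) (nat_lit 0) (nat_lit 1916592021) (nat_lit 304) (nat_lit 950600813) (nat_lit 197) (nat_lit 1) (nat_lit 196) (nat_lit 1) (nat_lit 200) (nat_lit 1) (nat_lit 354) (nat_lit 367) (nat_lit 299))))) (XT.nd (nat_lit 234) (nat_lit 456) (nat_lit 0) (XT.nd (nat_lit 78) (nat_lit 304) (nat_lit 0) (XT.lf (nat_lit 304) (nat_lit 911045565) (nat_lit 0) (nat_lit 1432480167) (nat_lit 228) (nat_lit 1432480167) (nat_lit 197) (nat_lit 1) (nat_lit 193) (nat_lit 1) (nat_lit 196) (nat_lit 1) (nat_lit 355) (nat_lit 367) (nat_lit 298)) (XT.nd (nat_lit 78) (nat_lit 0) (nat_lit 0) (XT.lf (nat_lit 304) (nat_lit 3676428212) (nat_lit 0) (nat_lit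 29354982) (nat_lit 228) (nat_lit 29354982) (nat_lit 193) (nat_lit 1) (nat_lit 189) (nat_lit 1) (nat_lit 192) (nat_lit 1) (nat_lit 356) (nat_lit 367) (nat_lit 297)) (XT.lf (nat_lit 76) (nat_lit 1337922607) (nat_lit 0) (nat_lit 1018300283) (nat_lit 304) (nat_lit 1337922607) (nat_lit 190) (nat_lit 1) (nat_lit 189) (nat_lit 1) (nat_lit 193) (nat_lit 1) (nat_lit 357) (nat_lit 367) (nat_lit 296)))) (XT.nd (nat_lit 78) (nat_lit 228) (nat_lit 0) (XT.lf (nat_lit 304) (nat_lit 1694422076) (nat_lit 0) (nat_lit 979816964) (nat_lit 228) (nat_lit 979816964) (nat_lit 190) (nat_lit 1) (nat_lit 186) (nat_lit 1) (nat_lit 189) (nat_lit 1) (nat_lit 358) (nat_lit 367) (nat_lit 295)) (XT.nd (nat_lit 78) (nat_lit 228) (nat_lit 0) (XT.lf (nat_lit 76) (nat_lit 362403810) (nat_lit 0) (nat_lit 2889837911) (nat_lit 304) (nat_lit 362403810) (nat_lit 187) (nat_lit 1) (nat_lit 186) (nat_lit 1) (nat_lit 190) (nat_lit 1) (nat_lit 359)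 (nat_lit 367) (nat_lit 294)) (XT.lf (nat_lit 76) (nat_lit 1667684284) (nat_lit 0) (nat_lit 240118550) (nat_lit 228) (nat_lit 1667684284) (nat_lit 184) (nat_lit 1) (nat_lit 183) (nat_lit 1) (nat_lit 186) (nat_lit 1) (nat_lit 360) (nat_lit 367) (nat_lit 293)))))) (XT.nd (nat_lit 468) (nat_lit 760) (nat_lit 0) (XT.nd (nat_lit 234) (nat_lit 456) (nat_lit 0) (XT.nd (nat_lit 78) (nat_lit 152) (nat_lit 0) (XT.lf (nat_lit 304) (nat_lit 2364666138) (nat_lit 0) (nat_lit 586163312) (nat_lit 228) (nat_lit 586163312) (nat_lit 184) (nat_lit 1) (nat_lit 180) (nat_lit 1) (nat_lit 183) (nat_lit 1) (nat_lit 361) (nat_lit 367) (nat_lit 292)) (XT.nd (nat_lit 78) (nat_lit 152) (nat_lit 0) (XT.lf (nat_lit 76) (nat_lit 699412028) (nat_lit 0) (nat_lit 2100113627) (nat_lit 304) (nat_lit 699412028) (nat_lit 181) (nat_lit 1) (nat_lit 180) (nat_lit 1) (nat_lit 184) (nat_lit 1) (nat_lit 362) (nat_lit 367) (nat_lit 291)) (XT.lf (nat_lit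 228) (nat_lit 440523950) (nat_lit 0) (nat_lit 1510433683) (nat_lit 152) (nat_lit 1510433683) (nat_lit 181) (nat_lit 1) (nat_lit 178) (nat_lit 1) (nat_lit 180) (nat_lit 1) (nat_lit 363) (nat_lit 367) (nat_lit 290)))) (XT.nd (nat_lit 78) (nat_lit 152) (nat_lit 0) (XT.lf (nat_lit 304) (nat_lit 2935144236) (nat_lit 0) (nat_lit 244690385) (nat_lit 228) (nat_lit 244690385) (nat_lit 178) (nat_lit 1) (nat_lit 174) (nat_lit 1) (nat_lit 177) (nat_lit 1) (nat_lit 364) (nat_lit 367) (nat_lit 289)) (XT.nd (nat_lit 78) (nat_lit 152) (nat_lit 0) (XT.lf (nat_lit 76) (nat_lit 987846623) (nat_lit 0) (nat_lit 1412069458) (nat_lit 304) (nat_lit 987846623) (nat_lit 175) (nat_lit 1) (nat_lit 174) (nat_lit 1) (nat_lit 178) (nat_lit 1) (nat_lit 365) (nat_lit 367) (nat_lit 288)) (XT.lf (nat_lit 228) (nat_lit 1030343612) (nat_lit 0) (nat_lit 1160662158) (nat_lit 152) (nat_lit 1160662158) (nat_lit 175) (nat_lit 1) (nat_lit 172)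 (nat_lit 1) (nat_lit 174) (nat_lit 1) (nat_lit 366) (nat_lit 367) (nat_lit 287))))) (XT.nd (nat_lit 234) (nat_lit 380) (nat_lit 0) (XT.nd (nat_lit 78) (nat_lit 380) (nat_lit 0) (XT.lf (nat_lit 76) (nat_lit 51163505) (nat_lit 0) (nat_lit 3214000319) (nat_lit 228) (nat_lit 51163505) (nat_lit 173) (nat_lit 1) (nat_lit 172) (nat_lit 1) (nat_lit 175) (nat_lit 1) (nat_lit 367) (nat_lit 367) (nat_lit 286)) (XT.nd (nat_lit 78) (nat_lit 152) (nat_lit 0) (XT.lf (nat_lit 76) (nat_lit 1233444361) (nat_lit 0) (nat_lit 813970183) (nat_lit 228) (nat_lit 1233444361) (nat_lit 170) (nat_lit 1) (nat_lit 169) (nat_lit 1) (nat_lit 172) (nat_lit 1) (nat_lit 368) (nat_lit 367) (nat_lit 285)) (XT.lf (nat_lit 228) (nat_lit 1535780728) (nat_lit 0) (nat_lit 855176396) (nat_lit 152) (nat_lit 855176396) (nat_lit 170) (nat_lit 1) (nat_lit 167) (nat_lit 1) (nat_lit 169) (nat_lit 1) (nat_lit 369) (nat_lit 367) (nat_lit 284)))) (XT.nd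 (nat_lit 78) (nat_lit 380) (nat_lit 0) (XT.lf (nat_lit 76) (nat_lit 308293317) (nat_lit 0) (nat_lit 2595390036) (nat_lit 228) (nat_lit 308293317) (nat_lit 168) (nat_lit 1) (nat_lit 167) (nat_lit 1) (nat_lit 170) (nat_lit 1) (nat_lit 370) (nat_lit 367) (nat_lit 283)) (XT.nd (nat_lit 78) (nat_lit 152) (nat_lit 0) (XT.lf (nat_lit 76) (nat_lit 1441292961) (nat_lit 0) (nat_lit 295400759) (nat_lit 228) (nat_lit 1441292961) (nat_lit 165) (nat_lit 1) (nat_lit 164) (nat_lit 1) (nat_lit 167) (nat_lit 1) (nat_lit 371) (nat_lit 367) (nat_lit 282)) (XT.lf (nat_lit 228) (nat_lit 1966787086) (nat_lit 0) (nat_lit 588884124) (nat_lit 152) (nat_lit 588884124) (nat_lit 165) (nat_lit 1) (nat_lit 162) (nat_lit 1) (nat_lit 164) (nat_lit 1) (nat_lit 372) (nat_lit 367) (nat_lit 281))))))))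
noncomputable def ec64 : XT := (XT.nd (nat_lit 46800) (nat_lit 0) (nat_lit 12616) (XT.nd (nat_lit 858) (nat_lit 304) (nat_lit 0) (XT.nd (nat_lit 390) (nat_lit 684) (nat_lit 0) (XT.nd (nat_lit 156) (nat_lit 380) (nat_lit 0) (XT.nd (nat_lit 78) (nat_lit 152) (nat_lit 0) (XT.lf (nat_lit 76) (nat_lit 529094431) (nat_lit 0) (nat_lit 2053341675) (nat_lit 228) (nat_lit 529094431) (nat_lit 163) (nat_lit 1) (nat_lit 162) (nat_lit 1) (nat_lit 165) (nat_lit 1) (nat_lit 373) (nat_lit 367) (nat_lit 280)) (XT.lf (nat_lit 228) (nat_lit 155923863) (nat_lit 0) (nat_lit 1461478715) (nat_lit 152) (nat_lit 1461478715) (nat_lit 163) (nat_lit 1) (nat_lit 160) (nat_lit 1) (nat_lit 162) (nat_lit 1) (nat_lit 374) (nat_lit 367) (nat_lit 279))) (XT.nd (nat_lit 78) (nat_lit 152) (nat_lit 0) (XT.lf (nat_lit 228) (nat_lit 2332188930) (nat_lit 0) (nat_lit 357265405) (nat_lit 152) (nat_lit 357265405) (nat_lit 160) (nat_lit 1) (nat_lit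 157) (nat_lit 1) (nat_lit 159) (nat_lit 1) (nat_lit 375) (nat_lit 367) (nat_lit 278)) (XT.nd (nat_lit 78) (nat_lit 152) (nat_lit 0) (XT.lf (nat_lit 76) (nat_lit 717840938) (nat_lit 0) (nat_lit 1579096846) (nat_lit 228) (nat_lit 717840938) (nat_lit 158) (nat_lit 1) (nat_lit 157) (nat_lit 1) (nat_lit 160) (nat_lit 1) (nat_lit 376) (nat_lit 367) (nat_lit 277)) (XT.lf (nat_lit 228) (nat_lit 549805338) (nat_lit 0) (nat_lit 1216755888) (nat_lit 152) (nat_lit 1216755888) (nat_lit 158) (nat_lit 1) (nat_lit 155) (nat_lit 1) (nat_lit 157) (nat_lit 1) (nat_lit 377) (nat_lit 367) (nat_lit 276))))) (XT.nd (nat_lit 234) (nat_lit 304) (nat_lit 0) (XT.nd (nat_lit 78) (nat_lit 152) (nat_lit 0) (XT.lf (nat_lit 228) (nat_lit 2639812937) (nat_lit 0) (nat_lit 156308683) (nat_lit 152) (nat_lit 156308683) (nat_lit 155) (nat_lit 1) (nat_lit 152) (nat_lit 1) (nat_lit 154) (nat_lit 1) (nat_lit 378) (nat_lit 367) (nat_lit 275))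 (XT.nd (nat_lit 78) (nat_lit 152) (nat_lit 0) (XT.lf (nat_lit 76) (nat_lit 878323822) (nat_lit 0) (nat_lit 1164880263) (nat_lit 228) (nat_lit 878323822) (nat_lit 153) (nat_lit 1) (nat_lit 152) (nat_lit 1) (nat_lit 155) (nat_lit 1) (nat_lit 379) (nat_lit 367) (nat_lit 274)) (XT.lf (nat_lit 228) (nat_lit 887785218) (nat_lit 0) (nat_lit 1001703866) (nat_lit 152) (nat_lit 1001703866) (nat_lit 153) (nat_lit 1) (nat_lit 150) (nat_lit 1) (nat_lit 152) (nat_lit 1) (nat_lit 380) (nat_lit 367) (nat_lit 273)))) (XT.nd (nat_lit 78) (nat_lit 304) (nat_lit 0) (XT.lf (nat_lit 76) (nat_lit 17719756) (nat_lit 0) (nat_lit 2826046004) (nat_lit 228) (nat_lit 17719756) (nat_lit 151) (nat_lit 1) (nat_lit 150) (nat_lit 1) (nat_lit 153) (nat_lit 1) (nat_lit 381) (nat_lit 367) (nat_lit 272)) (XT.nd (nat_lit 78) (nat_lit 152) (nat_lit 0) (XT.lf (nat_lit 76) (nat_lit 1013905015) (nat_lit 0) (nat_lit 803789927) (nat_lit 152) (nat_lit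 1013905015) (nat_lit 149) (nat_lit 1) (nat_lit 148) (nat_lit 1) (nat_lit 150) (nat_lit 1) (nat_lit 382) (nat_lit 367) (nat_lit 271)) (XT.lf (nat_lit 228) (nat_lit 1176446150) (nat_lit 0) (nat_lit 812944618) (nat_lit 152) (nat_lit 812944618) (nat_lit 149) (nat_lit 1) (nat_lit 146) (nat_lit 1) (nat_lit 148) (nat_lit 1) (nat_lit 383) (nat_lit 367) (nat_lit 270)))))) (XT.nd (nat_lit 45474) (nat_lit 0) (nat_lit 17708) (XT.nd (nat_lit 156) (nat_lit 152) (nat_lit 0) (XT.nd (nat_lit 78) (nat_lit 152) (nat_lit 0) (XT.lf (nat_lit 76) (nat_lit 169115646) (nat_lit 0) (nat_lit 2435352625) (nat_lit 228) (nat_lit 169115646) (nat_lit 147) (nat_lit 1) (nat_lit 146) (nat_lit 1) (nat_lit 149) (nat_lit 1) (nat_lit 384) (nat_lit 367) (nat_lit 269)) (XT.lf (nat_lit 76) (nat_lit 1127565431) (nat_lit 0) (nat_lit 489699562) (nat_lit 152) (nat_lit 1127565431) (nat_lit 145) (nat_lit 1) (nat_lit 144) (nat_lit 1) (nat_lit 146) (nat_lit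 1) (nat_lit 385) (nat_lit 367) (nat_lit 268))) (XT.nd (nat_lit 45162) (nat_lit 0) (nat_lit 17632) (XT.lf (nat_lit 228) (nat_lit 1421626567) (nat_lit 0) (nat_lit 647478829) (nat_lit 152) (nat_lit 647478829) (nat_lit 145) (nat_lit 1) (nat_lit 142) (nat_lit 1) (nat_lit 144) (nat_lit 1) (nat_lit 386) (nat_lit 367) (nat_lit 267)) (XT.nd (nat_lit 78) (nat_lit 0) (nat_lit 0) (XT.lf (nat_lit 1292) (nat_lit 853310263) (nat_lit 0) (nat_lit 2935784153) (nat_lit 1292) (nat_lit 853310263) (nat_lit 391) (nat_lit 1) (nat_lit 374) (nat_lit 0) (nat_lit 391) (nat_lit 0) (nat_lit 284) (nat_lit 368) (nat_lit 368)) (XT.lf (nat_lit 1292) (nat_lit 3334751460) (nat_lit 76) (nat_lit 2907001955) (nat_lit 0) (nat_lit 2907001955) (nat_lit 391) (nat_lit 1) (nat_lit 375) (nat_lit 1) (nat_lit 374) (nat_lit 0) (nat_lit 285) (nat_lit 368) (nat_lit 367))))) (XT.nd (nat_lit 234) (nat_lit 0) (nat_lit 76) (XT.nd (nat_lit 78) (nat_lit 0)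 (nat_lit 0) (XT.lf (nat_lit 1292) (nat_lit 1612765316) (nat_lit 0) (nat_lit 5790171820) (nat_lit 1216) (nat_lit 1612765316) (nat_lit 392) (nat_lit 1) (nat_lit 375) (nat_lit 1) (nat_lit 391) (nat_lit 1) (nat_lit 286) (nat_lit 368) (nat_lit 366)) (XT.nd (nat_lit 78) (nat_lit 0) (nat_lit 76) (XT.lf (nat_lit 1292) (nat_lit 3062724603) (nat_lit 76) (nat_lit 2911073434) (nat_lit 0) (nat_lit 2911073434) (nat_lit 392) (nat_lit 1) (nat_lit 376) (nat_lit 1) (nat_lit 375) (nat_lit 1) (nat_lit 287) (nat_lit 368) (nat_lit 365)) (XT.lf (nat_lit 1292) (nat_lit 1437168245) (nat_lit 0) (nat_lit 5882631386) (nat_lit 1216) (nat_lit 1437168245) (nat_lit 393) (nat_lit 1) (nat_lit 376) (nat_lit 1) (nat_lit 392) (nat_lit 1) (nat_lit 288) (nat_lit 368) (nat_lit 364)))) (XT.nd (nat_lit 78) (nat_lit 0) (nat_lit 76) (XT.lf (nat_lit 1292) (nat_lit 2633762554) (nat_lit 76) (nat_lit 2998673642) (nat_lit 0) (nat_lit 2998673642) (nat_lit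 393) (nat_lit 1) (nat_lit 377) (nat_lit 1) (nat_lit 376) (nat_lit 1) (nat_lit 289) (nat_lit 368) (nat_lit 363)) (XT.nd (nat_lit 78) (nat_lit 0) (nat_lit 0) (XT.lf (nat_lit 1292) (nat_lit 1187059384) (nat_lit 0) (nat_lit 6134039279) (nat_lit 1216) (nat_lit 1187059384) (nat_lit 394) (nat_lit 1) (nat_lit 377) (nat_lit 1) (nat_lit 393) (nat_lit 1) (nat_lit 290) (nat_lit 368) (nat_lit 362)) (XT.lf (nat_lit 1292) (nat_lit 2061899783) (nat_lit 76) (nat_lit 3162568006) (nat_lit 0) (nat_lit 3162568006) (nat_lit 394) (nat_lit 1) (nat_lit 378) (nat_lit 1) (nat_lit 377) (nat_lit 1) (nat_lit 291) (nat_lit 368) (nat_lit 361))))))) (XT.nd (nat_lit 858) (nat_lit 3496) (nat_lit 0) (XT.nd (nat_lit 390) (nat_lit 1824) (nat_lit 0) (XT.nd (nat_lit 156) (nat_lit 0) (nat_lit 76) (XT.nd (nat_lit 78) (nat_lit 0) (nat_lit 0) (XT.lf (nat_lit 1292) (nat_lit 869179853) (nat_lit 0) (nat_lit 6530487063) (nat_lit 1216) (nat_lit 869179853)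 (nat_lit 395) (nat_lit 1) (nat_lit 378) (nat_lit 1) (nat_lit 394) (nat_lit 1) (nat_lit 292) (nat_lit 368) (nat_lit 360)) (XT.lf (nat_lit 1292) (nat_lit 1360218742) (nat_lit 76) (nat_lit 3396008305) (nat_lit 0) (nat_lit 3396008305) (nat_lit 395) (nat_lit 1) (nat_lit 379) (nat_lit 1) (nat_lit 378) (nat_lit 1) (nat_lit 293) (nat_lit 368) (nat_lit 359))) (XT.nd (nat_lit 78) (nat_lit 0) (nat_lit 0) (XT.lf (nat_lit 1292) (nat_lit 489812040) (nat_lit 0) (nat_lit 7059004047) (nat_lit 1216) (nat_lit 489812040) (nat_lit 396) (nat_lit 1) (nat_lit 379) (nat_lit 1) (nat_lit 395) (nat_lit 1) (nat_lit 294) (nat_lit 368) (nat_lit 358)) (XT.nd (nat_lit 78) (nat_lit 0) (nat_lit 76) (XT.lf (nat_lit 1292) (nat_lit 540908780) (nat_lit 76) (nat_lit 3692702683) (nat_lit 0) (nat_lit 3692702683) (nat_lit 396) (nat_lit 1) (nat_lit 380) (nat_lit 1) (nat_lit 379) (nat_lit 1) (nat_lit 295) (nat_lit 368) (nat_lit 357)) (XT.lf (nat_lit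 1292) (nat_lit 54808030) (nat_lit 0) (nat_lit 7707499397) (nat_lit 1216) (nat_lit 54808030) (nat_lit 397) (nat_lit 1) (nat_lit 380) (nat_lit 1) (nat_lit 396) (nat_lit 1) (nat_lit 296) (nat_lit 368) (nat_lit 356))))) (XT.nd (nat_lit 234) (nat_lit 684) (nat_lit 0) (XT.nd (nat_lit 78) (nat_lit 0) (nat_lit 0) (XT.lf (nat_lit 1368) (nat_lit 3665806752) (nat_lit 0) (nat_lit 377171990) (nat_lit 1292) (nat_lit 3665806752) (nat_lit 381) (nat_lit 1) (nat_lit 363) (nat_lit 1) (nat_lit 380) (nat_lit 1) (nat_lit 297) (nat_lit 368) (nat_lit 355)) (XT.nd (nat_lit 78) (nat_lit 0) (nat_lit 76) (XT.lf (nat_lit 1368) (nat_lit 6751112937) (nat_lit 76) (nat_lit 426164223) (nat_lit 0) (nat_lit 426164223) (nat_lit 381) (nat_lit 1) (nat_lit 364) (nat_lit 1) (nat_lit 363) (nat_lit 1) (nat_lit 298) (nat_lit 368) (nat_lit 354)) (XT.lf (nat_lit 1368) (nat_lit 3060338725) (nat_lit 0) (nat_lit 1378541221) (nat_lit 1292) (nat_lit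 3060338725) (nat_lit 382) (nat_lit 1) (nat_lit 364) (nat_lit 1) (nat_lit 381) (nat_lit 1) (nat_lit 299) (nat_lit 368) (nat_lit 353)))) (XT.nd (nat_lit 78) (nat_lit 760) (nat_lit 0) (XT.lf (nat_lit 1368) (nat_lit 5495089052) (nat_lit 76) (nat_lit 951274438) (nat_lit 0) (nat_lit 951274438) (nat_lit 382) (nat_lit 1) (nat_lit 365) (nat_lit 1) (nat_lit 364) (nat_lit 1) (nat_lit 300) (nat_lit 368) (nat_lit 352)) (XT.nd (nat_lit 78) (nat_lit 836) (nat_lit 0) (XT.lf (nat_lit 76) (nat_lit 2416657426) (nat_lit 0) (nat_lit 2464116331) (nat_lit 1292) (nat_lit 2416657426) (nat_lit 366) (nat_lit 1) (nat_lit 365) (nat_lit 1) (nat_lit 382) (nat_lit 1) (nat_lit 301) (nat_lit 368) (nat_lit 351)) (XT.lf (nat_lit 912) (nat_lit 4166657627) (nat_lit 0) (nat_lit 1516390911) (nat_lit 836) (nat_lit 1516390911) (nat_lit 366) (nat_lit 1) (nat_lit 354) (nat_lit 1) (nat_lit 365) (nat_lit 1) (nat_lit 302) (nat_lit 368) (nat_lit 350))))))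 (XT.nd (nat_lit 390) (nat_lit 2280) (nat_lit 0) (XT.nd (nat_lit 156) (nat_lit 608) (nat_lit 0) (XT.nd (nat_lit 78) (nat_lit 608) (nat_lit 0) (XT.lf (nat_lit 76) (nat_lit 1739081783) (nat_lit 0) (nat_lit 3624936705) (nat_lit 912) (nat_lit 1739081783) (nat_lit 355) (nat_lit 1) (nat_lit 354) (nat_lit 1) (nat_lit 366) (nat_lit 1) (nat_lit 303) (nat_lit 368) (nat_lit 349)) (XT.lf (nat_lit 684) (nat_lit 2774184135) (nat_lit 0) (nat_lit 2117173924) (nat_lit 608) (nat_lit 2117173924) (nat_lit 355) (nat_lit 1) (nat_lit 346) (nat_lit 1) (nat_lit 354) (nat_lit 1) (nat_lit 304) (nat_lit 368) (nat_lit 348))) (XT.nd (nat_lit 78) (nat_lit 608) (nat_lit 0) (XT.lf (nat_lit 76) (nat_lit 1031620894) (nat_lit 0) (nat_lit 4852676307) (nat_lit 684) (nat_lit 1031620894) (nat_lit 347) (nat_lit 1) (nat_lit 346) (nat_lit 1) (nat_lit 355) (nat_lit 1) (nat_lit 305) (nat_lit 368) (nat_lit 347)) (XT.nd (nat_lit 78) (nat_lit 0) (nat_lit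 0) (XT.lf (nat_lit 684) (nat_lit 1325431244) (nat_lit 0) (nat_lit 2749592385) (nat_lit 608) (nat_lit 2749592385) (nat_lit 347) (nat_lit 1) (nat_lit 338) (nat_lit 1) (nat_lit 346) (nat_lit 1) (nat_lit 306) (nat_lit 368) (nat_lit 346)) (XT.lf (nat_lit 76) (nat_lit 297993622) (nat_lit 0) (nat_lit 6139603745) (nat_lit 684) (nat_lit 297993622) (nat_lit 339) (nat_lit 1) (nat_lit 338) (nat_lit 1) (nat_lit 347) (nat_lit 1) (nat_lit 307) (nat_lit 368) (nat_lit 345))))) (XT.nd (nat_lit 234) (nat_lit 1064) (nat_lit 0) (XT.nd (nat_lit 78) (nat_lit 608) (nat_lit 0) (XT.lf (nat_lit 76) (nat_lit 3239158619) (nat_lit 0) (nat_lit 169038801) (nat_lit 608) (nat_lit 3239158619) (nat_lit 331) (nat_lit 1) (nat_lit 330) (nat_lit 1) (nat_lit 338) (nat_lit 1) (nat_lit 308) (nat_lit 368) (nat_lit 344)) (XT.nd (nat_lit 78) (nat_lit 0) (nat_lit 0) (XT.lf (nat_lit 684) (nat_lit 5653588676) (nat_lit 0) (nat_lit 453859341) (nat_lit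 608) (nat_lit 453859341) (nat_lit 331) (nat_lit 1) (nat_lit 322) (nat_lit 1) (nat_lit 330) (nat_lit 1) (nat_lit 309) (nat_lit 368) (nat_lit 343)) (XT.lf (nat_lit 76) (nat_lit 2398452603) (nat_lit 0) (nat_lit 1679229369) (nat_lit 684) (nat_lit 2398452603) (nat_lit 323) (nat_lit 1) (nat_lit 322) (nat_lit 1) (nat_lit 331) (nat_lit 1) (nat_lit 310) (nat_lit 368) (nat_lit 342)))) (XT.nd (nat_lit 78) (nat_lit 532) (nat_lit 0) (XT.lf (nat_lit 608) (nat_lit 3948710651) (nat_lit 0) (nat_lit 1222126199) (nat_lit 532) (nat_lit 1222126199) (nat_lit 323) (nat_lit 1) (nat_lit 315) (nat_lit 1) (nat_lit 322) (nat_lit 1) (nat_lit 311) (nat_lit 368) (nat_lit 341)) (XT.nd (nat_lit 78) (nat_lit 532) (nat_lit 0) (XT.lf (nat_lit 76) (nat_lit 1543062322) (nat_lit 0) (nat_lit 3224950625) (nat_lit 608) (nat_lit 1543062322) (nat_lit 316) (nat_lit 1) (nat_lit 315) (nat_lit 1) (nat_lit 323) (nat_lit 1) (nat_lit 312) (nat_lit 368)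 (nat_lit 340)) (XT.lf (nat_lit 608) (nat_lit 2217045341) (nat_lit 0) (nat_lit 2006803171) (nat_lit 532) (nat_lit 2006803171) (nat_lit 316) (nat_lit 1) (nat_lit 308) (nat_lit 1) (nat_lit 315) (nat_lit 1) (nat_lit 313) (nat_lit 368) (nat_lit 339))))))))
noncomputable def ec65 : XT := (XT.nd (nat_lit 1716) (nat_lit 3724) (nat_lit 0) (XT.nd (nat_lit 858) (nat_lit 2660) (nat_lit 0) (XT.nd (nat_lit 390) (nat_lit 1368) (nat_lit 0) (XT.nd (nat_lit 156) (nat_lit 1064) (nat_lit 0) (XT.nd (nat_lit 78) (nat_lit 456) (nat_lit 0) (XT.lf (nat_lit 76) (nat_lit 675664041) (nat_lit 0) (nat_lit 4800603103) (nat_lit 608) (nat_lit 675664041) (nat_lit 309) (nat_lit 1) (nat_lit 308) (nat_lit 1) (nat_lit 316) (nat_lit 1) (nat_lit 314) (nat_lit 368) (nat_lit 338)) (XT.lf (nat_lit 532) (nat_lit 463761153) (nat_lit 0) (nat_lit 2805185773) (nat_lit 456) (nat_lit 2805185773) (nat_lit 309) (nat_lit 1) (nat_lit 302) (nat_lit 1) (nat_lit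 308) (nat_lit 1) (nat_lit 315) (nat_lit 368) (nat_lit 337))) (XT.nd (nat_lit 78) (nat_lit 456) (nat_lit 0) (XT.lf (nat_lit 608) (nat_lit 5599633629) (nat_lit 0) (nat_lit 199299738) (nat_lit 532) (nat_lit 199299738) (nat_lit 302) (nat_lit 1) (nat_lit 294) (nat_lit 1) (nat_lit 301) (nat_lit 1) (nat_lit 316) (nat_lit 368) (nat_lit 336)) (XT.nd (nat_lit 78) (nat_lit 456) (nat_lit 0) (XT.lf (nat_lit 76) (nat_lit 2320957840) (nat_lit 0) (nat_lit 1280883842) (nat_lit 608) (nat_lit 2320957840) (nat_lit 295) (nat_lit 1) (nat_lit 294) (nat_lit 1) (nat_lit 302) (nat_lit 1) (nat_lit 317) (nat_lit 368) (nat_lit 335)) (XT.lf (nat_lit 532) (nat_lit 3699534746) (nat_lit 0) (nat_lit 1074831266) (nat_lit 456) (nat_lit 1074831266) (nat_lit 295) (nat_lit 1) (nat_lit 288) (nat_lit 1) (nat_lit 294) (nat_lit 1) (nat_lit 318) (nat_lit 368) (nat_lit 334))))) (XT.nd (nat_lit 234) (nat_lit 912) (nat_lit 0) (XT.nd (nat_lit 78)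 (nat_lit 456) (nat_lit 0) (XT.lf (nat_lit 76) (nat_lit 1373986371) (nat_lit 0) (nat_lit 3028699180) (nat_lit 532) (nat_lit 1373986371) (nat_lit 289) (nat_lit 1) (nat_lit 288) (nat_lit 1) (nat_lit 295) (nat_lit 1) (nat_lit 319) (nat_lit 368) (nat_lit 333)) (XT.nd (nat_lit 78) (nat_lit 0) (nat_lit 0) (XT.lf (nat_lit 532) (nat_lit 1794433007) (nat_lit 0) (nat_lit 1955480549) (nat_lit 456) (nat_lit 1955480549) (nat_lit 289) (nat_lit 1) (nat_lit 282) (nat_lit 1) (nat_lit 288) (nat_lit 1) (nat_lit 320) (nat_lit 368) (nat_lit 332)) (XT.lf (nat_lit 76) (nat_lit 425449805) (nat_lit 0) (nat_lit 4784775257) (nat_lit 532) (nat_lit 425449805) (nat_lit 283) (nat_lit 1) (nat_lit 282) (nat_lit 1) (nat_lit 289) (nat_lit 1) (nat_lit 321) (nat_lit 368) (nat_lit 331)))) (XT.nd (nat_lit 78) (nat_lit 456) (nat_lit 0) (XT.lf (nat_lit 76) (nat_lit 2728356306) (nat_lit 0) (nat_lit 109875061) (nat_lit 456) (nat_lit 2728356306)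 (nat_lit 277) (nat_lit 1) (nat_lit 276) (nat_lit 1) (nat_lit 282) (nat_lit 1) (nat_lit 322) (nat_lit 368) (nat_lit 330)) (XT.nd (nat_lit 78) (nat_lit 0) (nat_lit 0) (XT.lf (nat_lit 532) (nat_lit 4463389818) (nat_lit 0) (nat_lit 517806330) (nat_lit 456) (nat_lit 517806330) (nat_lit 277) (nat_lit 1) (nat_lit 270) (nat_lit 1) (nat_lit 276) (nat_lit 1) (nat_lit 323) (nat_lit 368) (nat_lit 329)) (XT.lf (nat_lit 76) (nat_lit 1727403389) (nat_lit 0) (nat_lit 1977291861) (nat_lit 532) (nat_lit 1727403389) (nat_lit 271) (nat_lit 1) (nat_lit 270) (nat_lit 1) (nat_lit 277) (nat_lit 1) (nat_lit 324) (nat_lit 368) (nat_lit 328)))))) (XT.nd (nat_lit 390) (nat_lit 1444) (nat_lit 0) (XT.nd (nat_lit 156) (nat_lit 836) (nat_lit 0) (XT.nd (nat_lit 78) (nat_lit 0) (nat_lit 0) (XT.lf (nat_lit 456) (nat_lit 2456214728) (nat_lit 0) (nat_lit 1455182054) (nat_lit 380) (nat_lit 1455182054) (nat_lit 271) (nat_lit 1) (nat_lit 265)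 (nat_lit 1) (nat_lit 270) (nat_lit 1) (nat_lit 325) (nat_lit 368) (nat_lit 327)) (XT.lf (nat_lit 76) (nat_lit 731194463) (nat_lit 0) (nat_lit 3839870133) (nat_lit 456) (nat_lit 731194463) (nat_lit 266) (nat_lit 1) (nat_lit 265) (nat_lit 1) (nat_lit 271) (nat_lit 1) (nat_lit 326) (nat_lit 368) (nat_lit 326))) (XT.nd (nat_lit 78) (nat_lit 456) (nat_lit 0) (XT.lf (nat_lit 456) (nat_lit 459863721) (nat_lit 0) (nat_lit 2389426237) (nat_lit 380) (nat_lit 2389426237) (nat_lit 266) (nat_lit 1) (nat_lit 260) (nat_lit 1) (nat_lit 265) (nat_lit 1) (nat_lit 327) (nat_lit 368) (nat_lit 325)) (XT.nd (nat_lit 78) (nat_lit 0) (nat_lit 0) (XT.lf (nat_lit 456) (nat_lit 4663654952) (nat_lit 0) (nat_lit 256468124) (nat_lit 380) (nat_lit 256468124) (nat_lit 260) (nat_lit 1) (nat_lit 254) (nat_lit 1) (nat_lit 259) (nat_lit 1) (nat_lit 328) (nat_lit 368) (nat_lit 324)) (XT.lf (nat_lit 76) (nat_lit 1810641054) (nat_lit 0) (nat_lit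 1493519915) (nat_lit 456) (nat_lit 1810641054) (nat_lit 255) (nat_lit 1) (nat_lit 254) (nat_lit 1) (nat_lit 260) (nat_lit 1) (nat_lit 329) (nat_lit 368) (nat_lit 323))))) (XT.nd (nat_lit 234) (nat_lit 760) (nat_lit 0) (XT.nd (nat_lit 78) (nat_lit 304) (nat_lit 0) (XT.lf (nat_lit 456) (nat_lit 2594627289) (nat_lit 0) (nat_lit 1229879383) (nat_lit 380) (nat_lit 1229879383) (nat_lit 255) (nat_lit 1) (nat_lit 249) (nat_lit 1) (nat_lit 254) (nat_lit 1) (nat_lit 330) (nat_lit 368) (nat_lit 322)) (XT.nd (nat_lit 78) (nat_lit 304) (nat_lit 0) (XT.lf (nat_lit 76) (nat_lit 786092828) (nat_lit 0) (nat_lit 3422795884) (nat_lit 456) (nat_lit 786092828) (nat_lit 250) (nat_lit 1) (nat_lit 249) (nat_lit 1) (nat_lit 255) (nat_lit 1) (nat_lit 331) (nat_lit 368) (nat_lit 321)) (XT.lf (nat_lit 380) (nat_lit 545967056) (nat_lit 0) (nat_lit 2195181408) (nat_lit 304) (nat_lit 2195181408) (nat_lit 250) (nat_lit 1) (nat_lit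 245) (nat_lit 1) (nat_lit 249) (nat_lit 1) (nat_lit 332) (nat_lit 368) (nat_lit 320)))) (XT.nd (nat_lit 78) (nat_lit 304) (nat_lit 0) (XT.lf (nat_lit 456) (nat_lit 4427665875) (nat_lit 0) (nat_lit 225649494) (nat_lit 380) (nat_lit 225649494) (nat_lit 245) (nat_lit 1) (nat_lit 239) (nat_lit 1) (nat_lit 244) (nat_lit 1) (nat_lit 333) (nat_lit 368) (nat_lit 319)) (XT.nd (nat_lit 78) (nat_lit 304) (nat_lit 0) (XT.lf (nat_lit 76) (nat_lit 1685052287) (nat_lit 0) (nat_lit 1451736405) (nat_lit 456) (nat_lit 1685052287) (nat_lit 240) (nat_lit 1) (nat_lit 239) (nat_lit 1) (nat_lit 245) (nat_lit 1) (nat_lit 334) (nat_lit 368) (nat_lit 318)) (XT.lf (nat_lit 380) (nat_lit 2329113322) (nat_lit 0) (nat_lit 1218426516) (nat_lit 304) (nat_lit 1218426516) (nat_lit 240) (nat_lit 1) (nat_lit 235) (nat_lit 1) (nat_lit 239) (nat_lit 1) (nat_lit 335) (nat_lit 368) (nat_lit 317))))))) (XT.nd (nat_lit 858) (nat_lit 1520) (nat_lit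 0) (XT.nd (nat_lit 390) (nat_lit 1216) (nat_lit 0) (XT.nd (nat_lit 156) (nat_lit 684) (nat_lit 0) (XT.nd (nat_lit 78) (nat_lit 304) (nat_lit 0) (XT.lf (nat_lit 76) (nat_lit 647690837) (nat_lit 0) (nat_lit 3415665805) (nat_lit 380) (nat_lit 647690837) (nat_lit 236) (nat_lit 1) (nat_lit 235) (nat_lit 1) (nat_lit 240) (nat_lit 1) (nat_lit 336) (nat_lit 368) (nat_lit 316)) (XT.lf (nat_lit 380) (nat_lit 258271795) (nat_lit 0) (nat_lit 2199240519) (nat_lit 304) (nat_lit 2199240519) (nat_lit 236) (nat_lit 1) (nat_lit 231) (nat_lit 1) (nat_lit 235) (nat_lit 1) (nat_lit 337) (nat_lit 368) (nat_lit 315))) (XT.nd (nat_lit 78) (nat_lit 304) (nat_lit 0) (XT.lf (nat_lit 380) (nat_lit 3859706110) (nat_lit 0) (nat_lit 371911778) (nat_lit 304) (nat_lit 371911778) (nat_lit 231) (nat_lit 1) (nat_lit 226) (nat_lit 1) (nat_lit 230) (nat_lit 1) (nat_lit 338) (nat_lit 368) (nat_lit 314)) (XT.nd (nat_lit 78) (nat_lit 304) (nat_lit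 0) (XT.lf (nat_lit 76) (nat_lit 1400865411) (nat_lit 0) (nat_lit 1748940499) (nat_lit 380) (nat_lit 1400865411) (nat_lit 227) (nat_lit 1) (nat_lit 226) (nat_lit 1) (nat_lit 231) (nat_lit 1) (nat_lit 339) (nat_lit 368) (nat_lit 313)) (XT.lf (nat_lit 380) (nat_lit 1757423875) (nat_lit 0) (nat_lit 1370714627) (nat_lit 304) (nat_lit 1370714627) (nat_lit 227) (nat_lit 1) (nat_lit 222) (nat_lit 1) (nat_lit 226) (nat_lit 1) (nat_lit 340) (nat_lit 368) (nat_lit 312))))) (XT.nd (nat_lit 234) (nat_lit 608) (nat_lit 0) (XT.nd (nat_lit 78) (nat_lit 608) (nat_lit 0) (XT.lf (nat_lit 76) (nat_lit 363066699) (nat_lit 0) (nat_lit 3721904004) (nat_lit 380) (nat_lit 363066699) (nat_lit 223) (nat_lit 1) (nat_lit 222) (nat_lit 1) (nat_lit 227) (nat_lit 1) (nat_lit 341) (nat_lit 368) (nat_lit 311)) (XT.nd (nat_lit 78) (nat_lit 304) (nat_lit 0) (XT.lf (nat_lit 76) (nat_lit 2046010475) (nat_lit 0) (nat_lit 305528138) (nat_lit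 304) (nat_lit 2046010475) (nat_lit 219) (nat_lit 1) (nat_lit 218) (nat_lit 1) (nat_lit 222) (nat_lit 1) (nat_lit 342) (nat_lit 368) (nat_lit 310)) (XT.lf (nat_lit 380) (nat_lit 3044897604) (nat_lit 0) (nat_lit 651568901) (nat_lit 304) (nat_lit 651568901) (nat_lit 219) (nat_lit 1) (nat_lit 214) (nat_lit 1) (nat_lit 218) (nat_lit 1) (nat_lit 343) (nat_lit 368) (nat_lit 309)))) (XT.nd (nat_lit 78) (nat_lit 608) (nat_lit 0) (XT.lf (nat_lit 76) (nat_lit 999062747) (nat_lit 0) (nat_lit 2300960295) (nat_lit 380) (nat_lit 999062747) (nat_lit 215) (nat_lit 1) (nat_lit 214) (nat_lit 1) (nat_lit 219) (nat_lit 1) (nat_lit 344) (nat_lit 368) (nat_lit 308)) (XT.nd (nat_lit 78) (nat_lit 380) (nat_lit 0) (XT.lf (nat_lit 304) (nat_lit 959283459) (nat_lit 0) (nat_lit 1645810694) (nat_lit 228) (nat_lit 1645810694) (nat_lit 215) (nat_lit 1) (nat_lit 211) (nat_lit 1) (nat_lit 214) (nat_lit 1) (nat_lit 345) (nat_lit 368)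 (nat_lit 307)) (XT.lf (nat_lit 380) (nat_lit 4145594077) (nat_lit 0) (nat_lit 29111218) (nat_lit 304) (nat_lit 29111218) (nat_lit 211) (nat_lit 1) (nat_lit 206) (nat_lit 1) (nat_lit 210) (nat_lit 1) (nat_lit 346) (nat_lit 368) (nat_lit 306)))))) (XT.nd (nat_lit 390) (nat_lit 760) (nat_lit 0) (XT.nd (nat_lit 156) (nat_lit 532) (nat_lit 0) (XT.nd (nat_lit 78) (nat_lit 228) (nat_lit 0) (XT.lf (nat_lit 76) (nat_lit 1544433619) (nat_lit 0) (nat_lit 1067768366) (nat_lit 380) (nat_lit 1544433619) (nat_lit 207) (nat_lit 1) (nat_lit 206) (nat_lit 1) (nat_lit 211) (nat_lit 1) (nat_lit 347) (nat_lit 368) (nat_lit 305)) (XT.lf (nat_lit 304) (nat_lit 2052450536) (nat_lit 0) (nat_lit 1029036730) (nat_lit 228) (nat_lit 1029036730) (nat_lit 207) (nat_lit 1) (nat_lit 203) (nat_lit 1) (nat_lit 206) (nat_lit 1) (nat_lit 348) (nat_lit 368) (nat_lit 304))) (XT.nd (nat_lit 78) (nat_lit 532) (nat_lit 0) (XT.lf (nat_lit 76)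 (nat_lit 512949717) (nat_lit 0) (nat_lit 3039264126) (nat_lit 304) (nat_lit 512949717) (nat_lit 204) (nat_lit 1) (nat_lit 203) (nat_lit 1) (nat_lit 207) (nat_lit 1) (nat_lit 349) (nat_lit 368) (nat_lit 303)) (XT.nd (nat_lit 78) (nat_lit 228) (nat_lit 0) (XT.lf (nat_lit 76) (nat_lit 2009859081) (nat_lit 0) (nat_lit 538117) (nat_lit 304) (nat_lit 2009859081) (nat_lit 200) (nat_lit 1) (nat_lit 199) (nat_lit 1) (nat_lit 203) (nat_lit 1) (nat_lit 350) (nat_lit 368) (nat_lit 302)) (XT.lf (nat_lit 304) (nat_lit 2988759803) (nat_lit 0) (nat_lit 493659830) (nat_lit 228) (nat_lit 493659830) (nat_lit 200) (nat_lit 1) (nat_lit 196) (nat_lit 1) (nat_lit 199) (nat_lit 1) (nat_lit 351) (nat_lit 368) (nat_lit 301))))) (XT.nd (nat_lit 234) (nat_lit 228) (nat_lit 0) (XT.nd (nat_lit 78) (nat_lit 532) (nat_lit 0) (XT.lf (nat_lit 76) (nat_lit 979118837) (nat_lit 0) (nat_lit 1974089782) (nat_lit 304) (nat_lit 979118837) (nat_lit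 197) (nat_lit 1) (nat_lit 196) (nat_lit 1) (nat_lit 200) (nat_lit 1) (nat_lit 352) (nat_lit 368) (nat_lit 300)) (XT.nd (nat_lit 78) (nat_lit 304) (nat_lit 0) (XT.lf (nat_lit 304) (nat_lit 938376932) (nat_lit 0) (nat_lit 1475454572) (nat_lit 228) (nat_lit 1475454572) (nat_lit 197) (nat_lit 1) (nat_lit 193) (nat_lit 1) (nat_lit 196) (nat_lit 1) (nat_lit 353) (nat_lit 368) (nat_lit 299)) (XT.lf (nat_lit 304) (nat_lit 3786721058) (nat_lit 0) (nat_lit 30235631) (nat_lit 228) (nat_lit 30235631) (nat_lit 193) (nat_lit 1) (nat_lit 189) (nat_lit 1) (nat_lit 192) (nat_lit 1) (nat_lit 354) (nat_lit 368) (nat_lit 298)))) (XT.nd (nat_lit 78) (nat_lit 228) (nat_lit 0) (XT.lf (nat_lit 76) (nat_lit 1378060286) (nat_lit 0) (nat_lit 1048849291) (nat_lit 304) (nat_lit 1378060286) (nat_lit 190) (nat_lit 1) (nat_lit 189) (nat_lit 1) (nat_lit 193) (nat_lit 1) (nat_lit 355) (nat_lit 368) (nat_lit 297)) (XT.nd (nat_lit 78)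 (nat_lit 0) (nat_lit 0) (XT.lf (nat_lit 304) (nat_lit 1745254739) (nat_lit 0) (nat_lit 1009211473) (nat_lit 228) (nat_lit 1009211473) (nat_lit 190) (nat_lit 1) (nat_lit 186) (nat_lit 1) (nat_lit 189) (nat_lit 1) (nat_lit 356) (nat_lit 368) (nat_lit 296)) (XT.lf (nat_lit 76) (nat_lit 373275925) (nat_lit 0) (nat_lit 2976533049) (nat_lit 304) (nat_lit 373275925) (nat_lit 187) (nat_lit 1) (nat_lit 186) (nat_lit 1) (nat_lit 190) (nat_lit 1) (nat_lit 357) (nat_lit 368) (nat_lit 295))))))))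
noncomputable def ec66 : XT := (XT.nd (nat_lit 1716) (nat_lit 760) (nat_lit 0) (XT.nd (nat_lit 858) (nat_lit 1292) (nat_lit 0) (XT.nd (nat_lit 390) (nat_lit 532) (nat_lit 0) (XT.nd (nat_lit 156) (nat_lit 456) (nat_lit 0) (XT.nd (nat_lit 78) (nat_lit 228) (nat_lit 0) (XT.lf (nat_lit 76) (nat_lit 1717714813) (nat_lit 0) (nat_lit 247322106) (nat_lit 228) (nat_lit 1717714813) (nat_lit 184) (nat_lit 1) (nat_lit 183) (nat_lit 1) (nat_lit 186) (nat_lit 1) (nat_lit 358) (nat_lit 368) (nat_lit 294)) (XT.lf (nat_lit 304) (nat_lit 2435606122) (nat_lit 0) (nat_lit 603748212) (nat_lit 228) (nat_lit 603748212) (nat_lit 184) (nat_lit 1) (nat_lit 180) (nat_lit 1) (nat_lit 183) (nat_lit 1) (nat_lit 359) (nat_lit 368) (nat_lit 293))) (XT.nd (nat_lit 78) (nat_lit 456) (nat_lit 0) (XT.lf (nat_lit 76) (nat_lit 720394389) (nat_lit 0) (nat_lit 2163117036) (nat_lit 304) (nat_lit 720394389) (nat_lit 181) (nat_lit 1) (nat_lit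 180) (nat_lit 1) (nat_lit 184) (nat_lit 1) (nat_lit 360) (nat_lit 368) (nat_lit 292)) (XT.nd (nat_lit 78) (nat_lit 304) (nat_lit 0) (XT.lf (nat_lit 228) (nat_lit 453739669) (nat_lit 0) (nat_lit 1555746693) (nat_lit 152) (nat_lit 1555746693) (nat_lit 181) (nat_lit 1) (nat_lit 178) (nat_lit 1) (nat_lit 180) (nat_lit 1) (nat_lit 361) (nat_lit 368) (nat_lit 291)) (XT.lf (nat_lit 304) (nat_lit 3023198563) (nat_lit 0) (nat_lit 252031097) (nat_lit 228) (nat_lit 252031097) (nat_lit 178) (nat_lit 1) (nat_lit 174) (nat_lit 1) (nat_lit 177) (nat_lit 1) (nat_lit 362) (nat_lit 368) (nat_lit 290))))) (XT.nd (nat_lit 234) (nat_lit 380) (nat_lit 0) (XT.nd (nat_lit 78) (nat_lit 152) (nat_lit 0) (XT.lf (nat_lit 76) (nat_lit 1017482021) (nat_lit 0) (nat_lit 1454431542) (nat_lit 304) (nat_lit 1017482021) (nat_lit 175) (nat_lit 1) (nat_lit 174) (nat_lit 1) (nat_lit 178) (nat_lit 1) (nat_lit 363) (nat_lit 368) (nat_lit 289))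 (XT.nd (nat_lit 78) (nat_lit 0) (nat_lit 0) (XT.lf (nat_lit 228) (nat_lit 1061253920) (nat_lit 0) (nat_lit 1195482023) (nat_lit 152) (nat_lit 1195482023) (nat_lit 175) (nat_lit 1) (nat_lit 172) (nat_lit 1) (nat_lit 174) (nat_lit 1) (nat_lit 364) (nat_lit 368) (nat_lit 288)) (XT.lf (nat_lit 76) (nat_lit 52698411) (nat_lit 0) (nat_lit 3310420328) (nat_lit 228) (nat_lit 52698411) (nat_lit 173) (nat_lit 1) (nat_lit 172) (nat_lit 1) (nat_lit 175) (nat_lit 1) (nat_lit 365) (nat_lit 368) (nat_lit 287)))) (XT.nd (nat_lit 78) (nat_lit 152) (nat_lit 0) (XT.lf (nat_lit 76) (nat_lit 1270447691) (nat_lit 0) (nat_lit 838389288) (nat_lit 228) (nat_lit 1270447691) (nat_lit 170) (nat_lit 1) (nat_lit 169) (nat_lit 1) (nat_lit 172) (nat_lit 1) (nat_lit 366) (nat_lit 368) (nat_lit 286)) (XT.nd (nat_lit 78) (nat_lit 0) (nat_lit 0) (XT.lf (nat_lit 228) (nat_lit 1581854150) (nat_lit 0) (nat_lit 880831688) (nat_lit 152) (nat_lit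 880831688) (nat_lit 170) (nat_lit 1) (nat_lit 167) (nat_lit 1) (nat_lit 169) (nat_lit 1) (nat_lit 367) (nat_lit 368) (nat_lit 285)) (XT.lf (nat_lit 76) (nat_lit 317542117) (nat_lit 0) (nat_lit 2673251737) (nat_lit 228) (nat_lit 317542117) (nat_lit 168) (nat_lit 1) (nat_lit 167) (nat_lit 1) (nat_lit 170) (nat_lit 1) (nat_lit 368) (nat_lit 368) (nat_lit 284)))))) (XT.nd (nat_lit 390) (nat_lit 532) (nat_lit 0) (XT.nd (nat_lit 156) (nat_lit 380) (nat_lit 0) (XT.nd (nat_lit 78) (nat_lit 152) (nat_lit 0) (XT.lf (nat_lit 76) (nat_lit 1484531750) (nat_lit 0) (nat_lit 304262782) (nat_lit 228) (nat_lit 1484531750) (nat_lit 165) (nat_lit 1) (nat_lit 164) (nat_lit 1) (nat_lit 167) (nat_lit 1) (nat_lit 369) (nat_lit 368) (nat_lit 283)) (XT.lf (nat_lit 228) (nat_lit 2025790698) (nat_lit 0) (nat_lit 606550648) (nat_lit 152) (nat_lit 606550648) (nat_lit 165) (nat_lit 1) (nat_lit 162) (nat_lit 1) (nat_lit 164) (nat_lit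 1) (nat_lit 370) (nat_lit 368) (nat_lit 282))) (XT.nd (nat_lit 78) (nat_lit 380) (nat_lit 0) (XT.lf (nat_lit 76) (nat_lit 544967263) (nat_lit 0) (nat_lit 2114941926) (nat_lit 228) (nat_lit 544967263) (nat_lit 163) (nat_lit 1) (nat_lit 162) (nat_lit 1) (nat_lit 165) (nat_lit 1) (nat_lit 371) (nat_lit 368) (nat_lit 281)) (XT.nd (nat_lit 78) (nat_lit 228) (nat_lit 0) (XT.lf (nat_lit 228) (nat_lit 160601579) (nat_lit 0) (nat_lit 1505323076) (nat_lit 152) (nat_lit 1505323076) (nat_lit 163) (nat_lit 1) (nat_lit 160) (nat_lit 1) (nat_lit 162) (nat_lit 1) (nat_lit 372) (nat_lit 368) (nat_lit 280)) (XT.lf (nat_lit 228) (nat_lit 2402154597) (nat_lit 0) (nat_lit 367983367) (nat_lit 152) (nat_lit 367983367) (nat_lit 160) (nat_lit 1) (nat_lit 157) (nat_lit 1) (nat_lit 159) (nat_lit 1) (nat_lit 373) (nat_lit 368) (nat_lit 279))))) (XT.nd (nat_lit 234) (nat_lit 152) (nat_lit 0) (XT.nd (nat_lit 78) (nat_lit 380) (nat_lit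 0) (XT.lf (nat_lit 76) (nat_lit 739376166) (nat_lit 0) (nat_lit 1626469752) (nat_lit 228) (nat_lit 739376166) (nat_lit 158) (nat_lit 1) (nat_lit 157) (nat_lit 1) (nat_lit 160) (nat_lit 1) (nat_lit 374) (nat_lit 368) (nat_lit 278)) (XT.nd (nat_lit 78) (nat_lit 228) (nat_lit 0) (XT.lf (nat_lit 228) (nat_lit 566299498) (nat_lit 0) (nat_lit 1253258565) (nat_lit 152) (nat_lit 1253258565) (nat_lit 158) (nat_lit 1) (nat_lit 155) (nat_lit 1) (nat_lit 157) (nat_lit 1) (nat_lit 375) (nat_lit 368) (nat_lit 277)) (XT.lf (nat_lit 228) (nat_lit 2719007325) (nat_lit 0) (nat_lit 160997943) (nat_lit 152) (nat_lit 160997943) (nat_lit 155) (nat_lit 1) (nat_lit 152) (nat_lit 1) (nat_lit 154) (nat_lit 1) (nat_lit 376) (nat_lit 368) (nat_lit 276)))) (XT.nd (nat_lit 78) (nat_lit 152) (nat_lit 0) (XT.lf (nat_lit 76) (nat_lit 904673537) (nat_lit 0) (nat_lit 1199826671) (nat_lit 228) (nat_lit 904673537) (nat_lit 153) (nat_lit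 1) (nat_lit 152) (nat_lit 1) (nat_lit 155) (nat_lit 1) (nat_lit 377) (nat_lit 368) (nat_lit 275)) (XT.nd (nat_lit 78) (nat_lit 0) (nat_lit 0) (XT.lf (nat_lit 228) (nat_lit 914418775) (nat_lit 0) (nat_lit 1031754982) (nat_lit 152) (nat_lit 1031754982) (nat_lit 153) (nat_lit 1) (nat_lit 150) (nat_lit 1) (nat_lit 152) (nat_lit 1) (nat_lit 378) (nat_lit 368) (nat_lit 274)) (XT.lf (nat_lit 76) (nat_lit 18251349) (nat_lit 0) (nat_lit 2910827384) (nat_lit 228) (nat_lit 18251349) (nat_lit 151) (nat_lit 1) (nat_lit 150) (nat_lit 1) (nat_lit 153) (nat_lit 1) (nat_lit 379) (nat_lit 368) (nat_lit 273))))))) (XT.nd (nat_lit 45786) (nat_lit 0) (nat_lit 16948) (XT.nd (nat_lit 390) (nat_lit 152) (nat_lit 0) (XT.nd (nat_lit 156) (nat_lit 304) (nat_lit 0) (XT.nd (nat_lit 78) (nat_lit 152) (nat_lit 0) (XT.lf (nat_lit 76) (nat_lit 1044322166) (nat_lit 0) (nat_lit 827903625) (nat_lit 152) (nat_lit 1044322166) (nat_lit 149)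 (nat_lit 1) (nat_lit 148) (nat_lit 1) (nat_lit 150) (nat_lit 1) (nat_lit 380) (nat_lit 368) (nat_lit 272)) (XT.lf (nat_lit 228) (nat_lit 1211739535) (nat_lit 0) (nat_lit 837332956) (nat_lit 152) (nat_lit 837332956) (nat_lit 149) (nat_lit 1) (nat_lit 146) (nat_lit 1) (nat_lit 148) (nat_lit 1) (nat_lit 381) (nat_lit 368) (nat_lit 271))) (XT.nd (nat_lit 78) (nat_lit 304) (nat_lit 0) (XT.lf (nat_lit 76) (nat_lit 174189116) (nat_lit 0) (nat_lit 2508413203) (nat_lit 228) (nat_lit 174189116) (nat_lit 147) (nat_lit 1) (nat_lit 146) (nat_lit 1) (nat_lit 149) (nat_lit 1) (nat_lit 382) (nat_lit 368) (nat_lit 270)) (XT.nd (nat_lit 78) (nat_lit 152) (nat_lit 0) (XT.lf (nat_lit 76) (nat_lit 1161392394) (nat_lit 0) (nat_lit 504390549) (nat_lit 152) (nat_lit 1161392394) (nat_lit 145) (nat_lit 1) (nat_lit 144) (nat_lit 1) (nat_lit 146) (nat_lit 1) (nat_lit 383) (nat_lit 368) (nat_lit 269)) (XT.lf (nat_lit 228) (nat_lit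 1464275364) (nat_lit 0) (nat_lit 666903194) (nat_lit 152) (nat_lit 666903194) (nat_lit 145) (nat_lit 1) (nat_lit 142) (nat_lit 1) (nat_lit 144) (nat_lit 1) (nat_lit 384) (nat_lit 368) (nat_lit 268))))) (XT.nd (nat_lit 45162) (nat_lit 0) (nat_lit 17784) (XT.nd (nat_lit 78) (nat_lit 152) (nat_lit 0) (XT.lf (nat_lit 76) (nat_lit 308136646) (nat_lit 0) (nat_lit 2153139995) (nat_lit 228) (nat_lit 308136646) (nat_lit 143) (nat_lit 1) (nat_lit 142) (nat_lit 1) (nat_lit 145) (nat_lit 1) (nat_lit 385) (nat_lit 368) (nat_lit 267)) (XT.nd (nat_lit 45006) (nat_lit 0) (nat_lit 17784) (XT.lf (nat_lit 76) (nat_lit 1258606057) (nat_lit 0) (nat_lit 223687092) (nat_lit 152) (nat_lit 1258606057) (nat_lit 141) (nat_lit 1) (nat_lit 140) (nat_lit 1) (nat_lit 142) (nat_lit 1) (nat_lit 386) (nat_lit 368) (nat_lit 266)) (XT.lf (nat_lit 1292) (nat_lit 878909571) (nat_lit 0) (nat_lit 3023857677) (nat_lit 1292) (nat_lit 878909571)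 (nat_lit 391) (nat_lit 1) (nat_lit 374) (nat_lit 0) (nat_lit 391) (nat_lit 0) (nat_lit 282) (nat_lit 369) (nat_lit 369)))) (XT.nd (nat_lit 78) (nat_lit 0) (nat_lit 76) (XT.lf (nat_lit 1292) (nat_lit 3434794004) (nat_lit 76) (nat_lit 2994212014) (nat_lit 0) (nat_lit 2994212014) (nat_lit 391) (nat_lit 1) (nat_lit 375) (nat_lit 1) (nat_lit 374) (nat_lit 0) (nat_lit 283) (nat_lit 369) (nat_lit 368)) (XT.nd (nat_lit 78) (nat_lit 0) (nat_lit 0) (XT.lf (nat_lit 1292) (nat_lit 1661148275) (nat_lit 0) (nat_lit 5963876974) (nat_lit 1216) (nat_lit 1661148275) (nat_lit 392) (nat_lit 1) (nat_lit 375) (nat_lit 1) (nat_lit 391) (nat_lit 1) (nat_lit 284) (nat_lit 369) (nat_lit 367)) (XT.lf (nat_lit 1292) (nat_lit 3154606341) (nat_lit 76) (nat_lit 2998405637) (nat_lit 0) (nat_lit 2998405637) (nat_lit 392) (nat_lit 1) (nat_lit 376) (nat_lit 1) (nat_lit 375) (nat_lit 1) (nat_lit 285) (nat_lit 369) (nat_lit 366)))))) (XT.nd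 (nat_lit 390) (nat_lit 988) (nat_lit 0) (XT.nd (nat_lit 156) (nat_lit 0) (nat_lit 76) (XT.nd (nat_lit 78) (nat_lit 0) (nat_lit 0) (XT.lf (nat_lit 1292) (nat_lit 1480283293) (nat_lit 0) (nat_lit 6059110327) (nat_lit 1216) (nat_lit 1480283293) (nat_lit 393) (nat_lit 1) (nat_lit 376) (nat_lit 1) (nat_lit 392) (nat_lit 1) (nat_lit 286) (nat_lit 369) (nat_lit 365)) (XT.lf (nat_lit 1292) (nat_lit 2712775431) (nat_lit 76) (nat_lit 3088633851) (nat_lit 0) (nat_lit 3088633851) (nat_lit 393) (nat_lit 1) (nat_lit 377) (nat_lit 1) (nat_lit 376) (nat_lit 1) (nat_lit 287) (nat_lit 369) (nat_lit 364))) (XT.nd (nat_lit 78) (nat_lit 0) (nat_lit 0) (XT.lf (nat_lit 1292) (nat_lit 1222671166) (nat_lit 0) (nat_lit 6318060457) (nat_lit 1216) (nat_lit 1222671166) (nat_lit 394) (nat_lit 1) (nat_lit 377) (nat_lit 1) (nat_lit 393) (nat_lit 1) (nat_lit 288) (nat_lit 369) (nat_lit 363)) (XT.nd (nat_lit 78) (nat_lit 0) (nat_lit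 76) (XT.lf (nat_lit 1292) (nat_lit 2123756777) (nat_lit 76) (nat_lit 3257445046) (nat_lit 0) (nat_lit 3257445046) (nat_lit 394) (nat_lit 1) (nat_lit 378) (nat_lit 1) (nat_lit 377) (nat_lit 1) (nat_lit 289) (nat_lit 369) (nat_lit 362)) (XT.lf (nat_lit 1292) (nat_lit 895255248) (nat_lit 0) (nat_lit 6726401675) (nat_lit 1216) (nat_lit 895255248) (nat_lit 395) (nat_lit 1) (nat_lit 378) (nat_lit 1) (nat_lit 394) (nat_lit 1) (nat_lit 290) (nat_lit 369) (nat_lit 361))))) (XT.nd (nat_lit 234) (nat_lit 1140) (nat_lit 0) (XT.nd (nat_lit 78) (nat_lit 0) (nat_lit 76) (XT.lf (nat_lit 1292) (nat_lit 1401025305) (nat_lit 76) (nat_lit 3497888554) (nat_lit 0) (nat_lit 3497888554) (nat_lit 395) (nat_lit 1) (nat_lit 379) (nat_lit 1) (nat_lit 378) (nat_lit 1) (nat_lit 291) (nat_lit 369) (nat_lit 360)) (XT.nd (nat_lit 78) (nat_lit 0) (nat_lit 0) (XT.lf (nat_lit 1292) (nat_lit 504506402) (nat_lit 0) (nat_lit 7270774168) (nat_lit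 1216) (nat_lit 504506402) (nat_lit 396) (nat_lit 1) (nat_lit 379) (nat_lit 1) (nat_lit 395) (nat_lit 1) (nat_lit 292) (nat_lit 369) (nat_lit 359)) (XT.lf (nat_lit 1292) (nat_lit 557136043) (nat_lit 76) (nat_lit 3803483763) (nat_lit 0) (nat_lit 3803483763) (nat_lit 396) (nat_lit 1) (nat_lit 380) (nat_lit 1) (nat_lit 379) (nat_lit 1) (nat_lit 293) (nat_lit 369) (nat_lit 358)))) (XT.nd (nat_lit 78) (nat_lit 1292) (nat_lit 0) (XT.lf (nat_lit 1292) (nat_lit 56452271) (nat_lit 0) (nat_lit 7938724379) (nat_lit 1216) (nat_lit 56452271) (nat_lit 397) (nat_lit 1) (nat_lit 380) (nat_lit 1) (nat_lit 396) (nat_lit 1) (nat_lit 294) (nat_lit 369) (nat_lit 357)) (XT.nd (nat_lit 78) (nat_lit 0) (nat_lit 0) (XT.lf (nat_lit 1368) (nat_lit 3775780955) (nat_lit 0) (nat_lit 388487150) (nat_lit 1292) (nat_lit 3775780955) (nat_lit 381) (nat_lit 1) (nat_lit 363) (nat_lit 1) (nat_lit 380) (nat_lit 1) (nat_lit 295) (nat_lit 369)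 (nat_lit 356)) (XT.lf (nat_lit 1368) (nat_lit 6953646325) (nat_lit 76) (nat_lit 438949150) (nat_lit 0) (nat_lit 438949150) (nat_lit 381) (nat_lit 1) (nat_lit 364) (nat_lit 1) (nat_lit 363) (nat_lit 1) (nat_lit 296) (nat_lit 369) (nat_lit 355))))))))
noncomputable def ec67 : XT := (XT.nd (nat_lit 1716) (nat_lit 5168) (nat_lit 0) (XT.nd (nat_lit 858) (nat_lit 3040) (nat_lit 0) (XT.nd (nat_lit 390) (nat_lit 2432) (nat_lit 0) (XT.nd (nat_lit 156) (nat_lit 760) (nat_lit 0) (XT.nd (nat_lit 78) (nat_lit 0) (nat_lit 0) (XT.lf (nat_lit 1368) (nat_lit 3152148887) (nat_lit 0) (nat_lit 1419897458) (nat_lit 1292) (nat_lit 3152148887) (nat_lit 382) (nat_lit 1) (nat_lit 364) (nat_lit 1) (nat_lit 381) (nat_lit 1) (nat_lit 297) (nat_lit 369) (nat_lit 354)) (XT.lf (nat_lit 1368) (nat_lit 5659941723) (nat_lit 76) (nat_lit 979812671) (nat_lit 0) (nat_lit 979812671) (nat_lit 382) (nat_lit 1) (nat_lit 365) (nat_lit 1) (nat_lit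 364) (nat_lit 1) (nat_lit 298) (nat_lit 369) (nat_lit 353))) (XT.nd (nat_lit 78) (nat_lit 836) (nat_lit 0) (XT.lf (nat_lit 76) (nat_lit 2489157149) (nat_lit 0) (nat_lit 2538039821) (nat_lit 1292) (nat_lit 2489157149) (nat_lit 366) (nat_lit 1) (nat_lit 365) (nat_lit 1) (nat_lit 382) (nat_lit 1) (nat_lit 299) (nat_lit 369) (nat_lit 352)) (XT.nd (nat_lit 78) (nat_lit 0) (nat_lit 0) (XT.lf (nat_lit 912) (nat_lit 4291657355) (nat_lit 0) (nat_lit 1561882639) (nat_lit 836) (nat_lit 1561882639) (nat_lit 366) (nat_lit 1) (nat_lit 354) (nat_lit 1) (nat_lit 365) (nat_lit 1) (nat_lit 300) (nat_lit 369) (nat_lit 351)) (XT.lf (nat_lit 76) (nat_lit 1791254236) (nat_lit 0) (nat_lit 3733684806) (nat_lit 912) (nat_lit 1791254236) (nat_lit 355) (nat_lit 1) (nat_lit 354) (nat_lit 1) (nat_lit 366) (nat_lit 1) (nat_lit 301) (nat_lit 369) (nat_lit 350))))) (XT.nd (nat_lit 234) (nat_lit 1216) (nat_lit 0) (XT.nd (nat_lit 78)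 (nat_lit 608) (nat_lit 0) (XT.lf (nat_lit 684) (nat_lit 2857409659) (nat_lit 0) (nat_lit 2180689142) (nat_lit 608) (nat_lit 2180689142) (nat_lit 355) (nat_lit 1) (nat_lit 346) (nat_lit 1) (nat_lit 354) (nat_lit 1) (nat_lit 302) (nat_lit 369) (nat_lit 349)) (XT.nd (nat_lit 78) (nat_lit 608) (nat_lit 0) (XT.lf (nat_lit 76) (nat_lit 1062569521) (nat_lit 0) (nat_lit 4998256596) (nat_lit 684) (nat_lit 1062569521) (nat_lit 347) (nat_lit 1) (nat_lit 346) (nat_lit 1) (nat_lit 355) (nat_lit 1) (nat_lit 303) (nat_lit 369) (nat_lit 348)) (XT.lf (nat_lit 684) (nat_lit 1365194182) (nat_lit 0) (nat_lit 2832080156) (nat_lit 608) (nat_lit 2832080156) (nat_lit 347) (nat_lit 1) (nat_lit 338) (nat_lit 1) (nat_lit 346) (nat_lit 1) (nat_lit 304) (nat_lit 369) (nat_lit 347)))) (XT.nd (nat_lit 78) (nat_lit 1216) (nat_lit 0) (XT.lf (nat_lit 76) (nat_lit 306933431) (nat_lit 0) (nat_lit 6323791857) (nat_lit 684) (nat_lit 306933431)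 (nat_lit 339) (nat_lit 1) (nat_lit 338) (nat_lit 1) (nat_lit 347) (nat_lit 1) (nat_lit 305) (nat_lit 369) (nat_lit 346)) (XT.nd (nat_lit 78) (nat_lit 608) (nat_lit 0) (XT.lf (nat_lit 76) (nat_lit 3336333378) (nat_lit 0) (nat_lit 174109965) (nat_lit 608) (nat_lit 3336333378) (nat_lit 331) (nat_lit 1) (nat_lit 330) (nat_lit 1) (nat_lit 338) (nat_lit 1) (nat_lit 306) (nat_lit 369) (nat_lit 345)) (XT.lf (nat_lit 684) (nat_lit 5823196336) (nat_lit 0) (nat_lit 467475121) (nat_lit 608) (nat_lit 467475121) (nat_lit 331) (nat_lit 1) (nat_lit 322) (nat_lit 1) (nat_lit 330) (nat_lit 1) (nat_lit 307) (nat_lit 369) (nat_lit 344)))))) (XT.nd (nat_lit 390) (nat_lit 1976) (nat_lit 0) (XT.nd (nat_lit 156) (nat_lit 532) (nat_lit 0) (XT.nd (nat_lit 78) (nat_lit 532) (nat_lit 0) (XT.lf (nat_lit 76) (nat_lit 2470406181) (nat_lit 0) (nat_lit 1729606250) (nat_lit 684) (nat_lit 2470406181) (nat_lit 323) (nat_lit 1) (nat_lit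 322) (nat_lit 1) (nat_lit 331) (nat_lit 1) (nat_lit 308) (nat_lit 369) (nat_lit 343)) (XT.lf (nat_lit 608) (nat_lit 4067171970) (nat_lit 0) (nat_lit 1258789985) (nat_lit 532) (nat_lit 1258789985) (nat_lit 323) (nat_lit 1) (nat_lit 315) (nat_lit 1) (nat_lit 322) (nat_lit 1) (nat_lit 309) (nat_lit 369) (nat_lit 342))) (XT.nd (nat_lit 78) (nat_lit 532) (nat_lit 0) (XT.lf (nat_lit 76) (nat_lit 1589354192) (nat_lit 0) (nat_lit 3321699144) (nat_lit 608) (nat_lit 1589354192) (nat_lit 316) (nat_lit 1) (nat_lit 315) (nat_lit 1) (nat_lit 323) (nat_lit 1) (nat_lit 310) (nat_lit 369) (nat_lit 341)) (XT.nd (nat_lit 78) (nat_lit 0) (nat_lit 0) (XT.lf (nat_lit 608) (nat_lit 2283556701) (nat_lit 0) (nat_lit 2067007267) (nat_lit 532) (nat_lit 2067007267) (nat_lit 316) (nat_lit 1) (nat_lit 308) (nat_lit 1) (nat_lit 315) (nat_lit 1) (nat_lit 311) (nat_lit 369) (nat_lit 340)) (XT.lf (nat_lit 76) (nat_lit 695933962) (nat_lit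 0) (nat_lit 4944621196) (nat_lit 608) (nat_lit 695933962) (nat_lit 309) (nat_lit 1) (nat_lit 308) (nat_lit 1) (nat_lit 316) (nat_lit 1) (nat_lit 312) (nat_lit 369) (nat_lit 339))))) (XT.nd (nat_lit 234) (nat_lit 912) (nat_lit 0) (XT.nd (nat_lit 78) (nat_lit 608) (nat_lit 0) (XT.lf (nat_lit 532) (nat_lit 477673988) (nat_lit 0) (nat_lit 2889341346) (nat_lit 456) (nat_lit 2889341346) (nat_lit 309) (nat_lit 1) (nat_lit 302) (nat_lit 1) (nat_lit 308) (nat_lit 1) (nat_lit 313) (nat_lit 369) (nat_lit 338)) (XT.nd (nat_lit 78) (nat_lit 0) (nat_lit 0) (XT.lf (nat_lit 608) (nat_lit 5767622638) (nat_lit 0) (nat_lit 205278730) (nat_lit 532) (nat_lit 205278730) (nat_lit 302) (nat_lit 1) (nat_lit 294) (nat_lit 1) (nat_lit 301) (nat_lit 1) (nat_lit 314) (nat_lit 369) (nat_lit 337)) (XT.lf (nat_lit 76) (nat_lit 2390586576) (nat_lit 0) (nat_lit 1319310358) (nat_lit 608) (nat_lit 2390586576) (nat_lit 295) (nat_lit 1)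 (nat_lit 294) (nat_lit 1) (nat_lit 302) (nat_lit 1) (nat_lit 315) (nat_lit 369) (nat_lit 336)))) (XT.nd (nat_lit 78) (nat_lit 456) (nat_lit 0) (XT.lf (nat_lit 532) (nat_lit 3810520788) (nat_lit 0) (nat_lit 1107076204) (nat_lit 456) (nat_lit 1107076204) (nat_lit 295) (nat_lit 1) (nat_lit 288) (nat_lit 1) (nat_lit 294) (nat_lit 1) (nat_lit 316) (nat_lit 369) (nat_lit 335)) (XT.nd (nat_lit 78) (nat_lit 456) (nat_lit 0) (XT.lf (nat_lit 76) (nat_lit 1415205962) (nat_lit 0) (nat_lit 3119560155) (nat_lit 532) (nat_lit 1415205962) (nat_lit 289) (nat_lit 1) (nat_lit 288) (nat_lit 1) (nat_lit 295) (nat_lit 1) (nat_lit 317) (nat_lit 369) (nat_lit 334)) (XT.lf (nat_lit 532) (nat_lit 1848265998) (nat_lit 0) (nat_lit 2014144966) (nat_lit 456) (nat_lit 2014144966) (nat_lit 289) (nat_lit 1) (nat_lit 282) (nat_lit 1) (nat_lit 288) (nat_lit 1) (nat_lit 318) (nat_lit 369) (nat_lit 333))))))) (XT.nd (nat_lit 858) (nat_lit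 2660) (nat_lit 0) (XT.nd (nat_lit 390) (nat_lit 1216) (nat_lit 0) (XT.nd (nat_lit 156) (nat_lit 836) (nat_lit 0) (XT.nd (nat_lit 78) (nat_lit 456) (nat_lit 0) (XT.lf (nat_lit 76) (nat_lit 438213300) (nat_lit 0) (nat_lit 4928318515) (nat_lit 532) (nat_lit 438213300) (nat_lit 283) (nat_lit 1) (nat_lit 282) (nat_lit 1) (nat_lit 289) (nat_lit 1) (nat_lit 319) (nat_lit 369) (nat_lit 332)) (XT.lf (nat_lit 76) (nat_lit 2810206995) (nat_lit 0) (nat_lit 113171313) (nat_lit 456) (nat_lit 2810206995) (nat_lit 277) (nat_lit 1) (nat_lit 276) (nat_lit 1) (nat_lit 282) (nat_lit 1) (nat_lit 320) (nat_lit 369) (nat_lit 331))) (XT.nd (nat_lit 78) (nat_lit 380) (nat_lit 0) (XT.lf (nat_lit 532) (nat_lit 4597291513) (nat_lit 0) (nat_lit 533340519) (nat_lit 456) (nat_lit 533340519) (nat_lit 277) (nat_lit 1) (nat_lit 270) (nat_lit 1) (nat_lit 276) (nat_lit 1) (nat_lit 321) (nat_lit 369) (nat_lit 330)) (XT.nd (nat_lit 78) (nat_lit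 380) (nat_lit 0) (XT.lf (nat_lit 76) (nat_lit 1779225490) (nat_lit 0) (nat_lit 2036610616) (nat_lit 532) (nat_lit 1779225490) (nat_lit 271) (nat_lit 1) (nat_lit 270) (nat_lit 1) (nat_lit 277) (nat_lit 1) (nat_lit 322) (nat_lit 369) (nat_lit 329)) (XT.lf (nat_lit 456) (nat_lit 2529901170) (nat_lit 0) (nat_lit 1498837516) (nat_lit 380) (nat_lit 1498837516) (nat_lit 271) (nat_lit 1) (nat_lit 265) (nat_lit 1) (nat_lit 270) (nat_lit 1) (nat_lit 323) (nat_lit 369) (nat_lit 328))))) (XT.nd (nat_lit 234) (nat_lit 380) (nat_lit 0) (XT.nd (nat_lit 78) (nat_lit 836) (nat_lit 0) (XT.lf (nat_lit 76) (nat_lit 753130297) (nat_lit 0) (nat_lit 3955066237) (nat_lit 456) (nat_lit 753130297) (nat_lit 266) (nat_lit 1) (nat_lit 265) (nat_lit 1) (nat_lit 271) (nat_lit 1) (nat_lit 324) (nat_lit 369) (nat_lit 327)) (XT.nd (nat_lit 78) (nat_lit 456) (nat_lit 0) (XT.lf (nat_lit 456) (nat_lit 473659633) (nat_lit 0) (nat_lit 2461109024)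 (nat_lit 380) (nat_lit 2461109024) (nat_lit 266) (nat_lit 1) (nat_lit 260) (nat_lit 1) (nat_lit 265) (nat_lit 1) (nat_lit 325) (nat_lit 369) (nat_lit 326)) (XT.lf (nat_lit 456) (nat_lit 4803564600) (nat_lit 0) (nat_lit 264162168) (nat_lit 380) (nat_lit 264162168) (nat_lit 260) (nat_lit 1) (nat_lit 254) (nat_lit 1) (nat_lit 259) (nat_lit 1) (nat_lit 326) (nat_lit 369) (nat_lit 325)))) (XT.nd (nat_lit 78) (nat_lit 380) (nat_lit 0) (XT.lf (nat_lit 76) (nat_lit 1864960286) (nat_lit 0) (nat_lit 1538325512) (nat_lit 456) (nat_lit 1864960286) (nat_lit 255) (nat_lit 1) (nat_lit 254) (nat_lit 1) (nat_lit 260) (nat_lit 1) (nat_lit 327) (nat_lit 369) (nat_lit 324)) (XT.nd (nat_lit 78) (nat_lit 0) (nat_lit 0) (XT.lf (nat_lit 456) (nat_lit 2672466108) (nat_lit 0) (nat_lit 1266775765) (nat_lit 380) (nat_lit 1266775765) (nat_lit 255) (nat_lit 1) (nat_lit 249) (nat_lit 1) (nat_lit 254) (nat_lit 1) (nat_lit 328) (nat_lit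 369) (nat_lit 323)) (XT.lf (nat_lit 76) (nat_lit 809675613) (nat_lit 0) (nat_lit 3525479761) (nat_lit 456) (nat_lit 809675613) (nat_lit 250) (nat_lit 1) (nat_lit 249) (nat_lit 1) (nat_lit 255) (nat_lit 1) (nat_lit 329) (nat_lit 369) (nat_lit 322)))))) (XT.nd (nat_lit 468) (nat_lit 1292) (nat_lit 0) (XT.nd (nat_lit 234) (nat_lit 608) (nat_lit 0) (XT.nd (nat_lit 78) (nat_lit 456) (nat_lit 0) (XT.lf (nat_lit 380) (nat_lit 562346068) (nat_lit 0) (nat_lit 2261036850) (nat_lit 304) (nat_lit 2261036850) (nat_lit 250) (nat_lit 1) (nat_lit 245) (nat_lit 1) (nat_lit 249) (nat_lit 1) (nat_lit 330) (nat_lit 369) (nat_lit 321)) (XT.nd (nat_lit 78) (nat_lit 0) (nat_lit 0) (XT.lf (nat_lit 456) (nat_lit 4560495852) (nat_lit 0) (nat_lit 232418979) (nat_lit 380) (nat_lit 232418979) (nat_lit 245) (nat_lit 1) (nat_lit 239) (nat_lit 1) (nat_lit 244) (nat_lit 1) (nat_lit 331) (nat_lit 369) (nat_lit 320)) (XT.lf (nat_lit 76)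 (nat_lit 1735603856) (nat_lit 0) (nat_lit 1495288498) (nat_lit 456) (nat_lit 1735603856) (nat_lit 240) (nat_lit 1) (nat_lit 239) (nat_lit 1) (nat_lit 245) (nat_lit 1) (nat_lit 332) (nat_lit 369) (nat_lit 319)))) (XT.nd (nat_lit 78) (nat_lit 304) (nat_lit 0) (XT.lf (nat_lit 380) (nat_lit 2398986721) (nat_lit 0) (nat_lit 1254979312) (nat_lit 304) (nat_lit 1254979312) (nat_lit 240) (nat_lit 1) (nat_lit 235) (nat_lit 1) (nat_lit 239) (nat_lit 1) (nat_lit 333) (nat_lit 369) (nat_lit 318)) (XT.nd (nat_lit 78) (nat_lit 304) (nat_lit 0) (XT.lf (nat_lit 76) (nat_lit 667121562) (nat_lit 0) (nat_lit 3518135779) (nat_lit 380) (nat_lit 667121562) (nat_lit 236) (nat_lit 1) (nat_lit 235) (nat_lit 1) (nat_lit 240) (nat_lit 1) (nat_lit 334) (nat_lit 369) (nat_lit 317)) (XT.lf (nat_lit 380) (nat_lit 266019948) (nat_lit 0) (nat_lit 2265217735) (nat_lit 304) (nat_lit 2265217735) (nat_lit 236) (nat_lit 1) (nat_lit 231) (nat_lit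 1) (nat_lit 235) (nat_lit 1) (nat_lit 335) (nat_lit 369) (nat_lit 316))))) (XT.nd (nat_lit 234) (nat_lit 608) (nat_lit 0) (XT.nd (nat_lit 78) (nat_lit 304) (nat_lit 0) (XT.lf (nat_lit 380) (nat_lit 3975497294) (nat_lit 0) (nat_lit 383069131) (nat_lit 304) (nat_lit 383069131) (nat_lit 231) (nat_lit 1) (nat_lit 226) (nat_lit 1) (nat_lit 230) (nat_lit 1) (nat_lit 336) (nat_lit 369) (nat_lit 315)) (XT.nd (nat_lit 78) (nat_lit 304) (nat_lit 0) (XT.lf (nat_lit 76) (nat_lit 1442891374) (nat_lit 0) (nat_lit 1801408714) (nat_lit 380) (nat_lit 1442891374) (nat_lit 227) (nat_lit 1) (nat_lit 226) (nat_lit 1) (nat_lit 231) (nat_lit 1) (nat_lit 337) (nat_lit 369) (nat_lit 314)) (XT.lf (nat_lit 380) (nat_lit 1810146591) (nat_lit 0) (nat_lit 1411836066) (nat_lit 304) (nat_lit 1411836066) (nat_lit 227) (nat_lit 1) (nat_lit 222) (nat_lit 1) (nat_lit 226) (nat_lit 1) (nat_lit 338) (nat_lit 369) (nat_lit 313)))) (XT.nd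 (nat_lit 78) (nat_lit 608) (nat_lit 0) (XT.lf (nat_lit 76) (nat_lit 373958700) (nat_lit 0) (nat_lit 3833561124) (nat_lit 380) (nat_lit 373958700) (nat_lit 223) (nat_lit 1) (nat_lit 222) (nat_lit 1) (nat_lit 227) (nat_lit 1) (nat_lit 339) (nat_lit 369) (nat_lit 312)) (XT.nd (nat_lit 78) (nat_lit 304) (nat_lit 0) (XT.lf (nat_lit 76) (nat_lit 2107390789) (nat_lit 0) (nat_lit 314693982) (nat_lit 304) (nat_lit 2107390789) (nat_lit 219) (nat_lit 1) (nat_lit 218) (nat_lit 1) (nat_lit 222) (nat_lit 1) (nat_lit 340) (nat_lit 369) (nat_lit 311)) (XT.lf (nat_lit 380) (nat_lit 3136244532) (nat_lit 0) (nat_lit 671115968) (nat_lit 304) (nat_lit 671115968) (nat_lit 219) (nat_lit 1) (nat_lit 214) (nat_lit 1) (nat_lit 218) (nat_lit 1) (nat_lit 341) (nat_lit 369) (nat_lit 310))))))))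
noncomputable def ec68 : XT := (XT.nd (nat_lit 1716) (nat_lit 2584) (nat_lit 0) (XT.nd (nat_lit 858) (nat_lit 1292) (nat_lit 0) (XT.nd (nat_lit 390) (nat_lit 1064) (nat_lit 0) (XT.nd (nat_lit 156) (nat_lit 608) (nat_lit 0) (XT.nd (nat_lit 78) (nat_lit 228) (nat_lit 0) (XT.lf (nat_lit 76) (nat_lit 1029034630) (nat_lit 0) (nat_lit 2369989104) (nat_lit 380) (nat_lit 1029034630) (nat_lit 215) (nat_lit 1) (nat_lit 214) (nat_lit 1) (nat_lit 219) (nat_lit 1) (nat_lit 342) (nat_lit 369) (nat_lit 309)) (XT.lf (nat_lit 304) (nat_lit 988061963) (nat_lit 0) (nat_lit 1695185015) (nat_lit 228) (nat_lit 1695185015) (nat_lit 215) (nat_lit 1) (nat_lit 211) (nat_lit 1) (nat_lit 214) (nat_lit 1) (nat_lit 343) (nat_lit 369) (nat_lit 308))) (XT.nd (nat_lit 78) (nat_lit 228) (nat_lit 0) (XT.lf (nat_lit 380) (nat_lit 4269961899) (nat_lit 0) (nat_lit 29984555) (nat_lit 304) (nat_lit 29984555) (nat_lit 211) (nat_lit 1) (nat_lit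 206) (nat_lit 1) (nat_lit 210) (nat_lit 1) (nat_lit 344) (nat_lit 369) (nat_lit 307)) (XT.nd (nat_lit 78) (nat_lit 228) (nat_lit 0) (XT.lf (nat_lit 76) (nat_lit 1590766628) (nat_lit 0) (nat_lit 1099801417) (nat_lit 380) (nat_lit 1590766628) (nat_lit 207) (nat_lit 1) (nat_lit 206) (nat_lit 1) (nat_lit 211) (nat_lit 1) (nat_lit 345) (nat_lit 369) (nat_lit 306)) (XT.lf (nat_lit 304) (nat_lit 2114024052) (nat_lit 0) (nat_lit 1059907831) (nat_lit 228) (nat_lit 1059907831) (nat_lit 207) (nat_lit 1) (nat_lit 203) (nat_lit 1) (nat_lit 206) (nat_lit 1) (nat_lit 346) (nat_lit 369) (nat_lit 305))))) (XT.nd (nat_lit 234) (nat_lit 532) (nat_lit 0) (XT.nd (nat_lit 78) (nat_lit 532) (nat_lit 0) (XT.lf (nat_lit 76) (nat_lit 528338209) (nat_lit 0) (nat_lit 3130442050) (nat_lit 304) (nat_lit 528338209) (nat_lit 204) (nat_lit 1) (nat_lit 203) (nat_lit 1) (nat_lit 207) (nat_lit 1) (nat_lit 347) (nat_lit 369) (nat_lit 304))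 (XT.nd (nat_lit 78) (nat_lit 228) (nat_lit 0) (XT.lf (nat_lit 76) (nat_lit 2070154854) (nat_lit 0) (nat_lit 554260) (nat_lit 304) (nat_lit 2070154854) (nat_lit 200) (nat_lit 1) (nat_lit 199) (nat_lit 1) (nat_lit 203) (nat_lit 1) (nat_lit 348) (nat_lit 369) (nat_lit 303)) (XT.lf (nat_lit 304) (nat_lit 3078422597) (nat_lit 0) (nat_lit 508469625) (nat_lit 228) (nat_lit 508469625) (nat_lit 200) (nat_lit 1) (nat_lit 196) (nat_lit 1) (nat_lit 199) (nat_lit 1) (nat_lit 349) (nat_lit 369) (nat_lit 302)))) (XT.nd (nat_lit 78) (nat_lit 532) (nat_lit 0) (XT.lf (nat_lit 76) (nat_lit 1008492402) (nat_lit 0) (nat_lit 2033312476) (nat_lit 304) (nat_lit 1008492402) (nat_lit 197) (nat_lit 1) (nat_lit 196) (nat_lit 1) (nat_lit 200) (nat_lit 1) (nat_lit 350) (nat_lit 369) (nat_lit 301)) (XT.nd (nat_lit 78) (nat_lit 304) (nat_lit 0) (XT.lf (nat_lit 304) (nat_lit 966528240) (nat_lit 0) (nat_lit 1519718209) (nat_lit 228)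 (nat_lit 1519718209) (nat_lit 197) (nat_lit 1) (nat_lit 193) (nat_lit 1) (nat_lit 196) (nat_lit 1) (nat_lit 351) (nat_lit 369) (nat_lit 300)) (XT.lf (nat_lit 304) (nat_lit 3900322690) (nat_lit 0) (nat_lit 31142700) (nat_lit 228) (nat_lit 31142700) (nat_lit 193) (nat_lit 1) (nat_lit 189) (nat_lit 1) (nat_lit 192) (nat_lit 1) (nat_lit 352) (nat_lit 369) (nat_lit 299)))))) (XT.nd (nat_lit 390) (nat_lit 608) (nat_lit 0) (XT.nd (nat_lit 156) (nat_lit 456) (nat_lit 0) (XT.nd (nat_lit 78) (nat_lit 228) (nat_lit 0) (XT.lf (nat_lit 76) (nat_lit 1419402094) (nat_lit 0) (nat_lit 1080314770) (nat_lit 304) (nat_lit 1419402094) (nat_lit 190) (nat_lit 1) (nat_lit 189) (nat_lit 1) (nat_lit 193) (nat_lit 1) (nat_lit 353) (nat_lit 369) (nat_lit 298)) (XT.lf (nat_lit 304) (nat_lit 1797612381) (nat_lit 0) (nat_lit 1039487817) (nat_lit 228) (nat_lit 1039487817) (nat_lit 190) (nat_lit 1) (nat_lit 186) (nat_lit 1) (nat_lit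 189) (nat_lit 1) (nat_lit 354) (nat_lit 369) (nat_lit 297))) (XT.nd (nat_lit 78) (nat_lit 456) (nat_lit 0) (XT.lf (nat_lit 76) (nat_lit 384474202) (nat_lit 0) (nat_lit 3065829040) (nat_lit 304) (nat_lit 384474202) (nat_lit 187) (nat_lit 1) (nat_lit 186) (nat_lit 1) (nat_lit 190) (nat_lit 1) (nat_lit 355) (nat_lit 369) (nat_lit 296)) (XT.nd (nat_lit 78) (nat_lit 228) (nat_lit 0) (XT.lf (nat_lit 76) (nat_lit 1769246257) (nat_lit 0) (nat_lit 254741769) (nat_lit 228) (nat_lit 1769246257) (nat_lit 184) (nat_lit 1) (nat_lit 183) (nat_lit 1) (nat_lit 186) (nat_lit 1) (nat_lit 356) (nat_lit 369) (nat_lit 295)) (XT.lf (nat_lit 304) (nat_lit 2508674306) (nat_lit 0) (nat_lit 621860658) (nat_lit 228) (nat_lit 621860658) (nat_lit 184) (nat_lit 1) (nat_lit 180) (nat_lit 1) (nat_lit 183) (nat_lit 1) (nat_lit 357) (nat_lit 369) (nat_lit 294))))) (XT.nd (nat_lit 234) (nat_lit 152) (nat_lit 0) (XT.nd (nat_lit 78) (nat_lit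 456) (nat_lit 0) (XT.lf (nat_lit 76) (nat_lit 742006221) (nat_lit 0) (nat_lit 2228010547) (nat_lit 304) (nat_lit 742006221) (nat_lit 181) (nat_lit 1) (nat_lit 180) (nat_lit 1) (nat_lit 184) (nat_lit 1) (nat_lit 358) (nat_lit 369) (nat_lit 293)) (XT.nd (nat_lit 78) (nat_lit 304) (nat_lit 0) (XT.lf (nat_lit 228) (nat_lit 467351859) (nat_lit 0) (nat_lit 1602419094) (nat_lit 152) (nat_lit 1602419094) (nat_lit 181) (nat_lit 1) (nat_lit 178) (nat_lit 1) (nat_lit 180) (nat_lit 1) (nat_lit 359) (nat_lit 369) (nat_lit 292)) (XT.lf (nat_lit 304) (nat_lit 3113894520) (nat_lit 0) (nat_lit 259592030) (nat_lit 228) (nat_lit 259592030) (nat_lit 178) (nat_lit 1) (nat_lit 174) (nat_lit 1) (nat_lit 177) (nat_lit 1) (nat_lit 360) (nat_lit 369) (nat_lit 291)))) (XT.nd (nat_lit 78) (nat_lit 152) (nat_lit 0) (XT.lf (nat_lit 76) (nat_lit 1048006482) (nat_lit 0) (nat_lit 1498064488) (nat_lit 304) (nat_lit 1048006482) (nat_lit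 175) (nat_lit 1) (nat_lit 174) (nat_lit 1) (nat_lit 178) (nat_lit 1) (nat_lit 361) (nat_lit 369) (nat_lit 290)) (XT.nd (nat_lit 78) (nat_lit 0) (nat_lit 0) (XT.lf (nat_lit 228) (nat_lit 1093091538) (nat_lit 0) (nat_lit 1231346484) (nat_lit 152) (nat_lit 1231346484) (nat_lit 175) (nat_lit 1) (nat_lit 172) (nat_lit 1) (nat_lit 174) (nat_lit 1) (nat_lit 362) (nat_lit 369) (nat_lit 289)) (XT.lf (nat_lit 76) (nat_lit 54279363) (nat_lit 0) (nat_lit 3409732938) (nat_lit 228) (nat_lit 54279363) (nat_lit 173) (nat_lit 1) (nat_lit 172) (nat_lit 1) (nat_lit 175) (nat_lit 1) (nat_lit 363) (nat_lit 369) (nat_lit 288))))))) (XT.nd (nat_lit 858) (nat_lit 1064) (nat_lit 0) (XT.nd (nat_lit 390) (nat_lit 760) (nat_lit 0) (XT.nd (nat_lit 156) (nat_lit 380) (nat_lit 0) (XT.nd (nat_lit 78) (nat_lit 152) (nat_lit 0) (XT.lf (nat_lit 76) (nat_lit 1308561122) (nat_lit 0) (nat_lit 863540967) (nat_lit 228) (nat_lit 1308561122)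 (nat_lit 170) (nat_lit 1) (nat_lit 169) (nat_lit 1) (nat_lit 172) (nat_lit 1) (nat_lit 364) (nat_lit 369) (nat_lit 287)) (XT.lf (nat_lit 228) (nat_lit 1629309775) (nat_lit 0) (nat_lit 907256639) (nat_lit 152) (nat_lit 907256639) (nat_lit 170) (nat_lit 1) (nat_lit 167) (nat_lit 1) (nat_lit 169) (nat_lit 1) (nat_lit 365) (nat_lit 369) (nat_lit 286))) (XT.nd (nat_lit 78) (nat_lit 380) (nat_lit 0) (XT.lf (nat_lit 76) (nat_lit 327068380) (nat_lit 0) (nat_lit 2753449289) (nat_lit 228) (nat_lit 327068380) (nat_lit 168) (nat_lit 1) (nat_lit 167) (nat_lit 1) (nat_lit 170) (nat_lit 1) (nat_lit 366) (nat_lit 369) (nat_lit 285)) (XT.nd (nat_lit 78) (nat_lit 152) (nat_lit 0) (XT.lf (nat_lit 76) (nat_lit 1529067703) (nat_lit 0) (nat_lit 313390666) (nat_lit 228) (nat_lit 1529067703) (nat_lit 165) (nat_lit 1) (nat_lit 164) (nat_lit 1) (nat_lit 167) (nat_lit 1) (nat_lit 367) (nat_lit 369) (nat_lit 284)) (XT.lf (nat_lit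 228) (nat_lit 2086564419) (nat_lit 0) (nat_lit 624747167) (nat_lit 152) (nat_lit 624747167) (nat_lit 165) (nat_lit 1) (nat_lit 162) (nat_lit 1) (nat_lit 164) (nat_lit 1) (nat_lit 368) (nat_lit 369) (nat_lit 283))))) (XT.nd (nat_lit 234) (nat_lit 380) (nat_lit 0) (XT.nd (nat_lit 78) (nat_lit 380) (nat_lit 0) (XT.lf (nat_lit 76) (nat_lit 561316281) (nat_lit 0) (nat_lit 2178390183) (nat_lit 228) (nat_lit 561316281) (nat_lit 163) (nat_lit 1) (nat_lit 162) (nat_lit 1) (nat_lit 165) (nat_lit 1) (nat_lit 369) (nat_lit 369) (nat_lit 282)) (XT.nd (nat_lit 78) (nat_lit 228) (nat_lit 0) (XT.lf (nat_lit 228) (nat_lit 165419626) (nat_lit 0) (nat_lit 1550482768) (nat_lit 152) (nat_lit 1550482768) (nat_lit 163) (nat_lit 1) (nat_lit 160) (nat_lit 1) (nat_lit 162) (nat_lit 1) (nat_lit 370) (nat_lit 369) (nat_lit 281)) (XT.lf (nat_lit 228) (nat_lit 2474219235) (nat_lit 0) (nat_lit 379022868) (nat_lit 152) (nat_lit 379022868)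 (nat_lit 160) (nat_lit 1) (nat_lit 157) (nat_lit 1) (nat_lit 159) (nat_lit 1) (nat_lit 371) (nat_lit 369) (nat_lit 280)))) (XT.nd (nat_lit 78) (nat_lit 380) (nat_lit 0) (XT.lf (nat_lit 76) (nat_lit 761557451) (nat_lit 0) (nat_lit 1675263844) (nat_lit 228) (nat_lit 761557451) (nat_lit 158) (nat_lit 1) (nat_lit 157) (nat_lit 1) (nat_lit 160) (nat_lit 1) (nat_lit 372) (nat_lit 369) (nat_lit 279)) (XT.nd (nat_lit 78) (nat_lit 228) (nat_lit 0) (XT.lf (nat_lit 228) (nat_lit 583288483) (nat_lit 0) (nat_lit 1290856322) (nat_lit 152) (nat_lit 1290856322) (nat_lit 158) (nat_lit 1) (nat_lit 155) (nat_lit 1) (nat_lit 157) (nat_lit 1) (nat_lit 373) (nat_lit 369) (nat_lit 278)) (XT.lf (nat_lit 228) (nat_lit 2800577545) (nat_lit 0) (nat_lit 165827882) (nat_lit 152) (nat_lit 165827882) (nat_lit 155) (nat_lit 1) (nat_lit 152) (nat_lit 1) (nat_lit 154) (nat_lit 1) (nat_lit 374) (nat_lit 369) (nat_lit 277)))))) (XT.nd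 (nat_lit 390) (nat_lit 608) (nat_lit 0) (XT.nd (nat_lit 156) (nat_lit 304) (nat_lit 0) (XT.nd (nat_lit 78) (nat_lit 152) (nat_lit 0) (XT.lf (nat_lit 76) (nat_lit 931813743) (nat_lit 0) (nat_lit 1235821471) (nat_lit 228) (nat_lit 931813743) (nat_lit 153) (nat_lit 1) (nat_lit 152) (nat_lit 1) (nat_lit 155) (nat_lit 1) (nat_lit 375) (nat_lit 369) (nat_lit 276)) (XT.lf (nat_lit 228) (nat_lit 941851338) (nat_lit 0) (nat_lit 1062707631) (nat_lit 152) (nat_lit 1062707631) (nat_lit 153) (nat_lit 1) (nat_lit 150) (nat_lit 1) (nat_lit 152) (nat_lit 1) (nat_lit 376) (nat_lit 369) (nat_lit 275))) (XT.nd (nat_lit 78) (nat_lit 304) (nat_lit 0) (XT.lf (nat_lit 76) (nat_lit 18798889) (nat_lit 0) (nat_lit 2998152206) (nat_lit 228) (nat_lit 18798889) (nat_lit 151) (nat_lit 1) (nat_lit 150) (nat_lit 1) (nat_lit 153) (nat_lit 1) (nat_lit 377) (nat_lit 369) (nat_lit 274)) (XT.nd (nat_lit 78) (nat_lit 152) (nat_lit 0) (XT.lf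 (nat_lit 76) (nat_lit 1075651831) (nat_lit 0) (nat_lit 852740734) (nat_lit 152) (nat_lit 1075651831) (nat_lit 149) (nat_lit 1) (nat_lit 148) (nat_lit 1) (nat_lit 150) (nat_lit 1) (nat_lit 378) (nat_lit 369) (nat_lit 273)) (XT.lf (nat_lit 228) (nat_lit 1248091721) (nat_lit 0) (nat_lit 862452945) (nat_lit 152) (nat_lit 862452945) (nat_lit 149) (nat_lit 1) (nat_lit 146) (nat_lit 1) (nat_lit 148) (nat_lit 1) (nat_lit 379) (nat_lit 369) (nat_lit 272))))) (XT.nd (nat_lit 234) (nat_lit 304) (nat_lit 0) (XT.nd (nat_lit 78) (nat_lit 304) (nat_lit 0) (XT.lf (nat_lit 76) (nat_lit 179414789) (nat_lit 0) (nat_lit 2583665600) (nat_lit 228) (nat_lit 179414789) (nat_lit 147) (nat_lit 1) (nat_lit 146) (nat_lit 1) (nat_lit 149) (nat_lit 1) (nat_lit 380) (nat_lit 369) (nat_lit 271)) (XT.nd (nat_lit 78) (nat_lit 152) (nat_lit 0) (XT.lf (nat_lit 76) (nat_lit 1196234166) (nat_lit 0) (nat_lit 519522265) (nat_lit 152) (nat_lit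 1196234166) (nat_lit 145) (nat_lit 1) (nat_lit 144) (nat_lit 1) (nat_lit 146) (nat_lit 1) (nat_lit 381) (nat_lit 369) (nat_lit 270)) (XT.lf (nat_lit 228) (nat_lit 1508203625) (nat_lit 0) (nat_lit 686910290) (nat_lit 152) (nat_lit 686910290) (nat_lit 145) (nat_lit 1) (nat_lit 142) (nat_lit 1) (nat_lit 144) (nat_lit 1) (nat_lit 382) (nat_lit 369) (nat_lit 269)))) (XT.nd (nat_lit 78) (nat_lit 304) (nat_lit 0) (XT.lf (nat_lit 76) (nat_lit 317380746) (nat_lit 0) (nat_lit 2217734195) (nat_lit 228) (nat_lit 317380746) (nat_lit 143) (nat_lit 1) (nat_lit 142) (nat_lit 1) (nat_lit 145) (nat_lit 1) (nat_lit 383) (nat_lit 369) (nat_lit 268)) (XT.nd (nat_lit 78) (nat_lit 152) (nat_lit 0) (XT.lf (nat_lit 76) (nat_lit 1296364238) (nat_lit 0) (nat_lit 230397705) (nat_lit 152) (nat_lit 1296364238) (nat_lit 141) (nat_lit 1) (nat_lit 140) (nat_lit 1) (nat_lit 142) (nat_lit 1) (nat_lit 384) (nat_lit 369) (nat_lit 267))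 (XT.lf (nat_lit 228) (nat_lit 1727679869) (nat_lit 0) (nat_lit 533254603) (nat_lit 152) (nat_lit 533254603) (nat_lit 141) (nat_lit 1) (nat_lit 138) (nat_lit 1) (nat_lit 140) (nat_lit 1) (nat_lit 385) (nat_lit 369) (nat_lit 266))))))))
noncomputable def ec69 : XT := (XT.nd (nat_lit 1716) (nat_lit 6992) (nat_lit 0) (XT.nd (nat_lit 858) (nat_lit 2128) (nat_lit 0) (XT.nd (nat_lit 390) (nat_lit 0) (nat_lit 152) (XT.nd (nat_lit 156) (nat_lit 0) (nat_lit 76) (XT.nd (nat_lit 78) (nat_lit 0) (nat_lit 0) (XT.lf (nat_lit 1292) (nat_lit 905276858) (nat_lit 0) (nat_lit 3114573408) (nat_lit 1292) (nat_lit 905276858) (nat_lit 391) (nat_lit 1) (nat_lit 374) (nat_lit 0) (nat_lit 391) (nat_lit 0) (nat_lit 280) (nat_lit 370) (nat_lit 370)) (XT.lf (nat_lit 1292) (nat_lit 3537837824) (nat_lit 76) (nat_lit 3084038374) (nat_lit 0) (nat_lit 3084038374) (nat_lit 391) (nat_lit 1) (nat_lit 375) (nat_lit 1) (nat_lit 374) (nat_lit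 0) (nat_lit 281) (nat_lit 370) (nat_lit 369))) (XT.nd (nat_lit 78) (nat_lit 0) (nat_lit 0) (XT.lf (nat_lit 1292) (nat_lit 1710982724) (nat_lit 0) (nat_lit 6142793284) (nat_lit 1216) (nat_lit 1710982724) (nat_lit 392) (nat_lit 1) (nat_lit 375) (nat_lit 1) (nat_lit 391) (nat_lit 1) (nat_lit 282) (nat_lit 370) (nat_lit 368)) (XT.nd (nat_lit 78) (nat_lit 0) (nat_lit 76) (XT.lf (nat_lit 1292) (nat_lit 3249244531) (nat_lit 76) (nat_lit 3088357806) (nat_lit 0) (nat_lit 3088357806) (nat_lit 392) (nat_lit 1) (nat_lit 376) (nat_lit 1) (nat_lit 375) (nat_lit 1) (nat_lit 283) (nat_lit 370) (nat_lit 367)) (XT.lf (nat_lit 1292) (nat_lit 1524691791) (nat_lit 0) (nat_lit 6240883637) (nat_lit 1216) (nat_lit 1524691791) (nat_lit 393) (nat_lit 1) (nat_lit 376) (nat_lit 1) (nat_lit 392) (nat_lit 1) (nat_lit 284) (nat_lit 370) (nat_lit 366))))) (XT.nd (nat_lit 234) (nat_lit 0) (nat_lit 152) (XT.nd (nat_lit 78) (nat_lit 0)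 (nat_lit 76) (XT.lf (nat_lit 1292) (nat_lit 2794158694) (nat_lit 76) (nat_lit 3181292866) (nat_lit 0) (nat_lit 3181292866) (nat_lit 393) (nat_lit 1) (nat_lit 377) (nat_lit 1) (nat_lit 376) (nat_lit 1) (nat_lit 285) (nat_lit 370) (nat_lit 365)) (XT.nd (nat_lit 78) (nat_lit 0) (nat_lit 0) (XT.lf (nat_lit 1292) (nat_lit 1259351301) (nat_lit 0) (nat_lit 6507602271) (nat_lit 1216) (nat_lit 1259351301) (nat_lit 394) (nat_lit 1) (nat_lit 377) (nat_lit 1) (nat_lit 393) (nat_lit 1) (nat_lit 286) (nat_lit 370) (nat_lit 364)) (XT.lf (nat_lit 1292) (nat_lit 2187469480) (nat_lit 76) (nat_lit 3355168397) (nat_lit 0) (nat_lit 3355168397) (nat_lit 394) (nat_lit 1) (nat_lit 378) (nat_lit 1) (nat_lit 377) (nat_lit 1) (nat_lit 287) (nat_lit 370) (nat_lit 363)))) (XT.nd (nat_lit 78) (nat_lit 0) (nat_lit 0) (XT.lf (nat_lit 1292) (nat_lit 922112906) (nat_lit 0) (nat_lit 6928193725) (nat_lit 1216) (nat_lit 922112906) (nat_lit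 395) (nat_lit 1) (nat_lit 378) (nat_lit 1) (nat_lit 394) (nat_lit 1) (nat_lit 288) (nat_lit 370) (nat_lit 362)) (XT.nd (nat_lit 78) (nat_lit 0) (nat_lit 76) (XT.lf (nat_lit 1292) (nat_lit 1443056064) (nat_lit 76) (nat_lit 3602825211) (nat_lit 0) (nat_lit 3602825211) (nat_lit 395) (nat_lit 1) (nat_lit 379) (nat_lit 1) (nat_lit 378) (nat_lit 1) (nat_lit 289) (nat_lit 370) (nat_lit 361)) (XT.lf (nat_lit 1292) (nat_lit 519641594) (nat_lit 0) (nat_lit 7488897393) (nat_lit 1216) (nat_lit 519641594) (nat_lit 396) (nat_lit 1) (nat_lit 379) (nat_lit 1) (nat_lit 395) (nat_lit 1) (nat_lit 290) (nat_lit 370) (nat_lit 360)))))) (XT.nd (nat_lit 390) (nat_lit 1292) (nat_lit 0) (XT.nd (nat_lit 156) (nat_lit 1216) (nat_lit 0) (XT.nd (nat_lit 78) (nat_lit 0) (nat_lit 76) (XT.lf (nat_lit 1292) (nat_lit 573850124) (nat_lit 76) (nat_lit 3917588276) (nat_lit 0) (nat_lit 3917588276) (nat_lit 396) (nat_lit 1) (nat_lit 380)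 (nat_lit 1) (nat_lit 379) (nat_lit 1) (nat_lit 291) (nat_lit 370) (nat_lit 359)) (XT.lf (nat_lit 1292) (nat_lit 58145839) (nat_lit 0) (nat_lit 8176886110) (nat_lit 1216) (nat_lit 58145839) (nat_lit 397) (nat_lit 1) (nat_lit 380) (nat_lit 1) (nat_lit 396) (nat_lit 1) (nat_lit 292) (nat_lit 370) (nat_lit 358))) (XT.nd (nat_lit 78) (nat_lit 0) (nat_lit 0) (XT.lf (nat_lit 1368) (nat_lit 3889054384) (nat_lit 0) (nat_lit 400141765) (nat_lit 1292) (nat_lit 3889054384) (nat_lit 381) (nat_lit 1) (nat_lit 363) (nat_lit 1) (nat_lit 380) (nat_lit 1) (nat_lit 293) (nat_lit 370) (nat_lit 357)) (XT.nd (nat_lit 78) (nat_lit 0) (nat_lit 76) (XT.lf (nat_lit 1368) (nat_lit 7162255715) (nat_lit 76) (nat_lit 452117624) (nat_lit 0) (nat_lit 452117624) (nat_lit 381) (nat_lit 1) (nat_lit 364) (nat_lit 1) (nat_lit 363) (nat_lit 1) (nat_lit 294) (nat_lit 370) (nat_lit 356)) (XT.lf (nat_lit 1368) (nat_lit 3246713353) (nat_lit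 0) (nat_lit 1462494382) (nat_lit 1292) (nat_lit 3246713353) (nat_lit 382) (nat_lit 1) (nat_lit 364) (nat_lit 1) (nat_lit 381) (nat_lit 1) (nat_lit 295) (nat_lit 370) (nat_lit 355))))) (XT.nd (nat_lit 234) (nat_lit 608) (nat_lit 0) (XT.nd (nat_lit 78) (nat_lit 760) (nat_lit 0) (XT.lf (nat_lit 1368) (nat_lit 5829739975) (nat_lit 76) (nat_lit 1009207051) (nat_lit 0) (nat_lit 1009207051) (nat_lit 382) (nat_lit 1) (nat_lit 365) (nat_lit 1) (nat_lit 364) (nat_lit 1) (nat_lit 296) (nat_lit 370) (nat_lit 354)) (XT.nd (nat_lit 78) (nat_lit 836) (nat_lit 0) (XT.lf (nat_lit 76) (nat_lit 2563831863) (nat_lit 0) (nat_lit 2614181015) (nat_lit 1292) (nat_lit 2563831863) (nat_lit 366) (nat_lit 1) (nat_lit 365) (nat_lit 1) (nat_lit 382) (nat_lit 1) (nat_lit 297) (nat_lit 370) (nat_lit 353)) (XT.lf (nat_lit 912) (nat_lit 4420407076) (nat_lit 0) (nat_lit 1608739118) (nat_lit 836) (nat_lit 1608739118) (nat_lit 366) (nat_lit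 1) (nat_lit 354) (nat_lit 1) (nat_lit 365) (nat_lit 1) (nat_lit 298) (nat_lit 370) (nat_lit 352)))) (XT.nd (nat_lit 78) (nat_lit 608) (nat_lit 0) (XT.lf (nat_lit 76) (nat_lit 1844991863) (nat_lit 0) (nat_lit 3845695351) (nat_lit 912) (nat_lit 1844991863) (nat_lit 355) (nat_lit 1) (nat_lit 354) (nat_lit 1) (nat_lit 366) (nat_lit 1) (nat_lit 299) (nat_lit 370) (nat_lit 351)) (XT.nd (nat_lit 78) (nat_lit 0) (nat_lit 0) (XT.lf (nat_lit 684) (nat_lit 2943131948) (nat_lit 0) (nat_lit 2246109816) (nat_lit 608) (nat_lit 2246109816) (nat_lit 355) (nat_lit 1) (nat_lit 346) (nat_lit 1) (nat_lit 354) (nat_lit 1) (nat_lit 300) (nat_lit 370) (nat_lit 350)) (XT.lf (nat_lit 76) (nat_lit 1094446607) (nat_lit 0) (nat_lit 5148204294) (nat_lit 684) (nat_lit 1094446607) (nat_lit 347) (nat_lit 1) (nat_lit 346) (nat_lit 1) (nat_lit 355) (nat_lit 1) (nat_lit 301) (nat_lit 370) (nat_lit 349))))))) (XT.nd (nat_lit 858) (nat_lit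 3040) (nat_lit 0) (XT.nd (nat_lit 390) (nat_lit 2128) (nat_lit 0) (XT.nd (nat_lit 156) (nat_lit 1216) (nat_lit 0) (XT.nd (nat_lit 78) (nat_lit 0) (nat_lit 0) (XT.lf (nat_lit 684) (nat_lit 1406150007) (nat_lit 0) (nat_lit 2917042561) (nat_lit 608) (nat_lit 2917042561) (nat_lit 347) (nat_lit 1) (nat_lit 338) (nat_lit 1) (nat_lit 346) (nat_lit 1) (nat_lit 302) (nat_lit 370) (nat_lit 348)) (XT.lf (nat_lit 76) (nat_lit 316141434) (nat_lit 0) (nat_lit 6513505613) (nat_lit 684) (nat_lit 316141434) (nat_lit 339) (nat_lit 1) (nat_lit 338) (nat_lit 1) (nat_lit 347) (nat_lit 1) (nat_lit 303) (nat_lit 370) (nat_lit 347))) (XT.nd (nat_lit 78) (nat_lit 608) (nat_lit 0) (XT.lf (nat_lit 76) (nat_lit 3436423379) (nat_lit 0) (nat_lit 179333264) (nat_lit 608) (nat_lit 3436423379) (nat_lit 331) (nat_lit 1) (nat_lit 330) (nat_lit 1) (nat_lit 338) (nat_lit 1) (nat_lit 304) (nat_lit 370) (nat_lit 346)) (XT.nd (nat_lit 78)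 (nat_lit 0) (nat_lit 0) (XT.lf (nat_lit 684) (nat_lit 5997892226) (nat_lit 0) (nat_lit 481499375) (nat_lit 608) (nat_lit 481499375) (nat_lit 331) (nat_lit 1) (nat_lit 322) (nat_lit 1) (nat_lit 330) (nat_lit 1) (nat_lit 305) (nat_lit 370) (nat_lit 345)) (XT.lf (nat_lit 76) (nat_lit 2544518367) (nat_lit 0) (nat_lit 1781494438) (nat_lit 684) (nat_lit 2544518367) (nat_lit 323) (nat_lit 1) (nat_lit 322) (nat_lit 1) (nat_lit 331) (nat_lit 1) (nat_lit 306) (nat_lit 370) (nat_lit 344))))) (XT.nd (nat_lit 234) (nat_lit 1064) (nat_lit 0) (XT.nd (nat_lit 78) (nat_lit 532) (nat_lit 0) (XT.lf (nat_lit 608) (nat_lit 4189187129) (nat_lit 0) (nat_lit 1296553684) (nat_lit 532) (nat_lit 1296553684) (nat_lit 323) (nat_lit 1) (nat_lit 315) (nat_lit 1) (nat_lit 322) (nat_lit 1) (nat_lit 307) (nat_lit 370) (nat_lit 343)) (XT.nd (nat_lit 78) (nat_lit 532) (nat_lit 0) (XT.lf (nat_lit 76) (nat_lit 1637034818) (nat_lit 0) (nat_lit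 3421350118) (nat_lit 608) (nat_lit 1637034818) (nat_lit 316) (nat_lit 1) (nat_lit 315) (nat_lit 1) (nat_lit 323) (nat_lit 1) (nat_lit 308) (nat_lit 370) (nat_lit 342)) (XT.lf (nat_lit 608) (nat_lit 2352063402) (nat_lit 0) (nat_lit 2129017485) (nat_lit 532) (nat_lit 2129017485) (nat_lit 316) (nat_lit 1) (nat_lit 308) (nat_lit 1) (nat_lit 315) (nat_lit 1) (nat_lit 309) (nat_lit 370) (nat_lit 341)))) (XT.nd (nat_lit 78) (nat_lit 1064) (nat_lit 0) (XT.lf (nat_lit 76) (nat_lit 716811981) (nat_lit 0) (nat_lit 5092959832) (nat_lit 608) (nat_lit 716811981) (nat_lit 309) (nat_lit 1) (nat_lit 308) (nat_lit 1) (nat_lit 316) (nat_lit 1) (nat_lit 310) (nat_lit 370) (nat_lit 340)) (XT.nd (nat_lit 78) (nat_lit 608) (nat_lit 0) (XT.lf (nat_lit 532) (nat_lit 492004207) (nat_lit 0) (nat_lit 2976021586) (nat_lit 456) (nat_lit 2976021586) (nat_lit 309) (nat_lit 1) (nat_lit 302) (nat_lit 1) (nat_lit 308) (nat_lit 1) (nat_lit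 311) (nat_lit 370) (nat_lit 339)) (XT.lf (nat_lit 608) (nat_lit 5940651317) (nat_lit 0) (nat_lit 211437092) (nat_lit 532) (nat_lit 211437092) (nat_lit 302) (nat_lit 1) (nat_lit 294) (nat_lit 1) (nat_lit 301) (nat_lit 1) (nat_lit 312) (nat_lit 370) (nat_lit 338)))))) (XT.nd (nat_lit 468) (nat_lit 1672) (nat_lit 0) (XT.nd (nat_lit 234) (nat_lit 912) (nat_lit 0) (XT.nd (nat_lit 78) (nat_lit 456) (nat_lit 0) (XT.lf (nat_lit 76) (nat_lit 2462304173) (nat_lit 0) (nat_lit 1358889668) (nat_lit 608) (nat_lit 2462304173) (nat_lit 295) (nat_lit 1) (nat_lit 294) (nat_lit 1) (nat_lit 302) (nat_lit 1) (nat_lit 313) (nat_lit 370) (nat_lit 337)) (XT.nd (nat_lit 78) (nat_lit 0) (nat_lit 0) (XT.lf (nat_lit 532) (nat_lit 3924836412) (nat_lit 0) (nat_lit 1140288490) (nat_lit 456) (nat_lit 1140288490) (nat_lit 295) (nat_lit 1) (nat_lit 288) (nat_lit 1) (nat_lit 294) (nat_lit 1) (nat_lit 314) (nat_lit 370) (nat_lit 336))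 (XT.lf (nat_lit 76) (nat_lit 1457662141) (nat_lit 0) (nat_lit 3213146960) (nat_lit 532) (nat_lit 1457662141) (nat_lit 289) (nat_lit 1) (nat_lit 288) (nat_lit 1) (nat_lit 295) (nat_lit 1) (nat_lit 315) (nat_lit 370) (nat_lit 335)))) (XT.nd (nat_lit 78) (nat_lit 456) (nat_lit 0) (XT.lf (nat_lit 532) (nat_lit 1903713978) (nat_lit 0) (nat_lit 2074569315) (nat_lit 456) (nat_lit 2074569315) (nat_lit 289) (nat_lit 1) (nat_lit 282) (nat_lit 1) (nat_lit 288) (nat_lit 1) (nat_lit 316) (nat_lit 370) (nat_lit 334)) (XT.nd (nat_lit 78) (nat_lit 456) (nat_lit 0) (XT.lf (nat_lit 76) (nat_lit 451359699) (nat_lit 0) (nat_lit 5076168070) (nat_lit 532) (nat_lit 451359699) (nat_lit 283) (nat_lit 1) (nat_lit 282) (nat_lit 1) (nat_lit 289) (nat_lit 1) (nat_lit 317) (nat_lit 370) (nat_lit 333)) (XT.lf (nat_lit 76) (nat_lit 2894513205) (nat_lit 0) (nat_lit 116566452) (nat_lit 456) (nat_lit 2894513205) (nat_lit 277) (nat_lit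 1) (nat_lit 276) (nat_lit 1) (nat_lit 282) (nat_lit 1) (nat_lit 318) (nat_lit 370) (nat_lit 332))))) (XT.nd (nat_lit 234) (nat_lit 836) (nat_lit 0) (XT.nd (nat_lit 78) (nat_lit 380) (nat_lit 0) (XT.lf (nat_lit 532) (nat_lit 4735210258) (nat_lit 0) (nat_lit 549340735) (nat_lit 456) (nat_lit 549340735) (nat_lit 277) (nat_lit 1) (nat_lit 270) (nat_lit 1) (nat_lit 276) (nat_lit 1) (nat_lit 319) (nat_lit 370) (nat_lit 331)) (XT.nd (nat_lit 78) (nat_lit 380) (nat_lit 0) (XT.lf (nat_lit 76) (nat_lit 1832602255) (nat_lit 0) (nat_lit 2097708935) (nat_lit 532) (nat_lit 1832602255) (nat_lit 271) (nat_lit 1) (nat_lit 270) (nat_lit 1) (nat_lit 277) (nat_lit 1) (nat_lit 320) (nat_lit 370) (nat_lit 330)) (XT.lf (nat_lit 456) (nat_lit 2605798205) (nat_lit 0) (nat_lit 1543802641) (nat_lit 380) (nat_lit 1543802641) (nat_lit 271) (nat_lit 1) (nat_lit 265) (nat_lit 1) (nat_lit 270) (nat_lit 1) (nat_lit 321) (nat_lit 370)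 (nat_lit 329)))) (XT.nd (nat_lit 78) (nat_lit 836) (nat_lit 0) (XT.lf (nat_lit 76) (nat_lit 775724206) (nat_lit 0) (nat_lit 4073718225) (nat_lit 456) (nat_lit 775724206) (nat_lit 266) (nat_lit 1) (nat_lit 265) (nat_lit 1) (nat_lit 271) (nat_lit 1) (nat_lit 322) (nat_lit 370) (nat_lit 328)) (XT.nd (nat_lit 78) (nat_lit 456) (nat_lit 0) (XT.lf (nat_lit 456) (nat_lit 487869422) (nat_lit 0) (nat_lit 2534942294) (nat_lit 380) (nat_lit 2534942294) (nat_lit 266) (nat_lit 1) (nat_lit 260) (nat_lit 1) (nat_lit 265) (nat_lit 1) (nat_lit 323) (nat_lit 370) (nat_lit 327)) (XT.lf (nat_lit 456) (nat_lit 4947671538) (nat_lit 0) (nat_lit 272087033) (nat_lit 380) (nat_lit 272087033) (nat_lit 260) (nat_lit 1) (nat_lit 254) (nat_lit 1) (nat_lit 259) (nat_lit 1) (nat_lit 324) (nat_lit 370) (nat_lit 326))))))))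
noncomputable def ec70 : XT := (XT.nd (nat_lit 1716) (nat_lit 2964) (nat_lit 0) (XT.nd (nat_lit 858) (nat_lit 2052) (nat_lit 0) (XT.nd (nat_lit 390) (nat_lit 988) (nat_lit 0) (XT.nd (nat_lit 156) (nat_lit 760) (nat_lit 0) (XT.nd (nat_lit 78) (nat_lit 380) (nat_lit 0) (XT.lf (nat_lit 76) (nat_lit 1920909095) (nat_lit 0) (nat_lit 1584475278) (nat_lit 456) (nat_lit 1920909095) (nat_lit 255) (nat_lit 1) (nat_lit 254) (nat_lit 1) (nat_lit 260) (nat_lit 1) (nat_lit 325) (nat_lit 370) (nat_lit 325)) (XT.lf (nat_lit 456) (nat_lit 2752640091) (nat_lit 0) (nat_lit 1304779037) (nat_lit 380) (nat_lit 1304779037) (nat_lit 255) (nat_lit 1) (nat_lit 249) (nat_lit 1) (nat_lit 254) (nat_lit 1) (nat_lit 326) (nat_lit 370) (nat_lit 324))) (XT.nd (nat_lit 78) (nat_lit 760) (nat_lit 0) (XT.lf (nat_lit 76) (nat_lit 833965882) (nat_lit 0) (nat_lit 3631244153) (nat_lit 456) (nat_lit 833965882) (nat_lit 250) (nat_lit 1) (nat_lit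 249) (nat_lit 1) (nat_lit 255) (nat_lit 1) (nat_lit 327) (nat_lit 370) (nat_lit 323)) (XT.nd (nat_lit 78) (nat_lit 456) (nat_lit 0) (XT.lf (nat_lit 380) (nat_lit 579216450) (nat_lit 0) (nat_lit 2328867955) (nat_lit 304) (nat_lit 2328867955) (nat_lit 250) (nat_lit 1) (nat_lit 245) (nat_lit 1) (nat_lit 249) (nat_lit 1) (nat_lit 328) (nat_lit 370) (nat_lit 322)) (XT.lf (nat_lit 456) (nat_lit 4697310727) (nat_lit 0) (nat_lit 239391549) (nat_lit 380) (nat_lit 239391549) (nat_lit 245) (nat_lit 1) (nat_lit 239) (nat_lit 1) (nat_lit 244) (nat_lit 1) (nat_lit 329) (nat_lit 370) (nat_lit 321))))) (XT.nd (nat_lit 234) (nat_lit 684) (nat_lit 0) (XT.nd (nat_lit 78) (nat_lit 304) (nat_lit 0) (XT.lf (nat_lit 76) (nat_lit 1787671972) (nat_lit 0) (nat_lit 1540147153) (nat_lit 456) (nat_lit 1787671972) (nat_lit 240) (nat_lit 1) (nat_lit 239) (nat_lit 1) (nat_lit 245) (nat_lit 1) (nat_lit 330) (nat_lit 370) (nat_lit 320))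 (XT.nd (nat_lit 78) (nat_lit 0) (nat_lit 0) (XT.lf (nat_lit 380) (nat_lit 2470956323) (nat_lit 0) (nat_lit 1292628691) (nat_lit 304) (nat_lit 1292628691) (nat_lit 240) (nat_lit 1) (nat_lit 235) (nat_lit 1) (nat_lit 239) (nat_lit 1) (nat_lit 331) (nat_lit 370) (nat_lit 319)) (XT.lf (nat_lit 76) (nat_lit 687135208) (nat_lit 0) (nat_lit 3623679852) (nat_lit 380) (nat_lit 687135208) (nat_lit 236) (nat_lit 1) (nat_lit 235) (nat_lit 1) (nat_lit 240) (nat_lit 1) (nat_lit 332) (nat_lit 370) (nat_lit 318)))) (XT.nd (nat_lit 78) (nat_lit 380) (nat_lit 0) (XT.lf (nat_lit 380) (nat_lit 274000547) (nat_lit 0) (nat_lit 2333174267) (nat_lit 304) (nat_lit 2333174267) (nat_lit 236) (nat_lit 1) (nat_lit 231) (nat_lit 1) (nat_lit 235) (nat_lit 1) (nat_lit 333) (nat_lit 370) (nat_lit 317)) (XT.nd (nat_lit 78) (nat_lit 0) (nat_lit 0) (XT.lf (nat_lit 380) (nat_lit 4094762212) (nat_lit 0) (nat_lit 394561205) (nat_lit 304)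 (nat_lit 394561205) (nat_lit 231) (nat_lit 1) (nat_lit 226) (nat_lit 1) (nat_lit 230) (nat_lit 1) (nat_lit 334) (nat_lit 370) (nat_lit 316)) (XT.lf (nat_lit 76) (nat_lit 1486178115) (nat_lit 0) (nat_lit 1855450975) (nat_lit 380) (nat_lit 1486178115) (nat_lit 227) (nat_lit 1) (nat_lit 226) (nat_lit 1) (nat_lit 231) (nat_lit 1) (nat_lit 335) (nat_lit 370) (nat_lit 315)))))) (XT.nd (nat_lit 390) (nat_lit 1140) (nat_lit 0) (XT.nd (nat_lit 156) (nat_lit 608) (nat_lit 0) (XT.nd (nat_lit 78) (nat_lit 0) (nat_lit 0) (XT.lf (nat_lit 380) (nat_lit 1864450989) (nat_lit 0) (nat_lit 1454191148) (nat_lit 304) (nat_lit 1454191148) (nat_lit 227) (nat_lit 1) (nat_lit 222) (nat_lit 1) (nat_lit 226) (nat_lit 1) (nat_lit 336) (nat_lit 370) (nat_lit 314)) (XT.lf (nat_lit 76) (nat_lit 385177461) (nat_lit 0) (nat_lit 3948567958) (nat_lit 380) (nat_lit 385177461) (nat_lit 223) (nat_lit 1) (nat_lit 222) (nat_lit 1) (nat_lit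 227) (nat_lit 1) (nat_lit 337) (nat_lit 370) (nat_lit 313))) (XT.nd (nat_lit 78) (nat_lit 304) (nat_lit 0) (XT.lf (nat_lit 76) (nat_lit 2170612513) (nat_lit 0) (nat_lit 324134801) (nat_lit 304) (nat_lit 2170612513) (nat_lit 219) (nat_lit 1) (nat_lit 218) (nat_lit 1) (nat_lit 222) (nat_lit 1) (nat_lit 338) (nat_lit 370) (nat_lit 312)) (XT.nd (nat_lit 78) (nat_lit 0) (nat_lit 0) (XT.lf (nat_lit 380) (nat_lit 3230331868) (nat_lit 0) (nat_lit 691249447) (nat_lit 304) (nat_lit 691249447) (nat_lit 219) (nat_lit 1) (nat_lit 214) (nat_lit 1) (nat_lit 218) (nat_lit 1) (nat_lit 339) (nat_lit 370) (nat_lit 311)) (XT.lf (nat_lit 76) (nat_lit 1059905668) (nat_lit 0) (nat_lit 2441088777) (nat_lit 380) (nat_lit 1059905668) (nat_lit 215) (nat_lit 1) (nat_lit 214) (nat_lit 1) (nat_lit 219) (nat_lit 1) (nat_lit 340) (nat_lit 370) (nat_lit 310))))) (XT.nd (nat_lit 234) (nat_lit 532) (nat_lit 0) (XT.nd (nat_lit 78) (nat_lit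 380) (nat_lit 0) (XT.lf (nat_lit 304) (nat_lit 1017703822) (nat_lit 0) (nat_lit 1746040565) (nat_lit 228) (nat_lit 1746040565) (nat_lit 215) (nat_lit 1) (nat_lit 211) (nat_lit 1) (nat_lit 214) (nat_lit 1) (nat_lit 341) (nat_lit 370) (nat_lit 309)) (XT.nd (nat_lit 78) (nat_lit 0) (nat_lit 0) (XT.lf (nat_lit 380) (nat_lit 4398060756) (nat_lit 0) (nat_lit 30884091) (nat_lit 304) (nat_lit 30884091) (nat_lit 211) (nat_lit 1) (nat_lit 206) (nat_lit 1) (nat_lit 210) (nat_lit 1) (nat_lit 342) (nat_lit 370) (nat_lit 308)) (XT.lf (nat_lit 76) (nat_lit 1638489627) (nat_lit 0) (nat_lit 1132795459) (nat_lit 380) (nat_lit 1638489627) (nat_lit 207) (nat_lit 1) (nat_lit 206) (nat_lit 1) (nat_lit 211) (nat_lit 1) (nat_lit 343) (nat_lit 370) (nat_lit 307)))) (XT.nd (nat_lit 78) (nat_lit 304) (nat_lit 0) (XT.lf (nat_lit 304) (nat_lit 2177444774) (nat_lit 0) (nat_lit 1091705066) (nat_lit 228) (nat_lit 1091705066) (nat_lit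 207) (nat_lit 1) (nat_lit 203) (nat_lit 1) (nat_lit 206) (nat_lit 1) (nat_lit 344) (nat_lit 370) (nat_lit 306)) (XT.nd (nat_lit 78) (nat_lit 304) (nat_lit 0) (XT.lf (nat_lit 76) (nat_lit 544188355) (nat_lit 0) (nat_lit 3224355311) (nat_lit 304) (nat_lit 544188355) (nat_lit 204) (nat_lit 1) (nat_lit 203) (nat_lit 1) (nat_lit 207) (nat_lit 1) (nat_lit 345) (nat_lit 370) (nat_lit 305)) (XT.lf (nat_lit 76) (nat_lit 2132259500) (nat_lit 0) (nat_lit 570888) (nat_lit 304) (nat_lit 2132259500) (nat_lit 200) (nat_lit 1) (nat_lit 199) (nat_lit 1) (nat_lit 203) (nat_lit 1) (nat_lit 346) (nat_lit 370) (nat_lit 304))))))) (XT.nd (nat_lit 858) (nat_lit 1368) (nat_lit 0) (XT.nd (nat_lit 390) (nat_lit 836) (nat_lit 0) (XT.nd (nat_lit 156) (nat_lit 532) (nat_lit 0) (XT.nd (nat_lit 78) (nat_lit 0) (nat_lit 0) (XT.lf (nat_lit 304) (nat_lit 3170775275) (nat_lit 0) (nat_lit 523723714) (nat_lit 228) (nat_lit 523723714) (nat_lit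 200) (nat_lit 1) (nat_lit 196) (nat_lit 1) (nat_lit 199) (nat_lit 1) (nat_lit 347) (nat_lit 370) (nat_lit 303)) (XT.lf (nat_lit 76) (nat_lit 1038747174) (nat_lit 0) (nat_lit 2094311850) (nat_lit 304) (nat_lit 1038747174) (nat_lit 197) (nat_lit 1) (nat_lit 196) (nat_lit 1) (nat_lit 200) (nat_lit 1) (nat_lit 348) (nat_lit 370) (nat_lit 302))) (XT.nd (nat_lit 78) (nat_lit 304) (nat_lit 0) (XT.lf (nat_lit 304) (nat_lit 995524087) (nat_lit 0) (nat_lit 1565309755) (nat_lit 228) (nat_lit 1565309755) (nat_lit 197) (nat_lit 1) (nat_lit 193) (nat_lit 1) (nat_lit 196) (nat_lit 1) (nat_lit 349) (nat_lit 370) (nat_lit 301)) (XT.nd (nat_lit 78) (nat_lit 0) (nat_lit 0) (XT.lf (nat_lit 304) (nat_lit 4017332371) (nat_lit 0) (nat_lit 32076981) (nat_lit 228) (nat_lit 32076981) (nat_lit 193) (nat_lit 1) (nat_lit 189) (nat_lit 1) (nat_lit 192) (nat_lit 1) (nat_lit 350) (nat_lit 370) (nat_lit 300)) (XT.lf (nat_lit 76) (nat_lit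 1461984157) (nat_lit 0) (nat_lit 1112724213) (nat_lit 304) (nat_lit 1461984157) (nat_lit 190) (nat_lit 1) (nat_lit 189) (nat_lit 1) (nat_lit 193) (nat_lit 1) (nat_lit 351) (nat_lit 370) (nat_lit 299))))) (XT.nd (nat_lit 234) (nat_lit 380) (nat_lit 0) (XT.nd (nat_lit 78) (nat_lit 228) (nat_lit 0) (XT.lf (nat_lit 304) (nat_lit 1851540752) (nat_lit 0) (nat_lit 1070672452) (nat_lit 228) (nat_lit 1070672452) (nat_lit 190) (nat_lit 1) (nat_lit 186) (nat_lit 1) (nat_lit 189) (nat_lit 1) (nat_lit 352) (nat_lit 370) (nat_lit 298)) (XT.nd (nat_lit 78) (nat_lit 228) (nat_lit 0) (XT.lf (nat_lit 76) (nat_lit 396008428) (nat_lit 0) (nat_lit 3157803911) (nat_lit 304) (nat_lit 396008428) (nat_lit 187) (nat_lit 1) (nat_lit 186) (nat_lit 1) (nat_lit 190) (nat_lit 1) (nat_lit 353) (nat_lit 370) (nat_lit 297)) (XT.lf (nat_lit 76) (nat_lit 1822323645) (nat_lit 0) (nat_lit 262384022) (nat_lit 228) (nat_lit 1822323645) (nat_lit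 184) (nat_lit 1) (nat_lit 183) (nat_lit 1) (nat_lit 186) (nat_lit 1) (nat_lit 354) (nat_lit 370) (nat_lit 296)))) (XT.nd (nat_lit 78) (nat_lit 152) (nat_lit 0) (XT.lf (nat_lit 304) (nat_lit 2583934535) (nat_lit 0) (nat_lit 640516478) (nat_lit 228) (nat_lit 640516478) (nat_lit 184) (nat_lit 1) (nat_lit 180) (nat_lit 1) (nat_lit 183) (nat_lit 1) (nat_lit 355) (nat_lit 370) (nat_lit 295)) (XT.nd (nat_lit 78) (nat_lit 152) (nat_lit 0) (XT.lf (nat_lit 76) (nat_lit 764266408) (nat_lit 0) (nat_lit 2294850863) (nat_lit 304) (nat_lit 764266408) (nat_lit 181) (nat_lit 1) (nat_lit 180) (nat_lit 1) (nat_lit 184) (nat_lit 1) (nat_lit 356) (nat_lit 370) (nat_lit 294)) (XT.lf (nat_lit 228) (nat_lit 481372415) (nat_lit 0) (nat_lit 1650491667) (nat_lit 152) (nat_lit 1650491667) (nat_lit 181) (nat_lit 1) (nat_lit 178) (nat_lit 1) (nat_lit 180) (nat_lit 1) (nat_lit 357) (nat_lit 370) (nat_lit 293)))))) (XT.nd (nat_lit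 390) (nat_lit 684) (nat_lit 0) (XT.nd (nat_lit 156) (nat_lit 380) (nat_lit 0) (XT.nd (nat_lit 78) (nat_lit 0) (nat_lit 0) (XT.lf (nat_lit 304) (nat_lit 3207311355) (nat_lit 0) (nat_lit 267379791) (nat_lit 228) (nat_lit 267379791) (nat_lit 178) (nat_lit 1) (nat_lit 174) (nat_lit 1) (nat_lit 177) (nat_lit 1) (nat_lit 358) (nat_lit 370) (nat_lit 292)) (XT.lf (nat_lit 76) (nat_lit 1079446676) (nat_lit 0) (nat_lit 1543006423) (nat_lit 304) (nat_lit 1079446676) (nat_lit 175) (nat_lit 1) (nat_lit 174) (nat_lit 1) (nat_lit 178) (nat_lit 1) (nat_lit 359) (nat_lit 370) (nat_lit 291))) (XT.nd (nat_lit 78) (nat_lit 228) (nat_lit 0) (XT.lf (nat_lit 228) (nat_lit 1125884284) (nat_lit 0) (nat_lit 1268286878) (nat_lit 152) (nat_lit 1268286878) (nat_lit 175) (nat_lit 1) (nat_lit 172) (nat_lit 1) (nat_lit 174) (nat_lit 1) (nat_lit 360) (nat_lit 370) (nat_lit 290)) (XT.nd (nat_lit 78) (nat_lit 228) (nat_lit 0) (XT.lf (nat_lit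 76) (nat_lit 55907744) (nat_lit 0) (nat_lit 3512024926) (nat_lit 228) (nat_lit 55907744) (nat_lit 173) (nat_lit 1) (nat_lit 172) (nat_lit 1) (nat_lit 175) (nat_lit 1) (nat_lit 361) (nat_lit 370) (nat_lit 289)) (XT.lf (nat_lit 76) (nat_lit 1347817956) (nat_lit 0) (nat_lit 889447196) (nat_lit 228) (nat_lit 1347817956) (nat_lit 170) (nat_lit 1) (nat_lit 169) (nat_lit 1) (nat_lit 172) (nat_lit 1) (nat_lit 362) (nat_lit 370) (nat_lit 288))))) (XT.nd (nat_lit 234) (nat_lit 304) (nat_lit 0) (XT.nd (nat_lit 78) (nat_lit 228) (nat_lit 0) (XT.lf (nat_lit 228) (nat_lit 1678189068) (nat_lit 0) (nat_lit 934474338) (nat_lit 152) (nat_lit 934474338) (nat_lit 170) (nat_lit 1) (nat_lit 167) (nat_lit 1) (nat_lit 169) (nat_lit 1) (nat_lit 363) (nat_lit 370) (nat_lit 287)) (XT.nd (nat_lit 78) (nat_lit 228) (nat_lit 0) (XT.lf (nat_lit 76) (nat_lit 336880432) (nat_lit 0) (nat_lit 2836052768) (nat_lit 228) (nat_lit 336880432)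 (nat_lit 168) (nat_lit 1) (nat_lit 167) (nat_lit 1) (nat_lit 170) (nat_lit 1) (nat_lit 364) (nat_lit 370) (nat_lit 286)) (XT.lf (nat_lit 76) (nat_lit 1574939734) (nat_lit 0) (nat_lit 322792386) (nat_lit 228) (nat_lit 1574939734) (nat_lit 165) (nat_lit 1) (nat_lit 164) (nat_lit 1) (nat_lit 167) (nat_lit 1) (nat_lit 365) (nat_lit 370) (nat_lit 285)))) (XT.nd (nat_lit 78) (nat_lit 152) (nat_lit 0) (XT.lf (nat_lit 228) (nat_lit 2149161352) (nat_lit 0) (nat_lit 643489582) (nat_lit 152) (nat_lit 643489582) (nat_lit 165) (nat_lit 1) (nat_lit 162) (nat_lit 1) (nat_lit 164) (nat_lit 1) (nat_lit 366) (nat_lit 370) (nat_lit 284)) (XT.nd (nat_lit 78) (nat_lit 152) (nat_lit 0) (XT.lf (nat_lit 76) (nat_lit 578155770) (nat_lit 0) (nat_lit 2243741889) (nat_lit 228) (nat_lit 578155770) (nat_lit 163) (nat_lit 1) (nat_lit 162) (nat_lit 1) (nat_lit 165) (nat_lit 1) (nat_lit 367) (nat_lit 370) (nat_lit 283)) (XT.lf (nat_lit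 228) (nat_lit 170382215) (nat_lit 0) (nat_lit 1596997251) (nat_lit 152) (nat_lit 1596997251) (nat_lit 163) (nat_lit 1) (nat_lit 160) (nat_lit 1) (nat_lit 162) (nat_lit 1) (nat_lit 368) (nat_lit 370) (nat_lit 282))))))))
noncomputable def ec71 : XT := (XT.nd (nat_lit 46410) (nat_lit 0) (nat_lit 13528) (XT.nd (nat_lit 858) (nat_lit 532) (nat_lit 0) (XT.nd (nat_lit 390) (nat_lit 608) (nat_lit 0) (XT.nd (nat_lit 156) (nat_lit 380) (nat_lit 0) (XT.nd (nat_lit 78) (nat_lit 0) (nat_lit 0) (XT.lf (nat_lit 228) (nat_lit 2548445812) (nat_lit 0) (nat_lit 390393554) (nat_lit 152) (nat_lit 390393554) (nat_lit 160) (nat_lit 1) (nat_lit 157) (nat_lit 1) (nat_lit 159) (nat_lit 1) (nat_lit 369) (nat_lit 370) (nat_lit 281)) (XT.lf (nat_lit 76) (nat_lit 784404175) (nat_lit 0) (nat_lit 1725521760) (nat_lit 228) (nat_lit 784404175) (nat_lit 158) (nat_lit 1) (nat_lit 157) (nat_lit 1) (nat_lit 160) (nat_lit 1) (nat_lit 370)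 (nat_lit 370) (nat_lit 280))) (XT.nd (nat_lit 78) (nat_lit 228) (nat_lit 0) (XT.lf (nat_lit 228) (nat_lit 600787138) (nat_lit 0) (nat_lit 1329582011) (nat_lit 152) (nat_lit 1329582011) (nat_lit 158) (nat_lit 1) (nat_lit 155) (nat_lit 1) (nat_lit 157) (nat_lit 1) (nat_lit 371) (nat_lit 370) (nat_lit 279)) (XT.nd (nat_lit 78) (nat_lit 0) (nat_lit 0) (XT.lf (nat_lit 228) (nat_lit 2884594871) (nat_lit 0) (nat_lit 170802718) (nat_lit 152) (nat_lit 170802718) (nat_lit 155) (nat_lit 1) (nat_lit 152) (nat_lit 1) (nat_lit 154) (nat_lit 1) (nat_lit 372) (nat_lit 370) (nat_lit 278)) (XT.lf (nat_lit 76) (nat_lit 959768155) (nat_lit 0) (nat_lit 1272896116) (nat_lit 228) (nat_lit 959768155) (nat_lit 153) (nat_lit 1) (nat_lit 152) (nat_lit 1) (nat_lit 155) (nat_lit 1) (nat_lit 373) (nat_lit 370) (nat_lit 277))))) (XT.nd (nat_lit 234) (nat_lit 304) (nat_lit 0) (XT.nd (nat_lit 78) (nat_lit 152) (nat_lit 0) (XT.lf (nat_lit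 228) (nat_lit 970106878) (nat_lit 0) (nat_lit 1094588860) (nat_lit 152) (nat_lit 1094588860) (nat_lit 153) (nat_lit 1) (nat_lit 150) (nat_lit 1) (nat_lit 152) (nat_lit 1) (nat_lit 374) (nat_lit 370) (nat_lit 276)) (XT.nd (nat_lit 78) (nat_lit 152) (nat_lit 0) (XT.lf (nat_lit 76) (nat_lit 19362856) (nat_lit 0) (nat_lit 3088096772) (nat_lit 228) (nat_lit 19362856) (nat_lit 151) (nat_lit 1) (nat_lit 150) (nat_lit 1) (nat_lit 153) (nat_lit 1) (nat_lit 375) (nat_lit 370) (nat_lit 275)) (XT.lf (nat_lit 76) (nat_lit 1107921386) (nat_lit 0) (nat_lit 878322956) (nat_lit 152) (nat_lit 1107921386) (nat_lit 149) (nat_lit 1) (nat_lit 148) (nat_lit 1) (nat_lit 150) (nat_lit 1) (nat_lit 376) (nat_lit 370) (nat_lit 274)))) (XT.nd (nat_lit 78) (nat_lit 152) (nat_lit 0) (XT.lf (nat_lit 228) (nat_lit 1285534472) (nat_lit 0) (nat_lit 888326533) (nat_lit 152) (nat_lit 888326533) (nat_lit 149) (nat_lit 1) (nat_lit 146) (nat_lit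 1) (nat_lit 148) (nat_lit 1) (nat_lit 377) (nat_lit 370) (nat_lit 273)) (XT.nd (nat_lit 78) (nat_lit 152) (nat_lit 0) (XT.lf (nat_lit 76) (nat_lit 184797233) (nat_lit 0) (nat_lit 2661175568) (nat_lit 228) (nat_lit 184797233) (nat_lit 147) (nat_lit 1) (nat_lit 146) (nat_lit 1) (nat_lit 149) (nat_lit 1) (nat_lit 378) (nat_lit 370) (nat_lit 272)) (XT.lf (nat_lit 76) (nat_lit 1232121191) (nat_lit 0) (nat_lit 535107933) (nat_lit 152) (nat_lit 1232121191) (nat_lit 145) (nat_lit 1) (nat_lit 144) (nat_lit 1) (nat_lit 146) (nat_lit 1) (nat_lit 379) (nat_lit 370) (nat_lit 271)))))) (XT.nd (nat_lit 390) (nat_lit 76) (nat_lit 0) (XT.nd (nat_lit 156) (nat_lit 304) (nat_lit 0) (XT.nd (nat_lit 78) (nat_lit 0) (nat_lit 0) (XT.lf (nat_lit 228) (nat_lit 1553449734) (nat_lit 0) (nat_lit 707517598) (nat_lit 152) (nat_lit 707517598) (nat_lit 145) (nat_lit 1) (nat_lit 142) (nat_lit 1) (nat_lit 144) (nat_lit 1) (nat_lit 380)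 (nat_lit 370) (nat_lit 270)) (XT.lf (nat_lit 76) (nat_lit 326902168) (nat_lit 0) (nat_lit 2284266221) (nat_lit 228) (nat_lit 326902168) (nat_lit 143) (nat_lit 1) (nat_lit 142) (nat_lit 1) (nat_lit 145) (nat_lit 1) (nat_lit 381) (nat_lit 370) (nat_lit 269))) (XT.nd (nat_lit 78) (nat_lit 152) (nat_lit 0) (XT.lf (nat_lit 76) (nat_lit 1335255166) (nat_lit 0) (nat_lit 237309636) (nat_lit 152) (nat_lit 1335255166) (nat_lit 141) (nat_lit 1) (nat_lit 140) (nat_lit 1) (nat_lit 142) (nat_lit 1) (nat_lit 382) (nat_lit 370) (nat_lit 268)) (XT.nd (nat_lit 78) (nat_lit 0) (nat_lit 0) (XT.lf (nat_lit 228) (nat_lit 1779510265) (nat_lit 0) (nat_lit 549252241) (nat_lit 152) (nat_lit 549252241) (nat_lit 141) (nat_lit 1) (nat_lit 138) (nat_lit 1) (nat_lit 140) (nat_lit 1) (nat_lit 383) (nat_lit 370) (nat_lit 267)) (XT.lf (nat_lit 76) (nat_lit 448421371) (nat_lit 0) (nat_lit 1951721725) (nat_lit 228) (nat_lit 448421371)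 (nat_lit 139) (nat_lit 1) (nat_lit 138) (nat_lit 1) (nat_lit 141) (nat_lit 1) (nat_lit 384) (nat_lit 370) (nat_lit 266))))) (XT.nd (nat_lit 44928) (nat_lit 0) (nat_lit 18088) (XT.nd (nat_lit 44772) (nat_lit 0) (nat_lit 18012) (XT.lf (nat_lit 152) (nat_lit 20749457) (nat_lit 0) (nat_lit 1399332595) (nat_lit 76) (nat_lit 1399332595) (nat_lit 139) (nat_lit 1) (nat_lit 137) (nat_lit 1) (nat_lit 138) (nat_lit 1) (nat_lit 385) (nat_lit 370) (nat_lit 265)) (XT.nd (nat_lit 78) (nat_lit 0) (nat_lit 0) (XT.lf (nat_lit 1292) (nat_lit 932435163) (nat_lit 0) (nat_lit 3208010610) (nat_lit 1292) (nat_lit 932435163) (nat_lit 391) (nat_lit 1) (nat_lit 374) (nat_lit 0) (nat_lit 391) (nat_lit 0) (nat_lit 278) (nat_lit 371) (nat_lit 371)) (XT.lf (nat_lit 1292) (nat_lit 3643972959) (nat_lit 76) (nat_lit 3176559526) (nat_lit 0) (nat_lit 3176559526) (nat_lit 391) (nat_lit 1) (nat_lit 375) (nat_lit 1) (nat_lit 374) (nat_lit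 0) (nat_lit 279) (nat_lit 371) (nat_lit 370)))) (XT.nd (nat_lit 78) (nat_lit 0) (nat_lit 0) (XT.lf (nat_lit 1292) (nat_lit 1762312205) (nat_lit 0) (nat_lit 6327077082) (nat_lit 1216) (nat_lit 1762312205) (nat_lit 392) (nat_lit 1) (nat_lit 375) (nat_lit 1) (nat_lit 391) (nat_lit 1) (nat_lit 280) (nat_lit 371) (nat_lit 369)) (XT.nd (nat_lit 78) (nat_lit 0) (nat_lit 76) (XT.lf (nat_lit 1292) (nat_lit 3346721867) (nat_lit 76) (nat_lit 3181008540) (nat_lit 0) (nat_lit 3181008540) (nat_lit 392) (nat_lit 1) (nat_lit 376) (nat_lit 1) (nat_lit 375) (nat_lit 1) (nat_lit 281) (nat_lit 371) (nat_lit 368)) (XT.lf (nat_lit 1292) (nat_lit 1570432545) (nat_lit 0) (nat_lit 6428110146) (nat_lit 1216) (nat_lit 1570432545) (nat_lit 393) (nat_lit 1) (nat_lit 376) (nat_lit 1) (nat_lit 392) (nat_lit 1) (nat_lit 282) (nat_lit 371) (nat_lit 367))))))) (XT.nd (nat_lit 858) (nat_lit 3648) (nat_lit 0) (XT.nd (nat_lit 390) (nat_lit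 988) (nat_lit 0) (XT.nd (nat_lit 156) (nat_lit 0) (nat_lit 76) (XT.nd (nat_lit 78) (nat_lit 0) (nat_lit 76) (XT.lf (nat_lit 1292) (nat_lit 2877983455) (nat_lit 76) (nat_lit 3276731652) (nat_lit 0) (nat_lit 3276731652) (nat_lit 393) (nat_lit 1) (nat_lit 377) (nat_lit 1) (nat_lit 376) (nat_lit 1) (nat_lit 283) (nat_lit 371) (nat_lit 366)) (XT.lf (nat_lit 1292) (nat_lit 1297131840) (nat_lit 0) (nat_lit 6702830339) (nat_lit 1216) (nat_lit 1297131840) (nat_lit 394) (nat_lit 1) (nat_lit 377) (nat_lit 1) (nat_lit 393) (nat_lit 1) (nat_lit 284) (nat_lit 371) (nat_lit 365))) (XT.nd (nat_lit 78) (nat_lit 0) (nat_lit 76) (XT.lf (nat_lit 1292) (nat_lit 2253093565) (nat_lit 76) (nat_lit 3455823449) (nat_lit 0) (nat_lit 3455823449) (nat_lit 394) (nat_lit 1) (nat_lit 378) (nat_lit 1) (nat_lit 377) (nat_lit 1) (nat_lit 285) (nat_lit 371) (nat_lit 364)) (XT.nd (nat_lit 78) (nat_lit 0) (nat_lit 0) (XT.lf (nat_lit 1292)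 (nat_lit 949776293) (nat_lit 0) (nat_lit 7136039537) (nat_lit 1216) (nat_lit 949776293) (nat_lit 395) (nat_lit 1) (nat_lit 378) (nat_lit 1) (nat_lit 394) (nat_lit 1) (nat_lit 286) (nat_lit 371) (nat_lit 363)) (XT.lf (nat_lit 1292) (nat_lit 1486347746) (nat_lit 76) (nat_lit 3710909967) (nat_lit 0) (nat_lit 3710909967) (nat_lit 395) (nat_lit 1) (nat_lit 379) (nat_lit 1) (nat_lit 378) (nat_lit 1) (nat_lit 287) (nat_lit 371) (nat_lit 362))))) (XT.nd (nat_lit 234) (nat_lit 1216) (nat_lit 0) (XT.nd (nat_lit 78) (nat_lit 0) (nat_lit 0) (XT.lf (nat_lit 1292) (nat_lit 535230842) (nat_lit 0) (nat_lit 7713564315) (nat_lit 1216) (nat_lit 535230842) (nat_lit 396) (nat_lit 1) (nat_lit 379) (nat_lit 1) (nat_lit 395) (nat_lit 1) (nat_lit 288) (nat_lit 371) (nat_lit 361)) (XT.nd (nat_lit 78) (nat_lit 0) (nat_lit 76) (XT.lf (nat_lit 1292) (nat_lit 591065628) (nat_lit 76) (nat_lit 4035115924) (nat_lit 0) (nat_lit 4035115924)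 (nat_lit 396) (nat_lit 1) (nat_lit 380) (nat_lit 1) (nat_lit 379) (nat_lit 1) (nat_lit 289) (nat_lit 371) (nat_lit 360)) (XT.lf (nat_lit 1292) (nat_lit 59890214) (nat_lit 0) (nat_lit 8422192693) (nat_lit 1216) (nat_lit 59890214) (nat_lit 397) (nat_lit 1) (nat_lit 380) (nat_lit 1) (nat_lit 396) (nat_lit 1) (nat_lit 290) (nat_lit 371) (nat_lit 359)))) (XT.nd (nat_lit 78) (nat_lit 0) (nat_lit 0) (XT.lf (nat_lit 1368) (nat_lit 4005726015) (nat_lit 0) (nat_lit 412146018) (nat_lit 1292) (nat_lit 4005726015) (nat_lit 381) (nat_lit 1) (nat_lit 363) (nat_lit 1) (nat_lit 380) (nat_lit 1) (nat_lit 291) (nat_lit 371) (nat_lit 358)) (XT.nd (nat_lit 78) (nat_lit 0) (nat_lit 76) (XT.lf (nat_lit 1368) (nat_lit 7377123387) (nat_lit 76) (nat_lit 465681153) (nat_lit 0) (nat_lit 465681153) (nat_lit 381) (nat_lit 1) (nat_lit 364) (nat_lit 1) (nat_lit 363) (nat_lit 1) (nat_lit 292) (nat_lit 371) (nat_lit 357)) (XT.lf (nat_lit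 1368) (nat_lit 3344114754) (nat_lit 0) (nat_lit 1506369213) (nat_lit 1292) (nat_lit 3344114754) (nat_lit 382) (nat_lit 1) (nat_lit 364) (nat_lit 1) (nat_lit 381) (nat_lit 1) (nat_lit 293) (nat_lit 371) (nat_lit 356)))))) (XT.nd (nat_lit 468) (nat_lit 2356) (nat_lit 0) (XT.nd (nat_lit 234) (nat_lit 608) (nat_lit 0) (XT.nd (nat_lit 78) (nat_lit 760) (nat_lit 0) (XT.lf (nat_lit 1368) (nat_lit 6004632174) (nat_lit 76) (nat_lit 1039483263) (nat_lit 0) (nat_lit 1039483263) (nat_lit 382) (nat_lit 1) (nat_lit 365) (nat_lit 1) (nat_lit 364) (nat_lit 1) (nat_lit 294) (nat_lit 371) (nat_lit 355)) (XT.nd (nat_lit 78) (nat_lit 836) (nat_lit 0) (XT.lf (nat_lit 76) (nat_lit 2640746819) (nat_lit 0) (nat_lit 2692606446) (nat_lit 1292) (nat_lit 2640746819) (nat_lit 366) (nat_lit 1) (nat_lit 365) (nat_lit 1) (nat_lit 382) (nat_lit 1) (nat_lit 295) (nat_lit 371) (nat_lit 354)) (XT.lf (nat_lit 912) (nat_lit 4553019288) (nat_lit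 0) (nat_lit 1657001291) (nat_lit 836) (nat_lit 1657001291) (nat_lit 366) (nat_lit 1) (nat_lit 354) (nat_lit 1) (nat_lit 365) (nat_lit 1) (nat_lit 296) (nat_lit 371) (nat_lit 353)))) (XT.nd (nat_lit 78) (nat_lit 608) (nat_lit 0) (XT.lf (nat_lit 76) (nat_lit 1900341619) (nat_lit 0) (nat_lit 3961066211) (nat_lit 912) (nat_lit 1900341619) (nat_lit 355) (nat_lit 1) (nat_lit 354) (nat_lit 1) (nat_lit 366) (nat_lit 1) (nat_lit 297) (nat_lit 371) (nat_lit 352)) (XT.nd (nat_lit 78) (nat_lit 0) (nat_lit 0) (XT.lf (nat_lit 684) (nat_lit 3031425907) (nat_lit 0) (nat_lit 2313493110) (nat_lit 608) (nat_lit 2313493110) (nat_lit 355) (nat_lit 1) (nat_lit 346) (nat_lit 1) (nat_lit 354) (nat_lit 1) (nat_lit 298) (nat_lit 371) (nat_lit 351)) (XT.lf (nat_lit 76) (nat_lit 1127280005) (nat_lit 0) (nat_lit 5302650423) (nat_lit 684) (nat_lit 1127280005) (nat_lit 347) (nat_lit 1) (nat_lit 346) (nat_lit 1) (nat_lit 355) (nat_lit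 1) (nat_lit 299) (nat_lit 371) (nat_lit 350))))) (XT.nd (nat_lit 234) (nat_lit 1140) (nat_lit 0) (XT.nd (nat_lit 78) (nat_lit 608) (nat_lit 0) (XT.lf (nat_lit 684) (nat_lit 1448334507) (nat_lit 0) (nat_lit 3004553838) (nat_lit 608) (nat_lit 3004553838) (nat_lit 347) (nat_lit 1) (nat_lit 338) (nat_lit 1) (nat_lit 346) (nat_lit 1) (nat_lit 300) (nat_lit 371) (nat_lit 349)) (XT.nd (nat_lit 78) (nat_lit 608) (nat_lit 0) (XT.lf (nat_lit 76) (nat_lit 325625677) (nat_lit 0) (nat_lit 6708910781) (nat_lit 684) (nat_lit 325625677) (nat_lit 339) (nat_lit 1) (nat_lit 338) (nat_lit 1) (nat_lit 347) (nat_lit 1) (nat_lit 301) (nat_lit 371) (nat_lit 348)) (XT.lf (nat_lit 76) (nat_lit 3539516081) (nat_lit 0) (nat_lit 184713262) (nat_lit 608) (nat_lit 3539516081) (nat_lit 331) (nat_lit 1) (nat_lit 330) (nat_lit 1) (nat_lit 338) (nat_lit 1) (nat_lit 302) (nat_lit 371) (nat_lit 347)))) (XT.nd (nat_lit 78) (nat_lit 532)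 (nat_lit 0) (XT.lf (nat_lit 684) (nat_lit 6177828993) (nat_lit 0) (nat_lit 495944356) (nat_lit 608) (nat_lit 495944356) (nat_lit 331) (nat_lit 1) (nat_lit 322) (nat_lit 1) (nat_lit 330) (nat_lit 1) (nat_lit 303) (nat_lit 371) (nat_lit 346)) (XT.nd (nat_lit 78) (nat_lit 532) (nat_lit 0) (XT.lf (nat_lit 76) (nat_lit 2620853918) (nat_lit 0) (nat_lit 1834939271) (nat_lit 684) (nat_lit 2620853918) (nat_lit 323) (nat_lit 1) (nat_lit 322) (nat_lit 1) (nat_lit 331) (nat_lit 1) (nat_lit 304) (nat_lit 371) (nat_lit 345)) (XT.lf (nat_lit 608) (nat_lit 4314862743) (nat_lit 0) (nat_lit 1335450295) (nat_lit 532) (nat_lit 1335450295) (nat_lit 323) (nat_lit 1) (nat_lit 315) (nat_lit 1) (nat_lit 322) (nat_lit 1) (nat_lit 305) (nat_lit 371) (nat_lit 344))))))))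
noncomputable def ec72 : XT := (XT.nd (nat_lit 1716) (nat_lit 3800) (nat_lit 0) (XT.nd (nat_lit 858) (nat_lit 2812) (nat_lit 0) (XT.nd (nat_lit 390) (nat_lit 1368) (nat_lit 0) (XT.nd (nat_lit 156) (nat_lit 1064) (nat_lit 0) (XT.nd (nat_lit 78) (nat_lit 532) (nat_lit 0) (XT.lf (nat_lit 76) (nat_lit 1686145862) (nat_lit 0) (nat_lit 3523990622) (nat_lit 608) (nat_lit 1686145862) (nat_lit 316) (nat_lit 1) (nat_lit 315) (nat_lit 1) (nat_lit 323) (nat_lit 1) (nat_lit 306) (nat_lit 371) (nat_lit 343)) (XT.lf (nat_lit 608) (nat_lit 2422625304) (nat_lit 0) (nat_lit 2192888009) (nat_lit 532) (nat_lit 2192888009) (nat_lit 316) (nat_lit 1) (nat_lit 308) (nat_lit 1) (nat_lit 315) (nat_lit 1) (nat_lit 307) (nat_lit 371) (nat_lit 342))) (XT.nd (nat_lit 78) (nat_lit 1064) (nat_lit 0) (XT.lf (nat_lit 76) (nat_lit 738316340) (nat_lit 0) (nat_lit 5245748627) (nat_lit 608) (nat_lit 738316340) (nat_lit 309) (nat_lit 1) (nat_lit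 308) (nat_lit 1) (nat_lit 316) (nat_lit 1) (nat_lit 308) (nat_lit 371) (nat_lit 341)) (XT.nd (nat_lit 78) (nat_lit 608) (nat_lit 0) (XT.lf (nat_lit 532) (nat_lit 506764334) (nat_lit 0) (nat_lit 3065302234) (nat_lit 456) (nat_lit 3065302234) (nat_lit 309) (nat_lit 1) (nat_lit 302) (nat_lit 1) (nat_lit 308) (nat_lit 1) (nat_lit 309) (nat_lit 371) (nat_lit 340)) (XT.lf (nat_lit 608) (nat_lit 6118870857) (nat_lit 0) (nat_lit 217780205) (nat_lit 532) (nat_lit 217780205) (nat_lit 302) (nat_lit 1) (nat_lit 294) (nat_lit 1) (nat_lit 301) (nat_lit 1) (nat_lit 310) (nat_lit 371) (nat_lit 339))))) (XT.nd (nat_lit 234) (nat_lit 912) (nat_lit 0) (XT.nd (nat_lit 78) (nat_lit 456) (nat_lit 0) (XT.lf (nat_lit 76) (nat_lit 2536173298) (nat_lit 0) (nat_lit 1399656358) (nat_lit 608) (nat_lit 2536173298) (nat_lit 295) (nat_lit 1) (nat_lit 294) (nat_lit 1) (nat_lit 302) (nat_lit 1) (nat_lit 311) (nat_lit 371) (nat_lit 338))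 (XT.nd (nat_lit 78) (nat_lit 0) (nat_lit 0) (XT.lf (nat_lit 532) (nat_lit 4042581504) (nat_lit 0) (nat_lit 1174497145) (nat_lit 456) (nat_lit 1174497145) (nat_lit 295) (nat_lit 1) (nat_lit 288) (nat_lit 1) (nat_lit 294) (nat_lit 1) (nat_lit 312) (nat_lit 371) (nat_lit 337)) (XT.lf (nat_lit 76) (nat_lit 1501392005) (nat_lit 0) (nat_lit 3309541369) (nat_lit 532) (nat_lit 1501392005) (nat_lit 289) (nat_lit 1) (nat_lit 288) (nat_lit 1) (nat_lit 295) (nat_lit 1) (nat_lit 313) (nat_lit 371) (nat_lit 336)))) (XT.nd (nat_lit 78) (nat_lit 456) (nat_lit 0) (XT.lf (nat_lit 532) (nat_lit 1960825397) (nat_lit 0) (nat_lit 2136806394) (nat_lit 456) (nat_lit 2136806394) (nat_lit 289) (nat_lit 1) (nat_lit 282) (nat_lit 1) (nat_lit 288) (nat_lit 1) (nat_lit 314) (nat_lit 371) (nat_lit 335)) (XT.nd (nat_lit 78) (nat_lit 456) (nat_lit 0) (XT.lf (nat_lit 76) (nat_lit 464900490) (nat_lit 0) (nat_lit 5228453112) (nat_lit 532)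 (nat_lit 464900490) (nat_lit 283) (nat_lit 1) (nat_lit 282) (nat_lit 1) (nat_lit 289) (nat_lit 1) (nat_lit 315) (nat_lit 371) (nat_lit 334)) (XT.lf (nat_lit 76) (nat_lit 2981348601) (nat_lit 0) (nat_lit 120063446) (nat_lit 456) (nat_lit 2981348601) (nat_lit 277) (nat_lit 1) (nat_lit 276) (nat_lit 1) (nat_lit 282) (nat_lit 1) (nat_lit 316) (nat_lit 371) (nat_lit 333)))))) (XT.nd (nat_lit 390) (nat_lit 1596) (nat_lit 0) (XT.nd (nat_lit 156) (nat_lit 760) (nat_lit 0) (XT.nd (nat_lit 78) (nat_lit 0) (nat_lit 0) (XT.lf (nat_lit 532) (nat_lit 4877266566) (nat_lit 0) (nat_lit 565820957) (nat_lit 456) (nat_lit 565820957) (nat_lit 277) (nat_lit 1) (nat_lit 270) (nat_lit 1) (nat_lit 276) (nat_lit 1) (nat_lit 317) (nat_lit 371) (nat_lit 332)) (XT.lf (nat_lit 76) (nat_lit 1887580323) (nat_lit 0) (nat_lit 2160640203) (nat_lit 532) (nat_lit 1887580323) (nat_lit 271) (nat_lit 1) (nat_lit 270) (nat_lit 1) (nat_lit 277)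 (nat_lit 1) (nat_lit 318) (nat_lit 371) (nat_lit 331))) (XT.nd (nat_lit 78) (nat_lit 380) (nat_lit 0) (XT.lf (nat_lit 456) (nat_lit 2683972151) (nat_lit 0) (nat_lit 1590116720) (nat_lit 380) (nat_lit 1590116720) (nat_lit 271) (nat_lit 1) (nat_lit 265) (nat_lit 1) (nat_lit 270) (nat_lit 1) (nat_lit 319) (nat_lit 371) (nat_lit 330)) (XT.nd (nat_lit 78) (nat_lit 380) (nat_lit 0) (XT.lf (nat_lit 76) (nat_lit 798995932) (nat_lit 0) (nat_lit 4195929771) (nat_lit 456) (nat_lit 798995932) (nat_lit 266) (nat_lit 1) (nat_lit 265) (nat_lit 1) (nat_lit 271) (nat_lit 1) (nat_lit 320) (nat_lit 371) (nat_lit 329)) (XT.lf (nat_lit 456) (nat_lit 502505504) (nat_lit 0) (nat_lit 2610990563) (nat_lit 380) (nat_lit 2610990563) (nat_lit 266) (nat_lit 1) (nat_lit 260) (nat_lit 1) (nat_lit 265) (nat_lit 1) (nat_lit 321) (nat_lit 371) (nat_lit 328))))) (XT.nd (nat_lit 234) (nat_lit 760) (nat_lit 0) (XT.nd (nat_lit 78) (nat_lit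 380) (nat_lit 0) (XT.lf (nat_lit 456) (nat_lit 5096101684) (nat_lit 0) (nat_lit 280249644) (nat_lit 380) (nat_lit 280249644) (nat_lit 260) (nat_lit 1) (nat_lit 254) (nat_lit 1) (nat_lit 259) (nat_lit 1) (nat_lit 322) (nat_lit 371) (nat_lit 327)) (XT.nd (nat_lit 78) (nat_lit 380) (nat_lit 0) (XT.lf (nat_lit 76) (nat_lit 1978536368) (nat_lit 0) (nat_lit 1632009536) (nat_lit 456) (nat_lit 1978536368) (nat_lit 255) (nat_lit 1) (nat_lit 254) (nat_lit 1) (nat_lit 260) (nat_lit 1) (nat_lit 323) (nat_lit 371) (nat_lit 326)) (XT.lf (nat_lit 456) (nat_lit 2835219294) (nat_lit 0) (nat_lit 1343922409) (nat_lit 380) (nat_lit 1343922409) (nat_lit 255) (nat_lit 1) (nat_lit 249) (nat_lit 1) (nat_lit 254) (nat_lit 1) (nat_lit 324) (nat_lit 371) (nat_lit 325)))) (XT.nd (nat_lit 78) (nat_lit 760) (nat_lit 0) (XT.lf (nat_lit 76) (nat_lit 858984858) (nat_lit 0) (nat_lit 3740181478) (nat_lit 456) (nat_lit 858984858) (nat_lit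 250) (nat_lit 1) (nat_lit 249) (nat_lit 1) (nat_lit 255) (nat_lit 1) (nat_lit 325) (nat_lit 371) (nat_lit 324)) (XT.nd (nat_lit 78) (nat_lit 456) (nat_lit 0) (XT.lf (nat_lit 380) (nat_lit 596592943) (nat_lit 0) (nat_lit 2398733994) (nat_lit 304) (nat_lit 2398733994) (nat_lit 250) (nat_lit 1) (nat_lit 245) (nat_lit 1) (nat_lit 249) (nat_lit 1) (nat_lit 326) (nat_lit 371) (nat_lit 323)) (XT.lf (nat_lit 456) (nat_lit 4838230049) (nat_lit 0) (nat_lit 246573295) (nat_lit 380) (nat_lit 246573295) (nat_lit 245) (nat_lit 1) (nat_lit 239) (nat_lit 1) (nat_lit 244) (nat_lit 1) (nat_lit 327) (nat_lit 371) (nat_lit 322))))))) (XT.nd (nat_lit 858) (nat_lit 1900) (nat_lit 0) (XT.nd (nat_lit 390) (nat_lit 912) (nat_lit 0) (XT.nd (nat_lit 156) (nat_lit 684) (nat_lit 0) (XT.nd (nat_lit 78) (nat_lit 304) (nat_lit 0) (XT.lf (nat_lit 76) (nat_lit 1841302131) (nat_lit 0) (nat_lit 1586351567) (nat_lit 456) (nat_lit 1841302131)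 (nat_lit 240) (nat_lit 1) (nat_lit 239) (nat_lit 1) (nat_lit 245) (nat_lit 1) (nat_lit 328) (nat_lit 371) (nat_lit 321)) (XT.lf (nat_lit 380) (nat_lit 2545085013) (nat_lit 0) (nat_lit 1331407552) (nat_lit 304) (nat_lit 1331407552) (nat_lit 240) (nat_lit 1) (nat_lit 235) (nat_lit 1) (nat_lit 239) (nat_lit 1) (nat_lit 329) (nat_lit 371) (nat_lit 320))) (XT.nd (nat_lit 78) (nat_lit 684) (nat_lit 0) (XT.lf (nat_lit 76) (nat_lit 707749265) (nat_lit 0) (nat_lit 3732390248) (nat_lit 380) (nat_lit 707749265) (nat_lit 236) (nat_lit 1) (nat_lit 235) (nat_lit 1) (nat_lit 240) (nat_lit 1) (nat_lit 330) (nat_lit 371) (nat_lit 319)) (XT.nd (nat_lit 78) (nat_lit 380) (nat_lit 0) (XT.lf (nat_lit 380) (nat_lit 282220563) (nat_lit 0) (nat_lit 2403169495) (nat_lit 304) (nat_lit 2403169495) (nat_lit 236) (nat_lit 1) (nat_lit 231) (nat_lit 1) (nat_lit 235) (nat_lit 1) (nat_lit 331) (nat_lit 371) (nat_lit 318)) (XT.lf (nat_lit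 380) (nat_lit 4217605079) (nat_lit 0) (nat_lit 406398041) (nat_lit 304) (nat_lit 406398041) (nat_lit 231) (nat_lit 1) (nat_lit 226) (nat_lit 1) (nat_lit 230) (nat_lit 1) (nat_lit 332) (nat_lit 371) (nat_lit 317))))) (XT.nd (nat_lit 234) (nat_lit 608) (nat_lit 0) (XT.nd (nat_lit 78) (nat_lit 304) (nat_lit 0) (XT.lf (nat_lit 76) (nat_lit 1530763458) (nat_lit 0) (nat_lit 1911114505) (nat_lit 380) (nat_lit 1530763458) (nat_lit 227) (nat_lit 1) (nat_lit 226) (nat_lit 1) (nat_lit 231) (nat_lit 1) (nat_lit 333) (nat_lit 371) (nat_lit 316)) (XT.nd (nat_lit 78) (nat_lit 0) (nat_lit 0) (XT.lf (nat_lit 380) (nat_lit 1920384519) (nat_lit 0) (nat_lit 1497816882) (nat_lit 304) (nat_lit 1497816882) (nat_lit 227) (nat_lit 1) (nat_lit 222) (nat_lit 1) (nat_lit 226) (nat_lit 1) (nat_lit 334) (nat_lit 371) (nat_lit 315)) (XT.lf (nat_lit 76) (nat_lit 396732785) (nat_lit 0) (nat_lit 4067024996) (nat_lit 380) (nat_lit 396732785)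 (nat_lit 223) (nat_lit 1) (nat_lit 222) (nat_lit 1) (nat_lit 227) (nat_lit 1) (nat_lit 335) (nat_lit 371) (nat_lit 314)))) (XT.nd (nat_lit 78) (nat_lit 304) (nat_lit 0) (XT.lf (nat_lit 76) (nat_lit 2235730888) (nat_lit 0) (nat_lit 333858845) (nat_lit 304) (nat_lit 2235730888) (nat_lit 219) (nat_lit 1) (nat_lit 218) (nat_lit 1) (nat_lit 222) (nat_lit 1) (nat_lit 336) (nat_lit 371) (nat_lit 313)) (XT.nd (nat_lit 78) (nat_lit 0) (nat_lit 0) (XT.lf (nat_lit 380) (nat_lit 3327241824) (nat_lit 0) (nat_lit 711986931) (nat_lit 304) (nat_lit 711986931) (nat_lit 219) (nat_lit 1) (nat_lit 214) (nat_lit 1) (nat_lit 218) (nat_lit 1) (nat_lit 337) (nat_lit 371) (nat_lit 312)) (XT.lf (nat_lit 76) (nat_lit 1091702839) (nat_lit 0) (nat_lit 2514321440) (nat_lit 380) (nat_lit 1091702839) (nat_lit 215) (nat_lit 1) (nat_lit 214) (nat_lit 1) (nat_lit 219) (nat_lit 1) (nat_lit 338) (nat_lit 371) (nat_lit 311)))))) (XT.nd (nat_lit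 390) (nat_lit 1064) (nat_lit 0) (XT.nd (nat_lit 156) (nat_lit 228) (nat_lit 0) (XT.nd (nat_lit 78) (nat_lit 380) (nat_lit 0) (XT.lf (nat_lit 304) (nat_lit 1048234937) (nat_lit 0) (nat_lit 1798421782) (nat_lit 228) (nat_lit 1798421782) (nat_lit 215) (nat_lit 1) (nat_lit 211) (nat_lit 1) (nat_lit 214) (nat_lit 1) (nat_lit 339) (nat_lit 371) (nat_lit 310)) (XT.lf (nat_lit 380) (nat_lit 4530002579) (nat_lit 0) (nat_lit 31810614) (nat_lit 304) (nat_lit 31810614) (nat_lit 211) (nat_lit 1) (nat_lit 206) (nat_lit 1) (nat_lit 210) (nat_lit 1) (nat_lit 340) (nat_lit 371) (nat_lit 309))) (XT.nd (nat_lit 78) (nat_lit 228) (nat_lit 0) (XT.lf (nat_lit 76) (nat_lit 1687644316) (nat_lit 0) (nat_lit 1166779323) (nat_lit 380) (nat_lit 1687644316) (nat_lit 207) (nat_lit 1) (nat_lit 206) (nat_lit 1) (nat_lit 211) (nat_lit 1) (nat_lit 341) (nat_lit 371) (nat_lit 308)) (XT.nd (nat_lit 78) (nat_lit 0) (nat_lit 0) (XT.lf (nat_lit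 304) (nat_lit 2242768117) (nat_lit 0) (nat_lit 1124456218) (nat_lit 228) (nat_lit 1124456218) (nat_lit 207) (nat_lit 1) (nat_lit 203) (nat_lit 1) (nat_lit 206) (nat_lit 1) (nat_lit 342) (nat_lit 371) (nat_lit 307)) (XT.lf (nat_lit 76) (nat_lit 560514006) (nat_lit 0) (nat_lit 3321085971) (nat_lit 304) (nat_lit 560514006) (nat_lit 204) (nat_lit 1) (nat_lit 203) (nat_lit 1) (nat_lit 207) (nat_lit 1) (nat_lit 343) (nat_lit 371) (nat_lit 306))))) (XT.nd (nat_lit 234) (nat_lit 532) (nat_lit 0) (XT.nd (nat_lit 78) (nat_lit 228) (nat_lit 0) (XT.lf (nat_lit 76) (nat_lit 2196227285) (nat_lit 0) (nat_lit 588014) (nat_lit 304) (nat_lit 2196227285) (nat_lit 200) (nat_lit 1) (nat_lit 199) (nat_lit 1) (nat_lit 203) (nat_lit 1) (nat_lit 344) (nat_lit 371) (nat_lit 305)) (XT.nd (nat_lit 78) (nat_lit 0) (nat_lit 0) (XT.lf (nat_lit 304) (nat_lit 3265898533) (nat_lit 0) (nat_lit 539435425) (nat_lit 228) (nat_lit 539435425)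 (nat_lit 200) (nat_lit 1) (nat_lit 196) (nat_lit 1) (nat_lit 199) (nat_lit 1) (nat_lit 345) (nat_lit 371) (nat_lit 304)) (XT.lf (nat_lit 76) (nat_lit 1069909589) (nat_lit 0) (nat_lit 2157141205) (nat_lit 304) (nat_lit 1069909589) (nat_lit 197) (nat_lit 1) (nat_lit 196) (nat_lit 1) (nat_lit 200) (nat_lit 1) (nat_lit 346) (nat_lit 371) (nat_lit 303)))) (XT.nd (nat_lit 78) (nat_lit 304) (nat_lit 0) (XT.lf (nat_lit 304) (nat_lit 1025389810) (nat_lit 0) (nat_lit 1612269048) (nat_lit 228) (nat_lit 1612269048) (nat_lit 197) (nat_lit 1) (nat_lit 193) (nat_lit 1) (nat_lit 196) (nat_lit 1) (nat_lit 347) (nat_lit 371) (nat_lit 302)) (XT.nd (nat_lit 78) (nat_lit 0) (nat_lit 0) (XT.lf (nat_lit 304) (nat_lit 4137852342) (nat_lit 0) (nat_lit 33039290) (nat_lit 228) (nat_lit 33039290) (nat_lit 193) (nat_lit 1) (nat_lit 189) (nat_lit 1) (nat_lit 192) (nat_lit 1) (nat_lit 348) (nat_lit 371) (nat_lit 301)) (XT.lf (nat_lit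 76) (nat_lit 1505843682) (nat_lit 0) (nat_lit 1146105940) (nat_lit 304) (nat_lit 1505843682) (nat_lit 190) (nat_lit 1) (nat_lit 189) (nat_lit 1) (nat_lit 193) (nat_lit 1) (nat_lit 349) (nat_lit 371) (nat_lit 300))))))))
noncomputable def ec73 : XT := (XT.nd (nat_lit 1716) (nat_lit 1368) (nat_lit 0) (XT.nd (nat_lit 858) (nat_lit 1292) (nat_lit 0) (XT.nd (nat_lit 390) (nat_lit 836) (nat_lit 0) (XT.nd (nat_lit 156) (nat_lit 456) (nat_lit 0) (XT.nd (nat_lit 78) (nat_lit 0) (nat_lit 0) (XT.lf (nat_lit 304) (nat_lit 1907086975) (nat_lit 0) (nat_lit 1102792625) (nat_lit 228) (nat_lit 1102792625) (nat_lit 190) (nat_lit 1) (nat_lit 186) (nat_lit 1) (nat_lit 189) (nat_lit 1) (nat_lit 350) (nat_lit 371) (nat_lit 299)) (XT.lf (nat_lit 76) (nat_lit 407888681) (nat_lit 0) (nat_lit 3252538029) (nat_lit 304) (nat_lit 407888681) (nat_lit 187) (nat_lit 1) (nat_lit 186) (nat_lit 1) (nat_lit 190) (nat_lit 1) (nat_lit 351)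 (nat_lit 371) (nat_lit 298))) (XT.nd (nat_lit 78) (nat_lit 228) (nat_lit 0) (XT.lf (nat_lit 76) (nat_lit 1876993354) (nat_lit 0) (nat_lit 270255543) (nat_lit 228) (nat_lit 1876993354) (nat_lit 184) (nat_lit 1) (nat_lit 183) (nat_lit 1) (nat_lit 186) (nat_lit 1) (nat_lit 352) (nat_lit 371) (nat_lit 297)) (XT.nd (nat_lit 78) (nat_lit 0) (nat_lit 0) (XT.lf (nat_lit 304) (nat_lit 2661452571) (nat_lit 0) (nat_lit 659731972) (nat_lit 228) (nat_lit 659731972) (nat_lit 184) (nat_lit 1) (nat_lit 180) (nat_lit 1) (nat_lit 183) (nat_lit 1) (nat_lit 353) (nat_lit 371) (nat_lit 296)) (XT.lf (nat_lit 76) (nat_lit 787194400) (nat_lit 0) (nat_lit 2363696389) (nat_lit 304) (nat_lit 787194400) (nat_lit 181) (nat_lit 1) (nat_lit 180) (nat_lit 1) (nat_lit 184) (nat_lit 1) (nat_lit 354) (nat_lit 371) (nat_lit 295))))) (XT.nd (nat_lit 234) (nat_lit 380) (nat_lit 0) (XT.nd (nat_lit 78) (nat_lit 304) (nat_lit 0) (XT.lf (nat_lit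 228) (nat_lit 495813587) (nat_lit 0) (nat_lit 1700006417) (nat_lit 152) (nat_lit 1700006417) (nat_lit 181) (nat_lit 1) (nat_lit 178) (nat_lit 1) (nat_lit 180) (nat_lit 1) (nat_lit 355) (nat_lit 371) (nat_lit 294)) (XT.nd (nat_lit 78) (nat_lit 0) (nat_lit 0) (XT.lf (nat_lit 304) (nat_lit 3303530696) (nat_lit 0) (nat_lit 275401184) (nat_lit 228) (nat_lit 275401184) (nat_lit 178) (nat_lit 1) (nat_lit 174) (nat_lit 1) (nat_lit 177) (nat_lit 1) (nat_lit 356) (nat_lit 371) (nat_lit 293)) (XT.lf (nat_lit 76) (nat_lit 1111830077) (nat_lit 0) (nat_lit 1589296615) (nat_lit 304) (nat_lit 1111830077) (nat_lit 175) (nat_lit 1) (nat_lit 174) (nat_lit 1) (nat_lit 178) (nat_lit 1) (nat_lit 357) (nat_lit 371) (nat_lit 292)))) (XT.nd (nat_lit 78) (nat_lit 228) (nat_lit 0) (XT.lf (nat_lit 228) (nat_lit 1159660812) (nat_lit 0) (nat_lit 1306335485) (nat_lit 152) (nat_lit 1306335485) (nat_lit 175) (nat_lit 1) (nat_lit 172)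 (nat_lit 1) (nat_lit 174) (nat_lit 1) (nat_lit 358) (nat_lit 371) (nat_lit 291)) (XT.nd (nat_lit 78) (nat_lit 228) (nat_lit 0) (XT.lf (nat_lit 76) (nat_lit 57584976) (nat_lit 0) (nat_lit 3617385674) (nat_lit 228) (nat_lit 57584976) (nat_lit 173) (nat_lit 1) (nat_lit 172) (nat_lit 1) (nat_lit 175) (nat_lit 1) (nat_lit 359) (nat_lit 371) (nat_lit 290)) (XT.lf (nat_lit 76) (nat_lit 1388252495) (nat_lit 0) (nat_lit 916130612) (nat_lit 228) (nat_lit 1388252495) (nat_lit 170) (nat_lit 1) (nat_lit 169) (nat_lit 1) (nat_lit 172) (nat_lit 1) (nat_lit 360) (nat_lit 371) (nat_lit 289)))))) (XT.nd (nat_lit 390) (nat_lit 760) (nat_lit 0) (XT.nd (nat_lit 156) (nat_lit 380) (nat_lit 0) (XT.nd (nat_lit 78) (nat_lit 0) (nat_lit 0) (XT.lf (nat_lit 228) (nat_lit 1728534740) (nat_lit 0) (nat_lit 962508568) (nat_lit 152) (nat_lit 962508568) (nat_lit 170) (nat_lit 1) (nat_lit 167) (nat_lit 1) (nat_lit 169) (nat_lit 1) (nat_lit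 361) (nat_lit 371) (nat_lit 288)) (XT.lf (nat_lit 76) (nat_lit 346986845) (nat_lit 0) (nat_lit 2921134351) (nat_lit 228) (nat_lit 346986845) (nat_lit 168) (nat_lit 1) (nat_lit 167) (nat_lit 1) (nat_lit 170) (nat_lit 1) (nat_lit 362) (nat_lit 371) (nat_lit 287))) (XT.nd (nat_lit 78) (nat_lit 152) (nat_lit 0) (XT.lf (nat_lit 76) (nat_lit 1622187926) (nat_lit 0) (nat_lit 332476157) (nat_lit 228) (nat_lit 1622187926) (nat_lit 165) (nat_lit 1) (nat_lit 164) (nat_lit 1) (nat_lit 167) (nat_lit 1) (nat_lit 363) (nat_lit 371) (nat_lit 286)) (XT.nd (nat_lit 78) (nat_lit 0) (nat_lit 0) (XT.lf (nat_lit 228) (nat_lit 2213636192) (nat_lit 0) (nat_lit 662794270) (nat_lit 152) (nat_lit 662794270) (nat_lit 165) (nat_lit 1) (nat_lit 162) (nat_lit 1) (nat_lit 164) (nat_lit 1) (nat_lit 364) (nat_lit 371) (nat_lit 285)) (XT.lf (nat_lit 76) (nat_lit 595500443) (nat_lit 0) (nat_lit 2311054146) (nat_lit 228) (nat_lit 595500443)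 (nat_lit 163) (nat_lit 1) (nat_lit 162) (nat_lit 1) (nat_lit 165) (nat_lit 1) (nat_lit 365) (nat_lit 371) (nat_lit 284))))) (XT.nd (nat_lit 234) (nat_lit 380) (nat_lit 0) (XT.nd (nat_lit 78) (nat_lit 228) (nat_lit 0) (XT.lf (nat_lit 228) (nat_lit 175493681) (nat_lit 0) (nat_lit 1644907169) (nat_lit 152) (nat_lit 1644907169) (nat_lit 163) (nat_lit 1) (nat_lit 160) (nat_lit 1) (nat_lit 162) (nat_lit 1) (nat_lit 366) (nat_lit 371) (nat_lit 283)) (XT.nd (nat_lit 78) (nat_lit 0) (nat_lit 0) (XT.lf (nat_lit 228) (nat_lit 2624899187) (nat_lit 0) (nat_lit 402105361) (nat_lit 152) (nat_lit 402105361) (nat_lit 160) (nat_lit 1) (nat_lit 157) (nat_lit 1) (nat_lit 159) (nat_lit 1) (nat_lit 367) (nat_lit 371) (nat_lit 282)) (XT.lf (nat_lit 76) (nat_lit 807936300) (nat_lit 0) (nat_lit 1777287413) (nat_lit 228) (nat_lit 807936300) (nat_lit 158) (nat_lit 1) (nat_lit 157) (nat_lit 1) (nat_lit 160) (nat_lit 1) (nat_lit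 368) (nat_lit 371) (nat_lit 281)))) (XT.nd (nat_lit 78) (nat_lit 228) (nat_lit 0) (XT.lf (nat_lit 228) (nat_lit 618810752) (nat_lit 0) (nat_lit 1369469472) (nat_lit 152) (nat_lit 1369469472) (nat_lit 158) (nat_lit 1) (nat_lit 155) (nat_lit 1) (nat_lit 157) (nat_lit 1) (nat_lit 369) (nat_lit 371) (nat_lit 280)) (XT.nd (nat_lit 78) (nat_lit 0) (nat_lit 0) (XT.lf (nat_lit 228) (nat_lit 2971132717) (nat_lit 0) (nat_lit 175926800) (nat_lit 152) (nat_lit 175926800) (nat_lit 155) (nat_lit 1) (nat_lit 152) (nat_lit 1) (nat_lit 154) (nat_lit 1) (nat_lit 370) (nat_lit 371) (nat_lit 279)) (XT.lf (nat_lit 76) (nat_lit 988561200) (nat_lit 0) (nat_lit 1311082999) (nat_lit 228) (nat_lit 988561200) (nat_lit 153) (nat_lit 1) (nat_lit 152) (nat_lit 1) (nat_lit 155) (nat_lit 1) (nat_lit 371) (nat_lit 371) (nat_lit 278))))))) (XT.nd (nat_lit 858) (nat_lit 304) (nat_lit 0) (XT.nd (nat_lit 390) (nat_lit 608) (nat_lit 0) (XT.nd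 (nat_lit 156) (nat_lit 304) (nat_lit 0) (XT.nd (nat_lit 78) (nat_lit 0) (nat_lit 0) (XT.lf (nat_lit 228) (nat_lit 999210085) (nat_lit 0) (nat_lit 1127426526) (nat_lit 152) (nat_lit 1127426526) (nat_lit 153) (nat_lit 1) (nat_lit 150) (nat_lit 1) (nat_lit 152) (nat_lit 1) (nat_lit 372) (nat_lit 371) (nat_lit 277)) (XT.lf (nat_lit 76) (nat_lit 19943741) (nat_lit 0) (nat_lit 3180739675) (nat_lit 228) (nat_lit 19943741) (nat_lit 151) (nat_lit 1) (nat_lit 150) (nat_lit 1) (nat_lit 153) (nat_lit 1) (nat_lit 373) (nat_lit 371) (nat_lit 276))) (XT.nd (nat_lit 78) (nat_lit 152) (nat_lit 0) (XT.lf (nat_lit 76) (nat_lit 1141159027) (nat_lit 0) (nat_lit 904672645) (nat_lit 152) (nat_lit 1141159027) (nat_lit 149) (nat_lit 1) (nat_lit 148) (nat_lit 1) (nat_lit 150) (nat_lit 1) (nat_lit 374) (nat_lit 371) (nat_lit 275)) (XT.nd (nat_lit 78) (nat_lit 0) (nat_lit 0) (XT.lf (nat_lit 228) (nat_lit 1324100507) (nat_lit 0)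 (nat_lit 914976329) (nat_lit 152) (nat_lit 914976329) (nat_lit 149) (nat_lit 1) (nat_lit 146) (nat_lit 1) (nat_lit 148) (nat_lit 1) (nat_lit 375) (nat_lit 371) (nat_lit 274)) (XT.lf (nat_lit 76) (nat_lit 190341150) (nat_lit 0) (nat_lit 2741010835) (nat_lit 228) (nat_lit 190341150) (nat_lit 147) (nat_lit 1) (nat_lit 146) (nat_lit 1) (nat_lit 149) (nat_lit 1) (nat_lit 376) (nat_lit 371) (nat_lit 273))))) (XT.nd (nat_lit 234) (nat_lit 304) (nat_lit 0) (XT.nd (nat_lit 78) (nat_lit 152) (nat_lit 0) (XT.lf (nat_lit 76) (nat_lit 1269084827) (nat_lit 0) (nat_lit 551161171) (nat_lit 152) (nat_lit 1269084827) (nat_lit 145) (nat_lit 1) (nat_lit 144) (nat_lit 1) (nat_lit 146) (nat_lit 1) (nat_lit 377) (nat_lit 371) (nat_lit 272)) (XT.nd (nat_lit 78) (nat_lit 0) (nat_lit 0) (XT.lf (nat_lit 228) (nat_lit 1600053226) (nat_lit 0) (nat_lit 728743126) (nat_lit 152) (nat_lit 728743126) (nat_lit 145) (nat_lit 1) (nat_lit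 142) (nat_lit 1) (nat_lit 144) (nat_lit 1) (nat_lit 378) (nat_lit 371) (nat_lit 271)) (XT.lf (nat_lit 76) (nat_lit 336709233) (nat_lit 0) (nat_lit 2352794208) (nat_lit 228) (nat_lit 336709233) (nat_lit 143) (nat_lit 1) (nat_lit 142) (nat_lit 1) (nat_lit 145) (nat_lit 1) (nat_lit 379) (nat_lit 371) (nat_lit 270)))) (XT.nd (nat_lit 78) (nat_lit 152) (nat_lit 0) (XT.lf (nat_lit 76) (nat_lit 1375312821) (nat_lit 0) (nat_lit 244428925) (nat_lit 152) (nat_lit 1375312821) (nat_lit 141) (nat_lit 1) (nat_lit 140) (nat_lit 1) (nat_lit 142) (nat_lit 1) (nat_lit 380) (nat_lit 371) (nat_lit 269)) (XT.nd (nat_lit 78) (nat_lit 0) (nat_lit 0) (XT.lf (nat_lit 228) (nat_lit 1832895573) (nat_lit 0) (nat_lit 565729808) (nat_lit 152) (nat_lit 565729808) (nat_lit 141) (nat_lit 1) (nat_lit 138) (nat_lit 1) (nat_lit 140) (nat_lit 1) (nat_lit 381) (nat_lit 371) (nat_lit 268)) (XT.lf (nat_lit 76) (nat_lit 461874012) (nat_lit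 0) (nat_lit 2010273377) (nat_lit 228) (nat_lit 461874012) (nat_lit 139) (nat_lit 1) (nat_lit 138) (nat_lit 1) (nat_lit 141) (nat_lit 1) (nat_lit 382) (nat_lit 371) (nat_lit 267)))))) (XT.nd (nat_lit 45006) (nat_lit 0) (nat_lit 18316) (XT.nd (nat_lit 44772) (nat_lit 0) (nat_lit 18240) (XT.nd (nat_lit 78) (nat_lit 228) (nat_lit 0) (XT.lf (nat_lit 152) (nat_lit 21371941) (nat_lit 0) (nat_lit 1441312573) (nat_lit 76) (nat_lit 1441312573) (nat_lit 139) (nat_lit 1) (nat_lit 137) (nat_lit 1) (nat_lit 138) (nat_lit 1) (nat_lit 383) (nat_lit 371) (nat_lit 266)) (XT.lf (nat_lit 228) (nat_lit 2027794273) (nat_lit 0) (nat_lit 423275626) (nat_lit 152) (nat_lit 423275626) (nat_lit 137) (nat_lit 1) (nat_lit 134) (nat_lit 1) (nat_lit 136) (nat_lit 1) (nat_lit 384) (nat_lit 371) (nat_lit 265))) (XT.nd (nat_lit 78) (nat_lit 0) (nat_lit 0) (XT.lf (nat_lit 1292) (nat_lit 960408218) (nat_lit 0) (nat_lit 3304250928) (nat_lit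 1292) (nat_lit 960408218) (nat_lit 391) (nat_lit 1) (nat_lit 374) (nat_lit 0) (nat_lit 391) (nat_lit 0) (nat_lit 276) (nat_lit 372) (nat_lit 372)) (XT.nd (nat_lit 78) (nat_lit 0) (nat_lit 76) (XT.lf (nat_lit 1292) (nat_lit 3753292148) (nat_lit 76) (nat_lit 3271856311) (nat_lit 0) (nat_lit 3271856311) (nat_lit 391) (nat_lit 1) (nat_lit 375) (nat_lit 1) (nat_lit 374) (nat_lit 0) (nat_lit 277) (nat_lit 372) (nat_lit 371)) (XT.lf (nat_lit 1292) (nat_lit 1815181572) (nat_lit 0) (nat_lit 6516889395) (nat_lit 1216) (nat_lit 1815181572) (nat_lit 392) (nat_lit 1) (nat_lit 375) (nat_lit 1) (nat_lit 391) (nat_lit 1) (nat_lit 278) (nat_lit 372) (nat_lit 370))))) (XT.nd (nat_lit 234) (nat_lit 0) (nat_lit 152) (XT.nd (nat_lit 78) (nat_lit 0) (nat_lit 76) (XT.lf (nat_lit 1292) (nat_lit 3447123523) (nat_lit 76) (nat_lit 3276438796) (nat_lit 0) (nat_lit 3276438796) (nat_lit 392) (nat_lit 1) (nat_lit 376) (nat_lit 1)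 (nat_lit 375) (nat_lit 1) (nat_lit 279) (nat_lit 372) (nat_lit 369)) (XT.nd (nat_lit 78) (nat_lit 0) (nat_lit 0) (XT.lf (nat_lit 1292) (nat_lit 1617545521) (nat_lit 0) (nat_lit 6620953451) (nat_lit 1216) (nat_lit 1617545521) (nat_lit 393) (nat_lit 1) (nat_lit 376) (nat_lit 1) (nat_lit 392) (nat_lit 1) (nat_lit 280) (nat_lit 372) (nat_lit 368)) (XT.lf (nat_lit 1292) (nat_lit 2964322958) (nat_lit 76) (nat_lit 3375033602) (nat_lit 0) (nat_lit 3375033602) (nat_lit 393) (nat_lit 1) (nat_lit 377) (nat_lit 1) (nat_lit 376) (nat_lit 1) (nat_lit 281) (nat_lit 372) (nat_lit 367)))) (XT.nd (nat_lit 78) (nat_lit 0) (nat_lit 0) (XT.lf (nat_lit 1292) (nat_lit 1336045795) (nat_lit 0) (nat_lit 6903915249) (nat_lit 1216) (nat_lit 1336045795) (nat_lit 394) (nat_lit 1) (nat_lit 377) (nat_lit 1) (nat_lit 393) (nat_lit 1) (nat_lit 282) (nat_lit 372) (nat_lit 366)) (XT.nd (nat_lit 78) (nat_lit 0) (nat_lit 76) (XT.lf (nat_lit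 1292) (nat_lit 2320686372) (nat_lit 76) (nat_lit 3559498153) (nat_lit 0) (nat_lit 3559498153) (nat_lit 394) (nat_lit 1) (nat_lit 378) (nat_lit 1) (nat_lit 377) (nat_lit 1) (nat_lit 283) (nat_lit 372) (nat_lit 365)) (XT.lf (nat_lit 1292) (nat_lit 978269582) (nat_lit 0) (nat_lit 7350120723) (nat_lit 1216) (nat_lit 978269582) (nat_lit 395) (nat_lit 1) (nat_lit 378) (nat_lit 1) (nat_lit 394) (nat_lit 1) (nat_lit 284) (nat_lit 372) (nat_lit 364))))))))
noncomputable def ec74 : XT := (XT.nd (nat_lit 1716) (nat_lit 5548) (nat_lit 0) (XT.nd (nat_lit 858) (nat_lit 3496) (nat_lit 0) (XT.nd (nat_lit 390) (nat_lit 684) (nat_lit 0) (XT.nd (nat_lit 156) (nat_lit 1140) (nat_lit 0) (XT.nd (nat_lit 78) (nat_lit 0) (nat_lit 76) (XT.lf (nat_lit 1292) (nat_lit 1530938178) (nat_lit 76) (nat_lit 3822237266) (nat_lit 0) (nat_lit 3822237266) (nat_lit 395) (nat_lit 1) (nat_lit 379) (nat_lit 1) (nat_lit 378) (nat_lit 1) (nat_lit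 285) (nat_lit 372) (nat_lit 363)) (XT.lf (nat_lit 1292) (nat_lit 551287767) (nat_lit 0) (nat_lit 7944971245) (nat_lit 1216) (nat_lit 551287767) (nat_lit 396) (nat_lit 1) (nat_lit 379) (nat_lit 1) (nat_lit 395) (nat_lit 1) (nat_lit 286) (nat_lit 372) (nat_lit 362))) (XT.nd (nat_lit 78) (nat_lit 1216) (nat_lit 0) (XT.lf (nat_lit 1292) (nat_lit 608797597) (nat_lit 76) (nat_lit 4156169402) (nat_lit 0) (nat_lit 4156169402) (nat_lit 396) (nat_lit 1) (nat_lit 380) (nat_lit 1) (nat_lit 379) (nat_lit 1) (nat_lit 287) (nat_lit 372) (nat_lit 361)) (XT.nd (nat_lit 78) (nat_lit 1292) (nat_lit 0) (XT.lf (nat_lit 1292) (nat_lit 61686921) (nat_lit 0) (nat_lit 8674858474) (nat_lit 1216) (nat_lit 61686921) (nat_lit 397) (nat_lit 1) (nat_lit 380) (nat_lit 1) (nat_lit 396) (nat_lit 1) (nat_lit 288) (nat_lit 372) (nat_lit 360)) (XT.lf (nat_lit 1368) (nat_lit 4125897796) (nat_lit 0) (nat_lit 424510398) (nat_lit 1292) (nat_lit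 4125897796) (nat_lit 381) (nat_lit 1) (nat_lit 363) (nat_lit 1) (nat_lit 380) (nat_lit 1) (nat_lit 289) (nat_lit 372) (nat_lit 359))))) (XT.nd (nat_lit 234) (nat_lit 684) (nat_lit 0) (XT.nd (nat_lit 78) (nat_lit 0) (nat_lit 76) (XT.lf (nat_lit 1368) (nat_lit 7598437088) (nat_lit 76) (nat_lit 479651587) (nat_lit 0) (nat_lit 479651587) (nat_lit 381) (nat_lit 1) (nat_lit 364) (nat_lit 1) (nat_lit 363) (nat_lit 1) (nat_lit 290) (nat_lit 372) (nat_lit 358)) (XT.nd (nat_lit 78) (nat_lit 0) (nat_lit 0) (XT.lf (nat_lit 1368) (nat_lit 3444438196) (nat_lit 0) (nat_lit 1551560290) (nat_lit 1292) (nat_lit 3444438196) (nat_lit 382) (nat_lit 1) (nat_lit 364) (nat_lit 1) (nat_lit 381) (nat_lit 1) (nat_lit 291) (nat_lit 372) (nat_lit 357)) (XT.lf (nat_lit 1368) (nat_lit 6184771140) (nat_lit 76) (nat_lit 1070667761) (nat_lit 0) (nat_lit 1070667761) (nat_lit 382) (nat_lit 1) (nat_lit 365) (nat_lit 1) (nat_lit 364) (nat_lit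 1) (nat_lit 292) (nat_lit 372) (nat_lit 356)))) (XT.nd (nat_lit 78) (nat_lit 836) (nat_lit 0) (XT.lf (nat_lit 76) (nat_lit 2719969224) (nat_lit 0) (nat_lit 2773384639) (nat_lit 1292) (nat_lit 2719969224) (nat_lit 366) (nat_lit 1) (nat_lit 365) (nat_lit 1) (nat_lit 382) (nat_lit 1) (nat_lit 293) (nat_lit 372) (nat_lit 355)) (XT.nd (nat_lit 78) (nat_lit 0) (nat_lit 0) (XT.lf (nat_lit 912) (nat_lit 4689609867) (nat_lit 0) (nat_lit 1706711330) (nat_lit 836) (nat_lit 1706711330) (nat_lit 366) (nat_lit 1) (nat_lit 354) (nat_lit 1) (nat_lit 365) (nat_lit 1) (nat_lit 294) (nat_lit 372) (nat_lit 354)) (XT.lf (nat_lit 76) (nat_lit 1957351868) (nat_lit 0) (nat_lit 4079898197) (nat_lit 912) (nat_lit 1957351868) (nat_lit 355) (nat_lit 1) (nat_lit 354) (nat_lit 1) (nat_lit 366) (nat_lit 1) (nat_lit 295) (nat_lit 372) (nat_lit 353)))))) (XT.nd (nat_lit 390) (nat_lit 1672) (nat_lit 0) (XT.nd (nat_lit 156) (nat_lit 1216)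 (nat_lit 0) (XT.nd (nat_lit 78) (nat_lit 0) (nat_lit 0) (XT.lf (nat_lit 684) (nat_lit 3122368684) (nat_lit 0) (nat_lit 2382897904) (nat_lit 608) (nat_lit 2382897904) (nat_lit 355) (nat_lit 1) (nat_lit 346) (nat_lit 1) (nat_lit 354) (nat_lit 1) (nat_lit 296) (nat_lit 372) (nat_lit 352)) (XT.lf (nat_lit 76) (nat_lit 1161098405) (nat_lit 0) (nat_lit 5461729935) (nat_lit 684) (nat_lit 1161098405) (nat_lit 347) (nat_lit 1) (nat_lit 346) (nat_lit 1) (nat_lit 355) (nat_lit 1) (nat_lit 297) (nat_lit 372) (nat_lit 351))) (XT.nd (nat_lit 78) (nat_lit 608) (nat_lit 0) (XT.lf (nat_lit 684) (nat_lit 1491784542) (nat_lit 0) (nat_lit 3094690453) (nat_lit 608) (nat_lit 3094690453) (nat_lit 347) (nat_lit 1) (nat_lit 338) (nat_lit 1) (nat_lit 346) (nat_lit 1) (nat_lit 298) (nat_lit 372) (nat_lit 350)) (XT.nd (nat_lit 78) (nat_lit 608) (nat_lit 0) (XT.lf (nat_lit 76) (nat_lit 335394447) (nat_lit 0) (nat_lit 6910178105)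 (nat_lit 684) (nat_lit 335394447) (nat_lit 339) (nat_lit 1) (nat_lit 338) (nat_lit 1) (nat_lit 347) (nat_lit 1) (nat_lit 299) (nat_lit 372) (nat_lit 349)) (XT.lf (nat_lit 76) (nat_lit 3645701563) (nat_lit 0) (nat_lit 190254660) (nat_lit 608) (nat_lit 3645701563) (nat_lit 331) (nat_lit 1) (nat_lit 330) (nat_lit 1) (nat_lit 338) (nat_lit 1) (nat_lit 300) (nat_lit 372) (nat_lit 348))))) (XT.nd (nat_lit 234) (nat_lit 532) (nat_lit 0) (XT.nd (nat_lit 78) (nat_lit 532) (nat_lit 0) (XT.lf (nat_lit 684) (nat_lit 6363163862) (nat_lit 0) (nat_lit 510822687) (nat_lit 608) (nat_lit 510822687) (nat_lit 331) (nat_lit 1) (nat_lit 322) (nat_lit 1) (nat_lit 330) (nat_lit 1) (nat_lit 301) (nat_lit 372) (nat_lit 347)) (XT.nd (nat_lit 78) (nat_lit 532) (nat_lit 0) (XT.lf (nat_lit 76) (nat_lit 2699479535) (nat_lit 0) (nat_lit 1889987449) (nat_lit 684) (nat_lit 2699479535) (nat_lit 323) (nat_lit 1) (nat_lit 322) (nat_lit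 1) (nat_lit 331) (nat_lit 1) (nat_lit 302) (nat_lit 372) (nat_lit 346)) (XT.lf (nat_lit 608) (nat_lit 4444308625) (nat_lit 0) (nat_lit 1375513804) (nat_lit 532) (nat_lit 1375513804) (nat_lit 323) (nat_lit 1) (nat_lit 315) (nat_lit 1) (nat_lit 322) (nat_lit 1) (nat_lit 303) (nat_lit 372) (nat_lit 345)))) (XT.nd (nat_lit 78) (nat_lit 532) (nat_lit 0) (XT.lf (nat_lit 76) (nat_lit 1736730238) (nat_lit 0) (nat_lit 3629710340) (nat_lit 608) (nat_lit 1736730238) (nat_lit 316) (nat_lit 1) (nat_lit 315) (nat_lit 1) (nat_lit 323) (nat_lit 1) (nat_lit 304) (nat_lit 372) (nat_lit 344)) (XT.nd (nat_lit 78) (nat_lit 0) (nat_lit 0) (XT.lf (nat_lit 608) (nat_lit 2495304063) (nat_lit 0) (nat_lit 2258674649) (nat_lit 532) (nat_lit 2258674649) (nat_lit 316) (nat_lit 1) (nat_lit 308) (nat_lit 1) (nat_lit 315) (nat_lit 1) (nat_lit 305) (nat_lit 372) (nat_lit 343)) (XT.lf (nat_lit 76) (nat_lit 760465831) (nat_lit 0) (nat_lit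 5403121086) (nat_lit 608) (nat_lit 760465831) (nat_lit 309) (nat_lit 1) (nat_lit 308) (nat_lit 1) (nat_lit 316) (nat_lit 1) (nat_lit 306) (nat_lit 372) (nat_lit 342))))))) (XT.nd (nat_lit 858) (nat_lit 2280) (nat_lit 0) (XT.nd (nat_lit 390) (nat_lit 1748) (nat_lit 0) (XT.nd (nat_lit 156) (nat_lit 456) (nat_lit 0) (XT.nd (nat_lit 78) (nat_lit 608) (nat_lit 0) (XT.lf (nat_lit 532) (nat_lit 521967264) (nat_lit 0) (nat_lit 3157261301) (nat_lit 456) (nat_lit 3157261301) (nat_lit 309) (nat_lit 1) (nat_lit 302) (nat_lit 1) (nat_lit 308) (nat_lit 1) (nat_lit 307) (nat_lit 372) (nat_lit 341)) (XT.lf (nat_lit 608) (nat_lit 6302436982) (nat_lit 0) (nat_lit 224313611) (nat_lit 532) (nat_lit 224313611) (nat_lit 302) (nat_lit 1) (nat_lit 294) (nat_lit 1) (nat_lit 301) (nat_lit 1) (nat_lit 308) (nat_lit 372) (nat_lit 340))) (XT.nd (nat_lit 78) (nat_lit 456) (nat_lit 0) (XT.lf (nat_lit 76) (nat_lit 2612258497) (nat_lit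 0) (nat_lit 1441646049) (nat_lit 608) (nat_lit 2612258497) (nat_lit 295) (nat_lit 1) (nat_lit 294) (nat_lit 1) (nat_lit 302) (nat_lit 1) (nat_lit 309) (nat_lit 372) (nat_lit 339)) (XT.nd (nat_lit 78) (nat_lit 0) (nat_lit 0) (XT.lf (nat_lit 532) (nat_lit 4163858950) (nat_lit 0) (nat_lit 1209732059) (nat_lit 456) (nat_lit 1209732059) (nat_lit 295) (nat_lit 1) (nat_lit 288) (nat_lit 1) (nat_lit 294) (nat_lit 1) (nat_lit 310) (nat_lit 372) (nat_lit 338)) (XT.lf (nat_lit 76) (nat_lit 1546433765) (nat_lit 0) (nat_lit 3408827610) (nat_lit 532) (nat_lit 1546433765) (nat_lit 289) (nat_lit 1) (nat_lit 288) (nat_lit 1) (nat_lit 295) (nat_lit 1) (nat_lit 311) (nat_lit 372) (nat_lit 337))))) (XT.nd (nat_lit 234) (nat_lit 836) (nat_lit 0) (XT.nd (nat_lit 78) (nat_lit 456) (nat_lit 0) (XT.lf (nat_lit 532) (nat_lit 2019650159) (nat_lit 0) (nat_lit 2200910586) (nat_lit 456) (nat_lit 2200910586) (nat_lit 289) (nat_lit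 1) (nat_lit 282) (nat_lit 1) (nat_lit 288) (nat_lit 1) (nat_lit 312) (nat_lit 372) (nat_lit 336)) (XT.nd (nat_lit 78) (nat_lit 456) (nat_lit 0) (XT.lf (nat_lit 76) (nat_lit 478847504) (nat_lit 0) (nat_lit 5385306706) (nat_lit 532) (nat_lit 478847504) (nat_lit 283) (nat_lit 1) (nat_lit 282) (nat_lit 1) (nat_lit 289) (nat_lit 1) (nat_lit 313) (nat_lit 372) (nat_lit 335)) (XT.lf (nat_lit 76) (nat_lit 3070789059) (nat_lit 0) (nat_lit 123665349) (nat_lit 456) (nat_lit 3070789059) (nat_lit 277) (nat_lit 1) (nat_lit 276) (nat_lit 1) (nat_lit 282) (nat_lit 1) (nat_lit 314) (nat_lit 372) (nat_lit 334)))) (XT.nd (nat_lit 78) (nat_lit 380) (nat_lit 0) (XT.lf (nat_lit 532) (nat_lit 5023584563) (nat_lit 0) (nat_lit 582795586) (nat_lit 456) (nat_lit 582795586) (nat_lit 277) (nat_lit 1) (nat_lit 270) (nat_lit 1) (nat_lit 276) (nat_lit 1) (nat_lit 315) (nat_lit 372) (nat_lit 333)) (XT.nd (nat_lit 78) (nat_lit 380) (nat_lit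 0) (XT.lf (nat_lit 76) (nat_lit 1944207732) (nat_lit 0) (nat_lit 2225459409) (nat_lit 532) (nat_lit 1944207732) (nat_lit 271) (nat_lit 1) (nat_lit 270) (nat_lit 1) (nat_lit 277) (nat_lit 1) (nat_lit 316) (nat_lit 372) (nat_lit 332)) (XT.lf (nat_lit 456) (nat_lit 2764491316) (nat_lit 0) (nat_lit 1637820222) (nat_lit 380) (nat_lit 1637820222) (nat_lit 271) (nat_lit 1) (nat_lit 265) (nat_lit 1) (nat_lit 270) (nat_lit 1) (nat_lit 317) (nat_lit 372) (nat_lit 331)))))) (XT.nd (nat_lit 390) (nat_lit 1064) (nat_lit 0) (XT.nd (nat_lit 156) (nat_lit 836) (nat_lit 0) (XT.nd (nat_lit 78) (nat_lit 380) (nat_lit 0) (XT.lf (nat_lit 76) (nat_lit 822965810) (nat_lit 0) (nat_lit 4321807664) (nat_lit 456) (nat_lit 822965810) (nat_lit 266) (nat_lit 1) (nat_lit 265) (nat_lit 1) (nat_lit 271) (nat_lit 1) (nat_lit 318) (nat_lit 372) (nat_lit 330)) (XT.lf (nat_lit 456) (nat_lit 517580669) (nat_lit 0) (nat_lit 2689320280) (nat_lit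 380) (nat_lit 2689320280) (nat_lit 266) (nat_lit 1) (nat_lit 260) (nat_lit 1) (nat_lit 265) (nat_lit 1) (nat_lit 319) (nat_lit 372) (nat_lit 329))) (XT.nd (nat_lit 78) (nat_lit 380) (nat_lit 0) (XT.lf (nat_lit 456) (nat_lit 5248984735) (nat_lit 0) (nat_lit 288657134) (nat_lit 380) (nat_lit 288657134) (nat_lit 260) (nat_lit 1) (nat_lit 254) (nat_lit 1) (nat_lit 259) (nat_lit 1) (nat_lit 320) (nat_lit 372) (nat_lit 328)) (XT.nd (nat_lit 78) (nat_lit 380) (nat_lit 0) (XT.lf (nat_lit 76) (nat_lit 2037892459) (nat_lit 0) (nat_lit 1680969822) (nat_lit 456) (nat_lit 2037892459) (nat_lit 255) (nat_lit 1) (nat_lit 254) (nat_lit 1) (nat_lit 260) (nat_lit 1) (nat_lit 321) (nat_lit 372) (nat_lit 327)) (XT.lf (nat_lit 456) (nat_lit 2920275872) (nat_lit 0) (nat_lit 1384240081) (nat_lit 380) (nat_lit 1384240081) (nat_lit 255) (nat_lit 1) (nat_lit 249) (nat_lit 1) (nat_lit 254) (nat_lit 1) (nat_lit 322) (nat_lit 372)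 (nat_lit 326))))) (XT.nd (nat_lit 234) (nat_lit 304) (nat_lit 0) (XT.nd (nat_lit 78) (nat_lit 760) (nat_lit 0) (XT.lf (nat_lit 76) (nat_lit 884754404) (nat_lit 0) (nat_lit 3852386922) (nat_lit 456) (nat_lit 884754404) (nat_lit 250) (nat_lit 1) (nat_lit 249) (nat_lit 1) (nat_lit 255) (nat_lit 1) (nat_lit 323) (nat_lit 372) (nat_lit 325)) (XT.nd (nat_lit 78) (nat_lit 456) (nat_lit 0) (XT.lf (nat_lit 380) (nat_lit 614490732) (nat_lit 0) (nat_lit 2470696014) (nat_lit 304) (nat_lit 2470696014) (nat_lit 250) (nat_lit 1) (nat_lit 245) (nat_lit 1) (nat_lit 249) (nat_lit 1) (nat_lit 324) (nat_lit 372) (nat_lit 324)) (XT.lf (nat_lit 456) (nat_lit 4983376951) (nat_lit 0) (nat_lit 253970494) (nat_lit 380) (nat_lit 253970494) (nat_lit 245) (nat_lit 1) (nat_lit 239) (nat_lit 1) (nat_lit 244) (nat_lit 1) (nat_lit 325) (nat_lit 372) (nat_lit 323)))) (XT.nd (nat_lit 78) (nat_lit 304) (nat_lit 0) (XT.lf (nat_lit 76) (nat_lit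 1896541195) (nat_lit 0) (nat_lit 1633942114) (nat_lit 456) (nat_lit 1896541195) (nat_lit 240) (nat_lit 1) (nat_lit 239) (nat_lit 1) (nat_lit 245) (nat_lit 1) (nat_lit 326) (nat_lit 372) (nat_lit 322)) (XT.nd (nat_lit 78) (nat_lit 0) (nat_lit 0) (XT.lf (nat_lit 380) (nat_lit 2621437563) (nat_lit 0) (nat_lit 1371349778) (nat_lit 304) (nat_lit 1371349778) (nat_lit 240) (nat_lit 1) (nat_lit 235) (nat_lit 1) (nat_lit 239) (nat_lit 1) (nat_lit 327) (nat_lit 372) (nat_lit 321)) (XT.lf (nat_lit 76) (nat_lit 728981743) (nat_lit 0) (nat_lit 3844361955) (nat_lit 380) (nat_lit 728981743) (nat_lit 236) (nat_lit 1) (nat_lit 235) (nat_lit 1) (nat_lit 240) (nat_lit 1) (nat_lit 328) (nat_lit 372) (nat_lit 320))))))))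
noncomputable def ec75 : XT := (XT.nd (nat_lit 1716) (nat_lit 2812) (nat_lit 0) (XT.nd (nat_lit 858) (nat_lit 1748) (nat_lit 0) (XT.nd (nat_lit 390) (nat_lit 1216) (nat_lit 0) (XT.nd (nat_lit 156) (nat_lit 304) (nat_lit 0) (XT.nd (nat_lit 78) (nat_lit 380) (nat_lit 0) (XT.lf (nat_lit 380) (nat_lit 290687180) (nat_lit 0) (nat_lit 2475264580) (nat_lit 304) (nat_lit 2475264580) (nat_lit 236) (nat_lit 1) (nat_lit 231) (nat_lit 1) (nat_lit 235) (nat_lit 1) (nat_lit 329) (nat_lit 372) (nat_lit 319)) (XT.lf (nat_lit 380) (nat_lit 4344133231) (nat_lit 0) (nat_lit 418589983) (nat_lit 304) (nat_lit 418589983) (nat_lit 231) (nat_lit 1) (nat_lit 226) (nat_lit 1) (nat_lit 230) (nat_lit 1) (nat_lit 330) (nat_lit 372) (nat_lit 318))) (XT.nd (nat_lit 78) (nat_lit 304) (nat_lit 0) (XT.lf (nat_lit 76) (nat_lit 1576686362) (nat_lit 0) (nat_lit 1968447940) (nat_lit 380) (nat_lit 1576686362) (nat_lit 227) (nat_lit 1) (nat_lit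 226) (nat_lit 1) (nat_lit 231) (nat_lit 1) (nat_lit 331) (nat_lit 372) (nat_lit 317)) (XT.nd (nat_lit 78) (nat_lit 0) (nat_lit 0) (XT.lf (nat_lit 380) (nat_lit 1977996055) (nat_lit 0) (nat_lit 1542751389) (nat_lit 304) (nat_lit 1542751389) (nat_lit 227) (nat_lit 1) (nat_lit 222) (nat_lit 1) (nat_lit 226) (nat_lit 1) (nat_lit 332) (nat_lit 372) (nat_lit 316)) (XT.lf (nat_lit 76) (nat_lit 408634768) (nat_lit 0) (nat_lit 4189035746) (nat_lit 380) (nat_lit 408634768) (nat_lit 223) (nat_lit 1) (nat_lit 222) (nat_lit 1) (nat_lit 227) (nat_lit 1) (nat_lit 333) (nat_lit 372) (nat_lit 315))))) (XT.nd (nat_lit 234) (nat_lit 608) (nat_lit 0) (XT.nd (nat_lit 78) (nat_lit 304) (nat_lit 0) (XT.lf (nat_lit 76) (nat_lit 2302802815) (nat_lit 0) (nat_lit 343874611) (nat_lit 304) (nat_lit 2302802815) (nat_lit 219) (nat_lit 1) (nat_lit 218) (nat_lit 1) (nat_lit 222) (nat_lit 1) (nat_lit 334) (nat_lit 372) (nat_lit 314))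 (XT.nd (nat_lit 78) (nat_lit 0) (nat_lit 0) (XT.lf (nat_lit 380) (nat_lit 3427059079) (nat_lit 0) (nat_lit 733346539) (nat_lit 304) (nat_lit 733346539) (nat_lit 219) (nat_lit 1) (nat_lit 214) (nat_lit 1) (nat_lit 218) (nat_lit 1) (nat_lit 335) (nat_lit 372) (nat_lit 313)) (XT.lf (nat_lit 76) (nat_lit 1124453924) (nat_lit 0) (nat_lit 2589751084) (nat_lit 380) (nat_lit 1124453924) (nat_lit 215) (nat_lit 1) (nat_lit 214) (nat_lit 1) (nat_lit 219) (nat_lit 1) (nat_lit 336) (nat_lit 372) (nat_lit 312)))) (XT.nd (nat_lit 78) (nat_lit 380) (nat_lit 0) (XT.lf (nat_lit 304) (nat_lit 1079681985) (nat_lit 0) (nat_lit 1852374436) (nat_lit 228) (nat_lit 1852374436) (nat_lit 215) (nat_lit 1) (nat_lit 211) (nat_lit 1) (nat_lit 214) (nat_lit 1) (nat_lit 337) (nat_lit 372) (nat_lit 311)) (XT.nd (nat_lit 78) (nat_lit 0) (nat_lit 0) (XT.lf (nat_lit 380) (nat_lit 4665902656) (nat_lit 0) (nat_lit 32764932) (nat_lit 304)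 (nat_lit 32764932) (nat_lit 211) (nat_lit 1) (nat_lit 206) (nat_lit 1) (nat_lit 210) (nat_lit 1) (nat_lit 338) (nat_lit 372) (nat_lit 310)) (XT.lf (nat_lit 76) (nat_lit 1738273645) (nat_lit 0) (nat_lit 1201782703) (nat_lit 380) (nat_lit 1738273645) (nat_lit 207) (nat_lit 1) (nat_lit 206) (nat_lit 1) (nat_lit 211) (nat_lit 1) (nat_lit 339) (nat_lit 372) (nat_lit 309)))))) (XT.nd (nat_lit 390) (nat_lit 988) (nat_lit 0) (XT.nd (nat_lit 156) (nat_lit 532) (nat_lit 0) (XT.nd (nat_lit 78) (nat_lit 0) (nat_lit 0) (XT.lf (nat_lit 304) (nat_lit 2310051161) (nat_lit 0) (nat_lit 1158189905) (nat_lit 228) (nat_lit 1158189905) (nat_lit 207) (nat_lit 1) (nat_lit 203) (nat_lit 1) (nat_lit 206) (nat_lit 1) (nat_lit 340) (nat_lit 372) (nat_lit 308)) (XT.lf (nat_lit 76) (nat_lit 577329426) (nat_lit 0) (nat_lit 3420718550) (nat_lit 304) (nat_lit 577329426) (nat_lit 204) (nat_lit 1) (nat_lit 203) (nat_lit 1) (nat_lit 207)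 (nat_lit 1) (nat_lit 341) (nat_lit 372) (nat_lit 307))) (XT.nd (nat_lit 78) (nat_lit 228) (nat_lit 0) (XT.lf (nat_lit 76) (nat_lit 2262114103) (nat_lit 0) (nat_lit 605655) (nat_lit 304) (nat_lit 2262114103) (nat_lit 200) (nat_lit 1) (nat_lit 199) (nat_lit 1) (nat_lit 203) (nat_lit 1) (nat_lit 342) (nat_lit 372) (nat_lit 306)) (XT.nd (nat_lit 78) (nat_lit 0) (nat_lit 0) (XT.lf (nat_lit 304) (nat_lit 3363875489) (nat_lit 0) (nat_lit 555618488) (nat_lit 228) (nat_lit 555618488) (nat_lit 200) (nat_lit 1) (nat_lit 196) (nat_lit 1) (nat_lit 199) (nat_lit 1) (nat_lit 343) (nat_lit 372) (nat_lit 305)) (XT.lf (nat_lit 76) (nat_lit 1102006877) (nat_lit 0) (nat_lit 2221855442) (nat_lit 304) (nat_lit 1102006877) (nat_lit 197) (nat_lit 1) (nat_lit 196) (nat_lit 1) (nat_lit 200) (nat_lit 1) (nat_lit 344) (nat_lit 372) (nat_lit 304))))) (XT.nd (nat_lit 234) (nat_lit 456) (nat_lit 0) (XT.nd (nat_lit 78) (nat_lit 304)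 (nat_lit 0) (XT.lf (nat_lit 304) (nat_lit 1056151504) (nat_lit 0) (nat_lit 1660637119) (nat_lit 228) (nat_lit 1660637119) (nat_lit 197) (nat_lit 1) (nat_lit 193) (nat_lit 1) (nat_lit 196) (nat_lit 1) (nat_lit 345) (nat_lit 372) (nat_lit 303)) (XT.nd (nat_lit 78) (nat_lit 0) (nat_lit 0) (XT.lf (nat_lit 304) (nat_lit 4261987912) (nat_lit 0) (nat_lit 34030469) (nat_lit 228) (nat_lit 34030469) (nat_lit 193) (nat_lit 1) (nat_lit 189) (nat_lit 1) (nat_lit 192) (nat_lit 1) (nat_lit 346) (nat_lit 372) (nat_lit 302)) (XT.lf (nat_lit 76) (nat_lit 1551018992) (nat_lit 0) (nat_lit 1180489118) (nat_lit 304) (nat_lit 1551018992) (nat_lit 190) (nat_lit 1) (nat_lit 189) (nat_lit 1) (nat_lit 193) (nat_lit 1) (nat_lit 347) (nat_lit 372) (nat_lit 301)))) (XT.nd (nat_lit 78) (nat_lit 228) (nat_lit 0) (XT.lf (nat_lit 304) (nat_lit 1964299584) (nat_lit 0) (nat_lit 1135876404) (nat_lit 228) (nat_lit 1135876404) (nat_lit 190)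 (nat_lit 1) (nat_lit 186) (nat_lit 1) (nat_lit 189) (nat_lit 1) (nat_lit 348) (nat_lit 372) (nat_lit 300)) (XT.nd (nat_lit 78) (nat_lit 228) (nat_lit 0) (XT.lf (nat_lit 76) (nat_lit 420125342) (nat_lit 0) (nat_lit 3350114169) (nat_lit 304) (nat_lit 420125342) (nat_lit 187) (nat_lit 1) (nat_lit 186) (nat_lit 1) (nat_lit 190) (nat_lit 1) (nat_lit 349) (nat_lit 372) (nat_lit 299)) (XT.lf (nat_lit 76) (nat_lit 1933303155) (nat_lit 0) (nat_lit 278363209) (nat_lit 228) (nat_lit 1933303155) (nat_lit 184) (nat_lit 1) (nat_lit 183) (nat_lit 1) (nat_lit 186) (nat_lit 1) (nat_lit 350) (nat_lit 372) (nat_lit 298))))))) (XT.nd (nat_lit 858) (nat_lit 1368) (nat_lit 0) (XT.nd (nat_lit 390) (nat_lit 760) (nat_lit 0) (XT.nd (nat_lit 156) (nat_lit 456) (nat_lit 0) (XT.nd (nat_lit 78) (nat_lit 0) (nat_lit 0) (XT.lf (nat_lit 304) (nat_lit 2741296148) (nat_lit 0) (nat_lit 679523931) (nat_lit 228) (nat_lit 679523931) (nat_lit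 184) (nat_lit 1) (nat_lit 180) (nat_lit 1) (nat_lit 183) (nat_lit 1) (nat_lit 351) (nat_lit 372) (nat_lit 297)) (XT.lf (nat_lit 76) (nat_lit 810810232) (nat_lit 0) (nat_lit 2434607281) (nat_lit 304) (nat_lit 810810232) (nat_lit 181) (nat_lit 1) (nat_lit 180) (nat_lit 1) (nat_lit 184) (nat_lit 1) (nat_lit 352) (nat_lit 372) (nat_lit 296))) (XT.nd (nat_lit 78) (nat_lit 304) (nat_lit 0) (XT.lf (nat_lit 228) (nat_lit 510687995) (nat_lit 0) (nat_lit 1751006609) (nat_lit 152) (nat_lit 1751006609) (nat_lit 181) (nat_lit 1) (nat_lit 178) (nat_lit 1) (nat_lit 180) (nat_lit 1) (nat_lit 353) (nat_lit 372) (nat_lit 295)) (XT.nd (nat_lit 78) (nat_lit 0) (nat_lit 0) (XT.lf (nat_lit 304) (nat_lit 3402636617) (nat_lit 0) (nat_lit 283663220) (nat_lit 228) (nat_lit 283663220) (nat_lit 178) (nat_lit 1) (nat_lit 174) (nat_lit 1) (nat_lit 177) (nat_lit 1) (nat_lit 354) (nat_lit 372) (nat_lit 294)) (XT.lf (nat_lit 76) (nat_lit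 1145184979) (nat_lit 0) (nat_lit 1636975514) (nat_lit 304) (nat_lit 1145184979) (nat_lit 175) (nat_lit 1) (nat_lit 174) (nat_lit 1) (nat_lit 178) (nat_lit 1) (nat_lit 355) (nat_lit 372) (nat_lit 293))))) (XT.nd (nat_lit 234) (nat_lit 380) (nat_lit 0) (XT.nd (nat_lit 78) (nat_lit 228) (nat_lit 0) (XT.lf (nat_lit 228) (nat_lit 1194450637) (nat_lit 0) (nat_lit 1345525549) (nat_lit 152) (nat_lit 1345525549) (nat_lit 175) (nat_lit 1) (nat_lit 172) (nat_lit 1) (nat_lit 174) (nat_lit 1) (nat_lit 356) (nat_lit 372) (nat_lit 292)) (XT.nd (nat_lit 78) (nat_lit 228) (nat_lit 0) (XT.lf (nat_lit 76) (nat_lit 59312525) (nat_lit 0) (nat_lit 3725907244) (nat_lit 228) (nat_lit 59312525) (nat_lit 173) (nat_lit 1) (nat_lit 172) (nat_lit 1) (nat_lit 175) (nat_lit 1) (nat_lit 357) (nat_lit 372) (nat_lit 291)) (XT.lf (nat_lit 76) (nat_lit 1429900069) (nat_lit 0) (nat_lit 943614530) (nat_lit 228) (nat_lit 1429900069) (nat_lit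 170) (nat_lit 1) (nat_lit 169) (nat_lit 1) (nat_lit 172) (nat_lit 1) (nat_lit 358) (nat_lit 372) (nat_lit 290)))) (XT.nd (nat_lit 78) (nat_lit 228) (nat_lit 0) (XT.lf (nat_lit 228) (nat_lit 1780390782) (nat_lit 0) (nat_lit 991383825) (nat_lit 152) (nat_lit 991383825) (nat_lit 170) (nat_lit 1) (nat_lit 167) (nat_lit 1) (nat_lit 169) (nat_lit 1) (nat_lit 359) (nat_lit 372) (nat_lit 289)) (XT.nd (nat_lit 78) (nat_lit 228) (nat_lit 0) (XT.lf (nat_lit 76) (nat_lit 357396450) (nat_lit 0) (nat_lit 3008768382) (nat_lit 228) (nat_lit 357396450) (nat_lit 168) (nat_lit 1) (nat_lit 167) (nat_lit 1) (nat_lit 170) (nat_lit 1) (nat_lit 360) (nat_lit 372) (nat_lit 288)) (XT.lf (nat_lit 76) (nat_lit 1670853563) (nat_lit 0) (nat_lit 342450442) (nat_lit 228) (nat_lit 1670853563) (nat_lit 165) (nat_lit 1) (nat_lit 164) (nat_lit 1) (nat_lit 167) (nat_lit 1) (nat_lit 361) (nat_lit 372) (nat_lit 287)))))) (XT.nd (nat_lit 468)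 (nat_lit 684) (nat_lit 0) (XT.nd (nat_lit 234) (nat_lit 380) (nat_lit 0) (XT.nd (nat_lit 78) (nat_lit 152) (nat_lit 0) (XT.lf (nat_lit 228) (nat_lit 2280045278) (nat_lit 0) (nat_lit 682678098) (nat_lit 152) (nat_lit 682678098) (nat_lit 165) (nat_lit 1) (nat_lit 162) (nat_lit 1) (nat_lit 164) (nat_lit 1) (nat_lit 362) (nat_lit 372) (nat_lit 286)) (XT.nd (nat_lit 78) (nat_lit 152) (nat_lit 0) (XT.lf (nat_lit 76) (nat_lit 613365456) (nat_lit 0) (nat_lit 2380385770) (nat_lit 228) (nat_lit 613365456) (nat_lit 163) (nat_lit 1) (nat_lit 162) (nat_lit 1) (nat_lit 165) (nat_lit 1) (nat_lit 363) (nat_lit 372) (nat_lit 285)) (XT.lf (nat_lit 228) (nat_lit 180758492) (nat_lit 0) (nat_lit 1694254384) (nat_lit 152) (nat_lit 1694254384) (nat_lit 163) (nat_lit 1) (nat_lit 160) (nat_lit 1) (nat_lit 162) (nat_lit 1) (nat_lit 364) (nat_lit 372) (nat_lit 284)))) (XT.nd (nat_lit 78) (nat_lit 152) (nat_lit 0) (XT.lf (nat_lit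 228) (nat_lit 2703646162) (nat_lit 0) (nat_lit 414168522) (nat_lit 152) (nat_lit 414168522) (nat_lit 160) (nat_lit 1) (nat_lit 157) (nat_lit 1) (nat_lit 159) (nat_lit 1) (nat_lit 365) (nat_lit 372) (nat_lit 283)) (XT.nd (nat_lit 78) (nat_lit 152) (nat_lit 0) (XT.lf (nat_lit 76) (nat_lit 832174389) (nat_lit 0) (nat_lit 1830606035) (nat_lit 228) (nat_lit 832174389) (nat_lit 158) (nat_lit 1) (nat_lit 157) (nat_lit 1) (nat_lit 160) (nat_lit 1) (nat_lit 366) (nat_lit 372) (nat_lit 282)) (XT.lf (nat_lit 228) (nat_lit 637375074) (nat_lit 0) (nat_lit 1410553556) (nat_lit 152) (nat_lit 1410553556) (nat_lit 158) (nat_lit 1) (nat_lit 155) (nat_lit 1) (nat_lit 157) (nat_lit 1) (nat_lit 367) (nat_lit 372) (nat_lit 281))))) (XT.nd (nat_lit 234) (nat_lit 304) (nat_lit 0) (XT.nd (nat_lit 78) (nat_lit 152) (nat_lit 0) (XT.lf (nat_lit 228) (nat_lit 3060266699) (nat_lit 0) (nat_lit 181204604) (nat_lit 152) (nat_lit 181204604)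 (nat_lit 155) (nat_lit 1) (nat_lit 152) (nat_lit 1) (nat_lit 154) (nat_lit 1) (nat_lit 368) (nat_lit 372) (nat_lit 280)) (XT.nd (nat_lit 78) (nat_lit 152) (nat_lit 0) (XT.lf (nat_lit 76) (nat_lit 1018218036) (nat_lit 0) (nat_lit 1350415489) (nat_lit 228) (nat_lit 1018218036) (nat_lit 153) (nat_lit 1) (nat_lit 152) (nat_lit 1) (nat_lit 155) (nat_lit 1) (nat_lit 369) (nat_lit 372) (nat_lit 279)) (XT.lf (nat_lit 228) (nat_lit 1029186387) (nat_lit 0) (nat_lit 1161249322) (nat_lit 152) (nat_lit 1161249322) (nat_lit 153) (nat_lit 1) (nat_lit 150) (nat_lit 1) (nat_lit 152) (nat_lit 1) (nat_lit 370) (nat_lit 372) (nat_lit 278)))) (XT.nd (nat_lit 78) (nat_lit 304) (nat_lit 0) (XT.lf (nat_lit 76) (nat_lit 20542054) (nat_lit 0) (nat_lit 3276161865) (nat_lit 228) (nat_lit 20542054) (nat_lit 151) (nat_lit 1) (nat_lit 150) (nat_lit 1) (nat_lit 153) (nat_lit 1) (nat_lit 371) (nat_lit 372) (nat_lit 277)) (XT.nd (nat_lit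 78) (nat_lit 152) (nat_lit 0) (XT.lf (nat_lit 76) (nat_lit 1175393798) (nat_lit 0) (nat_lit 931812824) (nat_lit 152) (nat_lit 1175393798) (nat_lit 149) (nat_lit 1) (nat_lit 148) (nat_lit 1) (nat_lit 150) (nat_lit 1) (nat_lit 372) (nat_lit 372) (nat_lit 276)) (XT.lf (nat_lit 228) (nat_lit 1363823522) (nat_lit 0) (nat_lit 942425619) (nat_lit 152) (nat_lit 942425619) (nat_lit 149) (nat_lit 1) (nat_lit 146) (nat_lit 1) (nat_lit 148) (nat_lit 1) (nat_lit 373) (nat_lit 372) (nat_lit 275))))))))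
noncomputable def ec76 : XT := (XT.nd (nat_lit 46176) (nat_lit 0) (nat_lit 12236) (XT.nd (nat_lit 45318) (nat_lit 0) (nat_lit 18316) (XT.nd (nat_lit 390) (nat_lit 532) (nat_lit 0) (XT.nd (nat_lit 156) (nat_lit 304) (nat_lit 0) (XT.nd (nat_lit 78) (nat_lit 152) (nat_lit 0) (XT.lf (nat_lit 76) (nat_lit 196051385) (nat_lit 0) (nat_lit 2823241160) (nat_lit 228) (nat_lit 196051385) (nat_lit 147) (nat_lit 1) (nat_lit 146) (nat_lit 1) (nat_lit 149) (nat_lit 1) (nat_lit 374) (nat_lit 372) (nat_lit 274)) (XT.lf (nat_lit 76) (nat_lit 1307157371) (nat_lit 0) (nat_lit 567696006) (nat_lit 152) (nat_lit 1307157371) (nat_lit 145) (nat_lit 1) (nat_lit 144) (nat_lit 1) (nat_lit 146) (nat_lit 1) (nat_lit 375) (nat_lit 372) (nat_lit 273))) (XT.nd (nat_lit 78) (nat_lit 152) (nat_lit 0) (XT.lf (nat_lit 228) (nat_lit 1648054823) (nat_lit 0) (nat_lit 750605420) (nat_lit 152) (nat_lit 750605420) (nat_lit 145) (nat_lit 1) (nat_lit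 142) (nat_lit 1) (nat_lit 144) (nat_lit 1) (nat_lit 376) (nat_lit 372) (nat_lit 272)) (XT.nd (nat_lit 78) (nat_lit 152) (nat_lit 0) (XT.lf (nat_lit 76) (nat_lit 346810510) (nat_lit 0) (nat_lit 2423378034) (nat_lit 228) (nat_lit 346810510) (nat_lit 143) (nat_lit 1) (nat_lit 142) (nat_lit 1) (nat_lit 145) (nat_lit 1) (nat_lit 377) (nat_lit 372) (nat_lit 271)) (XT.lf (nat_lit 76) (nat_lit 1416572205) (nat_lit 0) (nat_lit 251761793) (nat_lit 152) (nat_lit 1416572205) (nat_lit 141) (nat_lit 1) (nat_lit 140) (nat_lit 1) (nat_lit 142) (nat_lit 1) (nat_lit 378) (nat_lit 372) (nat_lit 270))))) (XT.nd (nat_lit 234) (nat_lit 304) (nat_lit 0) (XT.nd (nat_lit 78) (nat_lit 76) (nat_lit 0) (XT.lf (nat_lit 228) (nat_lit 1887882440) (nat_lit 0) (nat_lit 582701702) (nat_lit 152) (nat_lit 582701702) (nat_lit 141) (nat_lit 1) (nat_lit 138) (nat_lit 1) (nat_lit 140) (nat_lit 1) (nat_lit 379) (nat_lit 372) (nat_lit 269))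 (XT.nd (nat_lit 78) (nat_lit 76) (nat_lit 0) (XT.lf (nat_lit 76) (nat_lit 475730233) (nat_lit 0) (nat_lit 2070581578) (nat_lit 228) (nat_lit 475730233) (nat_lit 139) (nat_lit 1) (nat_lit 138) (nat_lit 1) (nat_lit 141) (nat_lit 1) (nat_lit 380) (nat_lit 372) (nat_lit 268)) (XT.lf (nat_lit 152) (nat_lit 22013099) (nat_lit 0) (nat_lit 1484551950) (nat_lit 76) (nat_lit 1484551950) (nat_lit 139) (nat_lit 1) (nat_lit 137) (nat_lit 1) (nat_lit 138) (nat_lit 1) (nat_lit 381) (nat_lit 372) (nat_lit 267)))) (XT.nd (nat_lit 78) (nat_lit 76) (nat_lit 0) (XT.lf (nat_lit 228) (nat_lit 2088628102) (nat_lit 0) (nat_lit 435973895) (nat_lit 152) (nat_lit 435973895) (nat_lit 137) (nat_lit 1) (nat_lit 134) (nat_lit 1) (nat_lit 136) (nat_lit 1) (nat_lit 382) (nat_lit 372) (nat_lit 266)) (XT.nd (nat_lit 78) (nat_lit 76) (nat_lit 0) (XT.lf (nat_lit 76) (nat_lit 585392370) (nat_lit 0) (nat_lit 1759531111) (nat_lit 228) (nat_lit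 585392370) (nat_lit 135) (nat_lit 1) (nat_lit 134) (nat_lit 1) (nat_lit 137) (nat_lit 1) (nat_lit 383) (nat_lit 372) (nat_lit 265)) (XT.lf (nat_lit 152) (nat_lit 262424376) (nat_lit 0) (nat_lit 1319005180) (nat_lit 76) (nat_lit 1319005180) (nat_lit 135) (nat_lit 1) (nat_lit 133) (nat_lit 1) (nat_lit 134) (nat_lit 1) (nat_lit 384) (nat_lit 372) (nat_lit 264)))))) (XT.nd (nat_lit 390) (nat_lit 0) (nat_lit 152) (XT.nd (nat_lit 156) (nat_lit 0) (nat_lit 76) (XT.nd (nat_lit 78) (nat_lit 0) (nat_lit 0) (XT.lf (nat_lit 1292) (nat_lit 989220465) (nat_lit 0) (nat_lit 3403378456) (nat_lit 1292) (nat_lit 989220465) (nat_lit 391) (nat_lit 1) (nat_lit 374) (nat_lit 0) (nat_lit 391) (nat_lit 0) (nat_lit 274) (nat_lit 373) (nat_lit 373)) (XT.lf (nat_lit 1292) (nat_lit 3865890912) (nat_lit 76) (nat_lit 3370012001) (nat_lit 0) (nat_lit 3370012001) (nat_lit 391) (nat_lit 1) (nat_lit 375) (nat_lit 1) (nat_lit 374) (nat_lit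 0) (nat_lit 275) (nat_lit 373) (nat_lit 372))) (XT.nd (nat_lit 78) (nat_lit 0) (nat_lit 0) (XT.lf (nat_lit 1292) (nat_lit 1869637019) (nat_lit 0) (nat_lit 6712396077) (nat_lit 1216) (nat_lit 1869637019) (nat_lit 392) (nat_lit 1) (nat_lit 375) (nat_lit 1) (nat_lit 391) (nat_lit 1) (nat_lit 276) (nat_lit 373) (nat_lit 371)) (XT.nd (nat_lit 78) (nat_lit 0) (nat_lit 76) (XT.lf (nat_lit 1292) (nat_lit 3550537229) (nat_lit 76) (nat_lit 3374731960) (nat_lit 0) (nat_lit 3374731960) (nat_lit 392) (nat_lit 1) (nat_lit 376) (nat_lit 1) (nat_lit 375) (nat_lit 1) (nat_lit 277) (nat_lit 373) (nat_lit 370)) (XT.lf (nat_lit 1292) (nat_lit 1666071887) (nat_lit 0) (nat_lit 6819582054) (nat_lit 1216) (nat_lit 1666071887) (nat_lit 393) (nat_lit 1) (nat_lit 376) (nat_lit 1) (nat_lit 392) (nat_lit 1) (nat_lit 278) (nat_lit 373) (nat_lit 369))))) (XT.nd (nat_lit 234) (nat_lit 0) (nat_lit 152) (XT.nd (nat_lit 78) (nat_lit 0)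 (nat_lit 76) (XT.lf (nat_lit 1292) (nat_lit 3053252647) (nat_lit 76) (nat_lit 3476284610) (nat_lit 0) (nat_lit 3476284610) (nat_lit 393) (nat_lit 1) (nat_lit 377) (nat_lit 1) (nat_lit 376) (nat_lit 1) (nat_lit 279) (nat_lit 373) (nat_lit 368)) (XT.nd (nat_lit 78) (nat_lit 0) (nat_lit 0) (XT.lf (nat_lit 1292) (nat_lit 1376127169) (nat_lit 0) (nat_lit 7111032707) (nat_lit 1216) (nat_lit 1376127169) (nat_lit 394) (nat_lit 1) (nat_lit 377) (nat_lit 1) (nat_lit 393) (nat_lit 1) (nat_lit 280) (nat_lit 373) (nat_lit 367)) (XT.lf (nat_lit 1292) (nat_lit 2390306963) (nat_lit 76) (nat_lit 3666283097) (nat_lit 0) (nat_lit 3666283097) (nat_lit 394) (nat_lit 1) (nat_lit 378) (nat_lit 1) (nat_lit 377) (nat_lit 1) (nat_lit 281) (nat_lit 373) (nat_lit 366)))) (XT.nd (nat_lit 78) (nat_lit 0) (nat_lit 0) (XT.lf (nat_lit 1292) (nat_lit 1007617669) (nat_lit 0) (nat_lit 7570624344) (nat_lit 1216) (nat_lit 1007617669) (nat_lit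 395) (nat_lit 1) (nat_lit 378) (nat_lit 1) (nat_lit 394) (nat_lit 1) (nat_lit 282) (nat_lit 373) (nat_lit 365)) (XT.nd (nat_lit 78) (nat_lit 0) (nat_lit 76) (XT.lf (nat_lit 1292) (nat_lit 1576866324) (nat_lit 76) (nat_lit 3936904384) (nat_lit 0) (nat_lit 3936904384) (nat_lit 395) (nat_lit 1) (nat_lit 379) (nat_lit 1) (nat_lit 378) (nat_lit 1) (nat_lit 283) (nat_lit 373) (nat_lit 364)) (XT.lf (nat_lit 1292) (nat_lit 567826400) (nat_lit 0) (nat_lit 8183320382) (nat_lit 1216) (nat_lit 567826400) (nat_lit 396) (nat_lit 1) (nat_lit 379) (nat_lit 1) (nat_lit 395) (nat_lit 1) (nat_lit 284) (nat_lit 373) (nat_lit 363))))))) (XT.nd (nat_lit 858) (nat_lit 3952) (nat_lit 0) (XT.nd (nat_lit 390) (nat_lit 1292) (nat_lit 0) (XT.nd (nat_lit 156) (nat_lit 1216) (nat_lit 0) (XT.nd (nat_lit 78) (nat_lit 0) (nat_lit 76) (XT.lf (nat_lit 1292) (nat_lit 627061525) (nat_lit 76) (nat_lit 4280854484) (nat_lit 0) (nat_lit 4280854484)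 (nat_lit 396) (nat_lit 1) (nat_lit 380) (nat_lit 1) (nat_lit 379) (nat_lit 1) (nat_lit 285) (nat_lit 373) (nat_lit 362)) (XT.lf (nat_lit 1292) (nat_lit 63537529) (nat_lit 0) (nat_lit 8935104228) (nat_lit 1216) (nat_lit 63537529) (nat_lit 397) (nat_lit 1) (nat_lit 380) (nat_lit 1) (nat_lit 396) (nat_lit 1) (nat_lit 286) (nat_lit 373) (nat_lit 361))) (XT.nd (nat_lit 78) (nat_lit 0) (nat_lit 0) (XT.lf (nat_lit 1368) (nat_lit 4249674730) (nat_lit 0) (nat_lit 437245710) (nat_lit 1292) (nat_lit 4249674730) (nat_lit 381) (nat_lit 1) (nat_lit 363) (nat_lit 1) (nat_lit 380) (nat_lit 1) (nat_lit 287) (nat_lit 373) (nat_lit 360)) (XT.nd (nat_lit 78) (nat_lit 0) (nat_lit 76) (XT.lf (nat_lit 1368) (nat_lit 7826390201) (nat_lit 76) (nat_lit 494041135) (nat_lit 0) (nat_lit 494041135) (nat_lit 381) (nat_lit 1) (nat_lit 364) (nat_lit 1) (nat_lit 363) (nat_lit 1) (nat_lit 288) (nat_lit 373) (nat_lit 359)) (XT.lf (nat_lit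 1368) (nat_lit 3547771342) (nat_lit 0) (nat_lit 1598107098) (nat_lit 1292) (nat_lit 3547771342) (nat_lit 382) (nat_lit 1) (nat_lit 364) (nat_lit 1) (nat_lit 381) (nat_lit 1) (nat_lit 289) (nat_lit 373) (nat_lit 358))))) (XT.nd (nat_lit 234) (nat_lit 608) (nat_lit 0) (XT.nd (nat_lit 78) (nat_lit 760) (nat_lit 0) (XT.lf (nat_lit 1368) (nat_lit 6370314274) (nat_lit 76) (nat_lit 1102787794) (nat_lit 0) (nat_lit 1102787794) (nat_lit 382) (nat_lit 1) (nat_lit 365) (nat_lit 1) (nat_lit 364) (nat_lit 1) (nat_lit 290) (nat_lit 373) (nat_lit 357)) (XT.nd (nat_lit 78) (nat_lit 836) (nat_lit 0) (XT.lf (nat_lit 76) (nat_lit 2801568301) (nat_lit 0) (nat_lit 2856586178) (nat_lit 1292) (nat_lit 2801568301) (nat_lit 366) (nat_lit 1) (nat_lit 365) (nat_lit 1) (nat_lit 382) (nat_lit 1) (nat_lit 291) (nat_lit 373) (nat_lit 356)) (XT.lf (nat_lit 912) (nat_lit 4830298163) (nat_lit 0) (nat_lit 1757912670) (nat_lit 836) (nat_lit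 1757912670) (nat_lit 366) (nat_lit 1) (nat_lit 354) (nat_lit 1) (nat_lit 365) (nat_lit 1) (nat_lit 292) (nat_lit 373) (nat_lit 355)))) (XT.nd (nat_lit 78) (nat_lit 608) (nat_lit 0) (XT.lf (nat_lit 76) (nat_lit 2016072424) (nat_lit 0) (nat_lit 4202295143) (nat_lit 912) (nat_lit 2016072424) (nat_lit 355) (nat_lit 1) (nat_lit 354) (nat_lit 1) (nat_lit 366) (nat_lit 1) (nat_lit 293) (nat_lit 373) (nat_lit 354)) (XT.nd (nat_lit 78) (nat_lit 0) (nat_lit 0) (XT.lf (nat_lit 684) (nat_lit 3216039745) (nat_lit 0) (nat_lit 2454384841) (nat_lit 608) (nat_lit 2454384841) (nat_lit 355) (nat_lit 1) (nat_lit 346) (nat_lit 1) (nat_lit 354) (nat_lit 1) (nat_lit 294) (nat_lit 373) (nat_lit 353)) (XT.lf (nat_lit 76) (nat_lit 1195931357) (nat_lit 0) (nat_lit 5625581834) (nat_lit 684) (nat_lit 1195931357) (nat_lit 347) (nat_lit 1) (nat_lit 346) (nat_lit 1) (nat_lit 355) (nat_lit 1) (nat_lit 295) (nat_lit 373) (nat_lit 352))))))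 (XT.nd (nat_lit 390) (nat_lit 2128) (nat_lit 0) (XT.nd (nat_lit 156) (nat_lit 1216) (nat_lit 0) (XT.nd (nat_lit 78) (nat_lit 0) (nat_lit 0) (XT.lf (nat_lit 684) (nat_lit 1536538079) (nat_lit 0) (nat_lit 3187531166) (nat_lit 608) (nat_lit 3187531166) (nat_lit 347) (nat_lit 1) (nat_lit 338) (nat_lit 1) (nat_lit 346) (nat_lit 1) (nat_lit 296) (nat_lit 373) (nat_lit 351)) (XT.lf (nat_lit 76) (nat_lit 345456281) (nat_lit 0) (nat_lit 7117483448) (nat_lit 684) (nat_lit 345456281) (nat_lit 339) (nat_lit 1) (nat_lit 338) (nat_lit 1) (nat_lit 347) (nat_lit 1) (nat_lit 297) (nat_lit 373) (nat_lit 350))) (XT.nd (nat_lit 78) (nat_lit 608) (nat_lit 0) (XT.lf (nat_lit 76) (nat_lit 3755072610) (nat_lit 0) (nat_lit 195962300) (nat_lit 608) (nat_lit 3755072610) (nat_lit 331) (nat_lit 1) (nat_lit 330) (nat_lit 1) (nat_lit 338) (nat_lit 1) (nat_lit 298) (nat_lit 373) (nat_lit 349)) (XT.nd (nat_lit 78) (nat_lit 0) (nat_lit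 0) (XT.lf (nat_lit 684) (nat_lit 6554058778) (nat_lit 0) (nat_lit 526147368) (nat_lit 608) (nat_lit 526147368) (nat_lit 331) (nat_lit 1) (nat_lit 322) (nat_lit 1) (nat_lit 330) (nat_lit 1) (nat_lit 299) (nat_lit 373) (nat_lit 348)) (XT.lf (nat_lit 76) (nat_lit 2780463921) (nat_lit 0) (nat_lit 1946687073) (nat_lit 684) (nat_lit 2780463921) (nat_lit 323) (nat_lit 1) (nat_lit 322) (nat_lit 1) (nat_lit 331) (nat_lit 1) (nat_lit 300) (nat_lit 373) (nat_lit 347))))) (XT.nd (nat_lit 234) (nat_lit 1064) (nat_lit 0) (XT.nd (nat_lit 78) (nat_lit 532) (nat_lit 0) (XT.lf (nat_lit 608) (nat_lit 4577637884) (nat_lit 0) (nat_lit 1416779218) (nat_lit 532) (nat_lit 1416779218) (nat_lit 323) (nat_lit 1) (nat_lit 315) (nat_lit 1) (nat_lit 322) (nat_lit 1) (nat_lit 301) (nat_lit 373) (nat_lit 346)) (XT.nd (nat_lit 78) (nat_lit 532) (nat_lit 0) (XT.lf (nat_lit 76) (nat_lit 1788832145) (nat_lit 0) (nat_lit 3738601651) (nat_lit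 608) (nat_lit 1788832145) (nat_lit 316) (nat_lit 1) (nat_lit 315) (nat_lit 1) (nat_lit 323) (nat_lit 1) (nat_lit 302) (nat_lit 373) (nat_lit 345)) (XT.lf (nat_lit 608) (nat_lit 2570163185) (nat_lit 0) (nat_lit 2326434889) (nat_lit 532) (nat_lit 2326434889) (nat_lit 316) (nat_lit 1) (nat_lit 308) (nat_lit 1) (nat_lit 315) (nat_lit 1) (nat_lit 303) (nat_lit 373) (nat_lit 344)))) (XT.nd (nat_lit 78) (nat_lit 1064) (nat_lit 0) (XT.lf (nat_lit 76) (nat_lit 783279806) (nat_lit 0) (nat_lit 5565214718) (nat_lit 608) (nat_lit 783279806) (nat_lit 309) (nat_lit 1) (nat_lit 308) (nat_lit 1) (nat_lit 316) (nat_lit 1) (nat_lit 304) (nat_lit 373) (nat_lit 343)) (XT.nd (nat_lit 78) (nat_lit 608) (nat_lit 0) (XT.lf (nat_lit 532) (nat_lit 537626281) (nat_lit 0) (nat_lit 3251979140) (nat_lit 456) (nat_lit 3251979140) (nat_lit 309) (nat_lit 1) (nat_lit 302) (nat_lit 1) (nat_lit 308) (nat_lit 1) (nat_lit 305) (nat_lit 373)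 (nat_lit 342)) (XT.lf (nat_lit 608) (nat_lit 6491510092) (nat_lit 0) (nat_lit 231043019) (nat_lit 532) (nat_lit 231043019) (nat_lit 302) (nat_lit 1) (nat_lit 294) (nat_lit 1) (nat_lit 301) (nat_lit 1) (nat_lit 306) (nat_lit 373) (nat_lit 341))))))))
noncomputable def ec77 : XT := (XT.nd (nat_lit 1716) (nat_lit 3648) (nat_lit 0) (XT.nd (nat_lit 858) (nat_lit 2584) (nat_lit 0) (XT.nd (nat_lit 390) (nat_lit 1672) (nat_lit 0) (XT.nd (nat_lit 156) (nat_lit 456) (nat_lit 0) (XT.nd (nat_lit 78) (nat_lit 456) (nat_lit 0) (XT.lf (nat_lit 76) (nat_lit 2690626252) (nat_lit 0) (nat_lit 1484895431) (nat_lit 608) (nat_lit 2690626252) (nat_lit 295) (nat_lit 1) (nat_lit 294) (nat_lit 1) (nat_lit 302) (nat_lit 1) (nat_lit 307) (nat_lit 373) (nat_lit 340)) (XT.lf (nat_lit 532) (nat_lit 4288774718) (nat_lit 0) (nat_lit 1246024021) (nat_lit 456) (nat_lit 1246024021) (nat_lit 295) (nat_lit 1) (nat_lit 288) (nat_lit 1) (nat_lit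 294) (nat_lit 1) (nat_lit 308) (nat_lit 373) (nat_lit 339))) (XT.nd (nat_lit 78) (nat_lit 456) (nat_lit 0) (XT.lf (nat_lit 76) (nat_lit 1592826778) (nat_lit 0) (nat_lit 3511092438) (nat_lit 532) (nat_lit 1592826778) (nat_lit 289) (nat_lit 1) (nat_lit 288) (nat_lit 1) (nat_lit 295) (nat_lit 1) (nat_lit 309) (nat_lit 373) (nat_lit 338)) (XT.nd (nat_lit 78) (nat_lit 0) (nat_lit 0) (XT.lf (nat_lit 532) (nat_lit 2080239664) (nat_lit 0) (nat_lit 2266937904) (nat_lit 456) (nat_lit 2266937904) (nat_lit 289) (nat_lit 1) (nat_lit 282) (nat_lit 1) (nat_lit 288) (nat_lit 1) (nat_lit 310) (nat_lit 373) (nat_lit 337)) (XT.lf (nat_lit 76) (nat_lit 493212929) (nat_lit 0) (nat_lit 5546865907) (nat_lit 532) (nat_lit 493212929) (nat_lit 283) (nat_lit 1) (nat_lit 282) (nat_lit 1) (nat_lit 289) (nat_lit 1) (nat_lit 311) (nat_lit 373) (nat_lit 336))))) (XT.nd (nat_lit 234) (nat_lit 760) (nat_lit 0) (XT.nd (nat_lit 78) (nat_lit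 456) (nat_lit 0) (XT.lf (nat_lit 76) (nat_lit 3162912731) (nat_lit 0) (nat_lit 127375310) (nat_lit 456) (nat_lit 3162912731) (nat_lit 277) (nat_lit 1) (nat_lit 276) (nat_lit 1) (nat_lit 282) (nat_lit 1) (nat_lit 312) (nat_lit 373) (nat_lit 335)) (XT.nd (nat_lit 78) (nat_lit 0) (nat_lit 0) (XT.lf (nat_lit 532) (nat_lit 5174292100) (nat_lit 0) (nat_lit 600279453) (nat_lit 456) (nat_lit 600279453) (nat_lit 277) (nat_lit 1) (nat_lit 270) (nat_lit 1) (nat_lit 276) (nat_lit 1) (nat_lit 313) (nat_lit 373) (nat_lit 334)) (XT.lf (nat_lit 76) (nat_lit 2002533964) (nat_lit 0) (nat_lit 2292223191) (nat_lit 532) (nat_lit 2002533964) (nat_lit 271) (nat_lit 1) (nat_lit 270) (nat_lit 1) (nat_lit 277) (nat_lit 1) (nat_lit 314) (nat_lit 373) (nat_lit 333)))) (XT.nd (nat_lit 78) (nat_lit 380) (nat_lit 0) (XT.lf (nat_lit 456) (nat_lit 2847426055) (nat_lit 0) (nat_lit 1686954829) (nat_lit 380) (nat_lit 1686954829) (nat_lit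 271) (nat_lit 1) (nat_lit 265) (nat_lit 1) (nat_lit 270) (nat_lit 1) (nat_lit 315) (nat_lit 373) (nat_lit 332)) (XT.nd (nat_lit 78) (nat_lit 380) (nat_lit 0) (XT.lf (nat_lit 76) (nat_lit 847654784) (nat_lit 0) (nat_lit 4451461894) (nat_lit 456) (nat_lit 847654784) (nat_lit 266) (nat_lit 1) (nat_lit 265) (nat_lit 1) (nat_lit 271) (nat_lit 1) (nat_lit 316) (nat_lit 373) (nat_lit 331)) (XT.lf (nat_lit 456) (nat_lit 533108089) (nat_lit 0) (nat_lit 2769999889) (nat_lit 380) (nat_lit 2769999889) (nat_lit 266) (nat_lit 1) (nat_lit 260) (nat_lit 1) (nat_lit 265) (nat_lit 1) (nat_lit 317) (nat_lit 373) (nat_lit 330)))))) (XT.nd (nat_lit 390) (nat_lit 1444) (nat_lit 0) (XT.nd (nat_lit 156) (nat_lit 684) (nat_lit 0) (XT.nd (nat_lit 78) (nat_lit 0) (nat_lit 0) (XT.lf (nat_lit 456) (nat_lit 5406454277) (nat_lit 0) (nat_lit 297316848) (nat_lit 380) (nat_lit 297316848) (nat_lit 260) (nat_lit 1) (nat_lit 254) (nat_lit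 1) (nat_lit 259) (nat_lit 1) (nat_lit 318) (nat_lit 373) (nat_lit 329)) (XT.lf (nat_lit 76) (nat_lit 2099029232) (nat_lit 0) (nat_lit 1731398917) (nat_lit 456) (nat_lit 2099029232) (nat_lit 255) (nat_lit 1) (nat_lit 254) (nat_lit 1) (nat_lit 260) (nat_lit 1) (nat_lit 319) (nat_lit 373) (nat_lit 328))) (XT.nd (nat_lit 78) (nat_lit 304) (nat_lit 0) (XT.lf (nat_lit 456) (nat_lit 3007884149) (nat_lit 0) (nat_lit 1425767283) (nat_lit 380) (nat_lit 1425767283) (nat_lit 255) (nat_lit 1) (nat_lit 249) (nat_lit 1) (nat_lit 254) (nat_lit 1) (nat_lit 320) (nat_lit 373) (nat_lit 327)) (XT.nd (nat_lit 78) (nat_lit 304) (nat_lit 0) (XT.lf (nat_lit 76) (nat_lit 911297036) (nat_lit 0) (nat_lit 3967958530) (nat_lit 456) (nat_lit 911297036) (nat_lit 250) (nat_lit 1) (nat_lit 249) (nat_lit 1) (nat_lit 255) (nat_lit 1) (nat_lit 321) (nat_lit 373) (nat_lit 326)) (XT.lf (nat_lit 380) (nat_lit 632925454) (nat_lit 0) (nat_lit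 2544816894) (nat_lit 304) (nat_lit 2544816894) (nat_lit 250) (nat_lit 1) (nat_lit 245) (nat_lit 1) (nat_lit 249) (nat_lit 1) (nat_lit 322) (nat_lit 373) (nat_lit 325))))) (XT.nd (nat_lit 234) (nat_lit 684) (nat_lit 0) (XT.nd (nat_lit 78) (nat_lit 304) (nat_lit 0) (XT.lf (nat_lit 456) (nat_lit 5132878259) (nat_lit 0) (nat_lit 261589609) (nat_lit 380) (nat_lit 261589609) (nat_lit 245) (nat_lit 1) (nat_lit 239) (nat_lit 1) (nat_lit 244) (nat_lit 1) (nat_lit 323) (nat_lit 373) (nat_lit 324)) (XT.nd (nat_lit 78) (nat_lit 304) (nat_lit 0) (XT.lf (nat_lit 76) (nat_lit 1953437431) (nat_lit 0) (nat_lit 1682960378) (nat_lit 456) (nat_lit 1953437431) (nat_lit 240) (nat_lit 1) (nat_lit 239) (nat_lit 1) (nat_lit 245) (nat_lit 1) (nat_lit 324) (nat_lit 373) (nat_lit 323)) (XT.lf (nat_lit 380) (nat_lit 2700080690) (nat_lit 0) (nat_lit 1412490272) (nat_lit 304) (nat_lit 1412490272) (nat_lit 240) (nat_lit 1) (nat_lit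 235) (nat_lit 1) (nat_lit 239) (nat_lit 1) (nat_lit 325) (nat_lit 373) (nat_lit 322)))) (XT.nd (nat_lit 78) (nat_lit 684) (nat_lit 0) (XT.lf (nat_lit 76) (nat_lit 750851195) (nat_lit 0) (nat_lit 3959692814) (nat_lit 380) (nat_lit 750851195) (nat_lit 236) (nat_lit 1) (nat_lit 235) (nat_lit 1) (nat_lit 240) (nat_lit 1) (nat_lit 326) (nat_lit 373) (nat_lit 321)) (XT.nd (nat_lit 78) (nat_lit 380) (nat_lit 0) (XT.lf (nat_lit 380) (nat_lit 299407796) (nat_lit 0) (nat_lit 2549522517) (nat_lit 304) (nat_lit 2549522517) (nat_lit 236) (nat_lit 1) (nat_lit 231) (nat_lit 1) (nat_lit 235) (nat_lit 1) (nat_lit 327) (nat_lit 373) (nat_lit 320)) (XT.lf (nat_lit 380) (nat_lit 4474457228) (nat_lit 0) (nat_lit 431147682) (nat_lit 304) (nat_lit 431147682) (nat_lit 231) (nat_lit 1) (nat_lit 226) (nat_lit 1) (nat_lit 230) (nat_lit 1) (nat_lit 328) (nat_lit 373) (nat_lit 319))))))) (XT.nd (nat_lit 858) (nat_lit 1900) (nat_lit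 0) (XT.nd (nat_lit 390) (nat_lit 836) (nat_lit 0) (XT.nd (nat_lit 156) (nat_lit 608) (nat_lit 0) (XT.nd (nat_lit 78) (nat_lit 304) (nat_lit 0) (XT.lf (nat_lit 76) (nat_lit 1623986953) (nat_lit 0) (nat_lit 2027501378) (nat_lit 380) (nat_lit 1623986953) (nat_lit 227) (nat_lit 1) (nat_lit 226) (nat_lit 1) (nat_lit 231) (nat_lit 1) (nat_lit 329) (nat_lit 373) (nat_lit 318)) (XT.lf (nat_lit 380) (nat_lit 2037335936) (nat_lit 0) (nat_lit 1589033930) (nat_lit 304) (nat_lit 1589033930) (nat_lit 227) (nat_lit 1) (nat_lit 222) (nat_lit 1) (nat_lit 226) (nat_lit 1) (nat_lit 330) (nat_lit 373) (nat_lit 317))) (XT.nd (nat_lit 78) (nat_lit 608) (nat_lit 0) (XT.lf (nat_lit 76) (nat_lit 420893811) (nat_lit 0) (nat_lit 4314706819) (nat_lit 380) (nat_lit 420893811) (nat_lit 223) (nat_lit 1) (nat_lit 222) (nat_lit 1) (nat_lit 227) (nat_lit 1) (nat_lit 331) (nat_lit 373) (nat_lit 316)) (XT.nd (nat_lit 78) (nat_lit 304)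 (nat_lit 0) (XT.lf (nat_lit 76) (nat_lit 2371886900) (nat_lit 0) (nat_lit 354190849) (nat_lit 304) (nat_lit 2371886900) (nat_lit 219) (nat_lit 1) (nat_lit 218) (nat_lit 1) (nat_lit 222) (nat_lit 1) (nat_lit 332) (nat_lit 373) (nat_lit 315)) (XT.lf (nat_lit 380) (nat_lit 3529870851) (nat_lit 0) (nat_lit 755346935) (nat_lit 304) (nat_lit 755346935) (nat_lit 219) (nat_lit 1) (nat_lit 214) (nat_lit 1) (nat_lit 218) (nat_lit 1) (nat_lit 333) (nat_lit 373) (nat_lit 314))))) (XT.nd (nat_lit 234) (nat_lit 228) (nat_lit 0) (XT.nd (nat_lit 78) (nat_lit 608) (nat_lit 0) (XT.lf (nat_lit 76) (nat_lit 1158187541) (nat_lit 0) (nat_lit 2667443616) (nat_lit 380) (nat_lit 1158187541) (nat_lit 215) (nat_lit 1) (nat_lit 214) (nat_lit 1) (nat_lit 219) (nat_lit 1) (nat_lit 334) (nat_lit 373) (nat_lit 313)) (XT.nd (nat_lit 78) (nat_lit 380) (nat_lit 0) (XT.lf (nat_lit 304) (nat_lit 1112072444) (nat_lit 0) (nat_lit 1907945669)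 (nat_lit 228) (nat_lit 1907945669) (nat_lit 215) (nat_lit 1) (nat_lit 211) (nat_lit 1) (nat_lit 214) (nat_lit 1) (nat_lit 335) (nat_lit 373) (nat_lit 312)) (XT.lf (nat_lit 380) (nat_lit 4805879736) (nat_lit 0) (nat_lit 33747880) (nat_lit 304) (nat_lit 33747880) (nat_lit 211) (nat_lit 1) (nat_lit 206) (nat_lit 1) (nat_lit 210) (nat_lit 1) (nat_lit 336) (nat_lit 373) (nat_lit 311)))) (XT.nd (nat_lit 78) (nat_lit 228) (nat_lit 0) (XT.lf (nat_lit 76) (nat_lit 1790421855) (nat_lit 0) (nat_lit 1237836184) (nat_lit 380) (nat_lit 1790421855) (nat_lit 207) (nat_lit 1) (nat_lit 206) (nat_lit 1) (nat_lit 211) (nat_lit 1) (nat_lit 337) (nat_lit 373) (nat_lit 310)) (XT.nd (nat_lit 78) (nat_lit 0) (nat_lit 0) (XT.lf (nat_lit 304) (nat_lit 2379352695) (nat_lit 0) (nat_lit 1192935602) (nat_lit 228) (nat_lit 1192935602) (nat_lit 207) (nat_lit 1) (nat_lit 203) (nat_lit 1) (nat_lit 206) (nat_lit 1) (nat_lit 338) (nat_lit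 373) (nat_lit 309)) (XT.lf (nat_lit 76) (nat_lit 594649309) (nat_lit 0) (nat_lit 3523340106) (nat_lit 304) (nat_lit 594649309) (nat_lit 204) (nat_lit 1) (nat_lit 203) (nat_lit 1) (nat_lit 207) (nat_lit 1) (nat_lit 339) (nat_lit 373) (nat_lit 308)))))) (XT.nd (nat_lit 468) (nat_lit 836) (nat_lit 0) (XT.nd (nat_lit 234) (nat_lit 532) (nat_lit 0) (XT.nd (nat_lit 78) (nat_lit 228) (nat_lit 0) (XT.lf (nat_lit 76) (nat_lit 2329977526) (nat_lit 0) (nat_lit 623825) (nat_lit 304) (nat_lit 2329977526) (nat_lit 200) (nat_lit 1) (nat_lit 199) (nat_lit 1) (nat_lit 203) (nat_lit 1) (nat_lit 340) (nat_lit 373) (nat_lit 307)) (XT.nd (nat_lit 78) (nat_lit 0) (nat_lit 0) (XT.lf (nat_lit 304) (nat_lit 3464791754) (nat_lit 0) (nat_lit 572287043) (nat_lit 228) (nat_lit 572287043) (nat_lit 200) (nat_lit 1) (nat_lit 196) (nat_lit 1) (nat_lit 199) (nat_lit 1) (nat_lit 341) (nat_lit 373) (nat_lit 306)) (XT.lf (nat_lit 76) (nat_lit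 1135067083) (nat_lit 0) (nat_lit 2288511105) (nat_lit 304) (nat_lit 1135067083) (nat_lit 197) (nat_lit 1) (nat_lit 196) (nat_lit 1) (nat_lit 200) (nat_lit 1) (nat_lit 342) (nat_lit 373) (nat_lit 305)))) (XT.nd (nat_lit 78) (nat_lit 304) (nat_lit 0) (XT.lf (nat_lit 304) (nat_lit 1087836049) (nat_lit 0) (nat_lit 1710456233) (nat_lit 228) (nat_lit 1710456233) (nat_lit 197) (nat_lit 1) (nat_lit 193) (nat_lit 1) (nat_lit 196) (nat_lit 1) (nat_lit 343) (nat_lit 373) (nat_lit 304)) (XT.nd (nat_lit 78) (nat_lit 0) (nat_lit 0) (XT.lf (nat_lit 304) (nat_lit 4389847550) (nat_lit 0) (nat_lit 35051383) (nat_lit 228) (nat_lit 35051383) (nat_lit 193) (nat_lit 1) (nat_lit 189) (nat_lit 1) (nat_lit 192) (nat_lit 1) (nat_lit 344) (nat_lit 373) (nat_lit 303)) (XT.lf (nat_lit 76) (nat_lit 1597549562) (nat_lit 0) (nat_lit 1215903791) (nat_lit 304) (nat_lit 1597549562) (nat_lit 190) (nat_lit 1) (nat_lit 189) (nat_lit 1) (nat_lit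 193) (nat_lit 1) (nat_lit 345) (nat_lit 373) (nat_lit 302))))) (XT.nd (nat_lit 234) (nat_lit 380) (nat_lit 0) (XT.nd (nat_lit 78) (nat_lit 228) (nat_lit 0) (XT.lf (nat_lit 304) (nat_lit 2023228572) (nat_lit 0) (nat_lit 1169952696) (nat_lit 228) (nat_lit 1169952696) (nat_lit 190) (nat_lit 1) (nat_lit 186) (nat_lit 1) (nat_lit 189) (nat_lit 1) (nat_lit 346) (nat_lit 373) (nat_lit 301)) (XT.nd (nat_lit 78) (nat_lit 228) (nat_lit 0) (XT.lf (nat_lit 76) (nat_lit 432729102) (nat_lit 0) (nat_lit 3450617595) (nat_lit 304) (nat_lit 432729102) (nat_lit 187) (nat_lit 1) (nat_lit 186) (nat_lit 1) (nat_lit 190) (nat_lit 1) (nat_lit 347) (nat_lit 373) (nat_lit 300)) (XT.lf (nat_lit 76) (nat_lit 1991302249) (nat_lit 0) (nat_lit 286714106) (nat_lit 228) (nat_lit 1991302249) (nat_lit 184) (nat_lit 1) (nat_lit 183) (nat_lit 1) (nat_lit 186) (nat_lit 1) (nat_lit 348) (nat_lit 373) (nat_lit 299)))) (XT.nd (nat_lit 78) (nat_lit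 152) (nat_lit 0) (XT.lf (nat_lit 304) (nat_lit 2823535033) (nat_lit 0) (nat_lit 699909649) (nat_lit 228) (nat_lit 699909649) (nat_lit 184) (nat_lit 1) (nat_lit 180) (nat_lit 1) (nat_lit 183) (nat_lit 1) (nat_lit 349) (nat_lit 373) (nat_lit 298)) (XT.nd (nat_lit 78) (nat_lit 152) (nat_lit 0) (XT.lf (nat_lit 76) (nat_lit 835134539) (nat_lit 0) (nat_lit 2507645499) (nat_lit 304) (nat_lit 835134539) (nat_lit 181) (nat_lit 1) (nat_lit 180) (nat_lit 1) (nat_lit 184) (nat_lit 1) (nat_lit 350) (nat_lit 373) (nat_lit 297)) (XT.lf (nat_lit 228) (nat_lit 526008635) (nat_lit 0) (nat_lit 1803536808) (nat_lit 152) (nat_lit 1803536808) (nat_lit 181) (nat_lit 1) (nat_lit 178) (nat_lit 1) (nat_lit 180) (nat_lit 1) (nat_lit 351) (nat_lit 373) (nat_lit 296))))))))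
noncomputable def ec78 : XT := (XT.nd (nat_lit 1716) (nat_lit 1064) (nat_lit 0) (XT.nd (nat_lit 858) (nat_lit 1216) (nat_lit 0) (XT.nd (nat_lit 390) (nat_lit 684) (nat_lit 0) (XT.nd (nat_lit 156) (nat_lit 380) (nat_lit 0) (XT.nd (nat_lit 78) (nat_lit 0) (nat_lit 0) (XT.lf (nat_lit 304) (nat_lit 3504715715) (nat_lit 0) (nat_lit 292173117) (nat_lit 228) (nat_lit 292173117) (nat_lit 178) (nat_lit 1) (nat_lit 174) (nat_lit 1) (nat_lit 177) (nat_lit 1) (nat_lit 352) (nat_lit 373) (nat_lit 295)) (XT.lf (nat_lit 76) (nat_lit 1179540528) (nat_lit 0) (nat_lit 1686084779) (nat_lit 304) (nat_lit 1179540528) (nat_lit 175) (nat_lit 1) (nat_lit 174) (nat_lit 1) (nat_lit 178) (nat_lit 1) (nat_lit 353) (nat_lit 373) (nat_lit 294))) (XT.nd (nat_lit 78) (nat_lit 228) (nat_lit 0) (XT.lf (nat_lit 228) (nat_lit 1230284156) (nat_lit 0) (nat_lit 1385891316) (nat_lit 152) (nat_lit 1385891316) (nat_lit 175) (nat_lit 1) (nat_lit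 172) (nat_lit 1) (nat_lit 174) (nat_lit 1) (nat_lit 354) (nat_lit 373) (nat_lit 293)) (XT.nd (nat_lit 78) (nat_lit 228) (nat_lit 0) (XT.lf (nat_lit 76) (nat_lit 61091901) (nat_lit 0) (nat_lit 3837684462) (nat_lit 228) (nat_lit 61091901) (nat_lit 173) (nat_lit 1) (nat_lit 172) (nat_lit 1) (nat_lit 175) (nat_lit 1) (nat_lit 355) (nat_lit 373) (nat_lit 292)) (XT.lf (nat_lit 76) (nat_lit 1472797071) (nat_lit 0) (nat_lit 971922966) (nat_lit 228) (nat_lit 1472797071) (nat_lit 170) (nat_lit 1) (nat_lit 169) (nat_lit 1) (nat_lit 172) (nat_lit 1) (nat_lit 356) (nat_lit 373) (nat_lit 291))))) (XT.nd (nat_lit 234) (nat_lit 304) (nat_lit 0) (XT.nd (nat_lit 78) (nat_lit 228) (nat_lit 0) (XT.lf (nat_lit 228) (nat_lit 1833802506) (nat_lit 0) (nat_lit 1021125340) (nat_lit 152) (nat_lit 1021125340) (nat_lit 170) (nat_lit 1) (nat_lit 167) (nat_lit 1) (nat_lit 169) (nat_lit 1) (nat_lit 357) (nat_lit 373) (nat_lit 290))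 (XT.nd (nat_lit 78) (nat_lit 228) (nat_lit 0) (XT.lf (nat_lit 76) (nat_lit 368118344) (nat_lit 0) (nat_lit 3099031433) (nat_lit 228) (nat_lit 368118344) (nat_lit 168) (nat_lit 1) (nat_lit 167) (nat_lit 1) (nat_lit 170) (nat_lit 1) (nat_lit 358) (nat_lit 373) (nat_lit 289)) (XT.lf (nat_lit 76) (nat_lit 1720979170) (nat_lit 0) (nat_lit 352723955) (nat_lit 228) (nat_lit 1720979170) (nat_lit 165) (nat_lit 1) (nat_lit 164) (nat_lit 1) (nat_lit 167) (nat_lit 1) (nat_lit 359) (nat_lit 373) (nat_lit 288)))) (XT.nd (nat_lit 78) (nat_lit 152) (nat_lit 0) (XT.lf (nat_lit 228) (nat_lit 2348446637) (nat_lit 0) (nat_lit 703158441) (nat_lit 152) (nat_lit 703158441) (nat_lit 165) (nat_lit 1) (nat_lit 162) (nat_lit 1) (nat_lit 164) (nat_lit 1) (nat_lit 360) (nat_lit 373) (nat_lit 287)) (XT.nd (nat_lit 78) (nat_lit 152) (nat_lit 0) (XT.lf (nat_lit 76) (nat_lit 631766420) (nat_lit 0) (nat_lit 2451797343) (nat_lit 228)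 (nat_lit 631766420) (nat_lit 163) (nat_lit 1) (nat_lit 162) (nat_lit 1) (nat_lit 165) (nat_lit 1) (nat_lit 361) (nat_lit 373) (nat_lit 286)) (XT.lf (nat_lit 228) (nat_lit 186181246) (nat_lit 0) (nat_lit 1745082016) (nat_lit 152) (nat_lit 1745082016) (nat_lit 163) (nat_lit 1) (nat_lit 160) (nat_lit 1) (nat_lit 162) (nat_lit 1) (nat_lit 362) (nat_lit 373) (nat_lit 285)))))) (XT.nd (nat_lit 390) (nat_lit 608) (nat_lit 0) (XT.nd (nat_lit 156) (nat_lit 380) (nat_lit 0) (XT.nd (nat_lit 78) (nat_lit 0) (nat_lit 0) (XT.lf (nat_lit 228) (nat_lit 2784755547) (nat_lit 0) (nat_lit 426593577) (nat_lit 152) (nat_lit 426593577) (nat_lit 160) (nat_lit 1) (nat_lit 157) (nat_lit 1) (nat_lit 159) (nat_lit 1) (nat_lit 363) (nat_lit 373) (nat_lit 284)) (XT.lf (nat_lit 76) (nat_lit 857139621) (nat_lit 0) (nat_lit 1885524216) (nat_lit 228) (nat_lit 857139621) (nat_lit 158) (nat_lit 1) (nat_lit 157) (nat_lit 1) (nat_lit 160)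 (nat_lit 1) (nat_lit 364) (nat_lit 373) (nat_lit 283))) (XT.nd (nat_lit 78) (nat_lit 228) (nat_lit 0) (XT.lf (nat_lit 228) (nat_lit 656496327) (nat_lit 0) (nat_lit 1452870162) (nat_lit 152) (nat_lit 1452870162) (nat_lit 158) (nat_lit 1) (nat_lit 155) (nat_lit 1) (nat_lit 157) (nat_lit 1) (nat_lit 365) (nat_lit 373) (nat_lit 282)) (XT.nd (nat_lit 78) (nat_lit 0) (nat_lit 0) (XT.lf (nat_lit 228) (nat_lit 3152074700) (nat_lit 0) (nat_lit 186640742) (nat_lit 152) (nat_lit 186640742) (nat_lit 155) (nat_lit 1) (nat_lit 152) (nat_lit 1) (nat_lit 154) (nat_lit 1) (nat_lit 366) (nat_lit 373) (nat_lit 281)) (XT.lf (nat_lit 76) (nat_lit 1048764577) (nat_lit 0) (nat_lit 1390927954) (nat_lit 228) (nat_lit 1048764577) (nat_lit 153) (nat_lit 1) (nat_lit 152) (nat_lit 1) (nat_lit 155) (nat_lit 1) (nat_lit 367) (nat_lit 373) (nat_lit 280))))) (XT.nd (nat_lit 234) (nat_lit 304) (nat_lit 0) (XT.nd (nat_lit 78) (nat_lit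 152) (nat_lit 0) (XT.lf (nat_lit 228) (nat_lit 1060061979) (nat_lit 0) (nat_lit 1196086801) (nat_lit 152) (nat_lit 1196086801) (nat_lit 153) (nat_lit 1) (nat_lit 150) (nat_lit 1) (nat_lit 152) (nat_lit 1) (nat_lit 368) (nat_lit 373) (nat_lit 279)) (XT.nd (nat_lit 78) (nat_lit 152) (nat_lit 0) (XT.lf (nat_lit 76) (nat_lit 21158315) (nat_lit 0) (nat_lit 3374446721) (nat_lit 228) (nat_lit 21158315) (nat_lit 151) (nat_lit 1) (nat_lit 150) (nat_lit 1) (nat_lit 153) (nat_lit 1) (nat_lit 369) (nat_lit 373) (nat_lit 278)) (XT.lf (nat_lit 76) (nat_lit 1210655612) (nat_lit 0) (nat_lit 959767209) (nat_lit 152) (nat_lit 1210655612) (nat_lit 149) (nat_lit 1) (nat_lit 148) (nat_lit 1) (nat_lit 150) (nat_lit 1) (nat_lit 370) (nat_lit 373) (nat_lit 277)))) (XT.nd (nat_lit 78) (nat_lit 152) (nat_lit 0) (XT.lf (nat_lit 228) (nat_lit 1404738227) (nat_lit 0) (nat_lit 970698388) (nat_lit 152) (nat_lit 970698388) (nat_lit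 149) (nat_lit 1) (nat_lit 146) (nat_lit 1) (nat_lit 148) (nat_lit 1) (nat_lit 371) (nat_lit 373) (nat_lit 276)) (XT.nd (nat_lit 78) (nat_lit 152) (nat_lit 0) (XT.lf (nat_lit 76) (nat_lit 201932926) (nat_lit 0) (nat_lit 2907938394) (nat_lit 228) (nat_lit 201932926) (nat_lit 147) (nat_lit 1) (nat_lit 146) (nat_lit 1) (nat_lit 149) (nat_lit 1) (nat_lit 372) (nat_lit 373) (nat_lit 275)) (XT.lf (nat_lit 76) (nat_lit 1346372093) (nat_lit 0) (nat_lit 584726887) (nat_lit 152) (nat_lit 1346372093) (nat_lit 145) (nat_lit 1) (nat_lit 144) (nat_lit 1) (nat_lit 146) (nat_lit 1) (nat_lit 373) (nat_lit 373) (nat_lit 274))))))) (XT.nd (nat_lit 45240) (nat_lit 0) (nat_lit 18544) (XT.nd (nat_lit 390) (nat_lit 608) (nat_lit 0) (XT.nd (nat_lit 156) (nat_lit 304) (nat_lit 0) (XT.nd (nat_lit 78) (nat_lit 0) (nat_lit 0) (XT.lf (nat_lit 228) (nat_lit 1697496468) (nat_lit 0) (nat_lit 773123583) (nat_lit 152) (nat_lit 773123583)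 (nat_lit 145) (nat_lit 1) (nat_lit 142) (nat_lit 1) (nat_lit 144) (nat_lit 1) (nat_lit 374) (nat_lit 373) (nat_lit 273)) (XT.lf (nat_lit 76) (nat_lit 357214825) (nat_lit 0) (nat_lit 2496079375) (nat_lit 228) (nat_lit 357214825) (nat_lit 143) (nat_lit 1) (nat_lit 142) (nat_lit 1) (nat_lit 145) (nat_lit 1) (nat_lit 375) (nat_lit 373) (nat_lit 272))) (XT.nd (nat_lit 78) (nat_lit 152) (nat_lit 0) (XT.lf (nat_lit 76) (nat_lit 1459069371) (nat_lit 0) (nat_lit 259314647) (nat_lit 152) (nat_lit 1459069371) (nat_lit 141) (nat_lit 1) (nat_lit 140) (nat_lit 1) (nat_lit 142) (nat_lit 1) (nat_lit 376) (nat_lit 373) (nat_lit 271)) (XT.nd (nat_lit 78) (nat_lit 0) (nat_lit 0) (XT.lf (nat_lit 228) (nat_lit 1944518913) (nat_lit 0) (nat_lit 600182754) (nat_lit 152) (nat_lit 600182754) (nat_lit 141) (nat_lit 1) (nat_lit 138) (nat_lit 1) (nat_lit 140) (nat_lit 1) (nat_lit 377) (nat_lit 373) (nat_lit 270)) (XT.lf (nat_lit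 76) (nat_lit 490002140) (nat_lit 0) (nat_lit 2132699026) (nat_lit 228) (nat_lit 490002140) (nat_lit 139) (nat_lit 1) (nat_lit 138) (nat_lit 1) (nat_lit 141) (nat_lit 1) (nat_lit 378) (nat_lit 373) (nat_lit 269))))) (XT.nd (nat_lit 234) (nat_lit 304) (nat_lit 0) (XT.nd (nat_lit 78) (nat_lit 228) (nat_lit 0) (XT.lf (nat_lit 152) (nat_lit 22673492) (nat_lit 0) (nat_lit 1529088509) (nat_lit 76) (nat_lit 1529088509) (nat_lit 139) (nat_lit 1) (nat_lit 137) (nat_lit 1) (nat_lit 138) (nat_lit 1) (nat_lit 379) (nat_lit 373) (nat_lit 268)) (XT.nd (nat_lit 78) (nat_lit 0) (nat_lit 0) (XT.lf (nat_lit 228) (nat_lit 2151286945) (nat_lit 0) (nat_lit 449053111) (nat_lit 152) (nat_lit 449053111) (nat_lit 137) (nat_lit 1) (nat_lit 134) (nat_lit 1) (nat_lit 136) (nat_lit 1) (nat_lit 380) (nat_lit 373) (nat_lit 267)) (XT.lf (nat_lit 76) (nat_lit 602954141) (nat_lit 0) (nat_lit 1812317044) (nat_lit 228) (nat_lit 602954141)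 (nat_lit 135) (nat_lit 1) (nat_lit 134) (nat_lit 1) (nat_lit 137) (nat_lit 1) (nat_lit 381) (nat_lit 373) (nat_lit 266)))) (XT.nd (nat_lit 78) (nat_lit 228) (nat_lit 0) (XT.lf (nat_lit 152) (nat_lit 270297107) (nat_lit 0) (nat_lit 1358575335) (nat_lit 76) (nat_lit 1358575335) (nat_lit 135) (nat_lit 1) (nat_lit 133) (nat_lit 1) (nat_lit 134) (nat_lit 1) (nat_lit 382) (nat_lit 373) (nat_lit 265)) (XT.nd (nat_lit 44460) (nat_lit 0) (nat_lit 18544) (XT.lf (nat_lit 228) (nat_lit 2322659592) (nat_lit 0) (nat_lit 317228853) (nat_lit 152) (nat_lit 317228853) (nat_lit 133) (nat_lit 1) (nat_lit 130) (nat_lit 1) (nat_lit 132) (nat_lit 1) (nat_lit 383) (nat_lit 373) (nat_lit 264)) (XT.lf (nat_lit 1292) (nat_lit 1018897079) (nat_lit 0) (nat_lit 3505479810) (nat_lit 1292) (nat_lit 1018897079) (nat_lit 391) (nat_lit 1) (nat_lit 374) (nat_lit 0) (nat_lit 391) (nat_lit 0) (nat_lit 272) (nat_lit 374) (nat_lit 374))))))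 (XT.nd (nat_lit 390) (nat_lit 0) (nat_lit 228) (XT.nd (nat_lit 156) (nat_lit 0) (nat_lit 76) (XT.nd (nat_lit 78) (nat_lit 0) (nat_lit 76) (XT.lf (nat_lit 1292) (nat_lit 3981867640) (nat_lit 76) (nat_lit 3471112361) (nat_lit 0) (nat_lit 3471112361) (nat_lit 391) (nat_lit 1) (nat_lit 375) (nat_lit 1) (nat_lit 374) (nat_lit 0) (nat_lit 273) (nat_lit 374) (nat_lit 373)) (XT.lf (nat_lit 1292) (nat_lit 1925726129) (nat_lit 0) (nat_lit 6913767959) (nat_lit 1216) (nat_lit 1925726129) (nat_lit 392) (nat_lit 1) (nat_lit 375) (nat_lit 1) (nat_lit 391) (nat_lit 1) (nat_lit 274) (nat_lit 374) (nat_lit 372))) (XT.nd (nat_lit 78) (nat_lit 0) (nat_lit 76) (XT.lf (nat_lit 1292) (nat_lit 3657053346) (nat_lit 76) (nat_lit 3475973919) (nat_lit 0) (nat_lit 3475973919) (nat_lit 392) (nat_lit 1) (nat_lit 376) (nat_lit 1) (nat_lit 375) (nat_lit 1) (nat_lit 275) (nat_lit 374) (nat_lit 371)) (XT.nd (nat_lit 78) (nat_lit 0) (nat_lit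 0) (XT.lf (nat_lit 1292) (nat_lit 1716054044) (nat_lit 0) (nat_lit 7024169516) (nat_lit 1216) (nat_lit 1716054044) (nat_lit 393) (nat_lit 1) (nat_lit 376) (nat_lit 1) (nat_lit 392) (nat_lit 1) (nat_lit 276) (nat_lit 374) (nat_lit 370)) (XT.lf (nat_lit 1292) (nat_lit 3144850227) (nat_lit 76) (nat_lit 3580573148) (nat_lit 0) (nat_lit 3580573148) (nat_lit 393) (nat_lit 1) (nat_lit 377) (nat_lit 1) (nat_lit 376) (nat_lit 1) (nat_lit 277) (nat_lit 374) (nat_lit 369))))) (XT.nd (nat_lit 234) (nat_lit 0) (nat_lit 76) (XT.nd (nat_lit 78) (nat_lit 0) (nat_lit 0) (XT.lf (nat_lit 1292) (nat_lit 1417410984) (nat_lit 0) (nat_lit 7324363688) (nat_lit 1216) (nat_lit 1417410984) (nat_lit 394) (nat_lit 1) (nat_lit 377) (nat_lit 1) (nat_lit 393) (nat_lit 1) (nat_lit 278) (nat_lit 374) (nat_lit 368)) (XT.nd (nat_lit 78) (nat_lit 0) (nat_lit 76) (XT.lf (nat_lit 1292) (nat_lit 2462016172) (nat_lit 76) (nat_lit 3776271590)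 (nat_lit 0) (nat_lit 3776271590) (nat_lit 394) (nat_lit 1) (nat_lit 378) (nat_lit 1) (nat_lit 377) (nat_lit 1) (nat_lit 279) (nat_lit 374) (nat_lit 367)) (XT.lf (nat_lit 1292) (nat_lit 1037846199) (nat_lit 0) (nat_lit 7797743075) (nat_lit 1216) (nat_lit 1037846199) (nat_lit 395) (nat_lit 1) (nat_lit 378) (nat_lit 1) (nat_lit 394) (nat_lit 1) (nat_lit 280) (nat_lit 374) (nat_lit 366)))) (XT.nd (nat_lit 78) (nat_lit 0) (nat_lit 76) (XT.lf (nat_lit 1292) (nat_lit 1624172313) (nat_lit 76) (nat_lit 4055011516) (nat_lit 0) (nat_lit 4055011516) (nat_lit 395) (nat_lit 1) (nat_lit 379) (nat_lit 1) (nat_lit 378) (nat_lit 1) (nat_lit 281) (nat_lit 374) (nat_lit 365)) (XT.nd (nat_lit 78) (nat_lit 0) (nat_lit 0) (XT.lf (nat_lit 1292) (nat_lit 584861192) (nat_lit 0) (nat_lit 8428819993) (nat_lit 1216) (nat_lit 584861192) (nat_lit 396) (nat_lit 1) (nat_lit 379) (nat_lit 1) (nat_lit 395) (nat_lit 1) (nat_lit 282) (nat_lit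 374) (nat_lit 364)) (XT.lf (nat_lit 1292) (nat_lit 645873370) (nat_lit 76) (nat_lit 4409280119) (nat_lit 0) (nat_lit 4409280119) (nat_lit 396) (nat_lit 1) (nat_lit 380) (nat_lit 1) (nat_lit 379) (nat_lit 1) (nat_lit 283) (nat_lit 374) (nat_lit 363))))))))
noncomputable def ec79 : XT := (XT.nd (nat_lit 1716) (nat_lit 5472) (nat_lit 0) (XT.nd (nat_lit 858) (nat_lit 3344) (nat_lit 0) (XT.nd (nat_lit 390) (nat_lit 1900) (nat_lit 0) (XT.nd (nat_lit 156) (nat_lit 0) (nat_lit 0) (XT.nd (nat_lit 78) (nat_lit 1292) (nat_lit 0) (XT.lf (nat_lit 1292) (nat_lit 65443654) (nat_lit 0) (nat_lit 9203157355) (nat_lit 1216) (nat_lit 65443654) (nat_lit 397) (nat_lit 1) (nat_lit 380) (nat_lit 1) (nat_lit 396) (nat_lit 1) (nat_lit 284) (nat_lit 374) (nat_lit 362)) (XT.lf (nat_lit 1368) (nat_lit 4377164971) (nat_lit 0) (nat_lit 450363081) (nat_lit 1292) (nat_lit 4377164971) (nat_lit 381) (nat_lit 1) (nat_lit 363) (nat_lit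 1) (nat_lit 380) (nat_lit 1) (nat_lit 285) (nat_lit 374) (nat_lit 361))) (XT.nd (nat_lit 78) (nat_lit 0) (nat_lit 76) (XT.lf (nat_lit 1368) (nat_lit 8061181907) (nat_lit 76) (nat_lit 508862369) (nat_lit 0) (nat_lit 508862369) (nat_lit 381) (nat_lit 1) (nat_lit 364) (nat_lit 1) (nat_lit 363) (nat_lit 1) (nat_lit 286) (nat_lit 374) (nat_lit 360)) (XT.nd (nat_lit 78) (nat_lit 0) (nat_lit 0) (XT.lf (nat_lit 1368) (nat_lit 3654204483) (nat_lit 0) (nat_lit 1646050311) (nat_lit 1292) (nat_lit 3654204483) (nat_lit 382) (nat_lit 1) (nat_lit 364) (nat_lit 1) (nat_lit 381) (nat_lit 1) (nat_lit 287) (nat_lit 374) (nat_lit 359)) (XT.lf (nat_lit 1368) (nat_lit 6561423702) (nat_lit 76) (nat_lit 1135871428) (nat_lit 0) (nat_lit 1135871428) (nat_lit 382) (nat_lit 1) (nat_lit 365) (nat_lit 1) (nat_lit 364) (nat_lit 1) (nat_lit 288) (nat_lit 374) (nat_lit 358))))) (XT.nd (nat_lit 234) (nat_lit 1216) (nat_lit 0) (XT.nd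 (nat_lit 78) (nat_lit 836) (nat_lit 0) (XT.lf (nat_lit 76) (nat_lit 2885615350) (nat_lit 0) (nat_lit 2942283764) (nat_lit 1292) (nat_lit 2885615350) (nat_lit 366) (nat_lit 1) (nat_lit 365) (nat_lit 1) (nat_lit 382) (nat_lit 1) (nat_lit 289) (nat_lit 374) (nat_lit 357)) (XT.nd (nat_lit 78) (nat_lit 0) (nat_lit 0) (XT.lf (nat_lit 912) (nat_lit 4975207108) (nat_lit 0) (nat_lit 1810650050) (nat_lit 836) (nat_lit 1810650050) (nat_lit 366) (nat_lit 1) (nat_lit 354) (nat_lit 1) (nat_lit 365) (nat_lit 1) (nat_lit 290) (nat_lit 374) (nat_lit 356)) (XT.lf (nat_lit 76) (nat_lit 2076554596) (nat_lit 0) (nat_lit 4328363998) (nat_lit 912) (nat_lit 2076554596) (nat_lit 355) (nat_lit 1) (nat_lit 354) (nat_lit 1) (nat_lit 366) (nat_lit 1) (nat_lit 291) (nat_lit 374) (nat_lit 355)))) (XT.nd (nat_lit 78) (nat_lit 608) (nat_lit 0) (XT.lf (nat_lit 684) (nat_lit 3312520937) (nat_lit 0) (nat_lit 2528016386) (nat_lit 608) (nat_lit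 2528016386) (nat_lit 355) (nat_lit 1) (nat_lit 346) (nat_lit 1) (nat_lit 354) (nat_lit 1) (nat_lit 292) (nat_lit 374) (nat_lit 354)) (XT.nd (nat_lit 78) (nat_lit 608) (nat_lit 0) (XT.lf (nat_lit 76) (nat_lit 1231809298) (nat_lit 0) (nat_lit 5794349289) (nat_lit 684) (nat_lit 1231809298) (nat_lit 347) (nat_lit 1) (nat_lit 346) (nat_lit 1) (nat_lit 355) (nat_lit 1) (nat_lit 293) (nat_lit 374) (nat_lit 353)) (XT.lf (nat_lit 684) (nat_lit 1582634221) (nat_lit 0) (nat_lit 3283157101) (nat_lit 608) (nat_lit 3283157101) (nat_lit 347) (nat_lit 1) (nat_lit 338) (nat_lit 1) (nat_lit 346) (nat_lit 1) (nat_lit 294) (nat_lit 374) (nat_lit 352)))))) (XT.nd (nat_lit 390) (nat_lit 1596) (nat_lit 0) (XT.nd (nat_lit 156) (nat_lit 1140) (nat_lit 0) (XT.nd (nat_lit 78) (nat_lit 608) (nat_lit 0) (XT.lf (nat_lit 76) (nat_lit 355819969) (nat_lit 0) (nat_lit 7331007951) (nat_lit 684) (nat_lit 355819969) (nat_lit 339) (nat_lit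 1) (nat_lit 338) (nat_lit 1) (nat_lit 347) (nat_lit 1) (nat_lit 295) (nat_lit 374) (nat_lit 351)) (XT.lf (nat_lit 76) (nat_lit 3867724788) (nat_lit 0) (nat_lit 201841169) (nat_lit 608) (nat_lit 3867724788) (nat_lit 331) (nat_lit 1) (nat_lit 330) (nat_lit 1) (nat_lit 338) (nat_lit 1) (nat_lit 296) (nat_lit 374) (nat_lit 350))) (XT.nd (nat_lit 78) (nat_lit 532) (nat_lit 0) (XT.lf (nat_lit 684) (nat_lit 6750680542) (nat_lit 0) (nat_lit 541931789) (nat_lit 608) (nat_lit 541931789) (nat_lit 331) (nat_lit 1) (nat_lit 322) (nat_lit 1) (nat_lit 330) (nat_lit 1) (nat_lit 297) (nat_lit 374) (nat_lit 349)) (XT.nd (nat_lit 78) (nat_lit 532) (nat_lit 0) (XT.lf (nat_lit 76) (nat_lit 2863877839) (nat_lit 0) (nat_lit 2005087685) (nat_lit 684) (nat_lit 2863877839) (nat_lit 323) (nat_lit 1) (nat_lit 322) (nat_lit 1) (nat_lit 331) (nat_lit 1) (nat_lit 298) (nat_lit 374) (nat_lit 348)) (XT.lf (nat_lit 608) (nat_lit 4714967021)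 (nat_lit 0) (nat_lit 1459282594) (nat_lit 532) (nat_lit 1459282594) (nat_lit 323) (nat_lit 1) (nat_lit 315) (nat_lit 1) (nat_lit 322) (nat_lit 1) (nat_lit 299) (nat_lit 374) (nat_lit 347))))) (XT.nd (nat_lit 234) (nat_lit 1064) (nat_lit 0) (XT.nd (nat_lit 78) (nat_lit 532) (nat_lit 0) (XT.lf (nat_lit 76) (nat_lit 1842497110) (nat_lit 0) (nat_lit 3850759700) (nat_lit 608) (nat_lit 1842497110) (nat_lit 316) (nat_lit 1) (nat_lit 315) (nat_lit 1) (nat_lit 323) (nat_lit 1) (nat_lit 300) (nat_lit 374) (nat_lit 346)) (XT.nd (nat_lit 78) (nat_lit 0) (nat_lit 0) (XT.lf (nat_lit 608) (nat_lit 2647268081) (nat_lit 0) (nat_lit 2396227936) (nat_lit 532) (nat_lit 2396227936) (nat_lit 316) (nat_lit 1) (nat_lit 308) (nat_lit 1) (nat_lit 315) (nat_lit 1) (nat_lit 301) (nat_lit 374) (nat_lit 345)) (XT.lf (nat_lit 76) (nat_lit 806778200) (nat_lit 0) (nat_lit 5732171160) (nat_lit 608) (nat_lit 806778200) (nat_lit 309) (nat_lit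 1) (nat_lit 308) (nat_lit 1) (nat_lit 316) (nat_lit 1) (nat_lit 302) (nat_lit 374) (nat_lit 344)))) (XT.nd (nat_lit 78) (nat_lit 608) (nat_lit 0) (XT.lf (nat_lit 532) (nat_lit 553755070) (nat_lit 0) (nat_lit 3349538514) (nat_lit 456) (nat_lit 3349538514) (nat_lit 309) (nat_lit 1) (nat_lit 302) (nat_lit 1) (nat_lit 308) (nat_lit 1) (nat_lit 303) (nat_lit 374) (nat_lit 343)) (XT.nd (nat_lit 78) (nat_lit 0) (nat_lit 0) (XT.lf (nat_lit 608) (nat_lit 6686255395) (nat_lit 0) (nat_lit 237974310) (nat_lit 532) (nat_lit 237974310) (nat_lit 302) (nat_lit 1) (nat_lit 294) (nat_lit 1) (nat_lit 301) (nat_lit 1) (nat_lit 304) (nat_lit 374) (nat_lit 342)) (XT.lf (nat_lit 76) (nat_lit 2771345039) (nat_lit 0) (nat_lit 1529442294) (nat_lit 608) (nat_lit 2771345039) (nat_lit 295) (nat_lit 1) (nat_lit 294) (nat_lit 1) (nat_lit 302) (nat_lit 1) (nat_lit 305) (nat_lit 374) (nat_lit 341))))))) (XT.nd (nat_lit 858) (nat_lit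 2432) (nat_lit 0) (XT.nd (nat_lit 390) (nat_lit 1672) (nat_lit 0) (XT.nd (nat_lit 156) (nat_lit 912) (nat_lit 0) (XT.nd (nat_lit 78) (nat_lit 0) (nat_lit 0) (XT.lf (nat_lit 532) (nat_lit 4417437960) (nat_lit 0) (nat_lit 1283404742) (nat_lit 456) (nat_lit 1283404742) (nat_lit 295) (nat_lit 1) (nat_lit 288) (nat_lit 1) (nat_lit 294) (nat_lit 1) (nat_lit 306) (nat_lit 374) (nat_lit 340)) (XT.lf (nat_lit 76) (nat_lit 1640611582) (nat_lit 0) (nat_lit 3616425211) (nat_lit 532) (nat_lit 1640611582) (nat_lit 289) (nat_lit 1) (nat_lit 288) (nat_lit 1) (nat_lit 295) (nat_lit 1) (nat_lit 307) (nat_lit 374) (nat_lit 339))) (XT.nd (nat_lit 78) (nat_lit 456) (nat_lit 0) (XT.lf (nat_lit 532) (nat_lit 2142646854) (nat_lit 0) (nat_lit 2334946041) (nat_lit 456) (nat_lit 2334946041) (nat_lit 289) (nat_lit 1) (nat_lit 282) (nat_lit 1) (nat_lit 288) (nat_lit 1) (nat_lit 308) (nat_lit 374) (nat_lit 338)) (XT.nd (nat_lit 78)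 (nat_lit 456) (nat_lit 0) (XT.lf (nat_lit 76) (nat_lit 508009317) (nat_lit 0) (nat_lit 5713271884) (nat_lit 532) (nat_lit 508009317) (nat_lit 283) (nat_lit 1) (nat_lit 282) (nat_lit 1) (nat_lit 289) (nat_lit 1) (nat_lit 309) (nat_lit 374) (nat_lit 337)) (XT.lf (nat_lit 76) (nat_lit 3257800113) (nat_lit 0) (nat_lit 131196569) (nat_lit 456) (nat_lit 3257800113) (nat_lit 277) (nat_lit 1) (nat_lit 276) (nat_lit 1) (nat_lit 282) (nat_lit 1) (nat_lit 310) (nat_lit 374) (nat_lit 336))))) (XT.nd (nat_lit 234) (nat_lit 836) (nat_lit 0) (XT.nd (nat_lit 78) (nat_lit 380) (nat_lit 0) (XT.lf (nat_lit 532) (nat_lit 5329520863) (nat_lit 0) (nat_lit 618287837) (nat_lit 456) (nat_lit 618287837) (nat_lit 277) (nat_lit 1) (nat_lit 270) (nat_lit 1) (nat_lit 276) (nat_lit 1) (nat_lit 311) (nat_lit 374) (nat_lit 335)) (XT.nd (nat_lit 78) (nat_lit 380) (nat_lit 0) (XT.lf (nat_lit 76) (nat_lit 2062609983) (nat_lit 0) (nat_lit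 2360989887) (nat_lit 532) (nat_lit 2062609983) (nat_lit 271) (nat_lit 1) (nat_lit 270) (nat_lit 1) (nat_lit 277) (nat_lit 1) (nat_lit 312) (nat_lit 374) (nat_lit 334)) (XT.lf (nat_lit 456) (nat_lit 2932848837) (nat_lit 0) (nat_lit 1737563474) (nat_lit 380) (nat_lit 1737563474) (nat_lit 271) (nat_lit 1) (nat_lit 265) (nat_lit 1) (nat_lit 270) (nat_lit 1) (nat_lit 313) (nat_lit 374) (nat_lit 333)))) (XT.nd (nat_lit 78) (nat_lit 836) (nat_lit 0) (XT.lf (nat_lit 76) (nat_lit 873084428) (nat_lit 0) (nat_lit 4585005751) (nat_lit 456) (nat_lit 873084428) (nat_lit 266) (nat_lit 1) (nat_lit 265) (nat_lit 1) (nat_lit 271) (nat_lit 1) (nat_lit 314) (nat_lit 374) (nat_lit 332)) (XT.nd (nat_lit 78) (nat_lit 456) (nat_lit 0) (XT.lf (nat_lit 456) (nat_lit 549101332) (nat_lit 0) (nat_lit 2853099885) (nat_lit 380) (nat_lit 2853099885) (nat_lit 266) (nat_lit 1) (nat_lit 260) (nat_lit 1) (nat_lit 265) (nat_lit 1) (nat_lit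 315) (nat_lit 374) (nat_lit 331)) (XT.lf (nat_lit 456) (nat_lit 5568647905) (nat_lit 0) (nat_lit 306236353) (nat_lit 380) (nat_lit 306236353) (nat_lit 260) (nat_lit 1) (nat_lit 254) (nat_lit 1) (nat_lit 259) (nat_lit 1) (nat_lit 316) (nat_lit 374) (nat_lit 330)))))) (XT.nd (nat_lit 468) (nat_lit 1292) (nat_lit 0) (XT.nd (nat_lit 234) (nat_lit 760) (nat_lit 0) (XT.nd (nat_lit 78) (nat_lit 380) (nat_lit 0) (XT.lf (nat_lit 76) (nat_lit 2162000109) (nat_lit 0) (nat_lit 1783340884) (nat_lit 456) (nat_lit 2162000109) (nat_lit 255) (nat_lit 1) (nat_lit 254) (nat_lit 1) (nat_lit 260) (nat_lit 1) (nat_lit 317) (nat_lit 374) (nat_lit 329)) (XT.nd (nat_lit 78) (nat_lit 0) (nat_lit 0) (XT.lf (nat_lit 456) (nat_lit 3098120673) (nat_lit 0) (nat_lit 1468540302) (nat_lit 380) (nat_lit 1468540302) (nat_lit 255) (nat_lit 1) (nat_lit 249) (nat_lit 1) (nat_lit 254) (nat_lit 1) (nat_lit 318) (nat_lit 374) (nat_lit 328))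 (XT.lf (nat_lit 76) (nat_lit 938635947) (nat_lit 0) (nat_lit 4086997286) (nat_lit 456) (nat_lit 938635947) (nat_lit 250) (nat_lit 1) (nat_lit 249) (nat_lit 1) (nat_lit 255) (nat_lit 1) (nat_lit 319) (nat_lit 374) (nat_lit 327)))) (XT.nd (nat_lit 78) (nat_lit 456) (nat_lit 0) (XT.lf (nat_lit 380) (nat_lit 651913217) (nat_lit 0) (nat_lit 2621161401) (nat_lit 304) (nat_lit 2621161401) (nat_lit 250) (nat_lit 1) (nat_lit 245) (nat_lit 1) (nat_lit 249) (nat_lit 1) (nat_lit 320) (nat_lit 374) (nat_lit 326)) (XT.nd (nat_lit 78) (nat_lit 0) (nat_lit 0) (XT.lf (nat_lit 456) (nat_lit 5286864607) (nat_lit 0) (nat_lit 269437297) (nat_lit 380) (nat_lit 269437297) (nat_lit 245) (nat_lit 1) (nat_lit 239) (nat_lit 1) (nat_lit 244) (nat_lit 1) (nat_lit 321) (nat_lit 374) (nat_lit 325)) (XT.lf (nat_lit 76) (nat_lit 2012040554) (nat_lit 0) (nat_lit 1733449189) (nat_lit 456) (nat_lit 2012040554) (nat_lit 240) (nat_lit 1)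 (nat_lit 239) (nat_lit 1) (nat_lit 245) (nat_lit 1) (nat_lit 322) (nat_lit 374) (nat_lit 324))))) (XT.nd (nat_lit 234) (nat_lit 684) (nat_lit 0) (XT.nd (nat_lit 78) (nat_lit 304) (nat_lit 0) (XT.lf (nat_lit 380) (nat_lit 2781083111) (nat_lit 0) (nat_lit 1454864980) (nat_lit 304) (nat_lit 1454864980) (nat_lit 240) (nat_lit 1) (nat_lit 235) (nat_lit 1) (nat_lit 239) (nat_lit 1) (nat_lit 323) (nat_lit 374) (nat_lit 323)) (XT.nd (nat_lit 78) (nat_lit 304) (nat_lit 0) (XT.lf (nat_lit 76) (nat_lit 773376731) (nat_lit 0) (nat_lit 4078483598) (nat_lit 380) (nat_lit 773376731) (nat_lit 236) (nat_lit 1) (nat_lit 235) (nat_lit 1) (nat_lit 240) (nat_lit 1) (nat_lit 324) (nat_lit 374) (nat_lit 322)) (XT.lf (nat_lit 380) (nat_lit 308390030) (nat_lit 0) (nat_lit 2626008193) (nat_lit 304) (nat_lit 2626008193) (nat_lit 236) (nat_lit 1) (nat_lit 231) (nat_lit 1) (nat_lit 235) (nat_lit 1) (nat_lit 325) (nat_lit 374) (nat_lit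 321)))) (XT.nd (nat_lit 78) (nat_lit 304) (nat_lit 0) (XT.lf (nat_lit 380) (nat_lit 4608690945) (nat_lit 0) (nat_lit 444082113) (nat_lit 304) (nat_lit 444082113) (nat_lit 231) (nat_lit 1) (nat_lit 226) (nat_lit 1) (nat_lit 230) (nat_lit 1) (nat_lit 326) (nat_lit 374) (nat_lit 320)) (XT.nd (nat_lit 78) (nat_lit 304) (nat_lit 0) (XT.lf (nat_lit 76) (nat_lit 1672706562) (nat_lit 0) (nat_lit 2088326419) (nat_lit 380) (nat_lit 1672706562) (nat_lit 227) (nat_lit 1) (nat_lit 226) (nat_lit 1) (nat_lit 231) (nat_lit 1) (nat_lit 327) (nat_lit 374) (nat_lit 319)) (XT.lf (nat_lit 380) (nat_lit 2098456014) (nat_lit 0) (nat_lit 1636704948) (nat_lit 304) (nat_lit 1636704948) (nat_lit 227) (nat_lit 1) (nat_lit 222) (nat_lit 1) (nat_lit 226) (nat_lit 1) (nat_lit 328) (nat_lit 374) (nat_lit 318))))))))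
noncomputable def ec80 : XT := (XT.nd (nat_lit 1716) (nat_lit 2432) (nat_lit 0) (XT.nd (nat_lit 858) (nat_lit 1672) (nat_lit 0) (XT.nd (nat_lit 390) (nat_lit 1140) (nat_lit 0) (XT.nd (nat_lit 156) (nat_lit 532) (nat_lit 0) (XT.nd (nat_lit 78) (nat_lit 304) (nat_lit 0) (XT.lf (nat_lit 76) (nat_lit 433520625) (nat_lit 0) (nat_lit 4444148023) (nat_lit 380) (nat_lit 433520625) (nat_lit 223) (nat_lit 1) (nat_lit 222) (nat_lit 1) (nat_lit 227) (nat_lit 1) (nat_lit 329) (nat_lit 374) (nat_lit 317)) (XT.lf (nat_lit 76) (nat_lit 2443043507) (nat_lit 0) (nat_lit 364816575) (nat_lit 304) (nat_lit 2443043507) (nat_lit 219) (nat_lit 1) (nat_lit 218) (nat_lit 1) (nat_lit 222) (nat_lit 1) (nat_lit 330) (nat_lit 374) (nat_lit 316))) (XT.nd (nat_lit 78) (nat_lit 228) (nat_lit 0) (XT.lf (nat_lit 380) (nat_lit 3635766977) (nat_lit 0) (nat_lit 778007343) (nat_lit 304) (nat_lit 778007343) (nat_lit 219) (nat_lit 1) (nat_lit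 214) (nat_lit 1) (nat_lit 218) (nat_lit 1) (nat_lit 331) (nat_lit 374) (nat_lit 315)) (XT.nd (nat_lit 78) (nat_lit 228) (nat_lit 0) (XT.lf (nat_lit 76) (nat_lit 1192933168) (nat_lit 0) (nat_lit 2747466925) (nat_lit 380) (nat_lit 1192933168) (nat_lit 215) (nat_lit 1) (nat_lit 214) (nat_lit 1) (nat_lit 219) (nat_lit 1) (nat_lit 332) (nat_lit 374) (nat_lit 314)) (XT.lf (nat_lit 304) (nat_lit 1145434618) (nat_lit 0) (nat_lit 1965184039) (nat_lit 228) (nat_lit 1965184039) (nat_lit 215) (nat_lit 1) (nat_lit 211) (nat_lit 1) (nat_lit 214) (nat_lit 1) (nat_lit 333) (nat_lit 374) (nat_lit 313))))) (XT.nd (nat_lit 234) (nat_lit 532) (nat_lit 0) (XT.nd (nat_lit 78) (nat_lit 228) (nat_lit 0) (XT.lf (nat_lit 380) (nat_lit 4950056128) (nat_lit 0) (nat_lit 34760317) (nat_lit 304) (nat_lit 34760317) (nat_lit 211) (nat_lit 1) (nat_lit 206) (nat_lit 1) (nat_lit 210) (nat_lit 1) (nat_lit 334) (nat_lit 374) (nat_lit 312))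 (XT.nd (nat_lit 78) (nat_lit 228) (nat_lit 0) (XT.lf (nat_lit 76) (nat_lit 1844134510) (nat_lit 0) (nat_lit 1274971270) (nat_lit 380) (nat_lit 1844134510) (nat_lit 207) (nat_lit 1) (nat_lit 206) (nat_lit 1) (nat_lit 211) (nat_lit 1) (nat_lit 335) (nat_lit 374) (nat_lit 311)) (XT.lf (nat_lit 304) (nat_lit 2450733276) (nat_lit 0) (nat_lit 1228723670) (nat_lit 228) (nat_lit 1228723670) (nat_lit 207) (nat_lit 1) (nat_lit 203) (nat_lit 1) (nat_lit 206) (nat_lit 1) (nat_lit 336) (nat_lit 374) (nat_lit 310)))) (XT.nd (nat_lit 78) (nat_lit 532) (nat_lit 0) (XT.lf (nat_lit 76) (nat_lit 612488788) (nat_lit 0) (nat_lit 3629040309) (nat_lit 304) (nat_lit 612488788) (nat_lit 204) (nat_lit 1) (nat_lit 203) (nat_lit 1) (nat_lit 207) (nat_lit 1) (nat_lit 337) (nat_lit 374) (nat_lit 309)) (XT.nd (nat_lit 78) (nat_lit 228) (nat_lit 0) (XT.lf (nat_lit 76) (nat_lit 2399876852) (nat_lit 0) (nat_lit 642539) (nat_lit 304)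 (nat_lit 2399876852) (nat_lit 200) (nat_lit 1) (nat_lit 199) (nat_lit 1) (nat_lit 203) (nat_lit 1) (nat_lit 338) (nat_lit 374) (nat_lit 308)) (XT.lf (nat_lit 304) (nat_lit 3568735506) (nat_lit 0) (nat_lit 589455654) (nat_lit 228) (nat_lit 589455654) (nat_lit 200) (nat_lit 1) (nat_lit 196) (nat_lit 1) (nat_lit 199) (nat_lit 1) (nat_lit 339) (nat_lit 374) (nat_lit 307)))))) (XT.nd (nat_lit 390) (nat_lit 912) (nat_lit 0) (XT.nd (nat_lit 156) (nat_lit 532) (nat_lit 0) (XT.nd (nat_lit 78) (nat_lit 228) (nat_lit 0) (XT.lf (nat_lit 76) (nat_lit 1169119096) (nat_lit 0) (nat_lit 2357166438) (nat_lit 304) (nat_lit 1169119096) (nat_lit 197) (nat_lit 1) (nat_lit 196) (nat_lit 1) (nat_lit 200) (nat_lit 1) (nat_lit 340) (nat_lit 374) (nat_lit 306)) (XT.lf (nat_lit 304) (nat_lit 1120471131) (nat_lit 0) (nat_lit 1761769920) (nat_lit 228) (nat_lit 1761769920) (nat_lit 197) (nat_lit 1) (nat_lit 193) (nat_lit 1) (nat_lit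 196) (nat_lit 1) (nat_lit 341) (nat_lit 374) (nat_lit 305))) (XT.nd (nat_lit 78) (nat_lit 228) (nat_lit 0) (XT.lf (nat_lit 304) (nat_lit 4521542976) (nat_lit 0) (nat_lit 36102925) (nat_lit 228) (nat_lit 36102925) (nat_lit 193) (nat_lit 1) (nat_lit 189) (nat_lit 1) (nat_lit 192) (nat_lit 1) (nat_lit 342) (nat_lit 374) (nat_lit 304)) (XT.nd (nat_lit 78) (nat_lit 228) (nat_lit 0) (XT.lf (nat_lit 76) (nat_lit 1645476049) (nat_lit 0) (nat_lit 1252380905) (nat_lit 304) (nat_lit 1645476049) (nat_lit 190) (nat_lit 1) (nat_lit 189) (nat_lit 1) (nat_lit 193) (nat_lit 1) (nat_lit 343) (nat_lit 374) (nat_lit 303)) (XT.lf (nat_lit 304) (nat_lit 2083925429) (nat_lit 0) (nat_lit 1205051277) (nat_lit 228) (nat_lit 1205051277) (nat_lit 190) (nat_lit 1) (nat_lit 186) (nat_lit 1) (nat_lit 189) (nat_lit 1) (nat_lit 344) (nat_lit 374) (nat_lit 302))))) (XT.nd (nat_lit 234) (nat_lit 456) (nat_lit 0) (XT.nd (nat_lit 78) (nat_lit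 456) (nat_lit 0) (XT.lf (nat_lit 76) (nat_lit 445710975) (nat_lit 0) (nat_lit 3554136122) (nat_lit 304) (nat_lit 445710975) (nat_lit 187) (nat_lit 1) (nat_lit 186) (nat_lit 1) (nat_lit 190) (nat_lit 1) (nat_lit 345) (nat_lit 374) (nat_lit 301)) (XT.nd (nat_lit 78) (nat_lit 228) (nat_lit 0) (XT.lf (nat_lit 76) (nat_lit 2051041317) (nat_lit 0) (nat_lit 295315529) (nat_lit 228) (nat_lit 2051041317) (nat_lit 184) (nat_lit 1) (nat_lit 183) (nat_lit 1) (nat_lit 186) (nat_lit 1) (nat_lit 346) (nat_lit 374) (nat_lit 300)) (XT.lf (nat_lit 304) (nat_lit 2908241084) (nat_lit 0) (nat_lit 720906939) (nat_lit 228) (nat_lit 720906939) (nat_lit 184) (nat_lit 1) (nat_lit 180) (nat_lit 1) (nat_lit 183) (nat_lit 1) (nat_lit 347) (nat_lit 374) (nat_lit 299)))) (XT.nd (nat_lit 78) (nat_lit 456) (nat_lit 0) (XT.lf (nat_lit 76) (nat_lit 860188575) (nat_lit 0) (nat_lit 2582874864) (nat_lit 304) (nat_lit 860188575) (nat_lit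 181) (nat_lit 1) (nat_lit 180) (nat_lit 1) (nat_lit 184) (nat_lit 1) (nat_lit 348) (nat_lit 374) (nat_lit 298)) (XT.nd (nat_lit 78) (nat_lit 304) (nat_lit 0) (XT.lf (nat_lit 228) (nat_lit 541788894) (nat_lit 0) (nat_lit 1857642912) (nat_lit 152) (nat_lit 1857642912) (nat_lit 181) (nat_lit 1) (nat_lit 178) (nat_lit 1) (nat_lit 180) (nat_lit 1) (nat_lit 349) (nat_lit 374) (nat_lit 297)) (XT.lf (nat_lit 304) (nat_lit 3609857187) (nat_lit 0) (nat_lit 300938310) (nat_lit 228) (nat_lit 300938310) (nat_lit 178) (nat_lit 1) (nat_lit 174) (nat_lit 1) (nat_lit 177) (nat_lit 1) (nat_lit 350) (nat_lit 374) (nat_lit 296))))))) (XT.nd (nat_lit 858) (nat_lit 1140) (nat_lit 0) (XT.nd (nat_lit 390) (nat_lit 760) (nat_lit 0) (XT.nd (nat_lit 156) (nat_lit 380) (nat_lit 0) (XT.nd (nat_lit 78) (nat_lit 152) (nat_lit 0) (XT.lf (nat_lit 76) (nat_lit 1214926744) (nat_lit 0) (nat_lit 1736667323) (nat_lit 304) (nat_lit 1214926744)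 (nat_lit 175) (nat_lit 1) (nat_lit 174) (nat_lit 1) (nat_lit 178) (nat_lit 1) (nat_lit 351) (nat_lit 374) (nat_lit 295)) (XT.lf (nat_lit 228) (nat_lit 1267192681) (nat_lit 0) (nat_lit 1427468055) (nat_lit 152) (nat_lit 1427468055) (nat_lit 175) (nat_lit 1) (nat_lit 172) (nat_lit 1) (nat_lit 174) (nat_lit 1) (nat_lit 352) (nat_lit 374) (nat_lit 294))) (XT.nd (nat_lit 78) (nat_lit 380) (nat_lit 0) (XT.lf (nat_lit 76) (nat_lit 62924658) (nat_lit 0) (nat_lit 3952814995) (nat_lit 228) (nat_lit 62924658) (nat_lit 173) (nat_lit 1) (nat_lit 172) (nat_lit 1) (nat_lit 175) (nat_lit 1) (nat_lit 353) (nat_lit 374) (nat_lit 293)) (XT.nd (nat_lit 78) (nat_lit 152) (nat_lit 0) (XT.lf (nat_lit 76) (nat_lit 1516980984) (nat_lit 0) (nat_lit 1001080655) (nat_lit 228) (nat_lit 1516980984) (nat_lit 170) (nat_lit 1) (nat_lit 169) (nat_lit 1) (nat_lit 172) (nat_lit 1) (nat_lit 354) (nat_lit 374) (nat_lit 292)) (XT.lf (nat_lit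 228) (nat_lit 1888816581) (nat_lit 0) (nat_lit 1051759100) (nat_lit 152) (nat_lit 1051759100) (nat_lit 170) (nat_lit 1) (nat_lit 167) (nat_lit 1) (nat_lit 169) (nat_lit 1) (nat_lit 355) (nat_lit 374) (nat_lit 291))))) (XT.nd (nat_lit 234) (nat_lit 380) (nat_lit 0) (XT.nd (nat_lit 78) (nat_lit 380) (nat_lit 0) (XT.lf (nat_lit 76) (nat_lit 379161894) (nat_lit 0) (nat_lit 3192002376) (nat_lit 228) (nat_lit 379161894) (nat_lit 168) (nat_lit 1) (nat_lit 167) (nat_lit 1) (nat_lit 170) (nat_lit 1) (nat_lit 356) (nat_lit 374) (nat_lit 290)) (XT.nd (nat_lit 78) (nat_lit 152) (nat_lit 0) (XT.lf (nat_lit 76) (nat_lit 1772608545) (nat_lit 0) (nat_lit 363305674) (nat_lit 228) (nat_lit 1772608545) (nat_lit 165) (nat_lit 1) (nat_lit 164) (nat_lit 1) (nat_lit 167) (nat_lit 1) (nat_lit 357) (nat_lit 374) (nat_lit 289)) (XT.lf (nat_lit 228) (nat_lit 2418900036) (nat_lit 0) (nat_lit 724253194) (nat_lit 152) (nat_lit 724253194)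 (nat_lit 165) (nat_lit 1) (nat_lit 162) (nat_lit 1) (nat_lit 164) (nat_lit 1) (nat_lit 358) (nat_lit 374) (nat_lit 288)))) (XT.nd (nat_lit 78) (nat_lit 380) (nat_lit 0) (XT.lf (nat_lit 76) (nat_lit 650719413) (nat_lit 0) (nat_lit 2525351263) (nat_lit 228) (nat_lit 650719413) (nat_lit 163) (nat_lit 1) (nat_lit 162) (nat_lit 1) (nat_lit 165) (nat_lit 1) (nat_lit 359) (nat_lit 374) (nat_lit 287)) (XT.nd (nat_lit 78) (nat_lit 228) (nat_lit 0) (XT.lf (nat_lit 228) (nat_lit 191766684) (nat_lit 0) (nat_lit 1797434476) (nat_lit 152) (nat_lit 1797434476) (nat_lit 163) (nat_lit 1) (nat_lit 160) (nat_lit 1) (nat_lit 162) (nat_lit 1) (nat_lit 360) (nat_lit 374) (nat_lit 286)) (XT.lf (nat_lit 228) (nat_lit 2868298214) (nat_lit 0) (nat_lit 439391385) (nat_lit 152) (nat_lit 439391385) (nat_lit 160) (nat_lit 1) (nat_lit 157) (nat_lit 1) (nat_lit 159) (nat_lit 1) (nat_lit 361) (nat_lit 374) (nat_lit 285)))))) (XT.nd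 (nat_lit 390) (nat_lit 608) (nat_lit 0) (XT.nd (nat_lit 156) (nat_lit 380) (nat_lit 0) (XT.nd (nat_lit 78) (nat_lit 152) (nat_lit 0) (XT.lf (nat_lit 76) (nat_lit 882853809) (nat_lit 0) (nat_lit 1942089943) (nat_lit 228) (nat_lit 882853809) (nat_lit 158) (nat_lit 1) (nat_lit 157) (nat_lit 1) (nat_lit 160) (nat_lit 1) (nat_lit 362) (nat_lit 374) (nat_lit 284)) (XT.lf (nat_lit 228) (nat_lit 676191216) (nat_lit 0) (nat_lit 1496456267) (nat_lit 152) (nat_lit 1496456267) (nat_lit 158) (nat_lit 1) (nat_lit 155) (nat_lit 1) (nat_lit 157) (nat_lit 1) (nat_lit 363) (nat_lit 374) (nat_lit 283))) (XT.nd (nat_lit 78) (nat_lit 152) (nat_lit 0) (XT.lf (nat_lit 228) (nat_lit 3246636941) (nat_lit 0) (nat_lit 192239964) (nat_lit 152) (nat_lit 192239964) (nat_lit 155) (nat_lit 1) (nat_lit 152) (nat_lit 1) (nat_lit 154) (nat_lit 1) (nat_lit 364) (nat_lit 374) (nat_lit 282)) (XT.nd (nat_lit 78) (nat_lit 152) (nat_lit 0)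 (XT.lf (nat_lit 76) (nat_lit 1080227514) (nat_lit 0) (nat_lit 1432655792) (nat_lit 228) (nat_lit 1080227514) (nat_lit 153) (nat_lit 1) (nat_lit 152) (nat_lit 1) (nat_lit 155) (nat_lit 1) (nat_lit 365) (nat_lit 374) (nat_lit 281)) (XT.lf (nat_lit 228) (nat_lit 1091863838) (nat_lit 0) (nat_lit 1231969405) (nat_lit 152) (nat_lit 1231969405) (nat_lit 153) (nat_lit 1) (nat_lit 150) (nat_lit 1) (nat_lit 152) (nat_lit 1) (nat_lit 366) (nat_lit 374) (nat_lit 280))))) (XT.nd (nat_lit 234) (nat_lit 304) (nat_lit 0) (XT.nd (nat_lit 78) (nat_lit 304) (nat_lit 0) (XT.lf (nat_lit 76) (nat_lit 21793065) (nat_lit 0) (nat_lit 3475680123) (nat_lit 228) (nat_lit 21793065) (nat_lit 151) (nat_lit 1) (nat_lit 150) (nat_lit 1) (nat_lit 153) (nat_lit 1) (nat_lit 367) (nat_lit 374) (nat_lit 279)) (XT.nd (nat_lit 78) (nat_lit 152) (nat_lit 0) (XT.lf (nat_lit 76) (nat_lit 1246975281) (nat_lit 0) (nat_lit 988560225) (nat_lit 152)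 (nat_lit 1246975281) (nat_lit 149) (nat_lit 1) (nat_lit 148) (nat_lit 1) (nat_lit 150) (nat_lit 1) (nat_lit 368) (nat_lit 374) (nat_lit 278)) (XT.lf (nat_lit 228) (nat_lit 1446880374) (nat_lit 0) (nat_lit 999819340) (nat_lit 152) (nat_lit 999819340) (nat_lit 149) (nat_lit 1) (nat_lit 146) (nat_lit 1) (nat_lit 148) (nat_lit 1) (nat_lit 369) (nat_lit 374) (nat_lit 277)))) (XT.nd (nat_lit 78) (nat_lit 304) (nat_lit 0) (XT.lf (nat_lit 76) (nat_lit 207990914) (nat_lit 0) (nat_lit 2995176546) (nat_lit 228) (nat_lit 207990914) (nat_lit 147) (nat_lit 1) (nat_lit 146) (nat_lit 1) (nat_lit 149) (nat_lit 1) (nat_lit 370) (nat_lit 374) (nat_lit 276)) (XT.nd (nat_lit 78) (nat_lit 152) (nat_lit 0) (XT.lf (nat_lit 76) (nat_lit 1386763255) (nat_lit 0) (nat_lit 602268693) (nat_lit 152) (nat_lit 1386763255) (nat_lit 145) (nat_lit 1) (nat_lit 144) (nat_lit 1) (nat_lit 146) (nat_lit 1) (nat_lit 371) (nat_lit 374) (nat_lit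 275)) (XT.lf (nat_lit 228) (nat_lit 1748421362) (nat_lit 0) (nat_lit 796317290) (nat_lit 152) (nat_lit 796317290) (nat_lit 145) (nat_lit 1) (nat_lit 142) (nat_lit 1) (nat_lit 144) (nat_lit 1) (nat_lit 372) (nat_lit 374) (nat_lit 274))))))))
noncomputable def ec81 : XT := (XT.nd (nat_lit 46020) (nat_lit 0) (nat_lit 12464) (XT.nd (nat_lit 45162) (nat_lit 0) (nat_lit 18544) (XT.nd (nat_lit 390) (nat_lit 532) (nat_lit 0) (XT.nd (nat_lit 156) (nat_lit 228) (nat_lit 0) (XT.nd (nat_lit 78) (nat_lit 152) (nat_lit 0) (XT.lf (nat_lit 76) (nat_lit 367931270) (nat_lit 0) (nat_lit 2570961756) (nat_lit 228) (nat_lit 367931270) (nat_lit 143) (nat_lit 1) (nat_lit 142) (nat_lit 1) (nat_lit 145) (nat_lit 1) (nat_lit 373) (nat_lit 374) (nat_lit 273)) (XT.lf (nat_lit 76) (nat_lit 1502841453) (nat_lit 0) (nat_lit 267094086) (nat_lit 152) (nat_lit 1502841453) (nat_lit 141) (nat_lit 1) (nat_lit 140) (nat_lit 1) (nat_lit 142)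 (nat_lit 1) (nat_lit 374) (nat_lit 374) (nat_lit 272))) (XT.nd (nat_lit 78) (nat_lit 76) (nat_lit 0) (XT.lf (nat_lit 228) (nat_lit 2002854481) (nat_lit 0) (nat_lit 618188236) (nat_lit 152) (nat_lit 618188236) (nat_lit 141) (nat_lit 1) (nat_lit 138) (nat_lit 1) (nat_lit 140) (nat_lit 1) (nat_lit 375) (nat_lit 374) (nat_lit 271)) (XT.nd (nat_lit 78) (nat_lit 76) (nat_lit 0) (XT.lf (nat_lit 76) (nat_lit 504702204) (nat_lit 0) (nat_lit 2196679996) (nat_lit 228) (nat_lit 504702204) (nat_lit 139) (nat_lit 1) (nat_lit 138) (nat_lit 1) (nat_lit 141) (nat_lit 1) (nat_lit 376) (nat_lit 374) (nat_lit 270)) (XT.lf (nat_lit 152) (nat_lit 23353697) (nat_lit 0) (nat_lit 1574961164) (nat_lit 76) (nat_lit 1574961164) (nat_lit 139) (nat_lit 1) (nat_lit 137) (nat_lit 1) (nat_lit 138) (nat_lit 1) (nat_lit 377) (nat_lit 374) (nat_lit 269))))) (XT.nd (nat_lit 234) (nat_lit 228) (nat_lit 0) (XT.nd (nat_lit 78) (nat_lit 76)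 (nat_lit 0) (XT.lf (nat_lit 228) (nat_lit 2215825553) (nat_lit 0) (nat_lit 462524705) (nat_lit 152) (nat_lit 462524705) (nat_lit 137) (nat_lit 1) (nat_lit 134) (nat_lit 1) (nat_lit 136) (nat_lit 1) (nat_lit 378) (nat_lit 374) (nat_lit 268)) (XT.nd (nat_lit 78) (nat_lit 76) (nat_lit 0) (XT.lf (nat_lit 76) (nat_lit 621042765) (nat_lit 0) (nat_lit 1866686556) (nat_lit 228) (nat_lit 621042765) (nat_lit 135) (nat_lit 1) (nat_lit 134) (nat_lit 1) (nat_lit 137) (nat_lit 1) (nat_lit 379) (nat_lit 374) (nat_lit 267)) (XT.lf (nat_lit 152) (nat_lit 278406021) (nat_lit 0) (nat_lit 1399332595) (nat_lit 76) (nat_lit 1399332595) (nat_lit 135) (nat_lit 1) (nat_lit 133) (nat_lit 1) (nat_lit 134) (nat_lit 1) (nat_lit 380) (nat_lit 374) (nat_lit 266)))) (XT.nd (nat_lit 78) (nat_lit 0) (nat_lit 0) (XT.lf (nat_lit 228) (nat_lit 2392339380) (nat_lit 0) (nat_lit 326745718) (nat_lit 152) (nat_lit 326745718) (nat_lit 133) (nat_lit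 1) (nat_lit 130) (nat_lit 1) (nat_lit 132) (nat_lit 1) (nat_lit 381) (nat_lit 374) (nat_lit 265)) (XT.nd (nat_lit 44382) (nat_lit 0) (nat_lit 18544) (XT.lf (nat_lit 76) (nat_lit 719382040) (nat_lit 0) (nat_lit 1575968410) (nat_lit 228) (nat_lit 719382040) (nat_lit 131) (nat_lit 1) (nat_lit 130) (nat_lit 1) (nat_lit 133) (nat_lit 1) (nat_lit 382) (nat_lit 374) (nat_lit 264)) (XT.lf (nat_lit 1292) (nat_lit 1049463991) (nat_lit 0) (nat_lit 3610644204) (nat_lit 1292) (nat_lit 1049463991) (nat_lit 391) (nat_lit 1) (nat_lit 374) (nat_lit 0) (nat_lit 391) (nat_lit 0) (nat_lit 270) (nat_lit 375) (nat_lit 375)))))) (XT.nd (nat_lit 390) (nat_lit 0) (nat_lit 228) (XT.nd (nat_lit 156) (nat_lit 0) (nat_lit 76) (XT.nd (nat_lit 78) (nat_lit 0) (nat_lit 76) (XT.lf (nat_lit 1292) (nat_lit 4101323669) (nat_lit 76) (nat_lit 3575245732) (nat_lit 0) (nat_lit 3575245732) (nat_lit 391) (nat_lit 1) (nat_lit 375) (nat_lit 1)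 (nat_lit 374) (nat_lit 0) (nat_lit 271) (nat_lit 375) (nat_lit 374)) (XT.lf (nat_lit 1292) (nat_lit 1983497913) (nat_lit 0) (nat_lit 7121180998) (nat_lit 1216) (nat_lit 1983497913) (nat_lit 392) (nat_lit 1) (nat_lit 375) (nat_lit 1) (nat_lit 391) (nat_lit 1) (nat_lit 272) (nat_lit 375) (nat_lit 373))) (XT.nd (nat_lit 78) (nat_lit 0) (nat_lit 76) (XT.lf (nat_lit 1292) (nat_lit 3766764946) (nat_lit 76) (nat_lit 3580253136) (nat_lit 0) (nat_lit 3580253136) (nat_lit 392) (nat_lit 1) (nat_lit 376) (nat_lit 1) (nat_lit 375) (nat_lit 1) (nat_lit 273) (nat_lit 375) (nat_lit 372)) (XT.nd (nat_lit 78) (nat_lit 0) (nat_lit 0) (XT.lf (nat_lit 1292) (nat_lit 1767535665) (nat_lit 0) (nat_lit 7234894601) (nat_lit 1216) (nat_lit 1767535665) (nat_lit 393) (nat_lit 1) (nat_lit 376) (nat_lit 1) (nat_lit 392) (nat_lit 1) (nat_lit 274) (nat_lit 375) (nat_lit 371)) (XT.lf (nat_lit 1292) (nat_lit 3239195733) (nat_lit 76) (nat_lit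 3687990343) (nat_lit 0) (nat_lit 3687990343) (nat_lit 393) (nat_lit 1) (nat_lit 377) (nat_lit 1) (nat_lit 376) (nat_lit 1) (nat_lit 275) (nat_lit 375) (nat_lit 370))))) (XT.nd (nat_lit 234) (nat_lit 0) (nat_lit 76) (XT.nd (nat_lit 78) (nat_lit 0) (nat_lit 0) (XT.lf (nat_lit 1292) (nat_lit 1459933313) (nat_lit 0) (nat_lit 7544094599) (nat_lit 1216) (nat_lit 1459933313) (nat_lit 394) (nat_lit 1) (nat_lit 377) (nat_lit 1) (nat_lit 393) (nat_lit 1) (nat_lit 276) (nat_lit 375) (nat_lit 369)) (XT.nd (nat_lit 78) (nat_lit 0) (nat_lit 76) (XT.lf (nat_lit 1292) (nat_lit 2535876657) (nat_lit 76) (nat_lit 3889559738) (nat_lit 0) (nat_lit 3889559738) (nat_lit 394) (nat_lit 1) (nat_lit 378) (nat_lit 1) (nat_lit 377) (nat_lit 1) (nat_lit 277) (nat_lit 375) (nat_lit 368)) (XT.lf (nat_lit 1292) (nat_lit 1068981585) (nat_lit 0) (nat_lit 8031675367) (nat_lit 1216) (nat_lit 1068981585) (nat_lit 395) (nat_lit 1) (nat_lit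 378) (nat_lit 1) (nat_lit 394) (nat_lit 1) (nat_lit 278) (nat_lit 375) (nat_lit 367)))) (XT.nd (nat_lit 78) (nat_lit 0) (nat_lit 76) (XT.lf (nat_lit 1292) (nat_lit 1672897483) (nat_lit 76) (nat_lit 4176661861) (nat_lit 0) (nat_lit 4176661861) (nat_lit 395) (nat_lit 1) (nat_lit 379) (nat_lit 1) (nat_lit 378) (nat_lit 1) (nat_lit 279) (nat_lit 375) (nat_lit 366)) (XT.nd (nat_lit 78) (nat_lit 0) (nat_lit 0) (XT.lf (nat_lit 1292) (nat_lit 602407028) (nat_lit 0) (nat_lit 8681684593) (nat_lit 1216) (nat_lit 602407028) (nat_lit 396) (nat_lit 1) (nat_lit 379) (nat_lit 1) (nat_lit 395) (nat_lit 1) (nat_lit 280) (nat_lit 375) (nat_lit 365)) (XT.lf (nat_lit 1292) (nat_lit 665249572) (nat_lit 76) (nat_lit 4541558522) (nat_lit 0) (nat_lit 4541558522) (nat_lit 396) (nat_lit 1) (nat_lit 380) (nat_lit 1) (nat_lit 379) (nat_lit 1) (nat_lit 281) (nat_lit 375) (nat_lit 364))))))) (XT.nd (nat_lit 858) (nat_lit 3344) (nat_lit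 0) (XT.nd (nat_lit 390) (nat_lit 1900) (nat_lit 0) (XT.nd (nat_lit 156) (nat_lit 0) (nat_lit 0) (XT.nd (nat_lit 78) (nat_lit 1292) (nat_lit 0) (XT.lf (nat_lit 1292) (nat_lit 67406964) (nat_lit 0) (nat_lit 9479252076) (nat_lit 1216) (nat_lit 67406964) (nat_lit 397) (nat_lit 1) (nat_lit 380) (nat_lit 1) (nat_lit 396) (nat_lit 1) (nat_lit 282) (nat_lit 375) (nat_lit 363)) (XT.lf (nat_lit 1368) (nat_lit 4508479921) (nat_lit 0) (nat_lit 463873974) (nat_lit 1292) (nat_lit 4508479921) (nat_lit 381) (nat_lit 1) (nat_lit 363) (nat_lit 1) (nat_lit 380) (nat_lit 1) (nat_lit 283) (nat_lit 375) (nat_lit 362))) (XT.nd (nat_lit 78) (nat_lit 0) (nat_lit 76) (XT.lf (nat_lit 1368) (nat_lit 8303017364) (nat_lit 76) (nat_lit 524128240) (nat_lit 0) (nat_lit 524128240) (nat_lit 381) (nat_lit 1) (nat_lit 364) (nat_lit 1) (nat_lit 363) (nat_lit 1) (nat_lit 284) (nat_lit 375) (nat_lit 361)) (XT.nd (nat_lit 78) (nat_lit 0) (nat_lit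 0) (XT.lf (nat_lit 1368) (nat_lit 3763830617) (nat_lit 0) (nat_lit 1695431821) (nat_lit 1292) (nat_lit 3763830617) (nat_lit 382) (nat_lit 1) (nat_lit 364) (nat_lit 1) (nat_lit 381) (nat_lit 1) (nat_lit 285) (nat_lit 375) (nat_lit 360)) (XT.lf (nat_lit 1368) (nat_lit 6758266413) (nat_lit 76) (nat_lit 1169947570) (nat_lit 0) (nat_lit 1169947570) (nat_lit 382) (nat_lit 1) (nat_lit 365) (nat_lit 1) (nat_lit 364) (nat_lit 1) (nat_lit 286) (nat_lit 375) (nat_lit 359))))) (XT.nd (nat_lit 234) (nat_lit 1216) (nat_lit 0) (XT.nd (nat_lit 78) (nat_lit 836) (nat_lit 0) (XT.lf (nat_lit 76) (nat_lit 2972183810) (nat_lit 0) (nat_lit 3030552277) (nat_lit 1292) (nat_lit 2972183810) (nat_lit 366) (nat_lit 1) (nat_lit 365) (nat_lit 1) (nat_lit 382) (nat_lit 1) (nat_lit 287) (nat_lit 375) (nat_lit 358)) (XT.nd (nat_lit 78) (nat_lit 0) (nat_lit 0) (XT.lf (nat_lit 912) (nat_lit 5124463321) (nat_lit 0) (nat_lit 1864969552)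 (nat_lit 836) (nat_lit 1864969552) (nat_lit 366) (nat_lit 1) (nat_lit 354) (nat_lit 1) (nat_lit 365) (nat_lit 1) (nat_lit 288) (nat_lit 375) (nat_lit 357)) (XT.lf (nat_lit 76) (nat_lit 2138851234) (nat_lit 0) (nat_lit 4458214918) (nat_lit 912) (nat_lit 2138851234) (nat_lit 355) (nat_lit 1) (nat_lit 354) (nat_lit 1) (nat_lit 366) (nat_lit 1) (nat_lit 289) (nat_lit 375) (nat_lit 356)))) (XT.nd (nat_lit 78) (nat_lit 608) (nat_lit 0) (XT.lf (nat_lit 684) (nat_lit 3411896565) (nat_lit 0) (nat_lit 2603856878) (nat_lit 608) (nat_lit 2603856878) (nat_lit 355) (nat_lit 1) (nat_lit 346) (nat_lit 1) (nat_lit 354) (nat_lit 1) (nat_lit 290) (nat_lit 375) (nat_lit 355)) (XT.nd (nat_lit 78) (nat_lit 608) (nat_lit 0) (XT.lf (nat_lit 76) (nat_lit 1268763577) (nat_lit 0) (nat_lit 5968179767) (nat_lit 684) (nat_lit 1268763577) (nat_lit 347) (nat_lit 1) (nat_lit 346) (nat_lit 1) (nat_lit 355) (nat_lit 1) (nat_lit 291) (nat_lit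 375) (nat_lit 354)) (XT.lf (nat_lit 684) (nat_lit 1630113248) (nat_lit 0) (nat_lit 3381651814) (nat_lit 608) (nat_lit 3381651814) (nat_lit 347) (nat_lit 1) (nat_lit 338) (nat_lit 1) (nat_lit 346) (nat_lit 1) (nat_lit 292) (nat_lit 375) (nat_lit 353)))))) (XT.nd (nat_lit 390) (nat_lit 1596) (nat_lit 0) (XT.nd (nat_lit 156) (nat_lit 1140) (nat_lit 0) (XT.nd (nat_lit 78) (nat_lit 608) (nat_lit 0) (XT.lf (nat_lit 76) (nat_lit 366494568) (nat_lit 0) (nat_lit 7550938190) (nat_lit 684) (nat_lit 366494568) (nat_lit 339) (nat_lit 1) (nat_lit 338) (nat_lit 1) (nat_lit 347) (nat_lit 1) (nat_lit 293) (nat_lit 375) (nat_lit 352)) (XT.lf (nat_lit 76) (nat_lit 3983756532) (nat_lit 0) (nat_lit 207896404) (nat_lit 608) (nat_lit 3983756532) (nat_lit 331) (nat_lit 1) (nat_lit 330) (nat_lit 1) (nat_lit 338) (nat_lit 1) (nat_lit 294) (nat_lit 375) (nat_lit 351))) (XT.nd (nat_lit 78) (nat_lit 532) (nat_lit 0) (XT.lf (nat_lit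 684) (nat_lit 6953200958) (nat_lit 0) (nat_lit 558189742) (nat_lit 608) (nat_lit 558189742) (nat_lit 331) (nat_lit 1) (nat_lit 322) (nat_lit 1) (nat_lit 330) (nat_lit 1) (nat_lit 295) (nat_lit 375) (nat_lit 350)) (XT.nd (nat_lit 78) (nat_lit 532) (nat_lit 0) (XT.lf (nat_lit 76) (nat_lit 2949794174) (nat_lit 0) (nat_lit 2065240315) (nat_lit 684) (nat_lit 2949794174) (nat_lit 323) (nat_lit 1) (nat_lit 322) (nat_lit 1) (nat_lit 331) (nat_lit 1) (nat_lit 296) (nat_lit 375) (nat_lit 349)) (XT.lf (nat_lit 608) (nat_lit 4856416031) (nat_lit 0) (nat_lit 1503061072) (nat_lit 532) (nat_lit 1503061072) (nat_lit 323) (nat_lit 1) (nat_lit 315) (nat_lit 1) (nat_lit 322) (nat_lit 1) (nat_lit 297) (nat_lit 375) (nat_lit 348))))) (XT.nd (nat_lit 234) (nat_lit 1064) (nat_lit 0) (XT.nd (nat_lit 78) (nat_lit 532) (nat_lit 0) (XT.lf (nat_lit 76) (nat_lit 1897772023) (nat_lit 0) (nat_lit 3966282491) (nat_lit 608) (nat_lit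 1897772023) (nat_lit 316) (nat_lit 1) (nat_lit 315) (nat_lit 1) (nat_lit 323) (nat_lit 1) (nat_lit 298) (nat_lit 375) (nat_lit 347)) (XT.nd (nat_lit 78) (nat_lit 0) (nat_lit 0) (XT.lf (nat_lit 608) (nat_lit 2726686123) (nat_lit 0) (nat_lit 2468114774) (nat_lit 532) (nat_lit 2468114774) (nat_lit 316) (nat_lit 1) (nat_lit 308) (nat_lit 1) (nat_lit 315) (nat_lit 1) (nat_lit 299) (nat_lit 375) (nat_lit 346)) (XT.lf (nat_lit 76) (nat_lit 830981546) (nat_lit 0) (nat_lit 5904136295) (nat_lit 608) (nat_lit 830981546) (nat_lit 309) (nat_lit 1) (nat_lit 308) (nat_lit 1) (nat_lit 316) (nat_lit 1) (nat_lit 300) (nat_lit 375) (nat_lit 345)))) (XT.nd (nat_lit 78) (nat_lit 608) (nat_lit 0) (XT.lf (nat_lit 532) (nat_lit 570367722) (nat_lit 0) (nat_lit 3450024670) (nat_lit 456) (nat_lit 3450024670) (nat_lit 309) (nat_lit 1) (nat_lit 302) (nat_lit 1) (nat_lit 308) (nat_lit 1) (nat_lit 301) (nat_lit 375) (nat_lit 344))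 (XT.nd (nat_lit 78) (nat_lit 0) (nat_lit 0) (XT.lf (nat_lit 608) (nat_lit 6886843057) (nat_lit 0) (nat_lit 245113539) (nat_lit 532) (nat_lit 245113539) (nat_lit 302) (nat_lit 1) (nat_lit 294) (nat_lit 1) (nat_lit 301) (nat_lit 1) (nat_lit 302) (nat_lit 375) (nat_lit 343)) (XT.lf (nat_lit 76) (nat_lit 2854485391) (nat_lit 0) (nat_lit 1575325563) (nat_lit 608) (nat_lit 2854485391) (nat_lit 295) (nat_lit 1) (nat_lit 294) (nat_lit 1) (nat_lit 302) (nat_lit 1) (nat_lit 303) (nat_lit 375) (nat_lit 342))))))))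
noncomputable def ec82 : XT := (XT.nd (nat_lit 1716) (nat_lit 3648) (nat_lit 0) (XT.nd (nat_lit 858) (nat_lit 2128) (nat_lit 0) (XT.nd (nat_lit 390) (nat_lit 1672) (nat_lit 0) (XT.nd (nat_lit 156) (nat_lit 912) (nat_lit 0) (XT.nd (nat_lit 78) (nat_lit 0) (nat_lit 0) (XT.lf (nat_lit 532) (nat_lit 4549961098) (nat_lit 0) (nat_lit 1321906884) (nat_lit 456) (nat_lit 1321906884) (nat_lit 295) (nat_lit 1) (nat_lit 288) (nat_lit 1) (nat_lit 294) (nat_lit 1) (nat_lit 304) (nat_lit 375) (nat_lit 341)) (XT.lf (nat_lit 76) (nat_lit 1689829929) (nat_lit 0) (nat_lit 3724917968) (nat_lit 532) (nat_lit 1689829929) (nat_lit 289) (nat_lit 1) (nat_lit 288) (nat_lit 1) (nat_lit 295) (nat_lit 1) (nat_lit 305) (nat_lit 375) (nat_lit 340))) (XT.nd (nat_lit 78) (nat_lit 456) (nat_lit 0) (XT.lf (nat_lit 532) (nat_lit 2206926259) (nat_lit 0) (nat_lit 2404994422) (nat_lit 456) (nat_lit 2404994422) (nat_lit 289) (nat_lit 1) (nat_lit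 282) (nat_lit 1) (nat_lit 288) (nat_lit 1) (nat_lit 306) (nat_lit 375) (nat_lit 339)) (XT.nd (nat_lit 78) (nat_lit 456) (nat_lit 0) (XT.lf (nat_lit 76) (nat_lit 523249597) (nat_lit 0) (nat_lit 5884670041) (nat_lit 532) (nat_lit 523249597) (nat_lit 283) (nat_lit 1) (nat_lit 282) (nat_lit 1) (nat_lit 289) (nat_lit 1) (nat_lit 307) (nat_lit 375) (nat_lit 338)) (XT.lf (nat_lit 76) (nat_lit 3355534116) (nat_lit 0) (nat_lit 135132466) (nat_lit 456) (nat_lit 3355534116) (nat_lit 277) (nat_lit 1) (nat_lit 276) (nat_lit 1) (nat_lit 282) (nat_lit 1) (nat_lit 308) (nat_lit 375) (nat_lit 337))))) (XT.nd (nat_lit 234) (nat_lit 836) (nat_lit 0) (XT.nd (nat_lit 78) (nat_lit 380) (nat_lit 0) (XT.lf (nat_lit 532) (nat_lit 5489406489) (nat_lit 0) (nat_lit 636836472) (nat_lit 456) (nat_lit 636836472) (nat_lit 277) (nat_lit 1) (nat_lit 270) (nat_lit 1) (nat_lit 276) (nat_lit 1) (nat_lit 309) (nat_lit 375) (nat_lit 336))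 (XT.nd (nat_lit 78) (nat_lit 380) (nat_lit 0) (XT.lf (nat_lit 76) (nat_lit 2124488283) (nat_lit 0) (nat_lit 2431819584) (nat_lit 532) (nat_lit 2124488283) (nat_lit 271) (nat_lit 1) (nat_lit 270) (nat_lit 1) (nat_lit 277) (nat_lit 1) (nat_lit 310) (nat_lit 375) (nat_lit 335)) (XT.lf (nat_lit 456) (nat_lit 3020834302) (nat_lit 0) (nat_lit 1789690378) (nat_lit 380) (nat_lit 1789690378) (nat_lit 271) (nat_lit 1) (nat_lit 265) (nat_lit 1) (nat_lit 270) (nat_lit 1) (nat_lit 311) (nat_lit 375) (nat_lit 334)))) (XT.nd (nat_lit 78) (nat_lit 836) (nat_lit 0) (XT.lf (nat_lit 76) (nat_lit 899276960) (nat_lit 0) (nat_lit 4722555924) (nat_lit 456) (nat_lit 899276960) (nat_lit 266) (nat_lit 1) (nat_lit 265) (nat_lit 1) (nat_lit 271) (nat_lit 1) (nat_lit 312) (nat_lit 375) (nat_lit 333)) (XT.nd (nat_lit 78) (nat_lit 456) (nat_lit 0) (XT.lf (nat_lit 456) (nat_lit 565574372) (nat_lit 0) (nat_lit 2938692882) (nat_lit 380)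 (nat_lit 2938692882) (nat_lit 266) (nat_lit 1) (nat_lit 260) (nat_lit 1) (nat_lit 265) (nat_lit 1) (nat_lit 313) (nat_lit 375) (nat_lit 332)) (XT.lf (nat_lit 456) (nat_lit 5735707342) (nat_lit 0) (nat_lit 315423444) (nat_lit 380) (nat_lit 315423444) (nat_lit 260) (nat_lit 1) (nat_lit 254) (nat_lit 1) (nat_lit 259) (nat_lit 1) (nat_lit 314) (nat_lit 375) (nat_lit 331)))))) (XT.nd (nat_lit 390) (nat_lit 988) (nat_lit 0) (XT.nd (nat_lit 156) (nat_lit 760) (nat_lit 0) (XT.nd (nat_lit 78) (nat_lit 380) (nat_lit 0) (XT.lf (nat_lit 76) (nat_lit 2226860113) (nat_lit 0) (nat_lit 1836841111) (nat_lit 456) (nat_lit 2226860113) (nat_lit 255) (nat_lit 1) (nat_lit 254) (nat_lit 1) (nat_lit 260) (nat_lit 1) (nat_lit 315) (nat_lit 375) (nat_lit 330)) (XT.lf (nat_lit 456) (nat_lit 3191064293) (nat_lit 0) (nat_lit 1512596511) (nat_lit 380) (nat_lit 1512596511) (nat_lit 255) (nat_lit 1) (nat_lit 249) (nat_lit 1) (nat_lit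 254) (nat_lit 1) (nat_lit 316) (nat_lit 375) (nat_lit 329))) (XT.nd (nat_lit 78) (nat_lit 760) (nat_lit 0) (XT.lf (nat_lit 76) (nat_lit 966795025) (nat_lit 0) (nat_lit 4209607205) (nat_lit 456) (nat_lit 966795025) (nat_lit 250) (nat_lit 1) (nat_lit 249) (nat_lit 1) (nat_lit 255) (nat_lit 1) (nat_lit 317) (nat_lit 375) (nat_lit 328)) (XT.nd (nat_lit 78) (nat_lit 456) (nat_lit 0) (XT.lf (nat_lit 380) (nat_lit 671470614) (nat_lit 0) (nat_lit 2699796243) (nat_lit 304) (nat_lit 2699796243) (nat_lit 250) (nat_lit 1) (nat_lit 245) (nat_lit 1) (nat_lit 249) (nat_lit 1) (nat_lit 318) (nat_lit 375) (nat_lit 327)) (XT.lf (nat_lit 456) (nat_lit 5445470545) (nat_lit 0) (nat_lit 277520416) (nat_lit 380) (nat_lit 277520416) (nat_lit 245) (nat_lit 1) (nat_lit 239) (nat_lit 1) (nat_lit 244) (nat_lit 1) (nat_lit 319) (nat_lit 375) (nat_lit 326))))) (XT.nd (nat_lit 234) (nat_lit 684) (nat_lit 0) (XT.nd (nat_lit 78) (nat_lit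 304) (nat_lit 0) (XT.lf (nat_lit 76) (nat_lit 2072401770) (nat_lit 0) (nat_lit 1785452665) (nat_lit 456) (nat_lit 2072401770) (nat_lit 240) (nat_lit 1) (nat_lit 239) (nat_lit 1) (nat_lit 245) (nat_lit 1) (nat_lit 320) (nat_lit 375) (nat_lit 325)) (XT.nd (nat_lit 78) (nat_lit 0) (nat_lit 0) (XT.lf (nat_lit 380) (nat_lit 2864515604) (nat_lit 0) (nat_lit 1498510929) (nat_lit 304) (nat_lit 1498510929) (nat_lit 240) (nat_lit 1) (nat_lit 235) (nat_lit 1) (nat_lit 239) (nat_lit 1) (nat_lit 321) (nat_lit 375) (nat_lit 324)) (XT.lf (nat_lit 76) (nat_lit 796578033) (nat_lit 0) (nat_lit 4200838106) (nat_lit 380) (nat_lit 796578033) (nat_lit 236) (nat_lit 1) (nat_lit 235) (nat_lit 1) (nat_lit 240) (nat_lit 1) (nat_lit 322) (nat_lit 375) (nat_lit 323)))) (XT.nd (nat_lit 78) (nat_lit 380) (nat_lit 0) (XT.lf (nat_lit 380) (nat_lit 317641730) (nat_lit 0) (nat_lit 2704788439) (nat_lit 304) (nat_lit 2704788439) (nat_lit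 236) (nat_lit 1) (nat_lit 231) (nat_lit 1) (nat_lit 235) (nat_lit 1) (nat_lit 323) (nat_lit 375) (nat_lit 322)) (XT.nd (nat_lit 78) (nat_lit 0) (nat_lit 0) (XT.lf (nat_lit 380) (nat_lit 4746951673) (nat_lit 0) (nat_lit 457404576) (nat_lit 304) (nat_lit 457404576) (nat_lit 231) (nat_lit 1) (nat_lit 226) (nat_lit 1) (nat_lit 230) (nat_lit 1) (nat_lit 324) (nat_lit 375) (nat_lit 321)) (XT.lf (nat_lit 76) (nat_lit 1722887759) (nat_lit 0) (nat_lit 2150976212) (nat_lit 380) (nat_lit 1722887759) (nat_lit 227) (nat_lit 1) (nat_lit 226) (nat_lit 1) (nat_lit 231) (nat_lit 1) (nat_lit 325) (nat_lit 375) (nat_lit 320))))))) (XT.nd (nat_lit 858) (nat_lit 1596) (nat_lit 0) (XT.nd (nat_lit 390) (nat_lit 1140) (nat_lit 0) (XT.nd (nat_lit 156) (nat_lit 608) (nat_lit 0) (XT.nd (nat_lit 78) (nat_lit 0) (nat_lit 0) (XT.lf (nat_lit 380) (nat_lit 2161409695) (nat_lit 0) (nat_lit 1685806097) (nat_lit 304) (nat_lit 1685806097)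 (nat_lit 227) (nat_lit 1) (nat_lit 222) (nat_lit 1) (nat_lit 226) (nat_lit 1) (nat_lit 326) (nat_lit 375) (nat_lit 319)) (XT.lf (nat_lit 76) (nat_lit 446526244) (nat_lit 0) (nat_lit 4577472464) (nat_lit 380) (nat_lit 446526244) (nat_lit 223) (nat_lit 1) (nat_lit 222) (nat_lit 1) (nat_lit 227) (nat_lit 1) (nat_lit 327) (nat_lit 375) (nat_lit 318))) (XT.nd (nat_lit 78) (nat_lit 304) (nat_lit 0) (XT.lf (nat_lit 76) (nat_lit 2516334812) (nat_lit 0) (nat_lit 375761072) (nat_lit 304) (nat_lit 2516334812) (nat_lit 219) (nat_lit 1) (nat_lit 218) (nat_lit 1) (nat_lit 222) (nat_lit 1) (nat_lit 328) (nat_lit 375) (nat_lit 317)) (XT.nd (nat_lit 78) (nat_lit 0) (nat_lit 0) (XT.lf (nat_lit 380) (nat_lit 3744839986) (nat_lit 0) (nat_lit 801347563) (nat_lit 304) (nat_lit 801347563) (nat_lit 219) (nat_lit 1) (nat_lit 214) (nat_lit 1) (nat_lit 218) (nat_lit 1) (nat_lit 329) (nat_lit 375) (nat_lit 316)) (XT.lf (nat_lit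 76) (nat_lit 1228721163) (nat_lit 0) (nat_lit 2829890932) (nat_lit 380) (nat_lit 1228721163) (nat_lit 215) (nat_lit 1) (nat_lit 214) (nat_lit 1) (nat_lit 219) (nat_lit 1) (nat_lit 330) (nat_lit 375) (nat_lit 315))))) (XT.nd (nat_lit 234) (nat_lit 532) (nat_lit 0) (XT.nd (nat_lit 78) (nat_lit 380) (nat_lit 0) (XT.lf (nat_lit 304) (nat_lit 1179797656) (nat_lit 0) (nat_lit 2024139560) (nat_lit 228) (nat_lit 2024139560) (nat_lit 215) (nat_lit 1) (nat_lit 211) (nat_lit 1) (nat_lit 214) (nat_lit 1) (nat_lit 331) (nat_lit 375) (nat_lit 314)) (XT.nd (nat_lit 78) (nat_lit 0) (nat_lit 0) (XT.lf (nat_lit 380) (nat_lit 5098557812) (nat_lit 0) (nat_lit 35803126) (nat_lit 304) (nat_lit 35803126) (nat_lit 211) (nat_lit 1) (nat_lit 206) (nat_lit 1) (nat_lit 210) (nat_lit 1) (nat_lit 332) (nat_lit 375) (nat_lit 313)) (XT.lf (nat_lit 76) (nat_lit 1899458546) (nat_lit 0) (nat_lit 1313220408) (nat_lit 380) (nat_lit 1899458546)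 (nat_lit 207) (nat_lit 1) (nat_lit 206) (nat_lit 1) (nat_lit 211) (nat_lit 1) (nat_lit 333) (nat_lit 375) (nat_lit 312)))) (XT.nd (nat_lit 78) (nat_lit 304) (nat_lit 0) (XT.lf (nat_lit 304) (nat_lit 2524255275) (nat_lit 0) (nat_lit 1265585380) (nat_lit 228) (nat_lit 1265585380) (nat_lit 207) (nat_lit 1) (nat_lit 203) (nat_lit 1) (nat_lit 206) (nat_lit 1) (nat_lit 334) (nat_lit 375) (nat_lit 311)) (XT.nd (nat_lit 78) (nat_lit 304) (nat_lit 0) (XT.lf (nat_lit 76) (nat_lit 630863452) (nat_lit 0) (nat_lit 3737911519) (nat_lit 304) (nat_lit 630863452) (nat_lit 204) (nat_lit 1) (nat_lit 203) (nat_lit 1) (nat_lit 207) (nat_lit 1) (nat_lit 335) (nat_lit 375) (nat_lit 310)) (XT.lf (nat_lit 76) (nat_lit 2471873158) (nat_lit 0) (nat_lit 661816) (nat_lit 304) (nat_lit 2471873158) (nat_lit 200) (nat_lit 1) (nat_lit 199) (nat_lit 1) (nat_lit 203) (nat_lit 1) (nat_lit 336) (nat_lit 375) (nat_lit 309)))))) (XT.nd (nat_lit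 390) (nat_lit 836) (nat_lit 0) (XT.nd (nat_lit 156) (nat_lit 532) (nat_lit 0) (XT.nd (nat_lit 78) (nat_lit 0) (nat_lit 0) (XT.lf (nat_lit 304) (nat_lit 3675797572) (nat_lit 0) (nat_lit 607139323) (nat_lit 228) (nat_lit 607139323) (nat_lit 200) (nat_lit 1) (nat_lit 196) (nat_lit 1) (nat_lit 199) (nat_lit 1) (nat_lit 337) (nat_lit 375) (nat_lit 308)) (XT.lf (nat_lit 76) (nat_lit 1204192669) (nat_lit 0) (nat_lit 2427881431) (nat_lit 304) (nat_lit 1204192669) (nat_lit 197) (nat_lit 1) (nat_lit 196) (nat_lit 1) (nat_lit 200) (nat_lit 1) (nat_lit 338) (nat_lit 375) (nat_lit 307))) (XT.nd (nat_lit 78) (nat_lit 304) (nat_lit 0) (XT.lf (nat_lit 304) (nat_lit 1154085265) (nat_lit 0) (nat_lit 1814623018) (nat_lit 228) (nat_lit 1814623018) (nat_lit 197) (nat_lit 1) (nat_lit 193) (nat_lit 1) (nat_lit 196) (nat_lit 1) (nat_lit 339) (nat_lit 375) (nat_lit 306)) (XT.nd (nat_lit 78) (nat_lit 0) (nat_lit 0) (XT.lf (nat_lit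 304) (nat_lit 4657189265) (nat_lit 0) (nat_lit 37186013) (nat_lit 228) (nat_lit 37186013) (nat_lit 193) (nat_lit 1) (nat_lit 189) (nat_lit 1) (nat_lit 192) (nat_lit 1) (nat_lit 340) (nat_lit 375) (nat_lit 305)) (XT.lf (nat_lit 76) (nat_lit 1694840330) (nat_lit 0) (nat_lit 1289952332) (nat_lit 304) (nat_lit 1694840330) (nat_lit 190) (nat_lit 1) (nat_lit 189) (nat_lit 1) (nat_lit 193) (nat_lit 1) (nat_lit 341) (nat_lit 375) (nat_lit 304))))) (XT.nd (nat_lit 234) (nat_lit 380) (nat_lit 0) (XT.nd (nat_lit 78) (nat_lit 228) (nat_lit 0) (XT.lf (nat_lit 304) (nat_lit 2146443192) (nat_lit 0) (nat_lit 1241202815) (nat_lit 228) (nat_lit 1241202815) (nat_lit 190) (nat_lit 1) (nat_lit 186) (nat_lit 1) (nat_lit 189) (nat_lit 1) (nat_lit 342) (nat_lit 375) (nat_lit 303)) (XT.nd (nat_lit 78) (nat_lit 228) (nat_lit 0) (XT.lf (nat_lit 76) (nat_lit 459082304) (nat_lit 0) (nat_lit 3660760206) (nat_lit 304) (nat_lit 459082304)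 (nat_lit 187) (nat_lit 1) (nat_lit 186) (nat_lit 1) (nat_lit 190) (nat_lit 1) (nat_lit 343) (nat_lit 375) (nat_lit 302)) (XT.lf (nat_lit 76) (nat_lit 2112572556) (nat_lit 0) (nat_lit 304174995) (nat_lit 228) (nat_lit 2112572556) (nat_lit 184) (nat_lit 1) (nat_lit 183) (nat_lit 1) (nat_lit 186) (nat_lit 1) (nat_lit 344) (nat_lit 375) (nat_lit 301)))) (XT.nd (nat_lit 78) (nat_lit 152) (nat_lit 0) (XT.lf (nat_lit 304) (nat_lit 2995488316) (nat_lit 0) (nat_lit 742534147) (nat_lit 228) (nat_lit 742534147) (nat_lit 184) (nat_lit 1) (nat_lit 180) (nat_lit 1) (nat_lit 183) (nat_lit 1) (nat_lit 345) (nat_lit 375) (nat_lit 300)) (XT.nd (nat_lit 78) (nat_lit 152) (nat_lit 0) (XT.lf (nat_lit 76) (nat_lit 885994232) (nat_lit 0) (nat_lit 2660361110) (nat_lit 304) (nat_lit 885994232) (nat_lit 181) (nat_lit 1) (nat_lit 180) (nat_lit 1) (nat_lit 184) (nat_lit 1) (nat_lit 346) (nat_lit 375) (nat_lit 299)) (XT.lf (nat_lit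 228) (nat_lit 558042561) (nat_lit 0) (nat_lit 1913372199) (nat_lit 152) (nat_lit 1913372199) (nat_lit 181) (nat_lit 1) (nat_lit 178) (nat_lit 1) (nat_lit 180) (nat_lit 1) (nat_lit 347) (nat_lit 375) (nat_lit 298))))))))
noncomputable def ec83 : XT := (XT.nd (nat_lit 1716) (nat_lit 1368) (nat_lit 0) (XT.nd (nat_lit 858) (nat_lit 1216) (nat_lit 0) (XT.nd (nat_lit 390) (nat_lit 684) (nat_lit 0) (XT.nd (nat_lit 156) (nat_lit 380) (nat_lit 0) (XT.nd (nat_lit 78) (nat_lit 0) (nat_lit 0) (XT.lf (nat_lit 304) (nat_lit 3718152902) (nat_lit 0) (nat_lit 309966459) (nat_lit 228) (nat_lit 309966459) (nat_lit 178) (nat_lit 1) (nat_lit 174) (nat_lit 1) (nat_lit 177) (nat_lit 1) (nat_lit 348) (nat_lit 375) (nat_lit 297)) (XT.lf (nat_lit 76) (nat_lit 1251374547) (nat_lit 0) (nat_lit 1788767342) (nat_lit 304) (nat_lit 1251374547) (nat_lit 175) (nat_lit 1) (nat_lit 174) (nat_lit 1) (nat_lit 178) (nat_lit 1) (nat_lit 349)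 (nat_lit 375) (nat_lit 296))) (XT.nd (nat_lit 78) (nat_lit 228) (nat_lit 0) (XT.lf (nat_lit 228) (nat_lit 1305208461) (nat_lit 0) (nat_lit 1470292097) (nat_lit 152) (nat_lit 1470292097) (nat_lit 175) (nat_lit 1) (nat_lit 172) (nat_lit 1) (nat_lit 174) (nat_lit 1) (nat_lit 350) (nat_lit 375) (nat_lit 295)) (XT.nd (nat_lit 78) (nat_lit 228) (nat_lit 0) (XT.lf (nat_lit 76) (nat_lit 64812398) (nat_lit 0) (nat_lit 4071399445) (nat_lit 228) (nat_lit 64812398) (nat_lit 173) (nat_lit 1) (nat_lit 172) (nat_lit 1) (nat_lit 175) (nat_lit 1) (nat_lit 351) (nat_lit 375) (nat_lit 294)) (XT.lf (nat_lit 76) (nat_lit 1562490413) (nat_lit 0) (nat_lit 1031113075) (nat_lit 228) (nat_lit 1562490413) (nat_lit 170) (nat_lit 1) (nat_lit 169) (nat_lit 1) (nat_lit 172) (nat_lit 1) (nat_lit 352) (nat_lit 375) (nat_lit 293))))) (XT.nd (nat_lit 234) (nat_lit 304) (nat_lit 0) (XT.nd (nat_lit 78) (nat_lit 228) (nat_lit 0) (XT.lf (nat_lit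 228) (nat_lit 1945481078) (nat_lit 0) (nat_lit 1083311873) (nat_lit 152) (nat_lit 1083311873) (nat_lit 170) (nat_lit 1) (nat_lit 167) (nat_lit 1) (nat_lit 169) (nat_lit 1) (nat_lit 353) (nat_lit 375) (nat_lit 292)) (XT.nd (nat_lit 78) (nat_lit 228) (nat_lit 0) (XT.lf (nat_lit 76) (nat_lit 390536751) (nat_lit 0) (nat_lit 3287762448) (nat_lit 228) (nat_lit 390536751) (nat_lit 168) (nat_lit 1) (nat_lit 167) (nat_lit 1) (nat_lit 170) (nat_lit 1) (nat_lit 354) (nat_lit 375) (nat_lit 291)) (XT.lf (nat_lit 76) (nat_lit 1825786802) (nat_lit 0) (nat_lit 374204844) (nat_lit 228) (nat_lit 1825786802) (nat_lit 165) (nat_lit 1) (nat_lit 164) (nat_lit 1) (nat_lit 167) (nat_lit 1) (nat_lit 355) (nat_lit 375) (nat_lit 290)))) (XT.nd (nat_lit 78) (nat_lit 152) (nat_lit 0) (XT.lf (nat_lit 228) (nat_lit 2491467037) (nat_lit 0) (nat_lit 745980790) (nat_lit 152) (nat_lit 745980790) (nat_lit 165) (nat_lit 1) (nat_lit 162)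 (nat_lit 1) (nat_lit 164) (nat_lit 1) (nat_lit 356) (nat_lit 375) (nat_lit 289)) (XT.nd (nat_lit 78) (nat_lit 152) (nat_lit 0) (XT.lf (nat_lit 76) (nat_lit 670240995) (nat_lit 0) (nat_lit 2601111801) (nat_lit 228) (nat_lit 670240995) (nat_lit 163) (nat_lit 1) (nat_lit 162) (nat_lit 1) (nat_lit 165) (nat_lit 1) (nat_lit 357) (nat_lit 375) (nat_lit 288)) (XT.lf (nat_lit 228) (nat_lit 197519684) (nat_lit 0) (nat_lit 1851357510) (nat_lit 152) (nat_lit 1851357510) (nat_lit 163) (nat_lit 1) (nat_lit 160) (nat_lit 1) (nat_lit 162) (nat_lit 1) (nat_lit 358) (nat_lit 375) (nat_lit 287)))))) (XT.nd (nat_lit 390) (nat_lit 608) (nat_lit 0) (XT.nd (nat_lit 156) (nat_lit 380) (nat_lit 0) (XT.nd (nat_lit 78) (nat_lit 0) (nat_lit 0) (XT.lf (nat_lit 228) (nat_lit 2954347160) (nat_lit 0) (nat_lit 452573126) (nat_lit 152) (nat_lit 452573126) (nat_lit 160) (nat_lit 1) (nat_lit 157) (nat_lit 1) (nat_lit 159) (nat_lit 1)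 (nat_lit 359) (nat_lit 375) (nat_lit 286)) (XT.lf (nat_lit 76) (nat_lit 909339424) (nat_lit 0) (nat_lit 2000352641) (nat_lit 228) (nat_lit 909339424) (nat_lit 158) (nat_lit 1) (nat_lit 157) (nat_lit 1) (nat_lit 160) (nat_lit 1) (nat_lit 360) (nat_lit 375) (nat_lit 285))) (XT.nd (nat_lit 78) (nat_lit 228) (nat_lit 0) (XT.lf (nat_lit 228) (nat_lit 696476953) (nat_lit 0) (nat_lit 1541349955) (nat_lit 152) (nat_lit 1541349955) (nat_lit 158) (nat_lit 1) (nat_lit 155) (nat_lit 1) (nat_lit 157) (nat_lit 1) (nat_lit 361) (nat_lit 375) (nat_lit 284)) (XT.nd (nat_lit 78) (nat_lit 0) (nat_lit 0) (XT.lf (nat_lit 228) (nat_lit 3344036049) (nat_lit 0) (nat_lit 198007163) (nat_lit 152) (nat_lit 198007163) (nat_lit 155) (nat_lit 1) (nat_lit 152) (nat_lit 1) (nat_lit 154) (nat_lit 1) (nat_lit 362) (nat_lit 375) (nat_lit 283)) (XT.lf (nat_lit 76) (nat_lit 1112634340) (nat_lit 0) (nat_lit 1475635466) (nat_lit 228) (nat_lit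 1112634340) (nat_lit 153) (nat_lit 1) (nat_lit 152) (nat_lit 1) (nat_lit 155) (nat_lit 1) (nat_lit 363) (nat_lit 375) (nat_lit 282))))) (XT.nd (nat_lit 234) (nat_lit 304) (nat_lit 0) (XT.nd (nat_lit 78) (nat_lit 152) (nat_lit 0) (XT.lf (nat_lit 228) (nat_lit 1124619754) (nat_lit 0) (nat_lit 1268928487) (nat_lit 152) (nat_lit 1268928487) (nat_lit 153) (nat_lit 1) (nat_lit 150) (nat_lit 1) (nat_lit 152) (nat_lit 1) (nat_lit 364) (nat_lit 375) (nat_lit 281)) (XT.nd (nat_lit 78) (nat_lit 152) (nat_lit 0) (XT.lf (nat_lit 76) (nat_lit 22446857) (nat_lit 0) (nat_lit 3579950527) (nat_lit 228) (nat_lit 22446857) (nat_lit 151) (nat_lit 1) (nat_lit 150) (nat_lit 1) (nat_lit 153) (nat_lit 1) (nat_lit 365) (nat_lit 375) (nat_lit 280)) (XT.lf (nat_lit 76) (nat_lit 1284384539) (nat_lit 0) (nat_lit 1018217032) (nat_lit 152) (nat_lit 1284384539) (nat_lit 149) (nat_lit 1) (nat_lit 148) (nat_lit 1) (nat_lit 150) (nat_lit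 1) (nat_lit 366) (nat_lit 375) (nat_lit 279)))) (XT.nd (nat_lit 78) (nat_lit 152) (nat_lit 0) (XT.lf (nat_lit 228) (nat_lit 1490286786) (nat_lit 0) (nat_lit 1029813920) (nat_lit 152) (nat_lit 1029813920) (nat_lit 149) (nat_lit 1) (nat_lit 146) (nat_lit 1) (nat_lit 148) (nat_lit 1) (nat_lit 367) (nat_lit 375) (nat_lit 278)) (XT.nd (nat_lit 78) (nat_lit 152) (nat_lit 0) (XT.lf (nat_lit 76) (nat_lit 214230641) (nat_lit 0) (nat_lit 3085031843) (nat_lit 228) (nat_lit 214230641) (nat_lit 147) (nat_lit 1) (nat_lit 146) (nat_lit 1) (nat_lit 149) (nat_lit 1) (nat_lit 368) (nat_lit 375) (nat_lit 277)) (XT.lf (nat_lit 76) (nat_lit 1428366153) (nat_lit 0) (nat_lit 620336754) (nat_lit 152) (nat_lit 1428366153) (nat_lit 145) (nat_lit 1) (nat_lit 144) (nat_lit 1) (nat_lit 146) (nat_lit 1) (nat_lit 369) (nat_lit 375) (nat_lit 276))))))) (XT.nd (nat_lit 858) (nat_lit 304) (nat_lit 0) (XT.nd (nat_lit 390) (nat_lit 608)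 (nat_lit 0) (XT.nd (nat_lit 156) (nat_lit 304) (nat_lit 0) (XT.nd (nat_lit 78) (nat_lit 0) (nat_lit 0) (XT.lf (nat_lit 228) (nat_lit 1800874002) (nat_lit 0) (nat_lit 820206809) (nat_lit 152) (nat_lit 820206809) (nat_lit 145) (nat_lit 1) (nat_lit 142) (nat_lit 1) (nat_lit 144) (nat_lit 1) (nat_lit 370) (nat_lit 375) (nat_lit 275)) (XT.lf (nat_lit 76) (nat_lit 378969208) (nat_lit 0) (nat_lit 2648090609) (nat_lit 228) (nat_lit 378969208) (nat_lit 143) (nat_lit 1) (nat_lit 142) (nat_lit 1) (nat_lit 145) (nat_lit 1) (nat_lit 371) (nat_lit 375) (nat_lit 274))) (XT.nd (nat_lit 78) (nat_lit 152) (nat_lit 0) (XT.lf (nat_lit 76) (nat_lit 1547926696) (nat_lit 0) (nat_lit 275106909) (nat_lit 152) (nat_lit 1547926696) (nat_lit 141) (nat_lit 1) (nat_lit 140) (nat_lit 1) (nat_lit 142) (nat_lit 1) (nat_lit 372) (nat_lit 375) (nat_lit 273)) (XT.nd (nat_lit 78) (nat_lit 0) (nat_lit 0) (XT.lf (nat_lit 228) (nat_lit 2062940115)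 (nat_lit 0) (nat_lit 636733883) (nat_lit 152) (nat_lit 636733883) (nat_lit 141) (nat_lit 1) (nat_lit 138) (nat_lit 1) (nat_lit 140) (nat_lit 1) (nat_lit 373) (nat_lit 375) (nat_lit 272)) (XT.lf (nat_lit 76) (nat_lit 519843270) (nat_lit 0) (nat_lit 2262580396) (nat_lit 228) (nat_lit 519843270) (nat_lit 139) (nat_lit 1) (nat_lit 138) (nat_lit 1) (nat_lit 141) (nat_lit 1) (nat_lit 374) (nat_lit 375) (nat_lit 271))))) (XT.nd (nat_lit 234) (nat_lit 304) (nat_lit 0) (XT.nd (nat_lit 78) (nat_lit 228) (nat_lit 0) (XT.lf (nat_lit 152) (nat_lit 24054308) (nat_lit 0) (nat_lit 1622209999) (nat_lit 76) (nat_lit 1622209999) (nat_lit 139) (nat_lit 1) (nat_lit 137) (nat_lit 1) (nat_lit 138) (nat_lit 1) (nat_lit 375) (nat_lit 375) (nat_lit 270)) (XT.nd (nat_lit 78) (nat_lit 0) (nat_lit 0) (XT.lf (nat_lit 228) (nat_lit 2282300320) (nat_lit 0) (nat_lit 476400446) (nat_lit 152) (nat_lit 476400446) (nat_lit 137) (nat_lit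 1) (nat_lit 134) (nat_lit 1) (nat_lit 136) (nat_lit 1) (nat_lit 376) (nat_lit 375) (nat_lit 269)) (XT.lf (nat_lit 76) (nat_lit 639674048) (nat_lit 0) (nat_lit 1922687152) (nat_lit 228) (nat_lit 639674048) (nat_lit 135) (nat_lit 1) (nat_lit 134) (nat_lit 1) (nat_lit 137) (nat_lit 1) (nat_lit 377) (nat_lit 375) (nat_lit 268)))) (XT.nd (nat_lit 78) (nat_lit 228) (nat_lit 0) (XT.lf (nat_lit 152) (nat_lit 286758201) (nat_lit 0) (nat_lit 1441312573) (nat_lit 76) (nat_lit 1441312573) (nat_lit 135) (nat_lit 1) (nat_lit 133) (nat_lit 1) (nat_lit 134) (nat_lit 1) (nat_lit 378) (nat_lit 375) (nat_lit 267)) (XT.nd (nat_lit 78) (nat_lit 0) (nat_lit 0) (XT.lf (nat_lit 228) (nat_lit 2464109562) (nat_lit 0) (nat_lit 336548090) (nat_lit 152) (nat_lit 336548090) (nat_lit 133) (nat_lit 1) (nat_lit 130) (nat_lit 1) (nat_lit 132) (nat_lit 1) (nat_lit 379) (nat_lit 375) (nat_lit 266)) (XT.lf (nat_lit 76) (nat_lit 740963501)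 (nat_lit 0) (nat_lit 1623247462) (nat_lit 228) (nat_lit 740963501) (nat_lit 131) (nat_lit 1) (nat_lit 130) (nat_lit 1) (nat_lit 133) (nat_lit 1) (nat_lit 380) (nat_lit 375) (nat_lit 265)))))) (XT.nd (nat_lit 44616) (nat_lit 0) (nat_lit 19000) (XT.nd (nat_lit 44382) (nat_lit 0) (nat_lit 18848) (XT.nd (nat_lit 78) (nat_lit 228) (nat_lit 0) (XT.lf (nat_lit 152) (nat_lit 512437511) (nat_lit 0) (nat_lit 1280587553) (nat_lit 76) (nat_lit 1280587553) (nat_lit 131) (nat_lit 1) (nat_lit 129) (nat_lit 1) (nat_lit 130) (nat_lit 1) (nat_lit 381) (nat_lit 375) (nat_lit 264)) (XT.nd (nat_lit 44226) (nat_lit 0) (nat_lit 18848) (XT.lf (nat_lit 228) (nat_lit 2612936506) (nat_lit 0) (nat_lit 214817127) (nat_lit 152) (nat_lit 214817127) (nat_lit 129) (nat_lit 1) (nat_lit 126) (nat_lit 1) (nat_lit 128) (nat_lit 1) (nat_lit 382) (nat_lit 375) (nat_lit 263)) (XT.lf (nat_lit 1292) (nat_lit 1080947911) (nat_lit 0) (nat_lit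 3718963530) (nat_lit 1292) (nat_lit 1080947911) (nat_lit 391) (nat_lit 1) (nat_lit 374) (nat_lit 0) (nat_lit 391) (nat_lit 0) (nat_lit 268) (nat_lit 376) (nat_lit 376)))) (XT.nd (nat_lit 78) (nat_lit 0) (nat_lit 76) (XT.lf (nat_lit 1292) (nat_lit 4224363379) (nat_lit 76) (nat_lit 3682503104) (nat_lit 0) (nat_lit 3682503104) (nat_lit 391) (nat_lit 1) (nat_lit 375) (nat_lit 1) (nat_lit 374) (nat_lit 0) (nat_lit 269) (nat_lit 376) (nat_lit 375)) (XT.nd (nat_lit 78) (nat_lit 0) (nat_lit 0) (XT.lf (nat_lit 1292) (nat_lit 2043002851) (nat_lit 0) (nat_lit 7334816428) (nat_lit 1216) (nat_lit 2043002851) (nat_lit 392) (nat_lit 1) (nat_lit 375) (nat_lit 1) (nat_lit 391) (nat_lit 1) (nat_lit 270) (nat_lit 376) (nat_lit 374)) (XT.lf (nat_lit 1292) (nat_lit 3879767895) (nat_lit 76) (nat_lit 3687660730) (nat_lit 0) (nat_lit 3687660730) (nat_lit 392) (nat_lit 1) (nat_lit 376) (nat_lit 1) (nat_lit 375) (nat_lit 1) (nat_lit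 271) (nat_lit 376) (nat_lit 373))))) (XT.nd (nat_lit 234) (nat_lit 0) (nat_lit 76) (XT.nd (nat_lit 78) (nat_lit 0) (nat_lit 0) (XT.lf (nat_lit 1292) (nat_lit 1820561735) (nat_lit 0) (nat_lit 7451941439) (nat_lit 1216) (nat_lit 1820561735) (nat_lit 393) (nat_lit 1) (nat_lit 376) (nat_lit 1) (nat_lit 392) (nat_lit 1) (nat_lit 272) (nat_lit 376) (nat_lit 372)) (XT.nd (nat_lit 78) (nat_lit 0) (nat_lit 76) (XT.lf (nat_lit 1292) (nat_lit 3336371605) (nat_lit 76) (nat_lit 3798630053) (nat_lit 0) (nat_lit 3798630053) (nat_lit 393) (nat_lit 1) (nat_lit 377) (nat_lit 1) (nat_lit 376) (nat_lit 1) (nat_lit 273) (nat_lit 376) (nat_lit 371)) (XT.lf (nat_lit 1292) (nat_lit 1503731313) (nat_lit 0) (nat_lit 7770417436) (nat_lit 1216) (nat_lit 1503731313) (nat_lit 394) (nat_lit 1) (nat_lit 377) (nat_lit 1) (nat_lit 393) (nat_lit 1) (nat_lit 274) (nat_lit 376) (nat_lit 370)))) (XT.nd (nat_lit 78) (nat_lit 0) (nat_lit 76)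 (XT.lf (nat_lit 1292) (nat_lit 2611952957) (nat_lit 76) (nat_lit 4006246530) (nat_lit 0) (nat_lit 4006246530) (nat_lit 394) (nat_lit 1) (nat_lit 378) (nat_lit 1) (nat_lit 377) (nat_lit 1) (nat_lit 275) (nat_lit 376) (nat_lit 369)) (XT.nd (nat_lit 78) (nat_lit 0) (nat_lit 0) (XT.lf (nat_lit 1292) (nat_lit 1101051033) (nat_lit 0) (nat_lit 8272625628) (nat_lit 1216) (nat_lit 1101051033) (nat_lit 395) (nat_lit 1) (nat_lit 378) (nat_lit 1) (nat_lit 394) (nat_lit 1) (nat_lit 276) (nat_lit 376) (nat_lit 368)) (XT.lf (nat_lit 1292) (nat_lit 1723084407) (nat_lit 76) (nat_lit 4301961717) (nat_lit 0) (nat_lit 4301961717) (nat_lit 395) (nat_lit 1) (nat_lit 379) (nat_lit 1) (nat_lit 378) (nat_lit 1) (nat_lit 277) (nat_lit 376) (nat_lit 367))))))))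
noncomputable def ec84 : XT := (XT.nd (nat_lit 1716) (nat_lit 5396) (nat_lit 0) (XT.nd (nat_lit 858) (nat_lit 3344) (nat_lit 0) (XT.nd (nat_lit 390) (nat_lit 1292) (nat_lit 0) (XT.nd (nat_lit 156) (nat_lit 1216) (nat_lit 0) (XT.nd (nat_lit 78) (nat_lit 0) (nat_lit 0) (XT.lf (nat_lit 1292) (nat_lit 620479238) (nat_lit 0) (nat_lit 8942135131) (nat_lit 1216) (nat_lit 620479238) (nat_lit 396) (nat_lit 1) (nat_lit 379) (nat_lit 1) (nat_lit 395) (nat_lit 1) (nat_lit 278) (nat_lit 376) (nat_lit 366)) (XT.lf (nat_lit 1292) (nat_lit 685207059) (nat_lit 76) (nat_lit 4677805278) (nat_lit 0) (nat_lit 4677805278) (nat_lit 396) (nat_lit 1) (nat_lit 380) (nat_lit 1) (nat_lit 379) (nat_lit 1) (nat_lit 279) (nat_lit 376) (nat_lit 365))) (XT.nd (nat_lit 78) (nat_lit 1292) (nat_lit 0) (XT.lf (nat_lit 1292) (nat_lit 69429173) (nat_lit 0) (nat_lit 9763629638) (nat_lit 1216) (nat_lit 69429173) (nat_lit 397) (nat_lit 1) (nat_lit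 380) (nat_lit 1) (nat_lit 396) (nat_lit 1) (nat_lit 280) (nat_lit 376) (nat_lit 364)) (XT.nd (nat_lit 78) (nat_lit 0) (nat_lit 0) (XT.lf (nat_lit 1368) (nat_lit 4643734318) (nat_lit 0) (nat_lit 477790193) (nat_lit 1292) (nat_lit 4643734318) (nat_lit 381) (nat_lit 1) (nat_lit 363) (nat_lit 1) (nat_lit 380) (nat_lit 1) (nat_lit 281) (nat_lit 376) (nat_lit 363)) (XT.lf (nat_lit 1368) (nat_lit 8552107885) (nat_lit 76) (nat_lit 539852087) (nat_lit 0) (nat_lit 539852087) (nat_lit 381) (nat_lit 1) (nat_lit 364) (nat_lit 1) (nat_lit 363) (nat_lit 1) (nat_lit 282) (nat_lit 376) (nat_lit 362))))) (XT.nd (nat_lit 234) (nat_lit 1368) (nat_lit 0) (XT.nd (nat_lit 78) (nat_lit 0) (nat_lit 0) (XT.lf (nat_lit 1368) (nat_lit 3876745536) (nat_lit 0) (nat_lit 1746294775) (nat_lit 1292) (nat_lit 3876745536) (nat_lit 382) (nat_lit 1) (nat_lit 364) (nat_lit 1) (nat_lit 381) (nat_lit 1) (nat_lit 283) (nat_lit 376) (nat_lit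 361)) (XT.nd (nat_lit 78) (nat_lit 0) (nat_lit 76) (XT.lf (nat_lit 1368) (nat_lit 6961014406) (nat_lit 76) (nat_lit 1205045997) (nat_lit 0) (nat_lit 1205045997) (nat_lit 382) (nat_lit 1) (nat_lit 365) (nat_lit 1) (nat_lit 364) (nat_lit 1) (nat_lit 284) (nat_lit 376) (nat_lit 360)) (XT.lf (nat_lit 76) (nat_lit 3061349324) (nat_lit 0) (nat_lit 3121468845) (nat_lit 1292) (nat_lit 3061349324) (nat_lit 366) (nat_lit 1) (nat_lit 365) (nat_lit 1) (nat_lit 382) (nat_lit 1) (nat_lit 285) (nat_lit 376) (nat_lit 359)))) (XT.nd (nat_lit 78) (nat_lit 608) (nat_lit 0) (XT.lf (nat_lit 912) (nat_lit 5278197221) (nat_lit 0) (nat_lit 1920918638) (nat_lit 836) (nat_lit 1920918638) (nat_lit 366) (nat_lit 1) (nat_lit 354) (nat_lit 1) (nat_lit 365) (nat_lit 1) (nat_lit 286) (nat_lit 376) (nat_lit 358)) (XT.nd (nat_lit 78) (nat_lit 608) (nat_lit 0) (XT.lf (nat_lit 76) (nat_lit 2203016771) (nat_lit 0) (nat_lit 4591961365) (nat_lit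 912) (nat_lit 2203016771) (nat_lit 355) (nat_lit 1) (nat_lit 354) (nat_lit 1) (nat_lit 366) (nat_lit 1) (nat_lit 287) (nat_lit 376) (nat_lit 357)) (XT.lf (nat_lit 684) (nat_lit 3514253462) (nat_lit 0) (nat_lit 2681972584) (nat_lit 608) (nat_lit 2681972584) (nat_lit 355) (nat_lit 1) (nat_lit 346) (nat_lit 1) (nat_lit 354) (nat_lit 1) (nat_lit 288) (nat_lit 376) (nat_lit 356)))))) (XT.nd (nat_lit 390) (nat_lit 1520) (nat_lit 0) (XT.nd (nat_lit 156) (nat_lit 1216) (nat_lit 0) (XT.nd (nat_lit 78) (nat_lit 608) (nat_lit 0) (XT.lf (nat_lit 76) (nat_lit 1306826484) (nat_lit 0) (nat_lit 6147225160) (nat_lit 684) (nat_lit 1306826484) (nat_lit 347) (nat_lit 1) (nat_lit 346) (nat_lit 1) (nat_lit 355) (nat_lit 1) (nat_lit 289) (nat_lit 376) (nat_lit 355)) (XT.lf (nat_lit 684) (nat_lit 1679016645) (nat_lit 0) (nat_lit 3483101369) (nat_lit 608) (nat_lit 3483101369) (nat_lit 347) (nat_lit 1) (nat_lit 338) (nat_lit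 1) (nat_lit 346) (nat_lit 1) (nat_lit 290) (nat_lit 376) (nat_lit 354))) (XT.nd (nat_lit 78) (nat_lit 1216) (nat_lit 0) (XT.lf (nat_lit 76) (nat_lit 377489405) (nat_lit 0) (nat_lit 7777466335) (nat_lit 684) (nat_lit 377489405) (nat_lit 339) (nat_lit 1) (nat_lit 338) (nat_lit 1) (nat_lit 347) (nat_lit 1) (nat_lit 291) (nat_lit 376) (nat_lit 353)) (XT.nd (nat_lit 78) (nat_lit 608) (nat_lit 0) (XT.lf (nat_lit 76) (nat_lit 4103269228) (nat_lit 0) (nat_lit 214133296) (nat_lit 608) (nat_lit 4103269228) (nat_lit 331) (nat_lit 1) (nat_lit 330) (nat_lit 1) (nat_lit 338) (nat_lit 1) (nat_lit 292) (nat_lit 376) (nat_lit 352)) (XT.lf (nat_lit 684) (nat_lit 7161796987) (nat_lit 0) (nat_lit 574935435) (nat_lit 608) (nat_lit 574935435) (nat_lit 331) (nat_lit 1) (nat_lit 322) (nat_lit 1) (nat_lit 330) (nat_lit 1) (nat_lit 293) (nat_lit 376) (nat_lit 351))))) (XT.nd (nat_lit 234) (nat_lit 988) (nat_lit 0) (XT.nd (nat_lit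 78) (nat_lit 532) (nat_lit 0) (XT.lf (nat_lit 76) (nat_lit 3038287999) (nat_lit 0) (nat_lit 2127197525) (nat_lit 684) (nat_lit 3038287999) (nat_lit 323) (nat_lit 1) (nat_lit 322) (nat_lit 1) (nat_lit 331) (nat_lit 1) (nat_lit 294) (nat_lit 376) (nat_lit 350)) (XT.nd (nat_lit 78) (nat_lit 0) (nat_lit 0) (XT.lf (nat_lit 608) (nat_lit 5002108512) (nat_lit 0) (nat_lit 1548152904) (nat_lit 532) (nat_lit 1548152904) (nat_lit 323) (nat_lit 1) (nat_lit 315) (nat_lit 1) (nat_lit 322) (nat_lit 1) (nat_lit 295) (nat_lit 376) (nat_lit 349)) (XT.lf (nat_lit 76) (nat_lit 1954705184) (nat_lit 0) (nat_lit 4085270966) (nat_lit 608) (nat_lit 1954705184) (nat_lit 316) (nat_lit 1) (nat_lit 315) (nat_lit 1) (nat_lit 323) (nat_lit 1) (nat_lit 296) (nat_lit 376) (nat_lit 348)))) (XT.nd (nat_lit 78) (nat_lit 456) (nat_lit 0) (XT.lf (nat_lit 608) (nat_lit 2808486707) (nat_lit 0) (nat_lit 2542158217) (nat_lit 532) (nat_lit 2542158217)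 (nat_lit 316) (nat_lit 1) (nat_lit 308) (nat_lit 1) (nat_lit 315) (nat_lit 1) (nat_lit 297) (nat_lit 376) (nat_lit 347)) (XT.nd (nat_lit 78) (nat_lit 456) (nat_lit 0) (XT.lf (nat_lit 76) (nat_lit 855910992) (nat_lit 0) (nat_lit 6081260384) (nat_lit 608) (nat_lit 855910992) (nat_lit 309) (nat_lit 1) (nat_lit 308) (nat_lit 1) (nat_lit 316) (nat_lit 1) (nat_lit 298) (nat_lit 376) (nat_lit 346)) (XT.lf (nat_lit 532) (nat_lit 587478754) (nat_lit 0) (nat_lit 3553525410) (nat_lit 456) (nat_lit 3553525410) (nat_lit 309) (nat_lit 1) (nat_lit 302) (nat_lit 1) (nat_lit 308) (nat_lit 1) (nat_lit 299) (nat_lit 376) (nat_lit 345))))))) (XT.nd (nat_lit 858) (nat_lit 2584) (nat_lit 0) (XT.nd (nat_lit 390) (nat_lit 1292) (nat_lit 0) (XT.nd (nat_lit 156) (nat_lit 912) (nat_lit 0) (XT.nd (nat_lit 78) (nat_lit 0) (nat_lit 0) (XT.lf (nat_lit 608) (nat_lit 7093448348) (nat_lit 0) (nat_lit 252466945) (nat_lit 532) (nat_lit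 252466945) (nat_lit 302) (nat_lit 1) (nat_lit 294) (nat_lit 1) (nat_lit 301) (nat_lit 1) (nat_lit 300) (nat_lit 376) (nat_lit 344)) (XT.lf (nat_lit 76) (nat_lit 2940119952) (nat_lit 0) (nat_lit 1622585329) (nat_lit 608) (nat_lit 2940119952) (nat_lit 295) (nat_lit 1) (nat_lit 294) (nat_lit 1) (nat_lit 302) (nat_lit 1) (nat_lit 301) (nat_lit 376) (nat_lit 343))) (XT.nd (nat_lit 78) (nat_lit 456) (nat_lit 0) (XT.lf (nat_lit 532) (nat_lit 4686459931) (nat_lit 0) (nat_lit 1361564090) (nat_lit 456) (nat_lit 1361564090) (nat_lit 295) (nat_lit 1) (nat_lit 288) (nat_lit 1) (nat_lit 294) (nat_lit 1) (nat_lit 302) (nat_lit 376) (nat_lit 342)) (XT.nd (nat_lit 78) (nat_lit 456) (nat_lit 0) (XT.lf (nat_lit 76) (nat_lit 1740524827) (nat_lit 0) (nat_lit 3836665507) (nat_lit 532) (nat_lit 1740524827) (nat_lit 289) (nat_lit 1) (nat_lit 288) (nat_lit 1) (nat_lit 295) (nat_lit 1) (nat_lit 303) (nat_lit 376) (nat_lit 341))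 (XT.lf (nat_lit 532) (nat_lit 2273134047) (nat_lit 0) (nat_lit 2477144255) (nat_lit 456) (nat_lit 2477144255) (nat_lit 289) (nat_lit 1) (nat_lit 282) (nat_lit 1) (nat_lit 288) (nat_lit 1) (nat_lit 304) (nat_lit 376) (nat_lit 340))))) (XT.nd (nat_lit 234) (nat_lit 380) (nat_lit 0) (XT.nd (nat_lit 78) (nat_lit 912) (nat_lit 0) (XT.lf (nat_lit 76) (nat_lit 538947085) (nat_lit 0) (nat_lit 6061210142) (nat_lit 532) (nat_lit 538947085) (nat_lit 283) (nat_lit 1) (nat_lit 282) (nat_lit 1) (nat_lit 289) (nat_lit 1) (nat_lit 305) (nat_lit 376) (nat_lit 339)) (XT.nd (nat_lit 78) (nat_lit 456) (nat_lit 0) (XT.lf (nat_lit 76) (nat_lit 3456200140) (nat_lit 0) (nat_lit 139186440) (nat_lit 456) (nat_lit 3456200140) (nat_lit 277) (nat_lit 1) (nat_lit 276) (nat_lit 1) (nat_lit 282) (nat_lit 1) (nat_lit 306) (nat_lit 376) (nat_lit 338)) (XT.lf (nat_lit 532) (nat_lit 5654088684) (nat_lit 0) (nat_lit 655941566) (nat_lit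 456) (nat_lit 655941566) (nat_lit 277) (nat_lit 1) (nat_lit 270) (nat_lit 1) (nat_lit 276) (nat_lit 1) (nat_lit 307) (nat_lit 376) (nat_lit 337)))) (XT.nd (nat_lit 78) (nat_lit 380) (nat_lit 0) (XT.lf (nat_lit 76) (nat_lit 2188222931) (nat_lit 0) (nat_lit 2504774171) (nat_lit 532) (nat_lit 2188222931) (nat_lit 271) (nat_lit 1) (nat_lit 270) (nat_lit 1) (nat_lit 277) (nat_lit 1) (nat_lit 308) (nat_lit 376) (nat_lit 336)) (XT.nd (nat_lit 78) (nat_lit 0) (nat_lit 0) (XT.lf (nat_lit 456) (nat_lit 3111459331) (nat_lit 0) (nat_lit 1843381089) (nat_lit 380) (nat_lit 1843381089) (nat_lit 271) (nat_lit 1) (nat_lit 265) (nat_lit 1) (nat_lit 270) (nat_lit 1) (nat_lit 309) (nat_lit 376) (nat_lit 335)) (XT.lf (nat_lit 76) (nat_lit 926255269) (nat_lit 0) (nat_lit 4864232602) (nat_lit 456) (nat_lit 926255269) (nat_lit 266) (nat_lit 1) (nat_lit 265) (nat_lit 1) (nat_lit 271) (nat_lit 1) (nat_lit 310) (nat_lit 376) (nat_lit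 334)))))) (XT.nd (nat_lit 390) (nat_lit 1368) (nat_lit 0) (XT.nd (nat_lit 156) (nat_lit 380) (nat_lit 0) (XT.nd (nat_lit 78) (nat_lit 456) (nat_lit 0) (XT.lf (nat_lit 456) (nat_lit 582541603) (nat_lit 0) (nat_lit 3026853668) (nat_lit 380) (nat_lit 3026853668) (nat_lit 266) (nat_lit 1) (nat_lit 260) (nat_lit 1) (nat_lit 265) (nat_lit 1) (nat_lit 311) (nat_lit 376) (nat_lit 333)) (XT.lf (nat_lit 456) (nat_lit 5907778563) (nat_lit 0) (nat_lit 324886147) (nat_lit 380) (nat_lit 324886147) (nat_lit 260) (nat_lit 1) (nat_lit 254) (nat_lit 1) (nat_lit 259) (nat_lit 1) (nat_lit 312) (nat_lit 376) (nat_lit 332))) (XT.nd (nat_lit 78) (nat_lit 380) (nat_lit 0) (XT.lf (nat_lit 76) (nat_lit 2293665916) (nat_lit 0) (nat_lit 1891946344) (nat_lit 456) (nat_lit 2293665916) (nat_lit 255) (nat_lit 1) (nat_lit 254) (nat_lit 1) (nat_lit 260) (nat_lit 1) (nat_lit 313) (nat_lit 376) (nat_lit 331)) (XT.nd (nat_lit 78) (nat_lit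 0) (nat_lit 0) (XT.lf (nat_lit 456) (nat_lit 3286796222) (nat_lit 0) (nat_lit 1557974406) (nat_lit 380) (nat_lit 1557974406) (nat_lit 255) (nat_lit 1) (nat_lit 249) (nat_lit 1) (nat_lit 254) (nat_lit 1) (nat_lit 314) (nat_lit 376) (nat_lit 330)) (XT.lf (nat_lit 76) (nat_lit 995798876) (nat_lit 0) (nat_lit 4335895421) (nat_lit 456) (nat_lit 995798876) (nat_lit 250) (nat_lit 1) (nat_lit 249) (nat_lit 1) (nat_lit 255) (nat_lit 1) (nat_lit 315) (nat_lit 376) (nat_lit 329))))) (XT.nd (nat_lit 234) (nat_lit 608) (nat_lit 0) (XT.nd (nat_lit 78) (nat_lit 456) (nat_lit 0) (XT.lf (nat_lit 380) (nat_lit 691614732) (nat_lit 0) (nat_lit 2780790131) (nat_lit 304) (nat_lit 2780790131) (nat_lit 250) (nat_lit 1) (nat_lit 245) (nat_lit 1) (nat_lit 249) (nat_lit 1) (nat_lit 316) (nat_lit 376) (nat_lit 328)) (XT.nd (nat_lit 78) (nat_lit 0) (nat_lit 0) (XT.lf (nat_lit 456) (nat_lit 5608834661) (nat_lit 0) (nat_lit 285846029)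 (nat_lit 380) (nat_lit 285846029) (nat_lit 245) (nat_lit 1) (nat_lit 239) (nat_lit 1) (nat_lit 244) (nat_lit 1) (nat_lit 317) (nat_lit 376) (nat_lit 327)) (XT.lf (nat_lit 76) (nat_lit 2134573823) (nat_lit 0) (nat_lit 1839016245) (nat_lit 456) (nat_lit 2134573823) (nat_lit 240) (nat_lit 1) (nat_lit 239) (nat_lit 1) (nat_lit 245) (nat_lit 1) (nat_lit 318) (nat_lit 376) (nat_lit 326)))) (XT.nd (nat_lit 78) (nat_lit 304) (nat_lit 0) (XT.lf (nat_lit 380) (nat_lit 2950451072) (nat_lit 0) (nat_lit 1543466257) (nat_lit 304) (nat_lit 1543466257) (nat_lit 240) (nat_lit 1) (nat_lit 235) (nat_lit 1) (nat_lit 239) (nat_lit 1) (nat_lit 319) (nat_lit 376) (nat_lit 325)) (XT.nd (nat_lit 78) (nat_lit 304) (nat_lit 0) (XT.lf (nat_lit 76) (nat_lit 820475374) (nat_lit 0) (nat_lit 4326863249) (nat_lit 380) (nat_lit 820475374) (nat_lit 236) (nat_lit 1) (nat_lit 235) (nat_lit 1) (nat_lit 240) (nat_lit 1) (nat_lit 320) (nat_lit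 376) (nat_lit 324)) (XT.lf (nat_lit 380) (nat_lit 327170982) (nat_lit 0) (nat_lit 2785932092) (nat_lit 304) (nat_lit 2785932092) (nat_lit 236) (nat_lit 1) (nat_lit 231) (nat_lit 1) (nat_lit 235) (nat_lit 1) (nat_lit 321) (nat_lit 376) (nat_lit 323))))))))
noncomputable def ec85 : XT := (XT.nd (nat_lit 1716) (nat_lit 2584) (nat_lit 0) (XT.nd (nat_lit 858) (nat_lit 1748) (nat_lit 0) (XT.nd (nat_lit 390) (nat_lit 1140) (nat_lit 0) (XT.nd (nat_lit 156) (nat_lit 608) (nat_lit 0) (XT.nd (nat_lit 78) (nat_lit 0) (nat_lit 0) (XT.lf (nat_lit 380) (nat_lit 4889360224) (nat_lit 0) (nat_lit 471126713) (nat_lit 304) (nat_lit 471126713) (nat_lit 231) (nat_lit 1) (nat_lit 226) (nat_lit 1) (nat_lit 230) (nat_lit 1) (nat_lit 322) (nat_lit 376) (nat_lit 322)) (XT.lf (nat_lit 76) (nat_lit 1774574391) (nat_lit 0) (nat_lit 2215505498) (nat_lit 380) (nat_lit 1774574391) (nat_lit 227) (nat_lit 1) (nat_lit 226) (nat_lit 1)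 (nat_lit 231) (nat_lit 1) (nat_lit 323) (nat_lit 376) (nat_lit 321))) (XT.nd (nat_lit 78) (nat_lit 304) (nat_lit 0) (XT.lf (nat_lit 380) (nat_lit 2226251986) (nat_lit 0) (nat_lit 1736380280) (nat_lit 304) (nat_lit 1736380280) (nat_lit 227) (nat_lit 1) (nat_lit 222) (nat_lit 1) (nat_lit 226) (nat_lit 1) (nat_lit 324) (nat_lit 376) (nat_lit 320)) (XT.nd (nat_lit 78) (nat_lit 304) (nat_lit 0) (XT.lf (nat_lit 76) (nat_lit 459922032) (nat_lit 0) (nat_lit 4714796638) (nat_lit 380) (nat_lit 459922032) (nat_lit 223) (nat_lit 1) (nat_lit 222) (nat_lit 1) (nat_lit 227) (nat_lit 1) (nat_lit 325) (nat_lit 376) (nat_lit 319)) (XT.lf (nat_lit 76) (nat_lit 2591824856) (nat_lit 0) (nat_lit 387033904) (nat_lit 304) (nat_lit 2591824856) (nat_lit 219) (nat_lit 1) (nat_lit 218) (nat_lit 1) (nat_lit 222) (nat_lit 1) (nat_lit 326) (nat_lit 376) (nat_lit 318))))) (XT.nd (nat_lit 234) (nat_lit 608) (nat_lit 0) (XT.nd (nat_lit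 78) (nat_lit 228) (nat_lit 0) (XT.lf (nat_lit 380) (nat_lit 3857185186) (nat_lit 0) (nat_lit 825387990) (nat_lit 304) (nat_lit 825387990) (nat_lit 219) (nat_lit 1) (nat_lit 214) (nat_lit 1) (nat_lit 218) (nat_lit 1) (nat_lit 327) (nat_lit 376) (nat_lit 317)) (XT.nd (nat_lit 78) (nat_lit 228) (nat_lit 0) (XT.lf (nat_lit 76) (nat_lit 1265582798) (nat_lit 0) (nat_lit 2914787660) (nat_lit 380) (nat_lit 1265582798) (nat_lit 215) (nat_lit 1) (nat_lit 214) (nat_lit 1) (nat_lit 219) (nat_lit 1) (nat_lit 328) (nat_lit 376) (nat_lit 316)) (XT.lf (nat_lit 304) (nat_lit 1215191586) (nat_lit 0) (nat_lit 2084863747) (nat_lit 228) (nat_lit 2084863747) (nat_lit 215) (nat_lit 1) (nat_lit 211) (nat_lit 1) (nat_lit 214) (nat_lit 1) (nat_lit 329) (nat_lit 376) (nat_lit 315)))) (XT.nd (nat_lit 78) (nat_lit 228) (nat_lit 0) (XT.lf (nat_lit 380) (nat_lit 5251514546) (nat_lit 0) (nat_lit 36877220) (nat_lit 304) (nat_lit 36877220)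 (nat_lit 211) (nat_lit 1) (nat_lit 206) (nat_lit 1) (nat_lit 210) (nat_lit 1) (nat_lit 330) (nat_lit 376) (nat_lit 314)) (XT.nd (nat_lit 78) (nat_lit 228) (nat_lit 0) (XT.lf (nat_lit 76) (nat_lit 1956442302) (nat_lit 0) (nat_lit 1352617020) (nat_lit 380) (nat_lit 1956442302) (nat_lit 207) (nat_lit 1) (nat_lit 206) (nat_lit 1) (nat_lit 211) (nat_lit 1) (nat_lit 331) (nat_lit 376) (nat_lit 313)) (XT.lf (nat_lit 304) (nat_lit 2599982933) (nat_lit 0) (nat_lit 1303552942) (nat_lit 228) (nat_lit 1303552942) (nat_lit 207) (nat_lit 1) (nat_lit 203) (nat_lit 1) (nat_lit 206) (nat_lit 1) (nat_lit 332) (nat_lit 376) (nat_lit 312)))))) (XT.nd (nat_lit 390) (nat_lit 988) (nat_lit 0) (XT.nd (nat_lit 156) (nat_lit 456) (nat_lit 0) (XT.nd (nat_lit 78) (nat_lit 304) (nat_lit 0) (XT.lf (nat_lit 76) (nat_lit 649789355) (nat_lit 0) (nat_lit 3850048864) (nat_lit 304) (nat_lit 649789355) (nat_lit 204) (nat_lit 1) (nat_lit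 203) (nat_lit 1) (nat_lit 207) (nat_lit 1) (nat_lit 333) (nat_lit 376) (nat_lit 311)) (XT.lf (nat_lit 76) (nat_lit 2546029352) (nat_lit 0) (nat_lit 681670) (nat_lit 304) (nat_lit 2546029352) (nat_lit 200) (nat_lit 1) (nat_lit 199) (nat_lit 1) (nat_lit 203) (nat_lit 1) (nat_lit 334) (nat_lit 376) (nat_lit 310))) (XT.nd (nat_lit 78) (nat_lit 228) (nat_lit 0) (XT.lf (nat_lit 304) (nat_lit 3786071499) (nat_lit 0) (nat_lit 625353503) (nat_lit 228) (nat_lit 625353503) (nat_lit 200) (nat_lit 1) (nat_lit 196) (nat_lit 1) (nat_lit 199) (nat_lit 1) (nat_lit 335) (nat_lit 376) (nat_lit 309)) (XT.nd (nat_lit 78) (nat_lit 228) (nat_lit 0) (XT.lf (nat_lit 76) (nat_lit 1240318449) (nat_lit 0) (nat_lit 2500717874) (nat_lit 304) (nat_lit 1240318449) (nat_lit 197) (nat_lit 1) (nat_lit 196) (nat_lit 1) (nat_lit 200) (nat_lit 1) (nat_lit 336) (nat_lit 376) (nat_lit 308)) (XT.lf (nat_lit 304) (nat_lit 1188707823) (nat_lit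 0) (nat_lit 1869061708) (nat_lit 228) (nat_lit 1869061708) (nat_lit 197) (nat_lit 1) (nat_lit 193) (nat_lit 1) (nat_lit 196) (nat_lit 1) (nat_lit 337) (nat_lit 376) (nat_lit 307))))) (XT.nd (nat_lit 234) (nat_lit 456) (nat_lit 0) (XT.nd (nat_lit 78) (nat_lit 228) (nat_lit 0) (XT.lf (nat_lit 304) (nat_lit 4796904943) (nat_lit 0) (nat_lit 38301593) (nat_lit 228) (nat_lit 38301593) (nat_lit 193) (nat_lit 1) (nat_lit 189) (nat_lit 1) (nat_lit 192) (nat_lit 1) (nat_lit 338) (nat_lit 376) (nat_lit 306)) (XT.nd (nat_lit 78) (nat_lit 228) (nat_lit 0) (XT.lf (nat_lit 76) (nat_lit 1745685540) (nat_lit 0) (nat_lit 1328650902) (nat_lit 304) (nat_lit 1745685540) (nat_lit 190) (nat_lit 1) (nat_lit 189) (nat_lit 1) (nat_lit 193) (nat_lit 1) (nat_lit 339) (nat_lit 376) (nat_lit 305)) (XT.lf (nat_lit 304) (nat_lit 2210836487) (nat_lit 0) (nat_lit 1278438900) (nat_lit 228) (nat_lit 1278438900) (nat_lit 190) (nat_lit 1)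 (nat_lit 186) (nat_lit 1) (nat_lit 189) (nat_lit 1) (nat_lit 340) (nat_lit 376) (nat_lit 304)))) (XT.nd (nat_lit 78) (nat_lit 456) (nat_lit 0) (XT.lf (nat_lit 76) (nat_lit 472854774) (nat_lit 0) (nat_lit 3770583012) (nat_lit 304) (nat_lit 472854774) (nat_lit 187) (nat_lit 1) (nat_lit 186) (nat_lit 1) (nat_lit 190) (nat_lit 1) (nat_lit 341) (nat_lit 376) (nat_lit 303)) (XT.nd (nat_lit 78) (nat_lit 228) (nat_lit 0) (XT.lf (nat_lit 76) (nat_lit 2175949733) (nat_lit 0) (nat_lit 313300245) (nat_lit 228) (nat_lit 2175949733) (nat_lit 184) (nat_lit 1) (nat_lit 183) (nat_lit 1) (nat_lit 186) (nat_lit 1) (nat_lit 342) (nat_lit 376) (nat_lit 302)) (XT.lf (nat_lit 304) (nat_lit 3085352966) (nat_lit 0) (nat_lit 764810171) (nat_lit 228) (nat_lit 764810171) (nat_lit 184) (nat_lit 1) (nat_lit 180) (nat_lit 1) (nat_lit 183) (nat_lit 1) (nat_lit 343) (nat_lit 376) (nat_lit 301))))))) (XT.nd (nat_lit 858) (nat_lit 1216)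 (nat_lit 0) (XT.nd (nat_lit 390) (nat_lit 760) (nat_lit 0) (XT.nd (nat_lit 156) (nat_lit 456) (nat_lit 0) (XT.nd (nat_lit 78) (nat_lit 152) (nat_lit 0) (XT.lf (nat_lit 76) (nat_lit 912574059) (nat_lit 0) (nat_lit 2740171944) (nat_lit 304) (nat_lit 912574059) (nat_lit 181) (nat_lit 1) (nat_lit 180) (nat_lit 1) (nat_lit 184) (nat_lit 1) (nat_lit 344) (nat_lit 376) (nat_lit 300)) (XT.lf (nat_lit 228) (nat_lit 574783838) (nat_lit 0) (nat_lit 1970773365) (nat_lit 152) (nat_lit 1970773365) (nat_lit 181) (nat_lit 1) (nat_lit 178) (nat_lit 1) (nat_lit 180) (nat_lit 1) (nat_lit 345) (nat_lit 376) (nat_lit 299))) (XT.nd (nat_lit 78) (nat_lit 152) (nat_lit 0) (XT.lf (nat_lit 304) (nat_lit 3829697489) (nat_lit 0) (nat_lit 319265453) (nat_lit 228) (nat_lit 319265453) (nat_lit 178) (nat_lit 1) (nat_lit 174) (nat_lit 1) (nat_lit 177) (nat_lit 1) (nat_lit 346) (nat_lit 376) (nat_lit 298)) (XT.nd (nat_lit 78) (nat_lit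 152) (nat_lit 0) (XT.lf (nat_lit 76) (nat_lit 1288915783) (nat_lit 0) (nat_lit 1842430363) (nat_lit 304) (nat_lit 1288915783) (nat_lit 175) (nat_lit 1) (nat_lit 174) (nat_lit 1) (nat_lit 178) (nat_lit 1) (nat_lit 347) (nat_lit 376) (nat_lit 297)) (XT.lf (nat_lit 228) (nat_lit 1344364715) (nat_lit 0) (nat_lit 1514400860) (nat_lit 152) (nat_lit 1514400860) (nat_lit 175) (nat_lit 1) (nat_lit 172) (nat_lit 1) (nat_lit 174) (nat_lit 1) (nat_lit 348) (nat_lit 376) (nat_lit 296))))) (XT.nd (nat_lit 234) (nat_lit 380) (nat_lit 0) (XT.nd (nat_lit 78) (nat_lit 380) (nat_lit 0) (XT.lf (nat_lit 76) (nat_lit 66756770) (nat_lit 0) (nat_lit 4193541429) (nat_lit 228) (nat_lit 66756770) (nat_lit 173) (nat_lit 1) (nat_lit 172) (nat_lit 1) (nat_lit 175) (nat_lit 1) (nat_lit 349) (nat_lit 376) (nat_lit 295)) (XT.nd (nat_lit 78) (nat_lit 152) (nat_lit 0) (XT.lf (nat_lit 76) (nat_lit 1609365126) (nat_lit 0) (nat_lit 1062046467)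 (nat_lit 228) (nat_lit 1609365126) (nat_lit 170) (nat_lit 1) (nat_lit 169) (nat_lit 1) (nat_lit 172) (nat_lit 1) (nat_lit 350) (nat_lit 376) (nat_lit 294)) (XT.lf (nat_lit 228) (nat_lit 2003845511) (nat_lit 0) (nat_lit 1115811230) (nat_lit 152) (nat_lit 1115811230) (nat_lit 170) (nat_lit 1) (nat_lit 167) (nat_lit 1) (nat_lit 169) (nat_lit 1) (nat_lit 351) (nat_lit 376) (nat_lit 293)))) (XT.nd (nat_lit 78) (nat_lit 380) (nat_lit 0) (XT.lf (nat_lit 76) (nat_lit 402252853) (nat_lit 0) (nat_lit 3386395321) (nat_lit 228) (nat_lit 402252853) (nat_lit 168) (nat_lit 1) (nat_lit 167) (nat_lit 1) (nat_lit 170) (nat_lit 1) (nat_lit 352) (nat_lit 376) (nat_lit 292)) (XT.nd (nat_lit 78) (nat_lit 152) (nat_lit 0) (XT.lf (nat_lit 76) (nat_lit 1880560406) (nat_lit 0) (nat_lit 385430989) (nat_lit 228) (nat_lit 1880560406) (nat_lit 165) (nat_lit 1) (nat_lit 164) (nat_lit 1) (nat_lit 167) (nat_lit 1) (nat_lit 353) (nat_lit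 376) (nat_lit 291)) (XT.lf (nat_lit 228) (nat_lit 2566211048) (nat_lit 0) (nat_lit 768360214) (nat_lit 152) (nat_lit 768360214) (nat_lit 165) (nat_lit 1) (nat_lit 162) (nat_lit 1) (nat_lit 164) (nat_lit 1) (nat_lit 354) (nat_lit 376) (nat_lit 290)))))) (XT.nd (nat_lit 468) (nat_lit 456) (nat_lit 0) (XT.nd (nat_lit 234) (nat_lit 380) (nat_lit 0) (XT.nd (nat_lit 78) (nat_lit 380) (nat_lit 0) (XT.lf (nat_lit 76) (nat_lit 690348225) (nat_lit 0) (nat_lit 2679145155) (nat_lit 228) (nat_lit 690348225) (nat_lit 163) (nat_lit 1) (nat_lit 162) (nat_lit 1) (nat_lit 165) (nat_lit 1) (nat_lit 355) (nat_lit 376) (nat_lit 289)) (XT.nd (nat_lit 78) (nat_lit 228) (nat_lit 0) (XT.lf (nat_lit 228) (nat_lit 203445275) (nat_lit 0) (nat_lit 1906898236) (nat_lit 152) (nat_lit 1906898236) (nat_lit 163) (nat_lit 1) (nat_lit 160) (nat_lit 1) (nat_lit 162) (nat_lit 1) (nat_lit 356) (nat_lit 376) (nat_lit 288)) (XT.lf (nat_lit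 228) (nat_lit 3042977575) (nat_lit 0) (nat_lit 466150320) (nat_lit 152) (nat_lit 466150320) (nat_lit 160) (nat_lit 1) (nat_lit 157) (nat_lit 1) (nat_lit 159) (nat_lit 1) (nat_lit 357) (nat_lit 376) (nat_lit 287)))) (XT.nd (nat_lit 78) (nat_lit 380) (nat_lit 0) (XT.lf (nat_lit 76) (nat_lit 936619606) (nat_lit 0) (nat_lit 2060363220) (nat_lit 228) (nat_lit 936619606) (nat_lit 158) (nat_lit 1) (nat_lit 157) (nat_lit 1) (nat_lit 160) (nat_lit 1) (nat_lit 358) (nat_lit 376) (nat_lit 286)) (XT.nd (nat_lit 78) (nat_lit 228) (nat_lit 0) (XT.lf (nat_lit 228) (nat_lit 717371262) (nat_lit 0) (nat_lit 1587590454) (nat_lit 152) (nat_lit 1587590454) (nat_lit 158) (nat_lit 1) (nat_lit 155) (nat_lit 1) (nat_lit 157) (nat_lit 1) (nat_lit 359) (nat_lit 376) (nat_lit 285)) (XT.lf (nat_lit 228) (nat_lit 3444357130) (nat_lit 0) (nat_lit 203947378) (nat_lit 152) (nat_lit 203947378) (nat_lit 155) (nat_lit 1) (nat_lit 152)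 (nat_lit 1) (nat_lit 154) (nat_lit 1) (nat_lit 360) (nat_lit 376) (nat_lit 284))))) (XT.nd (nat_lit 234) (nat_lit 304) (nat_lit 0) (XT.nd (nat_lit 78) (nat_lit 152) (nat_lit 0) (XT.lf (nat_lit 76) (nat_lit 1146013370) (nat_lit 0) (nat_lit 1519904530) (nat_lit 228) (nat_lit 1146013370) (nat_lit 153) (nat_lit 1) (nat_lit 152) (nat_lit 1) (nat_lit 155) (nat_lit 1) (nat_lit 361) (nat_lit 376) (nat_lit 283)) (XT.nd (nat_lit 78) (nat_lit 0) (nat_lit 0) (XT.lf (nat_lit 228) (nat_lit 1158358346) (nat_lit 0) (nat_lit 1306996342) (nat_lit 152) (nat_lit 1306996342) (nat_lit 153) (nat_lit 1) (nat_lit 150) (nat_lit 1) (nat_lit 152) (nat_lit 1) (nat_lit 362) (nat_lit 376) (nat_lit 282)) (XT.lf (nat_lit 76) (nat_lit 23120263) (nat_lit 0) (nat_lit 3687349043) (nat_lit 228) (nat_lit 23120263) (nat_lit 151) (nat_lit 1) (nat_lit 150) (nat_lit 1) (nat_lit 153) (nat_lit 1) (nat_lit 363) (nat_lit 376) (nat_lit 281)))) (XT.nd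 (nat_lit 78) (nat_lit 152) (nat_lit 0) (XT.lf (nat_lit 76) (nat_lit 1322916075) (nat_lit 0) (nat_lit 1048763543) (nat_lit 152) (nat_lit 1322916075) (nat_lit 149) (nat_lit 1) (nat_lit 148) (nat_lit 1) (nat_lit 150) (nat_lit 1) (nat_lit 364) (nat_lit 376) (nat_lit 280)) (XT.nd (nat_lit 78) (nat_lit 0) (nat_lit 0) (XT.lf (nat_lit 228) (nat_lit 1534995389) (nat_lit 0) (nat_lit 1060708337) (nat_lit 152) (nat_lit 1060708337) (nat_lit 149) (nat_lit 1) (nat_lit 146) (nat_lit 1) (nat_lit 148) (nat_lit 1) (nat_lit 365) (nat_lit 376) (nat_lit 279)) (XT.lf (nat_lit 76) (nat_lit 220657561) (nat_lit 0) (nat_lit 3177582798) (nat_lit 228) (nat_lit 220657561) (nat_lit 147) (nat_lit 1) (nat_lit 146) (nat_lit 1) (nat_lit 149) (nat_lit 1) (nat_lit 366) (nat_lit 376) (nat_lit 278))))))))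
noncomputable def ec86 : XT := (XT.nd (nat_lit 45786) (nat_lit 0) (nat_lit 14364) (XT.nd (nat_lit 858) (nat_lit 304) (nat_lit 0) (XT.nd (nat_lit 390) (nat_lit 608) (nat_lit 0) (XT.nd (nat_lit 156) (nat_lit 304) (nat_lit 0) (XT.nd (nat_lit 78) (nat_lit 152) (nat_lit 0) (XT.lf (nat_lit 76) (nat_lit 1471217138) (nat_lit 0) (nat_lit 638946857) (nat_lit 152) (nat_lit 1471217138) (nat_lit 145) (nat_lit 1) (nat_lit 144) (nat_lit 1) (nat_lit 146) (nat_lit 1) (nat_lit 367) (nat_lit 376) (nat_lit 277)) (XT.lf (nat_lit 228) (nat_lit 1854900223) (nat_lit 0) (nat_lit 844813013) (nat_lit 152) (nat_lit 844813013) (nat_lit 145) (nat_lit 1) (nat_lit 142) (nat_lit 1) (nat_lit 144) (nat_lit 1) (nat_lit 368) (nat_lit 376) (nat_lit 276))) (XT.nd (nat_lit 78) (nat_lit 304) (nat_lit 0) (XT.lf (nat_lit 76) (nat_lit 390338285) (nat_lit 0) (nat_lit 2727533327) (nat_lit 228) (nat_lit 390338285) (nat_lit 143) (nat_lit 1) (nat_lit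 142) (nat_lit 1) (nat_lit 145) (nat_lit 1) (nat_lit 369) (nat_lit 376) (nat_lit 275)) (XT.nd (nat_lit 78) (nat_lit 152) (nat_lit 0) (XT.lf (nat_lit 76) (nat_lit 1594364497) (nat_lit 0) (nat_lit 283360116) (nat_lit 152) (nat_lit 1594364497) (nat_lit 141) (nat_lit 1) (nat_lit 140) (nat_lit 1) (nat_lit 142) (nat_lit 1) (nat_lit 370) (nat_lit 376) (nat_lit 274)) (XT.lf (nat_lit 228) (nat_lit 2124828319) (nat_lit 0) (nat_lit 655835900) (nat_lit 152) (nat_lit 655835900) (nat_lit 141) (nat_lit 1) (nat_lit 138) (nat_lit 1) (nat_lit 140) (nat_lit 1) (nat_lit 371) (nat_lit 376) (nat_lit 273))))) (XT.nd (nat_lit 234) (nat_lit 304) (nat_lit 0) (XT.nd (nat_lit 78) (nat_lit 304) (nat_lit 0) (XT.lf (nat_lit 76) (nat_lit 535438568) (nat_lit 0) (nat_lit 2330457808) (nat_lit 228) (nat_lit 535438568) (nat_lit 139) (nat_lit 1) (nat_lit 138) (nat_lit 1) (nat_lit 141) (nat_lit 1) (nat_lit 372) (nat_lit 376) (nat_lit 272))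 (XT.nd (nat_lit 78) (nat_lit 228) (nat_lit 0) (XT.lf (nat_lit 152) (nat_lit 24775937) (nat_lit 0) (nat_lit 1670876299) (nat_lit 76) (nat_lit 1670876299) (nat_lit 139) (nat_lit 1) (nat_lit 137) (nat_lit 1) (nat_lit 138) (nat_lit 1) (nat_lit 373) (nat_lit 376) (nat_lit 271)) (XT.lf (nat_lit 228) (nat_lit 2350769329) (nat_lit 0) (nat_lit 490692459) (nat_lit 152) (nat_lit 490692459) (nat_lit 137) (nat_lit 1) (nat_lit 134) (nat_lit 1) (nat_lit 136) (nat_lit 1) (nat_lit 374) (nat_lit 376) (nat_lit 270)))) (XT.nd (nat_lit 78) (nat_lit 304) (nat_lit 0) (XT.lf (nat_lit 76) (nat_lit 658864270) (nat_lit 0) (nat_lit 1980367767) (nat_lit 228) (nat_lit 658864270) (nat_lit 135) (nat_lit 1) (nat_lit 134) (nat_lit 1) (nat_lit 137) (nat_lit 1) (nat_lit 375) (nat_lit 376) (nat_lit 269)) (XT.nd (nat_lit 78) (nat_lit 228) (nat_lit 0) (XT.lf (nat_lit 152) (nat_lit 295360947) (nat_lit 0) (nat_lit 1484551950) (nat_lit 76) (nat_lit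 1484551950) (nat_lit 135) (nat_lit 1) (nat_lit 133) (nat_lit 1) (nat_lit 134) (nat_lit 1) (nat_lit 376) (nat_lit 376) (nat_lit 268)) (XT.lf (nat_lit 228) (nat_lit 2538032848) (nat_lit 0) (nat_lit 346644532) (nat_lit 152) (nat_lit 346644532) (nat_lit 133) (nat_lit 1) (nat_lit 130) (nat_lit 1) (nat_lit 132) (nat_lit 1) (nat_lit 377) (nat_lit 376) (nat_lit 267)))))) (XT.nd (nat_lit 44460) (nat_lit 0) (nat_lit 18848) (XT.nd (nat_lit 156) (nat_lit 228) (nat_lit 0) (XT.nd (nat_lit 78) (nat_lit 76) (nat_lit 0) (XT.lf (nat_lit 76) (nat_lit 763192406) (nat_lit 0) (nat_lit 1671944886) (nat_lit 228) (nat_lit 763192406) (nat_lit 131) (nat_lit 1) (nat_lit 130) (nat_lit 1) (nat_lit 133) (nat_lit 1) (nat_lit 378) (nat_lit 376) (nat_lit 266)) (XT.lf (nat_lit 152) (nat_lit 527810637) (nat_lit 0) (nat_lit 1319005180) (nat_lit 76) (nat_lit 1319005180) (nat_lit 131) (nat_lit 1) (nat_lit 129) (nat_lit 1) (nat_lit 130) (nat_lit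 1) (nat_lit 379) (nat_lit 376) (nat_lit 265))) (XT.nd (nat_lit 78) (nat_lit 0) (nat_lit 0) (XT.lf (nat_lit 228) (nat_lit 2691324601) (nat_lit 0) (nat_lit 221261641) (nat_lit 152) (nat_lit 221261641) (nat_lit 129) (nat_lit 1) (nat_lit 126) (nat_lit 1) (nat_lit 128) (nat_lit 1) (nat_lit 380) (nat_lit 376) (nat_lit 264)) (XT.nd (nat_lit 44148) (nat_lit 0) (nat_lit 18848) (XT.lf (nat_lit 76) (nat_lit 850707962) (nat_lit 0) (nat_lit 1400466207) (nat_lit 228) (nat_lit 850707962) (nat_lit 127) (nat_lit 1) (nat_lit 126) (nat_lit 1) (nat_lit 129) (nat_lit 1) (nat_lit 381) (nat_lit 376) (nat_lit 263)) (XT.lf (nat_lit 1292) (nat_lit 1113376348) (nat_lit 0) (nat_lit 3830532436) (nat_lit 1292) (nat_lit 1113376348) (nat_lit 391) (nat_lit 1) (nat_lit 374) (nat_lit 0) (nat_lit 391) (nat_lit 0) (nat_lit 266) (nat_lit 377) (nat_lit 377))))) (XT.nd (nat_lit 234) (nat_lit 0) (nat_lit 152) (XT.nd (nat_lit 78) (nat_lit 0)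 (nat_lit 76) (XT.lf (nat_lit 1292) (nat_lit 4351094281) (nat_lit 76) (nat_lit 3792978197) (nat_lit 0) (nat_lit 3792978197) (nat_lit 391) (nat_lit 1) (nat_lit 375) (nat_lit 1) (nat_lit 374) (nat_lit 0) (nat_lit 267) (nat_lit 377) (nat_lit 376)) (XT.nd (nat_lit 78) (nat_lit 0) (nat_lit 0) (XT.lf (nat_lit 1292) (nat_lit 2104292936) (nat_lit 0) (nat_lit 7554860920) (nat_lit 1216) (nat_lit 2104292936) (nat_lit 392) (nat_lit 1) (nat_lit 375) (nat_lit 1) (nat_lit 391) (nat_lit 1) (nat_lit 268) (nat_lit 377) (nat_lit 375)) (XT.lf (nat_lit 1292) (nat_lit 3996160932) (nat_lit 76) (nat_lit 3798290552) (nat_lit 0) (nat_lit 3798290552) (nat_lit 392) (nat_lit 1) (nat_lit 376) (nat_lit 1) (nat_lit 375) (nat_lit 1) (nat_lit 269) (nat_lit 377) (nat_lit 374)))) (XT.nd (nat_lit 78) (nat_lit 0) (nat_lit 0) (XT.lf (nat_lit 1292) (nat_lit 1875178587) (nat_lit 0) (nat_lit 7675499683) (nat_lit 1216) (nat_lit 1875178587) (nat_lit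 393) (nat_lit 1) (nat_lit 376) (nat_lit 1) (nat_lit 392) (nat_lit 1) (nat_lit 270) (nat_lit 377) (nat_lit 373)) (XT.nd (nat_lit 78) (nat_lit 0) (nat_lit 76) (XT.lf (nat_lit 1292) (nat_lit 3436462754) (nat_lit 76) (nat_lit 3912588955) (nat_lit 0) (nat_lit 3912588955) (nat_lit 393) (nat_lit 1) (nat_lit 377) (nat_lit 1) (nat_lit 376) (nat_lit 1) (nat_lit 271) (nat_lit 377) (nat_lit 372)) (XT.lf (nat_lit 1292) (nat_lit 1548843252) (nat_lit 0) (nat_lit 8003529960) (nat_lit 1216) (nat_lit 1548843252) (nat_lit 394) (nat_lit 1) (nat_lit 377) (nat_lit 1) (nat_lit 393) (nat_lit 1) (nat_lit 272) (nat_lit 377) (nat_lit 371))))))) (XT.nd (nat_lit 858) (nat_lit 3648) (nat_lit 0) (XT.nd (nat_lit 390) (nat_lit 1064) (nat_lit 0) (XT.nd (nat_lit 156) (nat_lit 0) (nat_lit 76) (XT.nd (nat_lit 78) (nat_lit 0) (nat_lit 76) (XT.lf (nat_lit 1292) (nat_lit 2690311545) (nat_lit 76) (nat_lit 4126433926) (nat_lit 0) (nat_lit 4126433926)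 (nat_lit 394) (nat_lit 1) (nat_lit 378) (nat_lit 1) (nat_lit 377) (nat_lit 1) (nat_lit 273) (nat_lit 377) (nat_lit 370)) (XT.lf (nat_lit 1292) (nat_lit 1134082564) (nat_lit 0) (nat_lit 8520804397) (nat_lit 1216) (nat_lit 1134082564) (nat_lit 395) (nat_lit 1) (nat_lit 378) (nat_lit 1) (nat_lit 394) (nat_lit 1) (nat_lit 274) (nat_lit 377) (nat_lit 369))) (XT.nd (nat_lit 78) (nat_lit 0) (nat_lit 76) (XT.lf (nat_lit 1292) (nat_lit 1774776939) (nat_lit 76) (nat_lit 4431020568) (nat_lit 0) (nat_lit 4431020568) (nat_lit 395) (nat_lit 1) (nat_lit 379) (nat_lit 1) (nat_lit 378) (nat_lit 1) (nat_lit 275) (nat_lit 377) (nat_lit 368)) (XT.nd (nat_lit 78) (nat_lit 0) (nat_lit 0) (XT.lf (nat_lit 1292) (nat_lit 639093616) (nat_lit 0) (nat_lit 9210399185) (nat_lit 1216) (nat_lit 639093616) (nat_lit 396) (nat_lit 1) (nat_lit 379) (nat_lit 1) (nat_lit 395) (nat_lit 1) (nat_lit 276) (nat_lit 377) (nat_lit 367)) (XT.lf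 (nat_lit 1292) (nat_lit 705763271) (nat_lit 76) (nat_lit 4818139436) (nat_lit 0) (nat_lit 4818139436) (nat_lit 396) (nat_lit 1) (nat_lit 380) (nat_lit 1) (nat_lit 379) (nat_lit 1) (nat_lit 277) (nat_lit 377) (nat_lit 366))))) (XT.nd (nat_lit 234) (nat_lit 0) (nat_lit 76) (XT.nd (nat_lit 78) (nat_lit 1292) (nat_lit 0) (XT.lf (nat_lit 1292) (nat_lit 71512048) (nat_lit 0) (nat_lit 10056538527) (nat_lit 1216) (nat_lit 71512048) (nat_lit 397) (nat_lit 1) (nat_lit 380) (nat_lit 1) (nat_lit 396) (nat_lit 1) (nat_lit 278) (nat_lit 377) (nat_lit 365)) (XT.nd (nat_lit 78) (nat_lit 0) (nat_lit 0) (XT.lf (nat_lit 1368) (nat_lit 4783046348) (nat_lit 0) (nat_lit 492123899) (nat_lit 1292) (nat_lit 4783046348) (nat_lit 381) (nat_lit 1) (nat_lit 363) (nat_lit 1) (nat_lit 380) (nat_lit 1) (nat_lit 279) (nat_lit 377) (nat_lit 364)) (XT.lf (nat_lit 1368) (nat_lit 8808671122) (nat_lit 76) (nat_lit 556047650) (nat_lit 0)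 (nat_lit 556047650) (nat_lit 381) (nat_lit 1) (nat_lit 364) (nat_lit 1) (nat_lit 363) (nat_lit 1) (nat_lit 280) (nat_lit 377) (nat_lit 363)))) (XT.nd (nat_lit 78) (nat_lit 0) (nat_lit 0) (XT.lf (nat_lit 1368) (nat_lit 3993047902) (nat_lit 0) (nat_lit 1798683619) (nat_lit 1292) (nat_lit 3993047902) (nat_lit 382) (nat_lit 1) (nat_lit 364) (nat_lit 1) (nat_lit 381) (nat_lit 1) (nat_lit 281) (nat_lit 377) (nat_lit 362)) (XT.nd (nat_lit 78) (nat_lit 0) (nat_lit 76) (XT.lf (nat_lit 1368) (nat_lit 7169844838) (nat_lit 76) (nat_lit 1241197377) (nat_lit 0) (nat_lit 1241197377) (nat_lit 382) (nat_lit 1) (nat_lit 365) (nat_lit 1) (nat_lit 364) (nat_lit 1) (nat_lit 282) (nat_lit 377) (nat_lit 361)) (XT.lf (nat_lit 76) (nat_lit 3153189804) (nat_lit 0) (nat_lit 3215112910) (nat_lit 1292) (nat_lit 3153189804) (nat_lit 366) (nat_lit 1) (nat_lit 365) (nat_lit 1) (nat_lit 382) (nat_lit 1) (nat_lit 283) (nat_lit 377) (nat_lit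 360)))))) (XT.nd (nat_lit 390) (nat_lit 1748) (nat_lit 0) (XT.nd (nat_lit 156) (nat_lit 1216) (nat_lit 0) (XT.nd (nat_lit 78) (nat_lit 0) (nat_lit 0) (XT.lf (nat_lit 912) (nat_lit 5436543138) (nat_lit 0) (nat_lit 1978546198) (nat_lit 836) (nat_lit 1978546198) (nat_lit 366) (nat_lit 1) (nat_lit 354) (nat_lit 1) (nat_lit 365) (nat_lit 1) (nat_lit 284) (nat_lit 377) (nat_lit 359)) (XT.lf (nat_lit 76) (nat_lit 2269107275) (nat_lit 0) (nat_lit 4729720206) (nat_lit 912) (nat_lit 2269107275) (nat_lit 355) (nat_lit 1) (nat_lit 354) (nat_lit 1) (nat_lit 366) (nat_lit 1) (nat_lit 285) (nat_lit 377) (nat_lit 358))) (XT.nd (nat_lit 78) (nat_lit 608) (nat_lit 0) (XT.lf (nat_lit 684) (nat_lit 3619681066) (nat_lit 0) (nat_lit 2762431761) (nat_lit 608) (nat_lit 2762431761) (nat_lit 355) (nat_lit 1) (nat_lit 346) (nat_lit 1) (nat_lit 354) (nat_lit 1) (nat_lit 286) (nat_lit 377) (nat_lit 357)) (XT.nd (nat_lit 78) (nat_lit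 608) (nat_lit 0) (XT.lf (nat_lit 76) (nat_lit 1346031279) (nat_lit 0) (nat_lit 6331641915) (nat_lit 684) (nat_lit 1346031279) (nat_lit 347) (nat_lit 1) (nat_lit 346) (nat_lit 1) (nat_lit 355) (nat_lit 1) (nat_lit 287) (nat_lit 377) (nat_lit 356)) (XT.lf (nat_lit 684) (nat_lit 1729387145) (nat_lit 0) (nat_lit 3587594410) (nat_lit 608) (nat_lit 3587594410) (nat_lit 347) (nat_lit 1) (nat_lit 338) (nat_lit 1) (nat_lit 346) (nat_lit 1) (nat_lit 288) (nat_lit 377) (nat_lit 355))))) (XT.nd (nat_lit 234) (nat_lit 532) (nat_lit 0) (XT.nd (nat_lit 78) (nat_lit 1216) (nat_lit 0) (XT.lf (nat_lit 76) (nat_lit 388814088) (nat_lit 0) (nat_lit 8010790326) (nat_lit 684) (nat_lit 388814088) (nat_lit 339) (nat_lit 1) (nat_lit 338) (nat_lit 1) (nat_lit 347) (nat_lit 1) (nat_lit 289) (nat_lit 377) (nat_lit 354)) (XT.nd (nat_lit 78) (nat_lit 608) (nat_lit 0) (XT.lf (nat_lit 76) (nat_lit 4226367305) (nat_lit 0) (nat_lit 220557295)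 (nat_lit 608) (nat_lit 4226367305) (nat_lit 331) (nat_lit 1) (nat_lit 330) (nat_lit 1) (nat_lit 338) (nat_lit 1) (nat_lit 290) (nat_lit 377) (nat_lit 353)) (XT.lf (nat_lit 684) (nat_lit 7376650896) (nat_lit 0) (nat_lit 592183498) (nat_lit 608) (nat_lit 592183498) (nat_lit 331) (nat_lit 1) (nat_lit 322) (nat_lit 1) (nat_lit 330) (nat_lit 1) (nat_lit 291) (nat_lit 377) (nat_lit 352)))) (XT.nd (nat_lit 78) (nat_lit 532) (nat_lit 0) (XT.lf (nat_lit 76) (nat_lit 3129436639) (nat_lit 0) (nat_lit 2191013451) (nat_lit 684) (nat_lit 3129436639) (nat_lit 323) (nat_lit 1) (nat_lit 322) (nat_lit 1) (nat_lit 331) (nat_lit 1) (nat_lit 292) (nat_lit 377) (nat_lit 351)) (XT.nd (nat_lit 78) (nat_lit 0) (nat_lit 0) (XT.lf (nat_lit 608) (nat_lit 5152171768) (nat_lit 0) (nat_lit 1594597492) (nat_lit 532) (nat_lit 1594597492) (nat_lit 323) (nat_lit 1) (nat_lit 315) (nat_lit 1) (nat_lit 322) (nat_lit 1) (nat_lit 293) (nat_lit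 377) (nat_lit 350)) (XT.lf (nat_lit 76) (nat_lit 2013346339) (nat_lit 0) (nat_lit 4207829095) (nat_lit 608) (nat_lit 2013346339) (nat_lit 316) (nat_lit 1) (nat_lit 315) (nat_lit 1) (nat_lit 323) (nat_lit 1) (nat_lit 294) (nat_lit 377) (nat_lit 349))))))))
noncomputable def ec87 : XT := (XT.nd (nat_lit 1716) (nat_lit 4028) (nat_lit 0) (XT.nd (nat_lit 858) (nat_lit 2356) (nat_lit 0) (XT.nd (nat_lit 390) (nat_lit 1824) (nat_lit 0) (XT.nd (nat_lit 156) (nat_lit 1064) (nat_lit 0) (XT.nd (nat_lit 78) (nat_lit 0) (nat_lit 0) (XT.lf (nat_lit 608) (nat_lit 2892741308) (nat_lit 0) (nat_lit 2618422963) (nat_lit 532) (nat_lit 2618422963) (nat_lit 316) (nat_lit 1) (nat_lit 308) (nat_lit 1) (nat_lit 315) (nat_lit 1) (nat_lit 295) (nat_lit 377) (nat_lit 348)) (XT.lf (nat_lit 76) (nat_lit 881588322) (nat_lit 0) (nat_lit 6263698195) (nat_lit 608) (nat_lit 881588322) (nat_lit 309) (nat_lit 1) (nat_lit 308) (nat_lit 1)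 (nat_lit 316) (nat_lit 1) (nat_lit 296) (nat_lit 377) (nat_lit 347))) (XT.nd (nat_lit 78) (nat_lit 608) (nat_lit 0) (XT.lf (nat_lit 532) (nat_lit 605103116) (nat_lit 0) (nat_lit 3660131172) (nat_lit 456) (nat_lit 3660131172) (nat_lit 309) (nat_lit 1) (nat_lit 302) (nat_lit 1) (nat_lit 308) (nat_lit 1) (nat_lit 297) (nat_lit 377) (nat_lit 346)) (XT.nd (nat_lit 78) (nat_lit 0) (nat_lit 0) (XT.lf (nat_lit 608) (nat_lit 7306251799) (nat_lit 0) (nat_lit 260040954) (nat_lit 532) (nat_lit 260040954) (nat_lit 302) (nat_lit 1) (nat_lit 294) (nat_lit 1) (nat_lit 301) (nat_lit 1) (nat_lit 298) (nat_lit 377) (nat_lit 345)) (XT.lf (nat_lit 76) (nat_lit 3028323551) (nat_lit 0) (nat_lit 1671262889) (nat_lit 608) (nat_lit 3028323551) (nat_lit 295) (nat_lit 1) (nat_lit 294) (nat_lit 1) (nat_lit 302) (nat_lit 1) (nat_lit 299) (nat_lit 377) (nat_lit 344))))) (XT.nd (nat_lit 234) (nat_lit 912) (nat_lit 0) (XT.nd (nat_lit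 78) (nat_lit 456) (nat_lit 0) (XT.lf (nat_lit 532) (nat_lit 4827053729) (nat_lit 0) (nat_lit 1402411013) (nat_lit 456) (nat_lit 1402411013) (nat_lit 295) (nat_lit 1) (nat_lit 288) (nat_lit 1) (nat_lit 294) (nat_lit 1) (nat_lit 300) (nat_lit 377) (nat_lit 343)) (XT.nd (nat_lit 78) (nat_lit 456) (nat_lit 0) (XT.lf (nat_lit 76) (nat_lit 1792740572) (nat_lit 0) (nat_lit 3951765472) (nat_lit 532) (nat_lit 1792740572) (nat_lit 289) (nat_lit 1) (nat_lit 288) (nat_lit 1) (nat_lit 295) (nat_lit 1) (nat_lit 301) (nat_lit 377) (nat_lit 342)) (XT.lf (nat_lit 532) (nat_lit 2341328068) (nat_lit 0) (nat_lit 2551458582) (nat_lit 456) (nat_lit 2551458582) (nat_lit 289) (nat_lit 1) (nat_lit 282) (nat_lit 1) (nat_lit 288) (nat_lit 1) (nat_lit 302) (nat_lit 377) (nat_lit 341)))) (XT.nd (nat_lit 78) (nat_lit 912) (nat_lit 0) (XT.lf (nat_lit 76) (nat_lit 555115497) (nat_lit 0) (nat_lit 6243046446) (nat_lit 532) (nat_lit 555115497)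 (nat_lit 283) (nat_lit 1) (nat_lit 282) (nat_lit 1) (nat_lit 289) (nat_lit 1) (nat_lit 303) (nat_lit 377) (nat_lit 340)) (XT.nd (nat_lit 78) (nat_lit 456) (nat_lit 0) (XT.lf (nat_lit 76) (nat_lit 3559886144) (nat_lit 0) (nat_lit 143362033) (nat_lit 456) (nat_lit 3559886144) (nat_lit 277) (nat_lit 1) (nat_lit 276) (nat_lit 1) (nat_lit 282) (nat_lit 1) (nat_lit 304) (nat_lit 377) (nat_lit 339)) (XT.lf (nat_lit 532) (nat_lit 5823711344) (nat_lit 0) (nat_lit 675619813) (nat_lit 456) (nat_lit 675619813) (nat_lit 277) (nat_lit 1) (nat_lit 270) (nat_lit 1) (nat_lit 276) (nat_lit 1) (nat_lit 305) (nat_lit 377) (nat_lit 338)))))) (XT.nd (nat_lit 390) (nat_lit 1140) (nat_lit 0) (XT.nd (nat_lit 156) (nat_lit 836) (nat_lit 0) (XT.nd (nat_lit 78) (nat_lit 380) (nat_lit 0) (XT.lf (nat_lit 76) (nat_lit 2253869619) (nat_lit 0) (nat_lit 2579917396) (nat_lit 532) (nat_lit 2253869619) (nat_lit 271) (nat_lit 1) (nat_lit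 270) (nat_lit 1) (nat_lit 277) (nat_lit 1) (nat_lit 306) (nat_lit 377) (nat_lit 337)) (XT.lf (nat_lit 456) (nat_lit 3204803111) (nat_lit 0) (nat_lit 1898682522) (nat_lit 380) (nat_lit 1898682522) (nat_lit 271) (nat_lit 1) (nat_lit 265) (nat_lit 1) (nat_lit 270) (nat_lit 1) (nat_lit 307) (nat_lit 377) (nat_lit 336))) (XT.nd (nat_lit 78) (nat_lit 836) (nat_lit 0) (XT.lf (nat_lit 76) (nat_lit 954042927) (nat_lit 0) (nat_lit 5010159580) (nat_lit 456) (nat_lit 954042927) (nat_lit 266) (nat_lit 1) (nat_lit 265) (nat_lit 1) (nat_lit 271) (nat_lit 1) (nat_lit 308) (nat_lit 377) (nat_lit 335)) (XT.nd (nat_lit 78) (nat_lit 456) (nat_lit 0) (XT.lf (nat_lit 456) (nat_lit 600017851) (nat_lit 0) (nat_lit 3117659278) (nat_lit 380) (nat_lit 3117659278) (nat_lit 266) (nat_lit 1) (nat_lit 260) (nat_lit 1) (nat_lit 265) (nat_lit 1) (nat_lit 309) (nat_lit 377) (nat_lit 334)) (XT.lf (nat_lit 456) (nat_lit 6085011920) (nat_lit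 0) (nat_lit 334632731) (nat_lit 380) (nat_lit 334632731) (nat_lit 260) (nat_lit 1) (nat_lit 254) (nat_lit 1) (nat_lit 259) (nat_lit 1) (nat_lit 310) (nat_lit 377) (nat_lit 333))))) (XT.nd (nat_lit 234) (nat_lit 760) (nat_lit 0) (XT.nd (nat_lit 78) (nat_lit 380) (nat_lit 0) (XT.lf (nat_lit 76) (nat_lit 2362475893) (nat_lit 0) (nat_lit 1948704734) (nat_lit 456) (nat_lit 2362475893) (nat_lit 255) (nat_lit 1) (nat_lit 254) (nat_lit 1) (nat_lit 260) (nat_lit 1) (nat_lit 311) (nat_lit 377) (nat_lit 332)) (XT.nd (nat_lit 78) (nat_lit 0) (nat_lit 0) (XT.lf (nat_lit 456) (nat_lit 3385400109) (nat_lit 0) (nat_lit 1604713638) (nat_lit 380) (nat_lit 1604713638) (nat_lit 255) (nat_lit 1) (nat_lit 249) (nat_lit 1) (nat_lit 254) (nat_lit 1) (nat_lit 312) (nat_lit 377) (nat_lit 331)) (XT.lf (nat_lit 76) (nat_lit 1025672842) (nat_lit 0) (nat_lit 4465972283) (nat_lit 456) (nat_lit 1025672842) (nat_lit 250) (nat_lit 1)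 (nat_lit 249) (nat_lit 1) (nat_lit 255) (nat_lit 1) (nat_lit 313) (nat_lit 377) (nat_lit 330)))) (XT.nd (nat_lit 78) (nat_lit 456) (nat_lit 0) (XT.lf (nat_lit 380) (nat_lit 712363174) (nat_lit 0) (nat_lit 2864213835) (nat_lit 304) (nat_lit 2864213835) (nat_lit 250) (nat_lit 1) (nat_lit 245) (nat_lit 1) (nat_lit 249) (nat_lit 1) (nat_lit 314) (nat_lit 377) (nat_lit 329)) (XT.nd (nat_lit 78) (nat_lit 0) (nat_lit 0) (XT.lf (nat_lit 456) (nat_lit 5777099701) (nat_lit 0) (nat_lit 294421409) (nat_lit 380) (nat_lit 294421409) (nat_lit 245) (nat_lit 1) (nat_lit 239) (nat_lit 1) (nat_lit 244) (nat_lit 1) (nat_lit 315) (nat_lit 377) (nat_lit 328)) (XT.lf (nat_lit 76) (nat_lit 2198611038) (nat_lit 0) (nat_lit 1894186732) (nat_lit 456) (nat_lit 2198611038) (nat_lit 240) (nat_lit 1) (nat_lit 239) (nat_lit 1) (nat_lit 245) (nat_lit 1) (nat_lit 316) (nat_lit 377) (nat_lit 327))))))) (XT.nd (nat_lit 858) (nat_lit 1900)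 (nat_lit 0) (XT.nd (nat_lit 390) (nat_lit 1140) (nat_lit 0) (XT.nd (nat_lit 156) (nat_lit 684) (nat_lit 0) (XT.nd (nat_lit 78) (nat_lit 0) (nat_lit 0) (XT.lf (nat_lit 380) (nat_lit 3038964604) (nat_lit 0) (nat_lit 1589770245) (nat_lit 304) (nat_lit 1589770245) (nat_lit 240) (nat_lit 1) (nat_lit 235) (nat_lit 1) (nat_lit 239) (nat_lit 1) (nat_lit 317) (nat_lit 377) (nat_lit 326)) (XT.lf (nat_lit 76) (nat_lit 845089635) (nat_lit 0) (nat_lit 4456669147) (nat_lit 380) (nat_lit 845089635) (nat_lit 236) (nat_lit 1) (nat_lit 235) (nat_lit 1) (nat_lit 240) (nat_lit 1) (nat_lit 318) (nat_lit 377) (nat_lit 325))) (XT.nd (nat_lit 78) (nat_lit 380) (nat_lit 0) (XT.lf (nat_lit 380) (nat_lit 336986112) (nat_lit 0) (nat_lit 2869510055) (nat_lit 304) (nat_lit 2869510055) (nat_lit 236) (nat_lit 1) (nat_lit 231) (nat_lit 1) (nat_lit 235) (nat_lit 1) (nat_lit 319) (nat_lit 377) (nat_lit 324)) (XT.nd (nat_lit 78) (nat_lit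 0) (nat_lit 0) (XT.lf (nat_lit 380) (nat_lit 5036041030) (nat_lit 0) (nat_lit 485260515) (nat_lit 304) (nat_lit 485260515) (nat_lit 231) (nat_lit 1) (nat_lit 226) (nat_lit 1) (nat_lit 230) (nat_lit 1) (nat_lit 320) (nat_lit 377) (nat_lit 323)) (XT.lf (nat_lit 76) (nat_lit 1827811623) (nat_lit 0) (nat_lit 2281970663) (nat_lit 380) (nat_lit 1827811623) (nat_lit 227) (nat_lit 1) (nat_lit 226) (nat_lit 1) (nat_lit 231) (nat_lit 1) (nat_lit 321) (nat_lit 377) (nat_lit 322))))) (XT.nd (nat_lit 234) (nat_lit 532) (nat_lit 0) (XT.nd (nat_lit 78) (nat_lit 304) (nat_lit 0) (XT.lf (nat_lit 380) (nat_lit 2293039545) (nat_lit 0) (nat_lit 1788471688) (nat_lit 304) (nat_lit 1788471688) (nat_lit 227) (nat_lit 1) (nat_lit 222) (nat_lit 1) (nat_lit 226) (nat_lit 1) (nat_lit 322) (nat_lit 377) (nat_lit 321)) (XT.nd (nat_lit 78) (nat_lit 304) (nat_lit 0) (XT.lf (nat_lit 76) (nat_lit 473719693) (nat_lit 0) (nat_lit 4856240537)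 (nat_lit 380) (nat_lit 473719693) (nat_lit 223) (nat_lit 1) (nat_lit 222) (nat_lit 1) (nat_lit 227) (nat_lit 1) (nat_lit 323) (nat_lit 377) (nat_lit 320)) (XT.lf (nat_lit 76) (nat_lit 2669579602) (nat_lit 0) (nat_lit 398644921) (nat_lit 304) (nat_lit 2669579602) (nat_lit 219) (nat_lit 1) (nat_lit 218) (nat_lit 1) (nat_lit 222) (nat_lit 1) (nat_lit 324) (nat_lit 377) (nat_lit 319)))) (XT.nd (nat_lit 78) (nat_lit 228) (nat_lit 0) (XT.lf (nat_lit 380) (nat_lit 3972900741) (nat_lit 0) (nat_lit 850149630) (nat_lit 304) (nat_lit 850149630) (nat_lit 219) (nat_lit 1) (nat_lit 214) (nat_lit 1) (nat_lit 218) (nat_lit 1) (nat_lit 325) (nat_lit 377) (nat_lit 318)) (XT.nd (nat_lit 78) (nat_lit 228) (nat_lit 0) (XT.lf (nat_lit 76) (nat_lit 1303550282) (nat_lit 0) (nat_lit 3002231290) (nat_lit 380) (nat_lit 1303550282) (nat_lit 215) (nat_lit 1) (nat_lit 214) (nat_lit 1) (nat_lit 219) (nat_lit 1) (nat_lit 326) (nat_lit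 377) (nat_lit 317)) (XT.lf (nat_lit 304) (nat_lit 1251647333) (nat_lit 0) (nat_lit 2147409659) (nat_lit 228) (nat_lit 2147409659) (nat_lit 215) (nat_lit 1) (nat_lit 211) (nat_lit 1) (nat_lit 214) (nat_lit 1) (nat_lit 327) (nat_lit 377) (nat_lit 316)))))) (XT.nd (nat_lit 468) (nat_lit 760) (nat_lit 0) (XT.nd (nat_lit 234) (nat_lit 532) (nat_lit 0) (XT.nd (nat_lit 78) (nat_lit 228) (nat_lit 0) (XT.lf (nat_lit 380) (nat_lit 5409059983) (nat_lit 0) (nat_lit 37983537) (nat_lit 304) (nat_lit 37983537) (nat_lit 211) (nat_lit 1) (nat_lit 206) (nat_lit 1) (nat_lit 210) (nat_lit 1) (nat_lit 328) (nat_lit 377) (nat_lit 315)) (XT.nd (nat_lit 78) (nat_lit 228) (nat_lit 0) (XT.lf (nat_lit 76) (nat_lit 2015135571) (nat_lit 0) (nat_lit 1393195530) (nat_lit 380) (nat_lit 2015135571) (nat_lit 207) (nat_lit 1) (nat_lit 206) (nat_lit 1) (nat_lit 211) (nat_lit 1) (nat_lit 329) (nat_lit 377) (nat_lit 314)) (XT.lf (nat_lit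 304) (nat_lit 2677982421) (nat_lit 0) (nat_lit 1342659530) (nat_lit 228) (nat_lit 1342659530) (nat_lit 207) (nat_lit 1) (nat_lit 203) (nat_lit 1) (nat_lit 206) (nat_lit 1) (nat_lit 330) (nat_lit 377) (nat_lit 313)))) (XT.nd (nat_lit 78) (nat_lit 532) (nat_lit 0) (XT.lf (nat_lit 76) (nat_lit 669283036) (nat_lit 0) (nat_lit 3965550330) (nat_lit 304) (nat_lit 669283036) (nat_lit 204) (nat_lit 1) (nat_lit 203) (nat_lit 1) (nat_lit 207) (nat_lit 1) (nat_lit 331) (nat_lit 377) (nat_lit 312)) (XT.nd (nat_lit 78) (nat_lit 228) (nat_lit 0) (XT.lf (nat_lit 76) (nat_lit 2622410233) (nat_lit 0) (nat_lit 702120) (nat_lit 304) (nat_lit 2622410233) (nat_lit 200) (nat_lit 1) (nat_lit 199) (nat_lit 1) (nat_lit 203) (nat_lit 1) (nat_lit 332) (nat_lit 377) (nat_lit 311)) (XT.lf (nat_lit 304) (nat_lit 3899653644) (nat_lit 0) (nat_lit 644114108) (nat_lit 228) (nat_lit 644114108) (nat_lit 200) (nat_lit 1) (nat_lit 196) (nat_lit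 1) (nat_lit 199) (nat_lit 1) (nat_lit 333) (nat_lit 377) (nat_lit 310))))) (XT.nd (nat_lit 234) (nat_lit 228) (nat_lit 0) (XT.nd (nat_lit 78) (nat_lit 532) (nat_lit 0) (XT.lf (nat_lit 76) (nat_lit 1277528002) (nat_lit 0) (nat_lit 2575739410) (nat_lit 304) (nat_lit 1277528002) (nat_lit 197) (nat_lit 1) (nat_lit 196) (nat_lit 1) (nat_lit 200) (nat_lit 1) (nat_lit 334) (nat_lit 377) (nat_lit 309)) (XT.nd (nat_lit 78) (nat_lit 304) (nat_lit 0) (XT.lf (nat_lit 304) (nat_lit 1224369058) (nat_lit 0) (nat_lit 1925133560) (nat_lit 228) (nat_lit 1925133560) (nat_lit 197) (nat_lit 1) (nat_lit 193) (nat_lit 1) (nat_lit 196) (nat_lit 1) (nat_lit 335) (nat_lit 377) (nat_lit 308)) (XT.lf (nat_lit 304) (nat_lit 4940812092) (nat_lit 0) (nat_lit 39450641) (nat_lit 228) (nat_lit 39450641) (nat_lit 193) (nat_lit 1) (nat_lit 189) (nat_lit 1) (nat_lit 192) (nat_lit 1) (nat_lit 336) (nat_lit 377) (nat_lit 307)))) (XT.nd (nat_lit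 78) (nat_lit 228) (nat_lit 0) (XT.lf (nat_lit 76) (nat_lit 1798056106) (nat_lit 0) (nat_lit 1368510429) (nat_lit 304) (nat_lit 1798056106) (nat_lit 190) (nat_lit 1) (nat_lit 189) (nat_lit 1) (nat_lit 193) (nat_lit 1) (nat_lit 337) (nat_lit 377) (nat_lit 306)) (XT.nd (nat_lit 78) (nat_lit 0) (nat_lit 0) (XT.lf (nat_lit 304) (nat_lit 2277161582) (nat_lit 0) (nat_lit 1316792067) (nat_lit 228) (nat_lit 1316792067) (nat_lit 190) (nat_lit 1) (nat_lit 186) (nat_lit 1) (nat_lit 189) (nat_lit 1) (nat_lit 338) (nat_lit 377) (nat_lit 305)) (XT.lf (nat_lit 76) (nat_lit 487040417) (nat_lit 0) (nat_lit 3883700503) (nat_lit 304) (nat_lit 487040417) (nat_lit 187) (nat_lit 1) (nat_lit 186) (nat_lit 1) (nat_lit 190) (nat_lit 1) (nat_lit 339) (nat_lit 377) (nat_lit 304))))))))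
noncomputable def ec88 : XT := (XT.nd (nat_lit 1716) (nat_lit 1900) (nat_lit 0) (XT.nd (nat_lit 858) (nat_lit 1292) (nat_lit 0) (XT.nd (nat_lit 390) (nat_lit 532) (nat_lit 0) (XT.nd (nat_lit 156) (nat_lit 456) (nat_lit 0) (XT.nd (nat_lit 78) (nat_lit 228) (nat_lit 0) (XT.lf (nat_lit 76) (nat_lit 2241228225) (nat_lit 0) (nat_lit 322699252) (nat_lit 228) (nat_lit 2241228225) (nat_lit 184) (nat_lit 1) (nat_lit 183) (nat_lit 1) (nat_lit 186) (nat_lit 1) (nat_lit 340) (nat_lit 377) (nat_lit 303)) (XT.lf (nat_lit 304) (nat_lit 3177913555) (nat_lit 0) (nat_lit 787754477) (nat_lit 228) (nat_lit 787754477) (nat_lit 184) (nat_lit 1) (nat_lit 180) (nat_lit 1) (nat_lit 183) (nat_lit 1) (nat_lit 341) (nat_lit 377) (nat_lit 302))) (XT.nd (nat_lit 78) (nat_lit 456) (nat_lit 0) (XT.lf (nat_lit 76) (nat_lit 939951281) (nat_lit 0) (nat_lit 2822377102) (nat_lit 304) (nat_lit 939951281) (nat_lit 181) (nat_lit 1) (nat_lit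 180) (nat_lit 1) (nat_lit 184) (nat_lit 1) (nat_lit 342) (nat_lit 377) (nat_lit 301)) (XT.nd (nat_lit 78) (nat_lit 304) (nat_lit 0) (XT.lf (nat_lit 228) (nat_lit 592027353) (nat_lit 0) (nat_lit 2029896566) (nat_lit 152) (nat_lit 2029896566) (nat_lit 181) (nat_lit 1) (nat_lit 178) (nat_lit 1) (nat_lit 180) (nat_lit 1) (nat_lit 343) (nat_lit 377) (nat_lit 300)) (XT.lf (nat_lit 304) (nat_lit 3944588414) (nat_lit 0) (nat_lit 328843417) (nat_lit 228) (nat_lit 328843417) (nat_lit 178) (nat_lit 1) (nat_lit 174) (nat_lit 1) (nat_lit 177) (nat_lit 1) (nat_lit 344) (nat_lit 377) (nat_lit 299))))) (XT.nd (nat_lit 234) (nat_lit 380) (nat_lit 0) (XT.nd (nat_lit 78) (nat_lit 152) (nat_lit 0) (XT.lf (nat_lit 76) (nat_lit 1327583256) (nat_lit 0) (nat_lit 1897703273) (nat_lit 304) (nat_lit 1327583256) (nat_lit 175) (nat_lit 1) (nat_lit 174) (nat_lit 1) (nat_lit 178) (nat_lit 1) (nat_lit 345) (nat_lit 377) (nat_lit 298))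 (XT.nd (nat_lit 78) (nat_lit 0) (nat_lit 0) (XT.lf (nat_lit 228) (nat_lit 1384695656) (nat_lit 0) (nat_lit 1559832886) (nat_lit 152) (nat_lit 1559832886) (nat_lit 175) (nat_lit 1) (nat_lit 172) (nat_lit 1) (nat_lit 174) (nat_lit 1) (nat_lit 346) (nat_lit 377) (nat_lit 297)) (XT.lf (nat_lit 76) (nat_lit 68759473) (nat_lit 0) (nat_lit 4319347671) (nat_lit 228) (nat_lit 68759473) (nat_lit 173) (nat_lit 1) (nat_lit 172) (nat_lit 1) (nat_lit 175) (nat_lit 1) (nat_lit 347) (nat_lit 377) (nat_lit 296)))) (XT.nd (nat_lit 78) (nat_lit 152) (nat_lit 0) (XT.lf (nat_lit 76) (nat_lit 1657646079) (nat_lit 0) (nat_lit 1093907861) (nat_lit 228) (nat_lit 1657646079) (nat_lit 170) (nat_lit 1) (nat_lit 169) (nat_lit 1) (nat_lit 172) (nat_lit 1) (nat_lit 348) (nat_lit 377) (nat_lit 295)) (XT.nd (nat_lit 78) (nat_lit 0) (nat_lit 0) (XT.lf (nat_lit 228) (nat_lit 2063960876) (nat_lit 0) (nat_lit 1149285566) (nat_lit 152) (nat_lit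 1149285566) (nat_lit 170) (nat_lit 1) (nat_lit 167) (nat_lit 1) (nat_lit 169) (nat_lit 1) (nat_lit 349) (nat_lit 377) (nat_lit 294)) (XT.lf (nat_lit 76) (nat_lit 414320439) (nat_lit 0) (nat_lit 3487987181) (nat_lit 228) (nat_lit 414320439) (nat_lit 168) (nat_lit 1) (nat_lit 167) (nat_lit 1) (nat_lit 170) (nat_lit 1) (nat_lit 350) (nat_lit 377) (nat_lit 293)))))) (XT.nd (nat_lit 390) (nat_lit 532) (nat_lit 0) (XT.nd (nat_lit 156) (nat_lit 380) (nat_lit 0) (XT.nd (nat_lit 78) (nat_lit 152) (nat_lit 0) (XT.lf (nat_lit 76) (nat_lit 1936977218) (nat_lit 0) (nat_lit 396993919) (nat_lit 228) (nat_lit 1936977218) (nat_lit 165) (nat_lit 1) (nat_lit 164) (nat_lit 1) (nat_lit 167) (nat_lit 1) (nat_lit 351) (nat_lit 377) (nat_lit 292)) (XT.lf (nat_lit 228) (nat_lit 2643197379) (nat_lit 0) (nat_lit 791411020) (nat_lit 152) (nat_lit 791411020) (nat_lit 165) (nat_lit 1) (nat_lit 162) (nat_lit 1) (nat_lit 164) (nat_lit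 1) (nat_lit 352) (nat_lit 377) (nat_lit 291))) (XT.nd (nat_lit 78) (nat_lit 380) (nat_lit 0) (XT.lf (nat_lit 76) (nat_lit 711058672) (nat_lit 0) (nat_lit 2759519510) (nat_lit 228) (nat_lit 711058672) (nat_lit 163) (nat_lit 1) (nat_lit 162) (nat_lit 1) (nat_lit 165) (nat_lit 1) (nat_lit 353) (nat_lit 377) (nat_lit 290)) (XT.nd (nat_lit 78) (nat_lit 228) (nat_lit 0) (XT.lf (nat_lit 228) (nat_lit 209548633) (nat_lit 0) (nat_lit 1964105183) (nat_lit 152) (nat_lit 1964105183) (nat_lit 163) (nat_lit 1) (nat_lit 160) (nat_lit 1) (nat_lit 162) (nat_lit 1) (nat_lit 354) (nat_lit 377) (nat_lit 289)) (XT.lf (nat_lit 228) (nat_lit 3134266902) (nat_lit 0) (nat_lit 480134830) (nat_lit 152) (nat_lit 480134830) (nat_lit 160) (nat_lit 1) (nat_lit 157) (nat_lit 1) (nat_lit 159) (nat_lit 1) (nat_lit 355) (nat_lit 377) (nat_lit 288))))) (XT.nd (nat_lit 234) (nat_lit 152) (nat_lit 0) (XT.nd (nat_lit 78) (nat_lit 380) (nat_lit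 0) (XT.lf (nat_lit 76) (nat_lit 964718195) (nat_lit 0) (nat_lit 2122174117) (nat_lit 228) (nat_lit 964718195) (nat_lit 158) (nat_lit 1) (nat_lit 157) (nat_lit 1) (nat_lit 160) (nat_lit 1) (nat_lit 356) (nat_lit 377) (nat_lit 287)) (XT.nd (nat_lit 78) (nat_lit 228) (nat_lit 0) (XT.lf (nat_lit 228) (nat_lit 738892399) (nat_lit 0) (nat_lit 1635218168) (nat_lit 152) (nat_lit 1635218168) (nat_lit 158) (nat_lit 1) (nat_lit 155) (nat_lit 1) (nat_lit 157) (nat_lit 1) (nat_lit 357) (nat_lit 377) (nat_lit 286)) (XT.lf (nat_lit 228) (nat_lit 3547687844) (nat_lit 0) (nat_lit 210065799) (nat_lit 152) (nat_lit 210065799) (nat_lit 155) (nat_lit 1) (nat_lit 152) (nat_lit 1) (nat_lit 154) (nat_lit 1) (nat_lit 358) (nat_lit 377) (nat_lit 285)))) (XT.nd (nat_lit 78) (nat_lit 152) (nat_lit 0) (XT.lf (nat_lit 76) (nat_lit 1180393771) (nat_lit 0) (nat_lit 1565501666) (nat_lit 228) (nat_lit 1180393771) (nat_lit 153) (nat_lit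 1) (nat_lit 152) (nat_lit 1) (nat_lit 155) (nat_lit 1) (nat_lit 359) (nat_lit 377) (nat_lit 284)) (XT.nd (nat_lit 78) (nat_lit 0) (nat_lit 0) (XT.lf (nat_lit 228) (nat_lit 1193109097) (nat_lit 0) (nat_lit 1346206232) (nat_lit 152) (nat_lit 1346206232) (nat_lit 153) (nat_lit 1) (nat_lit 150) (nat_lit 1) (nat_lit 152) (nat_lit 1) (nat_lit 360) (nat_lit 377) (nat_lit 283)) (XT.lf (nat_lit 76) (nat_lit 23813870) (nat_lit 0) (nat_lit 3797969514) (nat_lit 228) (nat_lit 23813870) (nat_lit 151) (nat_lit 1) (nat_lit 150) (nat_lit 1) (nat_lit 153) (nat_lit 1) (nat_lit 361) (nat_lit 377) (nat_lit 282))))))) (XT.nd (nat_lit 858) (nat_lit 684) (nat_lit 0) (XT.nd (nat_lit 390) (nat_lit 608) (nat_lit 0) (XT.nd (nat_lit 156) (nat_lit 304) (nat_lit 0) (XT.nd (nat_lit 78) (nat_lit 152) (nat_lit 0) (XT.lf (nat_lit 76) (nat_lit 1362603558) (nat_lit 0) (nat_lit 1080226449) (nat_lit 152) (nat_lit 1362603558) (nat_lit 149)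 (nat_lit 1) (nat_lit 148) (nat_lit 1) (nat_lit 150) (nat_lit 1) (nat_lit 362) (nat_lit 377) (nat_lit 281)) (XT.lf (nat_lit 228) (nat_lit 1581045251) (nat_lit 0) (nat_lit 1092529587) (nat_lit 152) (nat_lit 1092529587) (nat_lit 149) (nat_lit 1) (nat_lit 146) (nat_lit 1) (nat_lit 148) (nat_lit 1) (nat_lit 363) (nat_lit 377) (nat_lit 280))) (XT.nd (nat_lit 78) (nat_lit 304) (nat_lit 0) (XT.lf (nat_lit 76) (nat_lit 227277287) (nat_lit 0) (nat_lit 3272910282) (nat_lit 228) (nat_lit 227277287) (nat_lit 147) (nat_lit 1) (nat_lit 146) (nat_lit 1) (nat_lit 149) (nat_lit 1) (nat_lit 364) (nat_lit 377) (nat_lit 279)) (XT.nd (nat_lit 78) (nat_lit 152) (nat_lit 0) (XT.lf (nat_lit 76) (nat_lit 1515353652) (nat_lit 0) (nat_lit 658115262) (nat_lit 152) (nat_lit 1515353652) (nat_lit 145) (nat_lit 1) (nat_lit 144) (nat_lit 1) (nat_lit 146) (nat_lit 1) (nat_lit 365) (nat_lit 377) (nat_lit 278)) (XT.lf (nat_lit 228) (nat_lit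 1910547229) (nat_lit 0) (nat_lit 870157404) (nat_lit 152) (nat_lit 870157404) (nat_lit 145) (nat_lit 1) (nat_lit 142) (nat_lit 1) (nat_lit 144) (nat_lit 1) (nat_lit 366) (nat_lit 377) (nat_lit 277))))) (XT.nd (nat_lit 234) (nat_lit 304) (nat_lit 0) (XT.nd (nat_lit 78) (nat_lit 304) (nat_lit 0) (XT.lf (nat_lit 76) (nat_lit 402048433) (nat_lit 0) (nat_lit 2809359327) (nat_lit 228) (nat_lit 402048433) (nat_lit 143) (nat_lit 1) (nat_lit 142) (nat_lit 1) (nat_lit 145) (nat_lit 1) (nat_lit 367) (nat_lit 377) (nat_lit 276)) (XT.nd (nat_lit 78) (nat_lit 152) (nat_lit 0) (XT.lf (nat_lit 76) (nat_lit 1642195432) (nat_lit 0) (nat_lit 291860919) (nat_lit 152) (nat_lit 1642195432) (nat_lit 141) (nat_lit 1) (nat_lit 140) (nat_lit 1) (nat_lit 142) (nat_lit 1) (nat_lit 368) (nat_lit 377) (nat_lit 275)) (XT.lf (nat_lit 228) (nat_lit 2188573168) (nat_lit 0) (nat_lit 675510977) (nat_lit 152) (nat_lit 675510977) (nat_lit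 141) (nat_lit 1) (nat_lit 138) (nat_lit 1) (nat_lit 140) (nat_lit 1) (nat_lit 369) (nat_lit 377) (nat_lit 274)))) (XT.nd (nat_lit 78) (nat_lit 304) (nat_lit 0) (XT.lf (nat_lit 76) (nat_lit 551501725) (nat_lit 0) (nat_lit 2400371543) (nat_lit 228) (nat_lit 551501725) (nat_lit 139) (nat_lit 1) (nat_lit 138) (nat_lit 1) (nat_lit 141) (nat_lit 1) (nat_lit 370) (nat_lit 377) (nat_lit 273)) (XT.nd (nat_lit 78) (nat_lit 228) (nat_lit 0) (XT.lf (nat_lit 152) (nat_lit 25519215) (nat_lit 0) (nat_lit 1721002588) (nat_lit 76) (nat_lit 1721002588) (nat_lit 139) (nat_lit 1) (nat_lit 137) (nat_lit 1) (nat_lit 138) (nat_lit 1) (nat_lit 371) (nat_lit 377) (nat_lit 272)) (XT.lf (nat_lit 228) (nat_lit 2421292409) (nat_lit 0) (nat_lit 505413233) (nat_lit 152) (nat_lit 505413233) (nat_lit 137) (nat_lit 1) (nat_lit 134) (nat_lit 1) (nat_lit 136) (nat_lit 1) (nat_lit 372) (nat_lit 377) (nat_lit 271)))))) (XT.nd (nat_lit 390)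 (nat_lit 304) (nat_lit 0) (XT.nd (nat_lit 156) (nat_lit 304) (nat_lit 0) (XT.nd (nat_lit 78) (nat_lit 76) (nat_lit 0) (XT.lf (nat_lit 76) (nat_lit 678630198) (nat_lit 0) (nat_lit 2039778800) (nat_lit 228) (nat_lit 678630198) (nat_lit 135) (nat_lit 1) (nat_lit 134) (nat_lit 1) (nat_lit 137) (nat_lit 1) (nat_lit 373) (nat_lit 377) (nat_lit 270)) (XT.lf (nat_lit 152) (nat_lit 304221776) (nat_lit 0) (nat_lit 1529088509) (nat_lit 76) (nat_lit 1529088509) (nat_lit 135) (nat_lit 1) (nat_lit 133) (nat_lit 1) (nat_lit 134) (nat_lit 1) (nat_lit 374) (nat_lit 377) (nat_lit 269))) (XT.nd (nat_lit 78) (nat_lit 76) (nat_lit 0) (XT.lf (nat_lit 228) (nat_lit 2614173834) (nat_lit 0) (nat_lit 357043868) (nat_lit 152) (nat_lit 357043868) (nat_lit 133) (nat_lit 1) (nat_lit 130) (nat_lit 1) (nat_lit 132) (nat_lit 1) (nat_lit 375) (nat_lit 377) (nat_lit 268)) (XT.nd (nat_lit 78) (nat_lit 76) (nat_lit 0) (XT.lf (nat_lit 76)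 (nat_lit 786088178) (nat_lit 0) (nat_lit 1722103233) (nat_lit 228) (nat_lit 786088178) (nat_lit 131) (nat_lit 1) (nat_lit 130) (nat_lit 1) (nat_lit 133) (nat_lit 1) (nat_lit 376) (nat_lit 377) (nat_lit 267)) (XT.lf (nat_lit 152) (nat_lit 543644956) (nat_lit 0) (nat_lit 1358575335) (nat_lit 76) (nat_lit 1358575335) (nat_lit 131) (nat_lit 1) (nat_lit 129) (nat_lit 1) (nat_lit 130) (nat_lit 1) (nat_lit 377) (nat_lit 377) (nat_lit 266))))) (XT.nd (nat_lit 44226) (nat_lit 0) (nat_lit 18924) (XT.nd (nat_lit 78) (nat_lit 76) (nat_lit 0) (XT.lf (nat_lit 228) (nat_lit 2772064339) (nat_lit 0) (nat_lit 227899490) (nat_lit 152) (nat_lit 227899490) (nat_lit 129) (nat_lit 1) (nat_lit 126) (nat_lit 1) (nat_lit 128) (nat_lit 1) (nat_lit 378) (nat_lit 377) (nat_lit 265)) (XT.nd (nat_lit 78) (nat_lit 76) (nat_lit 0) (XT.lf (nat_lit 76) (nat_lit 876229201) (nat_lit 0) (nat_lit 1442480193) (nat_lit 228) (nat_lit 876229201)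 (nat_lit 127) (nat_lit 1) (nat_lit 126) (nat_lit 1) (nat_lit 129) (nat_lit 1) (nat_lit 379) (nat_lit 377) (nat_lit 264)) (XT.lf (nat_lit 152) (nat_lit 748407762) (nat_lit 0) (nat_lit 1207076589) (nat_lit 76) (nat_lit 1207076589) (nat_lit 127) (nat_lit 1) (nat_lit 125) (nat_lit 1) (nat_lit 126) (nat_lit 1) (nat_lit 380) (nat_lit 377) (nat_lit 263)))) (XT.nd (nat_lit 78) (nat_lit 0) (nat_lit 0) (XT.lf (nat_lit 1292) (nat_lit 1146777639) (nat_lit 0) (nat_lit 3945448409) (nat_lit 1292) (nat_lit 1146777639) (nat_lit 391) (nat_lit 1) (nat_lit 374) (nat_lit 0) (nat_lit 391) (nat_lit 0) (nat_lit 264) (nat_lit 378) (nat_lit 378)) (XT.nd (nat_lit 78) (nat_lit 0) (nat_lit 76) (XT.lf (nat_lit 1292) (nat_lit 4481627109) (nat_lit 76) (nat_lit 3906767543) (nat_lit 0) (nat_lit 3906767543) (nat_lit 391) (nat_lit 1) (nat_lit 375) (nat_lit 1) (nat_lit 374) (nat_lit 0) (nat_lit 265) (nat_lit 378) (nat_lit 377)) (XT.lf (nat_lit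 1292) (nat_lit 2167421724) (nat_lit 0) (nat_lit 7781506748) (nat_lit 1216) (nat_lit 2167421724) (nat_lit 392) (nat_lit 1) (nat_lit 375) (nat_lit 1) (nat_lit 391) (nat_lit 1) (nat_lit 266) (nat_lit 378) (nat_lit 376))))))))
noncomputable def ec89 : XT := (XT.nd (nat_lit 1716) (nat_lit 6156) (nat_lit 0) (XT.nd (nat_lit 858) (nat_lit 2508) (nat_lit 0) (XT.nd (nat_lit 390) (nat_lit 912) (nat_lit 0) (XT.nd (nat_lit 156) (nat_lit 0) (nat_lit 76) (XT.nd (nat_lit 78) (nat_lit 0) (nat_lit 76) (XT.lf (nat_lit 1292) (nat_lit 4116045760) (nat_lit 76) (nat_lit 3912239269) (nat_lit 0) (nat_lit 3912239269) (nat_lit 392) (nat_lit 1) (nat_lit 376) (nat_lit 1) (nat_lit 375) (nat_lit 1) (nat_lit 267) (nat_lit 378) (nat_lit 375)) (XT.lf (nat_lit 1292) (nat_lit 1931433945) (nat_lit 0) (nat_lit 7905764673) (nat_lit 1216) (nat_lit 1931433945) (nat_lit 393) (nat_lit 1) (nat_lit 376) (nat_lit 1) (nat_lit 392) (nat_lit 1) (nat_lit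 268) (nat_lit 378) (nat_lit 374))) (XT.nd (nat_lit 78) (nat_lit 0) (nat_lit 76) (XT.lf (nat_lit 1292) (nat_lit 3539556636) (nat_lit 76) (nat_lit 4029966623) (nat_lit 0) (nat_lit 4029966623) (nat_lit 393) (nat_lit 1) (nat_lit 377) (nat_lit 1) (nat_lit 376) (nat_lit 1) (nat_lit 269) (nat_lit 378) (nat_lit 373)) (XT.nd (nat_lit 78) (nat_lit 0) (nat_lit 0) (XT.lf (nat_lit 1292) (nat_lit 1595308550) (nat_lit 0) (nat_lit 8243635858) (nat_lit 1216) (nat_lit 1595308550) (nat_lit 394) (nat_lit 1) (nat_lit 377) (nat_lit 1) (nat_lit 393) (nat_lit 1) (nat_lit 270) (nat_lit 378) (nat_lit 372)) (XT.lf (nat_lit 1292) (nat_lit 2771020892) (nat_lit 76) (nat_lit 4250226944) (nat_lit 0) (nat_lit 4250226944) (nat_lit 394) (nat_lit 1) (nat_lit 378) (nat_lit 1) (nat_lit 377) (nat_lit 1) (nat_lit 271) (nat_lit 378) (nat_lit 371))))) (XT.nd (nat_lit 234) (nat_lit 1140) (nat_lit 0) (XT.nd (nat_lit 78) (nat_lit 0) (nat_lit 0)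 (XT.lf (nat_lit 1292) (nat_lit 1168105041) (nat_lit 0) (nat_lit 8776428529) (nat_lit 1216) (nat_lit 1168105041) (nat_lit 395) (nat_lit 1) (nat_lit 378) (nat_lit 1) (nat_lit 394) (nat_lit 1) (nat_lit 272) (nat_lit 378) (nat_lit 370)) (XT.nd (nat_lit 78) (nat_lit 0) (nat_lit 76) (XT.lf (nat_lit 1292) (nat_lit 1828020248) (nat_lit 76) (nat_lit 4563951185) (nat_lit 0) (nat_lit 4563951185) (nat_lit 395) (nat_lit 1) (nat_lit 379) (nat_lit 1) (nat_lit 378) (nat_lit 1) (nat_lit 273) (nat_lit 378) (nat_lit 369)) (XT.lf (nat_lit 1292) (nat_lit 658266424) (nat_lit 0) (nat_lit 9486711161) (nat_lit 1216) (nat_lit 658266424) (nat_lit 396) (nat_lit 1) (nat_lit 379) (nat_lit 1) (nat_lit 395) (nat_lit 1) (nat_lit 274) (nat_lit 378) (nat_lit 368)))) (XT.nd (nat_lit 78) (nat_lit 1216) (nat_lit 0) (XT.lf (nat_lit 1292) (nat_lit 726936169) (nat_lit 76) (nat_lit 4962683620) (nat_lit 0) (nat_lit 4962683620) (nat_lit 396) (nat_lit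 1) (nat_lit 380) (nat_lit 1) (nat_lit 379) (nat_lit 1) (nat_lit 275) (nat_lit 378) (nat_lit 367)) (XT.nd (nat_lit 78) (nat_lit 1292) (nat_lit 0) (XT.lf (nat_lit 1292) (nat_lit 73657410) (nat_lit 0) (nat_lit 10358234683) (nat_lit 1216) (nat_lit 73657410) (nat_lit 397) (nat_lit 1) (nat_lit 380) (nat_lit 1) (nat_lit 396) (nat_lit 1) (nat_lit 276) (nat_lit 378) (nat_lit 366)) (XT.lf (nat_lit 1368) (nat_lit 4926537738) (nat_lit 0) (nat_lit 506887616) (nat_lit 1292) (nat_lit 4926537738) (nat_lit 381) (nat_lit 1) (nat_lit 363) (nat_lit 1) (nat_lit 380) (nat_lit 1) (nat_lit 277) (nat_lit 378) (nat_lit 365)))))) (XT.nd (nat_lit 390) (nat_lit 1824) (nat_lit 0) (XT.nd (nat_lit 156) (nat_lit 684) (nat_lit 0) (XT.nd (nat_lit 78) (nat_lit 0) (nat_lit 76) (XT.lf (nat_lit 1368) (nat_lit 9072931255) (nat_lit 76) (nat_lit 572729080) (nat_lit 0) (nat_lit 572729080) (nat_lit 381) (nat_lit 1) (nat_lit 364) (nat_lit 1) (nat_lit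 363) (nat_lit 1) (nat_lit 278) (nat_lit 378) (nat_lit 364)) (XT.lf (nat_lit 1368) (nat_lit 4112839339) (nat_lit 0) (nat_lit 1852644127) (nat_lit 1292) (nat_lit 4112839339) (nat_lit 382) (nat_lit 1) (nat_lit 364) (nat_lit 1) (nat_lit 381) (nat_lit 1) (nat_lit 279) (nat_lit 378) (nat_lit 363))) (XT.nd (nat_lit 78) (nat_lit 760) (nat_lit 0) (XT.lf (nat_lit 1368) (nat_lit 7384940183) (nat_lit 76) (nat_lit 1278433299) (nat_lit 0) (nat_lit 1278433299) (nat_lit 382) (nat_lit 1) (nat_lit 365) (nat_lit 1) (nat_lit 364) (nat_lit 1) (nat_lit 280) (nat_lit 378) (nat_lit 362)) (XT.nd (nat_lit 78) (nat_lit 836) (nat_lit 0) (XT.lf (nat_lit 76) (nat_lit 3247785498) (nat_lit 0) (nat_lit 3311566298) (nat_lit 1292) (nat_lit 3247785498) (nat_lit 366) (nat_lit 1) (nat_lit 365) (nat_lit 1) (nat_lit 382) (nat_lit 1) (nat_lit 281) (nat_lit 378) (nat_lit 361)) (XT.lf (nat_lit 912) (nat_lit 5599639432) (nat_lit 0) (nat_lit 2037902583)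 (nat_lit 836) (nat_lit 2037902583) (nat_lit 366) (nat_lit 1) (nat_lit 354) (nat_lit 1) (nat_lit 365) (nat_lit 1) (nat_lit 282) (nat_lit 378) (nat_lit 360))))) (XT.nd (nat_lit 234) (nat_lit 1216) (nat_lit 0) (XT.nd (nat_lit 78) (nat_lit 608) (nat_lit 0) (XT.lf (nat_lit 76) (nat_lit 2337180493) (nat_lit 0) (nat_lit 4871611812) (nat_lit 912) (nat_lit 2337180493) (nat_lit 355) (nat_lit 1) (nat_lit 354) (nat_lit 1) (nat_lit 366) (nat_lit 1) (nat_lit 283) (nat_lit 378) (nat_lit 359)) (XT.nd (nat_lit 78) (nat_lit 0) (nat_lit 0) (XT.lf (nat_lit 684) (nat_lit 3728271498) (nat_lit 0) (nat_lit 2845304714) (nat_lit 608) (nat_lit 2845304714) (nat_lit 355) (nat_lit 1) (nat_lit 346) (nat_lit 1) (nat_lit 354) (nat_lit 1) (nat_lit 284) (nat_lit 378) (nat_lit 358)) (XT.lf (nat_lit 76) (nat_lit 1386412217) (nat_lit 0) (nat_lit 6521591173) (nat_lit 684) (nat_lit 1386412217) (nat_lit 347) (nat_lit 1) (nat_lit 346) (nat_lit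 1) (nat_lit 355) (nat_lit 1) (nat_lit 285) (nat_lit 378) (nat_lit 357)))) (XT.nd (nat_lit 78) (nat_lit 608) (nat_lit 0) (XT.lf (nat_lit 684) (nat_lit 1781268759) (nat_lit 0) (nat_lit 3695222242) (nat_lit 608) (nat_lit 3695222242) (nat_lit 347) (nat_lit 1) (nat_lit 338) (nat_lit 1) (nat_lit 346) (nat_lit 1) (nat_lit 286) (nat_lit 378) (nat_lit 356)) (XT.nd (nat_lit 78) (nat_lit 608) (nat_lit 0) (XT.lf (nat_lit 76) (nat_lit 400478510) (nat_lit 0) (nat_lit 8251114035) (nat_lit 684) (nat_lit 400478510) (nat_lit 339) (nat_lit 1) (nat_lit 338) (nat_lit 1) (nat_lit 347) (nat_lit 1) (nat_lit 287) (nat_lit 378) (nat_lit 355)) (XT.lf (nat_lit 76) (nat_lit 4353158324) (nat_lit 0) (nat_lit 227174013) (nat_lit 608) (nat_lit 4353158324) (nat_lit 331) (nat_lit 1) (nat_lit 330) (nat_lit 1) (nat_lit 338) (nat_lit 1) (nat_lit 288) (nat_lit 378) (nat_lit 354))))))) (XT.nd (nat_lit 858) (nat_lit 2964) (nat_lit 0) (XT.nd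 (nat_lit 390) (nat_lit 1520) (nat_lit 0) (XT.nd (nat_lit 156) (nat_lit 1064) (nat_lit 0) (XT.nd (nat_lit 78) (nat_lit 0) (nat_lit 0) (XT.lf (nat_lit 684) (nat_lit 7597950423) (nat_lit 0) (nat_lit 609949003) (nat_lit 608) (nat_lit 609949003) (nat_lit 331) (nat_lit 1) (nat_lit 322) (nat_lit 1) (nat_lit 330) (nat_lit 1) (nat_lit 289) (nat_lit 378) (nat_lit 353)) (XT.lf (nat_lit 76) (nat_lit 3223319739) (nat_lit 0) (nat_lit 2256743854) (nat_lit 684) (nat_lit 3223319739) (nat_lit 323) (nat_lit 1) (nat_lit 322) (nat_lit 1) (nat_lit 331) (nat_lit 1) (nat_lit 290) (nat_lit 378) (nat_lit 352))) (XT.nd (nat_lit 78) (nat_lit 532) (nat_lit 0) (XT.lf (nat_lit 608) (nat_lit 5306736921) (nat_lit 0) (nat_lit 1642435416) (nat_lit 532) (nat_lit 1642435416) (nat_lit 323) (nat_lit 1) (nat_lit 315) (nat_lit 1) (nat_lit 322) (nat_lit 1) (nat_lit 291) (nat_lit 378) (nat_lit 351)) (XT.nd (nat_lit 78) (nat_lit 532) (nat_lit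 0) (XT.lf (nat_lit 76) (nat_lit 2073746729) (nat_lit 0) (nat_lit 4334063968) (nat_lit 608) (nat_lit 2073746729) (nat_lit 316) (nat_lit 1) (nat_lit 315) (nat_lit 1) (nat_lit 323) (nat_lit 1) (nat_lit 292) (nat_lit 378) (nat_lit 350)) (XT.lf (nat_lit 608) (nat_lit 2979523548) (nat_lit 0) (nat_lit 2696975652) (nat_lit 532) (nat_lit 2696975652) (nat_lit 316) (nat_lit 1) (nat_lit 308) (nat_lit 1) (nat_lit 315) (nat_lit 1) (nat_lit 293) (nat_lit 378) (nat_lit 349))))) (XT.nd (nat_lit 234) (nat_lit 456) (nat_lit 0) (XT.nd (nat_lit 78) (nat_lit 1064) (nat_lit 0) (XT.lf (nat_lit 76) (nat_lit 908035972) (nat_lit 0) (nat_lit 6451609141) (nat_lit 608) (nat_lit 908035972) (nat_lit 309) (nat_lit 1) (nat_lit 308) (nat_lit 1) (nat_lit 316) (nat_lit 1) (nat_lit 294) (nat_lit 378) (nat_lit 348)) (XT.nd (nat_lit 78) (nat_lit 608) (nat_lit 0) (XT.lf (nat_lit 532) (nat_lit 623256210) (nat_lit 0) (nat_lit 3769935107) (nat_lit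 456) (nat_lit 3769935107) (nat_lit 309) (nat_lit 1) (nat_lit 302) (nat_lit 1) (nat_lit 308) (nat_lit 1) (nat_lit 295) (nat_lit 378) (nat_lit 347)) (XT.lf (nat_lit 608) (nat_lit 7525439353) (nat_lit 0) (nat_lit 267842182) (nat_lit 532) (nat_lit 267842182) (nat_lit 302) (nat_lit 1) (nat_lit 294) (nat_lit 1) (nat_lit 301) (nat_lit 1) (nat_lit 296) (nat_lit 378) (nat_lit 346)))) (XT.nd (nat_lit 78) (nat_lit 456) (nat_lit 0) (XT.lf (nat_lit 76) (nat_lit 3119173258) (nat_lit 0) (nat_lit 1721400776) (nat_lit 608) (nat_lit 3119173258) (nat_lit 295) (nat_lit 1) (nat_lit 294) (nat_lit 1) (nat_lit 302) (nat_lit 1) (nat_lit 297) (nat_lit 378) (nat_lit 345)) (XT.nd (nat_lit 78) (nat_lit 0) (nat_lit 0) (XT.lf (nat_lit 532) (nat_lit 4971865341) (nat_lit 0) (nat_lit 1444483344) (nat_lit 456) (nat_lit 1444483344) (nat_lit 295) (nat_lit 1) (nat_lit 288) (nat_lit 1) (nat_lit 294) (nat_lit 1) (nat_lit 298) (nat_lit 378)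 (nat_lit 344)) (XT.lf (nat_lit 76) (nat_lit 1846522789) (nat_lit 0) (nat_lit 4070318436) (nat_lit 532) (nat_lit 1846522789) (nat_lit 289) (nat_lit 1) (nat_lit 288) (nat_lit 1) (nat_lit 295) (nat_lit 1) (nat_lit 299) (nat_lit 378) (nat_lit 343)))))) (XT.nd (nat_lit 468) (nat_lit 1216) (nat_lit 0) (XT.nd (nat_lit 234) (nat_lit 836) (nat_lit 0) (XT.nd (nat_lit 78) (nat_lit 456) (nat_lit 0) (XT.lf (nat_lit 532) (nat_lit 2411567911) (nat_lit 0) (nat_lit 2628002340) (nat_lit 456) (nat_lit 2628002340) (nat_lit 289) (nat_lit 1) (nat_lit 282) (nat_lit 1) (nat_lit 288) (nat_lit 1) (nat_lit 300) (nat_lit 378) (nat_lit 342)) (XT.nd (nat_lit 78) (nat_lit 456) (nat_lit 0) (XT.lf (nat_lit 76) (nat_lit 571768962) (nat_lit 0) (nat_lit 6430337840) (nat_lit 532) (nat_lit 571768962) (nat_lit 283) (nat_lit 1) (nat_lit 282) (nat_lit 1) (nat_lit 289) (nat_lit 1) (nat_lit 301) (nat_lit 378) (nat_lit 341)) (XT.lf (nat_lit 76)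 (nat_lit 3666682728) (nat_lit 0) (nat_lit 147662894) (nat_lit 456) (nat_lit 3666682728) (nat_lit 277) (nat_lit 1) (nat_lit 276) (nat_lit 1) (nat_lit 282) (nat_lit 1) (nat_lit 302) (nat_lit 378) (nat_lit 340)))) (XT.nd (nat_lit 78) (nat_lit 380) (nat_lit 0) (XT.lf (nat_lit 532) (nat_lit 5998422684) (nat_lit 0) (nat_lit 695888408) (nat_lit 456) (nat_lit 695888408) (nat_lit 277) (nat_lit 1) (nat_lit 270) (nat_lit 1) (nat_lit 276) (nat_lit 1) (nat_lit 303) (nat_lit 378) (nat_lit 339)) (XT.nd (nat_lit 78) (nat_lit 380) (nat_lit 0) (XT.lf (nat_lit 76) (nat_lit 2321485708) (nat_lit 0) (nat_lit 2657314918) (nat_lit 532) (nat_lit 2321485708) (nat_lit 271) (nat_lit 1) (nat_lit 270) (nat_lit 1) (nat_lit 277) (nat_lit 1) (nat_lit 304) (nat_lit 378) (nat_lit 338)) (XT.lf (nat_lit 456) (nat_lit 3300947205) (nat_lit 0) (nat_lit 1955642997) (nat_lit 380) (nat_lit 1955642997) (nat_lit 271) (nat_lit 1) (nat_lit 265) (nat_lit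 1) (nat_lit 270) (nat_lit 1) (nat_lit 305) (nat_lit 378) (nat_lit 337))))) (XT.nd (nat_lit 234) (nat_lit 380) (nat_lit 0) (XT.nd (nat_lit 78) (nat_lit 836) (nat_lit 0) (XT.lf (nat_lit 76) (nat_lit 982664215) (nat_lit 0) (nat_lit 5160464367) (nat_lit 456) (nat_lit 982664215) (nat_lit 266) (nat_lit 1) (nat_lit 265) (nat_lit 1) (nat_lit 271) (nat_lit 1) (nat_lit 306) (nat_lit 378) (nat_lit 336)) (XT.nd (nat_lit 78) (nat_lit 456) (nat_lit 0) (XT.lf (nat_lit 456) (nat_lit 618018387) (nat_lit 0) (nat_lit 3211189057) (nat_lit 380) (nat_lit 3211189057) (nat_lit 266) (nat_lit 1) (nat_lit 260) (nat_lit 1) (nat_lit 265) (nat_lit 1) (nat_lit 307) (nat_lit 378) (nat_lit 335)) (XT.lf (nat_lit 456) (nat_lit 6267562277) (nat_lit 0) (nat_lit 344671713) (nat_lit 380) (nat_lit 344671713) (nat_lit 260) (nat_lit 1) (nat_lit 254) (nat_lit 1) (nat_lit 259) (nat_lit 1) (nat_lit 308) (nat_lit 378) (nat_lit 334)))) (XT.nd (nat_lit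 78) (nat_lit 380) (nat_lit 0) (XT.lf (nat_lit 76) (nat_lit 2433350170) (nat_lit 0) (nat_lit 2007165876) (nat_lit 456) (nat_lit 2433350170) (nat_lit 255) (nat_lit 1) (nat_lit 254) (nat_lit 1) (nat_lit 260) (nat_lit 1) (nat_lit 309) (nat_lit 378) (nat_lit 333)) (XT.nd (nat_lit 78) (nat_lit 0) (nat_lit 0) (XT.lf (nat_lit 456) (nat_lit 3486962112) (nat_lit 0) (nat_lit 1652855048) (nat_lit 380) (nat_lit 1652855048) (nat_lit 255) (nat_lit 1) (nat_lit 249) (nat_lit 1) (nat_lit 254) (nat_lit 1) (nat_lit 310) (nat_lit 378) (nat_lit 332)) (XT.lf (nat_lit 76) (nat_lit 1056443028) (nat_lit 0) (nat_lit 4599951452) (nat_lit 456) (nat_lit 1056443028) (nat_lit 250) (nat_lit 1) (nat_lit 249) (nat_lit 1) (nat_lit 255) (nat_lit 1) (nat_lit 311) (nat_lit 378) (nat_lit 331))))))))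
noncomputable def ec90 : XT := (XT.nd (nat_lit 1716) (nat_lit 2888) (nat_lit 0) (XT.nd (nat_lit 858) (nat_lit 1900) (nat_lit 0) (XT.nd (nat_lit 390) (nat_lit 1292) (nat_lit 0) (XT.nd (nat_lit 156) (nat_lit 304) (nat_lit 0) (XT.nd (nat_lit 78) (nat_lit 456) (nat_lit 0) (XT.lf (nat_lit 380) (nat_lit 733734069) (nat_lit 0) (nat_lit 2950140250) (nat_lit 304) (nat_lit 2950140250) (nat_lit 250) (nat_lit 1) (nat_lit 245) (nat_lit 1) (nat_lit 249) (nat_lit 1) (nat_lit 312) (nat_lit 378) (nat_lit 330)) (XT.lf (nat_lit 456) (nat_lit 5950412692) (nat_lit 0) (nat_lit 303254052) (nat_lit 380) (nat_lit 303254052) (nat_lit 245) (nat_lit 1) (nat_lit 239) (nat_lit 1) (nat_lit 244) (nat_lit 1) (nat_lit 313) (nat_lit 378) (nat_lit 329))) (XT.nd (nat_lit 78) (nat_lit 304) (nat_lit 0) (XT.lf (nat_lit 76) (nat_lit 2264569369) (nat_lit 0) (nat_lit 1951012334) (nat_lit 456) (nat_lit 2264569369) (nat_lit 240) (nat_lit 1) (nat_lit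 239) (nat_lit 1) (nat_lit 245) (nat_lit 1) (nat_lit 314) (nat_lit 378) (nat_lit 328)) (XT.nd (nat_lit 78) (nat_lit 0) (nat_lit 0) (XT.lf (nat_lit 380) (nat_lit 3130133542) (nat_lit 0) (nat_lit 1637463352) (nat_lit 304) (nat_lit 1637463352) (nat_lit 240) (nat_lit 1) (nat_lit 235) (nat_lit 1) (nat_lit 239) (nat_lit 1) (nat_lit 315) (nat_lit 378) (nat_lit 327)) (XT.lf (nat_lit 76) (nat_lit 870442324) (nat_lit 0) (nat_lit 4590369221) (nat_lit 380) (nat_lit 870442324) (nat_lit 236) (nat_lit 1) (nat_lit 235) (nat_lit 1) (nat_lit 240) (nat_lit 1) (nat_lit 316) (nat_lit 378) (nat_lit 326))))) (XT.nd (nat_lit 234) (nat_lit 608) (nat_lit 0) (XT.nd (nat_lit 78) (nat_lit 380) (nat_lit 0) (XT.lf (nat_lit 380) (nat_lit 347095695) (nat_lit 0) (nat_lit 2955595356) (nat_lit 304) (nat_lit 2955595356) (nat_lit 236) (nat_lit 1) (nat_lit 231) (nat_lit 1) (nat_lit 235) (nat_lit 1) (nat_lit 317) (nat_lit 378) (nat_lit 325))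 (XT.nd (nat_lit 78) (nat_lit 0) (nat_lit 0) (XT.lf (nat_lit 380) (nat_lit 5187122261) (nat_lit 0) (nat_lit 499818330) (nat_lit 304) (nat_lit 499818330) (nat_lit 231) (nat_lit 1) (nat_lit 226) (nat_lit 1) (nat_lit 230) (nat_lit 1) (nat_lit 318) (nat_lit 378) (nat_lit 324)) (XT.lf (nat_lit 76) (nat_lit 1882645972) (nat_lit 0) (nat_lit 2350429783) (nat_lit 380) (nat_lit 1882645972) (nat_lit 227) (nat_lit 1) (nat_lit 226) (nat_lit 1) (nat_lit 231) (nat_lit 1) (nat_lit 319) (nat_lit 378) (nat_lit 323)))) (XT.nd (nat_lit 78) (nat_lit 304) (nat_lit 0) (XT.lf (nat_lit 380) (nat_lit 2361830732) (nat_lit 0) (nat_lit 1842125839) (nat_lit 304) (nat_lit 1842125839) (nat_lit 227) (nat_lit 1) (nat_lit 222) (nat_lit 1) (nat_lit 226) (nat_lit 1) (nat_lit 320) (nat_lit 378) (nat_lit 322)) (XT.nd (nat_lit 78) (nat_lit 304) (nat_lit 0) (XT.lf (nat_lit 76) (nat_lit 487931283) (nat_lit 0) (nat_lit 5001927753) (nat_lit 380)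 (nat_lit 487931283) (nat_lit 223) (nat_lit 1) (nat_lit 222) (nat_lit 1) (nat_lit 227) (nat_lit 1) (nat_lit 321) (nat_lit 378) (nat_lit 321)) (XT.lf (nat_lit 76) (nat_lit 2749666990) (nat_lit 0) (nat_lit 410604269) (nat_lit 304) (nat_lit 2749666990) (nat_lit 219) (nat_lit 1) (nat_lit 218) (nat_lit 1) (nat_lit 222) (nat_lit 1) (nat_lit 322) (nat_lit 378) (nat_lit 320)))))) (XT.nd (nat_lit 390) (nat_lit 988) (nat_lit 0) (XT.nd (nat_lit 156) (nat_lit 608) (nat_lit 0) (XT.nd (nat_lit 78) (nat_lit 0) (nat_lit 0) (XT.lf (nat_lit 380) (nat_lit 4092087764) (nat_lit 0) (nat_lit 875654119) (nat_lit 304) (nat_lit 875654119) (nat_lit 219) (nat_lit 1) (nat_lit 214) (nat_lit 1) (nat_lit 218) (nat_lit 1) (nat_lit 323) (nat_lit 378) (nat_lit 319)) (XT.lf (nat_lit 76) (nat_lit 1342656790) (nat_lit 0) (nat_lit 3092298229) (nat_lit 380) (nat_lit 1342656790) (nat_lit 215) (nat_lit 1) (nat_lit 214) (nat_lit 1) (nat_lit 219)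 (nat_lit 1) (nat_lit 324) (nat_lit 378) (nat_lit 318))) (XT.nd (nat_lit 78) (nat_lit 380) (nat_lit 0) (XT.lf (nat_lit 304) (nat_lit 1289196754) (nat_lit 0) (nat_lit 2211831949) (nat_lit 228) (nat_lit 2211831949) (nat_lit 215) (nat_lit 1) (nat_lit 211) (nat_lit 1) (nat_lit 214) (nat_lit 1) (nat_lit 325) (nat_lit 378) (nat_lit 317)) (XT.nd (nat_lit 78) (nat_lit 0) (nat_lit 0) (XT.lf (nat_lit 380) (nat_lit 5571331782) (nat_lit 0) (nat_lit 39123043) (nat_lit 304) (nat_lit 39123043) (nat_lit 211) (nat_lit 1) (nat_lit 206) (nat_lit 1) (nat_lit 210) (nat_lit 1) (nat_lit 326) (nat_lit 378) (nat_lit 316)) (XT.lf (nat_lit 76) (nat_lit 2075589638) (nat_lit 0) (nat_lit 1434991396) (nat_lit 380) (nat_lit 2075589638) (nat_lit 207) (nat_lit 1) (nat_lit 206) (nat_lit 1) (nat_lit 211) (nat_lit 1) (nat_lit 327) (nat_lit 378) (nat_lit 315))))) (XT.nd (nat_lit 234) (nat_lit 456) (nat_lit 0) (XT.nd (nat_lit 78) (nat_lit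 304) (nat_lit 0) (XT.lf (nat_lit 304) (nat_lit 2758321894) (nat_lit 0) (nat_lit 1382939316) (nat_lit 228) (nat_lit 1382939316) (nat_lit 207) (nat_lit 1) (nat_lit 203) (nat_lit 1) (nat_lit 206) (nat_lit 1) (nat_lit 328) (nat_lit 378) (nat_lit 314)) (XT.nd (nat_lit 78) (nat_lit 304) (nat_lit 0) (XT.lf (nat_lit 76) (nat_lit 689361527) (nat_lit 0) (nat_lit 4084516840) (nat_lit 304) (nat_lit 689361527) (nat_lit 204) (nat_lit 1) (nat_lit 203) (nat_lit 1) (nat_lit 207) (nat_lit 1) (nat_lit 329) (nat_lit 378) (nat_lit 313)) (XT.lf (nat_lit 76) (nat_lit 2701082540) (nat_lit 0) (nat_lit 723184) (nat_lit 304) (nat_lit 2701082540) (nat_lit 200) (nat_lit 1) (nat_lit 199) (nat_lit 1) (nat_lit 203) (nat_lit 1) (nat_lit 330) (nat_lit 378) (nat_lit 312)))) (XT.nd (nat_lit 78) (nat_lit 228) (nat_lit 0) (XT.lf (nat_lit 304) (nat_lit 4016643253) (nat_lit 0) (nat_lit 663437532) (nat_lit 228) (nat_lit 663437532) (nat_lit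 200) (nat_lit 1) (nat_lit 196) (nat_lit 1) (nat_lit 199) (nat_lit 1) (nat_lit 331) (nat_lit 378) (nat_lit 311)) (XT.nd (nat_lit 78) (nat_lit 228) (nat_lit 0) (XT.lf (nat_lit 76) (nat_lit 1315853842) (nat_lit 0) (nat_lit 2653011593) (nat_lit 304) (nat_lit 1315853842) (nat_lit 197) (nat_lit 1) (nat_lit 196) (nat_lit 1) (nat_lit 200) (nat_lit 1) (nat_lit 332) (nat_lit 378) (nat_lit 310)) (XT.lf (nat_lit 304) (nat_lit 1261100129) (nat_lit 0) (nat_lit 1982887566) (nat_lit 228) (nat_lit 1982887566) (nat_lit 197) (nat_lit 1) (nat_lit 193) (nat_lit 1) (nat_lit 196) (nat_lit 1) (nat_lit 333) (nat_lit 378) (nat_lit 309))))))) (XT.nd (nat_lit 858) (nat_lit 1292) (nat_lit 0) (XT.nd (nat_lit 390) (nat_lit 836) (nat_lit 0) (XT.nd (nat_lit 156) (nat_lit 456) (nat_lit 0) (XT.nd (nat_lit 78) (nat_lit 0) (nat_lit 0) (XT.lf (nat_lit 304) (nat_lit 5089036455) (nat_lit 0) (nat_lit 40634160) (nat_lit 228) (nat_lit 40634160)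 (nat_lit 193) (nat_lit 1) (nat_lit 189) (nat_lit 1) (nat_lit 192) (nat_lit 1) (nat_lit 334) (nat_lit 378) (nat_lit 308)) (XT.lf (nat_lit 76) (nat_lit 1851997790) (nat_lit 0) (nat_lit 1409565742) (nat_lit 304) (nat_lit 1851997790) (nat_lit 190) (nat_lit 1) (nat_lit 189) (nat_lit 1) (nat_lit 193) (nat_lit 1) (nat_lit 335) (nat_lit 378) (nat_lit 307))) (XT.nd (nat_lit 78) (nat_lit 228) (nat_lit 0) (XT.lf (nat_lit 304) (nat_lit 2345476429) (nat_lit 0) (nat_lit 1356295829) (nat_lit 228) (nat_lit 1356295829) (nat_lit 190) (nat_lit 1) (nat_lit 186) (nat_lit 1) (nat_lit 189) (nat_lit 1) (nat_lit 336) (nat_lit 378) (nat_lit 306)) (XT.nd (nat_lit 78) (nat_lit 228) (nat_lit 0) (XT.lf (nat_lit 76) (nat_lit 501651629) (nat_lit 0) (nat_lit 4000211518) (nat_lit 304) (nat_lit 501651629) (nat_lit 187) (nat_lit 1) (nat_lit 186) (nat_lit 1) (nat_lit 190) (nat_lit 1) (nat_lit 337) (nat_lit 378) (nat_lit 305)) (XT.lf (nat_lit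 76) (nat_lit 2308465072) (nat_lit 0) (nat_lit 332380229) (nat_lit 228) (nat_lit 2308465072) (nat_lit 184) (nat_lit 1) (nat_lit 183) (nat_lit 1) (nat_lit 186) (nat_lit 1) (nat_lit 338) (nat_lit 378) (nat_lit 304))))) (XT.nd (nat_lit 234) (nat_lit 456) (nat_lit 0) (XT.nd (nat_lit 78) (nat_lit 152) (nat_lit 0) (XT.lf (nat_lit 304) (nat_lit 3273250961) (nat_lit 0) (nat_lit 811387111) (nat_lit 228) (nat_lit 811387111) (nat_lit 184) (nat_lit 1) (nat_lit 180) (nat_lit 1) (nat_lit 183) (nat_lit 1) (nat_lit 339) (nat_lit 378) (nat_lit 303)) (XT.nd (nat_lit 78) (nat_lit 152) (nat_lit 0) (XT.lf (nat_lit 76) (nat_lit 968149820) (nat_lit 0) (nat_lit 2907048415) (nat_lit 304) (nat_lit 968149820) (nat_lit 181) (nat_lit 1) (nat_lit 180) (nat_lit 1) (nat_lit 184) (nat_lit 1) (nat_lit 340) (nat_lit 378) (nat_lit 302)) (XT.lf (nat_lit 228) (nat_lit 609788173) (nat_lit 0) (nat_lit 2090793463) (nat_lit 152) (nat_lit 2090793463)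 (nat_lit 181) (nat_lit 1) (nat_lit 178) (nat_lit 1) (nat_lit 180) (nat_lit 1) (nat_lit 341) (nat_lit 378) (nat_lit 301)))) (XT.nd (nat_lit 78) (nat_lit 152) (nat_lit 0) (XT.lf (nat_lit 304) (nat_lit 4062926067) (nat_lit 0) (nat_lit 338708719) (nat_lit 228) (nat_lit 338708719) (nat_lit 178) (nat_lit 1) (nat_lit 174) (nat_lit 1) (nat_lit 177) (nat_lit 1) (nat_lit 342) (nat_lit 378) (nat_lit 300)) (XT.nd (nat_lit 78) (nat_lit 152) (nat_lit 0) (XT.lf (nat_lit 76) (nat_lit 1367410754) (nat_lit 0) (nat_lit 1954634372) (nat_lit 304) (nat_lit 1367410754) (nat_lit 175) (nat_lit 1) (nat_lit 174) (nat_lit 1) (nat_lit 178) (nat_lit 1) (nat_lit 343) (nat_lit 378) (nat_lit 299)) (XT.lf (nat_lit 228) (nat_lit 1426236526) (nat_lit 0) (nat_lit 1606627872) (nat_lit 152) (nat_lit 1606627872) (nat_lit 175) (nat_lit 1) (nat_lit 172) (nat_lit 1) (nat_lit 174) (nat_lit 1) (nat_lit 344) (nat_lit 378) (nat_lit 298)))))) (XT.nd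 (nat_lit 390) (nat_lit 684) (nat_lit 0) (XT.nd (nat_lit 156) (nat_lit 380) (nat_lit 0) (XT.nd (nat_lit 78) (nat_lit 228) (nat_lit 0) (XT.lf (nat_lit 76) (nat_lit 70822257) (nat_lit 0) (nat_lit 4448928102) (nat_lit 228) (nat_lit 70822257) (nat_lit 173) (nat_lit 1) (nat_lit 172) (nat_lit 1) (nat_lit 175) (nat_lit 1) (nat_lit 345) (nat_lit 378) (nat_lit 297)) (XT.lf (nat_lit 76) (nat_lit 1707375462) (nat_lit 0) (nat_lit 1126725097) (nat_lit 228) (nat_lit 1707375462) (nat_lit 170) (nat_lit 1) (nat_lit 169) (nat_lit 1) (nat_lit 172) (nat_lit 1) (nat_lit 346) (nat_lit 378) (nat_lit 296))) (XT.nd (nat_lit 78) (nat_lit 228) (nat_lit 0) (XT.lf (nat_lit 228) (nat_lit 2125879702) (nat_lit 0) (nat_lit 1183764133) (nat_lit 152) (nat_lit 1183764133) (nat_lit 170) (nat_lit 1) (nat_lit 167) (nat_lit 1) (nat_lit 169) (nat_lit 1) (nat_lit 347) (nat_lit 378) (nat_lit 295)) (XT.nd (nat_lit 78) (nat_lit 228) (nat_lit 0)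 (XT.lf (nat_lit 76) (nat_lit 426750052) (nat_lit 0) (nat_lit 3592626796) (nat_lit 228) (nat_lit 426750052) (nat_lit 168) (nat_lit 1) (nat_lit 167) (nat_lit 1) (nat_lit 170) (nat_lit 1) (nat_lit 348) (nat_lit 378) (nat_lit 294)) (XT.lf (nat_lit 76) (nat_lit 1995086535) (nat_lit 0) (nat_lit 408903737) (nat_lit 228) (nat_lit 1995086535) (nat_lit 165) (nat_lit 1) (nat_lit 164) (nat_lit 1) (nat_lit 167) (nat_lit 1) (nat_lit 349) (nat_lit 378) (nat_lit 293))))) (XT.nd (nat_lit 234) (nat_lit 380) (nat_lit 0) (XT.nd (nat_lit 78) (nat_lit 152) (nat_lit 0) (XT.lf (nat_lit 228) (nat_lit 2722493301) (nat_lit 0) (nat_lit 815153351) (nat_lit 152) (nat_lit 815153351) (nat_lit 165) (nat_lit 1) (nat_lit 162) (nat_lit 1) (nat_lit 164) (nat_lit 1) (nat_lit 350) (nat_lit 378) (nat_lit 292)) (XT.nd (nat_lit 78) (nat_lit 152) (nat_lit 0) (XT.lf (nat_lit 76) (nat_lit 732390432) (nat_lit 0) (nat_lit 2842305095) (nat_lit 228)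 (nat_lit 732390432) (nat_lit 163) (nat_lit 1) (nat_lit 162) (nat_lit 1) (nat_lit 165) (nat_lit 1) (nat_lit 351) (nat_lit 378) (nat_lit 291)) (XT.lf (nat_lit 228) (nat_lit 215835092) (nat_lit 0) (nat_lit 2023028338) (nat_lit 152) (nat_lit 2023028338) (nat_lit 163) (nat_lit 1) (nat_lit 160) (nat_lit 1) (nat_lit 162) (nat_lit 1) (nat_lit 352) (nat_lit 378) (nat_lit 290)))) (XT.nd (nat_lit 78) (nat_lit 152) (nat_lit 0) (XT.lf (nat_lit 228) (nat_lit 3228294909) (nat_lit 0) (nat_lit 494538874) (nat_lit 152) (nat_lit 494538874) (nat_lit 160) (nat_lit 1) (nat_lit 157) (nat_lit 1) (nat_lit 159) (nat_lit 1) (nat_lit 353) (nat_lit 378) (nat_lit 289)) (XT.nd (nat_lit 78) (nat_lit 152) (nat_lit 0) (XT.lf (nat_lit 76) (nat_lit 993659740) (nat_lit 0) (nat_lit 2185839340) (nat_lit 228) (nat_lit 993659740) (nat_lit 158) (nat_lit 1) (nat_lit 157) (nat_lit 1) (nat_lit 160) (nat_lit 1) (nat_lit 354) (nat_lit 378) (nat_lit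 288)) (XT.lf (nat_lit 228) (nat_lit 761059171) (nat_lit 0) (nat_lit 1684274713) (nat_lit 152) (nat_lit 1684274713) (nat_lit 158) (nat_lit 1) (nat_lit 155) (nat_lit 1) (nat_lit 157) (nat_lit 1) (nat_lit 355) (nat_lit 378) (nat_lit 287))))))))
noncomputable def ec91 : XT := (XT.nd (nat_lit 1716) (nat_lit 304) (nat_lit 0) (XT.nd (nat_lit 858) (nat_lit 1064) (nat_lit 0) (XT.nd (nat_lit 390) (nat_lit 608) (nat_lit 0) (XT.nd (nat_lit 156) (nat_lit 304) (nat_lit 0) (XT.nd (nat_lit 78) (nat_lit 0) (nat_lit 0) (XT.lf (nat_lit 228) (nat_lit 3654118480) (nat_lit 0) (nat_lit 216367773) (nat_lit 152) (nat_lit 216367773) (nat_lit 155) (nat_lit 1) (nat_lit 152) (nat_lit 1) (nat_lit 154) (nat_lit 1) (nat_lit 356) (nat_lit 378) (nat_lit 286)) (XT.lf (nat_lit 76) (nat_lit 1215805584) (nat_lit 0) (nat_lit 1612466716) (nat_lit 228) (nat_lit 1215805584) (nat_lit 153) (nat_lit 1) (nat_lit 152) (nat_lit 1) (nat_lit 155) (nat_lit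 1) (nat_lit 357) (nat_lit 378) (nat_lit 285))) (XT.nd (nat_lit 78) (nat_lit 152) (nat_lit 0) (XT.lf (nat_lit 228) (nat_lit 1228902370) (nat_lit 0) (nat_lit 1386592419) (nat_lit 152) (nat_lit 1386592419) (nat_lit 153) (nat_lit 1) (nat_lit 150) (nat_lit 1) (nat_lit 152) (nat_lit 1) (nat_lit 358) (nat_lit 378) (nat_lit 284)) (XT.nd (nat_lit 78) (nat_lit 152) (nat_lit 0) (XT.lf (nat_lit 76) (nat_lit 24528287) (nat_lit 0) (nat_lit 3911908599) (nat_lit 228) (nat_lit 24528287) (nat_lit 151) (nat_lit 1) (nat_lit 150) (nat_lit 1) (nat_lit 153) (nat_lit 1) (nat_lit 359) (nat_lit 378) (nat_lit 283)) (XT.lf (nat_lit 76) (nat_lit 1403481664) (nat_lit 0) (nat_lit 1112633243) (nat_lit 152) (nat_lit 1403481664) (nat_lit 149) (nat_lit 1) (nat_lit 148) (nat_lit 1) (nat_lit 150) (nat_lit 1) (nat_lit 360) (nat_lit 378) (nat_lit 282))))) (XT.nd (nat_lit 234) (nat_lit 304) (nat_lit 0) (XT.nd (nat_lit 78) (nat_lit 152) (nat_lit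 0) (XT.lf (nat_lit 228) (nat_lit 1628476608) (nat_lit 0) (nat_lit 1125305475) (nat_lit 152) (nat_lit 1125305475) (nat_lit 149) (nat_lit 1) (nat_lit 146) (nat_lit 1) (nat_lit 148) (nat_lit 1) (nat_lit 361) (nat_lit 378) (nat_lit 281)) (XT.nd (nat_lit 78) (nat_lit 152) (nat_lit 0) (XT.lf (nat_lit 76) (nat_lit 234095606) (nat_lit 0) (nat_lit 3371097590) (nat_lit 228) (nat_lit 234095606) (nat_lit 147) (nat_lit 1) (nat_lit 146) (nat_lit 1) (nat_lit 149) (nat_lit 1) (nat_lit 362) (nat_lit 378) (nat_lit 280)) (XT.lf (nat_lit 76) (nat_lit 1560814261) (nat_lit 0) (nat_lit 677858720) (nat_lit 152) (nat_lit 1560814261) (nat_lit 145) (nat_lit 1) (nat_lit 144) (nat_lit 1) (nat_lit 146) (nat_lit 1) (nat_lit 363) (nat_lit 378) (nat_lit 279)))) (XT.nd (nat_lit 78) (nat_lit 152) (nat_lit 0) (XT.lf (nat_lit 228) (nat_lit 1967863646) (nat_lit 0) (nat_lit 896262126) (nat_lit 152) (nat_lit 896262126) (nat_lit 145) (nat_lit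 1) (nat_lit 142) (nat_lit 1) (nat_lit 144) (nat_lit 1) (nat_lit 364) (nat_lit 378) (nat_lit 278)) (XT.nd (nat_lit 78) (nat_lit 152) (nat_lit 0) (XT.lf (nat_lit 76) (nat_lit 414109886) (nat_lit 0) (nat_lit 2893640107) (nat_lit 228) (nat_lit 414109886) (nat_lit 143) (nat_lit 1) (nat_lit 142) (nat_lit 1) (nat_lit 145) (nat_lit 1) (nat_lit 365) (nat_lit 378) (nat_lit 277)) (XT.lf (nat_lit 76) (nat_lit 1691461295) (nat_lit 0) (nat_lit 300616747) (nat_lit 152) (nat_lit 1691461295) (nat_lit 141) (nat_lit 1) (nat_lit 140) (nat_lit 1) (nat_lit 142) (nat_lit 1) (nat_lit 366) (nat_lit 378) (nat_lit 276)))))) (XT.nd (nat_lit 390) (nat_lit 608) (nat_lit 0) (XT.nd (nat_lit 156) (nat_lit 304) (nat_lit 0) (XT.nd (nat_lit 78) (nat_lit 0) (nat_lit 0) (XT.lf (nat_lit 228) (nat_lit 2254230363) (nat_lit 0) (nat_lit 695776306) (nat_lit 152) (nat_lit 695776306) (nat_lit 141) (nat_lit 1) (nat_lit 138) (nat_lit 1) (nat_lit 140)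 (nat_lit 1) (nat_lit 367) (nat_lit 378) (nat_lit 275)) (XT.lf (nat_lit 76) (nat_lit 568046777) (nat_lit 0) (nat_lit 2472382689) (nat_lit 228) (nat_lit 568046777) (nat_lit 139) (nat_lit 1) (nat_lit 138) (nat_lit 1) (nat_lit 141) (nat_lit 1) (nat_lit 368) (nat_lit 378) (nat_lit 274))) (XT.nd (nat_lit 78) (nat_lit 228) (nat_lit 0) (XT.lf (nat_lit 152) (nat_lit 26284791) (nat_lit 0) (nat_lit 1772632666) (nat_lit 76) (nat_lit 1772632666) (nat_lit 139) (nat_lit 1) (nat_lit 137) (nat_lit 1) (nat_lit 138) (nat_lit 1) (nat_lit 369) (nat_lit 378) (nat_lit 273)) (XT.nd (nat_lit 78) (nat_lit 0) (nat_lit 0) (XT.lf (nat_lit 228) (nat_lit 2493931181) (nat_lit 0) (nat_lit 520575630) (nat_lit 152) (nat_lit 520575630) (nat_lit 137) (nat_lit 1) (nat_lit 134) (nat_lit 1) (nat_lit 136) (nat_lit 1) (nat_lit 370) (nat_lit 378) (nat_lit 272)) (XT.lf (nat_lit 76) (nat_lit 698989104) (nat_lit 0) (nat_lit 2100972164) (nat_lit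 228) (nat_lit 698989104) (nat_lit 135) (nat_lit 1) (nat_lit 134) (nat_lit 1) (nat_lit 137) (nat_lit 1) (nat_lit 371) (nat_lit 378) (nat_lit 271))))) (XT.nd (nat_lit 234) (nat_lit 304) (nat_lit 0) (XT.nd (nat_lit 78) (nat_lit 228) (nat_lit 0) (XT.lf (nat_lit 152) (nat_lit 313348429) (nat_lit 0) (nat_lit 1574961164) (nat_lit 76) (nat_lit 1574961164) (nat_lit 135) (nat_lit 1) (nat_lit 133) (nat_lit 1) (nat_lit 134) (nat_lit 1) (nat_lit 372) (nat_lit 378) (nat_lit 270)) (XT.nd (nat_lit 78) (nat_lit 0) (nat_lit 0) (XT.lf (nat_lit 228) (nat_lit 2692599049) (nat_lit 0) (nat_lit 367755184) (nat_lit 152) (nat_lit 367755184) (nat_lit 133) (nat_lit 1) (nat_lit 130) (nat_lit 1) (nat_lit 132) (nat_lit 1) (nat_lit 373) (nat_lit 378) (nat_lit 269)) (XT.lf (nat_lit 76) (nat_lit 809670824) (nat_lit 0) (nat_lit 1773766330) (nat_lit 228) (nat_lit 809670824) (nat_lit 131) (nat_lit 1) (nat_lit 130) (nat_lit 1) (nat_lit 133)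 (nat_lit 1) (nat_lit 374) (nat_lit 378) (nat_lit 268)))) (XT.nd (nat_lit 78) (nat_lit 228) (nat_lit 0) (XT.lf (nat_lit 152) (nat_lit 559954304) (nat_lit 0) (nat_lit 1399332595) (nat_lit 76) (nat_lit 1399332595) (nat_lit 131) (nat_lit 1) (nat_lit 129) (nat_lit 1) (nat_lit 130) (nat_lit 1) (nat_lit 375) (nat_lit 378) (nat_lit 267)) (XT.nd (nat_lit 78) (nat_lit 0) (nat_lit 0) (XT.lf (nat_lit 228) (nat_lit 2855226269) (nat_lit 0) (nat_lit 234736475) (nat_lit 152) (nat_lit 234736475) (nat_lit 129) (nat_lit 1) (nat_lit 126) (nat_lit 1) (nat_lit 128) (nat_lit 1) (nat_lit 376) (nat_lit 378) (nat_lit 266)) (XT.lf (nat_lit 76) (nat_lit 902516077) (nat_lit 0) (nat_lit 1485754599) (nat_lit 228) (nat_lit 902516077) (nat_lit 127) (nat_lit 1) (nat_lit 126) (nat_lit 1) (nat_lit 129) (nat_lit 1) (nat_lit 377) (nat_lit 378) (nat_lit 265))))))) (XT.nd (nat_lit 44850) (nat_lit 0) (nat_lit 17024) (XT.nd (nat_lit 44382) (nat_lit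 0) (nat_lit 19304) (XT.nd (nat_lit 44148) (nat_lit 0) (nat_lit 19152) (XT.nd (nat_lit 78) (nat_lit 228) (nat_lit 0) (XT.lf (nat_lit 152) (nat_lit 770859995) (nat_lit 0) (nat_lit 1243288886) (nat_lit 76) (nat_lit 1243288886) (nat_lit 127) (nat_lit 1) (nat_lit 125) (nat_lit 1) (nat_lit 126) (nat_lit 1) (nat_lit 378) (nat_lit 378) (nat_lit 264)) (XT.lf (nat_lit 228) (nat_lit 2986236306) (nat_lit 0) (nat_lit 119230955) (nat_lit 152) (nat_lit 119230955) (nat_lit 125) (nat_lit 1) (nat_lit 122) (nat_lit 1) (nat_lit 124) (nat_lit 1) (nat_lit 379) (nat_lit 378) (nat_lit 263))) (XT.nd (nat_lit 78) (nat_lit 0) (nat_lit 76) (XT.lf (nat_lit 1292) (nat_lit 4616075922) (nat_lit 76) (nat_lit 4023970569) (nat_lit 0) (nat_lit 4023970569) (nat_lit 391) (nat_lit 1) (nat_lit 375) (nat_lit 1) (nat_lit 374) (nat_lit 0) (nat_lit 263) (nat_lit 379) (nat_lit 378)) (XT.nd (nat_lit 78) (nat_lit 0) (nat_lit 0) (XT.lf (nat_lit 1292)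 (nat_lit 2232444376) (nat_lit 0) (nat_lit 8014951950) (nat_lit 1216) (nat_lit 2232444376) (nat_lit 392) (nat_lit 1) (nat_lit 375) (nat_lit 1) (nat_lit 391) (nat_lit 1) (nat_lit 264) (nat_lit 379) (nat_lit 377)) (XT.lf (nat_lit 1292) (nat_lit 4239527132) (nat_lit 76) (nat_lit 4029606447) (nat_lit 0) (nat_lit 4029606447) (nat_lit 392) (nat_lit 1) (nat_lit 376) (nat_lit 1) (nat_lit 375) (nat_lit 1) (nat_lit 265) (nat_lit 379) (nat_lit 376))))) (XT.nd (nat_lit 234) (nat_lit 0) (nat_lit 76) (XT.nd (nat_lit 78) (nat_lit 0) (nat_lit 0) (XT.lf (nat_lit 1292) (nat_lit 1989376963) (nat_lit 0) (nat_lit 8142937613) (nat_lit 1216) (nat_lit 1989376963) (nat_lit 393) (nat_lit 1) (nat_lit 376) (nat_lit 1) (nat_lit 392) (nat_lit 1) (nat_lit 266) (nat_lit 379) (nat_lit 375)) (XT.nd (nat_lit 78) (nat_lit 0) (nat_lit 76) (XT.lf (nat_lit 1292) (nat_lit 3645743335) (nat_lit 76) (nat_lit 4150865622) (nat_lit 0) (nat_lit 4150865622)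 (nat_lit 393) (nat_lit 1) (nat_lit 377) (nat_lit 1) (nat_lit 376) (nat_lit 1) (nat_lit 267) (nat_lit 379) (nat_lit 374)) (XT.lf (nat_lit 1292) (nat_lit 1643167806) (nat_lit 0) (nat_lit 8490944934) (nat_lit 1216) (nat_lit 1643167806) (nat_lit 394) (nat_lit 1) (nat_lit 377) (nat_lit 1) (nat_lit 393) (nat_lit 1) (nat_lit 268) (nat_lit 379) (nat_lit 373)))) (XT.nd (nat_lit 78) (nat_lit 0) (nat_lit 76) (XT.lf (nat_lit 1292) (nat_lit 2854151519) (nat_lit 76) (nat_lit 4377733752) (nat_lit 0) (nat_lit 4377733752) (nat_lit 394) (nat_lit 1) (nat_lit 378) (nat_lit 1) (nat_lit 377) (nat_lit 1) (nat_lit 269) (nat_lit 379) (nat_lit 372)) (XT.nd (nat_lit 78) (nat_lit 0) (nat_lit 0) (XT.lf (nat_lit 1292) (nat_lit 1203148192) (nat_lit 0) (nat_lit 9039721385) (nat_lit 1216) (nat_lit 1203148192) (nat_lit 395) (nat_lit 1) (nat_lit 378) (nat_lit 1) (nat_lit 394) (nat_lit 1) (nat_lit 270) (nat_lit 379) (nat_lit 371)) (XT.lf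 (nat_lit 1292) (nat_lit 1882860855) (nat_lit 76) (nat_lit 4700869721) (nat_lit 0) (nat_lit 4700869721) (nat_lit 395) (nat_lit 1) (nat_lit 379) (nat_lit 1) (nat_lit 378) (nat_lit 1) (nat_lit 271) (nat_lit 379) (nat_lit 370)))))) (XT.nd (nat_lit 468) (nat_lit 1292) (nat_lit 0) (XT.nd (nat_lit 234) (nat_lit 1216) (nat_lit 0) (XT.nd (nat_lit 78) (nat_lit 0) (nat_lit 0) (XT.lf (nat_lit 1292) (nat_lit 678014417) (nat_lit 0) (nat_lit 9771312495) (nat_lit 1216) (nat_lit 678014417) (nat_lit 396) (nat_lit 1) (nat_lit 379) (nat_lit 1) (nat_lit 395) (nat_lit 1) (nat_lit 272) (nat_lit 379) (nat_lit 369)) (XT.nd (nat_lit 78) (nat_lit 0) (nat_lit 76) (XT.lf (nat_lit 1292) (nat_lit 748744254) (nat_lit 76) (nat_lit 5111564128) (nat_lit 0) (nat_lit 5111564128) (nat_lit 396) (nat_lit 1) (nat_lit 380) (nat_lit 1) (nat_lit 379) (nat_lit 1) (nat_lit 273) (nat_lit 379) (nat_lit 368)) (XT.lf (nat_lit 1292) (nat_lit 75867132)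 (nat_lit 0) (nat_lit 10668981724) (nat_lit 1216) (nat_lit 75867132) (nat_lit 397) (nat_lit 1) (nat_lit 380) (nat_lit 1) (nat_lit 396) (nat_lit 1) (nat_lit 274) (nat_lit 379) (nat_lit 367)))) (XT.nd (nat_lit 78) (nat_lit 0) (nat_lit 0) (XT.lf (nat_lit 1368) (nat_lit 5074333870) (nat_lit 0) (nat_lit 522094244) (nat_lit 1292) (nat_lit 5074333870) (nat_lit 381) (nat_lit 1) (nat_lit 363) (nat_lit 1) (nat_lit 380) (nat_lit 1) (nat_lit 275) (nat_lit 379) (nat_lit 366)) (XT.nd (nat_lit 78) (nat_lit 0) (nat_lit 76) (XT.lf (nat_lit 1368) (nat_lit 9345119193) (nat_lit 76) (nat_lit 589910952) (nat_lit 0) (nat_lit 589910952) (nat_lit 381) (nat_lit 1) (nat_lit 364) (nat_lit 1) (nat_lit 363) (nat_lit 1) (nat_lit 276) (nat_lit 379) (nat_lit 365)) (XT.lf (nat_lit 1368) (nat_lit 4236224519) (nat_lit 0) (nat_lit 1908223451) (nat_lit 1292) (nat_lit 4236224519) (nat_lit 382) (nat_lit 1) (nat_lit 364) (nat_lit 1) (nat_lit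 381) (nat_lit 1) (nat_lit 277) (nat_lit 379) (nat_lit 364))))) (XT.nd (nat_lit 234) (nat_lit 608) (nat_lit 0) (XT.nd (nat_lit 78) (nat_lit 760) (nat_lit 0) (XT.lf (nat_lit 1368) (nat_lit 7606488388) (nat_lit 76) (nat_lit 1316786298) (nat_lit 0) (nat_lit 1316786298) (nat_lit 382) (nat_lit 1) (nat_lit 365) (nat_lit 1) (nat_lit 364) (nat_lit 1) (nat_lit 278) (nat_lit 379) (nat_lit 363)) (XT.nd (nat_lit 78) (nat_lit 836) (nat_lit 0) (XT.lf (nat_lit 76) (nat_lit 3345219063) (nat_lit 0) (nat_lit 3410913287) (nat_lit 1292) (nat_lit 3345219063) (nat_lit 366) (nat_lit 1) (nat_lit 365) (nat_lit 1) (nat_lit 382) (nat_lit 1) (nat_lit 279) (nat_lit 379) (nat_lit 362)) (XT.lf (nat_lit 912) (nat_lit 5767628615) (nat_lit 0) (nat_lit 2099039661) (nat_lit 836) (nat_lit 2099039661) (nat_lit 366) (nat_lit 1) (nat_lit 354) (nat_lit 1) (nat_lit 365) (nat_lit 1) (nat_lit 280) (nat_lit 379) (nat_lit 361)))) (XT.nd (nat_lit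 78) (nat_lit 608) (nat_lit 0) (XT.lf (nat_lit 76) (nat_lit 2407295908) (nat_lit 0) (nat_lit 5017760167) (nat_lit 912) (nat_lit 2407295908) (nat_lit 355) (nat_lit 1) (nat_lit 354) (nat_lit 1) (nat_lit 366) (nat_lit 1) (nat_lit 281) (nat_lit 379) (nat_lit 360)) (XT.nd (nat_lit 78) (nat_lit 0) (nat_lit 0) (XT.lf (nat_lit 684) (nat_lit 3840119643) (nat_lit 0) (nat_lit 2930663856) (nat_lit 608) (nat_lit 2930663856) (nat_lit 355) (nat_lit 1) (nat_lit 346) (nat_lit 1) (nat_lit 354) (nat_lit 1) (nat_lit 282) (nat_lit 379) (nat_lit 359)) (XT.lf (nat_lit 76) (nat_lit 1428004584) (nat_lit 0) (nat_lit 6717238908) (nat_lit 684) (nat_lit 1428004584) (nat_lit 347) (nat_lit 1) (nat_lit 346) (nat_lit 1) (nat_lit 355) (nat_lit 1) (nat_lit 283) (nat_lit 379) (nat_lit 358))))))))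
noncomputable def ec92 : XT := (XT.nd (nat_lit 1716) (nat_lit 4332) (nat_lit 0) (XT.nd (nat_lit 858) (nat_lit 2584) (nat_lit 0) (XT.nd (nat_lit 390) (nat_lit 2128) (nat_lit 0) (XT.nd (nat_lit 156) (nat_lit 1216) (nat_lit 0) (XT.nd (nat_lit 78) (nat_lit 0) (nat_lit 0) (XT.lf (nat_lit 684) (nat_lit 1834706822) (nat_lit 0) (nat_lit 3806078910) (nat_lit 608) (nat_lit 3806078910) (nat_lit 347) (nat_lit 1) (nat_lit 338) (nat_lit 1) (nat_lit 346) (nat_lit 1) (nat_lit 284) (nat_lit 379) (nat_lit 357)) (XT.lf (nat_lit 76) (nat_lit 412492866) (nat_lit 0) (nat_lit 8498647456) (nat_lit 684) (nat_lit 412492866) (nat_lit 339) (nat_lit 1) (nat_lit 338) (nat_lit 1) (nat_lit 347) (nat_lit 1) (nat_lit 285) (nat_lit 379) (nat_lit 356))) (XT.nd (nat_lit 78) (nat_lit 608) (nat_lit 0) (XT.lf (nat_lit 76) (nat_lit 4483753074) (nat_lit 0) (nat_lit 233989234) (nat_lit 608) (nat_lit 4483753074) (nat_lit 331) (nat_lit 1) (nat_lit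 330) (nat_lit 1) (nat_lit 338) (nat_lit 1) (nat_lit 286) (nat_lit 379) (nat_lit 355)) (XT.nd (nat_lit 78) (nat_lit 0) (nat_lit 0) (XT.lf (nat_lit 684) (nat_lit 7825888936) (nat_lit 0) (nat_lit 628247473) (nat_lit 608) (nat_lit 628247473) (nat_lit 331) (nat_lit 1) (nat_lit 322) (nat_lit 1) (nat_lit 330) (nat_lit 1) (nat_lit 287) (nat_lit 379) (nat_lit 354)) (XT.lf (nat_lit 76) (nat_lit 3320019331) (nat_lit 0) (nat_lit 2324446170) (nat_lit 684) (nat_lit 3320019331) (nat_lit 323) (nat_lit 1) (nat_lit 322) (nat_lit 1) (nat_lit 331) (nat_lit 1) (nat_lit 288) (nat_lit 379) (nat_lit 353))))) (XT.nd (nat_lit 234) (nat_lit 1064) (nat_lit 0) (XT.nd (nat_lit 78) (nat_lit 532) (nat_lit 0) (XT.lf (nat_lit 608) (nat_lit 5465939028) (nat_lit 0) (nat_lit 1691708479) (nat_lit 532) (nat_lit 1691708479) (nat_lit 323) (nat_lit 1) (nat_lit 315) (nat_lit 1) (nat_lit 322) (nat_lit 1) (nat_lit 289) (nat_lit 379) (nat_lit 352))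 (XT.nd (nat_lit 78) (nat_lit 532) (nat_lit 0) (XT.lf (nat_lit 76) (nat_lit 2135959131) (nat_lit 0) (nat_lit 4464085887) (nat_lit 608) (nat_lit 2135959131) (nat_lit 316) (nat_lit 1) (nat_lit 315) (nat_lit 1) (nat_lit 323) (nat_lit 1) (nat_lit 290) (nat_lit 379) (nat_lit 351)) (XT.lf (nat_lit 608) (nat_lit 3068909254) (nat_lit 0) (nat_lit 2777884922) (nat_lit 532) (nat_lit 2777884922) (nat_lit 316) (nat_lit 1) (nat_lit 308) (nat_lit 1) (nat_lit 315) (nat_lit 1) (nat_lit 291) (nat_lit 379) (nat_lit 350)))) (XT.nd (nat_lit 78) (nat_lit 1064) (nat_lit 0) (XT.lf (nat_lit 76) (nat_lit 935277051) (nat_lit 0) (nat_lit 6645157415) (nat_lit 608) (nat_lit 935277051) (nat_lit 309) (nat_lit 1) (nat_lit 308) (nat_lit 1) (nat_lit 316) (nat_lit 1) (nat_lit 292) (nat_lit 379) (nat_lit 349)) (XT.nd (nat_lit 78) (nat_lit 608) (nat_lit 0) (XT.lf (nat_lit 532) (nat_lit 641953896) (nat_lit 0) (nat_lit 3883033160) (nat_lit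 456) (nat_lit 3883033160) (nat_lit 309) (nat_lit 1) (nat_lit 302) (nat_lit 1) (nat_lit 308) (nat_lit 1) (nat_lit 293) (nat_lit 379) (nat_lit 348)) (XT.lf (nat_lit 608) (nat_lit 7751202533) (nat_lit 0) (nat_lit 275877448) (nat_lit 532) (nat_lit 275877448) (nat_lit 302) (nat_lit 1) (nat_lit 294) (nat_lit 1) (nat_lit 301) (nat_lit 1) (nat_lit 294) (nat_lit 379) (nat_lit 347)))))) (XT.nd (nat_lit 390) (nat_lit 1672) (nat_lit 0) (XT.nd (nat_lit 156) (nat_lit 456) (nat_lit 0) (XT.nd (nat_lit 78) (nat_lit 456) (nat_lit 0) (XT.lf (nat_lit 76) (nat_lit 3212748455) (nat_lit 0) (nat_lit 1773042799) (nat_lit 608) (nat_lit 3212748455) (nat_lit 295) (nat_lit 1) (nat_lit 294) (nat_lit 1) (nat_lit 302) (nat_lit 1) (nat_lit 295) (nat_lit 379) (nat_lit 346)) (XT.lf (nat_lit 532) (nat_lit 5121021301) (nat_lit 0) (nat_lit 1487817844) (nat_lit 456) (nat_lit 1487817844) (nat_lit 295) (nat_lit 1) (nat_lit 288) (nat_lit 1)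 (nat_lit 294) (nat_lit 1) (nat_lit 296) (nat_lit 379) (nat_lit 345))) (XT.nd (nat_lit 78) (nat_lit 456) (nat_lit 0) (XT.lf (nat_lit 76) (nat_lit 1901918473) (nat_lit 0) (nat_lit 4192427989) (nat_lit 532) (nat_lit 1901918473) (nat_lit 289) (nat_lit 1) (nat_lit 288) (nat_lit 1) (nat_lit 295) (nat_lit 1) (nat_lit 297) (nat_lit 379) (nat_lit 344)) (XT.nd (nat_lit 78) (nat_lit 0) (nat_lit 0) (XT.lf (nat_lit 532) (nat_lit 2483914948) (nat_lit 0) (nat_lit 2706842410) (nat_lit 456) (nat_lit 2706842410) (nat_lit 289) (nat_lit 1) (nat_lit 282) (nat_lit 1) (nat_lit 288) (nat_lit 1) (nat_lit 298) (nat_lit 379) (nat_lit 343)) (XT.lf (nat_lit 76) (nat_lit 588922031) (nat_lit 0) (nat_lit 6623247975) (nat_lit 532) (nat_lit 588922031) (nat_lit 283) (nat_lit 1) (nat_lit 282) (nat_lit 1) (nat_lit 289) (nat_lit 1) (nat_lit 299) (nat_lit 379) (nat_lit 342))))) (XT.nd (nat_lit 234) (nat_lit 760) (nat_lit 0) (XT.nd (nat_lit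 78) (nat_lit 456) (nat_lit 0) (XT.lf (nat_lit 76) (nat_lit 3776683210) (nat_lit 0) (nat_lit 152092781) (nat_lit 456) (nat_lit 3776683210) (nat_lit 277) (nat_lit 1) (nat_lit 276) (nat_lit 1) (nat_lit 282) (nat_lit 1) (nat_lit 300) (nat_lit 379) (nat_lit 341)) (XT.nd (nat_lit 78) (nat_lit 0) (nat_lit 0) (XT.lf (nat_lit 532) (nat_lit 6178375365) (nat_lit 0) (nat_lit 716765060) (nat_lit 456) (nat_lit 716765060) (nat_lit 277) (nat_lit 1) (nat_lit 270) (nat_lit 1) (nat_lit 276) (nat_lit 1) (nat_lit 301) (nat_lit 379) (nat_lit 340)) (XT.lf (nat_lit 76) (nat_lit 2391130279) (nat_lit 0) (nat_lit 2737034366) (nat_lit 532) (nat_lit 2391130279) (nat_lit 271) (nat_lit 1) (nat_lit 270) (nat_lit 1) (nat_lit 277) (nat_lit 1) (nat_lit 302) (nat_lit 379) (nat_lit 339)))) (XT.nd (nat_lit 78) (nat_lit 380) (nat_lit 0) (XT.lf (nat_lit 456) (nat_lit 3399975621) (nat_lit 0) (nat_lit 2014312287) (nat_lit 380) (nat_lit 2014312287)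 (nat_lit 271) (nat_lit 1) (nat_lit 265) (nat_lit 1) (nat_lit 270) (nat_lit 1) (nat_lit 303) (nat_lit 379) (nat_lit 338)) (XT.nd (nat_lit 78) (nat_lit 380) (nat_lit 0) (XT.lf (nat_lit 76) (nat_lit 1012144142) (nat_lit 0) (nat_lit 5315278298) (nat_lit 456) (nat_lit 1012144142) (nat_lit 266) (nat_lit 1) (nat_lit 265) (nat_lit 1) (nat_lit 271) (nat_lit 1) (nat_lit 304) (nat_lit 379) (nat_lit 337)) (XT.lf (nat_lit 456) (nat_lit 636558939) (nat_lit 0) (nat_lit 3307524728) (nat_lit 380) (nat_lit 3307524728) (nat_lit 266) (nat_lit 1) (nat_lit 260) (nat_lit 1) (nat_lit 265) (nat_lit 1) (nat_lit 305) (nat_lit 379) (nat_lit 336))))))) (XT.nd (nat_lit 858) (nat_lit 1748) (nat_lit 0) (XT.nd (nat_lit 390) (nat_lit 1444) (nat_lit 0) (XT.nd (nat_lit 156) (nat_lit 684) (nat_lit 0) (XT.nd (nat_lit 78) (nat_lit 0) (nat_lit 0) (XT.lf (nat_lit 456) (nat_lit 6455589146) (nat_lit 0) (nat_lit 355011865) (nat_lit 380) (nat_lit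 355011865) (nat_lit 260) (nat_lit 1) (nat_lit 254) (nat_lit 1) (nat_lit 259) (nat_lit 1) (nat_lit 306) (nat_lit 379) (nat_lit 335)) (XT.lf (nat_lit 76) (nat_lit 2506350675) (nat_lit 0) (nat_lit 2067380853) (nat_lit 456) (nat_lit 2506350675) (nat_lit 255) (nat_lit 1) (nat_lit 254) (nat_lit 1) (nat_lit 260) (nat_lit 1) (nat_lit 307) (nat_lit 379) (nat_lit 334))) (XT.nd (nat_lit 78) (nat_lit 304) (nat_lit 0) (XT.lf (nat_lit 456) (nat_lit 3591570975) (nat_lit 0) (nat_lit 1702440699) (nat_lit 380) (nat_lit 1702440699) (nat_lit 255) (nat_lit 1) (nat_lit 249) (nat_lit 1) (nat_lit 254) (nat_lit 1) (nat_lit 308) (nat_lit 379) (nat_lit 333)) (XT.nd (nat_lit 78) (nat_lit 304) (nat_lit 0) (XT.lf (nat_lit 76) (nat_lit 1088136319) (nat_lit 0) (nat_lit 4737949995) (nat_lit 456) (nat_lit 1088136319) (nat_lit 250) (nat_lit 1) (nat_lit 249) (nat_lit 1) (nat_lit 255) (nat_lit 1) (nat_lit 309) (nat_lit 379) (nat_lit 332))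 (XT.lf (nat_lit 380) (nat_lit 755746091) (nat_lit 0) (nat_lit 3038644457) (nat_lit 304) (nat_lit 3038644457) (nat_lit 250) (nat_lit 1) (nat_lit 245) (nat_lit 1) (nat_lit 249) (nat_lit 1) (nat_lit 310) (nat_lit 379) (nat_lit 331))))) (XT.nd (nat_lit 234) (nat_lit 684) (nat_lit 0) (XT.nd (nat_lit 78) (nat_lit 304) (nat_lit 0) (XT.lf (nat_lit 456) (nat_lit 6128925073) (nat_lit 0) (nat_lit 312351673) (nat_lit 380) (nat_lit 312351673) (nat_lit 245) (nat_lit 1) (nat_lit 239) (nat_lit 1) (nat_lit 244) (nat_lit 1) (nat_lit 311) (nat_lit 379) (nat_lit 330)) (XT.nd (nat_lit 78) (nat_lit 304) (nat_lit 0) (XT.lf (nat_lit 76) (nat_lit 2332506450) (nat_lit 0) (nat_lit 2009542704) (nat_lit 456) (nat_lit 2332506450) (nat_lit 240) (nat_lit 1) (nat_lit 239) (nat_lit 1) (nat_lit 245) (nat_lit 1) (nat_lit 312) (nat_lit 379) (nat_lit 329)) (XT.lf (nat_lit 380) (nat_lit 3224037549) (nat_lit 0) (nat_lit 1686587253) (nat_lit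 304) (nat_lit 1686587253) (nat_lit 240) (nat_lit 1) (nat_lit 235) (nat_lit 1) (nat_lit 239) (nat_lit 1) (nat_lit 313) (nat_lit 379) (nat_lit 328)))) (XT.nd (nat_lit 78) (nat_lit 684) (nat_lit 0) (XT.lf (nat_lit 76) (nat_lit 896555594) (nat_lit 0) (nat_lit 4728080298) (nat_lit 380) (nat_lit 896555594) (nat_lit 236) (nat_lit 1) (nat_lit 235) (nat_lit 1) (nat_lit 240) (nat_lit 1) (nat_lit 314) (nat_lit 379) (nat_lit 327)) (XT.nd (nat_lit 78) (nat_lit 380) (nat_lit 0) (XT.lf (nat_lit 380) (nat_lit 357508566) (nat_lit 0) (nat_lit 3044263217) (nat_lit 304) (nat_lit 3044263217) (nat_lit 236) (nat_lit 1) (nat_lit 231) (nat_lit 1) (nat_lit 235) (nat_lit 1) (nat_lit 315) (nat_lit 379) (nat_lit 326)) (XT.lf (nat_lit 380) (nat_lit 5342735929) (nat_lit 0) (nat_lit 514812880) (nat_lit 304) (nat_lit 514812880) (nat_lit 231) (nat_lit 1) (nat_lit 226) (nat_lit 1) (nat_lit 230) (nat_lit 1) (nat_lit 316) (nat_lit 379)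 (nat_lit 325)))))) (XT.nd (nat_lit 390) (nat_lit 836) (nat_lit 0) (XT.nd (nat_lit 156) (nat_lit 608) (nat_lit 0) (XT.nd (nat_lit 78) (nat_lit 304) (nat_lit 0) (XT.lf (nat_lit 76) (nat_lit 1939125351) (nat_lit 0) (nat_lit 2420942677) (nat_lit 380) (nat_lit 1939125351) (nat_lit 227) (nat_lit 1) (nat_lit 226) (nat_lit 1) (nat_lit 231) (nat_lit 1) (nat_lit 317) (nat_lit 379) (nat_lit 324)) (XT.lf (nat_lit 380) (nat_lit 2432685653) (nat_lit 0) (nat_lit 1897389614) (nat_lit 304) (nat_lit 1897389614) (nat_lit 227) (nat_lit 1) (nat_lit 222) (nat_lit 1) (nat_lit 226) (nat_lit 1) (nat_lit 318) (nat_lit 379) (nat_lit 323))) (XT.nd (nat_lit 78) (nat_lit 608) (nat_lit 0) (XT.lf (nat_lit 76) (nat_lit 502569222) (nat_lit 0) (nat_lit 5151985586) (nat_lit 380) (nat_lit 502569222) (nat_lit 223) (nat_lit 1) (nat_lit 222) (nat_lit 1) (nat_lit 227) (nat_lit 1) (nat_lit 319) (nat_lit 379) (nat_lit 322)) (XT.nd (nat_lit 78)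 (nat_lit 304) (nat_lit 0) (XT.lf (nat_lit 76) (nat_lit 2832157000) (nat_lit 0) (nat_lit 422922397) (nat_lit 304) (nat_lit 2832157000) (nat_lit 219) (nat_lit 1) (nat_lit 218) (nat_lit 1) (nat_lit 222) (nat_lit 1) (nat_lit 320) (nat_lit 379) (nat_lit 321)) (XT.lf (nat_lit 380) (nat_lit 4214850397) (nat_lit 0) (nat_lit 901923743) (nat_lit 304) (nat_lit 901923743) (nat_lit 219) (nat_lit 1) (nat_lit 214) (nat_lit 1) (nat_lit 218) (nat_lit 1) (nat_lit 321) (nat_lit 379) (nat_lit 320))))) (XT.nd (nat_lit 234) (nat_lit 228) (nat_lit 0) (XT.nd (nat_lit 78) (nat_lit 608) (nat_lit 0) (XT.lf (nat_lit 76) (nat_lit 1382936494) (nat_lit 0) (nat_lit 3185067176) (nat_lit 380) (nat_lit 1382936494) (nat_lit 215) (nat_lit 1) (nat_lit 214) (nat_lit 1) (nat_lit 219) (nat_lit 1) (nat_lit 322) (nat_lit 379) (nat_lit 319)) (XT.nd (nat_lit 78) (nat_lit 380) (nat_lit 0) (XT.lf (nat_lit 304) (nat_lit 1327872656) (nat_lit 0) (nat_lit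 2278186908) (nat_lit 228) (nat_lit 2278186908) (nat_lit 215) (nat_lit 1) (nat_lit 211) (nat_lit 1) (nat_lit 214) (nat_lit 1) (nat_lit 323) (nat_lit 379) (nat_lit 318)) (XT.lf (nat_lit 380) (nat_lit 5738471736) (nat_lit 0) (nat_lit 40296734) (nat_lit 304) (nat_lit 40296734) (nat_lit 211) (nat_lit 1) (nat_lit 206) (nat_lit 1) (nat_lit 210) (nat_lit 1) (nat_lit 324) (nat_lit 379) (nat_lit 317)))) (XT.nd (nat_lit 78) (nat_lit 228) (nat_lit 0) (XT.lf (nat_lit 76) (nat_lit 2137857327) (nat_lit 0) (nat_lit 1478041138) (nat_lit 380) (nat_lit 2137857327) (nat_lit 207) (nat_lit 1) (nat_lit 206) (nat_lit 1) (nat_lit 211) (nat_lit 1) (nat_lit 325) (nat_lit 379) (nat_lit 316)) (XT.nd (nat_lit 78) (nat_lit 0) (nat_lit 0) (XT.lf (nat_lit 304) (nat_lit 2841071550) (nat_lit 0) (nat_lit 1424427496) (nat_lit 228) (nat_lit 1424427496) (nat_lit 207) (nat_lit 1) (nat_lit 203) (nat_lit 1) (nat_lit 206) (nat_lit 1) (nat_lit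 326) (nat_lit 379) (nat_lit 315)) (XT.lf (nat_lit 76) (nat_lit 710042373) (nat_lit 0) (nat_lit 4207052345) (nat_lit 304) (nat_lit 710042373) (nat_lit 204) (nat_lit 1) (nat_lit 203) (nat_lit 1) (nat_lit 207) (nat_lit 1) (nat_lit 327) (nat_lit 379) (nat_lit 314))))))))
noncomputable def ec93 : XT := (XT.nd (nat_lit 1716) (nat_lit 2432) (nat_lit 0) (XT.nd (nat_lit 858) (nat_lit 1368) (nat_lit 0) (XT.nd (nat_lit 390) (nat_lit 684) (nat_lit 0) (XT.nd (nat_lit 156) (nat_lit 532) (nat_lit 0) (XT.nd (nat_lit 78) (nat_lit 228) (nat_lit 0) (XT.lf (nat_lit 76) (nat_lit 2782115016) (nat_lit 0) (nat_lit 744879) (nat_lit 304) (nat_lit 2782115016) (nat_lit 200) (nat_lit 1) (nat_lit 199) (nat_lit 1) (nat_lit 203) (nat_lit 1) (nat_lit 328) (nat_lit 379) (nat_lit 313)) (XT.lf (nat_lit 304) (nat_lit 4137142551) (nat_lit 0) (nat_lit 683340658) (nat_lit 228) (nat_lit 683340658) (nat_lit 200) (nat_lit 1) (nat_lit 196) (nat_lit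 1) (nat_lit 199) (nat_lit 1) (nat_lit 329) (nat_lit 379) (nat_lit 312))) (XT.nd (nat_lit 78) (nat_lit 532) (nat_lit 0) (XT.lf (nat_lit 76) (nat_lit 1355329458) (nat_lit 0) (nat_lit 2732601941) (nat_lit 304) (nat_lit 1355329458) (nat_lit 197) (nat_lit 1) (nat_lit 196) (nat_lit 1) (nat_lit 200) (nat_lit 1) (nat_lit 330) (nat_lit 379) (nat_lit 311)) (XT.nd (nat_lit 78) (nat_lit 304) (nat_lit 0) (XT.lf (nat_lit 304) (nat_lit 1298933133) (nat_lit 0) (nat_lit 2042374193) (nat_lit 228) (nat_lit 2042374193) (nat_lit 197) (nat_lit 1) (nat_lit 193) (nat_lit 1) (nat_lit 196) (nat_lit 1) (nat_lit 331) (nat_lit 379) (nat_lit 310)) (XT.lf (nat_lit 304) (nat_lit 5241707548) (nat_lit 0) (nat_lit 41853185) (nat_lit 228) (nat_lit 41853185) (nat_lit 193) (nat_lit 1) (nat_lit 189) (nat_lit 1) (nat_lit 192) (nat_lit 1) (nat_lit 332) (nat_lit 379) (nat_lit 309))))) (XT.nd (nat_lit 234) (nat_lit 456) (nat_lit 0) (XT.nd (nat_lit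 78) (nat_lit 228) (nat_lit 0) (XT.lf (nat_lit 76) (nat_lit 1907557723) (nat_lit 0) (nat_lit 1451852714) (nat_lit 304) (nat_lit 1907557723) (nat_lit 190) (nat_lit 1) (nat_lit 189) (nat_lit 1) (nat_lit 193) (nat_lit 1) (nat_lit 333) (nat_lit 379) (nat_lit 308)) (XT.nd (nat_lit 78) (nat_lit 0) (nat_lit 0) (XT.lf (nat_lit 304) (nat_lit 2415840722) (nat_lit 0) (nat_lit 1396984704) (nat_lit 228) (nat_lit 1396984704) (nat_lit 190) (nat_lit 1) (nat_lit 186) (nat_lit 1) (nat_lit 189) (nat_lit 1) (nat_lit 334) (nat_lit 379) (nat_lit 307)) (XT.lf (nat_lit 76) (nat_lit 516701178) (nat_lit 0) (nat_lit 4120217863) (nat_lit 304) (nat_lit 516701178) (nat_lit 187) (nat_lit 1) (nat_lit 186) (nat_lit 1) (nat_lit 190) (nat_lit 1) (nat_lit 335) (nat_lit 379) (nat_lit 306)))) (XT.nd (nat_lit 78) (nat_lit 228) (nat_lit 0) (XT.lf (nat_lit 76) (nat_lit 2377719024) (nat_lit 0) (nat_lit 342351636) (nat_lit 228) (nat_lit 2377719024)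 (nat_lit 184) (nat_lit 1) (nat_lit 183) (nat_lit 1) (nat_lit 186) (nat_lit 1) (nat_lit 336) (nat_lit 379) (nat_lit 305)) (XT.nd (nat_lit 78) (nat_lit 0) (nat_lit 0) (XT.lf (nat_lit 304) (nat_lit 3371448490) (nat_lit 0) (nat_lit 835728724) (nat_lit 228) (nat_lit 835728724) (nat_lit 184) (nat_lit 1) (nat_lit 180) (nat_lit 1) (nat_lit 183) (nat_lit 1) (nat_lit 337) (nat_lit 379) (nat_lit 304)) (XT.lf (nat_lit 76) (nat_lit 997194314) (nat_lit 0) (nat_lit 2994259867) (nat_lit 304) (nat_lit 997194314) (nat_lit 181) (nat_lit 1) (nat_lit 180) (nat_lit 1) (nat_lit 184) (nat_lit 1) (nat_lit 338) (nat_lit 379) (nat_lit 303)))))) (XT.nd (nat_lit 390) (nat_lit 760) (nat_lit 0) (XT.nd (nat_lit 156) (nat_lit 152) (nat_lit 0) (XT.nd (nat_lit 78) (nat_lit 304) (nat_lit 0) (XT.lf (nat_lit 228) (nat_lit 628081819) (nat_lit 0) (nat_lit 2153517267) (nat_lit 152) (nat_lit 2153517267) (nat_lit 181) (nat_lit 1) (nat_lit 178)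 (nat_lit 1) (nat_lit 180) (nat_lit 1) (nat_lit 339) (nat_lit 379) (nat_lit 302)) (XT.lf (nat_lit 304) (nat_lit 4184813849) (nat_lit 0) (nat_lit 348869981) (nat_lit 228) (nat_lit 348869981) (nat_lit 178) (nat_lit 1) (nat_lit 174) (nat_lit 1) (nat_lit 177) (nat_lit 1) (nat_lit 340) (nat_lit 379) (nat_lit 301))) (XT.nd (nat_lit 78) (nat_lit 152) (nat_lit 0) (XT.lf (nat_lit 76) (nat_lit 1408433077) (nat_lit 0) (nat_lit 2013273403) (nat_lit 304) (nat_lit 1408433077) (nat_lit 175) (nat_lit 1) (nat_lit 174) (nat_lit 1) (nat_lit 178) (nat_lit 1) (nat_lit 341) (nat_lit 379) (nat_lit 300)) (XT.nd (nat_lit 78) (nat_lit 0) (nat_lit 0) (XT.lf (nat_lit 228) (nat_lit 1469023622) (nat_lit 0) (nat_lit 1654826709) (nat_lit 152) (nat_lit 1654826709) (nat_lit 175) (nat_lit 1) (nat_lit 172) (nat_lit 1) (nat_lit 174) (nat_lit 1) (nat_lit 342) (nat_lit 379) (nat_lit 299)) (XT.lf (nat_lit 76) (nat_lit 72946925) (nat_lit 0)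 (nat_lit 4582395945) (nat_lit 228) (nat_lit 72946925) (nat_lit 173) (nat_lit 1) (nat_lit 172) (nat_lit 1) (nat_lit 175) (nat_lit 1) (nat_lit 343) (nat_lit 379) (nat_lit 298))))) (XT.nd (nat_lit 234) (nat_lit 380) (nat_lit 0) (XT.nd (nat_lit 78) (nat_lit 152) (nat_lit 0) (XT.lf (nat_lit 76) (nat_lit 1758596726) (nat_lit 0) (nat_lit 1160526850) (nat_lit 228) (nat_lit 1758596726) (nat_lit 170) (nat_lit 1) (nat_lit 169) (nat_lit 1) (nat_lit 172) (nat_lit 1) (nat_lit 344) (nat_lit 379) (nat_lit 297)) (XT.nd (nat_lit 78) (nat_lit 0) (nat_lit 0) (XT.lf (nat_lit 228) (nat_lit 2189656093) (nat_lit 0) (nat_lit 1219277057) (nat_lit 152) (nat_lit 1219277057) (nat_lit 170) (nat_lit 1) (nat_lit 167) (nat_lit 1) (nat_lit 169) (nat_lit 1) (nat_lit 345) (nat_lit 379) (nat_lit 296)) (XT.lf (nat_lit 76) (nat_lit 439552554) (nat_lit 0) (nat_lit 3700405600) (nat_lit 228) (nat_lit 439552554) (nat_lit 168) (nat_lit 1) (nat_lit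 167) (nat_lit 1) (nat_lit 170) (nat_lit 1) (nat_lit 346) (nat_lit 379) (nat_lit 295)))) (XT.nd (nat_lit 78) (nat_lit 152) (nat_lit 0) (XT.lf (nat_lit 76) (nat_lit 2054939131) (nat_lit 0) (nat_lit 421170849) (nat_lit 228) (nat_lit 2054939131) (nat_lit 165) (nat_lit 1) (nat_lit 164) (nat_lit 1) (nat_lit 167) (nat_lit 1) (nat_lit 347) (nat_lit 379) (nat_lit 294)) (XT.nd (nat_lit 78) (nat_lit 0) (nat_lit 0) (XT.lf (nat_lit 228) (nat_lit 2804168100) (nat_lit 0) (nat_lit 839607951) (nat_lit 152) (nat_lit 839607951) (nat_lit 165) (nat_lit 1) (nat_lit 162) (nat_lit 1) (nat_lit 164) (nat_lit 1) (nat_lit 348) (nat_lit 379) (nat_lit 293)) (XT.lf (nat_lit 76) (nat_lit 754362145) (nat_lit 0) (nat_lit 2927574248) (nat_lit 228) (nat_lit 754362145) (nat_lit 163) (nat_lit 1) (nat_lit 162) (nat_lit 1) (nat_lit 165) (nat_lit 1) (nat_lit 349) (nat_lit 379) (nat_lit 292))))))) (XT.nd (nat_lit 858) (nat_lit 1216) (nat_lit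 0) (XT.nd (nat_lit 390) (nat_lit 456) (nat_lit 0) (XT.nd (nat_lit 156) (nat_lit 380) (nat_lit 0) (XT.nd (nat_lit 78) (nat_lit 228) (nat_lit 0) (XT.lf (nat_lit 228) (nat_lit 222310145) (nat_lit 0) (nat_lit 2083719189) (nat_lit 152) (nat_lit 2083719189) (nat_lit 163) (nat_lit 1) (nat_lit 160) (nat_lit 1) (nat_lit 162) (nat_lit 1) (nat_lit 350) (nat_lit 379) (nat_lit 291)) (XT.lf (nat_lit 228) (nat_lit 3325143757) (nat_lit 0) (nat_lit 509375041) (nat_lit 152) (nat_lit 509375041) (nat_lit 160) (nat_lit 1) (nat_lit 157) (nat_lit 1) (nat_lit 159) (nat_lit 1) (nat_lit 351) (nat_lit 379) (nat_lit 290))) (XT.nd (nat_lit 78) (nat_lit 380) (nat_lit 0) (XT.lf (nat_lit 76) (nat_lit 1023469533) (nat_lit 0) (nat_lit 2251414520) (nat_lit 228) (nat_lit 1023469533) (nat_lit 158) (nat_lit 1) (nat_lit 157) (nat_lit 1) (nat_lit 160) (nat_lit 1) (nat_lit 352) (nat_lit 379) (nat_lit 289)) (XT.nd (nat_lit 78) (nat_lit 228)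 (nat_lit 0) (XT.lf (nat_lit 228) (nat_lit 783890947) (nat_lit 0) (nat_lit 1734802954) (nat_lit 152) (nat_lit 1734802954) (nat_lit 158) (nat_lit 1) (nat_lit 155) (nat_lit 1) (nat_lit 157) (nat_lit 1) (nat_lit 353) (nat_lit 379) (nat_lit 288)) (XT.lf (nat_lit 228) (nat_lit 3763742034) (nat_lit 0) (nat_lit 222858806) (nat_lit 152) (nat_lit 222858806) (nat_lit 155) (nat_lit 1) (nat_lit 152) (nat_lit 1) (nat_lit 154) (nat_lit 1) (nat_lit 354) (nat_lit 379) (nat_lit 287))))) (XT.nd (nat_lit 234) (nat_lit 304) (nat_lit 0) (XT.nd (nat_lit 78) (nat_lit 152) (nat_lit 0) (XT.lf (nat_lit 76) (nat_lit 1252279752) (nat_lit 0) (nat_lit 1660840718) (nat_lit 228) (nat_lit 1252279752) (nat_lit 153) (nat_lit 1) (nat_lit 152) (nat_lit 1) (nat_lit 155) (nat_lit 1) (nat_lit 355) (nat_lit 379) (nat_lit 286)) (XT.nd (nat_lit 78) (nat_lit 0) (nat_lit 0) (XT.lf (nat_lit 228) (nat_lit 1265769441) (nat_lit 0) (nat_lit 1428190192)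 (nat_lit 152) (nat_lit 1428190192) (nat_lit 153) (nat_lit 1) (nat_lit 150) (nat_lit 1) (nat_lit 152) (nat_lit 1) (nat_lit 356) (nat_lit 379) (nat_lit 285)) (XT.lf (nat_lit 76) (nat_lit 25264135) (nat_lit 0) (nat_lit 4029265857) (nat_lit 228) (nat_lit 25264135) (nat_lit 151) (nat_lit 1) (nat_lit 150) (nat_lit 1) (nat_lit 153) (nat_lit 1) (nat_lit 357) (nat_lit 379) (nat_lit 284)))) (XT.nd (nat_lit 78) (nat_lit 152) (nat_lit 0) (XT.lf (nat_lit 76) (nat_lit 1445586114) (nat_lit 0) (nat_lit 1146012240) (nat_lit 152) (nat_lit 1445586114) (nat_lit 149) (nat_lit 1) (nat_lit 148) (nat_lit 1) (nat_lit 150) (nat_lit 1) (nat_lit 358) (nat_lit 379) (nat_lit 283)) (XT.nd (nat_lit 78) (nat_lit 0) (nat_lit 0) (XT.lf (nat_lit 228) (nat_lit 1677330907) (nat_lit 0) (nat_lit 1159064639) (nat_lit 152) (nat_lit 1159064639) (nat_lit 149) (nat_lit 1) (nat_lit 146) (nat_lit 1) (nat_lit 148) (nat_lit 1) (nat_lit 359) (nat_lit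 379) (nat_lit 282)) (XT.lf (nat_lit 76) (nat_lit 241118474) (nat_lit 0) (nat_lit 3472230518) (nat_lit 228) (nat_lit 241118474) (nat_lit 147) (nat_lit 1) (nat_lit 146) (nat_lit 1) (nat_lit 149) (nat_lit 1) (nat_lit 360) (nat_lit 379) (nat_lit 281)))))) (XT.nd (nat_lit 468) (nat_lit 608) (nat_lit 0) (XT.nd (nat_lit 234) (nat_lit 304) (nat_lit 0) (XT.nd (nat_lit 78) (nat_lit 152) (nat_lit 0) (XT.lf (nat_lit 76) (nat_lit 1607638689) (nat_lit 0) (nat_lit 698194482) (nat_lit 152) (nat_lit 1607638689) (nat_lit 145) (nat_lit 1) (nat_lit 144) (nat_lit 1) (nat_lit 146) (nat_lit 1) (nat_lit 361) (nat_lit 379) (nat_lit 280)) (XT.nd (nat_lit 78) (nat_lit 0) (nat_lit 0) (XT.lf (nat_lit 228) (nat_lit 2026899555) (nat_lit 0) (nat_lit 923149990) (nat_lit 152) (nat_lit 923149990) (nat_lit 145) (nat_lit 1) (nat_lit 142) (nat_lit 1) (nat_lit 144) (nat_lit 1) (nat_lit 362) (nat_lit 379) (nat_lit 279)) (XT.lf (nat_lit 76)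 (nat_lit 426533183) (nat_lit 0) (nat_lit 2980449310) (nat_lit 228) (nat_lit 426533183) (nat_lit 143) (nat_lit 1) (nat_lit 142) (nat_lit 1) (nat_lit 145) (nat_lit 1) (nat_lit 363) (nat_lit 379) (nat_lit 278)))) (XT.nd (nat_lit 78) (nat_lit 152) (nat_lit 0) (XT.lf (nat_lit 76) (nat_lit 1742205134) (nat_lit 0) (nat_lit 309635249) (nat_lit 152) (nat_lit 1742205134) (nat_lit 141) (nat_lit 1) (nat_lit 140) (nat_lit 1) (nat_lit 142) (nat_lit 1) (nat_lit 364) (nat_lit 379) (nat_lit 277)) (XT.nd (nat_lit 78) (nat_lit 0) (nat_lit 0) (XT.lf (nat_lit 228) (nat_lit 2321857274) (nat_lit 0) (nat_lit 716649595) (nat_lit 152) (nat_lit 716649595) (nat_lit 141) (nat_lit 1) (nat_lit 138) (nat_lit 1) (nat_lit 140) (nat_lit 1) (nat_lit 365) (nat_lit 379) (nat_lit 276)) (XT.lf (nat_lit 76) (nat_lit 585088180) (nat_lit 0) (nat_lit 2546554169) (nat_lit 228) (nat_lit 585088180) (nat_lit 139) (nat_lit 1) (nat_lit 138) (nat_lit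 1) (nat_lit 141) (nat_lit 1) (nat_lit 366) (nat_lit 379) (nat_lit 275))))) (XT.nd (nat_lit 234) (nat_lit 304) (nat_lit 0) (XT.nd (nat_lit 78) (nat_lit 228) (nat_lit 0) (XT.lf (nat_lit 152) (nat_lit 27073335) (nat_lit 0) (nat_lit 1825811646) (nat_lit 76) (nat_lit 1825811646) (nat_lit 139) (nat_lit 1) (nat_lit 137) (nat_lit 1) (nat_lit 138) (nat_lit 1) (nat_lit 367) (nat_lit 379) (nat_lit 274)) (XT.nd (nat_lit 78) (nat_lit 0) (nat_lit 0) (XT.lf (nat_lit 228) (nat_lit 2568749117) (nat_lit 0) (nat_lit 536192899) (nat_lit 152) (nat_lit 536192899) (nat_lit 137) (nat_lit 1) (nat_lit 134) (nat_lit 1) (nat_lit 136) (nat_lit 1) (nat_lit 368) (nat_lit 379) (nat_lit 273)) (XT.lf (nat_lit 76) (nat_lit 719958777) (nat_lit 0) (nat_lit 2164001329) (nat_lit 228) (nat_lit 719958777) (nat_lit 135) (nat_lit 1) (nat_lit 134) (nat_lit 1) (nat_lit 137) (nat_lit 1) (nat_lit 369) (nat_lit 379) (nat_lit 272)))) (XT.nd (nat_lit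 78) (nat_lit 228) (nat_lit 0) (XT.lf (nat_lit 152) (nat_lit 322748882) (nat_lit 0) (nat_lit 1622209999) (nat_lit 76) (nat_lit 1622209999) (nat_lit 135) (nat_lit 1) (nat_lit 133) (nat_lit 1) (nat_lit 134) (nat_lit 1) (nat_lit 370) (nat_lit 379) (nat_lit 271)) (XT.nd (nat_lit 78) (nat_lit 0) (nat_lit 0) (XT.lf (nat_lit 228) (nat_lit 2773377020) (nat_lit 0) (nat_lit 378787840) (nat_lit 152) (nat_lit 378787840) (nat_lit 133) (nat_lit 1) (nat_lit 130) (nat_lit 1) (nat_lit 132) (nat_lit 1) (nat_lit 371) (nat_lit 379) (nat_lit 270)) (XT.lf (nat_lit 76) (nat_lit 833960948) (nat_lit 0) (nat_lit 1826979320) (nat_lit 228) (nat_lit 833960948) (nat_lit 131) (nat_lit 1) (nat_lit 130) (nat_lit 1) (nat_lit 133) (nat_lit 1) (nat_lit 372) (nat_lit 379) (nat_lit 269))))))))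
noncomputable def ec94 : XT := (XT.nd (nat_lit 45786) (nat_lit 0) (nat_lit 11248) (XT.nd (nat_lit 44928) (nat_lit 0) (nat_lit 17632) (XT.nd (nat_lit 390) (nat_lit 0) (nat_lit 0) (XT.nd (nat_lit 156) (nat_lit 304) (nat_lit 0) (XT.nd (nat_lit 78) (nat_lit 228) (nat_lit 0) (XT.lf (nat_lit 152) (nat_lit 576752934) (nat_lit 0) (nat_lit 1441312573) (nat_lit 76) (nat_lit 1441312573) (nat_lit 131) (nat_lit 1) (nat_lit 129) (nat_lit 1) (nat_lit 130) (nat_lit 1) (nat_lit 373) (nat_lit 379) (nat_lit 268)) (XT.lf (nat_lit 228) (nat_lit 2940883057) (nat_lit 0) (nat_lit 241778569) (nat_lit 152) (nat_lit 241778569) (nat_lit 129) (nat_lit 1) (nat_lit 126) (nat_lit 1) (nat_lit 128) (nat_lit 1) (nat_lit 374) (nat_lit 379) (nat_lit 267))) (XT.nd (nat_lit 78) (nat_lit 304) (nat_lit 0) (XT.lf (nat_lit 76) (nat_lit 929591559) (nat_lit 0) (nat_lit 1530327237) (nat_lit 228) (nat_lit 929591559) (nat_lit 127) (nat_lit 1) (nat_lit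 126) (nat_lit 1) (nat_lit 129) (nat_lit 1) (nat_lit 375) (nat_lit 379) (nat_lit 266)) (XT.nd (nat_lit 78) (nat_lit 228) (nat_lit 0) (XT.lf (nat_lit 152) (nat_lit 793985795) (nat_lit 0) (nat_lit 1280587553) (nat_lit 76) (nat_lit 1280587553) (nat_lit 127) (nat_lit 1) (nat_lit 125) (nat_lit 1) (nat_lit 126) (nat_lit 1) (nat_lit 376) (nat_lit 379) (nat_lit 265)) (XT.lf (nat_lit 228) (nat_lit 3075823395) (nat_lit 0) (nat_lit 122807884) (nat_lit 152) (nat_lit 122807884) (nat_lit 125) (nat_lit 1) (nat_lit 122) (nat_lit 1) (nat_lit 124) (nat_lit 1) (nat_lit 377) (nat_lit 379) (nat_lit 264))))) (XT.nd (nat_lit 44304) (nat_lit 0) (nat_lit 19304) (XT.nd (nat_lit 44148) (nat_lit 0) (nat_lit 19228) (XT.lf (nat_lit 76) (nat_lit 1009064097) (nat_lit 0) (nat_lit 1269462118) (nat_lit 228) (nat_lit 1009064097) (nat_lit 123) (nat_lit 1) (nat_lit 122) (nat_lit 1) (nat_lit 125) (nat_lit 1) (nat_lit 378) (nat_lit 379) (nat_lit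 263)) (XT.nd (nat_lit 78) (nat_lit 0) (nat_lit 76) (XT.lf (nat_lit 1292) (nat_lit 4366712946) (nat_lit 76) (nat_lit 4150494640) (nat_lit 0) (nat_lit 4150494640) (nat_lit 392) (nat_lit 1) (nat_lit 376) (nat_lit 1) (nat_lit 375) (nat_lit 1) (nat_lit 263) (nat_lit 380) (nat_lit 377)) (XT.lf (nat_lit 1292) (nat_lit 2049058272) (nat_lit 0) (nat_lit 8387225742) (nat_lit 1216) (nat_lit 2049058272) (nat_lit 393) (nat_lit 1) (nat_lit 376) (nat_lit 1) (nat_lit 392) (nat_lit 1) (nat_lit 264) (nat_lit 380) (nat_lit 376)))) (XT.nd (nat_lit 78) (nat_lit 0) (nat_lit 76) (XT.lf (nat_lit 1292) (nat_lit 3755115635) (nat_lit 76) (nat_lit 4275391591) (nat_lit 0) (nat_lit 4275391591) (nat_lit 393) (nat_lit 1) (nat_lit 377) (nat_lit 1) (nat_lit 376) (nat_lit 1) (nat_lit 265) (nat_lit 380) (nat_lit 375)) (XT.nd (nat_lit 78) (nat_lit 0) (nat_lit 0) (XT.lf (nat_lit 1292) (nat_lit 1692462840) (nat_lit 0) (nat_lit 8745673282)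 (nat_lit 1216) (nat_lit 1692462840) (nat_lit 394) (nat_lit 1) (nat_lit 377) (nat_lit 1) (nat_lit 393) (nat_lit 1) (nat_lit 266) (nat_lit 380) (nat_lit 374)) (XT.lf (nat_lit 1292) (nat_lit 2939776064) (nat_lit 76) (nat_lit 4509065765) (nat_lit 0) (nat_lit 4509065765) (nat_lit 394) (nat_lit 1) (nat_lit 378) (nat_lit 1) (nat_lit 377) (nat_lit 1) (nat_lit 267) (nat_lit 380) (nat_lit 373)))))) (XT.nd (nat_lit 390) (nat_lit 1824) (nat_lit 0) (XT.nd (nat_lit 156) (nat_lit 0) (nat_lit 76) (XT.nd (nat_lit 78) (nat_lit 0) (nat_lit 0) (XT.lf (nat_lit 1292) (nat_lit 1239242638) (nat_lit 0) (nat_lit 9310913026) (nat_lit 1216) (nat_lit 1239242638) (nat_lit 395) (nat_lit 1) (nat_lit 378) (nat_lit 1) (nat_lit 394) (nat_lit 1) (nat_lit 268) (nat_lit 380) (nat_lit 372)) (XT.lf (nat_lit 1292) (nat_lit 1939346681) (nat_lit 76) (nat_lit 4841895813) (nat_lit 0) (nat_lit 4841895813) (nat_lit 395) (nat_lit 1) (nat_lit 379)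 (nat_lit 1) (nat_lit 378) (nat_lit 1) (nat_lit 269) (nat_lit 380) (nat_lit 371))) (XT.nd (nat_lit 78) (nat_lit 0) (nat_lit 0) (XT.lf (nat_lit 1292) (nat_lit 698354849) (nat_lit 0) (nat_lit 10064451870) (nat_lit 1216) (nat_lit 698354849) (nat_lit 396) (nat_lit 1) (nat_lit 379) (nat_lit 1) (nat_lit 395) (nat_lit 1) (nat_lit 270) (nat_lit 380) (nat_lit 370)) (XT.nd (nat_lit 78) (nat_lit 0) (nat_lit 76) (XT.lf (nat_lit 1292) (nat_lit 771206581) (nat_lit 76) (nat_lit 5264911052) (nat_lit 0) (nat_lit 5264911052) (nat_lit 396) (nat_lit 1) (nat_lit 380) (nat_lit 1) (nat_lit 379) (nat_lit 1) (nat_lit 271) (nat_lit 380) (nat_lit 369)) (XT.lf (nat_lit 1292) (nat_lit 78143146) (nat_lit 0) (nat_lit 10989051175) (nat_lit 1216) (nat_lit 78143146) (nat_lit 397) (nat_lit 1) (nat_lit 380) (nat_lit 1) (nat_lit 396) (nat_lit 1) (nat_lit 272) (nat_lit 380) (nat_lit 368))))) (XT.nd (nat_lit 234) (nat_lit 684) (nat_lit 0)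 (XT.nd (nat_lit 78) (nat_lit 0) (nat_lit 0) (XT.lf (nat_lit 1368) (nat_lit 5226563887) (nat_lit 0) (nat_lit 537757072) (nat_lit 1292) (nat_lit 5226563887) (nat_lit 381) (nat_lit 1) (nat_lit 363) (nat_lit 1) (nat_lit 380) (nat_lit 1) (nat_lit 273) (nat_lit 380) (nat_lit 367)) (XT.nd (nat_lit 78) (nat_lit 0) (nat_lit 76) (XT.lf (nat_lit 1368) (nat_lit 9625472769) (nat_lit 76) (nat_lit 607608281) (nat_lit 0) (nat_lit 607608281) (nat_lit 381) (nat_lit 1) (nat_lit 364) (nat_lit 1) (nat_lit 363) (nat_lit 1) (nat_lit 274) (nat_lit 380) (nat_lit 366)) (XT.lf (nat_lit 1368) (nat_lit 4363311255) (nat_lit 0) (nat_lit 1965470154) (nat_lit 1292) (nat_lit 4363311255) (nat_lit 382) (nat_lit 1) (nat_lit 364) (nat_lit 1) (nat_lit 381) (nat_lit 1) (nat_lit 275) (nat_lit 380) (nat_lit 365)))) (XT.nd (nat_lit 78) (nat_lit 760) (nat_lit 0) (XT.lf (nat_lit 1368) (nat_lit 7834683040) (nat_lit 76) (nat_lit 1356289887) (nat_lit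 0) (nat_lit 1356289887) (nat_lit 382) (nat_lit 1) (nat_lit 365) (nat_lit 1) (nat_lit 364) (nat_lit 1) (nat_lit 276) (nat_lit 380) (nat_lit 364)) (XT.nd (nat_lit 78) (nat_lit 836) (nat_lit 0) (XT.lf (nat_lit 76) (nat_lit 3445575635) (nat_lit 0) (nat_lit 3513240685) (nat_lit 1292) (nat_lit 3445575635) (nat_lit 366) (nat_lit 1) (nat_lit 365) (nat_lit 1) (nat_lit 382) (nat_lit 1) (nat_lit 277) (nat_lit 380) (nat_lit 363)) (XT.lf (nat_lit 912) (nat_lit 5940657473) (nat_lit 0) (nat_lit 2162010851) (nat_lit 836) (nat_lit 2162010851) (nat_lit 366) (nat_lit 1) (nat_lit 354) (nat_lit 1) (nat_lit 365) (nat_lit 1) (nat_lit 278) (nat_lit 380) (nat_lit 362))))))) (XT.nd (nat_lit 858) (nat_lit 2888) (nat_lit 0) (XT.nd (nat_lit 390) (nat_lit 2280) (nat_lit 0) (XT.nd (nat_lit 156) (nat_lit 608) (nat_lit 0) (XT.nd (nat_lit 78) (nat_lit 608) (nat_lit 0) (XT.lf (nat_lit 76) (nat_lit 2479514785) (nat_lit 0) (nat_lit 5168292972)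 (nat_lit 912) (nat_lit 2479514785) (nat_lit 355) (nat_lit 1) (nat_lit 354) (nat_lit 1) (nat_lit 366) (nat_lit 1) (nat_lit 279) (nat_lit 380) (nat_lit 361)) (XT.lf (nat_lit 684) (nat_lit 3955323232) (nat_lit 0) (nat_lit 3018583771) (nat_lit 608) (nat_lit 3018583771) (nat_lit 355) (nat_lit 1) (nat_lit 346) (nat_lit 1) (nat_lit 354) (nat_lit 1) (nat_lit 280) (nat_lit 380) (nat_lit 360))) (XT.nd (nat_lit 78) (nat_lit 608) (nat_lit 0) (XT.lf (nat_lit 76) (nat_lit 1470844721) (nat_lit 0) (nat_lit 6918756075) (nat_lit 684) (nat_lit 1470844721) (nat_lit 347) (nat_lit 1) (nat_lit 346) (nat_lit 1) (nat_lit 355) (nat_lit 1) (nat_lit 281) (nat_lit 380) (nat_lit 359)) (XT.nd (nat_lit 78) (nat_lit 0) (nat_lit 0) (XT.lf (nat_lit 684) (nat_lit 1889748026) (nat_lit 0) (nat_lit 3920261277) (nat_lit 608) (nat_lit 3920261277) (nat_lit 347) (nat_lit 1) (nat_lit 338) (nat_lit 1) (nat_lit 346) (nat_lit 1) (nat_lit 282) (nat_lit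 380) (nat_lit 358)) (XT.lf (nat_lit 76) (nat_lit 424867652) (nat_lit 0) (nat_lit 8753606880) (nat_lit 684) (nat_lit 424867652) (nat_lit 339) (nat_lit 1) (nat_lit 338) (nat_lit 1) (nat_lit 347) (nat_lit 1) (nat_lit 283) (nat_lit 380) (nat_lit 357))))) (XT.nd (nat_lit 234) (nat_lit 1064) (nat_lit 0) (XT.nd (nat_lit 78) (nat_lit 608) (nat_lit 0) (XT.lf (nat_lit 76) (nat_lit 4618265666) (nat_lit 0) (nat_lit 241008911) (nat_lit 608) (nat_lit 4618265666) (nat_lit 331) (nat_lit 1) (nat_lit 330) (nat_lit 1) (nat_lit 338) (nat_lit 1) (nat_lit 284) (nat_lit 380) (nat_lit 356)) (XT.nd (nat_lit 78) (nat_lit 0) (nat_lit 0) (XT.lf (nat_lit 684) (nat_lit 8060665604) (nat_lit 0) (nat_lit 647094897) (nat_lit 608) (nat_lit 647094897) (nat_lit 331) (nat_lit 1) (nat_lit 322) (nat_lit 1) (nat_lit 330) (nat_lit 1) (nat_lit 285) (nat_lit 380) (nat_lit 355)) (XT.lf (nat_lit 76) (nat_lit 3419619911) (nat_lit 0) (nat_lit 2394179555)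 (nat_lit 684) (nat_lit 3419619911) (nat_lit 323) (nat_lit 1) (nat_lit 322) (nat_lit 1) (nat_lit 331) (nat_lit 1) (nat_lit 286) (nat_lit 380) (nat_lit 354)))) (XT.nd (nat_lit 78) (nat_lit 532) (nat_lit 0) (XT.lf (nat_lit 608) (nat_lit 5629917199) (nat_lit 0) (nat_lit 1742459733) (nat_lit 532) (nat_lit 1742459733) (nat_lit 323) (nat_lit 1) (nat_lit 315) (nat_lit 1) (nat_lit 322) (nat_lit 1) (nat_lit 287) (nat_lit 380) (nat_lit 353)) (XT.nd (nat_lit 78) (nat_lit 532) (nat_lit 0) (XT.lf (nat_lit 76) (nat_lit 2200037905) (nat_lit 0) (nat_lit 4598008463) (nat_lit 608) (nat_lit 2200037905) (nat_lit 316) (nat_lit 1) (nat_lit 315) (nat_lit 1) (nat_lit 323) (nat_lit 1) (nat_lit 288) (nat_lit 380) (nat_lit 352)) (XT.lf (nat_lit 608) (nat_lit 3160976532) (nat_lit 0) (nat_lit 2861221470) (nat_lit 532) (nat_lit 2861221470) (nat_lit 316) (nat_lit 1) (nat_lit 308) (nat_lit 1) (nat_lit 315) (nat_lit 1) (nat_lit 289)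 (nat_lit 380) (nat_lit 351)))))) (XT.nd (nat_lit 390) (nat_lit 1368) (nat_lit 0) (XT.nd (nat_lit 156) (nat_lit 1064) (nat_lit 0) (XT.nd (nat_lit 78) (nat_lit 456) (nat_lit 0) (XT.lf (nat_lit 76) (nat_lit 963335362) (nat_lit 0) (nat_lit 6844512138) (nat_lit 608) (nat_lit 963335362) (nat_lit 309) (nat_lit 1) (nat_lit 308) (nat_lit 1) (nat_lit 316) (nat_lit 1) (nat_lit 290) (nat_lit 380) (nat_lit 350)) (XT.lf (nat_lit 532) (nat_lit 661212513) (nat_lit 0) (nat_lit 3999524155) (nat_lit 456) (nat_lit 3999524155) (nat_lit 309) (nat_lit 1) (nat_lit 302) (nat_lit 1) (nat_lit 308) (nat_lit 1) (nat_lit 291) (nat_lit 380) (nat_lit 349))) (XT.nd (nat_lit 78) (nat_lit 456) (nat_lit 0) (XT.lf (nat_lit 608) (nat_lit 7983738609) (nat_lit 0) (nat_lit 284153771) (nat_lit 532) (nat_lit 284153771) (nat_lit 302) (nat_lit 1) (nat_lit 294) (nat_lit 1) (nat_lit 301) (nat_lit 1) (nat_lit 292) (nat_lit 380) (nat_lit 348)) (XT.nd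 (nat_lit 78) (nat_lit 456) (nat_lit 0) (XT.lf (nat_lit 76) (nat_lit 3309130909) (nat_lit 0) (nat_lit 1826234083) (nat_lit 608) (nat_lit 3309130909) (nat_lit 295) (nat_lit 1) (nat_lit 294) (nat_lit 1) (nat_lit 302) (nat_lit 1) (nat_lit 293) (nat_lit 380) (nat_lit 347)) (XT.lf (nat_lit 532) (nat_lit 5274651940) (nat_lit 0) (nat_lit 1532452379) (nat_lit 456) (nat_lit 1532452379) (nat_lit 295) (nat_lit 1) (nat_lit 288) (nat_lit 1) (nat_lit 294) (nat_lit 1) (nat_lit 294) (nat_lit 380) (nat_lit 346))))) (XT.nd (nat_lit 234) (nat_lit 912) (nat_lit 0) (XT.nd (nat_lit 78) (nat_lit 456) (nat_lit 0) (XT.lf (nat_lit 76) (nat_lit 1958976027) (nat_lit 0) (nat_lit 4318200829) (nat_lit 532) (nat_lit 1958976027) (nat_lit 289) (nat_lit 1) (nat_lit 288) (nat_lit 1) (nat_lit 295) (nat_lit 1) (nat_lit 295) (nat_lit 380) (nat_lit 345)) (XT.nd (nat_lit 78) (nat_lit 0) (nat_lit 0) (XT.lf (nat_lit 532) (nat_lit 2558432396) (nat_lit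 0) (nat_lit 2788047682) (nat_lit 456) (nat_lit 2788047682) (nat_lit 289) (nat_lit 1) (nat_lit 282) (nat_lit 1) (nat_lit 288) (nat_lit 1) (nat_lit 296) (nat_lit 380) (nat_lit 344)) (XT.lf (nat_lit 76) (nat_lit 606589692) (nat_lit 0) (nat_lit 6821945414) (nat_lit 532) (nat_lit 606589692) (nat_lit 283) (nat_lit 1) (nat_lit 282) (nat_lit 1) (nat_lit 289) (nat_lit 1) (nat_lit 297) (nat_lit 380) (nat_lit 343)))) (XT.nd (nat_lit 78) (nat_lit 456) (nat_lit 0) (XT.lf (nat_lit 76) (nat_lit 3889983707) (nat_lit 0) (nat_lit 156655565) (nat_lit 456) (nat_lit 3889983707) (nat_lit 277) (nat_lit 1) (nat_lit 276) (nat_lit 1) (nat_lit 282) (nat_lit 1) (nat_lit 298) (nat_lit 380) (nat_lit 342)) (XT.nd (nat_lit 78) (nat_lit 0) (nat_lit 0) (XT.lf (nat_lit 532) (nat_lit 6363726626) (nat_lit 0) (nat_lit 738268012) (nat_lit 456) (nat_lit 738268012) (nat_lit 277) (nat_lit 1) (nat_lit 270) (nat_lit 1) (nat_lit 276) (nat_lit 1)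 (nat_lit 299) (nat_lit 380) (nat_lit 341)) (XT.lf (nat_lit 76) (nat_lit 2462864188) (nat_lit 0) (nat_lit 2819145397) (nat_lit 532) (nat_lit 2462864188) (nat_lit 271) (nat_lit 1) (nat_lit 270) (nat_lit 1) (nat_lit 277) (nat_lit 1) (nat_lit 300) (nat_lit 380) (nat_lit 340))))))))
noncomputable def ec95 : XT := (XT.nd (nat_lit 1716) (nat_lit 3192) (nat_lit 0) (XT.nd (nat_lit 858) (nat_lit 2204) (nat_lit 0) (XT.nd (nat_lit 390) (nat_lit 1444) (nat_lit 0) (XT.nd (nat_lit 156) (nat_lit 836) (nat_lit 0) (XT.nd (nat_lit 78) (nat_lit 0) (nat_lit 0) (XT.lf (nat_lit 456) (nat_lit 3501974889) (nat_lit 0) (nat_lit 2074741656) (nat_lit 380) (nat_lit 2074741656) (nat_lit 271) (nat_lit 1) (nat_lit 265) (nat_lit 1) (nat_lit 270) (nat_lit 1) (nat_lit 301) (nat_lit 380) (nat_lit 339)) (XT.lf (nat_lit 76) (nat_lit 1042508466) (nat_lit 0) (nat_lit 5474736647) (nat_lit 456) (nat_lit 1042508466) (nat_lit 266) (nat_lit 1) (nat_lit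 265) (nat_lit 1) (nat_lit 271) (nat_lit 1) (nat_lit 302) (nat_lit 380) (nat_lit 338))) (XT.nd (nat_lit 78) (nat_lit 456) (nat_lit 0) (XT.lf (nat_lit 456) (nat_lit 655655707) (nat_lit 0) (nat_lit 3406750470) (nat_lit 380) (nat_lit 3406750470) (nat_lit 266) (nat_lit 1) (nat_lit 260) (nat_lit 1) (nat_lit 265) (nat_lit 1) (nat_lit 303) (nat_lit 380) (nat_lit 337)) (XT.nd (nat_lit 78) (nat_lit 0) (nat_lit 0) (XT.lf (nat_lit 456) (nat_lit 6649256820) (nat_lit 0) (nat_lit 365662221) (nat_lit 380) (nat_lit 365662221) (nat_lit 260) (nat_lit 1) (nat_lit 254) (nat_lit 1) (nat_lit 259) (nat_lit 1) (nat_lit 304) (nat_lit 380) (nat_lit 336)) (XT.lf (nat_lit 76) (nat_lit 2581541196) (nat_lit 0) (nat_lit 2129402278) (nat_lit 456) (nat_lit 2581541196) (nat_lit 255) (nat_lit 1) (nat_lit 254) (nat_lit 1) (nat_lit 260) (nat_lit 1) (nat_lit 305) (nat_lit 380) (nat_lit 335))))) (XT.nd (nat_lit 234) (nat_lit 760) (nat_lit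 0) (XT.nd (nat_lit 78) (nat_lit 304) (nat_lit 0) (XT.lf (nat_lit 456) (nat_lit 3699318105) (nat_lit 0) (nat_lit 1753513920) (nat_lit 380) (nat_lit 1753513920) (nat_lit 255) (nat_lit 1) (nat_lit 249) (nat_lit 1) (nat_lit 254) (nat_lit 1) (nat_lit 306) (nat_lit 380) (nat_lit 334)) (XT.nd (nat_lit 78) (nat_lit 304) (nat_lit 0) (XT.lf (nat_lit 76) (nat_lit 1120780408) (nat_lit 0) (nat_lit 4880088495) (nat_lit 456) (nat_lit 1120780408) (nat_lit 250) (nat_lit 1) (nat_lit 249) (nat_lit 1) (nat_lit 255) (nat_lit 1) (nat_lit 307) (nat_lit 380) (nat_lit 333)) (XT.lf (nat_lit 380) (nat_lit 778418474) (nat_lit 0) (nat_lit 3129803791) (nat_lit 304) (nat_lit 3129803791) (nat_lit 250) (nat_lit 1) (nat_lit 245) (nat_lit 1) (nat_lit 249) (nat_lit 1) (nat_lit 308) (nat_lit 380) (nat_lit 332)))) (XT.nd (nat_lit 78) (nat_lit 304) (nat_lit 0) (XT.lf (nat_lit 456) (nat_lit 6312792825) (nat_lit 0) (nat_lit 321722223) (nat_lit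 380) (nat_lit 321722223) (nat_lit 245) (nat_lit 1) (nat_lit 239) (nat_lit 1) (nat_lit 244) (nat_lit 1) (nat_lit 309) (nat_lit 380) (nat_lit 331)) (XT.nd (nat_lit 78) (nat_lit 304) (nat_lit 0) (XT.lf (nat_lit 76) (nat_lit 2402481644) (nat_lit 0) (nat_lit 2069828985) (nat_lit 456) (nat_lit 2402481644) (nat_lit 240) (nat_lit 1) (nat_lit 239) (nat_lit 1) (nat_lit 245) (nat_lit 1) (nat_lit 310) (nat_lit 380) (nat_lit 330)) (XT.lf (nat_lit 380) (nat_lit 3320758675) (nat_lit 0) (nat_lit 1737184870) (nat_lit 304) (nat_lit 1737184870) (nat_lit 240) (nat_lit 1) (nat_lit 235) (nat_lit 1) (nat_lit 239) (nat_lit 1) (nat_lit 311) (nat_lit 380) (nat_lit 329)))))) (XT.nd (nat_lit 390) (nat_lit 1216) (nat_lit 0) (XT.nd (nat_lit 156) (nat_lit 684) (nat_lit 0) (XT.nd (nat_lit 78) (nat_lit 304) (nat_lit 0) (XT.lf (nat_lit 76) (nat_lit 923452262) (nat_lit 0) (nat_lit 4869922707) (nat_lit 380) (nat_lit 923452262) (nat_lit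 236) (nat_lit 1) (nat_lit 235) (nat_lit 1) (nat_lit 240) (nat_lit 1) (nat_lit 312) (nat_lit 380) (nat_lit 328)) (XT.lf (nat_lit 380) (nat_lit 368233823) (nat_lit 0) (nat_lit 3135591113) (nat_lit 304) (nat_lit 3135591113) (nat_lit 236) (nat_lit 1) (nat_lit 231) (nat_lit 1) (nat_lit 235) (nat_lit 1) (nat_lit 313) (nat_lit 380) (nat_lit 327))) (XT.nd (nat_lit 78) (nat_lit 304) (nat_lit 0) (XT.lf (nat_lit 380) (nat_lit 5503018007) (nat_lit 0) (nat_lit 530257266) (nat_lit 304) (nat_lit 530257266) (nat_lit 231) (nat_lit 1) (nat_lit 226) (nat_lit 1) (nat_lit 230) (nat_lit 1) (nat_lit 314) (nat_lit 380) (nat_lit 326)) (XT.nd (nat_lit 78) (nat_lit 304) (nat_lit 0) (XT.lf (nat_lit 76) (nat_lit 1997299112) (nat_lit 0) (nat_lit 2493570957) (nat_lit 380) (nat_lit 1997299112) (nat_lit 227) (nat_lit 1) (nat_lit 226) (nat_lit 1) (nat_lit 231) (nat_lit 1) (nat_lit 315) (nat_lit 380) (nat_lit 325)) (XT.lf (nat_lit 380)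 (nat_lit 2505666223) (nat_lit 0) (nat_lit 1954311302) (nat_lit 304) (nat_lit 1954311302) (nat_lit 227) (nat_lit 1) (nat_lit 222) (nat_lit 1) (nat_lit 226) (nat_lit 1) (nat_lit 316) (nat_lit 380) (nat_lit 324))))) (XT.nd (nat_lit 234) (nat_lit 608) (nat_lit 0) (XT.nd (nat_lit 78) (nat_lit 608) (nat_lit 0) (XT.lf (nat_lit 76) (nat_lit 517646299) (nat_lit 0) (nat_lit 5306545153) (nat_lit 380) (nat_lit 517646299) (nat_lit 223) (nat_lit 1) (nat_lit 222) (nat_lit 1) (nat_lit 227) (nat_lit 1) (nat_lit 317) (nat_lit 380) (nat_lit 323)) (XT.nd (nat_lit 78) (nat_lit 304) (nat_lit 0) (XT.lf (nat_lit 76) (nat_lit 2917121710) (nat_lit 0) (nat_lit 435610069) (nat_lit 304) (nat_lit 2917121710) (nat_lit 219) (nat_lit 1) (nat_lit 218) (nat_lit 1) (nat_lit 222) (nat_lit 1) (nat_lit 318) (nat_lit 380) (nat_lit 322)) (XT.lf (nat_lit 380) (nat_lit 4341295909) (nat_lit 0) (nat_lit 928981455) (nat_lit 304) (nat_lit 928981455)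 (nat_lit 219) (nat_lit 1) (nat_lit 214) (nat_lit 1) (nat_lit 218) (nat_lit 1) (nat_lit 319) (nat_lit 380) (nat_lit 321)))) (XT.nd (nat_lit 78) (nat_lit 608) (nat_lit 0) (XT.lf (nat_lit 76) (nat_lit 1424424589) (nat_lit 0) (nat_lit 3280619191) (nat_lit 380) (nat_lit 1424424589) (nat_lit 215) (nat_lit 1) (nat_lit 214) (nat_lit 1) (nat_lit 219) (nat_lit 1) (nat_lit 320) (nat_lit 380) (nat_lit 320)) (XT.nd (nat_lit 78) (nat_lit 380) (nat_lit 0) (XT.lf (nat_lit 304) (nat_lit 1367708836) (nat_lit 0) (nat_lit 2346532515) (nat_lit 228) (nat_lit 2346532515) (nat_lit 215) (nat_lit 1) (nat_lit 211) (nat_lit 1) (nat_lit 214) (nat_lit 1) (nat_lit 321) (nat_lit 380) (nat_lit 319)) (XT.lf (nat_lit 380) (nat_lit 5910625888) (nat_lit 0) (nat_lit 41505636) (nat_lit 304) (nat_lit 41505636) (nat_lit 211) (nat_lit 1) (nat_lit 206) (nat_lit 1) (nat_lit 210) (nat_lit 1) (nat_lit 322) (nat_lit 380) (nat_lit 318))))))) (XT.nd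 (nat_lit 858) (nat_lit 1672) (nat_lit 0) (XT.nd (nat_lit 390) (nat_lit 760) (nat_lit 0) (XT.nd (nat_lit 156) (nat_lit 532) (nat_lit 0) (XT.nd (nat_lit 78) (nat_lit 228) (nat_lit 0) (XT.lf (nat_lit 76) (nat_lit 2201993047) (nat_lit 0) (nat_lit 1522382372) (nat_lit 380) (nat_lit 2201993047) (nat_lit 207) (nat_lit 1) (nat_lit 206) (nat_lit 1) (nat_lit 211) (nat_lit 1) (nat_lit 323) (nat_lit 380) (nat_lit 317)) (XT.lf (nat_lit 304) (nat_lit 2926303697) (nat_lit 0) (nat_lit 1467160320) (nat_lit 228) (nat_lit 1467160320) (nat_lit 207) (nat_lit 1) (nat_lit 203) (nat_lit 1) (nat_lit 206) (nat_lit 1) (nat_lit 324) (nat_lit 380) (nat_lit 316))) (XT.nd (nat_lit 78) (nat_lit 532) (nat_lit 0) (XT.lf (nat_lit 76) (nat_lit 731343644) (nat_lit 0) (nat_lit 4333263916) (nat_lit 304) (nat_lit 731343644) (nat_lit 204) (nat_lit 1) (nat_lit 203) (nat_lit 1) (nat_lit 207) (nat_lit 1) (nat_lit 325) (nat_lit 380) (nat_lit 315))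 (XT.nd (nat_lit 78) (nat_lit 228) (nat_lit 0) (XT.lf (nat_lit 76) (nat_lit 2865578467) (nat_lit 0) (nat_lit 767226) (nat_lit 304) (nat_lit 2865578467) (nat_lit 200) (nat_lit 1) (nat_lit 199) (nat_lit 1) (nat_lit 203) (nat_lit 1) (nat_lit 326) (nat_lit 380) (nat_lit 314)) (XT.lf (nat_lit 304) (nat_lit 4261256827) (nat_lit 0) (nat_lit 703840877) (nat_lit 228) (nat_lit 703840877) (nat_lit 200) (nat_lit 1) (nat_lit 196) (nat_lit 1) (nat_lit 199) (nat_lit 1) (nat_lit 327) (nat_lit 380) (nat_lit 313))))) (XT.nd (nat_lit 234) (nat_lit 228) (nat_lit 0) (XT.nd (nat_lit 78) (nat_lit 532) (nat_lit 0) (XT.lf (nat_lit 76) (nat_lit 1395989341) (nat_lit 0) (nat_lit 2814579999) (nat_lit 304) (nat_lit 1395989341) (nat_lit 197) (nat_lit 1) (nat_lit 196) (nat_lit 1) (nat_lit 200) (nat_lit 1) (nat_lit 328) (nat_lit 380) (nat_lit 312)) (XT.nd (nat_lit 78) (nat_lit 304) (nat_lit 0) (XT.lf (nat_lit 304) (nat_lit 1337901127)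 (nat_lit 0) (nat_lit 2103645419) (nat_lit 228) (nat_lit 2103645419) (nat_lit 197) (nat_lit 1) (nat_lit 193) (nat_lit 1) (nat_lit 196) (nat_lit 1) (nat_lit 329) (nat_lit 380) (nat_lit 311)) (XT.lf (nat_lit 304) (nat_lit 5398958775) (nat_lit 0) (nat_lit 43108780) (nat_lit 228) (nat_lit 43108780) (nat_lit 193) (nat_lit 1) (nat_lit 189) (nat_lit 1) (nat_lit 192) (nat_lit 1) (nat_lit 330) (nat_lit 380) (nat_lit 310)))) (XT.nd (nat_lit 78) (nat_lit 228) (nat_lit 0) (XT.lf (nat_lit 76) (nat_lit 1964784455) (nat_lit 0) (nat_lit 1495408296) (nat_lit 304) (nat_lit 1964784455) (nat_lit 190) (nat_lit 1) (nat_lit 189) (nat_lit 1) (nat_lit 193) (nat_lit 1) (nat_lit 331) (nat_lit 380) (nat_lit 309)) (XT.nd (nat_lit 78) (nat_lit 0) (nat_lit 0) (XT.lf (nat_lit 304) (nat_lit 2488315944) (nat_lit 0) (nat_lit 1438894245) (nat_lit 228) (nat_lit 1438894245) (nat_lit 190) (nat_lit 1) (nat_lit 186) (nat_lit 1) (nat_lit 189)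 (nat_lit 1) (nat_lit 332) (nat_lit 380) (nat_lit 308)) (XT.lf (nat_lit 76) (nat_lit 532202214) (nat_lit 0) (nat_lit 4243824399) (nat_lit 304) (nat_lit 532202214) (nat_lit 187) (nat_lit 1) (nat_lit 186) (nat_lit 1) (nat_lit 190) (nat_lit 1) (nat_lit 333) (nat_lit 380) (nat_lit 307)))))) (XT.nd (nat_lit 468) (nat_lit 760) (nat_lit 0) (XT.nd (nat_lit 234) (nat_lit 456) (nat_lit 0) (XT.nd (nat_lit 78) (nat_lit 228) (nat_lit 0) (XT.lf (nat_lit 76) (nat_lit 2449050595) (nat_lit 0) (nat_lit 352622185) (nat_lit 228) (nat_lit 2449050595) (nat_lit 184) (nat_lit 1) (nat_lit 183) (nat_lit 1) (nat_lit 186) (nat_lit 1) (nat_lit 334) (nat_lit 380) (nat_lit 306)) (XT.nd (nat_lit 78) (nat_lit 0) (nat_lit 0) (XT.lf (nat_lit 304) (nat_lit 3472591945) (nat_lit 0) (nat_lit 860800586) (nat_lit 228) (nat_lit 860800586) (nat_lit 184) (nat_lit 1) (nat_lit 180) (nat_lit 1) (nat_lit 183) (nat_lit 1) (nat_lit 335) (nat_lit 380)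 (nat_lit 305)) (XT.lf (nat_lit 76) (nat_lit 1027110144) (nat_lit 0) (nat_lit 3084087664) (nat_lit 304) (nat_lit 1027110144) (nat_lit 181) (nat_lit 1) (nat_lit 180) (nat_lit 1) (nat_lit 184) (nat_lit 1) (nat_lit 336) (nat_lit 380) (nat_lit 304)))) (XT.nd (nat_lit 78) (nat_lit 304) (nat_lit 0) (XT.lf (nat_lit 228) (nat_lit 646924273) (nat_lit 0) (nat_lit 2218122785) (nat_lit 152) (nat_lit 2218122785) (nat_lit 181) (nat_lit 1) (nat_lit 178) (nat_lit 1) (nat_lit 180) (nat_lit 1) (nat_lit 337) (nat_lit 380) (nat_lit 303)) (XT.nd (nat_lit 78) (nat_lit 0) (nat_lit 0) (XT.lf (nat_lit 304) (nat_lit 4310358264) (nat_lit 0) (nat_lit 359336080) (nat_lit 228) (nat_lit 359336080) (nat_lit 178) (nat_lit 1) (nat_lit 174) (nat_lit 1) (nat_lit 177) (nat_lit 1) (nat_lit 338) (nat_lit 380) (nat_lit 302)) (XT.lf (nat_lit 76) (nat_lit 1450686069) (nat_lit 0) (nat_lit 2073671605) (nat_lit 304) (nat_lit 1450686069) (nat_lit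 175) (nat_lit 1) (nat_lit 174) (nat_lit 1) (nat_lit 178) (nat_lit 1) (nat_lit 339) (nat_lit 380) (nat_lit 301))))) (XT.nd (nat_lit 234) (nat_lit 380) (nat_lit 0) (XT.nd (nat_lit 78) (nat_lit 228) (nat_lit 0) (XT.lf (nat_lit 228) (nat_lit 1513094331) (nat_lit 0) (nat_lit 1704471510) (nat_lit 152) (nat_lit 1704471510) (nat_lit 175) (nat_lit 1) (nat_lit 172) (nat_lit 1) (nat_lit 174) (nat_lit 1) (nat_lit 340) (nat_lit 380) (nat_lit 300)) (XT.nd (nat_lit 78) (nat_lit 228) (nat_lit 0) (XT.lf (nat_lit 76) (nat_lit 75135333) (nat_lit 0) (nat_lit 4719867823) (nat_lit 228) (nat_lit 75135333) (nat_lit 173) (nat_lit 1) (nat_lit 172) (nat_lit 1) (nat_lit 175) (nat_lit 1) (nat_lit 341) (nat_lit 380) (nat_lit 299)) (XT.lf (nat_lit 76) (nat_lit 1811354627) (nat_lit 0) (nat_lit 1195342655) (nat_lit 228) (nat_lit 1811354627) (nat_lit 170) (nat_lit 1) (nat_lit 169) (nat_lit 1) (nat_lit 172) (nat_lit 1) (nat_lit 342) (nat_lit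 380) (nat_lit 298)))) (XT.nd (nat_lit 78) (nat_lit 228) (nat_lit 0) (XT.lf (nat_lit 228) (nat_lit 2255345776) (nat_lit 0) (nat_lit 1255855369) (nat_lit 152) (nat_lit 1255855369) (nat_lit 170) (nat_lit 1) (nat_lit 167) (nat_lit 1) (nat_lit 169) (nat_lit 1) (nat_lit 343) (nat_lit 380) (nat_lit 297)) (XT.nd (nat_lit 78) (nat_lit 228) (nat_lit 0) (XT.lf (nat_lit 76) (nat_lit 452739130) (nat_lit 0) (nat_lit 3811417768) (nat_lit 228) (nat_lit 452739130) (nat_lit 168) (nat_lit 1) (nat_lit 167) (nat_lit 1) (nat_lit 170) (nat_lit 1) (nat_lit 344) (nat_lit 380) (nat_lit 296)) (XT.lf (nat_lit 76) (nat_lit 2116587305) (nat_lit 0) (nat_lit 433805974) (nat_lit 228) (nat_lit 2116587305) (nat_lit 165) (nat_lit 1) (nat_lit 164) (nat_lit 1) (nat_lit 167) (nat_lit 1) (nat_lit 345) (nat_lit 380) (nat_lit 295))))))))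
noncomputable def ec96 : XT := (XT.nd (nat_lit 1716) (nat_lit 988) (nat_lit 0) (XT.nd (nat_lit 858) (nat_lit 1064) (nat_lit 0) (XT.nd (nat_lit 390) (nat_lit 684) (nat_lit 0) (XT.nd (nat_lit 156) (nat_lit 380) (nat_lit 0) (XT.nd (nat_lit 78) (nat_lit 0) (nat_lit 0) (XT.lf (nat_lit 228) (nat_lit 2888293143) (nat_lit 0) (nat_lit 864796190) (nat_lit 152) (nat_lit 864796190) (nat_lit 165) (nat_lit 1) (nat_lit 162) (nat_lit 1) (nat_lit 164) (nat_lit 1) (nat_lit 346) (nat_lit 380) (nat_lit 294)) (XT.lf (nat_lit 76) (nat_lit 776993009) (nat_lit 0) (nat_lit 3015401476) (nat_lit 228) (nat_lit 776993009) (nat_lit 163) (nat_lit 1) (nat_lit 162) (nat_lit 1) (nat_lit 165) (nat_lit 1) (nat_lit 347) (nat_lit 380) (nat_lit 293))) (XT.nd (nat_lit 78) (nat_lit 228) (nat_lit 0) (XT.lf (nat_lit 228) (nat_lit 228979449) (nat_lit 0) (nat_lit 2146230764) (nat_lit 152) (nat_lit 2146230764) (nat_lit 163) (nat_lit 1) (nat_lit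 160) (nat_lit 1) (nat_lit 162) (nat_lit 1) (nat_lit 348) (nat_lit 380) (nat_lit 292)) (XT.nd (nat_lit 78) (nat_lit 0) (nat_lit 0) (XT.lf (nat_lit 228) (nat_lit 3424898069) (nat_lit 0) (nat_lit 524656292) (nat_lit 152) (nat_lit 524656292) (nat_lit 160) (nat_lit 1) (nat_lit 157) (nat_lit 1) (nat_lit 159) (nat_lit 1) (nat_lit 349) (nat_lit 380) (nat_lit 291)) (XT.lf (nat_lit 76) (nat_lit 1054173619) (nat_lit 0) (nat_lit 2318956956) (nat_lit 228) (nat_lit 1054173619) (nat_lit 158) (nat_lit 1) (nat_lit 157) (nat_lit 1) (nat_lit 160) (nat_lit 1) (nat_lit 350) (nat_lit 380) (nat_lit 290))))) (XT.nd (nat_lit 234) (nat_lit 304) (nat_lit 0) (XT.nd (nat_lit 78) (nat_lit 228) (nat_lit 0) (XT.lf (nat_lit 228) (nat_lit 807407675) (nat_lit 0) (nat_lit 1786847043) (nat_lit 152) (nat_lit 1786847043) (nat_lit 158) (nat_lit 1) (nat_lit 155) (nat_lit 1) (nat_lit 157) (nat_lit 1) (nat_lit 351) (nat_lit 380) (nat_lit 289))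 (XT.nd (nat_lit 78) (nat_lit 0) (nat_lit 0) (XT.lf (nat_lit 228) (nat_lit 3876654295) (nat_lit 0) (nat_lit 229544571) (nat_lit 152) (nat_lit 229544571) (nat_lit 155) (nat_lit 1) (nat_lit 152) (nat_lit 1) (nat_lit 154) (nat_lit 1) (nat_lit 352) (nat_lit 380) (nat_lit 288)) (XT.lf (nat_lit 76) (nat_lit 1289848144) (nat_lit 0) (nat_lit 1710665939) (nat_lit 228) (nat_lit 1289848144) (nat_lit 153) (nat_lit 1) (nat_lit 152) (nat_lit 1) (nat_lit 155) (nat_lit 1) (nat_lit 353) (nat_lit 380) (nat_lit 287)))) (XT.nd (nat_lit 78) (nat_lit 152) (nat_lit 0) (XT.lf (nat_lit 228) (nat_lit 1303742524) (nat_lit 0) (nat_lit 1471035898) (nat_lit 152) (nat_lit 1471035898) (nat_lit 153) (nat_lit 1) (nat_lit 150) (nat_lit 1) (nat_lit 152) (nat_lit 1) (nat_lit 354) (nat_lit 380) (nat_lit 286)) (XT.nd (nat_lit 78) (nat_lit 152) (nat_lit 0) (XT.lf (nat_lit 76) (nat_lit 26022059) (nat_lit 0) (nat_lit 4150143833) (nat_lit 228)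 (nat_lit 26022059) (nat_lit 151) (nat_lit 1) (nat_lit 150) (nat_lit 1) (nat_lit 153) (nat_lit 1) (nat_lit 355) (nat_lit 380) (nat_lit 285)) (XT.lf (nat_lit 76) (nat_lit 1488953698) (nat_lit 0) (nat_lit 1180392607) (nat_lit 152) (nat_lit 1488953698) (nat_lit 149) (nat_lit 1) (nat_lit 148) (nat_lit 1) (nat_lit 150) (nat_lit 1) (nat_lit 356) (nat_lit 380) (nat_lit 284)))))) (XT.nd (nat_lit 390) (nat_lit 608) (nat_lit 0) (XT.nd (nat_lit 156) (nat_lit 304) (nat_lit 0) (XT.nd (nat_lit 78) (nat_lit 0) (nat_lit 0) (XT.lf (nat_lit 228) (nat_lit 1727650834) (nat_lit 0) (nat_lit 1193836579) (nat_lit 152) (nat_lit 1193836579) (nat_lit 149) (nat_lit 1) (nat_lit 146) (nat_lit 1) (nat_lit 148) (nat_lit 1) (nat_lit 357) (nat_lit 380) (nat_lit 283)) (XT.lf (nat_lit 76) (nat_lit 248352029) (nat_lit 0) (nat_lit 3576397434) (nat_lit 228) (nat_lit 248352029) (nat_lit 147) (nat_lit 1) (nat_lit 146) (nat_lit 1) (nat_lit 149)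 (nat_lit 1) (nat_lit 358) (nat_lit 380) (nat_lit 282))) (XT.nd (nat_lit 78) (nat_lit 152) (nat_lit 0) (XT.lf (nat_lit 76) (nat_lit 1655867850) (nat_lit 0) (nat_lit 719140316) (nat_lit 152) (nat_lit 1655867850) (nat_lit 145) (nat_lit 1) (nat_lit 144) (nat_lit 1) (nat_lit 146) (nat_lit 1) (nat_lit 359) (nat_lit 380) (nat_lit 281)) (XT.nd (nat_lit 78) (nat_lit 0) (nat_lit 0) (XT.lf (nat_lit 228) (nat_lit 2087706542) (nat_lit 0) (nat_lit 950844489) (nat_lit 152) (nat_lit 950844489) (nat_lit 145) (nat_lit 1) (nat_lit 142) (nat_lit 1) (nat_lit 144) (nat_lit 1) (nat_lit 360) (nat_lit 380) (nat_lit 280)) (XT.lf (nat_lit 76) (nat_lit 439329178) (nat_lit 0) (nat_lit 3069862789) (nat_lit 228) (nat_lit 439329178) (nat_lit 143) (nat_lit 1) (nat_lit 142) (nat_lit 1) (nat_lit 145) (nat_lit 1) (nat_lit 361) (nat_lit 380) (nat_lit 279))))) (XT.nd (nat_lit 234) (nat_lit 304) (nat_lit 0) (XT.nd (nat_lit 78) (nat_lit 152)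 (nat_lit 0) (XT.lf (nat_lit 76) (nat_lit 1794471288) (nat_lit 0) (nat_lit 318924307) (nat_lit 152) (nat_lit 1794471288) (nat_lit 141) (nat_lit 1) (nat_lit 140) (nat_lit 1) (nat_lit 142) (nat_lit 1) (nat_lit 362) (nat_lit 380) (nat_lit 278)) (XT.nd (nat_lit 78) (nat_lit 0) (nat_lit 0) (XT.lf (nat_lit 228) (nat_lit 2391512992) (nat_lit 0) (nat_lit 738149083) (nat_lit 152) (nat_lit 738149083) (nat_lit 141) (nat_lit 1) (nat_lit 138) (nat_lit 1) (nat_lit 140) (nat_lit 1) (nat_lit 363) (nat_lit 380) (nat_lit 277)) (XT.lf (nat_lit 76) (nat_lit 602640826) (nat_lit 0) (nat_lit 2622950795) (nat_lit 228) (nat_lit 602640826) (nat_lit 139) (nat_lit 1) (nat_lit 138) (nat_lit 1) (nat_lit 141) (nat_lit 1) (nat_lit 364) (nat_lit 380) (nat_lit 276)))) (XT.nd (nat_lit 78) (nat_lit 228) (nat_lit 0) (XT.lf (nat_lit 152) (nat_lit 27885535) (nat_lit 0) (nat_lit 1880585995) (nat_lit 76) (nat_lit 1880585995) (nat_lit 139) (nat_lit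 1) (nat_lit 137) (nat_lit 1) (nat_lit 138) (nat_lit 1) (nat_lit 365) (nat_lit 380) (nat_lit 275)) (XT.nd (nat_lit 78) (nat_lit 0) (nat_lit 0) (XT.lf (nat_lit 228) (nat_lit 2645811590) (nat_lit 0) (nat_lit 552278686) (nat_lit 152) (nat_lit 552278686) (nat_lit 137) (nat_lit 1) (nat_lit 134) (nat_lit 1) (nat_lit 136) (nat_lit 1) (nat_lit 366) (nat_lit 380) (nat_lit 274)) (XT.lf (nat_lit 76) (nat_lit 741557540) (nat_lit 0) (nat_lit 2228921369) (nat_lit 228) (nat_lit 741557540) (nat_lit 135) (nat_lit 1) (nat_lit 134) (nat_lit 1) (nat_lit 137) (nat_lit 1) (nat_lit 367) (nat_lit 380) (nat_lit 273))))))) (XT.nd (nat_lit 45006) (nat_lit 0) (nat_lit 18392) (XT.nd (nat_lit 390) (nat_lit 380) (nat_lit 0) (XT.nd (nat_lit 156) (nat_lit 304) (nat_lit 0) (XT.nd (nat_lit 78) (nat_lit 228) (nat_lit 0) (XT.lf (nat_lit 152) (nat_lit 332431348) (nat_lit 0) (nat_lit 1670876299) (nat_lit 76) (nat_lit 1670876299) (nat_lit 135)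 (nat_lit 1) (nat_lit 133) (nat_lit 1) (nat_lit 134) (nat_lit 1) (nat_lit 368) (nat_lit 380) (nat_lit 272)) (XT.lf (nat_lit 228) (nat_lit 2856578331) (nat_lit 0) (nat_lit 390151475) (nat_lit 152) (nat_lit 390151475) (nat_lit 133) (nat_lit 1) (nat_lit 130) (nat_lit 1) (nat_lit 132) (nat_lit 1) (nat_lit 369) (nat_lit 380) (nat_lit 271))) (XT.nd (nat_lit 78) (nat_lit 304) (nat_lit 0) (XT.lf (nat_lit 76) (nat_lit 858979777) (nat_lit 0) (nat_lit 1881788699) (nat_lit 228) (nat_lit 858979777) (nat_lit 131) (nat_lit 1) (nat_lit 130) (nat_lit 1) (nat_lit 133) (nat_lit 1) (nat_lit 370) (nat_lit 380) (nat_lit 270)) (XT.nd (nat_lit 78) (nat_lit 228) (nat_lit 0) (XT.lf (nat_lit 152) (nat_lit 594055522) (nat_lit 0) (nat_lit 1484551950) (nat_lit 76) (nat_lit 1484551950) (nat_lit 131) (nat_lit 1) (nat_lit 129) (nat_lit 1) (nat_lit 130) (nat_lit 1) (nat_lit 371) (nat_lit 380) (nat_lit 269)) (XT.lf (nat_lit 228) (nat_lit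 3029109549) (nat_lit 0) (nat_lit 249031926) (nat_lit 152) (nat_lit 249031926) (nat_lit 129) (nat_lit 1) (nat_lit 126) (nat_lit 1) (nat_lit 128) (nat_lit 1) (nat_lit 372) (nat_lit 380) (nat_lit 268))))) (XT.nd (nat_lit 234) (nat_lit 76) (nat_lit 0) (XT.nd (nat_lit 78) (nat_lit 304) (nat_lit 0) (XT.lf (nat_lit 76) (nat_lit 957479306) (nat_lit 0) (nat_lit 1576237054) (nat_lit 228) (nat_lit 957479306) (nat_lit 127) (nat_lit 1) (nat_lit 126) (nat_lit 1) (nat_lit 129) (nat_lit 1) (nat_lit 373) (nat_lit 380) (nat_lit 267)) (XT.nd (nat_lit 78) (nat_lit 228) (nat_lit 0) (XT.lf (nat_lit 152) (nat_lit 817805369) (nat_lit 0) (nat_lit 1319005180) (nat_lit 76) (nat_lit 1319005180) (nat_lit 127) (nat_lit 1) (nat_lit 125) (nat_lit 1) (nat_lit 126) (nat_lit 1) (nat_lit 374) (nat_lit 380) (nat_lit 266)) (XT.lf (nat_lit 228) (nat_lit 3168098097) (nat_lit 0) (nat_lit 126492121) (nat_lit 152) (nat_lit 126492121) (nat_lit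 125) (nat_lit 1) (nat_lit 122) (nat_lit 1) (nat_lit 124) (nat_lit 1) (nat_lit 375) (nat_lit 380) (nat_lit 265)))) (XT.nd (nat_lit 78) (nat_lit 76) (nat_lit 0) (XT.lf (nat_lit 76) (nat_lit 1039336020) (nat_lit 0) (nat_lit 1307545981) (nat_lit 228) (nat_lit 1039336020) (nat_lit 123) (nat_lit 1) (nat_lit 122) (nat_lit 1) (nat_lit 125) (nat_lit 1) (nat_lit 376) (nat_lit 380) (nat_lit 264)) (XT.nd (nat_lit 44226) (nat_lit 0) (nat_lit 19380) (XT.lf (nat_lit 152) (nat_lit 1008157762) (nat_lit 0) (nat_lit 1171919018) (nat_lit 76) (nat_lit 1171919018) (nat_lit 123) (nat_lit 1) (nat_lit 121) (nat_lit 1) (nat_lit 122) (nat_lit 1) (nat_lit 377) (nat_lit 380) (nat_lit 263)) (XT.lf (nat_lit 1292) (nat_lit 3867769104) (nat_lit 76) (nat_lit 4403653339) (nat_lit 0) (nat_lit 4403653339) (nat_lit 393) (nat_lit 1) (nat_lit 377) (nat_lit 1) (nat_lit 376) (nat_lit 1) (nat_lit 263) (nat_lit 381) (nat_lit 376)))))) (XT.nd (nat_lit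 390) (nat_lit 1064) (nat_lit 0) (XT.nd (nat_lit 156) (nat_lit 0) (nat_lit 76) (XT.nd (nat_lit 78) (nat_lit 0) (nat_lit 0) (XT.lf (nat_lit 1292) (nat_lit 1743236726) (nat_lit 0) (nat_lit 9008043481) (nat_lit 1216) (nat_lit 1743236726) (nat_lit 394) (nat_lit 1) (nat_lit 377) (nat_lit 1) (nat_lit 393) (nat_lit 1) (nat_lit 264) (nat_lit 381) (nat_lit 375)) (XT.lf (nat_lit 1292) (nat_lit 3027969346) (nat_lit 76) (nat_lit 4644337738) (nat_lit 0) (nat_lit 4644337738) (nat_lit 394) (nat_lit 1) (nat_lit 378) (nat_lit 1) (nat_lit 377) (nat_lit 1) (nat_lit 265) (nat_lit 381) (nat_lit 374))) (XT.nd (nat_lit 78) (nat_lit 0) (nat_lit 0) (XT.lf (nat_lit 1292) (nat_lit 1276419917) (nat_lit 0) (nat_lit 9590240417) (nat_lit 1216) (nat_lit 1276419917) (nat_lit 395) (nat_lit 1) (nat_lit 378) (nat_lit 1) (nat_lit 394) (nat_lit 1) (nat_lit 266) (nat_lit 381) (nat_lit 373)) (XT.nd (nat_lit 78) (nat_lit 0) (nat_lit 76) (XT.lf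 (nat_lit 1292) (nat_lit 1997527081) (nat_lit 76) (nat_lit 4987152687) (nat_lit 0) (nat_lit 4987152687) (nat_lit 395) (nat_lit 1) (nat_lit 379) (nat_lit 1) (nat_lit 378) (nat_lit 1) (nat_lit 267) (nat_lit 381) (nat_lit 372)) (XT.lf (nat_lit 1292) (nat_lit 719305495) (nat_lit 0) (nat_lit 10366385426) (nat_lit 1216) (nat_lit 719305495) (nat_lit 396) (nat_lit 1) (nat_lit 379) (nat_lit 1) (nat_lit 395) (nat_lit 1) (nat_lit 268) (nat_lit 381) (nat_lit 371))))) (XT.nd (nat_lit 234) (nat_lit 0) (nat_lit 0) (XT.nd (nat_lit 78) (nat_lit 1216) (nat_lit 0) (XT.lf (nat_lit 1292) (nat_lit 794342779) (nat_lit 76) (nat_lit 5422858384) (nat_lit 0) (nat_lit 5422858384) (nat_lit 396) (nat_lit 1) (nat_lit 380) (nat_lit 1) (nat_lit 379) (nat_lit 1) (nat_lit 269) (nat_lit 381) (nat_lit 370)) (XT.nd (nat_lit 78) (nat_lit 1292) (nat_lit 0) (XT.lf (nat_lit 1292) (nat_lit 80487440) (nat_lit 0) (nat_lit 11318722711) (nat_lit 1216)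 (nat_lit 80487440) (nat_lit 397) (nat_lit 1) (nat_lit 380) (nat_lit 1) (nat_lit 396) (nat_lit 1) (nat_lit 270) (nat_lit 381) (nat_lit 369)) (XT.lf (nat_lit 1368) (nat_lit 5383360803) (nat_lit 0) (nat_lit 553889784) (nat_lit 1292) (nat_lit 5383360803) (nat_lit 381) (nat_lit 1) (nat_lit 363) (nat_lit 1) (nat_lit 380) (nat_lit 1) (nat_lit 271) (nat_lit 381) (nat_lit 368)))) (XT.nd (nat_lit 78) (nat_lit 0) (nat_lit 76) (XT.lf (nat_lit 1368) (nat_lit 9914236952) (nat_lit 76) (nat_lit 625836529) (nat_lit 0) (nat_lit 625836529) (nat_lit 381) (nat_lit 1) (nat_lit 364) (nat_lit 1) (nat_lit 363) (nat_lit 1) (nat_lit 272) (nat_lit 381) (nat_lit 367)) (XT.nd (nat_lit 78) (nat_lit 0) (nat_lit 0) (XT.lf (nat_lit 1368) (nat_lit 4494210592) (nat_lit 0) (nat_lit 2024434259) (nat_lit 1292) (nat_lit 4494210592) (nat_lit 382) (nat_lit 1) (nat_lit 364) (nat_lit 1) (nat_lit 381) (nat_lit 1) (nat_lit 273) (nat_lit 381) (nat_lit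 366)) (XT.lf (nat_lit 1368) (nat_lit 8069723531) (nat_lit 76) (nat_lit 1396978583) (nat_lit 0) (nat_lit 1396978583) (nat_lit 382) (nat_lit 1) (nat_lit 365) (nat_lit 1) (nat_lit 364) (nat_lit 1) (nat_lit 274) (nat_lit 381) (nat_lit 365))))))))
noncomputable def ec97 : XT := (XT.nd (nat_lit 1716) (nat_lit 4712) (nat_lit 0) (XT.nd (nat_lit 858) (nat_lit 2964) (nat_lit 0) (XT.nd (nat_lit 390) (nat_lit 2356) (nat_lit 0) (XT.nd (nat_lit 156) (nat_lit 608) (nat_lit 0) (XT.nd (nat_lit 78) (nat_lit 836) (nat_lit 0) (XT.lf (nat_lit 76) (nat_lit 3548942904) (nat_lit 0) (nat_lit 3618637906) (nat_lit 1292) (nat_lit 3548942904) (nat_lit 366) (nat_lit 1) (nat_lit 365) (nat_lit 1) (nat_lit 382) (nat_lit 1) (nat_lit 275) (nat_lit 381) (nat_lit 364)) (XT.lf (nat_lit 912) (nat_lit 6118877197) (nat_lit 0) (nat_lit 2226871176) (nat_lit 836) (nat_lit 2226871176) (nat_lit 366) (nat_lit 1) (nat_lit 354) (nat_lit 1) (nat_lit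 365) (nat_lit 1) (nat_lit 276) (nat_lit 381) (nat_lit 363))) (XT.nd (nat_lit 78) (nat_lit 608) (nat_lit 0) (XT.lf (nat_lit 76) (nat_lit 2553900228) (nat_lit 0) (nat_lit 5323341761) (nat_lit 912) (nat_lit 2553900228) (nat_lit 355) (nat_lit 1) (nat_lit 354) (nat_lit 1) (nat_lit 366) (nat_lit 1) (nat_lit 277) (nat_lit 381) (nat_lit 362)) (XT.nd (nat_lit 78) (nat_lit 0) (nat_lit 0) (XT.lf (nat_lit 684) (nat_lit 4073982929) (nat_lit 0) (nat_lit 3109141285) (nat_lit 608) (nat_lit 3109141285) (nat_lit 355) (nat_lit 1) (nat_lit 346) (nat_lit 1) (nat_lit 354) (nat_lit 1) (nat_lit 278) (nat_lit 381) (nat_lit 361)) (XT.lf (nat_lit 76) (nat_lit 1514970063) (nat_lit 0) (nat_lit 7126318757) (nat_lit 684) (nat_lit 1514970063) (nat_lit 347) (nat_lit 1) (nat_lit 346) (nat_lit 1) (nat_lit 355) (nat_lit 1) (nat_lit 279) (nat_lit 381) (nat_lit 360))))) (XT.nd (nat_lit 234) (nat_lit 1140) (nat_lit 0) (XT.nd (nat_lit 78)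 (nat_lit 608) (nat_lit 0) (XT.lf (nat_lit 684) (nat_lit 1946440467) (nat_lit 0) (nat_lit 4037869115) (nat_lit 608) (nat_lit 4037869115) (nat_lit 347) (nat_lit 1) (nat_lit 338) (nat_lit 1) (nat_lit 346) (nat_lit 1) (nat_lit 280) (nat_lit 381) (nat_lit 359)) (XT.nd (nat_lit 78) (nat_lit 608) (nat_lit 0) (XT.lf (nat_lit 76) (nat_lit 437613681) (nat_lit 0) (nat_lit 9016215087) (nat_lit 684) (nat_lit 437613681) (nat_lit 339) (nat_lit 1) (nat_lit 338) (nat_lit 1) (nat_lit 347) (nat_lit 1) (nat_lit 281) (nat_lit 381) (nat_lit 358)) (XT.lf (nat_lit 76) (nat_lit 4756813636) (nat_lit 0) (nat_lit 248239178) (nat_lit 608) (nat_lit 4756813636) (nat_lit 331) (nat_lit 1) (nat_lit 330) (nat_lit 1) (nat_lit 338) (nat_lit 1) (nat_lit 282) (nat_lit 381) (nat_lit 357)))) (XT.nd (nat_lit 78) (nat_lit 532) (nat_lit 0) (XT.lf (nat_lit 684) (nat_lit 8302485572) (nat_lit 0) (nat_lit 666507744) (nat_lit 608) (nat_lit 666507744)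 (nat_lit 331) (nat_lit 1) (nat_lit 322) (nat_lit 1) (nat_lit 330) (nat_lit 1) (nat_lit 283) (nat_lit 381) (nat_lit 356)) (XT.nd (nat_lit 78) (nat_lit 532) (nat_lit 0) (XT.lf (nat_lit 76) (nat_lit 3522208508) (nat_lit 0) (nat_lit 2466004942) (nat_lit 684) (nat_lit 3522208508) (nat_lit 323) (nat_lit 1) (nat_lit 322) (nat_lit 1) (nat_lit 331) (nat_lit 1) (nat_lit 284) (nat_lit 381) (nat_lit 355)) (XT.lf (nat_lit 608) (nat_lit 5798814715) (nat_lit 0) (nat_lit 1794733525) (nat_lit 532) (nat_lit 1794733525) (nat_lit 323) (nat_lit 1) (nat_lit 315) (nat_lit 1) (nat_lit 322) (nat_lit 1) (nat_lit 285) (nat_lit 381) (nat_lit 354)))))) (XT.nd (nat_lit 390) (nat_lit 1368) (nat_lit 0) (XT.nd (nat_lit 156) (nat_lit 1064) (nat_lit 0) (XT.nd (nat_lit 78) (nat_lit 532) (nat_lit 0) (XT.lf (nat_lit 76) (nat_lit 2266039043) (nat_lit 0) (nat_lit 4735948717) (nat_lit 608) (nat_lit 2266039043) (nat_lit 316) (nat_lit 1) (nat_lit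 315) (nat_lit 1) (nat_lit 323) (nat_lit 1) (nat_lit 286) (nat_lit 381) (nat_lit 353)) (XT.lf (nat_lit 608) (nat_lit 3255805828) (nat_lit 0) (nat_lit 2947058114) (nat_lit 532) (nat_lit 2947058114) (nat_lit 316) (nat_lit 1) (nat_lit 308) (nat_lit 1) (nat_lit 315) (nat_lit 1) (nat_lit 287) (nat_lit 381) (nat_lit 352))) (XT.nd (nat_lit 78) (nat_lit 1064) (nat_lit 0) (XT.lf (nat_lit 76) (nat_lit 992235423) (nat_lit 0) (nat_lit 7049847502) (nat_lit 608) (nat_lit 992235423) (nat_lit 309) (nat_lit 1) (nat_lit 308) (nat_lit 1) (nat_lit 316) (nat_lit 1) (nat_lit 288) (nat_lit 381) (nat_lit 351)) (XT.nd (nat_lit 78) (nat_lit 608) (nat_lit 0) (XT.lf (nat_lit 532) (nat_lit 681048888) (nat_lit 0) (nat_lit 4119509880) (nat_lit 456) (nat_lit 4119509880) (nat_lit 309) (nat_lit 1) (nat_lit 302) (nat_lit 1) (nat_lit 308) (nat_lit 1) (nat_lit 289) (nat_lit 381) (nat_lit 350)) (XT.lf (nat_lit 608) (nat_lit 8223250768) (nat_lit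 0) (nat_lit 292678384) (nat_lit 532) (nat_lit 292678384) (nat_lit 302) (nat_lit 1) (nat_lit 294) (nat_lit 1) (nat_lit 301) (nat_lit 1) (nat_lit 290) (nat_lit 381) (nat_lit 349))))) (XT.nd (nat_lit 234) (nat_lit 912) (nat_lit 0) (XT.nd (nat_lit 78) (nat_lit 456) (nat_lit 0) (XT.lf (nat_lit 76) (nat_lit 3408404836) (nat_lit 0) (nat_lit 1881021106) (nat_lit 608) (nat_lit 3408404836) (nat_lit 295) (nat_lit 1) (nat_lit 294) (nat_lit 1) (nat_lit 302) (nat_lit 1) (nat_lit 291) (nat_lit 381) (nat_lit 348)) (XT.nd (nat_lit 78) (nat_lit 0) (nat_lit 0) (XT.lf (nat_lit 532) (nat_lit 5432891499) (nat_lit 0) (nat_lit 1578425951) (nat_lit 456) (nat_lit 1578425951) (nat_lit 295) (nat_lit 1) (nat_lit 288) (nat_lit 1) (nat_lit 294) (nat_lit 1) (nat_lit 292) (nat_lit 381) (nat_lit 347)) (XT.lf (nat_lit 76) (nat_lit 2017745308) (nat_lit 0) (nat_lit 4447746854) (nat_lit 532) (nat_lit 2017745308) (nat_lit 289) (nat_lit 1)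 (nat_lit 288) (nat_lit 1) (nat_lit 295) (nat_lit 1) (nat_lit 293) (nat_lit 381) (nat_lit 346)))) (XT.nd (nat_lit 78) (nat_lit 456) (nat_lit 0) (XT.lf (nat_lit 532) (nat_lit 2635185368) (nat_lit 0) (nat_lit 2871689113) (nat_lit 456) (nat_lit 2871689113) (nat_lit 289) (nat_lit 1) (nat_lit 282) (nat_lit 1) (nat_lit 288) (nat_lit 1) (nat_lit 294) (nat_lit 381) (nat_lit 345)) (XT.nd (nat_lit 78) (nat_lit 456) (nat_lit 0) (XT.lf (nat_lit 76) (nat_lit 624787383) (nat_lit 0) (nat_lit 7026603776) (nat_lit 532) (nat_lit 624787383) (nat_lit 283) (nat_lit 1) (nat_lit 282) (nat_lit 1) (nat_lit 289) (nat_lit 1) (nat_lit 295) (nat_lit 381) (nat_lit 344)) (XT.lf (nat_lit 76) (nat_lit 4006683218) (nat_lit 0) (nat_lit 161355232) (nat_lit 456) (nat_lit 4006683218) (nat_lit 277) (nat_lit 1) (nat_lit 276) (nat_lit 1) (nat_lit 282) (nat_lit 1) (nat_lit 296) (nat_lit 381) (nat_lit 343))))))) (XT.nd (nat_lit 858) (nat_lit 1900)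 (nat_lit 0) (XT.nd (nat_lit 390) (nat_lit 1596) (nat_lit 0) (XT.nd (nat_lit 156) (nat_lit 760) (nat_lit 0) (XT.nd (nat_lit 78) (nat_lit 0) (nat_lit 0) (XT.lf (nat_lit 532) (nat_lit 6554638425) (nat_lit 0) (nat_lit 760416052) (nat_lit 456) (nat_lit 760416052) (nat_lit 277) (nat_lit 1) (nat_lit 270) (nat_lit 1) (nat_lit 276) (nat_lit 1) (nat_lit 297) (nat_lit 381) (nat_lit 342)) (XT.lf (nat_lit 76) (nat_lit 2536750113) (nat_lit 0) (nat_lit 2903719759) (nat_lit 532) (nat_lit 2536750113) (nat_lit 271) (nat_lit 1) (nat_lit 270) (nat_lit 1) (nat_lit 277) (nat_lit 1) (nat_lit 298) (nat_lit 381) (nat_lit 341))) (XT.nd (nat_lit 78) (nat_lit 380) (nat_lit 0) (XT.lf (nat_lit 456) (nat_lit 3607034136) (nat_lit 0) (nat_lit 2136983906) (nat_lit 380) (nat_lit 2136983906) (nat_lit 271) (nat_lit 1) (nat_lit 265) (nat_lit 1) (nat_lit 270) (nat_lit 1) (nat_lit 299) (nat_lit 381) (nat_lit 340)) (XT.nd (nat_lit 78) (nat_lit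 380) (nat_lit 0) (XT.lf (nat_lit 76) (nat_lit 1073783720) (nat_lit 0) (nat_lit 5638978746) (nat_lit 456) (nat_lit 1073783720) (nat_lit 266) (nat_lit 1) (nat_lit 265) (nat_lit 1) (nat_lit 271) (nat_lit 1) (nat_lit 300) (nat_lit 381) (nat_lit 339)) (XT.lf (nat_lit 456) (nat_lit 675325378) (nat_lit 0) (nat_lit 3508952984) (nat_lit 380) (nat_lit 3508952984) (nat_lit 266) (nat_lit 1) (nat_lit 260) (nat_lit 1) (nat_lit 265) (nat_lit 1) (nat_lit 301) (nat_lit 381) (nat_lit 338))))) (XT.nd (nat_lit 234) (nat_lit 760) (nat_lit 0) (XT.nd (nat_lit 78) (nat_lit 380) (nat_lit 0) (XT.lf (nat_lit 456) (nat_lit 6848734525) (nat_lit 0) (nat_lit 376632087) (nat_lit 380) (nat_lit 376632087) (nat_lit 260) (nat_lit 1) (nat_lit 254) (nat_lit 1) (nat_lit 259) (nat_lit 1) (nat_lit 302) (nat_lit 381) (nat_lit 337)) (XT.nd (nat_lit 78) (nat_lit 380) (nat_lit 0) (XT.lf (nat_lit 76) (nat_lit 2658987432) (nat_lit 0) (nat_lit 2193284347)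 (nat_lit 456) (nat_lit 2658987432) (nat_lit 255) (nat_lit 1) (nat_lit 254) (nat_lit 1) (nat_lit 260) (nat_lit 1) (nat_lit 303) (nat_lit 381) (nat_lit 336)) (XT.lf (nat_lit 456) (nat_lit 3810297648) (nat_lit 0) (nat_lit 1806119338) (nat_lit 380) (nat_lit 1806119338) (nat_lit 255) (nat_lit 1) (nat_lit 249) (nat_lit 1) (nat_lit 254) (nat_lit 1) (nat_lit 304) (nat_lit 381) (nat_lit 335)))) (XT.nd (nat_lit 78) (nat_lit 760) (nat_lit 0) (XT.lf (nat_lit 76) (nat_lit 1154403820) (nat_lit 0) (nat_lit 5026491150) (nat_lit 456) (nat_lit 1154403820) (nat_lit 250) (nat_lit 1) (nat_lit 249) (nat_lit 1) (nat_lit 255) (nat_lit 1) (nat_lit 305) (nat_lit 381) (nat_lit 334)) (XT.nd (nat_lit 78) (nat_lit 456) (nat_lit 0) (XT.lf (nat_lit 380) (nat_lit 801771028) (nat_lit 0) (nat_lit 3223697905) (nat_lit 304) (nat_lit 3223697905) (nat_lit 250) (nat_lit 1) (nat_lit 245) (nat_lit 1) (nat_lit 249) (nat_lit 1) (nat_lit 306) (nat_lit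 381) (nat_lit 333)) (XT.lf (nat_lit 456) (nat_lit 6502176610) (nat_lit 0) (nat_lit 331373890) (nat_lit 380) (nat_lit 331373890) (nat_lit 245) (nat_lit 1) (nat_lit 239) (nat_lit 1) (nat_lit 244) (nat_lit 1) (nat_lit 307) (nat_lit 381) (nat_lit 332)))))) (XT.nd (nat_lit 390) (nat_lit 912) (nat_lit 0) (XT.nd (nat_lit 156) (nat_lit 684) (nat_lit 0) (XT.nd (nat_lit 78) (nat_lit 304) (nat_lit 0) (XT.lf (nat_lit 76) (nat_lit 2474556093) (nat_lit 0) (nat_lit 2131923855) (nat_lit 456) (nat_lit 2474556093) (nat_lit 240) (nat_lit 1) (nat_lit 239) (nat_lit 1) (nat_lit 245) (nat_lit 1) (nat_lit 308) (nat_lit 381) (nat_lit 331)) (XT.lf (nat_lit 380) (nat_lit 3420381435) (nat_lit 0) (nat_lit 1789300416) (nat_lit 304) (nat_lit 1789300416) (nat_lit 240) (nat_lit 1) (nat_lit 235) (nat_lit 1) (nat_lit 239) (nat_lit 1) (nat_lit 309) (nat_lit 381) (nat_lit 330))) (XT.nd (nat_lit 78) (nat_lit 684) (nat_lit 0) (XT.lf (nat_lit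 76) (nat_lit 951155830) (nat_lit 0) (nat_lit 5016020388) (nat_lit 380) (nat_lit 951155830) (nat_lit 236) (nat_lit 1) (nat_lit 235) (nat_lit 1) (nat_lit 240) (nat_lit 1) (nat_lit 310) (nat_lit 381) (nat_lit 329)) (XT.nd (nat_lit 78) (nat_lit 380) (nat_lit 0) (XT.lf (nat_lit 380) (nat_lit 379280838) (nat_lit 0) (nat_lit 3229658847) (nat_lit 304) (nat_lit 3229658847) (nat_lit 236) (nat_lit 1) (nat_lit 231) (nat_lit 1) (nat_lit 235) (nat_lit 1) (nat_lit 311) (nat_lit 381) (nat_lit 328)) (XT.lf (nat_lit 380) (nat_lit 5668108547) (nat_lit 0) (nat_lit 546164985) (nat_lit 304) (nat_lit 546164985) (nat_lit 231) (nat_lit 1) (nat_lit 226) (nat_lit 1) (nat_lit 230) (nat_lit 1) (nat_lit 312) (nat_lit 381) (nat_lit 327))))) (XT.nd (nat_lit 234) (nat_lit 608) (nat_lit 0) (XT.nd (nat_lit 78) (nat_lit 304) (nat_lit 0) (XT.lf (nat_lit 76) (nat_lit 2057218085) (nat_lit 0) (nat_lit 2568378086) (nat_lit 380) (nat_lit 2057218085)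 (nat_lit 227) (nat_lit 1) (nat_lit 226) (nat_lit 1) (nat_lit 231) (nat_lit 1) (nat_lit 313) (nat_lit 381) (nat_lit 326)) (XT.nd (nat_lit 78) (nat_lit 0) (nat_lit 0) (XT.lf (nat_lit 380) (nat_lit 2580836210) (nat_lit 0) (nat_lit 2012940641) (nat_lit 304) (nat_lit 2012940641) (nat_lit 227) (nat_lit 1) (nat_lit 222) (nat_lit 1) (nat_lit 226) (nat_lit 1) (nat_lit 314) (nat_lit 381) (nat_lit 325)) (XT.lf (nat_lit 76) (nat_lit 533175687) (nat_lit 0) (nat_lit 5465741508) (nat_lit 380) (nat_lit 533175687) (nat_lit 223) (nat_lit 1) (nat_lit 222) (nat_lit 1) (nat_lit 227) (nat_lit 1) (nat_lit 315) (nat_lit 381) (nat_lit 324)))) (XT.nd (nat_lit 78) (nat_lit 304) (nat_lit 0) (XT.lf (nat_lit 76) (nat_lit 3004635361) (nat_lit 0) (nat_lit 448678371) (nat_lit 304) (nat_lit 3004635361) (nat_lit 219) (nat_lit 1) (nat_lit 218) (nat_lit 1) (nat_lit 222) (nat_lit 1) (nat_lit 316) (nat_lit 381) (nat_lit 323)) (XT.nd (nat_lit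 78) (nat_lit 0) (nat_lit 0) (XT.lf (nat_lit 380) (nat_lit 4471534786) (nat_lit 0) (nat_lit 956850899) (nat_lit 304) (nat_lit 956850899) (nat_lit 219) (nat_lit 1) (nat_lit 214) (nat_lit 1) (nat_lit 218) (nat_lit 1) (nat_lit 317) (nat_lit 381) (nat_lit 322)) (XT.lf (nat_lit 76) (nat_lit 1467157326) (nat_lit 0) (nat_lit 3379037767) (nat_lit 380) (nat_lit 1467157326) (nat_lit 215) (nat_lit 1) (nat_lit 214) (nat_lit 1) (nat_lit 219) (nat_lit 1) (nat_lit 318) (nat_lit 381) (nat_lit 321))))))))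
noncomputable def ec98 : XT := (XT.nd (nat_lit 1716) (nat_lit 2356) (nat_lit 0) (XT.nd (nat_lit 858) (nat_lit 1520) (nat_lit 0) (XT.nd (nat_lit 390) (nat_lit 1064) (nat_lit 0) (XT.nd (nat_lit 156) (nat_lit 228) (nat_lit 0) (XT.nd (nat_lit 78) (nat_lit 380) (nat_lit 0) (XT.lf (nat_lit 304) (nat_lit 1408740101) (nat_lit 0) (nat_lit 2416928490) (nat_lit 228) (nat_lit 2416928490) (nat_lit 215) (nat_lit 1) (nat_lit 211) (nat_lit 1) (nat_lit 214) (nat_lit 1) (nat_lit 319) (nat_lit 381) (nat_lit 320)) (XT.lf (nat_lit 380) (nat_lit 6087944664) (nat_lit 0) (nat_lit 42750805) (nat_lit 304) (nat_lit 42750805) (nat_lit 211) (nat_lit 1) (nat_lit 206) (nat_lit 1) (nat_lit 210) (nat_lit 1) (nat_lit 320) (nat_lit 381) (nat_lit 319))) (XT.nd (nat_lit 78) (nat_lit 228) (nat_lit 0) (XT.lf (nat_lit 76) (nat_lit 2268052839) (nat_lit 0) (nat_lit 1568053844) (nat_lit 380) (nat_lit 2268052839) (nat_lit 207) (nat_lit 1) (nat_lit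 206) (nat_lit 1) (nat_lit 211) (nat_lit 1) (nat_lit 321) (nat_lit 381) (nat_lit 318)) (XT.nd (nat_lit 78) (nat_lit 0) (nat_lit 0) (XT.lf (nat_lit 304) (nat_lit 3014092808) (nat_lit 0) (nat_lit 1511175130) (nat_lit 228) (nat_lit 1511175130) (nat_lit 207) (nat_lit 1) (nat_lit 203) (nat_lit 1) (nat_lit 206) (nat_lit 1) (nat_lit 322) (nat_lit 381) (nat_lit 317)) (XT.lf (nat_lit 76) (nat_lit 753283953) (nat_lit 0) (nat_lit 4463261833) (nat_lit 304) (nat_lit 753283953) (nat_lit 204) (nat_lit 1) (nat_lit 203) (nat_lit 1) (nat_lit 207) (nat_lit 1) (nat_lit 323) (nat_lit 381) (nat_lit 316))))) (XT.nd (nat_lit 234) (nat_lit 532) (nat_lit 0) (XT.nd (nat_lit 78) (nat_lit 228) (nat_lit 0) (XT.lf (nat_lit 76) (nat_lit 2951545821) (nat_lit 0) (nat_lit 790242) (nat_lit 304) (nat_lit 2951545821) (nat_lit 200) (nat_lit 1) (nat_lit 199) (nat_lit 1) (nat_lit 203) (nat_lit 1) (nat_lit 324) (nat_lit 381) (nat_lit 315)) (XT.nd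 (nat_lit 78) (nat_lit 0) (nat_lit 0) (XT.lf (nat_lit 304) (nat_lit 4389094532) (nat_lit 0) (nat_lit 724956104) (nat_lit 228) (nat_lit 724956104) (nat_lit 200) (nat_lit 1) (nat_lit 196) (nat_lit 1) (nat_lit 199) (nat_lit 1) (nat_lit 325) (nat_lit 381) (nat_lit 314)) (XT.lf (nat_lit 76) (nat_lit 1437869022) (nat_lit 0) (nat_lit 2899017399) (nat_lit 304) (nat_lit 1437869022) (nat_lit 197) (nat_lit 1) (nat_lit 196) (nat_lit 1) (nat_lit 200) (nat_lit 1) (nat_lit 326) (nat_lit 381) (nat_lit 313)))) (XT.nd (nat_lit 78) (nat_lit 304) (nat_lit 0) (XT.lf (nat_lit 304) (nat_lit 1378038161) (nat_lit 0) (nat_lit 2166754782) (nat_lit 228) (nat_lit 2166754782) (nat_lit 197) (nat_lit 1) (nat_lit 193) (nat_lit 1) (nat_lit 196) (nat_lit 1) (nat_lit 327) (nat_lit 381) (nat_lit 312)) (XT.nd (nat_lit 78) (nat_lit 0) (nat_lit 0) (XT.lf (nat_lit 304) (nat_lit 5560927538) (nat_lit 0) (nat_lit 44402044) (nat_lit 228) (nat_lit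 44402044) (nat_lit 193) (nat_lit 1) (nat_lit 189) (nat_lit 1) (nat_lit 192) (nat_lit 1) (nat_lit 328) (nat_lit 381) (nat_lit 311)) (XT.lf (nat_lit 76) (nat_lit 2023727989) (nat_lit 0) (nat_lit 1540270545) (nat_lit 304) (nat_lit 2023727989) (nat_lit 190) (nat_lit 1) (nat_lit 189) (nat_lit 1) (nat_lit 193) (nat_lit 1) (nat_lit 329) (nat_lit 381) (nat_lit 310)))))) (XT.nd (nat_lit 390) (nat_lit 836) (nat_lit 0) (XT.nd (nat_lit 156) (nat_lit 456) (nat_lit 0) (XT.nd (nat_lit 78) (nat_lit 0) (nat_lit 0) (XT.lf (nat_lit 304) (nat_lit 2562965422) (nat_lit 0) (nat_lit 1482061072) (nat_lit 228) (nat_lit 1482061072) (nat_lit 190) (nat_lit 1) (nat_lit 186) (nat_lit 1) (nat_lit 189) (nat_lit 1) (nat_lit 330) (nat_lit 381) (nat_lit 309)) (XT.lf (nat_lit 76) (nat_lit 548168280) (nat_lit 0) (nat_lit 4371139131) (nat_lit 304) (nat_lit 548168280) (nat_lit 187) (nat_lit 1) (nat_lit 186) (nat_lit 1) (nat_lit 190) (nat_lit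 1) (nat_lit 331) (nat_lit 381) (nat_lit 308))) (XT.nd (nat_lit 78) (nat_lit 228) (nat_lit 0) (XT.lf (nat_lit 76) (nat_lit 2522522113) (nat_lit 0) (nat_lit 363200851) (nat_lit 228) (nat_lit 2522522113) (nat_lit 184) (nat_lit 1) (nat_lit 183) (nat_lit 1) (nat_lit 186) (nat_lit 1) (nat_lit 332) (nat_lit 381) (nat_lit 307)) (XT.nd (nat_lit 78) (nat_lit 0) (nat_lit 0) (XT.lf (nat_lit 304) (nat_lit 3576769703) (nat_lit 0) (nat_lit 886624604) (nat_lit 228) (nat_lit 886624604) (nat_lit 184) (nat_lit 1) (nat_lit 180) (nat_lit 1) (nat_lit 183) (nat_lit 1) (nat_lit 333) (nat_lit 381) (nat_lit 306)) (XT.lf (nat_lit 76) (nat_lit 1057923448) (nat_lit 0) (nat_lit 3176610293) (nat_lit 304) (nat_lit 1057923448) (nat_lit 181) (nat_lit 1) (nat_lit 180) (nat_lit 1) (nat_lit 184) (nat_lit 1) (nat_lit 334) (nat_lit 381) (nat_lit 305))))) (XT.nd (nat_lit 234) (nat_lit 380) (nat_lit 0) (XT.nd (nat_lit 78) (nat_lit 304) (nat_lit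 0) (XT.lf (nat_lit 228) (nat_lit 666332001) (nat_lit 0) (nat_lit 2284666469) (nat_lit 152) (nat_lit 2284666469) (nat_lit 181) (nat_lit 1) (nat_lit 178) (nat_lit 1) (nat_lit 180) (nat_lit 1) (nat_lit 335) (nat_lit 381) (nat_lit 304)) (XT.nd (nat_lit 78) (nat_lit 0) (nat_lit 0) (XT.lf (nat_lit 304) (nat_lit 4439669012) (nat_lit 0) (nat_lit 370116163) (nat_lit 228) (nat_lit 370116163) (nat_lit 178) (nat_lit 1) (nat_lit 174) (nat_lit 1) (nat_lit 177) (nat_lit 1) (nat_lit 336) (nat_lit 381) (nat_lit 303)) (XT.lf (nat_lit 76) (nat_lit 1494206651) (nat_lit 0) (nat_lit 2135881753) (nat_lit 304) (nat_lit 1494206651) (nat_lit 175) (nat_lit 1) (nat_lit 174) (nat_lit 1) (nat_lit 178) (nat_lit 1) (nat_lit 337) (nat_lit 381) (nat_lit 302)))) (XT.nd (nat_lit 78) (nat_lit 228) (nat_lit 0) (XT.lf (nat_lit 228) (nat_lit 1558487160) (nat_lit 0) (nat_lit 1755605655) (nat_lit 152) (nat_lit 1755605655) (nat_lit 175) (nat_lit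 1) (nat_lit 172) (nat_lit 1) (nat_lit 174) (nat_lit 1) (nat_lit 338) (nat_lit 381) (nat_lit 301)) (XT.nd (nat_lit 78) (nat_lit 228) (nat_lit 0) (XT.lf (nat_lit 76) (nat_lit 77389393) (nat_lit 0) (nat_lit 4861463858) (nat_lit 228) (nat_lit 77389393) (nat_lit 173) (nat_lit 1) (nat_lit 172) (nat_lit 1) (nat_lit 175) (nat_lit 1) (nat_lit 339) (nat_lit 381) (nat_lit 300)) (XT.lf (nat_lit 76) (nat_lit 1865695266) (nat_lit 0) (nat_lit 1231202935) (nat_lit 228) (nat_lit 1865695266) (nat_lit 170) (nat_lit 1) (nat_lit 169) (nat_lit 1) (nat_lit 172) (nat_lit 1) (nat_lit 340) (nat_lit 381) (nat_lit 299))))))) (XT.nd (nat_lit 858) (nat_lit 1064) (nat_lit 0) (XT.nd (nat_lit 390) (nat_lit 760) (nat_lit 0) (XT.nd (nat_lit 156) (nat_lit 380) (nat_lit 0) (XT.nd (nat_lit 78) (nat_lit 0) (nat_lit 0) (XT.lf (nat_lit 228) (nat_lit 2323006149) (nat_lit 0) (nat_lit 1293531030) (nat_lit 152) (nat_lit 1293531030) (nat_lit 170)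 (nat_lit 1) (nat_lit 167) (nat_lit 1) (nat_lit 169) (nat_lit 1) (nat_lit 341) (nat_lit 381) (nat_lit 298)) (XT.lf (nat_lit 76) (nat_lit 466321304) (nat_lit 0) (nat_lit 3925760301) (nat_lit 228) (nat_lit 466321304) (nat_lit 168) (nat_lit 1) (nat_lit 167) (nat_lit 1) (nat_lit 170) (nat_lit 1) (nat_lit 342) (nat_lit 381) (nat_lit 297))) (XT.nd (nat_lit 78) (nat_lit 152) (nat_lit 0) (XT.lf (nat_lit 76) (nat_lit 2180084924) (nat_lit 0) (nat_lit 446820153) (nat_lit 228) (nat_lit 2180084924) (nat_lit 165) (nat_lit 1) (nat_lit 164) (nat_lit 1) (nat_lit 167) (nat_lit 1) (nat_lit 343) (nat_lit 381) (nat_lit 296)) (XT.nd (nat_lit 78) (nat_lit 0) (nat_lit 0) (XT.lf (nat_lit 228) (nat_lit 2974941937) (nat_lit 0) (nat_lit 890740076) (nat_lit 152) (nat_lit 890740076) (nat_lit 165) (nat_lit 1) (nat_lit 162) (nat_lit 1) (nat_lit 164) (nat_lit 1) (nat_lit 344) (nat_lit 381) (nat_lit 295)) (XT.lf (nat_lit 76) (nat_lit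 800302799) (nat_lit 0) (nat_lit 3105863520) (nat_lit 228) (nat_lit 800302799) (nat_lit 163) (nat_lit 1) (nat_lit 162) (nat_lit 1) (nat_lit 165) (nat_lit 1) (nat_lit 345) (nat_lit 381) (nat_lit 294))))) (XT.nd (nat_lit 234) (nat_lit 380) (nat_lit 0) (XT.nd (nat_lit 78) (nat_lit 228) (nat_lit 0) (XT.lf (nat_lit 228) (nat_lit 235848833) (nat_lit 0) (nat_lit 2210617687) (nat_lit 152) (nat_lit 2210617687) (nat_lit 163) (nat_lit 1) (nat_lit 160) (nat_lit 1) (nat_lit 162) (nat_lit 1) (nat_lit 346) (nat_lit 381) (nat_lit 293)) (XT.nd (nat_lit 78) (nat_lit 0) (nat_lit 0) (XT.lf (nat_lit 228) (nat_lit 3527645011) (nat_lit 0) (nat_lit 540395981) (nat_lit 152) (nat_lit 540395981) (nat_lit 160) (nat_lit 1) (nat_lit 157) (nat_lit 1) (nat_lit 159) (nat_lit 1) (nat_lit 347) (nat_lit 381) (nat_lit 292)) (XT.lf (nat_lit 76) (nat_lit 1085798827) (nat_lit 0) (nat_lit 2388525665) (nat_lit 228) (nat_lit 1085798827) (nat_lit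 158) (nat_lit 1) (nat_lit 157) (nat_lit 1) (nat_lit 160) (nat_lit 1) (nat_lit 348) (nat_lit 381) (nat_lit 291)))) (XT.nd (nat_lit 78) (nat_lit 228) (nat_lit 0) (XT.lf (nat_lit 228) (nat_lit 831629905) (nat_lit 0) (nat_lit 1840452454) (nat_lit 152) (nat_lit 1840452454) (nat_lit 158) (nat_lit 1) (nat_lit 155) (nat_lit 1) (nat_lit 157) (nat_lit 1) (nat_lit 349) (nat_lit 381) (nat_lit 290)) (XT.nd (nat_lit 78) (nat_lit 0) (nat_lit 0) (XT.lf (nat_lit 228) (nat_lit 3992953924) (nat_lit 0) (nat_lit 236430908) (nat_lit 152) (nat_lit 236430908) (nat_lit 155) (nat_lit 1) (nat_lit 152) (nat_lit 1) (nat_lit 154) (nat_lit 1) (nat_lit 350) (nat_lit 381) (nat_lit 289)) (XT.lf (nat_lit 76) (nat_lit 1328543588) (nat_lit 0) (nat_lit 1761985917) (nat_lit 228) (nat_lit 1328543588) (nat_lit 153) (nat_lit 1) (nat_lit 152) (nat_lit 1) (nat_lit 155) (nat_lit 1) (nat_lit 351) (nat_lit 381) (nat_lit 288)))))) (XT.nd (nat_lit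 390) (nat_lit 608) (nat_lit 0) (XT.nd (nat_lit 156) (nat_lit 304) (nat_lit 0) (XT.nd (nat_lit 78) (nat_lit 0) (nat_lit 0) (XT.lf (nat_lit 228) (nat_lit 1342854800) (nat_lit 0) (nat_lit 1515166975) (nat_lit 152) (nat_lit 1515166975) (nat_lit 153) (nat_lit 1) (nat_lit 150) (nat_lit 1) (nat_lit 152) (nat_lit 1) (nat_lit 352) (nat_lit 381) (nat_lit 287)) (XT.lf (nat_lit 76) (nat_lit 26802721) (nat_lit 0) (nat_lit 4274648148) (nat_lit 228) (nat_lit 26802721) (nat_lit 151) (nat_lit 1) (nat_lit 150) (nat_lit 1) (nat_lit 153) (nat_lit 1) (nat_lit 353) (nat_lit 381) (nat_lit 286))) (XT.nd (nat_lit 78) (nat_lit 152) (nat_lit 0) (XT.lf (nat_lit 76) (nat_lit 1533622309) (nat_lit 0) (nat_lit 1215804385) (nat_lit 152) (nat_lit 1533622309) (nat_lit 149) (nat_lit 1) (nat_lit 148) (nat_lit 1) (nat_lit 150) (nat_lit 1) (nat_lit 354) (nat_lit 381) (nat_lit 285)) (XT.nd (nat_lit 78) (nat_lit 0) (nat_lit 0) (XT.lf (nat_lit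 228) (nat_lit 1779480359) (nat_lit 0) (nat_lit 1229651676) (nat_lit 152) (nat_lit 1229651676) (nat_lit 149) (nat_lit 1) (nat_lit 146) (nat_lit 1) (nat_lit 148) (nat_lit 1) (nat_lit 355) (nat_lit 381) (nat_lit 284)) (XT.lf (nat_lit 76) (nat_lit 255802589) (nat_lit 0) (nat_lit 3683689357) (nat_lit 228) (nat_lit 255802589) (nat_lit 147) (nat_lit 1) (nat_lit 146) (nat_lit 1) (nat_lit 149) (nat_lit 1) (nat_lit 356) (nat_lit 381) (nat_lit 283))))) (XT.nd (nat_lit 234) (nat_lit 304) (nat_lit 0) (XT.nd (nat_lit 78) (nat_lit 152) (nat_lit 0) (XT.lf (nat_lit 76) (nat_lit 1705543885) (nat_lit 0) (nat_lit 740714526) (nat_lit 152) (nat_lit 1705543885) (nat_lit 145) (nat_lit 1) (nat_lit 144) (nat_lit 1) (nat_lit 146) (nat_lit 1) (nat_lit 357) (nat_lit 381) (nat_lit 282)) (XT.nd (nat_lit 78) (nat_lit 0) (nat_lit 0) (XT.lf (nat_lit 228) (nat_lit 2150337738) (nat_lit 0) (nat_lit 979369824) (nat_lit 152) (nat_lit 979369824)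 (nat_lit 145) (nat_lit 1) (nat_lit 142) (nat_lit 1) (nat_lit 144) (nat_lit 1) (nat_lit 358) (nat_lit 381) (nat_lit 281)) (XT.lf (nat_lit 76) (nat_lit 452509054) (nat_lit 0) (nat_lit 3161958673) (nat_lit 228) (nat_lit 452509054) (nat_lit 143) (nat_lit 1) (nat_lit 142) (nat_lit 1) (nat_lit 145) (nat_lit 1) (nat_lit 359) (nat_lit 381) (nat_lit 280)))) (XT.nd (nat_lit 78) (nat_lit 152) (nat_lit 0) (XT.lf (nat_lit 76) (nat_lit 1848305426) (nat_lit 0) (nat_lit 328492036) (nat_lit 152) (nat_lit 1848305426) (nat_lit 141) (nat_lit 1) (nat_lit 140) (nat_lit 1) (nat_lit 142) (nat_lit 1) (nat_lit 360) (nat_lit 381) (nat_lit 279)) (XT.nd (nat_lit 78) (nat_lit 0) (nat_lit 0) (XT.lf (nat_lit 228) (nat_lit 2463258382) (nat_lit 0) (nat_lit 760293556) (nat_lit 152) (nat_lit 760293556) (nat_lit 141) (nat_lit 1) (nat_lit 138) (nat_lit 1) (nat_lit 140) (nat_lit 1) (nat_lit 361) (nat_lit 381) (nat_lit 278)) (XT.lf (nat_lit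 76) (nat_lit 620720051) (nat_lit 0) (nat_lit 2701639318) (nat_lit 228) (nat_lit 620720051) (nat_lit 139) (nat_lit 1) (nat_lit 138) (nat_lit 1) (nat_lit 141) (nat_lit 1) (nat_lit 362) (nat_lit 381) (nat_lit 277))))))))
noncomputable def ec99 : XT := (XT.nd (nat_lit 45942) (nat_lit 0) (nat_lit 12464) (XT.nd (nat_lit 858) (nat_lit 304) (nat_lit 0) (XT.nd (nat_lit 390) (nat_lit 608) (nat_lit 0) (XT.nd (nat_lit 156) (nat_lit 304) (nat_lit 0) (XT.nd (nat_lit 78) (nat_lit 228) (nat_lit 0) (XT.lf (nat_lit 152) (nat_lit 28722101) (nat_lit 0) (nat_lit 1937003575) (nat_lit 76) (nat_lit 1937003575) (nat_lit 139) (nat_lit 1) (nat_lit 137) (nat_lit 1) (nat_lit 138) (nat_lit 1) (nat_lit 363) (nat_lit 381) (nat_lit 276)) (XT.lf (nat_lit 228) (nat_lit 2725185938) (nat_lit 0) (nat_lit 568847047) (nat_lit 152) (nat_lit 568847047) (nat_lit 137) (nat_lit 1) (nat_lit 134) (nat_lit 1) (nat_lit 136) (nat_lit 1) (nat_lit 364)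 (nat_lit 381) (nat_lit 275))) (XT.nd (nat_lit 78) (nat_lit 304) (nat_lit 0) (XT.lf (nat_lit 76) (nat_lit 763804267) (nat_lit 0) (nat_lit 2295789010) (nat_lit 228) (nat_lit 763804267) (nat_lit 135) (nat_lit 1) (nat_lit 134) (nat_lit 1) (nat_lit 137) (nat_lit 1) (nat_lit 365) (nat_lit 381) (nat_lit 274)) (XT.nd (nat_lit 78) (nat_lit 228) (nat_lit 0) (XT.lf (nat_lit 152) (nat_lit 342404289) (nat_lit 0) (nat_lit 1721002588) (nat_lit 76) (nat_lit 1721002588) (nat_lit 135) (nat_lit 1) (nat_lit 133) (nat_lit 1) (nat_lit 134) (nat_lit 1) (nat_lit 366) (nat_lit 381) (nat_lit 273)) (XT.lf (nat_lit 228) (nat_lit 2942275681) (nat_lit 0) (nat_lit 401856019) (nat_lit 152) (nat_lit 401856019) (nat_lit 133) (nat_lit 1) (nat_lit 130) (nat_lit 1) (nat_lit 132) (nat_lit 1) (nat_lit 367) (nat_lit 381) (nat_lit 272))))) (XT.nd (nat_lit 234) (nat_lit 304) (nat_lit 0) (XT.nd (nat_lit 78) (nat_lit 304) (nat_lit 0) (XT.lf (nat_lit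 76) (nat_lit 884749170) (nat_lit 0) (nat_lit 1938242360) (nat_lit 228) (nat_lit 884749170) (nat_lit 131) (nat_lit 1) (nat_lit 130) (nat_lit 1) (nat_lit 133) (nat_lit 1) (nat_lit 368) (nat_lit 381) (nat_lit 271)) (XT.nd (nat_lit 78) (nat_lit 228) (nat_lit 0) (XT.lf (nat_lit 152) (nat_lit 611877187) (nat_lit 0) (nat_lit 1529088509) (nat_lit 76) (nat_lit 1529088509) (nat_lit 131) (nat_lit 1) (nat_lit 129) (nat_lit 1) (nat_lit 130) (nat_lit 1) (nat_lit 369) (nat_lit 381) (nat_lit 270)) (XT.lf (nat_lit 228) (nat_lit 3119982836) (nat_lit 0) (nat_lit 256502884) (nat_lit 152) (nat_lit 256502884) (nat_lit 129) (nat_lit 1) (nat_lit 126) (nat_lit 1) (nat_lit 128) (nat_lit 1) (nat_lit 370) (nat_lit 381) (nat_lit 269)))) (XT.nd (nat_lit 78) (nat_lit 304) (nat_lit 0) (XT.lf (nat_lit 76) (nat_lit 986203685) (nat_lit 0) (nat_lit 1623524166) (nat_lit 228) (nat_lit 986203685) (nat_lit 127) (nat_lit 1) (nat_lit 126) (nat_lit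 1) (nat_lit 129) (nat_lit 1) (nat_lit 371) (nat_lit 381) (nat_lit 268)) (XT.nd (nat_lit 78) (nat_lit 228) (nat_lit 0) (XT.lf (nat_lit 152) (nat_lit 842339530) (nat_lit 0) (nat_lit 1358575335) (nat_lit 76) (nat_lit 1358575335) (nat_lit 127) (nat_lit 1) (nat_lit 125) (nat_lit 1) (nat_lit 126) (nat_lit 1) (nat_lit 372) (nat_lit 381) (nat_lit 267)) (XT.lf (nat_lit 228) (nat_lit 3263141040) (nat_lit 0) (nat_lit 130286884) (nat_lit 152) (nat_lit 130286884) (nat_lit 125) (nat_lit 1) (nat_lit 122) (nat_lit 1) (nat_lit 124) (nat_lit 1) (nat_lit 373) (nat_lit 381) (nat_lit 266)))))) (XT.nd (nat_lit 44616) (nat_lit 0) (nat_lit 18620) (XT.nd (nat_lit 156) (nat_lit 228) (nat_lit 0) (XT.nd (nat_lit 78) (nat_lit 76) (nat_lit 0) (XT.lf (nat_lit 76) (nat_lit 1070516101) (nat_lit 0) (nat_lit 1346772361) (nat_lit 228) (nat_lit 1070516101) (nat_lit 123) (nat_lit 1) (nat_lit 122) (nat_lit 1) (nat_lit 125) (nat_lit 1) (nat_lit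 374) (nat_lit 381) (nat_lit 265)) (XT.lf (nat_lit 152) (nat_lit 1038402495) (nat_lit 0) (nat_lit 1207076589) (nat_lit 76) (nat_lit 1207076589) (nat_lit 123) (nat_lit 1) (nat_lit 121) (nat_lit 1) (nat_lit 122) (nat_lit 1) (nat_lit 375) (nat_lit 381) (nat_lit 264))) (XT.nd (nat_lit 44304) (nat_lit 0) (nat_lit 19684) (XT.lf (nat_lit 228) (nat_lit 3376032045) (nat_lit 0) (nat_lit 20988689) (nat_lit 152) (nat_lit 20988689) (nat_lit 121) (nat_lit 1) (nat_lit 118) (nat_lit 1) (nat_lit 120) (nat_lit 1) (nat_lit 376) (nat_lit 381) (nat_lit 263)) (XT.nd (nat_lit 78) (nat_lit 0) (nat_lit 76) (XT.lf (nat_lit 1292) (nat_lit 3118808426) (nat_lit 76) (nat_lit 4783667870) (nat_lit 0) (nat_lit 4783667870) (nat_lit 394) (nat_lit 1) (nat_lit 378) (nat_lit 1) (nat_lit 377) (nat_lit 1) (nat_lit 263) (nat_lit 382) (nat_lit 375)) (XT.lf (nat_lit 1292) (nat_lit 1314712514) (nat_lit 0) (nat_lit 9877947630) (nat_lit 1216) (nat_lit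 1314712514) (nat_lit 395) (nat_lit 1) (nat_lit 378) (nat_lit 1) (nat_lit 394) (nat_lit 1) (nat_lit 264) (nat_lit 382) (nat_lit 374))))) (XT.nd (nat_lit 234) (nat_lit 1140) (nat_lit 0) (XT.nd (nat_lit 78) (nat_lit 0) (nat_lit 76) (XT.lf (nat_lit 1292) (nat_lit 2057452894) (nat_lit 76) (nat_lit 5136767268) (nat_lit 0) (nat_lit 5136767268) (nat_lit 395) (nat_lit 1) (nat_lit 379) (nat_lit 1) (nat_lit 378) (nat_lit 1) (nat_lit 265) (nat_lit 382) (nat_lit 373)) (XT.nd (nat_lit 78) (nat_lit 0) (nat_lit 0) (XT.lf (nat_lit 1292) (nat_lit 740884660) (nat_lit 0) (nat_lit 10677376989) (nat_lit 1216) (nat_lit 740884660) (nat_lit 396) (nat_lit 1) (nat_lit 379) (nat_lit 1) (nat_lit 395) (nat_lit 1) (nat_lit 266) (nat_lit 382) (nat_lit 372)) (XT.lf (nat_lit 1292) (nat_lit 818173062) (nat_lit 76) (nat_lit 5585544135) (nat_lit 0) (nat_lit 5585544135) (nat_lit 396) (nat_lit 1) (nat_lit 380) (nat_lit 1) (nat_lit 379) (nat_lit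 1) (nat_lit 267) (nat_lit 382) (nat_lit 371)))) (XT.nd (nat_lit 78) (nat_lit 1292) (nat_lit 0) (XT.lf (nat_lit 1292) (nat_lit 82902064) (nat_lit 0) (nat_lit 11658284392) (nat_lit 1216) (nat_lit 82902064) (nat_lit 397) (nat_lit 1) (nat_lit 380) (nat_lit 1) (nat_lit 396) (nat_lit 1) (nat_lit 268) (nat_lit 382) (nat_lit 370)) (XT.nd (nat_lit 78) (nat_lit 0) (nat_lit 0) (XT.lf (nat_lit 1368) (nat_lit 5544861627) (nat_lit 0) (nat_lit 570506477) (nat_lit 1292) (nat_lit 5544861627) (nat_lit 381) (nat_lit 1) (nat_lit 363) (nat_lit 1) (nat_lit 380) (nat_lit 1) (nat_lit 269) (nat_lit 382) (nat_lit 369)) (XT.lf (nat_lit 1368) (nat_lit 10211664060) (nat_lit 76) (nat_lit 644611625) (nat_lit 0) (nat_lit 644611625) (nat_lit 381) (nat_lit 1) (nat_lit 364) (nat_lit 1) (nat_lit 363) (nat_lit 1) (nat_lit 270) (nat_lit 382) (nat_lit 368))))))) (XT.nd (nat_lit 858) (nat_lit 3040) (nat_lit 0) (XT.nd (nat_lit 390) (nat_lit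 2432) (nat_lit 0) (XT.nd (nat_lit 156) (nat_lit 760) (nat_lit 0) (XT.nd (nat_lit 78) (nat_lit 0) (nat_lit 0) (XT.lf (nat_lit 1368) (nat_lit 4629036910) (nat_lit 0) (nat_lit 2085167287) (nat_lit 1292) (nat_lit 4629036910) (nat_lit 382) (nat_lit 1) (nat_lit 364) (nat_lit 1) (nat_lit 381) (nat_lit 1) (nat_lit 271) (nat_lit 382) (nat_lit 367)) (XT.lf (nat_lit 1368) (nat_lit 8311815237) (nat_lit 76) (nat_lit 1438887941) (nat_lit 0) (nat_lit 1438887941) (nat_lit 382) (nat_lit 1) (nat_lit 365) (nat_lit 1) (nat_lit 364) (nat_lit 1) (nat_lit 272) (nat_lit 382) (nat_lit 366))) (XT.nd (nat_lit 78) (nat_lit 836) (nat_lit 0) (XT.lf (nat_lit 76) (nat_lit 3655411191) (nat_lit 0) (nat_lit 3727197043) (nat_lit 1292) (nat_lit 3655411191) (nat_lit 366) (nat_lit 1) (nat_lit 365) (nat_lit 1) (nat_lit 382) (nat_lit 1) (nat_lit 273) (nat_lit 382) (nat_lit 365)) (XT.nd (nat_lit 78) (nat_lit 0) (nat_lit 0) (XT.lf (nat_lit 912)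 (nat_lit 6302443513) (nat_lit 0) (nat_lit 2293677312) (nat_lit 836) (nat_lit 2293677312) (nat_lit 366) (nat_lit 1) (nat_lit 354) (nat_lit 1) (nat_lit 365) (nat_lit 1) (nat_lit 274) (nat_lit 382) (nat_lit 364)) (XT.lf (nat_lit 76) (nat_lit 2630517235) (nat_lit 0) (nat_lit 5483042014) (nat_lit 912) (nat_lit 2630517235) (nat_lit 355) (nat_lit 1) (nat_lit 354) (nat_lit 1) (nat_lit 366) (nat_lit 1) (nat_lit 275) (nat_lit 382) (nat_lit 363))))) (XT.nd (nat_lit 234) (nat_lit 1216) (nat_lit 0) (XT.nd (nat_lit 78) (nat_lit 608) (nat_lit 0) (XT.lf (nat_lit 684) (nat_lit 4196202417) (nat_lit 0) (nat_lit 3202415523) (nat_lit 608) (nat_lit 3202415523) (nat_lit 355) (nat_lit 1) (nat_lit 346) (nat_lit 1) (nat_lit 354) (nat_lit 1) (nat_lit 276) (nat_lit 382) (nat_lit 362)) (XT.nd (nat_lit 78) (nat_lit 608) (nat_lit 0) (XT.lf (nat_lit 76) (nat_lit 1560419165) (nat_lit 0) (nat_lit 7340108320) (nat_lit 684) (nat_lit 1560419165)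 (nat_lit 347) (nat_lit 1) (nat_lit 346) (nat_lit 1) (nat_lit 355) (nat_lit 1) (nat_lit 277) (nat_lit 382) (nat_lit 361)) (XT.lf (nat_lit 684) (nat_lit 2004833681) (nat_lit 0) (nat_lit 4159005189) (nat_lit 608) (nat_lit 4159005189) (nat_lit 347) (nat_lit 1) (nat_lit 338) (nat_lit 1) (nat_lit 346) (nat_lit 1) (nat_lit 278) (nat_lit 382) (nat_lit 360)))) (XT.nd (nat_lit 78) (nat_lit 1216) (nat_lit 0) (XT.lf (nat_lit 76) (nat_lit 450742092) (nat_lit 0) (nat_lit 9286701539) (nat_lit 684) (nat_lit 450742092) (nat_lit 339) (nat_lit 1) (nat_lit 338) (nat_lit 1) (nat_lit 347) (nat_lit 1) (nat_lit 279) (nat_lit 382) (nat_lit 359)) (XT.nd (nat_lit 78) (nat_lit 608) (nat_lit 0) (XT.lf (nat_lit 76) (nat_lit 4899518045) (nat_lit 0) (nat_lit 255686354) (nat_lit 608) (nat_lit 4899518045) (nat_lit 331) (nat_lit 1) (nat_lit 330) (nat_lit 1) (nat_lit 338) (nat_lit 1) (nat_lit 280) (nat_lit 382) (nat_lit 358)) (XT.lf (nat_lit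 684) (nat_lit 8551560139) (nat_lit 0) (nat_lit 686502976) (nat_lit 608) (nat_lit 686502976) (nat_lit 331) (nat_lit 1) (nat_lit 322) (nat_lit 1) (nat_lit 330) (nat_lit 1) (nat_lit 281) (nat_lit 382) (nat_lit 357)))))) (XT.nd (nat_lit 468) (nat_lit 1520) (nat_lit 0) (XT.nd (nat_lit 234) (nat_lit 988) (nat_lit 0) (XT.nd (nat_lit 78) (nat_lit 532) (nat_lit 0) (XT.lf (nat_lit 76) (nat_lit 3627874763) (nat_lit 0) (nat_lit 2539985090) (nat_lit 684) (nat_lit 3627874763) (nat_lit 323) (nat_lit 1) (nat_lit 322) (nat_lit 1) (nat_lit 331) (nat_lit 1) (nat_lit 282) (nat_lit 382) (nat_lit 356)) (XT.nd (nat_lit 78) (nat_lit 0) (nat_lit 0) (XT.lf (nat_lit 608) (nat_lit 5972779157) (nat_lit 0) (nat_lit 1848575531) (nat_lit 532) (nat_lit 1848575531) (nat_lit 323) (nat_lit 1) (nat_lit 315) (nat_lit 1) (nat_lit 322) (nat_lit 1) (nat_lit 283) (nat_lit 382) (nat_lit 355)) (XT.lf (nat_lit 76) (nat_lit 2334020214) (nat_lit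 0) (nat_lit 4878027179) (nat_lit 608) (nat_lit 2334020214) (nat_lit 316) (nat_lit 1) (nat_lit 315) (nat_lit 1) (nat_lit 323) (nat_lit 1) (nat_lit 284) (nat_lit 382) (nat_lit 354)))) (XT.nd (nat_lit 78) (nat_lit 456) (nat_lit 0) (XT.lf (nat_lit 608) (nat_lit 3353480003) (nat_lit 0) (nat_lit 3035469857) (nat_lit 532) (nat_lit 3035469857) (nat_lit 316) (nat_lit 1) (nat_lit 308) (nat_lit 1) (nat_lit 315) (nat_lit 1) (nat_lit 285) (nat_lit 382) (nat_lit 353)) (XT.nd (nat_lit 78) (nat_lit 456) (nat_lit 0) (XT.lf (nat_lit 76) (nat_lit 1022002486) (nat_lit 0) (nat_lit 7261342927) (nat_lit 608) (nat_lit 1022002486) (nat_lit 309) (nat_lit 1) (nat_lit 308) (nat_lit 1) (nat_lit 316) (nat_lit 1) (nat_lit 286) (nat_lit 382) (nat_lit 352)) (XT.lf (nat_lit 532) (nat_lit 701480355) (nat_lit 0) (nat_lit 4243095176) (nat_lit 456) (nat_lit 4243095176) (nat_lit 309) (nat_lit 1) (nat_lit 302) (nat_lit 1) (nat_lit 308) (nat_lit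 1) (nat_lit 287) (nat_lit 382) (nat_lit 351))))) (XT.nd (nat_lit 234) (nat_lit 456) (nat_lit 0) (XT.nd (nat_lit 78) (nat_lit 456) (nat_lit 0) (XT.lf (nat_lit 608) (nat_lit 8469948291) (nat_lit 0) (nat_lit 301458736) (nat_lit 532) (nat_lit 301458736) (nat_lit 302) (nat_lit 1) (nat_lit 294) (nat_lit 1) (nat_lit 301) (nat_lit 1) (nat_lit 288) (nat_lit 382) (nat_lit 350)) (XT.nd (nat_lit 78) (nat_lit 456) (nat_lit 0) (XT.lf (nat_lit 76) (nat_lit 3510656981) (nat_lit 0) (nat_lit 1937451739) (nat_lit 608) (nat_lit 3510656981) (nat_lit 295) (nat_lit 1) (nat_lit 294) (nat_lit 1) (nat_lit 302) (nat_lit 1) (nat_lit 289) (nat_lit 382) (nat_lit 349)) (XT.lf (nat_lit 532) (nat_lit 5595878244) (nat_lit 0) (nat_lit 1625778729) (nat_lit 456) (nat_lit 1625778729) (nat_lit 295) (nat_lit 1) (nat_lit 288) (nat_lit 1) (nat_lit 294) (nat_lit 1) (nat_lit 290) (nat_lit 382) (nat_lit 348)))) (XT.nd (nat_lit 78) (nat_lit 456)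 (nat_lit 0) (XT.lf (nat_lit 76) (nat_lit 2078277667) (nat_lit 0) (nat_lit 4581179260) (nat_lit 532) (nat_lit 2078277667) (nat_lit 289) (nat_lit 1) (nat_lit 288) (nat_lit 1) (nat_lit 295) (nat_lit 1) (nat_lit 291) (nat_lit 382) (nat_lit 347)) (XT.nd (nat_lit 78) (nat_lit 0) (nat_lit 0) (XT.lf (nat_lit 532) (nat_lit 2714240929) (nat_lit 0) (nat_lit 2957839786) (nat_lit 456) (nat_lit 2957839786) (nat_lit 289) (nat_lit 1) (nat_lit 282) (nat_lit 1) (nat_lit 288) (nat_lit 1) (nat_lit 292) (nat_lit 382) (nat_lit 346)) (XT.lf (nat_lit 76) (nat_lit 643531004) (nat_lit 0) (nat_lit 7237401890) (nat_lit 532) (nat_lit 643531004) (nat_lit 283) (nat_lit 1) (nat_lit 282) (nat_lit 1) (nat_lit 289) (nat_lit 1) (nat_lit 293) (nat_lit 382) (nat_lit 345))))))))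
noncomputable def ec100 : XT := (XT.nd (nat_lit 1716) (nat_lit 3192) (nat_lit 0) (XT.nd (nat_lit 858) (nat_lit 2356) (nat_lit 0) (XT.nd (nat_lit 390) (nat_lit 1520) (nat_lit 0) (XT.nd (nat_lit 156) (nat_lit 380) (nat_lit 0) (XT.nd (nat_lit 78) (nat_lit 456) (nat_lit 0) (XT.lf (nat_lit 76) (nat_lit 4126883714) (nat_lit 0) (nat_lit 166195888) (nat_lit 456) (nat_lit 4126883714) (nat_lit 277) (nat_lit 1) (nat_lit 276) (nat_lit 1) (nat_lit 282) (nat_lit 1) (nat_lit 294) (nat_lit 382) (nat_lit 344)) (XT.lf (nat_lit 532) (nat_lit 6751277578) (nat_lit 0) (nat_lit 783228534) (nat_lit 456) (nat_lit 783228534) (nat_lit 277) (nat_lit 1) (nat_lit 270) (nat_lit 1) (nat_lit 276) (nat_lit 1) (nat_lit 295) (nat_lit 382) (nat_lit 343))) (XT.nd (nat_lit 78) (nat_lit 380) (nat_lit 0) (XT.lf (nat_lit 76) (nat_lit 2612852617) (nat_lit 0) (nat_lit 2990831352) (nat_lit 532) (nat_lit 2612852617) (nat_lit 271) (nat_lit 1) (nat_lit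 270) (nat_lit 1) (nat_lit 277) (nat_lit 1) (nat_lit 296) (nat_lit 382) (nat_lit 342)) (XT.nd (nat_lit 78) (nat_lit 0) (nat_lit 0) (XT.lf (nat_lit 456) (nat_lit 3715245160) (nat_lit 0) (nat_lit 2201093423) (nat_lit 380) (nat_lit 2201093423) (nat_lit 271) (nat_lit 1) (nat_lit 265) (nat_lit 1) (nat_lit 270) (nat_lit 1) (nat_lit 297) (nat_lit 382) (nat_lit 341)) (XT.lf (nat_lit 76) (nat_lit 1105997232) (nat_lit 0) (nat_lit 5808148109) (nat_lit 456) (nat_lit 1105997232) (nat_lit 266) (nat_lit 1) (nat_lit 265) (nat_lit 1) (nat_lit 271) (nat_lit 1) (nat_lit 298) (nat_lit 382) (nat_lit 340))))) (XT.nd (nat_lit 234) (nat_lit 684) (nat_lit 0) (XT.nd (nat_lit 78) (nat_lit 456) (nat_lit 0) (XT.lf (nat_lit 456) (nat_lit 695585139) (nat_lit 0) (nat_lit 3614221574) (nat_lit 380) (nat_lit 3614221574) (nat_lit 266) (nat_lit 1) (nat_lit 260) (nat_lit 1) (nat_lit 265) (nat_lit 1) (nat_lit 299) (nat_lit 382) (nat_lit 339))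 (XT.nd (nat_lit 78) (nat_lit 0) (nat_lit 0) (XT.lf (nat_lit 456) (nat_lit 7054196560) (nat_lit 0) (nat_lit 387931050) (nat_lit 380) (nat_lit 387931050) (nat_lit 260) (nat_lit 1) (nat_lit 254) (nat_lit 1) (nat_lit 259) (nat_lit 1) (nat_lit 300) (nat_lit 382) (nat_lit 338)) (XT.lf (nat_lit 76) (nat_lit 2738757055) (nat_lit 0) (nat_lit 2259082877) (nat_lit 456) (nat_lit 2738757055) (nat_lit 255) (nat_lit 1) (nat_lit 254) (nat_lit 1) (nat_lit 260) (nat_lit 1) (nat_lit 301) (nat_lit 382) (nat_lit 337)))) (XT.nd (nat_lit 78) (nat_lit 304) (nat_lit 0) (XT.lf (nat_lit 456) (nat_lit 3924606577) (nat_lit 0) (nat_lit 1860302918) (nat_lit 380) (nat_lit 1860302918) (nat_lit 255) (nat_lit 1) (nat_lit 249) (nat_lit 1) (nat_lit 254) (nat_lit 1) (nat_lit 302) (nat_lit 382) (nat_lit 336)) (XT.nd (nat_lit 78) (nat_lit 304) (nat_lit 0) (XT.lf (nat_lit 76) (nat_lit 1189035935) (nat_lit 0) (nat_lit 5177285885) (nat_lit 456)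 (nat_lit 1189035935) (nat_lit 250) (nat_lit 1) (nat_lit 249) (nat_lit 1) (nat_lit 255) (nat_lit 1) (nat_lit 303) (nat_lit 382) (nat_lit 335)) (XT.lf (nat_lit 380) (nat_lit 825824159) (nat_lit 0) (nat_lit 3320408842) (nat_lit 304) (nat_lit 3320408842) (nat_lit 250) (nat_lit 1) (nat_lit 245) (nat_lit 1) (nat_lit 249) (nat_lit 1) (nat_lit 304) (nat_lit 382) (nat_lit 334)))))) (XT.nd (nat_lit 390) (nat_lit 1292) (nat_lit 0) (XT.nd (nat_lit 156) (nat_lit 608) (nat_lit 0) (XT.nd (nat_lit 78) (nat_lit 0) (nat_lit 0) (XT.lf (nat_lit 456) (nat_lit 6697241908) (nat_lit 0) (nat_lit 341315107) (nat_lit 380) (nat_lit 341315107) (nat_lit 245) (nat_lit 1) (nat_lit 239) (nat_lit 1) (nat_lit 244) (nat_lit 1) (nat_lit 305) (nat_lit 382) (nat_lit 333)) (XT.lf (nat_lit 76) (nat_lit 2548792776) (nat_lit 0) (nat_lit 2195881570) (nat_lit 456) (nat_lit 2548792776) (nat_lit 240) (nat_lit 1) (nat_lit 239) (nat_lit 1) (nat_lit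 245) (nat_lit 1) (nat_lit 306) (nat_lit 382) (nat_lit 332))) (XT.nd (nat_lit 78) (nat_lit 304) (nat_lit 0) (XT.lf (nat_lit 380) (nat_lit 3522992878) (nat_lit 0) (nat_lit 1842979429) (nat_lit 304) (nat_lit 1842979429) (nat_lit 240) (nat_lit 1) (nat_lit 235) (nat_lit 1) (nat_lit 239) (nat_lit 1) (nat_lit 307) (nat_lit 382) (nat_lit 331)) (XT.nd (nat_lit 78) (nat_lit 304) (nat_lit 0) (XT.lf (nat_lit 76) (nat_lit 979690504) (nat_lit 0) (nat_lit 5166501000) (nat_lit 380) (nat_lit 979690504) (nat_lit 236) (nat_lit 1) (nat_lit 235) (nat_lit 1) (nat_lit 240) (nat_lit 1) (nat_lit 308) (nat_lit 382) (nat_lit 330)) (XT.lf (nat_lit 380) (nat_lit 390659263) (nat_lit 0) (nat_lit 3326548612) (nat_lit 304) (nat_lit 3326548612) (nat_lit 236) (nat_lit 1) (nat_lit 231) (nat_lit 1) (nat_lit 235) (nat_lit 1) (nat_lit 309) (nat_lit 382) (nat_lit 329))))) (XT.nd (nat_lit 234) (nat_lit 608) (nat_lit 0) (XT.nd (nat_lit 78) (nat_lit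 304) (nat_lit 0) (XT.lf (nat_lit 380) (nat_lit 5838151804) (nat_lit 0) (nat_lit 562549934) (nat_lit 304) (nat_lit 562549934) (nat_lit 231) (nat_lit 1) (nat_lit 226) (nat_lit 1) (nat_lit 230) (nat_lit 1) (nat_lit 310) (nat_lit 382) (nat_lit 328)) (XT.nd (nat_lit 78) (nat_lit 304) (nat_lit 0) (XT.lf (nat_lit 76) (nat_lit 2118934628) (nat_lit 0) (nat_lit 2645429428) (nat_lit 380) (nat_lit 2118934628) (nat_lit 227) (nat_lit 1) (nat_lit 226) (nat_lit 1) (nat_lit 231) (nat_lit 1) (nat_lit 311) (nat_lit 382) (nat_lit 327)) (XT.lf (nat_lit 380) (nat_lit 2658261296) (nat_lit 0) (nat_lit 2073328861) (nat_lit 304) (nat_lit 2073328861) (nat_lit 227) (nat_lit 1) (nat_lit 222) (nat_lit 1) (nat_lit 226) (nat_lit 1) (nat_lit 312) (nat_lit 382) (nat_lit 326)))) (XT.nd (nat_lit 78) (nat_lit 608) (nat_lit 0) (XT.lf (nat_lit 76) (nat_lit 549170958) (nat_lit 0) (nat_lit 5629713753) (nat_lit 380) (nat_lit 549170958) (nat_lit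 223) (nat_lit 1) (nat_lit 222) (nat_lit 1) (nat_lit 227) (nat_lit 1) (nat_lit 313) (nat_lit 382) (nat_lit 325)) (XT.nd (nat_lit 78) (nat_lit 304) (nat_lit 0) (XT.lf (nat_lit 76) (nat_lit 3094774422) (nat_lit 0) (nat_lit 462138722) (nat_lit 304) (nat_lit 3094774422) (nat_lit 219) (nat_lit 1) (nat_lit 218) (nat_lit 1) (nat_lit 222) (nat_lit 1) (nat_lit 314) (nat_lit 382) (nat_lit 324)) (XT.lf (nat_lit 380) (nat_lit 4605680829) (nat_lit 0) (nat_lit 985556426) (nat_lit 304) (nat_lit 985556426) (nat_lit 219) (nat_lit 1) (nat_lit 214) (nat_lit 1) (nat_lit 218) (nat_lit 1) (nat_lit 315) (nat_lit 382) (nat_lit 323))))))) (XT.nd (nat_lit 858) (nat_lit 1292) (nat_lit 0) (XT.nd (nat_lit 390) (nat_lit 1064) (nat_lit 0) (XT.nd (nat_lit 156) (nat_lit 608) (nat_lit 0) (XT.nd (nat_lit 78) (nat_lit 228) (nat_lit 0) (XT.lf (nat_lit 76) (nat_lit 1511172046) (nat_lit 0) (nat_lit 3480408900) (nat_lit 380) (nat_lit 1511172046)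 (nat_lit 215) (nat_lit 1) (nat_lit 214) (nat_lit 1) (nat_lit 219) (nat_lit 1) (nat_lit 316) (nat_lit 382) (nat_lit 322)) (XT.lf (nat_lit 304) (nat_lit 1451002304) (nat_lit 0) (nat_lit 2489436345) (nat_lit 228) (nat_lit 2489436345) (nat_lit 215) (nat_lit 1) (nat_lit 211) (nat_lit 1) (nat_lit 214) (nat_lit 1) (nat_lit 317) (nat_lit 382) (nat_lit 321))) (XT.nd (nat_lit 78) (nat_lit 228) (nat_lit 0) (XT.lf (nat_lit 380) (nat_lit 6270583004) (nat_lit 0) (nat_lit 44033329) (nat_lit 304) (nat_lit 44033329) (nat_lit 211) (nat_lit 1) (nat_lit 206) (nat_lit 1) (nat_lit 210) (nat_lit 1) (nat_lit 318) (nat_lit 382) (nat_lit 320)) (XT.nd (nat_lit 78) (nat_lit 228) (nat_lit 0) (XT.lf (nat_lit 76) (nat_lit 2336094424) (nat_lit 0) (nat_lit 1615095459) (nat_lit 380) (nat_lit 2336094424) (nat_lit 207) (nat_lit 1) (nat_lit 206) (nat_lit 1) (nat_lit 211) (nat_lit 1) (nat_lit 319) (nat_lit 382) (nat_lit 319)) (XT.lf (nat_lit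 304) (nat_lit 3104515592) (nat_lit 0) (nat_lit 1556510384) (nat_lit 228) (nat_lit 1556510384) (nat_lit 207) (nat_lit 1) (nat_lit 203) (nat_lit 1) (nat_lit 206) (nat_lit 1) (nat_lit 320) (nat_lit 382) (nat_lit 318))))) (XT.nd (nat_lit 234) (nat_lit 532) (nat_lit 0) (XT.nd (nat_lit 78) (nat_lit 532) (nat_lit 0) (XT.lf (nat_lit 76) (nat_lit 775882472) (nat_lit 0) (nat_lit 4597159688) (nat_lit 304) (nat_lit 775882472) (nat_lit 204) (nat_lit 1) (nat_lit 203) (nat_lit 1) (nat_lit 207) (nat_lit 1) (nat_lit 321) (nat_lit 382) (nat_lit 317)) (XT.nd (nat_lit 78) (nat_lit 228) (nat_lit 0) (XT.lf (nat_lit 76) (nat_lit 3040092195) (nat_lit 0) (nat_lit 813950) (nat_lit 304) (nat_lit 3040092195) (nat_lit 200) (nat_lit 1) (nat_lit 199) (nat_lit 1) (nat_lit 203) (nat_lit 1) (nat_lit 322) (nat_lit 382) (nat_lit 316)) (XT.lf (nat_lit 304) (nat_lit 4520767368) (nat_lit 0) (nat_lit 746704787) (nat_lit 228) (nat_lit 746704787)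 (nat_lit 200) (nat_lit 1) (nat_lit 196) (nat_lit 1) (nat_lit 199) (nat_lit 1) (nat_lit 323) (nat_lit 382) (nat_lit 315)))) (XT.nd (nat_lit 78) (nat_lit 532) (nat_lit 0) (XT.lf (nat_lit 76) (nat_lit 1481005092) (nat_lit 0) (nat_lit 2985987921) (nat_lit 304) (nat_lit 1481005092) (nat_lit 197) (nat_lit 1) (nat_lit 196) (nat_lit 1) (nat_lit 200) (nat_lit 1) (nat_lit 324) (nat_lit 382) (nat_lit 314)) (XT.nd (nat_lit 78) (nat_lit 304) (nat_lit 0) (XT.lf (nat_lit 304) (nat_lit 1419379306) (nat_lit 0) (nat_lit 2231757425) (nat_lit 228) (nat_lit 2231757425) (nat_lit 197) (nat_lit 1) (nat_lit 193) (nat_lit 1) (nat_lit 196) (nat_lit 1) (nat_lit 325) (nat_lit 382) (nat_lit 313)) (XT.lf (nat_lit 304) (nat_lit 5727755364) (nat_lit 0) (nat_lit 45734105) (nat_lit 228) (nat_lit 45734105) (nat_lit 193) (nat_lit 1) (nat_lit 189) (nat_lit 1) (nat_lit 192) (nat_lit 1) (nat_lit 326) (nat_lit 382) (nat_lit 312)))))) (XT.nd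 (nat_lit 390) (nat_lit 608) (nat_lit 0) (XT.nd (nat_lit 156) (nat_lit 456) (nat_lit 0) (XT.nd (nat_lit 78) (nat_lit 228) (nat_lit 0) (XT.lf (nat_lit 76) (nat_lit 2084439828) (nat_lit 0) (nat_lit 1586478661) (nat_lit 304) (nat_lit 2084439828) (nat_lit 190) (nat_lit 1) (nat_lit 189) (nat_lit 1) (nat_lit 193) (nat_lit 1) (nat_lit 327) (nat_lit 382) (nat_lit 311)) (XT.lf (nat_lit 304) (nat_lit 2639854385) (nat_lit 0) (nat_lit 1526522905) (nat_lit 228) (nat_lit 1526522905) (nat_lit 190) (nat_lit 1) (nat_lit 186) (nat_lit 1) (nat_lit 189) (nat_lit 1) (nat_lit 328) (nat_lit 382) (nat_lit 310))) (XT.nd (nat_lit 78) (nat_lit 456) (nat_lit 0) (XT.lf (nat_lit 76) (nat_lit 564613328) (nat_lit 0) (nat_lit 4502273305) (nat_lit 304) (nat_lit 564613328) (nat_lit 187) (nat_lit 1) (nat_lit 186) (nat_lit 1) (nat_lit 190) (nat_lit 1) (nat_lit 329) (nat_lit 382) (nat_lit 309)) (XT.nd (nat_lit 78) (nat_lit 228) (nat_lit 0)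 (XT.lf (nat_lit 76) (nat_lit 2598197776) (nat_lit 0) (nat_lit 374096877) (nat_lit 228) (nat_lit 2598197776) (nat_lit 184) (nat_lit 1) (nat_lit 183) (nat_lit 1) (nat_lit 186) (nat_lit 1) (nat_lit 330) (nat_lit 382) (nat_lit 308)) (XT.lf (nat_lit 304) (nat_lit 3684072794) (nat_lit 0) (nat_lit 913223342) (nat_lit 228) (nat_lit 913223342) (nat_lit 184) (nat_lit 1) (nat_lit 180) (nat_lit 1) (nat_lit 183) (nat_lit 1) (nat_lit 331) (nat_lit 382) (nat_lit 307))))) (XT.nd (nat_lit 234) (nat_lit 152) (nat_lit 0) (XT.nd (nat_lit 78) (nat_lit 456) (nat_lit 0) (XT.lf (nat_lit 76) (nat_lit 1089661151) (nat_lit 0) (nat_lit 3271908602) (nat_lit 304) (nat_lit 1089661151) (nat_lit 181) (nat_lit 1) (nat_lit 180) (nat_lit 1) (nat_lit 184) (nat_lit 1) (nat_lit 332) (nat_lit 382) (nat_lit 306)) (XT.nd (nat_lit 78) (nat_lit 304) (nat_lit 0) (XT.lf (nat_lit 228) (nat_lit 686321961) (nat_lit 0) (nat_lit 2353206463) (nat_lit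 152) (nat_lit 2353206463) (nat_lit 181) (nat_lit 1) (nat_lit 178) (nat_lit 1) (nat_lit 180) (nat_lit 1) (nat_lit 333) (nat_lit 382) (nat_lit 305)) (XT.lf (nat_lit 304) (nat_lit 4572859082) (nat_lit 0) (nat_lit 381219648) (nat_lit 228) (nat_lit 381219648) (nat_lit 178) (nat_lit 1) (nat_lit 174) (nat_lit 1) (nat_lit 177) (nat_lit 1) (nat_lit 334) (nat_lit 382) (nat_lit 304)))) (XT.nd (nat_lit 78) (nat_lit 152) (nat_lit 0) (XT.lf (nat_lit 76) (nat_lit 1539032851) (nat_lit 0) (nat_lit 2199958206) (nat_lit 304) (nat_lit 1539032851) (nat_lit 175) (nat_lit 1) (nat_lit 174) (nat_lit 1) (nat_lit 178) (nat_lit 1) (nat_lit 335) (nat_lit 382) (nat_lit 303)) (XT.nd (nat_lit 78) (nat_lit 0) (nat_lit 0) (XT.lf (nat_lit 228) (nat_lit 1605241775) (nat_lit 0) (nat_lit 1808273825) (nat_lit 152) (nat_lit 1808273825) (nat_lit 175) (nat_lit 1) (nat_lit 172) (nat_lit 1) (nat_lit 174) (nat_lit 1) (nat_lit 336) (nat_lit 382)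 (nat_lit 302)) (XT.lf (nat_lit 76) (nat_lit 79711075) (nat_lit 0) (nat_lit 5007307774) (nat_lit 228) (nat_lit 79711075) (nat_lit 173) (nat_lit 1) (nat_lit 172) (nat_lit 1) (nat_lit 175) (nat_lit 1) (nat_lit 337) (nat_lit 382) (nat_lit 301))))))))
noncomputable def ec101 : XT := (XT.nd (nat_lit 1716) (nat_lit 1520) (nat_lit 0) (XT.nd (nat_lit 858) (nat_lit 1064) (nat_lit 0) (XT.nd (nat_lit 390) (nat_lit 760) (nat_lit 0) (XT.nd (nat_lit 156) (nat_lit 380) (nat_lit 0) (XT.nd (nat_lit 78) (nat_lit 152) (nat_lit 0) (XT.lf (nat_lit 76) (nat_lit 1921666124) (nat_lit 0) (nat_lit 1268139023) (nat_lit 228) (nat_lit 1921666124) (nat_lit 170) (nat_lit 1) (nat_lit 169) (nat_lit 1) (nat_lit 172) (nat_lit 1) (nat_lit 338) (nat_lit 382) (nat_lit 300)) (XT.lf (nat_lit 228) (nat_lit 2392696334) (nat_lit 0) (nat_lit 1332336961) (nat_lit 152) (nat_lit 1332336961) (nat_lit 170) (nat_lit 1) (nat_lit 167) (nat_lit 1) (nat_lit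 169) (nat_lit 1) (nat_lit 339) (nat_lit 382) (nat_lit 299))) (XT.nd (nat_lit 78) (nat_lit 380) (nat_lit 0) (XT.lf (nat_lit 76) (nat_lit 480310943) (nat_lit 0) (nat_lit 4043533110) (nat_lit 228) (nat_lit 480310943) (nat_lit 168) (nat_lit 1) (nat_lit 167) (nat_lit 1) (nat_lit 170) (nat_lit 1) (nat_lit 340) (nat_lit 382) (nat_lit 298)) (XT.nd (nat_lit 78) (nat_lit 152) (nat_lit 0) (XT.lf (nat_lit 76) (nat_lit 2245487472) (nat_lit 0) (nat_lit 460224758) (nat_lit 228) (nat_lit 2245487472) (nat_lit 165) (nat_lit 1) (nat_lit 164) (nat_lit 1) (nat_lit 167) (nat_lit 1) (nat_lit 341) (nat_lit 382) (nat_lit 297)) (XT.lf (nat_lit 228) (nat_lit 3064190195) (nat_lit 0) (nat_lit 917462278) (nat_lit 152) (nat_lit 917462278) (nat_lit 165) (nat_lit 1) (nat_lit 162) (nat_lit 1) (nat_lit 164) (nat_lit 1) (nat_lit 342) (nat_lit 382) (nat_lit 296))))) (XT.nd (nat_lit 234) (nat_lit 380) (nat_lit 0) (XT.nd (nat_lit 78) (nat_lit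 380) (nat_lit 0) (XT.lf (nat_lit 76) (nat_lit 824311883) (nat_lit 0) (nat_lit 3199039426) (nat_lit 228) (nat_lit 824311883) (nat_lit 163) (nat_lit 1) (nat_lit 162) (nat_lit 1) (nat_lit 165) (nat_lit 1) (nat_lit 343) (nat_lit 382) (nat_lit 295)) (XT.nd (nat_lit 78) (nat_lit 228) (nat_lit 0) (XT.lf (nat_lit 228) (nat_lit 242924298) (nat_lit 0) (nat_lit 2276936218) (nat_lit 152) (nat_lit 2276936218) (nat_lit 163) (nat_lit 1) (nat_lit 160) (nat_lit 1) (nat_lit 162) (nat_lit 1) (nat_lit 344) (nat_lit 382) (nat_lit 294)) (XT.lf (nat_lit 228) (nat_lit 3633474362) (nat_lit 0) (nat_lit 556607860) (nat_lit 152) (nat_lit 556607860) (nat_lit 160) (nat_lit 1) (nat_lit 157) (nat_lit 1) (nat_lit 159) (nat_lit 1) (nat_lit 345) (nat_lit 382) (nat_lit 293)))) (XT.nd (nat_lit 78) (nat_lit 380) (nat_lit 0) (XT.lf (nat_lit 76) (nat_lit 1118372792) (nat_lit 0) (nat_lit 2460181435) (nat_lit 228) (nat_lit 1118372792) (nat_lit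 158) (nat_lit 1) (nat_lit 157) (nat_lit 1) (nat_lit 160) (nat_lit 1) (nat_lit 346) (nat_lit 382) (nat_lit 292)) (XT.nd (nat_lit 78) (nat_lit 228) (nat_lit 0) (XT.lf (nat_lit 228) (nat_lit 856578802) (nat_lit 0) (nat_lit 1895666028) (nat_lit 152) (nat_lit 1895666028) (nat_lit 158) (nat_lit 1) (nat_lit 155) (nat_lit 1) (nat_lit 157) (nat_lit 1) (nat_lit 347) (nat_lit 382) (nat_lit 291)) (XT.lf (nat_lit 228) (nat_lit 4112742542) (nat_lit 0) (nat_lit 243523835) (nat_lit 152) (nat_lit 243523835) (nat_lit 155) (nat_lit 1) (nat_lit 152) (nat_lit 1) (nat_lit 154) (nat_lit 1) (nat_lit 348) (nat_lit 382) (nat_lit 290)))))) (XT.nd (nat_lit 390) (nat_lit 608) (nat_lit 0) (XT.nd (nat_lit 156) (nat_lit 304) (nat_lit 0) (XT.nd (nat_lit 78) (nat_lit 152) (nat_lit 0) (XT.lf (nat_lit 76) (nat_lit 1368399896) (nat_lit 0) (nat_lit 1814845495) (nat_lit 228) (nat_lit 1368399896) (nat_lit 153) (nat_lit 1) (nat_lit 152) (nat_lit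 1) (nat_lit 155) (nat_lit 1) (nat_lit 349) (nat_lit 382) (nat_lit 289)) (XT.lf (nat_lit 228) (nat_lit 1383140444) (nat_lit 0) (nat_lit 1560621984) (nat_lit 152) (nat_lit 1560621984) (nat_lit 153) (nat_lit 1) (nat_lit 150) (nat_lit 1) (nat_lit 152) (nat_lit 1) (nat_lit 350) (nat_lit 382) (nat_lit 288))) (XT.nd (nat_lit 78) (nat_lit 304) (nat_lit 0) (XT.lf (nat_lit 76) (nat_lit 27606803) (nat_lit 0) (nat_lit 4402887593) (nat_lit 228) (nat_lit 27606803) (nat_lit 151) (nat_lit 1) (nat_lit 150) (nat_lit 1) (nat_lit 153) (nat_lit 1) (nat_lit 351) (nat_lit 382) (nat_lit 287)) (XT.nd (nat_lit 78) (nat_lit 152) (nat_lit 0) (XT.lf (nat_lit 76) (nat_lit 1579630978) (nat_lit 0) (nat_lit 1252278517) (nat_lit 152) (nat_lit 1579630978) (nat_lit 149) (nat_lit 1) (nat_lit 148) (nat_lit 1) (nat_lit 150) (nat_lit 1) (nat_lit 352) (nat_lit 382) (nat_lit 286)) (XT.lf (nat_lit 228) (nat_lit 1832864770) (nat_lit 0) (nat_lit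 1266541226) (nat_lit 152) (nat_lit 1266541226) (nat_lit 149) (nat_lit 1) (nat_lit 146) (nat_lit 1) (nat_lit 148) (nat_lit 1) (nat_lit 353) (nat_lit 382) (nat_lit 285))))) (XT.nd (nat_lit 234) (nat_lit 304) (nat_lit 0) (XT.nd (nat_lit 78) (nat_lit 304) (nat_lit 0) (XT.lf (nat_lit 76) (nat_lit 263476667) (nat_lit 0) (nat_lit 3794200038) (nat_lit 228) (nat_lit 263476667) (nat_lit 147) (nat_lit 1) (nat_lit 146) (nat_lit 1) (nat_lit 149) (nat_lit 1) (nat_lit 354) (nat_lit 382) (nat_lit 284)) (XT.nd (nat_lit 78) (nat_lit 152) (nat_lit 0) (XT.lf (nat_lit 76) (nat_lit 1756710202) (nat_lit 0) (nat_lit 762935962) (nat_lit 152) (nat_lit 1756710202) (nat_lit 145) (nat_lit 1) (nat_lit 144) (nat_lit 1) (nat_lit 146) (nat_lit 1) (nat_lit 355) (nat_lit 382) (nat_lit 283)) (XT.lf (nat_lit 228) (nat_lit 2214847871) (nat_lit 0) (nat_lit 1008750919) (nat_lit 152) (nat_lit 1008750919) (nat_lit 145) (nat_lit 1) (nat_lit 142)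 (nat_lit 1) (nat_lit 144) (nat_lit 1) (nat_lit 356) (nat_lit 382) (nat_lit 282)))) (XT.nd (nat_lit 78) (nat_lit 304) (nat_lit 0) (XT.lf (nat_lit 76) (nat_lit 466084325) (nat_lit 0) (nat_lit 3256817433) (nat_lit 228) (nat_lit 466084325) (nat_lit 143) (nat_lit 1) (nat_lit 142) (nat_lit 1) (nat_lit 145) (nat_lit 1) (nat_lit 357) (nat_lit 382) (nat_lit 281)) (XT.nd (nat_lit 78) (nat_lit 152) (nat_lit 0) (XT.lf (nat_lit 76) (nat_lit 1903754589) (nat_lit 0) (nat_lit 338346797) (nat_lit 152) (nat_lit 1903754589) (nat_lit 141) (nat_lit 1) (nat_lit 140) (nat_lit 1) (nat_lit 142) (nat_lit 1) (nat_lit 358) (nat_lit 382) (nat_lit 280)) (XT.lf (nat_lit 228) (nat_lit 2537156134) (nat_lit 0) (nat_lit 783102362) (nat_lit 152) (nat_lit 783102362) (nat_lit 141) (nat_lit 1) (nat_lit 138) (nat_lit 1) (nat_lit 140) (nat_lit 1) (nat_lit 359) (nat_lit 382) (nat_lit 279))))))) (XT.nd (nat_lit 858) (nat_lit 532) (nat_lit 0)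 (XT.nd (nat_lit 390) (nat_lit 608) (nat_lit 0) (XT.nd (nat_lit 156) (nat_lit 304) (nat_lit 0) (XT.nd (nat_lit 78) (nat_lit 76) (nat_lit 0) (XT.lf (nat_lit 76) (nat_lit 639341652) (nat_lit 0) (nat_lit 2782688498) (nat_lit 228) (nat_lit 639341652) (nat_lit 139) (nat_lit 1) (nat_lit 138) (nat_lit 1) (nat_lit 141) (nat_lit 1) (nat_lit 360) (nat_lit 382) (nat_lit 278)) (XT.lf (nat_lit 152) (nat_lit 29583764) (nat_lit 0) (nat_lit 1995113682) (nat_lit 76) (nat_lit 1995113682) (nat_lit 139) (nat_lit 1) (nat_lit 137) (nat_lit 1) (nat_lit 138) (nat_lit 1) (nat_lit 361) (nat_lit 382) (nat_lit 277))) (XT.nd (nat_lit 78) (nat_lit 76) (nat_lit 0) (XT.lf (nat_lit 228) (nat_lit 2806941516) (nat_lit 0) (nat_lit 585912458) (nat_lit 152) (nat_lit 585912458) (nat_lit 137) (nat_lit 1) (nat_lit 134) (nat_lit 1) (nat_lit 136) (nat_lit 1) (nat_lit 362) (nat_lit 382) (nat_lit 276)) (XT.nd (nat_lit 78) (nat_lit 76) (nat_lit 0)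 (XT.lf (nat_lit 76) (nat_lit 786718395) (nat_lit 0) (nat_lit 2364662680) (nat_lit 228) (nat_lit 786718395) (nat_lit 135) (nat_lit 1) (nat_lit 134) (nat_lit 1) (nat_lit 137) (nat_lit 1) (nat_lit 363) (nat_lit 382) (nat_lit 275)) (XT.lf (nat_lit 152) (nat_lit 352676418) (nat_lit 0) (nat_lit 1772632666) (nat_lit 76) (nat_lit 1772632666) (nat_lit 135) (nat_lit 1) (nat_lit 133) (nat_lit 1) (nat_lit 134) (nat_lit 1) (nat_lit 364) (nat_lit 382) (nat_lit 274))))) (XT.nd (nat_lit 234) (nat_lit 304) (nat_lit 0) (XT.nd (nat_lit 78) (nat_lit 76) (nat_lit 0) (XT.lf (nat_lit 228) (nat_lit 3030543951) (nat_lit 0) (nat_lit 413911700) (nat_lit 152) (nat_lit 413911700) (nat_lit 133) (nat_lit 1) (nat_lit 130) (nat_lit 1) (nat_lit 132) (nat_lit 1) (nat_lit 365) (nat_lit 382) (nat_lit 273)) (XT.nd (nat_lit 78) (nat_lit 76) (nat_lit 0) (XT.lf (nat_lit 76) (nat_lit 911291645) (nat_lit 0) (nat_lit 1996389631) (nat_lit 228)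 (nat_lit 911291645) (nat_lit 131) (nat_lit 1) (nat_lit 130) (nat_lit 1) (nat_lit 133) (nat_lit 1) (nat_lit 366) (nat_lit 382) (nat_lit 272)) (XT.lf (nat_lit 152) (nat_lit 630233503) (nat_lit 0) (nat_lit 1574961164) (nat_lit 76) (nat_lit 1574961164) (nat_lit 131) (nat_lit 1) (nat_lit 129) (nat_lit 1) (nat_lit 130) (nat_lit 1) (nat_lit 367) (nat_lit 382) (nat_lit 271)))) (XT.nd (nat_lit 78) (nat_lit 76) (nat_lit 0) (XT.lf (nat_lit 228) (nat_lit 3213582321) (nat_lit 0) (nat_lit 264197971) (nat_lit 152) (nat_lit 264197971) (nat_lit 129) (nat_lit 1) (nat_lit 126) (nat_lit 1) (nat_lit 128) (nat_lit 1) (nat_lit 368) (nat_lit 382) (nat_lit 270)) (XT.nd (nat_lit 78) (nat_lit 76) (nat_lit 0) (XT.lf (nat_lit 76) (nat_lit 1015789796) (nat_lit 0) (nat_lit 1672229891) (nat_lit 228) (nat_lit 1015789796) (nat_lit 127) (nat_lit 1) (nat_lit 126) (nat_lit 1) (nat_lit 129) (nat_lit 1) (nat_lit 369) (nat_lit 382) (nat_lit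 269)) (XT.lf (nat_lit 152) (nat_lit 867609716) (nat_lit 0) (nat_lit 1399332595) (nat_lit 76) (nat_lit 1399332595) (nat_lit 127) (nat_lit 1) (nat_lit 125) (nat_lit 1) (nat_lit 126) (nat_lit 1) (nat_lit 370) (nat_lit 382) (nat_lit 268)))))) (XT.nd (nat_lit 44850) (nat_lit 0) (nat_lit 18620) (XT.nd (nat_lit 234) (nat_lit 228) (nat_lit 0) (XT.nd (nat_lit 78) (nat_lit 76) (nat_lit 0) (XT.lf (nat_lit 228) (nat_lit 3361035271) (nat_lit 0) (nat_lit 134195491) (nat_lit 152) (nat_lit 134195491) (nat_lit 125) (nat_lit 1) (nat_lit 122) (nat_lit 1) (nat_lit 124) (nat_lit 1) (nat_lit 371) (nat_lit 382) (nat_lit 267)) (XT.nd (nat_lit 78) (nat_lit 76) (nat_lit 0) (XT.lf (nat_lit 76) (nat_lit 1102631584) (nat_lit 0) (nat_lit 1387175531) (nat_lit 228) (nat_lit 1102631584) (nat_lit 123) (nat_lit 1) (nat_lit 122) (nat_lit 1) (nat_lit 125) (nat_lit 1) (nat_lit 372) (nat_lit 382) (nat_lit 266)) (XT.lf (nat_lit 152) (nat_lit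 1069554570) (nat_lit 0) (nat_lit 1243288886) (nat_lit 76) (nat_lit 1243288886) (nat_lit 123) (nat_lit 1) (nat_lit 121) (nat_lit 1) (nat_lit 122) (nat_lit 1) (nat_lit 373) (nat_lit 382) (nat_lit 265)))) (XT.nd (nat_lit 78) (nat_lit 0) (nat_lit 0) (XT.lf (nat_lit 228) (nat_lit 3477313007) (nat_lit 0) (nat_lit 21618349) (nat_lit 152) (nat_lit 21618349) (nat_lit 121) (nat_lit 1) (nat_lit 118) (nat_lit 1) (nat_lit 120) (nat_lit 1) (nat_lit 374) (nat_lit 382) (nat_lit 264)) (XT.nd (nat_lit 44460) (nat_lit 0) (nat_lit 19836) (XT.lf (nat_lit 76) (nat_lit 1173960781) (nat_lit 0) (nat_lit 1136779660) (nat_lit 228) (nat_lit 1173960781) (nat_lit 119) (nat_lit 1) (nat_lit 118) (nat_lit 1) (nat_lit 121) (nat_lit 1) (nat_lit 375) (nat_lit 382) (nat_lit 263)) (XT.lf (nat_lit 1292) (nat_lit 763111199) (nat_lit 0) (nat_lit 10997698299) (nat_lit 1216) (nat_lit 763111199) (nat_lit 396) (nat_lit 1) (nat_lit 379) (nat_lit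 1) (nat_lit 395) (nat_lit 1) (nat_lit 264) (nat_lit 383) (nat_lit 373))))) (XT.nd (nat_lit 234) (nat_lit 0) (nat_lit 0) (XT.nd (nat_lit 78) (nat_lit 1216) (nat_lit 0) (XT.lf (nat_lit 1292) (nat_lit 842718254) (nat_lit 76) (nat_lit 5753110459) (nat_lit 0) (nat_lit 5753110459) (nat_lit 396) (nat_lit 1) (nat_lit 380) (nat_lit 1) (nat_lit 379) (nat_lit 1) (nat_lit 265) (nat_lit 383) (nat_lit 372)) (XT.nd (nat_lit 78) (nat_lit 1292) (nat_lit 0) (XT.lf (nat_lit 1292) (nat_lit 85389125) (nat_lit 0) (nat_lit 12008032924) (nat_lit 1216) (nat_lit 85389125) (nat_lit 397) (nat_lit 1) (nat_lit 380) (nat_lit 1) (nat_lit 396) (nat_lit 1) (nat_lit 266) (nat_lit 383) (nat_lit 371)) (XT.lf (nat_lit 1368) (nat_lit 5711207476) (nat_lit 0) (nat_lit 587621672) (nat_lit 1292) (nat_lit 5711207476) (nat_lit 381) (nat_lit 1) (nat_lit 363) (nat_lit 1) (nat_lit 380) (nat_lit 1) (nat_lit 267) (nat_lit 383) (nat_lit 370)))) (XT.nd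 (nat_lit 78) (nat_lit 0) (nat_lit 76) (XT.lf (nat_lit 1368) (nat_lit 10518013982) (nat_lit 76) (nat_lit 663949974) (nat_lit 0) (nat_lit 663949974) (nat_lit 381) (nat_lit 1) (nat_lit 364) (nat_lit 1) (nat_lit 363) (nat_lit 1) (nat_lit 268) (nat_lit 383) (nat_lit 369)) (XT.nd (nat_lit 78) (nat_lit 0) (nat_lit 0) (XT.lf (nat_lit 1368) (nat_lit 4767908017) (nat_lit 0) (nat_lit 2147722306) (nat_lit 1292) (nat_lit 4767908017) (nat_lit 382) (nat_lit 1) (nat_lit 364) (nat_lit 1) (nat_lit 381) (nat_lit 1) (nat_lit 269) (nat_lit 383) (nat_lit 368)) (XT.lf (nat_lit 1368) (nat_lit 8561169694) (nat_lit 76) (nat_lit 1482054579) (nat_lit 0) (nat_lit 1482054579) (nat_lit 382) (nat_lit 1) (nat_lit 365) (nat_lit 1) (nat_lit 364) (nat_lit 1) (nat_lit 270) (nat_lit 383) (nat_lit 367))))))))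
noncomputable def ec102 : XT := (XT.nd (nat_lit 1716) (nat_lit 4712) (nat_lit 0) (XT.nd (nat_lit 858) (nat_lit 2964) (nat_lit 0) (XT.nd (nat_lit 390) (nat_lit 2356) (nat_lit 0) (XT.nd (nat_lit 156) (nat_lit 608) (nat_lit 0) (XT.nd (nat_lit 78) (nat_lit 836) (nat_lit 0) (XT.lf (nat_lit 76) (nat_lit 3765073527) (nat_lit 0) (nat_lit 3839012954) (nat_lit 1292) (nat_lit 3765073527) (nat_lit 366) (nat_lit 1) (nat_lit 365) (nat_lit 1) (nat_lit 382) (nat_lit 1) (nat_lit 271) (nat_lit 383) (nat_lit 366)) (XT.lf (nat_lit 912) (nat_lit 6491516819) (nat_lit 0) (nat_lit 2362487631) (nat_lit 836) (nat_lit 2362487631) (nat_lit 366) (nat_lit 1) (nat_lit 354) (nat_lit 1) (nat_lit 365) (nat_lit 1) (nat_lit 272) (nat_lit 383) (nat_lit 365))) (XT.nd (nat_lit 78) (nat_lit 608) (nat_lit 0) (XT.lf (nat_lit 76) (nat_lit 2709432752) (nat_lit 0) (nat_lit 5647533274) (nat_lit 912) (nat_lit 2709432752) (nat_lit 355) (nat_lit 1)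 (nat_lit 354) (nat_lit 1) (nat_lit 366) (nat_lit 1) (nat_lit 273) (nat_lit 383) (nat_lit 364)) (XT.nd (nat_lit 78) (nat_lit 0) (nat_lit 0) (XT.lf (nat_lit 684) (nat_lit 4322088489) (nat_lit 0) (nat_lit 3298487989) (nat_lit 608) (nat_lit 3298487989) (nat_lit 355) (nat_lit 1) (nat_lit 346) (nat_lit 1) (nat_lit 354) (nat_lit 1) (nat_lit 274) (nat_lit 383) (nat_lit 363)) (XT.lf (nat_lit 76) (nat_lit 1607231740) (nat_lit 0) (nat_lit 7560311570) (nat_lit 684) (nat_lit 1607231740) (nat_lit 347) (nat_lit 1) (nat_lit 346) (nat_lit 1) (nat_lit 355) (nat_lit 1) (nat_lit 275) (nat_lit 383) (nat_lit 362))))) (XT.nd (nat_lit 234) (nat_lit 1140) (nat_lit 0) (XT.nd (nat_lit 78) (nat_lit 608) (nat_lit 0) (XT.lf (nat_lit 684) (nat_lit 2064978692) (nat_lit 0) (nat_lit 4283775344) (nat_lit 608) (nat_lit 4283775344) (nat_lit 347) (nat_lit 1) (nat_lit 338) (nat_lit 1) (nat_lit 346) (nat_lit 1) (nat_lit 276) (nat_lit 383)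 (nat_lit 361)) (XT.nd (nat_lit 78) (nat_lit 608) (nat_lit 0) (XT.lf (nat_lit 76) (nat_lit 464264354) (nat_lit 0) (nat_lit 9565302585) (nat_lit 684) (nat_lit 464264354) (nat_lit 339) (nat_lit 1) (nat_lit 338) (nat_lit 1) (nat_lit 347) (nat_lit 1) (nat_lit 277) (nat_lit 383) (nat_lit 360)) (XT.lf (nat_lit 76) (nat_lit 5046503586) (nat_lit 0) (nat_lit 263356944) (nat_lit 608) (nat_lit 5046503586) (nat_lit 331) (nat_lit 1) (nat_lit 330) (nat_lit 1) (nat_lit 338) (nat_lit 1) (nat_lit 278) (nat_lit 383) (nat_lit 359)))) (XT.nd (nat_lit 78) (nat_lit 532) (nat_lit 0) (XT.lf (nat_lit 684) (nat_lit 8808106944) (nat_lit 0) (nat_lit 707098065) (nat_lit 608) (nat_lit 707098065) (nat_lit 331) (nat_lit 1) (nat_lit 322) (nat_lit 1) (nat_lit 330) (nat_lit 1) (nat_lit 279) (nat_lit 383) (nat_lit 358)) (XT.nd (nat_lit 78) (nat_lit 532) (nat_lit 0) (XT.lf (nat_lit 76) (nat_lit 3736711006) (nat_lit 0) (nat_lit 2616184642)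 (nat_lit 684) (nat_lit 3736711006) (nat_lit 323) (nat_lit 1) (nat_lit 322) (nat_lit 1) (nat_lit 331) (nat_lit 1) (nat_lit 280) (nat_lit 383) (nat_lit 357)) (XT.lf (nat_lit 608) (nat_lit 6151962531) (nat_lit 0) (nat_lit 1904032797) (nat_lit 532) (nat_lit 1904032797) (nat_lit 323) (nat_lit 1) (nat_lit 315) (nat_lit 1) (nat_lit 322) (nat_lit 1) (nat_lit 281) (nat_lit 383) (nat_lit 356)))))) (XT.nd (nat_lit 390) (nat_lit 1368) (nat_lit 0) (XT.nd (nat_lit 156) (nat_lit 1064) (nat_lit 0) (XT.nd (nat_lit 78) (nat_lit 532) (nat_lit 0) (XT.lf (nat_lit 76) (nat_lit 2404040820) (nat_lit 0) (nat_lit 5024367994) (nat_lit 608) (nat_lit 2404040820) (nat_lit 316) (nat_lit 1) (nat_lit 315) (nat_lit 1) (nat_lit 323) (nat_lit 1) (nat_lit 282) (nat_lit 383) (nat_lit 355)) (XT.lf (nat_lit 608) (nat_lit 3454084403) (nat_lit 0) (nat_lit 3126533953) (nat_lit 532) (nat_lit 3126533953) (nat_lit 316) (nat_lit 1) (nat_lit 308)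 (nat_lit 1) (nat_lit 315) (nat_lit 1) (nat_lit 283) (nat_lit 383) (nat_lit 354))) (XT.nd (nat_lit 78) (nat_lit 1064) (nat_lit 0) (XT.lf (nat_lit 76) (nat_lit 1052662561) (nat_lit 0) (nat_lit 7479183215) (nat_lit 608) (nat_lit 1052662561) (nat_lit 309) (nat_lit 1) (nat_lit 308) (nat_lit 1) (nat_lit 316) (nat_lit 1) (nat_lit 284) (nat_lit 383) (nat_lit 353)) (XT.nd (nat_lit 78) (nat_lit 608) (nat_lit 0) (XT.lf (nat_lit 532) (nat_lit 722524766) (nat_lit 0) (nat_lit 4370388032) (nat_lit 456) (nat_lit 4370388032) (nat_lit 309) (nat_lit 1) (nat_lit 302) (nat_lit 1) (nat_lit 308) (nat_lit 1) (nat_lit 285) (nat_lit 383) (nat_lit 352)) (XT.lf (nat_lit 608) (nat_lit 8724046739) (nat_lit 0) (nat_lit 310502498) (nat_lit 532) (nat_lit 310502498) (nat_lit 302) (nat_lit 1) (nat_lit 294) (nat_lit 1) (nat_lit 301) (nat_lit 1) (nat_lit 286) (nat_lit 383) (nat_lit 351))))) (XT.nd (nat_lit 234) (nat_lit 912) (nat_lit 0)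 (XT.nd (nat_lit 78) (nat_lit 456) (nat_lit 0) (XT.lf (nat_lit 76) (nat_lit 3615976691) (nat_lit 0) (nat_lit 1995575291) (nat_lit 608) (nat_lit 3615976691) (nat_lit 295) (nat_lit 1) (nat_lit 294) (nat_lit 1) (nat_lit 302) (nat_lit 1) (nat_lit 287) (nat_lit 383) (nat_lit 350)) (XT.nd (nat_lit 78) (nat_lit 0) (nat_lit 0) (XT.lf (nat_lit 532) (nat_lit 5763754591) (nat_lit 0) (nat_lit 1674552091) (nat_lit 456) (nat_lit 1674552091) (nat_lit 295) (nat_lit 1) (nat_lit 288) (nat_lit 1) (nat_lit 294) (nat_lit 1) (nat_lit 288) (nat_lit 383) (nat_lit 349)) (XT.lf (nat_lit 76) (nat_lit 2140625997) (nat_lit 0) (nat_lit 4718614637) (nat_lit 532) (nat_lit 2140625997) (nat_lit 289) (nat_lit 1) (nat_lit 288) (nat_lit 1) (nat_lit 295) (nat_lit 1) (nat_lit 289) (nat_lit 383) (nat_lit 348)))) (XT.nd (nat_lit 78) (nat_lit 456) (nat_lit 0) (XT.lf (nat_lit 532) (nat_lit 2795668157) (nat_lit 0) (nat_lit 3046574980) (nat_lit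 456) (nat_lit 3046574980) (nat_lit 289) (nat_lit 1) (nat_lit 282) (nat_lit 1) (nat_lit 288) (nat_lit 1) (nat_lit 290) (nat_lit 383) (nat_lit 347)) (XT.nd (nat_lit 78) (nat_lit 456) (nat_lit 0) (XT.lf (nat_lit 76) (nat_lit 662836934) (nat_lit 0) (nat_lit 7454523946) (nat_lit 532) (nat_lit 662836934) (nat_lit 283) (nat_lit 1) (nat_lit 282) (nat_lit 1) (nat_lit 289) (nat_lit 1) (nat_lit 291) (nat_lit 383) (nat_lit 346)) (XT.lf (nat_lit 76) (nat_lit 4250690226) (nat_lit 0) (nat_lit 171181765) (nat_lit 456) (nat_lit 4250690226) (nat_lit 277) (nat_lit 1) (nat_lit 276) (nat_lit 1) (nat_lit 282) (nat_lit 1) (nat_lit 292) (nat_lit 383) (nat_lit 345))))))) (XT.nd (nat_lit 858) (nat_lit 1900) (nat_lit 0) (XT.nd (nat_lit 390) (nat_lit 1596) (nat_lit 0) (XT.nd (nat_lit 156) (nat_lit 760) (nat_lit 0) (XT.nd (nat_lit 78) (nat_lit 0) (nat_lit 0) (XT.lf (nat_lit 532) (nat_lit 6953815905) (nat_lit 0) (nat_lit 806725390)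 (nat_lit 456) (nat_lit 806725390) (nat_lit 277) (nat_lit 1) (nat_lit 270) (nat_lit 1) (nat_lit 276) (nat_lit 1) (nat_lit 293) (nat_lit 383) (nat_lit 344)) (XT.lf (nat_lit 76) (nat_lit 2691238195) (nat_lit 0) (nat_lit 3080556292) (nat_lit 532) (nat_lit 2691238195) (nat_lit 271) (nat_lit 1) (nat_lit 270) (nat_lit 1) (nat_lit 277) (nat_lit 1) (nat_lit 294) (nat_lit 383) (nat_lit 343))) (XT.nd (nat_lit 78) (nat_lit 380) (nat_lit 0) (XT.lf (nat_lit 456) (nat_lit 3826702515) (nat_lit 0) (nat_lit 2267126226) (nat_lit 380) (nat_lit 2267126226) (nat_lit 271) (nat_lit 1) (nat_lit 265) (nat_lit 1) (nat_lit 270) (nat_lit 1) (nat_lit 295) (nat_lit 383) (nat_lit 342)) (XT.nd (nat_lit 78) (nat_lit 380) (nat_lit 0) (XT.lf (nat_lit 76) (nat_lit 1139177148) (nat_lit 0) (nat_lit 5982392552) (nat_lit 456) (nat_lit 1139177148) (nat_lit 266) (nat_lit 1) (nat_lit 265) (nat_lit 1) (nat_lit 271) (nat_lit 1) (nat_lit 296) (nat_lit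 383) (nat_lit 341)) (XT.lf (nat_lit 456) (nat_lit 716452694) (nat_lit 0) (nat_lit 3722648221) (nat_lit 380) (nat_lit 3722648221) (nat_lit 266) (nat_lit 1) (nat_lit 260) (nat_lit 1) (nat_lit 265) (nat_lit 1) (nat_lit 297) (nat_lit 383) (nat_lit 340))))) (XT.nd (nat_lit 234) (nat_lit 760) (nat_lit 0) (XT.nd (nat_lit 78) (nat_lit 380) (nat_lit 0) (XT.lf (nat_lit 456) (nat_lit 7265822457) (nat_lit 0) (nat_lit 399568982) (nat_lit 380) (nat_lit 399568982) (nat_lit 260) (nat_lit 1) (nat_lit 254) (nat_lit 1) (nat_lit 259) (nat_lit 1) (nat_lit 298) (nat_lit 383) (nat_lit 339)) (XT.nd (nat_lit 78) (nat_lit 380) (nat_lit 0) (XT.lf (nat_lit 76) (nat_lit 2820919766) (nat_lit 0) (nat_lit 2326855363) (nat_lit 456) (nat_lit 2820919766) (nat_lit 255) (nat_lit 1) (nat_lit 254) (nat_lit 1) (nat_lit 260) (nat_lit 1) (nat_lit 299) (nat_lit 383) (nat_lit 338)) (XT.lf (nat_lit 456) (nat_lit 4042344775) (nat_lit 0) (nat_lit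 1916112005) (nat_lit 380) (nat_lit 1916112005) (nat_lit 255) (nat_lit 1) (nat_lit 249) (nat_lit 1) (nat_lit 254) (nat_lit 1) (nat_lit 300) (nat_lit 383) (nat_lit 337)))) (XT.nd (nat_lit 78) (nat_lit 760) (nat_lit 0) (XT.lf (nat_lit 76) (nat_lit 1224707013) (nat_lit 0) (nat_lit 5332604461) (nat_lit 456) (nat_lit 1224707013) (nat_lit 250) (nat_lit 1) (nat_lit 249) (nat_lit 1) (nat_lit 255) (nat_lit 1) (nat_lit 301) (nat_lit 383) (nat_lit 336)) (XT.nd (nat_lit 78) (nat_lit 456) (nat_lit 0) (XT.lf (nat_lit 380) (nat_lit 850598884) (nat_lit 0) (nat_lit 3420021107) (nat_lit 304) (nat_lit 3420021107) (nat_lit 250) (nat_lit 1) (nat_lit 245) (nat_lit 1) (nat_lit 249) (nat_lit 1) (nat_lit 302) (nat_lit 383) (nat_lit 335)) (XT.lf (nat_lit 456) (nat_lit 6898159166) (nat_lit 0) (nat_lit 351554560) (nat_lit 380) (nat_lit 351554560) (nat_lit 245) (nat_lit 1) (nat_lit 239) (nat_lit 1) (nat_lit 244) (nat_lit 1) (nat_lit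 303) (nat_lit 383) (nat_lit 334)))))) (XT.nd (nat_lit 390) (nat_lit 912) (nat_lit 0) (XT.nd (nat_lit 156) (nat_lit 684) (nat_lit 0) (XT.nd (nat_lit 78) (nat_lit 304) (nat_lit 0) (XT.lf (nat_lit 76) (nat_lit 2625256559) (nat_lit 0) (nat_lit 2261758017) (nat_lit 456) (nat_lit 2625256559) (nat_lit 240) (nat_lit 1) (nat_lit 239) (nat_lit 1) (nat_lit 245) (nat_lit 1) (nat_lit 304) (nat_lit 383) (nat_lit 333)) (XT.lf (nat_lit 380) (nat_lit 3628682665) (nat_lit 0) (nat_lit 1898268812) (nat_lit 304) (nat_lit 1898268812) (nat_lit 240) (nat_lit 1) (nat_lit 235) (nat_lit 1) (nat_lit 239) (nat_lit 1) (nat_lit 305) (nat_lit 383) (nat_lit 332))) (XT.nd (nat_lit 78) (nat_lit 684) (nat_lit 0) (XT.lf (nat_lit 76) (nat_lit 1009081220) (nat_lit 0) (nat_lit 5321496030) (nat_lit 380) (nat_lit 1009081220) (nat_lit 236) (nat_lit 1) (nat_lit 235) (nat_lit 1) (nat_lit 240) (nat_lit 1) (nat_lit 306) (nat_lit 383) (nat_lit 331))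 (XT.nd (nat_lit 78) (nat_lit 380) (nat_lit 0) (XT.lf (nat_lit 380) (nat_lit 402379041) (nat_lit 0) (nat_lit 3426345071) (nat_lit 304) (nat_lit 3426345071) (nat_lit 236) (nat_lit 1) (nat_lit 231) (nat_lit 1) (nat_lit 235) (nat_lit 1) (nat_lit 307) (nat_lit 383) (nat_lit 330)) (XT.lf (nat_lit 380) (nat_lit 6013296358) (nat_lit 0) (nat_lit 579426432) (nat_lit 304) (nat_lit 579426432) (nat_lit 231) (nat_lit 1) (nat_lit 226) (nat_lit 1) (nat_lit 230) (nat_lit 1) (nat_lit 308) (nat_lit 383) (nat_lit 329))))) (XT.nd (nat_lit 234) (nat_lit 608) (nat_lit 0) (XT.nd (nat_lit 78) (nat_lit 304) (nat_lit 0) (XT.lf (nat_lit 76) (nat_lit 2182502666) (nat_lit 0) (nat_lit 2724792311) (nat_lit 380) (nat_lit 2182502666) (nat_lit 227) (nat_lit 1) (nat_lit 226) (nat_lit 1) (nat_lit 231) (nat_lit 1) (nat_lit 309) (nat_lit 383) (nat_lit 328)) (XT.nd (nat_lit 78) (nat_lit 0) (nat_lit 0) (XT.lf (nat_lit 380) (nat_lit 2738009135)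 (nat_lit 0) (nat_lit 2135528726) (nat_lit 304) (nat_lit 2135528726) (nat_lit 227) (nat_lit 1) (nat_lit 222) (nat_lit 1) (nat_lit 226) (nat_lit 1) (nat_lit 310) (nat_lit 383) (nat_lit 327)) (XT.lf (nat_lit 76) (nat_lit 565646087) (nat_lit 0) (nat_lit 5798605166) (nat_lit 380) (nat_lit 565646087) (nat_lit 223) (nat_lit 1) (nat_lit 222) (nat_lit 1) (nat_lit 227) (nat_lit 1) (nat_lit 311) (nat_lit 383) (nat_lit 326)))) (XT.nd (nat_lit 78) (nat_lit 304) (nat_lit 0) (XT.lf (nat_lit 76) (nat_lit 3187617654) (nat_lit 0) (nat_lit 476002884) (nat_lit 304) (nat_lit 3187617654) (nat_lit 219) (nat_lit 1) (nat_lit 218) (nat_lit 1) (nat_lit 222) (nat_lit 1) (nat_lit 312) (nat_lit 383) (nat_lit 325)) (XT.nd (nat_lit 78) (nat_lit 0) (nat_lit 0) (XT.lf (nat_lit 380) (nat_lit 4743851254) (nat_lit 0) (nat_lit 1015123118) (nat_lit 304) (nat_lit 1015123118) (nat_lit 219) (nat_lit 1) (nat_lit 214) (nat_lit 1) (nat_lit 218)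 (nat_lit 1) (nat_lit 313) (nat_lit 383) (nat_lit 324)) (XT.lf (nat_lit 76) (nat_lit 1556507207) (nat_lit 0) (nat_lit 3584821167) (nat_lit 380) (nat_lit 1556507207) (nat_lit 215) (nat_lit 1) (nat_lit 214) (nat_lit 1) (nat_lit 219) (nat_lit 1) (nat_lit 314) (nat_lit 383) (nat_lit 323))))))))
noncomputable def ec103 : XT := (XT.nd (nat_lit 1716) (nat_lit 2432) (nat_lit 0) (XT.nd (nat_lit 858) (nat_lit 1520) (nat_lit 0) (XT.nd (nat_lit 390) (nat_lit 1064) (nat_lit 0) (XT.nd (nat_lit 156) (nat_lit 228) (nat_lit 0) (XT.nd (nat_lit 78) (nat_lit 380) (nat_lit 0) (XT.lf (nat_lit 304) (nat_lit 1494532373) (nat_lit 0) (nat_lit 2564119435) (nat_lit 228) (nat_lit 2564119435) (nat_lit 215) (nat_lit 1) (nat_lit 211) (nat_lit 1) (nat_lit 214) (nat_lit 1) (nat_lit 315) (nat_lit 383) (nat_lit 322)) (XT.lf (nat_lit 380) (nat_lit 6458700495) (nat_lit 0) (nat_lit 45354329) (nat_lit 304) (nat_lit 45354329) (nat_lit 211) (nat_lit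 1) (nat_lit 206) (nat_lit 1) (nat_lit 210) (nat_lit 1) (nat_lit 316) (nat_lit 383) (nat_lit 321))) (XT.nd (nat_lit 78) (nat_lit 228) (nat_lit 0) (XT.lf (nat_lit 76) (nat_lit 2406177257) (nat_lit 0) (nat_lit 1663548323) (nat_lit 380) (nat_lit 2406177257) (nat_lit 207) (nat_lit 1) (nat_lit 206) (nat_lit 1) (nat_lit 211) (nat_lit 1) (nat_lit 317) (nat_lit 383) (nat_lit 320)) (XT.nd (nat_lit 78) (nat_lit 0) (nat_lit 0) (XT.lf (nat_lit 304) (nat_lit 3197651060) (nat_lit 0) (nat_lit 1603205695) (nat_lit 228) (nat_lit 1603205695) (nat_lit 207) (nat_lit 1) (nat_lit 203) (nat_lit 1) (nat_lit 206) (nat_lit 1) (nat_lit 318) (nat_lit 383) (nat_lit 319)) (XT.lf (nat_lit 76) (nat_lit 799158946) (nat_lit 0) (nat_lit 4735074479) (nat_lit 304) (nat_lit 799158946) (nat_lit 204) (nat_lit 1) (nat_lit 203) (nat_lit 1) (nat_lit 207) (nat_lit 1) (nat_lit 319) (nat_lit 383) (nat_lit 318))))) (XT.nd (nat_lit 234) (nat_lit 532)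 (nat_lit 0) (XT.nd (nat_lit 78) (nat_lit 228) (nat_lit 0) (XT.lf (nat_lit 76) (nat_lit 3131294961) (nat_lit 0) (nat_lit 838368) (nat_lit 304) (nat_lit 3131294961) (nat_lit 200) (nat_lit 1) (nat_lit 199) (nat_lit 1) (nat_lit 203) (nat_lit 1) (nat_lit 320) (nat_lit 383) (nat_lit 317)) (XT.nd (nat_lit 78) (nat_lit 0) (nat_lit 0) (XT.lf (nat_lit 304) (nat_lit 4656390389) (nat_lit 0) (nat_lit 769105930) (nat_lit 228) (nat_lit 769105930) (nat_lit 200) (nat_lit 1) (nat_lit 196) (nat_lit 1) (nat_lit 199) (nat_lit 1) (nat_lit 321) (nat_lit 383) (nat_lit 316)) (XT.lf (nat_lit 76) (nat_lit 1525435245) (nat_lit 0) (nat_lit 3075567558) (nat_lit 304) (nat_lit 1525435245) (nat_lit 197) (nat_lit 1) (nat_lit 196) (nat_lit 1) (nat_lit 200) (nat_lit 1) (nat_lit 322) (nat_lit 383) (nat_lit 315)))) (XT.nd (nat_lit 78) (nat_lit 304) (nat_lit 0) (XT.lf (nat_lit 304) (nat_lit 1461960685) (nat_lit 0) (nat_lit 2298710148) (nat_lit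 228) (nat_lit 2298710148) (nat_lit 197) (nat_lit 1) (nat_lit 193) (nat_lit 1) (nat_lit 196) (nat_lit 1) (nat_lit 323) (nat_lit 383) (nat_lit 314)) (XT.nd (nat_lit 78) (nat_lit 0) (nat_lit 0) (XT.lf (nat_lit 304) (nat_lit 5899588025) (nat_lit 0) (nat_lit 47106128) (nat_lit 228) (nat_lit 47106128) (nat_lit 193) (nat_lit 1) (nat_lit 189) (nat_lit 1) (nat_lit 192) (nat_lit 1) (nat_lit 324) (nat_lit 383) (nat_lit 313)) (XT.lf (nat_lit 76) (nat_lit 2146973023) (nat_lit 0) (nat_lit 1634073021) (nat_lit 304) (nat_lit 2146973023) (nat_lit 190) (nat_lit 1) (nat_lit 189) (nat_lit 1) (nat_lit 193) (nat_lit 1) (nat_lit 325) (nat_lit 383) (nat_lit 312)))))) (XT.nd (nat_lit 390) (nat_lit 836) (nat_lit 0) (XT.nd (nat_lit 156) (nat_lit 456) (nat_lit 0) (XT.nd (nat_lit 78) (nat_lit 0) (nat_lit 0) (XT.lf (nat_lit 304) (nat_lit 2719050017) (nat_lit 0) (nat_lit 1572318592) (nat_lit 228) (nat_lit 1572318592) (nat_lit 190)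 (nat_lit 1) (nat_lit 186) (nat_lit 1) (nat_lit 189) (nat_lit 1) (nat_lit 326) (nat_lit 383) (nat_lit 311)) (XT.lf (nat_lit 76) (nat_lit 581551728) (nat_lit 0) (nat_lit 4637341504) (nat_lit 304) (nat_lit 581551728) (nat_lit 187) (nat_lit 1) (nat_lit 186) (nat_lit 1) (nat_lit 190) (nat_lit 1) (nat_lit 327) (nat_lit 383) (nat_lit 310))) (XT.nd (nat_lit 78) (nat_lit 228) (nat_lit 0) (XT.lf (nat_lit 76) (nat_lit 2676143709) (nat_lit 0) (nat_lit 385319783) (nat_lit 228) (nat_lit 2676143709) (nat_lit 184) (nat_lit 1) (nat_lit 183) (nat_lit 1) (nat_lit 186) (nat_lit 1) (nat_lit 328) (nat_lit 383) (nat_lit 309)) (XT.nd (nat_lit 78) (nat_lit 0) (nat_lit 0) (XT.lf (nat_lit 304) (nat_lit 3794594978) (nat_lit 0) (nat_lit 940620042) (nat_lit 228) (nat_lit 940620042) (nat_lit 184) (nat_lit 1) (nat_lit 180) (nat_lit 1) (nat_lit 183) (nat_lit 1) (nat_lit 329) (nat_lit 383) (nat_lit 308)) (XT.lf (nat_lit 76) (nat_lit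 1122350986) (nat_lit 0) (nat_lit 3370065860) (nat_lit 304) (nat_lit 1122350986) (nat_lit 181) (nat_lit 1) (nat_lit 180) (nat_lit 1) (nat_lit 184) (nat_lit 1) (nat_lit 330) (nat_lit 383) (nat_lit 307))))) (XT.nd (nat_lit 234) (nat_lit 380) (nat_lit 0) (XT.nd (nat_lit 78) (nat_lit 304) (nat_lit 0) (XT.lf (nat_lit 228) (nat_lit 706911620) (nat_lit 0) (nat_lit 2423802657) (nat_lit 152) (nat_lit 2423802657) (nat_lit 181) (nat_lit 1) (nat_lit 178) (nat_lit 1) (nat_lit 180) (nat_lit 1) (nat_lit 331) (nat_lit 383) (nat_lit 306)) (XT.nd (nat_lit 78) (nat_lit 0) (nat_lit 0) (XT.lf (nat_lit 304) (nat_lit 4710044855) (nat_lit 0) (nat_lit 392656237) (nat_lit 228) (nat_lit 392656237) (nat_lit 178) (nat_lit 1) (nat_lit 174) (nat_lit 1) (nat_lit 177) (nat_lit 1) (nat_lit 332) (nat_lit 383) (nat_lit 305)) (XT.lf (nat_lit 76) (nat_lit 1585203836) (nat_lit 0) (nat_lit 2265956952) (nat_lit 304) (nat_lit 1585203836) (nat_lit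 175) (nat_lit 1) (nat_lit 174) (nat_lit 1) (nat_lit 178) (nat_lit 1) (nat_lit 333) (nat_lit 383) (nat_lit 304)))) (XT.nd (nat_lit 78) (nat_lit 228) (nat_lit 0) (XT.lf (nat_lit 228) (nat_lit 1653399029) (nat_lit 0) (nat_lit 1862522040) (nat_lit 152) (nat_lit 1862522040) (nat_lit 175) (nat_lit 1) (nat_lit 172) (nat_lit 1) (nat_lit 174) (nat_lit 1) (nat_lit 334) (nat_lit 383) (nat_lit 303)) (XT.nd (nat_lit 78) (nat_lit 228) (nat_lit 0) (XT.lf (nat_lit 76) (nat_lit 82102407) (nat_lit 0) (nat_lit 5157527007) (nat_lit 228) (nat_lit 82102407) (nat_lit 173) (nat_lit 1) (nat_lit 172) (nat_lit 1) (nat_lit 175) (nat_lit 1) (nat_lit 335) (nat_lit 383) (nat_lit 302)) (XT.lf (nat_lit 76) (nat_lit 1979316108) (nat_lit 0) (nat_lit 1306183194) (nat_lit 228) (nat_lit 1979316108) (nat_lit 170) (nat_lit 1) (nat_lit 169) (nat_lit 1) (nat_lit 172) (nat_lit 1) (nat_lit 336) (nat_lit 383) (nat_lit 301))))))) (XT.nd (nat_lit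 858) (nat_lit 1140) (nat_lit 0) (XT.nd (nat_lit 390) (nat_lit 760) (nat_lit 0) (XT.nd (nat_lit 156) (nat_lit 380) (nat_lit 0) (XT.nd (nat_lit 78) (nat_lit 0) (nat_lit 0) (XT.lf (nat_lit 228) (nat_lit 2464477224) (nat_lit 0) (nat_lit 1372307070) (nat_lit 152) (nat_lit 1372307070) (nat_lit 170) (nat_lit 1) (nat_lit 167) (nat_lit 1) (nat_lit 169) (nat_lit 1) (nat_lit 337) (nat_lit 383) (nat_lit 300)) (XT.lf (nat_lit 76) (nat_lit 494720272) (nat_lit 0) (nat_lit 4164839103) (nat_lit 228) (nat_lit 494720272) (nat_lit 168) (nat_lit 1) (nat_lit 167) (nat_lit 1) (nat_lit 170) (nat_lit 1) (nat_lit 338) (nat_lit 383) (nat_lit 299))) (XT.nd (nat_lit 78) (nat_lit 152) (nat_lit 0) (XT.lf (nat_lit 76) (nat_lit 2312852096) (nat_lit 0) (nat_lit 474031501) (nat_lit 228) (nat_lit 2312852096) (nat_lit 165) (nat_lit 1) (nat_lit 164) (nat_lit 1) (nat_lit 167) (nat_lit 1) (nat_lit 339) (nat_lit 383) (nat_lit 298)) (XT.nd (nat_lit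 78) (nat_lit 0) (nat_lit 0) (XT.lf (nat_lit 228) (nat_lit 3156115901) (nat_lit 0) (nat_lit 944986146) (nat_lit 152) (nat_lit 944986146) (nat_lit 165) (nat_lit 1) (nat_lit 162) (nat_lit 1) (nat_lit 164) (nat_lit 1) (nat_lit 340) (nat_lit 383) (nat_lit 297)) (XT.lf (nat_lit 76) (nat_lit 849041240) (nat_lit 0) (nat_lit 3295010608) (nat_lit 228) (nat_lit 849041240) (nat_lit 163) (nat_lit 1) (nat_lit 162) (nat_lit 1) (nat_lit 165) (nat_lit 1) (nat_lit 341) (nat_lit 383) (nat_lit 296))))) (XT.nd (nat_lit 234) (nat_lit 380) (nat_lit 0) (XT.nd (nat_lit 78) (nat_lit 228) (nat_lit 0) (XT.lf (nat_lit 228) (nat_lit 250212027) (nat_lit 0) (nat_lit 2345244304) (nat_lit 152) (nat_lit 2345244304) (nat_lit 163) (nat_lit 1) (nat_lit 160) (nat_lit 1) (nat_lit 162) (nat_lit 1) (nat_lit 342) (nat_lit 383) (nat_lit 295)) (XT.nd (nat_lit 78) (nat_lit 0) (nat_lit 0) (XT.lf (nat_lit 228) (nat_lit 3742478593) (nat_lit 0) (nat_lit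 573306096) (nat_lit 152) (nat_lit 573306096) (nat_lit 160) (nat_lit 1) (nat_lit 157) (nat_lit 1) (nat_lit 159) (nat_lit 1) (nat_lit 343) (nat_lit 383) (nat_lit 294)) (XT.lf (nat_lit 76) (nat_lit 1151923976) (nat_lit 0) (nat_lit 2533986878) (nat_lit 228) (nat_lit 1151923976) (nat_lit 158) (nat_lit 1) (nat_lit 157) (nat_lit 1) (nat_lit 160) (nat_lit 1) (nat_lit 344) (nat_lit 383) (nat_lit 293)))) (XT.nd (nat_lit 78) (nat_lit 228) (nat_lit 0) (XT.lf (nat_lit 228) (nat_lit 882276167) (nat_lit 0) (nat_lit 1952536008) (nat_lit 152) (nat_lit 1952536008) (nat_lit 158) (nat_lit 1) (nat_lit 155) (nat_lit 1) (nat_lit 157) (nat_lit 1) (nat_lit 345) (nat_lit 383) (nat_lit 292)) (XT.nd (nat_lit 78) (nat_lit 0) (nat_lit 0) (XT.lf (nat_lit 228) (nat_lit 4236124818) (nat_lit 0) (nat_lit 250829550) (nat_lit 152) (nat_lit 250829550) (nat_lit 155) (nat_lit 1) (nat_lit 152) (nat_lit 1) (nat_lit 154) (nat_lit 1) (nat_lit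 346) (nat_lit 383) (nat_lit 291)) (XT.lf (nat_lit 76) (nat_lit 1409451893) (nat_lit 0) (nat_lit 1869290860) (nat_lit 228) (nat_lit 1409451893) (nat_lit 153) (nat_lit 1) (nat_lit 152) (nat_lit 1) (nat_lit 155) (nat_lit 1) (nat_lit 347) (nat_lit 383) (nat_lit 290)))))) (XT.nd (nat_lit 468) (nat_lit 532) (nat_lit 0) (XT.nd (nat_lit 234) (nat_lit 304) (nat_lit 0) (XT.nd (nat_lit 78) (nat_lit 152) (nat_lit 0) (XT.lf (nat_lit 228) (nat_lit 1424634657) (nat_lit 0) (nat_lit 1607440643) (nat_lit 152) (nat_lit 1607440643) (nat_lit 153) (nat_lit 1) (nat_lit 150) (nat_lit 1) (nat_lit 152) (nat_lit 1) (nat_lit 348) (nat_lit 383) (nat_lit 289)) (XT.nd (nat_lit 78) (nat_lit 152) (nat_lit 0) (XT.lf (nat_lit 76) (nat_lit 28435007) (nat_lit 0) (nat_lit 4534974220) (nat_lit 228) (nat_lit 28435007) (nat_lit 151) (nat_lit 1) (nat_lit 150) (nat_lit 1) (nat_lit 153) (nat_lit 1) (nat_lit 349) (nat_lit 383) (nat_lit 288)) (XT.lf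 (nat_lit 76) (nat_lit 1627019907) (nat_lit 0) (nat_lit 1289846872) (nat_lit 152) (nat_lit 1627019907) (nat_lit 149) (nat_lit 1) (nat_lit 148) (nat_lit 1) (nat_lit 150) (nat_lit 1) (nat_lit 350) (nat_lit 383) (nat_lit 287)))) (XT.nd (nat_lit 78) (nat_lit 152) (nat_lit 0) (XT.lf (nat_lit 228) (nat_lit 1887850713) (nat_lit 0) (nat_lit 1304537463) (nat_lit 152) (nat_lit 1304537463) (nat_lit 149) (nat_lit 1) (nat_lit 146) (nat_lit 1) (nat_lit 148) (nat_lit 1) (nat_lit 351) (nat_lit 383) (nat_lit 286)) (XT.nd (nat_lit 78) (nat_lit 152) (nat_lit 0) (XT.lf (nat_lit 76) (nat_lit 271380967) (nat_lit 0) (nat_lit 3908026039) (nat_lit 228) (nat_lit 271380967) (nat_lit 147) (nat_lit 1) (nat_lit 146) (nat_lit 1) (nat_lit 149) (nat_lit 1) (nat_lit 352) (nat_lit 383) (nat_lit 285)) (XT.lf (nat_lit 76) (nat_lit 1809411508) (nat_lit 0) (nat_lit 785824041) (nat_lit 152) (nat_lit 1809411508) (nat_lit 145) (nat_lit 1) (nat_lit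 144) (nat_lit 1) (nat_lit 146) (nat_lit 1) (nat_lit 353) (nat_lit 383) (nat_lit 284))))) (XT.nd (nat_lit 234) (nat_lit 228) (nat_lit 0) (XT.nd (nat_lit 78) (nat_lit 152) (nat_lit 0) (XT.lf (nat_lit 228) (nat_lit 2281293307) (nat_lit 0) (nat_lit 1039013446) (nat_lit 152) (nat_lit 1039013446) (nat_lit 145) (nat_lit 1) (nat_lit 142) (nat_lit 1) (nat_lit 144) (nat_lit 1) (nat_lit 354) (nat_lit 383) (nat_lit 283)) (XT.nd (nat_lit 78) (nat_lit 152) (nat_lit 0) (XT.lf (nat_lit 76) (nat_lit 480066855) (nat_lit 0) (nat_lit 3354521956) (nat_lit 228) (nat_lit 480066855) (nat_lit 143) (nat_lit 1) (nat_lit 142) (nat_lit 1) (nat_lit 145) (nat_lit 1) (nat_lit 355) (nat_lit 383) (nat_lit 282)) (XT.lf (nat_lit 76) (nat_lit 1960867227) (nat_lit 0) (nat_lit 348497201) (nat_lit 152) (nat_lit 1960867227) (nat_lit 141) (nat_lit 1) (nat_lit 140) (nat_lit 1) (nat_lit 142) (nat_lit 1) (nat_lit 356) (nat_lit 383) (nat_lit 281))))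 (XT.nd (nat_lit 78) (nat_lit 76) (nat_lit 0) (XT.lf (nat_lit 228) (nat_lit 2613270818) (nat_lit 0) (nat_lit 806595433) (nat_lit 152) (nat_lit 806595433) (nat_lit 141) (nat_lit 1) (nat_lit 138) (nat_lit 1) (nat_lit 140) (nat_lit 1) (nat_lit 357) (nat_lit 383) (nat_lit 280)) (XT.nd (nat_lit 78) (nat_lit 76) (nat_lit 0) (XT.lf (nat_lit 76) (nat_lit 658521902) (nat_lit 0) (nat_lit 2866169153) (nat_lit 228) (nat_lit 658521902) (nat_lit 139) (nat_lit 1) (nat_lit 138) (nat_lit 1) (nat_lit 141) (nat_lit 1) (nat_lit 358) (nat_lit 383) (nat_lit 279)) (XT.lf (nat_lit 152) (nat_lit 30471277) (nat_lit 0) (nat_lit 2054967092) (nat_lit 76) (nat_lit 2054967092) (nat_lit 139) (nat_lit 1) (nat_lit 137) (nat_lit 1) (nat_lit 138) (nat_lit 1) (nat_lit 359) (nat_lit 383) (nat_lit 278))))))))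
noncomputable def ec104 : XT := (XT.nd (nat_lit 46254) (nat_lit 0) (nat_lit 11172) (XT.nd (nat_lit 858) (nat_lit 304) (nat_lit 0) (XT.nd (nat_lit 390) (nat_lit 608) (nat_lit 0) (XT.nd (nat_lit 156) (nat_lit 304) (nat_lit 0) (XT.nd (nat_lit 78) (nat_lit 0) (nat_lit 0) (XT.lf (nat_lit 228) (nat_lit 2891149762) (nat_lit 0) (nat_lit 603489832) (nat_lit 152) (nat_lit 603489832) (nat_lit 137) (nat_lit 1) (nat_lit 134) (nat_lit 1) (nat_lit 136) (nat_lit 1) (nat_lit 360) (nat_lit 383) (nat_lit 277)) (XT.lf (nat_lit 76) (nat_lit 810319946) (nat_lit 0) (nat_lit 2435602561) (nat_lit 228) (nat_lit 810319946) (nat_lit 135) (nat_lit 1) (nat_lit 134) (nat_lit 1) (nat_lit 137) (nat_lit 1) (nat_lit 361) (nat_lit 383) (nat_lit 276))) (XT.nd (nat_lit 78) (nat_lit 228) (nat_lit 0) (XT.lf (nat_lit 152) (nat_lit 363256710) (nat_lit 0) (nat_lit 1825811646) (nat_lit 76) (nat_lit 1825811646) (nat_lit 135) (nat_lit 1) (nat_lit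 133) (nat_lit 1) (nat_lit 134) (nat_lit 1) (nat_lit 362) (nat_lit 383) (nat_lit 275)) (XT.nd (nat_lit 78) (nat_lit 0) (nat_lit 0) (XT.lf (nat_lit 228) (nat_lit 3121460270) (nat_lit 0) (nat_lit 426329051) (nat_lit 152) (nat_lit 426329051) (nat_lit 133) (nat_lit 1) (nat_lit 130) (nat_lit 1) (nat_lit 132) (nat_lit 1) (nat_lit 363) (nat_lit 383) (nat_lit 274)) (XT.lf (nat_lit 76) (nat_lit 938630394) (nat_lit 0) (nat_lit 2056281320) (nat_lit 228) (nat_lit 938630394) (nat_lit 131) (nat_lit 1) (nat_lit 130) (nat_lit 1) (nat_lit 133) (nat_lit 1) (nat_lit 364) (nat_lit 383) (nat_lit 273))))) (XT.nd (nat_lit 234) (nat_lit 304) (nat_lit 0) (XT.nd (nat_lit 78) (nat_lit 228) (nat_lit 0) (XT.lf (nat_lit 152) (nat_lit 649140508) (nat_lit 0) (nat_lit 1622209999) (nat_lit 76) (nat_lit 1622209999) (nat_lit 131) (nat_lit 1) (nat_lit 129) (nat_lit 1) (nat_lit 130) (nat_lit 1) (nat_lit 365) (nat_lit 383) (nat_lit 272)) (XT.nd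 (nat_lit 78) (nat_lit 0) (nat_lit 0) (XT.lf (nat_lit 228) (nat_lit 3309989790) (nat_lit 0) (nat_lit 272123910) (nat_lit 152) (nat_lit 272123910) (nat_lit 129) (nat_lit 1) (nat_lit 126) (nat_lit 1) (nat_lit 128) (nat_lit 1) (nat_lit 366) (nat_lit 383) (nat_lit 271)) (XT.lf (nat_lit 76) (nat_lit 1046263490) (nat_lit 0) (nat_lit 1722396787) (nat_lit 228) (nat_lit 1046263490) (nat_lit 127) (nat_lit 1) (nat_lit 126) (nat_lit 1) (nat_lit 129) (nat_lit 1) (nat_lit 367) (nat_lit 383) (nat_lit 270)))) (XT.nd (nat_lit 78) (nat_lit 228) (nat_lit 0) (XT.lf (nat_lit 152) (nat_lit 893638008) (nat_lit 0) (nat_lit 1441312573) (nat_lit 76) (nat_lit 1441312573) (nat_lit 127) (nat_lit 1) (nat_lit 125) (nat_lit 1) (nat_lit 126) (nat_lit 1) (nat_lit 368) (nat_lit 383) (nat_lit 269)) (XT.nd (nat_lit 78) (nat_lit 0) (nat_lit 0) (XT.lf (nat_lit 228) (nat_lit 3461866329) (nat_lit 0) (nat_lit 138221356) (nat_lit 152) (nat_lit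 138221356) (nat_lit 125) (nat_lit 1) (nat_lit 122) (nat_lit 1) (nat_lit 124) (nat_lit 1) (nat_lit 369) (nat_lit 383) (nat_lit 268)) (XT.lf (nat_lit 76) (nat_lit 1135710531) (nat_lit 0) (nat_lit 1428790797) (nat_lit 228) (nat_lit 1135710531) (nat_lit 123) (nat_lit 1) (nat_lit 122) (nat_lit 1) (nat_lit 125) (nat_lit 1) (nat_lit 370) (nat_lit 383) (nat_lit 267)))))) (XT.nd (nat_lit 44928) (nat_lit 0) (nat_lit 17936) (XT.nd (nat_lit 156) (nat_lit 0) (nat_lit 0) (XT.nd (nat_lit 78) (nat_lit 228) (nat_lit 0) (XT.lf (nat_lit 152) (nat_lit 1101641207) (nat_lit 0) (nat_lit 1280587553) (nat_lit 76) (nat_lit 1280587553) (nat_lit 123) (nat_lit 1) (nat_lit 121) (nat_lit 1) (nat_lit 122) (nat_lit 1) (nat_lit 371) (nat_lit 383) (nat_lit 266)) (XT.lf (nat_lit 228) (nat_lit 3581632397) (nat_lit 0) (nat_lit 22266900) (nat_lit 152) (nat_lit 22266900) (nat_lit 121) (nat_lit 1) (nat_lit 118) (nat_lit 1) (nat_lit 120) (nat_lit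 1) (nat_lit 372) (nat_lit 383) (nat_lit 265))) (XT.nd (nat_lit 44616) (nat_lit 0) (nat_lit 18620) (XT.lf (nat_lit 76) (nat_lit 1209179604) (nat_lit 0) (nat_lit 1170883050) (nat_lit 228) (nat_lit 1209179604) (nat_lit 119) (nat_lit 1) (nat_lit 118) (nat_lit 1) (nat_lit 121) (nat_lit 1) (nat_lit 373) (nat_lit 383) (nat_lit 264)) (XT.nd (nat_lit 78) (nat_lit 1292) (nat_lit 0) (XT.lf (nat_lit 1292) (nat_lit 87950799) (nat_lit 0) (nat_lit 12368273911) (nat_lit 1216) (nat_lit 87950799) (nat_lit 397) (nat_lit 1) (nat_lit 380) (nat_lit 1) (nat_lit 396) (nat_lit 1) (nat_lit 264) (nat_lit 384) (nat_lit 372)) (XT.lf (nat_lit 1368) (nat_lit 5882543700) (nat_lit 0) (nat_lit 605250322) (nat_lit 1292) (nat_lit 5882543700) (nat_lit 381) (nat_lit 1) (nat_lit 363) (nat_lit 1) (nat_lit 380) (nat_lit 1) (nat_lit 265) (nat_lit 384) (nat_lit 371))))) (XT.nd (nat_lit 234) (nat_lit 684) (nat_lit 0) (XT.nd (nat_lit 78) (nat_lit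 0) (nat_lit 76) (XT.lf (nat_lit 1368) (nat_lit 10833554402) (nat_lit 76) (nat_lit 683868473) (nat_lit 0) (nat_lit 683868473) (nat_lit 381) (nat_lit 1) (nat_lit 364) (nat_lit 1) (nat_lit 363) (nat_lit 1) (nat_lit 266) (nat_lit 384) (nat_lit 370)) (XT.nd (nat_lit 78) (nat_lit 0) (nat_lit 0) (XT.lf (nat_lit 1368) (nat_lit 4910945258) (nat_lit 0) (nat_lit 2212153975) (nat_lit 1292) (nat_lit 4910945258) (nat_lit 382) (nat_lit 1) (nat_lit 364) (nat_lit 1) (nat_lit 381) (nat_lit 1) (nat_lit 267) (nat_lit 384) (nat_lit 369)) (XT.lf (nat_lit 1368) (nat_lit 8818004785) (nat_lit 76) (nat_lit 1526516216) (nat_lit 0) (nat_lit 1526516216) (nat_lit 382) (nat_lit 1) (nat_lit 365) (nat_lit 1) (nat_lit 364) (nat_lit 1) (nat_lit 268) (nat_lit 384) (nat_lit 368)))) (XT.nd (nat_lit 78) (nat_lit 836) (nat_lit 0) (XT.lf (nat_lit 76) (nat_lit 3878025733) (nat_lit 0) (nat_lit 3954183343) (nat_lit 1292) (nat_lit 3878025733) (nat_lit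 366) (nat_lit 1) (nat_lit 365) (nat_lit 1) (nat_lit 382) (nat_lit 1) (nat_lit 269) (nat_lit 384) (nat_lit 367)) (XT.nd (nat_lit 78) (nat_lit 0) (nat_lit 0) (XT.lf (nat_lit 912) (nat_lit 6686262323) (nat_lit 0) (nat_lit 2433362260) (nat_lit 836) (nat_lit 2433362260) (nat_lit 366) (nat_lit 1) (nat_lit 354) (nat_lit 1) (nat_lit 365) (nat_lit 1) (nat_lit 270) (nat_lit 384) (nat_lit 366)) (XT.lf (nat_lit 76) (nat_lit 2790715735) (nat_lit 0) (nat_lit 5816959272) (nat_lit 912) (nat_lit 2790715735) (nat_lit 355) (nat_lit 1) (nat_lit 354) (nat_lit 1) (nat_lit 366) (nat_lit 1) (nat_lit 271) (nat_lit 384) (nat_lit 365))))))) (XT.nd (nat_lit 858) (nat_lit 3268) (nat_lit 0) (XT.nd (nat_lit 390) (nat_lit 1672) (nat_lit 0) (XT.nd (nat_lit 156) (nat_lit 1216) (nat_lit 0) (XT.nd (nat_lit 78) (nat_lit 0) (nat_lit 0) (XT.lf (nat_lit 684) (nat_lit 4451751144) (nat_lit 0) (nat_lit 3397442628) (nat_lit 608) (nat_lit 3397442628)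 (nat_lit 355) (nat_lit 1) (nat_lit 346) (nat_lit 1) (nat_lit 354) (nat_lit 1) (nat_lit 272) (nat_lit 384) (nat_lit 364)) (XT.lf (nat_lit 76) (nat_lit 1655448692) (nat_lit 0) (nat_lit 7787120917) (nat_lit 684) (nat_lit 1655448692) (nat_lit 347) (nat_lit 1) (nat_lit 346) (nat_lit 1) (nat_lit 355) (nat_lit 1) (nat_lit 273) (nat_lit 384) (nat_lit 363))) (XT.nd (nat_lit 78) (nat_lit 608) (nat_lit 0) (XT.lf (nat_lit 684) (nat_lit 2126928052) (nat_lit 0) (nat_lit 4412288605) (nat_lit 608) (nat_lit 4412288605) (nat_lit 347) (nat_lit 1) (nat_lit 338) (nat_lit 1) (nat_lit 346) (nat_lit 1) (nat_lit 274) (nat_lit 384) (nat_lit 362)) (XT.nd (nat_lit 78) (nat_lit 608) (nat_lit 0) (XT.lf (nat_lit 76) (nat_lit 478192285) (nat_lit 0) (nat_lit 9852261663) (nat_lit 684) (nat_lit 478192285) (nat_lit 339) (nat_lit 1) (nat_lit 338) (nat_lit 1) (nat_lit 347) (nat_lit 1) (nat_lit 275) (nat_lit 384) (nat_lit 361)) (XT.lf (nat_lit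 76) (nat_lit 5197898694) (nat_lit 0) (nat_lit 271257653) (nat_lit 608) (nat_lit 5197898694) (nat_lit 331) (nat_lit 1) (nat_lit 330) (nat_lit 1) (nat_lit 338) (nat_lit 1) (nat_lit 276) (nat_lit 384) (nat_lit 360))))) (XT.nd (nat_lit 234) (nat_lit 532) (nat_lit 0) (XT.nd (nat_lit 78) (nat_lit 532) (nat_lit 0) (XT.lf (nat_lit 684) (nat_lit 9072350152) (nat_lit 0) (nat_lit 728311007) (nat_lit 608) (nat_lit 728311007) (nat_lit 331) (nat_lit 1) (nat_lit 322) (nat_lit 1) (nat_lit 330) (nat_lit 1) (nat_lit 277) (nat_lit 384) (nat_lit 359)) (XT.nd (nat_lit 78) (nat_lit 532) (nat_lit 0) (XT.lf (nat_lit 76) (nat_lit 3848812336) (nat_lit 0) (nat_lit 2694670182) (nat_lit 684) (nat_lit 3848812336) (nat_lit 323) (nat_lit 1) (nat_lit 322) (nat_lit 1) (nat_lit 331) (nat_lit 1) (nat_lit 278) (nat_lit 384) (nat_lit 358)) (XT.lf (nat_lit 608) (nat_lit 6336521407) (nat_lit 0) (nat_lit 1961153781) (nat_lit 532) (nat_lit 1961153781)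 (nat_lit 323) (nat_lit 1) (nat_lit 315) (nat_lit 1) (nat_lit 322) (nat_lit 1) (nat_lit 279) (nat_lit 384) (nat_lit 357)))) (XT.nd (nat_lit 78) (nat_lit 532) (nat_lit 0) (XT.lf (nat_lit 76) (nat_lit 2476162045) (nat_lit 0) (nat_lit 5175099034) (nat_lit 608) (nat_lit 2476162045) (nat_lit 316) (nat_lit 1) (nat_lit 315) (nat_lit 1) (nat_lit 323) (nat_lit 1) (nat_lit 280) (nat_lit 384) (nat_lit 356)) (XT.nd (nat_lit 78) (nat_lit 0) (nat_lit 0) (XT.lf (nat_lit 608) (nat_lit 3557706935) (nat_lit 0) (nat_lit 3220329972) (nat_lit 532) (nat_lit 3220329972) (nat_lit 316) (nat_lit 1) (nat_lit 308) (nat_lit 1) (nat_lit 315) (nat_lit 1) (nat_lit 281) (nat_lit 384) (nat_lit 355)) (XT.lf (nat_lit 76) (nat_lit 1084242437) (nat_lit 0) (nat_lit 7703558711) (nat_lit 608) (nat_lit 1084242437) (nat_lit 309) (nat_lit 1) (nat_lit 308) (nat_lit 1) (nat_lit 316) (nat_lit 1) (nat_lit 282) (nat_lit 384) (nat_lit 354)))))) (XT.nd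 (nat_lit 390) (nat_lit 1748) (nat_lit 0) (XT.nd (nat_lit 156) (nat_lit 456) (nat_lit 0) (XT.nd (nat_lit 78) (nat_lit 608) (nat_lit 0) (XT.lf (nat_lit 532) (nat_lit 744200509) (nat_lit 0) (nat_lit 4501499672) (nat_lit 456) (nat_lit 4501499672) (nat_lit 309) (nat_lit 1) (nat_lit 302) (nat_lit 1) (nat_lit 308) (nat_lit 1) (nat_lit 283) (nat_lit 384) (nat_lit 353)) (XT.lf (nat_lit 608) (nat_lit 8985768142) (nat_lit 0) (nat_lit 319817573) (nat_lit 532) (nat_lit 319817573) (nat_lit 302) (nat_lit 1) (nat_lit 294) (nat_lit 1) (nat_lit 301) (nat_lit 1) (nat_lit 284) (nat_lit 384) (nat_lit 352))) (XT.nd (nat_lit 78) (nat_lit 456) (nat_lit 0) (XT.lf (nat_lit 76) (nat_lit 3724455992) (nat_lit 0) (nat_lit 2055442550) (nat_lit 608) (nat_lit 3724455992) (nat_lit 295) (nat_lit 1) (nat_lit 294) (nat_lit 1) (nat_lit 302) (nat_lit 1) (nat_lit 285) (nat_lit 384) (nat_lit 351)) (XT.nd (nat_lit 78) (nat_lit 0) (nat_lit 0)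 (XT.lf (nat_lit 532) (nat_lit 5936667229) (nat_lit 0) (nat_lit 1724788654) (nat_lit 456) (nat_lit 1724788654) (nat_lit 295) (nat_lit 1) (nat_lit 288) (nat_lit 1) (nat_lit 294) (nat_lit 1) (nat_lit 286) (nat_lit 384) (nat_lit 350)) (XT.lf (nat_lit 76) (nat_lit 2204844777) (nat_lit 0) (nat_lit 4860173076) (nat_lit 532) (nat_lit 2204844777) (nat_lit 289) (nat_lit 1) (nat_lit 288) (nat_lit 1) (nat_lit 295) (nat_lit 1) (nat_lit 287) (nat_lit 384) (nat_lit 349))))) (XT.nd (nat_lit 234) (nat_lit 836) (nat_lit 0) (XT.nd (nat_lit 78) (nat_lit 456) (nat_lit 0) (XT.lf (nat_lit 532) (nat_lit 2879538202) (nat_lit 0) (nat_lit 3137972229) (nat_lit 456) (nat_lit 3137972229) (nat_lit 289) (nat_lit 1) (nat_lit 282) (nat_lit 1) (nat_lit 288) (nat_lit 1) (nat_lit 288) (nat_lit 384) (nat_lit 348)) (XT.nd (nat_lit 78) (nat_lit 456) (nat_lit 0) (XT.lf (nat_lit 76) (nat_lit 682722042) (nat_lit 0) (nat_lit 7678159665) (nat_lit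 532) (nat_lit 682722042) (nat_lit 283) (nat_lit 1) (nat_lit 282) (nat_lit 1) (nat_lit 289) (nat_lit 1) (nat_lit 289) (nat_lit 384) (nat_lit 347)) (XT.lf (nat_lit 76) (nat_lit 4378210933) (nat_lit 0) (nat_lit 176317218) (nat_lit 456) (nat_lit 4378210933) (nat_lit 277) (nat_lit 1) (nat_lit 276) (nat_lit 1) (nat_lit 282) (nat_lit 1) (nat_lit 290) (nat_lit 384) (nat_lit 346)))) (XT.nd (nat_lit 78) (nat_lit 380) (nat_lit 0) (XT.lf (nat_lit 532) (nat_lit 7162430382) (nat_lit 0) (nat_lit 830927152) (nat_lit 456) (nat_lit 830927152) (nat_lit 277) (nat_lit 1) (nat_lit 270) (nat_lit 1) (nat_lit 276) (nat_lit 1) (nat_lit 291) (nat_lit 384) (nat_lit 345)) (XT.nd (nat_lit 78) (nat_lit 380) (nat_lit 0) (XT.lf (nat_lit 76) (nat_lit 2771975341) (nat_lit 0) (nat_lit 3172972981) (nat_lit 532) (nat_lit 2771975341) (nat_lit 271) (nat_lit 1) (nat_lit 270) (nat_lit 1) (nat_lit 277) (nat_lit 1) (nat_lit 292) (nat_lit 384)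 (nat_lit 344)) (XT.lf (nat_lit 456) (nat_lit 3941503590) (nat_lit 0) (nat_lit 2335140012) (nat_lit 380) (nat_lit 2335140012) (nat_lit 271) (nat_lit 1) (nat_lit 265) (nat_lit 1) (nat_lit 270) (nat_lit 1) (nat_lit 293) (nat_lit 384) (nat_lit 343))))))))
noncomputable def ec105 : XT := (XT.nd (nat_lit 1716) (nat_lit 3344) (nat_lit 0) (XT.nd (nat_lit 858) (nat_lit 2204) (nat_lit 0) (XT.nd (nat_lit 390) (nat_lit 1064) (nat_lit 0) (XT.nd (nat_lit 156) (nat_lit 836) (nat_lit 0) (XT.nd (nat_lit 78) (nat_lit 380) (nat_lit 0) (XT.lf (nat_lit 76) (nat_lit 1173352463) (nat_lit 0) (nat_lit 6161864329) (nat_lit 456) (nat_lit 1173352463) (nat_lit 266) (nat_lit 1) (nat_lit 265) (nat_lit 1) (nat_lit 271) (nat_lit 1) (nat_lit 294) (nat_lit 384) (nat_lit 342)) (XT.lf (nat_lit 456) (nat_lit 737946274) (nat_lit 0) (nat_lit 3834327668) (nat_lit 380) (nat_lit 3834327668) (nat_lit 266) (nat_lit 1) (nat_lit 260) (nat_lit 1)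 (nat_lit 265) (nat_lit 1) (nat_lit 295) (nat_lit 384) (nat_lit 341))) (XT.nd (nat_lit 78) (nat_lit 380) (nat_lit 0) (XT.lf (nat_lit 456) (nat_lit 7483797131) (nat_lit 0) (nat_lit 411556051) (nat_lit 380) (nat_lit 411556051) (nat_lit 260) (nat_lit 1) (nat_lit 254) (nat_lit 1) (nat_lit 259) (nat_lit 1) (nat_lit 296) (nat_lit 384) (nat_lit 340)) (XT.nd (nat_lit 78) (nat_lit 380) (nat_lit 0) (XT.lf (nat_lit 76) (nat_lit 2905547359) (nat_lit 0) (nat_lit 2396661024) (nat_lit 456) (nat_lit 2905547359) (nat_lit 255) (nat_lit 1) (nat_lit 254) (nat_lit 1) (nat_lit 260) (nat_lit 1) (nat_lit 297) (nat_lit 384) (nat_lit 339)) (XT.lf (nat_lit 456) (nat_lit 4163615118) (nat_lit 0) (nat_lit 1973595366) (nat_lit 380) (nat_lit 1973595366) (nat_lit 255) (nat_lit 1) (nat_lit 249) (nat_lit 1) (nat_lit 254) (nat_lit 1) (nat_lit 298) (nat_lit 384) (nat_lit 338))))) (XT.nd (nat_lit 234) (nat_lit 304) (nat_lit 0) (XT.nd (nat_lit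 78) (nat_lit 760) (nat_lit 0) (XT.lf (nat_lit 76) (nat_lit 1261448224) (nat_lit 0) (nat_lit 5492582595) (nat_lit 456) (nat_lit 1261448224) (nat_lit 250) (nat_lit 1) (nat_lit 249) (nat_lit 1) (nat_lit 255) (nat_lit 1) (nat_lit 299) (nat_lit 384) (nat_lit 337)) (XT.nd (nat_lit 78) (nat_lit 456) (nat_lit 0) (XT.lf (nat_lit 380) (nat_lit 876116851) (nat_lit 0) (nat_lit 3522621740) (nat_lit 304) (nat_lit 3522621740) (nat_lit 250) (nat_lit 1) (nat_lit 245) (nat_lit 1) (nat_lit 249) (nat_lit 1) (nat_lit 300) (nat_lit 384) (nat_lit 336)) (XT.lf (nat_lit 456) (nat_lit 7105103941) (nat_lit 0) (nat_lit 362101197) (nat_lit 380) (nat_lit 362101197) (nat_lit 245) (nat_lit 1) (nat_lit 239) (nat_lit 1) (nat_lit 244) (nat_lit 1) (nat_lit 301) (nat_lit 384) (nat_lit 335)))) (XT.nd (nat_lit 78) (nat_lit 304) (nat_lit 0) (XT.lf (nat_lit 76) (nat_lit 2704014256) (nat_lit 0) (nat_lit 2329610758) (nat_lit 456) (nat_lit 2704014256)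 (nat_lit 240) (nat_lit 1) (nat_lit 239) (nat_lit 1) (nat_lit 245) (nat_lit 1) (nat_lit 302) (nat_lit 384) (nat_lit 334)) (XT.nd (nat_lit 78) (nat_lit 0) (nat_lit 0) (XT.lf (nat_lit 380) (nat_lit 3737543145) (nat_lit 0) (nat_lit 1955216876) (nat_lit 304) (nat_lit 1955216876) (nat_lit 240) (nat_lit 1) (nat_lit 235) (nat_lit 1) (nat_lit 239) (nat_lit 1) (nat_lit 303) (nat_lit 384) (nat_lit 333)) (XT.lf (nat_lit 76) (nat_lit 1039353656) (nat_lit 0) (nat_lit 5481140911) (nat_lit 380) (nat_lit 1039353656) (nat_lit 236) (nat_lit 1) (nat_lit 235) (nat_lit 1) (nat_lit 240) (nat_lit 1) (nat_lit 304) (nat_lit 384) (nat_lit 332)))))) (XT.nd (nat_lit 390) (nat_lit 1216) (nat_lit 0) (XT.nd (nat_lit 156) (nat_lit 304) (nat_lit 0) (XT.nd (nat_lit 78) (nat_lit 380) (nat_lit 0) (XT.lf (nat_lit 380) (nat_lit 414450412) (nat_lit 0) (nat_lit 3529135423) (nat_lit 304) (nat_lit 3529135423) (nat_lit 236) (nat_lit 1) (nat_lit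 231) (nat_lit 1) (nat_lit 235) (nat_lit 1) (nat_lit 305) (nat_lit 384) (nat_lit 331)) (XT.lf (nat_lit 380) (nat_lit 6193695248) (nat_lit 0) (nat_lit 596809225) (nat_lit 304) (nat_lit 596809225) (nat_lit 231) (nat_lit 1) (nat_lit 226) (nat_lit 1) (nat_lit 230) (nat_lit 1) (nat_lit 306) (nat_lit 384) (nat_lit 330))) (XT.nd (nat_lit 78) (nat_lit 304) (nat_lit 0) (XT.lf (nat_lit 76) (nat_lit 2247977746) (nat_lit 0) (nat_lit 2806536081) (nat_lit 380) (nat_lit 2247977746) (nat_lit 227) (nat_lit 1) (nat_lit 226) (nat_lit 1) (nat_lit 231) (nat_lit 1) (nat_lit 307) (nat_lit 384) (nat_lit 329)) (XT.nd (nat_lit 78) (nat_lit 0) (nat_lit 0) (XT.lf (nat_lit 380) (nat_lit 2820149409) (nat_lit 0) (nat_lit 2199594588) (nat_lit 304) (nat_lit 2199594588) (nat_lit 227) (nat_lit 1) (nat_lit 222) (nat_lit 1) (nat_lit 226) (nat_lit 1) (nat_lit 308) (nat_lit 384) (nat_lit 328)) (XT.lf (nat_lit 76) (nat_lit 582615470) (nat_lit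 0) (nat_lit 5972563321) (nat_lit 380) (nat_lit 582615470) (nat_lit 223) (nat_lit 1) (nat_lit 222) (nat_lit 1) (nat_lit 227) (nat_lit 1) (nat_lit 309) (nat_lit 384) (nat_lit 327))))) (XT.nd (nat_lit 234) (nat_lit 608) (nat_lit 0) (XT.nd (nat_lit 78) (nat_lit 304) (nat_lit 0) (XT.lf (nat_lit 76) (nat_lit 3283246184) (nat_lit 0) (nat_lit 490282970) (nat_lit 304) (nat_lit 3283246184) (nat_lit 219) (nat_lit 1) (nat_lit 218) (nat_lit 1) (nat_lit 222) (nat_lit 1) (nat_lit 310) (nat_lit 384) (nat_lit 326)) (XT.nd (nat_lit 78) (nat_lit 0) (nat_lit 0) (XT.lf (nat_lit 380) (nat_lit 4886166792) (nat_lit 0) (nat_lit 1045576812) (nat_lit 304) (nat_lit 1045576812) (nat_lit 219) (nat_lit 1) (nat_lit 214) (nat_lit 1) (nat_lit 218) (nat_lit 1) (nat_lit 311) (nat_lit 384) (nat_lit 325)) (XT.lf (nat_lit 76) (nat_lit 1603202424) (nat_lit 0) (nat_lit 3692365802) (nat_lit 380) (nat_lit 1603202424) (nat_lit 215) (nat_lit 1)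 (nat_lit 214) (nat_lit 1) (nat_lit 219) (nat_lit 1) (nat_lit 312) (nat_lit 384) (nat_lit 324)))) (XT.nd (nat_lit 78) (nat_lit 380) (nat_lit 0) (XT.lf (nat_lit 304) (nat_lit 1539368344) (nat_lit 0) (nat_lit 2641043018) (nat_lit 228) (nat_lit 2641043018) (nat_lit 215) (nat_lit 1) (nat_lit 211) (nat_lit 1) (nat_lit 214) (nat_lit 1) (nat_lit 313) (nat_lit 384) (nat_lit 323)) (XT.nd (nat_lit 78) (nat_lit 0) (nat_lit 0) (XT.lf (nat_lit 380) (nat_lit 6652461509) (nat_lit 0) (nat_lit 46714959) (nat_lit 304) (nat_lit 46714959) (nat_lit 211) (nat_lit 1) (nat_lit 206) (nat_lit 1) (nat_lit 210) (nat_lit 1) (nat_lit 314) (nat_lit 384) (nat_lit 322)) (XT.lf (nat_lit 76) (nat_lit 2478362574) (nat_lit 0) (nat_lit 1713454772) (nat_lit 380) (nat_lit 2478362574) (nat_lit 207) (nat_lit 1) (nat_lit 206) (nat_lit 1) (nat_lit 211) (nat_lit 1) (nat_lit 315) (nat_lit 384) (nat_lit 321))))))) (XT.nd (nat_lit 858) (nat_lit 1596)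 (nat_lit 0) (XT.nd (nat_lit 390) (nat_lit 988) (nat_lit 0) (XT.nd (nat_lit 156) (nat_lit 532) (nat_lit 0) (XT.nd (nat_lit 78) (nat_lit 0) (nat_lit 0) (XT.lf (nat_lit 304) (nat_lit 3293580592) (nat_lit 0) (nat_lit 1651301866) (nat_lit 228) (nat_lit 1651301866) (nat_lit 207) (nat_lit 1) (nat_lit 203) (nat_lit 1) (nat_lit 206) (nat_lit 1) (nat_lit 316) (nat_lit 384) (nat_lit 320)) (XT.lf (nat_lit 76) (nat_lit 823133714) (nat_lit 0) (nat_lit 4877126713) (nat_lit 304) (nat_lit 823133714) (nat_lit 204) (nat_lit 1) (nat_lit 203) (nat_lit 1) (nat_lit 207) (nat_lit 1) (nat_lit 317) (nat_lit 384) (nat_lit 319))) (XT.nd (nat_lit 78) (nat_lit 228) (nat_lit 0) (XT.lf (nat_lit 76) (nat_lit 3225233810) (nat_lit 0) (nat_lit 863519) (nat_lit 304) (nat_lit 3225233810) (nat_lit 200) (nat_lit 1) (nat_lit 199) (nat_lit 1) (nat_lit 203) (nat_lit 1) (nat_lit 318) (nat_lit 384) (nat_lit 318)) (XT.nd (nat_lit 78) (nat_lit 0)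 (nat_lit 0) (XT.lf (nat_lit 304) (nat_lit 4796082101) (nat_lit 0) (nat_lit 792179108) (nat_lit 228) (nat_lit 792179108) (nat_lit 200) (nat_lit 1) (nat_lit 196) (nat_lit 1) (nat_lit 199) (nat_lit 1) (nat_lit 319) (nat_lit 384) (nat_lit 317)) (XT.lf (nat_lit 76) (nat_lit 1571198303) (nat_lit 0) (nat_lit 3167834585) (nat_lit 304) (nat_lit 1571198303) (nat_lit 197) (nat_lit 1) (nat_lit 196) (nat_lit 1) (nat_lit 200) (nat_lit 1) (nat_lit 320) (nat_lit 384) (nat_lit 316))))) (XT.nd (nat_lit 234) (nat_lit 456) (nat_lit 0) (XT.nd (nat_lit 78) (nat_lit 304) (nat_lit 0) (XT.lf (nat_lit 304) (nat_lit 1505819506) (nat_lit 0) (nat_lit 2367671452) (nat_lit 228) (nat_lit 2367671452) (nat_lit 197) (nat_lit 1) (nat_lit 193) (nat_lit 1) (nat_lit 196) (nat_lit 1) (nat_lit 321) (nat_lit 384) (nat_lit 315)) (XT.nd (nat_lit 78) (nat_lit 0) (nat_lit 0) (XT.lf (nat_lit 304) (nat_lit 6076575666) (nat_lit 0) (nat_lit 48519312)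 (nat_lit 228) (nat_lit 48519312) (nat_lit 193) (nat_lit 1) (nat_lit 189) (nat_lit 1) (nat_lit 192) (nat_lit 1) (nat_lit 322) (nat_lit 384) (nat_lit 314)) (XT.lf (nat_lit 76) (nat_lit 2211382214) (nat_lit 0) (nat_lit 1683095212) (nat_lit 304) (nat_lit 2211382214) (nat_lit 190) (nat_lit 1) (nat_lit 189) (nat_lit 1) (nat_lit 193) (nat_lit 1) (nat_lit 323) (nat_lit 384) (nat_lit 313)))) (XT.nd (nat_lit 78) (nat_lit 228) (nat_lit 0) (XT.lf (nat_lit 304) (nat_lit 2800621517) (nat_lit 0) (nat_lit 1619488149) (nat_lit 228) (nat_lit 1619488149) (nat_lit 190) (nat_lit 1) (nat_lit 186) (nat_lit 1) (nat_lit 189) (nat_lit 1) (nat_lit 324) (nat_lit 384) (nat_lit 312)) (XT.nd (nat_lit 78) (nat_lit 228) (nat_lit 0) (XT.lf (nat_lit 76) (nat_lit 598998280) (nat_lit 0) (nat_lit 4776461750) (nat_lit 304) (nat_lit 598998280) (nat_lit 187) (nat_lit 1) (nat_lit 186) (nat_lit 1) (nat_lit 190) (nat_lit 1) (nat_lit 325) (nat_lit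 384) (nat_lit 311)) (XT.lf (nat_lit 76) (nat_lit 2756428021) (nat_lit 0) (nat_lit 396879376) (nat_lit 228) (nat_lit 2756428021) (nat_lit 184) (nat_lit 1) (nat_lit 183) (nat_lit 1) (nat_lit 186) (nat_lit 1) (nat_lit 326) (nat_lit 384) (nat_lit 310)))))) (XT.nd (nat_lit 468) (nat_lit 760) (nat_lit 0) (XT.nd (nat_lit 234) (nat_lit 456) (nat_lit 0) (XT.nd (nat_lit 78) (nat_lit 152) (nat_lit 0) (XT.lf (nat_lit 304) (nat_lit 3908432827) (nat_lit 0) (nat_lit 968838643) (nat_lit 228) (nat_lit 968838643) (nat_lit 184) (nat_lit 1) (nat_lit 180) (nat_lit 1) (nat_lit 183) (nat_lit 1) (nat_lit 327) (nat_lit 384) (nat_lit 309)) (XT.nd (nat_lit 78) (nat_lit 152) (nat_lit 0) (XT.lf (nat_lit 76) (nat_lit 1156021516) (nat_lit 0) (nat_lit 3471167836) (nat_lit 304) (nat_lit 1156021516) (nat_lit 181) (nat_lit 1) (nat_lit 180) (nat_lit 1) (nat_lit 184) (nat_lit 1) (nat_lit 328) (nat_lit 384) (nat_lit 308)) (XT.lf (nat_lit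 228) (nat_lit 728118969) (nat_lit 0) (nat_lit 2496516736) (nat_lit 152) (nat_lit 2496516736) (nat_lit 181) (nat_lit 1) (nat_lit 178) (nat_lit 1) (nat_lit 180) (nat_lit 1) (nat_lit 329) (nat_lit 384) (nat_lit 307)))) (XT.nd (nat_lit 78) (nat_lit 152) (nat_lit 0) (XT.lf (nat_lit 304) (nat_lit 4851346201) (nat_lit 0) (nat_lit 404435924) (nat_lit 228) (nat_lit 404435924) (nat_lit 178) (nat_lit 1) (nat_lit 174) (nat_lit 1) (nat_lit 177) (nat_lit 1) (nat_lit 330) (nat_lit 384) (nat_lit 306)) (XT.nd (nat_lit 78) (nat_lit 152) (nat_lit 0) (XT.lf (nat_lit 76) (nat_lit 1632759951) (nat_lit 0) (nat_lit 2333935661) (nat_lit 304) (nat_lit 1632759951) (nat_lit 175) (nat_lit 1) (nat_lit 174) (nat_lit 1) (nat_lit 178) (nat_lit 1) (nat_lit 331) (nat_lit 384) (nat_lit 305)) (XT.lf (nat_lit 228) (nat_lit 1703000999) (nat_lit 0) (nat_lit 1918397701) (nat_lit 152) (nat_lit 1918397701) (nat_lit 175) (nat_lit 1) (nat_lit 172)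 (nat_lit 1) (nat_lit 174) (nat_lit 1) (nat_lit 332) (nat_lit 384) (nat_lit 304))))) (XT.nd (nat_lit 234) (nat_lit 380) (nat_lit 0) (XT.nd (nat_lit 78) (nat_lit 380) (nat_lit 0) (XT.lf (nat_lit 76) (nat_lit 84565479) (nat_lit 0) (nat_lit 5312252817) (nat_lit 228) (nat_lit 84565479) (nat_lit 173) (nat_lit 1) (nat_lit 172) (nat_lit 1) (nat_lit 175) (nat_lit 1) (nat_lit 333) (nat_lit 384) (nat_lit 303)) (XT.nd (nat_lit 78) (nat_lit 152) (nat_lit 0) (XT.lf (nat_lit 76) (nat_lit 2038695591) (nat_lit 0) (nat_lit 1345368689) (nat_lit 228) (nat_lit 2038695591) (nat_lit 170) (nat_lit 1) (nat_lit 169) (nat_lit 1) (nat_lit 172) (nat_lit 1) (nat_lit 334) (nat_lit 384) (nat_lit 302)) (XT.lf (nat_lit 228) (nat_lit 2538411541) (nat_lit 0) (nat_lit 1413476282) (nat_lit 152) (nat_lit 1413476282) (nat_lit 170) (nat_lit 1) (nat_lit 167) (nat_lit 1) (nat_lit 169) (nat_lit 1) (nat_lit 335) (nat_lit 384) (nat_lit 301)))) (XT.nd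 (nat_lit 78) (nat_lit 380) (nat_lit 0) (XT.lf (nat_lit 76) (nat_lit 509561880) (nat_lit 0) (nat_lit 4289784277) (nat_lit 228) (nat_lit 509561880) (nat_lit 168) (nat_lit 1) (nat_lit 167) (nat_lit 1) (nat_lit 170) (nat_lit 1) (nat_lit 336) (nat_lit 384) (nat_lit 300)) (XT.nd (nat_lit 78) (nat_lit 152) (nat_lit 0) (XT.lf (nat_lit 76) (nat_lit 2382237659) (nat_lit 0) (nat_lit 488252446) (nat_lit 228) (nat_lit 2382237659) (nat_lit 165) (nat_lit 1) (nat_lit 164) (nat_lit 1) (nat_lit 167) (nat_lit 1) (nat_lit 337) (nat_lit 384) (nat_lit 299)) (XT.lf (nat_lit 228) (nat_lit 3250799378) (nat_lit 0) (nat_lit 973335731) (nat_lit 152) (nat_lit 973335731) (nat_lit 165) (nat_lit 1) (nat_lit 162) (nat_lit 1) (nat_lit 164) (nat_lit 1) (nat_lit 338) (nat_lit 384) (nat_lit 298))))))))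
noncomputable def ec106 : XT := (XT.nd (nat_lit 1716) (nat_lit 1216) (nat_lit 0) (XT.nd (nat_lit 858) (nat_lit 988) (nat_lit 0) (XT.nd (nat_lit 390) (nat_lit 684) (nat_lit 0) (XT.nd (nat_lit 156) (nat_lit 380) (nat_lit 0) (XT.nd (nat_lit 78) (nat_lit 152) (nat_lit 0) (XT.lf (nat_lit 76) (nat_lit 874512477) (nat_lit 0) (nat_lit 3393860927) (nat_lit 228) (nat_lit 874512477) (nat_lit 163) (nat_lit 1) (nat_lit 162) (nat_lit 1) (nat_lit 165) (nat_lit 1) (nat_lit 339) (nat_lit 384) (nat_lit 297)) (XT.lf (nat_lit 228) (nat_lit 257718388) (nat_lit 0) (nat_lit 2415601633) (nat_lit 152) (nat_lit 2415601633) (nat_lit 163) (nat_lit 1) (nat_lit 160) (nat_lit 1) (nat_lit 162) (nat_lit 1) (nat_lit 340) (nat_lit 384) (nat_lit 296))) (XT.nd (nat_lit 78) (nat_lit 152) (nat_lit 0) (XT.lf (nat_lit 228) (nat_lit 3854752950) (nat_lit 0) (nat_lit 590505279) (nat_lit 152) (nat_lit 590505279) (nat_lit 160) (nat_lit 1) (nat_lit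 157) (nat_lit 1) (nat_lit 159) (nat_lit 1) (nat_lit 341) (nat_lit 384) (nat_lit 295)) (XT.nd (nat_lit 78) (nat_lit 152) (nat_lit 0) (XT.lf (nat_lit 76) (nat_lit 1186481695) (nat_lit 0) (nat_lit 2610006484) (nat_lit 228) (nat_lit 1186481695) (nat_lit 158) (nat_lit 1) (nat_lit 157) (nat_lit 1) (nat_lit 160) (nat_lit 1) (nat_lit 342) (nat_lit 384) (nat_lit 294)) (XT.lf (nat_lit 228) (nat_lit 908744452) (nat_lit 0) (nat_lit 2011112089) (nat_lit 152) (nat_lit 2011112089) (nat_lit 158) (nat_lit 1) (nat_lit 155) (nat_lit 1) (nat_lit 157) (nat_lit 1) (nat_lit 343) (nat_lit 384) (nat_lit 293))))) (XT.nd (nat_lit 234) (nat_lit 304) (nat_lit 0) (XT.nd (nat_lit 78) (nat_lit 152) (nat_lit 0) (XT.lf (nat_lit 228) (nat_lit 4363208562) (nat_lit 0) (nat_lit 258354437) (nat_lit 152) (nat_lit 258354437) (nat_lit 155) (nat_lit 1) (nat_lit 152) (nat_lit 1) (nat_lit 154) (nat_lit 1) (nat_lit 344) (nat_lit 384) (nat_lit 292))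 (XT.nd (nat_lit 78) (nat_lit 152) (nat_lit 0) (XT.lf (nat_lit 76) (nat_lit 1451735450) (nat_lit 0) (nat_lit 1925369586) (nat_lit 228) (nat_lit 1451735450) (nat_lit 153) (nat_lit 1) (nat_lit 152) (nat_lit 1) (nat_lit 155) (nat_lit 1) (nat_lit 345) (nat_lit 384) (nat_lit 291)) (XT.lf (nat_lit 228) (nat_lit 1467373697) (nat_lit 0) (nat_lit 1655663863) (nat_lit 152) (nat_lit 1655663863) (nat_lit 153) (nat_lit 1) (nat_lit 150) (nat_lit 1) (nat_lit 152) (nat_lit 1) (nat_lit 346) (nat_lit 384) (nat_lit 290)))) (XT.nd (nat_lit 78) (nat_lit 304) (nat_lit 0) (XT.lf (nat_lit 76) (nat_lit 29288057) (nat_lit 0) (nat_lit 4671023447) (nat_lit 228) (nat_lit 29288057) (nat_lit 151) (nat_lit 1) (nat_lit 150) (nat_lit 1) (nat_lit 153) (nat_lit 1) (nat_lit 347) (nat_lit 384) (nat_lit 289)) (XT.nd (nat_lit 78) (nat_lit 152) (nat_lit 0) (XT.lf (nat_lit 76) (nat_lit 1675830505) (nat_lit 0) (nat_lit 1328542279) (nat_lit 152)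 (nat_lit 1675830505) (nat_lit 149) (nat_lit 1) (nat_lit 148) (nat_lit 1) (nat_lit 150) (nat_lit 1) (nat_lit 348) (nat_lit 384) (nat_lit 288)) (XT.lf (nat_lit 228) (nat_lit 1944486234) (nat_lit 0) (nat_lit 1343673587) (nat_lit 152) (nat_lit 1343673587) (nat_lit 149) (nat_lit 1) (nat_lit 146) (nat_lit 1) (nat_lit 148) (nat_lit 1) (nat_lit 349) (nat_lit 384) (nat_lit 287)))))) (XT.nd (nat_lit 390) (nat_lit 532) (nat_lit 0) (XT.nd (nat_lit 156) (nat_lit 304) (nat_lit 0) (XT.nd (nat_lit 78) (nat_lit 152) (nat_lit 0) (XT.lf (nat_lit 76) (nat_lit 279522396) (nat_lit 0) (nat_lit 4025266820) (nat_lit 228) (nat_lit 279522396) (nat_lit 147) (nat_lit 1) (nat_lit 146) (nat_lit 1) (nat_lit 149) (nat_lit 1) (nat_lit 350) (nat_lit 384) (nat_lit 286)) (XT.lf (nat_lit 76) (nat_lit 1863693853) (nat_lit 0) (nat_lit 809398762) (nat_lit 152) (nat_lit 1863693853) (nat_lit 145) (nat_lit 1) (nat_lit 144) (nat_lit 1) (nat_lit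 146) (nat_lit 1) (nat_lit 351) (nat_lit 384) (nat_lit 285))) (XT.nd (nat_lit 78) (nat_lit 152) (nat_lit 0) (XT.lf (nat_lit 228) (nat_lit 2349732106) (nat_lit 0) (nat_lit 1070183850) (nat_lit 152) (nat_lit 1070183850) (nat_lit 145) (nat_lit 1) (nat_lit 142) (nat_lit 1) (nat_lit 144) (nat_lit 1) (nat_lit 352) (nat_lit 384) (nat_lit 284)) (XT.nd (nat_lit 78) (nat_lit 152) (nat_lit 0) (XT.lf (nat_lit 76) (nat_lit 494468861) (nat_lit 0) (nat_lit 3455157615) (nat_lit 228) (nat_lit 494468861) (nat_lit 143) (nat_lit 1) (nat_lit 142) (nat_lit 1) (nat_lit 145) (nat_lit 1) (nat_lit 353) (nat_lit 384) (nat_lit 283)) (XT.lf (nat_lit 76) (nat_lit 2019693244) (nat_lit 0) (nat_lit 358952117) (nat_lit 152) (nat_lit 2019693244) (nat_lit 141) (nat_lit 1) (nat_lit 140) (nat_lit 1) (nat_lit 142) (nat_lit 1) (nat_lit 354) (nat_lit 384) (nat_lit 282))))) (XT.nd (nat_lit 234) (nat_lit 304) (nat_lit 0) (XT.nd (nat_lit 78) (nat_lit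 76) (nat_lit 0) (XT.lf (nat_lit 228) (nat_lit 2691668942) (nat_lit 0) (nat_lit 830793296) (nat_lit 152) (nat_lit 830793296) (nat_lit 141) (nat_lit 1) (nat_lit 138) (nat_lit 1) (nat_lit 140) (nat_lit 1) (nat_lit 355) (nat_lit 384) (nat_lit 281)) (XT.nd (nat_lit 78) (nat_lit 76) (nat_lit 0) (XT.lf (nat_lit 76) (nat_lit 678277559) (nat_lit 0) (nat_lit 2952154228) (nat_lit 228) (nat_lit 678277559) (nat_lit 139) (nat_lit 1) (nat_lit 138) (nat_lit 1) (nat_lit 141) (nat_lit 1) (nat_lit 356) (nat_lit 384) (nat_lit 280)) (XT.lf (nat_lit 152) (nat_lit 31385416) (nat_lit 0) (nat_lit 2116616105) (nat_lit 76) (nat_lit 2116616105) (nat_lit 139) (nat_lit 1) (nat_lit 137) (nat_lit 1) (nat_lit 138) (nat_lit 1) (nat_lit 357) (nat_lit 384) (nat_lit 279)))) (XT.nd (nat_lit 78) (nat_lit 76) (nat_lit 0) (XT.lf (nat_lit 228) (nat_lit 2977884255) (nat_lit 0) (nat_lit 621594527) (nat_lit 152) (nat_lit 621594527) (nat_lit 137)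 (nat_lit 1) (nat_lit 134) (nat_lit 1) (nat_lit 136) (nat_lit 1) (nat_lit 358) (nat_lit 384) (nat_lit 278)) (XT.nd (nat_lit 78) (nat_lit 76) (nat_lit 0) (XT.lf (nat_lit 76) (nat_lit 834629545) (nat_lit 0) (nat_lit 2508670637) (nat_lit 228) (nat_lit 834629545) (nat_lit 135) (nat_lit 1) (nat_lit 134) (nat_lit 1) (nat_lit 137) (nat_lit 1) (nat_lit 359) (nat_lit 384) (nat_lit 277)) (XT.lf (nat_lit 152) (nat_lit 374154411) (nat_lit 0) (nat_lit 1880585995) (nat_lit 76) (nat_lit 1880585995) (nat_lit 135) (nat_lit 1) (nat_lit 133) (nat_lit 1) (nat_lit 134) (nat_lit 1) (nat_lit 360) (nat_lit 384) (nat_lit 276))))))) (XT.nd (nat_lit 858) (nat_lit 76) (nat_lit 0) (XT.nd (nat_lit 390) (nat_lit 608) (nat_lit 0) (XT.nd (nat_lit 156) (nat_lit 304) (nat_lit 0) (XT.nd (nat_lit 78) (nat_lit 0) (nat_lit 0) (XT.lf (nat_lit 228) (nat_lit 3215104078) (nat_lit 0) (nat_lit 439118923) (nat_lit 152) (nat_lit 439118923) (nat_lit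 133) (nat_lit 1) (nat_lit 130) (nat_lit 1) (nat_lit 132) (nat_lit 1) (nat_lit 361) (nat_lit 384) (nat_lit 275)) (XT.lf (nat_lit 76) (nat_lit 966789306) (nat_lit 0) (nat_lit 2117969760) (nat_lit 228) (nat_lit 966789306) (nat_lit 131) (nat_lit 1) (nat_lit 130) (nat_lit 1) (nat_lit 133) (nat_lit 1) (nat_lit 362) (nat_lit 384) (nat_lit 274))) (XT.nd (nat_lit 78) (nat_lit 228) (nat_lit 0) (XT.lf (nat_lit 152) (nat_lit 668614723) (nat_lit 0) (nat_lit 1670876299) (nat_lit 76) (nat_lit 1670876299) (nat_lit 131) (nat_lit 1) (nat_lit 129) (nat_lit 1) (nat_lit 130) (nat_lit 1) (nat_lit 363) (nat_lit 384) (nat_lit 273)) (XT.nd (nat_lit 78) (nat_lit 0) (nat_lit 0) (XT.lf (nat_lit 228) (nat_lit 3409289484) (nat_lit 0) (nat_lit 280287627) (nat_lit 152) (nat_lit 280287627) (nat_lit 129) (nat_lit 1) (nat_lit 126) (nat_lit 1) (nat_lit 128) (nat_lit 1) (nat_lit 364) (nat_lit 384) (nat_lit 272)) (XT.lf (nat_lit 76) (nat_lit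 1077651394) (nat_lit 0) (nat_lit 1774068691) (nat_lit 228) (nat_lit 1077651394) (nat_lit 127) (nat_lit 1) (nat_lit 126) (nat_lit 1) (nat_lit 129) (nat_lit 1) (nat_lit 365) (nat_lit 384) (nat_lit 271))))) (XT.nd (nat_lit 234) (nat_lit 304) (nat_lit 0) (XT.nd (nat_lit 78) (nat_lit 228) (nat_lit 0) (XT.lf (nat_lit 152) (nat_lit 920447148) (nat_lit 0) (nat_lit 1484551950) (nat_lit 76) (nat_lit 1484551950) (nat_lit 127) (nat_lit 1) (nat_lit 125) (nat_lit 1) (nat_lit 126) (nat_lit 1) (nat_lit 366) (nat_lit 384) (nat_lit 270)) (XT.nd (nat_lit 78) (nat_lit 0) (nat_lit 0) (XT.lf (nat_lit 228) (nat_lit 3565722319) (nat_lit 0) (nat_lit 142367996) (nat_lit 152) (nat_lit 142367996) (nat_lit 125) (nat_lit 1) (nat_lit 122) (nat_lit 1) (nat_lit 124) (nat_lit 1) (nat_lit 367) (nat_lit 384) (nat_lit 269)) (XT.lf (nat_lit 76) (nat_lit 1169781847) (nat_lit 0) (nat_lit 1471654521) (nat_lit 228) (nat_lit 1169781847) (nat_lit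 123) (nat_lit 1) (nat_lit 122) (nat_lit 1) (nat_lit 125) (nat_lit 1) (nat_lit 368) (nat_lit 384) (nat_lit 268)))) (XT.nd (nat_lit 78) (nat_lit 228) (nat_lit 0) (XT.lf (nat_lit 152) (nat_lit 1134690443) (nat_lit 0) (nat_lit 1319005180) (nat_lit 76) (nat_lit 1319005180) (nat_lit 123) (nat_lit 1) (nat_lit 121) (nat_lit 1) (nat_lit 122) (nat_lit 1) (nat_lit 369) (nat_lit 384) (nat_lit 267)) (XT.nd (nat_lit 78) (nat_lit 0) (nat_lit 0) (XT.lf (nat_lit 228) (nat_lit 3689081369) (nat_lit 0) (nat_lit 22934907) (nat_lit 152) (nat_lit 22934907) (nat_lit 121) (nat_lit 1) (nat_lit 118) (nat_lit 1) (nat_lit 120) (nat_lit 1) (nat_lit 370) (nat_lit 384) (nat_lit 266)) (XT.lf (nat_lit 76) (nat_lit 1245454992) (nat_lit 0) (nat_lit 1206009542) (nat_lit 228) (nat_lit 1245454992) (nat_lit 119) (nat_lit 1) (nat_lit 118) (nat_lit 1) (nat_lit 121) (nat_lit 1) (nat_lit 371) (nat_lit 384) (nat_lit 265)))))) (XT.nd (nat_lit 45084)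 (nat_lit 0) (nat_lit 16188) (XT.nd (nat_lit 44850) (nat_lit 0) (nat_lit 18012) (XT.nd (nat_lit 44772) (nat_lit 0) (nat_lit 18772) (XT.lf (nat_lit 152) (nat_lit 1315813173) (nat_lit 0) (nat_lit 1171919018) (nat_lit 76) (nat_lit 1171919018) (nat_lit 119) (nat_lit 1) (nat_lit 117) (nat_lit 1) (nat_lit 118) (nat_lit 1) (nat_lit 372) (nat_lit 384) (nat_lit 264)) (XT.lf (nat_lit 1368) (nat_lit 5058273616) (nat_lit 0) (nat_lit 2278518594) (nat_lit 1292) (nat_lit 5058273616) (nat_lit 382) (nat_lit 1) (nat_lit 364) (nat_lit 1) (nat_lit 381) (nat_lit 1) (nat_lit 265) (nat_lit 385) (nat_lit 370))) (XT.nd (nat_lit 78) (nat_lit 760) (nat_lit 0) (XT.lf (nat_lit 1368) (nat_lit 9082544929) (nat_lit 76) (nat_lit 1572311703) (nat_lit 0) (nat_lit 1572311703) (nat_lit 382) (nat_lit 1) (nat_lit 365) (nat_lit 1) (nat_lit 364) (nat_lit 1) (nat_lit 266) (nat_lit 385) (nat_lit 369)) (XT.nd (nat_lit 78) (nat_lit 836) (nat_lit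 0) (XT.lf (nat_lit 76) (nat_lit 3994366505) (nat_lit 0) (nat_lit 4072808843) (nat_lit 1292) (nat_lit 3994366505) (nat_lit 366) (nat_lit 1) (nat_lit 365) (nat_lit 1) (nat_lit 382) (nat_lit 1) (nat_lit 267) (nat_lit 385) (nat_lit 368)) (XT.lf (nat_lit 912) (nat_lit 6886850193) (nat_lit 0) (nat_lit 2506363128) (nat_lit 836) (nat_lit 2506363128) (nat_lit 366) (nat_lit 1) (nat_lit 354) (nat_lit 1) (nat_lit 365) (nat_lit 1) (nat_lit 268) (nat_lit 385) (nat_lit 367))))) (XT.nd (nat_lit 234) (nat_lit 1216) (nat_lit 0) (XT.nd (nat_lit 78) (nat_lit 608) (nat_lit 0) (XT.lf (nat_lit 76) (nat_lit 2874437207) (nat_lit 0) (nat_lit 5991468051) (nat_lit 912) (nat_lit 2874437207) (nat_lit 355) (nat_lit 1) (nat_lit 354) (nat_lit 1) (nat_lit 366) (nat_lit 1) (nat_lit 269) (nat_lit 385) (nat_lit 366)) (XT.nd (nat_lit 78) (nat_lit 0) (nat_lit 0) (XT.lf (nat_lit 684) (nat_lit 4585303679) (nat_lit 0) (nat_lit 3499365907) (nat_lit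 608) (nat_lit 3499365907) (nat_lit 355) (nat_lit 1) (nat_lit 346) (nat_lit 1) (nat_lit 354) (nat_lit 1) (nat_lit 270) (nat_lit 385) (nat_lit 365)) (XT.lf (nat_lit 76) (nat_lit 1705112153) (nat_lit 0) (nat_lit 8020734544) (nat_lit 684) (nat_lit 1705112153) (nat_lit 347) (nat_lit 1) (nat_lit 346) (nat_lit 1) (nat_lit 355) (nat_lit 1) (nat_lit 271) (nat_lit 385) (nat_lit 364)))) (XT.nd (nat_lit 78) (nat_lit 608) (nat_lit 0) (XT.lf (nat_lit 684) (nat_lit 2190735894) (nat_lit 0) (nat_lit 4544657263) (nat_lit 608) (nat_lit 4544657263) (nat_lit 347) (nat_lit 1) (nat_lit 338) (nat_lit 1) (nat_lit 346) (nat_lit 1) (nat_lit 272) (nat_lit 385) (nat_lit 363)) (XT.nd (nat_lit 78) (nat_lit 608) (nat_lit 0) (XT.lf (nat_lit 76) (nat_lit 492538054) (nat_lit 0) (nat_lit 10147829513) (nat_lit 684) (nat_lit 492538054) (nat_lit 339) (nat_lit 1) (nat_lit 338) (nat_lit 1) (nat_lit 347) (nat_lit 1) (nat_lit 273) (nat_lit 385)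 (nat_lit 362)) (XT.lf (nat_lit 76) (nat_lit 5353835655) (nat_lit 0) (nat_lit 279395382) (nat_lit 608) (nat_lit 5353835655) (nat_lit 331) (nat_lit 1) (nat_lit 330) (nat_lit 1) (nat_lit 338) (nat_lit 1) (nat_lit 274) (nat_lit 385) (nat_lit 361))))))))
noncomputable def ec107 : XT := (XT.nd (nat_lit 1716) (nat_lit 4256) (nat_lit 0) (XT.nd (nat_lit 858) (nat_lit 2964) (nat_lit 0) (XT.nd (nat_lit 390) (nat_lit 1520) (nat_lit 0) (XT.nd (nat_lit 156) (nat_lit 1064) (nat_lit 0) (XT.nd (nat_lit 78) (nat_lit 0) (nat_lit 0) (XT.lf (nat_lit 684) (nat_lit 9344520656) (nat_lit 0) (nat_lit 750160338) (nat_lit 608) (nat_lit 750160338) (nat_lit 331) (nat_lit 1) (nat_lit 322) (nat_lit 1) (nat_lit 330) (nat_lit 1) (nat_lit 275) (nat_lit 385) (nat_lit 360)) (XT.lf (nat_lit 76) (nat_lit 3964276706) (nat_lit 0) (nat_lit 2775510287) (nat_lit 684) (nat_lit 3964276706) (nat_lit 323) (nat_lit 1) (nat_lit 322) (nat_lit 1) (nat_lit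 331) (nat_lit 1) (nat_lit 276) (nat_lit 385) (nat_lit 359))) (XT.nd (nat_lit 78) (nat_lit 532) (nat_lit 0) (XT.lf (nat_lit 608) (nat_lit 6526617050) (nat_lit 0) (nat_lit 2019988394) (nat_lit 532) (nat_lit 2019988394) (nat_lit 323) (nat_lit 1) (nat_lit 315) (nat_lit 1) (nat_lit 322) (nat_lit 1) (nat_lit 277) (nat_lit 385) (nat_lit 358)) (XT.nd (nat_lit 78) (nat_lit 532) (nat_lit 0) (XT.lf (nat_lit 76) (nat_lit 2550446906) (nat_lit 0) (nat_lit 5330352005) (nat_lit 608) (nat_lit 2550446906) (nat_lit 316) (nat_lit 1) (nat_lit 315) (nat_lit 1) (nat_lit 323) (nat_lit 1) (nat_lit 278) (nat_lit 385) (nat_lit 357)) (XT.lf (nat_lit 608) (nat_lit 3664438143) (nat_lit 0) (nat_lit 3316939871) (nat_lit 532) (nat_lit 3316939871) (nat_lit 316) (nat_lit 1) (nat_lit 308) (nat_lit 1) (nat_lit 315) (nat_lit 1) (nat_lit 279) (nat_lit 385) (nat_lit 356))))) (XT.nd (nat_lit 234) (nat_lit 456) (nat_lit 0) (XT.nd (nat_lit 78)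 (nat_lit 1064) (nat_lit 0) (XT.lf (nat_lit 76) (nat_lit 1116769710) (nat_lit 0) (nat_lit 7934665473) (nat_lit 608) (nat_lit 1116769710) (nat_lit 309) (nat_lit 1) (nat_lit 308) (nat_lit 1) (nat_lit 316) (nat_lit 1) (nat_lit 280) (nat_lit 385) (nat_lit 355)) (XT.nd (nat_lit 78) (nat_lit 608) (nat_lit 0) (XT.lf (nat_lit 532) (nat_lit 766526524) (nat_lit 0) (nat_lit 4636544663) (nat_lit 456) (nat_lit 4636544663) (nat_lit 309) (nat_lit 1) (nat_lit 302) (nat_lit 1) (nat_lit 308) (nat_lit 1) (nat_lit 281) (nat_lit 385) (nat_lit 354)) (XT.lf (nat_lit 608) (nat_lit 9255341186) (nat_lit 0) (nat_lit 329412100) (nat_lit 532) (nat_lit 329412100) (nat_lit 302) (nat_lit 1) (nat_lit 294) (nat_lit 1) (nat_lit 301) (nat_lit 1) (nat_lit 282) (nat_lit 385) (nat_lit 353)))) (XT.nd (nat_lit 78) (nat_lit 456) (nat_lit 0) (XT.lf (nat_lit 76) (nat_lit 3836189671) (nat_lit 0) (nat_lit 2117105826) (nat_lit 608) (nat_lit 3836189671)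 (nat_lit 295) (nat_lit 1) (nat_lit 294) (nat_lit 1) (nat_lit 302) (nat_lit 1) (nat_lit 283) (nat_lit 385) (nat_lit 352)) (XT.nd (nat_lit 78) (nat_lit 0) (nat_lit 0) (XT.lf (nat_lit 532) (nat_lit 6114767246) (nat_lit 0) (nat_lit 1776532313) (nat_lit 456) (nat_lit 1776532313) (nat_lit 295) (nat_lit 1) (nat_lit 288) (nat_lit 1) (nat_lit 294) (nat_lit 1) (nat_lit 284) (nat_lit 385) (nat_lit 351)) (XT.lf (nat_lit 76) (nat_lit 2270990120) (nat_lit 0) (nat_lit 5005978269) (nat_lit 532) (nat_lit 2270990120) (nat_lit 289) (nat_lit 1) (nat_lit 288) (nat_lit 1) (nat_lit 295) (nat_lit 1) (nat_lit 285) (nat_lit 385) (nat_lit 350)))))) (XT.nd (nat_lit 390) (nat_lit 1596) (nat_lit 0) (XT.nd (nat_lit 156) (nat_lit 912) (nat_lit 0) (XT.nd (nat_lit 78) (nat_lit 0) (nat_lit 0) (XT.lf (nat_lit 532) (nat_lit 2965924348) (nat_lit 0) (nat_lit 3232111396) (nat_lit 456) (nat_lit 3232111396) (nat_lit 289) (nat_lit 1) (nat_lit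 282) (nat_lit 1) (nat_lit 288) (nat_lit 1) (nat_lit 286) (nat_lit 385) (nat_lit 349)) (XT.lf (nat_lit 76) (nat_lit 703203704) (nat_lit 0) (nat_lit 7908504455) (nat_lit 532) (nat_lit 703203704) (nat_lit 283) (nat_lit 1) (nat_lit 282) (nat_lit 1) (nat_lit 289) (nat_lit 1) (nat_lit 287) (nat_lit 385) (nat_lit 348))) (XT.nd (nat_lit 78) (nat_lit 456) (nat_lit 0) (XT.lf (nat_lit 76) (nat_lit 4509557261) (nat_lit 0) (nat_lit 181606735) (nat_lit 456) (nat_lit 4509557261) (nat_lit 277) (nat_lit 1) (nat_lit 276) (nat_lit 1) (nat_lit 282) (nat_lit 1) (nat_lit 288) (nat_lit 385) (nat_lit 347)) (XT.nd (nat_lit 78) (nat_lit 0) (nat_lit 0) (XT.lf (nat_lit 532) (nat_lit 7377303294) (nat_lit 0) (nat_lit 855854966) (nat_lit 456) (nat_lit 855854966) (nat_lit 277) (nat_lit 1) (nat_lit 270) (nat_lit 1) (nat_lit 276) (nat_lit 1) (nat_lit 289) (nat_lit 385) (nat_lit 346)) (XT.lf (nat_lit 76) (nat_lit 2855134601) (nat_lit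 0) (nat_lit 3268162170) (nat_lit 532) (nat_lit 2855134601) (nat_lit 271) (nat_lit 1) (nat_lit 270) (nat_lit 1) (nat_lit 277) (nat_lit 1) (nat_lit 290) (nat_lit 385) (nat_lit 345))))) (XT.nd (nat_lit 234) (nat_lit 836) (nat_lit 0) (XT.nd (nat_lit 78) (nat_lit 380) (nat_lit 0) (XT.lf (nat_lit 456) (nat_lit 4059748698) (nat_lit 0) (nat_lit 2405194213) (nat_lit 380) (nat_lit 2405194213) (nat_lit 271) (nat_lit 1) (nat_lit 265) (nat_lit 1) (nat_lit 270) (nat_lit 1) (nat_lit 291) (nat_lit 385) (nat_lit 344)) (XT.nd (nat_lit 78) (nat_lit 380) (nat_lit 0) (XT.lf (nat_lit 76) (nat_lit 1208553037) (nat_lit 0) (nat_lit 6346720259) (nat_lit 456) (nat_lit 1208553037) (nat_lit 266) (nat_lit 1) (nat_lit 265) (nat_lit 1) (nat_lit 271) (nat_lit 1) (nat_lit 292) (nat_lit 385) (nat_lit 343)) (XT.lf (nat_lit 456) (nat_lit 760084663) (nat_lit 0) (nat_lit 3949357498) (nat_lit 380) (nat_lit 3949357498) (nat_lit 266) (nat_lit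 1) (nat_lit 260) (nat_lit 1) (nat_lit 265) (nat_lit 1) (nat_lit 293) (nat_lit 385) (nat_lit 342)))) (XT.nd (nat_lit 78) (nat_lit 380) (nat_lit 0) (XT.lf (nat_lit 456) (nat_lit 7708311045) (nat_lit 0) (nat_lit 423902733) (nat_lit 380) (nat_lit 423902733) (nat_lit 260) (nat_lit 1) (nat_lit 254) (nat_lit 1) (nat_lit 259) (nat_lit 1) (nat_lit 294) (nat_lit 385) (nat_lit 341)) (XT.nd (nat_lit 78) (nat_lit 380) (nat_lit 0) (XT.lf (nat_lit 76) (nat_lit 2992713780) (nat_lit 0) (nat_lit 2468560855) (nat_lit 456) (nat_lit 2992713780) (nat_lit 255) (nat_lit 1) (nat_lit 254) (nat_lit 1) (nat_lit 260) (nat_lit 1) (nat_lit 295) (nat_lit 385) (nat_lit 340)) (XT.lf (nat_lit 456) (nat_lit 4288523571) (nat_lit 0) (nat_lit 2032803227) (nat_lit 380) (nat_lit 2032803227) (nat_lit 255) (nat_lit 1) (nat_lit 249) (nat_lit 1) (nat_lit 254) (nat_lit 1) (nat_lit 296) (nat_lit 385) (nat_lit 339))))))) (XT.nd (nat_lit 858) (nat_lit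 2204) (nat_lit 0) (XT.nd (nat_lit 390) (nat_lit 988) (nat_lit 0) (XT.nd (nat_lit 156) (nat_lit 760) (nat_lit 0) (XT.nd (nat_lit 78) (nat_lit 304) (nat_lit 0) (XT.lf (nat_lit 76) (nat_lit 1299291670) (nat_lit 0) (nat_lit 5657360073) (nat_lit 456) (nat_lit 1299291670) (nat_lit 250) (nat_lit 1) (nat_lit 249) (nat_lit 1) (nat_lit 255) (nat_lit 1) (nat_lit 297) (nat_lit 385) (nat_lit 338)) (XT.lf (nat_lit 380) (nat_lit 902400356) (nat_lit 0) (nat_lit 3628300392) (nat_lit 304) (nat_lit 3628300392) (nat_lit 250) (nat_lit 1) (nat_lit 245) (nat_lit 1) (nat_lit 249) (nat_lit 1) (nat_lit 298) (nat_lit 385) (nat_lit 337))) (XT.nd (nat_lit 78) (nat_lit 304) (nat_lit 0) (XT.lf (nat_lit 456) (nat_lit 7318257059) (nat_lit 0) (nat_lit 372964233) (nat_lit 380) (nat_lit 372964233) (nat_lit 245) (nat_lit 1) (nat_lit 239) (nat_lit 1) (nat_lit 244) (nat_lit 1) (nat_lit 299) (nat_lit 385) (nat_lit 336)) (XT.nd (nat_lit 78)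 (nat_lit 304) (nat_lit 0) (XT.lf (nat_lit 76) (nat_lit 2785134684) (nat_lit 0) (nat_lit 2399499081) (nat_lit 456) (nat_lit 2785134684) (nat_lit 240) (nat_lit 1) (nat_lit 239) (nat_lit 1) (nat_lit 245) (nat_lit 1) (nat_lit 300) (nat_lit 385) (nat_lit 335)) (XT.lf (nat_lit 380) (nat_lit 3849669439) (nat_lit 0) (nat_lit 2013873383) (nat_lit 304) (nat_lit 2013873383) (nat_lit 240) (nat_lit 1) (nat_lit 235) (nat_lit 1) (nat_lit 239) (nat_lit 1) (nat_lit 301) (nat_lit 385) (nat_lit 334))))) (XT.nd (nat_lit 234) (nat_lit 304) (nat_lit 0) (XT.nd (nat_lit 78) (nat_lit 684) (nat_lit 0) (XT.lf (nat_lit 76) (nat_lit 1070534266) (nat_lit 0) (nat_lit 5645575138) (nat_lit 380) (nat_lit 1070534266) (nat_lit 236) (nat_lit 1) (nat_lit 235) (nat_lit 1) (nat_lit 240) (nat_lit 1) (nat_lit 302) (nat_lit 385) (nat_lit 333)) (XT.nd (nat_lit 78) (nat_lit 380) (nat_lit 0) (XT.lf (nat_lit 380) (nat_lit 426883924) (nat_lit 0) (nat_lit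 3635009486) (nat_lit 304) (nat_lit 3635009486) (nat_lit 236) (nat_lit 1) (nat_lit 231) (nat_lit 1) (nat_lit 235) (nat_lit 1) (nat_lit 303) (nat_lit 385) (nat_lit 332)) (XT.lf (nat_lit 380) (nat_lit 6379506106) (nat_lit 0) (nat_lit 614713502) (nat_lit 304) (nat_lit 614713502) (nat_lit 231) (nat_lit 1) (nat_lit 226) (nat_lit 1) (nat_lit 230) (nat_lit 1) (nat_lit 304) (nat_lit 385) (nat_lit 331)))) (XT.nd (nat_lit 78) (nat_lit 304) (nat_lit 0) (XT.lf (nat_lit 76) (nat_lit 2315417079) (nat_lit 0) (nat_lit 2890732163) (nat_lit 380) (nat_lit 2315417079) (nat_lit 227) (nat_lit 1) (nat_lit 226) (nat_lit 1) (nat_lit 231) (nat_lit 1) (nat_lit 305) (nat_lit 385) (nat_lit 330)) (XT.nd (nat_lit 78) (nat_lit 0) (nat_lit 0) (XT.lf (nat_lit 380) (nat_lit 2904753891) (nat_lit 0) (nat_lit 2265582426) (nat_lit 304) (nat_lit 2265582426) (nat_lit 227) (nat_lit 1) (nat_lit 222) (nat_lit 1) (nat_lit 226) (nat_lit 1) (nat_lit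 306) (nat_lit 385) (nat_lit 329)) (XT.lf (nat_lit 76) (nat_lit 600093934) (nat_lit 0) (nat_lit 6151740220) (nat_lit 380) (nat_lit 600093934) (nat_lit 223) (nat_lit 1) (nat_lit 222) (nat_lit 1) (nat_lit 227) (nat_lit 1) (nat_lit 307) (nat_lit 385) (nat_lit 328)))))) (XT.nd (nat_lit 468) (nat_lit 988) (nat_lit 0) (XT.nd (nat_lit 234) (nat_lit 608) (nat_lit 0) (XT.nd (nat_lit 78) (nat_lit 304) (nat_lit 0) (XT.lf (nat_lit 76) (nat_lit 3381743570) (nat_lit 0) (nat_lit 504991459) (nat_lit 304) (nat_lit 3381743570) (nat_lit 219) (nat_lit 1) (nat_lit 218) (nat_lit 1) (nat_lit 222) (nat_lit 1) (nat_lit 308) (nat_lit 385) (nat_lit 327)) (XT.nd (nat_lit 78) (nat_lit 0) (nat_lit 0) (XT.lf (nat_lit 380) (nat_lit 5032751796) (nat_lit 0) (nat_lit 1076944116) (nat_lit 304) (nat_lit 1076944116) (nat_lit 219) (nat_lit 1) (nat_lit 214) (nat_lit 1) (nat_lit 218) (nat_lit 1) (nat_lit 309) (nat_lit 385) (nat_lit 326)) (XT.lf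 (nat_lit 76) (nat_lit 1651298496) (nat_lit 0) (nat_lit 3803136776) (nat_lit 380) (nat_lit 1651298496) (nat_lit 215) (nat_lit 1) (nat_lit 214) (nat_lit 1) (nat_lit 219) (nat_lit 1) (nat_lit 310) (nat_lit 385) (nat_lit 325)))) (XT.nd (nat_lit 78) (nat_lit 380) (nat_lit 0) (XT.lf (nat_lit 304) (nat_lit 1585549395) (nat_lit 0) (nat_lit 2720274309) (nat_lit 228) (nat_lit 2720274309) (nat_lit 215) (nat_lit 1) (nat_lit 211) (nat_lit 1) (nat_lit 214) (nat_lit 1) (nat_lit 311) (nat_lit 385) (nat_lit 324)) (XT.nd (nat_lit 78) (nat_lit 0) (nat_lit 0) (XT.lf (nat_lit 380) (nat_lit 6852035355) (nat_lit 0) (nat_lit 48116408) (nat_lit 304) (nat_lit 48116408) (nat_lit 211) (nat_lit 1) (nat_lit 206) (nat_lit 1) (nat_lit 210) (nat_lit 1) (nat_lit 312) (nat_lit 385) (nat_lit 323)) (XT.lf (nat_lit 76) (nat_lit 2552713451) (nat_lit 0) (nat_lit 1764858416) (nat_lit 380) (nat_lit 2552713451) (nat_lit 207) (nat_lit 1) (nat_lit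 206) (nat_lit 1) (nat_lit 211) (nat_lit 1) (nat_lit 313) (nat_lit 385) (nat_lit 322))))) (XT.nd (nat_lit 234) (nat_lit 456) (nat_lit 0) (XT.nd (nat_lit 78) (nat_lit 304) (nat_lit 0) (XT.lf (nat_lit 304) (nat_lit 3392388009) (nat_lit 0) (nat_lit 1700840922) (nat_lit 228) (nat_lit 1700840922) (nat_lit 207) (nat_lit 1) (nat_lit 203) (nat_lit 1) (nat_lit 206) (nat_lit 1) (nat_lit 314) (nat_lit 385) (nat_lit 321)) (XT.nd (nat_lit 78) (nat_lit 304) (nat_lit 0) (XT.lf (nat_lit 76) (nat_lit 847827726) (nat_lit 0) (nat_lit 5023440515) (nat_lit 304) (nat_lit 847827726) (nat_lit 204) (nat_lit 1) (nat_lit 203) (nat_lit 1) (nat_lit 207) (nat_lit 1) (nat_lit 315) (nat_lit 385) (nat_lit 320)) (XT.lf (nat_lit 76) (nat_lit 3321990824) (nat_lit 0) (nat_lit 889425) (nat_lit 304) (nat_lit 3321990824) (nat_lit 200) (nat_lit 1) (nat_lit 199) (nat_lit 1) (nat_lit 203) (nat_lit 1) (nat_lit 316) (nat_lit 385) (nat_lit 319))))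 (XT.nd (nat_lit 78) (nat_lit 228) (nat_lit 0) (XT.lf (nat_lit 304) (nat_lit 4939964564) (nat_lit 0) (nat_lit 815944482) (nat_lit 228) (nat_lit 815944482) (nat_lit 200) (nat_lit 1) (nat_lit 196) (nat_lit 1) (nat_lit 199) (nat_lit 1) (nat_lit 317) (nat_lit 385) (nat_lit 318)) (XT.nd (nat_lit 78) (nat_lit 228) (nat_lit 0) (XT.lf (nat_lit 76) (nat_lit 1618334252) (nat_lit 0) (nat_lit 3262869623) (nat_lit 304) (nat_lit 1618334252) (nat_lit 197) (nat_lit 1) (nat_lit 196) (nat_lit 1) (nat_lit 200) (nat_lit 1) (nat_lit 318) (nat_lit 385) (nat_lit 317)) (XT.lf (nat_lit 304) (nat_lit 1550994091) (nat_lit 0) (nat_lit 2438701596) (nat_lit 228) (nat_lit 2438701596) (nat_lit 197) (nat_lit 1) (nat_lit 193) (nat_lit 1) (nat_lit 196) (nat_lit 1) (nat_lit 319) (nat_lit 385) (nat_lit 316))))))))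
noncomputable def ec108 : XT := (XT.nd (nat_lit 1716) (nat_lit 2204) (nat_lit 0) (XT.nd (nat_lit 858) (nat_lit 1292) (nat_lit 0) (XT.nd (nat_lit 390) (nat_lit 836) (nat_lit 0) (XT.nd (nat_lit 156) (nat_lit 456) (nat_lit 0) (XT.nd (nat_lit 78) (nat_lit 0) (nat_lit 0) (XT.lf (nat_lit 304) (nat_lit 6258872936) (nat_lit 0) (nat_lit 49974891) (nat_lit 228) (nat_lit 49974891) (nat_lit 193) (nat_lit 1) (nat_lit 189) (nat_lit 1) (nat_lit 192) (nat_lit 1) (nat_lit 320) (nat_lit 385) (nat_lit 315)) (XT.lf (nat_lit 76) (nat_lit 2277723680) (nat_lit 0) (nat_lit 1733588068) (nat_lit 304) (nat_lit 2277723680) (nat_lit 190) (nat_lit 1) (nat_lit 189) (nat_lit 1) (nat_lit 193) (nat_lit 1) (nat_lit 321) (nat_lit 385) (nat_lit 314))) (XT.nd (nat_lit 78) (nat_lit 228) (nat_lit 0) (XT.lf (nat_lit 304) (nat_lit 2884640163) (nat_lit 0) (nat_lit 1668072794) (nat_lit 228) (nat_lit 1668072794) (nat_lit 190) (nat_lit 1) (nat_lit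 186) (nat_lit 1) (nat_lit 189) (nat_lit 1) (nat_lit 322) (nat_lit 385) (nat_lit 313)) (XT.nd (nat_lit 78) (nat_lit 228) (nat_lit 0) (XT.lf (nat_lit 76) (nat_lit 616968229) (nat_lit 0) (nat_lit 4919755602) (nat_lit 304) (nat_lit 616968229) (nat_lit 187) (nat_lit 1) (nat_lit 186) (nat_lit 1) (nat_lit 190) (nat_lit 1) (nat_lit 323) (nat_lit 385) (nat_lit 312)) (XT.lf (nat_lit 76) (nat_lit 2839120861) (nat_lit 0) (nat_lit 408785758) (nat_lit 228) (nat_lit 2839120861) (nat_lit 184) (nat_lit 1) (nat_lit 183) (nat_lit 1) (nat_lit 186) (nat_lit 1) (nat_lit 324) (nat_lit 385) (nat_lit 311))))) (XT.nd (nat_lit 234) (nat_lit 456) (nat_lit 0) (XT.nd (nat_lit 78) (nat_lit 152) (nat_lit 0) (XT.lf (nat_lit 304) (nat_lit 4025685812) (nat_lit 0) (nat_lit 997903803) (nat_lit 228) (nat_lit 997903803) (nat_lit 184) (nat_lit 1) (nat_lit 180) (nat_lit 1) (nat_lit 183) (nat_lit 1) (nat_lit 325) (nat_lit 385) (nat_lit 310))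 (XT.nd (nat_lit 78) (nat_lit 152) (nat_lit 0) (XT.lf (nat_lit 76) (nat_lit 1190702161) (nat_lit 0) (nat_lit 3575302871) (nat_lit 304) (nat_lit 1190702161) (nat_lit 181) (nat_lit 1) (nat_lit 180) (nat_lit 1) (nat_lit 184) (nat_lit 1) (nat_lit 326) (nat_lit 385) (nat_lit 309)) (XT.lf (nat_lit 228) (nat_lit 749962538) (nat_lit 0) (nat_lit 2571412239) (nat_lit 152) (nat_lit 2571412239) (nat_lit 181) (nat_lit 1) (nat_lit 178) (nat_lit 1) (nat_lit 180) (nat_lit 1) (nat_lit 327) (nat_lit 385) (nat_lit 308)))) (XT.nd (nat_lit 78) (nat_lit 152) (nat_lit 0) (XT.lf (nat_lit 304) (nat_lit 4996886587) (nat_lit 0) (nat_lit 416569002) (nat_lit 228) (nat_lit 416569002) (nat_lit 178) (nat_lit 1) (nat_lit 174) (nat_lit 1) (nat_lit 177) (nat_lit 1) (nat_lit 328) (nat_lit 385) (nat_lit 307)) (XT.nd (nat_lit 78) (nat_lit 152) (nat_lit 0) (XT.lf (nat_lit 76) (nat_lit 1681742750) (nat_lit 0) (nat_lit 2403953730) (nat_lit 304)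 (nat_lit 1681742750) (nat_lit 175) (nat_lit 1) (nat_lit 174) (nat_lit 1) (nat_lit 178) (nat_lit 1) (nat_lit 329) (nat_lit 385) (nat_lit 306)) (XT.lf (nat_lit 228) (nat_lit 1754091029) (nat_lit 0) (nat_lit 1975949632) (nat_lit 152) (nat_lit 1975949632) (nat_lit 175) (nat_lit 1) (nat_lit 172) (nat_lit 1) (nat_lit 174) (nat_lit 1) (nat_lit 330) (nat_lit 385) (nat_lit 305)))))) (XT.nd (nat_lit 390) (nat_lit 684) (nat_lit 0) (XT.nd (nat_lit 156) (nat_lit 380) (nat_lit 0) (XT.nd (nat_lit 78) (nat_lit 228) (nat_lit 0) (XT.lf (nat_lit 76) (nat_lit 87102444) (nat_lit 0) (nat_lit 5471620401) (nat_lit 228) (nat_lit 87102444) (nat_lit 173) (nat_lit 1) (nat_lit 172) (nat_lit 1) (nat_lit 175) (nat_lit 1) (nat_lit 331) (nat_lit 385) (nat_lit 304)) (XT.lf (nat_lit 76) (nat_lit 2099856459) (nat_lit 0) (nat_lit 1385729750) (nat_lit 228) (nat_lit 2099856459) (nat_lit 170) (nat_lit 1) (nat_lit 169) (nat_lit 1) (nat_lit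 172) (nat_lit 1) (nat_lit 332) (nat_lit 385) (nat_lit 303))) (XT.nd (nat_lit 78) (nat_lit 228) (nat_lit 0) (XT.lf (nat_lit 228) (nat_lit 2614563887) (nat_lit 0) (nat_lit 1455880571) (nat_lit 152) (nat_lit 1455880571) (nat_lit 170) (nat_lit 1) (nat_lit 167) (nat_lit 1) (nat_lit 169) (nat_lit 1) (nat_lit 333) (nat_lit 385) (nat_lit 302)) (XT.nd (nat_lit 78) (nat_lit 228) (nat_lit 0) (XT.lf (nat_lit 76) (nat_lit 524848736) (nat_lit 0) (nat_lit 4418477805) (nat_lit 228) (nat_lit 524848736) (nat_lit 168) (nat_lit 1) (nat_lit 167) (nat_lit 1) (nat_lit 170) (nat_lit 1) (nat_lit 334) (nat_lit 385) (nat_lit 301)) (XT.lf (nat_lit 76) (nat_lit 2453704788) (nat_lit 0) (nat_lit 502900019) (nat_lit 228) (nat_lit 2453704788) (nat_lit 165) (nat_lit 1) (nat_lit 164) (nat_lit 1) (nat_lit 167) (nat_lit 1) (nat_lit 335) (nat_lit 385) (nat_lit 300))))) (XT.nd (nat_lit 234) (nat_lit 380) (nat_lit 0) (XT.nd (nat_lit 78) (nat_lit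 152) (nat_lit 0) (XT.lf (nat_lit 228) (nat_lit 3348323359) (nat_lit 0) (nat_lit 1002535803) (nat_lit 152) (nat_lit 1002535803) (nat_lit 165) (nat_lit 1) (nat_lit 162) (nat_lit 1) (nat_lit 164) (nat_lit 1) (nat_lit 336) (nat_lit 385) (nat_lit 299)) (XT.nd (nat_lit 78) (nat_lit 152) (nat_lit 0) (XT.lf (nat_lit 76) (nat_lit 900747851) (nat_lit 0) (nat_lit 3495676754) (nat_lit 228) (nat_lit 900747851) (nat_lit 163) (nat_lit 1) (nat_lit 162) (nat_lit 1) (nat_lit 165) (nat_lit 1) (nat_lit 337) (nat_lit 385) (nat_lit 298)) (XT.lf (nat_lit 228) (nat_lit 265449939) (nat_lit 0) (nat_lit 2488069682) (nat_lit 152) (nat_lit 2488069682) (nat_lit 163) (nat_lit 1) (nat_lit 160) (nat_lit 1) (nat_lit 162) (nat_lit 1) (nat_lit 338) (nat_lit 385) (nat_lit 297)))) (XT.nd (nat_lit 78) (nat_lit 152) (nat_lit 0) (XT.lf (nat_lit 228) (nat_lit 3970395539) (nat_lit 0) (nat_lit 608220437) (nat_lit 152) (nat_lit 608220437) (nat_lit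 160) (nat_lit 1) (nat_lit 157) (nat_lit 1) (nat_lit 159) (nat_lit 1) (nat_lit 339) (nat_lit 385) (nat_lit 296)) (XT.nd (nat_lit 78) (nat_lit 152) (nat_lit 0) (XT.lf (nat_lit 76) (nat_lit 1222076146) (nat_lit 0) (nat_lit 2688306679) (nat_lit 228) (nat_lit 1222076146) (nat_lit 158) (nat_lit 1) (nat_lit 157) (nat_lit 1) (nat_lit 160) (nat_lit 1) (nat_lit 340) (nat_lit 385) (nat_lit 295)) (XT.lf (nat_lit 228) (nat_lit 936006785) (nat_lit 0) (nat_lit 2071445451) (nat_lit 152) (nat_lit 2071445451) (nat_lit 158) (nat_lit 1) (nat_lit 155) (nat_lit 1) (nat_lit 157) (nat_lit 1) (nat_lit 341) (nat_lit 385) (nat_lit 294))))))) (XT.nd (nat_lit 858) (nat_lit 1064) (nat_lit 0) (XT.nd (nat_lit 390) (nat_lit 608) (nat_lit 0) (XT.nd (nat_lit 156) (nat_lit 304) (nat_lit 0) (XT.nd (nat_lit 78) (nat_lit 0) (nat_lit 0) (XT.lf (nat_lit 228) (nat_lit 4494104819) (nat_lit 0) (nat_lit 266105070) (nat_lit 152) (nat_lit 266105070)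 (nat_lit 155) (nat_lit 1) (nat_lit 152) (nat_lit 1) (nat_lit 154) (nat_lit 1) (nat_lit 342) (nat_lit 385) (nat_lit 293)) (XT.lf (nat_lit 76) (nat_lit 1495287513) (nat_lit 0) (nat_lit 1983130673) (nat_lit 228) (nat_lit 1495287513) (nat_lit 153) (nat_lit 1) (nat_lit 152) (nat_lit 1) (nat_lit 155) (nat_lit 1) (nat_lit 343) (nat_lit 385) (nat_lit 292))) (XT.nd (nat_lit 78) (nat_lit 152) (nat_lit 0) (XT.lf (nat_lit 228) (nat_lit 1511394908) (nat_lit 0) (nat_lit 1705333779) (nat_lit 152) (nat_lit 1705333779) (nat_lit 153) (nat_lit 1) (nat_lit 150) (nat_lit 1) (nat_lit 152) (nat_lit 1) (nat_lit 344) (nat_lit 385) (nat_lit 291)) (XT.nd (nat_lit 78) (nat_lit 152) (nat_lit 0) (XT.lf (nat_lit 76) (nat_lit 30166699) (nat_lit 0) (nat_lit 4811154150) (nat_lit 228) (nat_lit 30166699) (nat_lit 151) (nat_lit 1) (nat_lit 150) (nat_lit 1) (nat_lit 153) (nat_lit 1) (nat_lit 345) (nat_lit 385) (nat_lit 290)) (XT.lf (nat_lit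 76) (nat_lit 1726105420) (nat_lit 0) (nat_lit 1368398547) (nat_lit 152) (nat_lit 1726105420) (nat_lit 149) (nat_lit 1) (nat_lit 148) (nat_lit 1) (nat_lit 150) (nat_lit 1) (nat_lit 346) (nat_lit 385) (nat_lit 289))))) (XT.nd (nat_lit 234) (nat_lit 304) (nat_lit 0) (XT.nd (nat_lit 78) (nat_lit 152) (nat_lit 0) (XT.lf (nat_lit 228) (nat_lit 2002820821) (nat_lit 0) (nat_lit 1383983795) (nat_lit 152) (nat_lit 1383983795) (nat_lit 149) (nat_lit 1) (nat_lit 146) (nat_lit 1) (nat_lit 148) (nat_lit 1) (nat_lit 347) (nat_lit 385) (nat_lit 288)) (XT.nd (nat_lit 78) (nat_lit 152) (nat_lit 0) (XT.lf (nat_lit 76) (nat_lit 287908068) (nat_lit 0) (nat_lit 4146024824) (nat_lit 228) (nat_lit 287908068) (nat_lit 147) (nat_lit 1) (nat_lit 146) (nat_lit 1) (nat_lit 149) (nat_lit 1) (nat_lit 348) (nat_lit 385) (nat_lit 287)) (XT.lf (nat_lit 76) (nat_lit 1919604669) (nat_lit 0) (nat_lit 833680725) (nat_lit 152) (nat_lit 1919604669)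 (nat_lit 145) (nat_lit 1) (nat_lit 144) (nat_lit 1) (nat_lit 146) (nat_lit 1) (nat_lit 349) (nat_lit 385) (nat_lit 286)))) (XT.nd (nat_lit 78) (nat_lit 152) (nat_lit 0) (XT.lf (nat_lit 228) (nat_lit 2420224069) (nat_lit 0) (nat_lit 1102289365) (nat_lit 152) (nat_lit 1102289365) (nat_lit 145) (nat_lit 1) (nat_lit 142) (nat_lit 1) (nat_lit 144) (nat_lit 1) (nat_lit 350) (nat_lit 385) (nat_lit 285)) (XT.nd (nat_lit 78) (nat_lit 152) (nat_lit 0) (XT.lf (nat_lit 76) (nat_lit 509302926) (nat_lit 0) (nat_lit 3558812344) (nat_lit 228) (nat_lit 509302926) (nat_lit 143) (nat_lit 1) (nat_lit 142) (nat_lit 1) (nat_lit 145) (nat_lit 1) (nat_lit 351) (nat_lit 385) (nat_lit 284)) (XT.lf (nat_lit 76) (nat_lit 2080284041) (nat_lit 0) (nat_lit 369720681) (nat_lit 152) (nat_lit 2080284041) (nat_lit 141) (nat_lit 1) (nat_lit 140) (nat_lit 1) (nat_lit 142) (nat_lit 1) (nat_lit 352) (nat_lit 385) (nat_lit 283)))))) (XT.nd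 (nat_lit 390) (nat_lit 608) (nat_lit 0) (XT.nd (nat_lit 156) (nat_lit 304) (nat_lit 0) (XT.nd (nat_lit 78) (nat_lit 0) (nat_lit 0) (XT.lf (nat_lit 228) (nat_lit 2772419011) (nat_lit 0) (nat_lit 855717095) (nat_lit 152) (nat_lit 855717095) (nat_lit 141) (nat_lit 1) (nat_lit 138) (nat_lit 1) (nat_lit 140) (nat_lit 1) (nat_lit 353) (nat_lit 385) (nat_lit 282)) (XT.lf (nat_lit 76) (nat_lit 698625886) (nat_lit 0) (nat_lit 3040718854) (nat_lit 228) (nat_lit 698625886) (nat_lit 139) (nat_lit 1) (nat_lit 138) (nat_lit 1) (nat_lit 141) (nat_lit 1) (nat_lit 354) (nat_lit 385) (nat_lit 281))) (XT.nd (nat_lit 78) (nat_lit 228) (nat_lit 0) (XT.lf (nat_lit 152) (nat_lit 32326978) (nat_lit 0) (nat_lit 2180114588) (nat_lit 76) (nat_lit 2180114588) (nat_lit 139) (nat_lit 1) (nat_lit 137) (nat_lit 1) (nat_lit 138) (nat_lit 1) (nat_lit 355) (nat_lit 385) (nat_lit 280)) (XT.nd (nat_lit 78) (nat_lit 0) (nat_lit 0) (XT.lf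 (nat_lit 228) (nat_lit 3067220782) (nat_lit 0) (nat_lit 640242363) (nat_lit 152) (nat_lit 640242363) (nat_lit 137) (nat_lit 1) (nat_lit 134) (nat_lit 1) (nat_lit 136) (nat_lit 1) (nat_lit 356) (nat_lit 385) (nat_lit 279)) (XT.lf (nat_lit 76) (nat_lit 859668431) (nat_lit 0) (nat_lit 2583930757) (nat_lit 228) (nat_lit 859668431) (nat_lit 135) (nat_lit 1) (nat_lit 134) (nat_lit 1) (nat_lit 137) (nat_lit 1) (nat_lit 357) (nat_lit 385) (nat_lit 278))))) (XT.nd (nat_lit 234) (nat_lit 304) (nat_lit 0) (XT.nd (nat_lit 78) (nat_lit 228) (nat_lit 0) (XT.lf (nat_lit 152) (nat_lit 385379044) (nat_lit 0) (nat_lit 1937003575) (nat_lit 76) (nat_lit 1937003575) (nat_lit 135) (nat_lit 1) (nat_lit 133) (nat_lit 1) (nat_lit 134) (nat_lit 1) (nat_lit 358) (nat_lit 385) (nat_lit 277)) (XT.nd (nat_lit 78) (nat_lit 0) (nat_lit 0) (XT.lf (nat_lit 228) (nat_lit 3311557200) (nat_lit 0) (nat_lit 452292490) (nat_lit 152) (nat_lit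 452292490) (nat_lit 133) (nat_lit 1) (nat_lit 130) (nat_lit 1) (nat_lit 132) (nat_lit 1) (nat_lit 359) (nat_lit 385) (nat_lit 276)) (XT.lf (nat_lit 76) (nat_lit 995792986) (nat_lit 0) (nat_lit 2181508853) (nat_lit 228) (nat_lit 995792986) (nat_lit 131) (nat_lit 1) (nat_lit 130) (nat_lit 1) (nat_lit 133) (nat_lit 1) (nat_lit 360) (nat_lit 385) (nat_lit 275)))) (XT.nd (nat_lit 78) (nat_lit 228) (nat_lit 0) (XT.lf (nat_lit 152) (nat_lit 688673165) (nat_lit 0) (nat_lit 1721002588) (nat_lit 76) (nat_lit 1721002588) (nat_lit 131) (nat_lit 1) (nat_lit 129) (nat_lit 1) (nat_lit 130) (nat_lit 1) (nat_lit 361) (nat_lit 385) (nat_lit 274)) (XT.nd (nat_lit 78) (nat_lit 0) (nat_lit 0) (XT.lf (nat_lit 228) (nat_lit 3511568169) (nat_lit 0) (nat_lit 288696256) (nat_lit 152) (nat_lit 288696256) (nat_lit 129) (nat_lit 1) (nat_lit 126) (nat_lit 1) (nat_lit 128) (nat_lit 1) (nat_lit 362) (nat_lit 385) (nat_lit 273)) (XT.lf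 (nat_lit 76) (nat_lit 1109980936) (nat_lit 0) (nat_lit 1827290752) (nat_lit 228) (nat_lit 1109980936) (nat_lit 127) (nat_lit 1) (nat_lit 126) (nat_lit 1) (nat_lit 129) (nat_lit 1) (nat_lit 363) (nat_lit 385) (nat_lit 272))))))))
noncomputable def ec109 : XT := (XT.nd (nat_lit 46644) (nat_lit 0) (nat_lit 8284) (XT.nd (nat_lit 45786) (nat_lit 0) (nat_lit 13452) (XT.nd (nat_lit 390) (nat_lit 76) (nat_lit 0) (XT.nd (nat_lit 156) (nat_lit 304) (nat_lit 0) (XT.nd (nat_lit 78) (nat_lit 228) (nat_lit 0) (XT.lf (nat_lit 152) (nat_lit 948060562) (nat_lit 0) (nat_lit 1529088509) (nat_lit 76) (nat_lit 1529088509) (nat_lit 127) (nat_lit 1) (nat_lit 125) (nat_lit 1) (nat_lit 126) (nat_lit 1) (nat_lit 364) (nat_lit 385) (nat_lit 271)) (XT.lf (nat_lit 228) (nat_lit 3672693989) (nat_lit 0) (nat_lit 146639036) (nat_lit 152) (nat_lit 146639036) (nat_lit 125) (nat_lit 1) (nat_lit 122) (nat_lit 1) (nat_lit 124) (nat_lit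 1) (nat_lit 365) (nat_lit 385) (nat_lit 270))) (XT.nd (nat_lit 78) (nat_lit 304) (nat_lit 0) (XT.lf (nat_lit 76) (nat_lit 1204875303) (nat_lit 0) (nat_lit 1515804157) (nat_lit 228) (nat_lit 1204875303) (nat_lit 123) (nat_lit 1) (nat_lit 122) (nat_lit 1) (nat_lit 125) (nat_lit 1) (nat_lit 366) (nat_lit 385) (nat_lit 269)) (XT.nd (nat_lit 78) (nat_lit 228) (nat_lit 0) (XT.lf (nat_lit 152) (nat_lit 1168731156) (nat_lit 0) (nat_lit 1358575335) (nat_lit 76) (nat_lit 1358575335) (nat_lit 123) (nat_lit 1) (nat_lit 121) (nat_lit 1) (nat_lit 122) (nat_lit 1) (nat_lit 367) (nat_lit 385) (nat_lit 268)) (XT.lf (nat_lit 228) (nat_lit 3799753810) (nat_lit 0) (nat_lit 23622954) (nat_lit 152) (nat_lit 23622954) (nat_lit 121) (nat_lit 1) (nat_lit 118) (nat_lit 1) (nat_lit 120) (nat_lit 1) (nat_lit 368) (nat_lit 385) (nat_lit 267))))) (XT.nd (nat_lit 45162) (nat_lit 0) (nat_lit 17404) (XT.nd (nat_lit 78) (nat_lit 76)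 (nat_lit 0) (XT.lf (nat_lit 76) (nat_lit 1282818642) (nat_lit 0) (nat_lit 1242189828) (nat_lit 228) (nat_lit 1282818642) (nat_lit 119) (nat_lit 1) (nat_lit 118) (nat_lit 1) (nat_lit 121) (nat_lit 1) (nat_lit 369) (nat_lit 385) (nat_lit 266)) (XT.nd (nat_lit 45006) (nat_lit 0) (nat_lit 18012) (XT.lf (nat_lit 152) (nat_lit 1355287569) (nat_lit 0) (nat_lit 1207076589) (nat_lit 76) (nat_lit 1207076589) (nat_lit 119) (nat_lit 1) (nat_lit 117) (nat_lit 1) (nat_lit 118) (nat_lit 1) (nat_lit 370) (nat_lit 385) (nat_lit 265)) (XT.lf (nat_lit 912) (nat_lit 7093455699) (nat_lit 0) (nat_lit 2581554022) (nat_lit 836) (nat_lit 2581554022) (nat_lit 366) (nat_lit 1) (nat_lit 354) (nat_lit 1) (nat_lit 365) (nat_lit 1) (nat_lit 266) (nat_lit 386) (nat_lit 368)))) (XT.nd (nat_lit 78) (nat_lit 608) (nat_lit 0) (XT.lf (nat_lit 76) (nat_lit 2960670323) (nat_lit 0) (nat_lit 6171212092) (nat_lit 912) (nat_lit 2960670323) (nat_lit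 355) (nat_lit 1) (nat_lit 354) (nat_lit 1) (nat_lit 366) (nat_lit 1) (nat_lit 267) (nat_lit 386) (nat_lit 367)) (XT.nd (nat_lit 78) (nat_lit 0) (nat_lit 0) (XT.lf (nat_lit 684) (nat_lit 4722862789) (nat_lit 0) (nat_lit 3604346885) (nat_lit 608) (nat_lit 3604346885) (nat_lit 355) (nat_lit 1) (nat_lit 346) (nat_lit 1) (nat_lit 354) (nat_lit 1) (nat_lit 268) (nat_lit 386) (nat_lit 366)) (XT.lf (nat_lit 76) (nat_lit 1756265517) (nat_lit 0) (nat_lit 8261356581) (nat_lit 684) (nat_lit 1756265517) (nat_lit 347) (nat_lit 1) (nat_lit 346) (nat_lit 1) (nat_lit 355) (nat_lit 1) (nat_lit 269) (nat_lit 386) (nat_lit 365)))))) (XT.nd (nat_lit 390) (nat_lit 2128) (nat_lit 0) (XT.nd (nat_lit 156) (nat_lit 1216) (nat_lit 0) (XT.nd (nat_lit 78) (nat_lit 0) (nat_lit 0) (XT.lf (nat_lit 684) (nat_lit 2256457971) (nat_lit 0) (nat_lit 4680996981) (nat_lit 608) (nat_lit 4680996981) (nat_lit 347) (nat_lit 1) (nat_lit 338) (nat_lit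 1) (nat_lit 346) (nat_lit 1) (nat_lit 270) (nat_lit 386) (nat_lit 364)) (XT.lf (nat_lit 76) (nat_lit 507314195) (nat_lit 0) (nat_lit 10452264398) (nat_lit 684) (nat_lit 507314195) (nat_lit 339) (nat_lit 1) (nat_lit 338) (nat_lit 1) (nat_lit 347) (nat_lit 1) (nat_lit 271) (nat_lit 386) (nat_lit 363))) (XT.nd (nat_lit 78) (nat_lit 608) (nat_lit 0) (XT.lf (nat_lit 76) (nat_lit 5514450724) (nat_lit 0) (nat_lit 287777244) (nat_lit 608) (nat_lit 5514450724) (nat_lit 331) (nat_lit 1) (nat_lit 330) (nat_lit 1) (nat_lit 338) (nat_lit 1) (nat_lit 272) (nat_lit 386) (nat_lit 362)) (XT.nd (nat_lit 78) (nat_lit 0) (nat_lit 0) (XT.lf (nat_lit 684) (nat_lit 9624856276) (nat_lit 0) (nat_lit 772665148) (nat_lit 608) (nat_lit 772665148) (nat_lit 331) (nat_lit 1) (nat_lit 322) (nat_lit 1) (nat_lit 330) (nat_lit 1) (nat_lit 273) (nat_lit 386) (nat_lit 361)) (XT.lf (nat_lit 76) (nat_lit 4083205008) (nat_lit 0) (nat_lit 2858775596)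 (nat_lit 684) (nat_lit 4083205008) (nat_lit 323) (nat_lit 1) (nat_lit 322) (nat_lit 1) (nat_lit 331) (nat_lit 1) (nat_lit 274) (nat_lit 386) (nat_lit 360))))) (XT.nd (nat_lit 234) (nat_lit 1064) (nat_lit 0) (XT.nd (nat_lit 78) (nat_lit 532) (nat_lit 0) (XT.lf (nat_lit 608) (nat_lit 6722415561) (nat_lit 0) (nat_lit 2080588046) (nat_lit 532) (nat_lit 2080588046) (nat_lit 323) (nat_lit 1) (nat_lit 315) (nat_lit 1) (nat_lit 322) (nat_lit 1) (nat_lit 275) (nat_lit 386) (nat_lit 359)) (XT.nd (nat_lit 78) (nat_lit 532) (nat_lit 0) (XT.lf (nat_lit 76) (nat_lit 2626960313) (nat_lit 0) (nat_lit 5490262565) (nat_lit 608) (nat_lit 2626960313) (nat_lit 316) (nat_lit 1) (nat_lit 315) (nat_lit 1) (nat_lit 323) (nat_lit 1) (nat_lit 276) (nat_lit 386) (nat_lit 358)) (XT.lf (nat_lit 608) (nat_lit 3774371287) (nat_lit 0) (nat_lit 3416448067) (nat_lit 532) (nat_lit 3416448067) (nat_lit 316) (nat_lit 1) (nat_lit 308) (nat_lit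 1) (nat_lit 315) (nat_lit 1) (nat_lit 277) (nat_lit 386) (nat_lit 357)))) (XT.nd (nat_lit 78) (nat_lit 1064) (nat_lit 0) (XT.lf (nat_lit 76) (nat_lit 1150272802) (nat_lit 0) (nat_lit 8172705437) (nat_lit 608) (nat_lit 1150272802) (nat_lit 309) (nat_lit 1) (nat_lit 308) (nat_lit 1) (nat_lit 316) (nat_lit 1) (nat_lit 278) (nat_lit 386) (nat_lit 356)) (XT.nd (nat_lit 78) (nat_lit 608) (nat_lit 0) (XT.lf (nat_lit 532) (nat_lit 789522320) (nat_lit 0) (nat_lit 4775641003) (nat_lit 456) (nat_lit 4775641003) (nat_lit 309) (nat_lit 1) (nat_lit 302) (nat_lit 1) (nat_lit 308) (nat_lit 1) (nat_lit 279) (nat_lit 386) (nat_lit 355)) (XT.lf (nat_lit 608) (nat_lit 9533001421) (nat_lit 0) (nat_lit 339294463) (nat_lit 532) (nat_lit 339294463) (nat_lit 302) (nat_lit 1) (nat_lit 294) (nat_lit 1) (nat_lit 301) (nat_lit 1) (nat_lit 280) (nat_lit 386) (nat_lit 354))))))) (XT.nd (nat_lit 858) (nat_lit 2584) (nat_lit 0) (XT.nd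 (nat_lit 390) (nat_lit 1672) (nat_lit 0) (XT.nd (nat_lit 156) (nat_lit 456) (nat_lit 0) (XT.nd (nat_lit 78) (nat_lit 456) (nat_lit 0) (XT.lf (nat_lit 76) (nat_lit 3951275361) (nat_lit 0) (nat_lit 2180619001) (nat_lit 608) (nat_lit 3951275361) (nat_lit 295) (nat_lit 1) (nat_lit 294) (nat_lit 1) (nat_lit 302) (nat_lit 1) (nat_lit 281) (nat_lit 386) (nat_lit 353)) (XT.lf (nat_lit 532) (nat_lit 6298210263) (nat_lit 0) (nat_lit 1829828283) (nat_lit 456) (nat_lit 1829828283) (nat_lit 295) (nat_lit 1) (nat_lit 288) (nat_lit 1) (nat_lit 294) (nat_lit 1) (nat_lit 282) (nat_lit 386) (nat_lit 352))) (XT.nd (nat_lit 78) (nat_lit 456) (nat_lit 0) (XT.lf (nat_lit 76) (nat_lit 2339119824) (nat_lit 0) (nat_lit 5156157617) (nat_lit 532) (nat_lit 2339119824) (nat_lit 289) (nat_lit 1) (nat_lit 288) (nat_lit 1) (nat_lit 295) (nat_lit 1) (nat_lit 283) (nat_lit 386) (nat_lit 351)) (XT.nd (nat_lit 78) (nat_lit 0) (nat_lit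 0) (XT.lf (nat_lit 532) (nat_lit 3054902078) (nat_lit 0) (nat_lit 3329074738) (nat_lit 456) (nat_lit 3329074738) (nat_lit 289) (nat_lit 1) (nat_lit 282) (nat_lit 1) (nat_lit 288) (nat_lit 1) (nat_lit 284) (nat_lit 386) (nat_lit 350)) (XT.lf (nat_lit 76) (nat_lit 724299815) (nat_lit 0) (nat_lit 8145759588) (nat_lit 532) (nat_lit 724299815) (nat_lit 283) (nat_lit 1) (nat_lit 282) (nat_lit 1) (nat_lit 289) (nat_lit 1) (nat_lit 285) (nat_lit 386) (nat_lit 349))))) (XT.nd (nat_lit 234) (nat_lit 760) (nat_lit 0) (XT.nd (nat_lit 78) (nat_lit 456) (nat_lit 0) (XT.lf (nat_lit 76) (nat_lit 4644843978) (nat_lit 0) (nat_lit 187054937) (nat_lit 456) (nat_lit 4644843978) (nat_lit 277) (nat_lit 1) (nat_lit 276) (nat_lit 1) (nat_lit 282) (nat_lit 1) (nat_lit 286) (nat_lit 386) (nat_lit 348)) (XT.nd (nat_lit 78) (nat_lit 0) (nat_lit 0) (XT.lf (nat_lit 532) (nat_lit 7598622392) (nat_lit 0) (nat_lit 881530615) (nat_lit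 456) (nat_lit 881530615) (nat_lit 277) (nat_lit 1) (nat_lit 270) (nat_lit 1) (nat_lit 276) (nat_lit 1) (nat_lit 287) (nat_lit 386) (nat_lit 347)) (XT.lf (nat_lit 76) (nat_lit 2940788639) (nat_lit 0) (nat_lit 3366207036) (nat_lit 532) (nat_lit 2940788639) (nat_lit 271) (nat_lit 1) (nat_lit 270) (nat_lit 1) (nat_lit 277) (nat_lit 1) (nat_lit 288) (nat_lit 386) (nat_lit 346)))) (XT.nd (nat_lit 78) (nat_lit 380) (nat_lit 0) (XT.lf (nat_lit 456) (nat_lit 4181541159) (nat_lit 0) (nat_lit 2477350039) (nat_lit 380) (nat_lit 2477350039) (nat_lit 271) (nat_lit 1) (nat_lit 265) (nat_lit 1) (nat_lit 270) (nat_lit 1) (nat_lit 289) (nat_lit 386) (nat_lit 345)) (XT.nd (nat_lit 78) (nat_lit 380) (nat_lit 0) (XT.lf (nat_lit 76) (nat_lit 1244809628) (nat_lit 0) (nat_lit 6537121866) (nat_lit 456) (nat_lit 1244809628) (nat_lit 266) (nat_lit 1) (nat_lit 265) (nat_lit 1) (nat_lit 271) (nat_lit 1) (nat_lit 290) (nat_lit 386)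 (nat_lit 344)) (XT.lf (nat_lit 456) (nat_lit 782887202) (nat_lit 0) (nat_lit 4067838223) (nat_lit 380) (nat_lit 4067838223) (nat_lit 266) (nat_lit 1) (nat_lit 260) (nat_lit 1) (nat_lit 265) (nat_lit 1) (nat_lit 291) (nat_lit 386) (nat_lit 343)))))) (XT.nd (nat_lit 468) (nat_lit 988) (nat_lit 0) (XT.nd (nat_lit 234) (nat_lit 760) (nat_lit 0) (XT.nd (nat_lit 78) (nat_lit 380) (nat_lit 0) (XT.lf (nat_lit 456) (nat_lit 7939560376) (nat_lit 0) (nat_lit 436619815) (nat_lit 380) (nat_lit 436619815) (nat_lit 260) (nat_lit 1) (nat_lit 254) (nat_lit 1) (nat_lit 259) (nat_lit 1) (nat_lit 292) (nat_lit 386) (nat_lit 342)) (XT.nd (nat_lit 78) (nat_lit 380) (nat_lit 0) (XT.lf (nat_lit 76) (nat_lit 3082495193) (nat_lit 0) (nat_lit 2542617681) (nat_lit 456) (nat_lit 3082495193) (nat_lit 255) (nat_lit 1) (nat_lit 254) (nat_lit 1) (nat_lit 260) (nat_lit 1) (nat_lit 293) (nat_lit 386) (nat_lit 341)) (XT.lf (nat_lit 456)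 (nat_lit 4417179279) (nat_lit 0) (nat_lit 2093787323) (nat_lit 380) (nat_lit 2093787323) (nat_lit 255) (nat_lit 1) (nat_lit 249) (nat_lit 1) (nat_lit 254) (nat_lit 1) (nat_lit 294) (nat_lit 386) (nat_lit 340)))) (XT.nd (nat_lit 78) (nat_lit 760) (nat_lit 0) (XT.lf (nat_lit 76) (nat_lit 1338270420) (nat_lit 0) (nat_lit 5827080875) (nat_lit 456) (nat_lit 1338270420) (nat_lit 250) (nat_lit 1) (nat_lit 249) (nat_lit 1) (nat_lit 255) (nat_lit 1) (nat_lit 295) (nat_lit 386) (nat_lit 339)) (XT.nd (nat_lit 78) (nat_lit 456) (nat_lit 0) (XT.lf (nat_lit 380) (nat_lit 929472367) (nat_lit 0) (nat_lit 3737149404) (nat_lit 304) (nat_lit 3737149404) (nat_lit 250) (nat_lit 1) (nat_lit 245) (nat_lit 1) (nat_lit 249) (nat_lit 1) (nat_lit 296) (nat_lit 386) (nat_lit 338)) (XT.lf (nat_lit 456) (nat_lit 7537804771) (nat_lit 0) (nat_lit 384153160) (nat_lit 380) (nat_lit 384153160) (nat_lit 245) (nat_lit 1) (nat_lit 239) (nat_lit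 1) (nat_lit 244) (nat_lit 1) (nat_lit 297) (nat_lit 386) (nat_lit 337))))) (XT.nd (nat_lit 234) (nat_lit 684) (nat_lit 0) (XT.nd (nat_lit 78) (nat_lit 304) (nat_lit 0) (XT.lf (nat_lit 76) (nat_lit 2868688724) (nat_lit 0) (nat_lit 2471484053) (nat_lit 456) (nat_lit 2868688724) (nat_lit 240) (nat_lit 1) (nat_lit 239) (nat_lit 1) (nat_lit 245) (nat_lit 1) (nat_lit 298) (nat_lit 386) (nat_lit 336)) (XT.nd (nat_lit 78) (nat_lit 0) (nat_lit 0) (XT.lf (nat_lit 380) (nat_lit 3965159522) (nat_lit 0) (nat_lit 2074289584) (nat_lit 304) (nat_lit 2074289584) (nat_lit 240) (nat_lit 1) (nat_lit 235) (nat_lit 1) (nat_lit 239) (nat_lit 1) (nat_lit 299) (nat_lit 386) (nat_lit 335)) (XT.lf (nat_lit 76) (nat_lit 1102650294) (nat_lit 0) (nat_lit 5814942392) (nat_lit 380) (nat_lit 1102650294) (nat_lit 236) (nat_lit 1) (nat_lit 235) (nat_lit 1) (nat_lit 240) (nat_lit 1) (nat_lit 300) (nat_lit 386) (nat_lit 334)))) (XT.nd (nat_lit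 78) (nat_lit 380) (nat_lit 0) (XT.lf (nat_lit 380) (nat_lit 439690442) (nat_lit 0) (nat_lit 3744059770) (nat_lit 304) (nat_lit 3744059770) (nat_lit 236) (nat_lit 1) (nat_lit 231) (nat_lit 1) (nat_lit 235) (nat_lit 1) (nat_lit 301) (nat_lit 386) (nat_lit 333)) (XT.nd (nat_lit 78) (nat_lit 0) (nat_lit 0) (XT.lf (nat_lit 380) (nat_lit 6570891289) (nat_lit 0) (nat_lit 633154907) (nat_lit 304) (nat_lit 633154907) (nat_lit 231) (nat_lit 1) (nat_lit 226) (nat_lit 1) (nat_lit 230) (nat_lit 1) (nat_lit 302) (nat_lit 386) (nat_lit 332)) (XT.lf (nat_lit 76) (nat_lit 2384879591) (nat_lit 0) (nat_lit 2977454128) (nat_lit 380) (nat_lit 2384879591) (nat_lit 227) (nat_lit 1) (nat_lit 226) (nat_lit 1) (nat_lit 231) (nat_lit 1) (nat_lit 303) (nat_lit 386) (nat_lit 331))))))))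
noncomputable def ec110 : XT := (XT.nd (nat_lit 1716) (nat_lit 2584) (nat_lit 0) (XT.nd (nat_lit 858) (nat_lit 1596) (nat_lit 0) (XT.nd (nat_lit 390) (nat_lit 1140) (nat_lit 0) (XT.nd (nat_lit 156) (nat_lit 608) (nat_lit 0) (XT.nd (nat_lit 78) (nat_lit 0) (nat_lit 0) (XT.lf (nat_lit 380) (nat_lit 2991896508) (nat_lit 0) (nat_lit 2333549899) (nat_lit 304) (nat_lit 2333549899) (nat_lit 227) (nat_lit 1) (nat_lit 222) (nat_lit 1) (nat_lit 226) (nat_lit 1) (nat_lit 304) (nat_lit 386) (nat_lit 330)) (XT.lf (nat_lit 76) (nat_lit 618096752) (nat_lit 0) (nat_lit 6336292427) (nat_lit 380) (nat_lit 618096752) (nat_lit 223) (nat_lit 1) (nat_lit 222) (nat_lit 1) (nat_lit 227) (nat_lit 1) (nat_lit 305) (nat_lit 386) (nat_lit 329))) (XT.nd (nat_lit 78) (nat_lit 304) (nat_lit 0) (XT.lf (nat_lit 76) (nat_lit 3483195877) (nat_lit 0) (nat_lit 520141203) (nat_lit 304) (nat_lit 3483195877) (nat_lit 219) (nat_lit 1) (nat_lit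 218) (nat_lit 1) (nat_lit 222) (nat_lit 1) (nat_lit 306) (nat_lit 386) (nat_lit 328)) (XT.nd (nat_lit 78) (nat_lit 0) (nat_lit 0) (XT.lf (nat_lit 380) (nat_lit 5183734350) (nat_lit 0) (nat_lit 1109252440) (nat_lit 304) (nat_lit 1109252440) (nat_lit 219) (nat_lit 1) (nat_lit 214) (nat_lit 1) (nat_lit 218) (nat_lit 1) (nat_lit 307) (nat_lit 386) (nat_lit 327)) (XT.lf (nat_lit 76) (nat_lit 1700837451) (nat_lit 0) (nat_lit 3917230879) (nat_lit 380) (nat_lit 1700837451) (nat_lit 215) (nat_lit 1) (nat_lit 214) (nat_lit 1) (nat_lit 219) (nat_lit 1) (nat_lit 308) (nat_lit 386) (nat_lit 326))))) (XT.nd (nat_lit 234) (nat_lit 532) (nat_lit 0) (XT.nd (nat_lit 78) (nat_lit 380) (nat_lit 0) (XT.lf (nat_lit 304) (nat_lit 1633115876) (nat_lit 0) (nat_lit 2801882538) (nat_lit 228) (nat_lit 2801882538) (nat_lit 215) (nat_lit 1) (nat_lit 211) (nat_lit 1) (nat_lit 214) (nat_lit 1) (nat_lit 309) (nat_lit 386) (nat_lit 325))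 (XT.nd (nat_lit 78) (nat_lit 0) (nat_lit 0) (XT.lf (nat_lit 380) (nat_lit 7057596415) (nat_lit 0) (nat_lit 49559900) (nat_lit 304) (nat_lit 49559900) (nat_lit 211) (nat_lit 1) (nat_lit 206) (nat_lit 1) (nat_lit 210) (nat_lit 1) (nat_lit 310) (nat_lit 386) (nat_lit 324)) (XT.lf (nat_lit 76) (nat_lit 2629294855) (nat_lit 0) (nat_lit 1817804168) (nat_lit 380) (nat_lit 2629294855) (nat_lit 207) (nat_lit 1) (nat_lit 206) (nat_lit 1) (nat_lit 211) (nat_lit 1) (nat_lit 311) (nat_lit 386) (nat_lit 323)))) (XT.nd (nat_lit 78) (nat_lit 304) (nat_lit 0) (XT.lf (nat_lit 304) (nat_lit 3494159650) (nat_lit 0) (nat_lit 1751866150) (nat_lit 228) (nat_lit 1751866150) (nat_lit 207) (nat_lit 1) (nat_lit 203) (nat_lit 1) (nat_lit 206) (nat_lit 1) (nat_lit 312) (nat_lit 386) (nat_lit 322)) (XT.nd (nat_lit 78) (nat_lit 304) (nat_lit 0) (XT.lf (nat_lit 76) (nat_lit 873262558) (nat_lit 0) (nat_lit 5174143730) (nat_lit 304)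 (nat_lit 873262558) (nat_lit 204) (nat_lit 1) (nat_lit 203) (nat_lit 1) (nat_lit 207) (nat_lit 1) (nat_lit 313) (nat_lit 386) (nat_lit 321)) (XT.lf (nat_lit 76) (nat_lit 3421650549) (nat_lit 0) (nat_lit 916108) (nat_lit 304) (nat_lit 3421650549) (nat_lit 200) (nat_lit 1) (nat_lit 199) (nat_lit 1) (nat_lit 203) (nat_lit 1) (nat_lit 314) (nat_lit 386) (nat_lit 320)))))) (XT.nd (nat_lit 390) (nat_lit 836) (nat_lit 0) (XT.nd (nat_lit 156) (nat_lit 532) (nat_lit 0) (XT.nd (nat_lit 78) (nat_lit 0) (nat_lit 0) (XT.lf (nat_lit 304) (nat_lit 5088163501) (nat_lit 0) (nat_lit 840422816) (nat_lit 228) (nat_lit 840422816) (nat_lit 200) (nat_lit 1) (nat_lit 196) (nat_lit 1) (nat_lit 199) (nat_lit 1) (nat_lit 315) (nat_lit 386) (nat_lit 319)) (XT.lf (nat_lit 76) (nat_lit 1666884279) (nat_lit 0) (nat_lit 3360755711) (nat_lit 304) (nat_lit 1666884279) (nat_lit 197) (nat_lit 1) (nat_lit 196) (nat_lit 1) (nat_lit 200)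 (nat_lit 1) (nat_lit 316) (nat_lit 386) (nat_lit 318))) (XT.nd (nat_lit 78) (nat_lit 304) (nat_lit 0) (XT.lf (nat_lit 304) (nat_lit 1597523914) (nat_lit 0) (nat_lit 2511862644) (nat_lit 228) (nat_lit 2511862644) (nat_lit 197) (nat_lit 1) (nat_lit 193) (nat_lit 1) (nat_lit 196) (nat_lit 1) (nat_lit 317) (nat_lit 386) (nat_lit 317)) (XT.nd (nat_lit 78) (nat_lit 0) (nat_lit 0) (XT.lf (nat_lit 304) (nat_lit 6446639124) (nat_lit 0) (nat_lit 51474138) (nat_lit 228) (nat_lit 51474138) (nat_lit 193) (nat_lit 1) (nat_lit 189) (nat_lit 1) (nat_lit 192) (nat_lit 1) (nat_lit 318) (nat_lit 386) (nat_lit 316)) (XT.lf (nat_lit 76) (nat_lit 2346055391) (nat_lit 0) (nat_lit 1785595710) (nat_lit 304) (nat_lit 2346055391) (nat_lit 190) (nat_lit 1) (nat_lit 189) (nat_lit 1) (nat_lit 193) (nat_lit 1) (nat_lit 319) (nat_lit 386) (nat_lit 315))))) (XT.nd (nat_lit 234) (nat_lit 380) (nat_lit 0) (XT.nd (nat_lit 78) (nat_lit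 228) (nat_lit 0) (XT.lf (nat_lit 304) (nat_lit 2971179368) (nat_lit 0) (nat_lit 1718114978) (nat_lit 228) (nat_lit 1718114978) (nat_lit 190) (nat_lit 1) (nat_lit 186) (nat_lit 1) (nat_lit 189) (nat_lit 1) (nat_lit 320) (nat_lit 386) (nat_lit 314)) (XT.nd (nat_lit 78) (nat_lit 228) (nat_lit 0) (XT.lf (nat_lit 76) (nat_lit 635477275) (nat_lit 0) (nat_lit 5067348270) (nat_lit 304) (nat_lit 635477275) (nat_lit 187) (nat_lit 1) (nat_lit 186) (nat_lit 1) (nat_lit 190) (nat_lit 1) (nat_lit 321) (nat_lit 386) (nat_lit 313)) (XT.lf (nat_lit 76) (nat_lit 2924294487) (nat_lit 0) (nat_lit 421049330) (nat_lit 228) (nat_lit 2924294487) (nat_lit 184) (nat_lit 1) (nat_lit 183) (nat_lit 1) (nat_lit 186) (nat_lit 1) (nat_lit 322) (nat_lit 386) (nat_lit 312)))) (XT.nd (nat_lit 78) (nat_lit 152) (nat_lit 0) (XT.lf (nat_lit 304) (nat_lit 4146456387) (nat_lit 0) (nat_lit 1027840917) (nat_lit 228) (nat_lit 1027840917) (nat_lit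 184) (nat_lit 1) (nat_lit 180) (nat_lit 1) (nat_lit 183) (nat_lit 1) (nat_lit 323) (nat_lit 386) (nat_lit 311)) (XT.nd (nat_lit 78) (nat_lit 152) (nat_lit 0) (XT.lf (nat_lit 76) (nat_lit 1226423226) (nat_lit 0) (nat_lit 3682561957) (nat_lit 304) (nat_lit 1226423226) (nat_lit 181) (nat_lit 1) (nat_lit 180) (nat_lit 1) (nat_lit 184) (nat_lit 1) (nat_lit 324) (nat_lit 386) (nat_lit 310)) (XT.lf (nat_lit 228) (nat_lit 772461414) (nat_lit 0) (nat_lit 2648554606) (nat_lit 152) (nat_lit 2648554606) (nat_lit 181) (nat_lit 1) (nat_lit 178) (nat_lit 1) (nat_lit 180) (nat_lit 1) (nat_lit 325) (nat_lit 386) (nat_lit 309))))))) (XT.nd (nat_lit 858) (nat_lit 1216) (nat_lit 0) (XT.nd (nat_lit 390) (nat_lit 684) (nat_lit 0) (XT.nd (nat_lit 156) (nat_lit 380) (nat_lit 0) (XT.nd (nat_lit 78) (nat_lit 0) (nat_lit 0) (XT.lf (nat_lit 304) (nat_lit 5146793184) (nat_lit 0) (nat_lit 429066072) (nat_lit 228) (nat_lit 429066072)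 (nat_lit 178) (nat_lit 1) (nat_lit 174) (nat_lit 1) (nat_lit 177) (nat_lit 1) (nat_lit 326) (nat_lit 386) (nat_lit 308)) (XT.lf (nat_lit 76) (nat_lit 1732195033) (nat_lit 0) (nat_lit 2476072342) (nat_lit 304) (nat_lit 1732195033) (nat_lit 175) (nat_lit 1) (nat_lit 174) (nat_lit 1) (nat_lit 178) (nat_lit 1) (nat_lit 327) (nat_lit 386) (nat_lit 307))) (XT.nd (nat_lit 78) (nat_lit 228) (nat_lit 0) (XT.lf (nat_lit 228) (nat_lit 1806713760) (nat_lit 0) (nat_lit 2035228121) (nat_lit 152) (nat_lit 2035228121) (nat_lit 175) (nat_lit 1) (nat_lit 172) (nat_lit 1) (nat_lit 174) (nat_lit 1) (nat_lit 328) (nat_lit 386) (nat_lit 306)) (XT.nd (nat_lit 78) (nat_lit 228) (nat_lit 0) (XT.lf (nat_lit 76) (nat_lit 89715517) (nat_lit 0) (nat_lit 5635769014) (nat_lit 228) (nat_lit 89715517) (nat_lit 173) (nat_lit 1) (nat_lit 172) (nat_lit 1) (nat_lit 175) (nat_lit 1) (nat_lit 329) (nat_lit 386) (nat_lit 305)) (XT.lf (nat_lit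 76) (nat_lit 2162852153) (nat_lit 0) (nat_lit 1427301643) (nat_lit 228) (nat_lit 2162852153) (nat_lit 170) (nat_lit 1) (nat_lit 169) (nat_lit 1) (nat_lit 172) (nat_lit 1) (nat_lit 330) (nat_lit 386) (nat_lit 304))))) (XT.nd (nat_lit 234) (nat_lit 304) (nat_lit 0) (XT.nd (nat_lit 78) (nat_lit 228) (nat_lit 0) (XT.lf (nat_lit 228) (nat_lit 2693000803) (nat_lit 0) (nat_lit 1499556988) (nat_lit 152) (nat_lit 1499556988) (nat_lit 170) (nat_lit 1) (nat_lit 167) (nat_lit 1) (nat_lit 169) (nat_lit 1) (nat_lit 331) (nat_lit 386) (nat_lit 303)) (XT.nd (nat_lit 78) (nat_lit 228) (nat_lit 0) (XT.lf (nat_lit 76) (nat_lit 540594198) (nat_lit 0) (nat_lit 4551032139) (nat_lit 228) (nat_lit 540594198) (nat_lit 168) (nat_lit 1) (nat_lit 167) (nat_lit 1) (nat_lit 170) (nat_lit 1) (nat_lit 332) (nat_lit 386) (nat_lit 302)) (XT.lf (nat_lit 76) (nat_lit 2527315932) (nat_lit 0) (nat_lit 517987020) (nat_lit 228) (nat_lit 2527315932)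 (nat_lit 165) (nat_lit 1) (nat_lit 164) (nat_lit 1) (nat_lit 167) (nat_lit 1) (nat_lit 333) (nat_lit 386) (nat_lit 301)))) (XT.nd (nat_lit 78) (nat_lit 152) (nat_lit 0) (XT.lf (nat_lit 228) (nat_lit 3448773060) (nat_lit 0) (nat_lit 1032611877) (nat_lit 152) (nat_lit 1032611877) (nat_lit 165) (nat_lit 1) (nat_lit 162) (nat_lit 1) (nat_lit 164) (nat_lit 1) (nat_lit 334) (nat_lit 386) (nat_lit 300)) (XT.nd (nat_lit 78) (nat_lit 152) (nat_lit 0) (XT.lf (nat_lit 76) (nat_lit 927770287) (nat_lit 0) (nat_lit 3600547057) (nat_lit 228) (nat_lit 927770287) (nat_lit 163) (nat_lit 1) (nat_lit 162) (nat_lit 1) (nat_lit 165) (nat_lit 1) (nat_lit 335) (nat_lit 386) (nat_lit 299)) (XT.lf (nat_lit 228) (nat_lit 273413437) (nat_lit 0) (nat_lit 2562711773) (nat_lit 152) (nat_lit 2562711773) (nat_lit 163) (nat_lit 1) (nat_lit 160) (nat_lit 1) (nat_lit 162) (nat_lit 1) (nat_lit 336) (nat_lit 386) (nat_lit 298)))))) (XT.nd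 (nat_lit 390) (nat_lit 608) (nat_lit 0) (XT.nd (nat_lit 156) (nat_lit 380) (nat_lit 0) (XT.nd (nat_lit 78) (nat_lit 0) (nat_lit 0) (XT.lf (nat_lit 228) (nat_lit 4089507405) (nat_lit 0) (nat_lit 626467050) (nat_lit 152) (nat_lit 626467050) (nat_lit 160) (nat_lit 1) (nat_lit 157) (nat_lit 1) (nat_lit 159) (nat_lit 1) (nat_lit 337) (nat_lit 386) (nat_lit 297)) (XT.lf (nat_lit 76) (nat_lit 1258738430) (nat_lit 0) (nat_lit 2768955879) (nat_lit 228) (nat_lit 1258738430) (nat_lit 158) (nat_lit 1) (nat_lit 157) (nat_lit 1) (nat_lit 160) (nat_lit 1) (nat_lit 338) (nat_lit 386) (nat_lit 296))) (XT.nd (nat_lit 78) (nat_lit 228) (nat_lit 0) (XT.lf (nat_lit 228) (nat_lit 964086989) (nat_lit 0) (nat_lit 2133588815) (nat_lit 152) (nat_lit 2133588815) (nat_lit 158) (nat_lit 1) (nat_lit 155) (nat_lit 1) (nat_lit 157) (nat_lit 1) (nat_lit 339) (nat_lit 386) (nat_lit 295)) (XT.nd (nat_lit 78) (nat_lit 0) (nat_lit 0) (XT.lf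 (nat_lit 228) (nat_lit 4628927964) (nat_lit 0) (nat_lit 274088222) (nat_lit 152) (nat_lit 274088222) (nat_lit 155) (nat_lit 1) (nat_lit 152) (nat_lit 1) (nat_lit 154) (nat_lit 1) (nat_lit 340) (nat_lit 386) (nat_lit 294)) (XT.lf (nat_lit 76) (nat_lit 1540146139) (nat_lit 0) (nat_lit 2042624593) (nat_lit 228) (nat_lit 1540146139) (nat_lit 153) (nat_lit 1) (nat_lit 152) (nat_lit 1) (nat_lit 155) (nat_lit 1) (nat_lit 341) (nat_lit 386) (nat_lit 293))))) (XT.nd (nat_lit 234) (nat_lit 304) (nat_lit 0) (XT.nd (nat_lit 78) (nat_lit 152) (nat_lit 0) (XT.lf (nat_lit 228) (nat_lit 1556736755) (nat_lit 0) (nat_lit 1756493792) (nat_lit 152) (nat_lit 1756493792) (nat_lit 153) (nat_lit 1) (nat_lit 150) (nat_lit 1) (nat_lit 152) (nat_lit 1) (nat_lit 342) (nat_lit 386) (nat_lit 292)) (XT.nd (nat_lit 78) (nat_lit 152) (nat_lit 0) (XT.lf (nat_lit 76) (nat_lit 31071700) (nat_lit 0) (nat_lit 4955488775) (nat_lit 228) (nat_lit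 31071700) (nat_lit 151) (nat_lit 1) (nat_lit 150) (nat_lit 1) (nat_lit 153) (nat_lit 1) (nat_lit 343) (nat_lit 386) (nat_lit 291)) (XT.lf (nat_lit 76) (nat_lit 1777888582) (nat_lit 0) (nat_lit 1409450503) (nat_lit 152) (nat_lit 1777888582) (nat_lit 149) (nat_lit 1) (nat_lit 148) (nat_lit 1) (nat_lit 150) (nat_lit 1) (nat_lit 344) (nat_lit 386) (nat_lit 290)))) (XT.nd (nat_lit 78) (nat_lit 152) (nat_lit 0) (XT.lf (nat_lit 228) (nat_lit 2062905446) (nat_lit 0) (nat_lit 1425503308) (nat_lit 152) (nat_lit 1425503308) (nat_lit 149) (nat_lit 1) (nat_lit 146) (nat_lit 1) (nat_lit 148) (nat_lit 1) (nat_lit 345) (nat_lit 386) (nat_lit 289)) (XT.nd (nat_lit 78) (nat_lit 152) (nat_lit 0) (XT.lf (nat_lit 76) (nat_lit 296545310) (nat_lit 0) (nat_lit 4270405569) (nat_lit 228) (nat_lit 296545310) (nat_lit 147) (nat_lit 1) (nat_lit 146) (nat_lit 1) (nat_lit 149) (nat_lit 1) (nat_lit 346) (nat_lit 386) (nat_lit 288))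 (XT.lf (nat_lit 76) (nat_lit 1977192809) (nat_lit 0) (nat_lit 858691146) (nat_lit 152) (nat_lit 1977192809) (nat_lit 145) (nat_lit 1) (nat_lit 144) (nat_lit 1) (nat_lit 146) (nat_lit 1) (nat_lit 347) (nat_lit 386) (nat_lit 287))))))))
noncomputable def ec111 : XT := (XT.nd (nat_lit 46878) (nat_lit 0) (nat_lit 10412) (XT.nd (nat_lit 858) (nat_lit 988) (nat_lit 0) (XT.nd (nat_lit 390) (nat_lit 608) (nat_lit 0) (XT.nd (nat_lit 156) (nat_lit 304) (nat_lit 0) (XT.nd (nat_lit 78) (nat_lit 0) (nat_lit 0) (XT.lf (nat_lit 228) (nat_lit 2492830791) (nat_lit 0) (nat_lit 1135358046) (nat_lit 152) (nat_lit 1135358046) (nat_lit 145) (nat_lit 1) (nat_lit 142) (nat_lit 1) (nat_lit 144) (nat_lit 1) (nat_lit 348) (nat_lit 386) (nat_lit 286)) (XT.lf (nat_lit 76) (nat_lit 524582014) (nat_lit 0) (nat_lit 3665576714) (nat_lit 228) (nat_lit 524582014) (nat_lit 143) (nat_lit 1) (nat_lit 142) (nat_lit 1) (nat_lit 145) (nat_lit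 1) (nat_lit 349) (nat_lit 386) (nat_lit 285))) (XT.nd (nat_lit 78) (nat_lit 152) (nat_lit 0) (XT.lf (nat_lit 76) (nat_lit 2142692562) (nat_lit 0) (nat_lit 380812301) (nat_lit 152) (nat_lit 2142692562) (nat_lit 141) (nat_lit 1) (nat_lit 140) (nat_lit 1) (nat_lit 142) (nat_lit 1) (nat_lit 350) (nat_lit 386) (nat_lit 284)) (XT.nd (nat_lit 78) (nat_lit 0) (nat_lit 0) (XT.lf (nat_lit 228) (nat_lit 2855591581) (nat_lit 0) (nat_lit 881388608) (nat_lit 152) (nat_lit 881388608) (nat_lit 141) (nat_lit 1) (nat_lit 138) (nat_lit 1) (nat_lit 140) (nat_lit 1) (nat_lit 351) (nat_lit 386) (nat_lit 283)) (XT.lf (nat_lit 76) (nat_lit 719584662) (nat_lit 0) (nat_lit 3131940420) (nat_lit 228) (nat_lit 719584662) (nat_lit 139) (nat_lit 1) (nat_lit 138) (nat_lit 1) (nat_lit 141) (nat_lit 1) (nat_lit 352) (nat_lit 386) (nat_lit 282))))) (XT.nd (nat_lit 234) (nat_lit 304) (nat_lit 0) (XT.nd (nat_lit 78) (nat_lit 228) (nat_lit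 0) (XT.lf (nat_lit 152) (nat_lit 33296787) (nat_lit 0) (nat_lit 2245518026) (nat_lit 76) (nat_lit 2245518026) (nat_lit 139) (nat_lit 1) (nat_lit 137) (nat_lit 1) (nat_lit 138) (nat_lit 1) (nat_lit 353) (nat_lit 386) (nat_lit 281)) (XT.nd (nat_lit 78) (nat_lit 0) (nat_lit 0) (XT.lf (nat_lit 228) (nat_lit 3159237406) (nat_lit 0) (nat_lit 659449634) (nat_lit 152) (nat_lit 659449634) (nat_lit 137) (nat_lit 1) (nat_lit 134) (nat_lit 1) (nat_lit 136) (nat_lit 1) (nat_lit 354) (nat_lit 386) (nat_lit 280)) (XT.lf (nat_lit 76) (nat_lit 885458484) (nat_lit 0) (nat_lit 2661448679) (nat_lit 228) (nat_lit 885458484) (nat_lit 135) (nat_lit 1) (nat_lit 134) (nat_lit 1) (nat_lit 137) (nat_lit 1) (nat_lit 355) (nat_lit 386) (nat_lit 279)))) (XT.nd (nat_lit 78) (nat_lit 228) (nat_lit 0) (XT.lf (nat_lit 152) (nat_lit 396940415) (nat_lit 0) (nat_lit 1995113682) (nat_lit 76) (nat_lit 1995113682) (nat_lit 135) (nat_lit 1)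 (nat_lit 133) (nat_lit 1) (nat_lit 134) (nat_lit 1) (nat_lit 356) (nat_lit 386) (nat_lit 278)) (XT.nd (nat_lit 78) (nat_lit 0) (nat_lit 0) (XT.lf (nat_lit 228) (nat_lit 3410903916) (nat_lit 0) (nat_lit 465861265) (nat_lit 152) (nat_lit 465861265) (nat_lit 133) (nat_lit 1) (nat_lit 130) (nat_lit 1) (nat_lit 132) (nat_lit 1) (nat_lit 357) (nat_lit 386) (nat_lit 277)) (XT.lf (nat_lit 76) (nat_lit 1025666775) (nat_lit 0) (nat_lit 2246954118) (nat_lit 228) (nat_lit 1025666775) (nat_lit 131) (nat_lit 1) (nat_lit 130) (nat_lit 1) (nat_lit 133) (nat_lit 1) (nat_lit 358) (nat_lit 386) (nat_lit 276)))))) (XT.nd (nat_lit 390) (nat_lit 380) (nat_lit 0) (XT.nd (nat_lit 156) (nat_lit 304) (nat_lit 0) (XT.nd (nat_lit 78) (nat_lit 228) (nat_lit 0) (XT.lf (nat_lit 152) (nat_lit 709333360) (nat_lit 0) (nat_lit 1772632666) (nat_lit 76) (nat_lit 1772632666) (nat_lit 131) (nat_lit 1) (nat_lit 129) (nat_lit 1) (nat_lit 130)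 (nat_lit 1) (nat_lit 359) (nat_lit 386) (nat_lit 275)) (XT.lf (nat_lit 228) (nat_lit 3616915214) (nat_lit 0) (nat_lit 297357144) (nat_lit 152) (nat_lit 297357144) (nat_lit 129) (nat_lit 1) (nat_lit 126) (nat_lit 1) (nat_lit 128) (nat_lit 1) (nat_lit 360) (nat_lit 386) (nat_lit 274))) (XT.nd (nat_lit 78) (nat_lit 304) (nat_lit 0) (XT.lf (nat_lit 76) (nat_lit 1143280364) (nat_lit 0) (nat_lit 1882109474) (nat_lit 228) (nat_lit 1143280364) (nat_lit 127) (nat_lit 1) (nat_lit 126) (nat_lit 1) (nat_lit 129) (nat_lit 1) (nat_lit 361) (nat_lit 386) (nat_lit 273)) (XT.nd (nat_lit 78) (nat_lit 228) (nat_lit 0) (XT.lf (nat_lit 152) (nat_lit 976502379) (nat_lit 0) (nat_lit 1574961164) (nat_lit 76) (nat_lit 1574961164) (nat_lit 127) (nat_lit 1) (nat_lit 125) (nat_lit 1) (nat_lit 126) (nat_lit 1) (nat_lit 362) (nat_lit 386) (nat_lit 272)) (XT.lf (nat_lit 228) (nat_lit 3782874808) (nat_lit 0) (nat_lit 151038207) (nat_lit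 152) (nat_lit 151038207) (nat_lit 125) (nat_lit 1) (nat_lit 122) (nat_lit 1) (nat_lit 124) (nat_lit 1) (nat_lit 363) (nat_lit 386) (nat_lit 271))))) (XT.nd (nat_lit 234) (nat_lit 76) (nat_lit 0) (XT.nd (nat_lit 78) (nat_lit 304) (nat_lit 0) (XT.lf (nat_lit 76) (nat_lit 1241021562) (nat_lit 0) (nat_lit 1561278282) (nat_lit 228) (nat_lit 1241021562) (nat_lit 123) (nat_lit 1) (nat_lit 122) (nat_lit 1) (nat_lit 125) (nat_lit 1) (nat_lit 364) (nat_lit 386) (nat_lit 270)) (XT.nd (nat_lit 78) (nat_lit 228) (nat_lit 0) (XT.lf (nat_lit 152) (nat_lit 1203793091) (nat_lit 0) (nat_lit 1399332595) (nat_lit 76) (nat_lit 1399332595) (nat_lit 123) (nat_lit 1) (nat_lit 121) (nat_lit 1) (nat_lit 122) (nat_lit 1) (nat_lit 365) (nat_lit 386) (nat_lit 269)) (XT.lf (nat_lit 228) (nat_lit 3913746424) (nat_lit 0) (nat_lit 24331643) (nat_lit 152) (nat_lit 24331643) (nat_lit 121) (nat_lit 1) (nat_lit 118) (nat_lit 1) (nat_lit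 120) (nat_lit 1) (nat_lit 366) (nat_lit 386) (nat_lit 268)))) (XT.nd (nat_lit 78) (nat_lit 76) (nat_lit 0) (XT.lf (nat_lit 76) (nat_lit 1321303201) (nat_lit 0) (nat_lit 1279455523) (nat_lit 228) (nat_lit 1321303201) (nat_lit 119) (nat_lit 1) (nat_lit 118) (nat_lit 1) (nat_lit 121) (nat_lit 1) (nat_lit 367) (nat_lit 386) (nat_lit 267)) (XT.nd (nat_lit 45240) (nat_lit 0) (nat_lit 17404) (XT.lf (nat_lit 152) (nat_lit 1395946196) (nat_lit 0) (nat_lit 1243288886) (nat_lit 76) (nat_lit 1243288886) (nat_lit 119) (nat_lit 1) (nat_lit 117) (nat_lit 1) (nat_lit 118) (nat_lit 1) (nat_lit 368) (nat_lit 386) (nat_lit 266)) (XT.lf (nat_lit 76) (nat_lit 1808953483) (nat_lit 0) (nat_lit 8509197278) (nat_lit 684) (nat_lit 1808953483) (nat_lit 347) (nat_lit 1) (nat_lit 346) (nat_lit 1) (nat_lit 355) (nat_lit 1) (nat_lit 267) (nat_lit 387) (nat_lit 366))))))) (XT.nd (nat_lit 858) (nat_lit 3040) (nat_lit 0) (XT.nd (nat_lit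 390) (nat_lit 2128) (nat_lit 0) (XT.nd (nat_lit 156) (nat_lit 1216) (nat_lit 0) (XT.nd (nat_lit 78) (nat_lit 0) (nat_lit 0) (XT.lf (nat_lit 684) (nat_lit 2324151710) (nat_lit 0) (nat_lit 4821426890) (nat_lit 608) (nat_lit 4821426890) (nat_lit 347) (nat_lit 1) (nat_lit 338) (nat_lit 1) (nat_lit 346) (nat_lit 1) (nat_lit 268) (nat_lit 387) (nat_lit 365)) (XT.lf (nat_lit 76) (nat_lit 522533621) (nat_lit 0) (nat_lit 10765832330) (nat_lit 684) (nat_lit 522533621) (nat_lit 339) (nat_lit 1) (nat_lit 338) (nat_lit 1) (nat_lit 347) (nat_lit 1) (nat_lit 269) (nat_lit 387) (nat_lit 364))) (XT.nd (nat_lit 78) (nat_lit 608) (nat_lit 0) (XT.lf (nat_lit 76) (nat_lit 5679884246) (nat_lit 0) (nat_lit 296410561) (nat_lit 608) (nat_lit 5679884246) (nat_lit 331) (nat_lit 1) (nat_lit 330) (nat_lit 1) (nat_lit 338) (nat_lit 1) (nat_lit 270) (nat_lit 387) (nat_lit 363)) (XT.nd (nat_lit 78) (nat_lit 0) (nat_lit 0) (XT.lf (nat_lit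 684) (nat_lit 9913601964) (nat_lit 0) (nat_lit 795845102) (nat_lit 608) (nat_lit 795845102) (nat_lit 331) (nat_lit 1) (nat_lit 322) (nat_lit 1) (nat_lit 330) (nat_lit 1) (nat_lit 271) (nat_lit 387) (nat_lit 362)) (XT.lf (nat_lit 76) (nat_lit 4205701158) (nat_lit 0) (nat_lit 2944538864) (nat_lit 684) (nat_lit 4205701158) (nat_lit 323) (nat_lit 1) (nat_lit 322) (nat_lit 1) (nat_lit 331) (nat_lit 1) (nat_lit 272) (nat_lit 387) (nat_lit 361))))) (XT.nd (nat_lit 234) (nat_lit 1064) (nat_lit 0) (XT.nd (nat_lit 78) (nat_lit 532) (nat_lit 0) (XT.lf (nat_lit 608) (nat_lit 6924088028) (nat_lit 0) (nat_lit 2143005687) (nat_lit 532) (nat_lit 2143005687) (nat_lit 323) (nat_lit 1) (nat_lit 315) (nat_lit 1) (nat_lit 322) (nat_lit 1) (nat_lit 273) (nat_lit 387) (nat_lit 360)) (XT.nd (nat_lit 78) (nat_lit 532) (nat_lit 0) (XT.lf (nat_lit 76) (nat_lit 2705769123) (nat_lit 0) (nat_lit 5654970442) (nat_lit 608) (nat_lit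 2705769123) (nat_lit 316) (nat_lit 1) (nat_lit 315) (nat_lit 1) (nat_lit 323) (nat_lit 1) (nat_lit 274) (nat_lit 387) (nat_lit 359)) (XT.lf (nat_lit 608) (nat_lit 3887602426) (nat_lit 0) (nat_lit 3518941509) (nat_lit 532) (nat_lit 3518941509) (nat_lit 316) (nat_lit 1) (nat_lit 308) (nat_lit 1) (nat_lit 315) (nat_lit 1) (nat_lit 275) (nat_lit 387) (nat_lit 358)))) (XT.nd (nat_lit 78) (nat_lit 1064) (nat_lit 0) (XT.lf (nat_lit 76) (nat_lit 1184780986) (nat_lit 0) (nat_lit 8417886600) (nat_lit 608) (nat_lit 1184780986) (nat_lit 309) (nat_lit 1) (nat_lit 308) (nat_lit 1) (nat_lit 316) (nat_lit 1) (nat_lit 276) (nat_lit 387) (nat_lit 357)) (XT.nd (nat_lit 78) (nat_lit 608) (nat_lit 0) (XT.lf (nat_lit 532) (nat_lit 813207989) (nat_lit 0) (nat_lit 4918910233) (nat_lit 456) (nat_lit 4918910233) (nat_lit 309) (nat_lit 1) (nat_lit 302) (nat_lit 1) (nat_lit 308) (nat_lit 1) (nat_lit 277) (nat_lit 387) (nat_lit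 356)) (XT.lf (nat_lit 608) (nat_lit 9818991464) (nat_lit 0) (nat_lit 349473297) (nat_lit 532) (nat_lit 349473297) (nat_lit 302) (nat_lit 1) (nat_lit 294) (nat_lit 1) (nat_lit 301) (nat_lit 1) (nat_lit 278) (nat_lit 387) (nat_lit 355)))))) (XT.nd (nat_lit 468) (nat_lit 1672) (nat_lit 0) (XT.nd (nat_lit 234) (nat_lit 912) (nat_lit 0) (XT.nd (nat_lit 78) (nat_lit 456) (nat_lit 0) (XT.lf (nat_lit 76) (nat_lit 4069813622) (nat_lit 0) (nat_lit 2246037571) (nat_lit 608) (nat_lit 4069813622) (nat_lit 295) (nat_lit 1) (nat_lit 294) (nat_lit 1) (nat_lit 302) (nat_lit 1) (nat_lit 279) (nat_lit 387) (nat_lit 354)) (XT.nd (nat_lit 78) (nat_lit 0) (nat_lit 0) (XT.lf (nat_lit 532) (nat_lit 6487156571) (nat_lit 0) (nat_lit 1884723131) (nat_lit 456) (nat_lit 1884723131) (nat_lit 295) (nat_lit 1) (nat_lit 288) (nat_lit 1) (nat_lit 294) (nat_lit 1) (nat_lit 280) (nat_lit 387) (nat_lit 353)) (XT.lf (nat_lit 76) (nat_lit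 2409293419) (nat_lit 0) (nat_lit 5310842345) (nat_lit 532) (nat_lit 2409293419) (nat_lit 289) (nat_lit 1) (nat_lit 288) (nat_lit 1) (nat_lit 295) (nat_lit 1) (nat_lit 281) (nat_lit 387) (nat_lit 352)))) (XT.nd (nat_lit 78) (nat_lit 456) (nat_lit 0) (XT.lf (nat_lit 532) (nat_lit 3146549141) (nat_lit 0) (nat_lit 3428946980) (nat_lit 456) (nat_lit 3428946980) (nat_lit 289) (nat_lit 1) (nat_lit 282) (nat_lit 1) (nat_lit 288) (nat_lit 1) (nat_lit 282) (nat_lit 387) (nat_lit 351)) (XT.nd (nat_lit 78) (nat_lit 456) (nat_lit 0) (XT.lf (nat_lit 76) (nat_lit 746028809) (nat_lit 0) (nat_lit 8390132376) (nat_lit 532) (nat_lit 746028809) (nat_lit 283) (nat_lit 1) (nat_lit 282) (nat_lit 1) (nat_lit 289) (nat_lit 1) (nat_lit 283) (nat_lit 387) (nat_lit 350)) (XT.lf (nat_lit 76) (nat_lit 4784189298) (nat_lit 0) (nat_lit 192666585) (nat_lit 456) (nat_lit 4784189298) (nat_lit 277) (nat_lit 1) (nat_lit 276) (nat_lit 1)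 (nat_lit 282) (nat_lit 1) (nat_lit 284) (nat_lit 387) (nat_lit 349))))) (XT.nd (nat_lit 234) (nat_lit 836) (nat_lit 0) (XT.nd (nat_lit 78) (nat_lit 380) (nat_lit 0) (XT.lf (nat_lit 532) (nat_lit 7826581064) (nat_lit 0) (nat_lit 907976534) (nat_lit 456) (nat_lit 907976534) (nat_lit 277) (nat_lit 1) (nat_lit 270) (nat_lit 1) (nat_lit 276) (nat_lit 1) (nat_lit 285) (nat_lit 387) (nat_lit 348)) (XT.nd (nat_lit 78) (nat_lit 380) (nat_lit 0) (XT.lf (nat_lit 76) (nat_lit 3029012299) (nat_lit 0) (nat_lit 3467193247) (nat_lit 532) (nat_lit 3029012299) (nat_lit 271) (nat_lit 1) (nat_lit 270) (nat_lit 1) (nat_lit 277) (nat_lit 1) (nat_lit 286) (nat_lit 387) (nat_lit 347)) (XT.lf (nat_lit 456) (nat_lit 4306987394) (nat_lit 0) (nat_lit 2551670540) (nat_lit 380) (nat_lit 2551670540) (nat_lit 271) (nat_lit 1) (nat_lit 265) (nat_lit 1) (nat_lit 270) (nat_lit 1) (nat_lit 287) (nat_lit 387) (nat_lit 346)))) (XT.nd (nat_lit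 78) (nat_lit 836) (nat_lit 0) (XT.lf (nat_lit 76) (nat_lit 1282153917) (nat_lit 0) (nat_lit 6733235522) (nat_lit 456) (nat_lit 1282153917) (nat_lit 266) (nat_lit 1) (nat_lit 265) (nat_lit 1) (nat_lit 271) (nat_lit 1) (nat_lit 288) (nat_lit 387) (nat_lit 345)) (XT.nd (nat_lit 78) (nat_lit 456) (nat_lit 0) (XT.lf (nat_lit 456) (nat_lit 806373819) (nat_lit 0) (nat_lit 4189873370) (nat_lit 380) (nat_lit 4189873370) (nat_lit 266) (nat_lit 1) (nat_lit 260) (nat_lit 1) (nat_lit 265) (nat_lit 1) (nat_lit 289) (nat_lit 387) (nat_lit 344)) (XT.lf (nat_lit 456) (nat_lit 8177747188) (nat_lit 0) (nat_lit 449718409) (nat_lit 380) (nat_lit 449718409) (nat_lit 260) (nat_lit 1) (nat_lit 254) (nat_lit 1) (nat_lit 259) (nat_lit 1) (nat_lit 290) (nat_lit 387) (nat_lit 343))))))))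
noncomputable def ec112 : XT := (XT.nd (nat_lit 1716) (nat_lit 2964) (nat_lit 0) (XT.nd (nat_lit 858) (nat_lit 2052) (nat_lit 0) (XT.nd (nat_lit 390) (nat_lit 988) (nat_lit 0) (XT.nd (nat_lit 156) (nat_lit 760) (nat_lit 0) (XT.nd (nat_lit 78) (nat_lit 380) (nat_lit 0) (XT.lf (nat_lit 76) (nat_lit 3174970049) (nat_lit 0) (nat_lit 2618896211) (nat_lit 456) (nat_lit 3174970049) (nat_lit 255) (nat_lit 1) (nat_lit 254) (nat_lit 1) (nat_lit 260) (nat_lit 1) (nat_lit 291) (nat_lit 387) (nat_lit 342)) (XT.lf (nat_lit 456) (nat_lit 4549694657) (nat_lit 0) (nat_lit 2156600943) (nat_lit 380) (nat_lit 2156600943) (nat_lit 255) (nat_lit 1) (nat_lit 249) (nat_lit 1) (nat_lit 254) (nat_lit 1) (nat_lit 292) (nat_lit 387) (nat_lit 341))) (XT.nd (nat_lit 78) (nat_lit 760) (nat_lit 0) (XT.lf (nat_lit 76) (nat_lit 1378418533) (nat_lit 0) (nat_lit 6001893301) (nat_lit 456) (nat_lit 1378418533) (nat_lit 250) (nat_lit 1) (nat_lit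 249) (nat_lit 1) (nat_lit 255) (nat_lit 1) (nat_lit 293) (nat_lit 387) (nat_lit 340)) (XT.nd (nat_lit 78) (nat_lit 456) (nat_lit 0) (XT.lf (nat_lit 380) (nat_lit 957356538) (nat_lit 0) (nat_lit 3849263886) (nat_lit 304) (nat_lit 3849263886) (nat_lit 250) (nat_lit 1) (nat_lit 245) (nat_lit 1) (nat_lit 249) (nat_lit 1) (nat_lit 294) (nat_lit 387) (nat_lit 339)) (XT.lf (nat_lit 456) (nat_lit 7763938914) (nat_lit 0) (nat_lit 395677755) (nat_lit 380) (nat_lit 395677755) (nat_lit 245) (nat_lit 1) (nat_lit 239) (nat_lit 1) (nat_lit 244) (nat_lit 1) (nat_lit 295) (nat_lit 387) (nat_lit 338))))) (XT.nd (nat_lit 234) (nat_lit 684) (nat_lit 0) (XT.nd (nat_lit 78) (nat_lit 304) (nat_lit 0) (XT.lf (nat_lit 76) (nat_lit 2954749386) (nat_lit 0) (nat_lit 2545628575) (nat_lit 456) (nat_lit 2954749386) (nat_lit 240) (nat_lit 1) (nat_lit 239) (nat_lit 1) (nat_lit 245) (nat_lit 1) (nat_lit 296) (nat_lit 387) (nat_lit 337))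 (XT.nd (nat_lit 78) (nat_lit 0) (nat_lit 0) (XT.lf (nat_lit 380) (nat_lit 4084114308) (nat_lit 0) (nat_lit 2136518272) (nat_lit 304) (nat_lit 2136518272) (nat_lit 240) (nat_lit 1) (nat_lit 235) (nat_lit 1) (nat_lit 239) (nat_lit 1) (nat_lit 297) (nat_lit 387) (nat_lit 336)) (XT.lf (nat_lit 76) (nat_lit 1135729803) (nat_lit 0) (nat_lit 5989390664) (nat_lit 380) (nat_lit 1135729803) (nat_lit 236) (nat_lit 1) (nat_lit 235) (nat_lit 1) (nat_lit 240) (nat_lit 1) (nat_lit 298) (nat_lit 387) (nat_lit 335)))) (XT.nd (nat_lit 78) (nat_lit 380) (nat_lit 0) (XT.lf (nat_lit 380) (nat_lit 452881156) (nat_lit 0) (nat_lit 3856381563) (nat_lit 304) (nat_lit 3856381563) (nat_lit 236) (nat_lit 1) (nat_lit 231) (nat_lit 1) (nat_lit 235) (nat_lit 1) (nat_lit 299) (nat_lit 387) (nat_lit 334)) (XT.nd (nat_lit 78) (nat_lit 0) (nat_lit 0) (XT.lf (nat_lit 380) (nat_lit 6768018028) (nat_lit 0) (nat_lit 652149554) (nat_lit 304)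 (nat_lit 652149554) (nat_lit 231) (nat_lit 1) (nat_lit 226) (nat_lit 1) (nat_lit 230) (nat_lit 1) (nat_lit 300) (nat_lit 387) (nat_lit 333)) (XT.lf (nat_lit 76) (nat_lit 2456425979) (nat_lit 0) (nat_lit 3066777752) (nat_lit 380) (nat_lit 2456425979) (nat_lit 227) (nat_lit 1) (nat_lit 226) (nat_lit 1) (nat_lit 231) (nat_lit 1) (nat_lit 301) (nat_lit 387) (nat_lit 332)))))) (XT.nd (nat_lit 390) (nat_lit 1140) (nat_lit 0) (XT.nd (nat_lit 156) (nat_lit 608) (nat_lit 0) (XT.nd (nat_lit 78) (nat_lit 0) (nat_lit 0) (XT.lf (nat_lit 380) (nat_lit 3081653403) (nat_lit 0) (nat_lit 2403556396) (nat_lit 304) (nat_lit 2403556396) (nat_lit 227) (nat_lit 1) (nat_lit 222) (nat_lit 1) (nat_lit 226) (nat_lit 1) (nat_lit 302) (nat_lit 387) (nat_lit 331)) (XT.lf (nat_lit 76) (nat_lit 636639654) (nat_lit 0) (nat_lit 6526381200) (nat_lit 380) (nat_lit 636639654) (nat_lit 223) (nat_lit 1) (nat_lit 222) (nat_lit 1) (nat_lit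 227) (nat_lit 1) (nat_lit 303) (nat_lit 387) (nat_lit 330))) (XT.nd (nat_lit 78) (nat_lit 304) (nat_lit 0) (XT.lf (nat_lit 76) (nat_lit 3587691753) (nat_lit 0) (nat_lit 535745439) (nat_lit 304) (nat_lit 3587691753) (nat_lit 219) (nat_lit 1) (nat_lit 218) (nat_lit 1) (nat_lit 222) (nat_lit 1) (nat_lit 304) (nat_lit 387) (nat_lit 329)) (XT.nd (nat_lit 78) (nat_lit 0) (nat_lit 0) (XT.lf (nat_lit 380) (nat_lit 5339246380) (nat_lit 0) (nat_lit 1142530013) (nat_lit 304) (nat_lit 1142530013) (nat_lit 219) (nat_lit 1) (nat_lit 214) (nat_lit 1) (nat_lit 218) (nat_lit 1) (nat_lit 305) (nat_lit 387) (nat_lit 328)) (XT.lf (nat_lit 76) (nat_lit 1751862575) (nat_lit 0) (nat_lit 4034747806) (nat_lit 380) (nat_lit 1751862575) (nat_lit 215) (nat_lit 1) (nat_lit 214) (nat_lit 1) (nat_lit 219) (nat_lit 1) (nat_lit 306) (nat_lit 387) (nat_lit 327))))) (XT.nd (nat_lit 234) (nat_lit 532) (nat_lit 0) (XT.nd (nat_lit 78) (nat_lit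 380) (nat_lit 0) (XT.lf (nat_lit 304) (nat_lit 1682109353) (nat_lit 0) (nat_lit 2885939014) (nat_lit 228) (nat_lit 2885939014) (nat_lit 215) (nat_lit 1) (nat_lit 211) (nat_lit 1) (nat_lit 214) (nat_lit 1) (nat_lit 307) (nat_lit 387) (nat_lit 326)) (XT.nd (nat_lit 78) (nat_lit 0) (nat_lit 0) (XT.lf (nat_lit 380) (nat_lit 7269324308) (nat_lit 0) (nat_lit 51046697) (nat_lit 304) (nat_lit 51046697) (nat_lit 211) (nat_lit 1) (nat_lit 206) (nat_lit 1) (nat_lit 210) (nat_lit 1) (nat_lit 308) (nat_lit 387) (nat_lit 325)) (XT.lf (nat_lit 76) (nat_lit 2708173701) (nat_lit 0) (nat_lit 1872338293) (nat_lit 380) (nat_lit 2708173701) (nat_lit 207) (nat_lit 1) (nat_lit 206) (nat_lit 1) (nat_lit 211) (nat_lit 1) (nat_lit 309) (nat_lit 387) (nat_lit 324)))) (XT.nd (nat_lit 78) (nat_lit 304) (nat_lit 0) (XT.lf (nat_lit 304) (nat_lit 3598984439) (nat_lit 0) (nat_lit 1804422135) (nat_lit 228) (nat_lit 1804422135) (nat_lit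 207) (nat_lit 1) (nat_lit 203) (nat_lit 1) (nat_lit 206) (nat_lit 1) (nat_lit 310) (nat_lit 387) (nat_lit 323)) (XT.nd (nat_lit 78) (nat_lit 304) (nat_lit 0) (XT.lf (nat_lit 76) (nat_lit 899460434) (nat_lit 0) (nat_lit 5329368042) (nat_lit 304) (nat_lit 899460434) (nat_lit 204) (nat_lit 1) (nat_lit 203) (nat_lit 1) (nat_lit 207) (nat_lit 1) (nat_lit 311) (nat_lit 387) (nat_lit 322)) (XT.lf (nat_lit 76) (nat_lit 3524300065) (nat_lit 0) (nat_lit 943591) (nat_lit 304) (nat_lit 3524300065) (nat_lit 200) (nat_lit 1) (nat_lit 199) (nat_lit 1) (nat_lit 203) (nat_lit 1) (nat_lit 312) (nat_lit 387) (nat_lit 321))))))) (XT.nd (nat_lit 858) (nat_lit 1368) (nat_lit 0) (XT.nd (nat_lit 390) (nat_lit 836) (nat_lit 0) (XT.nd (nat_lit 156) (nat_lit 532) (nat_lit 0) (XT.nd (nat_lit 78) (nat_lit 0) (nat_lit 0) (XT.lf (nat_lit 304) (nat_lit 5240808406) (nat_lit 0) (nat_lit 865635500) (nat_lit 228) (nat_lit 865635500) (nat_lit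 200) (nat_lit 1) (nat_lit 196) (nat_lit 1) (nat_lit 199) (nat_lit 1) (nat_lit 313) (nat_lit 387) (nat_lit 320)) (XT.lf (nat_lit 76) (nat_lit 1716890808) (nat_lit 0) (nat_lit 3461578383) (nat_lit 304) (nat_lit 1716890808) (nat_lit 197) (nat_lit 1) (nat_lit 196) (nat_lit 1) (nat_lit 200) (nat_lit 1) (nat_lit 314) (nat_lit 387) (nat_lit 319))) (XT.nd (nat_lit 78) (nat_lit 304) (nat_lit 0) (XT.lf (nat_lit 304) (nat_lit 1645449631) (nat_lit 0) (nat_lit 2587218523) (nat_lit 228) (nat_lit 2587218523) (nat_lit 197) (nat_lit 1) (nat_lit 193) (nat_lit 1) (nat_lit 196) (nat_lit 1) (nat_lit 315) (nat_lit 387) (nat_lit 318)) (XT.nd (nat_lit 78) (nat_lit 0) (nat_lit 0) (XT.lf (nat_lit 304) (nat_lit 6640038298) (nat_lit 0) (nat_lit 53018362) (nat_lit 228) (nat_lit 53018362) (nat_lit 193) (nat_lit 1) (nat_lit 189) (nat_lit 1) (nat_lit 192) (nat_lit 1) (nat_lit 316) (nat_lit 387) (nat_lit 317)) (XT.lf (nat_lit 76) (nat_lit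 2416437053) (nat_lit 0) (nat_lit 1839163581) (nat_lit 304) (nat_lit 2416437053) (nat_lit 190) (nat_lit 1) (nat_lit 189) (nat_lit 1) (nat_lit 193) (nat_lit 1) (nat_lit 317) (nat_lit 387) (nat_lit 316))))) (XT.nd (nat_lit 234) (nat_lit 380) (nat_lit 0) (XT.nd (nat_lit 78) (nat_lit 228) (nat_lit 0) (XT.lf (nat_lit 304) (nat_lit 3060314749) (nat_lit 0) (nat_lit 1769658427) (nat_lit 228) (nat_lit 1769658427) (nat_lit 190) (nat_lit 1) (nat_lit 186) (nat_lit 1) (nat_lit 189) (nat_lit 1) (nat_lit 318) (nat_lit 387) (nat_lit 315)) (XT.nd (nat_lit 78) (nat_lit 228) (nat_lit 0) (XT.lf (nat_lit 76) (nat_lit 654541594) (nat_lit 0) (nat_lit 5219368718) (nat_lit 304) (nat_lit 654541594) (nat_lit 187) (nat_lit 1) (nat_lit 186) (nat_lit 1) (nat_lit 190) (nat_lit 1) (nat_lit 319) (nat_lit 387) (nat_lit 314)) (XT.lf (nat_lit 76) (nat_lit 3012023322) (nat_lit 0) (nat_lit 433680810) (nat_lit 228) (nat_lit 3012023322) (nat_lit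 184) (nat_lit 1) (nat_lit 183) (nat_lit 1) (nat_lit 186) (nat_lit 1) (nat_lit 320) (nat_lit 387) (nat_lit 313)))) (XT.nd (nat_lit 78) (nat_lit 152) (nat_lit 0) (XT.lf (nat_lit 304) (nat_lit 4270850078) (nat_lit 0) (nat_lit 1058676144) (nat_lit 228) (nat_lit 1058676144) (nat_lit 184) (nat_lit 1) (nat_lit 180) (nat_lit 1) (nat_lit 183) (nat_lit 1) (nat_lit 321) (nat_lit 387) (nat_lit 312)) (XT.nd (nat_lit 78) (nat_lit 152) (nat_lit 0) (XT.lf (nat_lit 76) (nat_lit 1263215923) (nat_lit 0) (nat_lit 3793038816) (nat_lit 304) (nat_lit 1263215923) (nat_lit 181) (nat_lit 1) (nat_lit 180) (nat_lit 1) (nat_lit 184) (nat_lit 1) (nat_lit 322) (nat_lit 387) (nat_lit 311)) (XT.lf (nat_lit 228) (nat_lit 795635256) (nat_lit 0) (nat_lit 2728011244) (nat_lit 152) (nat_lit 2728011244) (nat_lit 181) (nat_lit 1) (nat_lit 178) (nat_lit 1) (nat_lit 180) (nat_lit 1) (nat_lit 323) (nat_lit 387) (nat_lit 310)))))) (XT.nd (nat_lit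 390) (nat_lit 684) (nat_lit 0) (XT.nd (nat_lit 156) (nat_lit 380) (nat_lit 0) (XT.nd (nat_lit 78) (nat_lit 0) (nat_lit 0) (XT.lf (nat_lit 304) (nat_lit 5301196980) (nat_lit 0) (nat_lit 441938054) (nat_lit 228) (nat_lit 441938054) (nat_lit 178) (nat_lit 1) (nat_lit 174) (nat_lit 1) (nat_lit 177) (nat_lit 1) (nat_lit 324) (nat_lit 387) (nat_lit 309)) (XT.lf (nat_lit 76) (nat_lit 1784160883) (nat_lit 0) (nat_lit 2550354513) (nat_lit 304) (nat_lit 1784160883) (nat_lit 175) (nat_lit 1) (nat_lit 174) (nat_lit 1) (nat_lit 178) (nat_lit 1) (nat_lit 325) (nat_lit 387) (nat_lit 308))) (XT.nd (nat_lit 78) (nat_lit 228) (nat_lit 0) (XT.lf (nat_lit 228) (nat_lit 1860915173) (nat_lit 0) (nat_lit 2096284964) (nat_lit 152) (nat_lit 2096284964) (nat_lit 175) (nat_lit 1) (nat_lit 172) (nat_lit 1) (nat_lit 174) (nat_lit 1) (nat_lit 326) (nat_lit 387) (nat_lit 307)) (XT.nd (nat_lit 78) (nat_lit 228) (nat_lit 0) (XT.lf (nat_lit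 76) (nat_lit 92406982) (nat_lit 0) (nat_lit 5804842084) (nat_lit 228) (nat_lit 92406982) (nat_lit 173) (nat_lit 1) (nat_lit 172) (nat_lit 1) (nat_lit 175) (nat_lit 1) (nat_lit 327) (nat_lit 387) (nat_lit 306)) (XT.lf (nat_lit 76) (nat_lit 2227737717) (nat_lit 0) (nat_lit 1470120692) (nat_lit 228) (nat_lit 2227737717) (nat_lit 170) (nat_lit 1) (nat_lit 169) (nat_lit 1) (nat_lit 172) (nat_lit 1) (nat_lit 328) (nat_lit 387) (nat_lit 305))))) (XT.nd (nat_lit 234) (nat_lit 304) (nat_lit 0) (XT.nd (nat_lit 78) (nat_lit 228) (nat_lit 0) (XT.lf (nat_lit 228) (nat_lit 2773790828) (nat_lit 0) (nat_lit 1544543697) (nat_lit 152) (nat_lit 1544543697) (nat_lit 170) (nat_lit 1) (nat_lit 167) (nat_lit 1) (nat_lit 169) (nat_lit 1) (nat_lit 329) (nat_lit 387) (nat_lit 304)) (XT.nd (nat_lit 78) (nat_lit 228) (nat_lit 0) (XT.lf (nat_lit 76) (nat_lit 556812024) (nat_lit 0) (nat_lit 4687563103) (nat_lit 228) (nat_lit 556812024)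 (nat_lit 168) (nat_lit 1) (nat_lit 167) (nat_lit 1) (nat_lit 170) (nat_lit 1) (nat_lit 330) (nat_lit 387) (nat_lit 303)) (XT.lf (nat_lit 76) (nat_lit 2603135410) (nat_lit 0) (nat_lit 533526630) (nat_lit 228) (nat_lit 2603135410) (nat_lit 165) (nat_lit 1) (nat_lit 164) (nat_lit 1) (nat_lit 167) (nat_lit 1) (nat_lit 331) (nat_lit 387) (nat_lit 302)))) (XT.nd (nat_lit 78) (nat_lit 152) (nat_lit 0) (XT.lf (nat_lit 228) (nat_lit 3552236252) (nat_lit 0) (nat_lit 1063590233) (nat_lit 152) (nat_lit 1063590233) (nat_lit 165) (nat_lit 1) (nat_lit 162) (nat_lit 1) (nat_lit 164) (nat_lit 1) (nat_lit 332) (nat_lit 387) (nat_lit 301)) (XT.nd (nat_lit 78) (nat_lit 152) (nat_lit 0) (XT.lf (nat_lit 76) (nat_lit 955603396) (nat_lit 0) (nat_lit 3708563469) (nat_lit 228) (nat_lit 955603396) (nat_lit 163) (nat_lit 1) (nat_lit 162) (nat_lit 1) (nat_lit 165) (nat_lit 1) (nat_lit 333) (nat_lit 387) (nat_lit 300)) (XT.lf (nat_lit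 228) (nat_lit 281615841) (nat_lit 0) (nat_lit 2639593126) (nat_lit 152) (nat_lit 2639593126) (nat_lit 163) (nat_lit 1) (nat_lit 160) (nat_lit 1) (nat_lit 162) (nat_lit 1) (nat_lit 334) (nat_lit 387) (nat_lit 299))))))))
noncomputable def ec113 : XT := (XT.nd (nat_lit 1716) (nat_lit 988) (nat_lit 0) (XT.nd (nat_lit 858) (nat_lit 1064) (nat_lit 0) (XT.nd (nat_lit 390) (nat_lit 608) (nat_lit 0) (XT.nd (nat_lit 156) (nat_lit 380) (nat_lit 0) (XT.nd (nat_lit 78) (nat_lit 0) (nat_lit 0) (XT.lf (nat_lit 228) (nat_lit 4212192627) (nat_lit 0) (nat_lit 645261062) (nat_lit 152) (nat_lit 645261062) (nat_lit 160) (nat_lit 1) (nat_lit 157) (nat_lit 1) (nat_lit 159) (nat_lit 1) (nat_lit 335) (nat_lit 387) (nat_lit 298)) (XT.lf (nat_lit 76) (nat_lit 1296500583) (nat_lit 0) (nat_lit 2852024555) (nat_lit 228) (nat_lit 1296500583) (nat_lit 158) (nat_lit 1) (nat_lit 157) (nat_lit 1) (nat_lit 160) (nat_lit 1) (nat_lit 336)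 (nat_lit 387) (nat_lit 297))) (XT.nd (nat_lit 78) (nat_lit 228) (nat_lit 0) (XT.lf (nat_lit 228) (nat_lit 993009598) (nat_lit 0) (nat_lit 2197596479) (nat_lit 152) (nat_lit 2197596479) (nat_lit 158) (nat_lit 1) (nat_lit 155) (nat_lit 1) (nat_lit 157) (nat_lit 1) (nat_lit 337) (nat_lit 387) (nat_lit 296)) (XT.nd (nat_lit 78) (nat_lit 0) (nat_lit 0) (XT.lf (nat_lit 228) (nat_lit 4767795803) (nat_lit 0) (nat_lit 282310868) (nat_lit 152) (nat_lit 282310868) (nat_lit 155) (nat_lit 1) (nat_lit 152) (nat_lit 1) (nat_lit 154) (nat_lit 1) (nat_lit 338) (nat_lit 387) (nat_lit 295)) (XT.lf (nat_lit 76) (nat_lit 1586350523) (nat_lit 0) (nat_lit 2103903331) (nat_lit 228) (nat_lit 1586350523) (nat_lit 153) (nat_lit 1) (nat_lit 152) (nat_lit 1) (nat_lit 155) (nat_lit 1) (nat_lit 339) (nat_lit 387) (nat_lit 294))))) (XT.nd (nat_lit 234) (nat_lit 304) (nat_lit 0) (XT.nd (nat_lit 78) (nat_lit 152) (nat_lit 0) (XT.lf (nat_lit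 228) (nat_lit 1603438857) (nat_lit 0) (nat_lit 1809188606) (nat_lit 152) (nat_lit 1809188606) (nat_lit 153) (nat_lit 1) (nat_lit 150) (nat_lit 1) (nat_lit 152) (nat_lit 1) (nat_lit 340) (nat_lit 387) (nat_lit 293)) (XT.nd (nat_lit 78) (nat_lit 152) (nat_lit 0) (XT.lf (nat_lit 76) (nat_lit 32003851) (nat_lit 0) (nat_lit 5104153438) (nat_lit 228) (nat_lit 32003851) (nat_lit 151) (nat_lit 1) (nat_lit 150) (nat_lit 1) (nat_lit 153) (nat_lit 1) (nat_lit 341) (nat_lit 387) (nat_lit 292)) (XT.lf (nat_lit 76) (nat_lit 1831225240) (nat_lit 0) (nat_lit 1451734018) (nat_lit 152) (nat_lit 1831225240) (nat_lit 149) (nat_lit 1) (nat_lit 148) (nat_lit 1) (nat_lit 150) (nat_lit 1) (nat_lit 342) (nat_lit 387) (nat_lit 291)))) (XT.nd (nat_lit 78) (nat_lit 152) (nat_lit 0) (XT.lf (nat_lit 228) (nat_lit 2124792609) (nat_lit 0) (nat_lit 1468268408) (nat_lit 152) (nat_lit 1468268408) (nat_lit 149) (nat_lit 1) (nat_lit 146)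 (nat_lit 1) (nat_lit 148) (nat_lit 1) (nat_lit 343) (nat_lit 387) (nat_lit 290)) (XT.nd (nat_lit 78) (nat_lit 152) (nat_lit 0) (XT.lf (nat_lit 76) (nat_lit 305441669) (nat_lit 0) (nat_lit 4398517736) (nat_lit 228) (nat_lit 305441669) (nat_lit 147) (nat_lit 1) (nat_lit 146) (nat_lit 1) (nat_lit 149) (nat_lit 1) (nat_lit 344) (nat_lit 387) (nat_lit 289)) (XT.lf (nat_lit 76) (nat_lit 2036508593) (nat_lit 0) (nat_lit 884451881) (nat_lit 152) (nat_lit 2036508593) (nat_lit 145) (nat_lit 1) (nat_lit 144) (nat_lit 1) (nat_lit 146) (nat_lit 1) (nat_lit 345) (nat_lit 387) (nat_lit 288)))))) (XT.nd (nat_lit 390) (nat_lit 608) (nat_lit 0) (XT.nd (nat_lit 156) (nat_lit 304) (nat_lit 0) (XT.nd (nat_lit 78) (nat_lit 0) (nat_lit 0) (XT.lf (nat_lit 228) (nat_lit 2567615715) (nat_lit 0) (nat_lit 1169418788) (nat_lit 152) (nat_lit 1169418788) (nat_lit 145) (nat_lit 1) (nat_lit 142) (nat_lit 1) (nat_lit 144) (nat_lit 1)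 (nat_lit 346) (nat_lit 387) (nat_lit 287)) (XT.lf (nat_lit 76) (nat_lit 540319475) (nat_lit 0) (nat_lit 3775544015) (nat_lit 228) (nat_lit 540319475) (nat_lit 143) (nat_lit 1) (nat_lit 142) (nat_lit 1) (nat_lit 145) (nat_lit 1) (nat_lit 347) (nat_lit 387) (nat_lit 286))) (XT.nd (nat_lit 78) (nat_lit 152) (nat_lit 0) (XT.lf (nat_lit 76) (nat_lit 2206973339) (nat_lit 0) (nat_lit 392236670) (nat_lit 152) (nat_lit 2206973339) (nat_lit 141) (nat_lit 1) (nat_lit 140) (nat_lit 1) (nat_lit 142) (nat_lit 1) (nat_lit 348) (nat_lit 387) (nat_lit 285)) (XT.nd (nat_lit 78) (nat_lit 0) (nat_lit 0) (XT.lf (nat_lit 228) (nat_lit 2941259328) (nat_lit 0) (nat_lit 907830266) (nat_lit 152) (nat_lit 907830266) (nat_lit 141) (nat_lit 1) (nat_lit 138) (nat_lit 1) (nat_lit 140) (nat_lit 1) (nat_lit 349) (nat_lit 387) (nat_lit 284)) (XT.lf (nat_lit 76) (nat_lit 741172202) (nat_lit 0) (nat_lit 3225898633) (nat_lit 228) (nat_lit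 741172202) (nat_lit 139) (nat_lit 1) (nat_lit 138) (nat_lit 1) (nat_lit 141) (nat_lit 1) (nat_lit 350) (nat_lit 387) (nat_lit 283))))) (XT.nd (nat_lit 234) (nat_lit 304) (nat_lit 0) (XT.nd (nat_lit 78) (nat_lit 228) (nat_lit 0) (XT.lf (nat_lit 152) (nat_lit 34295691) (nat_lit 0) (nat_lit 2312883567) (nat_lit 76) (nat_lit 2312883567) (nat_lit 139) (nat_lit 1) (nat_lit 137) (nat_lit 1) (nat_lit 138) (nat_lit 1) (nat_lit 351) (nat_lit 387) (nat_lit 282)) (XT.nd (nat_lit 78) (nat_lit 0) (nat_lit 0) (XT.lf (nat_lit 228) (nat_lit 3254014528) (nat_lit 0) (nat_lit 679233123) (nat_lit 152) (nat_lit 679233123) (nat_lit 137) (nat_lit 1) (nat_lit 134) (nat_lit 1) (nat_lit 136) (nat_lit 1) (nat_lit 352) (nat_lit 387) (nat_lit 281)) (XT.lf (nat_lit 76) (nat_lit 912022239) (nat_lit 0) (nat_lit 2741292140) (nat_lit 228) (nat_lit 912022239) (nat_lit 135) (nat_lit 1) (nat_lit 134) (nat_lit 1) (nat_lit 137) (nat_lit 1)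 (nat_lit 353) (nat_lit 387) (nat_lit 280)))) (XT.nd (nat_lit 78) (nat_lit 228) (nat_lit 0) (XT.lf (nat_lit 152) (nat_lit 408848628) (nat_lit 0) (nat_lit 2054967092) (nat_lit 76) (nat_lit 2054967092) (nat_lit 135) (nat_lit 1) (nat_lit 133) (nat_lit 1) (nat_lit 134) (nat_lit 1) (nat_lit 354) (nat_lit 387) (nat_lit 279)) (XT.nd (nat_lit 78) (nat_lit 0) (nat_lit 0) (XT.lf (nat_lit 228) (nat_lit 3513231034) (nat_lit 0) (nat_lit 479837103) (nat_lit 152) (nat_lit 479837103) (nat_lit 133) (nat_lit 1) (nat_lit 130) (nat_lit 1) (nat_lit 132) (nat_lit 1) (nat_lit 355) (nat_lit 387) (nat_lit 278)) (XT.lf (nat_lit 76) (nat_lit 1056436778) (nat_lit 0) (nat_lit 2314362742) (nat_lit 228) (nat_lit 1056436778) (nat_lit 131) (nat_lit 1) (nat_lit 130) (nat_lit 1) (nat_lit 133) (nat_lit 1) (nat_lit 356) (nat_lit 387) (nat_lit 277))))))) (XT.nd (nat_lit 46254) (nat_lit 0) (nat_lit 12996) (XT.nd (nat_lit 390) (nat_lit 380)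 (nat_lit 0) (XT.nd (nat_lit 156) (nat_lit 304) (nat_lit 0) (XT.nd (nat_lit 78) (nat_lit 228) (nat_lit 0) (XT.lf (nat_lit 152) (nat_lit 730613361) (nat_lit 0) (nat_lit 1825811646) (nat_lit 76) (nat_lit 1825811646) (nat_lit 131) (nat_lit 1) (nat_lit 129) (nat_lit 1) (nat_lit 130) (nat_lit 1) (nat_lit 357) (nat_lit 387) (nat_lit 276)) (XT.lf (nat_lit 228) (nat_lit 3725422670) (nat_lit 0) (nat_lit 306277858) (nat_lit 152) (nat_lit 306277858) (nat_lit 129) (nat_lit 1) (nat_lit 126) (nat_lit 1) (nat_lit 128) (nat_lit 1) (nat_lit 358) (nat_lit 387) (nat_lit 275))) (XT.nd (nat_lit 78) (nat_lit 304) (nat_lit 0) (XT.lf (nat_lit 76) (nat_lit 1177578775) (nat_lit 0) (nat_lit 1938572758) (nat_lit 228) (nat_lit 1177578775) (nat_lit 127) (nat_lit 1) (nat_lit 126) (nat_lit 1) (nat_lit 129) (nat_lit 1) (nat_lit 359) (nat_lit 387) (nat_lit 274)) (XT.nd (nat_lit 78) (nat_lit 228) (nat_lit 0) (XT.lf (nat_lit 152) (nat_lit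 1005797450) (nat_lit 0) (nat_lit 1622209999) (nat_lit 76) (nat_lit 1622209999) (nat_lit 127) (nat_lit 1) (nat_lit 125) (nat_lit 1) (nat_lit 126) (nat_lit 1) (nat_lit 360) (nat_lit 387) (nat_lit 273)) (XT.lf (nat_lit 228) (nat_lit 3896361053) (nat_lit 0) (nat_lit 155569354) (nat_lit 152) (nat_lit 155569354) (nat_lit 125) (nat_lit 1) (nat_lit 122) (nat_lit 1) (nat_lit 124) (nat_lit 1) (nat_lit 361) (nat_lit 387) (nat_lit 272))))) (XT.nd (nat_lit 234) (nat_lit 76) (nat_lit 0) (XT.nd (nat_lit 78) (nat_lit 304) (nat_lit 0) (XT.lf (nat_lit 76) (nat_lit 1278252209) (nat_lit 0) (nat_lit 1608116630) (nat_lit 228) (nat_lit 1278252209) (nat_lit 123) (nat_lit 1) (nat_lit 122) (nat_lit 1) (nat_lit 125) (nat_lit 1) (nat_lit 362) (nat_lit 387) (nat_lit 271)) (XT.nd (nat_lit 78) (nat_lit 228) (nat_lit 0) (XT.lf (nat_lit 152) (nat_lit 1239906884) (nat_lit 0) (nat_lit 1441312573) (nat_lit 76) (nat_lit 1441312573) (nat_lit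 123) (nat_lit 1) (nat_lit 121) (nat_lit 1) (nat_lit 122) (nat_lit 1) (nat_lit 363) (nat_lit 387) (nat_lit 270)) (XT.lf (nat_lit 228) (nat_lit 4031158817) (nat_lit 0) (nat_lit 25061592) (nat_lit 152) (nat_lit 25061592) (nat_lit 121) (nat_lit 1) (nat_lit 118) (nat_lit 1) (nat_lit 120) (nat_lit 1) (nat_lit 364) (nat_lit 387) (nat_lit 269)))) (XT.nd (nat_lit 78) (nat_lit 76) (nat_lit 0) (XT.lf (nat_lit 76) (nat_lit 1360942297) (nat_lit 0) (nat_lit 1317839188) (nat_lit 228) (nat_lit 1360942297) (nat_lit 119) (nat_lit 1) (nat_lit 118) (nat_lit 1) (nat_lit 121) (nat_lit 1) (nat_lit 365) (nat_lit 387) (nat_lit 268)) (XT.nd (nat_lit 45474) (nat_lit 0) (nat_lit 16188) (XT.lf (nat_lit 152) (nat_lit 1437824582) (nat_lit 0) (nat_lit 1280587553) (nat_lit 76) (nat_lit 1280587553) (nat_lit 119) (nat_lit 1) (nat_lit 117) (nat_lit 1) (nat_lit 118) (nat_lit 1) (nat_lit 366) (nat_lit 387) (nat_lit 267)) (XT.lf (nat_lit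 76) (nat_lit 5850280774) (nat_lit 0) (nat_lit 305302878) (nat_lit 608) (nat_lit 5850280774) (nat_lit 331) (nat_lit 1) (nat_lit 330) (nat_lit 1) (nat_lit 338) (nat_lit 1) (nat_lit 268) (nat_lit 388) (nat_lit 364)))))) (XT.nd (nat_lit 390) (nat_lit 1520) (nat_lit 0) (XT.nd (nat_lit 156) (nat_lit 1064) (nat_lit 0) (XT.nd (nat_lit 78) (nat_lit 0) (nat_lit 0) (XT.lf (nat_lit 684) (nat_lit 10211010023) (nat_lit 0) (nat_lit 819720455) (nat_lit 608) (nat_lit 819720455) (nat_lit 331) (nat_lit 1) (nat_lit 322) (nat_lit 1) (nat_lit 330) (nat_lit 1) (nat_lit 269) (nat_lit 388) (nat_lit 363)) (XT.lf (nat_lit 76) (nat_lit 4331872193) (nat_lit 0) (nat_lit 3032875030) (nat_lit 684) (nat_lit 4331872193) (nat_lit 323) (nat_lit 1) (nat_lit 322) (nat_lit 1) (nat_lit 331) (nat_lit 1) (nat_lit 270) (nat_lit 388) (nat_lit 362))) (XT.nd (nat_lit 78) (nat_lit 532) (nat_lit 0) (XT.lf (nat_lit 608) (nat_lit 7131810669) (nat_lit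 0) (nat_lit 2207295858) (nat_lit 532) (nat_lit 2207295858) (nat_lit 323) (nat_lit 1) (nat_lit 315) (nat_lit 1) (nat_lit 322) (nat_lit 1) (nat_lit 271) (nat_lit 388) (nat_lit 361)) (XT.nd (nat_lit 78) (nat_lit 532) (nat_lit 0) (XT.lf (nat_lit 76) (nat_lit 2786942197) (nat_lit 0) (nat_lit 5824619555) (nat_lit 608) (nat_lit 2786942197) (nat_lit 316) (nat_lit 1) (nat_lit 315) (nat_lit 1) (nat_lit 323) (nat_lit 1) (nat_lit 272) (nat_lit 388) (nat_lit 360)) (XT.lf (nat_lit 608) (nat_lit 4004230498) (nat_lit 0) (nat_lit 3624509754) (nat_lit 532) (nat_lit 3624509754) (nat_lit 316) (nat_lit 1) (nat_lit 308) (nat_lit 1) (nat_lit 315) (nat_lit 1) (nat_lit 273) (nat_lit 388) (nat_lit 359))))) (XT.nd (nat_lit 234) (nat_lit 456) (nat_lit 0) (XT.nd (nat_lit 78) (nat_lit 1064) (nat_lit 0) (XT.lf (nat_lit 76) (nat_lit 1220324415) (nat_lit 0) (nat_lit 8670423198) (nat_lit 608) (nat_lit 1220324415) (nat_lit 309) (nat_lit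 1) (nat_lit 308) (nat_lit 1) (nat_lit 316) (nat_lit 1) (nat_lit 274) (nat_lit 388) (nat_lit 358)) (XT.nd (nat_lit 78) (nat_lit 608) (nat_lit 0) (XT.lf (nat_lit 532) (nat_lit 837604229) (nat_lit 0) (nat_lit 5066477540) (nat_lit 456) (nat_lit 5066477540) (nat_lit 309) (nat_lit 1) (nat_lit 302) (nat_lit 1) (nat_lit 308) (nat_lit 1) (nat_lit 275) (nat_lit 388) (nat_lit 357)) (XT.lf (nat_lit 608) (nat_lit 10113561208) (nat_lit 0) (nat_lit 359957496) (nat_lit 532) (nat_lit 359957496) (nat_lit 302) (nat_lit 1) (nat_lit 294) (nat_lit 1) (nat_lit 301) (nat_lit 1) (nat_lit 276) (nat_lit 388) (nat_lit 356)))) (XT.nd (nat_lit 78) (nat_lit 456) (nat_lit 0) (XT.lf (nat_lit 76) (nat_lit 4191908031) (nat_lit 0) (nat_lit 2313418698) (nat_lit 608) (nat_lit 4191908031) (nat_lit 295) (nat_lit 1) (nat_lit 294) (nat_lit 1) (nat_lit 302) (nat_lit 1) (nat_lit 277) (nat_lit 388) (nat_lit 355)) (XT.nd (nat_lit 78) (nat_lit 0)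 (nat_lit 0) (XT.lf (nat_lit 532) (nat_lit 6681771268) (nat_lit 0) (nat_lit 1941264825) (nat_lit 456) (nat_lit 1941264825) (nat_lit 295) (nat_lit 1) (nat_lit 288) (nat_lit 1) (nat_lit 294) (nat_lit 1) (nat_lit 278) (nat_lit 388) (nat_lit 354)) (XT.lf (nat_lit 76) (nat_lit 2481572221) (nat_lit 0) (nat_lit 5470167616) (nat_lit 532) (nat_lit 2481572221) (nat_lit 289) (nat_lit 1) (nat_lit 288) (nat_lit 1) (nat_lit 295) (nat_lit 1) (nat_lit 279) (nat_lit 388) (nat_lit 353))))))))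
noncomputable def ec114 : XT := (XT.nd (nat_lit 1716) (nat_lit 3648) (nat_lit 0) (XT.nd (nat_lit 858) (nat_lit 2052) (nat_lit 0) (XT.nd (nat_lit 390) (nat_lit 1596) (nat_lit 0) (XT.nd (nat_lit 156) (nat_lit 912) (nat_lit 0) (XT.nd (nat_lit 78) (nat_lit 0) (nat_lit 0) (XT.lf (nat_lit 532) (nat_lit 3240945615) (nat_lit 0) (nat_lit 3531815390) (nat_lit 456) (nat_lit 3531815390) (nat_lit 289) (nat_lit 1) (nat_lit 282) (nat_lit 1) (nat_lit 288) (nat_lit 1) (nat_lit 280) (nat_lit 388) (nat_lit 352)) (XT.lf (nat_lit 76) (nat_lit 768409674) (nat_lit 0) (nat_lit 8641836347) (nat_lit 532) (nat_lit 768409674) (nat_lit 283) (nat_lit 1) (nat_lit 282) (nat_lit 1) (nat_lit 289) (nat_lit 1) (nat_lit 281) (nat_lit 388) (nat_lit 351))) (XT.nd (nat_lit 78) (nat_lit 456) (nat_lit 0) (XT.lf (nat_lit 76) (nat_lit 4927714977) (nat_lit 0) (nat_lit 198446582) (nat_lit 456) (nat_lit 4927714977) (nat_lit 277) (nat_lit 1) (nat_lit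 276) (nat_lit 1) (nat_lit 282) (nat_lit 1) (nat_lit 282) (nat_lit 388) (nat_lit 350)) (XT.nd (nat_lit 78) (nat_lit 0) (nat_lit 0) (XT.lf (nat_lit 532) (nat_lit 8061378496) (nat_lit 0) (nat_lit 935215830) (nat_lit 456) (nat_lit 935215830) (nat_lit 277) (nat_lit 1) (nat_lit 270) (nat_lit 1) (nat_lit 276) (nat_lit 1) (nat_lit 283) (nat_lit 388) (nat_lit 349)) (XT.lf (nat_lit 76) (nat_lit 3119882668) (nat_lit 0) (nat_lit 3571209044) (nat_lit 532) (nat_lit 3119882668) (nat_lit 271) (nat_lit 1) (nat_lit 270) (nat_lit 1) (nat_lit 277) (nat_lit 1) (nat_lit 284) (nat_lit 388) (nat_lit 348))))) (XT.nd (nat_lit 234) (nat_lit 836) (nat_lit 0) (XT.nd (nat_lit 78) (nat_lit 380) (nat_lit 0) (XT.lf (nat_lit 456) (nat_lit 4436197016) (nat_lit 0) (nat_lit 2628220657) (nat_lit 380) (nat_lit 2628220657) (nat_lit 271) (nat_lit 1) (nat_lit 265) (nat_lit 1) (nat_lit 270) (nat_lit 1) (nat_lit 285) (nat_lit 388) (nat_lit 347))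 (XT.nd (nat_lit 78) (nat_lit 380) (nat_lit 0) (XT.lf (nat_lit 76) (nat_lit 1320618534) (nat_lit 0) (nat_lit 6935232588) (nat_lit 456) (nat_lit 1320618534) (nat_lit 266) (nat_lit 1) (nat_lit 265) (nat_lit 1) (nat_lit 271) (nat_lit 1) (nat_lit 286) (nat_lit 388) (nat_lit 346)) (XT.lf (nat_lit 456) (nat_lit 830565033) (nat_lit 0) (nat_lit 4315569571) (nat_lit 380) (nat_lit 4315569571) (nat_lit 266) (nat_lit 1) (nat_lit 260) (nat_lit 1) (nat_lit 265) (nat_lit 1) (nat_lit 287) (nat_lit 388) (nat_lit 345)))) (XT.nd (nat_lit 78) (nat_lit 380) (nat_lit 0) (XT.lf (nat_lit 456) (nat_lit 8423079603) (nat_lit 0) (nat_lit 463209961) (nat_lit 380) (nat_lit 463209961) (nat_lit 260) (nat_lit 1) (nat_lit 254) (nat_lit 1) (nat_lit 259) (nat_lit 1) (nat_lit 288) (nat_lit 388) (nat_lit 344)) (XT.nd (nat_lit 78) (nat_lit 380) (nat_lit 0) (XT.lf (nat_lit 76) (nat_lit 3270219151) (nat_lit 0) (nat_lit 2697463098) (nat_lit 456)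 (nat_lit 3270219151) (nat_lit 255) (nat_lit 1) (nat_lit 254) (nat_lit 1) (nat_lit 260) (nat_lit 1) (nat_lit 289) (nat_lit 388) (nat_lit 343)) (XT.lf (nat_lit 456) (nat_lit 4686185497) (nat_lit 0) (nat_lit 2221298971) (nat_lit 380) (nat_lit 2221298971) (nat_lit 255) (nat_lit 1) (nat_lit 249) (nat_lit 1) (nat_lit 254) (nat_lit 1) (nat_lit 290) (nat_lit 388) (nat_lit 342)))))) (XT.nd (nat_lit 390) (nat_lit 988) (nat_lit 0) (XT.nd (nat_lit 156) (nat_lit 760) (nat_lit 0) (XT.nd (nat_lit 78) (nat_lit 304) (nat_lit 0) (XT.lf (nat_lit 76) (nat_lit 1419771089) (nat_lit 0) (nat_lit 6181950100) (nat_lit 456) (nat_lit 1419771089) (nat_lit 250) (nat_lit 1) (nat_lit 249) (nat_lit 1) (nat_lit 255) (nat_lit 1) (nat_lit 291) (nat_lit 388) (nat_lit 341)) (XT.lf (nat_lit 380) (nat_lit 986077234) (nat_lit 0) (nat_lit 3964741803) (nat_lit 304) (nat_lit 3964741803) (nat_lit 250) (nat_lit 1) (nat_lit 245) (nat_lit 1) (nat_lit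 249) (nat_lit 1) (nat_lit 292) (nat_lit 388) (nat_lit 340))) (XT.nd (nat_lit 78) (nat_lit 304) (nat_lit 0) (XT.lf (nat_lit 456) (nat_lit 7996857081) (nat_lit 0) (nat_lit 407548087) (nat_lit 380) (nat_lit 407548087) (nat_lit 245) (nat_lit 1) (nat_lit 239) (nat_lit 1) (nat_lit 244) (nat_lit 1) (nat_lit 293) (nat_lit 388) (nat_lit 339)) (XT.nd (nat_lit 78) (nat_lit 304) (nat_lit 0) (XT.lf (nat_lit 76) (nat_lit 3043391868) (nat_lit 0) (nat_lit 2621997432) (nat_lit 456) (nat_lit 3043391868) (nat_lit 240) (nat_lit 1) (nat_lit 239) (nat_lit 1) (nat_lit 245) (nat_lit 1) (nat_lit 294) (nat_lit 388) (nat_lit 338)) (XT.lf (nat_lit 380) (nat_lit 4206637737) (nat_lit 0) (nat_lit 2200613820) (nat_lit 304) (nat_lit 2200613820) (nat_lit 240) (nat_lit 1) (nat_lit 235) (nat_lit 1) (nat_lit 239) (nat_lit 1) (nat_lit 295) (nat_lit 388) (nat_lit 337))))) (XT.nd (nat_lit 234) (nat_lit 304) (nat_lit 0) (XT.nd (nat_lit 78)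 (nat_lit 684) (nat_lit 0) (XT.lf (nat_lit 76) (nat_lit 1169801697) (nat_lit 0) (nat_lit 6169072384) (nat_lit 380) (nat_lit 1169801697) (nat_lit 236) (nat_lit 1) (nat_lit 235) (nat_lit 1) (nat_lit 240) (nat_lit 1) (nat_lit 296) (nat_lit 388) (nat_lit 336)) (XT.nd (nat_lit 78) (nat_lit 380) (nat_lit 0) (XT.lf (nat_lit 380) (nat_lit 466467590) (nat_lit 0) (nat_lit 3972073010) (nat_lit 304) (nat_lit 3972073010) (nat_lit 236) (nat_lit 1) (nat_lit 231) (nat_lit 1) (nat_lit 235) (nat_lit 1) (nat_lit 297) (nat_lit 388) (nat_lit 335)) (XT.lf (nat_lit 380) (nat_lit 6971058569) (nat_lit 0) (nat_lit 671714041) (nat_lit 304) (nat_lit 671714041) (nat_lit 231) (nat_lit 1) (nat_lit 226) (nat_lit 1) (nat_lit 230) (nat_lit 1) (nat_lit 298) (nat_lit 388) (nat_lit 334)))) (XT.nd (nat_lit 78) (nat_lit 304) (nat_lit 0) (XT.lf (nat_lit 76) (nat_lit 2530118758) (nat_lit 0) (nat_lit 3158781084) (nat_lit 380) (nat_lit 2530118758)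 (nat_lit 227) (nat_lit 1) (nat_lit 226) (nat_lit 1) (nat_lit 231) (nat_lit 1) (nat_lit 299) (nat_lit 388) (nat_lit 333)) (XT.nd (nat_lit 78) (nat_lit 0) (nat_lit 0) (XT.lf (nat_lit 380) (nat_lit 3174103005) (nat_lit 0) (nat_lit 2475663088) (nat_lit 304) (nat_lit 2475663088) (nat_lit 227) (nat_lit 1) (nat_lit 222) (nat_lit 1) (nat_lit 226) (nat_lit 1) (nat_lit 300) (nat_lit 388) (nat_lit 332)) (XT.lf (nat_lit 76) (nat_lit 655738844) (nat_lit 0) (nat_lit 6722172636) (nat_lit 380) (nat_lit 655738844) (nat_lit 223) (nat_lit 1) (nat_lit 222) (nat_lit 1) (nat_lit 227) (nat_lit 1) (nat_lit 301) (nat_lit 388) (nat_lit 331))))))) (XT.nd (nat_lit 858) (nat_lit 1672) (nat_lit 0) (XT.nd (nat_lit 390) (nat_lit 760) (nat_lit 0) (XT.nd (nat_lit 156) (nat_lit 608) (nat_lit 0) (XT.nd (nat_lit 78) (nat_lit 304) (nat_lit 0) (XT.lf (nat_lit 76) (nat_lit 3695322506) (nat_lit 0) (nat_lit 551817802) (nat_lit 304) (nat_lit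 3695322506) (nat_lit 219) (nat_lit 1) (nat_lit 218) (nat_lit 1) (nat_lit 222) (nat_lit 1) (nat_lit 302) (nat_lit 388) (nat_lit 330)) (XT.lf (nat_lit 380) (nat_lit 5499423772) (nat_lit 0) (nat_lit 1176805913) (nat_lit 304) (nat_lit 1176805913) (nat_lit 219) (nat_lit 1) (nat_lit 214) (nat_lit 1) (nat_lit 218) (nat_lit 1) (nat_lit 303) (nat_lit 388) (nat_lit 329))) (XT.nd (nat_lit 78) (nat_lit 608) (nat_lit 0) (XT.lf (nat_lit 76) (nat_lit 1804418452) (nat_lit 0) (nat_lit 4155790240) (nat_lit 380) (nat_lit 1804418452) (nat_lit 215) (nat_lit 1) (nat_lit 214) (nat_lit 1) (nat_lit 219) (nat_lit 1) (nat_lit 304) (nat_lit 388) (nat_lit 328)) (XT.nd (nat_lit 78) (nat_lit 380) (nat_lit 0) (XT.lf (nat_lit 304) (nat_lit 1732572633) (nat_lit 0) (nat_lit 2972517185) (nat_lit 228) (nat_lit 2972517185) (nat_lit 215) (nat_lit 1) (nat_lit 211) (nat_lit 1) (nat_lit 214) (nat_lit 1) (nat_lit 305) (nat_lit 388) (nat_lit 327))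 (XT.lf (nat_lit 380) (nat_lit 7487404037) (nat_lit 0) (nat_lit 52578098) (nat_lit 304) (nat_lit 52578098) (nat_lit 211) (nat_lit 1) (nat_lit 206) (nat_lit 1) (nat_lit 210) (nat_lit 1) (nat_lit 306) (nat_lit 388) (nat_lit 326))))) (XT.nd (nat_lit 234) (nat_lit 532) (nat_lit 0) (XT.nd (nat_lit 78) (nat_lit 228) (nat_lit 0) (XT.lf (nat_lit 76) (nat_lit 2789418912) (nat_lit 0) (nat_lit 1928508442) (nat_lit 380) (nat_lit 2789418912) (nat_lit 207) (nat_lit 1) (nat_lit 206) (nat_lit 1) (nat_lit 211) (nat_lit 1) (nat_lit 307) (nat_lit 388) (nat_lit 325)) (XT.nd (nat_lit 78) (nat_lit 0) (nat_lit 0) (XT.lf (nat_lit 304) (nat_lit 3706953972) (nat_lit 0) (nat_lit 1858554799) (nat_lit 228) (nat_lit 1858554799) (nat_lit 207) (nat_lit 1) (nat_lit 203) (nat_lit 1) (nat_lit 206) (nat_lit 1) (nat_lit 308) (nat_lit 388) (nat_lit 324)) (XT.lf (nat_lit 76) (nat_lit 926444247) (nat_lit 0) (nat_lit 5489249083) (nat_lit 304)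 (nat_lit 926444247) (nat_lit 204) (nat_lit 1) (nat_lit 203) (nat_lit 1) (nat_lit 207) (nat_lit 1) (nat_lit 309) (nat_lit 388) (nat_lit 323)))) (XT.nd (nat_lit 78) (nat_lit 228) (nat_lit 0) (XT.lf (nat_lit 76) (nat_lit 3630029067) (nat_lit 0) (nat_lit 971899) (nat_lit 304) (nat_lit 3630029067) (nat_lit 200) (nat_lit 1) (nat_lit 199) (nat_lit 1) (nat_lit 203) (nat_lit 1) (nat_lit 310) (nat_lit 388) (nat_lit 322)) (XT.nd (nat_lit 78) (nat_lit 0) (nat_lit 0) (XT.lf (nat_lit 304) (nat_lit 5398032658) (nat_lit 0) (nat_lit 891604566) (nat_lit 228) (nat_lit 891604566) (nat_lit 200) (nat_lit 1) (nat_lit 196) (nat_lit 1) (nat_lit 199) (nat_lit 1) (nat_lit 311) (nat_lit 388) (nat_lit 321)) (XT.lf (nat_lit 76) (nat_lit 1768397532) (nat_lit 0) (nat_lit 3565425734) (nat_lit 304) (nat_lit 1768397532) (nat_lit 197) (nat_lit 1) (nat_lit 196) (nat_lit 1) (nat_lit 200) (nat_lit 1) (nat_lit 312) (nat_lit 388) (nat_lit 320))))))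 (XT.nd (nat_lit 390) (nat_lit 912) (nat_lit 0) (XT.nd (nat_lit 156) (nat_lit 228) (nat_lit 0) (XT.nd (nat_lit 78) (nat_lit 304) (nat_lit 0) (XT.lf (nat_lit 304) (nat_lit 1694813120) (nat_lit 0) (nat_lit 2664835079) (nat_lit 228) (nat_lit 2664835079) (nat_lit 197) (nat_lit 1) (nat_lit 193) (nat_lit 1) (nat_lit 196) (nat_lit 1) (nat_lit 313) (nat_lit 388) (nat_lit 319)) (XT.lf (nat_lit 304) (nat_lit 6839239446) (nat_lit 0) (nat_lit 54608913) (nat_lit 228) (nat_lit 54608913) (nat_lit 193) (nat_lit 1) (nat_lit 189) (nat_lit 1) (nat_lit 192) (nat_lit 1) (nat_lit 314) (nat_lit 388) (nat_lit 318))) (XT.nd (nat_lit 78) (nat_lit 228) (nat_lit 0) (XT.lf (nat_lit 76) (nat_lit 2488930164) (nat_lit 0) (nat_lit 1894338489) (nat_lit 304) (nat_lit 2488930164) (nat_lit 190) (nat_lit 1) (nat_lit 189) (nat_lit 1) (nat_lit 193) (nat_lit 1) (nat_lit 315) (nat_lit 388) (nat_lit 317)) (XT.nd (nat_lit 78) (nat_lit 0) (nat_lit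 0) (XT.lf (nat_lit 304) (nat_lit 3152124191) (nat_lit 0) (nat_lit 1822748180) (nat_lit 228) (nat_lit 1822748180) (nat_lit 190) (nat_lit 1) (nat_lit 186) (nat_lit 1) (nat_lit 189) (nat_lit 1) (nat_lit 316) (nat_lit 388) (nat_lit 316)) (XT.lf (nat_lit 76) (nat_lit 674177842) (nat_lit 0) (nat_lit 5375949780) (nat_lit 304) (nat_lit 674177842) (nat_lit 187) (nat_lit 1) (nat_lit 186) (nat_lit 1) (nat_lit 190) (nat_lit 1) (nat_lit 317) (nat_lit 388) (nat_lit 315))))) (XT.nd (nat_lit 234) (nat_lit 456) (nat_lit 0) (XT.nd (nat_lit 78) (nat_lit 228) (nat_lit 0) (XT.lf (nat_lit 76) (nat_lit 3102384021) (nat_lit 0) (nat_lit 446691235) (nat_lit 228) (nat_lit 3102384021) (nat_lit 184) (nat_lit 1) (nat_lit 183) (nat_lit 1) (nat_lit 186) (nat_lit 1) (nat_lit 318) (nat_lit 388) (nat_lit 314)) (XT.nd (nat_lit 78) (nat_lit 0) (nat_lit 0) (XT.lf (nat_lit 304) (nat_lit 4398975581) (nat_lit 0) (nat_lit 1090436429) (nat_lit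 228) (nat_lit 1090436429) (nat_lit 184) (nat_lit 1) (nat_lit 180) (nat_lit 1) (nat_lit 183) (nat_lit 1) (nat_lit 319) (nat_lit 388) (nat_lit 313)) (XT.lf (nat_lit 76) (nat_lit 1301112400) (nat_lit 0) (nat_lit 3906829981) (nat_lit 304) (nat_lit 1301112400) (nat_lit 181) (nat_lit 1) (nat_lit 180) (nat_lit 1) (nat_lit 184) (nat_lit 1) (nat_lit 320) (nat_lit 388) (nat_lit 312)))) (XT.nd (nat_lit 78) (nat_lit 304) (nat_lit 0) (XT.lf (nat_lit 228) (nat_lit 819504314) (nat_lit 0) (nat_lit 2809851581) (nat_lit 152) (nat_lit 2809851581) (nat_lit 181) (nat_lit 1) (nat_lit 178) (nat_lit 1) (nat_lit 180) (nat_lit 1) (nat_lit 321) (nat_lit 388) (nat_lit 311)) (XT.nd (nat_lit 78) (nat_lit 0) (nat_lit 0) (XT.lf (nat_lit 304) (nat_lit 5460232889) (nat_lit 0) (nat_lit 455196196) (nat_lit 228) (nat_lit 455196196) (nat_lit 178) (nat_lit 1) (nat_lit 174) (nat_lit 1) (nat_lit 177) (nat_lit 1) (nat_lit 322) (nat_lit 388)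 (nat_lit 310)) (XT.lf (nat_lit 76) (nat_lit 1837685710) (nat_lit 0) (nat_lit 2626865148) (nat_lit 304) (nat_lit 1837685710) (nat_lit 175) (nat_lit 1) (nat_lit 174) (nat_lit 1) (nat_lit 178) (nat_lit 1) (nat_lit 323) (nat_lit 388) (nat_lit 309))))))))
noncomputable def ec115 : XT := (XT.nd (nat_lit 1716) (nat_lit 1900) (nat_lit 0) (XT.nd (nat_lit 858) (nat_lit 1140) (nat_lit 0) (XT.nd (nat_lit 390) (nat_lit 760) (nat_lit 0) (XT.nd (nat_lit 156) (nat_lit 380) (nat_lit 0) (XT.nd (nat_lit 78) (nat_lit 0) (nat_lit 0) (XT.lf (nat_lit 228) (nat_lit 1916742628) (nat_lit 0) (nat_lit 2159173513) (nat_lit 152) (nat_lit 2159173513) (nat_lit 175) (nat_lit 1) (nat_lit 172) (nat_lit 1) (nat_lit 174) (nat_lit 1) (nat_lit 324) (nat_lit 388) (nat_lit 308)) (XT.lf (nat_lit 76) (nat_lit 95179192) (nat_lit 0) (nat_lit 5978987347) (nat_lit 228) (nat_lit 95179192) (nat_lit 173) (nat_lit 1) (nat_lit 172) (nat_lit 1) (nat_lit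 175) (nat_lit 1) (nat_lit 325) (nat_lit 388) (nat_lit 307))) (XT.nd (nat_lit 78) (nat_lit 152) (nat_lit 0) (XT.lf (nat_lit 76) (nat_lit 2294569849) (nat_lit 0) (nat_lit 1514224313) (nat_lit 228) (nat_lit 2294569849) (nat_lit 170) (nat_lit 1) (nat_lit 169) (nat_lit 1) (nat_lit 172) (nat_lit 1) (nat_lit 326) (nat_lit 388) (nat_lit 306)) (XT.nd (nat_lit 78) (nat_lit 0) (nat_lit 0) (XT.lf (nat_lit 228) (nat_lit 2857004552) (nat_lit 0) (nat_lit 1590880008) (nat_lit 152) (nat_lit 1590880008) (nat_lit 170) (nat_lit 1) (nat_lit 167) (nat_lit 1) (nat_lit 169) (nat_lit 1) (nat_lit 327) (nat_lit 388) (nat_lit 305)) (XT.lf (nat_lit 76) (nat_lit 573516385) (nat_lit 0) (nat_lit 4828189996) (nat_lit 228) (nat_lit 573516385) (nat_lit 168) (nat_lit 1) (nat_lit 167) (nat_lit 1) (nat_lit 170) (nat_lit 1) (nat_lit 328) (nat_lit 388) (nat_lit 304))))) (XT.nd (nat_lit 234) (nat_lit 380) (nat_lit 0) (XT.nd (nat_lit 78) (nat_lit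 152) (nat_lit 0) (XT.lf (nat_lit 76) (nat_lit 2681229472) (nat_lit 0) (nat_lit 549532429) (nat_lit 228) (nat_lit 2681229472) (nat_lit 165) (nat_lit 1) (nat_lit 164) (nat_lit 1) (nat_lit 167) (nat_lit 1) (nat_lit 329) (nat_lit 388) (nat_lit 303)) (XT.nd (nat_lit 78) (nat_lit 0) (nat_lit 0) (XT.lf (nat_lit 228) (nat_lit 3658803340) (nat_lit 0) (nat_lit 1095497940) (nat_lit 152) (nat_lit 1095497940) (nat_lit 165) (nat_lit 1) (nat_lit 162) (nat_lit 1) (nat_lit 164) (nat_lit 1) (nat_lit 330) (nat_lit 388) (nat_lit 302)) (XT.lf (nat_lit 76) (nat_lit 984271497) (nat_lit 0) (nat_lit 3819820373) (nat_lit 228) (nat_lit 984271497) (nat_lit 163) (nat_lit 1) (nat_lit 162) (nat_lit 1) (nat_lit 165) (nat_lit 1) (nat_lit 331) (nat_lit 388) (nat_lit 301)))) (XT.nd (nat_lit 78) (nat_lit 228) (nat_lit 0) (XT.lf (nat_lit 228) (nat_lit 290064316) (nat_lit 0) (nat_lit 2718780920) (nat_lit 152) (nat_lit 2718780920) (nat_lit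 163) (nat_lit 1) (nat_lit 160) (nat_lit 1) (nat_lit 162) (nat_lit 1) (nat_lit 332) (nat_lit 388) (nat_lit 300)) (XT.nd (nat_lit 78) (nat_lit 0) (nat_lit 0) (XT.lf (nat_lit 228) (nat_lit 4338558406) (nat_lit 0) (nat_lit 664618894) (nat_lit 152) (nat_lit 664618894) (nat_lit 160) (nat_lit 1) (nat_lit 157) (nat_lit 1) (nat_lit 159) (nat_lit 1) (nat_lit 333) (nat_lit 388) (nat_lit 299)) (XT.lf (nat_lit 76) (nat_lit 1335395601) (nat_lit 0) (nat_lit 2937585292) (nat_lit 228) (nat_lit 1335395601) (nat_lit 158) (nat_lit 1) (nat_lit 157) (nat_lit 1) (nat_lit 160) (nat_lit 1) (nat_lit 334) (nat_lit 388) (nat_lit 298)))))) (XT.nd (nat_lit 390) (nat_lit 608) (nat_lit 0) (XT.nd (nat_lit 156) (nat_lit 152) (nat_lit 0) (XT.nd (nat_lit 78) (nat_lit 228) (nat_lit 0) (XT.lf (nat_lit 228) (nat_lit 1022799886) (nat_lit 0) (nat_lit 2263524374) (nat_lit 152) (nat_lit 2263524374) (nat_lit 158) (nat_lit 1) (nat_lit 155) (nat_lit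 1) (nat_lit 157) (nat_lit 1) (nat_lit 335) (nat_lit 388) (nat_lit 297)) (XT.lf (nat_lit 228) (nat_lit 4910829677) (nat_lit 0) (nat_lit 290780194) (nat_lit 152) (nat_lit 290780194) (nat_lit 155) (nat_lit 1) (nat_lit 152) (nat_lit 1) (nat_lit 154) (nat_lit 1) (nat_lit 336) (nat_lit 388) (nat_lit 296))) (XT.nd (nat_lit 78) (nat_lit 152) (nat_lit 0) (XT.lf (nat_lit 76) (nat_lit 1633941039) (nat_lit 0) (nat_lit 2167020431) (nat_lit 228) (nat_lit 1633941039) (nat_lit 153) (nat_lit 1) (nat_lit 152) (nat_lit 1) (nat_lit 155) (nat_lit 1) (nat_lit 337) (nat_lit 388) (nat_lit 295)) (XT.nd (nat_lit 78) (nat_lit 0) (nat_lit 0) (XT.lf (nat_lit 228) (nat_lit 1651542023) (nat_lit 0) (nat_lit 1863464264) (nat_lit 152) (nat_lit 1863464264) (nat_lit 153) (nat_lit 1) (nat_lit 150) (nat_lit 1) (nat_lit 152) (nat_lit 1) (nat_lit 338) (nat_lit 388) (nat_lit 294)) (XT.lf (nat_lit 76) (nat_lit 32963966) (nat_lit 0) (nat_lit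 5257278041) (nat_lit 228) (nat_lit 32963966) (nat_lit 151) (nat_lit 1) (nat_lit 150) (nat_lit 1) (nat_lit 153) (nat_lit 1) (nat_lit 339) (nat_lit 388) (nat_lit 293))))) (XT.nd (nat_lit 234) (nat_lit 304) (nat_lit 0) (XT.nd (nat_lit 78) (nat_lit 152) (nat_lit 0) (XT.lf (nat_lit 76) (nat_lit 1886161997) (nat_lit 0) (nat_lit 1495286039) (nat_lit 152) (nat_lit 1886161997) (nat_lit 149) (nat_lit 1) (nat_lit 148) (nat_lit 1) (nat_lit 150) (nat_lit 1) (nat_lit 340) (nat_lit 388) (nat_lit 292)) (XT.nd (nat_lit 78) (nat_lit 0) (nat_lit 0) (XT.lf (nat_lit 228) (nat_lit 2188536388) (nat_lit 0) (nat_lit 1512316460) (nat_lit 152) (nat_lit 1512316460) (nat_lit 149) (nat_lit 1) (nat_lit 146) (nat_lit 1) (nat_lit 148) (nat_lit 1) (nat_lit 341) (nat_lit 388) (nat_lit 291)) (XT.lf (nat_lit 76) (nat_lit 314604920) (nat_lit 0) (nat_lit 4530473268) (nat_lit 228) (nat_lit 314604920) (nat_lit 147) (nat_lit 1) (nat_lit 146)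 (nat_lit 1) (nat_lit 149) (nat_lit 1) (nat_lit 342) (nat_lit 388) (nat_lit 290)))) (XT.nd (nat_lit 78) (nat_lit 152) (nat_lit 0) (XT.lf (nat_lit 76) (nat_lit 2097603851) (nat_lit 0) (nat_lit 910985437) (nat_lit 152) (nat_lit 2097603851) (nat_lit 145) (nat_lit 1) (nat_lit 144) (nat_lit 1) (nat_lit 146) (nat_lit 1) (nat_lit 343) (nat_lit 388) (nat_lit 289)) (XT.nd (nat_lit 78) (nat_lit 0) (nat_lit 0) (XT.lf (nat_lit 228) (nat_lit 2644644186) (nat_lit 0) (nat_lit 1204501351) (nat_lit 152) (nat_lit 1204501351) (nat_lit 145) (nat_lit 1) (nat_lit 142) (nat_lit 1) (nat_lit 144) (nat_lit 1) (nat_lit 344) (nat_lit 388) (nat_lit 288)) (XT.lf (nat_lit 76) (nat_lit 556529059) (nat_lit 0) (nat_lit 3888810336) (nat_lit 228) (nat_lit 556529059) (nat_lit 143) (nat_lit 1) (nat_lit 142) (nat_lit 1) (nat_lit 145) (nat_lit 1) (nat_lit 345) (nat_lit 388) (nat_lit 287))))))) (XT.nd (nat_lit 858) (nat_lit 684) (nat_lit 0)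 (XT.nd (nat_lit 390) (nat_lit 608) (nat_lit 0) (XT.nd (nat_lit 156) (nat_lit 304) (nat_lit 0) (XT.nd (nat_lit 78) (nat_lit 152) (nat_lit 0) (XT.lf (nat_lit 76) (nat_lit 2273182539) (nat_lit 0) (nat_lit 404003770) (nat_lit 152) (nat_lit 2273182539) (nat_lit 141) (nat_lit 1) (nat_lit 140) (nat_lit 1) (nat_lit 142) (nat_lit 1) (nat_lit 346) (nat_lit 388) (nat_lit 286)) (XT.lf (nat_lit 228) (nat_lit 3029497108) (nat_lit 0) (nat_lit 935065174) (nat_lit 152) (nat_lit 935065174) (nat_lit 141) (nat_lit 1) (nat_lit 138) (nat_lit 1) (nat_lit 140) (nat_lit 1) (nat_lit 347) (nat_lit 388) (nat_lit 285))) (XT.nd (nat_lit 78) (nat_lit 304) (nat_lit 0) (XT.lf (nat_lit 76) (nat_lit 763407368) (nat_lit 0) (nat_lit 3322675592) (nat_lit 228) (nat_lit 763407368) (nat_lit 139) (nat_lit 1) (nat_lit 138) (nat_lit 1) (nat_lit 141) (nat_lit 1) (nat_lit 348) (nat_lit 388) (nat_lit 284)) (XT.nd (nat_lit 78) (nat_lit 228) (nat_lit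 0) (XT.lf (nat_lit 152) (nat_lit 35324562) (nat_lit 0) (nat_lit 2382270074) (nat_lit 76) (nat_lit 2382270074) (nat_lit 139) (nat_lit 1) (nat_lit 137) (nat_lit 1) (nat_lit 138) (nat_lit 1) (nat_lit 349) (nat_lit 388) (nat_lit 283)) (XT.lf (nat_lit 228) (nat_lit 3351634964) (nat_lit 0) (nat_lit 699610116) (nat_lit 152) (nat_lit 699610116) (nat_lit 137) (nat_lit 1) (nat_lit 134) (nat_lit 1) (nat_lit 136) (nat_lit 1) (nat_lit 350) (nat_lit 388) (nat_lit 282))))) (XT.nd (nat_lit 234) (nat_lit 304) (nat_lit 0) (XT.nd (nat_lit 78) (nat_lit 304) (nat_lit 0) (XT.lf (nat_lit 76) (nat_lit 939382906) (nat_lit 0) (nat_lit 2823530904) (nat_lit 228) (nat_lit 939382906) (nat_lit 135) (nat_lit 1) (nat_lit 134) (nat_lit 1) (nat_lit 137) (nat_lit 1) (nat_lit 351) (nat_lit 388) (nat_lit 281)) (XT.nd (nat_lit 78) (nat_lit 228) (nat_lit 0) (XT.lf (nat_lit 152) (nat_lit 421114086) (nat_lit 0) (nat_lit 2116616105) (nat_lit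 76) (nat_lit 2116616105) (nat_lit 135) (nat_lit 1) (nat_lit 133) (nat_lit 1) (nat_lit 134) (nat_lit 1) (nat_lit 352) (nat_lit 388) (nat_lit 280)) (XT.lf (nat_lit 228) (nat_lit 3618627965) (nat_lit 0) (nat_lit 494232216) (nat_lit 152) (nat_lit 494232216) (nat_lit 133) (nat_lit 1) (nat_lit 130) (nat_lit 1) (nat_lit 132) (nat_lit 1) (nat_lit 353) (nat_lit 388) (nat_lit 279)))) (XT.nd (nat_lit 78) (nat_lit 304) (nat_lit 0) (XT.lf (nat_lit 76) (nat_lit 1088129882) (nat_lit 0) (nat_lit 2383793624) (nat_lit 228) (nat_lit 1088129882) (nat_lit 131) (nat_lit 1) (nat_lit 130) (nat_lit 1) (nat_lit 133) (nat_lit 1) (nat_lit 354) (nat_lit 388) (nat_lit 278)) (XT.nd (nat_lit 78) (nat_lit 228) (nat_lit 0) (XT.lf (nat_lit 152) (nat_lit 752531762) (nat_lit 0) (nat_lit 1880585995) (nat_lit 76) (nat_lit 1880585995) (nat_lit 131) (nat_lit 1) (nat_lit 129) (nat_lit 1) (nat_lit 130) (nat_lit 1) (nat_lit 355) (nat_lit 388)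 (nat_lit 277)) (XT.lf (nat_lit 228) (nat_lit 3837185350) (nat_lit 0) (nat_lit 315466194) (nat_lit 152) (nat_lit 315466194) (nat_lit 129) (nat_lit 1) (nat_lit 126) (nat_lit 1) (nat_lit 128) (nat_lit 1) (nat_lit 356) (nat_lit 388) (nat_lit 276)))))) (XT.nd (nat_lit 468) (nat_lit 76) (nat_lit 0) (XT.nd (nat_lit 234) (nat_lit 304) (nat_lit 0) (XT.nd (nat_lit 78) (nat_lit 304) (nat_lit 0) (XT.lf (nat_lit 76) (nat_lit 1212906138) (nat_lit 0) (nat_lit 1996729941) (nat_lit 228) (nat_lit 1212906138) (nat_lit 127) (nat_lit 1) (nat_lit 126) (nat_lit 1) (nat_lit 129) (nat_lit 1) (nat_lit 357) (nat_lit 388) (nat_lit 275)) (XT.nd (nat_lit 78) (nat_lit 228) (nat_lit 0) (XT.lf (nat_lit 152) (nat_lit 1035971374) (nat_lit 0) (nat_lit 1670876299) (nat_lit 76) (nat_lit 1670876299) (nat_lit 127) (nat_lit 1) (nat_lit 125) (nat_lit 1) (nat_lit 126) (nat_lit 1) (nat_lit 358) (nat_lit 388) (nat_lit 274)) (XT.lf (nat_lit 228)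 (nat_lit 4013251884) (nat_lit 0) (nat_lit 160236434) (nat_lit 152) (nat_lit 160236434) (nat_lit 125) (nat_lit 1) (nat_lit 122) (nat_lit 1) (nat_lit 124) (nat_lit 1) (nat_lit 359) (nat_lit 388) (nat_lit 273)))) (XT.nd (nat_lit 78) (nat_lit 304) (nat_lit 0) (XT.lf (nat_lit 76) (nat_lit 1316599775) (nat_lit 0) (nat_lit 1656360129) (nat_lit 228) (nat_lit 1316599775) (nat_lit 123) (nat_lit 1) (nat_lit 122) (nat_lit 1) (nat_lit 125) (nat_lit 1) (nat_lit 360) (nat_lit 388) (nat_lit 272)) (XT.nd (nat_lit 78) (nat_lit 228) (nat_lit 0) (XT.lf (nat_lit 152) (nat_lit 1277104090) (nat_lit 0) (nat_lit 1484551950) (nat_lit 76) (nat_lit 1484551950) (nat_lit 123) (nat_lit 1) (nat_lit 121) (nat_lit 1) (nat_lit 122) (nat_lit 1) (nat_lit 361) (nat_lit 388) (nat_lit 271)) (XT.lf (nat_lit 228) (nat_lit 4152093581) (nat_lit 0) (nat_lit 25813440) (nat_lit 152) (nat_lit 25813440) (nat_lit 121) (nat_lit 1) (nat_lit 118) (nat_lit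 1) (nat_lit 120) (nat_lit 1) (nat_lit 362) (nat_lit 388) (nat_lit 270))))) (XT.nd (nat_lit 45942) (nat_lit 0) (nat_lit 14060) (XT.nd (nat_lit 78) (nat_lit 76) (nat_lit 0) (XT.lf (nat_lit 76) (nat_lit 1401770566) (nat_lit 0) (nat_lit 1357374364) (nat_lit 228) (nat_lit 1401770566) (nat_lit 119) (nat_lit 1) (nat_lit 118) (nat_lit 1) (nat_lit 121) (nat_lit 1) (nat_lit 363) (nat_lit 388) (nat_lit 269)) (XT.nd (nat_lit 45786) (nat_lit 0) (nat_lit 15048) (XT.lf (nat_lit 152) (nat_lit 1480959319) (nat_lit 0) (nat_lit 1319005180) (nat_lit 76) (nat_lit 1319005180) (nat_lit 119) (nat_lit 1) (nat_lit 117) (nat_lit 1) (nat_lit 118) (nat_lit 1) (nat_lit 364) (nat_lit 388) (nat_lit 268)) (XT.lf (nat_lit 76) (nat_lit 2870550462) (nat_lit 0) (nat_lit 5999358142) (nat_lit 608) (nat_lit 2870550462) (nat_lit 316) (nat_lit 1) (nat_lit 315) (nat_lit 1) (nat_lit 323) (nat_lit 1) (nat_lit 270) (nat_lit 389) (nat_lit 361))))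 (XT.nd (nat_lit 78) (nat_lit 456) (nat_lit 0) (XT.lf (nat_lit 608) (nat_lit 4124357413) (nat_lit 0) (nat_lit 3733245047) (nat_lit 532) (nat_lit 3733245047) (nat_lit 316) (nat_lit 1) (nat_lit 308) (nat_lit 1) (nat_lit 315) (nat_lit 1) (nat_lit 271) (nat_lit 389) (nat_lit 360)) (XT.nd (nat_lit 78) (nat_lit 456) (nat_lit 0) (XT.lf (nat_lit 76) (nat_lit 1256934148) (nat_lit 0) (nat_lit 8930535894) (nat_lit 608) (nat_lit 1256934148) (nat_lit 309) (nat_lit 1) (nat_lit 308) (nat_lit 1) (nat_lit 316) (nat_lit 1) (nat_lit 272) (nat_lit 389) (nat_lit 359)) (XT.lf (nat_lit 532) (nat_lit 862732356) (nat_lit 0) (nat_lit 5218471866) (nat_lit 456) (nat_lit 5218471866) (nat_lit 309) (nat_lit 1) (nat_lit 302) (nat_lit 1) (nat_lit 308) (nat_lit 1) (nat_lit 273) (nat_lit 389) (nat_lit 358))))))))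
noncomputable def ec116 : XT := (XT.nd (nat_lit 1716) (nat_lit 3876) (nat_lit 0) (XT.nd (nat_lit 858) (nat_lit 2584) (nat_lit 0) (XT.nd (nat_lit 390) (nat_lit 1292) (nat_lit 0) (XT.nd (nat_lit 156) (nat_lit 912) (nat_lit 0) (XT.nd (nat_lit 78) (nat_lit 0) (nat_lit 0) (XT.lf (nat_lit 608) (nat_lit 10416968044) (nat_lit 0) (nat_lit 370756221) (nat_lit 532) (nat_lit 370756221) (nat_lit 302) (nat_lit 1) (nat_lit 294) (nat_lit 1) (nat_lit 301) (nat_lit 1) (nat_lit 274) (nat_lit 389) (nat_lit 357)) (XT.lf (nat_lit 76) (nat_lit 4317665272) (nat_lit 0) (nat_lit 2382821259) (nat_lit 608) (nat_lit 4317665272) (nat_lit 295) (nat_lit 1) (nat_lit 294) (nat_lit 1) (nat_lit 302) (nat_lit 1) (nat_lit 275) (nat_lit 389) (nat_lit 356))) (XT.nd (nat_lit 78) (nat_lit 456) (nat_lit 0) (XT.lf (nat_lit 532) (nat_lit 6882224406) (nat_lit 0) (nat_lit 1999502770) (nat_lit 456) (nat_lit 1999502770) (nat_lit 295) (nat_lit 1) (nat_lit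 288) (nat_lit 1) (nat_lit 294) (nat_lit 1) (nat_lit 276) (nat_lit 389) (nat_lit 355)) (XT.nd (nat_lit 78) (nat_lit 456) (nat_lit 0) (XT.lf (nat_lit 76) (nat_lit 2556019388) (nat_lit 0) (nat_lit 5634272644) (nat_lit 532) (nat_lit 2556019388) (nat_lit 289) (nat_lit 1) (nat_lit 288) (nat_lit 1) (nat_lit 295) (nat_lit 1) (nat_lit 277) (nat_lit 389) (nat_lit 354)) (XT.lf (nat_lit 532) (nat_lit 3338173984) (nat_lit 0) (nat_lit 3637769851) (nat_lit 456) (nat_lit 3637769851) (nat_lit 289) (nat_lit 1) (nat_lit 282) (nat_lit 1) (nat_lit 288) (nat_lit 1) (nat_lit 278) (nat_lit 389) (nat_lit 353))))) (XT.nd (nat_lit 234) (nat_lit 380) (nat_lit 0) (XT.nd (nat_lit 78) (nat_lit 912) (nat_lit 0) (XT.lf (nat_lit 76) (nat_lit 791461964) (nat_lit 0) (nat_lit 8901091438) (nat_lit 532) (nat_lit 791461964) (nat_lit 283) (nat_lit 1) (nat_lit 282) (nat_lit 1) (nat_lit 289) (nat_lit 1) (nat_lit 279) (nat_lit 389) (nat_lit 352))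 (XT.nd (nat_lit 78) (nat_lit 456) (nat_lit 0) (XT.lf (nat_lit 76) (nat_lit 5075546426) (nat_lit 0) (nat_lit 204399980) (nat_lit 456) (nat_lit 5075546426) (nat_lit 277) (nat_lit 1) (nat_lit 276) (nat_lit 1) (nat_lit 282) (nat_lit 1) (nat_lit 280) (nat_lit 389) (nat_lit 351)) (XT.lf (nat_lit 532) (nat_lit 8303219851) (nat_lit 0) (nat_lit 963272304) (nat_lit 456) (nat_lit 963272304) (nat_lit 277) (nat_lit 1) (nat_lit 270) (nat_lit 1) (nat_lit 276) (nat_lit 1) (nat_lit 281) (nat_lit 389) (nat_lit 350)))) (XT.nd (nat_lit 78) (nat_lit 380) (nat_lit 0) (XT.lf (nat_lit 76) (nat_lit 3213479148) (nat_lit 0) (nat_lit 3678345315) (nat_lit 532) (nat_lit 3213479148) (nat_lit 271) (nat_lit 1) (nat_lit 270) (nat_lit 1) (nat_lit 277) (nat_lit 1) (nat_lit 282) (nat_lit 389) (nat_lit 349)) (XT.nd (nat_lit 78) (nat_lit 0) (nat_lit 0) (XT.lf (nat_lit 456) (nat_lit 4569282926) (nat_lit 0) (nat_lit 2707067276) (nat_lit 380)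 (nat_lit 2707067276) (nat_lit 271) (nat_lit 1) (nat_lit 265) (nat_lit 1) (nat_lit 270) (nat_lit 1) (nat_lit 283) (nat_lit 389) (nat_lit 348)) (XT.lf (nat_lit 76) (nat_lit 1360237090) (nat_lit 0) (nat_lit 7143289566) (nat_lit 456) (nat_lit 1360237090) (nat_lit 266) (nat_lit 1) (nat_lit 265) (nat_lit 1) (nat_lit 271) (nat_lit 1) (nat_lit 284) (nat_lit 389) (nat_lit 347)))))) (XT.nd (nat_lit 390) (nat_lit 1368) (nat_lit 0) (XT.nd (nat_lit 156) (nat_lit 380) (nat_lit 0) (XT.nd (nat_lit 78) (nat_lit 456) (nat_lit 0) (XT.lf (nat_lit 456) (nat_lit 855481984) (nat_lit 0) (nat_lit 4445036658) (nat_lit 380) (nat_lit 4445036658) (nat_lit 266) (nat_lit 1) (nat_lit 260) (nat_lit 1) (nat_lit 265) (nat_lit 1) (nat_lit 285) (nat_lit 389) (nat_lit 346)) (XT.lf (nat_lit 456) (nat_lit 8675771991) (nat_lit 0) (nat_lit 477106260) (nat_lit 380) (nat_lit 477106260) (nat_lit 260) (nat_lit 1) (nat_lit 254) (nat_lit 1) (nat_lit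 259) (nat_lit 1) (nat_lit 286) (nat_lit 389) (nat_lit 345))) (XT.nd (nat_lit 78) (nat_lit 380) (nat_lit 0) (XT.lf (nat_lit 76) (nat_lit 3368325725) (nat_lit 0) (nat_lit 2778386990) (nat_lit 456) (nat_lit 3368325725) (nat_lit 255) (nat_lit 1) (nat_lit 254) (nat_lit 1) (nat_lit 260) (nat_lit 1) (nat_lit 287) (nat_lit 389) (nat_lit 344)) (XT.nd (nat_lit 78) (nat_lit 0) (nat_lit 0) (XT.lf (nat_lit 456) (nat_lit 4826771062) (nat_lit 0) (nat_lit 2287937941) (nat_lit 380) (nat_lit 2287937941) (nat_lit 255) (nat_lit 1) (nat_lit 249) (nat_lit 1) (nat_lit 254) (nat_lit 1) (nat_lit 288) (nat_lit 389) (nat_lit 343)) (XT.lf (nat_lit 76) (nat_lit 1462364222) (nat_lit 0) (nat_lit 6367408603) (nat_lit 456) (nat_lit 1462364222) (nat_lit 250) (nat_lit 1) (nat_lit 249) (nat_lit 1) (nat_lit 255) (nat_lit 1) (nat_lit 289) (nat_lit 389) (nat_lit 342))))) (XT.nd (nat_lit 234) (nat_lit 608) (nat_lit 0) (XT.nd (nat_lit 78) (nat_lit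 456) (nat_lit 0) (XT.lf (nat_lit 380) (nat_lit 1015659551) (nat_lit 0) (nat_lit 4083684057) (nat_lit 304) (nat_lit 4083684057) (nat_lit 250) (nat_lit 1) (nat_lit 245) (nat_lit 1) (nat_lit 249) (nat_lit 1) (nat_lit 290) (nat_lit 389) (nat_lit 341)) (XT.nd (nat_lit 78) (nat_lit 0) (nat_lit 0) (XT.lf (nat_lit 456) (nat_lit 8236762794) (nat_lit 0) (nat_lit 419774530) (nat_lit 380) (nat_lit 419774530) (nat_lit 245) (nat_lit 1) (nat_lit 239) (nat_lit 1) (nat_lit 244) (nat_lit 1) (nat_lit 291) (nat_lit 389) (nat_lit 340)) (XT.lf (nat_lit 76) (nat_lit 3134693624) (nat_lit 0) (nat_lit 2700657355) (nat_lit 456) (nat_lit 3134693624) (nat_lit 240) (nat_lit 1) (nat_lit 239) (nat_lit 1) (nat_lit 245) (nat_lit 1) (nat_lit 292) (nat_lit 389) (nat_lit 339)))) (XT.nd (nat_lit 78) (nat_lit 304) (nat_lit 0) (XT.lf (nat_lit 380) (nat_lit 4332836869) (nat_lit 0) (nat_lit 2266632234) (nat_lit 304) (nat_lit 2266632234) (nat_lit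 240) (nat_lit 1) (nat_lit 235) (nat_lit 1) (nat_lit 239) (nat_lit 1) (nat_lit 293) (nat_lit 389) (nat_lit 338)) (XT.nd (nat_lit 78) (nat_lit 304) (nat_lit 0) (XT.lf (nat_lit 76) (nat_lit 1204895748) (nat_lit 0) (nat_lit 6354144555) (nat_lit 380) (nat_lit 1204895748) (nat_lit 236) (nat_lit 1) (nat_lit 235) (nat_lit 1) (nat_lit 240) (nat_lit 1) (nat_lit 294) (nat_lit 389) (nat_lit 337)) (XT.lf (nat_lit 380) (nat_lit 480461618) (nat_lit 0) (nat_lit 4091235200) (nat_lit 304) (nat_lit 4091235200) (nat_lit 236) (nat_lit 1) (nat_lit 231) (nat_lit 1) (nat_lit 235) (nat_lit 1) (nat_lit 295) (nat_lit 389) (nat_lit 336))))))) (XT.nd (nat_lit 858) (nat_lit 1748) (nat_lit 0) (XT.nd (nat_lit 390) (nat_lit 1140) (nat_lit 0) (XT.nd (nat_lit 156) (nat_lit 608) (nat_lit 0) (XT.nd (nat_lit 78) (nat_lit 0) (nat_lit 0) (XT.lf (nat_lit 380) (nat_lit 7180190326) (nat_lit 0) (nat_lit 691865462) (nat_lit 304) (nat_lit 691865462)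 (nat_lit 231) (nat_lit 1) (nat_lit 226) (nat_lit 1) (nat_lit 230) (nat_lit 1) (nat_lit 296) (nat_lit 389) (nat_lit 335)) (XT.lf (nat_lit 76) (nat_lit 2606022321) (nat_lit 0) (nat_lit 3253544517) (nat_lit 380) (nat_lit 2606022321) (nat_lit 227) (nat_lit 1) (nat_lit 226) (nat_lit 1) (nat_lit 231) (nat_lit 1) (nat_lit 297) (nat_lit 389) (nat_lit 334))) (XT.nd (nat_lit 78) (nat_lit 304) (nat_lit 0) (XT.lf (nat_lit 380) (nat_lit 3269326096) (nat_lit 0) (nat_lit 2549932980) (nat_lit 304) (nat_lit 2549932980) (nat_lit 227) (nat_lit 1) (nat_lit 222) (nat_lit 1) (nat_lit 226) (nat_lit 1) (nat_lit 298) (nat_lit 389) (nat_lit 333)) (XT.nd (nat_lit 78) (nat_lit 304) (nat_lit 0) (XT.lf (nat_lit 76) (nat_lit 675411009) (nat_lit 0) (nat_lit 6923837815) (nat_lit 380) (nat_lit 675411009) (nat_lit 223) (nat_lit 1) (nat_lit 222) (nat_lit 1) (nat_lit 227) (nat_lit 1) (nat_lit 299) (nat_lit 389) (nat_lit 332)) (XT.lf (nat_lit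 76) (nat_lit 3806182181) (nat_lit 0) (nat_lit 568372336) (nat_lit 304) (nat_lit 3806182181) (nat_lit 219) (nat_lit 1) (nat_lit 218) (nat_lit 1) (nat_lit 222) (nat_lit 1) (nat_lit 300) (nat_lit 389) (nat_lit 331))))) (XT.nd (nat_lit 234) (nat_lit 608) (nat_lit 0) (XT.nd (nat_lit 78) (nat_lit 228) (nat_lit 0) (XT.lf (nat_lit 380) (nat_lit 5664406485) (nat_lit 0) (nat_lit 1212110091) (nat_lit 304) (nat_lit 1212110091) (nat_lit 219) (nat_lit 1) (nat_lit 214) (nat_lit 1) (nat_lit 218) (nat_lit 1) (nat_lit 301) (nat_lit 389) (nat_lit 330)) (XT.nd (nat_lit 78) (nat_lit 228) (nat_lit 0) (XT.lf (nat_lit 76) (nat_lit 1858551006) (nat_lit 0) (nat_lit 4280463947) (nat_lit 380) (nat_lit 1858551006) (nat_lit 215) (nat_lit 1) (nat_lit 214) (nat_lit 1) (nat_lit 219) (nat_lit 1) (nat_lit 302) (nat_lit 389) (nat_lit 329)) (XT.lf (nat_lit 304) (nat_lit 1784549812) (nat_lit 0) (nat_lit 3061692700) (nat_lit 228) (nat_lit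 3061692700) (nat_lit 215) (nat_lit 1) (nat_lit 211) (nat_lit 1) (nat_lit 214) (nat_lit 1) (nat_lit 303) (nat_lit 389) (nat_lit 328)))) (XT.nd (nat_lit 78) (nat_lit 228) (nat_lit 0) (XT.lf (nat_lit 380) (nat_lit 7712026158) (nat_lit 0) (nat_lit 54155441) (nat_lit 304) (nat_lit 54155441) (nat_lit 211) (nat_lit 1) (nat_lit 206) (nat_lit 1) (nat_lit 210) (nat_lit 1) (nat_lit 304) (nat_lit 389) (nat_lit 327)) (XT.nd (nat_lit 78) (nat_lit 228) (nat_lit 0) (XT.lf (nat_lit 76) (nat_lit 2873101479) (nat_lit 0) (nat_lit 1986363695) (nat_lit 380) (nat_lit 2873101479) (nat_lit 207) (nat_lit 1) (nat_lit 206) (nat_lit 1) (nat_lit 211) (nat_lit 1) (nat_lit 305) (nat_lit 389) (nat_lit 326)) (XT.lf (nat_lit 304) (nat_lit 3818162592) (nat_lit 0) (nat_lit 1914311443) (nat_lit 228) (nat_lit 1914311443) (nat_lit 207) (nat_lit 1) (nat_lit 203) (nat_lit 1) (nat_lit 206) (nat_lit 1) (nat_lit 306) (nat_lit 389) (nat_lit 325))))))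 (XT.nd (nat_lit 390) (nat_lit 988) (nat_lit 0) (XT.nd (nat_lit 156) (nat_lit 456) (nat_lit 0) (XT.nd (nat_lit 78) (nat_lit 304) (nat_lit 0) (XT.lf (nat_lit 76) (nat_lit 954237575) (nat_lit 0) (nat_lit 5653926556) (nat_lit 304) (nat_lit 954237575) (nat_lit 204) (nat_lit 1) (nat_lit 203) (nat_lit 1) (nat_lit 207) (nat_lit 1) (nat_lit 307) (nat_lit 389) (nat_lit 324)) (XT.lf (nat_lit 76) (nat_lit 3738929939) (nat_lit 0) (nat_lit 1001056) (nat_lit 304) (nat_lit 3738929939) (nat_lit 200) (nat_lit 1) (nat_lit 199) (nat_lit 1) (nat_lit 203) (nat_lit 1) (nat_lit 308) (nat_lit 389) (nat_lit 323))) (XT.nd (nat_lit 78) (nat_lit 228) (nat_lit 0) (XT.lf (nat_lit 304) (nat_lit 5559973638) (nat_lit 0) (nat_lit 918352702) (nat_lit 228) (nat_lit 918352702) (nat_lit 200) (nat_lit 1) (nat_lit 196) (nat_lit 1) (nat_lit 199) (nat_lit 1) (nat_lit 309) (nat_lit 389) (nat_lit 322)) (XT.nd (nat_lit 78) (nat_lit 228) (nat_lit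 0) (XT.lf (nat_lit 76) (nat_lit 1821449458) (nat_lit 0) (nat_lit 3672388506) (nat_lit 304) (nat_lit 1821449458) (nat_lit 197) (nat_lit 1) (nat_lit 196) (nat_lit 1) (nat_lit 200) (nat_lit 1) (nat_lit 310) (nat_lit 389) (nat_lit 321)) (XT.lf (nat_lit 304) (nat_lit 1745657514) (nat_lit 0) (nat_lit 2744780131) (nat_lit 228) (nat_lit 2744780131) (nat_lit 197) (nat_lit 1) (nat_lit 193) (nat_lit 1) (nat_lit 196) (nat_lit 1) (nat_lit 311) (nat_lit 389) (nat_lit 320))))) (XT.nd (nat_lit 234) (nat_lit 456) (nat_lit 0) (XT.nd (nat_lit 78) (nat_lit 228) (nat_lit 0) (XT.lf (nat_lit 304) (nat_lit 7044416630) (nat_lit 0) (nat_lit 56247181) (nat_lit 228) (nat_lit 56247181) (nat_lit 193) (nat_lit 1) (nat_lit 189) (nat_lit 1) (nat_lit 192) (nat_lit 1) (nat_lit 312) (nat_lit 389) (nat_lit 319)) (XT.nd (nat_lit 78) (nat_lit 228) (nat_lit 0) (XT.lf (nat_lit 76) (nat_lit 2563598069) (nat_lit 0) (nat_lit 1951168643) (nat_lit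 304) (nat_lit 2563598069) (nat_lit 190) (nat_lit 1) (nat_lit 189) (nat_lit 1) (nat_lit 193) (nat_lit 1) (nat_lit 313) (nat_lit 389) (nat_lit 318)) (XT.lf (nat_lit 304) (nat_lit 3246687917) (nat_lit 0) (nat_lit 1877430625) (nat_lit 228) (nat_lit 1877430625) (nat_lit 190) (nat_lit 1) (nat_lit 186) (nat_lit 1) (nat_lit 189) (nat_lit 1) (nat_lit 314) (nat_lit 389) (nat_lit 317)))) (XT.nd (nat_lit 78) (nat_lit 456) (nat_lit 0) (XT.lf (nat_lit 76) (nat_lit 694403177) (nat_lit 0) (nat_lit 5537228273) (nat_lit 304) (nat_lit 694403177) (nat_lit 187) (nat_lit 1) (nat_lit 186) (nat_lit 1) (nat_lit 190) (nat_lit 1) (nat_lit 315) (nat_lit 389) (nat_lit 316)) (XT.nd (nat_lit 78) (nat_lit 228) (nat_lit 0) (XT.lf (nat_lit 76) (nat_lit 3195455542) (nat_lit 0) (nat_lit 460091972) (nat_lit 228) (nat_lit 3195455542) (nat_lit 184) (nat_lit 1) (nat_lit 183) (nat_lit 1) (nat_lit 186) (nat_lit 1) (nat_lit 316) (nat_lit 389)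 (nat_lit 315)) (XT.lf (nat_lit 304) (nat_lit 4530944848) (nat_lit 0) (nat_lit 1123149521) (nat_lit 228) (nat_lit 1123149521) (nat_lit 184) (nat_lit 1) (nat_lit 180) (nat_lit 1) (nat_lit 183) (nat_lit 1) (nat_lit 317) (nat_lit 389) (nat_lit 314))))))))
noncomputable def ec117 : XT := (XT.nd (nat_lit 1716) (nat_lit 2128) (nat_lit 0) (XT.nd (nat_lit 858) (nat_lit 1216) (nat_lit 0) (XT.nd (nat_lit 390) (nat_lit 760) (nat_lit 0) (XT.nd (nat_lit 156) (nat_lit 456) (nat_lit 0) (XT.nd (nat_lit 78) (nat_lit 152) (nat_lit 0) (XT.lf (nat_lit 76) (nat_lit 1340145772) (nat_lit 0) (nat_lit 4024034880) (nat_lit 304) (nat_lit 1340145772) (nat_lit 181) (nat_lit 1) (nat_lit 180) (nat_lit 1) (nat_lit 184) (nat_lit 1) (nat_lit 318) (nat_lit 389) (nat_lit 313)) (XT.lf (nat_lit 228) (nat_lit 844089444) (nat_lit 0) (nat_lit 2894147129) (nat_lit 152) (nat_lit 2894147129) (nat_lit 181) (nat_lit 1) (nat_lit 178) (nat_lit 1) (nat_lit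 180) (nat_lit 1) (nat_lit 319) (nat_lit 389) (nat_lit 312))) (XT.nd (nat_lit 78) (nat_lit 152) (nat_lit 0) (XT.lf (nat_lit 304) (nat_lit 5624039876) (nat_lit 0) (nat_lit 468852082) (nat_lit 228) (nat_lit 468852082) (nat_lit 178) (nat_lit 1) (nat_lit 174) (nat_lit 1) (nat_lit 177) (nat_lit 1) (nat_lit 320) (nat_lit 389) (nat_lit 311)) (XT.nd (nat_lit 78) (nat_lit 152) (nat_lit 0) (XT.lf (nat_lit 76) (nat_lit 1892816281) (nat_lit 0) (nat_lit 2705671102) (nat_lit 304) (nat_lit 1892816281) (nat_lit 175) (nat_lit 1) (nat_lit 174) (nat_lit 1) (nat_lit 178) (nat_lit 1) (nat_lit 321) (nat_lit 389) (nat_lit 310)) (XT.lf (nat_lit 228) (nat_lit 1974244907) (nat_lit 0) (nat_lit 2223948719) (nat_lit 152) (nat_lit 2223948719) (nat_lit 175) (nat_lit 1) (nat_lit 172) (nat_lit 1) (nat_lit 174) (nat_lit 1) (nat_lit 322) (nat_lit 389) (nat_lit 309))))) (XT.nd (nat_lit 234) (nat_lit 380) (nat_lit 0) (XT.nd (nat_lit 78)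 (nat_lit 380) (nat_lit 0) (XT.lf (nat_lit 76) (nat_lit 98034568) (nat_lit 0) (nat_lit 6158356967) (nat_lit 228) (nat_lit 98034568) (nat_lit 173) (nat_lit 1) (nat_lit 172) (nat_lit 1) (nat_lit 175) (nat_lit 1) (nat_lit 323) (nat_lit 389) (nat_lit 308)) (XT.nd (nat_lit 78) (nat_lit 152) (nat_lit 0) (XT.lf (nat_lit 76) (nat_lit 2363406944) (nat_lit 0) (nat_lit 1559651042) (nat_lit 228) (nat_lit 2363406944) (nat_lit 170) (nat_lit 1) (nat_lit 169) (nat_lit 1) (nat_lit 172) (nat_lit 1) (nat_lit 324) (nat_lit 389) (nat_lit 307)) (XT.lf (nat_lit 228) (nat_lit 2942714689) (nat_lit 0) (nat_lit 1638606409) (nat_lit 152) (nat_lit 1638606409) (nat_lit 170) (nat_lit 1) (nat_lit 167) (nat_lit 1) (nat_lit 169) (nat_lit 1) (nat_lit 325) (nat_lit 389) (nat_lit 306)))) (XT.nd (nat_lit 78) (nat_lit 380) (nat_lit 0) (XT.lf (nat_lit 76) (nat_lit 590721877) (nat_lit 0) (nat_lit 4973035696) (nat_lit 228) (nat_lit 590721877)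 (nat_lit 168) (nat_lit 1) (nat_lit 167) (nat_lit 1) (nat_lit 170) (nat_lit 1) (nat_lit 326) (nat_lit 389) (nat_lit 305)) (XT.nd (nat_lit 78) (nat_lit 152) (nat_lit 0) (XT.lf (nat_lit 76) (nat_lit 2761666357) (nat_lit 0) (nat_lit 566018402) (nat_lit 228) (nat_lit 2761666357) (nat_lit 165) (nat_lit 1) (nat_lit 164) (nat_lit 1) (nat_lit 167) (nat_lit 1) (nat_lit 327) (nat_lit 389) (nat_lit 304)) (XT.lf (nat_lit 228) (nat_lit 3768567440) (nat_lit 0) (nat_lit 1128362878) (nat_lit 152) (nat_lit 1128362878) (nat_lit 165) (nat_lit 1) (nat_lit 162) (nat_lit 1) (nat_lit 164) (nat_lit 1) (nat_lit 328) (nat_lit 389) (nat_lit 303)))))) (XT.nd (nat_lit 390) (nat_lit 684) (nat_lit 0) (XT.nd (nat_lit 156) (nat_lit 380) (nat_lit 0) (XT.nd (nat_lit 78) (nat_lit 152) (nat_lit 0) (XT.lf (nat_lit 76) (nat_lit 1013799642) (nat_lit 0) (nat_lit 3934414984) (nat_lit 228) (nat_lit 1013799642) (nat_lit 163) (nat_lit 1) (nat_lit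 162) (nat_lit 1) (nat_lit 165) (nat_lit 1) (nat_lit 329) (nat_lit 389) (nat_lit 302)) (XT.lf (nat_lit 228) (nat_lit 298766245) (nat_lit 0) (nat_lit 2800344348) (nat_lit 152) (nat_lit 2800344348) (nat_lit 163) (nat_lit 1) (nat_lit 160) (nat_lit 1) (nat_lit 162) (nat_lit 1) (nat_lit 330) (nat_lit 389) (nat_lit 301))) (XT.nd (nat_lit 78) (nat_lit 152) (nat_lit 0) (XT.lf (nat_lit 228) (nat_lit 4468715158) (nat_lit 0) (nat_lit 684557461) (nat_lit 152) (nat_lit 684557461) (nat_lit 160) (nat_lit 1) (nat_lit 157) (nat_lit 1) (nat_lit 159) (nat_lit 1) (nat_lit 331) (nat_lit 389) (nat_lit 300)) (XT.nd (nat_lit 78) (nat_lit 152) (nat_lit 0) (XT.lf (nat_lit 76) (nat_lit 1375457469) (nat_lit 0) (nat_lit 3025712851) (nat_lit 228) (nat_lit 1375457469) (nat_lit 158) (nat_lit 1) (nat_lit 157) (nat_lit 1) (nat_lit 160) (nat_lit 1) (nat_lit 332) (nat_lit 389) (nat_lit 299)) (XT.lf (nat_lit 228) (nat_lit 1053483883) (nat_lit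 0) (nat_lit 2331430105) (nat_lit 152) (nat_lit 2331430105) (nat_lit 158) (nat_lit 1) (nat_lit 155) (nat_lit 1) (nat_lit 157) (nat_lit 1) (nat_lit 333) (nat_lit 389) (nat_lit 298))))) (XT.nd (nat_lit 234) (nat_lit 304) (nat_lit 0) (XT.nd (nat_lit 78) (nat_lit 152) (nat_lit 0) (XT.lf (nat_lit 228) (nat_lit 5058154567) (nat_lit 0) (nat_lit 299503600) (nat_lit 152) (nat_lit 299503600) (nat_lit 155) (nat_lit 1) (nat_lit 152) (nat_lit 1) (nat_lit 154) (nat_lit 1) (nat_lit 334) (nat_lit 389) (nat_lit 297)) (XT.nd (nat_lit 78) (nat_lit 152) (nat_lit 0) (XT.lf (nat_lit 76) (nat_lit 1682959270) (nat_lit 0) (nat_lit 2232031044) (nat_lit 228) (nat_lit 1682959270) (nat_lit 153) (nat_lit 1) (nat_lit 152) (nat_lit 1) (nat_lit 155) (nat_lit 1) (nat_lit 335) (nat_lit 389) (nat_lit 296)) (XT.lf (nat_lit 228) (nat_lit 1701088284) (nat_lit 0) (nat_lit 1919368192) (nat_lit 152) (nat_lit 1919368192) (nat_lit 153) (nat_lit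 1) (nat_lit 150) (nat_lit 1) (nat_lit 152) (nat_lit 1) (nat_lit 336) (nat_lit 389) (nat_lit 295)))) (XT.nd (nat_lit 78) (nat_lit 304) (nat_lit 0) (XT.lf (nat_lit 76) (nat_lit 33952885) (nat_lit 0) (nat_lit 5414996383) (nat_lit 228) (nat_lit 33952885) (nat_lit 151) (nat_lit 1) (nat_lit 150) (nat_lit 1) (nat_lit 153) (nat_lit 1) (nat_lit 337) (nat_lit 389) (nat_lit 294)) (XT.nd (nat_lit 78) (nat_lit 152) (nat_lit 0) (XT.lf (nat_lit 76) (nat_lit 1942746857) (nat_lit 0) (nat_lit 1540144620) (nat_lit 152) (nat_lit 1942746857) (nat_lit 149) (nat_lit 1) (nat_lit 148) (nat_lit 1) (nat_lit 150) (nat_lit 1) (nat_lit 338) (nat_lit 389) (nat_lit 293)) (XT.lf (nat_lit 228) (nat_lit 2254192479) (nat_lit 0) (nat_lit 1557685954) (nat_lit 152) (nat_lit 1557685954) (nat_lit 149) (nat_lit 1) (nat_lit 146) (nat_lit 1) (nat_lit 148) (nat_lit 1) (nat_lit 339) (nat_lit 389) (nat_lit 292))))))) (XT.nd (nat_lit 858) (nat_lit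 1140) (nat_lit 0) (XT.nd (nat_lit 390) (nat_lit 532) (nat_lit 0) (XT.nd (nat_lit 156) (nat_lit 304) (nat_lit 0) (XT.nd (nat_lit 78) (nat_lit 152) (nat_lit 0) (XT.lf (nat_lit 76) (nat_lit 324043067) (nat_lit 0) (nat_lit 4666387466) (nat_lit 228) (nat_lit 324043067) (nat_lit 147) (nat_lit 1) (nat_lit 146) (nat_lit 1) (nat_lit 149) (nat_lit 1) (nat_lit 340) (nat_lit 389) (nat_lit 291)) (XT.lf (nat_lit 76) (nat_lit 2160531967) (nat_lit 0) (nat_lit 938315000) (nat_lit 152) (nat_lit 2160531967) (nat_lit 145) (nat_lit 1) (nat_lit 144) (nat_lit 1) (nat_lit 146) (nat_lit 1) (nat_lit 341) (nat_lit 389) (nat_lit 290))) (XT.nd (nat_lit 78) (nat_lit 152) (nat_lit 0) (XT.lf (nat_lit 228) (nat_lit 2723983512) (nat_lit 0) (nat_lit 1240636392) (nat_lit 152) (nat_lit 1240636392) (nat_lit 145) (nat_lit 1) (nat_lit 142) (nat_lit 1) (nat_lit 144) (nat_lit 1) (nat_lit 342) (nat_lit 389) (nat_lit 289)) (XT.nd (nat_lit 78)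 (nat_lit 152) (nat_lit 0) (XT.lf (nat_lit 76) (nat_lit 573224931) (nat_lit 0) (nat_lit 4005474646) (nat_lit 228) (nat_lit 573224931) (nat_lit 143) (nat_lit 1) (nat_lit 142) (nat_lit 1) (nat_lit 145) (nat_lit 1) (nat_lit 343) (nat_lit 389) (nat_lit 288)) (XT.lf (nat_lit 76) (nat_lit 2341378016) (nat_lit 0) (nat_lit 416123883) (nat_lit 152) (nat_lit 2341378016) (nat_lit 141) (nat_lit 1) (nat_lit 140) (nat_lit 1) (nat_lit 142) (nat_lit 1) (nat_lit 344) (nat_lit 389) (nat_lit 287))))) (XT.nd (nat_lit 234) (nat_lit 304) (nat_lit 0) (XT.nd (nat_lit 78) (nat_lit 76) (nat_lit 0) (XT.lf (nat_lit 228) (nat_lit 3120382021) (nat_lit 0) (nat_lit 963117130) (nat_lit 152) (nat_lit 963117130) (nat_lit 141) (nat_lit 1) (nat_lit 138) (nat_lit 1) (nat_lit 140) (nat_lit 1) (nat_lit 345) (nat_lit 389) (nat_lit 286)) (XT.nd (nat_lit 78) (nat_lit 76) (nat_lit 0) (XT.lf (nat_lit 76) (nat_lit 786309589) (nat_lit 0) (nat_lit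 3422355859) (nat_lit 228) (nat_lit 786309589) (nat_lit 139) (nat_lit 1) (nat_lit 138) (nat_lit 1) (nat_lit 141) (nat_lit 1) (nat_lit 346) (nat_lit 389) (nat_lit 285)) (XT.lf (nat_lit 152) (nat_lit 36384299) (nat_lit 0) (nat_lit 2453738176) (nat_lit 76) (nat_lit 2453738176) (nat_lit 139) (nat_lit 1) (nat_lit 137) (nat_lit 1) (nat_lit 138) (nat_lit 1) (nat_lit 347) (nat_lit 389) (nat_lit 284)))) (XT.nd (nat_lit 78) (nat_lit 76) (nat_lit 0) (XT.lf (nat_lit 228) (nat_lit 3452184013) (nat_lit 0) (nat_lit 720598420) (nat_lit 152) (nat_lit 720598420) (nat_lit 137) (nat_lit 1) (nat_lit 134) (nat_lit 1) (nat_lit 136) (nat_lit 1) (nat_lit 348) (nat_lit 389) (nat_lit 283)) (XT.nd (nat_lit 78) (nat_lit 76) (nat_lit 0) (XT.lf (nat_lit 76) (nat_lit 967564393) (nat_lit 0) (nat_lit 2908236831) (nat_lit 228) (nat_lit 967564393) (nat_lit 135) (nat_lit 1) (nat_lit 134) (nat_lit 1) (nat_lit 137) (nat_lit 1) (nat_lit 349)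 (nat_lit 389) (nat_lit 282)) (XT.lf (nat_lit 152) (nat_lit 433747509) (nat_lit 0) (nat_lit 2180114588) (nat_lit 76) (nat_lit 2180114588) (nat_lit 135) (nat_lit 1) (nat_lit 133) (nat_lit 1) (nat_lit 134) (nat_lit 1) (nat_lit 350) (nat_lit 389) (nat_lit 281)))))) (XT.nd (nat_lit 468) (nat_lit 532) (nat_lit 0) (XT.nd (nat_lit 234) (nat_lit 304) (nat_lit 0) (XT.nd (nat_lit 78) (nat_lit 76) (nat_lit 0) (XT.lf (nat_lit 228) (nat_lit 3727186804) (nat_lit 0) (nat_lit 509059183) (nat_lit 152) (nat_lit 509059183) (nat_lit 133) (nat_lit 1) (nat_lit 130) (nat_lit 1) (nat_lit 132) (nat_lit 1) (nat_lit 351) (nat_lit 389) (nat_lit 280)) (XT.nd (nat_lit 78) (nat_lit 76) (nat_lit 0) (XT.lf (nat_lit 76) (nat_lit 1120773778) (nat_lit 0) (nat_lit 2455307433) (nat_lit 228) (nat_lit 1120773778) (nat_lit 131) (nat_lit 1) (nat_lit 130) (nat_lit 1) (nat_lit 133) (nat_lit 1) (nat_lit 352) (nat_lit 389) (nat_lit 279)) (XT.lf (nat_lit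 152) (nat_lit 775107714) (nat_lit 0) (nat_lit 1937003575) (nat_lit 76) (nat_lit 1937003575) (nat_lit 131) (nat_lit 1) (nat_lit 129) (nat_lit 1) (nat_lit 130) (nat_lit 1) (nat_lit 353) (nat_lit 389) (nat_lit 278)))) (XT.nd (nat_lit 78) (nat_lit 76) (nat_lit 0) (XT.lf (nat_lit 228) (nat_lit 3952300911) (nat_lit 0) (nat_lit 324930180) (nat_lit 152) (nat_lit 324930180) (nat_lit 129) (nat_lit 1) (nat_lit 126) (nat_lit 1) (nat_lit 128) (nat_lit 1) (nat_lit 354) (nat_lit 389) (nat_lit 277)) (XT.nd (nat_lit 78) (nat_lit 76) (nat_lit 0) (XT.lf (nat_lit 76) (nat_lit 1249293323) (nat_lit 0) (nat_lit 2056631839) (nat_lit 228) (nat_lit 1249293323) (nat_lit 127) (nat_lit 1) (nat_lit 126) (nat_lit 1) (nat_lit 129) (nat_lit 1) (nat_lit 355) (nat_lit 389) (nat_lit 276)) (XT.lf (nat_lit 152) (nat_lit 1067050515) (nat_lit 0) (nat_lit 1721002588) (nat_lit 76) (nat_lit 1721002588) (nat_lit 127) (nat_lit 1) (nat_lit 125)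 (nat_lit 1) (nat_lit 126) (nat_lit 1) (nat_lit 356) (nat_lit 389) (nat_lit 275))))) (XT.nd (nat_lit 234) (nat_lit 228) (nat_lit 0) (XT.nd (nat_lit 78) (nat_lit 76) (nat_lit 0) (XT.lf (nat_lit 228) (nat_lit 4133649441) (nat_lit 0) (nat_lit 165043527) (nat_lit 152) (nat_lit 165043527) (nat_lit 125) (nat_lit 1) (nat_lit 122) (nat_lit 1) (nat_lit 124) (nat_lit 1) (nat_lit 357) (nat_lit 389) (nat_lit 274)) (XT.nd (nat_lit 78) (nat_lit 76) (nat_lit 0) (XT.lf (nat_lit 76) (nat_lit 1356097768) (nat_lit 0) (nat_lit 1706050933) (nat_lit 228) (nat_lit 1356097768) (nat_lit 123) (nat_lit 1) (nat_lit 122) (nat_lit 1) (nat_lit 125) (nat_lit 1) (nat_lit 358) (nat_lit 389) (nat_lit 273)) (XT.lf (nat_lit 152) (nat_lit 1315417213) (nat_lit 0) (nat_lit 1529088509) (nat_lit 76) (nat_lit 1529088509) (nat_lit 123) (nat_lit 1) (nat_lit 121) (nat_lit 1) (nat_lit 122) (nat_lit 1) (nat_lit 359) (nat_lit 389) (nat_lit 272)))) (XT.nd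 (nat_lit 78) (nat_lit 0) (nat_lit 0) (XT.lf (nat_lit 228) (nat_lit 4276656389) (nat_lit 0) (nat_lit 26587843) (nat_lit 152) (nat_lit 26587843) (nat_lit 121) (nat_lit 1) (nat_lit 118) (nat_lit 1) (nat_lit 120) (nat_lit 1) (nat_lit 360) (nat_lit 389) (nat_lit 271)) (XT.nd (nat_lit 46176) (nat_lit 0) (nat_lit 13376) (XT.lf (nat_lit 76) (nat_lit 1443823683) (nat_lit 0) (nat_lit 1398095595) (nat_lit 228) (nat_lit 1443823683) (nat_lit 119) (nat_lit 1) (nat_lit 118) (nat_lit 1) (nat_lit 121) (nat_lit 1) (nat_lit 361) (nat_lit 389) (nat_lit 270)) (XT.lf (nat_lit 608) (nat_lit 10729477086) (nat_lit 0) (nat_lit 381878908) (nat_lit 532) (nat_lit 381878908) (nat_lit 302) (nat_lit 1) (nat_lit 294) (nat_lit 1) (nat_lit 301) (nat_lit 1) (nat_lit 272) (nat_lit 390) (nat_lit 358))))))))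
noncomputable def ec118 : XT := (XT.nd (nat_lit 1716) (nat_lit 3496) (nat_lit 0) (XT.nd (nat_lit 858) (nat_lit 2584) (nat_lit 0) (XT.nd (nat_lit 390) (nat_lit 1672) (nat_lit 0) (XT.nd (nat_lit 156) (nat_lit 456) (nat_lit 0) (XT.nd (nat_lit 78) (nat_lit 456) (nat_lit 0) (XT.lf (nat_lit 76) (nat_lit 4447195230) (nat_lit 0) (nat_lit 2454305897) (nat_lit 608) (nat_lit 4447195230) (nat_lit 295) (nat_lit 1) (nat_lit 294) (nat_lit 1) (nat_lit 302) (nat_lit 1) (nat_lit 273) (nat_lit 390) (nat_lit 357)) (XT.lf (nat_lit 532) (nat_lit 7088691138) (nat_lit 0) (nat_lit 2059487853) (nat_lit 456) (nat_lit 2059487853) (nat_lit 295) (nat_lit 1) (nat_lit 288) (nat_lit 1) (nat_lit 294) (nat_lit 1) (nat_lit 274) (nat_lit 390) (nat_lit 356))) (XT.nd (nat_lit 78) (nat_lit 456) (nat_lit 0) (XT.lf (nat_lit 76) (nat_lit 2632699969) (nat_lit 0) (nat_lit 5803300824) (nat_lit 532) (nat_lit 2632699969) (nat_lit 289) (nat_lit 1)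 (nat_lit 288) (nat_lit 1) (nat_lit 295) (nat_lit 1) (nat_lit 275) (nat_lit 390) (nat_lit 355)) (XT.nd (nat_lit 78) (nat_lit 0) (nat_lit 0) (XT.lf (nat_lit 532) (nat_lit 3438319203) (nat_lit 0) (nat_lit 3746902947) (nat_lit 456) (nat_lit 3746902947) (nat_lit 289) (nat_lit 1) (nat_lit 282) (nat_lit 1) (nat_lit 288) (nat_lit 1) (nat_lit 276) (nat_lit 390) (nat_lit 354)) (XT.lf (nat_lit 76) (nat_lit 815205823) (nat_lit 0) (nat_lit 9168124181) (nat_lit 532) (nat_lit 815205823) (nat_lit 283) (nat_lit 1) (nat_lit 282) (nat_lit 1) (nat_lit 289) (nat_lit 1) (nat_lit 277) (nat_lit 390) (nat_lit 353))))) (XT.nd (nat_lit 234) (nat_lit 760) (nat_lit 0) (XT.nd (nat_lit 78) (nat_lit 456) (nat_lit 0) (XT.lf (nat_lit 76) (nat_lit 5227812819) (nat_lit 0) (nat_lit 210531979) (nat_lit 456) (nat_lit 5227812819) (nat_lit 277) (nat_lit 1) (nat_lit 276) (nat_lit 1) (nat_lit 282) (nat_lit 1) (nat_lit 278) (nat_lit 390) (nat_lit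 352)) (XT.nd (nat_lit 78) (nat_lit 0) (nat_lit 0) (XT.lf (nat_lit 532) (nat_lit 8552316446) (nat_lit 0) (nat_lit 992170474) (nat_lit 456) (nat_lit 992170474) (nat_lit 277) (nat_lit 1) (nat_lit 270) (nat_lit 1) (nat_lit 276) (nat_lit 1) (nat_lit 279) (nat_lit 390) (nat_lit 351)) (XT.lf (nat_lit 76) (nat_lit 3309883522) (nat_lit 0) (nat_lit 3788695675) (nat_lit 532) (nat_lit 3309883522) (nat_lit 271) (nat_lit 1) (nat_lit 270) (nat_lit 1) (nat_lit 277) (nat_lit 1) (nat_lit 280) (nat_lit 390) (nat_lit 350)))) (XT.nd (nat_lit 78) (nat_lit 380) (nat_lit 0) (XT.lf (nat_lit 456) (nat_lit 4706361414) (nat_lit 0) (nat_lit 2788279295) (nat_lit 380) (nat_lit 2788279295) (nat_lit 271) (nat_lit 1) (nat_lit 265) (nat_lit 1) (nat_lit 270) (nat_lit 1) (nat_lit 281) (nat_lit 390) (nat_lit 349)) (XT.nd (nat_lit 78) (nat_lit 380) (nat_lit 0) (XT.lf (nat_lit 76) (nat_lit 1401044203) (nat_lit 0) (nat_lit 7357588253) (nat_lit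 456) (nat_lit 1401044203) (nat_lit 266) (nat_lit 1) (nat_lit 265) (nat_lit 1) (nat_lit 271) (nat_lit 1) (nat_lit 282) (nat_lit 390) (nat_lit 348)) (XT.lf (nat_lit 456) (nat_lit 881146444) (nat_lit 0) (nat_lit 4578387758) (nat_lit 380) (nat_lit 4578387758) (nat_lit 266) (nat_lit 1) (nat_lit 260) (nat_lit 1) (nat_lit 265) (nat_lit 1) (nat_lit 283) (nat_lit 390) (nat_lit 347)))))) (XT.nd (nat_lit 390) (nat_lit 1444) (nat_lit 0) (XT.nd (nat_lit 156) (nat_lit 684) (nat_lit 0) (XT.nd (nat_lit 78) (nat_lit 0) (nat_lit 0) (XT.lf (nat_lit 456) (nat_lit 8936045151) (nat_lit 0) (nat_lit 491419448) (nat_lit 380) (nat_lit 491419448) (nat_lit 260) (nat_lit 1) (nat_lit 254) (nat_lit 1) (nat_lit 259) (nat_lit 1) (nat_lit 284) (nat_lit 390) (nat_lit 346)) (XT.lf (nat_lit 76) (nat_lit 3469375497) (nat_lit 0) (nat_lit 2861738600) (nat_lit 456) (nat_lit 3469375497) (nat_lit 255) (nat_lit 1) (nat_lit 254) (nat_lit 1) (nat_lit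 260) (nat_lit 1) (nat_lit 285) (nat_lit 390) (nat_lit 345))) (XT.nd (nat_lit 78) (nat_lit 304) (nat_lit 0) (XT.lf (nat_lit 456) (nat_lit 4971574193) (nat_lit 0) (nat_lit 2356576079) (nat_lit 380) (nat_lit 2356576079) (nat_lit 255) (nat_lit 1) (nat_lit 249) (nat_lit 1) (nat_lit 254) (nat_lit 1) (nat_lit 286) (nat_lit 390) (nat_lit 344)) (XT.nd (nat_lit 78) (nat_lit 304) (nat_lit 0) (XT.lf (nat_lit 76) (nat_lit 1506235148) (nat_lit 0) (nat_lit 6558430862) (nat_lit 456) (nat_lit 1506235148) (nat_lit 250) (nat_lit 1) (nat_lit 249) (nat_lit 1) (nat_lit 255) (nat_lit 1) (nat_lit 287) (nat_lit 390) (nat_lit 343)) (XT.lf (nat_lit 380) (nat_lit 1046129338) (nat_lit 0) (nat_lit 4206194579) (nat_lit 304) (nat_lit 4206194579) (nat_lit 250) (nat_lit 1) (nat_lit 245) (nat_lit 1) (nat_lit 249) (nat_lit 1) (nat_lit 288) (nat_lit 390) (nat_lit 342))))) (XT.nd (nat_lit 234) (nat_lit 684) (nat_lit 0) (XT.nd (nat_lit 78)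 (nat_lit 304) (nat_lit 0) (XT.lf (nat_lit 456) (nat_lit 8483865678) (nat_lit 0) (nat_lit 432367766) (nat_lit 380) (nat_lit 432367766) (nat_lit 245) (nat_lit 1) (nat_lit 239) (nat_lit 1) (nat_lit 244) (nat_lit 1) (nat_lit 289) (nat_lit 390) (nat_lit 341)) (XT.nd (nat_lit 78) (nat_lit 304) (nat_lit 0) (XT.lf (nat_lit 76) (nat_lit 3228734432) (nat_lit 0) (nat_lit 2781677076) (nat_lit 456) (nat_lit 3228734432) (nat_lit 240) (nat_lit 1) (nat_lit 239) (nat_lit 1) (nat_lit 245) (nat_lit 1) (nat_lit 290) (nat_lit 390) (nat_lit 340)) (XT.lf (nat_lit 380) (nat_lit 4462821975) (nat_lit 0) (nat_lit 2334631201) (nat_lit 304) (nat_lit 2334631201) (nat_lit 240) (nat_lit 1) (nat_lit 235) (nat_lit 1) (nat_lit 239) (nat_lit 1) (nat_lit 291) (nat_lit 390) (nat_lit 339)))) (XT.nd (nat_lit 78) (nat_lit 684) (nat_lit 0) (XT.lf (nat_lit 76) (nat_lit 1241042620) (nat_lit 0) (nat_lit 6544768892) (nat_lit 380) (nat_lit 1241042620)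 (nat_lit 236) (nat_lit 1) (nat_lit 235) (nat_lit 1) (nat_lit 240) (nat_lit 1) (nat_lit 292) (nat_lit 390) (nat_lit 338)) (XT.nd (nat_lit 78) (nat_lit 380) (nat_lit 0) (XT.lf (nat_lit 380) (nat_lit 494875466) (nat_lit 0) (nat_lit 4213972256) (nat_lit 304) (nat_lit 4213972256) (nat_lit 236) (nat_lit 1) (nat_lit 231) (nat_lit 1) (nat_lit 235) (nat_lit 1) (nat_lit 293) (nat_lit 390) (nat_lit 337)) (XT.lf (nat_lit 380) (nat_lit 7395596035) (nat_lit 0) (nat_lit 712621426) (nat_lit 304) (nat_lit 712621426) (nat_lit 231) (nat_lit 1) (nat_lit 226) (nat_lit 1) (nat_lit 230) (nat_lit 1) (nat_lit 294) (nat_lit 390) (nat_lit 336))))))) (XT.nd (nat_lit 858) (nat_lit 1748) (nat_lit 0) (XT.nd (nat_lit 390) (nat_lit 836) (nat_lit 0) (XT.nd (nat_lit 156) (nat_lit 608) (nat_lit 0) (XT.nd (nat_lit 78) (nat_lit 304) (nat_lit 0) (XT.lf (nat_lit 76) (nat_lit 2684202991) (nat_lit 0) (nat_lit 3351150852) (nat_lit 380) (nat_lit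 2684202991) (nat_lit 227) (nat_lit 1) (nat_lit 226) (nat_lit 1) (nat_lit 231) (nat_lit 1) (nat_lit 295) (nat_lit 390) (nat_lit 335)) (XT.lf (nat_lit 380) (nat_lit 3367405879) (nat_lit 0) (nat_lit 2626430970) (nat_lit 304) (nat_lit 2626430970) (nat_lit 227) (nat_lit 1) (nat_lit 222) (nat_lit 1) (nat_lit 226) (nat_lit 1) (nat_lit 296) (nat_lit 390) (nat_lit 334))) (XT.nd (nat_lit 78) (nat_lit 608) (nat_lit 0) (XT.lf (nat_lit 76) (nat_lit 695673339) (nat_lit 0) (nat_lit 7131552949) (nat_lit 380) (nat_lit 695673339) (nat_lit 223) (nat_lit 1) (nat_lit 222) (nat_lit 1) (nat_lit 227) (nat_lit 1) (nat_lit 297) (nat_lit 390) (nat_lit 333)) (XT.nd (nat_lit 78) (nat_lit 304) (nat_lit 0) (XT.lf (nat_lit 76) (nat_lit 3920367646) (nat_lit 0) (nat_lit 585423507) (nat_lit 304) (nat_lit 3920367646) (nat_lit 219) (nat_lit 1) (nat_lit 218) (nat_lit 1) (nat_lit 222) (nat_lit 1) (nat_lit 298) (nat_lit 390) (nat_lit 332))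 (XT.lf (nat_lit 380) (nat_lit 5834338679) (nat_lit 0) (nat_lit 1248473393) (nat_lit 304) (nat_lit 1248473393) (nat_lit 219) (nat_lit 1) (nat_lit 214) (nat_lit 1) (nat_lit 218) (nat_lit 1) (nat_lit 299) (nat_lit 390) (nat_lit 331))))) (XT.nd (nat_lit 234) (nat_lit 228) (nat_lit 0) (XT.nd (nat_lit 78) (nat_lit 608) (nat_lit 0) (XT.lf (nat_lit 76) (nat_lit 1914307536) (nat_lit 0) (nat_lit 4408877866) (nat_lit 380) (nat_lit 1914307536) (nat_lit 215) (nat_lit 1) (nat_lit 214) (nat_lit 1) (nat_lit 219) (nat_lit 1) (nat_lit 300) (nat_lit 390) (nat_lit 330)) (XT.nd (nat_lit 78) (nat_lit 380) (nat_lit 0) (XT.lf (nat_lit 304) (nat_lit 1838086307) (nat_lit 0) (nat_lit 3153543482) (nat_lit 228) (nat_lit 3153543482) (nat_lit 215) (nat_lit 1) (nat_lit 211) (nat_lit 1) (nat_lit 214) (nat_lit 1) (nat_lit 301) (nat_lit 390) (nat_lit 329)) (XT.lf (nat_lit 380) (nat_lit 7943386943) (nat_lit 0) (nat_lit 55780105) (nat_lit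 304) (nat_lit 55780105) (nat_lit 211) (nat_lit 1) (nat_lit 206) (nat_lit 1) (nat_lit 210) (nat_lit 1) (nat_lit 302) (nat_lit 390) (nat_lit 328)))) (XT.nd (nat_lit 78) (nat_lit 228) (nat_lit 0) (XT.lf (nat_lit 76) (nat_lit 2959294523) (nat_lit 0) (nat_lit 2045954606) (nat_lit 380) (nat_lit 2959294523) (nat_lit 207) (nat_lit 1) (nat_lit 206) (nat_lit 1) (nat_lit 211) (nat_lit 1) (nat_lit 303) (nat_lit 390) (nat_lit 327)) (XT.nd (nat_lit 78) (nat_lit 0) (nat_lit 0) (XT.lf (nat_lit 304) (nat_lit 3932707469) (nat_lit 0) (nat_lit 1971740786) (nat_lit 228) (nat_lit 1971740786) (nat_lit 207) (nat_lit 1) (nat_lit 203) (nat_lit 1) (nat_lit 206) (nat_lit 1) (nat_lit 304) (nat_lit 390) (nat_lit 326)) (XT.lf (nat_lit 76) (nat_lit 982864702) (nat_lit 0) (nat_lit 5823544353) (nat_lit 304) (nat_lit 982864702) (nat_lit 204) (nat_lit 1) (nat_lit 203) (nat_lit 1) (nat_lit 207) (nat_lit 1) (nat_lit 305) (nat_lit 390) (nat_lit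 325)))))) (XT.nd (nat_lit 390) (nat_lit 684) (nat_lit 0) (XT.nd (nat_lit 156) (nat_lit 532) (nat_lit 0) (XT.nd (nat_lit 78) (nat_lit 228) (nat_lit 0) (XT.lf (nat_lit 76) (nat_lit 3851097838) (nat_lit 0) (nat_lit 1031087) (nat_lit 304) (nat_lit 3851097838) (nat_lit 200) (nat_lit 1) (nat_lit 199) (nat_lit 1) (nat_lit 203) (nat_lit 1) (nat_lit 306) (nat_lit 390) (nat_lit 324)) (XT.lf (nat_lit 304) (nat_lit 5726772847) (nat_lit 0) (nat_lit 945903284) (nat_lit 228) (nat_lit 945903284) (nat_lit 200) (nat_lit 1) (nat_lit 196) (nat_lit 1) (nat_lit 199) (nat_lit 1) (nat_lit 307) (nat_lit 390) (nat_lit 323))) (XT.nd (nat_lit 78) (nat_lit 532) (nat_lit 0) (XT.lf (nat_lit 76) (nat_lit 1876092942) (nat_lit 0) (nat_lit 3782560161) (nat_lit 304) (nat_lit 1876092942) (nat_lit 197) (nat_lit 1) (nat_lit 196) (nat_lit 1) (nat_lit 200) (nat_lit 1) (nat_lit 308) (nat_lit 390) (nat_lit 322)) (XT.nd (nat_lit 78) (nat_lit 304)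 (nat_lit 0) (XT.lf (nat_lit 304) (nat_lit 1798027239) (nat_lit 0) (nat_lit 2827123535) (nat_lit 228) (nat_lit 2827123535) (nat_lit 197) (nat_lit 1) (nat_lit 193) (nat_lit 1) (nat_lit 196) (nat_lit 1) (nat_lit 309) (nat_lit 390) (nat_lit 321)) (XT.lf (nat_lit 304) (nat_lit 7255749129) (nat_lit 0) (nat_lit 57934596) (nat_lit 228) (nat_lit 57934596) (nat_lit 193) (nat_lit 1) (nat_lit 189) (nat_lit 1) (nat_lit 192) (nat_lit 1) (nat_lit 310) (nat_lit 390) (nat_lit 320))))) (XT.nd (nat_lit 234) (nat_lit 456) (nat_lit 0) (XT.nd (nat_lit 78) (nat_lit 228) (nat_lit 0) (XT.lf (nat_lit 76) (nat_lit 2640506011) (nat_lit 0) (nat_lit 2009703703) (nat_lit 304) (nat_lit 2640506011) (nat_lit 190) (nat_lit 1) (nat_lit 189) (nat_lit 1) (nat_lit 193) (nat_lit 1) (nat_lit 311) (nat_lit 390) (nat_lit 319)) (XT.nd (nat_lit 78) (nat_lit 0) (nat_lit 0) (XT.lf (nat_lit 304) (nat_lit 3344088554) (nat_lit 0) (nat_lit 1933753544)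 (nat_lit 228) (nat_lit 1933753544) (nat_lit 190) (nat_lit 1) (nat_lit 186) (nat_lit 1) (nat_lit 189) (nat_lit 1) (nat_lit 312) (nat_lit 390) (nat_lit 318)) (XT.lf (nat_lit 76) (nat_lit 715235272) (nat_lit 0) (nat_lit 5703345121) (nat_lit 304) (nat_lit 715235272) (nat_lit 187) (nat_lit 1) (nat_lit 186) (nat_lit 1) (nat_lit 190) (nat_lit 1) (nat_lit 313) (nat_lit 390) (nat_lit 317)))) (XT.nd (nat_lit 78) (nat_lit 228) (nat_lit 0) (XT.lf (nat_lit 76) (nat_lit 3291319208) (nat_lit 0) (nat_lit 473894731) (nat_lit 228) (nat_lit 3291319208) (nat_lit 184) (nat_lit 1) (nat_lit 183) (nat_lit 1) (nat_lit 186) (nat_lit 1) (nat_lit 314) (nat_lit 390) (nat_lit 316)) (XT.nd (nat_lit 78) (nat_lit 0) (nat_lit 0) (XT.lf (nat_lit 304) (nat_lit 4666873194) (nat_lit 0) (nat_lit 1156844007) (nat_lit 228) (nat_lit 1156844007) (nat_lit 184) (nat_lit 1) (nat_lit 180) (nat_lit 1) (nat_lit 183) (nat_lit 1) (nat_lit 315) (nat_lit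 390) (nat_lit 315)) (XT.lf (nat_lit 76) (nat_lit 1380350146) (nat_lit 0) (nat_lit 4144755927) (nat_lit 304) (nat_lit 1380350146) (nat_lit 181) (nat_lit 1) (nat_lit 180) (nat_lit 1) (nat_lit 184) (nat_lit 1) (nat_lit 316) (nat_lit 390) (nat_lit 314))))))))
noncomputable def ec119 : XT := (XT.nd (nat_lit 1716) (nat_lit 2128) (nat_lit 0) (XT.nd (nat_lit 858) (nat_lit 1216) (nat_lit 0) (XT.nd (nat_lit 390) (nat_lit 760) (nat_lit 0) (XT.nd (nat_lit 156) (nat_lit 152) (nat_lit 0) (XT.nd (nat_lit 78) (nat_lit 304) (nat_lit 0) (XT.lf (nat_lit 228) (nat_lit 869412127) (nat_lit 0) (nat_lit 2980971543) (nat_lit 152) (nat_lit 2980971543) (nat_lit 181) (nat_lit 1) (nat_lit 178) (nat_lit 1) (nat_lit 180) (nat_lit 1) (nat_lit 317) (nat_lit 390) (nat_lit 313)) (XT.lf (nat_lit 304) (nat_lit 5792761072) (nat_lit 0) (nat_lit 482917644) (nat_lit 228) (nat_lit 482917644) (nat_lit 178) (nat_lit 1) (nat_lit 174) (nat_lit 1)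 (nat_lit 177) (nat_lit 1) (nat_lit 318) (nat_lit 390) (nat_lit 312))) (XT.nd (nat_lit 78) (nat_lit 152) (nat_lit 0) (XT.lf (nat_lit 76) (nat_lit 1949600770) (nat_lit 0) (nat_lit 2786841235) (nat_lit 304) (nat_lit 1949600770) (nat_lit 175) (nat_lit 1) (nat_lit 174) (nat_lit 1) (nat_lit 178) (nat_lit 1) (nat_lit 319) (nat_lit 390) (nat_lit 311)) (XT.nd (nat_lit 78) (nat_lit 0) (nat_lit 0) (XT.lf (nat_lit 228) (nat_lit 2033472254) (nat_lit 0) (nat_lit 2290667180) (nat_lit 152) (nat_lit 2290667180) (nat_lit 175) (nat_lit 1) (nat_lit 172) (nat_lit 1) (nat_lit 174) (nat_lit 1) (nat_lit 320) (nat_lit 390) (nat_lit 310)) (XT.lf (nat_lit 76) (nat_lit 100975605) (nat_lit 0) (nat_lit 6343107676) (nat_lit 228) (nat_lit 100975605) (nat_lit 173) (nat_lit 1) (nat_lit 172) (nat_lit 1) (nat_lit 175) (nat_lit 1) (nat_lit 321) (nat_lit 390) (nat_lit 309))))) (XT.nd (nat_lit 234) (nat_lit 380) (nat_lit 0) (XT.nd (nat_lit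 78) (nat_lit 152) (nat_lit 0) (XT.lf (nat_lit 76) (nat_lit 2434309153) (nat_lit 0) (nat_lit 1606440573) (nat_lit 228) (nat_lit 2434309153) (nat_lit 170) (nat_lit 1) (nat_lit 169) (nat_lit 1) (nat_lit 172) (nat_lit 1) (nat_lit 322) (nat_lit 390) (nat_lit 308)) (XT.nd (nat_lit 78) (nat_lit 0) (nat_lit 0) (XT.lf (nat_lit 228) (nat_lit 3030996130) (nat_lit 0) (nat_lit 1687764601) (nat_lit 152) (nat_lit 1687764601) (nat_lit 170) (nat_lit 1) (nat_lit 167) (nat_lit 1) (nat_lit 169) (nat_lit 1) (nat_lit 323) (nat_lit 390) (nat_lit 307)) (XT.lf (nat_lit 76) (nat_lit 608443533) (nat_lit 0) (nat_lit 5122226767) (nat_lit 228) (nat_lit 608443533) (nat_lit 168) (nat_lit 1) (nat_lit 167) (nat_lit 1) (nat_lit 170) (nat_lit 1) (nat_lit 324) (nat_lit 390) (nat_lit 306)))) (XT.nd (nat_lit 78) (nat_lit 152) (nat_lit 0) (XT.lf (nat_lit 76) (nat_lit 2844516347) (nat_lit 0) (nat_lit 582998954) (nat_lit 228) (nat_lit 2844516347)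 (nat_lit 165) (nat_lit 1) (nat_lit 164) (nat_lit 1) (nat_lit 167) (nat_lit 1) (nat_lit 325) (nat_lit 390) (nat_lit 305)) (XT.nd (nat_lit 78) (nat_lit 0) (nat_lit 0) (XT.lf (nat_lit 228) (nat_lit 3881624463) (nat_lit 0) (nat_lit 1162213765) (nat_lit 152) (nat_lit 1162213765) (nat_lit 165) (nat_lit 1) (nat_lit 162) (nat_lit 1) (nat_lit 164) (nat_lit 1) (nat_lit 326) (nat_lit 390) (nat_lit 304)) (XT.lf (nat_lit 76) (nat_lit 1044213632) (nat_lit 0) (nat_lit 4052447434) (nat_lit 228) (nat_lit 1044213632) (nat_lit 163) (nat_lit 1) (nat_lit 162) (nat_lit 1) (nat_lit 165) (nat_lit 1) (nat_lit 327) (nat_lit 390) (nat_lit 303)))))) (XT.nd (nat_lit 390) (nat_lit 456) (nat_lit 0) (XT.nd (nat_lit 156) (nat_lit 380) (nat_lit 0) (XT.nd (nat_lit 78) (nat_lit 228) (nat_lit 0) (XT.lf (nat_lit 228) (nat_lit 307729233) (nat_lit 0) (nat_lit 2884354678) (nat_lit 152) (nat_lit 2884354678) (nat_lit 163) (nat_lit 1) (nat_lit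 160) (nat_lit 1) (nat_lit 162) (nat_lit 1) (nat_lit 328) (nat_lit 390) (nat_lit 302)) (XT.lf (nat_lit 228) (nat_lit 4602776613) (nat_lit 0) (nat_lit 705094184) (nat_lit 152) (nat_lit 705094184) (nat_lit 160) (nat_lit 1) (nat_lit 157) (nat_lit 1) (nat_lit 159) (nat_lit 1) (nat_lit 329) (nat_lit 390) (nat_lit 301))) (XT.nd (nat_lit 78) (nat_lit 380) (nat_lit 0) (XT.lf (nat_lit 76) (nat_lit 1416721193) (nat_lit 0) (nat_lit 3116484236) (nat_lit 228) (nat_lit 1416721193) (nat_lit 158) (nat_lit 1) (nat_lit 157) (nat_lit 1) (nat_lit 160) (nat_lit 1) (nat_lit 330) (nat_lit 390) (nat_lit 300)) (XT.nd (nat_lit 78) (nat_lit 228) (nat_lit 0) (XT.lf (nat_lit 228) (nat_lit 1085088399) (nat_lit 0) (nat_lit 2401373008) (nat_lit 152) (nat_lit 2401373008) (nat_lit 158) (nat_lit 1) (nat_lit 155) (nat_lit 1) (nat_lit 157) (nat_lit 1) (nat_lit 331) (nat_lit 390) (nat_lit 299)) (XT.lf (nat_lit 228) (nat_lit 5209899204) (nat_lit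 0) (nat_lit 308488708) (nat_lit 152) (nat_lit 308488708) (nat_lit 155) (nat_lit 1) (nat_lit 152) (nat_lit 1) (nat_lit 154) (nat_lit 1) (nat_lit 332) (nat_lit 390) (nat_lit 298))))) (XT.nd (nat_lit 234) (nat_lit 304) (nat_lit 0) (XT.nd (nat_lit 78) (nat_lit 152) (nat_lit 0) (XT.lf (nat_lit 76) (nat_lit 1733448048) (nat_lit 0) (nat_lit 2298991975) (nat_lit 228) (nat_lit 1733448048) (nat_lit 153) (nat_lit 1) (nat_lit 152) (nat_lit 1) (nat_lit 155) (nat_lit 1) (nat_lit 333) (nat_lit 390) (nat_lit 297)) (XT.nd (nat_lit 78) (nat_lit 0) (nat_lit 0) (XT.lf (nat_lit 228) (nat_lit 1752120932) (nat_lit 0) (nat_lit 1976949238) (nat_lit 152) (nat_lit 1976949238) (nat_lit 153) (nat_lit 1) (nat_lit 150) (nat_lit 1) (nat_lit 152) (nat_lit 1) (nat_lit 334) (nat_lit 390) (nat_lit 296)) (XT.lf (nat_lit 76) (nat_lit 34971472) (nat_lit 0) (nat_lit 5577446274) (nat_lit 228) (nat_lit 34971472) (nat_lit 151) (nat_lit 1) (nat_lit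 150) (nat_lit 1) (nat_lit 153) (nat_lit 1) (nat_lit 335) (nat_lit 390) (nat_lit 295)))) (XT.nd (nat_lit 78) (nat_lit 152) (nat_lit 0) (XT.lf (nat_lit 76) (nat_lit 2001029263) (nat_lit 0) (nat_lit 1586348959) (nat_lit 152) (nat_lit 2001029263) (nat_lit 149) (nat_lit 1) (nat_lit 148) (nat_lit 1) (nat_lit 150) (nat_lit 1) (nat_lit 336) (nat_lit 390) (nat_lit 294)) (XT.nd (nat_lit 78) (nat_lit 0) (nat_lit 0) (XT.lf (nat_lit 228) (nat_lit 2321818254) (nat_lit 0) (nat_lit 1604416532) (nat_lit 152) (nat_lit 1604416532) (nat_lit 149) (nat_lit 1) (nat_lit 146) (nat_lit 1) (nat_lit 148) (nat_lit 1) (nat_lit 337) (nat_lit 390) (nat_lit 293)) (XT.lf (nat_lit 76) (nat_lit 333764359) (nat_lit 0) (nat_lit 4806379090) (nat_lit 228) (nat_lit 333764359) (nat_lit 147) (nat_lit 1) (nat_lit 146) (nat_lit 1) (nat_lit 149) (nat_lit 1) (nat_lit 338) (nat_lit 390) (nat_lit 292))))))) (XT.nd (nat_lit 858) (nat_lit 912) (nat_lit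 0) (XT.nd (nat_lit 390) (nat_lit 608) (nat_lit 0) (XT.nd (nat_lit 156) (nat_lit 304) (nat_lit 0) (XT.nd (nat_lit 78) (nat_lit 152) (nat_lit 0) (XT.lf (nat_lit 76) (nat_lit 2225347926) (nat_lit 0) (nat_lit 966464450) (nat_lit 152) (nat_lit 2225347926) (nat_lit 145) (nat_lit 1) (nat_lit 144) (nat_lit 1) (nat_lit 146) (nat_lit 1) (nat_lit 339) (nat_lit 390) (nat_lit 291)) (XT.lf (nat_lit 228) (nat_lit 2805703017) (nat_lit 0) (nat_lit 1277855484) (nat_lit 152) (nat_lit 1277855484) (nat_lit 145) (nat_lit 1) (nat_lit 142) (nat_lit 1) (nat_lit 144) (nat_lit 1) (nat_lit 340) (nat_lit 390) (nat_lit 290))) (XT.nd (nat_lit 78) (nat_lit 304) (nat_lit 0) (XT.lf (nat_lit 76) (nat_lit 590421679) (nat_lit 0) (nat_lit 4125638885) (nat_lit 228) (nat_lit 590421679) (nat_lit 143) (nat_lit 1) (nat_lit 142) (nat_lit 1) (nat_lit 145) (nat_lit 1) (nat_lit 341) (nat_lit 390) (nat_lit 289)) (XT.nd (nat_lit 78) (nat_lit 152) (nat_lit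 0) (XT.lf (nat_lit 76) (nat_lit 2411619356) (nat_lit 0) (nat_lit 428607600) (nat_lit 152) (nat_lit 2411619356) (nat_lit 141) (nat_lit 1) (nat_lit 140) (nat_lit 1) (nat_lit 142) (nat_lit 1) (nat_lit 342) (nat_lit 390) (nat_lit 288)) (XT.lf (nat_lit 228) (nat_lit 3213993482) (nat_lit 0) (nat_lit 992010643) (nat_lit 152) (nat_lit 992010643) (nat_lit 141) (nat_lit 1) (nat_lit 138) (nat_lit 1) (nat_lit 140) (nat_lit 1) (nat_lit 343) (nat_lit 390) (nat_lit 287))))) (XT.nd (nat_lit 234) (nat_lit 304) (nat_lit 0) (XT.nd (nat_lit 78) (nat_lit 304) (nat_lit 0) (XT.lf (nat_lit 76) (nat_lit 809898877) (nat_lit 0) (nat_lit 3525026535) (nat_lit 228) (nat_lit 809898877) (nat_lit 139) (nat_lit 1) (nat_lit 138) (nat_lit 1) (nat_lit 141) (nat_lit 1) (nat_lit 344) (nat_lit 390) (nat_lit 286)) (XT.nd (nat_lit 78) (nat_lit 228) (nat_lit 0) (XT.lf (nat_lit 152) (nat_lit 37475828) (nat_lit 0) (nat_lit 2527350321) (nat_lit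 76) (nat_lit 2527350321) (nat_lit 139) (nat_lit 1) (nat_lit 137) (nat_lit 1) (nat_lit 138) (nat_lit 1) (nat_lit 345) (nat_lit 390) (nat_lit 285)) (XT.lf (nat_lit 228) (nat_lit 3555749533) (nat_lit 0) (nat_lit 742216372) (nat_lit 152) (nat_lit 742216372) (nat_lit 137) (nat_lit 1) (nat_lit 134) (nat_lit 1) (nat_lit 136) (nat_lit 1) (nat_lit 346) (nat_lit 390) (nat_lit 284)))) (XT.nd (nat_lit 78) (nat_lit 304) (nat_lit 0) (XT.lf (nat_lit 76) (nat_lit 996591325) (nat_lit 0) (nat_lit 2995483936) (nat_lit 228) (nat_lit 996591325) (nat_lit 135) (nat_lit 1) (nat_lit 134) (nat_lit 1) (nat_lit 137) (nat_lit 1) (nat_lit 347) (nat_lit 390) (nat_lit 283)) (XT.nd (nat_lit 78) (nat_lit 228) (nat_lit 0) (XT.lf (nat_lit 152) (nat_lit 446759934) (nat_lit 0) (nat_lit 2245518026) (nat_lit 76) (nat_lit 2245518026) (nat_lit 135) (nat_lit 1) (nat_lit 133) (nat_lit 1) (nat_lit 134) (nat_lit 1) (nat_lit 348) (nat_lit 390) (nat_lit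 282)) (XT.lf (nat_lit 228) (nat_lit 3839002408) (nat_lit 0) (nat_lit 524330958) (nat_lit 152) (nat_lit 524330958) (nat_lit 133) (nat_lit 1) (nat_lit 130) (nat_lit 1) (nat_lit 132) (nat_lit 1) (nat_lit 349) (nat_lit 390) (nat_lit 281)))))) (XT.nd (nat_lit 468) (nat_lit 304) (nat_lit 0) (XT.nd (nat_lit 234) (nat_lit 304) (nat_lit 0) (XT.nd (nat_lit 78) (nat_lit 304) (nat_lit 0) (XT.lf (nat_lit 76) (nat_lit 1154396992) (nat_lit 0) (nat_lit 2528966656) (nat_lit 228) (nat_lit 1154396992) (nat_lit 131) (nat_lit 1) (nat_lit 130) (nat_lit 1) (nat_lit 133) (nat_lit 1) (nat_lit 350) (nat_lit 390) (nat_lit 280)) (XT.nd (nat_lit 78) (nat_lit 228) (nat_lit 0) (XT.lf (nat_lit 152) (nat_lit 798360946) (nat_lit 0) (nat_lit 1995113682) (nat_lit 76) (nat_lit 1995113682) (nat_lit 131) (nat_lit 1) (nat_lit 129) (nat_lit 1) (nat_lit 130) (nat_lit 1) (nat_lit 351) (nat_lit 390) (nat_lit 279)) (XT.lf (nat_lit 228) (nat_lit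 4070869938) (nat_lit 0) (nat_lit 334678085) (nat_lit 152) (nat_lit 334678085) (nat_lit 129) (nat_lit 1) (nat_lit 126) (nat_lit 1) (nat_lit 128) (nat_lit 1) (nat_lit 352) (nat_lit 390) (nat_lit 278)))) (XT.nd (nat_lit 78) (nat_lit 304) (nat_lit 0) (XT.lf (nat_lit 76) (nat_lit 1286772122) (nat_lit 0) (nat_lit 2118330795) (nat_lit 228) (nat_lit 1286772122) (nat_lit 127) (nat_lit 1) (nat_lit 126) (nat_lit 1) (nat_lit 129) (nat_lit 1) (nat_lit 353) (nat_lit 390) (nat_lit 277)) (XT.nd (nat_lit 78) (nat_lit 228) (nat_lit 0) (XT.lf (nat_lit 152) (nat_lit 1099062031) (nat_lit 0) (nat_lit 1772632666) (nat_lit 76) (nat_lit 1772632666) (nat_lit 127) (nat_lit 1) (nat_lit 125) (nat_lit 1) (nat_lit 126) (nat_lit 1) (nat_lit 354) (nat_lit 390) (nat_lit 276)) (XT.lf (nat_lit 228) (nat_lit 4257658924) (nat_lit 0) (nat_lit 169994833) (nat_lit 152) (nat_lit 169994833) (nat_lit 125) (nat_lit 1) (nat_lit 122) (nat_lit 1)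 (nat_lit 124) (nat_lit 1) (nat_lit 355) (nat_lit 390) (nat_lit 275))))) (XT.nd (nat_lit 46722) (nat_lit 0) (nat_lit 12008) (XT.nd (nat_lit 78) (nat_lit 304) (nat_lit 0) (XT.lf (nat_lit 76) (nat_lit 1396780701) (nat_lit 0) (nat_lit 1757232461) (nat_lit 228) (nat_lit 1396780701) (nat_lit 123) (nat_lit 1) (nat_lit 122) (nat_lit 1) (nat_lit 125) (nat_lit 1) (nat_lit 356) (nat_lit 390) (nat_lit 274)) (XT.nd (nat_lit 78) (nat_lit 228) (nat_lit 0) (XT.lf (nat_lit 152) (nat_lit 1354879729) (nat_lit 0) (nat_lit 1574961164) (nat_lit 76) (nat_lit 1574961164) (nat_lit 123) (nat_lit 1) (nat_lit 121) (nat_lit 1) (nat_lit 122) (nat_lit 1) (nat_lit 357) (nat_lit 390) (nat_lit 273)) (XT.lf (nat_lit 228) (nat_lit 4404956080) (nat_lit 0) (nat_lit 27385478) (nat_lit 152) (nat_lit 27385478) (nat_lit 121) (nat_lit 1) (nat_lit 118) (nat_lit 1) (nat_lit 120) (nat_lit 1) (nat_lit 358) (nat_lit 390) (nat_lit 272)))) (XT.nd (nat_lit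 78) (nat_lit 456) (nat_lit 0) (XT.lf (nat_lit 532) (nat_lit 3541468779) (nat_lit 0) (nat_lit 3859310035) (nat_lit 456) (nat_lit 3859310035) (nat_lit 289) (nat_lit 1) (nat_lit 282) (nat_lit 1) (nat_lit 288) (nat_lit 1) (nat_lit 274) (nat_lit 391) (nat_lit 355)) (XT.nd (nat_lit 78) (nat_lit 456) (nat_lit 0) (XT.lf (nat_lit 76) (nat_lit 839661998) (nat_lit 0) (nat_lit 9443167907) (nat_lit 532) (nat_lit 839661998) (nat_lit 283) (nat_lit 1) (nat_lit 282) (nat_lit 1) (nat_lit 289) (nat_lit 1) (nat_lit 275) (nat_lit 391) (nat_lit 354)) (XT.lf (nat_lit 76) (nat_lit 5384647203) (nat_lit 0) (nat_lit 216847939) (nat_lit 456) (nat_lit 5384647203) (nat_lit 277) (nat_lit 1) (nat_lit 276) (nat_lit 1) (nat_lit 282) (nat_lit 1) (nat_lit 276) (nat_lit 391) (nat_lit 353))))))))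
noncomputable def ec120 : XT := (XT.nd (nat_lit 1716) (nat_lit 3420) (nat_lit 0) (XT.nd (nat_lit 858) (nat_lit 1900) (nat_lit 0) (XT.nd (nat_lit 390) (nat_lit 1596) (nat_lit 0) (XT.nd (nat_lit 156) (nat_lit 760) (nat_lit 0) (XT.nd (nat_lit 78) (nat_lit 0) (nat_lit 0) (XT.lf (nat_lit 532) (nat_lit 8808885940) (nat_lit 0) (nat_lit 1021935588) (nat_lit 456) (nat_lit 1021935588) (nat_lit 277) (nat_lit 1) (nat_lit 270) (nat_lit 1) (nat_lit 276) (nat_lit 1) (nat_lit 277) (nat_lit 391) (nat_lit 352)) (XT.lf (nat_lit 76) (nat_lit 3409180028) (nat_lit 0) (nat_lit 3902356545) (nat_lit 532) (nat_lit 3409180028) (nat_lit 271) (nat_lit 1) (nat_lit 270) (nat_lit 1) (nat_lit 277) (nat_lit 1) (nat_lit 278) (nat_lit 391) (nat_lit 351))) (XT.nd (nat_lit 78) (nat_lit 380) (nat_lit 0) (XT.lf (nat_lit 456) (nat_lit 4847552256) (nat_lit 0) (nat_lit 2871927674) (nat_lit 380) (nat_lit 2871927674) (nat_lit 271) (nat_lit 1) (nat_lit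 265) (nat_lit 1) (nat_lit 270) (nat_lit 1) (nat_lit 279) (nat_lit 391) (nat_lit 350)) (XT.nd (nat_lit 78) (nat_lit 380) (nat_lit 0) (XT.lf (nat_lit 76) (nat_lit 1443075529) (nat_lit 0) (nat_lit 7578315900) (nat_lit 456) (nat_lit 1443075529) (nat_lit 266) (nat_lit 1) (nat_lit 265) (nat_lit 1) (nat_lit 271) (nat_lit 1) (nat_lit 280) (nat_lit 391) (nat_lit 349)) (XT.lf (nat_lit 456) (nat_lit 907580837) (nat_lit 0) (nat_lit 4715739390) (nat_lit 380) (nat_lit 4715739390) (nat_lit 266) (nat_lit 1) (nat_lit 260) (nat_lit 1) (nat_lit 265) (nat_lit 1) (nat_lit 281) (nat_lit 391) (nat_lit 348))))) (XT.nd (nat_lit 234) (nat_lit 760) (nat_lit 0) (XT.nd (nat_lit 78) (nat_lit 380) (nat_lit 0) (XT.lf (nat_lit 456) (nat_lit 9204126506) (nat_lit 0) (nat_lit 506162031) (nat_lit 380) (nat_lit 506162031) (nat_lit 260) (nat_lit 1) (nat_lit 254) (nat_lit 1) (nat_lit 259) (nat_lit 1) (nat_lit 282) (nat_lit 391) (nat_lit 347))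 (XT.nd (nat_lit 78) (nat_lit 380) (nat_lit 0) (XT.lf (nat_lit 76) (nat_lit 3573456762) (nat_lit 0) (nat_lit 2947590758) (nat_lit 456) (nat_lit 3573456762) (nat_lit 255) (nat_lit 1) (nat_lit 254) (nat_lit 1) (nat_lit 260) (nat_lit 1) (nat_lit 283) (nat_lit 391) (nat_lit 346)) (XT.lf (nat_lit 456) (nat_lit 5120721419) (nat_lit 0) (nat_lit 2427273361) (nat_lit 380) (nat_lit 2427273361) (nat_lit 255) (nat_lit 1) (nat_lit 249) (nat_lit 1) (nat_lit 254) (nat_lit 1) (nat_lit 284) (nat_lit 391) (nat_lit 345)))) (XT.nd (nat_lit 78) (nat_lit 760) (nat_lit 0) (XT.lf (nat_lit 76) (nat_lit 1551422203) (nat_lit 0) (nat_lit 6755183787) (nat_lit 456) (nat_lit 1551422203) (nat_lit 250) (nat_lit 1) (nat_lit 249) (nat_lit 1) (nat_lit 255) (nat_lit 1) (nat_lit 285) (nat_lit 391) (nat_lit 344)) (XT.nd (nat_lit 78) (nat_lit 456) (nat_lit 0) (XT.lf (nat_lit 380) (nat_lit 1077513218) (nat_lit 0) (nat_lit 4332380416) (nat_lit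 304) (nat_lit 4332380416) (nat_lit 250) (nat_lit 1) (nat_lit 245) (nat_lit 1) (nat_lit 249) (nat_lit 1) (nat_lit 286) (nat_lit 391) (nat_lit 343)) (XT.lf (nat_lit 456) (nat_lit 8738381648) (nat_lit 0) (nat_lit 445338799) (nat_lit 380) (nat_lit 445338799) (nat_lit 245) (nat_lit 1) (nat_lit 239) (nat_lit 1) (nat_lit 244) (nat_lit 1) (nat_lit 287) (nat_lit 391) (nat_lit 342)))))) (XT.nd (nat_lit 390) (nat_lit 912) (nat_lit 0) (XT.nd (nat_lit 156) (nat_lit 684) (nat_lit 0) (XT.nd (nat_lit 78) (nat_lit 304) (nat_lit 0) (XT.lf (nat_lit 76) (nat_lit 3325596465) (nat_lit 0) (nat_lit 2865127388) (nat_lit 456) (nat_lit 3325596465) (nat_lit 240) (nat_lit 1) (nat_lit 239) (nat_lit 1) (nat_lit 245) (nat_lit 1) (nat_lit 288) (nat_lit 391) (nat_lit 341)) (XT.lf (nat_lit 380) (nat_lit 4596706635) (nat_lit 0) (nat_lit 2404670137) (nat_lit 304) (nat_lit 2404670137) (nat_lit 240) (nat_lit 1) (nat_lit 235) (nat_lit 1) (nat_lit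 239) (nat_lit 1) (nat_lit 289) (nat_lit 391) (nat_lit 340))) (XT.nd (nat_lit 78) (nat_lit 684) (nat_lit 0) (XT.lf (nat_lit 76) (nat_lit 1278273899) (nat_lit 0) (nat_lit 6741111959) (nat_lit 380) (nat_lit 1278273899) (nat_lit 236) (nat_lit 1) (nat_lit 235) (nat_lit 1) (nat_lit 240) (nat_lit 1) (nat_lit 290) (nat_lit 391) (nat_lit 339)) (XT.nd (nat_lit 78) (nat_lit 380) (nat_lit 0) (XT.lf (nat_lit 380) (nat_lit 509721730) (nat_lit 0) (nat_lit 4340391424) (nat_lit 304) (nat_lit 4340391424) (nat_lit 236) (nat_lit 1) (nat_lit 231) (nat_lit 1) (nat_lit 235) (nat_lit 1) (nat_lit 291) (nat_lit 391) (nat_lit 338)) (XT.lf (nat_lit 380) (nat_lit 7617463917) (nat_lit 0) (nat_lit 734000069) (nat_lit 304) (nat_lit 734000069) (nat_lit 231) (nat_lit 1) (nat_lit 226) (nat_lit 1) (nat_lit 230) (nat_lit 1) (nat_lit 292) (nat_lit 391) (nat_lit 337))))) (XT.nd (nat_lit 234) (nat_lit 608) (nat_lit 0) (XT.nd (nat_lit 78) (nat_lit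 304) (nat_lit 0) (XT.lf (nat_lit 76) (nat_lit 2764729080) (nat_lit 0) (nat_lit 3451685378) (nat_lit 380) (nat_lit 2764729080) (nat_lit 227) (nat_lit 1) (nat_lit 226) (nat_lit 1) (nat_lit 231) (nat_lit 1) (nat_lit 293) (nat_lit 391) (nat_lit 336)) (XT.nd (nat_lit 78) (nat_lit 0) (nat_lit 0) (XT.lf (nat_lit 380) (nat_lit 3468428055) (nat_lit 0) (nat_lit 2705223899) (nat_lit 304) (nat_lit 2705223899) (nat_lit 227) (nat_lit 1) (nat_lit 222) (nat_lit 1) (nat_lit 226) (nat_lit 1) (nat_lit 294) (nat_lit 391) (nat_lit 335)) (XT.lf (nat_lit 76) (nat_lit 716543540) (nat_lit 0) (nat_lit 7345499538) (nat_lit 380) (nat_lit 716543540) (nat_lit 223) (nat_lit 1) (nat_lit 222) (nat_lit 1) (nat_lit 227) (nat_lit 1) (nat_lit 295) (nat_lit 391) (nat_lit 334)))) (XT.nd (nat_lit 78) (nat_lit 304) (nat_lit 0) (XT.lf (nat_lit 76) (nat_lit 4037978676) (nat_lit 0) (nat_lit 602986212) (nat_lit 304) (nat_lit 4037978676) (nat_lit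 219) (nat_lit 1) (nat_lit 218) (nat_lit 1) (nat_lit 222) (nat_lit 1) (nat_lit 296) (nat_lit 391) (nat_lit 333)) (XT.nd (nat_lit 78) (nat_lit 0) (nat_lit 0) (XT.lf (nat_lit 380) (nat_lit 6009368840) (nat_lit 0) (nat_lit 1285927595) (nat_lit 304) (nat_lit 1285927595) (nat_lit 219) (nat_lit 1) (nat_lit 214) (nat_lit 1) (nat_lit 218) (nat_lit 1) (nat_lit 297) (nat_lit 391) (nat_lit 332)) (XT.lf (nat_lit 76) (nat_lit 1971736762) (nat_lit 0) (nat_lit 4541144202) (nat_lit 380) (nat_lit 1971736762) (nat_lit 215) (nat_lit 1) (nat_lit 214) (nat_lit 1) (nat_lit 219) (nat_lit 1) (nat_lit 298) (nat_lit 391) (nat_lit 331))))))) (XT.nd (nat_lit 858) (nat_lit 1520) (nat_lit 0) (XT.nd (nat_lit 390) (nat_lit 1064) (nat_lit 0) (XT.nd (nat_lit 156) (nat_lit 228) (nat_lit 0) (XT.nd (nat_lit 78) (nat_lit 380) (nat_lit 0) (XT.lf (nat_lit 304) (nat_lit 1893228896) (nat_lit 0) (nat_lit 3248149786) (nat_lit 228) (nat_lit 3248149786)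 (nat_lit 215) (nat_lit 1) (nat_lit 211) (nat_lit 1) (nat_lit 214) (nat_lit 1) (nat_lit 299) (nat_lit 391) (nat_lit 330)) (XT.lf (nat_lit 380) (nat_lit 8181688551) (nat_lit 0) (nat_lit 57453508) (nat_lit 304) (nat_lit 57453508) (nat_lit 211) (nat_lit 1) (nat_lit 206) (nat_lit 1) (nat_lit 210) (nat_lit 1) (nat_lit 300) (nat_lit 391) (nat_lit 329))) (XT.nd (nat_lit 78) (nat_lit 228) (nat_lit 0) (XT.lf (nat_lit 76) (nat_lit 3048073359) (nat_lit 0) (nat_lit 2107333244) (nat_lit 380) (nat_lit 3048073359) (nat_lit 207) (nat_lit 1) (nat_lit 206) (nat_lit 1) (nat_lit 211) (nat_lit 1) (nat_lit 301) (nat_lit 391) (nat_lit 328)) (XT.nd (nat_lit 78) (nat_lit 0) (nat_lit 0) (XT.lf (nat_lit 304) (nat_lit 4050688693) (nat_lit 0) (nat_lit 2030893009) (nat_lit 228) (nat_lit 2030893009) (nat_lit 207) (nat_lit 1) (nat_lit 203) (nat_lit 1) (nat_lit 206) (nat_lit 1) (nat_lit 302) (nat_lit 391) (nat_lit 327)) (XT.lf (nat_lit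 76) (nat_lit 1012350643) (nat_lit 0) (nat_lit 5998250683) (nat_lit 304) (nat_lit 1012350643) (nat_lit 204) (nat_lit 1) (nat_lit 203) (nat_lit 1) (nat_lit 207) (nat_lit 1) (nat_lit 303) (nat_lit 391) (nat_lit 326))))) (XT.nd (nat_lit 234) (nat_lit 532) (nat_lit 0) (XT.nd (nat_lit 78) (nat_lit 228) (nat_lit 0) (XT.lf (nat_lit 76) (nat_lit 3966630773) (nat_lit 0) (nat_lit 1062020) (nat_lit 304) (nat_lit 3966630773) (nat_lit 200) (nat_lit 1) (nat_lit 199) (nat_lit 1) (nat_lit 203) (nat_lit 1) (nat_lit 304) (nat_lit 391) (nat_lit 325)) (XT.nd (nat_lit 78) (nat_lit 0) (nat_lit 0) (XT.lf (nat_lit 304) (nat_lit 5898576032) (nat_lit 0) (nat_lit 974280382) (nat_lit 228) (nat_lit 974280382) (nat_lit 200) (nat_lit 1) (nat_lit 196) (nat_lit 1) (nat_lit 199) (nat_lit 1) (nat_lit 305) (nat_lit 391) (nat_lit 324)) (XT.lf (nat_lit 76) (nat_lit 1932375730) (nat_lit 0) (nat_lit 3896036966) (nat_lit 304) (nat_lit 1932375730)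 (nat_lit 197) (nat_lit 1) (nat_lit 196) (nat_lit 1) (nat_lit 200) (nat_lit 1) (nat_lit 306) (nat_lit 391) (nat_lit 323)))) (XT.nd (nat_lit 78) (nat_lit 304) (nat_lit 0) (XT.lf (nat_lit 304) (nat_lit 1851968056) (nat_lit 0) (nat_lit 2911937241) (nat_lit 228) (nat_lit 2911937241) (nat_lit 197) (nat_lit 1) (nat_lit 193) (nat_lit 1) (nat_lit 196) (nat_lit 1) (nat_lit 307) (nat_lit 391) (nat_lit 322)) (XT.nd (nat_lit 78) (nat_lit 0) (nat_lit 0) (XT.lf (nat_lit 304) (nat_lit 7473421603) (nat_lit 0) (nat_lit 59672634) (nat_lit 228) (nat_lit 59672634) (nat_lit 193) (nat_lit 1) (nat_lit 189) (nat_lit 1) (nat_lit 192) (nat_lit 1) (nat_lit 308) (nat_lit 391) (nat_lit 321)) (XT.lf (nat_lit 76) (nat_lit 2719721192) (nat_lit 0) (nat_lit 2069994814) (nat_lit 304) (nat_lit 2719721192) (nat_lit 190) (nat_lit 1) (nat_lit 189) (nat_lit 1) (nat_lit 193) (nat_lit 1) (nat_lit 309) (nat_lit 391) (nat_lit 320)))))) (XT.nd (nat_lit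 390) (nat_lit 836) (nat_lit 0) (XT.nd (nat_lit 156) (nat_lit 456) (nat_lit 0) (XT.nd (nat_lit 78) (nat_lit 0) (nat_lit 0) (XT.lf (nat_lit 304) (nat_lit 3444411211) (nat_lit 0) (nat_lit 1991766150) (nat_lit 228) (nat_lit 1991766150) (nat_lit 190) (nat_lit 1) (nat_lit 186) (nat_lit 1) (nat_lit 189) (nat_lit 1) (nat_lit 310) (nat_lit 391) (nat_lit 319)) (XT.lf (nat_lit 76) (nat_lit 736692330) (nat_lit 0) (nat_lit 5874445475) (nat_lit 304) (nat_lit 736692330) (nat_lit 187) (nat_lit 1) (nat_lit 186) (nat_lit 1) (nat_lit 190) (nat_lit 1) (nat_lit 311) (nat_lit 391) (nat_lit 318))) (XT.nd (nat_lit 78) (nat_lit 228) (nat_lit 0) (XT.lf (nat_lit 76) (nat_lit 3390058785) (nat_lit 0) (nat_lit 488111573) (nat_lit 228) (nat_lit 3390058785) (nat_lit 184) (nat_lit 1) (nat_lit 183) (nat_lit 1) (nat_lit 186) (nat_lit 1) (nat_lit 312) (nat_lit 391) (nat_lit 317)) (XT.nd (nat_lit 78) (nat_lit 0) (nat_lit 0) (XT.lf (nat_lit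 304) (nat_lit 4806879389) (nat_lit 0) (nat_lit 1191549327) (nat_lit 228) (nat_lit 1191549327) (nat_lit 184) (nat_lit 1) (nat_lit 180) (nat_lit 1) (nat_lit 183) (nat_lit 1) (nat_lit 313) (nat_lit 391) (nat_lit 316)) (XT.lf (nat_lit 76) (nat_lit 1421760650) (nat_lit 0) (nat_lit 4269098604) (nat_lit 304) (nat_lit 1421760650) (nat_lit 181) (nat_lit 1) (nat_lit 180) (nat_lit 1) (nat_lit 184) (nat_lit 1) (nat_lit 314) (nat_lit 391) (nat_lit 315))))) (XT.nd (nat_lit 234) (nat_lit 380) (nat_lit 0) (XT.nd (nat_lit 78) (nat_lit 304) (nat_lit 0) (XT.lf (nat_lit 228) (nat_lit 895494491) (nat_lit 0) (nat_lit 3070400689) (nat_lit 152) (nat_lit 3070400689) (nat_lit 181) (nat_lit 1) (nat_lit 178) (nat_lit 1) (nat_lit 180) (nat_lit 1) (nat_lit 315) (nat_lit 391) (nat_lit 314)) (XT.nd (nat_lit 78) (nat_lit 0) (nat_lit 0) (XT.lf (nat_lit 304) (nat_lit 5966543904) (nat_lit 0) (nat_lit 497405174) (nat_lit 228) (nat_lit 497405174)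 (nat_lit 178) (nat_lit 1) (nat_lit 174) (nat_lit 1) (nat_lit 177) (nat_lit 1) (nat_lit 316) (nat_lit 391) (nat_lit 313)) (XT.lf (nat_lit 76) (nat_lit 2008088793) (nat_lit 0) (nat_lit 2870446473) (nat_lit 304) (nat_lit 2008088793) (nat_lit 175) (nat_lit 1) (nat_lit 174) (nat_lit 1) (nat_lit 178) (nat_lit 1) (nat_lit 317) (nat_lit 391) (nat_lit 312)))) (XT.nd (nat_lit 78) (nat_lit 228) (nat_lit 0) (XT.lf (nat_lit 228) (nat_lit 2094476422) (nat_lit 0) (nat_lit 2359387196) (nat_lit 152) (nat_lit 2359387196) (nat_lit 175) (nat_lit 1) (nat_lit 172) (nat_lit 1) (nat_lit 174) (nat_lit 1) (nat_lit 318) (nat_lit 391) (nat_lit 311)) (XT.nd (nat_lit 78) (nat_lit 228) (nat_lit 0) (XT.lf (nat_lit 76) (nat_lit 104004873) (nat_lit 0) (nat_lit 6533400906) (nat_lit 228) (nat_lit 104004873) (nat_lit 173) (nat_lit 1) (nat_lit 172) (nat_lit 1) (nat_lit 175) (nat_lit 1) (nat_lit 319) (nat_lit 391) (nat_lit 310)) (XT.lf (nat_lit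 76) (nat_lit 2507338427) (nat_lit 0) (nat_lit 1654633791) (nat_lit 228) (nat_lit 2507338427) (nat_lit 170) (nat_lit 1) (nat_lit 169) (nat_lit 1) (nat_lit 172) (nat_lit 1) (nat_lit 320) (nat_lit 391) (nat_lit 309))))))))
noncomputable def ec121 : XT := (XT.nd (nat_lit 1716) (nat_lit 1292) (nat_lit 0) (XT.nd (nat_lit 858) (nat_lit 1064) (nat_lit 0) (XT.nd (nat_lit 390) (nat_lit 760) (nat_lit 0) (XT.nd (nat_lit 156) (nat_lit 380) (nat_lit 0) (XT.nd (nat_lit 78) (nat_lit 0) (nat_lit 0) (XT.lf (nat_lit 228) (nat_lit 3121926014) (nat_lit 0) (nat_lit 1738397539) (nat_lit 152) (nat_lit 1738397539) (nat_lit 170) (nat_lit 1) (nat_lit 167) (nat_lit 1) (nat_lit 169) (nat_lit 1) (nat_lit 321) (nat_lit 391) (nat_lit 308)) (XT.lf (nat_lit 76) (nat_lit 626696839) (nat_lit 0) (nat_lit 5275893570) (nat_lit 228) (nat_lit 626696839) (nat_lit 168) (nat_lit 1) (nat_lit 167) (nat_lit 1) (nat_lit 170) (nat_lit 1) (nat_lit 322)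 (nat_lit 391) (nat_lit 307))) (XT.nd (nat_lit 78) (nat_lit 152) (nat_lit 0) (XT.lf (nat_lit 76) (nat_lit 2929851838) (nat_lit 0) (nat_lit 600488923) (nat_lit 228) (nat_lit 2929851838) (nat_lit 165) (nat_lit 1) (nat_lit 164) (nat_lit 1) (nat_lit 167) (nat_lit 1) (nat_lit 323) (nat_lit 391) (nat_lit 306)) (XT.nd (nat_lit 78) (nat_lit 0) (nat_lit 0) (XT.lf (nat_lit 228) (nat_lit 3998073197) (nat_lit 0) (nat_lit 1197080178) (nat_lit 152) (nat_lit 1197080178) (nat_lit 165) (nat_lit 1) (nat_lit 162) (nat_lit 1) (nat_lit 164) (nat_lit 1) (nat_lit 324) (nat_lit 391) (nat_lit 305)) (XT.lf (nat_lit 76) (nat_lit 1075540041) (nat_lit 0) (nat_lit 4174020857) (nat_lit 228) (nat_lit 1075540041) (nat_lit 163) (nat_lit 1) (nat_lit 162) (nat_lit 1) (nat_lit 165) (nat_lit 1) (nat_lit 325) (nat_lit 391) (nat_lit 304))))) (XT.nd (nat_lit 234) (nat_lit 380) (nat_lit 0) (XT.nd (nat_lit 78) (nat_lit 228) (nat_lit 0) (XT.lf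 (nat_lit 228) (nat_lit 316961110) (nat_lit 0) (nat_lit 2970885318) (nat_lit 152) (nat_lit 2970885318) (nat_lit 163) (nat_lit 1) (nat_lit 160) (nat_lit 1) (nat_lit 162) (nat_lit 1) (nat_lit 326) (nat_lit 391) (nat_lit 303)) (XT.nd (nat_lit 78) (nat_lit 0) (nat_lit 0) (XT.lf (nat_lit 228) (nat_lit 4740859912) (nat_lit 0) (nat_lit 726247010) (nat_lit 152) (nat_lit 726247010) (nat_lit 160) (nat_lit 1) (nat_lit 157) (nat_lit 1) (nat_lit 159) (nat_lit 1) (nat_lit 327) (nat_lit 391) (nat_lit 302)) (XT.lf (nat_lit 76) (nat_lit 1459222829) (nat_lit 0) (nat_lit 3209978764) (nat_lit 228) (nat_lit 1459222829) (nat_lit 158) (nat_lit 1) (nat_lit 157) (nat_lit 1) (nat_lit 160) (nat_lit 1) (nat_lit 328) (nat_lit 391) (nat_lit 301)))) (XT.nd (nat_lit 78) (nat_lit 228) (nat_lit 0) (XT.lf (nat_lit 228) (nat_lit 1117641051) (nat_lit 0) (nat_lit 2473414199) (nat_lit 152) (nat_lit 2473414199) (nat_lit 158) (nat_lit 1) (nat_lit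 155) (nat_lit 1) (nat_lit 157) (nat_lit 1) (nat_lit 329) (nat_lit 391) (nat_lit 300)) (XT.nd (nat_lit 78) (nat_lit 0) (nat_lit 0) (XT.lf (nat_lit 228) (nat_lit 5366196180) (nat_lit 0) (nat_lit 317743370) (nat_lit 152) (nat_lit 317743370) (nat_lit 155) (nat_lit 1) (nat_lit 152) (nat_lit 1) (nat_lit 154) (nat_lit 1) (nat_lit 330) (nat_lit 391) (nat_lit 299)) (XT.lf (nat_lit 76) (nat_lit 1785451489) (nat_lit 0) (nat_lit 2367961735) (nat_lit 228) (nat_lit 1785451489) (nat_lit 153) (nat_lit 1) (nat_lit 152) (nat_lit 1) (nat_lit 155) (nat_lit 1) (nat_lit 331) (nat_lit 391) (nat_lit 298)))))) (XT.nd (nat_lit 390) (nat_lit 608) (nat_lit 0) (XT.nd (nat_lit 156) (nat_lit 304) (nat_lit 0) (XT.nd (nat_lit 78) (nat_lit 0) (nat_lit 0) (XT.lf (nat_lit 228) (nat_lit 1804684560) (nat_lit 0) (nat_lit 2036257715) (nat_lit 152) (nat_lit 2036257715) (nat_lit 153) (nat_lit 1) (nat_lit 150) (nat_lit 1) (nat_lit 152) (nat_lit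 1) (nat_lit 332) (nat_lit 391) (nat_lit 297)) (XT.lf (nat_lit 76) (nat_lit 36020616) (nat_lit 0) (nat_lit 5744769662) (nat_lit 228) (nat_lit 36020616) (nat_lit 151) (nat_lit 1) (nat_lit 150) (nat_lit 1) (nat_lit 153) (nat_lit 1) (nat_lit 333) (nat_lit 391) (nat_lit 296))) (XT.nd (nat_lit 78) (nat_lit 152) (nat_lit 0) (XT.lf (nat_lit 76) (nat_lit 2061060140) (nat_lit 0) (nat_lit 1633939428) (nat_lit 152) (nat_lit 2061060140) (nat_lit 149) (nat_lit 1) (nat_lit 148) (nat_lit 1) (nat_lit 150) (nat_lit 1) (nat_lit 334) (nat_lit 391) (nat_lit 295)) (XT.nd (nat_lit 78) (nat_lit 0) (nat_lit 0) (XT.lf (nat_lit 228) (nat_lit 2391472801) (nat_lit 0) (nat_lit 1652549028) (nat_lit 152) (nat_lit 1652549028) (nat_lit 149) (nat_lit 1) (nat_lit 146) (nat_lit 1) (nat_lit 148) (nat_lit 1) (nat_lit 335) (nat_lit 391) (nat_lit 294)) (XT.lf (nat_lit 76) (nat_lit 343777290) (nat_lit 0) (nat_lit 4950570463) (nat_lit 228) (nat_lit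 343777290) (nat_lit 147) (nat_lit 1) (nat_lit 146) (nat_lit 1) (nat_lit 149) (nat_lit 1) (nat_lit 336) (nat_lit 391) (nat_lit 293))))) (XT.nd (nat_lit 234) (nat_lit 304) (nat_lit 0) (XT.nd (nat_lit 78) (nat_lit 152) (nat_lit 0) (XT.lf (nat_lit 76) (nat_lit 2292108364) (nat_lit 0) (nat_lit 995458384) (nat_lit 152) (nat_lit 2292108364) (nat_lit 145) (nat_lit 1) (nat_lit 144) (nat_lit 1) (nat_lit 146) (nat_lit 1) (nat_lit 337) (nat_lit 391) (nat_lit 292)) (XT.nd (nat_lit 78) (nat_lit 0) (nat_lit 0) (XT.lf (nat_lit 228) (nat_lit 2889874108) (nat_lit 0) (nat_lit 1316191148) (nat_lit 152) (nat_lit 1316191148) (nat_lit 145) (nat_lit 1) (nat_lit 142) (nat_lit 1) (nat_lit 144) (nat_lit 1) (nat_lit 338) (nat_lit 391) (nat_lit 291)) (XT.lf (nat_lit 76) (nat_lit 608134329) (nat_lit 0) (nat_lit 4249408052) (nat_lit 228) (nat_lit 608134329) (nat_lit 143) (nat_lit 1) (nat_lit 142) (nat_lit 1) (nat_lit 145) (nat_lit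 1) (nat_lit 339) (nat_lit 391) (nat_lit 290)))) (XT.nd (nat_lit 78) (nat_lit 152) (nat_lit 0) (XT.lf (nat_lit 76) (nat_lit 2483967937) (nat_lit 0) (nat_lit 441465828) (nat_lit 152) (nat_lit 2483967937) (nat_lit 141) (nat_lit 1) (nat_lit 140) (nat_lit 1) (nat_lit 142) (nat_lit 1) (nat_lit 340) (nat_lit 391) (nat_lit 289)) (XT.nd (nat_lit 78) (nat_lit 0) (nat_lit 0) (XT.lf (nat_lit 228) (nat_lit 3310413287) (nat_lit 0) (nat_lit 1021770963) (nat_lit 152) (nat_lit 1021770963) (nat_lit 141) (nat_lit 1) (nat_lit 138) (nat_lit 1) (nat_lit 140) (nat_lit 1) (nat_lit 341) (nat_lit 391) (nat_lit 288)) (XT.lf (nat_lit 76) (nat_lit 834195843) (nat_lit 0) (nat_lit 3630777331) (nat_lit 228) (nat_lit 834195843) (nat_lit 139) (nat_lit 1) (nat_lit 138) (nat_lit 1) (nat_lit 141) (nat_lit 1) (nat_lit 342) (nat_lit 391) (nat_lit 287))))))) (XT.nd (nat_lit 858) (nat_lit 76) (nat_lit 0) (XT.nd (nat_lit 390) (nat_lit 608) (nat_lit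 0) (XT.nd (nat_lit 156) (nat_lit 304) (nat_lit 0) (XT.nd (nat_lit 78) (nat_lit 228) (nat_lit 0) (XT.lf (nat_lit 152) (nat_lit 38600103) (nat_lit 0) (nat_lit 2603170831) (nat_lit 76) (nat_lit 2603170831) (nat_lit 139) (nat_lit 1) (nat_lit 137) (nat_lit 1) (nat_lit 138) (nat_lit 1) (nat_lit 343) (nat_lit 391) (nat_lit 286)) (XT.lf (nat_lit 228) (nat_lit 3662422019) (nat_lit 0) (nat_lit 764482864) (nat_lit 152) (nat_lit 764482864) (nat_lit 137) (nat_lit 1) (nat_lit 134) (nat_lit 1) (nat_lit 136) (nat_lit 1) (nat_lit 344) (nat_lit 391) (nat_lit 285))) (XT.nd (nat_lit 78) (nat_lit 304) (nat_lit 0) (XT.lf (nat_lit 76) (nat_lit 1026489065) (nat_lit 0) (nat_lit 3085348454) (nat_lit 228) (nat_lit 1026489065) (nat_lit 135) (nat_lit 1) (nat_lit 134) (nat_lit 1) (nat_lit 137) (nat_lit 1) (nat_lit 345) (nat_lit 391) (nat_lit 284)) (XT.nd (nat_lit 78) (nat_lit 228) (nat_lit 0) (XT.lf (nat_lit 152) (nat_lit 460162732)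 (nat_lit 0) (nat_lit 2312883567) (nat_lit 76) (nat_lit 2312883567) (nat_lit 135) (nat_lit 1) (nat_lit 133) (nat_lit 1) (nat_lit 134) (nat_lit 1) (nat_lit 346) (nat_lit 391) (nat_lit 283)) (XT.lf (nat_lit 228) (nat_lit 3954172480) (nat_lit 0) (nat_lit 540060887) (nat_lit 152) (nat_lit 540060887) (nat_lit 133) (nat_lit 1) (nat_lit 130) (nat_lit 1) (nat_lit 132) (nat_lit 1) (nat_lit 347) (nat_lit 391) (nat_lit 282))))) (XT.nd (nat_lit 234) (nat_lit 304) (nat_lit 0) (XT.nd (nat_lit 78) (nat_lit 304) (nat_lit 0) (XT.lf (nat_lit 76) (nat_lit 1189028901) (nat_lit 0) (nat_lit 2604835656) (nat_lit 228) (nat_lit 1189028901) (nat_lit 131) (nat_lit 1) (nat_lit 130) (nat_lit 1) (nat_lit 133) (nat_lit 1) (nat_lit 348) (nat_lit 391) (nat_lit 281)) (XT.nd (nat_lit 78) (nat_lit 228) (nat_lit 0) (XT.lf (nat_lit 152) (nat_lit 822311774) (nat_lit 0) (nat_lit 2054967092) (nat_lit 76) (nat_lit 2054967092) (nat_lit 131) (nat_lit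 1) (nat_lit 129) (nat_lit 1) (nat_lit 130) (nat_lit 1) (nat_lit 349) (nat_lit 391) (nat_lit 280)) (XT.lf (nat_lit 228) (nat_lit 4192996036) (nat_lit 0) (nat_lit 344718428) (nat_lit 152) (nat_lit 344718428) (nat_lit 129) (nat_lit 1) (nat_lit 126) (nat_lit 1) (nat_lit 128) (nat_lit 1) (nat_lit 350) (nat_lit 391) (nat_lit 279)))) (XT.nd (nat_lit 78) (nat_lit 304) (nat_lit 0) (XT.lf (nat_lit 76) (nat_lit 1325375286) (nat_lit 0) (nat_lit 2181880718) (nat_lit 228) (nat_lit 1325375286) (nat_lit 127) (nat_lit 1) (nat_lit 126) (nat_lit 1) (nat_lit 129) (nat_lit 1) (nat_lit 351) (nat_lit 391) (nat_lit 278)) (XT.nd (nat_lit 78) (nat_lit 228) (nat_lit 0) (XT.lf (nat_lit 152) (nat_lit 1132033892) (nat_lit 0) (nat_lit 1825811646) (nat_lit 76) (nat_lit 1825811646) (nat_lit 127) (nat_lit 1) (nat_lit 125) (nat_lit 1) (nat_lit 126) (nat_lit 1) (nat_lit 352) (nat_lit 391) (nat_lit 277)) (XT.lf (nat_lit 228) (nat_lit 4385388692)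 (nat_lit 0) (nat_lit 175094678) (nat_lit 152) (nat_lit 175094678) (nat_lit 125) (nat_lit 1) (nat_lit 122) (nat_lit 1) (nat_lit 124) (nat_lit 1) (nat_lit 353) (nat_lit 391) (nat_lit 276)))))) (XT.nd (nat_lit 47424) (nat_lit 0) (nat_lit 8968) (XT.nd (nat_lit 47190) (nat_lit 0) (nat_lit 10108) (XT.nd (nat_lit 78) (nat_lit 76) (nat_lit 0) (XT.lf (nat_lit 76) (nat_lit 1438684122) (nat_lit 0) (nat_lit 1809949435) (nat_lit 228) (nat_lit 1438684122) (nat_lit 123) (nat_lit 1) (nat_lit 122) (nat_lit 1) (nat_lit 125) (nat_lit 1) (nat_lit 354) (nat_lit 391) (nat_lit 275)) (XT.nd (nat_lit 47034) (nat_lit 0) (nat_lit 10944) (XT.lf (nat_lit 152) (nat_lit 1395526121) (nat_lit 0) (nat_lit 1622209999) (nat_lit 76) (nat_lit 1622209999) (nat_lit 123) (nat_lit 1) (nat_lit 121) (nat_lit 1) (nat_lit 122) (nat_lit 1) (nat_lit 355) (nat_lit 391) (nat_lit 274)) (XT.lf (nat_lit 456) (nat_lit 4992978824) (nat_lit 0) (nat_lit 2958085504)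 (nat_lit 380) (nat_lit 2958085504) (nat_lit 271) (nat_lit 1) (nat_lit 265) (nat_lit 1) (nat_lit 270) (nat_lit 1) (nat_lit 277) (nat_lit 392) (nat_lit 351)))) (XT.nd (nat_lit 78) (nat_lit 836) (nat_lit 0) (XT.lf (nat_lit 76) (nat_lit 1486367795) (nat_lit 0) (nat_lit 7805665377) (nat_lit 456) (nat_lit 1486367795) (nat_lit 266) (nat_lit 1) (nat_lit 265) (nat_lit 1) (nat_lit 271) (nat_lit 1) (nat_lit 278) (nat_lit 392) (nat_lit 350)) (XT.nd (nat_lit 78) (nat_lit 456) (nat_lit 0) (XT.lf (nat_lit 456) (nat_lit 934808262) (nat_lit 0) (nat_lit 4857211572) (nat_lit 380) (nat_lit 4857211572) (nat_lit 266) (nat_lit 1) (nat_lit 260) (nat_lit 1) (nat_lit 265) (nat_lit 1) (nat_lit 279) (nat_lit 392) (nat_lit 349)) (XT.lf (nat_lit 456) (nat_lit 9480250301) (nat_lit 0) (nat_lit 521346892) (nat_lit 380) (nat_lit 521346892) (nat_lit 260) (nat_lit 1) (nat_lit 254) (nat_lit 1) (nat_lit 259) (nat_lit 1) (nat_lit 280) (nat_lit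 392) (nat_lit 348))))) (XT.nd (nat_lit 234) (nat_lit 760) (nat_lit 0) (XT.nd (nat_lit 78) (nat_lit 380) (nat_lit 0) (XT.lf (nat_lit 76) (nat_lit 3680660465) (nat_lit 0) (nat_lit 3036018481) (nat_lit 456) (nat_lit 3680660465) (nat_lit 255) (nat_lit 1) (nat_lit 254) (nat_lit 1) (nat_lit 260) (nat_lit 1) (nat_lit 281) (nat_lit 392) (nat_lit 347)) (XT.nd (nat_lit 78) (nat_lit 0) (nat_lit 0) (XT.lf (nat_lit 456) (nat_lit 5274343062) (nat_lit 0) (nat_lit 2500091562) (nat_lit 380) (nat_lit 2500091562) (nat_lit 255) (nat_lit 1) (nat_lit 249) (nat_lit 1) (nat_lit 254) (nat_lit 1) (nat_lit 282) (nat_lit 392) (nat_lit 346)) (XT.lf (nat_lit 76) (nat_lit 1597964869) (nat_lit 0) (nat_lit 6957839301) (nat_lit 456) (nat_lit 1597964869) (nat_lit 250) (nat_lit 1) (nat_lit 249) (nat_lit 1) (nat_lit 255) (nat_lit 1) (nat_lit 283) (nat_lit 392) (nat_lit 345)))) (XT.nd (nat_lit 78) (nat_lit 456) (nat_lit 0) (XT.lf (nat_lit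 380) (nat_lit 1109838614) (nat_lit 0) (nat_lit 4462351829) (nat_lit 304) (nat_lit 4462351829) (nat_lit 250) (nat_lit 1) (nat_lit 245) (nat_lit 1) (nat_lit 249) (nat_lit 1) (nat_lit 284) (nat_lit 392) (nat_lit 344)) (XT.nd (nat_lit 78) (nat_lit 0) (nat_lit 0) (XT.lf (nat_lit 456) (nat_lit 9000533097) (nat_lit 0) (nat_lit 458698963) (nat_lit 380) (nat_lit 458698963) (nat_lit 245) (nat_lit 1) (nat_lit 239) (nat_lit 1) (nat_lit 244) (nat_lit 1) (nat_lit 285) (nat_lit 392) (nat_lit 343)) (XT.lf (nat_lit 76) (nat_lit 3425364359) (nat_lit 0) (nat_lit 2951081210) (nat_lit 456) (nat_lit 3425364359) (nat_lit 240) (nat_lit 1) (nat_lit 239) (nat_lit 1) (nat_lit 245) (nat_lit 1) (nat_lit 286) (nat_lit 392) (nat_lit 342))))))))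
noncomputable def ec122 : XT := (XT.nd (nat_lit 1716) (nat_lit 2736) (nat_lit 0) (XT.nd (nat_lit 858) (nat_lit 1900) (nat_lit 0) (XT.nd (nat_lit 390) (nat_lit 1140) (nat_lit 0) (XT.nd (nat_lit 156) (nat_lit 684) (nat_lit 0) (XT.nd (nat_lit 78) (nat_lit 0) (nat_lit 0) (XT.lf (nat_lit 380) (nat_lit 4734607834) (nat_lit 0) (nat_lit 2476810242) (nat_lit 304) (nat_lit 2476810242) (nat_lit 240) (nat_lit 1) (nat_lit 235) (nat_lit 1) (nat_lit 239) (nat_lit 1) (nat_lit 287) (nat_lit 392) (nat_lit 341)) (XT.lf (nat_lit 76) (nat_lit 1316622116) (nat_lit 0) (nat_lit 6943345318) (nat_lit 380) (nat_lit 1316622116) (nat_lit 236) (nat_lit 1) (nat_lit 235) (nat_lit 1) (nat_lit 240) (nat_lit 1) (nat_lit 288) (nat_lit 392) (nat_lit 340))) (XT.nd (nat_lit 78) (nat_lit 380) (nat_lit 0) (XT.lf (nat_lit 380) (nat_lit 525013382) (nat_lit 0) (nat_lit 4470603167) (nat_lit 304) (nat_lit 4470603167) (nat_lit 236) (nat_lit 1) (nat_lit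 231) (nat_lit 1) (nat_lit 235) (nat_lit 1) (nat_lit 289) (nat_lit 392) (nat_lit 339)) (XT.nd (nat_lit 78) (nat_lit 0) (nat_lit 0) (XT.lf (nat_lit 380) (nat_lit 7845987834) (nat_lit 0) (nat_lit 756020071) (nat_lit 304) (nat_lit 756020071) (nat_lit 231) (nat_lit 1) (nat_lit 226) (nat_lit 1) (nat_lit 230) (nat_lit 1) (nat_lit 290) (nat_lit 392) (nat_lit 338)) (XT.lf (nat_lit 76) (nat_lit 2847670953) (nat_lit 0) (nat_lit 3555235939) (nat_lit 380) (nat_lit 2847670953) (nat_lit 227) (nat_lit 1) (nat_lit 226) (nat_lit 1) (nat_lit 231) (nat_lit 1) (nat_lit 291) (nat_lit 392) (nat_lit 337))))) (XT.nd (nat_lit 234) (nat_lit 532) (nat_lit 0) (XT.nd (nat_lit 78) (nat_lit 304) (nat_lit 0) (XT.lf (nat_lit 380) (nat_lit 3572480897) (nat_lit 0) (nat_lit 2786380616) (nat_lit 304) (nat_lit 2786380616) (nat_lit 227) (nat_lit 1) (nat_lit 222) (nat_lit 1) (nat_lit 226) (nat_lit 1) (nat_lit 292) (nat_lit 392) (nat_lit 336))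 (XT.nd (nat_lit 78) (nat_lit 304) (nat_lit 0) (XT.lf (nat_lit 76) (nat_lit 738039846) (nat_lit 0) (nat_lit 7565864524) (nat_lit 380) (nat_lit 738039846) (nat_lit 223) (nat_lit 1) (nat_lit 222) (nat_lit 1) (nat_lit 227) (nat_lit 1) (nat_lit 293) (nat_lit 392) (nat_lit 335)) (XT.lf (nat_lit 76) (nat_lit 4159118036) (nat_lit 0) (nat_lit 621075798) (nat_lit 304) (nat_lit 4159118036) (nat_lit 219) (nat_lit 1) (nat_lit 218) (nat_lit 1) (nat_lit 222) (nat_lit 1) (nat_lit 294) (nat_lit 392) (nat_lit 334)))) (XT.nd (nat_lit 78) (nat_lit 228) (nat_lit 0) (XT.lf (nat_lit 380) (nat_lit 6189649905) (nat_lit 0) (nat_lit 1324505423) (nat_lit 304) (nat_lit 1324505423) (nat_lit 219) (nat_lit 1) (nat_lit 214) (nat_lit 1) (nat_lit 218) (nat_lit 1) (nat_lit 295) (nat_lit 392) (nat_lit 333)) (XT.nd (nat_lit 78) (nat_lit 228) (nat_lit 0) (XT.lf (nat_lit 76) (nat_lit 2030888865) (nat_lit 0) (nat_lit 4677378528) (nat_lit 380)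 (nat_lit 2030888865) (nat_lit 215) (nat_lit 1) (nat_lit 214) (nat_lit 1) (nat_lit 219) (nat_lit 1) (nat_lit 296) (nat_lit 392) (nat_lit 332)) (XT.lf (nat_lit 304) (nat_lit 1950025763) (nat_lit 0) (nat_lit 3345594280) (nat_lit 228) (nat_lit 3345594280) (nat_lit 215) (nat_lit 1) (nat_lit 211) (nat_lit 1) (nat_lit 214) (nat_lit 1) (nat_lit 297) (nat_lit 392) (nat_lit 331)))))) (XT.nd (nat_lit 390) (nat_lit 988) (nat_lit 0) (XT.nd (nat_lit 156) (nat_lit 532) (nat_lit 0) (XT.nd (nat_lit 78) (nat_lit 0) (nat_lit 0) (XT.lf (nat_lit 380) (nat_lit 8427139208) (nat_lit 0) (nat_lit 59177113) (nat_lit 304) (nat_lit 59177113) (nat_lit 211) (nat_lit 1) (nat_lit 206) (nat_lit 1) (nat_lit 210) (nat_lit 1) (nat_lit 298) (nat_lit 392) (nat_lit 330)) (XT.lf (nat_lit 76) (nat_lit 3139515560) (nat_lit 0) (nat_lit 2170553242) (nat_lit 380) (nat_lit 3139515560) (nat_lit 207) (nat_lit 1) (nat_lit 206) (nat_lit 1) (nat_lit 211)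 (nat_lit 1) (nat_lit 299) (nat_lit 392) (nat_lit 329))) (XT.nd (nat_lit 78) (nat_lit 304) (nat_lit 0) (XT.lf (nat_lit 304) (nat_lit 4172209354) (nat_lit 0) (nat_lit 2091819800) (nat_lit 228) (nat_lit 2091819800) (nat_lit 207) (nat_lit 1) (nat_lit 203) (nat_lit 1) (nat_lit 206) (nat_lit 1) (nat_lit 300) (nat_lit 392) (nat_lit 328)) (XT.nd (nat_lit 78) (nat_lit 304) (nat_lit 0) (XT.lf (nat_lit 76) (nat_lit 1042721162) (nat_lit 0) (nat_lit 6178198204) (nat_lit 304) (nat_lit 1042721162) (nat_lit 204) (nat_lit 1) (nat_lit 203) (nat_lit 1) (nat_lit 207) (nat_lit 1) (nat_lit 301) (nat_lit 392) (nat_lit 327)) (XT.lf (nat_lit 76) (nat_lit 4085629696) (nat_lit 0) (nat_lit 1093881) (nat_lit 304) (nat_lit 4085629696) (nat_lit 200) (nat_lit 1) (nat_lit 199) (nat_lit 1) (nat_lit 203) (nat_lit 1) (nat_lit 302) (nat_lit 392) (nat_lit 326))))) (XT.nd (nat_lit 234) (nat_lit 532) (nat_lit 0) (XT.nd (nat_lit 78) (nat_lit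 228) (nat_lit 0) (XT.lf (nat_lit 304) (nat_lit 6075533313) (nat_lit 0) (nat_lit 1003508794) (nat_lit 228) (nat_lit 1003508794) (nat_lit 200) (nat_lit 1) (nat_lit 196) (nat_lit 1) (nat_lit 199) (nat_lit 1) (nat_lit 303) (nat_lit 392) (nat_lit 325)) (XT.nd (nat_lit 78) (nat_lit 228) (nat_lit 0) (XT.lf (nat_lit 76) (nat_lit 1990347002) (nat_lit 0) (nat_lit 4012918075) (nat_lit 304) (nat_lit 1990347002) (nat_lit 197) (nat_lit 1) (nat_lit 196) (nat_lit 1) (nat_lit 200) (nat_lit 1) (nat_lit 304) (nat_lit 392) (nat_lit 324)) (XT.lf (nat_lit 304) (nat_lit 1907527098) (nat_lit 0) (nat_lit 2999295359) (nat_lit 228) (nat_lit 2999295359) (nat_lit 197) (nat_lit 1) (nat_lit 193) (nat_lit 1) (nat_lit 196) (nat_lit 1) (nat_lit 305) (nat_lit 392) (nat_lit 323)))) (XT.nd (nat_lit 78) (nat_lit 228) (nat_lit 0) (XT.lf (nat_lit 304) (nat_lit 7697624251) (nat_lit 0) (nat_lit 61462813) (nat_lit 228) (nat_lit 61462813) (nat_lit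 193) (nat_lit 1) (nat_lit 189) (nat_lit 1) (nat_lit 192) (nat_lit 1) (nat_lit 306) (nat_lit 392) (nat_lit 322)) (XT.nd (nat_lit 78) (nat_lit 228) (nat_lit 0) (XT.lf (nat_lit 76) (nat_lit 2801312827) (nat_lit 0) (nat_lit 2132094658) (nat_lit 304) (nat_lit 2801312827) (nat_lit 190) (nat_lit 1) (nat_lit 189) (nat_lit 1) (nat_lit 193) (nat_lit 1) (nat_lit 307) (nat_lit 392) (nat_lit 321)) (XT.lf (nat_lit 304) (nat_lit 3547743547) (nat_lit 0) (nat_lit 2051519135) (nat_lit 228) (nat_lit 2051519135) (nat_lit 190) (nat_lit 1) (nat_lit 186) (nat_lit 1) (nat_lit 189) (nat_lit 1) (nat_lit 308) (nat_lit 392) (nat_lit 320))))))) (XT.nd (nat_lit 858) (nat_lit 1292) (nat_lit 0) (XT.nd (nat_lit 390) (nat_lit 836) (nat_lit 0) (XT.nd (nat_lit 156) (nat_lit 380) (nat_lit 0) (XT.nd (nat_lit 78) (nat_lit 228) (nat_lit 0) (XT.lf (nat_lit 76) (nat_lit 758793100) (nat_lit 0) (nat_lit 6050678839) (nat_lit 304) (nat_lit 758793100)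 (nat_lit 187) (nat_lit 1) (nat_lit 186) (nat_lit 1) (nat_lit 190) (nat_lit 1) (nat_lit 309) (nat_lit 392) (nat_lit 319)) (XT.lf (nat_lit 76) (nat_lit 3491760548) (nat_lit 0) (nat_lit 502754920) (nat_lit 228) (nat_lit 3491760548) (nat_lit 184) (nat_lit 1) (nat_lit 183) (nat_lit 1) (nat_lit 186) (nat_lit 1) (nat_lit 310) (nat_lit 392) (nat_lit 318))) (XT.nd (nat_lit 78) (nat_lit 152) (nat_lit 0) (XT.lf (nat_lit 304) (nat_lit 4951085771) (nat_lit 0) (nat_lit 1227295807) (nat_lit 228) (nat_lit 1227295807) (nat_lit 184) (nat_lit 1) (nat_lit 180) (nat_lit 1) (nat_lit 183) (nat_lit 1) (nat_lit 311) (nat_lit 392) (nat_lit 317)) (XT.nd (nat_lit 78) (nat_lit 152) (nat_lit 0) (XT.lf (nat_lit 76) (nat_lit 1464413470) (nat_lit 0) (nat_lit 4397171562) (nat_lit 304) (nat_lit 1464413470) (nat_lit 181) (nat_lit 1) (nat_lit 180) (nat_lit 1) (nat_lit 184) (nat_lit 1) (nat_lit 312) (nat_lit 392) (nat_lit 316)) (XT.lf (nat_lit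 228) (nat_lit 922359326) (nat_lit 0) (nat_lit 3162512710) (nat_lit 152) (nat_lit 3162512710) (nat_lit 181) (nat_lit 1) (nat_lit 178) (nat_lit 1) (nat_lit 180) (nat_lit 1) (nat_lit 313) (nat_lit 392) (nat_lit 315))))) (XT.nd (nat_lit 234) (nat_lit 380) (nat_lit 0) (XT.nd (nat_lit 78) (nat_lit 152) (nat_lit 0) (XT.lf (nat_lit 304) (nat_lit 6145540221) (nat_lit 0) (nat_lit 512327329) (nat_lit 228) (nat_lit 512327329) (nat_lit 178) (nat_lit 1) (nat_lit 174) (nat_lit 1) (nat_lit 177) (nat_lit 1) (nat_lit 314) (nat_lit 392) (nat_lit 314)) (XT.nd (nat_lit 78) (nat_lit 152) (nat_lit 0) (XT.lf (nat_lit 76) (nat_lit 2068331457) (nat_lit 0) (nat_lit 2956559867) (nat_lit 304) (nat_lit 2068331457) (nat_lit 175) (nat_lit 1) (nat_lit 174) (nat_lit 1) (nat_lit 178) (nat_lit 1) (nat_lit 315) (nat_lit 392) (nat_lit 313)) (XT.lf (nat_lit 228) (nat_lit 2157310715) (nat_lit 0) (nat_lit 2430168812) (nat_lit 152) (nat_lit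 2430168812) (nat_lit 175) (nat_lit 1) (nat_lit 172) (nat_lit 1) (nat_lit 174) (nat_lit 1) (nat_lit 316) (nat_lit 392) (nat_lit 312)))) (XT.nd (nat_lit 78) (nat_lit 380) (nat_lit 0) (XT.lf (nat_lit 76) (nat_lit 107125019) (nat_lit 0) (nat_lit 6729402933) (nat_lit 228) (nat_lit 107125019) (nat_lit 173) (nat_lit 1) (nat_lit 172) (nat_lit 1) (nat_lit 175) (nat_lit 1) (nat_lit 317) (nat_lit 392) (nat_lit 311)) (XT.nd (nat_lit 78) (nat_lit 152) (nat_lit 0) (XT.lf (nat_lit 76) (nat_lit 2582558580) (nat_lit 0) (nat_lit 1704272804) (nat_lit 228) (nat_lit 2582558580) (nat_lit 170) (nat_lit 1) (nat_lit 169) (nat_lit 1) (nat_lit 172) (nat_lit 1) (nat_lit 318) (nat_lit 392) (nat_lit 310)) (XT.lf (nat_lit 228) (nat_lit 3215583794) (nat_lit 0) (nat_lit 1790549465) (nat_lit 152) (nat_lit 1790549465) (nat_lit 170) (nat_lit 1) (nat_lit 167) (nat_lit 1) (nat_lit 169) (nat_lit 1) (nat_lit 319) (nat_lit 392) (nat_lit 309))))))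 (XT.nd (nat_lit 390) (nat_lit 760) (nat_lit 0) (XT.nd (nat_lit 156) (nat_lit 304) (nat_lit 0) (XT.nd (nat_lit 78) (nat_lit 228) (nat_lit 0) (XT.lf (nat_lit 76) (nat_lit 645497744) (nat_lit 0) (nat_lit 5434170377) (nat_lit 228) (nat_lit 645497744) (nat_lit 168) (nat_lit 1) (nat_lit 167) (nat_lit 1) (nat_lit 170) (nat_lit 1) (nat_lit 320) (nat_lit 392) (nat_lit 308)) (XT.lf (nat_lit 76) (nat_lit 3017747393) (nat_lit 0) (nat_lit 618503591) (nat_lit 228) (nat_lit 3017747393) (nat_lit 165) (nat_lit 1) (nat_lit 164) (nat_lit 1) (nat_lit 167) (nat_lit 1) (nat_lit 321) (nat_lit 392) (nat_lit 307))) (XT.nd (nat_lit 78) (nat_lit 152) (nat_lit 0) (XT.lf (nat_lit 228) (nat_lit 4118015393) (nat_lit 0) (nat_lit 1232992583) (nat_lit 152) (nat_lit 1232992583) (nat_lit 165) (nat_lit 1) (nat_lit 162) (nat_lit 1) (nat_lit 164) (nat_lit 1) (nat_lit 322) (nat_lit 392) (nat_lit 306)) (XT.nd (nat_lit 78) (nat_lit 152) (nat_lit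 0) (XT.lf (nat_lit 76) (nat_lit 1107806242) (nat_lit 0) (nat_lit 4299241482) (nat_lit 228) (nat_lit 1107806242) (nat_lit 163) (nat_lit 1) (nat_lit 162) (nat_lit 1) (nat_lit 165) (nat_lit 1) (nat_lit 323) (nat_lit 392) (nat_lit 305)) (XT.lf (nat_lit 228) (nat_lit 326469943) (nat_lit 0) (nat_lit 3060011878) (nat_lit 152) (nat_lit 3060011878) (nat_lit 163) (nat_lit 1) (nat_lit 160) (nat_lit 1) (nat_lit 162) (nat_lit 1) (nat_lit 324) (nat_lit 392) (nat_lit 304))))) (XT.nd (nat_lit 234) (nat_lit 380) (nat_lit 0) (XT.nd (nat_lit 78) (nat_lit 152) (nat_lit 0) (XT.lf (nat_lit 228) (nat_lit 4883085709) (nat_lit 0) (nat_lit 748034420) (nat_lit 152) (nat_lit 748034420) (nat_lit 160) (nat_lit 1) (nat_lit 157) (nat_lit 1) (nat_lit 159) (nat_lit 1) (nat_lit 325) (nat_lit 392) (nat_lit 303)) (XT.nd (nat_lit 78) (nat_lit 152) (nat_lit 0) (XT.lf (nat_lit 76) (nat_lit 1502999514) (nat_lit 0) (nat_lit 3306278126) (nat_lit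 228) (nat_lit 1502999514) (nat_lit 158) (nat_lit 1) (nat_lit 157) (nat_lit 1) (nat_lit 160) (nat_lit 1) (nat_lit 326) (nat_lit 392) (nat_lit 302)) (XT.lf (nat_lit 228) (nat_lit 1151170283) (nat_lit 0) (nat_lit 2547616624) (nat_lit 152) (nat_lit 2547616624) (nat_lit 158) (nat_lit 1) (nat_lit 155) (nat_lit 1) (nat_lit 157) (nat_lit 1) (nat_lit 327) (nat_lit 392) (nat_lit 301)))) (XT.nd (nat_lit 78) (nat_lit 152) (nat_lit 0) (XT.lf (nat_lit 228) (nat_lit 5527182066) (nat_lit 0) (nat_lit 327275671) (nat_lit 152) (nat_lit 327275671) (nat_lit 155) (nat_lit 1) (nat_lit 152) (nat_lit 1) (nat_lit 154) (nat_lit 1) (nat_lit 328) (nat_lit 392) (nat_lit 300)) (XT.nd (nat_lit 78) (nat_lit 152) (nat_lit 0) (XT.lf (nat_lit 76) (nat_lit 1839015034) (nat_lit 0) (nat_lit 2439000587) (nat_lit 228) (nat_lit 1839015034) (nat_lit 153) (nat_lit 1) (nat_lit 152) (nat_lit 1) (nat_lit 155) (nat_lit 1) (nat_lit 329) (nat_lit 392)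 (nat_lit 299)) (XT.lf (nat_lit 228) (nat_lit 1858825097) (nat_lit 0) (nat_lit 2097345446) (nat_lit 152) (nat_lit 2097345446) (nat_lit 153) (nat_lit 1) (nat_lit 150) (nat_lit 1) (nat_lit 152) (nat_lit 1) (nat_lit 330) (nat_lit 392) (nat_lit 298))))))))
noncomputable def ec123 : XT := (XT.nd (nat_lit 49218) (nat_lit 0) (nat_lit 5396) (XT.nd (nat_lit 858) (nat_lit 1140) (nat_lit 0) (XT.nd (nat_lit 390) (nat_lit 532) (nat_lit 0) (XT.nd (nat_lit 156) (nat_lit 304) (nat_lit 0) (XT.nd (nat_lit 78) (nat_lit 152) (nat_lit 0) (XT.lf (nat_lit 76) (nat_lit 37101234) (nat_lit 0) (nat_lit 5917112752) (nat_lit 228) (nat_lit 37101234) (nat_lit 151) (nat_lit 1) (nat_lit 150) (nat_lit 1) (nat_lit 153) (nat_lit 1) (nat_lit 331) (nat_lit 392) (nat_lit 297)) (XT.lf (nat_lit 76) (nat_lit 2122891945) (nat_lit 0) (nat_lit 1682957610) (nat_lit 152) (nat_lit 2122891945) (nat_lit 149) (nat_lit 1) (nat_lit 148) (nat_lit 1) (nat_lit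 150) (nat_lit 1) (nat_lit 332) (nat_lit 392) (nat_lit 296))) (XT.nd (nat_lit 78) (nat_lit 152) (nat_lit 0) (XT.lf (nat_lit 228) (nat_lit 2463216985) (nat_lit 0) (nat_lit 1702125499) (nat_lit 152) (nat_lit 1702125499) (nat_lit 149) (nat_lit 1) (nat_lit 146) (nat_lit 1) (nat_lit 148) (nat_lit 1) (nat_lit 333) (nat_lit 392) (nat_lit 295)) (XT.nd (nat_lit 78) (nat_lit 152) (nat_lit 0) (XT.lf (nat_lit 76) (nat_lit 354090609) (nat_lit 0) (nat_lit 5099087577) (nat_lit 228) (nat_lit 354090609) (nat_lit 147) (nat_lit 1) (nat_lit 146) (nat_lit 1) (nat_lit 149) (nat_lit 1) (nat_lit 334) (nat_lit 392) (nat_lit 294)) (XT.lf (nat_lit 76) (nat_lit 2360871614) (nat_lit 0) (nat_lit 1025322135) (nat_lit 152) (nat_lit 2360871614) (nat_lit 145) (nat_lit 1) (nat_lit 144) (nat_lit 1) (nat_lit 146) (nat_lit 1) (nat_lit 335) (nat_lit 392) (nat_lit 293))))) (XT.nd (nat_lit 234) (nat_lit 228) (nat_lit 0) (XT.nd (nat_lit 78) (nat_lit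 152) (nat_lit 0) (XT.lf (nat_lit 228) (nat_lit 2976570331) (nat_lit 0) (nat_lit 1355676883) (nat_lit 152) (nat_lit 1355676883) (nat_lit 145) (nat_lit 1) (nat_lit 142) (nat_lit 1) (nat_lit 144) (nat_lit 1) (nat_lit 336) (nat_lit 392) (nat_lit 292)) (XT.nd (nat_lit 78) (nat_lit 152) (nat_lit 0) (XT.lf (nat_lit 76) (nat_lit 626378359) (nat_lit 0) (nat_lit 4376890293) (nat_lit 228) (nat_lit 626378359) (nat_lit 143) (nat_lit 1) (nat_lit 142) (nat_lit 1) (nat_lit 145) (nat_lit 1) (nat_lit 337) (nat_lit 392) (nat_lit 291)) (XT.lf (nat_lit 76) (nat_lit 2558486975) (nat_lit 0) (nat_lit 454709803) (nat_lit 152) (nat_lit 2558486975) (nat_lit 141) (nat_lit 1) (nat_lit 140) (nat_lit 1) (nat_lit 142) (nat_lit 1) (nat_lit 338) (nat_lit 392) (nat_lit 290)))) (XT.nd (nat_lit 78) (nat_lit 76) (nat_lit 0) (XT.lf (nat_lit 228) (nat_lit 3409725685) (nat_lit 0) (nat_lit 1052424092) (nat_lit 152) (nat_lit 1052424092) (nat_lit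 141) (nat_lit 1) (nat_lit 138) (nat_lit 1) (nat_lit 140) (nat_lit 1) (nat_lit 339) (nat_lit 392) (nat_lit 289)) (XT.nd (nat_lit 78) (nat_lit 76) (nat_lit 0) (XT.lf (nat_lit 76) (nat_lit 859221718) (nat_lit 0) (nat_lit 3739700651) (nat_lit 228) (nat_lit 859221718) (nat_lit 139) (nat_lit 1) (nat_lit 138) (nat_lit 1) (nat_lit 141) (nat_lit 1) (nat_lit 340) (nat_lit 392) (nat_lit 288)) (XT.lf (nat_lit 152) (nat_lit 39758106) (nat_lit 0) (nat_lit 2681265956) (nat_lit 76) (nat_lit 2681265956) (nat_lit 139) (nat_lit 1) (nat_lit 137) (nat_lit 1) (nat_lit 138) (nat_lit 1) (nat_lit 341) (nat_lit 392) (nat_lit 287)))))) (XT.nd (nat_lit 390) (nat_lit 608) (nat_lit 0) (XT.nd (nat_lit 156) (nat_lit 304) (nat_lit 0) (XT.nd (nat_lit 78) (nat_lit 0) (nat_lit 0) (XT.lf (nat_lit 228) (nat_lit 3772294680) (nat_lit 0) (nat_lit 787417349) (nat_lit 152) (nat_lit 787417349) (nat_lit 137) (nat_lit 1) (nat_lit 134) (nat_lit 1)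 (nat_lit 136) (nat_lit 1) (nat_lit 342) (nat_lit 392) (nat_lit 286)) (XT.lf (nat_lit 76) (nat_lit 1057283737) (nat_lit 0) (nat_lit 3177908908) (nat_lit 228) (nat_lit 1057283737) (nat_lit 135) (nat_lit 1) (nat_lit 134) (nat_lit 1) (nat_lit 137) (nat_lit 1) (nat_lit 343) (nat_lit 392) (nat_lit 285))) (XT.nd (nat_lit 78) (nat_lit 228) (nat_lit 0) (XT.lf (nat_lit 152) (nat_lit 473967614) (nat_lit 0) (nat_lit 2382270074) (nat_lit 76) (nat_lit 2382270074) (nat_lit 135) (nat_lit 1) (nat_lit 133) (nat_lit 1) (nat_lit 134) (nat_lit 1) (nat_lit 344) (nat_lit 392) (nat_lit 284)) (XT.nd (nat_lit 78) (nat_lit 0) (nat_lit 0) (XT.lf (nat_lit 228) (nat_lit 4072797655) (nat_lit 0) (nat_lit 556262713) (nat_lit 152) (nat_lit 556262713) (nat_lit 133) (nat_lit 1) (nat_lit 130) (nat_lit 1) (nat_lit 132) (nat_lit 1) (nat_lit 345) (nat_lit 392) (nat_lit 283)) (XT.lf (nat_lit 76) (nat_lit 1224699768) (nat_lit 0) (nat_lit 2682980725)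 (nat_lit 228) (nat_lit 1224699768) (nat_lit 131) (nat_lit 1) (nat_lit 130) (nat_lit 1) (nat_lit 133) (nat_lit 1) (nat_lit 346) (nat_lit 392) (nat_lit 282))))) (XT.nd (nat_lit 234) (nat_lit 304) (nat_lit 0) (XT.nd (nat_lit 78) (nat_lit 228) (nat_lit 0) (XT.lf (nat_lit 152) (nat_lit 846981128) (nat_lit 0) (nat_lit 2116616105) (nat_lit 76) (nat_lit 2116616105) (nat_lit 131) (nat_lit 1) (nat_lit 129) (nat_lit 1) (nat_lit 130) (nat_lit 1) (nat_lit 347) (nat_lit 392) (nat_lit 281)) (XT.nd (nat_lit 78) (nat_lit 0) (nat_lit 0) (XT.lf (nat_lit 228) (nat_lit 4318785917) (nat_lit 0) (nat_lit 355059980) (nat_lit 152) (nat_lit 355059980) (nat_lit 129) (nat_lit 1) (nat_lit 126) (nat_lit 1) (nat_lit 128) (nat_lit 1) (nat_lit 348) (nat_lit 392) (nat_lit 280)) (XT.lf (nat_lit 76) (nat_lit 1365136544) (nat_lit 0) (nat_lit 2247337140) (nat_lit 228) (nat_lit 1365136544) (nat_lit 127) (nat_lit 1) (nat_lit 126) (nat_lit 1)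 (nat_lit 129) (nat_lit 1) (nat_lit 349) (nat_lit 392) (nat_lit 279)))) (XT.nd (nat_lit 78) (nat_lit 228) (nat_lit 0) (XT.lf (nat_lit 152) (nat_lit 1165994908) (nat_lit 0) (nat_lit 1880585995) (nat_lit 76) (nat_lit 1880585995) (nat_lit 127) (nat_lit 1) (nat_lit 125) (nat_lit 1) (nat_lit 126) (nat_lit 1) (nat_lit 350) (nat_lit 392) (nat_lit 278)) (XT.nd (nat_lit 47580) (nat_lit 0) (nat_lit 9652) (XT.lf (nat_lit 228) (nat_lit 4516950352) (nat_lit 0) (nat_lit 180347518) (nat_lit 152) (nat_lit 180347518) (nat_lit 125) (nat_lit 1) (nat_lit 122) (nat_lit 1) (nat_lit 124) (nat_lit 1) (nat_lit 351) (nat_lit 392) (nat_lit 277)) (XT.lf (nat_lit 456) (nat_lit 5432573354) (nat_lit 0) (nat_lit 2575094309) (nat_lit 380) (nat_lit 2575094309) (nat_lit 255) (nat_lit 1) (nat_lit 249) (nat_lit 1) (nat_lit 254) (nat_lit 1) (nat_lit 280) (nat_lit 393) (nat_lit 347))))))) (XT.nd (nat_lit 858) (nat_lit 2204) (nat_lit 0) (XT.nd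 (nat_lit 390) (nat_lit 988) (nat_lit 0) (XT.nd (nat_lit 156) (nat_lit 760) (nat_lit 0) (XT.nd (nat_lit 78) (nat_lit 304) (nat_lit 0) (XT.lf (nat_lit 76) (nat_lit 1645903815) (nat_lit 0) (nat_lit 7166574480) (nat_lit 456) (nat_lit 1645903815) (nat_lit 250) (nat_lit 1) (nat_lit 249) (nat_lit 1) (nat_lit 255) (nat_lit 1) (nat_lit 281) (nat_lit 393) (nat_lit 346)) (XT.lf (nat_lit 380) (nat_lit 1143133773) (nat_lit 0) (nat_lit 4596222384) (nat_lit 304) (nat_lit 4596222384) (nat_lit 250) (nat_lit 1) (nat_lit 245) (nat_lit 1) (nat_lit 249) (nat_lit 1) (nat_lit 282) (nat_lit 393) (nat_lit 345))) (XT.nd (nat_lit 78) (nat_lit 304) (nat_lit 0) (XT.lf (nat_lit 456) (nat_lit 9270549090) (nat_lit 0) (nat_lit 472459932) (nat_lit 380) (nat_lit 472459932) (nat_lit 245) (nat_lit 1) (nat_lit 239) (nat_lit 1) (nat_lit 244) (nat_lit 1) (nat_lit 283) (nat_lit 393) (nat_lit 344)) (XT.nd (nat_lit 78) (nat_lit 304) (nat_lit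 0) (XT.lf (nat_lit 76) (nat_lit 3528125290) (nat_lit 0) (nat_lit 3039613646) (nat_lit 456) (nat_lit 3528125290) (nat_lit 240) (nat_lit 1) (nat_lit 239) (nat_lit 1) (nat_lit 245) (nat_lit 1) (nat_lit 284) (nat_lit 393) (nat_lit 343)) (XT.lf (nat_lit 380) (nat_lit 4876646069) (nat_lit 0) (nat_lit 2551114549) (nat_lit 304) (nat_lit 2551114549) (nat_lit 240) (nat_lit 1) (nat_lit 235) (nat_lit 1) (nat_lit 239) (nat_lit 1) (nat_lit 285) (nat_lit 393) (nat_lit 342))))) (XT.nd (nat_lit 234) (nat_lit 304) (nat_lit 0) (XT.nd (nat_lit 78) (nat_lit 684) (nat_lit 0) (XT.lf (nat_lit 76) (nat_lit 1356120779) (nat_lit 0) (nat_lit 7151645677) (nat_lit 380) (nat_lit 1356120779) (nat_lit 236) (nat_lit 1) (nat_lit 235) (nat_lit 1) (nat_lit 240) (nat_lit 1) (nat_lit 286) (nat_lit 393) (nat_lit 341)) (XT.nd (nat_lit 78) (nat_lit 380) (nat_lit 0) (XT.lf (nat_lit 380) (nat_lit 540763784) (nat_lit 0) (nat_lit 4604721262) (nat_lit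 304) (nat_lit 4604721262) (nat_lit 236) (nat_lit 1) (nat_lit 231) (nat_lit 1) (nat_lit 235) (nat_lit 1) (nat_lit 287) (nat_lit 393) (nat_lit 340)) (XT.lf (nat_lit 380) (nat_lit 8081367469) (nat_lit 0) (nat_lit 778700673) (nat_lit 304) (nat_lit 778700673) (nat_lit 231) (nat_lit 1) (nat_lit 226) (nat_lit 1) (nat_lit 230) (nat_lit 1) (nat_lit 288) (nat_lit 393) (nat_lit 339)))) (XT.nd (nat_lit 78) (nat_lit 304) (nat_lit 0) (XT.lf (nat_lit 76) (nat_lit 2933101081) (nat_lit 0) (nat_lit 3661893017) (nat_lit 380) (nat_lit 2933101081) (nat_lit 227) (nat_lit 1) (nat_lit 226) (nat_lit 1) (nat_lit 231) (nat_lit 1) (nat_lit 289) (nat_lit 393) (nat_lit 338)) (XT.nd (nat_lit 78) (nat_lit 0) (nat_lit 0) (XT.lf (nat_lit 380) (nat_lit 3679655324) (nat_lit 0) (nat_lit 2869972034) (nat_lit 304) (nat_lit 2869972034) (nat_lit 227) (nat_lit 1) (nat_lit 222) (nat_lit 1) (nat_lit 226) (nat_lit 1) (nat_lit 290) (nat_lit 393)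 (nat_lit 337)) (XT.lf (nat_lit 76) (nat_lit 760181041) (nat_lit 0) (nat_lit 7792840460) (nat_lit 380) (nat_lit 760181041) (nat_lit 223) (nat_lit 1) (nat_lit 222) (nat_lit 1) (nat_lit 227) (nat_lit 1) (nat_lit 291) (nat_lit 393) (nat_lit 336)))))) (XT.nd (nat_lit 468) (nat_lit 988) (nat_lit 0) (XT.nd (nat_lit 234) (nat_lit 608) (nat_lit 0) (XT.nd (nat_lit 78) (nat_lit 304) (nat_lit 0) (XT.lf (nat_lit 76) (nat_lit 4283891577) (nat_lit 0) (nat_lit 639708072) (nat_lit 304) (nat_lit 4283891577) (nat_lit 219) (nat_lit 1) (nat_lit 218) (nat_lit 1) (nat_lit 222) (nat_lit 1) (nat_lit 292) (nat_lit 393) (nat_lit 335)) (XT.nd (nat_lit 78) (nat_lit 0) (nat_lit 0) (XT.lf (nat_lit 380) (nat_lit 6375339402) (nat_lit 0) (nat_lit 1364240586) (nat_lit 304) (nat_lit 1364240586) (nat_lit 219) (nat_lit 1) (nat_lit 214) (nat_lit 1) (nat_lit 218) (nat_lit 1) (nat_lit 293) (nat_lit 393) (nat_lit 334)) (XT.lf (nat_lit 76) (nat_lit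 2091815531) (nat_lit 0) (nat_lit 4817699883) (nat_lit 380) (nat_lit 2091815531) (nat_lit 215) (nat_lit 1) (nat_lit 214) (nat_lit 1) (nat_lit 219) (nat_lit 1) (nat_lit 294) (nat_lit 393) (nat_lit 333)))) (XT.nd (nat_lit 78) (nat_lit 380) (nat_lit 0) (XT.lf (nat_lit 304) (nat_lit 2008526536) (nat_lit 0) (nat_lit 3445962108) (nat_lit 228) (nat_lit 3445962108) (nat_lit 215) (nat_lit 1) (nat_lit 211) (nat_lit 1) (nat_lit 214) (nat_lit 1) (nat_lit 295) (nat_lit 393) (nat_lit 332)) (XT.nd (nat_lit 78) (nat_lit 0) (nat_lit 0) (XT.lf (nat_lit 380) (nat_lit 8679953384) (nat_lit 0) (nat_lit 60952426) (nat_lit 304) (nat_lit 60952426) (nat_lit 211) (nat_lit 1) (nat_lit 206) (nat_lit 1) (nat_lit 210) (nat_lit 1) (nat_lit 296) (nat_lit 393) (nat_lit 331)) (XT.lf (nat_lit 76) (nat_lit 3233701027) (nat_lit 0) (nat_lit 2235669839) (nat_lit 380) (nat_lit 3233701027) (nat_lit 207) (nat_lit 1) (nat_lit 206) (nat_lit 1) (nat_lit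 211) (nat_lit 1) (nat_lit 297) (nat_lit 393) (nat_lit 330))))) (XT.nd (nat_lit 234) (nat_lit 456) (nat_lit 0) (XT.nd (nat_lit 78) (nat_lit 304) (nat_lit 0) (XT.lf (nat_lit 304) (nat_lit 4297375635) (nat_lit 0) (nat_lit 2154574394) (nat_lit 228) (nat_lit 2154574394) (nat_lit 207) (nat_lit 1) (nat_lit 203) (nat_lit 1) (nat_lit 206) (nat_lit 1) (nat_lit 298) (nat_lit 393) (nat_lit 329)) (XT.nd (nat_lit 78) (nat_lit 304) (nat_lit 0) (XT.lf (nat_lit 76) (nat_lit 1074002797) (nat_lit 0) (nat_lit 6363544150) (nat_lit 304) (nat_lit 1074002797) (nat_lit 204) (nat_lit 1) (nat_lit 203) (nat_lit 1) (nat_lit 207) (nat_lit 1) (nat_lit 299) (nat_lit 393) (nat_lit 328)) (XT.lf (nat_lit 76) (nat_lit 4208198587) (nat_lit 0) (nat_lit 1126697) (nat_lit 304) (nat_lit 4208198587) (nat_lit 200) (nat_lit 1) (nat_lit 199) (nat_lit 1) (nat_lit 203) (nat_lit 1) (nat_lit 300) (nat_lit 393) (nat_lit 327)))) (XT.nd (nat_lit 78) (nat_lit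 228) (nat_lit 0) (XT.lf (nat_lit 304) (nat_lit 6257799313) (nat_lit 0) (nat_lit 1033614057) (nat_lit 228) (nat_lit 1033614057) (nat_lit 200) (nat_lit 1) (nat_lit 196) (nat_lit 1) (nat_lit 199) (nat_lit 1) (nat_lit 301) (nat_lit 393) (nat_lit 326)) (XT.nd (nat_lit 78) (nat_lit 228) (nat_lit 0) (XT.lf (nat_lit 76) (nat_lit 2050057412) (nat_lit 0) (nat_lit 4133305618) (nat_lit 304) (nat_lit 2050057412) (nat_lit 197) (nat_lit 1) (nat_lit 196) (nat_lit 1) (nat_lit 200) (nat_lit 1) (nat_lit 302) (nat_lit 393) (nat_lit 325)) (XT.lf (nat_lit 304) (nat_lit 1964752911) (nat_lit 0) (nat_lit 3089274219) (nat_lit 228) (nat_lit 3089274219) (nat_lit 197) (nat_lit 1) (nat_lit 193) (nat_lit 1) (nat_lit 196) (nat_lit 1) (nat_lit 303) (nat_lit 393) (nat_lit 324))))))))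
noncomputable def ec124 : XT := (XT.nd (nat_lit 1716) (nat_lit 2204) (nat_lit 0) (XT.nd (nat_lit 858) (nat_lit 1292) (nat_lit 0) (XT.nd (nat_lit 390) (nat_lit 836) (nat_lit 0) (XT.nd (nat_lit 156) (nat_lit 456) (nat_lit 0) (XT.nd (nat_lit 78) (nat_lit 0) (nat_lit 0) (XT.lf (nat_lit 304) (nat_lit 7928552978) (nat_lit 0) (nat_lit 63306697) (nat_lit 228) (nat_lit 63306697) (nat_lit 193) (nat_lit 1) (nat_lit 189) (nat_lit 1) (nat_lit 192) (nat_lit 1) (nat_lit 304) (nat_lit 393) (nat_lit 323)) (XT.lf (nat_lit 76) (nat_lit 2885352212) (nat_lit 0) (nat_lit 2196057498) (nat_lit 304) (nat_lit 2885352212) (nat_lit 190) (nat_lit 1) (nat_lit 189) (nat_lit 1) (nat_lit 193) (nat_lit 1) (nat_lit 305) (nat_lit 393) (nat_lit 322))) (XT.nd (nat_lit 78) (nat_lit 228) (nat_lit 0) (XT.lf (nat_lit 304) (nat_lit 3654175854) (nat_lit 0) (nat_lit 2113064709) (nat_lit 228) (nat_lit 2113064709) (nat_lit 190) (nat_lit 1) (nat_lit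 186) (nat_lit 1) (nat_lit 189) (nat_lit 1) (nat_lit 306) (nat_lit 393) (nat_lit 321)) (XT.nd (nat_lit 78) (nat_lit 228) (nat_lit 0) (XT.lf (nat_lit 76) (nat_lit 781556893) (nat_lit 0) (nat_lit 6232199205) (nat_lit 304) (nat_lit 781556893) (nat_lit 187) (nat_lit 1) (nat_lit 186) (nat_lit 1) (nat_lit 190) (nat_lit 1) (nat_lit 307) (nat_lit 393) (nat_lit 320)) (XT.lf (nat_lit 76) (nat_lit 3596513365) (nat_lit 0) (nat_lit 517837568) (nat_lit 228) (nat_lit 3596513365) (nat_lit 184) (nat_lit 1) (nat_lit 183) (nat_lit 1) (nat_lit 186) (nat_lit 1) (nat_lit 308) (nat_lit 393) (nat_lit 319))))) (XT.nd (nat_lit 234) (nat_lit 456) (nat_lit 0) (XT.nd (nat_lit 78) (nat_lit 152) (nat_lit 0) (XT.lf (nat_lit 304) (nat_lit 5099618344) (nat_lit 0) (nat_lit 1264114681) (nat_lit 228) (nat_lit 1264114681) (nat_lit 184) (nat_lit 1) (nat_lit 180) (nat_lit 1) (nat_lit 183) (nat_lit 1) (nat_lit 309) (nat_lit 393) (nat_lit 318))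 (XT.nd (nat_lit 78) (nat_lit 152) (nat_lit 0) (XT.lf (nat_lit 76) (nat_lit 1508345874) (nat_lit 0) (nat_lit 4529086709) (nat_lit 304) (nat_lit 1508345874) (nat_lit 181) (nat_lit 1) (nat_lit 180) (nat_lit 1) (nat_lit 184) (nat_lit 1) (nat_lit 310) (nat_lit 393) (nat_lit 317)) (XT.lf (nat_lit 228) (nat_lit 950030105) (nat_lit 0) (nat_lit 3257388091) (nat_lit 152) (nat_lit 3257388091) (nat_lit 181) (nat_lit 1) (nat_lit 178) (nat_lit 1) (nat_lit 180) (nat_lit 1) (nat_lit 311) (nat_lit 393) (nat_lit 316)))) (XT.nd (nat_lit 78) (nat_lit 152) (nat_lit 0) (XT.lf (nat_lit 304) (nat_lit 6329906428) (nat_lit 0) (nat_lit 527697149) (nat_lit 228) (nat_lit 527697149) (nat_lit 178) (nat_lit 1) (nat_lit 174) (nat_lit 1) (nat_lit 177) (nat_lit 1) (nat_lit 312) (nat_lit 393) (nat_lit 315)) (XT.nd (nat_lit 78) (nat_lit 152) (nat_lit 0) (XT.lf (nat_lit 76) (nat_lit 2130381400) (nat_lit 0) (nat_lit 3045256663) (nat_lit 304)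 (nat_lit 2130381400) (nat_lit 175) (nat_lit 1) (nat_lit 174) (nat_lit 1) (nat_lit 178) (nat_lit 1) (nat_lit 313) (nat_lit 393) (nat_lit 314)) (XT.lf (nat_lit 228) (nat_lit 2222030036) (nat_lit 0) (nat_lit 2503073876) (nat_lit 152) (nat_lit 2503073876) (nat_lit 175) (nat_lit 1) (nat_lit 172) (nat_lit 1) (nat_lit 174) (nat_lit 1) (nat_lit 314) (nat_lit 393) (nat_lit 313)))))) (XT.nd (nat_lit 390) (nat_lit 684) (nat_lit 0) (XT.nd (nat_lit 156) (nat_lit 380) (nat_lit 0) (XT.nd (nat_lit 78) (nat_lit 228) (nat_lit 0) (XT.lf (nat_lit 76) (nat_lit 110338770) (nat_lit 0) (nat_lit 6931285021) (nat_lit 228) (nat_lit 110338770) (nat_lit 173) (nat_lit 1) (nat_lit 172) (nat_lit 1) (nat_lit 175) (nat_lit 1) (nat_lit 315) (nat_lit 393) (nat_lit 312)) (XT.lf (nat_lit 76) (nat_lit 2660035338) (nat_lit 0) (nat_lit 1755400988) (nat_lit 228) (nat_lit 2660035338) (nat_lit 170) (nat_lit 1) (nat_lit 169) (nat_lit 1) (nat_lit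 172) (nat_lit 1) (nat_lit 316) (nat_lit 393) (nat_lit 311))) (XT.nd (nat_lit 78) (nat_lit 228) (nat_lit 0) (XT.lf (nat_lit 228) (nat_lit 3312051308) (nat_lit 0) (nat_lit 1844265949) (nat_lit 152) (nat_lit 1844265949) (nat_lit 170) (nat_lit 1) (nat_lit 167) (nat_lit 1) (nat_lit 169) (nat_lit 1) (nat_lit 317) (nat_lit 393) (nat_lit 310)) (XT.nd (nat_lit 78) (nat_lit 228) (nat_lit 0) (XT.lf (nat_lit 76) (nat_lit 664862677) (nat_lit 0) (nat_lit 5597195489) (nat_lit 228) (nat_lit 664862677) (nat_lit 168) (nat_lit 1) (nat_lit 167) (nat_lit 1) (nat_lit 170) (nat_lit 1) (nat_lit 318) (nat_lit 393) (nat_lit 309)) (XT.lf (nat_lit 76) (nat_lit 3108279815) (nat_lit 0) (nat_lit 637058698) (nat_lit 228) (nat_lit 3108279815) (nat_lit 165) (nat_lit 1) (nat_lit 164) (nat_lit 1) (nat_lit 167) (nat_lit 1) (nat_lit 319) (nat_lit 393) (nat_lit 308))))) (XT.nd (nat_lit 234) (nat_lit 380) (nat_lit 0) (XT.nd (nat_lit 78) (nat_lit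 152) (nat_lit 0) (XT.lf (nat_lit 228) (nat_lit 4241555855) (nat_lit 0) (nat_lit 1269982361) (nat_lit 152) (nat_lit 1269982361) (nat_lit 165) (nat_lit 1) (nat_lit 162) (nat_lit 1) (nat_lit 164) (nat_lit 1) (nat_lit 320) (nat_lit 393) (nat_lit 307)) (XT.nd (nat_lit 78) (nat_lit 152) (nat_lit 0) (XT.lf (nat_lit 76) (nat_lit 1141040429) (nat_lit 0) (nat_lit 4428218727) (nat_lit 228) (nat_lit 1141040429) (nat_lit 163) (nat_lit 1) (nat_lit 162) (nat_lit 1) (nat_lit 165) (nat_lit 1) (nat_lit 321) (nat_lit 393) (nat_lit 306)) (XT.lf (nat_lit 228) (nat_lit 336264041) (nat_lit 0) (nat_lit 3151812234) (nat_lit 152) (nat_lit 3151812234) (nat_lit 163) (nat_lit 1) (nat_lit 160) (nat_lit 1) (nat_lit 162) (nat_lit 1) (nat_lit 322) (nat_lit 393) (nat_lit 305)))) (XT.nd (nat_lit 78) (nat_lit 152) (nat_lit 0) (XT.lf (nat_lit 228) (nat_lit 5029578280) (nat_lit 0) (nat_lit 770475453) (nat_lit 152) (nat_lit 770475453) (nat_lit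 160) (nat_lit 1) (nat_lit 157) (nat_lit 1) (nat_lit 159) (nat_lit 1) (nat_lit 323) (nat_lit 393) (nat_lit 304)) (XT.nd (nat_lit 78) (nat_lit 152) (nat_lit 0) (XT.lf (nat_lit 76) (nat_lit 1548089499) (nat_lit 0) (nat_lit 3405466470) (nat_lit 228) (nat_lit 1548089499) (nat_lit 158) (nat_lit 1) (nat_lit 157) (nat_lit 1) (nat_lit 160) (nat_lit 1) (nat_lit 324) (nat_lit 393) (nat_lit 303)) (XT.lf (nat_lit 228) (nat_lit 1185705392) (nat_lit 0) (nat_lit 2624045123) (nat_lit 152) (nat_lit 2624045123) (nat_lit 158) (nat_lit 1) (nat_lit 155) (nat_lit 1) (nat_lit 157) (nat_lit 1) (nat_lit 325) (nat_lit 393) (nat_lit 302))))))) (XT.nd (nat_lit 858) (nat_lit 1064) (nat_lit 0) (XT.nd (nat_lit 390) (nat_lit 608) (nat_lit 0) (XT.nd (nat_lit 156) (nat_lit 304) (nat_lit 0) (XT.nd (nat_lit 78) (nat_lit 0) (nat_lit 0) (XT.lf (nat_lit 228) (nat_lit 5692997528) (nat_lit 0) (nat_lit 337093941) (nat_lit 152) (nat_lit 337093941)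 (nat_lit 155) (nat_lit 1) (nat_lit 152) (nat_lit 1) (nat_lit 154) (nat_lit 1) (nat_lit 326) (nat_lit 393) (nat_lit 301)) (XT.lf (nat_lit 76) (nat_lit 1894185485) (nat_lit 0) (nat_lit 2512170604) (nat_lit 228) (nat_lit 1894185485) (nat_lit 153) (nat_lit 1) (nat_lit 152) (nat_lit 1) (nat_lit 155) (nat_lit 1) (nat_lit 327) (nat_lit 393) (nat_lit 300))) (XT.nd (nat_lit 78) (nat_lit 152) (nat_lit 0) (XT.lf (nat_lit 228) (nat_lit 1914589850) (nat_lit 0) (nat_lit 2160265810) (nat_lit 152) (nat_lit 2160265810) (nat_lit 153) (nat_lit 1) (nat_lit 150) (nat_lit 1) (nat_lit 152) (nat_lit 1) (nat_lit 328) (nat_lit 393) (nat_lit 299)) (XT.nd (nat_lit 78) (nat_lit 152) (nat_lit 0) (XT.lf (nat_lit 76) (nat_lit 38214272) (nat_lit 0) (nat_lit 6094626135) (nat_lit 228) (nat_lit 38214272) (nat_lit 151) (nat_lit 1) (nat_lit 150) (nat_lit 1) (nat_lit 153) (nat_lit 1) (nat_lit 329) (nat_lit 393) (nat_lit 298)) (XT.lf (nat_lit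 76) (nat_lit 2186578703) (nat_lit 0) (nat_lit 1733446339) (nat_lit 152) (nat_lit 2186578703) (nat_lit 149) (nat_lit 1) (nat_lit 148) (nat_lit 1) (nat_lit 150) (nat_lit 1) (nat_lit 330) (nat_lit 393) (nat_lit 297))))) (XT.nd (nat_lit 234) (nat_lit 304) (nat_lit 0) (XT.nd (nat_lit 78) (nat_lit 152) (nat_lit 0) (XT.lf (nat_lit 228) (nat_lit 2537113495) (nat_lit 0) (nat_lit 1753189264) (nat_lit 152) (nat_lit 1753189264) (nat_lit 149) (nat_lit 1) (nat_lit 146) (nat_lit 1) (nat_lit 148) (nat_lit 1) (nat_lit 331) (nat_lit 393) (nat_lit 296)) (XT.nd (nat_lit 78) (nat_lit 152) (nat_lit 0) (XT.lf (nat_lit 76) (nat_lit 364713327) (nat_lit 0) (nat_lit 5252060204) (nat_lit 228) (nat_lit 364713327) (nat_lit 147) (nat_lit 1) (nat_lit 146) (nat_lit 1) (nat_lit 149) (nat_lit 1) (nat_lit 332) (nat_lit 393) (nat_lit 295)) (XT.lf (nat_lit 76) (nat_lit 2431697763) (nat_lit 0) (nat_lit 1056081800) (nat_lit 152) (nat_lit 2431697763)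 (nat_lit 145) (nat_lit 1) (nat_lit 144) (nat_lit 1) (nat_lit 146) (nat_lit 1) (nat_lit 333) (nat_lit 393) (nat_lit 294)))) (XT.nd (nat_lit 78) (nat_lit 152) (nat_lit 0) (XT.lf (nat_lit 228) (nat_lit 3065867441) (nat_lit 0) (nat_lit 1396347189) (nat_lit 152) (nat_lit 1396347189) (nat_lit 145) (nat_lit 1) (nat_lit 142) (nat_lit 1) (nat_lit 144) (nat_lit 1) (nat_lit 334) (nat_lit 393) (nat_lit 293)) (XT.nd (nat_lit 78) (nat_lit 152) (nat_lit 0) (XT.lf (nat_lit 76) (nat_lit 645169710) (nat_lit 0) (nat_lit 4508197002) (nat_lit 228) (nat_lit 645169710) (nat_lit 143) (nat_lit 1) (nat_lit 142) (nat_lit 1) (nat_lit 145) (nat_lit 1) (nat_lit 335) (nat_lit 393) (nat_lit 292)) (XT.lf (nat_lit 76) (nat_lit 2635241584) (nat_lit 0) (nat_lit 468351097) (nat_lit 152) (nat_lit 2635241584) (nat_lit 141) (nat_lit 1) (nat_lit 140) (nat_lit 1) (nat_lit 142) (nat_lit 1) (nat_lit 336) (nat_lit 393) (nat_lit 291)))))) (XT.nd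 (nat_lit 390) (nat_lit 608) (nat_lit 0) (XT.nd (nat_lit 156) (nat_lit 304) (nat_lit 0) (XT.nd (nat_lit 78) (nat_lit 0) (nat_lit 0) (XT.lf (nat_lit 228) (nat_lit 3512017456) (nat_lit 0) (nat_lit 1083996814) (nat_lit 152) (nat_lit 1083996814) (nat_lit 141) (nat_lit 1) (nat_lit 138) (nat_lit 1) (nat_lit 140) (nat_lit 1) (nat_lit 337) (nat_lit 393) (nat_lit 290)) (XT.lf (nat_lit 76) (nat_lit 884998370) (nat_lit 0) (nat_lit 3851891671) (nat_lit 228) (nat_lit 884998370) (nat_lit 139) (nat_lit 1) (nat_lit 138) (nat_lit 1) (nat_lit 141) (nat_lit 1) (nat_lit 338) (nat_lit 393) (nat_lit 289))) (XT.nd (nat_lit 78) (nat_lit 228) (nat_lit 0) (XT.lf (nat_lit 152) (nat_lit 40950849) (nat_lit 0) (nat_lit 2761703935) (nat_lit 76) (nat_lit 2761703935) (nat_lit 139) (nat_lit 1) (nat_lit 137) (nat_lit 1) (nat_lit 138) (nat_lit 1) (nat_lit 339) (nat_lit 393) (nat_lit 288)) (XT.nd (nat_lit 78) (nat_lit 0) (nat_lit 0) (XT.lf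 (nat_lit 228) (nat_lit 3885463520) (nat_lit 0) (nat_lit 811039870) (nat_lit 152) (nat_lit 811039870) (nat_lit 137) (nat_lit 1) (nat_lit 134) (nat_lit 1) (nat_lit 136) (nat_lit 1) (nat_lit 340) (nat_lit 393) (nat_lit 287)) (XT.lf (nat_lit 76) (nat_lit 1089002249) (nat_lit 0) (nat_lit 3273246175) (nat_lit 228) (nat_lit 1089002249) (nat_lit 135) (nat_lit 1) (nat_lit 134) (nat_lit 1) (nat_lit 137) (nat_lit 1) (nat_lit 341) (nat_lit 393) (nat_lit 286))))) (XT.nd (nat_lit 234) (nat_lit 304) (nat_lit 0) (XT.nd (nat_lit 78) (nat_lit 228) (nat_lit 0) (XT.lf (nat_lit 152) (nat_lit 488186643) (nat_lit 0) (nat_lit 2453738176) (nat_lit 76) (nat_lit 2453738176) (nat_lit 135) (nat_lit 1) (nat_lit 133) (nat_lit 1) (nat_lit 134) (nat_lit 1) (nat_lit 342) (nat_lit 393) (nat_lit 285)) (XT.nd (nat_lit 78) (nat_lit 0) (nat_lit 0) (XT.lf (nat_lit 228) (nat_lit 4194981584) (nat_lit 0) (nat_lit 572950595) (nat_lit 152) (nat_lit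 572950595) (nat_lit 133) (nat_lit 1) (nat_lit 130) (nat_lit 1) (nat_lit 132) (nat_lit 1) (nat_lit 343) (nat_lit 393) (nat_lit 284)) (XT.lf (nat_lit 76) (nat_lit 1261440761) (nat_lit 0) (nat_lit 2763470147) (nat_lit 228) (nat_lit 1261440761) (nat_lit 131) (nat_lit 1) (nat_lit 130) (nat_lit 1) (nat_lit 133) (nat_lit 1) (nat_lit 344) (nat_lit 393) (nat_lit 283)))) (XT.nd (nat_lit 78) (nat_lit 228) (nat_lit 0) (XT.lf (nat_lit 152) (nat_lit 872390561) (nat_lit 0) (nat_lit 2180114588) (nat_lit 76) (nat_lit 2180114588) (nat_lit 131) (nat_lit 1) (nat_lit 129) (nat_lit 1) (nat_lit 130) (nat_lit 1) (nat_lit 345) (nat_lit 393) (nat_lit 282)) (XT.nd (nat_lit 78) (nat_lit 0) (nat_lit 0) (XT.lf (nat_lit 228) (nat_lit 4448349495) (nat_lit 0) (nat_lit 365711780) (nat_lit 152) (nat_lit 365711780) (nat_lit 129) (nat_lit 1) (nat_lit 126) (nat_lit 1) (nat_lit 128) (nat_lit 1) (nat_lit 346) (nat_lit 393) (nat_lit 281)) (XT.lf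 (nat_lit 76) (nat_lit 1406090641) (nat_lit 0) (nat_lit 2314757254) (nat_lit 228) (nat_lit 1406090641) (nat_lit 127) (nat_lit 1) (nat_lit 126) (nat_lit 1) (nat_lit 129) (nat_lit 1) (nat_lit 347) (nat_lit 393) (nat_lit 280))))))))
noncomputable def ec125 : XT := (XT.nd (nat_lit 1716) (nat_lit 2888) (nat_lit 0) (XT.nd (nat_lit 858) (nat_lit 1520) (nat_lit 0) (XT.nd (nat_lit 390) (nat_lit 1216) (nat_lit 0) (XT.nd (nat_lit 156) (nat_lit 684) (nat_lit 0) (XT.nd (nat_lit 78) (nat_lit 304) (nat_lit 0) (XT.lf (nat_lit 76) (nat_lit 1396804403) (nat_lit 0) (nat_lit 7366195048) (nat_lit 380) (nat_lit 1396804403) (nat_lit 236) (nat_lit 1) (nat_lit 235) (nat_lit 1) (nat_lit 240) (nat_lit 1) (nat_lit 284) (nat_lit 394) (nat_lit 342)) (XT.lf (nat_lit 380) (nat_lit 556986697) (nat_lit 0) (nat_lit 4742862900) (nat_lit 304) (nat_lit 4742862900) (nat_lit 236) (nat_lit 1) (nat_lit 231) (nat_lit 1) (nat_lit 235) (nat_lit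 1) (nat_lit 285) (nat_lit 394) (nat_lit 341))) (XT.nd (nat_lit 78) (nat_lit 304) (nat_lit 0) (XT.lf (nat_lit 380) (nat_lit 8323808493) (nat_lit 0) (nat_lit 802061693) (nat_lit 304) (nat_lit 802061693) (nat_lit 231) (nat_lit 1) (nat_lit 226) (nat_lit 1) (nat_lit 230) (nat_lit 1) (nat_lit 286) (nat_lit 394) (nat_lit 340)) (XT.nd (nat_lit 78) (nat_lit 304) (nat_lit 0) (XT.lf (nat_lit 76) (nat_lit 3021094114) (nat_lit 0) (nat_lit 3771749808) (nat_lit 380) (nat_lit 3021094114) (nat_lit 227) (nat_lit 1) (nat_lit 226) (nat_lit 1) (nat_lit 231) (nat_lit 1) (nat_lit 287) (nat_lit 394) (nat_lit 339)) (XT.lf (nat_lit 380) (nat_lit 3790044983) (nat_lit 0) (nat_lit 2956071195) (nat_lit 304) (nat_lit 2956071195) (nat_lit 227) (nat_lit 1) (nat_lit 222) (nat_lit 1) (nat_lit 226) (nat_lit 1) (nat_lit 288) (nat_lit 394) (nat_lit 338))))) (XT.nd (nat_lit 234) (nat_lit 608) (nat_lit 0) (XT.nd (nat_lit 78) (nat_lit 608)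 (nat_lit 0) (XT.lf (nat_lit 76) (nat_lit 782986472) (nat_lit 0) (nat_lit 8026625674) (nat_lit 380) (nat_lit 782986472) (nat_lit 223) (nat_lit 1) (nat_lit 222) (nat_lit 1) (nat_lit 227) (nat_lit 1) (nat_lit 289) (nat_lit 394) (nat_lit 337)) (XT.nd (nat_lit 78) (nat_lit 304) (nat_lit 0) (XT.lf (nat_lit 76) (nat_lit 4412408324) (nat_lit 0) (nat_lit 658899314) (nat_lit 304) (nat_lit 4412408324) (nat_lit 219) (nat_lit 1) (nat_lit 218) (nat_lit 1) (nat_lit 222) (nat_lit 1) (nat_lit 290) (nat_lit 394) (nat_lit 336)) (XT.lf (nat_lit 380) (nat_lit 6566599584) (nat_lit 0) (nat_lit 1405167803) (nat_lit 304) (nat_lit 1405167803) (nat_lit 219) (nat_lit 1) (nat_lit 214) (nat_lit 1) (nat_lit 218) (nat_lit 1) (nat_lit 291) (nat_lit 394) (nat_lit 335)))) (XT.nd (nat_lit 78) (nat_lit 608) (nat_lit 0) (XT.lf (nat_lit 76) (nat_lit 2154569997) (nat_lit 0) (nat_lit 4962230880) (nat_lit 380) (nat_lit 2154569997) (nat_lit 215)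 (nat_lit 1) (nat_lit 214) (nat_lit 1) (nat_lit 219) (nat_lit 1) (nat_lit 292) (nat_lit 394) (nat_lit 334)) (XT.nd (nat_lit 78) (nat_lit 380) (nat_lit 0) (XT.lf (nat_lit 304) (nat_lit 2068782332) (nat_lit 0) (nat_lit 3549340971) (nat_lit 228) (nat_lit 3549340971) (nat_lit 215) (nat_lit 1) (nat_lit 211) (nat_lit 1) (nat_lit 214) (nat_lit 1) (nat_lit 293) (nat_lit 394) (nat_lit 333)) (XT.lf (nat_lit 380) (nat_lit 8940351986) (nat_lit 0) (nat_lit 62780999) (nat_lit 304) (nat_lit 62780999) (nat_lit 211) (nat_lit 1) (nat_lit 206) (nat_lit 1) (nat_lit 210) (nat_lit 1) (nat_lit 294) (nat_lit 394) (nat_lit 332)))))) (XT.nd (nat_lit 390) (nat_lit 760) (nat_lit 0) (XT.nd (nat_lit 156) (nat_lit 532) (nat_lit 0) (XT.nd (nat_lit 78) (nat_lit 228) (nat_lit 0) (XT.lf (nat_lit 76) (nat_lit 3330712058) (nat_lit 0) (nat_lit 2302739934) (nat_lit 380) (nat_lit 3330712058) (nat_lit 207) (nat_lit 1) (nat_lit 206) (nat_lit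 1) (nat_lit 211) (nat_lit 1) (nat_lit 295) (nat_lit 394) (nat_lit 331)) (XT.lf (nat_lit 304) (nat_lit 4426296904) (nat_lit 0) (nat_lit 2219211626) (nat_lit 228) (nat_lit 2219211626) (nat_lit 207) (nat_lit 1) (nat_lit 203) (nat_lit 1) (nat_lit 206) (nat_lit 1) (nat_lit 296) (nat_lit 394) (nat_lit 330))) (XT.nd (nat_lit 78) (nat_lit 532) (nat_lit 0) (XT.lf (nat_lit 76) (nat_lit 1106222881) (nat_lit 0) (nat_lit 6554450474) (nat_lit 304) (nat_lit 1106222881) (nat_lit 204) (nat_lit 1) (nat_lit 203) (nat_lit 1) (nat_lit 207) (nat_lit 1) (nat_lit 297) (nat_lit 394) (nat_lit 329)) (XT.nd (nat_lit 78) (nat_lit 228) (nat_lit 0) (XT.lf (nat_lit 76) (nat_lit 4334444545) (nat_lit 0) (nat_lit 1160498) (nat_lit 304) (nat_lit 4334444545) (nat_lit 200) (nat_lit 1) (nat_lit 199) (nat_lit 1) (nat_lit 203) (nat_lit 1) (nat_lit 298) (nat_lit 394) (nat_lit 328)) (XT.lf (nat_lit 304) (nat_lit 6445533292) (nat_lit 0) (nat_lit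 1064622479) (nat_lit 228) (nat_lit 1064622479) (nat_lit 200) (nat_lit 1) (nat_lit 196) (nat_lit 1) (nat_lit 199) (nat_lit 1) (nat_lit 299) (nat_lit 394) (nat_lit 327))))) (XT.nd (nat_lit 234) (nat_lit 228) (nat_lit 0) (XT.nd (nat_lit 78) (nat_lit 532) (nat_lit 0) (XT.lf (nat_lit 76) (nat_lit 2111559134) (nat_lit 0) (nat_lit 4257304786) (nat_lit 304) (nat_lit 2111559134) (nat_lit 197) (nat_lit 1) (nat_lit 196) (nat_lit 1) (nat_lit 200) (nat_lit 1) (nat_lit 300) (nat_lit 394) (nat_lit 326)) (XT.nd (nat_lit 78) (nat_lit 304) (nat_lit 0) (XT.lf (nat_lit 304) (nat_lit 2023695498) (nat_lit 0) (nat_lit 3181952446) (nat_lit 228) (nat_lit 3181952446) (nat_lit 197) (nat_lit 1) (nat_lit 193) (nat_lit 1) (nat_lit 196) (nat_lit 1) (nat_lit 301) (nat_lit 394) (nat_lit 325)) (XT.lf (nat_lit 304) (nat_lit 8166409568) (nat_lit 0) (nat_lit 65205898) (nat_lit 228) (nat_lit 65205898) (nat_lit 193) (nat_lit 1) (nat_lit 189)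 (nat_lit 1) (nat_lit 192) (nat_lit 1) (nat_lit 302) (nat_lit 394) (nat_lit 324)))) (XT.nd (nat_lit 78) (nat_lit 228) (nat_lit 0) (XT.lf (nat_lit 76) (nat_lit 2971912779) (nat_lit 0) (nat_lit 2261939223) (nat_lit 304) (nat_lit 2971912779) (nat_lit 190) (nat_lit 1) (nat_lit 189) (nat_lit 1) (nat_lit 193) (nat_lit 1) (nat_lit 303) (nat_lit 394) (nat_lit 323)) (XT.nd (nat_lit 78) (nat_lit 0) (nat_lit 0) (XT.lf (nat_lit 304) (nat_lit 3763801129) (nat_lit 0) (nat_lit 2176456650) (nat_lit 228) (nat_lit 2176456650) (nat_lit 190) (nat_lit 1) (nat_lit 186) (nat_lit 1) (nat_lit 189) (nat_lit 1) (nat_lit 304) (nat_lit 394) (nat_lit 322)) (XT.lf (nat_lit 76) (nat_lit 805003600) (nat_lit 0) (nat_lit 6419165181) (nat_lit 304) (nat_lit 805003600) (nat_lit 187) (nat_lit 1) (nat_lit 186) (nat_lit 1) (nat_lit 190) (nat_lit 1) (nat_lit 305) (nat_lit 394) (nat_lit 321))))))) (XT.nd (nat_lit 858) (nat_lit 1444) (nat_lit 0)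 (XT.nd (nat_lit 390) (nat_lit 532) (nat_lit 0) (XT.nd (nat_lit 156) (nat_lit 456) (nat_lit 0) (XT.nd (nat_lit 78) (nat_lit 228) (nat_lit 0) (XT.lf (nat_lit 76) (nat_lit 3704408766) (nat_lit 0) (nat_lit 533372695) (nat_lit 228) (nat_lit 3704408766) (nat_lit 184) (nat_lit 1) (nat_lit 183) (nat_lit 1) (nat_lit 186) (nat_lit 1) (nat_lit 306) (nat_lit 394) (nat_lit 320)) (XT.lf (nat_lit 304) (nat_lit 5252606895) (nat_lit 0) (nat_lit 1302038122) (nat_lit 228) (nat_lit 1302038122) (nat_lit 184) (nat_lit 1) (nat_lit 180) (nat_lit 1) (nat_lit 183) (nat_lit 1) (nat_lit 307) (nat_lit 394) (nat_lit 319))) (XT.nd (nat_lit 78) (nat_lit 456) (nat_lit 0) (XT.lf (nat_lit 76) (nat_lit 1553596250) (nat_lit 0) (nat_lit 4664959311) (nat_lit 304) (nat_lit 1553596250) (nat_lit 181) (nat_lit 1) (nat_lit 180) (nat_lit 1) (nat_lit 184) (nat_lit 1) (nat_lit 308) (nat_lit 394) (nat_lit 318)) (XT.nd (nat_lit 78) (nat_lit 304) (nat_lit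 0) (XT.lf (nat_lit 228) (nat_lit 978531008) (nat_lit 0) (nat_lit 3355109734) (nat_lit 152) (nat_lit 3355109734) (nat_lit 181) (nat_lit 1) (nat_lit 178) (nat_lit 1) (nat_lit 180) (nat_lit 1) (nat_lit 309) (nat_lit 394) (nat_lit 317)) (XT.lf (nat_lit 304) (nat_lit 6519803621) (nat_lit 0) (nat_lit 543528063) (nat_lit 228) (nat_lit 543528063) (nat_lit 178) (nat_lit 1) (nat_lit 174) (nat_lit 1) (nat_lit 177) (nat_lit 1) (nat_lit 310) (nat_lit 394) (nat_lit 316))))) (XT.nd (nat_lit 234) (nat_lit 380) (nat_lit 0) (XT.nd (nat_lit 78) (nat_lit 152) (nat_lit 0) (XT.lf (nat_lit 76) (nat_lit 2194292842) (nat_lit 0) (nat_lit 3136614363) (nat_lit 304) (nat_lit 2194292842) (nat_lit 175) (nat_lit 1) (nat_lit 174) (nat_lit 1) (nat_lit 178) (nat_lit 1) (nat_lit 311) (nat_lit 394) (nat_lit 315)) (XT.nd (nat_lit 78) (nat_lit 0) (nat_lit 0) (XT.lf (nat_lit 228) (nat_lit 2288690937) (nat_lit 0) (nat_lit 2578166092) (nat_lit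 152) (nat_lit 2578166092) (nat_lit 175) (nat_lit 1) (nat_lit 172) (nat_lit 1) (nat_lit 174) (nat_lit 1) (nat_lit 312) (nat_lit 394) (nat_lit 314)) (XT.lf (nat_lit 76) (nat_lit 113648933) (nat_lit 0) (nat_lit 7139223572) (nat_lit 228) (nat_lit 113648933) (nat_lit 173) (nat_lit 1) (nat_lit 172) (nat_lit 1) (nat_lit 175) (nat_lit 1) (nat_lit 313) (nat_lit 394) (nat_lit 313)))) (XT.nd (nat_lit 78) (nat_lit 152) (nat_lit 0) (XT.lf (nat_lit 76) (nat_lit 2739836398) (nat_lit 0) (nat_lit 1808063018) (nat_lit 228) (nat_lit 2739836398) (nat_lit 170) (nat_lit 1) (nat_lit 169) (nat_lit 1) (nat_lit 172) (nat_lit 1) (nat_lit 314) (nat_lit 394) (nat_lit 312)) (XT.nd (nat_lit 78) (nat_lit 0) (nat_lit 0) (XT.lf (nat_lit 228) (nat_lit 3411412847) (nat_lit 0) (nat_lit 1899593928) (nat_lit 152) (nat_lit 1899593928) (nat_lit 170) (nat_lit 1) (nat_lit 167) (nat_lit 1) (nat_lit 169) (nat_lit 1) (nat_lit 315) (nat_lit 394)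 (nat_lit 311)) (XT.lf (nat_lit 76) (nat_lit 684808557) (nat_lit 0) (nat_lit 5765111353) (nat_lit 228) (nat_lit 684808557) (nat_lit 168) (nat_lit 1) (nat_lit 167) (nat_lit 1) (nat_lit 170) (nat_lit 1) (nat_lit 316) (nat_lit 394) (nat_lit 310)))))) (XT.nd (nat_lit 468) (nat_lit 684) (nat_lit 0) (XT.nd (nat_lit 234) (nat_lit 380) (nat_lit 0) (XT.nd (nat_lit 78) (nat_lit 152) (nat_lit 0) (XT.lf (nat_lit 76) (nat_lit 3201528209) (nat_lit 0) (nat_lit 656170459) (nat_lit 228) (nat_lit 3201528209) (nat_lit 165) (nat_lit 1) (nat_lit 164) (nat_lit 1) (nat_lit 167) (nat_lit 1) (nat_lit 317) (nat_lit 394) (nat_lit 309)) (XT.nd (nat_lit 78) (nat_lit 0) (nat_lit 0) (XT.lf (nat_lit 228) (nat_lit 4368802530) (nat_lit 0) (nat_lit 1308081831) (nat_lit 152) (nat_lit 1308081831) (nat_lit 165) (nat_lit 1) (nat_lit 162) (nat_lit 1) (nat_lit 164) (nat_lit 1) (nat_lit 318) (nat_lit 394) (nat_lit 308)) (XT.lf (nat_lit 76) (nat_lit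 1175271642) (nat_lit 0) (nat_lit 4561065289) (nat_lit 228) (nat_lit 1175271642) (nat_lit 163) (nat_lit 1) (nat_lit 162) (nat_lit 1) (nat_lit 165) (nat_lit 1) (nat_lit 319) (nat_lit 394) (nat_lit 307)))) (XT.nd (nat_lit 78) (nat_lit 228) (nat_lit 0) (XT.lf (nat_lit 228) (nat_lit 346351963) (nat_lit 0) (nat_lit 3246366601) (nat_lit 152) (nat_lit 3246366601) (nat_lit 163) (nat_lit 1) (nat_lit 160) (nat_lit 1) (nat_lit 162) (nat_lit 1) (nat_lit 320) (nat_lit 394) (nat_lit 306)) (XT.nd (nat_lit 78) (nat_lit 0) (nat_lit 0) (XT.lf (nat_lit 228) (nat_lit 5180465629) (nat_lit 0) (nat_lit 793589717) (nat_lit 152) (nat_lit 793589717) (nat_lit 160) (nat_lit 1) (nat_lit 157) (nat_lit 1) (nat_lit 159) (nat_lit 1) (nat_lit 321) (nat_lit 394) (nat_lit 305)) (XT.lf (nat_lit 76) (nat_lit 1594532184) (nat_lit 0) (nat_lit 3507630464) (nat_lit 228) (nat_lit 1594532184) (nat_lit 158) (nat_lit 1) (nat_lit 157) (nat_lit 1)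 (nat_lit 160) (nat_lit 1) (nat_lit 322) (nat_lit 394) (nat_lit 304))))) (XT.nd (nat_lit 234) (nat_lit 304) (nat_lit 0) (XT.nd (nat_lit 78) (nat_lit 228) (nat_lit 0) (XT.lf (nat_lit 228) (nat_lit 1221276553) (nat_lit 0) (nat_lit 2702766477) (nat_lit 152) (nat_lit 2702766477) (nat_lit 158) (nat_lit 1) (nat_lit 155) (nat_lit 1) (nat_lit 157) (nat_lit 1) (nat_lit 323) (nat_lit 394) (nat_lit 303)) (XT.nd (nat_lit 78) (nat_lit 0) (nat_lit 0) (XT.lf (nat_lit 228) (nat_lit 5863787454) (nat_lit 0) (nat_lit 347206759) (nat_lit 152) (nat_lit 347206759) (nat_lit 155) (nat_lit 1) (nat_lit 152) (nat_lit 1) (nat_lit 154) (nat_lit 1) (nat_lit 324) (nat_lit 394) (nat_lit 302)) (XT.lf (nat_lit 76) (nat_lit 1951011050) (nat_lit 0) (nat_lit 2587535723) (nat_lit 228) (nat_lit 1951011050) (nat_lit 153) (nat_lit 1) (nat_lit 152) (nat_lit 1) (nat_lit 155) (nat_lit 1) (nat_lit 325) (nat_lit 394) (nat_lit 301)))) (XT.nd (nat_lit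 78) (nat_lit 152) (nat_lit 0) (XT.lf (nat_lit 228) (nat_lit 1972027546) (nat_lit 0) (nat_lit 2225073784) (nat_lit 152) (nat_lit 2225073784) (nat_lit 153) (nat_lit 1) (nat_lit 150) (nat_lit 1) (nat_lit 152) (nat_lit 1) (nat_lit 326) (nat_lit 394) (nat_lit 300)) (XT.nd (nat_lit 78) (nat_lit 152) (nat_lit 0) (XT.lf (nat_lit 76) (nat_lit 39360700) (nat_lit 0) (nat_lit 6277464919) (nat_lit 228) (nat_lit 39360700) (nat_lit 151) (nat_lit 1) (nat_lit 150) (nat_lit 1) (nat_lit 153) (nat_lit 1) (nat_lit 327) (nat_lit 394) (nat_lit 299)) (XT.lf (nat_lit 76) (nat_lit 2252176064) (nat_lit 0) (nat_lit 1785449729) (nat_lit 152) (nat_lit 2252176064) (nat_lit 149) (nat_lit 1) (nat_lit 148) (nat_lit 1) (nat_lit 150) (nat_lit 1) (nat_lit 328) (nat_lit 394) (nat_lit 298))))))))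
noncomputable def ec126 : XT := (XT.nd (nat_lit 50700) (nat_lit 0) (nat_lit 2052) (XT.nd (nat_lit 858) (nat_lit 304) (nat_lit 0) (XT.nd (nat_lit 390) (nat_lit 608) (nat_lit 0) (XT.nd (nat_lit 156) (nat_lit 304) (nat_lit 0) (XT.nd (nat_lit 78) (nat_lit 0) (nat_lit 0) (XT.lf (nat_lit 228) (nat_lit 2613226900) (nat_lit 0) (nat_lit 1805784942) (nat_lit 152) (nat_lit 1805784942) (nat_lit 149) (nat_lit 1) (nat_lit 146) (nat_lit 1) (nat_lit 148) (nat_lit 1) (nat_lit 329) (nat_lit 394) (nat_lit 297)) (XT.lf (nat_lit 76) (nat_lit 375654727) (nat_lit 0) (nat_lit 5409622011) (nat_lit 228) (nat_lit 375654727) (nat_lit 147) (nat_lit 1) (nat_lit 146) (nat_lit 1) (nat_lit 149) (nat_lit 1) (nat_lit 330) (nat_lit 394) (nat_lit 296))) (XT.nd (nat_lit 78) (nat_lit 152) (nat_lit 0) (XT.lf (nat_lit 76) (nat_lit 2504648696) (nat_lit 0) (nat_lit 1087764254) (nat_lit 152) (nat_lit 2504648696) (nat_lit 145) (nat_lit 1) (nat_lit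 144) (nat_lit 1) (nat_lit 146) (nat_lit 1) (nat_lit 331) (nat_lit 394) (nat_lit 295)) (XT.nd (nat_lit 78) (nat_lit 0) (nat_lit 0) (XT.lf (nat_lit 228) (nat_lit 3157843464) (nat_lit 0) (nat_lit 1438237605) (nat_lit 152) (nat_lit 1438237605) (nat_lit 145) (nat_lit 1) (nat_lit 142) (nat_lit 1) (nat_lit 144) (nat_lit 1) (nat_lit 332) (nat_lit 394) (nat_lit 294)) (XT.lf (nat_lit 76) (nat_lit 664524801) (nat_lit 0) (nat_lit 4643442912) (nat_lit 228) (nat_lit 664524801) (nat_lit 143) (nat_lit 1) (nat_lit 142) (nat_lit 1) (nat_lit 145) (nat_lit 1) (nat_lit 333) (nat_lit 394) (nat_lit 293))))) (XT.nd (nat_lit 234) (nat_lit 304) (nat_lit 0) (XT.nd (nat_lit 78) (nat_lit 152) (nat_lit 0) (XT.lf (nat_lit 76) (nat_lit 2714298832) (nat_lit 0) (nat_lit 482401630) (nat_lit 152) (nat_lit 2714298832) (nat_lit 141) (nat_lit 1) (nat_lit 140) (nat_lit 1) (nat_lit 142) (nat_lit 1) (nat_lit 334) (nat_lit 394) (nat_lit 292))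 (XT.nd (nat_lit 78) (nat_lit 0) (nat_lit 0) (XT.lf (nat_lit 228) (nat_lit 3617377980) (nat_lit 0) (nat_lit 1116516719) (nat_lit 152) (nat_lit 1116516719) (nat_lit 141) (nat_lit 1) (nat_lit 138) (nat_lit 1) (nat_lit 140) (nat_lit 1) (nat_lit 335) (nat_lit 394) (nat_lit 291)) (XT.lf (nat_lit 76) (nat_lit 911548321) (nat_lit 0) (nat_lit 3967448421) (nat_lit 228) (nat_lit 911548321) (nat_lit 139) (nat_lit 1) (nat_lit 138) (nat_lit 1) (nat_lit 141) (nat_lit 1) (nat_lit 336) (nat_lit 394) (nat_lit 290)))) (XT.nd (nat_lit 78) (nat_lit 228) (nat_lit 0) (XT.lf (nat_lit 152) (nat_lit 42179374) (nat_lit 0) (nat_lit 2844555053) (nat_lit 76) (nat_lit 2844555053) (nat_lit 139) (nat_lit 1) (nat_lit 137) (nat_lit 1) (nat_lit 138) (nat_lit 1) (nat_lit 337) (nat_lit 394) (nat_lit 289)) (XT.nd (nat_lit 78) (nat_lit 0) (nat_lit 0) (XT.lf (nat_lit 228) (nat_lit 4002027426) (nat_lit 0) (nat_lit 835371066) (nat_lit 152) (nat_lit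 835371066) (nat_lit 137) (nat_lit 1) (nat_lit 134) (nat_lit 1) (nat_lit 136) (nat_lit 1) (nat_lit 338) (nat_lit 394) (nat_lit 288)) (XT.lf (nat_lit 76) (nat_lit 1121672316) (nat_lit 0) (nat_lit 3371443560) (nat_lit 228) (nat_lit 1121672316) (nat_lit 135) (nat_lit 1) (nat_lit 134) (nat_lit 1) (nat_lit 137) (nat_lit 1) (nat_lit 339) (nat_lit 394) (nat_lit 287)))))) (XT.nd (nat_lit 49374) (nat_lit 0) (nat_lit 5016) (XT.nd (nat_lit 156) (nat_lit 0) (nat_lit 0) (XT.nd (nat_lit 78) (nat_lit 228) (nat_lit 0) (XT.lf (nat_lit 152) (nat_lit 502832242) (nat_lit 0) (nat_lit 2527350321) (nat_lit 76) (nat_lit 2527350321) (nat_lit 135) (nat_lit 1) (nat_lit 133) (nat_lit 1) (nat_lit 134) (nat_lit 1) (nat_lit 340) (nat_lit 394) (nat_lit 286)) (XT.lf (nat_lit 228) (nat_lit 4320831032) (nat_lit 0) (nat_lit 590139113) (nat_lit 152) (nat_lit 590139113) (nat_lit 133) (nat_lit 1) (nat_lit 130) (nat_lit 1) (nat_lit 132) (nat_lit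 1) (nat_lit 341) (nat_lit 394) (nat_lit 285))) (XT.nd (nat_lit 49062) (nat_lit 0) (nat_lit 6156) (XT.lf (nat_lit 76) (nat_lit 1299283984) (nat_lit 0) (nat_lit 2846374251) (nat_lit 228) (nat_lit 1299283984) (nat_lit 131) (nat_lit 1) (nat_lit 130) (nat_lit 1) (nat_lit 133) (nat_lit 1) (nat_lit 342) (nat_lit 394) (nat_lit 284)) (XT.nd (nat_lit 78) (nat_lit 228) (nat_lit 0) (XT.lf (nat_lit 76) (nat_lit 2219207097) (nat_lit 0) (nat_lit 5111097806) (nat_lit 380) (nat_lit 2219207097) (nat_lit 215) (nat_lit 1) (nat_lit 214) (nat_lit 1) (nat_lit 219) (nat_lit 1) (nat_lit 290) (nat_lit 395) (nat_lit 335)) (XT.lf (nat_lit 304) (nat_lit 2130845802) (nat_lit 0) (nat_lit 3655821200) (nat_lit 228) (nat_lit 3655821200) (nat_lit 215) (nat_lit 1) (nat_lit 211) (nat_lit 1) (nat_lit 214) (nat_lit 1) (nat_lit 291) (nat_lit 395) (nat_lit 334))))) (XT.nd (nat_lit 234) (nat_lit 532) (nat_lit 0) (XT.nd (nat_lit 78) (nat_lit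 228) (nat_lit 0) (XT.lf (nat_lit 380) (nat_lit 9208562545) (nat_lit 0) (nat_lit 64664429) (nat_lit 304) (nat_lit 64664429) (nat_lit 211) (nat_lit 1) (nat_lit 206) (nat_lit 1) (nat_lit 210) (nat_lit 1) (nat_lit 292) (nat_lit 395) (nat_lit 333)) (XT.nd (nat_lit 78) (nat_lit 228) (nat_lit 0) (XT.lf (nat_lit 76) (nat_lit 3430633419) (nat_lit 0) (nat_lit 2371822132) (nat_lit 380) (nat_lit 3430633419) (nat_lit 207) (nat_lit 1) (nat_lit 206) (nat_lit 1) (nat_lit 211) (nat_lit 1) (nat_lit 293) (nat_lit 395) (nat_lit 332)) (XT.lf (nat_lit 304) (nat_lit 4559085811) (nat_lit 0) (nat_lit 2285787974) (nat_lit 228) (nat_lit 2285787974) (nat_lit 207) (nat_lit 1) (nat_lit 203) (nat_lit 1) (nat_lit 206) (nat_lit 1) (nat_lit 294) (nat_lit 395) (nat_lit 331)))) (XT.nd (nat_lit 78) (nat_lit 532) (nat_lit 0) (XT.lf (nat_lit 76) (nat_lit 1139409568) (nat_lit 0) (nat_lit 6751083989) (nat_lit 304) (nat_lit 1139409568) (nat_lit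 204) (nat_lit 1) (nat_lit 203) (nat_lit 1) (nat_lit 207) (nat_lit 1) (nat_lit 295) (nat_lit 395) (nat_lit 330)) (XT.nd (nat_lit 78) (nat_lit 228) (nat_lit 0) (XT.lf (nat_lit 76) (nat_lit 4464477881) (nat_lit 0) (nat_lit 1195313) (nat_lit 304) (nat_lit 4464477881) (nat_lit 200) (nat_lit 1) (nat_lit 199) (nat_lit 1) (nat_lit 203) (nat_lit 1) (nat_lit 296) (nat_lit 395) (nat_lit 329)) (XT.lf (nat_lit 304) (nat_lit 6638899291) (nat_lit 0) (nat_lit 1096561154) (nat_lit 228) (nat_lit 1096561154) (nat_lit 200) (nat_lit 1) (nat_lit 196) (nat_lit 1) (nat_lit 199) (nat_lit 1) (nat_lit 297) (nat_lit 395) (nat_lit 328))))))) (XT.nd (nat_lit 858) (nat_lit 1292) (nat_lit 0) (XT.nd (nat_lit 390) (nat_lit 912) (nat_lit 0) (XT.nd (nat_lit 156) (nat_lit 532) (nat_lit 0) (XT.nd (nat_lit 78) (nat_lit 228) (nat_lit 0) (XT.lf (nat_lit 76) (nat_lit 2174905908) (nat_lit 0) (nat_lit 4385023930) (nat_lit 304) (nat_lit 2174905908)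 (nat_lit 197) (nat_lit 1) (nat_lit 196) (nat_lit 1) (nat_lit 200) (nat_lit 1) (nat_lit 298) (nat_lit 395) (nat_lit 327)) (XT.lf (nat_lit 304) (nat_lit 2084406363) (nat_lit 0) (nat_lit 3277411019) (nat_lit 228) (nat_lit 3277411019) (nat_lit 197) (nat_lit 1) (nat_lit 193) (nat_lit 1) (nat_lit 196) (nat_lit 1) (nat_lit 299) (nat_lit 395) (nat_lit 326))) (XT.nd (nat_lit 78) (nat_lit 228) (nat_lit 0) (XT.lf (nat_lit 304) (nat_lit 8411401855) (nat_lit 0) (nat_lit 67162075) (nat_lit 228) (nat_lit 67162075) (nat_lit 193) (nat_lit 1) (nat_lit 189) (nat_lit 1) (nat_lit 192) (nat_lit 1) (nat_lit 300) (nat_lit 395) (nat_lit 325)) (XT.nd (nat_lit 78) (nat_lit 228) (nat_lit 0) (XT.lf (nat_lit 76) (nat_lit 3061070162) (nat_lit 0) (nat_lit 2329797400) (nat_lit 304) (nat_lit 3061070162) (nat_lit 190) (nat_lit 1) (nat_lit 189) (nat_lit 1) (nat_lit 193) (nat_lit 1) (nat_lit 301) (nat_lit 395) (nat_lit 324)) (XT.lf (nat_lit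 304) (nat_lit 3876715163) (nat_lit 0) (nat_lit 2241750350) (nat_lit 228) (nat_lit 2241750350) (nat_lit 190) (nat_lit 1) (nat_lit 186) (nat_lit 1) (nat_lit 189) (nat_lit 1) (nat_lit 302) (nat_lit 395) (nat_lit 323))))) (XT.nd (nat_lit 234) (nat_lit 456) (nat_lit 0) (XT.nd (nat_lit 78) (nat_lit 456) (nat_lit 0) (XT.lf (nat_lit 76) (nat_lit 829153708) (nat_lit 0) (nat_lit 6611740136) (nat_lit 304) (nat_lit 829153708) (nat_lit 187) (nat_lit 1) (nat_lit 186) (nat_lit 1) (nat_lit 190) (nat_lit 1) (nat_lit 303) (nat_lit 395) (nat_lit 322)) (XT.nd (nat_lit 78) (nat_lit 228) (nat_lit 0) (XT.lf (nat_lit 76) (nat_lit 3815541029) (nat_lit 0) (nat_lit 549373876) (nat_lit 228) (nat_lit 3815541029) (nat_lit 184) (nat_lit 1) (nat_lit 183) (nat_lit 1) (nat_lit 186) (nat_lit 1) (nat_lit 304) (nat_lit 395) (nat_lit 321)) (XT.lf (nat_lit 304) (nat_lit 5410185101) (nat_lit 0) (nat_lit 1341099266) (nat_lit 228) (nat_lit 1341099266)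 (nat_lit 184) (nat_lit 1) (nat_lit 180) (nat_lit 1) (nat_lit 183) (nat_lit 1) (nat_lit 305) (nat_lit 395) (nat_lit 320)))) (XT.nd (nat_lit 78) (nat_lit 456) (nat_lit 0) (XT.lf (nat_lit 76) (nat_lit 1600204137) (nat_lit 0) (nat_lit 4804908090) (nat_lit 304) (nat_lit 1600204137) (nat_lit 181) (nat_lit 1) (nat_lit 180) (nat_lit 1) (nat_lit 184) (nat_lit 1) (nat_lit 306) (nat_lit 395) (nat_lit 319)) (XT.nd (nat_lit 78) (nat_lit 304) (nat_lit 0) (XT.lf (nat_lit 228) (nat_lit 1007886939) (nat_lit 0) (nat_lit 3455763026) (nat_lit 152) (nat_lit 3455763026) (nat_lit 181) (nat_lit 1) (nat_lit 178) (nat_lit 1) (nat_lit 180) (nat_lit 1) (nat_lit 307) (nat_lit 395) (nat_lit 318)) (XT.lf (nat_lit 304) (nat_lit 6715397730) (nat_lit 0) (nat_lit 559833905) (nat_lit 228) (nat_lit 559833905) (nat_lit 178) (nat_lit 1) (nat_lit 174) (nat_lit 1) (nat_lit 177) (nat_lit 1) (nat_lit 308) (nat_lit 395) (nat_lit 317)))))) (XT.nd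 (nat_lit 390) (nat_lit 760) (nat_lit 0) (XT.nd (nat_lit 156) (nat_lit 380) (nat_lit 0) (XT.nd (nat_lit 78) (nat_lit 152) (nat_lit 0) (XT.lf (nat_lit 76) (nat_lit 2260121628) (nat_lit 0) (nat_lit 3230712794) (nat_lit 304) (nat_lit 2260121628) (nat_lit 175) (nat_lit 1) (nat_lit 174) (nat_lit 1) (nat_lit 178) (nat_lit 1) (nat_lit 309) (nat_lit 395) (nat_lit 316)) (XT.lf (nat_lit 228) (nat_lit 2357351666) (nat_lit 0) (nat_lit 2655511075) (nat_lit 152) (nat_lit 2655511075) (nat_lit 175) (nat_lit 1) (nat_lit 172) (nat_lit 1) (nat_lit 174) (nat_lit 1) (nat_lit 310) (nat_lit 395) (nat_lit 315))) (XT.nd (nat_lit 78) (nat_lit 380) (nat_lit 0) (XT.lf (nat_lit 76) (nat_lit 117058401) (nat_lit 0) (nat_lit 7353400279) (nat_lit 228) (nat_lit 117058401) (nat_lit 173) (nat_lit 1) (nat_lit 172) (nat_lit 1) (nat_lit 175) (nat_lit 1) (nat_lit 311) (nat_lit 395) (nat_lit 314)) (XT.nd (nat_lit 78) (nat_lit 152) (nat_lit 0)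 (XT.lf (nat_lit 76) (nat_lit 2822031490) (nat_lit 0) (nat_lit 1862304909) (nat_lit 228) (nat_lit 2822031490) (nat_lit 170) (nat_lit 1) (nat_lit 169) (nat_lit 1) (nat_lit 172) (nat_lit 1) (nat_lit 312) (nat_lit 395) (nat_lit 313)) (XT.lf (nat_lit 228) (nat_lit 3513755233) (nat_lit 0) (nat_lit 1956581745) (nat_lit 152) (nat_lit 1956581745) (nat_lit 170) (nat_lit 1) (nat_lit 167) (nat_lit 1) (nat_lit 169) (nat_lit 1) (nat_lit 313) (nat_lit 395) (nat_lit 312))))) (XT.nd (nat_lit 234) (nat_lit 380) (nat_lit 0) (XT.nd (nat_lit 78) (nat_lit 380) (nat_lit 0) (XT.lf (nat_lit 76) (nat_lit 705352814) (nat_lit 0) (nat_lit 5938064694) (nat_lit 228) (nat_lit 705352814) (nat_lit 168) (nat_lit 1) (nat_lit 167) (nat_lit 1) (nat_lit 170) (nat_lit 1) (nat_lit 314) (nat_lit 395) (nat_lit 311)) (XT.nd (nat_lit 78) (nat_lit 152) (nat_lit 0) (XT.lf (nat_lit 76) (nat_lit 3297574055) (nat_lit 0) (nat_lit 675855573) (nat_lit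 228) (nat_lit 3297574055) (nat_lit 165) (nat_lit 1) (nat_lit 164) (nat_lit 1) (nat_lit 167) (nat_lit 1) (nat_lit 315) (nat_lit 395) (nat_lit 310)) (XT.lf (nat_lit 228) (nat_lit 4499866606) (nat_lit 0) (nat_lit 1347324286) (nat_lit 152) (nat_lit 1347324286) (nat_lit 165) (nat_lit 1) (nat_lit 162) (nat_lit 1) (nat_lit 164) (nat_lit 1) (nat_lit 316) (nat_lit 395) (nat_lit 309)))) (XT.nd (nat_lit 78) (nat_lit 380) (nat_lit 0) (XT.lf (nat_lit 76) (nat_lit 1210529791) (nat_lit 0) (nat_lit 4697897247) (nat_lit 228) (nat_lit 1210529791) (nat_lit 163) (nat_lit 1) (nat_lit 162) (nat_lit 1) (nat_lit 165) (nat_lit 1) (nat_lit 317) (nat_lit 395) (nat_lit 308)) (XT.nd (nat_lit 78) (nat_lit 228) (nat_lit 0) (XT.lf (nat_lit 228) (nat_lit 356742521) (nat_lit 0) (nat_lit 3343757599) (nat_lit 152) (nat_lit 3343757599) (nat_lit 163) (nat_lit 1) (nat_lit 160) (nat_lit 1) (nat_lit 162) (nat_lit 1) (nat_lit 318) (nat_lit 395)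 (nat_lit 307)) (XT.lf (nat_lit 228) (nat_lit 5335879598) (nat_lit 0) (nat_lit 817397408) (nat_lit 152) (nat_lit 817397408) (nat_lit 160) (nat_lit 1) (nat_lit 157) (nat_lit 1) (nat_lit 159) (nat_lit 1) (nat_lit 319) (nat_lit 395) (nat_lit 306))))))))
noncomputable def ec127 : XT := (XT.nd (nat_lit 51870) (nat_lit 0) (nat_lit 684) (XT.nd (nat_lit 858) (nat_lit 380) (nat_lit 0) (XT.nd (nat_lit 390) (nat_lit 608) (nat_lit 0) (XT.nd (nat_lit 156) (nat_lit 380) (nat_lit 0) (XT.nd (nat_lit 78) (nat_lit 152) (nat_lit 0) (XT.lf (nat_lit 76) (nat_lit 1642368150) (nat_lit 0) (nat_lit 3612859378) (nat_lit 228) (nat_lit 1642368150) (nat_lit 158) (nat_lit 1) (nat_lit 157) (nat_lit 1) (nat_lit 160) (nat_lit 1) (nat_lit 320) (nat_lit 395) (nat_lit 305)) (XT.lf (nat_lit 228) (nat_lit 1257914850) (nat_lit 0) (nat_lit 2783849471) (nat_lit 152) (nat_lit 2783849471) (nat_lit 158) (nat_lit 1) (nat_lit 155) (nat_lit 1) (nat_lit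 157) (nat_lit 1) (nat_lit 321) (nat_lit 395) (nat_lit 304))) (XT.nd (nat_lit 78) (nat_lit 152) (nat_lit 0) (XT.lf (nat_lit 228) (nat_lit 6039701077) (nat_lit 0) (nat_lit 357622962) (nat_lit 152) (nat_lit 357622962) (nat_lit 155) (nat_lit 1) (nat_lit 152) (nat_lit 1) (nat_lit 154) (nat_lit 1) (nat_lit 322) (nat_lit 395) (nat_lit 303)) (XT.nd (nat_lit 78) (nat_lit 152) (nat_lit 0) (XT.lf (nat_lit 76) (nat_lit 2009541381) (nat_lit 0) (nat_lit 2665161794) (nat_lit 228) (nat_lit 2009541381) (nat_lit 153) (nat_lit 1) (nat_lit 152) (nat_lit 1) (nat_lit 155) (nat_lit 1) (nat_lit 323) (nat_lit 395) (nat_lit 302)) (XT.lf (nat_lit 228) (nat_lit 2031188372) (nat_lit 0) (nat_lit 2291825997) (nat_lit 152) (nat_lit 2291825997) (nat_lit 153) (nat_lit 1) (nat_lit 150) (nat_lit 1) (nat_lit 152) (nat_lit 1) (nat_lit 324) (nat_lit 395) (nat_lit 301))))) (XT.nd (nat_lit 234) (nat_lit 304) (nat_lit 0) (XT.nd (nat_lit 78)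 (nat_lit 304) (nat_lit 0) (XT.lf (nat_lit 76) (nat_lit 40541521) (nat_lit 0) (nat_lit 6465788866) (nat_lit 228) (nat_lit 40541521) (nat_lit 151) (nat_lit 1) (nat_lit 150) (nat_lit 1) (nat_lit 153) (nat_lit 1) (nat_lit 325) (nat_lit 395) (nat_lit 300)) (XT.nd (nat_lit 78) (nat_lit 152) (nat_lit 0) (XT.lf (nat_lit 76) (nat_lit 2319741346) (nat_lit 0) (nat_lit 1839013221) (nat_lit 152) (nat_lit 2319741346) (nat_lit 149) (nat_lit 1) (nat_lit 148) (nat_lit 1) (nat_lit 150) (nat_lit 1) (nat_lit 326) (nat_lit 395) (nat_lit 299)) (XT.lf (nat_lit 228) (nat_lit 2691623707) (nat_lit 0) (nat_lit 1859958490) (nat_lit 152) (nat_lit 1859958490) (nat_lit 149) (nat_lit 1) (nat_lit 146) (nat_lit 1) (nat_lit 148) (nat_lit 1) (nat_lit 327) (nat_lit 395) (nat_lit 298)))) (XT.nd (nat_lit 78) (nat_lit 304) (nat_lit 0) (XT.lf (nat_lit 76) (nat_lit 386924369) (nat_lit 0) (nat_lit 5571910671) (nat_lit 228) (nat_lit 386924369)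 (nat_lit 147) (nat_lit 1) (nat_lit 146) (nat_lit 1) (nat_lit 149) (nat_lit 1) (nat_lit 328) (nat_lit 395) (nat_lit 297)) (XT.nd (nat_lit 78) (nat_lit 152) (nat_lit 0) (XT.lf (nat_lit 76) (nat_lit 2579788157) (nat_lit 0) (nat_lit 1120397181) (nat_lit 152) (nat_lit 2579788157) (nat_lit 145) (nat_lit 1) (nat_lit 144) (nat_lit 1) (nat_lit 146) (nat_lit 1) (nat_lit 329) (nat_lit 395) (nat_lit 296)) (XT.lf (nat_lit 228) (nat_lit 3252578768) (nat_lit 0) (nat_lit 1481384733) (nat_lit 152) (nat_lit 1481384733) (nat_lit 145) (nat_lit 1) (nat_lit 142) (nat_lit 1) (nat_lit 144) (nat_lit 1) (nat_lit 330) (nat_lit 395) (nat_lit 295)))))) (XT.nd (nat_lit 50544) (nat_lit 0) (nat_lit 3268) (XT.nd (nat_lit 156) (nat_lit 228) (nat_lit 0) (XT.nd (nat_lit 78) (nat_lit 152) (nat_lit 0) (XT.lf (nat_lit 76) (nat_lit 684460545) (nat_lit 0) (nat_lit 4782746200) (nat_lit 228) (nat_lit 684460545) (nat_lit 143) (nat_lit 1) (nat_lit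 142) (nat_lit 1) (nat_lit 145) (nat_lit 1) (nat_lit 331) (nat_lit 395) (nat_lit 294)) (XT.lf (nat_lit 76) (nat_lit 2795727797) (nat_lit 0) (nat_lit 496873679) (nat_lit 152) (nat_lit 2795727797) (nat_lit 141) (nat_lit 1) (nat_lit 140) (nat_lit 1) (nat_lit 142) (nat_lit 1) (nat_lit 332) (nat_lit 395) (nat_lit 293))) (XT.nd (nat_lit 78) (nat_lit 76) (nat_lit 0) (XT.lf (nat_lit 228) (nat_lit 3725899319) (nat_lit 0) (nat_lit 1150012220) (nat_lit 152) (nat_lit 1150012220) (nat_lit 141) (nat_lit 1) (nat_lit 138) (nat_lit 1) (nat_lit 140) (nat_lit 1) (nat_lit 333) (nat_lit 395) (nat_lit 292)) (XT.nd (nat_lit 78) (nat_lit 76) (nat_lit 0) (XT.lf (nat_lit 76) (nat_lit 938894771) (nat_lit 0) (nat_lit 4086471874) (nat_lit 228) (nat_lit 938894771) (nat_lit 139) (nat_lit 1) (nat_lit 138) (nat_lit 1) (nat_lit 141) (nat_lit 1) (nat_lit 334) (nat_lit 395) (nat_lit 291)) (XT.lf (nat_lit 152) (nat_lit 43444756) (nat_lit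 0) (nat_lit 2929891704) (nat_lit 76) (nat_lit 2929891704) (nat_lit 139) (nat_lit 1) (nat_lit 137) (nat_lit 1) (nat_lit 138) (nat_lit 1) (nat_lit 335) (nat_lit 395) (nat_lit 290))))) (XT.nd (nat_lit 234) (nat_lit 456) (nat_lit 0) (XT.nd (nat_lit 78) (nat_lit 228) (nat_lit 0) (XT.lf (nat_lit 304) (nat_lit 8663743910) (nat_lit 0) (nat_lit 69176938) (nat_lit 228) (nat_lit 69176938) (nat_lit 193) (nat_lit 1) (nat_lit 189) (nat_lit 1) (nat_lit 192) (nat_lit 1) (nat_lit 298) (nat_lit 396) (nat_lit 326)) (XT.nd (nat_lit 78) (nat_lit 228) (nat_lit 0) (XT.lf (nat_lit 76) (nat_lit 3152902267) (nat_lit 0) (nat_lit 2399691322) (nat_lit 304) (nat_lit 3152902267) (nat_lit 190) (nat_lit 1) (nat_lit 189) (nat_lit 1) (nat_lit 193) (nat_lit 1) (nat_lit 299) (nat_lit 396) (nat_lit 325)) (XT.lf (nat_lit 304) (nat_lit 3993016618) (nat_lit 0) (nat_lit 2309002860) (nat_lit 228) (nat_lit 2309002860) (nat_lit 190) (nat_lit 1)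 (nat_lit 186) (nat_lit 1) (nat_lit 189) (nat_lit 1) (nat_lit 300) (nat_lit 396) (nat_lit 324)))) (XT.nd (nat_lit 78) (nat_lit 456) (nat_lit 0) (XT.lf (nat_lit 76) (nat_lit 854028319) (nat_lit 0) (nat_lit 6810092340) (nat_lit 304) (nat_lit 854028319) (nat_lit 187) (nat_lit 1) (nat_lit 186) (nat_lit 1) (nat_lit 190) (nat_lit 1) (nat_lit 301) (nat_lit 396) (nat_lit 323)) (XT.nd (nat_lit 78) (nat_lit 228) (nat_lit 0) (XT.lf (nat_lit 76) (nat_lit 3930007259) (nat_lit 0) (nat_lit 565855092) (nat_lit 228) (nat_lit 3930007259) (nat_lit 184) (nat_lit 1) (nat_lit 183) (nat_lit 1) (nat_lit 186) (nat_lit 1) (nat_lit 302) (nat_lit 396) (nat_lit 322)) (XT.lf (nat_lit 304) (nat_lit 5572490654) (nat_lit 0) (nat_lit 1381332244) (nat_lit 228) (nat_lit 1381332244) (nat_lit 184) (nat_lit 1) (nat_lit 180) (nat_lit 1) (nat_lit 183) (nat_lit 1) (nat_lit 303) (nat_lit 396) (nat_lit 321))))))) (XT.nd (nat_lit 858) (nat_lit 1216)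 (nat_lit 0) (XT.nd (nat_lit 390) (nat_lit 760) (nat_lit 0) (XT.nd (nat_lit 156) (nat_lit 456) (nat_lit 0) (XT.nd (nat_lit 78) (nat_lit 152) (nat_lit 0) (XT.lf (nat_lit 76) (nat_lit 1648210261) (nat_lit 0) (nat_lit 4949055333) (nat_lit 304) (nat_lit 1648210261) (nat_lit 181) (nat_lit 1) (nat_lit 180) (nat_lit 1) (nat_lit 184) (nat_lit 1) (nat_lit 304) (nat_lit 396) (nat_lit 320)) (XT.lf (nat_lit 228) (nat_lit 1038123547) (nat_lit 0) (nat_lit 3559435916) (nat_lit 152) (nat_lit 3559435916) (nat_lit 181) (nat_lit 1) (nat_lit 178) (nat_lit 1) (nat_lit 180) (nat_lit 1) (nat_lit 305) (nat_lit 396) (nat_lit 319))) (XT.nd (nat_lit 78) (nat_lit 152) (nat_lit 0) (XT.lf (nat_lit 304) (nat_lit 6916859662) (nat_lit 0) (nat_lit 576628922) (nat_lit 228) (nat_lit 576628922) (nat_lit 178) (nat_lit 1) (nat_lit 174) (nat_lit 1) (nat_lit 177) (nat_lit 1) (nat_lit 306) (nat_lit 396) (nat_lit 318)) (XT.nd (nat_lit 78) (nat_lit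 152) (nat_lit 0) (XT.lf (nat_lit 76) (nat_lit 2327925277) (nat_lit 0) (nat_lit 3327634177) (nat_lit 304) (nat_lit 2327925277) (nat_lit 175) (nat_lit 1) (nat_lit 174) (nat_lit 1) (nat_lit 178) (nat_lit 1) (nat_lit 307) (nat_lit 396) (nat_lit 317)) (XT.lf (nat_lit 228) (nat_lit 2428072215) (nat_lit 0) (nat_lit 2735176407) (nat_lit 152) (nat_lit 2735176407) (nat_lit 175) (nat_lit 1) (nat_lit 172) (nat_lit 1) (nat_lit 174) (nat_lit 1) (nat_lit 308) (nat_lit 396) (nat_lit 316))))) (XT.nd (nat_lit 234) (nat_lit 380) (nat_lit 0) (XT.nd (nat_lit 78) (nat_lit 380) (nat_lit 0) (XT.lf (nat_lit 76) (nat_lit 120570153) (nat_lit 0) (nat_lit 7574002288) (nat_lit 228) (nat_lit 120570153) (nat_lit 173) (nat_lit 1) (nat_lit 172) (nat_lit 1) (nat_lit 175) (nat_lit 1) (nat_lit 309) (nat_lit 396) (nat_lit 315)) (XT.nd (nat_lit 78) (nat_lit 152) (nat_lit 0) (XT.lf (nat_lit 76) (nat_lit 2906692434) (nat_lit 0) (nat_lit 1918174056)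 (nat_lit 228) (nat_lit 2906692434) (nat_lit 170) (nat_lit 1) (nat_lit 169) (nat_lit 1) (nat_lit 172) (nat_lit 1) (nat_lit 310) (nat_lit 396) (nat_lit 314)) (XT.lf (nat_lit 228) (nat_lit 3619167890) (nat_lit 0) (nat_lit 2015279198) (nat_lit 152) (nat_lit 2015279198) (nat_lit 170) (nat_lit 1) (nat_lit 167) (nat_lit 1) (nat_lit 169) (nat_lit 1) (nat_lit 311) (nat_lit 396) (nat_lit 313)))) (XT.nd (nat_lit 78) (nat_lit 380) (nat_lit 0) (XT.lf (nat_lit 76) (nat_lit 726513398) (nat_lit 0) (nat_lit 6116206635) (nat_lit 228) (nat_lit 726513398) (nat_lit 168) (nat_lit 1) (nat_lit 167) (nat_lit 1) (nat_lit 170) (nat_lit 1) (nat_lit 312) (nat_lit 396) (nat_lit 312)) (XT.nd (nat_lit 78) (nat_lit 152) (nat_lit 0) (XT.lf (nat_lit 76) (nat_lit 3396501277) (nat_lit 0) (nat_lit 696131240) (nat_lit 228) (nat_lit 3396501277) (nat_lit 165) (nat_lit 1) (nat_lit 164) (nat_lit 1) (nat_lit 167) (nat_lit 1) (nat_lit 313) (nat_lit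 396) (nat_lit 311)) (XT.lf (nat_lit 228) (nat_lit 4634862604) (nat_lit 0) (nat_lit 1387744015) (nat_lit 152) (nat_lit 1387744015) (nat_lit 165) (nat_lit 1) (nat_lit 162) (nat_lit 1) (nat_lit 164) (nat_lit 1) (nat_lit 314) (nat_lit 396) (nat_lit 310)))))) (XT.nd (nat_lit 468) (nat_lit 456) (nat_lit 0) (XT.nd (nat_lit 234) (nat_lit 380) (nat_lit 0) (XT.nd (nat_lit 78) (nat_lit 380) (nat_lit 0) (XT.lf (nat_lit 76) (nat_lit 1246845685) (nat_lit 0) (nat_lit 4838834165) (nat_lit 228) (nat_lit 1246845685) (nat_lit 163) (nat_lit 1) (nat_lit 162) (nat_lit 1) (nat_lit 165) (nat_lit 1) (nat_lit 315) (nat_lit 396) (nat_lit 309)) (XT.nd (nat_lit 78) (nat_lit 228) (nat_lit 0) (XT.lf (nat_lit 228) (nat_lit 367444797) (nat_lit 0) (nat_lit 3444070327) (nat_lit 152) (nat_lit 3444070327) (nat_lit 163) (nat_lit 1) (nat_lit 160) (nat_lit 1) (nat_lit 162) (nat_lit 1) (nat_lit 316) (nat_lit 396) (nat_lit 308)) (XT.lf (nat_lit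 228) (nat_lit 5495955985) (nat_lit 0) (nat_lit 841919330) (nat_lit 152) (nat_lit 841919330) (nat_lit 160) (nat_lit 1) (nat_lit 157) (nat_lit 1) (nat_lit 159) (nat_lit 1) (nat_lit 317) (nat_lit 396) (nat_lit 307)))) (XT.nd (nat_lit 78) (nat_lit 380) (nat_lit 0) (XT.lf (nat_lit 76) (nat_lit 1691639194) (nat_lit 0) (nat_lit 3721245160) (nat_lit 228) (nat_lit 1691639194) (nat_lit 158) (nat_lit 1) (nat_lit 157) (nat_lit 1) (nat_lit 160) (nat_lit 1) (nat_lit 318) (nat_lit 396) (nat_lit 306)) (XT.nd (nat_lit 78) (nat_lit 228) (nat_lit 0) (XT.lf (nat_lit 228) (nat_lit 1295652295) (nat_lit 0) (nat_lit 2867364955) (nat_lit 152) (nat_lit 2867364955) (nat_lit 158) (nat_lit 1) (nat_lit 155) (nat_lit 1) (nat_lit 157) (nat_lit 1) (nat_lit 319) (nat_lit 396) (nat_lit 305)) (XT.lf (nat_lit 228) (nat_lit 6220892110) (nat_lit 0) (nat_lit 368351651) (nat_lit 152) (nat_lit 368351651) (nat_lit 155) (nat_lit 1) (nat_lit 152)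 (nat_lit 1) (nat_lit 154) (nat_lit 1) (nat_lit 320) (nat_lit 396) (nat_lit 304))))) (XT.nd (nat_lit 234) (nat_lit 304) (nat_lit 0) (XT.nd (nat_lit 78) (nat_lit 152) (nat_lit 0) (XT.lf (nat_lit 76) (nat_lit 2069827623) (nat_lit 0) (nat_lit 2745116648) (nat_lit 228) (nat_lit 2069827623) (nat_lit 153) (nat_lit 1) (nat_lit 152) (nat_lit 1) (nat_lit 155) (nat_lit 1) (nat_lit 321) (nat_lit 396) (nat_lit 303)) (XT.nd (nat_lit 78) (nat_lit 0) (nat_lit 0) (XT.lf (nat_lit 228) (nat_lit 2092124023) (nat_lit 0) (nat_lit 2360580777) (nat_lit 152) (nat_lit 2360580777) (nat_lit 153) (nat_lit 1) (nat_lit 150) (nat_lit 1) (nat_lit 152) (nat_lit 1) (nat_lit 322) (nat_lit 396) (nat_lit 302)) (XT.lf (nat_lit 76) (nat_lit 41757766) (nat_lit 0) (nat_lit 6659762532) (nat_lit 228) (nat_lit 41757766) (nat_lit 151) (nat_lit 1) (nat_lit 150) (nat_lit 1) (nat_lit 153) (nat_lit 1) (nat_lit 323) (nat_lit 396) (nat_lit 301)))) (XT.nd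 (nat_lit 78) (nat_lit 152) (nat_lit 0) (XT.lf (nat_lit 76) (nat_lit 2389333587) (nat_lit 0) (nat_lit 1894183617) (nat_lit 152) (nat_lit 2389333587) (nat_lit 149) (nat_lit 1) (nat_lit 148) (nat_lit 1) (nat_lit 150) (nat_lit 1) (nat_lit 324) (nat_lit 396) (nat_lit 300)) (XT.nd (nat_lit 78) (nat_lit 0) (nat_lit 0) (XT.lf (nat_lit 228) (nat_lit 2772372418) (nat_lit 0) (nat_lit 1915757245) (nat_lit 152) (nat_lit 1915757245) (nat_lit 149) (nat_lit 1) (nat_lit 146) (nat_lit 1) (nat_lit 148) (nat_lit 1) (nat_lit 325) (nat_lit 396) (nat_lit 299)) (XT.lf (nat_lit 76) (nat_lit 398532100) (nat_lit 0) (nat_lit 5739067991) (nat_lit 228) (nat_lit 398532100) (nat_lit 147) (nat_lit 1) (nat_lit 146) (nat_lit 1) (nat_lit 149) (nat_lit 1) (nat_lit 326) (nat_lit 396) (nat_lit 298))))))))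

set_option maxRecDepth 10000000 in
noncomputable def Tp : PT := (PT.nd (nat_lit 9361872) (PT.nd (nat_lit 8406294) (PT.nd (nat_lit 7450560) (PT.nd (nat_lit 6495684) (PT.nd (nat_lit 5752500) (PT.nd (nat_lit 5274594) pc0 pc1) (PT.nd (nat_lit 424554) pc2 pc3)) (PT.nd (nat_lit 530712) (PT.nd (nat_lit 265512) pc4 pc5) (PT.nd (nat_lit 212238) pc6 pc7))) (PT.nd (nat_lit 531492) (PT.nd (nat_lit 266214) (PT.nd (nat_lit 159276) pc8 pc9) (PT.nd (nat_lit 158730) pc10 pc11)) (PT.nd (nat_lit 212550) (PT.nd (nat_lit 106392) pc12 pc13) (PT.nd (nat_lit 105846) pc14 pc15)))) (PT.nd (nat_lit 582972) (PT.nd (nat_lit 318240) (PT.nd (nat_lit 159432) (PT.nd (nat_lit 105456) pc16 pc17) (PT.nd (nat_lit 53898) pc18 pc19)) (PT.nd (nat_lit 107328) (PT.nd (nat_lit 53664) pc20 pc21) (PT.nd (nat_lit 104130) pc22 pc23))) (PT.nd (nat_lit 212082) (PT.nd (nat_lit 106236) (PT.nd (nat_lit 53118) pc24 pc25) (PT.nd (nat_lit 52962) pc26 pc27))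 (PT.nd (nat_lit 55458) (PT.nd (nat_lit 2730) pc28 pc29) (PT.nd (nat_lit 52572) pc30 pc31))))) (PT.nd (nat_lit 581256) (PT.nd (nat_lit 317304) (PT.nd (nat_lit 159276) (PT.nd (nat_lit 104442) (PT.nd (nat_lit 52260) pc32 pc33) (PT.nd (nat_lit 2730) pc34 pc35)) (PT.nd (nat_lit 54678) (PT.nd (nat_lit 51870) pc36 pc37) (PT.nd (nat_lit 51714) pc38 pc39))) (PT.nd (nat_lit 108264) (PT.nd (nat_lit 54210) (PT.nd (nat_lit 2730) pc40 pc41) (PT.nd (nat_lit 51246) pc42 pc43)) (PT.nd (nat_lit 53898) (PT.nd (nat_lit 51090) pc44 pc45) (PT.nd (nat_lit 50934) pc46 pc47)))) (PT.nd (nat_lit 376584) (PT.nd (nat_lit 159120) (PT.nd (nat_lit 54288) (PT.nd (nat_lit 3666) pc48 pc49) (PT.nd (nat_lit 52182) pc50 pc51)) (PT.nd (nat_lit 106080) (PT.nd (nat_lit 52884) pc52 pc53) (PT.nd (nat_lit 53352) pc54 pc55))) (PT.nd (nat_lit 372372) (PT.nd (nat_lit 159744) (PT.nd (nat_lit 100386) pc56 pc57) (PT.nd (nat_lit 100074) pc58 pc59)) (PT.nd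 (nat_lit 257868) (PT.nd (nat_lit 106626) pc60 pc61) (PT.nd (nat_lit 158730) pc62 pc63))))))

set_option maxRecDepth 10000000 in
noncomputable def Tx : XT := (XT.nd (nat_lit 15544464) (nat_lit 0) (nat_lit 8664) XT.nil (XT.nd (nat_lit 6212934) (nat_lit 0) (nat_lit 0) (XT.nd (nat_lit 2916108) (nat_lit 0) (nat_lit 3800) (XT.nd (nat_lit 2013648) (nat_lit 0) (nat_lit 1976) (XT.nd (nat_lit 1379664) (nat_lit 0) (nat_lit 912) (XT.nd (nat_lit 954642) (nat_lit 0) (nat_lit 380) (XT.nd (nat_lit 637104) (nat_lit 0) (nat_lit 152) (XT.nd (nat_lit 424788) (nat_lit 0) (nat_lit 76) (XT.nd (nat_lit 265746) (nat_lit 0) (nat_lit 0) xc0 xc1) (XT.nd (nat_lit 106470) (nat_lit 0) (nat_lit 76) xc2 xc3)) (XT.nd (nat_lit 159432) (nat_lit 0) (nat_lit 76) (XT.nd (nat_lit 105222) (nat_lit 0) (nat_lit 76) xc4 xc5) (XT.nd (nat_lit 104286) (nat_lit 0) (nat_lit 76) xc6 xc7))) (XT.nd (nat_lit 213720) (nat_lit 0) (nat_lit 304) (XT.nd (nat_lit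 107094) (nat_lit 0) (nat_lit 228) (XT.nd (nat_lit 53586) (nat_lit 0) (nat_lit 152) xc8 xc9) (XT.nd (nat_lit 53352) (nat_lit 0) (nat_lit 0) xc10 xc11)) (XT.nd (nat_lit 105924) (nat_lit 0) (nat_lit 152) (XT.nd (nat_lit 53040) (nat_lit 0) (nat_lit 152) xc12 xc13) (XT.nd (nat_lit 52728) (nat_lit 0) (nat_lit 76) xc14 xc15)))) (XT.nd (nat_lit 319644) (nat_lit 0) (nat_lit 532) (XT.nd (nat_lit 160524) (nat_lit 0) (nat_lit 228) (XT.nd (nat_lit 104676) (nat_lit 0) (nat_lit 228) (XT.nd (nat_lit 52416) (nat_lit 0) (nat_lit 76) xc16 xc17) (XT.nd (nat_lit 52104) (nat_lit 0) (nat_lit 608) xc18 xc19)) (XT.nd (nat_lit 103740) (nat_lit 0) (nat_lit 76) (XT.nd (nat_lit 51948) (nat_lit 0) (nat_lit 76) xc20 xc21) (XT.nd (nat_lit 51636) (nat_lit 0) (nat_lit 1140) xc22 xc23))) (XT.nd (nat_lit 157794) (nat_lit 0) (nat_lit 304) (XT.nd (nat_lit 102804) (nat_lit 0) (nat_lit 228) (XT.nd (nat_lit 51480) (nat_lit 0) (nat_lit 0) xc24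 xc25) (XT.nd (nat_lit 3666) (nat_lit 380) (nat_lit 0) xc26 xc27)) (XT.nd (nat_lit 54756) (nat_lit 0) (nat_lit 76) (XT.nd (nat_lit 51090) (nat_lit 0) (nat_lit 684) xc28 xc29) (XT.nd (nat_lit 50934) (nat_lit 0) (nat_lit 0) xc30 xc31))))) (XT.nd (nat_lit 476112) (nat_lit 0) (nat_lit 760) (XT.nd (nat_lit 216294) (nat_lit 0) (nat_lit 304) (XT.nd (nat_lit 108420) (nat_lit 0) (nat_lit 152) (XT.nd (nat_lit 54288) (nat_lit 0) (nat_lit 76) (XT.nd (nat_lit 3666) (nat_lit 1900) (nat_lit 0) xc32 xc33) (XT.nd (nat_lit 3666) (nat_lit 76) (nat_lit 0) xc34 xc35)) (XT.nd (nat_lit 53976) (nat_lit 0) (nat_lit 0) (XT.nd (nat_lit 50310) (nat_lit 0) (nat_lit 3192) xc36 xc37) (XT.nd (nat_lit 50154) (nat_lit 0) (nat_lit 1900) xc38 xc39))) (XT.nd (nat_lit 153348) (nat_lit 0) (nat_lit 304) (XT.nd (nat_lit 53664) (nat_lit 0) (nat_lit 76) (XT.nd (nat_lit 49998) (nat_lit 0) (nat_lit 836) xc40 xc41) (XT.nd (nat_lit 49842) (nat_lit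 0) (nat_lit 228) xc42 xc43)) (XT.nd (nat_lit 53274) (nat_lit 0) (nat_lit 152) (XT.nd (nat_lit 3666) (nat_lit 7448) (nat_lit 0) xc44 xc45) (XT.nd (nat_lit 3666) (nat_lit 6916) (nat_lit 0) xc46 xc47)))) (XT.nd (nat_lit 212472) (nat_lit 0) (nat_lit 532) (XT.nd (nat_lit 106080) (nat_lit 0) (nat_lit 152) (XT.nd (nat_lit 52962) (nat_lit 0) (nat_lit 152) (XT.nd (nat_lit 3666) (nat_lit 6840) (nat_lit 0) xc48 xc49) (XT.nd (nat_lit 3666) (nat_lit 7448) (nat_lit 0) xc50 xc51)) (XT.nd (nat_lit 53118) (nat_lit 0) (nat_lit 228) (XT.nd (nat_lit 3666) (nat_lit 7448) (nat_lit 0) xc52 xc53) (XT.nd (nat_lit 3666) (nat_lit 7600) (nat_lit 0) xc54 xc55))) (XT.nd (nat_lit 106704) (nat_lit 0) (nat_lit 228) (XT.nd (nat_lit 53274) (nat_lit 0) (nat_lit 0) (XT.nd (nat_lit 3666) (nat_lit 7068) (nat_lit 0) xc56 xc57) (XT.nd (nat_lit 3666) (nat_lit 6688) (nat_lit 0) xc58 xc59)) (XT.nd (nat_lit 53508) (nat_lit 0) (nat_lit 152) (XT.nd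 (nat_lit 3666) (nat_lit 5700) (nat_lit 0) xc60 xc61) (XT.nd (nat_lit 3666) (nat_lit 4560) (nat_lit 0) xc62 xc63)))))) (XT.nd (nat_lit 1062360) (nat_lit 0) (nat_lit 3572) (XT.nd (nat_lit 479076) (nat_lit 0) (nat_lit 1216) (XT.nd (nat_lit 215202) (nat_lit 0) (nat_lit 608) (XT.nd (nat_lit 107406) (nat_lit 0) (nat_lit 228) (XT.nd (nat_lit 53664) (nat_lit 0) (nat_lit 76) (XT.nd (nat_lit 3666) (nat_lit 3192) (nat_lit 0) xc64 xc65) (XT.nd (nat_lit 3666) (nat_lit 1900) (nat_lit 0) xc66 xc67)) (XT.nd (nat_lit 53820) (nat_lit 0) (nat_lit 0) (XT.nd (nat_lit 3666) (nat_lit 836) (nat_lit 0) xc68 xc69) (XT.nd (nat_lit 50232) (nat_lit 0) (nat_lit 5928) xc70 xc71))) (XT.nd (nat_lit 108264) (nat_lit 0) (nat_lit 152) (XT.nd (nat_lit 54054) (nat_lit 0) (nat_lit 0) (XT.nd (nat_lit 50388) (nat_lit 0) (nat_lit 3192) xc72 xc73) (XT.nd (nat_lit 50466) (nat_lit 0) (nat_lit 1064) xc74 xc75)) (XT.nd (nat_lit 101166) (nat_lit 0)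 (nat_lit 304) (XT.nd (nat_lit 50544) (nat_lit 0) (nat_lit 0) xc76 xc77) (XT.nd (nat_lit 3666) (nat_lit 4028) (nat_lit 0) xc78 xc79)))) (XT.nd (nat_lit 266448) (nat_lit 0) (nat_lit 684) (XT.nd (nat_lit 109200) (nat_lit 0) (nat_lit 456) (XT.nd (nat_lit 54444) (nat_lit 0) (nat_lit 304) (XT.nd (nat_lit 3666) (nat_lit 988) (nat_lit 0) xc80 xc81) (XT.nd (nat_lit 51012) (nat_lit 0) (nat_lit 2660) xc82 xc83)) (XT.nd (nat_lit 102258) (nat_lit 0) (nat_lit 228) (XT.nd (nat_lit 51090) (nat_lit 0) (nat_lit 228) xc84 xc85) (XT.nd (nat_lit 3666) (nat_lit 3496) (nat_lit 0) xc86 xc87))) (XT.nd (nat_lit 157950) (nat_lit 0) (nat_lit 836) (XT.nd (nat_lit 54912) (nat_lit 0) (nat_lit 532) (XT.nd (nat_lit 51246) (nat_lit 0) (nat_lit 3800) xc88 xc89) (XT.nd (nat_lit 51402) (nat_lit 0) (nat_lit 228) xc90 xc91)) (XT.nd (nat_lit 55302) (nat_lit 0) (nat_lit 228) (XT.nd (nat_lit 3666) (nat_lit 1976) (nat_lit 0) xc92 xc93) (XT.nd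 (nat_lit 51714) (nat_lit 0) (nat_lit 228) xc94 xc95))))) (XT.nd (nat_lit 693888) (nat_lit 0) (nat_lit 2888) (XT.nd (nat_lit 320502) (nat_lit 0) (nat_lit 1140) (XT.nd (nat_lit 159822) (nat_lit 0) (nat_lit 532) (XT.nd (nat_lit 55614) (nat_lit 0) (nat_lit 0) (XT.nd (nat_lit 3666) (nat_lit 3268) (nat_lit 0) xc96 xc97) (XT.nd (nat_lit 52026) (nat_lit 0) (nat_lit 228) xc98 xc99)) (XT.nd (nat_lit 55848) (nat_lit 0) (nat_lit 304) (XT.nd (nat_lit 3666) (nat_lit 2052) (nat_lit 0) xc100 xc101) (XT.nd (nat_lit 52338) (nat_lit 0) (nat_lit 0) xc102 xc103))) (XT.nd (nat_lit 161538) (nat_lit 0) (nat_lit 684) (XT.nd (nat_lit 105066) (nat_lit 0) (nat_lit 684) (XT.nd (nat_lit 52494) (nat_lit 0) (nat_lit 304) xc104 xc105) (XT.nd (nat_lit 3666) (nat_lit 1064) (nat_lit 0) xc106 xc107)) (XT.nd (nat_lit 105690) (nat_lit 0) (nat_lit 760) (XT.nd (nat_lit 52806) (nat_lit 0) (nat_lit 304) xc108 xc109) (XT.nd (nat_lit 52962) (nat_lit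 0) (nat_lit 304) xc110 xc111)))) (XT.nd (nat_lit 478998) (nat_lit 0) (nat_lit 2964) (XT.nd (nat_lit 213486) (nat_lit 0) (nat_lit 1216) (XT.nd (nat_lit 106470) (nat_lit 0) (nat_lit 836) (XT.nd (nat_lit 53196) (nat_lit 0) (nat_lit 380) xc112 xc113) (XT.nd (nat_lit 53430) (nat_lit 0) (nat_lit 380) xc114 xc115)) (XT.nd (nat_lit 157482) (nat_lit 0) (nat_lit 1292) (XT.nd (nat_lit 103662) (nat_lit 0) (nat_lit 912) xc116 xc117) (XT.nd (nat_lit 53898) (nat_lit 0) (nat_lit 456) xc118 xc119))) (XT.nd (nat_lit 370500) (nat_lit 0) (nat_lit 3268) (XT.nd (nat_lit 159120) (nat_lit 0) (nat_lit 1520) (XT.nd (nat_lit 104754) (nat_lit 0) (nat_lit 1064) xc120 xc121) (XT.nd (nat_lit 105456) (nat_lit 0) (nat_lit 532) xc122 xc123)) (XT.nd (nat_lit 213096) (nat_lit 0) (nat_lit 2432) (XT.nd (nat_lit 106314) (nat_lit 0) (nat_lit 1140) xc124 xc125) (XT.nd (nat_lit 159354) (nat_lit 0) (nat_lit 0) xc126 xc127))))))) XT.nil))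

set_option maxRecDepth 10000000 in
noncomputable def Te : XT := (XT.nd (nat_lit 16709706) (nat_lit 0) (nat_lit 8892) XT.nil (XT.nd (nat_lit 4350528) (nat_lit 0) (nat_lit 0) (XT.nd (nat_lit 2813694) (nat_lit 2052) (nat_lit 0) (XT.nd (nat_lit 1963104) (nat_lit 3724) (nat_lit 0) (XT.nd (nat_lit 1377792) (nat_lit 3496) (nat_lit 0) (XT.nd (nat_lit 953940) (nat_lit 3724) (nat_lit 0) (XT.nd (nat_lit 636792) (nat_lit 3800) (nat_lit 0) (XT.nd (nat_lit 424554) (nat_lit 1900) (nat_lit 0) (XT.nd (nat_lit 317694) (nat_lit 836) (nat_lit 0) ec0 ec1) (XT.nd (nat_lit 106392) (nat_lit 1216) (nat_lit 0) ec2 ec3)) (XT.nd (nat_lit 159276) (nat_lit 1520) (nat_lit 0) (XT.nd (nat_lit 105144) (nat_lit 532) (nat_lit 0) ec4 ec5) (XT.nd (nat_lit 104208) (nat_lit 456) (nat_lit 0) ec6 ec7))) (XT.nd (nat_lit 213096) (nat_lit 1976) (nat_lit 0) (XT.nd (nat_lit 106782) (nat_lit 836) (nat_lit 0) (XT.nd (nat_lit 53430) (nat_lit 456) (nat_lit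 0) ec8 ec9) (XT.nd (nat_lit 53196) (nat_lit 380) (nat_lit 0) ec10 ec11)) (XT.nd (nat_lit 105690) (nat_lit 760) (nat_lit 0) (XT.nd (nat_lit 52884) (nat_lit 380) (nat_lit 0) ec12 ec13) (XT.nd (nat_lit 52572) (nat_lit 456) (nat_lit 0) ec14 ec15)))) (XT.nd (nat_lit 318786) (nat_lit 1368) (nat_lit 0) (XT.nd (nat_lit 160056) (nat_lit 1140) (nat_lit 0) (XT.nd (nat_lit 55770) (nat_lit 684) (nat_lit 0) (XT.nd (nat_lit 52338) (nat_lit 0) (nat_lit 1064) ec16 ec17) (XT.nd (nat_lit 52182) (nat_lit 380) (nat_lit 0) ec18 ec19)) (XT.nd (nat_lit 55380) (nat_lit 836) (nat_lit 0) (XT.nd (nat_lit 51870) (nat_lit 0) (nat_lit 0) ec20 ec21) (XT.nd (nat_lit 51714) (nat_lit 228) (nat_lit 0) ec22 ec23))) (XT.nd (nat_lit 157560) (nat_lit 456) (nat_lit 0) (XT.nd (nat_lit 54990) (nat_lit 532) (nat_lit 0) (XT.nd (nat_lit 51480) (nat_lit 0) (nat_lit 2508) ec24 ec25) (XT.nd (nat_lit 51324) (nat_lit 304) (nat_lit 0) ec26 ec27)) (XT.nd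 (nat_lit 54522) (nat_lit 228) (nat_lit 0) (XT.nd (nat_lit 3432) (nat_lit 3268) (nat_lit 0) ec28 ec29) (XT.nd (nat_lit 50934) (nat_lit 0) (nat_lit 4636) ec30 ec31))))) (XT.nd (nat_lit 476268) (nat_lit 1368) (nat_lit 0) (XT.nd (nat_lit 263016) (nat_lit 912) (nat_lit 0) (XT.nd (nat_lit 155376) (nat_lit 456) (nat_lit 0) (XT.nd (nat_lit 54210) (nat_lit 684) (nat_lit 0) (XT.nd (nat_lit 50778) (nat_lit 0) (nat_lit 1672) ec32 ec33) (XT.nd (nat_lit 50622) (nat_lit 456) (nat_lit 0) ec34 ec35)) (XT.nd (nat_lit 53898) (nat_lit 456) (nat_lit 0) (XT.nd (nat_lit 3432) (nat_lit 5624) (nat_lit 0) ec36 ec37) (XT.nd (nat_lit 3432) (nat_lit 3648) (nat_lit 0) ec38 ec39))) (XT.nd (nat_lit 107094) (nat_lit 760) (nat_lit 0) (XT.nd (nat_lit 53586) (nat_lit 0) (nat_lit 0) (XT.nd (nat_lit 3432) (nat_lit 2052) (nat_lit 0) ec40 ec41) (XT.nd (nat_lit 3432) (nat_lit 836) (nat_lit 0) ec42 ec43)) (XT.nd (nat_lit 53118) (nat_lit 0) (nat_lit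 0) (XT.nd (nat_lit 3432) (nat_lit 760) (nat_lit 0) ec44 ec45) (XT.nd (nat_lit 3432) (nat_lit 380) (nat_lit 0) ec46 ec47)))) (XT.nd (nat_lit 210678) (nat_lit 456) (nat_lit 0) (XT.nd (nat_lit 105534) (nat_lit 380) (nat_lit 0) (XT.nd (nat_lit 52806) (nat_lit 152) (nat_lit 0) (XT.nd (nat_lit 3432) (nat_lit 760) (nat_lit 0) ec48 ec49) (XT.nd (nat_lit 3432) (nat_lit 1064) (nat_lit 0) ec50 ec51)) (XT.nd (nat_lit 52650) (nat_lit 152) (nat_lit 0) (XT.nd (nat_lit 3432) (nat_lit 1672) (nat_lit 0) ec52 ec53) (XT.nd (nat_lit 3432) (nat_lit 2280) (nat_lit 0) ec54 ec55))) (XT.nd (nat_lit 104598) (nat_lit 152) (nat_lit 0) (XT.nd (nat_lit 52338) (nat_lit 152) (nat_lit 0) (XT.nd (nat_lit 3432) (nat_lit 3420) (nat_lit 0) ec56 ec57) (XT.nd (nat_lit 3432) (nat_lit 4940) (nat_lit 0) ec58 ec59)) (XT.nd (nat_lit 6942) (nat_lit 152) (nat_lit 0) (XT.nd (nat_lit 3432) (nat_lit 6764) (nat_lit 0) ec60 ec61) (XT.nd (nat_lit 48594)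 (nat_lit 0) (nat_lit 1368) ec62 ec63)))))) (XT.nd (nat_lit 688428) (nat_lit 380) (nat_lit 0) (XT.nd (nat_lit 368394) (nat_lit 608) (nat_lit 0) (XT.nd (nat_lit 207246) (nat_lit 532) (nat_lit 0) (XT.nd (nat_lit 103818) (nat_lit 228) (nat_lit 0) (XT.nd (nat_lit 51948) (nat_lit 152) (nat_lit 0) (XT.nd (nat_lit 48516) (nat_lit 0) (nat_lit 3344) ec64 ec65) (XT.nd (nat_lit 48360) (nat_lit 0) (nat_lit 5624) ec66 ec67)) (XT.nd (nat_lit 51792) (nat_lit 76) (nat_lit 0) (XT.nd (nat_lit 48282) (nat_lit 0) (nat_lit 8816) ec68 ec69) (XT.nd (nat_lit 3432) (nat_lit 1748) (nat_lit 0) ec70 ec71))) (XT.nd (nat_lit 58422) (nat_lit 304) (nat_lit 0) (XT.nd (nat_lit 51480) (nat_lit 0) (nat_lit 912) (XT.nd (nat_lit 3432) (nat_lit 4180) (nat_lit 0) ec72 ec73) (XT.nd (nat_lit 3432) (nat_lit 6764) (nat_lit 0) ec74 ec75)) (XT.nd (nat_lit 51402) (nat_lit 228) (nat_lit 0) (XT.nd (nat_lit 47892) (nat_lit 0) (nat_lit 3420) ec76 ec77)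 (XT.nd (nat_lit 47814) (nat_lit 0) (nat_lit 6992) ec78 ec79)))) (XT.nd (nat_lit 160212) (nat_lit 304) (nat_lit 0) (XT.nd (nat_lit 102258) (nat_lit 0) (nat_lit 0) (XT.nd (nat_lit 51168) (nat_lit 304) (nat_lit 0) (XT.nd (nat_lit 3432) (nat_lit 912) (nat_lit 0) ec80 ec81) (XT.nd (nat_lit 3432) (nat_lit 3952) (nat_lit 0) ec82 ec83)) (XT.nd (nat_lit 6942) (nat_lit 1520) (nat_lit 0) (XT.nd (nat_lit 3432) (nat_lit 6460) (nat_lit 0) ec84 ec85) (XT.nd (nat_lit 47502) (nat_lit 0) (nat_lit 4560) ec86 ec87))) (XT.nd (nat_lit 101868) (nat_lit 0) (nat_lit 0) (XT.nd (nat_lit 50934) (nat_lit 228) (nat_lit 0) (XT.nd (nat_lit 47424) (nat_lit 0) (nat_lit 9424) ec88 ec89) (XT.nd (nat_lit 3432) (nat_lit 2508) (nat_lit 0) ec90 ec91)) (XT.nd (nat_lit 6942) (nat_lit 608) (nat_lit 0) (XT.nd (nat_lit 3432) (nat_lit 5548) (nat_lit 0) ec92 ec93) (XT.nd (nat_lit 47502) (nat_lit 0) (nat_lit 3192) ec94 ec95))))) (XT.nd (nat_lit 367536)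 (nat_lit 0) (nat_lit 0) (XT.nd (nat_lit 160446) (nat_lit 76) (nat_lit 0) (XT.nd (nat_lit 102180) (nat_lit 0) (nat_lit 0) (XT.nd (nat_lit 51012) (nat_lit 228) (nat_lit 0) (XT.nd (nat_lit 47580) (nat_lit 0) (nat_lit 7068) ec96 ec97) (XT.nd (nat_lit 3432) (nat_lit 1520) (nat_lit 0) ec98 ec99)) (XT.nd (nat_lit 51324) (nat_lit 0) (nat_lit 1444) (XT.nd (nat_lit 3432) (nat_lit 4104) (nat_lit 0) ec100 ec101) (XT.nd (nat_lit 3432) (nat_lit 5852) (nat_lit 0) ec102 ec103))) (XT.nd (nat_lit 103116) (nat_lit 0) (nat_lit 0) (XT.nd (nat_lit 51480) (nat_lit 76) (nat_lit 0) (XT.nd (nat_lit 47970) (nat_lit 0) (nat_lit 3344) ec104 ec105) (XT.nd (nat_lit 48126) (nat_lit 0) (nat_lit 5776) ec106 ec107)) (XT.nd (nat_lit 51870) (nat_lit 0) (nat_lit 0) (XT.nd (nat_lit 3432) (nat_lit 684) (nat_lit 0) ec108 ec109) (XT.nd (nat_lit 3432) (nat_lit 2052) (nat_lit 0) ec110 ec111)))) (XT.nd (nat_lit 211380) (nat_lit 0) (nat_lit 304)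 (XT.nd (nat_lit 104910) (nat_lit 0) (nat_lit 76) (XT.nd (nat_lit 52260) (nat_lit 0) (nat_lit 0) (XT.nd (nat_lit 3432) (nat_lit 3268) (nat_lit 0) ec112 ec113) (XT.nd (nat_lit 3432) (nat_lit 4332) (nat_lit 0) ec114 ec115)) (XT.nd (nat_lit 53040) (nat_lit 0) (nat_lit 0) (XT.nd (nat_lit 3432) (nat_lit 4712) (nat_lit 0) ec116 ec117) (XT.nd (nat_lit 3432) (nat_lit 4712) (nat_lit 0) ec118 ec119))) (XT.nd (nat_lit 108342) (nat_lit 0) (nat_lit 380) (XT.nd (nat_lit 53898) (nat_lit 0) (nat_lit 76) (XT.nd (nat_lit 3432) (nat_lit 3648) (nat_lit 0) ec120 ec121) (XT.nd (nat_lit 3432) (nat_lit 2128) (nat_lit 0) ec122 ec123)) (XT.nd (nat_lit 55068) (nat_lit 0) (nat_lit 304) (XT.nd (nat_lit 51558) (nat_lit 0) (nat_lit 1672) ec124 ec125) (XT.nd (nat_lit 52416) (nat_lit 0) (nat_lit 532) ec126 ec127))))))) XT.nil))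

set_option maxRecDepth 10000000 in
noncomputable def Tz : ZL := (ZL.cons (nat_lit 8588) (nat_lit 3) (nat_lit 129217398710008884283) (ZL.cons (nat_lit 8664) (nat_lit 6) (nat_lit 254808461031007489326) (ZL.cons (nat_lit 8740) (nat_lit 6) (nat_lit 251293210259755513442) (ZL.cons (nat_lit 8816) (nat_lit 3) (nat_lit 125592448551200758757) (ZL.cons (nat_lit 8892) (nat_lit 6) (nat_lit 247672501965365978284) (ZL.cons (nat_lit 8968) (nat_lit 6) (nat_lit 244268206536771423106) (ZL.cons (nat_lit 9044) (nat_lit 3) (nat_lit 122081524065786684403) (ZL.cons (nat_lit 9196) (nat_lit 6) (nat_lit 240761782245319031272) (ZL.cons (nat_lit 9272) (nat_lit 6) (nat_lit 237465732326702355096) (ZL.cons (nat_lit 9348) (nat_lit 3) (nat_lit 118681818393837558956) (ZL.cons (nat_lit 9500) (nat_lit 6) (nat_lit 234070800910527178634) (ZL.cons (nat_lit 9576) (nat_lit 6) (nat_lit 230880397378642754076) (ZL.cons (nat_lit 9652) (nat_lit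 3) (nat_lit 115390637748046019182) (ZL.cons (nat_lit 9728) (nat_lit 6) (nat_lit 227789638460780391830) (ZL.cons (nat_lit 9804) (nat_lit 6) (nat_lit 227594281740801796782) (ZL.cons (nat_lit 9880) (nat_lit 6) (nat_lit 224507034892831443002) (ZL.cons (nat_lit 9956) (nat_lit 3) (nat_lit 112205400027701781833) (ZL.cons (nat_lit 10032) (nat_lit 6) (nat_lit 221516837357847799038) (ZL.cons (nat_lit 10108) (nat_lit 6) (nat_lit 221327170639421978604) (ZL.cons (nat_lit 10184) (nat_lit 6) (nat_lit 218340699059386766422) (ZL.cons (nat_lit 10260) (nat_lit 3) (nat_lit 109123633589194412662) (ZL.cons (nat_lit 10336) (nat_lit 6) (nat_lit 215448775777024109946) (ZL.cons (nat_lit 10412) (nat_lit 6) (nat_lit 215264633331950497876) (ZL.cons (nat_lit 10488) (nat_lit 6) (nat_lit 212376662915192632678) (ZL.cons (nat_lit 10564) (nat_lit 3) (nat_lit 106142976175558480853) (ZL.cons (nat_lit 10640) (nat_lit 6) (nat_lit 209580832458819033532)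 (ZL.cons (nat_lit 10716) (nat_lit 6) (nat_lit 209402053385932031522) (ZL.cons (nat_lit 10792) (nat_lit 6) (nat_lit 206610416524678555442) (ZL.cons (nat_lit 10868) (nat_lit 3) (nat_lit 103261174007933612202) (ZL.cons (nat_lit 10944) (nat_lit 6) (nat_lit 203908602473011748880) (ZL.cons (nat_lit 11020) (nat_lit 6) (nat_lit 203735030557587475082) (ZL.cons (nat_lit 11096) (nat_lit 6) (nat_lit 201037665490983607078) (ZL.cons (nat_lit 11172) (nat_lit 3) (nat_lit 100476081042185332159) (ZL.cons (nat_lit 11248) (nat_lit 6) (nat_lit 198427895895123636428) (ZL.cons (nat_lit 11324) (nat_lit 6) (nat_lit 198259379472381623032) (ZL.cons (nat_lit 11400) (nat_lit 6) (nat_lit 195654329804774923902) (ZL.cons (nat_lit 11476) (nat_lit 3) (nat_lit 97785658394322926633) (ZL.cons (nat_lit 11552) (nat_lit 6) (nat_lit 193134736824559454276) (ZL.cons (nat_lit 11628) (nat_lit 6) (nat_lit 192971128647140023798) (ZL.cons (nat_lit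 11704) (nat_lit 6) (nat_lit 190698398945635996758) (ZL.cons (nat_lit 11780) (nat_lit 6) (nat_lit 190456543038808449926) (ZL.cons (nat_lit 11856) (nat_lit 3) (nat_lit 95187973938759045042) (ZL.cons (nat_lit 11932) (nat_lit 6) (nat_lit 188025362752925405034) (ZL.cons (nat_lit 12008) (nat_lit 6) (nat_lit 187866519862226928838) (ZL.cons (nat_lit 12084) (nat_lit 6) (nat_lit 185675463457202253448) (ZL.cons (nat_lit 12160) (nat_lit 6) (nat_lit 185440651897175508952) (ZL.cons (nat_lit 12236) (nat_lit 3) (nat_lit 92681202083883696299) (ZL.cons (nat_lit 12312) (nat_lit 6) (nat_lit 183096224291908931122) (ZL.cons (nat_lit 12388) (nat_lit 6) (nat_lit 182942007893172546468) (ZL.cons (nat_lit 12464) (nat_lit 6) (nat_lit 180831188517451719702) (ZL.cons (nat_lit 12540) (nat_lit 6) (nat_lit 180603216129076239606) (ZL.cons (nat_lit 12616) (nat_lit 3) (nat_lit 90263623729873985653) (ZL.cons (nat_lit 12692) (nat_lit 6)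 (nat_lit 178343985271024407282) (ZL.cons (nat_lit 12768) (nat_lit 6) (nat_lit 178194260612057043540) (ZL.cons (nat_lit 12844) (nat_lit 6) (nat_lit 176162341233801276052) (ZL.cons (nat_lit 12920) (nat_lit 6) (nat_lit 175941008817902751688) (ZL.cons (nat_lit 12996) (nat_lit 3) (nat_lit 87933626414131828123) (ZL.cons (nat_lit 13072) (nat_lit 6) (nat_lit 173765523216494087140) (ZL.cons (nat_lit 13148) (nat_lit 6) (nat_lit 173620159469923831076) (ZL.cons (nat_lit 13224) (nat_lit 6) (nat_lit 171665902898082246210) (ZL.cons (nat_lit 13300) (nat_lit 6) (nat_lit 171451017057404067214) (ZL.cons (nat_lit 13376) (nat_lit 3) (nat_lit 85689704650236453296) (ZL.cons (nat_lit 13452) (nat_lit 6) (nat_lit 169640313242971529230) (ZL.cons (nat_lit 13528) (nat_lit 6) (nat_lit 169357930223547793990) (ZL.cons (nat_lit 13604) (nat_lit 6) (nat_lit 169216800372508710436) (ZL.cons (nat_lit 13680) (nat_lit 6) (nat_lit 167339070057529311744)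 (ZL.cons (nat_lit 13756) (nat_lit 6) (nat_lit 167130443027744671946) (ZL.cons (nat_lit 13832) (nat_lit 3) (nat_lit 83530460466818374507) (ZL.cons (nat_lit 13908) (nat_lit 6) (nat_lit 165392672506776371324) (ZL.cons (nat_lit 13984) (nat_lit 6) (nat_lit 165118514235491191480) (ZL.cons (nat_lit 14060) (nat_lit 6) (nat_lit 164981494962637712304) (ZL.cons (nat_lit 14136) (nat_lit 6) (nat_lit 163179255999716202892) (ZL.cons (nat_lit 14212) (nat_lit 6) (nat_lit 162976705485362183670) (ZL.cons (nat_lit 14288) (nat_lit 3) (nat_lit 81454604153308313713) (ZL.cons (nat_lit 14364) (nat_lit 6) (nat_lit 161310973822932135802) (ZL.cons (nat_lit 14440) (nat_lit 6) (nat_lit 161044800744014485468) (ZL.cons (nat_lit 14516) (nat_lit 6) (nat_lit 160911772323768389178) (ZL.cons (nat_lit 14592) (nat_lit 6) (nat_lit 159512035225567042968) (ZL.cons (nat_lit 14668) (nat_lit 6) (nat_lit 159184092666490527478) (ZL.cons (nat_lit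 14744) (nat_lit 6) (nat_lit 158987441681680800076) (ZL.cons (nat_lit 14820) (nat_lit 3) (nat_lit 79460955220090130015) (ZL.cons (nat_lit 14896) (nat_lit 6) (nat_lit 157392955391363347014) (ZL.cons (nat_lit 14972) (nat_lit 6) (nat_lit 157134534926394754456) (ZL.cons (nat_lit 15048) (nat_lit 6) (nat_lit 157005381120330583298) (ZL.cons (nat_lit 15124) (nat_lit 6) (nat_lit 155669823847227493142) (ZL.cons (nat_lit 15200) (nat_lit 6) (nat_lit 155351433013172623734) (ZL.cons (nat_lit 15276) (nat_lit 6) (nat_lit 155160509726949587420) (ZL.cons (nat_lit 15352) (nat_lit 3) (nat_lit 77548443581192978154) (ZL.cons (nat_lit 15428) (nat_lit 6) (nat_lit 153636577891798971098) (ZL.cons (nat_lit 15504) (nat_lit 6) (nat_lit 153385684236489657934) (ZL.cons (nat_lit 15580) (nat_lit 6) (nat_lit 153260292191767161666) (ZL.cons (nat_lit 15656) (nat_lit 6) (nat_lit 151988471145177450636) (ZL.cons (nat_lit 15732) (nat_lit 6)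 (nat_lit 151679353830561072568) (ZL.cons (nat_lit 15808) (nat_lit 6) (nat_lit 151493991416752299450) (ZL.cons (nat_lit 15884) (nat_lit 3) (nat_lit 75716110968296717147) (ZL.cons (nat_lit 15960) (nat_lit 6) (nat_lit 150405672680034315392) (ZL.cons (nat_lit 16036) (nat_lit 6) (nat_lit 150040027540847971398) (ZL.cons (nat_lit 16112) (nat_lit 6) (nat_lit 149796441467732133376) (ZL.cons (nat_lit 16188) (nat_lit 6) (nat_lit 149674701618486991370) (ZL.cons (nat_lit 16264) (nat_lit 6) (nat_lit 148466272946320508022) (ZL.cons (nat_lit 16340) (nat_lit 6) (nat_lit 148166159048634704074) (ZL.cons (nat_lit 16416) (nat_lit 6) (nat_lit 147986195540082497164) (ZL.cons (nat_lit 16492) (nat_lit 3) (nat_lit 73963112585498110157) (ZL.cons (nat_lit 16568) (nat_lit 6) (nat_lit 146956714921604823492) (ZL.cons (nat_lit 16644) (nat_lit 6) (nat_lit 146601719640841382722) (ZL.cons (nat_lit 16720) (nat_lit 6) (nat_lit 146365228307719209886)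 (ZL.cons (nat_lit 16796) (nat_lit 6) (nat_lit 146247034279325868132) (ZL.cons (nat_lit 16872) (nat_lit 6) (nat_lit 145101756258461864478) (ZL.cons (nat_lit 16948) (nat_lit 6) (nat_lit 144810383542262054820) (ZL.cons (nat_lit 17024) (nat_lit 6) (nat_lit 144635661689298747140) (ZL.cons (nat_lit 17100) (nat_lit 3) (nat_lit 72288719014995841118) (ZL.cons (nat_lit 17176) (nat_lit 6) (nat_lit 143664958253880477918) (ZL.cons (nat_lit 17252) (nat_lit 6) (nat_lit 143320302641488787850) (ZL.cons (nat_lit 17328) (nat_lit 6) (nat_lit 143090699405447843348) (ZL.cons (nat_lit 17404) (nat_lit 6) (nat_lit 142975947921570812518) (ZL.cons (nat_lit 17480) (nat_lit 6) (nat_lit 142290070172530113090) (ZL.cons (nat_lit 17556) (nat_lit 6) (nat_lit 141893683592961840102) (ZL.cons (nat_lit 17632) (nat_lit 6) (nat_lit 141610797460729015190) (ZL.cons (nat_lit 17708) (nat_lit 6) (nat_lit 141441164593774347538) (ZL.cons (nat_lit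 17784) (nat_lit 3) (nat_lit 70692318384602190806) (ZL.cons (nat_lit 17860) (nat_lit 6) (nat_lit 140529279836347547252) (ZL.cons (nat_lit 17936) (nat_lit 6) (nat_lit 140194662736938139420) (ZL.cons (nat_lit 18012) (nat_lit 6) (nat_lit 139971746973791591358) (ZL.cons (nat_lit 18088) (nat_lit 6) (nat_lit 139860337766143988610) (ZL.cons (nat_lit 18164) (nat_lit 6) (nat_lit 139225899174188673508) (ZL.cons (nat_lit 18240) (nat_lit 6) (nat_lit 138841057834802000704) (ZL.cons (nat_lit 18316) (nat_lit 6) (nat_lit 138566411104478869722) (ZL.cons (nat_lit 18392) (nat_lit 6) (nat_lit 138401719000639386564) (ZL.cons (nat_lit 18468) (nat_lit 3) (nat_lit 69173418808780874871) (ZL.cons (nat_lit 18544) (nat_lit 6) (nat_lit 137982402730178478108) (ZL.cons (nat_lit 18620) (nat_lit 6) (nat_lit 137548799992755625720) (ZL.cons (nat_lit 18696) (nat_lit 6) (nat_lit 137223929022455229766) (ZL.cons (nat_lit 18772) (nat_lit 6)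 (nat_lit 137007505951439163688) (ZL.cons (nat_lit 18848) (nat_lit 6) (nat_lit 136899341672169646456) (ZL.cons (nat_lit 18924) (nat_lit 6) (nat_lit 136316760053461304044) (ZL.cons (nat_lit 19000) (nat_lit 6) (nat_lit 135943127685124728506) (ZL.cons (nat_lit 19076) (nat_lit 6) (nat_lit 135676480374131397456) (ZL.cons (nat_lit 19152) (nat_lit 6) (nat_lit 135516585127685297304) (ZL.cons (nat_lit 19228) (nat_lit 3) (nat_lit 67731651115746708447) (ZL.cons (nat_lit 19304) (nat_lit 6) (nat_lit 135143861477166254230) (ZL.cons (nat_lit 19380) (nat_lit 6) (nat_lit 134722887945687756764) (ZL.cons (nat_lit 19456) (nat_lit 6) (nat_lit 134407479236658246130) (ZL.cons (nat_lit 19532) (nat_lit 6) (nat_lit 134197359750234881006) (ZL.cons (nat_lit 19608) (nat_lit 6) (nat_lit 134092345886866417676) (ZL.cons (nat_lit 19684) (nat_lit 6) (nat_lit 134029079401036820410) (ZL.cons (nat_lit 19760) (nat_lit 6) (nat_lit 133562143575245777382)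 (ZL.cons (nat_lit 19836) (nat_lit 6) (nat_lit 133199393703074344820) (ZL.cons (nat_lit 19912) (nat_lit 6) (nat_lit 132940512818614800112) (ZL.cons (nat_lit 19988) (nat_lit 6) (nat_lit 132785274715269071810) (ZL.cons (nat_lit 20064) (nat_lit 3) (nat_lit 66366771874046244445) (ZL.cons (nat_lit 20140) (nat_lit 6) (nat_lit 132459880331145006108) (ZL.cons (nat_lit 20216) (nat_lit 6) (nat_lit 132051168164661027984) (ZL.cons (nat_lit 20292) (nat_lit 6) (nat_lit 131744946117059561348) (ZL.cons (nat_lit 20368) (nat_lit 6) (nat_lit 131540946615677653462) (ZL.cons (nat_lit 20444) (nat_lit 6) (nat_lit 131438991408523805570) (ZL.cons (nat_lit 20520) (nat_lit 6) (nat_lit 131415135070744966534) (ZL.cons (nat_lit 20596) (nat_lit 6) (nat_lit 130961799317549779132) (ZL.cons (nat_lit 20672) (nat_lit 6) (nat_lit 130609614975635766934) (ZL.cons (nat_lit 20748) (nat_lit 6) (nat_lit 130358274311111937120) (ZL.cons (nat_lit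 20824) (nat_lit 6) (nat_lit 130207557705921909644) (ZL.cons (nat_lit 20900) (nat_lit 3) (nat_lit 65078666732972322336) (ZL.cons (nat_lit 20976) (nat_lit 6) (nat_lit 130426994909837542126) (ZL.cons (nat_lit 21052) (nat_lit 6) (nat_lit 129930335286048947652) (ZL.cons (nat_lit 21128) (nat_lit 6) (nat_lit 129533527357423726176) (ZL.cons (nat_lit 21204) (nat_lit 6) (nat_lit 129236224398587350800) (ZL.cons (nat_lit 21280) (nat_lit 6) (nat_lit 129038166630255401396) (ZL.cons (nat_lit 21356) (nat_lit 6) (nat_lit 128939180992241956840) (ZL.cons (nat_lit 21432) (nat_lit 6) (nat_lit 128955874790907707582) (ZL.cons (nat_lit 21508) (nat_lit 6) (nat_lit 128515742991689079034) (ZL.cons (nat_lit 21584) (nat_lit 6) (nat_lit 128173816446141494380) (ZL.cons (nat_lit 21660) (nat_lit 6) (nat_lit 127929796383496999414) (ZL.cons (nat_lit 21736) (nat_lit 6) (nat_lit 127783469582341632930) (ZL.cons (nat_lit 21812) (nat_lit 3)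 (nat_lit 63867354092152726673) (ZL.cons (nat_lit 21888) (nat_lit 6) (nat_lit 128037566361790498612) (ZL.cons (nat_lit 21964) (nat_lit 6) (nat_lit 127555372552287008832) (ZL.cons (nat_lit 22040) (nat_lit 6) (nat_lit 127170122136146017106) (ZL.cons (nat_lit 22116) (nat_lit 6) (nat_lit 126881478486790312862) (ZL.cons (nat_lit 22192) (nat_lit 6) (nat_lit 126689189391322400816) (ZL.cons (nat_lit 22268) (nat_lit 6) (nat_lit 126593086830144299304) (ZL.cons (nat_lit 22344) (nat_lit 6) (nat_lit 127174607593273820266) (ZL.cons (nat_lit 22420) (nat_lit 6) (nat_lit 126651576880581144824) (ZL.cons (nat_lit 22496) (nat_lit 6) (nat_lit 126224264454155291866) (ZL.cons (nat_lit 22572) (nat_lit 6) (nat_lit 125892296934206180550) (ZL.cons (nat_lit 22648) (nat_lit 6) (nat_lit 125655384252027059226) (ZL.cons (nat_lit 22724) (nat_lit 6) (nat_lit 125513319396536412152) (ZL.cons (nat_lit 22800) (nat_lit 3) (nat_lit 62732989116697245112)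 (ZL.cons (nat_lit 22876) (nat_lit 6) (nat_lit 126366244443715279336) (ZL.cons (nat_lit 22952) (nat_lit 6) (nat_lit 125803566252198151792) (ZL.cons (nat_lit 23028) (nat_lit 6) (nat_lit 125335416922583113172) (ZL.cons (nat_lit 23104) (nat_lit 6) (nat_lit 124961387392349140624) (ZL.cons (nat_lit 23180) (nat_lit 6) (nat_lit 124681150839576612228) (ZL.cons (nat_lit 23256) (nat_lit 6) (nat_lit 124494462397374755876) (ZL.cons (nat_lit 23332) (nat_lit 6) (nat_lit 124401158939920288386) (ZL.cons (nat_lit 23408) (nat_lit 6) (nat_lit 125010599686977306732) (ZL.cons (nat_lit 23484) (nat_lit 6) (nat_lit 124502802878537816010) (ZL.cons (nat_lit 23560) (nat_lit 6) (nat_lit 124087936445114657800) (ZL.cons (nat_lit 23636) (nat_lit 6) (nat_lit 123765637882057268172) (ZL.cons (nat_lit 23712) (nat_lit 6) (nat_lit 123535625569262004748) (ZL.cons (nat_lit 23788) (nat_lit 6) (nat_lit 123397698525096327980) (ZL.cons (nat_lit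 23864) (nat_lit 3) (nat_lit 61675868115391891209) (ZL.cons (nat_lit 23940) (nat_lit 6) (nat_lit 124271984301512105990) (ZL.cons (nat_lit 24016) (nat_lit 6) (nat_lit 123725694795184797698) (ZL.cons (nat_lit 24092) (nat_lit 6) (nat_lit 123271180882937187386) (ZL.cons (nat_lit 24168) (nat_lit 6) (nat_lit 122908045416690612096) (ZL.cons (nat_lit 24244) (nat_lit 6) (nat_lit 122635971093610487440) (ZL.cons (nat_lit 24320) (nat_lit 6) (nat_lit 122454720178851403600) (ZL.cons (nat_lit 24396) (nat_lit 6) (nat_lit 122364134297827648760) (ZL.cons (nat_lit 24472) (nat_lit 6) (nat_lit 123587074703718162502) (ZL.cons (nat_lit 24548) (nat_lit 6) (nat_lit 123003413646043458508) (ZL.cons (nat_lit 24624) (nat_lit 6) (nat_lit 122510407035908030626) (ZL.cons (nat_lit 24700) (nat_lit 6) (nat_lit 122107624090837003234) (ZL.cons (nat_lit 24776) (nat_lit 6) (nat_lit 121794712864567692916) (ZL.cons (nat_lit 24852) (nat_lit 6)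 (nat_lit 121571399939523747844) (ZL.cons (nat_lit 24928) (nat_lit 6) (nat_lit 121437490187906585932) (ZL.cons (nat_lit 25004) (nat_lit 3) (nat_lit 60696433300597688327) (ZL.cons (nat_lit 25080) (nat_lit 6) (nat_lit 122955272428898374760) (ZL.cons (nat_lit 25156) (nat_lit 6) (nat_lit 122335328311663092414) (ZL.cons (nat_lit 25232) (nat_lit 6) (nat_lit 121804950150180268830) (ZL.cons (nat_lit 25308) (nat_lit 6) (nat_lit 121363674507221423868) (ZL.cons (nat_lit 25384) (nat_lit 6) (nat_lit 121011115802127661448) (ZL.cons (nat_lit 25460) (nat_lit 6) (nat_lit 120746965973894530714) (ZL.cons (nat_lit 25536) (nat_lit 6) (nat_lit 120570994211992507570) (ZL.cons (nat_lit 25612) (nat_lit 6) (nat_lit 120483046754687891220) (ZL.cons (nat_lit 25688) (nat_lit 6) (nat_lit 121720855028159289394) (ZL.cons (nat_lit 25764) (nat_lit 6) (nat_lit 121154193807115887458) (ZL.cons (nat_lit 25840) (nat_lit 6) (nat_lit 120675546612809646794)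 (ZL.cons (nat_lit 25916) (nat_lit 6) (nat_lit 120284495209828066804) (ZL.cons (nat_lit 25992) (nat_lit 6) (nat_lit 119980697902770483968) (ZL.cons (nat_lit 26068) (nat_lit 6) (nat_lit 119763889237679275162) (ZL.cons (nat_lit 26144) (nat_lit 6) (nat_lit 119633879770089797580) (ZL.cons (nat_lit 26220) (nat_lit 3) (nat_lit 59795277949748195254) (ZL.cons (nat_lit 26296) (nat_lit 6) (nat_lit 121159456877128987866) (ZL.cons (nat_lit 26372) (nat_lit 6) (nat_lit 120557569384667548696) (ZL.cons (nat_lit 26448) (nat_lit 6) (nat_lit 120042639130800729680) (ZL.cons (nat_lit 26524) (nat_lit 6) (nat_lit 119614216176471753988) (ZL.cons (nat_lit 26600) (nat_lit 6) (nat_lit 119271926171526353582) (ZL.cons (nat_lit 26676) (nat_lit 6) (nat_lit 119015470027610692674) (ZL.cons (nat_lit 26752) (nat_lit 6) (nat_lit 118844623656832029430) (ZL.cons (nat_lit 26828) (nat_lit 6) (nat_lit 118759237775953761126) (ZL.cons (nat_lit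 26904) (nat_lit 6) (nat_lit 120650643316498472036) (ZL.cons (nat_lit 26980) (nat_lit 6) (nat_lit 120014555560524375358) (ZL.cons (nat_lit 27056) (nat_lit 6) (nat_lit 119464399035239519108) (ZL.cons (nat_lit 27132) (nat_lit 6) (nat_lit 118999693021349965064) (ZL.cons (nat_lit 27208) (nat_lit 6) (nat_lit 118620031465057168956) (ZL.cons (nat_lit 27284) (nat_lit 6) (nat_lit 118325082623253690478) (ZL.cons (nat_lit 27360) (nat_lit 6) (nat_lit 118114588773650575132) (ZL.cons (nat_lit 27436) (nat_lit 6) (nat_lit 117988365989583121166) (ZL.cons (nat_lit 27512) (nat_lit 3) (nat_lit 58973151989649129967) (ZL.cons (nat_lit 27588) (nat_lit 6) (nat_lit 119435491680699625190) (ZL.cons (nat_lit 27664) (nat_lit 6) (nat_lit 119789037148163160494) (ZL.cons (nat_lit 27740) (nat_lit 6) (nat_lit 120193969751894375432) (ZL.cons (nat_lit 27816) (nat_lit 6) (nat_lit 119524677856587601560) (ZL.cons (nat_lit 27892) (nat_lit 6)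 (nat_lit 118940321067790087802) (ZL.cons (nat_lit 27968) (nat_lit 6) (nat_lit 118440388782482496524) (ZL.cons (nat_lit 28044) (nat_lit 6) (nat_lit 118024444166629122064) (ZL.cons (nat_lit 28120) (nat_lit 6) (nat_lit 117692123773478247884) (ZL.cons (nat_lit 28196) (nat_lit 6) (nat_lit 117443137225987314968) (ZL.cons (nat_lit 28272) (nat_lit 6) (nat_lit 117277266963095408900) (ZL.cons (nat_lit 28348) (nat_lit 6) (nat_lit 117194368049621362006) (ZL.cons (nat_lit 28424) (nat_lit 3) (nat_lit 58725669225113491530) (ZL.cons (nat_lit 28500) (nat_lit 6) (nat_lit 117476786658194616008) (ZL.cons (nat_lit 28576) (nat_lit 6) (nat_lit 117553153518395739002) (ZL.cons (nat_lit 28652) (nat_lit 6) (nat_lit 117680505759154799622) (ZL.cons (nat_lit 28728) (nat_lit 6) (nat_lit 117858954659128771804) (ZL.cons (nat_lit 28804) (nat_lit 6) (nat_lit 118088656144540933782) (ZL.cons (nat_lit 28880) (nat_lit 6) (nat_lit 118369810925427082586)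 (ZL.cons (nat_lit 28956) (nat_lit 6) (nat_lit 118702664671013235236) (ZL.cons (nat_lit 29032) (nat_lit 6) (nat_lit 119087508224378059252) (ZL.cons (nat_lit 29108) (nat_lit 6) (nat_lit 118469947296247868300) (ZL.cons (nat_lit 29184) (nat_lit 6) (nat_lit 117935814747427619514) (ZL.cons (nat_lit 29260) (nat_lit 6) (nat_lit 117484643860156207820) (ZL.cons (nat_lit 29336) (nat_lit 6) (nat_lit 117116040407444755288) (ZL.cons (nat_lit 29412) (nat_lit 6) (nat_lit 116829682308606426670) (ZL.cons (nat_lit 29488) (nat_lit 6) (nat_lit 116625319347826703032) (ZL.cons (nat_lit 29564) (nat_lit 6) (nat_lit 116502772955528204036) (ZL.cons (nat_lit 29640) (nat_lit 3) (nat_lit 58230968026169509187) (ZL.cons (nat_lit 29716) (nat_lit 6) (nat_lit 116600694684562950272) (ZL.cons (nat_lit 29792) (nat_lit 6) (nat_lit 116652354546737245160) (ZL.cons (nat_lit 29868) (nat_lit 6) (nat_lit 116755719410771229948) (ZL.cons (nat_lit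 29944) (nat_lit 6) (nat_lit 116910879595478138218) (ZL.cons (nat_lit 30020) (nat_lit 6) (nat_lit 117117970677718393482) (ZL.cons (nat_lit 30096) (nat_lit 6) (nat_lit 117377173610864827030) (ZL.cons (nat_lit 30172) (nat_lit 6) (nat_lit 117688714882917275552) (ZL.cons (nat_lit 30248) (nat_lit 6) (nat_lit 118052866714404716914) (ZL.cons (nat_lit 30324) (nat_lit 6) (nat_lit 117485530026251790934) (ZL.cons (nat_lit 30400) (nat_lit 6) (nat_lit 117000158875467721732) (ZL.cons (nat_lit 30476) (nat_lit 6) (nat_lit 116596329151338231966) (ZL.cons (nat_lit 30552) (nat_lit 6) (nat_lit 116273687992939324996) (ZL.cons (nat_lit 30628) (nat_lit 6) (nat_lit 116031953480812205656) (ZL.cons (nat_lit 30704) (nat_lit 6) (nat_lit 115870914390625889090) (ZL.cons (nat_lit 30780) (nat_lit 6) (nat_lit 115790430008612251326) (ZL.cons (nat_lit 30856) (nat_lit 3) (nat_lit 57900137579438091228) (ZL.cons (nat_lit 30932) (nat_lit 6)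 (nat_lit 115826486813082844396) (ZL.cons (nat_lit 31008) (nat_lit 6) (nat_lit 115905144679090001078) (ZL.cons (nat_lit 31084) (nat_lit 6) (nat_lit 116036317487071833516) (ZL.cons (nat_lit 31160) (nat_lit 6) (nat_lit 116220119854045024868) (ZL.cons (nat_lit 31236) (nat_lit 6) (nat_lit 116456712384019551702) (ZL.cons (nat_lit 31312) (nat_lit 6) (nat_lit 116746301808332284968) (ZL.cons (nat_lit 31388) (nat_lit 6) (nat_lit 117089141166286022202) (ZL.cons (nat_lit 31464) (nat_lit 6) (nat_lit 116570565876169275806) (ZL.cons (nat_lit 31540) (nat_lit 6) (nat_lit 116132535888527128532) (ZL.cons (nat_lit 31616) (nat_lit 6) (nat_lit 115774668458710184328) (ZL.cons (nat_lit 31692) (nat_lit 6) (nat_lit 115496650887022486636) (ZL.cons (nat_lit 31768) (nat_lit 6) (nat_lit 115298240245488774368) (ZL.cons (nat_lit 31844) (nat_lit 6) (nat_lit 115179263165587319034) (ZL.cons (nat_lit 31920) (nat_lit 3) (nat_lit 57569807843381433466)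 (ZL.cons (nat_lit 31996) (nat_lit 6) (nat_lit 115074828685432256164) (ZL.cons (nat_lit 32072) (nat_lit 6) (nat_lit 115128038343471779898) (ZL.cons (nat_lit 32148) (nat_lit 6) (nat_lit 115234504153426784230) (ZL.cons (nat_lit 32224) (nat_lit 6) (nat_lit 115394319143674899750) (ZL.cons (nat_lit 32300) (nat_lit 6) (nat_lit 115607622958382362672) (ZL.cons (nat_lit 32376) (nat_lit 6) (nat_lit 115874601979523189224) (ZL.cons (nat_lit 32452) (nat_lit 6) (nat_lit 116195489489737211202) (ZL.cons (nat_lit 32528) (nat_lit 6) (nat_lit 115724255362762386734) (ZL.cons (nat_lit 32604) (nat_lit 6) (nat_lit 115332187669432785022) (ZL.cons (nat_lit 32680) (nat_lit 6) (nat_lit 115018943826327050096) (ZL.cons (nat_lit 32756) (nat_lit 6) (nat_lit 114784250125232759476) (ZL.cons (nat_lit 32832) (nat_lit 6) (nat_lit 114627901493983908440) (ZL.cons (nat_lit 32908) (nat_lit 6) (nat_lit 114549761317271638768) (ZL.cons (nat_lit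 32984) (nat_lit 3) (nat_lit 57198361687565125900) (ZL.cons (nat_lit 33060) (nat_lit 6) (nat_lit 114423721378963113594) (ZL.cons (nat_lit 33136) (nat_lit 6) (nat_lit 114504738980950484978) (ZL.cons (nat_lit 33212) (nat_lit 6) (nat_lit 114639846973171772392) (ZL.cons (nat_lit 33288) (nat_lit 6) (nat_lit 114829163411154159482) (ZL.cons (nat_lit 33364) (nat_lit 6) (nat_lit 115072853717027922122) (ZL.cons (nat_lit 33440) (nat_lit 6) (nat_lit 115371130824070037386) (ZL.cons (nat_lit 33516) (nat_lit 6) (nat_lit 114945858991407758480) (ZL.cons (nat_lit 33592) (nat_lit 6) (nat_lit 114598414884789366046) (ZL.cons (nat_lit 33668) (nat_lit 6) (nat_lit 114328494912277038192) (ZL.cons (nat_lit 33744) (nat_lit 6) (nat_lit 114135863221467608804) (ZL.cons (nat_lit 33820) (nat_lit 6) (nat_lit 114020351493407943430) (ZL.cons (nat_lit 33896) (nat_lit 3) (nat_lit 56990929397760062930) (ZL.cons (nat_lit 33972) (nat_lit 6)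 (nat_lit 113791578362973654792) (ZL.cons (nat_lit 34048) (nat_lit 6) (nat_lit 113846384310754364236) (ZL.cons (nat_lit 34124) (nat_lit 6) (nat_lit 113956044095008018702) (ZL.cons (nat_lit 34200) (nat_lit 6) (nat_lit 114120653534963577686) (ZL.cons (nat_lit 34276) (nat_lit 6) (nat_lit 114340356464112264494) (ZL.cons (nat_lit 34352) (nat_lit 6) (nat_lit 114615344855887315846) (ZL.cons (nat_lit 34428) (nat_lit 6) (nat_lit 114234696609936246218) (ZL.cons (nat_lit 34504) (nat_lit 6) (nat_lit 113930576373911260856) (ZL.cons (nat_lit 34580) (nat_lit 6) (nat_lit 113702718411683794234) (ZL.cons (nat_lit 34656) (nat_lit 6) (nat_lit 113550923624063550508) (ZL.cons (nat_lit 34732) (nat_lit 6) (nat_lit 113475059374828337236) (ZL.cons (nat_lit 34808) (nat_lit 3) (nat_lit 56615528468764133531) (ZL.cons (nat_lit 34884) (nat_lit 6) (nat_lit 113258864881476114712) (ZL.cons (nat_lit 34960) (nat_lit 6) (nat_lit 113342313011523107238)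 (ZL.cons (nat_lit 35036) (nat_lit 6) (nat_lit 113481474243511033274) (ZL.cons (nat_lit 35112) (nat_lit 6) (nat_lit 113676470174632891976) (ZL.cons (nat_lit 35188) (nat_lit 6) (nat_lit 113927471189682867496) (ZL.cons (nat_lit 35264) (nat_lit 6) (nat_lit 113590146814325204940) (ZL.cons (nat_lit 35340) (nat_lit 6) (nat_lit 113328088588585080810) (ZL.cons (nat_lit 35416) (nat_lit 6) (nat_lit 113141067529546799850) (ZL.cons (nat_lit 35492) (nat_lit 6) (nat_lit 113028920220751008226) (ZL.cons (nat_lit 35568) (nat_lit 3) (nat_lit 56495774334701806262) (ZL.cons (nat_lit 35644) (nat_lit 6) (nat_lit 112741667326624134054) (ZL.cons (nat_lit 35720) (nat_lit 6) (nat_lit 112798117452838264786) (ZL.cons (nat_lit 35796) (nat_lit 6) (nat_lit 112911067030619528882) (ZL.cons (nat_lit 35872) (nat_lit 6) (nat_lit 113080614753773754636) (ZL.cons (nat_lit 35948) (nat_lit 6) (nat_lit 113306908770796902050) (ZL.cons (nat_lit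 36024) (nat_lit 6) (nat_lit 113011646405724100726) (ZL.cons (nat_lit 36100) (nat_lit 6) (nat_lit 112790425083173162258) (ZL.cons (nat_lit 36176) (nat_lit 6) (nat_lit 112643051502959333400) (ZL.cons (nat_lit 36252) (nat_lit 6) (nat_lit 112569396892051359346) (ZL.cons (nat_lit 36328) (nat_lit 3) (nat_lit 56147169863002431139) (ZL.cons (nat_lit 36404) (nat_lit 6) (nat_lit 112322981908271145360) (ZL.cons (nat_lit 36480) (nat_lit 6) (nat_lit 112408933482219547662) (ZL.cons (nat_lit 36556) (nat_lit 6) (nat_lit 112552269551167111476) (ZL.cons (nat_lit 36632) (nat_lit 6) (nat_lit 112753115360222625942) (ZL.cons (nat_lit 36708) (nat_lit 6) (nat_lit 112498689898339010280) (ZL.cons (nat_lit 36784) (nat_lit 6) (nat_lit 112317116054612523914) (ZL.cons (nat_lit 36860) (nat_lit 6) (nat_lit 112208235172286512626) (ZL.cons (nat_lit 36936) (nat_lit 3) (nat_lit 56085976056362967137) (ZL.cons (nat_lit 37012) (nat_lit 6)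 (nat_lit 111916491210841059246) (ZL.cons (nat_lit 37088) (nat_lit 6) (nat_lit 111974634840841613898) (ZL.cons (nat_lit 37164) (nat_lit 6) (nat_lit 112090972905956315918) (ZL.cons (nat_lit 37240) (nat_lit 6) (nat_lit 112265607060805168444) (ZL.cons (nat_lit 37316) (nat_lit 6) (nat_lit 112050829077746004884) (ZL.cons (nat_lit 37392) (nat_lit 6) (nat_lit 111907747931907336088) (ZL.cons (nat_lit 37468) (nat_lit 6) (nat_lit 111836238600928720502) (ZL.cons (nat_lit 37544) (nat_lit 3) (nat_lit 55789145087250854158) (ZL.cons (nat_lit 37620) (nat_lit 6) (nat_lit 111607791622235979886) (ZL.cons (nat_lit 37696) (nat_lit 6) (nat_lit 111696321743402834256) (ZL.cons (nat_lit 37772) (nat_lit 6) (nat_lit 111843957894418824988) (ZL.cons (nat_lit 37848) (nat_lit 6) (nat_lit 111667672609247478998) (ZL.cons (nat_lit 37924) (nat_lit 6) (nat_lit 111561963014756205904) (ZL.cons (nat_lit 38000) (nat_lit 3) (nat_lit 55763368371669084335)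 (ZL.cons (nat_lit 38076) (nat_lit 6) (nat_lit 111308083283784446526) (ZL.cons (nat_lit 38152) (nat_lit 6) (nat_lit 111367971222685017814) (ZL.cons (nat_lit 38228) (nat_lit 6) (nat_lit 111487799429753160896) (ZL.cons (nat_lit 38304) (nat_lit 6) (nat_lit 111348885695929210608) (ZL.cons (nat_lit 38380) (nat_lit 6) (nat_lit 111279459160998515866) (ZL.cons (nat_lit 38456) (nat_lit 3) (nat_lit 55537623972207290219) (ZL.cons (nat_lit 38532) (nat_lit 6) (nat_lit 111105634435580880156) (ZL.cons (nat_lit 38608) (nat_lit 6) (nat_lit 111196820460382740156) (ZL.cons (nat_lit 38684) (nat_lit 6) (nat_lit 111094189786119368220) (ZL.cons (nat_lit 38760) (nat_lit 3) (nat_lit 55529994761303355356) (ZL.cons (nat_lit 38836) (nat_lit 6) (nat_lit 110909082155771592420) (ZL.cons (nat_lit 38912) (nat_lit 6) (nat_lit 110970766732839180850) (ZL.cons (nat_lit 38988) (nat_lit 6) (nat_lit 110903362329993846148) (ZL.cons (nat_lit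 39064) (nat_lit 3) (nat_lit 55389071319273320818) (ZL.cons (nat_lit 39140) (nat_lit 6) (nat_lit 110809440724447930348) (ZL.cons (nat_lit 39216) (nat_lit 3) (nat_lit 55388118292557626577) (ZL.cons (nat_lit 39292) (nat_lit 6) (nat_lit 110712701470735637072) (ZL.cons (nat_lit 39368) (nat_lit 1) (nat_lit 18446744073709551617) ZL.nil))))))))))))))))))))))))))))))))))))))))))))))))))))))))))))))))))))))))))))))))))))))))))))))))))))))))))))))))))))))))))))))))))))))))))))))))))))))))))))))))))))))))))))))))))))))))))))))))))))))))))))))))))))))))))))))))))))))))))))))))))))))))))))))))))))))))))))))))))))))))))))))))))))))))))))))))))))))))))))))))))))))))))))))))))))))))))))))))))))))))))))))))))))))))))))))))))))))))))))))))))))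

noncomputable def vl : XL := ⟨(nat_lit 0), (nat_lit 0), (nat_lit 536870912), (nat_lit 0), (nat_lit 0), (nat_lit 0), (nat_lit 0), (nat_lit 0), (nat_lit 0), (nat_lit 1), (nat_lit 0), (nat_lit 1), (nat_lit 0), (nat_lit 0), (nat_lit 0), (nat_lit 0)⟩

noncomputable def cp0 : Nat := (nat_lit 659484737505393257736746082768950093156072890116296688104443512378917879196780379699795619086072114518378628776539490063554158489163275830743208490541628045422646584687270442100947080680749887417385281465210015913449955273809197597277970502401754866159204536109586616225329833443638397209552424237681013705088027424358452068345436319994006048457805528323657999522569314751293768492415405353223472489680373504457786953187425735609336544838442354151410533571984470807841319071327213131317080220879463507960232927521134950471424551589956557666041836544042674453172901135121934822536179639554331351635686213584708178932105144263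5315568033219513737347682788634027183178573902548036419112736564335655448126994235755484551834377101414396170541222240903089925172706678166770289481949056833882071254908036021809439607514935977470018127678739731150984750058271781752922329531841994964060771413763734358723084229193982977033322359216917962925819276226381576131113668970754606281452679871075270842862989833918921780808382577727635583610169421775380084981432022567063129089313264898828581821648531734738238401661510600659137582882415904378005604558953133791432657369067725536912636512045584092092516193525920617304741894553513076969248852342033985804266168401554370144992564509195965555751608395280219281722814608536398157640810442503229962724147751629489416627520059404985922601003743128596884725722806754746420842760930061143275273657737856454055232606399770513179929231976758641254213161080386498052884792564827504592700936485633558111481972929655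1291594889797415611080035456356629817712760601448348443542379811238846084699287868708360654743710384924541063095029945640040319283379185483209506390412642410391323167674152193111625077816783453303255758848019193581236354628515074992032653803444674842351917675352855398619349650199686740200963488853722829552650478720772986759912043404105256526706152517781926085403056227341724264391548918394850163929676703006647910511810660974596579083544081955019830468757089299280650894130165635761054276093845006512160276709608760691228905055093651858132521578553018527232833933000831390523770247405032522708246996292717469885339926905087156267023060834623519526029965006997031361602956149119338440420883026654716431069951444237500444519241189346101229473149481445199084368972787608755923560662460006519449713748770740177708669435116095629316842485694486514542060371881361352346451470345807871735640513043762956803465141138487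4104146779012520283625143726443055469115044225844577854747951729635594892404720642737316535870311528391103723780120306325512617659620099075915564851032083799521057795107717200912313448825457636350157269646971674120400712479276857818078897210069761398750152239407642169386073174452370053086550613143724383814319578190029894629174244482169267423698253701795847609156299524125704159529577246360056217379760397759755462834612083829677982094952159951512341694567070667013925807976801203576994065672842507160485209966225781140782819695035528622552281718658284966211390688413110230315914868743780973109320552111093700612071781447370411079980232985321215553068508914597460250036938975882916812935704041550044832245187049417161288573074277262151450487556896650873848765951611140777583302666745226787797331766195280970420401673206355429448888805285596069249684469616993852557845867677848535321343149593563269908617316657242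4635936499626208008598148229191489585859214397311308919914346341262834916571339134274847465916341169249316933935125303492472816704805886369572873355560628582623861771768129745755651775751419201004647913616275865648217400606418306182138150578126951885722947466914128052013176263320983136321720281069274016121677627544466431944240717854540587890209862389960705775936156022186826924746854768272561363528347562411055852221534330541292064414386056590917002981010618002721647934112507885054559341182809191005352379503415751291210472998119460334830128293796043481862017778675898350857541436009838553822926053743846376724766656583223682506890451624165724476327243636775485841884323222013278385958352994160555627734595970399666339328624262345008480466856977952782725305072530411243184965711938526127709197648701646098926413624122109969114699898459613211918656047081451344445304882158675562075935475432219259652802176198299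5473154927511807764455856574992987093930610740961812403457472958178083378014327332608957919838296928085008263799831386643825836801461269625936896139019747502680868810888384181552852857112776188841091538423052916936095118372255160170576235948603151188608400587974262129186008604141794052334891505403451979836075427216840686942659279165976235610253596272771725848608611813504936841844751360145781493230371301254712344007819711312599684119374906825553977099879407493313242941659707350774565652580481265846558610006592442117920242645539184565362573345392917509078374663029410402523367785995628180580781834635961679361440509737894056423054163446760863450524502108544322182781755513209135652002608172401235552982486288031879754577480747332009921425236376437302062763595435850935591997415479705967207331397757675462334783826275041577690386723430871884535984027951481707136198977237791702026909889745089128198989082744035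7736206163385316616745626671844036839281514307890315743549275970293564878097903705261250053067702038040960715708165252794013189850627049665995007578600498195232221131233037646049523581268649888845920289637309237260566449064943571848747416373292939729678107296930064274394514009562167600085296683555219683191358422930730275425591096617931082052797719272329634977680247769369677242084830360164216994591353253070489827603383952528915667561992380399217091904322424008048178658546418421063472834484573905089272365440369698942313624133249403220267721325247380006690582598307951496370937956516277987290164584183757538414671271417532321266088614110203805160834670177598919423297013353656746932752871211522775438441223963856628418924834532099638564640147459366817976958810568995391735719701453268257407072550943110376572153751603632065918052874299302526364583528195782508024078192768935262395181199986077370659686010952885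0056434472466872858495097654351788172365729542958645659908990885020265478763802339413170471687485597730339765491986723264314024702454153886179677271906738888603872851020627417355775143672962243888881661711139506903313756347034618368378349043953902872933170078725712561728497820893592987877680503320307747279125770275676355253569782313144807492746088962015571572881187392753716061539510625444320906099317746646618776368298091895910322869654414567219886695496624170380101143463107007365274527385077084409508304789864441085423478782214213377917995692197120306477807344005765801945091224034172837786427464733036120951293281580740301353410599363970563665826936691435910367298594022054025772895430890962320494393489600029023717298011554326971478000147945947718665912873118202404108219308128037193718673049646672131106519516659516686336157408172358867642661473970214718724853752762149203510172119773618462976596944997663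5388332605576403282013800996060811979399539468054791819847874266531400300050457911064667864013782863915705012217218201593368581294476658135051730738582468892480795235551959698243909556938795955215900147033676987274399051298463093502383071858651728576211396727288994505143861656427649057214798840335171579266432427304555262657257009521838289084407237800102546322250702591659915347199388014906682207749395221970838293493337274528981992761127985381519795158510758286357253584178592711942743530625953029400561511996081967935537361516941953145768012332157257908892369931402564115114186538498598102595650113513529197330971879729488374537156514860378534977063883249329956355327305588037754397554307928960829482555794309115651891341699256990617418011330992764859536334091412949772276917467340919280756812240168615435873521873598630373447197086027856516008735136802849530033391045710264666889240727345974126329150426492580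6075511426718396429704566878474362220304595190731097976539732153045695381925733443856492771263878121331271015103909960711168212552840854890317969219148724054609648505632068491293728726231961306466104931359217074508324187040411755711986379079120785971201657679797320968410249374064334397753898823975438963305700110758784240001893635378209897050330133335532230913399414206482384930987620539902872197978361126150309814634635471836349801987213167425056866194550258210033090357128619725666383675707322680020313544436265434642384543882929474671554888357439892850998773827983447388831165718101163703797719257325387854812307096442852635325475226451614639533493748722496792760603661172623561042969191586575189561504162118320169116840561376553239475996049275551368139003926193733162396566103552169129433499266454461695368946314279945688195714512075031953566277131192286603378516970748520511888126774603330305530506502123933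1819896686290545008748644678652924266055533293062610437859509474981496904933372770683335017795539386820539721199186497552957379084909514074026742537852594705493054328704787227440678582082626838527985586157017701500112059831773508635010015341938432351899074561548258978200738892456223681097159701176543171813488463333237304958063128298839626060564695248953878076565261597046998780149974776374125776052593202317098896890680461959841425911363382227571811013553543065491859960678785248361381729093296167412350236291865413377315414972874307530748143583537031944799744796918298734357393083248244344096142298223564344509902023475059697210541276896178391209586443984514459768413034315627338242072069228188016378072403340952058506454754123452195680954366348593922664152249128456750363794058867508848858258478683709643105020814304421979835122502493547146897023876602070229361029441847992271900900099137853937927324989168419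5596942759182841343019537709289713281125525090027426361699769427771353669303206842309171606384345760403897142275479984665739262483287061521488558076959079374211693861577476884842513084705544201277354136032437950290987383559378500726379521198831910729465508349786709659783491641614791780350276485119159681303427465125859578334123338801531517361921681375614473056614785464809479258101397960878474480274169368527795581126968900153169262432019645317299142178785472293430119108457149069217085752913659196842933206154726495990774523903898656309348160797958885948268415384865546432245308582493330644909068466180621987331891137227073510425836840847184705319757278632209790226056729056717949162602029522832072780776397116102472815339994781696995952441192554419279486660577279399619061083674363927107633352278882240545031138564088448943946273313903384494954475212880157697612825731338051115832049296515047094371363213077492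974601289216818569089082765161270432988288573219543623158076273335104423698405114938818239774347994990280208772969321959279301492138770480984538083112127388841376163505454583771041644130311103393694316506442161460041391020697903164449153531682014841079650797157796416727485258441841397033511006605499983405664495664162686537289969335197782287456466285032231070678676891788113156781282096189712982035850820026046920277499143380048120978200068471600707280343306128139608794789201724764710116994352111453208399278806001484399206017771319691556240958385212669191516361608117038458471034697754587484143925572893408184922101729879405286108143089931507461858157603351834592104366979804401291136536191343286966497605967266942685033783315147816136155855561098891154326121709920151360259729247542503544277939567078396963613506193954726710106882029282719178596786471099785230553148138905604247517215665197340915096825171729108360352748736192059948842540553112160710688970325143593988078114733101474145015418894086376551798392224574583876549820567242169004663595002097727141962989230920073251069437651038529143959156160400687156133819002496988126795796481396452089313355837863588356344083495143096776052908601901056)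

noncomputable def cp1 : Nat := (nat_lit 6933841547518179989229864118712171871164325133472653217247770882246965954651513898087691454124106656949565818983748884128784609296857670745846415277885197079965207622308534519148971476862948227885527407838051799840354342030146365597151656645639690552160988336140331475715213676941842805698421446386225576847735044676523579203680960787401011242765280123723593668475457197810663057481242029811291184683140327586349361872046021669655383812232410927300728416036909988689140104600051645943692278182181928636883845871474224343697210324282007220228137828037788237761816742567689996548962964239439551383371487407402540814896375926453948949810876552713831795179414789170039651390797767523649085617954762288044704198673347642950696958803813432066039923598037466160458489176919979746138696558518537770770834077552643077670254547063617920336944144693391558807354197699370319657822405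7165102694209413063081958552516192393998096510380752364354723481732043275932454781009791432922968736063992810420551136742345501184282404508466690113895006618789989152260604239306115881653169712385384839386757496794933421809393121343864374828322648239693713776535826633897886210363253529416585221327656144692051662981323703171545842438356168681932299692083605383304441453418395361602745004743374126450357816240152208253466936160766241306954228247720346134910476675577585365591624634309761064426831733066681976087689414836653640895946600158737940929628458506314996854416360604629343622370474314764956534195159383549993240507536337405287365567053625406548801300023135897508398336036523265874193249351565540318762552459625304442131673223286768186879667867126745520368500279390125405236260301896729707752547347209733172082110278137724126509181321333598489506409943615097062802112065870134876255774510393151859824111659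6015056564547499380923103460036563730141359355391486972063857539551277827592249777094667673452739190673031710801813499734167999656972920220694661590169280572194264508249385933725314504546259340471891048150811133278557034611608812223812268584364607932431039154939836154431119944996091474299387656662037320750253005335987987174447246967173206828502854291399109203453929089419233555714560656420986987961863587783235931001730547468427680755323817107289663181239523085396761007070701518463888339940409868723767174955516439578822755872238004333199256597410860381140328135709870612014252669930640247179777895176618308422246819404359300957283774469853455683835145367893056963138071597674956247576151884683403337240744586461282940530835229369607273053675514152304788270581407693228213408316282089807864460473070801876091302467875489103988634401403399462473829886666808632186984243800587314383311673175431550729606258694080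9914497609873504176999829690707869135978615311771864367882430298146526358521935186671777679953406539468733780758686811376668012293698871653478118840301206262760916572932793705928130226945738320148852652593855198866756254750658652201853459479659518564512677268943023715330276295500568768000021887848607869991640169926710933458643654741327843770761512026506115270071499113508004723919539687900333715530988882545931628613852580633358617210261072074820358410444950391663723052875449521209128621469389020910242104157833027435006503428744511790024090930126447802793943512879590385338149131763085434584073683852556280615247525625798940591125977628289666593155870722344570296207788428356402747662369953474208436357140058096606251177505719614195249051966942678964653086308043619276863888238990727565820717014669957224689443136346790838571136886128874289951893129261399997833244416158726537945850929324736385894374043374389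7462839010332536223185398945845988695041721974856387609431587327808362192344537776270442380964946215697780774861405153280266550404038102765230065568998295265847838679889613009052814370197350957521779040007091173126262000423911356967249468824401728264085336699982861188134217608867822368339822530776225345921388904121809624699087556164475405371361298903496102909269736131660165144216945597943165710191731151319992282438553736520806666482139801367320023930820820344977776020666952060329651043020227651577341116611085247743478421953354646352481468243495781304166432501939210831282746677212767918890979729149973486204405685926495896455244828763799006723088941409121224193336543354111953160089658636789401625375808834497611203401080245854985854332610702381337457816955332247326128395025499327024182461687265526481091214480507717426324328118390324582888154072624063102098817327329059755135245792785286834300017943489767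2182541816591620005364442675822872134869062891315000993174545912242819322462133361985128304912100655221079128751087430370071335980501820292645706071250934170275165761330137741598661868109222595600671085475029088765375207987448207349811031187402315859511829519441046652586649074869320534067791632997384770562696855088788056135260543539915799753621699620074202184876413986660226374654754014546382518946401872445180769280550975482385425296972875141115913216606782101335899549833427545971455120518311651344064301121651235727103209713095853344095434701277869129376483093648470031098878371232183440172573137079498715343861588348963920278566403660372162289806173243051110683558945862628468697190693563745726713777497878518139353398555421395322149832771135971095789622916634552346795717442670373942495770532390902639758688455343616527819297147244125377329169996940517236540362253068795048826280799764871100339508055810142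6754806438465514103132800387167269599095537889292313823211124781529741867787729207742007354252810915164945012959453734386187459741848903177651729487948134501230402120260092122849354394850912527694151661056410795743543572968844706636723197498977330825340262590072171549942351403464834729968284895312687952563934017537272261050229729945738095778655079299412742555975969669015112267054480284121619009364678984565162742813562706573356262369194962693910804346426497731631789607119003776096852658537012273997764446041497453195821996879856607696699364837933140489733502485619894238811566172365715111998179631664743408516912068903831312533847619376734134483720362376790610328281735032672005452060908056104051663469363464043733747742965989112016948373897307482998840042509677084424186673693770599158219657663607342592471874774940411006067925337851341749398489880906374575759133853630366134840749369696625461789246854939189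4746431887935260216491427904607615795809585939022692749996829202255712975662731268478853973136674080705108832510319976912318475021373926741165650065761489905394530153437671772243514278788242904356287788366305741856809648208164867462190965951196343395455491699468178301324702048739229235153819814497630132411579901969052980320589766214602768618721000490042192096517122102125699843459716197124938461001079219181777982043328523851086724894052422923364536428584018260025877981188129389993065833708423176412515960961600549993362448296691497414602445998061194358432290043984028880419445892596802217709424747656270417289342097661615605204131778786862333766839743646460367453026021950173500467995438911470385741730154121267321366207733748505265337366815455872179151729245100094255769157790361860476182553302919912196767704997698568234979088806933882683770786915084451429745976244024493530121067655469981671683039376053501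0001927203166276798640188081670727791532018975834826802713691718186008597852571100587023886780457710357681487229383588053239664054944708293917288219285124701071571427679532199611002883802173601415905891549986908841944163151453164765567744246694873526768519943097127253686390272292977901072950038916526653367065408107134397035567760564726481327587639940802230814260638921055862992405495406822331569399939993487265910967906604274776822338056559437031563933001088781886728541162195190794876676939907509771971651785691343592205489392668509418748521139771962979264962362341075454730640702945586569619154059691555307733631839090452781354652929236390047083124006433596237630512234806821909117075737231984984534377632195275405754942914432129885815011830015270698441433603281607284631261063703362727355460129178333601403797159434668618286576876715346999440826782692260150623296623571112055083085601320292529091933481669549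1010627441538955148965112241690210040976084031626500205494975707208969945952135542772835470252632706074690581854483893124218804192346681493046153714543313143543344584300778037484229490844462317325982669235843616823350404644759172493534512840328815660991644686786739777273510721506996660359848513991766523627042960433246557349916282871267990992758905939400250958247284442266248119036305836393497803839620723689210453017240764100689947001513633620051559533269737245435510214056163393558167761326446989241020061336015199676753407400585120979053319898177611967964013532318670996161993303540237038234207576658063651675978658720975462288299446912325675529070369936103606843375063265904798998367011727395206653209984875949485226701267307493265989998784946163087511635985447903002923677554394184743013768283956603328315150379868529976198599956719821875701647139629257037538966905863407635143487852150206402657476940605434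2959664026415203279841313808274169241654473647510635636925948701009284415563818469825341986877776757156401717236425338962103236304181497130484072970982368798169805028761717714927589080227667985830472849520072580090032233871308411190870704274804185859330494645803534638523870606429066456141632851034835684492214595897356934468224773566774416439351616450656987568425634646595842894466490922284441928951956509938798418137878037722798147365556859976930514279757758043532668466903617973765549624471823150751834598360397319317370506306529187551842115650260083148062017004602684912236728006331661071102335286446131322440677487177871472560293821992081227845054447820521931411811341903422347504451507125215669264168104700163971626115211494827409677836148212033967880282422484578475239293611554598602328266333948903611721063053144585680068458543582191635862825330133797080931357043028824479198778247040982539027625580831992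2453212181234220807399652552816401549030668196499232869097470783797330956103860354469301696030968047171916743708114330678645688363092154968277077623325374371854990230162870111133158614777502555175279457200245970181884868617064437972129326973711667064885523394103638248162285133414466623752541445300913051110721757623808499558792962547682038571723150165853113590900507559441118247629560376510199079725078083908033127141814770161644742416217090094012195313163941453430963619244876053741922990435696484008028466586847238909674832191151655874327802878409093621136878319551891163224495592544303473105571389420541196454001645228863746155768031913014012871143925591873238134968141399530988121181399731577711186734335383522366579427671065418524831345729456330522139837330048387869015010535464020263162218207936964204696602769019130854271194568844729678182649744483032270472745189721189730289322958701428812869973579955721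60642339356697942751832589464989531074042204004782174494042563148070913619436983105061719290617977701238238556613449311968550766307564097192533513587305898229328794632089603584087609076163450561747523619284673498641328662791870122862766671394089977518201454986059408096407137520438050732856561123489682115395591447487869101775142473699184809936054924895331654111038878642688108942458883233147081479465002972086376066247427026270607404695838209724772357624774673700734160722262508328768001915723347296248812321433070701015504022974328374301162279497359655313725714725246553576360243279193373111039949206575149201857148633816496458123515795264713821521679169247826783835571347399908207614773570026451819576096674046816698066162398001408726089586973982803848145861198291509639600701267155071448502684351846305910797832543680339670858900627102428889432079394227771964957935482631008935996947103599135280590720738463400070281656791075018135632384768282793607168)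

noncomputable def rc0 : Nat := (nat_lit 6663976892081766145651940874399668138922644930656843485626566864091424123773426140847145005891348256570653458249792524120007928564689493811768175655609865286847076321024025250381885829702746500101979554602543425492643448905772857048100153433529895927415569166631762164721769944186823766395507758623327487557505547141248512879619511631660152960995304323257066984751036018983975723451595036196377030963936287575375487456094966729556955130405386076534310000253058139456840405371144258879145879279968367847589069602845030135046819015684558465835425122868690051212722059841999746686204325515718374529017072770328614215174388218917891814399544199539332225758729525597369117291388845151845193524158502639457485037819916847169285256796317696469223882968474644868622100051041875653303235124408387630334083649841270331093817896130381498723794510196418944764216421227020299847724782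2129148968386675749661530229993778342963635275457599779580720176759995626234601876617945535829920441525165467021701419935287663367018469176043116032570384647192130169690768488859378921177599622520316782797779616645933078980261784552728014859356142330942285686384069627345837860117339367973371450031929761408807094398552718761592318317877367729633057283459183122349373545644670759808230900006672808870341246163095435587138486906902921358024815102939438798184383609563670545653015640329077499891541164554049864949510551642733045761093523867929210670702641252370133031121828991504904066073471341205511307591429931706733945222145643426018766811316077727398147457151636194539570837175671825413798921657591405437670947961421198697485375673262778014324061193069048274620121173817834259164036866100240427671284649834742568919728602790702111016275678537649466651518330614284544480633560590106948370560512154361572022780437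6517346136975057157639772533080240910829780575247818971032178977513197570702239932273260861992708352328565516628570711180081798640610338433085644411267778381731834715591647224166100362766870441917639826965909110396108361948249174514612139920804197592754016323932039525988601354244944583182494628797424515151065924933793330366556217052810220207364299765316196671464153972445676145289307500405059217256838112007867672959839339853622906184172748972480310764743420065135648138743985437079077076977452516111552793217171172272665957798064011623505574007412779814020602648968541508423310146488986018090436553982049717174489282507023849352871616041847734171813295665612067841687295703838343632130679619007939089051314709680798665176904703804395544789059018632884988439707487414700303428484598927077414749414272994028932483143081523409939722571132113889301456236446643506183301293950992574958908162722291117188392518384491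4012742151703221781791704861116607685627665988468344757153043247558228031380815708186700088051547773488026461478242197187008125451902521144702342627628439332300961398994357474703971132031166561781144397604971272444098353605096956348477525363954308093322278643584472109882100037903012210356009659413274495356394609641835804044669790396592532180446369329841192379482875180739872032766078665143156692021318933335101797878537016574650024204527544284777853313366935448418556541127495005999428699937278813498612254663969474243044055526976990654120145312029639061188809716156352423100720428122057262264407044883618862430343673954207721787772468444005459994056169065611494521936994749597933048827467104187583240583187966134338787822936789264871568262881452173853546141521697627653007091378807428251913761027629917701589586749704357780210381307879034665869450436534926093730036618139854308306949852964339294855529633262186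6028813812711914414961776703226919742623140256690606993649914265955358589105368134198103721775962622777503847157329320762274036668229714572725806539828330094861523878130290233312921744161048814842354925547864034981848512490837781427272084550700169213503727834750108633363872467823810590901367376951831152159022024739871433185717520289650099589649746572946164591444820208992745191585977979108061407093982038984737966252437208645908947649374270918772701891883021692841752174141347880300443773398963383553018500798005113851649631633874654316104880923546683426146687033193342283427913201135555871081140515031836787053266881185279059341660834042458828797421680114421265156974168799730579911553212499622864603434252833711348249620917618125009222612082901598330214174536286032768954327399774382485409161245140142250364181357436813683775891732592207819709105845868441734053963428339050364026060141182988606655583451162047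3218080941006236568637735356182921618872071505590909731859632673226136409074335285422214476840346970652480168929135892465566494663672315399775776616769914239757070056902202993196591851574992756373339880339693854217836075552006251847066464550802606370861939270112416806293008739174812880713298857454917620286375025063251787340059634241518043612041357208480186453611771557392987957024883105814511838290910165495591313996899757645390032740458674848188505948287052339222405912456820666161062309863434474060365776643529980052055449432214181176222847751942559214724546816363215783728553443449749864020642611290702642130438352908714872575832904399211940894179554002938830267004145037007916163546254530343401333286802328009291517903916818195159390834413268855850127704450011678910655892810491875588629812520797010692900710902225287355258913165825770753779304675458483237311030897837654161796387516506802437700267144274497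9669288027534215571430966028611387433584609077369115458974446450086371276910233166094644645796235518576968548191927845738465282197866628690529495958983390642941935483536193554447725094470492395979498307074142447223336432394029075367366195545621801611109367771351582011198285693994884629544735595189053839499402824457485356927136080142538169912263263696891154024142878904319632369025949053982650146333941802350329398672750537768774076706939168391363589819424679421433107967870257256389881207948880201459190323809151902422437493002160659487885822377807937092571094738624251086399983325509622915926465081584346881969762584560761845048623268356516582250547625677603862494619237490102357576917683821973832266535026040734627818352428941532785978945500993530018745654665071891123681219189380062500657804816703114782565646079654928377065076042389612645085449047341422770802312099596408751061206651188341815306830334032521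4645633623767773580902912548906485007903418576866740067266170342454957696393551231422286284768332109078218494144882276582436698707386598659085370525091455334213259587810385624634381166545196233977654146485919994824627514055870208044152720418119391310341306329047898921151808976733072453236886660823342207241220347075667662503475454506316385885422237398721219053026090365495414843006520927975427026783529800961393854895119192968644872607388061040946409137982435152278050895921875886476687664075436260572454031339739391879088010732892461855228612043654600096020456762213759989736107288431015640469884597486631468014811596760282360049321654428961702985606671743918446055211436721085172535430314890506662474329810343413971884536766904486325381180337452409936958976152037856271176797692846867414804592130653392143643873066891437997706062503186148185041708467204120767829478334813434672905411910560084724067469555822503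5113218698454071391074215202430630470977705281788665687269904076725347027386369505593951352169627100238377109679389775486916407007595812728318373067893228000066679060844191850696381275907761287116550889866562818064709418016208951001291599543607807619401378517601856133343638496536011765859402873170286046513235479264055785897719221402561652929865180648740061568183557449896254840836751103760023818363528713703914280263628438070439910827859945677073543073015604460752725084869094265848415783964292710934943621517842337156297923901361477215763016533873952588471977619998166482688354465067594939395812768355359857447638962968592563143388114514635605926338900101395611698587134544826400139945511476431386941760492165110329939960750633467505303138875257362374722679864463568347609558021888154565538662426530910996311324613646241145691018956741623905159148285036556218770906646851389261797800092646653831715463504645398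5957504815943111882900546548981424578562710638104820724832128639228453816671724444785007034512177838152175276226626251737942381515834868592257735021183529895879264690984849169604069279637319476779690033524010647605575873883043341652190944605949598598470208835442464726307652740241398529726452183902190872425464731997889487100015130246387768904037014277071539037365751857412031426464529669503591124752229580918214527846503222543428946069591574062441628278244934743778385684446064772978059669646157961175535235074888877464784522610150623191770834260041645363435336117028720982490493266265406291653009762562296811876504667764320197834287230089310046730662290597715293900694524162386809624410796735764408507812835950262569739682693245917710909733095071342743754699481446347949355715896118567946551663274591281982643625701475392975689699533141201069268781416127764920593233895631788676676195299740844827778249575028126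2512598873937125920377741633502020072304865947191571392658691819437365578287345277395266547478235632472048284679505236348682126265471132339870687499026240730568262523053561038064356810312450089009534964798232178410711483269280775991348443271911936266843152004074829109501532414663842675915779466497256093111788994956036088248257761190750218481900608393776221161367732963975483237650886850560679053467972526197959252604498970899939655431391044957210494348389827743856205565410326878099586858658083974553139859968798145563572907418099551840585815732950545265180897796525678791107055020392894164765608696156614779219116411636469938168684668443581993526563149658053870278662324627431164409137511054085950848625490752651522735316582523374492088279964814370721658187164538131788547742603381618437081544340664259162395666475301074652991234679194954046304551734103960335267534573197387221276785686525960450531582299390550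3069959159888017550827779078302433627952577804843456766278364021591749126481637130719892021992752176015715435334121355269976811723695360211427167155728252539797637804108016249833302928589561484453395548702733175480287272292495599132008531748926877466211316451369664916863206364111111597946291690395992439396989662306394309652100608117970608274819521017888951666195512279327946427733235351112006283166615794350924176805908434214891528888517425133666311842566464235439797209604036607659907046519431071024447862334599497352385213920605714049596232420820327698563660550515648748855563114456285731948532747430931928036855634206608869470415924177469805383984316831656626410063529311184959407586756189370910963071906340143228717848534418522443806849906094013887116695129861472859963082581372526934186242356944915614859275178213279036899564499152480729575774241515210514180054557963765419844053980966348857814479898977810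90416823965456324622172621627315470424852104798477190304962532363933839864682490054500840064984869001353005601331995827542043801129748192635727892981558682276875518571647911578859249763839451117141794335313038705822320290579095396358481253934901034549857042096077386086859852355116884940683449365240426141499743353950899276860768983397313837997208149121433527220659680551141859313173389331434692743096229710380869462685865576858792428373153403627463863638095832807243023078852027366914247786383455203384221216872812355840367529634305088085838497839512908033793251006584150870354637633119428719908443653895482110364065146583444739132650599335860743178633566181886203244808102387137954624628989679921096614501250331546774930385277360501081067191885083006877267957655939902642937504387679654587569125940050044561416623618266983270331780023416545982077609035299975982438128350700855273212918180481915862902170622328143240951565816580637786692898607837749444608)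

noncomputable def rc1 : Nat := (nat_lit 6732532888993556880674690226320292982100356532016878595520695172214847561113056937711937709409750899827257841208863871911370140176252720639013817924785288026249945737430160266181438716084907157387678932515657335983661311894402910036048012797171599996542798647976007195002240599029189156645182098889132327287089196326502552024787418273428296613378484248159691074714047101121955113902029394764680565589317893256268497578788980530125430211644943631341132393853584987524914055359186429069634538766095628142399737258140135557367204827656060106143245817496470569373775932151031703014460930363972713980908106692649487632080699633270313875565194823174764045298682285851464775816443351684161822975101235185217212090312384302370479282219461381411823186539174088989659290744232933921836184109919451391846927858786332949447620039220070268949926688738923251852636206279497614329310064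2815960194583505411952479285848307238035084800429867003114869078436335874929125744139323362695903203276983285401443796439663331754984310164432648465387911508059120614430686869689452433379546855230812823282194443469222013438410356297546842272426267932237491167806613210844374092419109088184131645973977266982690330904411340788542740903707914344701553498286187660692627390163299111802112979176887423606835591490597308961156381642030235550677664860727408937926658002473981449685990229882915469871266643043607998697696408561596923017943502326949546266625872137931941497935383448691240897768793535585100137574236866564067802433266531807053104229576118716823189546777436126356665572604423425339002293401319668603565970871400066377029279589064989182087305919026138881969991915778983375149406906485677831842074591300399979313987220410742545864295181991705137560912594618340014064746737052303541191291655733985060918661012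2712454543838385517188677823200140719463858322999754687269371176496633214550721190353441676571060421038112422229586901239112116041864972661575124674652962319754683951193050143838319815846735942255963461345367204020365309679774076951822219111895119006211290162217594401796031605613083873158538805830460399522558209584453570799410235270915642540072134731674746226855821227034883266358321318408788413209175919674177045166246920733997042783697198063194475168024188163646194323231692173495991180155033767962741582627304741169564692212134234391507054048175579037535647588144618618036490587362951007590013311015085500592213894283849754823314926936370573011679441795085987819930486643875155313579021508164933512682667244352546275225356609132354949293000531333106794604631900753737352755547752157749127537533492406257262268701202300920413596901572906015926843446093679027228198249391102558393424612425829979450184933903791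6231210163859045737961626875579044443793907275512345001299534715710014434350650384422628120124282474704542200923751050837400049424131301856740797306747837770429169495298870924463591806016348617957595982779554102608176945785323977478583054753823964809362142410061957773470931924319303280461220511998306749647353490644163831787108548458979320419633854905782240786350200270620052034084119247291148531024305984426383224512715501935617592879333754596926765163023383081364694577771484523222363354871717036709482364763706515061562686313947697542750833972605293769371868964114366636979700428374429125132616676185420433126606780284075726785909366327306526422668533651148766371184896363544542007815654251513416701990255954096919654573471580380117902554769809375300848382484707168749479748039348346066934427968173950948422221598709918417501717764139092170977876070838064713256461442076426552153534359581407274831558386670958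5772934907289327680093087240643330526042126981883014160260288846994357037838124040807215764937132968996877634176900509902187023981206499884378142626969272037554292936930697771226104805617586681618696234037462164554116276005636220885744456426078748328979596143714388938523006843758999505684743925464406132729464008914850649524833809207133130494424631059453186674019945355146903182373959019326883969126949286809701678477933726194979914136011330902620988846936155141432682788952283325215504956011614814208407619520099326144284271878980696363276588617886597742853377658174772070238709742420225512541446832067103479692674943376004236687261160359868091441657339678243584826130673736000107394460147985076222014582898305598320421067294273415341817109190475733338769857922565178652239888826880628049682602139417633655858001481570104585173512424771847120649621397664301886309204063854013164062136682783593719709083689182205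4394761384610289300835999359050462895272052660346297870618135579651330546342432913163240854974469571708649317854362406591421968196564841398703389622502553216096594967150112706018216323628322796756649127729411767810103791927494166911243616861234194476522438712645961074668123803429524183988664490142325830741953815988948102222267000844044121416652464599242334998138831927863199612745773937767619607118762336649446852630886519320865148805985751235276862941180697184874096402910711412156111197406155685016909711451977157123733351672065529675922845382953694648163053450726537615831560772304671433629553398762171086881480892678090729524048765841229439813138327934523672737385418660119033587950485105503625504482616695705139225158589365650478015385889868243055683125737972890090586801066475458137461030965428327926968512081749438001023899528988920272892216271655059446084828525917026537087317114541068043242693909703653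4152677871018424860334596537147887673402823662163400481751368687881588445240725161084015536118049581873285216267744045665240328031443935747725354158418160923364863047408669053407606188529292981992967196344214080450409432255402998080610326303284366266693786592687093810123961603928007218539126640737943537790509350459917518137177419713112539981511907964917709348082684992038225246687446599219464312323668947828653570440193311946635475574224181552174793855360351476117155068597257116601603754368448285834109720237163108416113212594890793445561508357315768619014998929559309467664357338250624200381485671668435870393133719928069345435573645358083848418166387263406939545253275902574420292591515421674765958741066261758138740031962795657948329443940486916657271877190550870228423389850959076481935657076816044575445475996766664269596880202399571711309349685470477805536211880408456514799526438229711674303609240104593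1302350205327890120313639150647090734747965419371872819760869467562984826513661341950620553848652192445914054749039518317480032528460877849807943126993582739951965713361933337649425545665528750807380973889771944582435978825073720057090740894288813448236878759773892151887807959406938062622049750011304997226527819326907051339751874969684078439872525453142017453470134406790450661053993001795821971740559661011196095396355802385541012797275858181034100027609327267723453975906935232643485293840726158135797293948919994975744302741420509925107926283978724407605296584003996138498083769244729335557750237942869464563622915516236293560984108590465158617680904720385402024983915403982098234301870092710013069083035835617374792774775446308964584993642764165029520310103859666742455726460006317500392213734165690226797316037022013750517545312639680739092847104664258242383815330988159611338051788792134042908098085729136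3536614902258219766450556848489845251679104687850711792051324876056508021891363723620813477438143765826443064897346289938490794489398718180935855860664418799932945413923749432089050693674440987636378435801681233011196990011624815117585763725344556899474452088954049247325293702321490025567618819431460797387183759649855382335579092507701569035127927502096519486461625544308913837737234111081433912330190044043587784371407799691150745159841964697219027247388028058464171843410487471904510452100135579189062872469547534303400396849126967661712506541497978357391311482803543282800492103263212126934953283155597689804799827359402572857009199035741473742977100939396183771655450529949895425484191790973495086253547670926950746088064208731982540651631809183785186923151761381326877329874590499201051023146109728536508312370103993196672839678765510498414575461680149758749207991185822622811661071354723789565502000748733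1615318489803865484781672729426291860739717155767335934773148556686001807085804085039242718640958242357030595667000769366075311668581617323139581048329570702091373098963266949391933401971158322736259568293079171145572267923108825401579543816594925333877398497440337016146501993709337687672586337078008946713234286263747691680837698402242809962187571308884752392941921525920373937199628289906829878324910094693761510822578719645264730457488446505700407132360732474268926638706287619093289715007180748134799831158530761730718058535988722975648920694160570580325226167528974699011577911073669108438841750582843792817436797845684171738082248255218489658516759642720779965889560399873356991514779367497834274228880495036893915260525525951886513064559971990344472509725772590334099404693250504136938045591744044897748426564078978035764734835825598137113717972821327794919201544517407442136295049850914483456501634153469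9249692158392443336360867174278874989127973522186758300077374330590519164804268953722534372501270942834975417942863975467248691818899391792231814423689214399342148259784679569551422759912651239352451027901523814340068537052020127245824820351108325249546277235385896909427611247800603949954200109587219967849423296331099356208694437228912543863012573316460932587616403239255251557948965186906961668619238570201448994423762672891696950440843804409322606377036204799355857173974680618864968407639586786359279092244645765174863704983685558818774055522869093781446887382224336721741218614766131573307258411065757929319400671293667177389042230353375750561393252673082716196072963213336939510522488072915460228784729864035067208144059998225953936992673726139970482121542773992794994039489031485643601356167357586612364698162764926744281537071396639784394340544448764671396173932745470842030033267191832973649718316510415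5853278910395645650069766471150759032505457755450407650919206660597035946671933944296745692448605901801062959615259793161000720092586602975112075923294741814009384385779002663453477239447553476303307247425295356533311274201835989286093693282546818032107913055915411809787862371948905885715012388306987836199040054943882679687761290445567589206047877337528620120127823954085255674570254581219202069582059831362041822243555290155921908083181252248699113486592777826243691763369342571186313724869698438300048780890640168671014344830682076323398004297941259219770926912520443169260101969222435353221167559112782337823584244135161587584025037825863223867592850549910782553979851078347603523090466673072975516912830254649034271613722692883127282932607413298637274179565333709362000655688688521856077567722212990402838339772591979844985847849659093006080181835307925204938631184251766870446757912320307715387019780740914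23303075320875515719123510540617255325934382682725461168318382772958409393601518591860198520395450339023189809197062147080614795251865263108005418508910413817637498584089032630781994464157470869691217056976704206018019335548153153152996087283674997580141136846196494881727769510211087610503942572847337909552394953477380311446000683211292097667111276134442932264885340354147056355495443786480196222970655259176812195863495275987035855665949696501556209232159846285626460577535664336625091262579104713375316705098630938474429472277556489047754174812172474435953816743618412868337636984725863927974811467561748902406891160569004247240013454004065439084855847177497660223113689983393468024237783218974141319640363573749582070589310836450907169780020187151920049415136131859212203348620057062422192681318915218467174288060166126532334215191558690906247891654462612016749418222535779429279570484239064805024001940462540085334561629486313861011820581691475361792)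

noncomputable def rc2 : Nat := (nat_lit 6800415002909192274181765288369340036162196542881143568247242944211499107932229480243395476950533241798224812600038413848667867917799316838538313526650069483726028951737820128822177553765298964714179270587038304476337831103798510525217041953915269100381326741005397579578353215496133758511299811189542687796495141735956933556246374969262932540307406522038869553121756534467921646105805579711069619859234148328535418979672543075702259873784783969820709702796317948239846301069112414352191080465298434066166361541354223671552131119212420645090230668380261905422636386168087161210203882909538604668255445179663221525279590293719717246642296498029213278726225986289812160233248093591224976049766932616000233322516490949084251776262604540165178077744427930880444127066368180814876319212100691574801729416968760157815924568349688508098005781137073619753914590194110672403457523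6613719530899007071697078754101824413583396926549690975489330797393505511025688473592845196107602820693799572052498006617207157419117176558881556833894029106098959681892016399954377717238956299543417616360740697446340315230731381445210736909211823241018794998112648675521884488693175924664648034850271458834664957729602493314895689047549317262538483961727603724478610653750948604827408745294453875101789959878862239974226029059501917476882420964891261111700719182192868346458309469230388767890662738102892833423314670237473352501914874130794415799648411627150617191240545673324606787737175402248696172386720372675609589810478853747226741954992990437954083483854320555352051386319695428964791320270779089287464840473846590001526003860093664579050527837896221374770410425908127099447527859004887707393515250967711212145100500306535495777541029140629458835073361104834275778949501761471895893852743261268197734490449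1624126405955868865188257920320038372652918032916025607642678508566223569107774259830005987875891101294195013471535232496236071748290785191780982843335160266814730129965696879984540110560617075988511735679886348970494671651573176856587312326586895838015258651668181789580334037755579924100786790980670566023468090894353842573645734284963479505675910669444133099704641433723618066186208109902172432378801615468326121761772698629576057522617835085204744754296684428006708352940029283731729344082170959410406741273430120267353892271018191364180039130064415137678218373888084130002872680300048568537993369655642085411646946303001399528361223845853798276606927184236300362605165922173369948483868631021726011008896789478042500966092926053492384283650050739942060223185838754360475597375183763736249350400154022506441861419831231059738212011321869589747334369514193577424815859499494714609419201625728173303949946218449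9183251886440537728070742210609891151007059724917547810833171048172357574605884991166185362527653894225752633669869184304232351433611529772458838263928310581817623286389948487211211361434621076888171520659014026552498028625957655724473504972371707195979328234599858919286382808905787496000761478892062182380971815281494488109701939861028646594232712798658212344199740466831862685473483130935216870133638451412938724781636372601377371864574352314506392865385057745265895601575642300291929762804091230295252928405018331593053319560649091467888386605874477861760875535262308703339096841498056194604918924180542509165574520272938282835350950190640188178049246061531948819202978262731807494757674133017153736278909870768845337167396589675804532904941746291951122550332521375724475147517103426107046142818508566614847093779876903386652074432143047446851165450215928602210627529651248797893832784757914818768652525709705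4629184602422696486723122471231289408563305274473086762914953307130050547645552481163259383081095700980584719372603977049031472917341710945396092445366373672372682955350213402887815289692738011799029308006606889792591810417062935066044172918318294306937724416951837736132461929589810529359514224235732009521215163155121520577367084003044630697931349352808179233278794110890830311026785749222051880270716694002429821443520861447618244662813001380988558112312868280899544848281433427365004989076954258662611788204124726480107171040724616257114243801289314711211409828117672540721037043825455245021806821630672636589685217178159953598162731946938661156493297491015320221753007562357268174638263605777416060850580312813473248126109889216210725179481099191882912682719773030596698940746595932368420595522344566049912489125080397847979543840666183694775134142676045994775354647174498056748720368744745772395773487415198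4510929940491198459373740765629250081473565691524938567320356087522098483545445040083027706099837781318988367782145006038343463082476048539262417282060509078405771759199884866413360925649911778246918262635045065843004482808945879746813484099624208989727701335046787402685790951997460572920231017420226754106661530689603590764245623165622921963104786734883851946109516869991375575205786361584024057542741652608893402469347058586020736074786705913136388239555601254313062463515284368134259132750733658003163442414984041549076662353293618109249586208965442098337015539620411004221101182425346141644450490869184790626670355006786405452897054329927109046741146403759984902397933619860317497178719340027604995275512002371065738375297823952227769539503172143557907432289692984586945650212126570045531383528743508301975576138271605430562128730394728138891835741252515600277108716113834820217324540150642590721130342294475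3531941600562651991570683249336322675383256363190456535920059117198959917160034178946522705673921804975029204722729909487264624402812770270026409844603969518065786881117388444719634392748853360313551370380991635777081782806648045448395799042368640238906308859987972710721094759365325253003927381792250148492221692427521719909742015058542599455858616325653272057958788555006171746190544898992009106880847796575588367290765511253187892611818590422718292665202041206288571634948634238187242793190707264106963931137159187169946878252767623686642350258818991770682600150032535490957389460517767591832366604955740398638776241251875205244763994768545647898915910475859149569615624071677711931743823661749080379166286486740453271054520658421782308012762338666750988417486948582197848313518957719674444163498255284025456277544614245217499291100952543972833241301538451579086802840199843013416050123965068104671509984402752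6089070537694842879550905404056761352121951893107064106292146515820377807545213650880208921378696561707573191072492725801645579626439980614652947031778233336429700444875772170729207369608359880727719214727842992857238303485120051428071487917725472322808964490141556488550744766808535229135217375402404441769081972950219048476839593784932270071575475691397546141707699558213844340271184479952077799961922165049331830834977401592478073920606149922511469817480489045248609897109980395541206499186023357675502470654589322256906916389071717773039451389567354432419411756253721078470140041886742550964351543185050413264248498161087865712157262888849003896311231438161870468862916032365899638786944952525183564049138097901483147914057947807532691644399149336846213706073505414741122779023388709573809433206311952038640091198861192623433294286717932394388345354874635155329950610483453463321109736208098868349962553989564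2479541149786259804125027622205623868783424272591504367708958606242991681277701013083966009090546036960463507742039738370007504605750353962968488595872503417827868730289012201647193259751550519413461219678993137744722087726277969508354013535683178631315588816130425510871770812008792410046500748054507981593302482140284257550631378960924312181020340176165307912161744677462211762668627843696020057000872857645514218325422906111041863378389653012575332565144198117706552799895480995961054873190900789281566423435151494291801099949031999383768271087655806018278968552257018165158018305215888425436921428377840915580336150552321251252233041280740208399620210724124304163159989895877665674021043754701782511542297981834939346633040279359821686706220101224376979343736464645069528197040802514306859588024431887231310610936540809668977723135137314458748515970222386612564458182457055363813608389590644673158021647859469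4882117374423684386726220884152328510972066659812307730810671103554010089264738103029515275508090092523656276548516059316932131552700487720617520454718121534802600366201951048741506524846890027829186604626620776615830000980310351795697177356666701153915888528744191173647388734351812798324989456986873433460234815751775078071720802855293995759602334069519792228189818378962563822563783610979674358803224072269798326447724343205940457422886039195839044405331218854791981301821430904844429304029275476866760436794667554044236435246982775441907385338497849126201375445785337639126810381755638565323812169872950173130579518291251371937613496250257809845270449710192081620442577160308562693424744273222287170115766736534954621789924778184744869188092087710613002071580446103203006791358197441634188664590262958552888518676942883577544721230272406087551488537943714884617863046296477540286518324333132616742771397940364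7683909068746236514172443863748437851675491497041218855992905799258534402908087772116884536576130426700253114327871983797688805509587550743229107714049036905938015358062686612163714921382833047180387095600471550594228816663194898882082049148868612147335446769268456383185618419901406605031454046839356386168815001770177208693861264364434013966486953174306332727472393835011644718181658008461228567870243295623163043091676421261144646915639904162523069135942030504089465960022044024353401116076826275775471155721841225300752850002474171023176033207237957552621878315797847393874979477057127075897724889150843324405323911822181297714409443852864296373229094695741531764352357116505251320022963319031670730168275759818365760407708548768283784175485410050706335379582842060880982381124732981112902032115795341227162912641785686851367853080559470158856766050277371099050305267845934286967318540611404328581997862039552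7414445461452172910068203298384314285621234587533980464872231413676907640856053299764119749559003887255636381073183273717699828879529718072136338239164577639698340406467214981065476099743998857076243001818947958946404888547006972396642297195674876452480565544968469905928868083026907433945801396932151266416792322372181482905403942583478743269922734058682049332853844400521772865447773547541923900171046230044050609586482743004238195876568615140087452076471650166179502622928910471650859222310537645271273737840339455272919921388854412533554144627926814736875078378734947547728891823055219816425565609503730735973356185627416352475986334688440149348898759331554576772435770867137227359803006096883945530724147705000848885190616191608877755709016882739368338192874658302246612985947353386998343242285718864716469682931237441404451777442183005015844083995542328141817827957918932117457122287933982866305472522649861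34386544437217862452595614045060854018776742772060466194725402969545686018301148000861736145316068472590678182669870161610458578364732663295616283117681824208652785035574961155977373903161958789613461630125137875296937238607676350532738845292916909936418828935985459461309750476363339425108528081245449889121196985355472035907119505375352241671030600566880735494807652788564119409767183827611909792924507474144982974470764523265551609343931876310446479660365909976962053672421139545587665436307124337765816571282278234912317575478901721476713693663533114801793737543778905578174020748147886178041245869212427681815744224300774141460096243085221296939508976613013491068225927292085277090092619826519897302960181814197151231181948736110156919104361456669880096175348881545299521159456117093862195013683890061132130845758982334917964897675267824199352134239593581161312257323048295265128136457498363114267982351023356221548890331285100588582312514624008749056)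

noncomputable def rc3 : Nat := (nat_lit 6867544659627537232245727088905536251251737521079395932325664702808813881845302606859085985306408283864193926022520438695207931688155422289499483883862538226801040801698176822791811214145338280617353677776244039285417180212580656395077725273936703646199975276779068142984604223999904042701481832710587923253999166532103253101328305081749953323247663437167821840037489744488250564002879580009548712810726815318633385135035468034349811422654421993272721929439711377128418779710535137694151601342092613189415383795164230421347756607389638758639391088297439400497216978230868926777443554565376076314513715374961460323762436768288682628734022789218734119652502990762189712623904095358916646782099561988149160061430796195303844962841668150776434748782959100418166370071958000430131409795863942489759529864035208708191876681526563197569277917531925322377735071164507734483062644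0305760381462395863965102423088777490902944899141555897844964360038494133877068206653912137691995392125966579992640149446539957312929616015789417340204416600133118584362281138316171940705162613510225748653366345777675468821683292627418977846399421294102498111331222115922614435233287194493586484703004642917338309597486932603228665527469046293429789132257086528535280875977400050542087862982848640342514829757821891023320251092812313555959081065815983615746616286219830607719388306536915695584621989371016798715412919031440963075941976151792214501627755887089927493814190511032499673066084477085434432791500961224856969679438251844104342904703144276776493070033935292217610159835075618860951998320059410454450897653511728312473869828281104415073131007465827320446684322180183233075462297960709755409635649870335141899591951652116821015964217576652772451326092212138768060831545488081615635656056722659346812477473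7112991925598082763952175909807025008028628811340674713543038662827426986018750135009178193265865402902005066914415894118761270021691591845842089049250504220503137176881716530270033429482517634179603174840370946384379892540969353975455766271469367257067012535534702838007781967085264812445327612524661796427226273613465506065670813684037478303257507862258623157321525517629325457464772128803844807565262613844833936706792993353045172825168417441330074480263247908634784318726536769850624017691023564494499348473614221036475421361421043935225347676109900531881528274630658386196367539917819490425902891041756633527609397605564330665537600765001613592552508669811714644124579729625352660477554955448954565267513927605325877674404586512169375505900915985830401780212271039478474836026285376949669224932135755907417947327125281788839493194386172644605802873828202237196345071480206773316355515950446643350048004902509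3220153509166541938444775729374515305402654928127070306290652596197278625419360700322877643486046092932957840697031263927612128114970544203005231428228162036465876133796460082929845335481389121964531713286154463885564625163145997870035887629426667488338057808471167681411430776110695872724458533547865594520573011840478627811653805460408337643246544483708319983389072293803740712420429215143037736642763614873561124086695313580277967999144630738882148284169618118245342854704454134091416248497332837717349045002349612685340879108655975075967308866461208120008642770177495979435579457644489420555396006669129635168027873723605275556941406491424429853841166330371028877008013852550513587160259607981564963024335649143168451957387998580619592994824370167104048677074643163597240032515370572039266443265458411429670565140402521903817593543380542183587777819452250332403508915243929970127032289798521636217935669518420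1545598586470624257270570557372512884247481472299559030168737173000855941375753490706772814356531071641459619753241041320951610571380990783864599739200480157108927407032498916596474081127637425891218216132391136586873337485582769196144611365539535829612148648835527147608865576352855738267216896795268344149914888519501591180023461671724026351641688399361405197451184502353667134131618948128688817733105082902230762484446556158554264968548107376197319910167852387342078495836991781937134934282052880977691032975940636738723208138900331237331528088520897237428017040177488722066087887171061209884056286555628759789107161632867161300160048697928584031704611388796294276047197398638815832838178584149805374670072065418899570236741151627960956209806587773980183281125147133926394760228711724220471606574570074748878007911587540806576520220135475288948307992412934157462542416514230057807251562277529750040218090190311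5173134633216269008095992863578470043152564017705258781119243074942046752896012158363299915056030812595842160213092168118142615035456361420770085374558096087693916627105246924490510857173901181940333805946189296057834311550441944680558961544692626668284163982383024265057835227059092178432668791471062547488349256854407098700154400780935722445172237529703087591369043170351785154768948385437122453554129453654102683437659214154940020791950002086685870039940194222159301293523966055549069845084326741019582938657373287941667020582576197012475956867678208580781051365415126283624033039570899923516083605948311774611184332784481905853308066841062140966926865811020809366258892563109577842869424096681505930316794444594169347497171961849003943984295689215271378483661471695788067601421336757315978251766055831375652891484299786428059434649818752765441796385798423399062262508272772186054497630583539449006720621750782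2090141832207916362429915328120047206399849075213484492374232619628469574431122223799257517023248139452888723770042079453845450887006514218958629658571838683868545897813938500087395989151599885656692552612865848514944771901548604501601762740278160873509055143774416540339493368274363219464244712115542646093581943676717092630612008252915206127405880248903664495383438405651365027210139966226449638121351525730807413680761086989158762284829895074327617772027397617600663334922735799531955628782171469946355430923989962596601262916850932591511466761887883585132289989098224626297721798844934669907609663947922417297867010054369103403538473844442094810312093148960796033442482908892444742917269677848873298986078735241786562132200823796835869808393299679900715963470270331454387077857495590870400914294995463309444511021033761874475071542110869616343800667006123052571913916491548517824596024707437783472920703187837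2545164478967773705226764333832950150828646232882986355379121888769097907587568004080750714103965477012299047085944073123211973297862196659068310132537754547981409372496869265115182223435879721298362161380556143422404473686908142690841472140543246876771268194078886922579045630601424680992518329529699253614765540702655341383662002819176325431399271385315886725205582027683388802810027400737301791999004901459242806162599376444476450694769071229139431195329583759870297773541730182802596564985856193654099028460386759324222192995530167108497084980321170542349048336569868370658264208983958462967945020315993663595340894570726553849773218820531829426972251521238135776423632988554761491150951614497278604354762871326043928452627188466358496811472754078072069159273431757646714751485080933581321652670498461935547305675068283174003585834649596639074892636950524087839170905010512715230027691816338564175369083747812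3413120772791486334439474452407892112120598634667489896004263492353715307583088303074563406111770702103634965040861449901658021825228379033831177589437367546656874152605692073286954706302963922536275776410959450992325852300316331396489340968214274585580374675974871320385936576748331933374590827414763122151647158798923966940050736995722203465860909459330649113683828189976233519553706570754118058790076212992210012531644349571138342612455118471508925346422672584431954892386796481863240735175778373717579817604778839382165524673356288789054197556353114825173001636549363423888634072240272477375666424990338108877006103096630104788460970046964845111946069018564219120961733420261092194639988782907592602119731389885591435337215767357046674516500693721983332703056705123199582346213056343260421688629163393809879311845215159980283621329381407173782694069769768058191003170626153965712551650638356938455534854795971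3546710910081427191204429010575381851041000990852141653591026066029274452647544929634254084745428653678499402961729758429828176529120470872669067725967749871794690535054772532692364664343487575209239857210355320632536727862573060739917500798432171114408851076258350738784016067682438949571128930245344117468837800304239185318309890313940857125283585174765603127697421133459933017282536622111662860650553788602462890289935757309051100108808819524847092233994551329302129249398987952879799808191470410964908171977801259838400893642702713063353519774764706276510769996161294101215582675067171106268791572614952859104395713107450756045532426318589615509010272078502690163200060494514663454782310168218449758295437108530653129142751804170096864801691930642433567792007723486835676064057350345976453919766447607696105491443253724607160499453841843006819949222744807709925702077572416486024927796786901920733309284755657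4500201643293357138404576179879367754840066429811667882785287923270229472474079070622999510729156227227439296292851158600394659825985140995868082547809700552001503578404741065540383419304063253768580421103180362278719954747096137609257566998440913849895337981786130298268562821753623310303125560448441590888339478007911625375366877949594832754569237853467915846916791501909782420018995332382489357870872145501479353311395557084338130960394407238274811885085546205526045429798686656203898636589811134496421626950285487097561766769614876337621377512641221014770045353190860516184581303075977600021703383178703321486833984674651889716586305545269453675015594739946286467298457057249196709287128174066785951107027331133848412149431875701447977099577025905108396369190041783910018514876363399370164200037945940944711031722961610422894089061851235226947865115439714494005920754225450402278023788728737824211988900216616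2049284178215175328546176227562714177492063282725778174954309721078171360454696041954721699654541381185465728892279948910327543610557943885419579861854037635214193131913728266291428114812503194974412131973249822983935622947026200022162001377643339738607981936856483346043271630981634848360127007704714080179440325045806020738244221358560888319298766605673227953315002465601163514750483041830056950096189578518496478308140338282598766830218064514414576551548100935433116205133286092238050410442337364765173373465138397612052424382368406827470745524176338490718646706752932035134781779254553920897656047286440195818148482483151138383282647411304785292712181491010454864185286021883269160375476744353513800410418025046517277554382432573147087514076318146287189395214202052038894743410893543165021087770710714510580343729524486391595299105734294514645759710880446646657032523108029549917298311530842872985991291097795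15634843118157339293532832821567528888148995223057384521141007647022338855303372456286998970128868455880570284090218500691508575461857798143448484276546817910183286258214164879368278849453999904446693109704913409624197571017962501668257054543229264712937486069608530873919981403279750750780502324102856337441899444749569650862417135496568115800669579472055765496394409760540542118915652226606696662661901280808687661815456223024833942827524771384439724137491582873280292992705958063068357749794038745637118187673507917038027941603867591674293691739953730260719315007296160062426119289321750770296025139554519354206062971677449625614867587401595988343049024472518625453925690957272605790771438001554350350783194023676211097100551081092585176708938368230665750776283257186390562319702668873318245339196756451427518056728796689172363684700757975673059541377702242930919929037537006406502357142668302974522137999442648539704942162498860748927308613174605905920)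

noncomputable def rc4 : Nat := (nat_lit 6933841547518179989229864118712171871164325133472653217247770882246965954651513898087691454124106656949565818983748884128784609296857670745846415277885197079965207622308534519148971476862948227885527407838051799840354342030146365597151656645639690552160988336140331475715213676941842805698421446386225576847735044676523579203680960787401011242765280123723593668475457197810663057481242029811291184683140327586349361872046021669655383812232410927300728416036909988689140104600051645943692278182181928636883845871474224343697210324282007220228137828037788237761816742567689996548962964239439551383371487407402540814896375926453948949810876552713831795179414789170039651390797767523649085617954762288044704198673347642950696958803813432066039923598037466160458489176919979746138696558518537770770834077552643077670254547063617920336944144693391558807354197699370319657822405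7165102694209413063081958552516192393998096510380752364354723481732043275932454781009791432922968736063992810420551136742345501184282404508466690113895006618789989152260604239306115881653169712385384839386757496794933421809393121343864374828322648239693713776535826633897886210363253529416585221327656144692051662981323703171545842438356168681932299692083605383304441453418395361602745004743374126450357816240152208253466936160766241306954228247720346134910476675577585365591624634309761064426831733066681976087689414836653640895946600158737940929628458506314996854416360604629343622370474314764956534195159383549993240507536337405287365567053625406548801300023135897508398336036523265874193249351565540318762552459625304442131673223286768186879667867126745520368500279390125405236260301896729707752547347209733172082110278137724126509181321333598489506409943615097062802112065870134876255774510393151859824111659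6015056564547499380923103460036563730141359355391486972063857539551277827592249777094667673452739190673031710801813499734167999656972920220694661590169280572194264508249385933725314504546259340471891048150811133278557034611608812223812268584364607932431039154939836154431119944996091474299387656662037320750253005335987987174447246967173206828502854291399109203453929089419233555714560656420986987961863587783235931001730547468427680755323817107289663181239523085396761007070701518463888339940409868723767174955516439578822755872238004333199256597410860381140328135709870612014252669930640247179777895176618308422246819404359300957283774469853455683835145367893056963138071597674956247576151884683403337240744586461282940530835229369607273053675514152304788270581407693228213408316282089807864460473070801876091302467875489103988634401403399462473829886666808632186984243800587314383311673175431550729606258694080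9914497609873504176999829690707869135978615311771864367882430298146526358521935186671777679953406539468733780758686811376668012293698871653478118840301206262760916572932793705928130226945738320148852652593855198866756254750658652201853459479659518564512677268943023715330276295500568768000021887848607869991640169926710933458643654741327843770761512026506115270071499113508004723919539687900333715530988882545931628613852580633358617210261072074820358410444950391663723052875449521209128621469389020910242104157833027435006503428744511790024090930126447802793943512879590385338149131763085434584073683852556280615247525625798940591125977628289666593155870722344570296207788428356402747662369953474208436357140058096606251177505719614195249051966942678964653086308043619276863888238990727565820717014669957224689443136346790838571136886128874289951893129261399997833244416158726537945850929324736385894374043374389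7462839010332536223185398945845988695041721974856387609431587327808362192344537776270442380964946215697780774861405153280266550404038102765230065568998295265847838679889613009052814370197350957521779040007091173126262000423911356967249468824401728264085336699982861188134217608867822368339822530776225345921388904121809624699087556164475405371361298903496102909269736131660165144216945597943165710191731151319992282438553736520806666482139801367320023930820820344977776020666952060329651043020227651577341116611085247743478421953354646352481468243495781304166432501939210831282746677212767918890979729149973486204405685926495896455244828763799006723088941409121224193336543354111953160089658636789401625375808834497611203401080245854985854332610702381337457816955332247326128395025499327024182461687265526481091214480507717426324328118390324582888154072624063102098817327329059755135245792785286834300017943489767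2182541816591620005364442675822872134869062891315000993174545912242819322462133361985128304912100655221079128751087430370071335980501820292645706071250934170275165761330137741598661868109222595600671085475029088765375207987448207349811031187402315859511829519441046652586649074869320534067791632997384770562696855088788056135260543539915799753621699620074202184876413986660226374654754014546382518946401872445180769280550975482385425296972875141115913216606782101335899549833427545971455120518311651344064301121651235727103209713095853344095434701277869129376483093648470031098878371232183440172573137079498715343861588348963920278566403660372162289806173243051110683558945862628468697190693563745726713777497878518139353398555421395322149832771135971095789622916634552346795717442670373942495770532390902639758688455343616527819297147244125377329169996940517236540362253068795048826280799764871100339508055810142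6754806438465514103132800387167269599095537889292313823211124781529741867787729207742007354252810915164945012959453734386187459741848903177651729487948134501230402120260092122849354394850912527694151661056410795743543572968844706636723197498977330825340262590072171549942351403464834729968284895312687952563934017537272261050229729945738095778655079299412742555975969669015112267054480284121619009364678984565162742813562706573356262369194962693910804346426497731631789607119003776096852658537012273997764446041497453195821996879856607696699364837933140489733502485619894238811566172365715111998179631664743408516912068903831312533847619376734134483720362376790610328281735032672005452060908056104051663469363464043733747742965989112016948373897307482998840042509677084424186673693770599158219657663607342592471874774940411006067925337851341749398489880906374575759133853630366134840749369696625461789246854939189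4746431887935260216491427904607615795809585939022692749996829202255712975662731268478853973136674080705108832510319976912318475021373926741165650065761489905394530153437671772243514278788242904356287788366305741856809648208164867462190965951196343395455491699468178301324702048739229235153819814497630132411579901969052980320589766214602768618721000490042192096517122102125699843459716197124938461001079219181777982043328523851086724894052422923364536428584018260025877981188129389993065833708423176412515960961600549993362448296691497414602445998061194358432290043984028880419445892596802217709424747656270417289342097661615605204131778786862333766839743646460367453026021950173500467995438911470385741730154121267321366207733748505265337366815455872179151729245100094255769157790361860476182553302919912196767704997698568234979088806933882683770786915084451429745976244024493530121067655469981671683039376053501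0001927203166276798640188081670727791532018975834826802713691718186008597852571100587023886780457710357681487229383588053239664054944708293917288219285124701071571427679532199611002883802173601415905891549986908841944163151453164765567744246694873526768519943097127253686390272292977901072950038916526653367065408107134397035567760564726481327587639940802230814260638921055862992405495406822331569399939993487265910967906604274776822338056559437031563933001088781886728541162195190794876676939907509771971651785691343592205489392668509418748521139771962979264962362341075454730640702945586569619154059691555307733631839090452781354652929236390047083124006433596237630512234806821909117075737231984984534377632195275405754942914432129885815011830015270698441433603281607284631261063703362727355460129178333601403797159434668618286576876715346999440826782692260150623296623571112055083085601320292529091933481669549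1010627441538955148965112241690210040976084031626500205494975707208969945952135542772835470252632706074690581854483893124218804192346681493046153714543313143543344584300778037484229490844462317325982669235843616823350404644759172493534512840328815660991644686786739777273510721506996660359848513991766523627042960433246557349916282871267990992758905939400250958247284442266248119036305836393497803839620723689210453017240764100689947001513633620051559533269737245435510214056163393558167761326446989241020061336015199676753407400585120979053319898177611967964013532318670996161993303540237038234207576658063651675978658720975462288299446912325675529070369936103606843375063265904798998367011727395206653209984875949485226701267307493265989998784946163087511635985447903002923677554394184743013768283956603328315150379868529976198599956719821875701647139629257037538966905863407635143487852150206402657476940605434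2959664026415203279841313808274169241654473647510635636925948701009284415563818469825341986877776757156401717236425338962103236304181497130484072970982368798169805028761717714927589080227667985830472849520072580090032233871308411190870704274804185859330494645803534638523870606429066456141632851034835684492214595897356934468224773566774416439351616450656987568425634646595842894466490922284441928951956509938798418137878037722798147365556859976930514279757758043532668466903617973765549624471823150751834598360397319317370506306529187551842115650260083148062017004602684912236728006331661071102335286446131322440677487177871472560293821992081227845054447820521931411811341903422347504451507125215669264168104700163971626115211494827409677836148212033967880282422484578475239293611554598602328266333948903611721063053144585680068458543582191635862825330133797080931357043028824479198778247040982539027625580831992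2453212181234220807399652552816401549030668196499232869097470783797330956103860354469301696030968047171916743708114330678645688363092154968277077623325374371854990230162870111133158614777502555175279457200245970181884868617064437972129326973711667064885523394103638248162285133414466623752541445300913051110721757623808499558792962547682038571723150165853113590900507559441118247629560376510199079725078083908033127141814770161644742416217090094012195313163941453430963619244876053741922990435696484008028466586847238909674832191151655874327802878409093621136878319551891163224495592544303473105571389420541196454001645228863746155768031913014012871143925591873238134968141399530988121181399731577711186734335383522366579427671065418524831345729456330522139837330048387869015010535464020263162218207936964204696602769019130854271194568844729678182649744483032270472745189721189730289322958701428812869973579955721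60642339356697942751832589464989531074042204004782174494042563148070913619436983105061719290617977701238238556613449311968550766307564097192533513587305898229328794632089603584087609076163450561747523619284673498641328662791870122862766671394089977518201454986059408096407137520438050732856561123489682115395591447487869101775142473699184809936054924895331654111038878642688108942458883233147081479465002972086376066247427026270607404695838209724772357624774673700734160722262508328768001915723347296248812321433070701015504022974328374301162279497359655313725714725246553576360243279193373111039949206575149201857148633816496458123515795264713821521679169247826783835571347399908207614773570026451819576096674046816698066162398001408726089586973982803848145861198291509639600701267155071448502684351846305910797832543680339670858900627102428889432079394227771964957935482631008935996947103599135280590720738463400070281656791075018135632384768282793607168)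

end Vale.Agent.Lib.P154.PChain.BA.S7
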